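import Vale.Agent.Lib.P154.PChain.BM.R4_0

set_option linter.all false

namespace Vale.Agent.Lib.P154.PChain.BM.S5

open Vale.Agent.Lib.P154.Chain

noncomputable def pc0 : PT := (PT.nd (nat_lit 3912714) (PT.nd (nat_lit 3709758) (PT.nd (nat_lit 3628482) (PT.nd (nat_lit 3587844) (PT.nd (nat_lit 3547284) (PT.nd (nat_lit 3506724) PT.nil (PT.lf (nat_lit 76) (nat_lit 3) (nat_lit 1) (nat_lit 1) (nat_lit 152) (nat_lit 86) (nat_lit 152))) (PT.nd (nat_lit 78) (PT.lf (nat_lit 152) (nat_lit 6) (nat_lit 2) (nat_lit 3) (nat_lit 151) (nat_lit 87) (nat_lit 152)) (PT.lf (nat_lit 152) (nat_lit 6) (nat_lit 2) (nat_lit 1) (nat_lit 152) (nat_lit 87) (nat_lit 151)))) (PT.nd (nat_lit 78) (PT.lf (nat_lit 228) (nat_lit 6) (nat_lit 3) (nat_lit 3) (nat_lit 150) (nat_lit 88) (nat_lit 152)) (PT.nd (nat_lit 78) (PT.lf (nat_lit 304) (nat_lit 3) (nat_lit 4) (nat_lit 1) (nat_lit 151) (nat_lit 88) (nat_lit 151)) (PT.lf (nat_lit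 228) (nat_lit 6) (nat_lit 3) (nat_lit 1) (nat_lit 152) (nat_lit 88) (nat_lit 150))))) (PT.nd (nat_lit 40638) (PT.nd (nat_lit 78) (PT.lf (nat_lit 380) (nat_lit 6) (nat_lit 5) (nat_lit 3) (nat_lit 150) (nat_lit 89) (nat_lit 151)) (PT.nd (nat_lit 40482) (PT.lf (nat_lit 380) (nat_lit 6) (nat_lit 5) (nat_lit 1) (nat_lit 151) (nat_lit 89) (nat_lit 150)) (PT.lf (nat_lit 456) (nat_lit 6) (nat_lit 6) (nat_lit 3) (nat_lit 149) (nat_lit 90) (nat_lit 151)))) (PT.nd (nat_lit 78) (PT.lf (nat_lit 532) (nat_lit 3) (nat_lit 7) (nat_lit 1) (nat_lit 150) (nat_lit 90) (nat_lit 150)) (PT.nd (nat_lit 40482) (PT.lf (nat_lit 456) (nat_lit 6) (nat_lit 6) (nat_lit 1) (nat_lit 151) (nat_lit 90) (nat_lit 149)) (PT.lf (nat_lit 608) (nat_lit 6) (nat_lit 8) (nat_lit 3) (nat_lit 149) (nat_lit 91) (nat_lit 150)))))) (PT.nd (nat_lit 121680) (PT.nd (nat_lit 40638) (PT.nd (nat_lit 40482) (PT.lf (nat_lit 608) (nat_lit 6) (nat_lit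 8) (nat_lit 1) (nat_lit 150) (nat_lit 91) (nat_lit 149)) (PT.nd (nat_lit 78) (PT.lf (nat_lit 684) (nat_lit 6) (nat_lit 9) (nat_lit 3) (nat_lit 148) (nat_lit 92) (nat_lit 150)) (PT.lf (nat_lit 760) (nat_lit 3) (nat_lit 10) (nat_lit 1) (nat_lit 149) (nat_lit 92) (nat_lit 149)))) (PT.nd (nat_lit 40482) (PT.lf (nat_lit 684) (nat_lit 6) (nat_lit 9) (nat_lit 1) (nat_lit 150) (nat_lit 92) (nat_lit 148)) (PT.nd (nat_lit 78) (PT.lf (nat_lit 836) (nat_lit 6) (nat_lit 11) (nat_lit 3) (nat_lit 148) (nat_lit 93) (nat_lit 149)) (PT.lf (nat_lit 836) (nat_lit 6) (nat_lit 11) (nat_lit 1) (nat_lit 149) (nat_lit 93) (nat_lit 148))))) (PT.nd (nat_lit 40638) (PT.nd (nat_lit 78) (PT.lf (nat_lit 912) (nat_lit 6) (nat_lit 12) (nat_lit 3) (nat_lit 147) (nat_lit 94) (nat_lit 149)) (PT.nd (nat_lit 78) (PT.lf (nat_lit 988) (nat_lit 3) (nat_lit 13) (nat_lit 1) (nat_lit 148) (nat_lit 94) (nat_lit 148)) (PT.lf (nat_lit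 912) (nat_lit 6) (nat_lit 12) (nat_lit 1) (nat_lit 149) (nat_lit 94) (nat_lit 147)))) (PT.nd (nat_lit 78) (PT.lf (nat_lit 1064) (nat_lit 6) (nat_lit 14) (nat_lit 3) (nat_lit 147) (nat_lit 95) (nat_lit 148)) (PT.nd (nat_lit 40482) (PT.lf (nat_lit 1064) (nat_lit 6) (nat_lit 14) (nat_lit 1) (nat_lit 148) (nat_lit 95) (nat_lit 147)) (PT.lf (nat_lit 1140) (nat_lit 6) (nat_lit 15) (nat_lit 3) (nat_lit 146) (nat_lit 96) (nat_lit 148))))))) (PT.nd (nat_lit 162396) (PT.nd (nat_lit 81276) (PT.nd (nat_lit 40638) (PT.nd (nat_lit 78) (PT.lf (nat_lit 1216) (nat_lit 3) (nat_lit 16) (nat_lit 1) (nat_lit 147) (nat_lit 96) (nat_lit 147)) (PT.nd (nat_lit 40482) (PT.lf (nat_lit 1140) (nat_lit 6) (nat_lit 15) (nat_lit 1) (nat_lit 148) (nat_lit 96) (nat_lit 146)) (PT.lf (nat_lit 1292) (nat_lit 6) (nat_lit 17) (nat_lit 3) (nat_lit 146) (nat_lit 97) (nat_lit 147)))) (PT.nd (nat_lit 40482) (PT.lf (nat_lit 1292) (nat_lit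 6) (nat_lit 17) (nat_lit 1) (nat_lit 147) (nat_lit 97) (nat_lit 146)) (PT.nd (nat_lit 78) (PT.lf (nat_lit 1368) (nat_lit 6) (nat_lit 18) (nat_lit 3) (nat_lit 145) (nat_lit 98) (nat_lit 147)) (PT.lf (nat_lit 1444) (nat_lit 3) (nat_lit 19) (nat_lit 1) (nat_lit 146) (nat_lit 98) (nat_lit 146))))) (PT.nd (nat_lit 40560) (PT.nd (nat_lit 40404) (PT.lf (nat_lit 1368) (nat_lit 6) (nat_lit 18) (nat_lit 1) (nat_lit 147) (nat_lit 98) (nat_lit 145)) (PT.nd (nat_lit 78) (PT.lf (nat_lit 1520) (nat_lit 6) (nat_lit 20) (nat_lit 3) (nat_lit 144) (nat_lit 99) (nat_lit 147)) (PT.lf (nat_lit 1596) (nat_lit 6) (nat_lit 21) (nat_lit 3) (nat_lit 145) (nat_lit 99) (nat_lit 146)))) (PT.nd (nat_lit 78) (PT.lf (nat_lit 1596) (nat_lit 6) (nat_lit 21) (nat_lit 1) (nat_lit 146) (nat_lit 99) (nat_lit 145)) (PT.nd (nat_lit 40404) (PT.lf (nat_lit 1520) (nat_lit 6) (nat_lit 20) (nat_lit 1) (nat_lit 147) (nat_lit 99) (nat_lit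 144)) (PT.lf (nat_lit 1672) (nat_lit 6) (nat_lit 22) (nat_lit 3) (nat_lit 144) (nat_lit 100) (nat_lit 146)))))) (PT.nd (nat_lit 81120) (PT.nd (nat_lit 40560) (PT.nd (nat_lit 78) (PT.lf (nat_lit 1748) (nat_lit 3) (nat_lit 23) (nat_lit 1) (nat_lit 145) (nat_lit 100) (nat_lit 145)) (PT.nd (nat_lit 40404) (PT.lf (nat_lit 1672) (nat_lit 6) (nat_lit 22) (nat_lit 1) (nat_lit 146) (nat_lit 100) (nat_lit 144)) (PT.lf (nat_lit 1824) (nat_lit 6) (nat_lit 24) (nat_lit 3) (nat_lit 143) (nat_lit 101) (nat_lit 146)))) (PT.nd (nat_lit 78) (PT.lf (nat_lit 1900) (nat_lit 6) (nat_lit 25) (nat_lit 3) (nat_lit 144) (nat_lit 101) (nat_lit 145)) (PT.nd (nat_lit 78) (PT.lf (nat_lit 1900) (nat_lit 6) (nat_lit 25) (nat_lit 1) (nat_lit 145) (nat_lit 101) (nat_lit 144)) (PT.lf (nat_lit 1824) (nat_lit 6) (nat_lit 24) (nat_lit 1) (nat_lit 146) (nat_lit 101) (nat_lit 143))))) (PT.nd (nat_lit 40560) (PT.nd (nat_lit 78)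 (PT.lf (nat_lit 1976) (nat_lit 6) (nat_lit 26) (nat_lit 3) (nat_lit 143) (nat_lit 102) (nat_lit 145)) (PT.nd (nat_lit 78) (PT.lf (nat_lit 2052) (nat_lit 3) (nat_lit 27) (nat_lit 1) (nat_lit 144) (nat_lit 102) (nat_lit 144)) (PT.lf (nat_lit 1976) (nat_lit 6) (nat_lit 26) (nat_lit 1) (nat_lit 145) (nat_lit 102) (nat_lit 143)))) (PT.nd (nat_lit 78) (PT.lf (nat_lit 2128) (nat_lit 6) (nat_lit 28) (nat_lit 3) (nat_lit 142) (nat_lit 103) (nat_lit 145)) (PT.nd (nat_lit 78) (PT.lf (nat_lit 2204) (nat_lit 6) (nat_lit 29) (nat_lit 3) (nat_lit 143) (nat_lit 103) (nat_lit 144)) (PT.lf (nat_lit 2204) (nat_lit 6) (nat_lit 29) (nat_lit 1) (nat_lit 144) (nat_lit 103) (nat_lit 143))))))))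
noncomputable def pc1 : PT := (PT.nd (nat_lit 243282) (PT.nd (nat_lit 121680) (PT.nd (nat_lit 80964) (PT.nd (nat_lit 40482) (PT.nd (nat_lit 40326) (PT.lf (nat_lit 2128) (nat_lit 6) (nat_lit 28) (nat_lit 1) (nat_lit 145) (nat_lit 103) (nat_lit 142)) (PT.nd (nat_lit 78) (PT.lf (nat_lit 2280) (nat_lit 6) (nat_lit 30) (nat_lit 3) (nat_lit 141) (nat_lit 104) (nat_lit 145)) (PT.lf (nat_lit 2356) (nat_lit 6) (nat_lit 31) (nat_lit 3) (nat_lit 142) (nat_lit 104) (nat_lit 144)))) (PT.nd (nat_lit 78) (PT.lf (nat_lit 2432) (nat_lit 3) (nat_lit 32) (nat_lit 1) (nat_lit 143) (nat_lit 104) (nat_lit 143)) (PT.nd (nat_lit 78) (PT.lf (nat_lit 2356) (nat_lit 6) (nat_lit 31) (nat_lit 1) (nat_lit 144) (nat_lit 104) (nat_lit 142)) (PT.lf (nat_lit 2280) (nat_lit 6) (nat_lit 30) (nat_lit 1) (nat_lit 145) (nat_lit 104) (nat_lit 141))))) (PT.nd (nat_lit 234) (PT.nd (nat_lit 78) (PT.lf (nat_lit 2508) (nat_lit 6) (nat_lit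 33) (nat_lit 3) (nat_lit 141) (nat_lit 105) (nat_lit 144)) (PT.nd (nat_lit 78) (PT.lf (nat_lit 2584) (nat_lit 6) (nat_lit 34) (nat_lit 3) (nat_lit 142) (nat_lit 105) (nat_lit 143)) (PT.lf (nat_lit 2584) (nat_lit 6) (nat_lit 34) (nat_lit 1) (nat_lit 143) (nat_lit 105) (nat_lit 142)))) (PT.nd (nat_lit 40326) (PT.lf (nat_lit 2508) (nat_lit 6) (nat_lit 33) (nat_lit 1) (nat_lit 144) (nat_lit 105) (nat_lit 141)) (PT.nd (nat_lit 78) (PT.lf (nat_lit 2660) (nat_lit 6) (nat_lit 35) (nat_lit 3) (nat_lit 140) (nat_lit 106) (nat_lit 144)) (PT.lf (nat_lit 2736) (nat_lit 6) (nat_lit 36) (nat_lit 3) (nat_lit 141) (nat_lit 106) (nat_lit 143)))))) (PT.nd (nat_lit 40716) (PT.nd (nat_lit 40482) (PT.nd (nat_lit 78) (PT.lf (nat_lit 2812) (nat_lit 3) (nat_lit 37) (nat_lit 1) (nat_lit 142) (nat_lit 106) (nat_lit 142)) (PT.nd (nat_lit 78) (PT.lf (nat_lit 2736) (nat_lit 6) (nat_lit 36) (nat_lit 1) (nat_lit 143) (nat_lit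 106) (nat_lit 141)) (PT.lf (nat_lit 2660) (nat_lit 6) (nat_lit 35) (nat_lit 1) (nat_lit 144) (nat_lit 106) (nat_lit 140)))) (PT.nd (nat_lit 78) (PT.lf (nat_lit 2888) (nat_lit 6) (nat_lit 38) (nat_lit 3) (nat_lit 140) (nat_lit 107) (nat_lit 143)) (PT.nd (nat_lit 78) (PT.lf (nat_lit 2964) (nat_lit 6) (nat_lit 39) (nat_lit 3) (nat_lit 141) (nat_lit 107) (nat_lit 142)) (PT.lf (nat_lit 2964) (nat_lit 6) (nat_lit 39) (nat_lit 1) (nat_lit 142) (nat_lit 107) (nat_lit 141))))) (PT.nd (nat_lit 40482) (PT.nd (nat_lit 40326) (PT.lf (nat_lit 2888) (nat_lit 6) (nat_lit 38) (nat_lit 1) (nat_lit 143) (nat_lit 107) (nat_lit 140)) (PT.nd (nat_lit 78) (PT.lf (nat_lit 3040) (nat_lit 6) (nat_lit 40) (nat_lit 3) (nat_lit 139) (nat_lit 108) (nat_lit 143)) (PT.lf (nat_lit 3116) (nat_lit 6) (nat_lit 41) (nat_lit 3) (nat_lit 140) (nat_lit 108) (nat_lit 142)))) (PT.nd (nat_lit 78) (PT.lf (nat_lit 3192) (nat_lit 3)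 (nat_lit 42) (nat_lit 1) (nat_lit 141) (nat_lit 108) (nat_lit 141)) (PT.nd (nat_lit 78) (PT.lf (nat_lit 3116) (nat_lit 6) (nat_lit 41) (nat_lit 1) (nat_lit 142) (nat_lit 108) (nat_lit 140)) (PT.lf (nat_lit 3040) (nat_lit 6) (nat_lit 40) (nat_lit 1) (nat_lit 143) (nat_lit 108) (nat_lit 139))))))) (PT.nd (nat_lit 81276) (PT.nd (nat_lit 40638) (PT.nd (nat_lit 234) (PT.nd (nat_lit 78) (PT.lf (nat_lit 3268) (nat_lit 6) (nat_lit 43) (nat_lit 3) (nat_lit 138) (nat_lit 109) (nat_lit 143)) (PT.nd (nat_lit 78) (PT.lf (nat_lit 3344) (nat_lit 6) (nat_lit 44) (nat_lit 3) (nat_lit 139) (nat_lit 109) (nat_lit 142)) (PT.lf (nat_lit 3420) (nat_lit 6) (nat_lit 45) (nat_lit 3) (nat_lit 140) (nat_lit 109) (nat_lit 141)))) (PT.nd (nat_lit 78) (PT.lf (nat_lit 3420) (nat_lit 6) (nat_lit 45) (nat_lit 1) (nat_lit 141) (nat_lit 109) (nat_lit 140)) (PT.nd (nat_lit 78) (PT.lf (nat_lit 3344) (nat_lit 6) (nat_lit 44)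 (nat_lit 1) (nat_lit 142) (nat_lit 109) (nat_lit 139)) (PT.lf (nat_lit 3268) (nat_lit 6) (nat_lit 43) (nat_lit 1) (nat_lit 143) (nat_lit 109) (nat_lit 138))))) (PT.nd (nat_lit 234) (PT.nd (nat_lit 78) (PT.lf (nat_lit 3496) (nat_lit 6) (nat_lit 46) (nat_lit 3) (nat_lit 138) (nat_lit 110) (nat_lit 142)) (PT.nd (nat_lit 78) (PT.lf (nat_lit 3572) (nat_lit 6) (nat_lit 47) (nat_lit 3) (nat_lit 139) (nat_lit 110) (nat_lit 141)) (PT.lf (nat_lit 3648) (nat_lit 3) (nat_lit 48) (nat_lit 1) (nat_lit 140) (nat_lit 110) (nat_lit 140)))) (PT.nd (nat_lit 78) (PT.lf (nat_lit 3572) (nat_lit 6) (nat_lit 47) (nat_lit 1) (nat_lit 141) (nat_lit 110) (nat_lit 139)) (PT.nd (nat_lit 40248) (PT.lf (nat_lit 3496) (nat_lit 6) (nat_lit 46) (nat_lit 1) (nat_lit 142) (nat_lit 110) (nat_lit 138)) (PT.lf (nat_lit 3724) (nat_lit 6) (nat_lit 49) (nat_lit 3) (nat_lit 137) (nat_lit 111) (nat_lit 142)))))) (PT.nd (nat_lit 40560)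 (PT.nd (nat_lit 234) (PT.nd (nat_lit 78) (PT.lf (nat_lit 3800) (nat_lit 6) (nat_lit 50) (nat_lit 3) (nat_lit 138) (nat_lit 111) (nat_lit 141)) (PT.nd (nat_lit 78) (PT.lf (nat_lit 3876) (nat_lit 6) (nat_lit 51) (nat_lit 3) (nat_lit 139) (nat_lit 111) (nat_lit 140)) (PT.lf (nat_lit 3876) (nat_lit 6) (nat_lit 51) (nat_lit 1) (nat_lit 140) (nat_lit 111) (nat_lit 139)))) (PT.nd (nat_lit 78) (PT.lf (nat_lit 3800) (nat_lit 6) (nat_lit 50) (nat_lit 1) (nat_lit 141) (nat_lit 111) (nat_lit 138)) (PT.nd (nat_lit 40170) (PT.lf (nat_lit 3724) (nat_lit 6) (nat_lit 49) (nat_lit 1) (nat_lit 142) (nat_lit 111) (nat_lit 137)) (PT.lf (nat_lit 3952) (nat_lit 6) (nat_lit 52) (nat_lit 3) (nat_lit 136) (nat_lit 112) (nat_lit 142))))) (PT.nd (nat_lit 234) (PT.nd (nat_lit 78) (PT.lf (nat_lit 4028) (nat_lit 6) (nat_lit 53) (nat_lit 3) (nat_lit 137) (nat_lit 112) (nat_lit 141)) (PT.nd (nat_lit 78) (PT.lf (nat_lit 4104)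 (nat_lit 6) (nat_lit 54) (nat_lit 3) (nat_lit 138) (nat_lit 112) (nat_lit 140)) (PT.lf (nat_lit 4180) (nat_lit 3) (nat_lit 55) (nat_lit 1) (nat_lit 139) (nat_lit 112) (nat_lit 139)))) (PT.nd (nat_lit 78) (PT.lf (nat_lit 4104) (nat_lit 6) (nat_lit 54) (nat_lit 1) (nat_lit 140) (nat_lit 112) (nat_lit 138)) (PT.nd (nat_lit 78) (PT.lf (nat_lit 4028) (nat_lit 6) (nat_lit 53) (nat_lit 1) (nat_lit 141) (nat_lit 112) (nat_lit 137)) (PT.lf (nat_lit 3952) (nat_lit 6) (nat_lit 52) (nat_lit 1) (nat_lit 142) (nat_lit 112) (nat_lit 136))))))))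
noncomputable def pc2 : PT := (PT.nd (nat_lit 121914) (PT.nd (nat_lit 41028) (PT.nd (nat_lit 40560) (PT.nd (nat_lit 234) (PT.nd (nat_lit 78) (PT.lf (nat_lit 4256) (nat_lit 6) (nat_lit 56) (nat_lit 3) (nat_lit 136) (nat_lit 113) (nat_lit 141)) (PT.nd (nat_lit 78) (PT.lf (nat_lit 4332) (nat_lit 6) (nat_lit 57) (nat_lit 3) (nat_lit 137) (nat_lit 113) (nat_lit 140)) (PT.lf (nat_lit 4408) (nat_lit 6) (nat_lit 58) (nat_lit 3) (nat_lit 138) (nat_lit 113) (nat_lit 139)))) (PT.nd (nat_lit 78) (PT.lf (nat_lit 4408) (nat_lit 6) (nat_lit 58) (nat_lit 1) (nat_lit 139) (nat_lit 113) (nat_lit 138)) (PT.nd (nat_lit 78) (PT.lf (nat_lit 4332) (nat_lit 6) (nat_lit 57) (nat_lit 1) (nat_lit 140) (nat_lit 113) (nat_lit 137)) (PT.lf (nat_lit 4256) (nat_lit 6) (nat_lit 56) (nat_lit 1) (nat_lit 141) (nat_lit 113) (nat_lit 136))))) (PT.nd (nat_lit 234) (PT.nd (nat_lit 78) (PT.lf (nat_lit 4484) (nat_lit 6) (nat_lit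 59) (nat_lit 3) (nat_lit 135) (nat_lit 114) (nat_lit 141)) (PT.nd (nat_lit 78) (PT.lf (nat_lit 4560) (nat_lit 6) (nat_lit 60) (nat_lit 3) (nat_lit 136) (nat_lit 114) (nat_lit 140)) (PT.lf (nat_lit 4636) (nat_lit 6) (nat_lit 61) (nat_lit 3) (nat_lit 137) (nat_lit 114) (nat_lit 139)))) (PT.nd (nat_lit 78) (PT.lf (nat_lit 4712) (nat_lit 3) (nat_lit 62) (nat_lit 1) (nat_lit 138) (nat_lit 114) (nat_lit 138)) (PT.nd (nat_lit 78) (PT.lf (nat_lit 4636) (nat_lit 6) (nat_lit 61) (nat_lit 1) (nat_lit 139) (nat_lit 114) (nat_lit 137)) (PT.lf (nat_lit 4560) (nat_lit 6) (nat_lit 60) (nat_lit 1) (nat_lit 140) (nat_lit 114) (nat_lit 136)))))) (PT.nd (nat_lit 40482) (PT.nd (nat_lit 40248) (PT.nd (nat_lit 40092) (PT.lf (nat_lit 4484) (nat_lit 6) (nat_lit 59) (nat_lit 1) (nat_lit 141) (nat_lit 114) (nat_lit 135)) (PT.nd (nat_lit 78) (PT.lf (nat_lit 4788) (nat_lit 6) (nat_lit 63) (nat_lit 3) (nat_lit 134) (nat_lit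 115) (nat_lit 141)) (PT.lf (nat_lit 4864) (nat_lit 6) (nat_lit 64) (nat_lit 3) (nat_lit 135) (nat_lit 115) (nat_lit 140)))) (PT.nd (nat_lit 78) (PT.lf (nat_lit 4940) (nat_lit 6) (nat_lit 65) (nat_lit 3) (nat_lit 136) (nat_lit 115) (nat_lit 139)) (PT.nd (nat_lit 78) (PT.lf (nat_lit 5016) (nat_lit 6) (nat_lit 66) (nat_lit 3) (nat_lit 137) (nat_lit 115) (nat_lit 138)) (PT.lf (nat_lit 5016) (nat_lit 6) (nat_lit 66) (nat_lit 1) (nat_lit 138) (nat_lit 115) (nat_lit 137))))) (PT.nd (nat_lit 40170) (PT.nd (nat_lit 78) (PT.lf (nat_lit 4940) (nat_lit 6) (nat_lit 65) (nat_lit 1) (nat_lit 139) (nat_lit 115) (nat_lit 136)) (PT.nd (nat_lit 78) (PT.lf (nat_lit 4864) (nat_lit 6) (nat_lit 64) (nat_lit 1) (nat_lit 140) (nat_lit 115) (nat_lit 135)) (PT.lf (nat_lit 4788) (nat_lit 6) (nat_lit 63) (nat_lit 1) (nat_lit 141) (nat_lit 115) (nat_lit 134)))) (PT.nd (nat_lit 78) (PT.lf (nat_lit 5092) (nat_lit 6) (nat_lit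 67) (nat_lit 3) (nat_lit 133) (nat_lit 116) (nat_lit 141)) (PT.nd (nat_lit 78) (PT.lf (nat_lit 5168) (nat_lit 6) (nat_lit 68) (nat_lit 3) (nat_lit 134) (nat_lit 116) (nat_lit 140)) (PT.lf (nat_lit 5244) (nat_lit 6) (nat_lit 69) (nat_lit 3) (nat_lit 135) (nat_lit 116) (nat_lit 139))))))) (PT.nd (nat_lit 40872) (PT.nd (nat_lit 40404) (PT.nd (nat_lit 234) (PT.nd (nat_lit 78) (PT.lf (nat_lit 5320) (nat_lit 6) (nat_lit 70) (nat_lit 3) (nat_lit 136) (nat_lit 116) (nat_lit 138)) (PT.nd (nat_lit 78) (PT.lf (nat_lit 5396) (nat_lit 3) (nat_lit 71) (nat_lit 1) (nat_lit 137) (nat_lit 116) (nat_lit 137)) (PT.lf (nat_lit 5320) (nat_lit 6) (nat_lit 70) (nat_lit 1) (nat_lit 138) (nat_lit 116) (nat_lit 136)))) (PT.nd (nat_lit 78) (PT.lf (nat_lit 5244) (nat_lit 6) (nat_lit 69) (nat_lit 1) (nat_lit 139) (nat_lit 116) (nat_lit 135)) (PT.nd (nat_lit 78) (PT.lf (nat_lit 5168) (nat_lit 6) (nat_lit 68) (nat_lit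 1) (nat_lit 140) (nat_lit 116) (nat_lit 134)) (PT.lf (nat_lit 5092) (nat_lit 6) (nat_lit 67) (nat_lit 1) (nat_lit 141) (nat_lit 116) (nat_lit 133))))) (PT.nd (nat_lit 234) (PT.nd (nat_lit 78) (PT.lf (nat_lit 5472) (nat_lit 6) (nat_lit 72) (nat_lit 3) (nat_lit 133) (nat_lit 117) (nat_lit 140)) (PT.nd (nat_lit 78) (PT.lf (nat_lit 5548) (nat_lit 6) (nat_lit 73) (nat_lit 3) (nat_lit 134) (nat_lit 117) (nat_lit 139)) (PT.lf (nat_lit 5624) (nat_lit 6) (nat_lit 74) (nat_lit 3) (nat_lit 135) (nat_lit 117) (nat_lit 138)))) (PT.nd (nat_lit 78) (PT.lf (nat_lit 5700) (nat_lit 6) (nat_lit 75) (nat_lit 3) (nat_lit 136) (nat_lit 117) (nat_lit 137)) (PT.nd (nat_lit 78) (PT.lf (nat_lit 5700) (nat_lit 6) (nat_lit 75) (nat_lit 1) (nat_lit 137) (nat_lit 117) (nat_lit 136)) (PT.lf (nat_lit 5624) (nat_lit 6) (nat_lit 74) (nat_lit 1) (nat_lit 138) (nat_lit 117) (nat_lit 135)))))) (PT.nd (nat_lit 40404) (PT.nd (nat_lit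 40170) (PT.nd (nat_lit 78) (PT.lf (nat_lit 5548) (nat_lit 6) (nat_lit 73) (nat_lit 1) (nat_lit 139) (nat_lit 117) (nat_lit 134)) (PT.nd (nat_lit 40014) (PT.lf (nat_lit 5472) (nat_lit 6) (nat_lit 72) (nat_lit 1) (nat_lit 140) (nat_lit 117) (nat_lit 133)) (PT.lf (nat_lit 5776) (nat_lit 6) (nat_lit 76) (nat_lit 3) (nat_lit 132) (nat_lit 118) (nat_lit 140)))) (PT.nd (nat_lit 78) (PT.lf (nat_lit 5852) (nat_lit 6) (nat_lit 77) (nat_lit 3) (nat_lit 133) (nat_lit 118) (nat_lit 139)) (PT.nd (nat_lit 78) (PT.lf (nat_lit 5928) (nat_lit 6) (nat_lit 78) (nat_lit 3) (nat_lit 134) (nat_lit 118) (nat_lit 138)) (PT.lf (nat_lit 6004) (nat_lit 6) (nat_lit 79) (nat_lit 3) (nat_lit 135) (nat_lit 118) (nat_lit 137))))) (PT.nd (nat_lit 234) (PT.nd (nat_lit 78) (PT.lf (nat_lit 6080) (nat_lit 3) (nat_lit 80) (nat_lit 1) (nat_lit 136) (nat_lit 118) (nat_lit 136)) (PT.nd (nat_lit 78) (PT.lf (nat_lit 6004) (nat_lit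 6) (nat_lit 79) (nat_lit 1) (nat_lit 137) (nat_lit 118) (nat_lit 135)) (PT.lf (nat_lit 5928) (nat_lit 6) (nat_lit 78) (nat_lit 1) (nat_lit 138) (nat_lit 118) (nat_lit 134)))) (PT.nd (nat_lit 78) (PT.lf (nat_lit 5852) (nat_lit 6) (nat_lit 77) (nat_lit 1) (nat_lit 139) (nat_lit 118) (nat_lit 133)) (PT.nd (nat_lit 39936) (PT.lf (nat_lit 5776) (nat_lit 6) (nat_lit 76) (nat_lit 1) (nat_lit 140) (nat_lit 118) (nat_lit 132)) (PT.lf (nat_lit 6156) (nat_lit 6) (nat_lit 81) (nat_lit 3) (nat_lit 131) (nat_lit 119) (nat_lit 140))))))))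
noncomputable def pc3 : PT := (PT.nd (nat_lit 81354) (PT.nd (nat_lit 40716) (PT.nd (nat_lit 468) (PT.nd (nat_lit 234) (PT.nd (nat_lit 78) (PT.lf (nat_lit 6232) (nat_lit 6) (nat_lit 82) (nat_lit 3) (nat_lit 132) (nat_lit 119) (nat_lit 139)) (PT.nd (nat_lit 78) (PT.lf (nat_lit 6308) (nat_lit 6) (nat_lit 83) (nat_lit 3) (nat_lit 133) (nat_lit 119) (nat_lit 138)) (PT.lf (nat_lit 6384) (nat_lit 6) (nat_lit 84) (nat_lit 3) (nat_lit 134) (nat_lit 119) (nat_lit 137)))) (PT.nd (nat_lit 78) (PT.lf (nat_lit 6460) (nat_lit 6) (nat_lit 85) (nat_lit 3) (nat_lit 135) (nat_lit 119) (nat_lit 136)) (PT.nd (nat_lit 78) (PT.lf (nat_lit 6460) (nat_lit 6) (nat_lit 85) (nat_lit 1) (nat_lit 136) (nat_lit 119) (nat_lit 135)) (PT.lf (nat_lit 6384) (nat_lit 6) (nat_lit 84) (nat_lit 1) (nat_lit 137) (nat_lit 119) (nat_lit 134))))) (PT.nd (nat_lit 40014) (PT.nd (nat_lit 78) (PT.lf (nat_lit 6308) (nat_lit 6) (nat_lit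 83) (nat_lit 1) (nat_lit 138) (nat_lit 119) (nat_lit 133)) (PT.nd (nat_lit 78) (PT.lf (nat_lit 6232) (nat_lit 6) (nat_lit 82) (nat_lit 1) (nat_lit 139) (nat_lit 119) (nat_lit 132)) (PT.lf (nat_lit 6156) (nat_lit 6) (nat_lit 81) (nat_lit 1) (nat_lit 140) (nat_lit 119) (nat_lit 131)))) (PT.nd (nat_lit 78) (PT.lf (nat_lit 6688) (nat_lit 6) (nat_lit 88) (nat_lit 3) (nat_lit 130) (nat_lit 120) (nat_lit 140)) (PT.nd (nat_lit 78) (PT.lf (nat_lit 6764) (nat_lit 6) (nat_lit 89) (nat_lit 3) (nat_lit 131) (nat_lit 120) (nat_lit 139)) (PT.lf (nat_lit 6840) (nat_lit 6) (nat_lit 90) (nat_lit 3) (nat_lit 132) (nat_lit 120) (nat_lit 138)))))) (PT.nd (nat_lit 468) (PT.nd (nat_lit 234) (PT.nd (nat_lit 78) (PT.lf (nat_lit 6916) (nat_lit 6) (nat_lit 91) (nat_lit 3) (nat_lit 133) (nat_lit 120) (nat_lit 137)) (PT.nd (nat_lit 78) (PT.lf (nat_lit 6992) (nat_lit 6) (nat_lit 92) (nat_lit 3) (nat_lit 134) (nat_lit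 120) (nat_lit 136)) (PT.lf (nat_lit 7068) (nat_lit 3) (nat_lit 93) (nat_lit 1) (nat_lit 135) (nat_lit 120) (nat_lit 135)))) (PT.nd (nat_lit 78) (PT.lf (nat_lit 6992) (nat_lit 6) (nat_lit 92) (nat_lit 1) (nat_lit 136) (nat_lit 120) (nat_lit 134)) (PT.nd (nat_lit 78) (PT.lf (nat_lit 6916) (nat_lit 6) (nat_lit 91) (nat_lit 1) (nat_lit 137) (nat_lit 120) (nat_lit 133)) (PT.lf (nat_lit 6840) (nat_lit 6) (nat_lit 90) (nat_lit 1) (nat_lit 138) (nat_lit 120) (nat_lit 132))))) (PT.nd (nat_lit 39936) (PT.nd (nat_lit 78) (PT.lf (nat_lit 6764) (nat_lit 6) (nat_lit 89) (nat_lit 1) (nat_lit 139) (nat_lit 120) (nat_lit 131)) (PT.nd (nat_lit 39780) (PT.lf (nat_lit 6688) (nat_lit 6) (nat_lit 88) (nat_lit 1) (nat_lit 140) (nat_lit 120) (nat_lit 130)) (PT.lf (nat_lit 6612) (nat_lit 6) (nat_lit 87) (nat_lit 3) (nat_lit 129) (nat_lit 121) (nat_lit 140)))) (PT.nd (nat_lit 78) (PT.lf (nat_lit 7448) (nat_lit 6)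 (nat_lit 98) (nat_lit 3) (nat_lit 130) (nat_lit 121) (nat_lit 139)) (PT.nd (nat_lit 78) (PT.lf (nat_lit 7524) (nat_lit 6) (nat_lit 99) (nat_lit 3) (nat_lit 131) (nat_lit 121) (nat_lit 138)) (PT.lf (nat_lit 7600) (nat_lit 6) (nat_lit 100) (nat_lit 3) (nat_lit 132) (nat_lit 121) (nat_lit 137))))))) (PT.nd (nat_lit 40560) (PT.nd (nat_lit 468) (PT.nd (nat_lit 234) (PT.nd (nat_lit 78) (PT.lf (nat_lit 7676) (nat_lit 6) (nat_lit 101) (nat_lit 3) (nat_lit 133) (nat_lit 121) (nat_lit 136)) (PT.nd (nat_lit 78) (PT.lf (nat_lit 7752) (nat_lit 6) (nat_lit 102) (nat_lit 3) (nat_lit 134) (nat_lit 121) (nat_lit 135)) (PT.lf (nat_lit 7752) (nat_lit 6) (nat_lit 102) (nat_lit 1) (nat_lit 135) (nat_lit 121) (nat_lit 134)))) (PT.nd (nat_lit 78) (PT.lf (nat_lit 7676) (nat_lit 6) (nat_lit 101) (nat_lit 1) (nat_lit 136) (nat_lit 121) (nat_lit 133)) (PT.nd (nat_lit 78) (PT.lf (nat_lit 7600) (nat_lit 6) (nat_lit 100)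 (nat_lit 1) (nat_lit 137) (nat_lit 121) (nat_lit 132)) (PT.lf (nat_lit 7524) (nat_lit 6) (nat_lit 99) (nat_lit 1) (nat_lit 138) (nat_lit 121) (nat_lit 131))))) (PT.nd (nat_lit 39858) (PT.nd (nat_lit 78) (PT.lf (nat_lit 7448) (nat_lit 6) (nat_lit 98) (nat_lit 1) (nat_lit 139) (nat_lit 121) (nat_lit 130)) (PT.nd (nat_lit 39702) (PT.lf (nat_lit 6612) (nat_lit 6) (nat_lit 87) (nat_lit 1) (nat_lit 140) (nat_lit 121) (nat_lit 129)) (PT.lf (nat_lit 6536) (nat_lit 6) (nat_lit 86) (nat_lit 3) (nat_lit 128) (nat_lit 122) (nat_lit 140)))) (PT.nd (nat_lit 78) (PT.lf (nat_lit 7372) (nat_lit 6) (nat_lit 97) (nat_lit 3) (nat_lit 129) (nat_lit 122) (nat_lit 139)) (PT.nd (nat_lit 78) (PT.lf (nat_lit 8132) (nat_lit 6) (nat_lit 107) (nat_lit 3) (nat_lit 130) (nat_lit 122) (nat_lit 138)) (PT.lf (nat_lit 8208) (nat_lit 6) (nat_lit 108) (nat_lit 3) (nat_lit 131) (nat_lit 122) (nat_lit 137)))))) (PT.nd (nat_lit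 468) (PT.nd (nat_lit 234) (PT.nd (nat_lit 78) (PT.lf (nat_lit 8284) (nat_lit 6) (nat_lit 109) (nat_lit 3) (nat_lit 132) (nat_lit 122) (nat_lit 136)) (PT.nd (nat_lit 78) (PT.lf (nat_lit 8360) (nat_lit 6) (nat_lit 110) (nat_lit 3) (nat_lit 133) (nat_lit 122) (nat_lit 135)) (PT.lf (nat_lit 8436) (nat_lit 3) (nat_lit 111) (nat_lit 1) (nat_lit 134) (nat_lit 122) (nat_lit 134)))) (PT.nd (nat_lit 78) (PT.lf (nat_lit 8360) (nat_lit 6) (nat_lit 110) (nat_lit 1) (nat_lit 135) (nat_lit 122) (nat_lit 133)) (PT.nd (nat_lit 78) (PT.lf (nat_lit 8284) (nat_lit 6) (nat_lit 109) (nat_lit 1) (nat_lit 136) (nat_lit 122) (nat_lit 132)) (PT.lf (nat_lit 8208) (nat_lit 6) (nat_lit 108) (nat_lit 1) (nat_lit 137) (nat_lit 122) (nat_lit 131))))) (PT.nd (nat_lit 39858) (PT.nd (nat_lit 78) (PT.lf (nat_lit 8132) (nat_lit 6) (nat_lit 107) (nat_lit 1) (nat_lit 138) (nat_lit 122) (nat_lit 130)) (PT.nd (nat_lit 78) (PT.lf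 (nat_lit 7372) (nat_lit 6) (nat_lit 97) (nat_lit 1) (nat_lit 139) (nat_lit 122) (nat_lit 129)) (PT.lf (nat_lit 6536) (nat_lit 6) (nat_lit 86) (nat_lit 1) (nat_lit 140) (nat_lit 122) (nat_lit 128)))) (PT.nd (nat_lit 156) (PT.nd (nat_lit 78) (PT.lf (nat_lit 7296) (nat_lit 6) (nat_lit 96) (nat_lit 3) (nat_lit 128) (nat_lit 123) (nat_lit 139)) (PT.lf (nat_lit 8056) (nat_lit 6) (nat_lit 106) (nat_lit 3) (nat_lit 129) (nat_lit 123) (nat_lit 138))) (PT.nd (nat_lit 78) (PT.lf (nat_lit 8740) (nat_lit 6) (nat_lit 115) (nat_lit 3) (nat_lit 130) (nat_lit 123) (nat_lit 137)) (PT.lf (nat_lit 8816) (nat_lit 6) (nat_lit 116) (nat_lit 3) (nat_lit 131) (nat_lit 123) (nat_lit 136))))))))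
noncomputable def pc4 : PT := (PT.nd (nat_lit 81042) (PT.nd (nat_lit 40560) (PT.nd (nat_lit 468) (PT.nd (nat_lit 234) (PT.nd (nat_lit 78) (PT.lf (nat_lit 8892) (nat_lit 6) (nat_lit 117) (nat_lit 3) (nat_lit 132) (nat_lit 123) (nat_lit 135)) (PT.nd (nat_lit 78) (PT.lf (nat_lit 8968) (nat_lit 6) (nat_lit 118) (nat_lit 3) (nat_lit 133) (nat_lit 123) (nat_lit 134)) (PT.lf (nat_lit 8968) (nat_lit 6) (nat_lit 118) (nat_lit 1) (nat_lit 134) (nat_lit 123) (nat_lit 133)))) (PT.nd (nat_lit 78) (PT.lf (nat_lit 8892) (nat_lit 6) (nat_lit 117) (nat_lit 1) (nat_lit 135) (nat_lit 123) (nat_lit 132)) (PT.nd (nat_lit 78) (PT.lf (nat_lit 8816) (nat_lit 6) (nat_lit 116) (nat_lit 1) (nat_lit 136) (nat_lit 123) (nat_lit 131)) (PT.lf (nat_lit 8740) (nat_lit 6) (nat_lit 115) (nat_lit 1) (nat_lit 137) (nat_lit 123) (nat_lit 130))))) (PT.nd (nat_lit 39858) (PT.nd (nat_lit 78) (PT.lf (nat_lit 8056) (nat_lit 6) (nat_lit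 106) (nat_lit 1) (nat_lit 138) (nat_lit 123) (nat_lit 129)) (PT.nd (nat_lit 39702) (PT.lf (nat_lit 7296) (nat_lit 6) (nat_lit 96) (nat_lit 1) (nat_lit 139) (nat_lit 123) (nat_lit 128)) (PT.lf (nat_lit 7220) (nat_lit 6) (nat_lit 95) (nat_lit 3) (nat_lit 127) (nat_lit 124) (nat_lit 139)))) (PT.nd (nat_lit 78) (PT.lf (nat_lit 7980) (nat_lit 6) (nat_lit 105) (nat_lit 3) (nat_lit 128) (nat_lit 124) (nat_lit 138)) (PT.nd (nat_lit 78) (PT.lf (nat_lit 8664) (nat_lit 6) (nat_lit 114) (nat_lit 3) (nat_lit 129) (nat_lit 124) (nat_lit 137)) (PT.lf (nat_lit 9272) (nat_lit 6) (nat_lit 122) (nat_lit 3) (nat_lit 130) (nat_lit 124) (nat_lit 136)))))) (PT.nd (nat_lit 468) (PT.nd (nat_lit 234) (PT.nd (nat_lit 78) (PT.lf (nat_lit 9348) (nat_lit 6) (nat_lit 123) (nat_lit 3) (nat_lit 131) (nat_lit 124) (nat_lit 135)) (PT.nd (nat_lit 78) (PT.lf (nat_lit 9424) (nat_lit 6) (nat_lit 124) (nat_lit 3) (nat_lit 132)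 (nat_lit 124) (nat_lit 134)) (PT.lf (nat_lit 9500) (nat_lit 3) (nat_lit 125) (nat_lit 1) (nat_lit 133) (nat_lit 124) (nat_lit 133)))) (PT.nd (nat_lit 78) (PT.lf (nat_lit 9424) (nat_lit 6) (nat_lit 124) (nat_lit 1) (nat_lit 134) (nat_lit 124) (nat_lit 132)) (PT.nd (nat_lit 78) (PT.lf (nat_lit 9348) (nat_lit 6) (nat_lit 123) (nat_lit 1) (nat_lit 135) (nat_lit 124) (nat_lit 131)) (PT.lf (nat_lit 9272) (nat_lit 6) (nat_lit 122) (nat_lit 1) (nat_lit 136) (nat_lit 124) (nat_lit 130))))) (PT.nd (nat_lit 39780) (PT.nd (nat_lit 78) (PT.lf (nat_lit 8664) (nat_lit 6) (nat_lit 114) (nat_lit 1) (nat_lit 137) (nat_lit 124) (nat_lit 129)) (PT.nd (nat_lit 78) (PT.lf (nat_lit 7980) (nat_lit 6) (nat_lit 105) (nat_lit 1) (nat_lit 138) (nat_lit 124) (nat_lit 128)) (PT.lf (nat_lit 7220) (nat_lit 6) (nat_lit 95) (nat_lit 1) (nat_lit 139) (nat_lit 124) (nat_lit 127)))) (PT.nd (nat_lit 78) (PT.lf (nat_lit 7144)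 (nat_lit 6) (nat_lit 94) (nat_lit 3) (nat_lit 126) (nat_lit 125) (nat_lit 139)) (PT.nd (nat_lit 78) (PT.lf (nat_lit 7904) (nat_lit 6) (nat_lit 104) (nat_lit 3) (nat_lit 127) (nat_lit 125) (nat_lit 138)) (PT.lf (nat_lit 8588) (nat_lit 6) (nat_lit 113) (nat_lit 3) (nat_lit 128) (nat_lit 125) (nat_lit 137))))))) (PT.nd (nat_lit 40404) (PT.nd (nat_lit 468) (PT.nd (nat_lit 234) (PT.nd (nat_lit 78) (PT.lf (nat_lit 9196) (nat_lit 6) (nat_lit 121) (nat_lit 3) (nat_lit 129) (nat_lit 125) (nat_lit 136)) (PT.nd (nat_lit 78) (PT.lf (nat_lit 9728) (nat_lit 6) (nat_lit 128) (nat_lit 3) (nat_lit 130) (nat_lit 125) (nat_lit 135)) (PT.lf (nat_lit 9804) (nat_lit 6) (nat_lit 129) (nat_lit 3) (nat_lit 131) (nat_lit 125) (nat_lit 134)))) (PT.nd (nat_lit 78) (PT.lf (nat_lit 9880) (nat_lit 6) (nat_lit 130) (nat_lit 3) (nat_lit 132) (nat_lit 125) (nat_lit 133)) (PT.nd (nat_lit 78) (PT.lf (nat_lit 9880) (nat_lit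 6) (nat_lit 130) (nat_lit 1) (nat_lit 133) (nat_lit 125) (nat_lit 132)) (PT.lf (nat_lit 9804) (nat_lit 6) (nat_lit 129) (nat_lit 1) (nat_lit 134) (nat_lit 125) (nat_lit 131))))) (PT.nd (nat_lit 234) (PT.nd (nat_lit 78) (PT.lf (nat_lit 9728) (nat_lit 6) (nat_lit 128) (nat_lit 1) (nat_lit 135) (nat_lit 125) (nat_lit 130)) (PT.nd (nat_lit 78) (PT.lf (nat_lit 9196) (nat_lit 6) (nat_lit 121) (nat_lit 1) (nat_lit 136) (nat_lit 125) (nat_lit 129)) (PT.lf (nat_lit 8588) (nat_lit 6) (nat_lit 113) (nat_lit 1) (nat_lit 137) (nat_lit 125) (nat_lit 128)))) (PT.nd (nat_lit 78) (PT.lf (nat_lit 7904) (nat_lit 6) (nat_lit 104) (nat_lit 1) (nat_lit 138) (nat_lit 125) (nat_lit 127)) (PT.nd (nat_lit 39546) (PT.lf (nat_lit 7144) (nat_lit 6) (nat_lit 94) (nat_lit 1) (nat_lit 139) (nat_lit 125) (nat_lit 126)) (PT.lf (nat_lit 7144) (nat_lit 6) (nat_lit 94) (nat_lit 5) (nat_lit 125) (nat_lit 126) (nat_lit 139))))))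 (PT.nd (nat_lit 468) (PT.nd (nat_lit 234) (PT.nd (nat_lit 78) (PT.lf (nat_lit 7828) (nat_lit 3) (nat_lit 103) (nat_lit 3) (nat_lit 126) (nat_lit 126) (nat_lit 138)) (PT.nd (nat_lit 78) (PT.lf (nat_lit 8512) (nat_lit 6) (nat_lit 112) (nat_lit 3) (nat_lit 127) (nat_lit 126) (nat_lit 137)) (PT.lf (nat_lit 9120) (nat_lit 6) (nat_lit 120) (nat_lit 3) (nat_lit 128) (nat_lit 126) (nat_lit 136)))) (PT.nd (nat_lit 78) (PT.lf (nat_lit 9652) (nat_lit 6) (nat_lit 127) (nat_lit 3) (nat_lit 129) (nat_lit 126) (nat_lit 135)) (PT.nd (nat_lit 78) (PT.lf (nat_lit 10108) (nat_lit 6) (nat_lit 133) (nat_lit 3) (nat_lit 130) (nat_lit 126) (nat_lit 134)) (PT.lf (nat_lit 10184) (nat_lit 6) (nat_lit 134) (nat_lit 3) (nat_lit 131) (nat_lit 126) (nat_lit 133))))) (PT.nd (nat_lit 234) (PT.nd (nat_lit 78) (PT.lf (nat_lit 10260) (nat_lit 3) (nat_lit 135) (nat_lit 1) (nat_lit 132) (nat_lit 126) (nat_lit 132)) (PT.nd (nat_lit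 78) (PT.lf (nat_lit 10184) (nat_lit 6) (nat_lit 134) (nat_lit 1) (nat_lit 133) (nat_lit 126) (nat_lit 131)) (PT.lf (nat_lit 10108) (nat_lit 6) (nat_lit 133) (nat_lit 1) (nat_lit 134) (nat_lit 126) (nat_lit 130)))) (PT.nd (nat_lit 78) (PT.lf (nat_lit 9652) (nat_lit 6) (nat_lit 127) (nat_lit 1) (nat_lit 135) (nat_lit 126) (nat_lit 129)) (PT.nd (nat_lit 78) (PT.lf (nat_lit 9120) (nat_lit 6) (nat_lit 120) (nat_lit 1) (nat_lit 136) (nat_lit 126) (nat_lit 128)) (PT.lf (nat_lit 8512) (nat_lit 6) (nat_lit 112) (nat_lit 1) (nat_lit 137) (nat_lit 126) (nat_lit 127))))))))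
noncomputable def pc5 : PT := (PT.nd (nat_lit 80496) (PT.nd (nat_lit 40326) (PT.nd (nat_lit 39858) (PT.nd (nat_lit 39624) (PT.nd (nat_lit 78) (PT.lf (nat_lit 7828) (nat_lit 3) (nat_lit 103) (nat_lit 0) (nat_lit 138) (nat_lit 126) (nat_lit 126)) (PT.nd (nat_lit 39468) (PT.lf (nat_lit 7144) (nat_lit 6) (nat_lit 94) (nat_lit 0) (nat_lit 139) (nat_lit 126) (nat_lit 125)) (PT.lf (nat_lit 7220) (nat_lit 6) (nat_lit 95) (nat_lit 5) (nat_lit 124) (nat_lit 127) (nat_lit 139)))) (PT.nd (nat_lit 78) (PT.lf (nat_lit 7904) (nat_lit 6) (nat_lit 104) (nat_lit 5) (nat_lit 125) (nat_lit 127) (nat_lit 138)) (PT.nd (nat_lit 78) (PT.lf (nat_lit 8512) (nat_lit 6) (nat_lit 112) (nat_lit 5) (nat_lit 126) (nat_lit 127) (nat_lit 137)) (PT.lf (nat_lit 9044) (nat_lit 3) (nat_lit 119) (nat_lit 3) (nat_lit 127) (nat_lit 127) (nat_lit 136))))) (PT.nd (nat_lit 234) (PT.nd (nat_lit 78) (PT.lf (nat_lit 9576) (nat_lit 6)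 (nat_lit 126) (nat_lit 3) (nat_lit 128) (nat_lit 127) (nat_lit 135)) (PT.nd (nat_lit 78) (PT.lf (nat_lit 10032) (nat_lit 6) (nat_lit 132) (nat_lit 3) (nat_lit 129) (nat_lit 127) (nat_lit 134)) (PT.lf (nat_lit 10412) (nat_lit 6) (nat_lit 137) (nat_lit 3) (nat_lit 130) (nat_lit 127) (nat_lit 133)))) (PT.nd (nat_lit 78) (PT.lf (nat_lit 10488) (nat_lit 6) (nat_lit 138) (nat_lit 3) (nat_lit 131) (nat_lit 127) (nat_lit 132)) (PT.nd (nat_lit 78) (PT.lf (nat_lit 10488) (nat_lit 6) (nat_lit 138) (nat_lit 1) (nat_lit 132) (nat_lit 127) (nat_lit 131)) (PT.lf (nat_lit 10412) (nat_lit 6) (nat_lit 137) (nat_lit 1) (nat_lit 133) (nat_lit 127) (nat_lit 130)))))) (PT.nd (nat_lit 39702) (PT.nd (nat_lit 234) (PT.nd (nat_lit 78) (PT.lf (nat_lit 10032) (nat_lit 6) (nat_lit 132) (nat_lit 1) (nat_lit 134) (nat_lit 127) (nat_lit 129)) (PT.nd (nat_lit 78) (PT.lf (nat_lit 9576) (nat_lit 6) (nat_lit 126) (nat_lit 1)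 (nat_lit 135) (nat_lit 127) (nat_lit 128)) (PT.lf (nat_lit 9044) (nat_lit 3) (nat_lit 119) (nat_lit 0) (nat_lit 136) (nat_lit 127) (nat_lit 127)))) (PT.nd (nat_lit 78) (PT.lf (nat_lit 8512) (nat_lit 6) (nat_lit 112) (nat_lit 0) (nat_lit 137) (nat_lit 127) (nat_lit 126)) (PT.nd (nat_lit 78) (PT.lf (nat_lit 7904) (nat_lit 6) (nat_lit 104) (nat_lit 0) (nat_lit 138) (nat_lit 127) (nat_lit 125)) (PT.lf (nat_lit 7220) (nat_lit 6) (nat_lit 95) (nat_lit 0) (nat_lit 139) (nat_lit 127) (nat_lit 124))))) (PT.nd (nat_lit 234) (PT.nd (nat_lit 78) (PT.lf (nat_lit 6536) (nat_lit 6) (nat_lit 86) (nat_lit 5) (nat_lit 122) (nat_lit 128) (nat_lit 140)) (PT.nd (nat_lit 78) (PT.lf (nat_lit 7296) (nat_lit 6) (nat_lit 96) (nat_lit 5) (nat_lit 123) (nat_lit 128) (nat_lit 139)) (PT.lf (nat_lit 7980) (nat_lit 6) (nat_lit 105) (nat_lit 5) (nat_lit 124) (nat_lit 128) (nat_lit 138)))) (PT.nd (nat_lit 78) (PT.lf (nat_lit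 8588) (nat_lit 6) (nat_lit 113) (nat_lit 5) (nat_lit 125) (nat_lit 128) (nat_lit 137)) (PT.nd (nat_lit 78) (PT.lf (nat_lit 9120) (nat_lit 6) (nat_lit 120) (nat_lit 5) (nat_lit 126) (nat_lit 128) (nat_lit 136)) (PT.lf (nat_lit 9576) (nat_lit 6) (nat_lit 126) (nat_lit 5) (nat_lit 127) (nat_lit 128) (nat_lit 135))))))) (PT.nd (nat_lit 936) (PT.nd (nat_lit 468) (PT.nd (nat_lit 234) (PT.nd (nat_lit 78) (PT.lf (nat_lit 9956) (nat_lit 3) (nat_lit 131) (nat_lit 3) (nat_lit 128) (nat_lit 128) (nat_lit 134)) (PT.nd (nat_lit 78) (PT.lf (nat_lit 10336) (nat_lit 6) (nat_lit 136) (nat_lit 3) (nat_lit 129) (nat_lit 128) (nat_lit 133)) (PT.lf (nat_lit 10640) (nat_lit 6) (nat_lit 140) (nat_lit 3) (nat_lit 130) (nat_lit 128) (nat_lit 132)))) (PT.nd (nat_lit 78) (PT.lf (nat_lit 10716) (nat_lit 3) (nat_lit 141) (nat_lit 1) (nat_lit 131) (nat_lit 128) (nat_lit 131)) (PT.nd (nat_lit 78) (PT.lf (nat_lit 10640)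 (nat_lit 6) (nat_lit 140) (nat_lit 1) (nat_lit 132) (nat_lit 128) (nat_lit 130)) (PT.lf (nat_lit 10336) (nat_lit 6) (nat_lit 136) (nat_lit 1) (nat_lit 133) (nat_lit 128) (nat_lit 129))))) (PT.nd (nat_lit 234) (PT.nd (nat_lit 78) (PT.lf (nat_lit 9956) (nat_lit 3) (nat_lit 131) (nat_lit 0) (nat_lit 134) (nat_lit 128) (nat_lit 128)) (PT.nd (nat_lit 78) (PT.lf (nat_lit 9576) (nat_lit 6) (nat_lit 126) (nat_lit 0) (nat_lit 135) (nat_lit 128) (nat_lit 127)) (PT.lf (nat_lit 9120) (nat_lit 6) (nat_lit 120) (nat_lit 0) (nat_lit 136) (nat_lit 128) (nat_lit 126)))) (PT.nd (nat_lit 78) (PT.lf (nat_lit 8588) (nat_lit 6) (nat_lit 113) (nat_lit 0) (nat_lit 137) (nat_lit 128) (nat_lit 125)) (PT.nd (nat_lit 78) (PT.lf (nat_lit 7980) (nat_lit 6) (nat_lit 105) (nat_lit 0) (nat_lit 138) (nat_lit 128) (nat_lit 124)) (PT.lf (nat_lit 7296) (nat_lit 6) (nat_lit 96) (nat_lit 0) (nat_lit 139) (nat_lit 128) (nat_lit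 123)))))) (PT.nd (nat_lit 39546) (PT.nd (nat_lit 39312) (PT.nd (nat_lit 39156) (PT.lf (nat_lit 6536) (nat_lit 6) (nat_lit 86) (nat_lit 0) (nat_lit 140) (nat_lit 128) (nat_lit 122)) (PT.nd (nat_lit 78) (PT.lf (nat_lit 6612) (nat_lit 6) (nat_lit 87) (nat_lit 5) (nat_lit 121) (nat_lit 129) (nat_lit 140)) (PT.lf (nat_lit 7372) (nat_lit 6) (nat_lit 97) (nat_lit 5) (nat_lit 122) (nat_lit 129) (nat_lit 139)))) (PT.nd (nat_lit 78) (PT.lf (nat_lit 8056) (nat_lit 6) (nat_lit 106) (nat_lit 5) (nat_lit 123) (nat_lit 129) (nat_lit 138)) (PT.nd (nat_lit 78) (PT.lf (nat_lit 8664) (nat_lit 6) (nat_lit 114) (nat_lit 5) (nat_lit 124) (nat_lit 129) (nat_lit 137)) (PT.lf (nat_lit 9196) (nat_lit 6) (nat_lit 121) (nat_lit 5) (nat_lit 125) (nat_lit 129) (nat_lit 136))))) (PT.nd (nat_lit 234) (PT.nd (nat_lit 78) (PT.lf (nat_lit 9652) (nat_lit 6) (nat_lit 127) (nat_lit 5) (nat_lit 126) (nat_lit 129) (nat_lit 135))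 (PT.nd (nat_lit 78) (PT.lf (nat_lit 10032) (nat_lit 6) (nat_lit 132) (nat_lit 5) (nat_lit 127) (nat_lit 129) (nat_lit 134)) (PT.lf (nat_lit 10336) (nat_lit 6) (nat_lit 136) (nat_lit 5) (nat_lit 128) (nat_lit 129) (nat_lit 133)))) (PT.nd (nat_lit 156) (PT.nd (nat_lit 78) (PT.lf (nat_lit 10564) (nat_lit 3) (nat_lit 139) (nat_lit 3) (nat_lit 129) (nat_lit 129) (nat_lit 132)) (PT.lf (nat_lit 10792) (nat_lit 6) (nat_lit 142) (nat_lit 3) (nat_lit 130) (nat_lit 129) (nat_lit 131))) (PT.nd (nat_lit 78) (PT.lf (nat_lit 10792) (nat_lit 6) (nat_lit 142) (nat_lit 1) (nat_lit 131) (nat_lit 129) (nat_lit 130)) (PT.lf (nat_lit 10564) (nat_lit 3) (nat_lit 139) (nat_lit 0) (nat_lit 132) (nat_lit 129) (nat_lit 129))))))))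
noncomputable def pc6 : PT := (PT.nd (nat_lit 40872) (PT.nd (nat_lit 39936) (PT.nd (nat_lit 468) (PT.nd (nat_lit 234) (PT.nd (nat_lit 78) (PT.lf (nat_lit 10336) (nat_lit 6) (nat_lit 136) (nat_lit 0) (nat_lit 133) (nat_lit 129) (nat_lit 128)) (PT.nd (nat_lit 78) (PT.lf (nat_lit 10032) (nat_lit 6) (nat_lit 132) (nat_lit 0) (nat_lit 134) (nat_lit 129) (nat_lit 127)) (PT.lf (nat_lit 9652) (nat_lit 6) (nat_lit 127) (nat_lit 0) (nat_lit 135) (nat_lit 129) (nat_lit 126)))) (PT.nd (nat_lit 78) (PT.lf (nat_lit 9196) (nat_lit 6) (nat_lit 121) (nat_lit 0) (nat_lit 136) (nat_lit 129) (nat_lit 125)) (PT.nd (nat_lit 78) (PT.lf (nat_lit 8664) (nat_lit 6) (nat_lit 114) (nat_lit 0) (nat_lit 137) (nat_lit 129) (nat_lit 124)) (PT.lf (nat_lit 8056) (nat_lit 6) (nat_lit 106) (nat_lit 0) (nat_lit 138) (nat_lit 129) (nat_lit 123))))) (PT.nd (nat_lit 39234) (PT.nd (nat_lit 78) (PT.lf (nat_lit 7372) (nat_lit 6) (nat_lit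 97) (nat_lit 0) (nat_lit 139) (nat_lit 129) (nat_lit 122)) (PT.nd (nat_lit 39078) (PT.lf (nat_lit 6612) (nat_lit 6) (nat_lit 87) (nat_lit 0) (nat_lit 140) (nat_lit 129) (nat_lit 121)) (PT.lf (nat_lit 6688) (nat_lit 6) (nat_lit 88) (nat_lit 5) (nat_lit 120) (nat_lit 130) (nat_lit 140)))) (PT.nd (nat_lit 78) (PT.lf (nat_lit 7448) (nat_lit 6) (nat_lit 98) (nat_lit 5) (nat_lit 121) (nat_lit 130) (nat_lit 139)) (PT.nd (nat_lit 78) (PT.lf (nat_lit 8132) (nat_lit 6) (nat_lit 107) (nat_lit 5) (nat_lit 122) (nat_lit 130) (nat_lit 138)) (PT.lf (nat_lit 8740) (nat_lit 6) (nat_lit 115) (nat_lit 5) (nat_lit 123) (nat_lit 130) (nat_lit 137)))))) (PT.nd (nat_lit 468) (PT.nd (nat_lit 234) (PT.nd (nat_lit 78) (PT.lf (nat_lit 9272) (nat_lit 6) (nat_lit 122) (nat_lit 5) (nat_lit 124) (nat_lit 130) (nat_lit 136)) (PT.nd (nat_lit 78) (PT.lf (nat_lit 9728) (nat_lit 6) (nat_lit 128) (nat_lit 5) (nat_lit 125) (nat_lit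 130) (nat_lit 135)) (PT.lf (nat_lit 10108) (nat_lit 6) (nat_lit 133) (nat_lit 5) (nat_lit 126) (nat_lit 130) (nat_lit 134)))) (PT.nd (nat_lit 78) (PT.lf (nat_lit 10412) (nat_lit 6) (nat_lit 137) (nat_lit 5) (nat_lit 127) (nat_lit 130) (nat_lit 133)) (PT.nd (nat_lit 78) (PT.lf (nat_lit 10640) (nat_lit 6) (nat_lit 140) (nat_lit 5) (nat_lit 128) (nat_lit 130) (nat_lit 132)) (PT.lf (nat_lit 10792) (nat_lit 6) (nat_lit 142) (nat_lit 5) (nat_lit 129) (nat_lit 130) (nat_lit 131))))) (PT.nd (nat_lit 234) (PT.nd (nat_lit 78) (PT.lf (nat_lit 10868) (nat_lit 1) (nat_lit 143) (nat_lit 0) (nat_lit 130) (nat_lit 130) (nat_lit 130)) (PT.nd (nat_lit 78) (PT.lf (nat_lit 10792) (nat_lit 6) (nat_lit 142) (nat_lit 0) (nat_lit 131) (nat_lit 130) (nat_lit 129)) (PT.lf (nat_lit 10640) (nat_lit 6) (nat_lit 140) (nat_lit 0) (nat_lit 132) (nat_lit 130) (nat_lit 128)))) (PT.nd (nat_lit 78) (PT.lf (nat_lit 10412) (nat_lit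 6) (nat_lit 137) (nat_lit 0) (nat_lit 133) (nat_lit 130) (nat_lit 127)) (PT.nd (nat_lit 78) (PT.lf (nat_lit 10108) (nat_lit 6) (nat_lit 133) (nat_lit 0) (nat_lit 134) (nat_lit 130) (nat_lit 126)) (PT.lf (nat_lit 9728) (nat_lit 6) (nat_lit 128) (nat_lit 0) (nat_lit 135) (nat_lit 130) (nat_lit 125))))))) (PT.nd (nat_lit 39858) (PT.nd (nat_lit 39390) (PT.nd (nat_lit 234) (PT.nd (nat_lit 78) (PT.lf (nat_lit 9272) (nat_lit 6) (nat_lit 122) (nat_lit 0) (nat_lit 136) (nat_lit 130) (nat_lit 124)) (PT.nd (nat_lit 78) (PT.lf (nat_lit 8740) (nat_lit 6) (nat_lit 115) (nat_lit 0) (nat_lit 137) (nat_lit 130) (nat_lit 123)) (PT.lf (nat_lit 8132) (nat_lit 6) (nat_lit 107) (nat_lit 0) (nat_lit 138) (nat_lit 130) (nat_lit 122)))) (PT.nd (nat_lit 78) (PT.lf (nat_lit 7448) (nat_lit 6) (nat_lit 98) (nat_lit 0) (nat_lit 139) (nat_lit 130) (nat_lit 121)) (PT.nd (nat_lit 39000) (PT.lf (nat_lit 6688) (nat_lit 6)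 (nat_lit 88) (nat_lit 0) (nat_lit 140) (nat_lit 130) (nat_lit 120)) (PT.lf (nat_lit 6156) (nat_lit 6) (nat_lit 81) (nat_lit 5) (nat_lit 119) (nat_lit 131) (nat_lit 140))))) (PT.nd (nat_lit 234) (PT.nd (nat_lit 78) (PT.lf (nat_lit 6764) (nat_lit 6) (nat_lit 89) (nat_lit 5) (nat_lit 120) (nat_lit 131) (nat_lit 139)) (PT.nd (nat_lit 78) (PT.lf (nat_lit 7524) (nat_lit 6) (nat_lit 99) (nat_lit 5) (nat_lit 121) (nat_lit 131) (nat_lit 138)) (PT.lf (nat_lit 8208) (nat_lit 6) (nat_lit 108) (nat_lit 5) (nat_lit 122) (nat_lit 131) (nat_lit 137)))) (PT.nd (nat_lit 78) (PT.lf (nat_lit 8816) (nat_lit 6) (nat_lit 116) (nat_lit 5) (nat_lit 123) (nat_lit 131) (nat_lit 136)) (PT.nd (nat_lit 78) (PT.lf (nat_lit 9348) (nat_lit 6) (nat_lit 123) (nat_lit 5) (nat_lit 124) (nat_lit 131) (nat_lit 135)) (PT.lf (nat_lit 9804) (nat_lit 6) (nat_lit 129) (nat_lit 5) (nat_lit 125) (nat_lit 131) (nat_lit 134)))))) (PT.nd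 (nat_lit 468) (PT.nd (nat_lit 234) (PT.nd (nat_lit 78) (PT.lf (nat_lit 10184) (nat_lit 6) (nat_lit 134) (nat_lit 5) (nat_lit 126) (nat_lit 131) (nat_lit 133)) (PT.nd (nat_lit 78) (PT.lf (nat_lit 10488) (nat_lit 6) (nat_lit 138) (nat_lit 5) (nat_lit 127) (nat_lit 131) (nat_lit 132)) (PT.lf (nat_lit 10716) (nat_lit 3) (nat_lit 141) (nat_lit 4) (nat_lit 128) (nat_lit 131) (nat_lit 131)))) (PT.nd (nat_lit 78) (PT.lf (nat_lit 10792) (nat_lit 6) (nat_lit 142) (nat_lit 4) (nat_lit 129) (nat_lit 131) (nat_lit 130)) (PT.nd (nat_lit 78) (PT.lf (nat_lit 10792) (nat_lit 6) (nat_lit 142) (nat_lit 2) (nat_lit 130) (nat_lit 131) (nat_lit 129)) (PT.lf (nat_lit 10716) (nat_lit 3) (nat_lit 141) (nat_lit 0) (nat_lit 131) (nat_lit 131) (nat_lit 128))))) (PT.nd (nat_lit 234) (PT.nd (nat_lit 78) (PT.lf (nat_lit 10488) (nat_lit 6) (nat_lit 138) (nat_lit 0) (nat_lit 132) (nat_lit 131) (nat_lit 127)) (PT.nd (nat_lit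 78) (PT.lf (nat_lit 10184) (nat_lit 6) (nat_lit 134) (nat_lit 0) (nat_lit 133) (nat_lit 131) (nat_lit 126)) (PT.lf (nat_lit 9804) (nat_lit 6) (nat_lit 129) (nat_lit 0) (nat_lit 134) (nat_lit 131) (nat_lit 125)))) (PT.nd (nat_lit 78) (PT.lf (nat_lit 9348) (nat_lit 6) (nat_lit 123) (nat_lit 0) (nat_lit 135) (nat_lit 131) (nat_lit 124)) (PT.nd (nat_lit 78) (PT.lf (nat_lit 8816) (nat_lit 6) (nat_lit 116) (nat_lit 0) (nat_lit 136) (nat_lit 131) (nat_lit 123)) (PT.lf (nat_lit 8208) (nat_lit 6) (nat_lit 108) (nat_lit 0) (nat_lit 137) (nat_lit 131) (nat_lit 122))))))))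
noncomputable def pc7 : PT := (PT.nd (nat_lit 40716) (PT.nd (nat_lit 39780) (PT.nd (nat_lit 39312) (PT.nd (nat_lit 39078) (PT.nd (nat_lit 78) (PT.lf (nat_lit 7524) (nat_lit 6) (nat_lit 99) (nat_lit 0) (nat_lit 138) (nat_lit 131) (nat_lit 121)) (PT.nd (nat_lit 78) (PT.lf (nat_lit 6764) (nat_lit 6) (nat_lit 89) (nat_lit 0) (nat_lit 139) (nat_lit 131) (nat_lit 120)) (PT.lf (nat_lit 6156) (nat_lit 6) (nat_lit 81) (nat_lit 0) (nat_lit 140) (nat_lit 131) (nat_lit 119)))) (PT.nd (nat_lit 78) (PT.lf (nat_lit 5776) (nat_lit 6) (nat_lit 76) (nat_lit 5) (nat_lit 118) (nat_lit 132) (nat_lit 140)) (PT.nd (nat_lit 78) (PT.lf (nat_lit 6232) (nat_lit 6) (nat_lit 82) (nat_lit 5) (nat_lit 119) (nat_lit 132) (nat_lit 139)) (PT.lf (nat_lit 6840) (nat_lit 6) (nat_lit 90) (nat_lit 5) (nat_lit 120) (nat_lit 132) (nat_lit 138))))) (PT.nd (nat_lit 234) (PT.nd (nat_lit 78) (PT.lf (nat_lit 7600) (nat_lit 6) (nat_lit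 100) (nat_lit 5) (nat_lit 121) (nat_lit 132) (nat_lit 137)) (PT.nd (nat_lit 78) (PT.lf (nat_lit 8284) (nat_lit 6) (nat_lit 109) (nat_lit 5) (nat_lit 122) (nat_lit 132) (nat_lit 136)) (PT.lf (nat_lit 8892) (nat_lit 6) (nat_lit 117) (nat_lit 5) (nat_lit 123) (nat_lit 132) (nat_lit 135)))) (PT.nd (nat_lit 78) (PT.lf (nat_lit 9424) (nat_lit 6) (nat_lit 124) (nat_lit 5) (nat_lit 124) (nat_lit 132) (nat_lit 134)) (PT.nd (nat_lit 78) (PT.lf (nat_lit 9880) (nat_lit 6) (nat_lit 130) (nat_lit 5) (nat_lit 125) (nat_lit 132) (nat_lit 133)) (PT.lf (nat_lit 10260) (nat_lit 3) (nat_lit 135) (nat_lit 4) (nat_lit 126) (nat_lit 132) (nat_lit 132)))))) (PT.nd (nat_lit 468) (PT.nd (nat_lit 234) (PT.nd (nat_lit 78) (PT.lf (nat_lit 10488) (nat_lit 6) (nat_lit 138) (nat_lit 4) (nat_lit 127) (nat_lit 132) (nat_lit 131)) (PT.nd (nat_lit 78) (PT.lf (nat_lit 10640) (nat_lit 6) (nat_lit 140) (nat_lit 4) (nat_lit 128)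 (nat_lit 132) (nat_lit 130)) (PT.lf (nat_lit 10564) (nat_lit 3) (nat_lit 139) (nat_lit 2) (nat_lit 129) (nat_lit 132) (nat_lit 129)))) (PT.nd (nat_lit 78) (PT.lf (nat_lit 10640) (nat_lit 6) (nat_lit 140) (nat_lit 2) (nat_lit 130) (nat_lit 132) (nat_lit 128)) (PT.nd (nat_lit 78) (PT.lf (nat_lit 10488) (nat_lit 6) (nat_lit 138) (nat_lit 2) (nat_lit 131) (nat_lit 132) (nat_lit 127)) (PT.lf (nat_lit 10260) (nat_lit 3) (nat_lit 135) (nat_lit 0) (nat_lit 132) (nat_lit 132) (nat_lit 126))))) (PT.nd (nat_lit 234) (PT.nd (nat_lit 78) (PT.lf (nat_lit 9880) (nat_lit 6) (nat_lit 130) (nat_lit 0) (nat_lit 133) (nat_lit 132) (nat_lit 125)) (PT.nd (nat_lit 78) (PT.lf (nat_lit 9424) (nat_lit 6) (nat_lit 124) (nat_lit 0) (nat_lit 134) (nat_lit 132) (nat_lit 124)) (PT.lf (nat_lit 8892) (nat_lit 6) (nat_lit 117) (nat_lit 0) (nat_lit 135) (nat_lit 132) (nat_lit 123)))) (PT.nd (nat_lit 78) (PT.lf (nat_lit 8284)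 (nat_lit 6) (nat_lit 109) (nat_lit 0) (nat_lit 136) (nat_lit 132) (nat_lit 122)) (PT.nd (nat_lit 78) (PT.lf (nat_lit 7600) (nat_lit 6) (nat_lit 100) (nat_lit 0) (nat_lit 137) (nat_lit 132) (nat_lit 121)) (PT.lf (nat_lit 6840) (nat_lit 6) (nat_lit 90) (nat_lit 0) (nat_lit 138) (nat_lit 132) (nat_lit 120))))))) (PT.nd (nat_lit 39624) (PT.nd (nat_lit 39156) (PT.nd (nat_lit 38922) (PT.nd (nat_lit 78) (PT.lf (nat_lit 6232) (nat_lit 6) (nat_lit 82) (nat_lit 0) (nat_lit 139) (nat_lit 132) (nat_lit 119)) (PT.nd (nat_lit 38766) (PT.lf (nat_lit 5776) (nat_lit 6) (nat_lit 76) (nat_lit 0) (nat_lit 140) (nat_lit 132) (nat_lit 118)) (PT.lf (nat_lit 5092) (nat_lit 6) (nat_lit 67) (nat_lit 5) (nat_lit 116) (nat_lit 133) (nat_lit 141)))) (PT.nd (nat_lit 78) (PT.lf (nat_lit 5472) (nat_lit 6) (nat_lit 72) (nat_lit 5) (nat_lit 117) (nat_lit 133) (nat_lit 140)) (PT.nd (nat_lit 78) (PT.lf (nat_lit 5852) (nat_lit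 6) (nat_lit 77) (nat_lit 5) (nat_lit 118) (nat_lit 133) (nat_lit 139)) (PT.lf (nat_lit 6308) (nat_lit 6) (nat_lit 83) (nat_lit 5) (nat_lit 119) (nat_lit 133) (nat_lit 138))))) (PT.nd (nat_lit 234) (PT.nd (nat_lit 78) (PT.lf (nat_lit 6916) (nat_lit 6) (nat_lit 91) (nat_lit 5) (nat_lit 120) (nat_lit 133) (nat_lit 137)) (PT.nd (nat_lit 78) (PT.lf (nat_lit 7676) (nat_lit 6) (nat_lit 101) (nat_lit 5) (nat_lit 121) (nat_lit 133) (nat_lit 136)) (PT.lf (nat_lit 8360) (nat_lit 6) (nat_lit 110) (nat_lit 5) (nat_lit 122) (nat_lit 133) (nat_lit 135)))) (PT.nd (nat_lit 78) (PT.lf (nat_lit 8968) (nat_lit 6) (nat_lit 118) (nat_lit 5) (nat_lit 123) (nat_lit 133) (nat_lit 134)) (PT.nd (nat_lit 78) (PT.lf (nat_lit 9500) (nat_lit 3) (nat_lit 125) (nat_lit 4) (nat_lit 124) (nat_lit 133) (nat_lit 133)) (PT.lf (nat_lit 9880) (nat_lit 6) (nat_lit 130) (nat_lit 4) (nat_lit 125) (nat_lit 133) (nat_lit 132)))))) (PT.nd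 (nat_lit 468) (PT.nd (nat_lit 234) (PT.nd (nat_lit 78) (PT.lf (nat_lit 10184) (nat_lit 6) (nat_lit 134) (nat_lit 4) (nat_lit 126) (nat_lit 133) (nat_lit 131)) (PT.nd (nat_lit 78) (PT.lf (nat_lit 10412) (nat_lit 6) (nat_lit 137) (nat_lit 4) (nat_lit 127) (nat_lit 133) (nat_lit 130)) (PT.lf (nat_lit 10336) (nat_lit 6) (nat_lit 136) (nat_lit 4) (nat_lit 128) (nat_lit 133) (nat_lit 129)))) (PT.nd (nat_lit 78) (PT.lf (nat_lit 10336) (nat_lit 6) (nat_lit 136) (nat_lit 2) (nat_lit 129) (nat_lit 133) (nat_lit 128)) (PT.nd (nat_lit 78) (PT.lf (nat_lit 10412) (nat_lit 6) (nat_lit 137) (nat_lit 2) (nat_lit 130) (nat_lit 133) (nat_lit 127)) (PT.lf (nat_lit 10184) (nat_lit 6) (nat_lit 134) (nat_lit 2) (nat_lit 131) (nat_lit 133) (nat_lit 126))))) (PT.nd (nat_lit 234) (PT.nd (nat_lit 78) (PT.lf (nat_lit 9880) (nat_lit 6) (nat_lit 130) (nat_lit 2) (nat_lit 132) (nat_lit 133) (nat_lit 125)) (PT.nd (nat_lit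 78) (PT.lf (nat_lit 9500) (nat_lit 3) (nat_lit 125) (nat_lit 0) (nat_lit 133) (nat_lit 133) (nat_lit 124)) (PT.lf (nat_lit 8968) (nat_lit 6) (nat_lit 118) (nat_lit 0) (nat_lit 134) (nat_lit 133) (nat_lit 123)))) (PT.nd (nat_lit 156) (PT.nd (nat_lit 78) (PT.lf (nat_lit 8360) (nat_lit 6) (nat_lit 110) (nat_lit 0) (nat_lit 135) (nat_lit 133) (nat_lit 122)) (PT.lf (nat_lit 7676) (nat_lit 6) (nat_lit 101) (nat_lit 0) (nat_lit 136) (nat_lit 133) (nat_lit 121))) (PT.nd (nat_lit 78) (PT.lf (nat_lit 6916) (nat_lit 6) (nat_lit 91) (nat_lit 0) (nat_lit 137) (nat_lit 133) (nat_lit 120)) (PT.lf (nat_lit 6308) (nat_lit 6) (nat_lit 83) (nat_lit 0) (nat_lit 138) (nat_lit 133) (nat_lit 119))))))))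
noncomputable def pc8 : PT := (PT.nd (nat_lit 40404) (PT.nd (nat_lit 39468) (PT.nd (nat_lit 39000) (PT.nd (nat_lit 38766) (PT.nd (nat_lit 78) (PT.lf (nat_lit 5852) (nat_lit 6) (nat_lit 77) (nat_lit 0) (nat_lit 139) (nat_lit 133) (nat_lit 118)) (PT.nd (nat_lit 78) (PT.lf (nat_lit 5472) (nat_lit 6) (nat_lit 72) (nat_lit 0) (nat_lit 140) (nat_lit 133) (nat_lit 117)) (PT.lf (nat_lit 5092) (nat_lit 6) (nat_lit 67) (nat_lit 0) (nat_lit 141) (nat_lit 133) (nat_lit 116)))) (PT.nd (nat_lit 78) (PT.lf (nat_lit 4788) (nat_lit 6) (nat_lit 63) (nat_lit 5) (nat_lit 115) (nat_lit 134) (nat_lit 141)) (PT.nd (nat_lit 78) (PT.lf (nat_lit 5168) (nat_lit 6) (nat_lit 68) (nat_lit 5) (nat_lit 116) (nat_lit 134) (nat_lit 140)) (PT.lf (nat_lit 5548) (nat_lit 6) (nat_lit 73) (nat_lit 5) (nat_lit 117) (nat_lit 134) (nat_lit 139))))) (PT.nd (nat_lit 234) (PT.nd (nat_lit 78) (PT.lf (nat_lit 5928) (nat_lit 6) (nat_lit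 78) (nat_lit 5) (nat_lit 118) (nat_lit 134) (nat_lit 138)) (PT.nd (nat_lit 78) (PT.lf (nat_lit 6384) (nat_lit 6) (nat_lit 84) (nat_lit 5) (nat_lit 119) (nat_lit 134) (nat_lit 137)) (PT.lf (nat_lit 6992) (nat_lit 6) (nat_lit 92) (nat_lit 5) (nat_lit 120) (nat_lit 134) (nat_lit 136)))) (PT.nd (nat_lit 78) (PT.lf (nat_lit 7752) (nat_lit 6) (nat_lit 102) (nat_lit 5) (nat_lit 121) (nat_lit 134) (nat_lit 135)) (PT.nd (nat_lit 78) (PT.lf (nat_lit 8436) (nat_lit 3) (nat_lit 111) (nat_lit 4) (nat_lit 122) (nat_lit 134) (nat_lit 134)) (PT.lf (nat_lit 8968) (nat_lit 6) (nat_lit 118) (nat_lit 4) (nat_lit 123) (nat_lit 134) (nat_lit 133)))))) (PT.nd (nat_lit 468) (PT.nd (nat_lit 234) (PT.nd (nat_lit 78) (PT.lf (nat_lit 9424) (nat_lit 6) (nat_lit 124) (nat_lit 4) (nat_lit 124) (nat_lit 134) (nat_lit 132)) (PT.nd (nat_lit 78) (PT.lf (nat_lit 9804) (nat_lit 6) (nat_lit 129) (nat_lit 4) (nat_lit 125) (nat_lit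 134) (nat_lit 131)) (PT.lf (nat_lit 10108) (nat_lit 6) (nat_lit 133) (nat_lit 4) (nat_lit 126) (nat_lit 134) (nat_lit 130)))) (PT.nd (nat_lit 78) (PT.lf (nat_lit 10032) (nat_lit 6) (nat_lit 132) (nat_lit 4) (nat_lit 127) (nat_lit 134) (nat_lit 129)) (PT.nd (nat_lit 78) (PT.lf (nat_lit 9956) (nat_lit 3) (nat_lit 131) (nat_lit 2) (nat_lit 128) (nat_lit 134) (nat_lit 128)) (PT.lf (nat_lit 10032) (nat_lit 6) (nat_lit 132) (nat_lit 2) (nat_lit 129) (nat_lit 134) (nat_lit 127))))) (PT.nd (nat_lit 234) (PT.nd (nat_lit 78) (PT.lf (nat_lit 10108) (nat_lit 6) (nat_lit 133) (nat_lit 2) (nat_lit 130) (nat_lit 134) (nat_lit 126)) (PT.nd (nat_lit 78) (PT.lf (nat_lit 9804) (nat_lit 6) (nat_lit 129) (nat_lit 2) (nat_lit 131) (nat_lit 134) (nat_lit 125)) (PT.lf (nat_lit 9424) (nat_lit 6) (nat_lit 124) (nat_lit 2) (nat_lit 132) (nat_lit 134) (nat_lit 124)))) (PT.nd (nat_lit 78) (PT.lf (nat_lit 8968) (nat_lit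 6) (nat_lit 118) (nat_lit 2) (nat_lit 133) (nat_lit 134) (nat_lit 123)) (PT.nd (nat_lit 78) (PT.lf (nat_lit 8436) (nat_lit 3) (nat_lit 111) (nat_lit 0) (nat_lit 134) (nat_lit 134) (nat_lit 122)) (PT.lf (nat_lit 7752) (nat_lit 6) (nat_lit 102) (nat_lit 0) (nat_lit 135) (nat_lit 134) (nat_lit 121))))))) (PT.nd (nat_lit 39390) (PT.nd (nat_lit 38922) (PT.nd (nat_lit 234) (PT.nd (nat_lit 78) (PT.lf (nat_lit 6992) (nat_lit 6) (nat_lit 92) (nat_lit 0) (nat_lit 136) (nat_lit 134) (nat_lit 120)) (PT.nd (nat_lit 78) (PT.lf (nat_lit 6384) (nat_lit 6) (nat_lit 84) (nat_lit 0) (nat_lit 137) (nat_lit 134) (nat_lit 119)) (PT.lf (nat_lit 5928) (nat_lit 6) (nat_lit 78) (nat_lit 0) (nat_lit 138) (nat_lit 134) (nat_lit 118)))) (PT.nd (nat_lit 78) (PT.lf (nat_lit 5548) (nat_lit 6) (nat_lit 73) (nat_lit 0) (nat_lit 139) (nat_lit 134) (nat_lit 117)) (PT.nd (nat_lit 78) (PT.lf (nat_lit 5168) (nat_lit 6) (nat_lit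 68) (nat_lit 0) (nat_lit 140) (nat_lit 134) (nat_lit 116)) (PT.lf (nat_lit 4788) (nat_lit 6) (nat_lit 63) (nat_lit 0) (nat_lit 141) (nat_lit 134) (nat_lit 115))))) (PT.nd (nat_lit 234) (PT.nd (nat_lit 78) (PT.lf (nat_lit 4484) (nat_lit 6) (nat_lit 59) (nat_lit 5) (nat_lit 114) (nat_lit 135) (nat_lit 141)) (PT.nd (nat_lit 78) (PT.lf (nat_lit 4864) (nat_lit 6) (nat_lit 64) (nat_lit 5) (nat_lit 115) (nat_lit 135) (nat_lit 140)) (PT.lf (nat_lit 5244) (nat_lit 6) (nat_lit 69) (nat_lit 5) (nat_lit 116) (nat_lit 135) (nat_lit 139)))) (PT.nd (nat_lit 78) (PT.lf (nat_lit 5624) (nat_lit 6) (nat_lit 74) (nat_lit 5) (nat_lit 117) (nat_lit 135) (nat_lit 138)) (PT.nd (nat_lit 78) (PT.lf (nat_lit 6004) (nat_lit 6) (nat_lit 79) (nat_lit 5) (nat_lit 118) (nat_lit 135) (nat_lit 137)) (PT.lf (nat_lit 6460) (nat_lit 6) (nat_lit 85) (nat_lit 5) (nat_lit 119) (nat_lit 135) (nat_lit 136)))))) (PT.nd (nat_lit 468)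 (PT.nd (nat_lit 234) (PT.nd (nat_lit 78) (PT.lf (nat_lit 7068) (nat_lit 3) (nat_lit 93) (nat_lit 4) (nat_lit 120) (nat_lit 135) (nat_lit 135)) (PT.nd (nat_lit 78) (PT.lf (nat_lit 7752) (nat_lit 6) (nat_lit 102) (nat_lit 4) (nat_lit 121) (nat_lit 135) (nat_lit 134)) (PT.lf (nat_lit 8360) (nat_lit 6) (nat_lit 110) (nat_lit 4) (nat_lit 122) (nat_lit 135) (nat_lit 133)))) (PT.nd (nat_lit 78) (PT.lf (nat_lit 8892) (nat_lit 6) (nat_lit 117) (nat_lit 4) (nat_lit 123) (nat_lit 135) (nat_lit 132)) (PT.nd (nat_lit 78) (PT.lf (nat_lit 9348) (nat_lit 6) (nat_lit 123) (nat_lit 4) (nat_lit 124) (nat_lit 135) (nat_lit 131)) (PT.lf (nat_lit 9728) (nat_lit 6) (nat_lit 128) (nat_lit 4) (nat_lit 125) (nat_lit 135) (nat_lit 130))))) (PT.nd (nat_lit 234) (PT.nd (nat_lit 78) (PT.lf (nat_lit 9652) (nat_lit 6) (nat_lit 127) (nat_lit 4) (nat_lit 126) (nat_lit 135) (nat_lit 129)) (PT.nd (nat_lit 78) (PT.lf (nat_lit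 9576) (nat_lit 6) (nat_lit 126) (nat_lit 4) (nat_lit 127) (nat_lit 135) (nat_lit 128)) (PT.lf (nat_lit 9576) (nat_lit 6) (nat_lit 126) (nat_lit 2) (nat_lit 128) (nat_lit 135) (nat_lit 127)))) (PT.nd (nat_lit 78) (PT.lf (nat_lit 9652) (nat_lit 6) (nat_lit 127) (nat_lit 2) (nat_lit 129) (nat_lit 135) (nat_lit 126)) (PT.nd (nat_lit 78) (PT.lf (nat_lit 9728) (nat_lit 6) (nat_lit 128) (nat_lit 2) (nat_lit 130) (nat_lit 135) (nat_lit 125)) (PT.lf (nat_lit 9348) (nat_lit 6) (nat_lit 123) (nat_lit 2) (nat_lit 131) (nat_lit 135) (nat_lit 124))))))))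
noncomputable def pc9 : PT := (PT.nd (nat_lit 40170) (PT.nd (nat_lit 39234) (PT.nd (nat_lit 468) (PT.nd (nat_lit 234) (PT.nd (nat_lit 78) (PT.lf (nat_lit 8892) (nat_lit 6) (nat_lit 117) (nat_lit 2) (nat_lit 132) (nat_lit 135) (nat_lit 123)) (PT.nd (nat_lit 78) (PT.lf (nat_lit 8360) (nat_lit 6) (nat_lit 110) (nat_lit 2) (nat_lit 133) (nat_lit 135) (nat_lit 122)) (PT.lf (nat_lit 7752) (nat_lit 6) (nat_lit 102) (nat_lit 2) (nat_lit 134) (nat_lit 135) (nat_lit 121)))) (PT.nd (nat_lit 78) (PT.lf (nat_lit 7068) (nat_lit 3) (nat_lit 93) (nat_lit 0) (nat_lit 135) (nat_lit 135) (nat_lit 120)) (PT.nd (nat_lit 78) (PT.lf (nat_lit 6460) (nat_lit 6) (nat_lit 85) (nat_lit 0) (nat_lit 136) (nat_lit 135) (nat_lit 119)) (PT.lf (nat_lit 6004) (nat_lit 6) (nat_lit 79) (nat_lit 0) (nat_lit 137) (nat_lit 135) (nat_lit 118))))) (PT.nd (nat_lit 234) (PT.nd (nat_lit 78) (PT.lf (nat_lit 5624) (nat_lit 6) (nat_lit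 74) (nat_lit 0) (nat_lit 138) (nat_lit 135) (nat_lit 117)) (PT.nd (nat_lit 78) (PT.lf (nat_lit 5244) (nat_lit 6) (nat_lit 69) (nat_lit 0) (nat_lit 139) (nat_lit 135) (nat_lit 116)) (PT.lf (nat_lit 4864) (nat_lit 6) (nat_lit 64) (nat_lit 0) (nat_lit 140) (nat_lit 135) (nat_lit 115)))) (PT.nd (nat_lit 38376) (PT.lf (nat_lit 4484) (nat_lit 6) (nat_lit 59) (nat_lit 0) (nat_lit 141) (nat_lit 135) (nat_lit 114)) (PT.nd (nat_lit 78) (PT.lf (nat_lit 3952) (nat_lit 6) (nat_lit 52) (nat_lit 5) (nat_lit 112) (nat_lit 136) (nat_lit 142)) (PT.lf (nat_lit 4256) (nat_lit 6) (nat_lit 56) (nat_lit 5) (nat_lit 113) (nat_lit 136) (nat_lit 141)))))) (PT.nd (nat_lit 468) (PT.nd (nat_lit 234) (PT.nd (nat_lit 78) (PT.lf (nat_lit 4560) (nat_lit 6) (nat_lit 60) (nat_lit 5) (nat_lit 114) (nat_lit 136) (nat_lit 140)) (PT.nd (nat_lit 78) (PT.lf (nat_lit 4940) (nat_lit 6) (nat_lit 65) (nat_lit 5) (nat_lit 115) (nat_lit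 136) (nat_lit 139)) (PT.lf (nat_lit 5320) (nat_lit 6) (nat_lit 70) (nat_lit 5) (nat_lit 116) (nat_lit 136) (nat_lit 138)))) (PT.nd (nat_lit 78) (PT.lf (nat_lit 5700) (nat_lit 6) (nat_lit 75) (nat_lit 5) (nat_lit 117) (nat_lit 136) (nat_lit 137)) (PT.nd (nat_lit 78) (PT.lf (nat_lit 6080) (nat_lit 3) (nat_lit 80) (nat_lit 4) (nat_lit 118) (nat_lit 136) (nat_lit 136)) (PT.lf (nat_lit 6460) (nat_lit 6) (nat_lit 85) (nat_lit 4) (nat_lit 119) (nat_lit 136) (nat_lit 135))))) (PT.nd (nat_lit 234) (PT.nd (nat_lit 78) (PT.lf (nat_lit 6992) (nat_lit 6) (nat_lit 92) (nat_lit 4) (nat_lit 120) (nat_lit 136) (nat_lit 134)) (PT.nd (nat_lit 78) (PT.lf (nat_lit 7676) (nat_lit 6) (nat_lit 101) (nat_lit 4) (nat_lit 121) (nat_lit 136) (nat_lit 133)) (PT.lf (nat_lit 8284) (nat_lit 6) (nat_lit 109) (nat_lit 4) (nat_lit 122) (nat_lit 136) (nat_lit 132)))) (PT.nd (nat_lit 78) (PT.lf (nat_lit 8816) (nat_lit 6) (nat_lit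 116) (nat_lit 4) (nat_lit 123) (nat_lit 136) (nat_lit 131)) (PT.nd (nat_lit 78) (PT.lf (nat_lit 9272) (nat_lit 6) (nat_lit 122) (nat_lit 4) (nat_lit 124) (nat_lit 136) (nat_lit 130)) (PT.lf (nat_lit 9196) (nat_lit 6) (nat_lit 121) (nat_lit 4) (nat_lit 125) (nat_lit 136) (nat_lit 129))))))) (PT.nd (nat_lit 936) (PT.nd (nat_lit 468) (PT.nd (nat_lit 234) (PT.nd (nat_lit 78) (PT.lf (nat_lit 9120) (nat_lit 6) (nat_lit 120) (nat_lit 4) (nat_lit 126) (nat_lit 136) (nat_lit 128)) (PT.nd (nat_lit 78) (PT.lf (nat_lit 9044) (nat_lit 3) (nat_lit 119) (nat_lit 2) (nat_lit 127) (nat_lit 136) (nat_lit 127)) (PT.lf (nat_lit 9120) (nat_lit 6) (nat_lit 120) (nat_lit 2) (nat_lit 128) (nat_lit 136) (nat_lit 126)))) (PT.nd (nat_lit 78) (PT.lf (nat_lit 9196) (nat_lit 6) (nat_lit 121) (nat_lit 2) (nat_lit 129) (nat_lit 136) (nat_lit 125)) (PT.nd (nat_lit 78) (PT.lf (nat_lit 9272) (nat_lit 6) (nat_lit 122) (nat_lit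 2) (nat_lit 130) (nat_lit 136) (nat_lit 124)) (PT.lf (nat_lit 8816) (nat_lit 6) (nat_lit 116) (nat_lit 2) (nat_lit 131) (nat_lit 136) (nat_lit 123))))) (PT.nd (nat_lit 234) (PT.nd (nat_lit 78) (PT.lf (nat_lit 8284) (nat_lit 6) (nat_lit 109) (nat_lit 2) (nat_lit 132) (nat_lit 136) (nat_lit 122)) (PT.nd (nat_lit 78) (PT.lf (nat_lit 7676) (nat_lit 6) (nat_lit 101) (nat_lit 2) (nat_lit 133) (nat_lit 136) (nat_lit 121)) (PT.lf (nat_lit 6992) (nat_lit 6) (nat_lit 92) (nat_lit 2) (nat_lit 134) (nat_lit 136) (nat_lit 120)))) (PT.nd (nat_lit 78) (PT.lf (nat_lit 6460) (nat_lit 6) (nat_lit 85) (nat_lit 2) (nat_lit 135) (nat_lit 136) (nat_lit 119)) (PT.nd (nat_lit 78) (PT.lf (nat_lit 6080) (nat_lit 3) (nat_lit 80) (nat_lit 0) (nat_lit 136) (nat_lit 136) (nat_lit 118)) (PT.lf (nat_lit 5700) (nat_lit 6) (nat_lit 75) (nat_lit 0) (nat_lit 137) (nat_lit 136) (nat_lit 117)))))) (PT.nd (nat_lit 38610) (PT.nd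 (nat_lit 234) (PT.nd (nat_lit 78) (PT.lf (nat_lit 5320) (nat_lit 6) (nat_lit 70) (nat_lit 0) (nat_lit 138) (nat_lit 136) (nat_lit 116)) (PT.nd (nat_lit 78) (PT.lf (nat_lit 4940) (nat_lit 6) (nat_lit 65) (nat_lit 0) (nat_lit 139) (nat_lit 136) (nat_lit 115)) (PT.lf (nat_lit 4560) (nat_lit 6) (nat_lit 60) (nat_lit 0) (nat_lit 140) (nat_lit 136) (nat_lit 114)))) (PT.nd (nat_lit 78) (PT.lf (nat_lit 4256) (nat_lit 6) (nat_lit 56) (nat_lit 0) (nat_lit 141) (nat_lit 136) (nat_lit 113)) (PT.nd (nat_lit 38220) (PT.lf (nat_lit 3952) (nat_lit 6) (nat_lit 52) (nat_lit 0) (nat_lit 142) (nat_lit 136) (nat_lit 112)) (PT.lf (nat_lit 3724) (nat_lit 6) (nat_lit 49) (nat_lit 5) (nat_lit 111) (nat_lit 137) (nat_lit 142))))) (PT.nd (nat_lit 234) (PT.nd (nat_lit 78) (PT.lf (nat_lit 4028) (nat_lit 6) (nat_lit 53) (nat_lit 5) (nat_lit 112) (nat_lit 137) (nat_lit 141)) (PT.nd (nat_lit 78) (PT.lf (nat_lit 4332) (nat_lit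 6) (nat_lit 57) (nat_lit 5) (nat_lit 113) (nat_lit 137) (nat_lit 140)) (PT.lf (nat_lit 4636) (nat_lit 6) (nat_lit 61) (nat_lit 5) (nat_lit 114) (nat_lit 137) (nat_lit 139)))) (PT.nd (nat_lit 156) (PT.nd (nat_lit 78) (PT.lf (nat_lit 5016) (nat_lit 6) (nat_lit 66) (nat_lit 5) (nat_lit 115) (nat_lit 137) (nat_lit 138)) (PT.lf (nat_lit 5396) (nat_lit 3) (nat_lit 71) (nat_lit 4) (nat_lit 116) (nat_lit 137) (nat_lit 137))) (PT.nd (nat_lit 78) (PT.lf (nat_lit 5700) (nat_lit 6) (nat_lit 75) (nat_lit 4) (nat_lit 117) (nat_lit 137) (nat_lit 136)) (PT.lf (nat_lit 6004) (nat_lit 6) (nat_lit 79) (nat_lit 4) (nat_lit 118) (nat_lit 137) (nat_lit 135))))))))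
noncomputable def pc10 : PT := (PT.nd (nat_lit 39858) (PT.nd (nat_lit 936) (PT.nd (nat_lit 468) (PT.nd (nat_lit 234) (PT.nd (nat_lit 78) (PT.lf (nat_lit 6384) (nat_lit 6) (nat_lit 84) (nat_lit 4) (nat_lit 119) (nat_lit 137) (nat_lit 134)) (PT.nd (nat_lit 78) (PT.lf (nat_lit 6916) (nat_lit 6) (nat_lit 91) (nat_lit 4) (nat_lit 120) (nat_lit 137) (nat_lit 133)) (PT.lf (nat_lit 7600) (nat_lit 6) (nat_lit 100) (nat_lit 4) (nat_lit 121) (nat_lit 137) (nat_lit 132)))) (PT.nd (nat_lit 78) (PT.lf (nat_lit 8208) (nat_lit 6) (nat_lit 108) (nat_lit 4) (nat_lit 122) (nat_lit 137) (nat_lit 131)) (PT.nd (nat_lit 78) (PT.lf (nat_lit 8740) (nat_lit 6) (nat_lit 115) (nat_lit 4) (nat_lit 123) (nat_lit 137) (nat_lit 130)) (PT.lf (nat_lit 8664) (nat_lit 6) (nat_lit 114) (nat_lit 4) (nat_lit 124) (nat_lit 137) (nat_lit 129))))) (PT.nd (nat_lit 234) (PT.nd (nat_lit 78) (PT.lf (nat_lit 8588) (nat_lit 6) (nat_lit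 113) (nat_lit 4) (nat_lit 125) (nat_lit 137) (nat_lit 128)) (PT.nd (nat_lit 78) (PT.lf (nat_lit 8512) (nat_lit 6) (nat_lit 112) (nat_lit 4) (nat_lit 126) (nat_lit 137) (nat_lit 127)) (PT.lf (nat_lit 8512) (nat_lit 6) (nat_lit 112) (nat_lit 2) (nat_lit 127) (nat_lit 137) (nat_lit 126)))) (PT.nd (nat_lit 78) (PT.lf (nat_lit 8588) (nat_lit 6) (nat_lit 113) (nat_lit 2) (nat_lit 128) (nat_lit 137) (nat_lit 125)) (PT.nd (nat_lit 78) (PT.lf (nat_lit 8664) (nat_lit 6) (nat_lit 114) (nat_lit 2) (nat_lit 129) (nat_lit 137) (nat_lit 124)) (PT.lf (nat_lit 8740) (nat_lit 6) (nat_lit 115) (nat_lit 2) (nat_lit 130) (nat_lit 137) (nat_lit 123)))))) (PT.nd (nat_lit 468) (PT.nd (nat_lit 234) (PT.nd (nat_lit 78) (PT.lf (nat_lit 8208) (nat_lit 6) (nat_lit 108) (nat_lit 2) (nat_lit 131) (nat_lit 137) (nat_lit 122)) (PT.nd (nat_lit 78) (PT.lf (nat_lit 7600) (nat_lit 6) (nat_lit 100) (nat_lit 2) (nat_lit 132) (nat_lit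 137) (nat_lit 121)) (PT.lf (nat_lit 6916) (nat_lit 6) (nat_lit 91) (nat_lit 2) (nat_lit 133) (nat_lit 137) (nat_lit 120)))) (PT.nd (nat_lit 78) (PT.lf (nat_lit 6384) (nat_lit 6) (nat_lit 84) (nat_lit 2) (nat_lit 134) (nat_lit 137) (nat_lit 119)) (PT.nd (nat_lit 78) (PT.lf (nat_lit 6004) (nat_lit 6) (nat_lit 79) (nat_lit 2) (nat_lit 135) (nat_lit 137) (nat_lit 118)) (PT.lf (nat_lit 5700) (nat_lit 6) (nat_lit 75) (nat_lit 2) (nat_lit 136) (nat_lit 137) (nat_lit 117))))) (PT.nd (nat_lit 234) (PT.nd (nat_lit 78) (PT.lf (nat_lit 5396) (nat_lit 3) (nat_lit 71) (nat_lit 0) (nat_lit 137) (nat_lit 137) (nat_lit 116)) (PT.nd (nat_lit 78) (PT.lf (nat_lit 5016) (nat_lit 6) (nat_lit 66) (nat_lit 0) (nat_lit 138) (nat_lit 137) (nat_lit 115)) (PT.lf (nat_lit 4636) (nat_lit 6) (nat_lit 61) (nat_lit 0) (nat_lit 139) (nat_lit 137) (nat_lit 114)))) (PT.nd (nat_lit 78) (PT.lf (nat_lit 4332) (nat_lit 6) (nat_lit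 57) (nat_lit 0) (nat_lit 140) (nat_lit 137) (nat_lit 113)) (PT.nd (nat_lit 78) (PT.lf (nat_lit 4028) (nat_lit 6) (nat_lit 53) (nat_lit 0) (nat_lit 141) (nat_lit 137) (nat_lit 112)) (PT.lf (nat_lit 3724) (nat_lit 6) (nat_lit 49) (nat_lit 0) (nat_lit 142) (nat_lit 137) (nat_lit 111))))))) (PT.nd (nat_lit 936) (PT.nd (nat_lit 468) (PT.nd (nat_lit 234) (PT.nd (nat_lit 78) (PT.lf (nat_lit 3268) (nat_lit 6) (nat_lit 43) (nat_lit 5) (nat_lit 109) (nat_lit 138) (nat_lit 143)) (PT.nd (nat_lit 78) (PT.lf (nat_lit 3496) (nat_lit 6) (nat_lit 46) (nat_lit 5) (nat_lit 110) (nat_lit 138) (nat_lit 142)) (PT.lf (nat_lit 3800) (nat_lit 6) (nat_lit 50) (nat_lit 5) (nat_lit 111) (nat_lit 138) (nat_lit 141)))) (PT.nd (nat_lit 78) (PT.lf (nat_lit 4104) (nat_lit 6) (nat_lit 54) (nat_lit 5) (nat_lit 112) (nat_lit 138) (nat_lit 140)) (PT.nd (nat_lit 78) (PT.lf (nat_lit 4408) (nat_lit 6) (nat_lit 58) (nat_lit 5) (nat_lit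 113) (nat_lit 138) (nat_lit 139)) (PT.lf (nat_lit 4712) (nat_lit 3) (nat_lit 62) (nat_lit 4) (nat_lit 114) (nat_lit 138) (nat_lit 138))))) (PT.nd (nat_lit 234) (PT.nd (nat_lit 78) (PT.lf (nat_lit 5016) (nat_lit 6) (nat_lit 66) (nat_lit 4) (nat_lit 115) (nat_lit 138) (nat_lit 137)) (PT.nd (nat_lit 78) (PT.lf (nat_lit 5320) (nat_lit 6) (nat_lit 70) (nat_lit 4) (nat_lit 116) (nat_lit 138) (nat_lit 136)) (PT.lf (nat_lit 5624) (nat_lit 6) (nat_lit 74) (nat_lit 4) (nat_lit 117) (nat_lit 138) (nat_lit 135)))) (PT.nd (nat_lit 78) (PT.lf (nat_lit 5928) (nat_lit 6) (nat_lit 78) (nat_lit 4) (nat_lit 118) (nat_lit 138) (nat_lit 134)) (PT.nd (nat_lit 78) (PT.lf (nat_lit 6308) (nat_lit 6) (nat_lit 83) (nat_lit 4) (nat_lit 119) (nat_lit 138) (nat_lit 133)) (PT.lf (nat_lit 6840) (nat_lit 6) (nat_lit 90) (nat_lit 4) (nat_lit 120) (nat_lit 138) (nat_lit 132)))))) (PT.nd (nat_lit 468) (PT.nd (nat_lit 234) (PT.nd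 (nat_lit 78) (PT.lf (nat_lit 7524) (nat_lit 6) (nat_lit 99) (nat_lit 4) (nat_lit 121) (nat_lit 138) (nat_lit 131)) (PT.nd (nat_lit 78) (PT.lf (nat_lit 8132) (nat_lit 6) (nat_lit 107) (nat_lit 4) (nat_lit 122) (nat_lit 138) (nat_lit 130)) (PT.lf (nat_lit 8056) (nat_lit 6) (nat_lit 106) (nat_lit 4) (nat_lit 123) (nat_lit 138) (nat_lit 129)))) (PT.nd (nat_lit 78) (PT.lf (nat_lit 7980) (nat_lit 6) (nat_lit 105) (nat_lit 4) (nat_lit 124) (nat_lit 138) (nat_lit 128)) (PT.nd (nat_lit 78) (PT.lf (nat_lit 7904) (nat_lit 6) (nat_lit 104) (nat_lit 4) (nat_lit 125) (nat_lit 138) (nat_lit 127)) (PT.lf (nat_lit 7828) (nat_lit 3) (nat_lit 103) (nat_lit 2) (nat_lit 126) (nat_lit 138) (nat_lit 126))))) (PT.nd (nat_lit 234) (PT.nd (nat_lit 78) (PT.lf (nat_lit 7904) (nat_lit 6) (nat_lit 104) (nat_lit 2) (nat_lit 127) (nat_lit 138) (nat_lit 125)) (PT.nd (nat_lit 78) (PT.lf (nat_lit 7980) (nat_lit 6) (nat_lit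 105) (nat_lit 2) (nat_lit 128) (nat_lit 138) (nat_lit 124)) (PT.lf (nat_lit 8056) (nat_lit 6) (nat_lit 106) (nat_lit 2) (nat_lit 129) (nat_lit 138) (nat_lit 123)))) (PT.nd (nat_lit 78) (PT.lf (nat_lit 8132) (nat_lit 6) (nat_lit 107) (nat_lit 2) (nat_lit 130) (nat_lit 138) (nat_lit 122)) (PT.nd (nat_lit 78) (PT.lf (nat_lit 7524) (nat_lit 6) (nat_lit 99) (nat_lit 2) (nat_lit 131) (nat_lit 138) (nat_lit 121)) (PT.lf (nat_lit 6840) (nat_lit 6) (nat_lit 90) (nat_lit 2) (nat_lit 132) (nat_lit 138) (nat_lit 120))))))))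
noncomputable def pc11 : PT := (PT.nd (nat_lit 39702) (PT.nd (nat_lit 38766) (PT.nd (nat_lit 468) (PT.nd (nat_lit 234) (PT.nd (nat_lit 78) (PT.lf (nat_lit 6308) (nat_lit 6) (nat_lit 83) (nat_lit 2) (nat_lit 133) (nat_lit 138) (nat_lit 119)) (PT.nd (nat_lit 78) (PT.lf (nat_lit 5928) (nat_lit 6) (nat_lit 78) (nat_lit 2) (nat_lit 134) (nat_lit 138) (nat_lit 118)) (PT.lf (nat_lit 5624) (nat_lit 6) (nat_lit 74) (nat_lit 2) (nat_lit 135) (nat_lit 138) (nat_lit 117)))) (PT.nd (nat_lit 78) (PT.lf (nat_lit 5320) (nat_lit 6) (nat_lit 70) (nat_lit 2) (nat_lit 136) (nat_lit 138) (nat_lit 116)) (PT.nd (nat_lit 78) (PT.lf (nat_lit 5016) (nat_lit 6) (nat_lit 66) (nat_lit 2) (nat_lit 137) (nat_lit 138) (nat_lit 115)) (PT.lf (nat_lit 4712) (nat_lit 3) (nat_lit 62) (nat_lit 0) (nat_lit 138) (nat_lit 138) (nat_lit 114))))) (PT.nd (nat_lit 234) (PT.nd (nat_lit 78) (PT.lf (nat_lit 4408) (nat_lit 6) (nat_lit 58)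 (nat_lit 0) (nat_lit 139) (nat_lit 138) (nat_lit 113)) (PT.nd (nat_lit 78) (PT.lf (nat_lit 4104) (nat_lit 6) (nat_lit 54) (nat_lit 0) (nat_lit 140) (nat_lit 138) (nat_lit 112)) (PT.lf (nat_lit 3800) (nat_lit 6) (nat_lit 50) (nat_lit 0) (nat_lit 141) (nat_lit 138) (nat_lit 111)))) (PT.nd (nat_lit 78) (PT.lf (nat_lit 3496) (nat_lit 6) (nat_lit 46) (nat_lit 0) (nat_lit 142) (nat_lit 138) (nat_lit 110)) (PT.nd (nat_lit 37908) (PT.lf (nat_lit 3268) (nat_lit 6) (nat_lit 43) (nat_lit 0) (nat_lit 143) (nat_lit 138) (nat_lit 109)) (PT.lf (nat_lit 3040) (nat_lit 6) (nat_lit 40) (nat_lit 5) (nat_lit 108) (nat_lit 139) (nat_lit 143)))))) (PT.nd (nat_lit 468) (PT.nd (nat_lit 234) (PT.nd (nat_lit 78) (PT.lf (nat_lit 3344) (nat_lit 6) (nat_lit 44) (nat_lit 5) (nat_lit 109) (nat_lit 139) (nat_lit 142)) (PT.nd (nat_lit 78) (PT.lf (nat_lit 3572) (nat_lit 6) (nat_lit 47) (nat_lit 5) (nat_lit 110) (nat_lit 139)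 (nat_lit 141)) (PT.lf (nat_lit 3876) (nat_lit 6) (nat_lit 51) (nat_lit 5) (nat_lit 111) (nat_lit 139) (nat_lit 140)))) (PT.nd (nat_lit 78) (PT.lf (nat_lit 4180) (nat_lit 3) (nat_lit 55) (nat_lit 4) (nat_lit 112) (nat_lit 139) (nat_lit 139)) (PT.nd (nat_lit 78) (PT.lf (nat_lit 4408) (nat_lit 6) (nat_lit 58) (nat_lit 4) (nat_lit 113) (nat_lit 139) (nat_lit 138)) (PT.lf (nat_lit 4636) (nat_lit 6) (nat_lit 61) (nat_lit 4) (nat_lit 114) (nat_lit 139) (nat_lit 137))))) (PT.nd (nat_lit 234) (PT.nd (nat_lit 78) (PT.lf (nat_lit 4940) (nat_lit 6) (nat_lit 65) (nat_lit 4) (nat_lit 115) (nat_lit 139) (nat_lit 136)) (PT.nd (nat_lit 78) (PT.lf (nat_lit 5244) (nat_lit 6) (nat_lit 69) (nat_lit 4) (nat_lit 116) (nat_lit 139) (nat_lit 135)) (PT.lf (nat_lit 5548) (nat_lit 6) (nat_lit 73) (nat_lit 4) (nat_lit 117) (nat_lit 139) (nat_lit 134)))) (PT.nd (nat_lit 78) (PT.lf (nat_lit 5852) (nat_lit 6) (nat_lit 77)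 (nat_lit 4) (nat_lit 118) (nat_lit 139) (nat_lit 133)) (PT.nd (nat_lit 78) (PT.lf (nat_lit 6232) (nat_lit 6) (nat_lit 82) (nat_lit 4) (nat_lit 119) (nat_lit 139) (nat_lit 132)) (PT.lf (nat_lit 6764) (nat_lit 6) (nat_lit 89) (nat_lit 4) (nat_lit 120) (nat_lit 139) (nat_lit 131))))))) (PT.nd (nat_lit 936) (PT.nd (nat_lit 468) (PT.nd (nat_lit 234) (PT.nd (nat_lit 78) (PT.lf (nat_lit 7448) (nat_lit 6) (nat_lit 98) (nat_lit 4) (nat_lit 121) (nat_lit 139) (nat_lit 130)) (PT.nd (nat_lit 78) (PT.lf (nat_lit 7372) (nat_lit 6) (nat_lit 97) (nat_lit 4) (nat_lit 122) (nat_lit 139) (nat_lit 129)) (PT.lf (nat_lit 7296) (nat_lit 6) (nat_lit 96) (nat_lit 4) (nat_lit 123) (nat_lit 139) (nat_lit 128)))) (PT.nd (nat_lit 78) (PT.lf (nat_lit 7220) (nat_lit 6) (nat_lit 95) (nat_lit 4) (nat_lit 124) (nat_lit 139) (nat_lit 127)) (PT.nd (nat_lit 78) (PT.lf (nat_lit 7144) (nat_lit 6) (nat_lit 94) (nat_lit 4) (nat_lit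 125) (nat_lit 139) (nat_lit 126)) (PT.lf (nat_lit 7144) (nat_lit 6) (nat_lit 94) (nat_lit 2) (nat_lit 126) (nat_lit 139) (nat_lit 125))))) (PT.nd (nat_lit 234) (PT.nd (nat_lit 78) (PT.lf (nat_lit 7220) (nat_lit 6) (nat_lit 95) (nat_lit 2) (nat_lit 127) (nat_lit 139) (nat_lit 124)) (PT.nd (nat_lit 78) (PT.lf (nat_lit 7296) (nat_lit 6) (nat_lit 96) (nat_lit 2) (nat_lit 128) (nat_lit 139) (nat_lit 123)) (PT.lf (nat_lit 7372) (nat_lit 6) (nat_lit 97) (nat_lit 2) (nat_lit 129) (nat_lit 139) (nat_lit 122)))) (PT.nd (nat_lit 78) (PT.lf (nat_lit 7448) (nat_lit 6) (nat_lit 98) (nat_lit 2) (nat_lit 130) (nat_lit 139) (nat_lit 121)) (PT.nd (nat_lit 78) (PT.lf (nat_lit 6764) (nat_lit 6) (nat_lit 89) (nat_lit 2) (nat_lit 131) (nat_lit 139) (nat_lit 120)) (PT.lf (nat_lit 6232) (nat_lit 6) (nat_lit 82) (nat_lit 2) (nat_lit 132) (nat_lit 139) (nat_lit 119)))))) (PT.nd (nat_lit 468) (PT.nd (nat_lit 234) (PT.nd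 (nat_lit 78) (PT.lf (nat_lit 5852) (nat_lit 6) (nat_lit 77) (nat_lit 2) (nat_lit 133) (nat_lit 139) (nat_lit 118)) (PT.nd (nat_lit 78) (PT.lf (nat_lit 5548) (nat_lit 6) (nat_lit 73) (nat_lit 2) (nat_lit 134) (nat_lit 139) (nat_lit 117)) (PT.lf (nat_lit 5244) (nat_lit 6) (nat_lit 69) (nat_lit 2) (nat_lit 135) (nat_lit 139) (nat_lit 116)))) (PT.nd (nat_lit 78) (PT.lf (nat_lit 4940) (nat_lit 6) (nat_lit 65) (nat_lit 2) (nat_lit 136) (nat_lit 139) (nat_lit 115)) (PT.nd (nat_lit 78) (PT.lf (nat_lit 4636) (nat_lit 6) (nat_lit 61) (nat_lit 2) (nat_lit 137) (nat_lit 139) (nat_lit 114)) (PT.lf (nat_lit 4408) (nat_lit 6) (nat_lit 58) (nat_lit 2) (nat_lit 138) (nat_lit 139) (nat_lit 113))))) (PT.nd (nat_lit 234) (PT.nd (nat_lit 78) (PT.lf (nat_lit 4180) (nat_lit 3) (nat_lit 55) (nat_lit 0) (nat_lit 139) (nat_lit 139) (nat_lit 112)) (PT.nd (nat_lit 78) (PT.lf (nat_lit 3876) (nat_lit 6) (nat_lit 51) (nat_lit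 0) (nat_lit 140) (nat_lit 139) (nat_lit 111)) (PT.lf (nat_lit 3572) (nat_lit 6) (nat_lit 47) (nat_lit 0) (nat_lit 141) (nat_lit 139) (nat_lit 110)))) (PT.nd (nat_lit 37830) (PT.nd (nat_lit 78) (PT.lf (nat_lit 3344) (nat_lit 6) (nat_lit 44) (nat_lit 0) (nat_lit 142) (nat_lit 139) (nat_lit 109)) (PT.lf (nat_lit 3040) (nat_lit 6) (nat_lit 40) (nat_lit 0) (nat_lit 143) (nat_lit 139) (nat_lit 108))) (PT.nd (nat_lit 78) (PT.lf (nat_lit 2660) (nat_lit 6) (nat_lit 35) (nat_lit 5) (nat_lit 106) (nat_lit 140) (nat_lit 144)) (PT.lf (nat_lit 2888) (nat_lit 6) (nat_lit 38) (nat_lit 5) (nat_lit 107) (nat_lit 140) (nat_lit 143))))))))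
noncomputable def pc12 : PT := (PT.nd (nat_lit 2262) (PT.nd (nat_lit 936) (PT.nd (nat_lit 468) (PT.nd (nat_lit 234) (PT.nd (nat_lit 78) (PT.lf (nat_lit 3116) (nat_lit 6) (nat_lit 41) (nat_lit 5) (nat_lit 108) (nat_lit 140) (nat_lit 142)) (PT.nd (nat_lit 78) (PT.lf (nat_lit 3420) (nat_lit 6) (nat_lit 45) (nat_lit 5) (nat_lit 109) (nat_lit 140) (nat_lit 141)) (PT.lf (nat_lit 3648) (nat_lit 3) (nat_lit 48) (nat_lit 4) (nat_lit 110) (nat_lit 140) (nat_lit 140)))) (PT.nd (nat_lit 78) (PT.lf (nat_lit 3876) (nat_lit 6) (nat_lit 51) (nat_lit 4) (nat_lit 111) (nat_lit 140) (nat_lit 139)) (PT.nd (nat_lit 78) (PT.lf (nat_lit 4104) (nat_lit 6) (nat_lit 54) (nat_lit 4) (nat_lit 112) (nat_lit 140) (nat_lit 138)) (PT.lf (nat_lit 4332) (nat_lit 6) (nat_lit 57) (nat_lit 4) (nat_lit 113) (nat_lit 140) (nat_lit 137))))) (PT.nd (nat_lit 234) (PT.nd (nat_lit 78) (PT.lf (nat_lit 4560) (nat_lit 6) (nat_lit 60)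 (nat_lit 4) (nat_lit 114) (nat_lit 140) (nat_lit 136)) (PT.nd (nat_lit 78) (PT.lf (nat_lit 4864) (nat_lit 6) (nat_lit 64) (nat_lit 4) (nat_lit 115) (nat_lit 140) (nat_lit 135)) (PT.lf (nat_lit 5168) (nat_lit 6) (nat_lit 68) (nat_lit 4) (nat_lit 116) (nat_lit 140) (nat_lit 134)))) (PT.nd (nat_lit 78) (PT.lf (nat_lit 5472) (nat_lit 6) (nat_lit 72) (nat_lit 4) (nat_lit 117) (nat_lit 140) (nat_lit 133)) (PT.nd (nat_lit 78) (PT.lf (nat_lit 5776) (nat_lit 6) (nat_lit 76) (nat_lit 4) (nat_lit 118) (nat_lit 140) (nat_lit 132)) (PT.lf (nat_lit 6156) (nat_lit 6) (nat_lit 81) (nat_lit 4) (nat_lit 119) (nat_lit 140) (nat_lit 131)))))) (PT.nd (nat_lit 858) (PT.nd (nat_lit 624) (PT.nd (nat_lit 78) (PT.lf (nat_lit 6688) (nat_lit 6) (nat_lit 88) (nat_lit 4) (nat_lit 120) (nat_lit 140) (nat_lit 130)) (PT.nd (nat_lit 78) (PT.lf (nat_lit 6612) (nat_lit 6) (nat_lit 87) (nat_lit 4) (nat_lit 121) (nat_lit 140)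 (nat_lit 129)) (PT.lf (nat_lit 6536) (nat_lit 6) (nat_lit 86) (nat_lit 4) (nat_lit 122) (nat_lit 140) (nat_lit 128)))) (PT.nd (nat_lit 78) (PT.lf (nat_lit 6536) (nat_lit 6) (nat_lit 86) (nat_lit 2) (nat_lit 128) (nat_lit 140) (nat_lit 122)) (PT.nd (nat_lit 78) (PT.lf (nat_lit 6612) (nat_lit 6) (nat_lit 87) (nat_lit 2) (nat_lit 129) (nat_lit 140) (nat_lit 121)) (PT.lf (nat_lit 6688) (nat_lit 6) (nat_lit 88) (nat_lit 2) (nat_lit 130) (nat_lit 140) (nat_lit 120))))) (PT.nd (nat_lit 234) (PT.nd (nat_lit 78) (PT.lf (nat_lit 6156) (nat_lit 6) (nat_lit 81) (nat_lit 2) (nat_lit 131) (nat_lit 140) (nat_lit 119)) (PT.nd (nat_lit 78) (PT.lf (nat_lit 5776) (nat_lit 6) (nat_lit 76) (nat_lit 2) (nat_lit 132) (nat_lit 140) (nat_lit 118)) (PT.lf (nat_lit 5472) (nat_lit 6) (nat_lit 72) (nat_lit 2) (nat_lit 133) (nat_lit 140) (nat_lit 117)))) (PT.nd (nat_lit 78) (PT.lf (nat_lit 5168) (nat_lit 6) (nat_lit 68)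 (nat_lit 2) (nat_lit 134) (nat_lit 140) (nat_lit 116)) (PT.nd (nat_lit 78) (PT.lf (nat_lit 4864) (nat_lit 6) (nat_lit 64) (nat_lit 2) (nat_lit 135) (nat_lit 140) (nat_lit 115)) (PT.lf (nat_lit 4560) (nat_lit 6) (nat_lit 60) (nat_lit 2) (nat_lit 136) (nat_lit 140) (nat_lit 114))))))) (PT.nd (nat_lit 38376) (PT.nd (nat_lit 468) (PT.nd (nat_lit 234) (PT.nd (nat_lit 78) (PT.lf (nat_lit 4332) (nat_lit 6) (nat_lit 57) (nat_lit 2) (nat_lit 137) (nat_lit 140) (nat_lit 113)) (PT.nd (nat_lit 78) (PT.lf (nat_lit 4104) (nat_lit 6) (nat_lit 54) (nat_lit 2) (nat_lit 138) (nat_lit 140) (nat_lit 112)) (PT.lf (nat_lit 3876) (nat_lit 6) (nat_lit 51) (nat_lit 2) (nat_lit 139) (nat_lit 140) (nat_lit 111)))) (PT.nd (nat_lit 78) (PT.lf (nat_lit 3648) (nat_lit 3) (nat_lit 48) (nat_lit 0) (nat_lit 140) (nat_lit 140) (nat_lit 110)) (PT.nd (nat_lit 78) (PT.lf (nat_lit 3420) (nat_lit 6) (nat_lit 45) (nat_lit 0) (nat_lit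 141) (nat_lit 140) (nat_lit 109)) (PT.lf (nat_lit 3116) (nat_lit 6) (nat_lit 41) (nat_lit 0) (nat_lit 142) (nat_lit 140) (nat_lit 108))))) (PT.nd (nat_lit 37674) (PT.nd (nat_lit 78) (PT.lf (nat_lit 2888) (nat_lit 6) (nat_lit 38) (nat_lit 0) (nat_lit 143) (nat_lit 140) (nat_lit 107)) (PT.nd (nat_lit 37518) (PT.lf (nat_lit 2660) (nat_lit 6) (nat_lit 35) (nat_lit 0) (nat_lit 144) (nat_lit 140) (nat_lit 106)) (PT.lf (nat_lit 2280) (nat_lit 6) (nat_lit 30) (nat_lit 5) (nat_lit 104) (nat_lit 141) (nat_lit 145)))) (PT.nd (nat_lit 78) (PT.lf (nat_lit 2508) (nat_lit 6) (nat_lit 33) (nat_lit 5) (nat_lit 105) (nat_lit 141) (nat_lit 144)) (PT.nd (nat_lit 78) (PT.lf (nat_lit 2736) (nat_lit 6) (nat_lit 36) (nat_lit 5) (nat_lit 106) (nat_lit 141) (nat_lit 143)) (PT.lf (nat_lit 2964) (nat_lit 6) (nat_lit 39) (nat_lit 5) (nat_lit 107) (nat_lit 141) (nat_lit 142)))))) (PT.nd (nat_lit 468) (PT.nd (nat_lit 234)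 (PT.nd (nat_lit 78) (PT.lf (nat_lit 3192) (nat_lit 3) (nat_lit 42) (nat_lit 4) (nat_lit 108) (nat_lit 141) (nat_lit 141)) (PT.nd (nat_lit 78) (PT.lf (nat_lit 3420) (nat_lit 6) (nat_lit 45) (nat_lit 4) (nat_lit 109) (nat_lit 141) (nat_lit 140)) (PT.lf (nat_lit 3572) (nat_lit 6) (nat_lit 47) (nat_lit 4) (nat_lit 110) (nat_lit 141) (nat_lit 139)))) (PT.nd (nat_lit 78) (PT.lf (nat_lit 3800) (nat_lit 6) (nat_lit 50) (nat_lit 4) (nat_lit 111) (nat_lit 141) (nat_lit 138)) (PT.nd (nat_lit 78) (PT.lf (nat_lit 4028) (nat_lit 6) (nat_lit 53) (nat_lit 4) (nat_lit 112) (nat_lit 141) (nat_lit 137)) (PT.lf (nat_lit 4256) (nat_lit 6) (nat_lit 56) (nat_lit 4) (nat_lit 113) (nat_lit 141) (nat_lit 136))))) (PT.nd (nat_lit 1482) (PT.nd (nat_lit 78) (PT.lf (nat_lit 4484) (nat_lit 6) (nat_lit 59) (nat_lit 4) (nat_lit 114) (nat_lit 141) (nat_lit 135)) (PT.nd (nat_lit 78) (PT.lf (nat_lit 4788) (nat_lit 6) (nat_lit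 63) (nat_lit 4) (nat_lit 115) (nat_lit 141) (nat_lit 134)) (PT.lf (nat_lit 5092) (nat_lit 6) (nat_lit 67) (nat_lit 4) (nat_lit 116) (nat_lit 141) (nat_lit 133)))) (PT.nd (nat_lit 78) (PT.lf (nat_lit 5092) (nat_lit 6) (nat_lit 67) (nat_lit 2) (nat_lit 133) (nat_lit 141) (nat_lit 116)) (PT.nd (nat_lit 78) (PT.lf (nat_lit 4788) (nat_lit 6) (nat_lit 63) (nat_lit 2) (nat_lit 134) (nat_lit 141) (nat_lit 115)) (PT.lf (nat_lit 4484) (nat_lit 6) (nat_lit 59) (nat_lit 2) (nat_lit 135) (nat_lit 141) (nat_lit 114))))))))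
noncomputable def pc13 : PT := (PT.nd (nat_lit 40950) (PT.nd (nat_lit 38220) (PT.nd (nat_lit 468) (PT.nd (nat_lit 234) (PT.nd (nat_lit 78) (PT.lf (nat_lit 4256) (nat_lit 6) (nat_lit 56) (nat_lit 2) (nat_lit 136) (nat_lit 141) (nat_lit 113)) (PT.nd (nat_lit 78) (PT.lf (nat_lit 4028) (nat_lit 6) (nat_lit 53) (nat_lit 2) (nat_lit 137) (nat_lit 141) (nat_lit 112)) (PT.lf (nat_lit 3800) (nat_lit 6) (nat_lit 50) (nat_lit 2) (nat_lit 138) (nat_lit 141) (nat_lit 111)))) (PT.nd (nat_lit 78) (PT.lf (nat_lit 3572) (nat_lit 6) (nat_lit 47) (nat_lit 2) (nat_lit 139) (nat_lit 141) (nat_lit 110)) (PT.nd (nat_lit 78) (PT.lf (nat_lit 3420) (nat_lit 6) (nat_lit 45) (nat_lit 2) (nat_lit 140) (nat_lit 141) (nat_lit 109)) (PT.lf (nat_lit 3192) (nat_lit 3) (nat_lit 42) (nat_lit 0) (nat_lit 141) (nat_lit 141) (nat_lit 108))))) (PT.nd (nat_lit 234) (PT.nd (nat_lit 78) (PT.lf (nat_lit 2964) (nat_lit 6) (nat_lit 39)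 (nat_lit 0) (nat_lit 142) (nat_lit 141) (nat_lit 107)) (PT.nd (nat_lit 78) (PT.lf (nat_lit 2736) (nat_lit 6) (nat_lit 36) (nat_lit 0) (nat_lit 143) (nat_lit 141) (nat_lit 106)) (PT.lf (nat_lit 2508) (nat_lit 6) (nat_lit 33) (nat_lit 0) (nat_lit 144) (nat_lit 141) (nat_lit 105)))) (PT.nd (nat_lit 37362) (PT.lf (nat_lit 2280) (nat_lit 6) (nat_lit 30) (nat_lit 0) (nat_lit 145) (nat_lit 141) (nat_lit 104)) (PT.nd (nat_lit 78) (PT.lf (nat_lit 2128) (nat_lit 6) (nat_lit 28) (nat_lit 5) (nat_lit 103) (nat_lit 142) (nat_lit 145)) (PT.lf (nat_lit 2356) (nat_lit 6) (nat_lit 31) (nat_lit 5) (nat_lit 104) (nat_lit 142) (nat_lit 144)))))) (PT.nd (nat_lit 468) (PT.nd (nat_lit 234) (PT.nd (nat_lit 78) (PT.lf (nat_lit 2584) (nat_lit 6) (nat_lit 34) (nat_lit 5) (nat_lit 105) (nat_lit 142) (nat_lit 143)) (PT.nd (nat_lit 78) (PT.lf (nat_lit 2812) (nat_lit 3) (nat_lit 37) (nat_lit 4) (nat_lit 106) (nat_lit 142)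 (nat_lit 142)) (PT.lf (nat_lit 2964) (nat_lit 6) (nat_lit 39) (nat_lit 4) (nat_lit 107) (nat_lit 142) (nat_lit 141)))) (PT.nd (nat_lit 78) (PT.lf (nat_lit 3116) (nat_lit 6) (nat_lit 41) (nat_lit 4) (nat_lit 108) (nat_lit 142) (nat_lit 140)) (PT.nd (nat_lit 78) (PT.lf (nat_lit 3344) (nat_lit 6) (nat_lit 44) (nat_lit 4) (nat_lit 109) (nat_lit 142) (nat_lit 139)) (PT.lf (nat_lit 3496) (nat_lit 6) (nat_lit 46) (nat_lit 4) (nat_lit 110) (nat_lit 142) (nat_lit 138))))) (PT.nd (nat_lit 2028) (PT.nd (nat_lit 78) (PT.lf (nat_lit 3724) (nat_lit 6) (nat_lit 49) (nat_lit 4) (nat_lit 111) (nat_lit 142) (nat_lit 137)) (PT.nd (nat_lit 1872) (PT.lf (nat_lit 3952) (nat_lit 6) (nat_lit 52) (nat_lit 4) (nat_lit 112) (nat_lit 142) (nat_lit 136)) (PT.lf (nat_lit 3952) (nat_lit 6) (nat_lit 52) (nat_lit 2) (nat_lit 136) (nat_lit 142) (nat_lit 112)))) (PT.nd (nat_lit 78) (PT.lf (nat_lit 3724) (nat_lit 6) (nat_lit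 49) (nat_lit 2) (nat_lit 137) (nat_lit 142) (nat_lit 111)) (PT.nd (nat_lit 78) (PT.lf (nat_lit 3496) (nat_lit 6) (nat_lit 46) (nat_lit 2) (nat_lit 138) (nat_lit 142) (nat_lit 110)) (PT.lf (nat_lit 3344) (nat_lit 6) (nat_lit 44) (nat_lit 2) (nat_lit 139) (nat_lit 142) (nat_lit 109))))))) (PT.nd (nat_lit 38064) (PT.nd (nat_lit 37596) (PT.nd (nat_lit 234) (PT.nd (nat_lit 78) (PT.lf (nat_lit 3116) (nat_lit 6) (nat_lit 41) (nat_lit 2) (nat_lit 140) (nat_lit 142) (nat_lit 108)) (PT.nd (nat_lit 78) (PT.lf (nat_lit 2964) (nat_lit 6) (nat_lit 39) (nat_lit 2) (nat_lit 141) (nat_lit 142) (nat_lit 107)) (PT.lf (nat_lit 2812) (nat_lit 3) (nat_lit 37) (nat_lit 0) (nat_lit 142) (nat_lit 142) (nat_lit 106)))) (PT.nd (nat_lit 78) (PT.lf (nat_lit 2584) (nat_lit 6) (nat_lit 34) (nat_lit 0) (nat_lit 143) (nat_lit 142) (nat_lit 105)) (PT.nd (nat_lit 78) (PT.lf (nat_lit 2356) (nat_lit 6) (nat_lit 31) (nat_lit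 0) (nat_lit 144) (nat_lit 142) (nat_lit 104)) (PT.lf (nat_lit 2128) (nat_lit 6) (nat_lit 28) (nat_lit 0) (nat_lit 145) (nat_lit 142) (nat_lit 103))))) (PT.nd (nat_lit 234) (PT.nd (nat_lit 78) (PT.lf (nat_lit 1824) (nat_lit 6) (nat_lit 24) (nat_lit 5) (nat_lit 101) (nat_lit 143) (nat_lit 146)) (PT.nd (nat_lit 78) (PT.lf (nat_lit 1976) (nat_lit 6) (nat_lit 26) (nat_lit 5) (nat_lit 102) (nat_lit 143) (nat_lit 145)) (PT.lf (nat_lit 2204) (nat_lit 6) (nat_lit 29) (nat_lit 5) (nat_lit 103) (nat_lit 143) (nat_lit 144)))) (PT.nd (nat_lit 78) (PT.lf (nat_lit 2432) (nat_lit 3) (nat_lit 32) (nat_lit 4) (nat_lit 104) (nat_lit 143) (nat_lit 143)) (PT.nd (nat_lit 78) (PT.lf (nat_lit 2584) (nat_lit 6) (nat_lit 34) (nat_lit 4) (nat_lit 105) (nat_lit 143) (nat_lit 142)) (PT.lf (nat_lit 2736) (nat_lit 6) (nat_lit 36) (nat_lit 4) (nat_lit 106) (nat_lit 143) (nat_lit 141)))))) (PT.nd (nat_lit 2652) (PT.nd (nat_lit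 2418) (PT.nd (nat_lit 78) (PT.lf (nat_lit 2888) (nat_lit 6) (nat_lit 38) (nat_lit 4) (nat_lit 107) (nat_lit 143) (nat_lit 140)) (PT.nd (nat_lit 78) (PT.lf (nat_lit 3040) (nat_lit 6) (nat_lit 40) (nat_lit 4) (nat_lit 108) (nat_lit 143) (nat_lit 139)) (PT.lf (nat_lit 3268) (nat_lit 6) (nat_lit 43) (nat_lit 4) (nat_lit 109) (nat_lit 143) (nat_lit 138)))) (PT.nd (nat_lit 78) (PT.lf (nat_lit 3268) (nat_lit 6) (nat_lit 43) (nat_lit 2) (nat_lit 138) (nat_lit 143) (nat_lit 109)) (PT.nd (nat_lit 78) (PT.lf (nat_lit 3040) (nat_lit 6) (nat_lit 40) (nat_lit 2) (nat_lit 139) (nat_lit 143) (nat_lit 108)) (PT.lf (nat_lit 2888) (nat_lit 6) (nat_lit 38) (nat_lit 2) (nat_lit 140) (nat_lit 143) (nat_lit 107))))) (PT.nd (nat_lit 234) (PT.nd (nat_lit 78) (PT.lf (nat_lit 2736) (nat_lit 6) (nat_lit 36) (nat_lit 2) (nat_lit 141) (nat_lit 143) (nat_lit 106)) (PT.nd (nat_lit 78) (PT.lf (nat_lit 2584) (nat_lit 6) (nat_lit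 34) (nat_lit 2) (nat_lit 142) (nat_lit 143) (nat_lit 105)) (PT.lf (nat_lit 2432) (nat_lit 3) (nat_lit 32) (nat_lit 0) (nat_lit 143) (nat_lit 143) (nat_lit 104)))) (PT.nd (nat_lit 156) (PT.nd (nat_lit 78) (PT.lf (nat_lit 2204) (nat_lit 6) (nat_lit 29) (nat_lit 0) (nat_lit 144) (nat_lit 143) (nat_lit 103)) (PT.lf (nat_lit 1976) (nat_lit 6) (nat_lit 26) (nat_lit 0) (nat_lit 145) (nat_lit 143) (nat_lit 102))) (PT.nd (nat_lit 36972) (PT.lf (nat_lit 1824) (nat_lit 6) (nat_lit 24) (nat_lit 0) (nat_lit 146) (nat_lit 143) (nat_lit 101)) (PT.lf (nat_lit 1520) (nat_lit 6) (nat_lit 20) (nat_lit 5) (nat_lit 99) (nat_lit 144) (nat_lit 147))))))))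
noncomputable def pc14 : PT := (PT.nd (nat_lit 43992) (PT.nd (nat_lit 3510) (PT.nd (nat_lit 468) (PT.nd (nat_lit 234) (PT.nd (nat_lit 78) (PT.lf (nat_lit 1672) (nat_lit 6) (nat_lit 22) (nat_lit 5) (nat_lit 100) (nat_lit 144) (nat_lit 146)) (PT.nd (nat_lit 78) (PT.lf (nat_lit 1900) (nat_lit 6) (nat_lit 25) (nat_lit 5) (nat_lit 101) (nat_lit 144) (nat_lit 145)) (PT.lf (nat_lit 2052) (nat_lit 3) (nat_lit 27) (nat_lit 4) (nat_lit 102) (nat_lit 144) (nat_lit 144)))) (PT.nd (nat_lit 78) (PT.lf (nat_lit 2204) (nat_lit 6) (nat_lit 29) (nat_lit 4) (nat_lit 103) (nat_lit 144) (nat_lit 143)) (PT.nd (nat_lit 78) (PT.lf (nat_lit 2356) (nat_lit 6) (nat_lit 31) (nat_lit 4) (nat_lit 104) (nat_lit 144) (nat_lit 142)) (PT.lf (nat_lit 2508) (nat_lit 6) (nat_lit 33) (nat_lit 4) (nat_lit 105) (nat_lit 144) (nat_lit 141))))) (PT.nd (nat_lit 2808) (PT.nd (nat_lit 2652) (PT.lf (nat_lit 2660) (nat_lit 6) (nat_lit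 35) (nat_lit 4) (nat_lit 106) (nat_lit 144) (nat_lit 140)) (PT.nd (nat_lit 78) (PT.lf (nat_lit 2660) (nat_lit 6) (nat_lit 35) (nat_lit 2) (nat_lit 140) (nat_lit 144) (nat_lit 106)) (PT.lf (nat_lit 2508) (nat_lit 6) (nat_lit 33) (nat_lit 2) (nat_lit 141) (nat_lit 144) (nat_lit 105)))) (PT.nd (nat_lit 78) (PT.lf (nat_lit 2356) (nat_lit 6) (nat_lit 31) (nat_lit 2) (nat_lit 142) (nat_lit 144) (nat_lit 104)) (PT.nd (nat_lit 78) (PT.lf (nat_lit 2204) (nat_lit 6) (nat_lit 29) (nat_lit 2) (nat_lit 143) (nat_lit 144) (nat_lit 103)) (PT.lf (nat_lit 2052) (nat_lit 3) (nat_lit 27) (nat_lit 0) (nat_lit 144) (nat_lit 144) (nat_lit 102)))))) (PT.nd (nat_lit 37206) (PT.nd (nat_lit 36972) (PT.nd (nat_lit 78) (PT.lf (nat_lit 1900) (nat_lit 6) (nat_lit 25) (nat_lit 0) (nat_lit 145) (nat_lit 144) (nat_lit 101)) (PT.nd (nat_lit 78) (PT.lf (nat_lit 1672) (nat_lit 6) (nat_lit 22) (nat_lit 0) (nat_lit 146) (nat_lit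 144) (nat_lit 100)) (PT.lf (nat_lit 1520) (nat_lit 6) (nat_lit 20) (nat_lit 0) (nat_lit 147) (nat_lit 144) (nat_lit 99)))) (PT.nd (nat_lit 78) (PT.lf (nat_lit 1368) (nat_lit 6) (nat_lit 18) (nat_lit 5) (nat_lit 98) (nat_lit 145) (nat_lit 147)) (PT.nd (nat_lit 78) (PT.lf (nat_lit 1596) (nat_lit 6) (nat_lit 21) (nat_lit 5) (nat_lit 99) (nat_lit 145) (nat_lit 146)) (PT.lf (nat_lit 1748) (nat_lit 3) (nat_lit 23) (nat_lit 4) (nat_lit 100) (nat_lit 145) (nat_lit 145))))) (PT.nd (nat_lit 234) (PT.nd (nat_lit 78) (PT.lf (nat_lit 1900) (nat_lit 6) (nat_lit 25) (nat_lit 4) (nat_lit 101) (nat_lit 145) (nat_lit 144)) (PT.nd (nat_lit 78) (PT.lf (nat_lit 1976) (nat_lit 6) (nat_lit 26) (nat_lit 4) (nat_lit 102) (nat_lit 145) (nat_lit 143)) (PT.lf (nat_lit 2128) (nat_lit 6) (nat_lit 28) (nat_lit 4) (nat_lit 103) (nat_lit 145) (nat_lit 142)))) (PT.nd (nat_lit 2886) (PT.lf (nat_lit 2280) (nat_lit 6) (nat_lit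 30) (nat_lit 4) (nat_lit 104) (nat_lit 145) (nat_lit 141)) (PT.nd (nat_lit 78) (PT.lf (nat_lit 2280) (nat_lit 6) (nat_lit 30) (nat_lit 2) (nat_lit 141) (nat_lit 145) (nat_lit 104)) (PT.lf (nat_lit 2128) (nat_lit 6) (nat_lit 28) (nat_lit 2) (nat_lit 142) (nat_lit 145) (nat_lit 103))))))) (PT.nd (nat_lit 40716) (PT.nd (nat_lit 37050) (PT.nd (nat_lit 234) (PT.nd (nat_lit 78) (PT.lf (nat_lit 1976) (nat_lit 6) (nat_lit 26) (nat_lit 2) (nat_lit 143) (nat_lit 145) (nat_lit 102)) (PT.nd (nat_lit 78) (PT.lf (nat_lit 1900) (nat_lit 6) (nat_lit 25) (nat_lit 2) (nat_lit 144) (nat_lit 145) (nat_lit 101)) (PT.lf (nat_lit 1748) (nat_lit 3) (nat_lit 23) (nat_lit 0) (nat_lit 145) (nat_lit 145) (nat_lit 100)))) (PT.nd (nat_lit 78) (PT.lf (nat_lit 1596) (nat_lit 6) (nat_lit 21) (nat_lit 0) (nat_lit 146) (nat_lit 145) (nat_lit 99)) (PT.nd (nat_lit 36660) (PT.lf (nat_lit 1368) (nat_lit 6) (nat_lit 18) (nat_lit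 0) (nat_lit 147) (nat_lit 145) (nat_lit 98)) (PT.lf (nat_lit 1140) (nat_lit 6) (nat_lit 15) (nat_lit 5) (nat_lit 96) (nat_lit 146) (nat_lit 148))))) (PT.nd (nat_lit 234) (PT.nd (nat_lit 78) (PT.lf (nat_lit 1292) (nat_lit 6) (nat_lit 17) (nat_lit 5) (nat_lit 97) (nat_lit 146) (nat_lit 147)) (PT.nd (nat_lit 78) (PT.lf (nat_lit 1444) (nat_lit 3) (nat_lit 19) (nat_lit 4) (nat_lit 98) (nat_lit 146) (nat_lit 146)) (PT.lf (nat_lit 1596) (nat_lit 6) (nat_lit 21) (nat_lit 4) (nat_lit 99) (nat_lit 146) (nat_lit 145)))) (PT.nd (nat_lit 78) (PT.lf (nat_lit 1672) (nat_lit 6) (nat_lit 22) (nat_lit 4) (nat_lit 100) (nat_lit 146) (nat_lit 144)) (PT.nd (nat_lit 3276) (PT.lf (nat_lit 1824) (nat_lit 6) (nat_lit 24) (nat_lit 4) (nat_lit 101) (nat_lit 146) (nat_lit 143)) (PT.lf (nat_lit 1824) (nat_lit 6) (nat_lit 24) (nat_lit 2) (nat_lit 143) (nat_lit 146) (nat_lit 101)))))) (PT.nd (nat_lit 36816) (PT.nd (nat_lit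 234) (PT.nd (nat_lit 78) (PT.lf (nat_lit 1672) (nat_lit 6) (nat_lit 22) (nat_lit 2) (nat_lit 144) (nat_lit 146) (nat_lit 100)) (PT.nd (nat_lit 78) (PT.lf (nat_lit 1596) (nat_lit 6) (nat_lit 21) (nat_lit 2) (nat_lit 145) (nat_lit 146) (nat_lit 99)) (PT.lf (nat_lit 1444) (nat_lit 3) (nat_lit 19) (nat_lit 0) (nat_lit 146) (nat_lit 146) (nat_lit 98)))) (PT.nd (nat_lit 78) (PT.lf (nat_lit 1292) (nat_lit 6) (nat_lit 17) (nat_lit 0) (nat_lit 147) (nat_lit 146) (nat_lit 97)) (PT.nd (nat_lit 36426) (PT.lf (nat_lit 1140) (nat_lit 6) (nat_lit 15) (nat_lit 0) (nat_lit 148) (nat_lit 146) (nat_lit 96)) (PT.lf (nat_lit 912) (nat_lit 6) (nat_lit 12) (nat_lit 5) (nat_lit 94) (nat_lit 147) (nat_lit 149))))) (PT.nd (nat_lit 234) (PT.nd (nat_lit 78) (PT.lf (nat_lit 1064) (nat_lit 6) (nat_lit 14) (nat_lit 5) (nat_lit 95) (nat_lit 147) (nat_lit 148)) (PT.nd (nat_lit 78) (PT.lf (nat_lit 1216) (nat_lit 3) (nat_lit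 16) (nat_lit 4) (nat_lit 96) (nat_lit 147) (nat_lit 147)) (PT.lf (nat_lit 1292) (nat_lit 6) (nat_lit 17) (nat_lit 4) (nat_lit 97) (nat_lit 147) (nat_lit 146)))) (PT.nd (nat_lit 78) (PT.lf (nat_lit 1368) (nat_lit 6) (nat_lit 18) (nat_lit 4) (nat_lit 98) (nat_lit 147) (nat_lit 145)) (PT.nd (nat_lit 3510) (PT.lf (nat_lit 1520) (nat_lit 6) (nat_lit 20) (nat_lit 4) (nat_lit 99) (nat_lit 147) (nat_lit 144)) (PT.lf (nat_lit 1520) (nat_lit 6) (nat_lit 20) (nat_lit 2) (nat_lit 144) (nat_lit 147) (nat_lit 99))))))))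
noncomputable def pc15 : PT := (PT.nd (nat_lit 81744) (PT.nd (nat_lit 40872) (PT.nd (nat_lit 36582) (PT.nd (nat_lit 234) (PT.nd (nat_lit 78) (PT.lf (nat_lit 1368) (nat_lit 6) (nat_lit 18) (nat_lit 2) (nat_lit 145) (nat_lit 147) (nat_lit 98)) (PT.nd (nat_lit 78) (PT.lf (nat_lit 1292) (nat_lit 6) (nat_lit 17) (nat_lit 2) (nat_lit 146) (nat_lit 147) (nat_lit 97)) (PT.lf (nat_lit 1216) (nat_lit 3) (nat_lit 16) (nat_lit 0) (nat_lit 147) (nat_lit 147) (nat_lit 96)))) (PT.nd (nat_lit 78) (PT.lf (nat_lit 1064) (nat_lit 6) (nat_lit 14) (nat_lit 0) (nat_lit 148) (nat_lit 147) (nat_lit 95)) (PT.nd (nat_lit 36192) (PT.lf (nat_lit 912) (nat_lit 6) (nat_lit 12) (nat_lit 0) (nat_lit 149) (nat_lit 147) (nat_lit 94)) (PT.lf (nat_lit 684) (nat_lit 6) (nat_lit 9) (nat_lit 5) (nat_lit 92) (nat_lit 148) (nat_lit 150))))) (PT.nd (nat_lit 234) (PT.nd (nat_lit 78) (PT.lf (nat_lit 836) (nat_lit 6) (nat_lit 11) (nat_lit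 5) (nat_lit 93) (nat_lit 148) (nat_lit 149)) (PT.nd (nat_lit 78) (PT.lf (nat_lit 988) (nat_lit 3) (nat_lit 13) (nat_lit 4) (nat_lit 94) (nat_lit 148) (nat_lit 148)) (PT.lf (nat_lit 1064) (nat_lit 6) (nat_lit 14) (nat_lit 4) (nat_lit 95) (nat_lit 148) (nat_lit 147)))) (PT.nd (nat_lit 3900) (PT.lf (nat_lit 1140) (nat_lit 6) (nat_lit 15) (nat_lit 4) (nat_lit 96) (nat_lit 148) (nat_lit 146)) (PT.nd (nat_lit 78) (PT.lf (nat_lit 1140) (nat_lit 6) (nat_lit 15) (nat_lit 2) (nat_lit 146) (nat_lit 148) (nat_lit 96)) (PT.lf (nat_lit 1064) (nat_lit 6) (nat_lit 14) (nat_lit 2) (nat_lit 147) (nat_lit 148) (nat_lit 95)))))) (PT.nd (nat_lit 36348) (PT.nd (nat_lit 36114) (PT.nd (nat_lit 78) (PT.lf (nat_lit 988) (nat_lit 3) (nat_lit 13) (nat_lit 0) (nat_lit 148) (nat_lit 148) (nat_lit 94)) (PT.nd (nat_lit 78) (PT.lf (nat_lit 836) (nat_lit 6) (nat_lit 11) (nat_lit 0) (nat_lit 149) (nat_lit 148) (nat_lit 93))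 (PT.lf (nat_lit 684) (nat_lit 6) (nat_lit 9) (nat_lit 0) (nat_lit 150) (nat_lit 148) (nat_lit 92)))) (PT.nd (nat_lit 78) (PT.lf (nat_lit 456) (nat_lit 6) (nat_lit 6) (nat_lit 5) (nat_lit 90) (nat_lit 149) (nat_lit 151)) (PT.nd (nat_lit 78) (PT.lf (nat_lit 608) (nat_lit 6) (nat_lit 8) (nat_lit 5) (nat_lit 91) (nat_lit 149) (nat_lit 150)) (PT.lf (nat_lit 760) (nat_lit 3) (nat_lit 10) (nat_lit 4) (nat_lit 92) (nat_lit 149) (nat_lit 149))))) (PT.nd (nat_lit 4290) (PT.nd (nat_lit 78) (PT.lf (nat_lit 836) (nat_lit 6) (nat_lit 11) (nat_lit 4) (nat_lit 93) (nat_lit 149) (nat_lit 148)) (PT.nd (nat_lit 4134) (PT.lf (nat_lit 912) (nat_lit 6) (nat_lit 12) (nat_lit 4) (nat_lit 94) (nat_lit 149) (nat_lit 147)) (PT.lf (nat_lit 912) (nat_lit 6) (nat_lit 12) (nat_lit 2) (nat_lit 147) (nat_lit 149) (nat_lit 94)))) (PT.nd (nat_lit 78) (PT.lf (nat_lit 836) (nat_lit 6) (nat_lit 11) (nat_lit 2) (nat_lit 148) (nat_lit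 149) (nat_lit 93)) (PT.nd (nat_lit 78) (PT.lf (nat_lit 760) (nat_lit 3) (nat_lit 10) (nat_lit 0) (nat_lit 149) (nat_lit 149) (nat_lit 92)) (PT.lf (nat_lit 608) (nat_lit 6) (nat_lit 8) (nat_lit 0) (nat_lit 150) (nat_lit 149) (nat_lit 91))))))) (PT.nd (nat_lit 76362) (PT.nd (nat_lit 40404) (PT.nd (nat_lit 35880) (PT.nd (nat_lit 35724) (PT.lf (nat_lit 456) (nat_lit 6) (nat_lit 6) (nat_lit 0) (nat_lit 151) (nat_lit 149) (nat_lit 90)) (PT.nd (nat_lit 78) (PT.lf (nat_lit 228) (nat_lit 6) (nat_lit 3) (nat_lit 5) (nat_lit 88) (nat_lit 150) (nat_lit 152)) (PT.lf (nat_lit 380) (nat_lit 6) (nat_lit 5) (nat_lit 5) (nat_lit 89) (nat_lit 150) (nat_lit 151)))) (PT.nd (nat_lit 78) (PT.lf (nat_lit 532) (nat_lit 3) (nat_lit 7) (nat_lit 4) (nat_lit 90) (nat_lit 150) (nat_lit 150)) (PT.nd (nat_lit 78) (PT.lf (nat_lit 608) (nat_lit 6) (nat_lit 8) (nat_lit 4) (nat_lit 91) (nat_lit 150) (nat_lit 149)) (PT.lf (nat_lit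 684) (nat_lit 6) (nat_lit 9) (nat_lit 4) (nat_lit 92) (nat_lit 150) (nat_lit 148))))) (PT.nd (nat_lit 234) (PT.nd (nat_lit 78) (PT.lf (nat_lit 684) (nat_lit 6) (nat_lit 9) (nat_lit 2) (nat_lit 148) (nat_lit 150) (nat_lit 92)) (PT.nd (nat_lit 78) (PT.lf (nat_lit 608) (nat_lit 6) (nat_lit 8) (nat_lit 2) (nat_lit 149) (nat_lit 150) (nat_lit 91)) (PT.lf (nat_lit 532) (nat_lit 3) (nat_lit 7) (nat_lit 0) (nat_lit 150) (nat_lit 150) (nat_lit 90)))) (PT.nd (nat_lit 78) (PT.lf (nat_lit 380) (nat_lit 6) (nat_lit 5) (nat_lit 0) (nat_lit 151) (nat_lit 150) (nat_lit 89)) (PT.nd (nat_lit 35568) (PT.lf (nat_lit 228) (nat_lit 6) (nat_lit 3) (nat_lit 0) (nat_lit 152) (nat_lit 150) (nat_lit 88)) (PT.lf (nat_lit 152) (nat_lit 6) (nat_lit 2) (nat_lit 5) (nat_lit 87) (nat_lit 151) (nat_lit 152)))))) (PT.nd (nat_lit 4992) (PT.nd (nat_lit 4758) (PT.nd (nat_lit 78) (PT.lf (nat_lit 304) (nat_lit 3) (nat_lit 4) (nat_lit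 4) (nat_lit 88) (nat_lit 151) (nat_lit 151)) (PT.nd (nat_lit 78) (PT.lf (nat_lit 380) (nat_lit 6) (nat_lit 5) (nat_lit 4) (nat_lit 89) (nat_lit 151) (nat_lit 150)) (PT.lf (nat_lit 456) (nat_lit 6) (nat_lit 6) (nat_lit 4) (nat_lit 90) (nat_lit 151) (nat_lit 149)))) (PT.nd (nat_lit 78) (PT.lf (nat_lit 456) (nat_lit 6) (nat_lit 6) (nat_lit 2) (nat_lit 149) (nat_lit 151) (nat_lit 90)) (PT.nd (nat_lit 78) (PT.lf (nat_lit 380) (nat_lit 6) (nat_lit 5) (nat_lit 2) (nat_lit 150) (nat_lit 151) (nat_lit 89)) (PT.lf (nat_lit 304) (nat_lit 3) (nat_lit 4) (nat_lit 0) (nat_lit 151) (nat_lit 151) (nat_lit 88))))) (PT.nd (nat_lit 35646) (PT.nd (nat_lit 35490) (PT.lf (nat_lit 152) (nat_lit 6) (nat_lit 2) (nat_lit 0) (nat_lit 152) (nat_lit 151) (nat_lit 87)) (PT.nd (nat_lit 78) (PT.lf (nat_lit 76) (nat_lit 3) (nat_lit 1) (nat_lit 4) (nat_lit 86) (nat_lit 152) (nat_lit 152)) (PT.lf (nat_lit 152) (nat_lit 6)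 (nat_lit 2) (nat_lit 4) (nat_lit 87) (nat_lit 152) (nat_lit 151)))) (PT.nd (nat_lit 4914) (PT.nd (nat_lit 4836) (PT.lf (nat_lit 228) (nat_lit 6) (nat_lit 3) (nat_lit 4) (nat_lit 88) (nat_lit 152) (nat_lit 150)) (PT.lf (nat_lit 228) (nat_lit 6) (nat_lit 3) (nat_lit 2) (nat_lit 150) (nat_lit 152) (nat_lit 88))) (PT.nd (nat_lit 78) (PT.lf (nat_lit 152) (nat_lit 6) (nat_lit 2) (nat_lit 2) (nat_lit 151) (nat_lit 152) (nat_lit 87)) (PT.lf (nat_lit 76) (nat_lit 3) (nat_lit 1) (nat_lit 0) (nat_lit 152) (nat_lit 152) (nat_lit 86))))))))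
noncomputable def xc0 : XT := (XT.nd (nat_lit 162552) (nat_lit 0) (nat_lit 0) (XT.nd (nat_lit 121602) (nat_lit 0) (nat_lit 0) (XT.nd (nat_lit 81042) (nat_lit 0) (nat_lit 0) (XT.nd (nat_lit 40560) (nat_lit 0) (nat_lit 0) (XT.nd (nat_lit 40404) (nat_lit 0) (nat_lit 0) (XT.lf (nat_lit 0) (nat_lit 99680974122) (nat_lit 152) (nat_lit 5309259587) (nat_lit 0) (nat_lit 99552579244) (nat_lit 2) (nat_lit 5) (nat_lit 4) (nat_lit 4) (nat_lit 2) (nat_lit 4) (nat_lit 367) (nat_lit 207) (nat_lit 206)) (XT.nd (nat_lit 78) (nat_lit 0) (nat_lit 0) (XT.lf (nat_lit 0) (nat_lit 38721857252) (nat_lit 152) (nat_lit 11040404638) (nat_lit 0) (nat_lit 38721857252) (nat_lit 2) (nat_lit 5) (nat_lit 4) (nat_lit 4) (nat_lit 2) (nat_lit 4) (nat_lit 364) (nat_lit 208) (nat_lit 208)) (XT.lf (nat_lit 0) (nat_lit 84610695064) (nat_lit 152) (nat_lit 16626431705) (nat_lit 0) (nat_lit 84475880443) (nat_lit 2) (nat_lit 5) (nat_lit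 4) (nat_lit 4) (nat_lit 2) (nat_lit 4) (nat_lit 365) (nat_lit 208) (nat_lit 207)))) (XT.nd (nat_lit 40326) (nat_lit 0) (nat_lit 0) (XT.nd (nat_lit 78) (nat_lit 0) (nat_lit 0) (XT.lf (nat_lit 0) (nat_lit 92027813932) (nat_lit 152) (nat_lit 11105859940) (nat_lit 0) (nat_lit 91764604433) (nat_lit 2) (nat_lit 5) (nat_lit 4) (nat_lit 4) (nat_lit 2) (nat_lit 4) (nat_lit 366) (nat_lit 208) (nat_lit 206)) (XT.lf (nat_lit 0) (nat_lit 99712730915) (nat_lit 152) (nat_lit 5505949763) (nat_lit 0) (nat_lit 99327240579) (nat_lit 2) (nat_lit 5) (nat_lit 4) (nat_lit 4) (nat_lit 2) (nat_lit 4) (nat_lit 367) (nat_lit 208) (nat_lit 205))) (XT.nd (nat_lit 78) (nat_lit 0) (nat_lit 0) (XT.lf (nat_lit 0) (nat_lit 31996108947) (nat_lit 152) (nat_lit 16365865811) (nat_lit 0) (nat_lit 31996108947) (nat_lit 2) (nat_lit 5) (nat_lit 4) (nat_lit 4) (nat_lit 2) (nat_lit 4) (nat_lit 362) (nat_lit 209) (nat_lit 209)) (XT.lf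 (nat_lit 0) (nat_lit 70651363365) (nat_lit 152) (nat_lit 27481979266) (nat_lit 0) (nat_lit 70509808013) (nat_lit 2) (nat_lit 5) (nat_lit 4) (nat_lit 4) (nat_lit 2) (nat_lit 4) (nat_lit 363) (nat_lit 209) (nat_lit 208))))) (XT.nd (nat_lit 234) (nat_lit 0) (nat_lit 0) (XT.nd (nat_lit 78) (nat_lit 0) (nat_lit 0) (XT.lf (nat_lit 0) (nat_lit 77529844854) (nat_lit 152) (nat_lit 22186590212) (nat_lit 0) (nat_lit 77253474880) (nat_lit 2) (nat_lit 5) (nat_lit 4) (nat_lit 4) (nat_lit 2) (nat_lit 4) (nat_lit 364) (nat_lit 209) (nat_lit 207)) (XT.nd (nat_lit 78) (nat_lit 0) (nat_lit 0) (XT.lf (nat_lit 0) (nat_lit 84644039697) (nat_lit 152) (nat_lit 16832956390) (nat_lit 0) (nat_lit 84239274845) (nat_lit 2) (nat_lit 5) (nat_lit 4) (nat_lit 4) (nat_lit 2) (nat_lit 4) (nat_lit 365) (nat_lit 209) (nat_lit 206)) (XT.lf (nat_lit 0) (nat_lit 92010886453) (nat_lit 152) (nat_lit 11408331052) (nat_lit 0) (nat_lit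 91483840765) (nat_lit 2) (nat_lit 5) (nat_lit 4) (nat_lit 4) (nat_lit 2) (nat_lit 4) (nat_lit 366) (nat_lit 209) (nat_lit 205)))) (XT.nd (nat_lit 40170) (nat_lit 0) (nat_lit 0) (XT.nd (nat_lit 40092) (nat_lit 0) (nat_lit 0) (XT.lf (nat_lit 0) (nat_lit 99647925234) (nat_lit 152) (nat_lit 5899798424) (nat_lit 0) (nat_lit 99004421607) (nat_lit 2) (nat_lit 5) (nat_lit 4) (nat_lit 4) (nat_lit 2) (nat_lit 4) (nat_lit 367) (nat_lit 209) (nat_lit 204)) (XT.lf (nat_lit 0) (nat_lit 25739369117) (nat_lit 152) (nat_lit 21513810748) (nat_lit 0) (nat_lit 25739369117) (nat_lit 2) (nat_lit 5) (nat_lit 4) (nat_lit 4) (nat_lit 2) (nat_lit 4) (nat_lit 360) (nat_lit 210) (nat_lit 210))) (XT.nd (nat_lit 78) (nat_lit 0) (nat_lit 0) (XT.lf (nat_lit 0) (nat_lit 57685186452) (nat_lit 152) (nat_lit 37948346689) (nat_lit 0) (nat_lit 57536553332) (nat_lit 2) (nat_lit 5) (nat_lit 4) (nat_lit 4) (nat_lit 2) (nat_lit 4)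 (nat_lit 361) (nat_lit 210) (nat_lit 209)) (XT.lf (nat_lit 0) (nat_lit 64082654761) (nat_lit 152) (nat_lit 32842801605) (nat_lit 0) (nat_lit 63792466288) (nat_lit 2) (nat_lit 5) (nat_lit 4) (nat_lit 4) (nat_lit 2) (nat_lit 4) (nat_lit 362) (nat_lit 210) (nat_lit 208)))))) (XT.nd (nat_lit 40404) (nat_lit 0) (nat_lit 0) (XT.nd (nat_lit 234) (nat_lit 0) (nat_lit 0) (XT.nd (nat_lit 78) (nat_lit 0) (nat_lit 0) (XT.lf (nat_lit 0) (nat_lit 70686375230) (nat_lit 152) (nat_lit 27698830185) (nat_lit 0) (nat_lit 70261372135) (nat_lit 2) (nat_lit 5) (nat_lit 4) (nat_lit 4) (nat_lit 2) (nat_lit 4) (nat_lit 363) (nat_lit 210) (nat_lit 207)) (XT.nd (nat_lit 78) (nat_lit 0) (nat_lit 0) (XT.lf (nat_lit 0) (nat_lit 77512071001) (nat_lit 152) (nat_lit 22504184879) (nat_lit 0) (nat_lit 76958673029) (nat_lit 2) (nat_lit 5) (nat_lit 4) (nat_lit 4) (nat_lit 2) (nat_lit 4) (nat_lit 364) (nat_lit 210) (nat_lit 206))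 (XT.lf (nat_lit 0) (nat_lit 84575993732) (nat_lit 152) (nat_lit 17246497484) (nat_lit 0) (nat_lit 83900314924) (nat_lit 2) (nat_lit 5) (nat_lit 4) (nat_lit 4) (nat_lit 2) (nat_lit 4) (nat_lit 365) (nat_lit 210) (nat_lit 205)))) (XT.nd (nat_lit 40014) (nat_lit 0) (nat_lit 0) (XT.nd (nat_lit 78) (nat_lit 0) (nat_lit 0) (XT.lf (nat_lit 0) (nat_lit 91894962287) (nat_lit 152) (nat_lit 11913249696) (nat_lit 0) (nat_lit 91102825540) (nat_lit 2) (nat_lit 5) (nat_lit 4) (nat_lit 4) (nat_lit 2) (nat_lit 4) (nat_lit 366) (nat_lit 210) (nat_lit 204)) (XT.lf (nat_lit 0) (nat_lit 99486402781) (nat_lit 152) (nat_lit 6491743307) (nat_lit 0) (nat_lit 98583353711) (nat_lit 2) (nat_lit 5) (nat_lit 4) (nat_lit 4) (nat_lit 2) (nat_lit 4) (nat_lit 367) (nat_lit 210) (nat_lit 203))) (XT.nd (nat_lit 78) (nat_lit 0) (nat_lit 0) (XT.lf (nat_lit 0) (nat_lit 19900219408) (nat_lit 152) (nat_lit 26516622961) (nat_lit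 0) (nat_lit 19900219408) (nat_lit 2) (nat_lit 5) (nat_lit 4) (nat_lit 4) (nat_lit 2) (nat_lit 4) (nat_lit 358) (nat_lit 211) (nat_lit 211)) (XT.lf (nat_lit 0) (nat_lit 45604597628) (nat_lit 152) (nat_lit 48092719542) (nat_lit 0) (nat_lit 45448532852) (nat_lit 2) (nat_lit 5) (nat_lit 4) (nat_lit 4) (nat_lit 2) (nat_lit 4) (nat_lit 359) (nat_lit 211) (nat_lit 210))))) (XT.nd (nat_lit 234) (nat_lit 0) (nat_lit 0) (XT.nd (nat_lit 78) (nat_lit 0) (nat_lit 0) (XT.lf (nat_lit 0) (nat_lit 51573696946) (nat_lit 152) (nat_lit 43144244979) (nat_lit 0) (nat_lit 51268999049) (nat_lit 2) (nat_lit 5) (nat_lit 4) (nat_lit 4) (nat_lit 2) (nat_lit 4) (nat_lit 360) (nat_lit 211) (nat_lit 209)) (XT.nd (nat_lit 78) (nat_lit 0) (nat_lit 0) (XT.lf (nat_lit 0) (nat_lit 57721948910) (nat_lit 152) (nat_lit 38176040154) (nat_lit 0) (nat_lit 57275695660) (nat_lit 2) (nat_lit 5) (nat_lit 4) (nat_lit 4) (nat_lit 2) (nat_lit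 4) (nat_lit 361) (nat_lit 211) (nat_lit 208)) (XT.lf (nat_lit 0) (nat_lit 64063992216) (nat_lit 152) (nat_lit 33176276006) (nat_lit 0) (nat_lit 63482924344) (nat_lit 2) (nat_lit 5) (nat_lit 4) (nat_lit 4) (nat_lit 2) (nat_lit 4) (nat_lit 362) (nat_lit 211) (nat_lit 207)))) (XT.nd (nat_lit 156) (nat_lit 0) (nat_lit 0) (XT.nd (nat_lit 78) (nat_lit 0) (nat_lit 0) (XT.lf (nat_lit 0) (nat_lit 70614926967) (nat_lit 152) (nat_lit 28133048335) (nat_lit 0) (nat_lit 69905464218) (nat_lit 2) (nat_lit 5) (nat_lit 4) (nat_lit 4) (nat_lit 2) (nat_lit 4) (nat_lit 363) (nat_lit 211) (nat_lit 206)) (XT.lf (nat_lit 0) (nat_lit 77390350627) (nat_lit 152) (nat_lit 23034349456) (nat_lit 0) (nat_lit 76558607042) (nat_lit 2) (nat_lit 5) (nat_lit 4) (nat_lit 4) (nat_lit 2) (nat_lit 4) (nat_lit 364) (nat_lit 211) (nat_lit 205))) (XT.nd (nat_lit 78) (nat_lit 0) (nat_lit 0) (XT.lf (nat_lit 0) (nat_lit 84406395156)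 (nat_lit 152) (nat_lit 17868039611) (nat_lit 0) (nat_lit 83458193633) (nat_lit 2) (nat_lit 5) (nat_lit 4) (nat_lit 4) (nat_lit 2) (nat_lit 4) (nat_lit 365) (nat_lit 211) (nat_lit 204)) (XT.lf (nat_lit 0) (nat_lit 91679765424) (nat_lit 152) (nat_lit 12621818061) (nat_lit 0) (nat_lit 90620651577) (nat_lit 2) (nat_lit 5) (nat_lit 4) (nat_lit 4) (nat_lit 2) (nat_lit 4) (nat_lit 366) (nat_lit 211) (nat_lit 203))))))) (XT.nd (nat_lit 80340) (nat_lit 0) (nat_lit 0) (XT.nd (nat_lit 40248) (nat_lit 0) (nat_lit 0) (XT.nd (nat_lit 39936) (nat_lit 0) (nat_lit 0) (XT.nd (nat_lit 39780) (nat_lit 0) (nat_lit 0) (XT.lf (nat_lit 0) (nat_lit 99227778978) (nat_lit 152) (nat_lit 7283193802) (nat_lit 0) (nat_lit 98063034347) (nat_lit 2) (nat_lit 5) (nat_lit 4) (nat_lit 4) (nat_lit 2) (nat_lit 4) (nat_lit 367) (nat_lit 211) (nat_lit 202)) (XT.nd (nat_lit 78) (nat_lit 0) (nat_lit 0) (XT.lf (nat_lit 0) (nat_lit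 14431631136) (nat_lit 152) (nat_lit 31404469235) (nat_lit 0) (nat_lit 14431631136) (nat_lit 2) (nat_lit 5) (nat_lit 4) (nat_lit 4) (nat_lit 2) (nat_lit 4) (nat_lit 356) (nat_lit 212) (nat_lit 212)) (XT.lf (nat_lit 0) (nat_lit 34311269100) (nat_lit 152) (nat_lit 57977587282) (nat_lit 0) (nat_lit 34147401085) (nat_lit 2) (nat_lit 5) (nat_lit 4) (nat_lit 4) (nat_lit 2) (nat_lit 4) (nat_lit 357) (nat_lit 212) (nat_lit 211)))) (XT.nd (nat_lit 156) (nat_lit 0) (nat_lit 0) (XT.nd (nat_lit 78) (nat_lit 0) (nat_lit 0) (XT.lf (nat_lit 0) (nat_lit 39900145463) (nat_lit 152) (nat_lit 53155700579) (nat_lit 0) (nat_lit 39580212671) (nat_lit 2) (nat_lit 5) (nat_lit 4) (nat_lit 4) (nat_lit 2) (nat_lit 4) (nat_lit 358) (nat_lit 212) (nat_lit 210)) (XT.lf (nat_lit 0) (nat_lit 45643198209) (nat_lit 152) (nat_lit 48331797680) (nat_lit 0) (nat_lit 45174632297) (nat_lit 2) (nat_lit 5) (nat_lit 4) (nat_lit 4) (nat_lit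 2) (nat_lit 4) (nat_lit 359) (nat_lit 212) (nat_lit 209))) (XT.nd (nat_lit 78) (nat_lit 0) (nat_lit 0) (XT.lf (nat_lit 0) (nat_lit 51554101273) (nat_lit 152) (nat_lit 43494393100) (nat_lit 0) (nat_lit 50943980008) (nat_lit 2) (nat_lit 5) (nat_lit 4) (nat_lit 4) (nat_lit 2) (nat_lit 4) (nat_lit 360) (nat_lit 212) (nat_lit 208)) (XT.lf (nat_lit 0) (nat_lit 57646928234) (nat_lit 152) (nat_lit 38631969211) (nat_lit 0) (nat_lit 56901992347) (nat_lit 2) (nat_lit 5) (nat_lit 4) (nat_lit 4) (nat_lit 2) (nat_lit 4) (nat_lit 361) (nat_lit 212) (nat_lit 207))))) (XT.nd (nat_lit 234) (nat_lit 0) (nat_lit 0) (XT.nd (nat_lit 78) (nat_lit 0) (nat_lit 0) (XT.lf (nat_lit 0) (nat_lit 63936185823) (nat_lit 152) (nat_lit 33732948811) (nat_lit 0) (nat_lit 63062855058) (nat_lit 2) (nat_lit 5) (nat_lit 4) (nat_lit 4) (nat_lit 2) (nat_lit 4) (nat_lit 362) (nat_lit 212) (nat_lit 206)) (XT.nd (nat_lit 78) (nat_lit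 0) (nat_lit 0) (XT.lf (nat_lit 0) (nat_lit 70436848462) (nat_lit 152) (nat_lit 28785667568) (nat_lit 0) (nat_lit 69441236862) (nat_lit 2) (nat_lit 5) (nat_lit 4) (nat_lit 4) (nat_lit 2) (nat_lit 4) (nat_lit 363) (nat_lit 212) (nat_lit 205)) (XT.lf (nat_lit 0) (nat_lit 77164393920) (nat_lit 152) (nat_lit 23778346239) (nat_lit 0) (nat_lit 76052324381) (nat_lit 2) (nat_lit 5) (nat_lit 4) (nat_lit 4) (nat_lit 2) (nat_lit 4) (nat_lit 364) (nat_lit 212) (nat_lit 204)))) (XT.nd (nat_lit 156) (nat_lit 0) (nat_lit 0) (XT.nd (nat_lit 78) (nat_lit 0) (nat_lit 0) (XT.lf (nat_lit 0) (nat_lit 84134840163) (nat_lit 152) (nat_lit 18699062631) (nat_lit 0) (nat_lit 82911858301) (nat_lit 2) (nat_lit 5) (nat_lit 4) (nat_lit 4) (nat_lit 2) (nat_lit 4) (nat_lit 365) (nat_lit 212) (nat_lit 203)) (XT.lf (nat_lit 0) (nat_lit 91364783491) (nat_lit 152) (nat_lit 13535723213) (nat_lit 0) (nat_lit 90036170845) (nat_lit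 2) (nat_lit 5) (nat_lit 4) (nat_lit 4) (nat_lit 2) (nat_lit 4) (nat_lit 366) (nat_lit 212) (nat_lit 202))) (XT.nd (nat_lit 39624) (nat_lit 0) (nat_lit 0) (XT.lf (nat_lit 0) (nat_lit 98871438054) (nat_lit 152) (nat_lit 8276034317) (nat_lit 0) (nat_lit 97442224662) (nat_lit 2) (nat_lit 5) (nat_lit 4) (nat_lit 4) (nat_lit 2) (nat_lit 4) (nat_lit 367) (nat_lit 212) (nat_lit 201)) (XT.lf (nat_lit 0) (nat_lit 9290537643) (nat_lit 152) (nat_lit 36205545418) (nat_lit 0) (nat_lit 9290537643) (nat_lit 2) (nat_lit 5) (nat_lit 4) (nat_lit 4) (nat_lit 2) (nat_lit 4) (nat_lit 354) (nat_lit 213) (nat_lit 213)))))) (XT.nd (nat_lit 546) (nat_lit 0) (nat_lit 0) (XT.nd (nat_lit 234) (nat_lit 0) (nat_lit 0) (XT.nd (nat_lit 78) (nat_lit 0) (nat_lit 0) (XT.lf (nat_lit 0) (nat_lit 23715214951) (nat_lit 152) (nat_lit 67661257360) (nat_lit 0) (nat_lit 23543153535) (nat_lit 2) (nat_lit 5) (nat_lit 4) (nat_lit 4) (nat_lit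 2) (nat_lit 4) (nat_lit 355) (nat_lit 213) (nat_lit 212)) (XT.nd (nat_lit 78) (nat_lit 0) (nat_lit 0) (XT.lf (nat_lit 0) (nat_lit 28967954251) (nat_lit 152) (nat_lit 62937515859) (nat_lit 0) (nat_lit 28632024820) (nat_lit 2) (nat_lit 5) (nat_lit 4) (nat_lit 4) (nat_lit 2) (nat_lit 4) (nat_lit 356) (nat_lit 213) (nat_lit 211)) (XT.lf (nat_lit 0) (nat_lit 34351799710) (nat_lit 152) (nat_lit 58228619327) (nat_lit 0) (nat_lit 33859805502) (nat_lit 2) (nat_lit 5) (nat_lit 4) (nat_lit 4) (nat_lit 2) (nat_lit 4) (nat_lit 357) (nat_lit 213) (nat_lit 210)))) (XT.nd (nat_lit 156) (nat_lit 0) (nat_lit 0) (XT.nd (nat_lit 78) (nat_lit 0) (nat_lit 0) (XT.lf (nat_lit 0) (nat_lit 39879570006) (nat_lit 152) (nat_lit 53523356106) (nat_lit 0) (nat_lit 39238942678) (nat_lit 2) (nat_lit 5) (nat_lit 4) (nat_lit 4) (nat_lit 2) (nat_lit 4) (nat_lit 358) (nat_lit 213) (nat_lit 209)) (XT.lf (nat_lit 0) (nat_lit 45564426499)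 (nat_lit 152) (nat_lit 48810523190) (nat_lit 0) (nat_lit 44782243818) (nat_lit 2) (nat_lit 5) (nat_lit 4) (nat_lit 4) (nat_lit 2) (nat_lit 4) (nat_lit 359) (nat_lit 213) (nat_lit 208))) (XT.nd (nat_lit 78) (nat_lit 0) (nat_lit 0) (XT.lf (nat_lit 0) (nat_lit 51419904560) (nat_lit 152) (nat_lit 44078899546) (nat_lit 0) (nat_lit 50502907258) (nat_lit 2) (nat_lit 5) (nat_lit 4) (nat_lit 4) (nat_lit 2) (nat_lit 4) (nat_lit 360) (nat_lit 213) (nat_lit 207)) (XT.lf (nat_lit 0) (nat_lit 57459945804) (nat_lit 152) (nat_lit 39317219405) (nat_lit 0) (nat_lit 56414553624) (nat_lit 2) (nat_lit 5) (nat_lit 4) (nat_lit 4) (nat_lit 2) (nat_lit 4) (nat_lit 361) (nat_lit 213) (nat_lit 206))))) (XT.nd (nat_lit 234) (nat_lit 0) (nat_lit 0) (XT.nd (nat_lit 78) (nat_lit 0) (nat_lit 0) (XT.lf (nat_lit 0) (nat_lit 63698931281) (nat_lit 152) (nat_lit 34514145433) (nat_lit 0) (nat_lit 62531258265) (nat_lit 2) (nat_lit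 5) (nat_lit 4) (nat_lit 4) (nat_lit 2) (nat_lit 4) (nat_lit 362) (nat_lit 213) (nat_lit 205)) (XT.nd (nat_lit 78) (nat_lit 0) (nat_lit 0) (XT.lf (nat_lit 0) (nat_lit 70151715719) (nat_lit 152) (nat_lit 29658241739) (nat_lit 0) (nat_lit 68867584764) (nat_lit 2) (nat_lit 5) (nat_lit 4) (nat_lit 4) (nat_lit 2) (nat_lit 4) (nat_lit 363) (nat_lit 213) (nat_lit 204)) (XT.lf (nat_lit 0) (nat_lit 76833662890) (nat_lit 152) (nat_lit 24737946648) (nat_lit 0) (nat_lit 75438619612) (nat_lit 2) (nat_lit 5) (nat_lit 4) (nat_lit 4) (nat_lit 2) (nat_lit 4) (nat_lit 364) (nat_lit 213) (nat_lit 203)))) (XT.nd (nat_lit 156) (nat_lit 0) (nat_lit 0) (XT.nd (nat_lit 78) (nat_lit 0) (nat_lit 0) (XT.lf (nat_lit 0) (nat_lit 83760682193) (nat_lit 152) (nat_lit 19741545172) (nat_lit 0) (nat_lit 82260008131) (nat_lit 2) (nat_lit 5) (nat_lit 4) (nat_lit 4) (nat_lit 2) (nat_lit 4) (nat_lit 365) (nat_lit 213) (nat_lit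 202)) (XT.lf (nat_lit 0) (nat_lit 90949266530) (nat_lit 152) (nat_lit 14657141116) (nat_lit 0) (nat_lit 89347991722) (nat_lit 2) (nat_lit 5) (nat_lit 4) (nat_lit 4) (nat_lit 2) (nat_lit 4) (nat_lit 366) (nat_lit 213) (nat_lit 201))) (XT.nd (nat_lit 39468) (nat_lit 0) (nat_lit 0) (XT.lf (nat_lit 0) (nat_lit 98416531578) (nat_lit 152) (nat_lit 9472628757) (nat_lit 0) (nat_lit 96719446535) (nat_lit 2) (nat_lit 5) (nat_lit 4) (nat_lit 4) (nat_lit 2) (nat_lit 4) (nat_lit 367) (nat_lit 213) (nat_lit 200)) (XT.lf (nat_lit 0) (nat_lit 4437445432) (nat_lit 152) (nat_lit 40946301347) (nat_lit 0) (nat_lit 4437445432) (nat_lit 2) (nat_lit 5) (nat_lit 4) (nat_lit 4) (nat_lit 2) (nat_lit 4) (nat_lit 352) (nat_lit 214) (nat_lit 214))))))))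
noncomputable def xc1 : XT := (XT.nd (nat_lit 41418) (nat_lit 0) (nat_lit 0) (XT.nd (nat_lit 1092) (nat_lit 0) (nat_lit 0) (XT.nd (nat_lit 546) (nat_lit 0) (nat_lit 0) (XT.nd (nat_lit 234) (nat_lit 0) (nat_lit 0) (XT.nd (nat_lit 78) (nat_lit 0) (nat_lit 0) (XT.lf (nat_lit 0) (nat_lit 13733975603) (nat_lit 152) (nat_lit 77198325412) (nat_lit 0) (nat_lit 13553311116) (nat_lit 2) (nat_lit 5) (nat_lit 4) (nat_lit 4) (nat_lit 2) (nat_lit 4) (nat_lit 353) (nat_lit 214) (nat_lit 213)) (XT.nd (nat_lit 78) (nat_lit 0) (nat_lit 0) (XT.lf (nat_lit 0) (nat_lit 18691001864) (nat_lit 152) (nat_lit 72546097094) (nat_lit 0) (nat_lit 18338275961) (nat_lit 2) (nat_lit 5) (nat_lit 4) (nat_lit 4) (nat_lit 2) (nat_lit 4) (nat_lit 354) (nat_lit 214) (nat_lit 212)) (XT.lf (nat_lit 0) (nat_lit 23757772090) (nat_lit 152) (nat_lit 67924841008) (nat_lit 0) (nat_lit 23241178172) (nat_lit 2) (nat_lit 5) (nat_lit 4) (nat_lit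 4) (nat_lit 2) (nat_lit 4) (nat_lit 355) (nat_lit 214) (nat_lit 211)))) (XT.nd (nat_lit 156) (nat_lit 0) (nat_lit 0) (XT.nd (nat_lit 78) (nat_lit 0) (nat_lit 0) (XT.lf (nat_lit 0) (nat_lit 28946350022) (nat_lit 152) (nat_lit 63323554162) (nat_lit 0) (nat_lit 28273691327) (nat_lit 2) (nat_lit 5) (nat_lit 4) (nat_lit 4) (nat_lit 2) (nat_lit 4) (nat_lit 356) (nat_lit 214) (nat_lit 210)) (XT.lf (nat_lit 0) (nat_lit 34269089415) (nat_lit 152) (nat_lit 58731281112) (nat_lit 0) (nat_lit 33447797600) (nat_lit 2) (nat_lit 5) (nat_lit 4) (nat_lit 4) (nat_lit 2) (nat_lit 4) (nat_lit 357) (nat_lit 214) (nat_lit 209))) (XT.nd (nat_lit 78) (nat_lit 0) (nat_lit 0) (XT.lf (nat_lit 0) (nat_lit 39738663458) (nat_lit 152) (nat_lit 54137087874) (nat_lit 0) (nat_lit 38775816291) (nat_lit 2) (nat_lit 5) (nat_lit 4) (nat_lit 4) (nat_lit 2) (nat_lit 4) (nat_lit 358) (nat_lit 214) (nat_lit 208)) (XT.lf (nat_lit 0)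 (nat_lit 45368094948) (nat_lit 152) (nat_lit 49530035894) (nat_lit 0) (nat_lit 44270433158) (nat_lit 2) (nat_lit 5) (nat_lit 4) (nat_lit 4) (nat_lit 2) (nat_lit 4) (nat_lit 359) (nat_lit 214) (nat_lit 207))))) (XT.nd (nat_lit 234) (nat_lit 0) (nat_lit 0) (XT.nd (nat_lit 78) (nat_lit 0) (nat_lit 0) (XT.lf (nat_lit 0) (nat_lit 51170787291) (nat_lit 152) (nat_lit 44899155999) (nat_lit 0) (nat_lit 49944730624) (nat_lit 2) (nat_lit 5) (nat_lit 4) (nat_lit 4) (nat_lit 2) (nat_lit 4) (nat_lit 360) (nat_lit 214) (nat_lit 206)) (XT.nd (nat_lit 78) (nat_lit 0) (nat_lit 0) (XT.lf (nat_lit 0) (nat_lit 57160556424) (nat_lit 152) (nat_lit 40233422285) (nat_lit 0) (nat_lit 55812218921) (nat_lit 2) (nat_lit 5) (nat_lit 4) (nat_lit 4) (nat_lit 2) (nat_lit 4) (nat_lit 361) (nat_lit 214) (nat_lit 205)) (XT.lf (nat_lit 0) (nat_lit 63351663699) (nat_lit 152) (nat_lit 35521725863) (nat_lit 0) (nat_lit 61886868257)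 (nat_lit 2) (nat_lit 5) (nat_lit 4) (nat_lit 4) (nat_lit 2) (nat_lit 4) (nat_lit 362) (nat_lit 214) (nat_lit 204)))) (XT.nd (nat_lit 156) (nat_lit 0) (nat_lit 0) (XT.nd (nat_lit 78) (nat_lit 0) (nat_lit 0) (XT.lf (nat_lit 0) (nat_lit 69758849850) (nat_lit 152) (nat_lit 30752848407) (nat_lit 0) (nat_lit 68183142085) (nat_lit 2) (nat_lit 5) (nat_lit 4) (nat_lit 4) (nat_lit 2) (nat_lit 4) (nat_lit 363) (nat_lit 214) (nat_lit 203)) (XT.lf (nat_lit 0) (nat_lit 76397370081) (nat_lit 152) (nat_lit 25915435447) (nat_lit 0) (nat_lit 74716031533) (nat_lit 2) (nat_lit 5) (nat_lit 4) (nat_lit 4) (nat_lit 2) (nat_lit 4) (nat_lit 364) (nat_lit 214) (nat_lit 202))) (XT.nd (nat_lit 78) (nat_lit 0) (nat_lit 0) (XT.lf (nat_lit 0) (nat_lit 83283030393) (nat_lit 152) (nat_lit 20997969334) (nat_lit 0) (nat_lit 81501091098) (nat_lit 2) (nat_lit 5) (nat_lit 4) (nat_lit 4) (nat_lit 2) (nat_lit 4) (nat_lit 365) (nat_lit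 214) (nat_lit 201)) (XT.lf (nat_lit 0) (nat_lit 90432225215) (nat_lit 152) (nat_lit 15988741815) (nat_lit 0) (nat_lit 88554475686) (nat_lit 2) (nat_lit 5) (nat_lit 4) (nat_lit 4) (nat_lit 2) (nat_lit 4) (nat_lit 366) (nat_lit 214) (nat_lit 200)))))) (XT.nd (nat_lit 39780) (nat_lit 0) (nat_lit 0) (XT.nd (nat_lit 39468) (nat_lit 0) (nat_lit 0) (XT.nd (nat_lit 39312) (nat_lit 0) (nat_lit 0) (XT.lf (nat_lit 0) (nat_lit 97861976440) (nat_lit 152) (nat_lit 10875826157) (nat_lit 0) (nat_lit 95892979068) (nat_lit 2) (nat_lit 5) (nat_lit 4) (nat_lit 4) (nat_lit 2) (nat_lit 4) (nat_lit 367) (nat_lit 214) (nat_lit 199)) (XT.nd (nat_lit 78) (nat_lit 152) (nat_lit 0) (XT.lf (nat_lit 0) (nat_lit 44998992742) (nat_lit 76) (nat_lit 162312513) (nat_lit 76) (nat_lit 162312513) (nat_lit 4) (nat_lit 4) (nat_lit 5) (nat_lit 5) (nat_lit 5) (nat_lit 4) (nat_lit 350) (nat_lit 215) (nat_lit 215)) (XT.lf (nat_lit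 0) (nat_lit 4291876111) (nat_lit 152) (nat_lit 86640105794) (nat_lit 0) (nat_lit 4102178400) (nat_lit 2) (nat_lit 5) (nat_lit 4) (nat_lit 4) (nat_lit 2) (nat_lit 4) (nat_lit 351) (nat_lit 215) (nat_lit 214)))) (XT.nd (nat_lit 156) (nat_lit 0) (nat_lit 0) (XT.nd (nat_lit 78) (nat_lit 0) (nat_lit 0) (XT.lf (nat_lit 0) (nat_lit 8990313771) (nat_lit 152) (nat_lit 82034359266) (nat_lit 0) (nat_lit 8619951573) (nat_lit 2) (nat_lit 5) (nat_lit 4) (nat_lit 4) (nat_lit 2) (nat_lit 4) (nat_lit 352) (nat_lit 215) (nat_lit 213)) (XT.lf (nat_lit 0) (nat_lit 13778660600) (nat_lit 152) (nat_lit 77475088241) (nat_lit 0) (nat_lit 13236236986) (nat_lit 2) (nat_lit 5) (nat_lit 4) (nat_lit 4) (nat_lit 2) (nat_lit 4) (nat_lit 353) (nat_lit 215) (nat_lit 212))) (XT.nd (nat_lit 78) (nat_lit 0) (nat_lit 0) (XT.lf (nat_lit 0) (nat_lit 18668317423) (nat_lit 152) (nat_lit 72951437313) (nat_lit 0) (nat_lit 17962025794)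 (nat_lit 2) (nat_lit 5) (nat_lit 4) (nat_lit 4) (nat_lit 2) (nat_lit 4) (nat_lit 354) (nat_lit 215) (nat_lit 211)) (XT.lf (nat_lit 0) (nat_lit 23670926280) (nat_lit 152) (nat_lit 68452635882) (nat_lit 0) (nat_lit 22808569875) (nat_lit 2) (nat_lit 5) (nat_lit 4) (nat_lit 4) (nat_lit 2) (nat_lit 4) (nat_lit 355) (nat_lit 215) (nat_lit 210))))) (XT.nd (nat_lit 234) (nat_lit 0) (nat_lit 0) (XT.nd (nat_lit 78) (nat_lit 0) (nat_lit 0) (XT.lf (nat_lit 0) (nat_lit 28798398146) (nat_lit 152) (nat_lit 63967972519) (nat_lit 0) (nat_lit 27787408620) (nat_lit 2) (nat_lit 5) (nat_lit 4) (nat_lit 4) (nat_lit 2) (nat_lit 4) (nat_lit 356) (nat_lit 215) (nat_lit 209)) (XT.nd (nat_lit 78) (nat_lit 0) (nat_lit 0) (XT.lf (nat_lit 0) (nat_lit 34062941285) (nat_lit 152) (nat_lit 59486769451) (nat_lit 0) (nat_lit 32910396407) (nat_lit 2) (nat_lit 5) (nat_lit 4) (nat_lit 4) (nat_lit 2) (nat_lit 4) (nat_lit 357) (nat_lit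 215) (nat_lit 208)) (XT.lf (nat_lit 0) (nat_lit 39477090326) (nat_lit 152) (nat_lit 54998357150) (nat_lit 0) (nat_lit 38189730826) (nat_lit 2) (nat_lit 5) (nat_lit 4) (nat_lit 4) (nat_lit 2) (nat_lit 4) (nat_lit 358) (nat_lit 215) (nat_lit 207)))) (XT.nd (nat_lit 156) (nat_lit 0) (nat_lit 0) (XT.nd (nat_lit 78) (nat_lit 0) (nat_lit 0) (XT.lf (nat_lit 0) (nat_lit 45053736098) (nat_lit 152) (nat_lit 50492048918) (nat_lit 0) (nat_lit 43637981720) (nat_lit 2) (nat_lit 5) (nat_lit 4) (nat_lit 4) (nat_lit 2) (nat_lit 4) (nat_lit 359) (nat_lit 215) (nat_lit 206)) (XT.lf (nat_lit 0) (nat_lit 50806156331) (nat_lit 152) (nat_lit 45957115450) (nat_lit 0) (nat_lit 49268121117) (nat_lit 2) (nat_lit 5) (nat_lit 4) (nat_lit 4) (nat_lit 2) (nat_lit 4) (nat_lit 360) (nat_lit 215) (nat_lit 205))) (XT.nd (nat_lit 78) (nat_lit 0) (nat_lit 0) (XT.lf (nat_lit 0) (nat_lit 56748047261) (nat_lit 152) (nat_lit 41382759286)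 (nat_lit 0) (nat_lit 55093554108) (nat_lit 2) (nat_lit 5) (nat_lit 4) (nat_lit 4) (nat_lit 2) (nat_lit 4) (nat_lit 361) (nat_lit 215) (nat_lit 204)) (XT.lf (nat_lit 0) (nat_lit 62893556250) (nat_lit 152) (nat_lit 36758089102) (nat_lit 0) (nat_lit 61128150774) (nat_lit 2) (nat_lit 5) (nat_lit 4) (nat_lit 4) (nat_lit 2) (nat_lit 4) (nat_lit 362) (nat_lit 215) (nat_lit 203))))))) (XT.nd (nat_lit 40170) (nat_lit 0) (nat_lit 0) (XT.nd (nat_lit 39624) (nat_lit 0) (nat_lit 0) (XT.nd (nat_lit 234) (nat_lit 0) (nat_lit 0) (XT.nd (nat_lit 78) (nat_lit 0) (nat_lit 0) (XT.lf (nat_lit 0) (nat_lit 69257315461) (nat_lit 152) (nat_lit 32072093777) (nat_lit 0) (nat_lit 67386279201) (nat_lit 2) (nat_lit 5) (nat_lit 4) (nat_lit 4) (nat_lit 2) (nat_lit 4) (nat_lit 363) (nat_lit 215) (nat_lit 202)) (XT.nd (nat_lit 78) (nat_lit 0) (nat_lit 0) (XT.lf (nat_lit 0) (nat_lit 75854476701) (nat_lit 152) (nat_lit 27313616181)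 (nat_lit 0) (nat_lit 73882839695) (nat_lit 2) (nat_lit 5) (nat_lit 4) (nat_lit 4) (nat_lit 2) (nat_lit 4) (nat_lit 364) (nat_lit 215) (nat_lit 201)) (XT.lf (nat_lit 0) (nat_lit 82700747498) (nat_lit 152) (nat_lit 22471326604) (nat_lit 0) (nat_lit 80633300257) (nat_lit 2) (nat_lit 5) (nat_lit 4) (nat_lit 4) (nat_lit 2) (nat_lit 4) (nat_lit 365) (nat_lit 215) (nat_lit 200)))) (XT.nd (nat_lit 39234) (nat_lit 0) (nat_lit 152) (XT.nd (nat_lit 78) (nat_lit 0) (nat_lit 0) (XT.lf (nat_lit 0) (nat_lit 89812428496) (nat_lit 152) (nat_lit 17533695786) (nat_lit 0) (nat_lit 87653733413) (nat_lit 2) (nat_lit 5) (nat_lit 4) (nat_lit 4) (nat_lit 2) (nat_lit 4) (nat_lit 366) (nat_lit 215) (nat_lit 199)) (XT.lf (nat_lit 0) (nat_lit 97206452270) (nat_lit 152) (nat_lit 12488967463) (nat_lit 0) (nat_lit 94960854480) (nat_lit 2) (nat_lit 5) (nat_lit 4) (nat_lit 4) (nat_lit 2) (nat_lit 4) (nat_lit 367) (nat_lit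 215) (nat_lit 198))) (XT.nd (nat_lit 78) (nat_lit 0) (nat_lit 0) (XT.lf (nat_lit 0) (nat_lit 32241289735) (nat_lit 76) (nat_lit 4502356150) (nat_lit 76) (nat_lit 4502356150) (nat_lit 4) (nat_lit 4) (nat_lit 5) (nat_lit 5) (nat_lit 5) (nat_lit 4) (nat_lit 348) (nat_lit 216) (nat_lit 216)) (XT.lf (nat_lit 0) (nat_lit 77002254680) (nat_lit 76) (nat_lit 4835953935) (nat_lit 76) (nat_lit 4630795860) (nat_lit 4) (nat_lit 4) (nat_lit 5) (nat_lit 5) (nat_lit 5) (nat_lit 4) (nat_lit 349) (nat_lit 216) (nat_lit 215))))) (XT.nd (nat_lit 234) (nat_lit 0) (nat_lit 0) (XT.nd (nat_lit 78) (nat_lit 152) (nat_lit 0) (XT.lf (nat_lit 0) (nat_lit 89855196756) (nat_lit 76) (nat_lit 597426389) (nat_lit 76) (nat_lit 196879672) (nat_lit 4) (nat_lit 4) (nat_lit 5) (nat_lit 5) (nat_lit 5) (nat_lit 4) (nat_lit 350) (nat_lit 216) (nat_lit 214)) (XT.nd (nat_lit 78) (nat_lit 0) (nat_lit 0) (XT.lf (nat_lit 0) (nat_lit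 4338795357) (nat_lit 152) (nat_lit 86930706765) (nat_lit 0) (nat_lit 3769250563) (nat_lit 2) (nat_lit 5) (nat_lit 4) (nat_lit 4) (nat_lit 2) (nat_lit 4) (nat_lit 351) (nat_lit 216) (nat_lit 213)) (XT.lf (nat_lit 0) (nat_lit 8966495108) (nat_lit 152) (nat_lit 82459966496) (nat_lit 0) (nat_lit 8224888898) (nat_lit 2) (nat_lit 5) (nat_lit 4) (nat_lit 4) (nat_lit 2) (nat_lit 4) (nat_lit 352) (nat_lit 216) (nat_lit 212)))) (XT.nd (nat_lit 156) (nat_lit 0) (nat_lit 0) (XT.nd (nat_lit 78) (nat_lit 0) (nat_lit 0) (XT.lf (nat_lit 0) (nat_lit 13687472499) (nat_lit 152) (nat_lit 78029272860) (nat_lit 0) (nat_lit 12781998273) (nat_lit 2) (nat_lit 5) (nat_lit 4) (nat_lit 4) (nat_lit 2) (nat_lit 4) (nat_lit 353) (nat_lit 216) (nat_lit 211)) (XT.lf (nat_lit 0) (nat_lit 18512967953) (nat_lit 152) (nat_lit 73628076587) (nat_lit 0) (nat_lit 17451428951) (nat_lit 2) (nat_lit 5) (nat_lit 4) (nat_lit 4) (nat_lit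 2) (nat_lit 4) (nat_lit 354) (nat_lit 216) (nat_lit 210))) (XT.nd (nat_lit 78) (nat_lit 0) (nat_lit 0) (XT.lf (nat_lit 0) (nat_lit 23454470745) (nat_lit 152) (nat_lit 69245898639) (nat_lit 0) (nat_lit 22244298622) (nat_lit 2) (nat_lit 5) (nat_lit 4) (nat_lit 4) (nat_lit 2) (nat_lit 4) (nat_lit 355) (nat_lit 216) (nat_lit 209)) (XT.lf (nat_lit 0) (nat_lit 28523746357) (nat_lit 152) (nat_lit 64872305258) (nat_lit 0) (nat_lit 27172018882) (nat_lit 2) (nat_lit 5) (nat_lit 4) (nat_lit 4) (nat_lit 2) (nat_lit 4) (nat_lit 356) (nat_lit 216) (nat_lit 208)))))) (XT.nd (nat_lit 546) (nat_lit 0) (nat_lit 0) (XT.nd (nat_lit 234) (nat_lit 0) (nat_lit 0) (XT.nd (nat_lit 78) (nat_lit 0) (nat_lit 0) (XT.lf (nat_lit 0) (nat_lit 33732864494) (nat_lit 152) (nat_lit 60496883127) (nat_lit 0) (nat_lit 32246322397) (nat_lit 2) (nat_lit 5) (nat_lit 4) (nat_lit 4) (nat_lit 2) (nat_lit 4) (nat_lit 357) (nat_lit 216)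 (nat_lit 207)) (XT.nd (nat_lit 78) (nat_lit 0) (nat_lit 0) (XT.lf (nat_lit 0) (nat_lit 39094227817) (nat_lit 152) (nat_lit 56109214574) (nat_lit 0) (nat_lit 37479290843) (nat_lit 2) (nat_lit 5) (nat_lit 4) (nat_lit 4) (nat_lit 2) (nat_lit 4) (nat_lit 358) (nat_lit 216) (nat_lit 206)) (XT.lf (nat_lit 0) (nat_lit 44620601478) (nat_lit 152) (nat_lit 51698852769) (nat_lit 0) (nat_lit 42883383667) (nat_lit 2) (nat_lit 5) (nat_lit 4) (nat_lit 4) (nat_lit 2) (nat_lit 4) (nat_lit 359) (nat_lit 216) (nat_lit 205)))) (XT.nd (nat_lit 156) (nat_lit 0) (nat_lit 0) (XT.nd (nat_lit 78) (nat_lit 0) (nat_lit 0) (XT.lf (nat_lit 0) (nat_lit 50325143509) (nat_lit 152) (nat_lit 47255296851) (nat_lit 0) (nat_lit 48471467759) (nat_lit 2) (nat_lit 5) (nat_lit 4) (nat_lit 4) (nat_lit 2) (nat_lit 4) (nat_lit 360) (nat_lit 216) (nat_lit 204)) (XT.lf (nat_lit 0) (nat_lit 56221436152) (nat_lit 152) (nat_lit 42767966925)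 (nat_lit 0) (nat_lit 54256848080) (nat_lit 2) (nat_lit 5) (nat_lit 4) (nat_lit 4) (nat_lit 2) (nat_lit 4) (nat_lit 361) (nat_lit 216) (nat_lit 203))) (XT.nd (nat_lit 78) (nat_lit 0) (nat_lit 0) (XT.lf (nat_lit 0) (nat_lit 62323518201) (nat_lit 152) (nat_lit 38226178872) (nat_lit 0) (nat_lit 60253299344) (nat_lit 2) (nat_lit 5) (nat_lit 4) (nat_lit 4) (nat_lit 2) (nat_lit 4) (nat_lit 362) (nat_lit 216) (nat_lit 202)) (XT.lf (nat_lit 0) (nat_lit 68645918421) (nat_lit 152) (nat_lit 33619118910) (nat_lit 0) (nat_lit 66475098818) (nat_lit 2) (nat_lit 5) (nat_lit 4) (nat_lit 4) (nat_lit 2) (nat_lit 4) (nat_lit 363) (nat_lit 216) (nat_lit 201))))) (XT.nd (nat_lit 39234) (nat_lit 0) (nat_lit 152) (XT.nd (nat_lit 156) (nat_lit 0) (nat_lit 0) (XT.nd (nat_lit 78) (nat_lit 0) (nat_lit 0) (XT.lf (nat_lit 0) (nat_lit 75203690146) (nat_lit 152) (nat_lit 28935817850) (nat_lit 0) (nat_lit 72937060309) (nat_lit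 2) (nat_lit 5) (nat_lit 4) (nat_lit 4) (nat_lit 2) (nat_lit 4) (nat_lit 364) (nat_lit 216) (nat_lit 200)) (XT.lf (nat_lit 0) (nat_lit 82012447120) (nat_lit 152) (nat_lit 24165124975) (nat_lit 0) (nat_lit 79654569440) (nat_lit 2) (nat_lit 5) (nat_lit 4) (nat_lit 4) (nat_lit 2) (nat_lit 4) (nat_lit 365) (nat_lit 216) (nat_lit 199))) (XT.nd (nat_lit 78) (nat_lit 0) (nat_lit 0) (XT.lf (nat_lit 0) (nat_lit 89088400667) (nat_lit 152) (nat_lit 19295681491) (nat_lit 0) (nat_lit 86643620280) (nat_lit 2) (nat_lit 5) (nat_lit 4) (nat_lit 4) (nat_lit 2) (nat_lit 4) (nat_lit 366) (nat_lit 216) (nat_lit 198)) (XT.lf (nat_lit 0) (nat_lit 96448398296) (nat_lit 152) (nat_lit 14315893487) (nat_lit 0) (nat_lit 93920853426) (nat_lit 2) (nat_lit 5) (nat_lit 4) (nat_lit 4) (nat_lit 2) (nat_lit 4) (nat_lit 367) (nat_lit 216) (nat_lit 197)))) (XT.nd (nat_lit 156) (nat_lit 0) (nat_lit 0) (XT.nd (nat_lit 78) (nat_lit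 0) (nat_lit 0) (XT.lf (nat_lit 0) (nat_lit 20240970870) (nat_lit 76) (nat_lit 8656660363) (nat_lit 76) (nat_lit 8656660363) (nat_lit 4) (nat_lit 4) (nat_lit 5) (nat_lit 5) (nat_lit 5) (nat_lit 4) (nat_lit 346) (nat_lit 217) (nat_lit 217)) (XT.lf (nat_lit 0) (nat_lit 52266362376) (nat_lit 76) (nat_lit 13329043082) (nat_lit 76) (nat_lit 13113627103) (nat_lit 4) (nat_lit 4) (nat_lit 5) (nat_lit 5) (nat_lit 5) (nat_lit 4) (nat_lit 347) (nat_lit 217) (nat_lit 216))) (XT.nd (nat_lit 78) (nat_lit 0) (nat_lit 0) (XT.lf (nat_lit 0) (nat_lit 64332651305) (nat_lit 76) (nat_lit 9291153731) (nat_lit 76) (nat_lit 8870579678) (nat_lit 4) (nat_lit 4) (nat_lit 5) (nat_lit 5) (nat_lit 5) (nat_lit 4) (nat_lit 348) (nat_lit 217) (nat_lit 215)) (XT.lf (nat_lit 0) (nat_lit 76709537786) (nat_lit 76) (nat_lit 5190038652) (nat_lit 76) (nat_lit 4574075956) (nat_lit 4) (nat_lit 4) (nat_lit 5) (nat_lit 5) (nat_lit 5)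 (nat_lit 4) (nat_lit 349) (nat_lit 217) (nat_lit 214))))))))
noncomputable def xc2 : XT := (XT.nd (nat_lit 40950) (nat_lit 0) (nat_lit 0) (XT.nd (nat_lit 1092) (nat_lit 0) (nat_lit 0) (XT.nd (nat_lit 546) (nat_lit 0) (nat_lit 0) (XT.nd (nat_lit 234) (nat_lit 0) (nat_lit 0) (XT.nd (nat_lit 78) (nat_lit 152) (nat_lit 0) (XT.lf (nat_lit 0) (nat_lit 89426490597) (nat_lit 76) (nat_lit 1015933284) (nat_lit 76) (nat_lit 213886168) (nat_lit 4) (nat_lit 4) (nat_lit 5) (nat_lit 5) (nat_lit 5) (nat_lit 4) (nat_lit 350) (nat_lit 217) (nat_lit 213)) (XT.nd (nat_lit 78) (nat_lit 0) (nat_lit 0) (XT.lf (nat_lit 0) (nat_lit 4243047852) (nat_lit 152) (nat_lit 87512600615) (nat_lit 0) (nat_lit 3292299915) (nat_lit 2) (nat_lit 5) (nat_lit 4) (nat_lit 4) (nat_lit 2) (nat_lit 4) (nat_lit 351) (nat_lit 217) (nat_lit 212)) (XT.lf (nat_lit 0) (nat_lit 8803378165) (nat_lit 152) (nat_lit 83170437734) (nat_lit 0) (nat_lit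 7688762213) (nat_lit 2) (nat_lit 5) (nat_lit 4) (nat_lit 4) (nat_lit 2) (nat_lit 4) (nat_lit 352) (nat_lit 217) (nat_lit 211)))) (XT.nd (nat_lit 156) (nat_lit 0) (nat_lit 0) (XT.nd (nat_lit 78) (nat_lit 0) (nat_lit 0) (XT.lf (nat_lit 0) (nat_lit 13460194187) (nat_lit 152) (nat_lit 78862198754) (nat_lit 0) (nat_lit 12189513458) (nat_lit 2) (nat_lit 5) (nat_lit 4) (nat_lit 4) (nat_lit 2) (nat_lit 4) (nat_lit 353) (nat_lit 217) (nat_lit 210)) (XT.lf (nat_lit 0) (nat_lit 18224583575) (nat_lit 152) (nat_lit 74577625963) (nat_lit 0) (nat_lit 16805269726) (nat_lit 2) (nat_lit 5) (nat_lit 4) (nat_lit 4) (nat_lit 2) (nat_lit 4) (nat_lit 354) (nat_lit 217) (nat_lit 209))) (XT.nd (nat_lit 78) (nat_lit 0) (nat_lit 0) (XT.lf (nat_lit 0) (nat_lit 23107890114) (nat_lit 152) (nat_lit 70306517998) (nat_lit 0) (nat_lit 21547020912) (nat_lit 2) (nat_lit 5) (nat_lit 4) (nat_lit 4) (nat_lit 2) (nat_lit 4) (nat_lit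 355) (nat_lit 217) (nat_lit 208)) (XT.lf (nat_lit 0) (nat_lit 28121740723) (nat_lit 152) (nat_lit 66038705553) (nat_lit 0) (nat_lit 26426056899) (nat_lit 2) (nat_lit 5) (nat_lit 4) (nat_lit 4) (nat_lit 2) (nat_lit 4) (nat_lit 356) (nat_lit 217) (nat_lit 207))))) (XT.nd (nat_lit 234) (nat_lit 0) (nat_lit 0) (XT.nd (nat_lit 78) (nat_lit 0) (nat_lit 0) (XT.lf (nat_lit 0) (nat_lit 33278073142) (nat_lit 152) (nat_lit 61764027170) (nat_lit 0) (nat_lit 31453994441) (nat_lit 2) (nat_lit 5) (nat_lit 4) (nat_lit 4) (nat_lit 2) (nat_lit 4) (nat_lit 357) (nat_lit 217) (nat_lit 206)) (XT.nd (nat_lit 78) (nat_lit 0) (nat_lit 0) (XT.lf (nat_lit 0) (nat_lit 38589164354) (nat_lit 152) (nat_lit 57472305045) (nat_lit 0) (nat_lit 36642804817) (nat_lit 2) (nat_lit 5) (nat_lit 4) (nat_lit 4) (nat_lit 2) (nat_lit 4) (nat_lit 358) (nat_lit 217) (nat_lit 205)) (XT.lf (nat_lit 0) (nat_lit 44067659813) (nat_lit 152)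 (nat_lit 53153320790) (nat_lit 0) (nat_lit 42004842337) (nat_lit 2) (nat_lit 5) (nat_lit 4) (nat_lit 4) (nat_lit 2) (nat_lit 4) (nat_lit 359) (nat_lit 217) (nat_lit 204)))) (XT.nd (nat_lit 156) (nat_lit 0) (nat_lit 0) (XT.nd (nat_lit 78) (nat_lit 0) (nat_lit 0) (XT.lf (nat_lit 0) (nat_lit 49726603557) (nat_lit 152) (nat_lit 48796791110) (nat_lit 0) (nat_lit 47552873758) (nat_lit 2) (nat_lit 5) (nat_lit 4) (nat_lit 4) (nat_lit 2) (nat_lit 4) (nat_lit 360) (nat_lit 217) (nat_lit 203)) (XT.lf (nat_lit 0) (nat_lit 55579469260) (nat_lit 152) (nat_lit 44392343315) (nat_lit 0) (nat_lit 53300108678) (nat_lit 2) (nat_lit 5) (nat_lit 4) (nat_lit 4) (nat_lit 2) (nat_lit 4) (nat_lit 361) (nat_lit 217) (nat_lit 202))) (XT.nd (nat_lit 78) (nat_lit 0) (nat_lit 0) (XT.lf (nat_lit 0) (nat_lit 61640192318) (nat_lit 152) (nat_lit 39929490625) (nat_lit 0) (nat_lit 59260230989) (nat_lit 2) (nat_lit 5) (nat_lit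 4) (nat_lit 4) (nat_lit 2) (nat_lit 4) (nat_lit 362) (nat_lit 217) (nat_lit 201)) (XT.lf (nat_lit 0) (nat_lit 67923203023) (nat_lit 152) (nat_lit 35397607200) (nat_lit 0) (nat_lit 65447431460) (nat_lit 2) (nat_lit 5) (nat_lit 4) (nat_lit 4) (nat_lit 2) (nat_lit 4) (nat_lit 363) (nat_lit 217) (nat_lit 200)))))) (XT.nd (nat_lit 39312) (nat_lit 0) (nat_lit 0) (XT.nd (nat_lit 234) (nat_lit 0) (nat_lit 0) (XT.nd (nat_lit 78) (nat_lit 0) (nat_lit 0) (XT.lf (nat_lit 0) (nat_lit 74443460925) (nat_lit 152) (nat_lit 30785902841) (nat_lit 0) (nat_lit 71876441519) (nat_lit 2) (nat_lit 5) (nat_lit 4) (nat_lit 4) (nat_lit 2) (nat_lit 4) (nat_lit 364) (nat_lit 217) (nat_lit 199)) (XT.nd (nat_lit 78) (nat_lit 0) (nat_lit 0) (XT.lf (nat_lit 0) (nat_lit 81216490448) (nat_lit 152) (nat_lit 26083397300) (nat_lit 0) (nat_lit 78562568334) (nat_lit 2) (nat_lit 5) (nat_lit 4) (nat_lit 4) (nat_lit 2) (nat_lit 4)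 (nat_lit 365) (nat_lit 217) (nat_lit 198)) (XT.lf (nat_lit 0) (nat_lit 88258417851) (nat_lit 152) (nat_lit 21278894135) (nat_lit 0) (nat_lit 85521731254) (nat_lit 2) (nat_lit 5) (nat_lit 4) (nat_lit 4) (nat_lit 2) (nat_lit 4) (nat_lit 366) (nat_lit 217) (nat_lit 197)))) (XT.nd (nat_lit 38922) (nat_lit 0) (nat_lit 152) (XT.nd (nat_lit 38844) (nat_lit 0) (nat_lit 152) (XT.lf (nat_lit 0) (nat_lit 95586009629) (nat_lit 152) (nat_lit 16360954053) (nat_lit 0) (nat_lit 92770499715) (nat_lit 2) (nat_lit 5) (nat_lit 4) (nat_lit 4) (nat_lit 2) (nat_lit 4) (nat_lit 367) (nat_lit 217) (nat_lit 196)) (XT.lf (nat_lit 0) (nat_lit 8906186442) (nat_lit 76) (nat_lit 12653381276) (nat_lit 76) (nat_lit 12653381276) (nat_lit 4) (nat_lit 4) (nat_lit 5) (nat_lit 5) (nat_lit 5) (nat_lit 4) (nat_lit 344) (nat_lit 218) (nat_lit 218))) (XT.nd (nat_lit 78) (nat_lit 0) (nat_lit 0) (XT.lf (nat_lit 0) (nat_lit 28951331255)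 (nat_lit 76) (nat_lit 21479659816) (nat_lit 76) (nat_lit 21253473039) (nat_lit 4) (nat_lit 4) (nat_lit 5) (nat_lit 5) (nat_lit 5) (nat_lit 4) (nat_lit 345) (nat_lit 218) (nat_lit 217)) (XT.lf (nat_lit 0) (nat_lit 40324517168) (nat_lit 76) (nat_lit 17614084227) (nat_lit 76) (nat_lit 17172481472) (nat_lit 4) (nat_lit 4) (nat_lit 5) (nat_lit 5) (nat_lit 5) (nat_lit 4) (nat_lit 346) (nat_lit 218) (nat_lit 216))))) (XT.nd (nat_lit 234) (nat_lit 152) (nat_lit 0) (XT.nd (nat_lit 78) (nat_lit 0) (nat_lit 0) (XT.lf (nat_lit 0) (nat_lit 51959009638) (nat_lit 76) (nat_lit 13700832035) (nat_lit 76) (nat_lit 13054071205) (nat_lit 4) (nat_lit 4) (nat_lit 5) (nat_lit 5) (nat_lit 5) (nat_lit 4) (nat_lit 347) (nat_lit 218) (nat_lit 215)) (XT.nd (nat_lit 78) (nat_lit 0) (nat_lit 0) (XT.lf (nat_lit 0) (nat_lit 63882509838) (nat_lit 76) (nat_lit 9730585971) (nat_lit 76) (nat_lit 8888436499) (nat_lit 4) (nat_lit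 4) (nat_lit 5) (nat_lit 5) (nat_lit 5) (nat_lit 4) (nat_lit 348) (nat_lit 218) (nat_lit 214)) (XT.lf (nat_lit 0) (nat_lit 76123407053) (nat_lit 76) (nat_lit 5693893071) (nat_lit 76) (nat_lit 4665659177) (nat_lit 4) (nat_lit 4) (nat_lit 5) (nat_lit 5) (nat_lit 5) (nat_lit 4) (nat_lit 349) (nat_lit 218) (nat_lit 213)))) (XT.nd (nat_lit 156) (nat_lit 0) (nat_lit 0) (XT.nd (nat_lit 78) (nat_lit 152) (nat_lit 0) (XT.lf (nat_lit 0) (nat_lit 88710846278) (nat_lit 76) (nat_lit 1581142159) (nat_lit 76) (nat_lit 375685006) (nat_lit 4) (nat_lit 4) (nat_lit 5) (nat_lit 5) (nat_lit 5) (nat_lit 4) (nat_lit 350) (nat_lit 218) (nat_lit 212)) (XT.lf (nat_lit 0) (nat_lit 4004405624) (nat_lit 152) (nat_lit 88387172803) (nat_lit 0) (nat_lit 2670190859) (nat_lit 2) (nat_lit 5) (nat_lit 4) (nat_lit 4) (nat_lit 2) (nat_lit 4) (nat_lit 351) (nat_lit 218) (nat_lit 211))) (XT.nd (nat_lit 78) (nat_lit 0) (nat_lit 0)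 (XT.lf (nat_lit 0) (nat_lit 8500574568) (nat_lit 152) (nat_lit 84167464579) (nat_lit 0) (nat_lit 7010295026) (nat_lit 2) (nat_lit 5) (nat_lit 4) (nat_lit 4) (nat_lit 2) (nat_lit 4) (nat_lit 352) (nat_lit 218) (nat_lit 210)) (XT.lf (nat_lit 0) (nat_lit 13096284524) (nat_lit 152) (nat_lit 79975849081) (nat_lit 0) (nat_lit 11457371862) (nat_lit 2) (nat_lit 5) (nat_lit 4) (nat_lit 4) (nat_lit 2) (nat_lit 4) (nat_lit 353) (nat_lit 218) (nat_lit 209))))))) (XT.nd (nat_lit 39702) (nat_lit 0) (nat_lit 0) (XT.nd (nat_lit 546) (nat_lit 0) (nat_lit 0) (XT.nd (nat_lit 234) (nat_lit 0) (nat_lit 0) (XT.nd (nat_lit 78) (nat_lit 0) (nat_lit 0) (XT.lf (nat_lit 0) (nat_lit 17802477659) (nat_lit 152) (nat_lit 75802346273) (nat_lit 0) (nat_lit 16022009645) (nat_lit 2) (nat_lit 5) (nat_lit 4) (nat_lit 4) (nat_lit 2) (nat_lit 4) (nat_lit 354) (nat_lit 218) (nat_lit 208)) (XT.nd (nat_lit 78) (nat_lit 0) (nat_lit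 0) (XT.lf (nat_lit 0) (nat_lit 22630359195) (nat_lit 152) (nat_lit 71637019244) (nat_lit 0) (nat_lit 20715076558) (nat_lit 2) (nat_lit 5) (nat_lit 4) (nat_lit 4) (nat_lit 2) (nat_lit 4) (nat_lit 355) (nat_lit 218) (nat_lit 207)) (XT.lf (nat_lit 0) (nat_lit 27591424087) (nat_lit 152) (nat_lit 67469950547) (nat_lit 0) (nat_lit 25547746573) (nat_lit 2) (nat_lit 5) (nat_lit 4) (nat_lit 4) (nat_lit 2) (nat_lit 4) (nat_lit 356) (nat_lit 218) (nat_lit 206)))) (XT.nd (nat_lit 156) (nat_lit 0) (nat_lit 0) (XT.nd (nat_lit 78) (nat_lit 0) (nat_lit 0) (XT.lf (nat_lit 0) (nat_lit 32697484395) (nat_lit 152) (nat_lit 63291218592) (nat_lit 0) (nat_lit 30531526045) (nat_lit 2) (nat_lit 5) (nat_lit 4) (nat_lit 4) (nat_lit 2) (nat_lit 4) (nat_lit 357) (nat_lit 218) (nat_lit 205)) (XT.lf (nat_lit 0) (nat_lit 37960697405) (nat_lit 152) (nat_lit 59090874016) (nat_lit 0) (nat_lit 35678281116) (nat_lit 2) (nat_lit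 5) (nat_lit 4) (nat_lit 4) (nat_lit 2) (nat_lit 4) (nat_lit 358) (nat_lit 218) (nat_lit 204))) (XT.nd (nat_lit 78) (nat_lit 0) (nat_lit 0) (XT.lf (nat_lit 0) (nat_lit 43393594577) (nat_lit 152) (nat_lit 54858915999) (nat_lit 0) (nat_lit 41000265965) (nat_lit 2) (nat_lit 5) (nat_lit 4) (nat_lit 4) (nat_lit 2) (nat_lit 4) (nat_lit 359) (nat_lit 218) (nat_lit 203)) (XT.lf (nat_lit 0) (nat_lit 49009111380) (nat_lit 152) (nat_lit 50585268451) (nat_lit 0) (nat_lit 46510151985) (nat_lit 2) (nat_lit 5) (nat_lit 4) (nat_lit 4) (nat_lit 2) (nat_lit 4) (nat_lit 360) (nat_lit 218) (nat_lit 202))))) (XT.nd (nat_lit 234) (nat_lit 0) (nat_lit 0) (XT.nd (nat_lit 78) (nat_lit 0) (nat_lit 0) (XT.lf (nat_lit 0) (nat_lit 54820618093) (nat_lit 152) (nat_lit 46259756019) (nat_lit 0) (nat_lit 52221057951) (nat_lit 2) (nat_lit 5) (nat_lit 4) (nat_lit 4) (nat_lit 2) (nat_lit 4) (nat_lit 361) (nat_lit 218) (nat_lit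 201)) (XT.nd (nat_lit 78) (nat_lit 0) (nat_lit 0) (XT.lf (nat_lit 0) (nat_lit 60841951636) (nat_lit 152) (nat_lit 41872079865) (nat_lit 0) (nat_lit 58146581260) (nat_lit 2) (nat_lit 5) (nat_lit 4) (nat_lit 4) (nat_lit 2) (nat_lit 4) (nat_lit 362) (nat_lit 218) (nat_lit 200)) (XT.lf (nat_lit 0) (nat_lit 67087448518) (nat_lit 152) (nat_lit 37411793141) (nat_lit 0) (nat_lit 64300830299) (nat_lit 2) (nat_lit 5) (nat_lit 4) (nat_lit 4) (nat_lit 2) (nat_lit 4) (nat_lit 363) (nat_lit 218) (nat_lit 199)))) (XT.nd (nat_lit 156) (nat_lit 0) (nat_lit 0) (XT.nd (nat_lit 78) (nat_lit 0) (nat_lit 0) (XT.lf (nat_lit 0) (nat_lit 73571978968) (nat_lit 152) (nat_lit 32868276117) (nat_lit 0) (nat_lit 70698458042) (nat_lit 2) (nat_lit 5) (nat_lit 4) (nat_lit 4) (nat_lit 2) (nat_lit 4) (nat_lit 364) (nat_lit 218) (nat_lit 198)) (XT.lf (nat_lit 0) (nat_lit 80310982347) (nat_lit 152) (nat_lit 28230710895) (nat_lit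 0) (nat_lit 77354696937) (nat_lit 2) (nat_lit 5) (nat_lit 4) (nat_lit 4) (nat_lit 2) (nat_lit 4) (nat_lit 365) (nat_lit 218) (nat_lit 197))) (XT.nd (nat_lit 78) (nat_lit 0) (nat_lit 0) (XT.lf (nat_lit 0) (nat_lit 87320503899) (nat_lit 152) (nat_lit 23488055652) (nat_lit 0) (nat_lit 84285395172) (nat_lit 2) (nat_lit 5) (nat_lit 4) (nat_lit 4) (nat_lit 2) (nat_lit 4) (nat_lit 366) (nat_lit 218) (nat_lit 196)) (XT.lf (nat_lit 0) (nat_lit 94617232961) (nat_lit 152) (nat_lit 18629018353) (nat_lit 0) (nat_lit 91507054409) (nat_lit 2) (nat_lit 5) (nat_lit 4) (nat_lit 4) (nat_lit 2) (nat_lit 4) (nat_lit 367) (nat_lit 218) (nat_lit 195)))))) (XT.nd (nat_lit 546) (nat_lit 152) (nat_lit 0) (XT.nd (nat_lit 234) (nat_lit 0) (nat_lit 0) (XT.nd (nat_lit 78) (nat_lit 76) (nat_lit 0) (XT.lf (nat_lit 0) (nat_lit 14688914792) (nat_lit 152) (nat_lit 1811395385) (nat_lit 0) (nat_lit 14688914792) (nat_lit 5) (nat_lit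 5) (nat_lit 7) (nat_lit 4) (nat_lit 5) (nat_lit 4) (nat_lit 342) (nat_lit 219) (nat_lit 219)) (XT.nd (nat_lit 78) (nat_lit 0) (nat_lit 0) (XT.lf (nat_lit 0) (nat_lit 6881120729) (nat_lit 76) (nat_lit 29342000704) (nat_lit 76) (nat_lit 29104504588) (nat_lit 4) (nat_lit 4) (nat_lit 5) (nat_lit 5) (nat_lit 5) (nat_lit 4) (nat_lit 343) (nat_lit 219) (nat_lit 218)) (XT.lf (nat_lit 0) (nat_lit 17647077083) (nat_lit 76) (nat_lit 25622564230) (nat_lit 76) (nat_lit 25158881337) (nat_lit 4) (nat_lit 4) (nat_lit 5) (nat_lit 5) (nat_lit 5) (nat_lit 4) (nat_lit 344) (nat_lit 219) (nat_lit 217)))) (XT.nd (nat_lit 156) (nat_lit 0) (nat_lit 0) (XT.nd (nat_lit 78) (nat_lit 0) (nat_lit 0) (XT.lf (nat_lit 0) (nat_lit 28628610879) (nat_lit 76) (nat_lit 21870038217) (nat_lit 76) (nat_lit 21190939346) (nat_lit 4) (nat_lit 4) (nat_lit 5) (nat_lit 5) (nat_lit 5) (nat_lit 4) (nat_lit 345) (nat_lit 219) (nat_lit 216))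 (XT.lf (nat_lit 0) (nat_lit 39851868627) (nat_lit 76) (nat_lit 18075488080) (nat_lit 76) (nat_lit 17191231134) (nat_lit 4) (nat_lit 4) (nat_lit 5) (nat_lit 5) (nat_lit 5) (nat_lit 4) (nat_lit 346) (nat_lit 219) (nat_lit 215))) (XT.nd (nat_lit 78) (nat_lit 0) (nat_lit 0) (XT.lf (nat_lit 0) (nat_lit 51343572369) (nat_lit 76) (nat_lit 14229879174) (nat_lit 76) (nat_lit 13150233586) (nat_lit 4) (nat_lit 4) (nat_lit 5) (nat_lit 5) (nat_lit 5) (nat_lit 4) (nat_lit 347) (nat_lit 219) (nat_lit 214)) (XT.lf (nat_lit 0) (nat_lit 63131083303) (nat_lit 76) (nat_lit 10324055290) (nat_lit 76) (nat_lit 9058325280) (nat_lit 4) (nat_lit 4) (nat_lit 5) (nat_lit 5) (nat_lit 5) (nat_lit 4) (nat_lit 348) (nat_lit 219) (nat_lit 213))))) (XT.nd (nat_lit 312) (nat_lit 0) (nat_lit 0) (XT.nd (nat_lit 156) (nat_lit 152) (nat_lit 0) (XT.nd (nat_lit 78) (nat_lit 0) (nat_lit 0) (XT.lf (nat_lit 0) (nat_lit 75242466933)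 (nat_lit 76) (nat_lit 6348716844) (nat_lit 76) (nat_lit 4905763576) (nat_lit 4) (nat_lit 4) (nat_lit 5) (nat_lit 5) (nat_lit 5) (nat_lit 4) (nat_lit 349) (nat_lit 219) (nat_lit 212)) (XT.lf (nat_lit 0) (nat_lit 87706559885) (nat_lit 76) (nat_lit 2294398747) (nat_lit 76) (nat_lit 682661423) (nat_lit 4) (nat_lit 4) (nat_lit 5) (nat_lit 5) (nat_lit 5) (nat_lit 4) (nat_lit 350) (nat_lit 219) (nat_lit 211))) (XT.nd (nat_lit 78) (nat_lit 0) (nat_lit 0) (XT.lf (nat_lit 0) (nat_lit 3622300478) (nat_lit 152) (nat_lit 89556505647) (nat_lit 0) (nat_lit 1901442183) (nat_lit 2) (nat_lit 5) (nat_lit 4) (nat_lit 4) (nat_lit 2) (nat_lit 4) (nat_lit 351) (nat_lit 219) (nat_lit 210)) (XT.lf (nat_lit 0) (nat_lit 8057363356) (nat_lit 152) (nat_lit 85453420904) (nat_lit 0) (nat_lit 6187871941) (nat_lit 2) (nat_lit 5) (nat_lit 4) (nat_lit 4) (nat_lit 2) (nat_lit 4) (nat_lit 352) (nat_lit 219) (nat_lit 209))))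 (XT.nd (nat_lit 156) (nat_lit 0) (nat_lit 0) (XT.nd (nat_lit 78) (nat_lit 0) (nat_lit 0) (XT.lf (nat_lit 0) (nat_lit 12594877059) (nat_lit 152) (nat_lit 81372875389) (nat_lit 0) (nat_lit 10583830291) (nat_lit 2) (nat_lit 5) (nat_lit 4) (nat_lit 4) (nat_lit 2) (nat_lit 4) (nat_lit 353) (nat_lit 219) (nat_lit 208)) (XT.lf (nat_lit 0) (nat_lit 17245645191) (nat_lit 152) (nat_lit 77305153517) (nat_lit 0) (nat_lit 15099783801) (nat_lit 2) (nat_lit 5) (nat_lit 4) (nat_lit 4) (nat_lit 2) (nat_lit 4) (nat_lit 354) (nat_lit 219) (nat_lit 207))) (XT.nd (nat_lit 78) (nat_lit 0) (nat_lit 0) (XT.lf (nat_lit 0) (nat_lit 22020741009) (nat_lit 152) (nat_lit 73240570236) (nat_lit 0) (nat_lit 19746484742) (nat_lit 2) (nat_lit 5) (nat_lit 4) (nat_lit 4) (nat_lit 2) (nat_lit 4) (nat_lit 355) (nat_lit 219) (nat_lit 206)) (XT.lf (nat_lit 0) (nat_lit 26931533790) (nat_lit 152) (nat_lit 69169447968) (nat_lit 0)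 (nat_lit 24534996687) (nat_lit 2) (nat_lit 5) (nat_lit 4) (nat_lit 4) (nat_lit 2) (nat_lit 4) (nat_lit 356) (nat_lit 219) (nat_lit 205))))))))
noncomputable def xc3 : XT := (XT.nd (nat_lit 40638) (nat_lit 0) (nat_lit 0) (XT.nd (nat_lit 39546) (nat_lit 0) (nat_lit 0) (XT.nd (nat_lit 546) (nat_lit 0) (nat_lit 0) (XT.nd (nat_lit 234) (nat_lit 0) (nat_lit 0) (XT.nd (nat_lit 78) (nat_lit 0) (nat_lit 0) (XT.lf (nat_lit 0) (nat_lit 31989715896) (nat_lit 152) (nat_lit 65082093562) (nat_lit 0) (nat_lit 29476720854) (nat_lit 2) (nat_lit 5) (nat_lit 4) (nat_lit 4) (nat_lit 2) (nat_lit 4) (nat_lit 357) (nat_lit 219) (nat_lit 204)) (XT.nd (nat_lit 78) (nat_lit 0) (nat_lit 0) (XT.lf (nat_lit 0) (nat_lit 37207330619) (nat_lit 152) (nat_lit 60968775224) (nat_lit 0) (nat_lit 34583423254) (nat_lit 2) (nat_lit 5) (nat_lit 4) (nat_lit 4) (nat_lit 2) (nat_lit 4) (nat_lit 358) (nat_lit 219) (nat_lit 203)) (XT.lf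 (nat_lit 0) (nat_lit 42596800851) (nat_lit 152) (nat_lit 56819699338) (nat_lit 0) (nat_lit 39867262702) (nat_lit 2) (nat_lit 5) (nat_lit 4) (nat_lit 4) (nat_lit 2) (nat_lit 4) (nat_lit 359) (nat_lit 219) (nat_lit 202)))) (XT.nd (nat_lit 156) (nat_lit 0) (nat_lit 0) (XT.nd (nat_lit 78) (nat_lit 0) (nat_lit 0) (XT.lf (nat_lit 0) (nat_lit 48170958664) (nat_lit 152) (nat_lit 52624987153) (nat_lit 0) (nat_lit 45340819769) (nat_lit 2) (nat_lit 5) (nat_lit 4) (nat_lit 4) (nat_lit 2) (nat_lit 4) (nat_lit 360) (nat_lit 219) (nat_lit 201)) (XT.lf (nat_lit 0) (nat_lit 53943075862) (nat_lit 152) (nat_lit 48374651257) (nat_lit 0) (nat_lit 51017126732) (nat_lit 2) (nat_lit 5) (nat_lit 4) (nat_lit 4) (nat_lit 2) (nat_lit 4) (nat_lit 361) (nat_lit 219) (nat_lit 200))) (XT.nd (nat_lit 78) (nat_lit 0) (nat_lit 0) (XT.lf (nat_lit 0) (nat_lit 59926895581) (nat_lit 152) (nat_lit 44058571805) (nat_lit 0) (nat_lit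 56909698609) (nat_lit 2) (nat_lit 5) (nat_lit 4) (nat_lit 4) (nat_lit 2) (nat_lit 4) (nat_lit 362) (nat_lit 219) (nat_lit 199)) (XT.lf (nat_lit 0) (nat_lit 66136665012) (nat_lit 152) (nat_lit 39666472416) (nat_lit 0) (nat_lit 63032565332) (nat_lit 2) (nat_lit 5) (nat_lit 4) (nat_lit 4) (nat_lit 2) (nat_lit 4) (nat_lit 363) (nat_lit 219) (nat_lit 198))))) (XT.nd (nat_lit 234) (nat_lit 0) (nat_lit 0) (XT.nd (nat_lit 78) (nat_lit 0) (nat_lit 0) (XT.lf (nat_lit 0) (nat_lit 72587169319) (nat_lit 152) (nat_lit 35187895710) (nat_lit 0) (nat_lit 69400305156) (nat_lit 2) (nat_lit 5) (nat_lit 4) (nat_lit 4) (nat_lit 2) (nat_lit 4) (nat_lit 364) (nat_lit 219) (nat_lit 197)) (XT.nd (nat_lit 78) (nat_lit 0) (nat_lit 0) (XT.lf (nat_lit 0) (nat_lit 79293766846) (nat_lit 152) (nat_lit 30612178410) (nat_lit 0) (nat_lit 76028079366) (nat_lit 2) (nat_lit 5) (nat_lit 4) (nat_lit 4) (nat_lit 2) (nat_lit 4) (nat_lit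 365) (nat_lit 219) (nat_lit 196)) (XT.lf (nat_lit 0) (nat_lit 86272425682) (nat_lit 152) (nat_lit 25928425951) (nat_lit 0) (nat_lit 82931668376) (nat_lit 2) (nat_lit 5) (nat_lit 4) (nat_lit 4) (nat_lit 2) (nat_lit 4) (nat_lit 366) (nat_lit 219) (nat_lit 195)))) (XT.nd (nat_lit 38610) (nat_lit 0) (nat_lit 228) (XT.nd (nat_lit 38532) (nat_lit 0) (nat_lit 228) (XT.lf (nat_lit 0) (nat_lit 93539761682) (nat_lit 152) (nat_lit 21125486541) (nat_lit 0) (nat_lit 90127509304) (nat_lit 2) (nat_lit 5) (nat_lit 4) (nat_lit 4) (nat_lit 2) (nat_lit 4) (nat_lit 367) (nat_lit 219) (nat_lit 194)) (XT.lf (nat_lit 0) (nat_lit 8295252581) (nat_lit 152) (nat_lit 11861520516) (nat_lit 0) (nat_lit 8295252581) (nat_lit 5) (nat_lit 5) (nat_lit 7) (nat_lit 4) (nat_lit 5) (nat_lit 4) (nat_lit 340) (nat_lit 220) (nat_lit 220))) (XT.nd (nat_lit 78) (nat_lit 0) (nat_lit 0) (XT.lf (nat_lit 0) (nat_lit 22995797990) (nat_lit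 152) (nat_lit 13830878715) (nat_lit 0) (nat_lit 22746427068) (nat_lit 5) (nat_lit 5) (nat_lit 7) (nat_lit 4) (nat_lit 5) (nat_lit 4) (nat_lit 341) (nat_lit 220) (nat_lit 219)) (XT.lf (nat_lit 0) (nat_lit 29537529123) (nat_lit 152) (nat_lit 3792964571) (nat_lit 0) (nat_lit 29050662085) (nat_lit 5) (nat_lit 5) (nat_lit 7) (nat_lit 4) (nat_lit 5) (nat_lit 4) (nat_lit 342) (nat_lit 220) (nat_lit 218)))))) (XT.nd (nat_lit 546) (nat_lit 152) (nat_lit 0) (XT.nd (nat_lit 234) (nat_lit 0) (nat_lit 0) (XT.nd (nat_lit 78) (nat_lit 0) (nat_lit 0) (XT.lf (nat_lit 0) (nat_lit 6542264335) (nat_lit 76) (nat_lit 29751898025) (nat_lit 76) (nat_lit 29038844209) (nat_lit 4) (nat_lit 4) (nat_lit 5) (nat_lit 5) (nat_lit 5) (nat_lit 4) (nat_lit 343) (nat_lit 220) (nat_lit 217)) (XT.nd (nat_lit 78) (nat_lit 0) (nat_lit 0) (XT.lf (nat_lit 0) (nat_lit 17150796115) (nat_lit 76) (nat_lit 26107038275) (nat_lit 76) (nat_lit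 25178568482) (nat_lit 4) (nat_lit 4) (nat_lit 5) (nat_lit 5) (nat_lit 5) (nat_lit 4) (nat_lit 344) (nat_lit 220) (nat_lit 216)) (XT.lf (nat_lit 0) (nat_lit 27982401747) (nat_lit 76) (nat_lit 22425537714) (nat_lit 76) (nat_lit 21291909846) (nat_lit 4) (nat_lit 4) (nat_lit 5) (nat_lit 5) (nat_lit 5) (nat_lit 4) (nat_lit 345) (nat_lit 220) (nat_lit 215)))) (XT.nd (nat_lit 156) (nat_lit 0) (nat_lit 0) (XT.nd (nat_lit 78) (nat_lit 0) (nat_lit 0) (XT.lf (nat_lit 0) (nat_lit 39062870766) (nat_lit 76) (nat_lit 18698630864) (nat_lit 76) (nat_lit 17369614353) (nat_lit 4) (nat_lit 4) (nat_lit 5) (nat_lit 5) (nat_lit 5) (nat_lit 4) (nat_lit 346) (nat_lit 220) (nat_lit 214)) (XT.lf (nat_lit 0) (nat_lit 50418585242) (nat_lit 76) (nat_lit 14917444137) (nat_lit 76) (nat_lit 13402343205) (nat_lit 4) (nat_lit 4) (nat_lit 5) (nat_lit 5) (nat_lit 5) (nat_lit 4) (nat_lit 347) (nat_lit 220) (nat_lit 213))) (XT.nd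 (nat_lit 78) (nat_lit 0) (nat_lit 0) (XT.lf (nat_lit 0) (nat_lit 62076582590) (nat_lit 76) (nat_lit 11072974708) (nat_lit 76) (nat_lit 9380650517) (nat_lit 4) (nat_lit 4) (nat_lit 5) (nat_lit 5) (nat_lit 5) (nat_lit 4) (nat_lit 348) (nat_lit 220) (nat_lit 212)) (XT.lf (nat_lit 0) (nat_lit 74064619947) (nat_lit 76) (nat_lit 7156069077) (nat_lit 76) (nat_lit 5294960831) (nat_lit 4) (nat_lit 4) (nat_lit 5) (nat_lit 5) (nat_lit 5) (nat_lit 4) (nat_lit 349) (nat_lit 220) (nat_lit 211))))) (XT.nd (nat_lit 234) (nat_lit 0) (nat_lit 0) (XT.nd (nat_lit 78) (nat_lit 152) (nat_lit 0) (XT.lf (nat_lit 0) (nat_lit 86411240260) (nat_lit 76) (nat_lit 3157401280) (nat_lit 76) (nat_lit 1135546314) (nat_lit 4) (nat_lit 4) (nat_lit 5) (nat_lit 5) (nat_lit 5) (nat_lit 4) (nat_lit 350) (nat_lit 220) (nat_lit 210)) (XT.nd (nat_lit 78) (nat_lit 0) (nat_lit 0) (XT.lf (nat_lit 0) (nat_lit 3095822640) (nat_lit 152)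 (nat_lit 91023383270) (nat_lit 0) (nat_lit 984223533) (nat_lit 2) (nat_lit 5) (nat_lit 4) (nat_lit 4) (nat_lit 2) (nat_lit 4) (nat_lit 351) (nat_lit 220) (nat_lit 209)) (XT.lf (nat_lit 0) (nat_lit 7472689265) (nat_lit 152) (nat_lit 87031368511) (nat_lit 0) (nat_lit 5219534806) (nat_lit 2) (nat_lit 5) (nat_lit 4) (nat_lit 4) (nat_lit 2) (nat_lit 4) (nat_lit 352) (nat_lit 220) (nat_lit 208)))) (XT.nd (nat_lit 156) (nat_lit 0) (nat_lit 0) (XT.nd (nat_lit 78) (nat_lit 0) (nat_lit 0) (XT.lf (nat_lit 0) (nat_lit 11954777965) (nat_lit 152) (nat_lit 83056603932) (nat_lit 0) (nat_lit 9566808884) (nat_lit 2) (nat_lit 5) (nat_lit 4) (nat_lit 4) (nat_lit 2) (nat_lit 4) (nat_lit 353) (nat_lit 220) (nat_lit 207)) (XT.lf (nat_lit 0) (nat_lit 16552760380) (nat_lit 152) (nat_lit 79089625808) (nat_lit 0) (nat_lit 14036396421) (nat_lit 2) (nat_lit 5) (nat_lit 4) (nat_lit 4) (nat_lit 2) (nat_lit 4) (nat_lit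 354) (nat_lit 220) (nat_lit 206))) (XT.nd (nat_lit 78) (nat_lit 0) (nat_lit 0) (XT.lf (nat_lit 0) (nat_lit 21277584086) (nat_lit 152) (nat_lit 75120988955) (nat_lit 0) (nat_lit 18638939292) (nat_lit 2) (nat_lit 5) (nat_lit 4) (nat_lit 4) (nat_lit 2) (nat_lit 4) (nat_lit 355) (nat_lit 220) (nat_lit 205)) (XT.lf (nat_lit 0) (nat_lit 26140498665) (nat_lit 152) (nat_lit 71141244236) (nat_lit 0) (nat_lit 23385395932) (nat_lit 2) (nat_lit 5) (nat_lit 4) (nat_lit 4) (nat_lit 2) (nat_lit 4) (nat_lit 356) (nat_lit 220) (nat_lit 204))))))) (XT.nd (nat_lit 39390) (nat_lit 0) (nat_lit 0) (XT.nd (nat_lit 546) (nat_lit 0) (nat_lit 0) (XT.nd (nat_lit 234) (nat_lit 0) (nat_lit 0) (XT.nd (nat_lit 78) (nat_lit 0) (nat_lit 0) (XT.lf (nat_lit 0) (nat_lit 31153082485) (nat_lit 152) (nat_lit 67140916068) (nat_lit 0) (nat_lit 28287067428) (nat_lit 2) (nat_lit 5) (nat_lit 4) (nat_lit 4) (nat_lit 2) (nat_lit 4) (nat_lit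 357) (nat_lit 220) (nat_lit 203)) (XT.nd (nat_lit 78) (nat_lit 0) (nat_lit 0) (XT.lf (nat_lit 0) (nat_lit 36327270267) (nat_lit 152) (nat_lit 63110479861) (nat_lit 0) (nat_lit 33355624427) (nat_lit 2) (nat_lit 5) (nat_lit 4) (nat_lit 4) (nat_lit 2) (nat_lit 4) (nat_lit 358) (nat_lit 220) (nat_lit 202)) (XT.lf (nat_lit 0) (nat_lit 41675381509) (nat_lit 152) (nat_lit 59040339339) (nat_lit 0) (nat_lit 38603134922) (nat_lit 2) (nat_lit 5) (nat_lit 4) (nat_lit 4) (nat_lit 2) (nat_lit 4) (nat_lit 359) (nat_lit 220) (nat_lit 201)))) (XT.nd (nat_lit 156) (nat_lit 0) (nat_lit 0) (XT.nd (nat_lit 78) (nat_lit 0) (nat_lit 0) (XT.lf (nat_lit 0) (nat_lit 47210149807) (nat_lit 152) (nat_lit 54920803690) (nat_lit 0) (nat_lit 44042092986) (nat_lit 2) (nat_lit 5) (nat_lit 4) (nat_lit 4) (nat_lit 2) (nat_lit 4) (nat_lit 360) (nat_lit 220) (nat_lit 200)) (XT.lf (nat_lit 0) (nat_lit 52944753181) (nat_lit 152)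 (nat_lit 50742064495) (nat_lit 0) (nat_lit 49685448517) (nat_lit 2) (nat_lit 5) (nat_lit 4) (nat_lit 4) (nat_lit 2) (nat_lit 4) (nat_lit 361) (nat_lit 220) (nat_lit 199))) (XT.nd (nat_lit 78) (nat_lit 0) (nat_lit 0) (XT.lf (nat_lit 0) (nat_lit 58892845449) (nat_lit 152) (nat_lit 46494172377) (nat_lit 0) (nat_lit 55546638078) (nat_lit 2) (nat_lit 5) (nat_lit 4) (nat_lit 4) (nat_lit 2) (nat_lit 4) (nat_lit 362) (nat_lit 220) (nat_lit 198)) (XT.lf (nat_lit 0) (nat_lit 65068588736) (nat_lit 152) (nat_lit 42167013307) (nat_lit 0) (nat_lit 61639616882) (nat_lit 2) (nat_lit 5) (nat_lit 4) (nat_lit 4) (nat_lit 2) (nat_lit 4) (nat_lit 363) (nat_lit 220) (nat_lit 197))))) (XT.nd (nat_lit 234) (nat_lit 0) (nat_lit 0) (XT.nd (nat_lit 78) (nat_lit 0) (nat_lit 0) (XT.lf (nat_lit 0) (nat_lit 71486687191) (nat_lit 152) (nat_lit 37750284524) (nat_lit 0) (nat_lit 67978892020) (nat_lit 2) (nat_lit 5) (nat_lit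 4) (nat_lit 4) (nat_lit 2) (nat_lit 4) (nat_lit 364) (nat_lit 220) (nat_lit 196)) (XT.nd (nat_lit 78) (nat_lit 0) (nat_lit 0) (XT.lf (nat_lit 0) (nat_lit 78162422002) (nat_lit 152) (nat_lit 33233470007) (nat_lit 0) (nat_lit 74579557006) (nat_lit 2) (nat_lit 5) (nat_lit 4) (nat_lit 4) (nat_lit 2) (nat_lit 4) (nat_lit 365) (nat_lit 220) (nat_lit 195)) (XT.lf (nat_lit 0) (nat_lit 85111687776) (nat_lit 152) (nat_lit 28605815437) (nat_lit 0) (nat_lit 81457327707) (nat_lit 2) (nat_lit 5) (nat_lit 4) (nat_lit 4) (nat_lit 2) (nat_lit 4) (nat_lit 366) (nat_lit 220) (nat_lit 194)))) (XT.nd (nat_lit 38454) (nat_lit 0) (nat_lit 228) (XT.nd (nat_lit 38376) (nat_lit 0) (nat_lit 228) (XT.lf (nat_lit 0) (nat_lit 92351030383) (nat_lit 152) (nat_lit 23856302588) (nat_lit 0) (nat_lit 88628579769) (nat_lit 2) (nat_lit 5) (nat_lit 4) (nat_lit 4) (nat_lit 2) (nat_lit 4) (nat_lit 367) (nat_lit 220) (nat_lit 193))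 (XT.lf (nat_lit 0) (nat_lit 2244611174) (nat_lit 152) (nat_lit 21488206847) (nat_lit 0) (nat_lit 2244611174) (nat_lit 5) (nat_lit 5) (nat_lit 7) (nat_lit 4) (nat_lit 5) (nat_lit 4) (nat_lit 338) (nat_lit 221) (nat_lit 221))) (XT.nd (nat_lit 78) (nat_lit 0) (nat_lit 0) (XT.lf (nat_lit 0) (nat_lit 10568239413) (nat_lit 152) (nat_lit 33493004291) (nat_lit 0) (nat_lit 10306399945) (nat_lit 5) (nat_lit 5) (nat_lit 7) (nat_lit 4) (nat_lit 5) (nat_lit 4) (nat_lit 339) (nat_lit 221) (nat_lit 220)) (XT.lf (nat_lit 0) (nat_lit 16758189679) (nat_lit 152) (nat_lit 23901723523) (nat_lit 0) (nat_lit 16246979289) (nat_lit 5) (nat_lit 5) (nat_lit 7) (nat_lit 4) (nat_lit 5) (nat_lit 4) (nat_lit 340) (nat_lit 221) (nat_lit 219)))))) (XT.nd (nat_lit 546) (nat_lit 152) (nat_lit 0) (XT.nd (nat_lit 234) (nat_lit 0) (nat_lit 0) (XT.nd (nat_lit 78) (nat_lit 76) (nat_lit 0) (XT.lf (nat_lit 0) (nat_lit 23073811123)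 (nat_lit 152) (nat_lit 14179735005) (nat_lit 0) (nat_lit 22325104617) (nat_lit 5) (nat_lit 5) (nat_lit 7) (nat_lit 4) (nat_lit 5) (nat_lit 4) (nat_lit 341) (nat_lit 221) (nat_lit 218)) (XT.nd (nat_lit 78) (nat_lit 76) (nat_lit 0) (XT.lf (nat_lit 0) (nat_lit 29530140939) (nat_lit 152) (nat_lit 4303891147) (nat_lit 0) (nat_lit 28555247656) (nat_lit 5) (nat_lit 5) (nat_lit 7) (nat_lit 4) (nat_lit 5) (nat_lit 4) (nat_lit 342) (nat_lit 221) (nat_lit 217)) (XT.lf (nat_lit 0) (nat_lit 5863744745) (nat_lit 76) (nat_lit 30335172496) (nat_lit 76) (nat_lit 29144863235) (nat_lit 4) (nat_lit 4) (nat_lit 5) (nat_lit 5) (nat_lit 5) (nat_lit 4) (nat_lit 343) (nat_lit 221) (nat_lit 216)))) (XT.nd (nat_lit 156) (nat_lit 0) (nat_lit 0) (XT.nd (nat_lit 78) (nat_lit 0) (nat_lit 0) (XT.lf (nat_lit 0) (nat_lit 16322348361) (nat_lit 76) (nat_lit 26761338198) (nat_lit 76) (nat_lit 25365870862) (nat_lit 4) (nat_lit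 4) (nat_lit 5) (nat_lit 5) (nat_lit 5) (nat_lit 4) (nat_lit 344) (nat_lit 221) (nat_lit 215)) (XT.lf (nat_lit 0) (nat_lit 27011165264) (nat_lit 76) (nat_lit 23147480925) (nat_lit 76) (nat_lit 21556624946) (nat_lit 4) (nat_lit 4) (nat_lit 5) (nat_lit 5) (nat_lit 5) (nat_lit 4) (nat_lit 345) (nat_lit 221) (nat_lit 214))) (XT.nd (nat_lit 78) (nat_lit 0) (nat_lit 0) (XT.lf (nat_lit 0) (nat_lit 37955645018) (nat_lit 76) (nat_lit 19484996253) (nat_lit 76) (nat_lit 17708055853) (nat_lit 4) (nat_lit 4) (nat_lit 5) (nat_lit 5) (nat_lit 5) (nat_lit 4) (nat_lit 346) (nat_lit 221) (nat_lit 213)) (XT.lf (nat_lit 0) (nat_lit 49181845907) (nat_lit 76) (nat_lit 15765163981) (nat_lit 76) (nat_lit 13811000323) (nat_lit 4) (nat_lit 4) (nat_lit 5) (nat_lit 5) (nat_lit 5) (nat_lit 4) (nat_lit 347) (nat_lit 221) (nat_lit 212))))) (XT.nd (nat_lit 312) (nat_lit 0) (nat_lit 0) (XT.nd (nat_lit 156) (nat_lit 152) (nat_lit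 0) (XT.nd (nat_lit 78) (nat_lit 0) (nat_lit 0) (XT.lf (nat_lit 0) (nat_lit 60716496983) (nat_lit 76) (nat_lit 11979127367) (nat_lit 76) (nat_lit 9856179653) (nat_lit 4) (nat_lit 4) (nat_lit 5) (nat_lit 5) (nat_lit 5) (nat_lit 4) (nat_lit 348) (nat_lit 221) (nat_lit 211)) (XT.lf (nat_lit 0) (nat_lit 72587061700) (nat_lit 76) (nat_lit 8117872036) (nat_lit 76) (nat_lit 5834177603) (nat_lit 4) (nat_lit 4) (nat_lit 5) (nat_lit 5) (nat_lit 5) (nat_lit 4) (nat_lit 349) (nat_lit 221) (nat_lit 210))) (XT.nd (nat_lit 78) (nat_lit 152) (nat_lit 0) (XT.lf (nat_lit 0) (nat_lit 84821803307) (nat_lit 76) (nat_lit 4172204525) (nat_lit 76) (nat_lit 1735417977) (nat_lit 4) (nat_lit 4) (nat_lit 5) (nat_lit 5) (nat_lit 5) (nat_lit 4) (nat_lit 350) (nat_lit 221) (nat_lit 209)) (XT.lf (nat_lit 0) (nat_lit 2339224957) (nat_lit 76) (nat_lit 85313721) (nat_lit 152) (nat_lit 92706804606) (nat_lit 2) (nat_lit 5) (nat_lit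 3) (nat_lit 5) (nat_lit 4) (nat_lit 4) (nat_lit 351) (nat_lit 221) (nat_lit 208)))) (XT.nd (nat_lit 156) (nat_lit 0) (nat_lit 0) (XT.nd (nat_lit 78) (nat_lit 0) (nat_lit 0) (XT.lf (nat_lit 0) (nat_lit 6745160213) (nat_lit 152) (nat_lit 88905064416) (nat_lit 0) (nat_lit 4102978056) (nat_lit 2) (nat_lit 5) (nat_lit 4) (nat_lit 4) (nat_lit 2) (nat_lit 4) (nat_lit 352) (nat_lit 221) (nat_lit 207)) (XT.lf (nat_lit 0) (nat_lit 11174463195) (nat_lit 152) (nat_lit 85031043586) (nat_lit 0) (nat_lit 8403886161) (nat_lit 2) (nat_lit 5) (nat_lit 4) (nat_lit 4) (nat_lit 2) (nat_lit 4) (nat_lit 353) (nat_lit 221) (nat_lit 206))) (XT.nd (nat_lit 78) (nat_lit 0) (nat_lit 0) (XT.lf (nat_lit 0) (nat_lit 15722173499) (nat_lit 152) (nat_lit 81160011890) (nat_lit 0) (nat_lit 12829315628) (nat_lit 2) (nat_lit 5) (nat_lit 4) (nat_lit 4) (nat_lit 2) (nat_lit 4) (nat_lit 354) (nat_lit 221) (nat_lit 205)) (XT.lf (nat_lit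 0) (nat_lit 20399119004) (nat_lit 152) (nat_lit 77282752586) (nat_lit 0) (nat_lit 17389803195) (nat_lit 2) (nat_lit 5) (nat_lit 4) (nat_lit 4) (nat_lit 2) (nat_lit 4) (nat_lit 355) (nat_lit 221) (nat_lit 204))))))))
noncomputable def xc4 : XT := (XT.nd (nat_lit 40326) (nat_lit 0) (nat_lit 0) (XT.nd (nat_lit 39234) (nat_lit 0) (nat_lit 0) (XT.nd (nat_lit 546) (nat_lit 0) (nat_lit 0) (XT.nd (nat_lit 234) (nat_lit 0) (nat_lit 0) (XT.nd (nat_lit 78) (nat_lit 0) (nat_lit 0) (XT.lf (nat_lit 0) (nat_lit 25216435296) (nat_lit 152) (nat_lit 73390034105) (nat_lit 0) (nat_lit 22096207164) (nat_lit 2) (nat_lit 5) (nat_lit 4) (nat_lit 4) (nat_lit 2) (nat_lit 4) (nat_lit 356) (nat_lit 221) (nat_lit 203)) (XT.nd (nat_lit 78) (nat_lit 0) (nat_lit 0) (XT.lf (nat_lit 0) (nat_lit 30185592175) (nat_lit 152) (nat_lit 69472588069) (nat_lit 0) (nat_lit 26959733259) (nat_lit 2) (nat_lit 5) (nat_lit 4) (nat_lit 4)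 (nat_lit 2) (nat_lit 4) (nat_lit 357) (nat_lit 221) (nat_lit 202)) (XT.lf (nat_lit 0) (nat_lit 35318420967) (nat_lit 152) (nat_lit 65521087225) (nat_lit 0) (nat_lit 31991961305) (nat_lit 2) (nat_lit 5) (nat_lit 4) (nat_lit 4) (nat_lit 2) (nat_lit 4) (nat_lit 358) (nat_lit 221) (nat_lit 201)))) (XT.nd (nat_lit 156) (nat_lit 0) (nat_lit 0) (XT.nd (nat_lit 78) (nat_lit 0) (nat_lit 0) (XT.lf (nat_lit 0) (nat_lit 40627142694) (nat_lit 152) (nat_lit 61526123239) (nat_lit 0) (nat_lit 37204872797) (nat_lit 2) (nat_lit 5) (nat_lit 4) (nat_lit 4) (nat_lit 2) (nat_lit 4) (nat_lit 359) (nat_lit 221) (nat_lit 200)) (XT.lf (nat_lit 0) (nat_lit 46124397168) (nat_lit 152) (nat_lit 57478184291) (nat_lit 0) (nat_lit 42610879428) (nat_lit 2) (nat_lit 5) (nat_lit 4) (nat_lit 4) (nat_lit 2) (nat_lit 4) (nat_lit 360) (nat_lit 221) (nat_lit 199))) (XT.nd (nat_lit 78) (nat_lit 0) (nat_lit 0) (XT.lf (nat_lit 0) (nat_lit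 51823273091) (nat_lit 152) (nat_lit 53367632431) (nat_lit 0) (nat_lit 48222852644) (nat_lit 2) (nat_lit 5) (nat_lit 4) (nat_lit 4) (nat_lit 2) (nat_lit 4) (nat_lit 361) (nat_lit 221) (nat_lit 198)) (XT.lf (nat_lit 0) (nat_lit 57737339215) (nat_lit 152) (nat_lit 49184680632) (nat_lit 0) (nat_lit 54054154286) (nat_lit 2) (nat_lit 5) (nat_lit 4) (nat_lit 4) (nat_lit 2) (nat_lit 4) (nat_lit 362) (nat_lit 221) (nat_lit 197))))) (XT.nd (nat_lit 234) (nat_lit 0) (nat_lit 0) (XT.nd (nat_lit 78) (nat_lit 0) (nat_lit 0) (XT.lf (nat_lit 0) (nat_lit 63880676650) (nat_lit 152) (nat_lit 44919369484) (nat_lit 0) (nat_lit 60118668404) (nat_lit 2) (nat_lit 5) (nat_lit 4) (nat_lit 4) (nat_lit 2) (nat_lit 4) (nat_lit 363) (nat_lit 221) (nat_lit 196)) (XT.nd (nat_lit 78) (nat_lit 0) (nat_lit 0) (XT.lf (nat_lit 0) (nat_lit 70267912390) (nat_lit 152) (nat_lit 40561543484) (nat_lit 0) (nat_lit 66430834318) (nat_lit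 2) (nat_lit 5) (nat_lit 4) (nat_lit 4) (nat_lit 2) (nat_lit 4) (nat_lit 364) (nat_lit 221) (nat_lit 195)) (XT.lf (nat_lit 0) (nat_lit 76914254139) (nat_lit 152) (nat_lit 36100826856) (nat_lit 0) (nat_lit 73005680994) (nat_lit 2) (nat_lit 5) (nat_lit 4) (nat_lit 4) (nat_lit 2) (nat_lit 4) (nat_lit 365) (nat_lit 221) (nat_lit 194)))) (XT.nd (nat_lit 38298) (nat_lit 0) (nat_lit 380) (XT.nd (nat_lit 78) (nat_lit 0) (nat_lit 0) (XT.lf (nat_lit 0) (nat_lit 83835526520) (nat_lit 152) (nat_lit 31526598847) (nat_lit 0) (nat_lit 79858862830) (nat_lit 2) (nat_lit 5) (nat_lit 4) (nat_lit 4) (nat_lit 2) (nat_lit 4) (nat_lit 366) (nat_lit 221) (nat_lit 193)) (XT.lf (nat_lit 0) (nat_lit 91048208753) (nat_lit 152) (nat_lit 26827968437) (nat_lit 0) (nat_lit 87006696925) (nat_lit 2) (nat_lit 5) (nat_lit 4) (nat_lit 4) (nat_lit 2) (nat_lit 4) (nat_lit 367) (nat_lit 221) (nat_lit 192))) (XT.nd (nat_lit 78) (nat_lit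 0) (nat_lit 0) (XT.lf (nat_lit 0) (nat_lit 16791194345) (nat_lit 76) (nat_lit 3473083354) (nat_lit 76) (nat_lit 3473083354) (nat_lit 7) (nat_lit 4) (nat_lit 8) (nat_lit 5) (nat_lit 8) (nat_lit 4) (nat_lit 336) (nat_lit 222) (nat_lit 222)) (XT.lf (nat_lit 0) (nat_lit 46976066468) (nat_lit 76) (nat_lit 1484166497) (nat_lit 76) (nat_lit 1200987112) (nat_lit 7) (nat_lit 4) (nat_lit 8) (nat_lit 5) (nat_lit 8) (nat_lit 4) (nat_lit 337) (nat_lit 222) (nat_lit 221)))))) (XT.nd (nat_lit 546) (nat_lit 152) (nat_lit 0) (XT.nd (nat_lit 234) (nat_lit 76) (nat_lit 0) (XT.nd (nat_lit 78) (nat_lit 0) (nat_lit 0) (XT.lf (nat_lit 0) (nat_lit 4665291090) (nat_lit 152) (nat_lit 43164030309) (nat_lit 0) (nat_lit 4128520180) (nat_lit 5) (nat_lit 5) (nat_lit 7) (nat_lit 4) (nat_lit 5) (nat_lit 4) (nat_lit 338) (nat_lit 222) (nat_lit 220)) (XT.nd (nat_lit 78) (nat_lit 0) (nat_lit 0) (XT.lf (nat_lit 0) (nat_lit 10650153202)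 (nat_lit 152) (nat_lit 33859303396) (nat_lit 0) (nat_lit 9864011371) (nat_lit 5) (nat_lit 5) (nat_lit 7) (nat_lit 4) (nat_lit 5) (nat_lit 4) (nat_lit 339) (nat_lit 222) (nat_lit 219)) (XT.lf (nat_lit 0) (nat_lit 16750432085) (nat_lit 152) (nat_lit 24438196426) (nat_lit 0) (nat_lit 15726794138) (nat_lit 5) (nat_lit 5) (nat_lit 7) (nat_lit 4) (nat_lit 5) (nat_lit 4) (nat_lit 340) (nat_lit 222) (nat_lit 218)))) (XT.nd (nat_lit 156) (nat_lit 76) (nat_lit 0) (XT.nd (nat_lit 78) (nat_lit 0) (nat_lit 0) (XT.lf (nat_lit 0) (nat_lit 22980652212) (nat_lit 152) (nat_lit 14878278194) (nat_lit 0) (nat_lit 21730827487) (nat_lit 5) (nat_lit 5) (nat_lit 7) (nat_lit 4) (nat_lit 5) (nat_lit 4) (nat_lit 341) (nat_lit 222) (nat_lit 217)) (XT.lf (nat_lit 0) (nat_lit 29355647440) (nat_lit 152) (nat_lit 5156786989) (nat_lit 0) (nat_lit 27890406737) (nat_lit 5) (nat_lit 5) (nat_lit 7) (nat_lit 4) (nat_lit 5) (nat_lit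 4) (nat_lit 342) (nat_lit 222) (nat_lit 216))) (XT.nd (nat_lit 78) (nat_lit 0) (nat_lit 0) (XT.lf (nat_lit 0) (nat_lit 4843946438) (nat_lit 76) (nat_lit 31093212867) (nat_lit 76) (nat_lit 29422814090) (nat_lit 4) (nat_lit 4) (nat_lit 5) (nat_lit 5) (nat_lit 5) (nat_lit 4) (nat_lit 343) (nat_lit 222) (nat_lit 215)) (XT.lf (nat_lit 0) (nat_lit 15159761325) (nat_lit 76) (nat_lit 27587021857) (nat_lit 76) (nat_lit 25721234437) (nat_lit 4) (nat_lit 4) (nat_lit 5) (nat_lit 5) (nat_lit 5) (nat_lit 4) (nat_lit 344) (nat_lit 222) (nat_lit 214))))) (XT.nd (nat_lit 234) (nat_lit 152) (nat_lit 0) (XT.nd (nat_lit 78) (nat_lit 0) (nat_lit 0) (XT.lf (nat_lit 0) (nat_lit 25712588963) (nat_lit 76) (nat_lit 24037586761) (nat_lit 76) (nat_lit 21985714920) (nat_lit 4) (nat_lit 4) (nat_lit 5) (nat_lit 5) (nat_lit 5) (nat_lit 4) (nat_lit 345) (nat_lit 222) (nat_lit 213)) (XT.nd (nat_lit 78) (nat_lit 0) (nat_lit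 0) (XT.lf (nat_lit 0) (nat_lit 36527555130) (nat_lit 76) (nat_lit 20436456545) (nat_lit 76) (nat_lit 18207361446) (nat_lit 4) (nat_lit 4) (nat_lit 5) (nat_lit 5) (nat_lit 5) (nat_lit 4) (nat_lit 346) (nat_lit 222) (nat_lit 212)) (XT.lf (nat_lit 0) (nat_lit 47630409748) (nat_lit 76) (nat_lit 16775057089) (nat_lit 76) (nat_lit 14377177933) (nat_lit 4) (nat_lit 4) (nat_lit 5) (nat_lit 5) (nat_lit 5) (nat_lit 4) (nat_lit 347) (nat_lit 222) (nat_lit 211)))) (XT.nd (nat_lit 156) (nat_lit 152) (nat_lit 0) (XT.nd (nat_lit 78) (nat_lit 0) (nat_lit 0) (XT.lf (nat_lit 0) (nat_lit 59047588183) (nat_lit 76) (nat_lit 13044670774) (nat_lit 76) (nat_lit 10486044899) (nat_lit 4) (nat_lit 4) (nat_lit 5) (nat_lit 5) (nat_lit 5) (nat_lit 4) (nat_lit 348) (nat_lit 222) (nat_lit 210)) (XT.lf (nat_lit 0) (nat_lit 70806274195) (nat_lit 76) (nat_lit 9236415729) (nat_lit 76) (nat_lit 6524697740) (nat_lit 4) (nat_lit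 4) (nat_lit 5) (nat_lit 5) (nat_lit 5) (nat_lit 4) (nat_lit 349) (nat_lit 222) (nat_lit 209))) (XT.nd (nat_lit 78) (nat_lit 152) (nat_lit 0) (XT.lf (nat_lit 0) (nat_lit 82934464654) (nat_lit 76) (nat_lit 5341224680) (nat_lit 76) (nat_lit 2483704678) (nat_lit 4) (nat_lit 4) (nat_lit 5) (nat_lit 5) (nat_lit 5) (nat_lit 4) (nat_lit 350) (nat_lit 222) (nat_lit 208)) (XT.lf (nat_lit 0) (nat_lit 286495189) (nat_lit 76) (nat_lit 1330684245) (nat_lit 152) (nat_lit 93546566983) (nat_lit 2) (nat_lit 5) (nat_lit 3) (nat_lit 5) (nat_lit 4) (nat_lit 4) (nat_lit 351) (nat_lit 222) (nat_lit 207))))))) (XT.nd (nat_lit 1092) (nat_lit 0) (nat_lit 0) (XT.nd (nat_lit 546) (nat_lit 0) (nat_lit 0) (XT.nd (nat_lit 234) (nat_lit 0) (nat_lit 0) (XT.nd (nat_lit 78) (nat_lit 0) (nat_lit 0) (XT.lf (nat_lit 0) (nat_lit 5873043988) (nat_lit 152) (nat_lit 91078969802) (nat_lit 0) (nat_lit 2835543224) (nat_lit 2) (nat_lit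 5) (nat_lit 4) (nat_lit 4) (nat_lit 2) (nat_lit 4) (nat_lit 352) (nat_lit 222) (nat_lit 206)) (XT.nd (nat_lit 78) (nat_lit 0) (nat_lit 0) (XT.lf (nat_lit 0) (nat_lit 10252074859) (nat_lit 152) (nat_lit 87300895399) (nat_lit 0) (nat_lit 7092293259) (nat_lit 2) (nat_lit 5) (nat_lit 4) (nat_lit 4) (nat_lit 2) (nat_lit 4) (nat_lit 353) (nat_lit 222) (nat_lit 205)) (XT.lf (nat_lit 0) (nat_lit 14751906961) (nat_lit 152) (nat_lit 83521241253) (nat_lit 0) (nat_lit 11475667422) (nat_lit 2) (nat_lit 5) (nat_lit 4) (nat_lit 4) (nat_lit 2) (nat_lit 4) (nat_lit 354) (nat_lit 222) (nat_lit 204)))) (XT.nd (nat_lit 156) (nat_lit 0) (nat_lit 0) (XT.nd (nat_lit 78) (nat_lit 0) (nat_lit 0) (XT.lf (nat_lit 0) (nat_lit 19383254179) (nat_lit 152) (nat_lit 79731008187) (nat_lit 0) (nat_lit 15996102317) (nat_lit 2) (nat_lit 5) (nat_lit 4) (nat_lit 4) (nat_lit 2) (nat_lit 4) (nat_lit 355) (nat_lit 222) (nat_lit 203))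 (XT.lf (nat_lit 0) (nat_lit 24157143530) (nat_lit 152) (nat_lit 75921171837) (nat_lit 0) (nat_lit 20664360885) (nat_lit 2) (nat_lit 5) (nat_lit 4) (nat_lit 4) (nat_lit 2) (nat_lit 4) (nat_lit 356) (nat_lit 222) (nat_lit 202))) (XT.nd (nat_lit 78) (nat_lit 0) (nat_lit 0) (XT.lf (nat_lit 0) (nat_lit 29084941419) (nat_lit 152) (nat_lit 72082661164) (nat_lit 0) (nat_lit 25491558027) (nat_lit 2) (nat_lit 5) (nat_lit 4) (nat_lit 4) (nat_lit 2) (nat_lit 4) (nat_lit 357) (nat_lit 222) (nat_lit 201)) (XT.lf (nat_lit 0) (nat_lit 34178380696) (nat_lit 152) (nat_lit 68206336856) (nat_lit 0) (nat_lit 30489187070) (nat_lit 2) (nat_lit 5) (nat_lit 4) (nat_lit 4) (nat_lit 2) (nat_lit 4) (nat_lit 358) (nat_lit 222) (nat_lit 200))))) (XT.nd (nat_lit 234) (nat_lit 0) (nat_lit 0) (XT.nd (nat_lit 78) (nat_lit 0) (nat_lit 0) (XT.lf (nat_lit 0) (nat_lit 39449588599) (nat_lit 152) (nat_lit 64282969571) (nat_lit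 0) (nat_lit 35669147130) (nat_lit 2) (nat_lit 5) (nat_lit 4) (nat_lit 4) (nat_lit 2) (nat_lit 4) (nat_lit 359) (nat_lit 222) (nat_lit 199)) (XT.nd (nat_lit 78) (nat_lit 0) (nat_lit 0) (XT.lf (nat_lit 0) (nat_lit 44911115622) (nat_lit 152) (nat_lit 60303217958) (nat_lit 0) (nat_lit 41043771446) (nat_lit 2) (nat_lit 5) (nat_lit 4) (nat_lit 4) (nat_lit 2) (nat_lit 4) (nat_lit 360) (nat_lit 222) (nat_lit 198)) (XT.lf (nat_lit 0) (nat_lit 50575965401) (nat_lit 152) (nat_lit 56257606417) (nat_lit 0) (nat_lit 46625856742) (nat_lit 2) (nat_lit 5) (nat_lit 4) (nat_lit 4) (nat_lit 2) (nat_lit 4) (nat_lit 361) (nat_lit 222) (nat_lit 197)))) (XT.nd (nat_lit 156) (nat_lit 0) (nat_lit 0) (XT.nd (nat_lit 78) (nat_lit 0) (nat_lit 0) (XT.lf (nat_lit 0) (nat_lit 56457625674) (nat_lit 152) (nat_lit 52136502540) (nat_lit 0) (nat_lit 52428693698) (nat_lit 2) (nat_lit 5) (nat_lit 4) (nat_lit 4) (nat_lit 2) (nat_lit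 4) (nat_lit 362) (nat_lit 222) (nat_lit 196)) (XT.lf (nat_lit 0) (nat_lit 62570100394) (nat_lit 152) (nat_lit 47930094175) (nat_lit 0) (nat_lit 58466098592) (nat_lit 2) (nat_lit 5) (nat_lit 4) (nat_lit 4) (nat_lit 2) (nat_lit 4) (nat_lit 363) (nat_lit 222) (nat_lit 195))) (XT.nd (nat_lit 78) (nat_lit 0) (nat_lit 0) (XT.lf (nat_lit 0) (nat_lit 68927943071) (nat_lit 152) (nat_lit 43628366064) (nat_lit 0) (nat_lit 64752446197) (nat_lit 2) (nat_lit 5) (nat_lit 4) (nat_lit 4) (nat_lit 2) (nat_lit 4) (nat_lit 364) (nat_lit 222) (nat_lit 194)) (XT.lf (nat_lit 0) (nat_lit 75546291427) (nat_lit 152) (nat_lit 39221075997) (nat_lit 0) (nat_lit 71302704008) (nat_lit 2) (nat_lit 5) (nat_lit 4) (nat_lit 4) (nat_lit 2) (nat_lit 4) (nat_lit 365) (nat_lit 222) (nat_lit 193)))))) (XT.nd (nat_lit 38532) (nat_lit 0) (nat_lit 152) (XT.nd (nat_lit 38220) (nat_lit 0) (nat_lit 228) (XT.nd (nat_lit 78) (nat_lit 0)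 (nat_lit 0) (XT.lf (nat_lit 0) (nat_lit 82440903434) (nat_lit 152) (nat_lit 34697730427) (nat_lit 0) (nat_lit 78132467877) (nat_lit 2) (nat_lit 5) (nat_lit 4) (nat_lit 4) (nat_lit 2) (nat_lit 4) (nat_lit 366) (nat_lit 222) (nat_lit 192)) (XT.nd (nat_lit 38064) (nat_lit 0) (nat_lit 380) (XT.lf (nat_lit 0) (nat_lit 89628194835) (nat_lit 152) (nat_lit 30047559482) (nat_lit 0) (nat_lit 85257999146) (nat_lit 2) (nat_lit 5) (nat_lit 4) (nat_lit 4) (nat_lit 2) (nat_lit 4) (nat_lit 367) (nat_lit 222) (nat_lit 191)) (XT.lf (nat_lit 0) (nat_lit 3884441530) (nat_lit 76) (nat_lit 8913693346) (nat_lit 76) (nat_lit 8913693346) (nat_lit 7) (nat_lit 4) (nat_lit 8) (nat_lit 5) (nat_lit 8) (nat_lit 4) (nat_lit 334) (nat_lit 223) (nat_lit 223)))) (XT.nd (nat_lit 156) (nat_lit 152) (nat_lit 0) (XT.nd (nat_lit 78) (nat_lit 0) (nat_lit 0) (XT.lf (nat_lit 0) (nat_lit 20457613472) (nat_lit 76) (nat_lit 12618982052)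 (nat_lit 76) (nat_lit 12321643698) (nat_lit 7) (nat_lit 4) (nat_lit 8) (nat_lit 5) (nat_lit 8) (nat_lit 4) (nat_lit 335) (nat_lit 223) (nat_lit 222)) (XT.lf (nat_lit 0) (nat_lit 33393444202) (nat_lit 76) (nat_lit 7332407807) (nat_lit 76) (nat_lit 6751890069) (nat_lit 7) (nat_lit 4) (nat_lit 8) (nat_lit 5) (nat_lit 8) (nat_lit 4) (nat_lit 336) (nat_lit 223) (nat_lit 221))) (XT.nd (nat_lit 78) (nat_lit 152) (nat_lit 0) (XT.lf (nat_lit 0) (nat_lit 46607174846) (nat_lit 76) (nat_lit 1955076877) (nat_lit 76) (nat_lit 1104864486) (nat_lit 7) (nat_lit 4) (nat_lit 8) (nat_lit 5) (nat_lit 8) (nat_lit 4) (nat_lit 337) (nat_lit 223) (nat_lit 220)) (XT.lf (nat_lit 0) (nat_lit 4657145616) (nat_lit 152) (nat_lit 43727326858) (nat_lit 0) (nat_lit 3582325772) (nat_lit 5) (nat_lit 5) (nat_lit 7) (nat_lit 4) (nat_lit 5) (nat_lit 4) (nat_lit 338) (nat_lit 223) (nat_lit 219))))) (XT.nd (nat_lit 234) (nat_lit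 76) (nat_lit 0) (XT.nd (nat_lit 78) (nat_lit 0) (nat_lit 0) (XT.lf (nat_lit 0) (nat_lit 10552336346) (nat_lit 152) (nat_lit 34592773745) (nat_lit 0) (nat_lit 9240020385) (nat_lit 5) (nat_lit 5) (nat_lit 7) (nat_lit 4) (nat_lit 5) (nat_lit 4) (nat_lit 339) (nat_lit 223) (nat_lit 218)) (XT.nd (nat_lit 78) (nat_lit 0) (nat_lit 0) (XT.lf (nat_lit 0) (nat_lit 16567213911) (nat_lit 152) (nat_lit 25333737061) (nat_lit 0) (nat_lit 15028711173) (nat_lit 5) (nat_lit 5) (nat_lit 7) (nat_lit 4) (nat_lit 5) (nat_lit 4) (nat_lit 340) (nat_lit 223) (nat_lit 217)) (XT.lf (nat_lit 0) (nat_lit 22716099450) (nat_lit 152) (nat_lit 15928171482) (nat_lit 0) (nat_lit 20962180734) (nat_lit 5) (nat_lit 5) (nat_lit 7) (nat_lit 4) (nat_lit 5) (nat_lit 4) (nat_lit 341) (nat_lit 223) (nat_lit 216)))) (XT.nd (nat_lit 156) (nat_lit 0) (nat_lit 0) (XT.nd (nat_lit 78) (nat_lit 76) (nat_lit 0) (XT.lf (nat_lit 0) (nat_lit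 29013633166) (nat_lit 152) (nat_lit 6353682803) (nat_lit 0) (nat_lit 27054556376) (nat_lit 5) (nat_lit 5) (nat_lit 7) (nat_lit 4) (nat_lit 5) (nat_lit 4) (nat_lit 342) (nat_lit 223) (nat_lit 215)) (XT.lf (nat_lit 0) (nat_lit 3480441322) (nat_lit 76) (nat_lit 32027823996) (nat_lit 76) (nat_lit 29873358563) (nat_lit 4) (nat_lit 4) (nat_lit 5) (nat_lit 5) (nat_lit 5) (nat_lit 4) (nat_lit 343) (nat_lit 223) (nat_lit 214))) (XT.nd (nat_lit 78) (nat_lit 0) (nat_lit 0) (XT.lf (nat_lit 0) (nat_lit 13660266944) (nat_lit 76) (nat_lit 28586055164) (nat_lit 76) (nat_lit 26245505309) (nat_lit 4) (nat_lit 4) (nat_lit 5) (nat_lit 5) (nat_lit 5) (nat_lit 4) (nat_lit 344) (nat_lit 223) (nat_lit 213)) (XT.lf (nat_lit 0) (nat_lit 24083580995) (nat_lit 76) (nat_lit 25097974524) (nat_lit 76) (nat_lit 22580201411) (nat_lit 4) (nat_lit 4) (nat_lit 5) (nat_lit 5) (nat_lit 5) (nat_lit 4) (nat_lit 345) (nat_lit 223)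 (nat_lit 212))))))))
noncomputable def xc5 : XT := (XT.nd (nat_lit 40092) (nat_lit 0) (nat_lit 0) (XT.nd (nat_lit 1092) (nat_lit 0) (nat_lit 0) (XT.nd (nat_lit 546) (nat_lit 0) (nat_lit 0) (XT.nd (nat_lit 234) (nat_lit 152) (nat_lit 0) (XT.nd (nat_lit 78) (nat_lit 0) (nat_lit 0) (XT.lf (nat_lit 0) (nat_lit 34775200890) (nat_lit 76) (nat_lit 21555277123) (nat_lit 76) (nat_lit 18868719954) (nat_lit 4) (nat_lit 4) (nat_lit 5) (nat_lit 5) (nat_lit 5) (nat_lit 4) (nat_lit 346) (nat_lit 223) (nat_lit 211)) (XT.nd (nat_lit 78) (nat_lit 0) (nat_lit 0) (XT.lf (nat_lit 0) (nat_lit 45760582867) (nat_lit 76) (nat_lit 17949527966) (nat_lit 76) (nat_lit 15102224077) (nat_lit 4) (nat_lit 4) (nat_lit 5) (nat_lit 5) (nat_lit 5) (nat_lit 4) (nat_lit 347) (nat_lit 223) (nat_lit 210)) (XT.lf (nat_lit 0) (nat_lit 57065882597) (nat_lit 76) (nat_lit 14272141937) (nat_lit 76) (nat_lit 11271745934) (nat_lit 4) (nat_lit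 4) (nat_lit 5) (nat_lit 5) (nat_lit 5) (nat_lit 4) (nat_lit 348) (nat_lit 223) (nat_lit 209)))) (XT.nd (nat_lit 156) (nat_lit 152) (nat_lit 0) (XT.nd (nat_lit 78) (nat_lit 0) (nat_lit 0) (XT.lf (nat_lit 0) (nat_lit 68718017461) (nat_lit 76) (nat_lit 10514363354) (nat_lit 76) (nat_lit 7368165339) (nat_lit 4) (nat_lit 4) (nat_lit 5) (nat_lit 5) (nat_lit 5) (nat_lit 4) (nat_lit 349) (nat_lit 223) (nat_lit 208)) (XT.lf (nat_lit 0) (nat_lit 80744730636) (nat_lit 76) (nat_lit 6667245127) (nat_lit 76) (nat_lit 3382188051) (nat_lit 4) (nat_lit 4) (nat_lit 5) (nat_lit 5) (nat_lit 5) (nat_lit 4) (nat_lit 350) (nat_lit 223) (nat_lit 207))) (XT.nd (nat_lit 78) (nat_lit 76) (nat_lit 0) (XT.lf (nat_lit 0) (nat_lit 682101199) (nat_lit 152) (nat_lit 2032638364) (nat_lit 76) (nat_lit 92485668071) (nat_lit 3) (nat_lit 5) (nat_lit 5) (nat_lit 5) (nat_lit 4) (nat_lit 4) (nat_lit 351) (nat_lit 223) (nat_lit 206))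 (XT.lf (nat_lit 0) (nat_lit 4854264123) (nat_lit 152) (nat_lit 93558260633) (nat_lit 0) (nat_lit 1414212607) (nat_lit 2) (nat_lit 5) (nat_lit 4) (nat_lit 4) (nat_lit 2) (nat_lit 4) (nat_lit 352) (nat_lit 223) (nat_lit 205))))) (XT.nd (nat_lit 234) (nat_lit 0) (nat_lit 0) (XT.nd (nat_lit 78) (nat_lit 0) (nat_lit 0) (XT.lf (nat_lit 0) (nat_lit 9185416792) (nat_lit 152) (nat_lit 89871563779) (nat_lit 0) (nat_lit 5628907338) (nat_lit 2) (nat_lit 5) (nat_lit 4) (nat_lit 4) (nat_lit 2) (nat_lit 4) (nat_lit 353) (nat_lit 223) (nat_lit 204)) (XT.nd (nat_lit 78) (nat_lit 0) (nat_lit 0) (XT.lf (nat_lit 0) (nat_lit 13639650607) (nat_lit 152) (nat_lit 86178935871) (nat_lit 0) (nat_lit 9972228829) (nat_lit 2) (nat_lit 5) (nat_lit 4) (nat_lit 4) (nat_lit 2) (nat_lit 4) (nat_lit 354) (nat_lit 223) (nat_lit 203)) (XT.lf (nat_lit 0) (nat_lit 18227570885) (nat_lit 152) (nat_lit 82471584936) (nat_lit 0) (nat_lit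 14454518324) (nat_lit 2) (nat_lit 5) (nat_lit 4) (nat_lit 4) (nat_lit 2) (nat_lit 4) (nat_lit 355) (nat_lit 223) (nat_lit 202)))) (XT.nd (nat_lit 156) (nat_lit 0) (nat_lit 0) (XT.nd (nat_lit 78) (nat_lit 0) (nat_lit 0) (XT.lf (nat_lit 0) (nat_lit 22960101246) (nat_lit 152) (nat_lit 78740683950) (nat_lit 0) (nat_lit 19086447938) (nat_lit 2) (nat_lit 5) (nat_lit 4) (nat_lit 4) (nat_lit 2) (nat_lit 4) (nat_lit 356) (nat_lit 223) (nat_lit 201)) (XT.lf (nat_lit 0) (nat_lit 27848509620) (nat_lit 152) (nat_lit 74977349813) (nat_lit 0) (nat_lit 23879046077) (nat_lit 2) (nat_lit 5) (nat_lit 4) (nat_lit 4) (nat_lit 2) (nat_lit 4) (nat_lit 357) (nat_lit 223) (nat_lit 200))) (XT.nd (nat_lit 78) (nat_lit 0) (nat_lit 0) (XT.lf (nat_lit 0) (nat_lit 32904435073) (nat_lit 152) (nat_lit 71172622207) (nat_lit 0) (nat_lit 28843723689) (nat_lit 2) (nat_lit 5) (nat_lit 4) (nat_lit 4) (nat_lit 2) (nat_lit 4) (nat_lit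 358) (nat_lit 223) (nat_lit 199)) (XT.lf (nat_lit 0) (nat_lit 38139915525) (nat_lit 152) (nat_lit 67317442256) (nat_lit 0) (nat_lit 33992301433) (nat_lit 2) (nat_lit 5) (nat_lit 4) (nat_lit 4) (nat_lit 2) (nat_lit 4) (nat_lit 359) (nat_lit 223) (nat_lit 198)))))) (XT.nd (nat_lit 38454) (nat_lit 0) (nat_lit 228) (XT.nd (nat_lit 234) (nat_lit 0) (nat_lit 0) (XT.nd (nat_lit 78) (nat_lit 0) (nat_lit 0) (XT.lf (nat_lit 0) (nat_lit 43567416404) (nat_lit 152) (nat_lit 63402630962) (nat_lit 0) (nat_lit 39337037829) (nat_lit 2) (nat_lit 5) (nat_lit 4) (nat_lit 4) (nat_lit 2) (nat_lit 4) (nat_lit 360) (nat_lit 223) (nat_lit 197)) (XT.nd (nat_lit 78) (nat_lit 0) (nat_lit 0) (XT.lf (nat_lit 0) (nat_lit 49199860332) (nat_lit 152) (nat_lit 59418867343) (nat_lit 0) (nat_lit 44890658440) (nat_lit 2) (nat_lit 5) (nat_lit 4) (nat_lit 4) (nat_lit 2) (nat_lit 4) (nat_lit 361) (nat_lit 223) (nat_lit 196)) (XT.lf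 (nat_lit 0) (nat_lit 55050657889) (nat_lit 152) (nat_lit 55356666249) (nat_lit 0) (nat_lit 50666386171) (nat_lit 2) (nat_lit 5) (nat_lit 4) (nat_lit 4) (nat_lit 2) (nat_lit 4) (nat_lit 362) (nat_lit 223) (nat_lit 195)))) (XT.nd (nat_lit 156) (nat_lit 0) (nat_lit 0) (XT.nd (nat_lit 78) (nat_lit 0) (nat_lit 0) (XT.lf (nat_lit 0) (nat_lit 61133739546) (nat_lit 152) (nat_lit 51206355773) (nat_lit 0) (nat_lit 56677972756) (nat_lit 2) (nat_lit 5) (nat_lit 4) (nat_lit 4) (nat_lit 2) (nat_lit 4) (nat_lit 363) (nat_lit 223) (nat_lit 194)) (XT.lf (nat_lit 0) (nat_lit 67463588831) (nat_lit 152) (nat_lit 46958054223) (nat_lit 0) (nat_lit 62939731496) (nat_lit 2) (nat_lit 5) (nat_lit 4) (nat_lit 4) (nat_lit 2) (nat_lit 4) (nat_lit 364) (nat_lit 223) (nat_lit 193))) (XT.nd (nat_lit 78) (nat_lit 0) (nat_lit 0) (XT.lf (nat_lit 0) (nat_lit 74055276813) (nat_lit 152) (nat_lit 42601646595) (nat_lit 0) (nat_lit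 69466571339) (nat_lit 2) (nat_lit 5) (nat_lit 4) (nat_lit 4) (nat_lit 2) (nat_lit 4) (nat_lit 365) (nat_lit 223) (nat_lit 192)) (XT.lf (nat_lit 0) (nat_lit 80924497987) (nat_lit 152) (nat_lit 38126760490) (nat_lit 0) (nat_lit 76274032382) (nat_lit 2) (nat_lit 5) (nat_lit 4) (nat_lit 4) (nat_lit 2) (nat_lit 4) (nat_lit 366) (nat_lit 223) (nat_lit 191))))) (XT.nd (nat_lit 234) (nat_lit 152) (nat_lit 0) (XT.nd (nat_lit 78) (nat_lit 76) (nat_lit 0) (XT.lf (nat_lit 0) (nat_lit 5827661546) (nat_lit 152) (nat_lit 8225934848) (nat_lit 0) (nat_lit 5827661546) (nat_lit 8) (nat_lit 5) (nat_lit 10) (nat_lit 4) (nat_lit 8) (nat_lit 4) (nat_lit 332) (nat_lit 224) (nat_lit 224)) (XT.nd (nat_lit 78) (nat_lit 76) (nat_lit 0) (XT.lf (nat_lit 0) (nat_lit 18624477376) (nat_lit 152) (nat_lit 4611186642) (nat_lit 0) (nat_lit 18312272105) (nat_lit 8) (nat_lit 5) (nat_lit 10) (nat_lit 4) (nat_lit 8) (nat_lit 4)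 (nat_lit 333) (nat_lit 224) (nat_lit 223)) (XT.lf (nat_lit 0) (nat_lit 7570491346) (nat_lit 76) (nat_lit 18232939846) (nat_lit 76) (nat_lit 17623396220) (nat_lit 7) (nat_lit 4) (nat_lit 8) (nat_lit 5) (nat_lit 8) (nat_lit 4) (nat_lit 334) (nat_lit 224) (nat_lit 222)))) (XT.nd (nat_lit 156) (nat_lit 152) (nat_lit 0) (XT.nd (nat_lit 78) (nat_lit 0) (nat_lit 0) (XT.lf (nat_lit 0) (nat_lit 20070277269) (nat_lit 76) (nat_lit 13113437951) (nat_lit 76) (nat_lit 12220714941) (nat_lit 7) (nat_lit 4) (nat_lit 8) (nat_lit 5) (nat_lit 8) (nat_lit 4) (nat_lit 335) (nat_lit 224) (nat_lit 221)) (XT.lf (nat_lit 0) (nat_lit 32826160866) (nat_lit 76) (nat_lit 7911532987) (nat_lit 76) (nat_lit 6749115325) (nat_lit 7) (nat_lit 4) (nat_lit 8) (nat_lit 5) (nat_lit 8) (nat_lit 4) (nat_lit 336) (nat_lit 224) (nat_lit 220))) (XT.nd (nat_lit 78) (nat_lit 152) (nat_lit 0) (XT.lf (nat_lit 0) (nat_lit 45868513289) (nat_lit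 76) (nat_lit 2614839467) (nat_lit 76) (nat_lit 1195569755) (nat_lit 7) (nat_lit 4) (nat_lit 8) (nat_lit 5) (nat_lit 8) (nat_lit 4) (nat_lit 337) (nat_lit 224) (nat_lit 219)) (XT.lf (nat_lit 0) (nat_lit 4464766534) (nat_lit 152) (nat_lit 44667644524) (nat_lit 0) (nat_lit 2849338659) (nat_lit 5) (nat_lit 5) (nat_lit 7) (nat_lit 4) (nat_lit 5) (nat_lit 4) (nat_lit 338) (nat_lit 224) (nat_lit 218))))))) (XT.nd (nat_lit 1092) (nat_lit 0) (nat_lit 0) (XT.nd (nat_lit 546) (nat_lit 152) (nat_lit 0) (XT.nd (nat_lit 234) (nat_lit 76) (nat_lit 0) (XT.nd (nat_lit 78) (nat_lit 0) (nat_lit 0) (XT.lf (nat_lit 0) (nat_lit 10274555946) (nat_lit 152) (nat_lit 35695161696) (nat_lit 0) (nat_lit 8432941294) (nat_lit 5) (nat_lit 5) (nat_lit 7) (nat_lit 4) (nat_lit 5) (nat_lit 4) (nat_lit 339) (nat_lit 224) (nat_lit 217)) (XT.nd (nat_lit 78) (nat_lit 0) (nat_lit 0) (XT.lf (nat_lit 0) (nat_lit 16208098924) (nat_lit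 152) (nat_lit 26590477666) (nat_lit 0) (nat_lit 14151068294) (nat_lit 5) (nat_lit 5) (nat_lit 7) (nat_lit 4) (nat_lit 5) (nat_lit 4) (nat_lit 340) (nat_lit 224) (nat_lit 216)) (XT.lf (nat_lit 0) (nat_lit 22279522951) (nat_lit 152) (nat_lit 17331914613) (nat_lit 0) (nat_lit 20017334246) (nat_lit 5) (nat_lit 5) (nat_lit 7) (nat_lit 4) (nat_lit 5) (nat_lit 4) (nat_lit 341) (nat_lit 224) (nat_lit 215)))) (XT.nd (nat_lit 156) (nat_lit 0) (nat_lit 0) (XT.nd (nat_lit 78) (nat_lit 76) (nat_lit 0) (XT.lf (nat_lit 0) (nat_lit 28503283798) (nat_lit 152) (nat_lit 7897428341) (nat_lit 0) (nat_lit 26045706451) (nat_lit 5) (nat_lit 5) (nat_lit 7) (nat_lit 4) (nat_lit 5) (nat_lit 4) (nat_lit 342) (nat_lit 224) (nat_lit 214)) (XT.lf (nat_lit 0) (nat_lit 1769982956) (nat_lit 76) (nat_lit 33141231146) (nat_lit 76) (nat_lit 30497569378) (nat_lit 4) (nat_lit 4) (nat_lit 5) (nat_lit 5) (nat_lit 5) (nat_lit 4)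 (nat_lit 343) (nat_lit 224) (nat_lit 213))) (XT.nd (nat_lit 78) (nat_lit 0) (nat_lit 0) (XT.lf (nat_lit 0) (nat_lit 11820294991) (nat_lit 76) (nat_lit 29760816770) (nat_lit 76) (nat_lit 26939931743) (nat_lit 4) (nat_lit 4) (nat_lit 5) (nat_lit 5) (nat_lit 5) (nat_lit 4) (nat_lit 344) (nat_lit 224) (nat_lit 212)) (XT.lf (nat_lit 0) (nat_lit 22120262770) (nat_lit 76) (nat_lit 26331168945) (nat_lit 76) (nat_lit 23341499862) (nat_lit 4) (nat_lit 4) (nat_lit 5) (nat_lit 5) (nat_lit 5) (nat_lit 4) (nat_lit 345) (nat_lit 224) (nat_lit 211))))) (XT.nd (nat_lit 234) (nat_lit 152) (nat_lit 0) (XT.nd (nat_lit 78) (nat_lit 0) (nat_lit 0) (XT.lf (nat_lit 0) (nat_lit 32694410025) (nat_lit 76) (nat_lit 22844121844) (nat_lit 76) (nat_lit 19693706041) (nat_lit 4) (nat_lit 4) (nat_lit 5) (nat_lit 5) (nat_lit 5) (nat_lit 4) (nat_lit 346) (nat_lit 224) (nat_lit 210)) (XT.nd (nat_lit 78) (nat_lit 0) (nat_lit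 0) (XT.lf (nat_lit 0) (nat_lit 43567913297) (nat_lit 76) (nat_lit 19291372973) (nat_lit 76) (nat_lit 15987865056) (nat_lit 4) (nat_lit 4) (nat_lit 5) (nat_lit 5) (nat_lit 5) (nat_lit 4) (nat_lit 347) (nat_lit 224) (nat_lit 209)) (XT.lf (nat_lit 0) (nat_lit 54766661879) (nat_lit 76) (nat_lit 15664463406) (nat_lit 76) (nat_lit 12215153476) (nat_lit 4) (nat_lit 4) (nat_lit 5) (nat_lit 5) (nat_lit 5) (nat_lit 4) (nat_lit 348) (nat_lit 224) (nat_lit 208)))) (XT.nd (nat_lit 156) (nat_lit 152) (nat_lit 0) (XT.nd (nat_lit 78) (nat_lit 0) (nat_lit 0) (XT.lf (nat_lit 0) (nat_lit 66317319459) (nat_lit 76) (nat_lit 11954757645) (nat_lit 76) (nat_lit 8366588655) (nat_lit 4) (nat_lit 4) (nat_lit 5) (nat_lit 5) (nat_lit 5) (nat_lit 4) (nat_lit 349) (nat_lit 224) (nat_lit 207)) (XT.lf (nat_lit 0) (nat_lit 78247387603) (nat_lit 76) (nat_lit 8153423057) (nat_lit 76) (nat_lit 4433007342) (nat_lit 4) (nat_lit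 4) (nat_lit 5) (nat_lit 5) (nat_lit 5) (nat_lit 4) (nat_lit 350) (nat_lit 224) (nat_lit 206))) (XT.nd (nat_lit 78) (nat_lit 152) (nat_lit 0) (XT.lf (nat_lit 0) (nat_lit 90585271234) (nat_lit 76) (nat_lit 4251408844) (nat_lit 76) (nat_lit 405043869) (nat_lit 4) (nat_lit 4) (nat_lit 5) (nat_lit 5) (nat_lit 5) (nat_lit 4) (nat_lit 351) (nat_lit 224) (nat_lit 205)) (XT.lf (nat_lit 0) (nat_lit 3520336940) (nat_lit 76) (nat_lit 167669755) (nat_lit 152) (nat_lit 96182781971) (nat_lit 2) (nat_lit 5) (nat_lit 3) (nat_lit 5) (nat_lit 4) (nat_lit 4) (nat_lit 352) (nat_lit 224) (nat_lit 204)))))) (XT.nd (nat_lit 546) (nat_lit 0) (nat_lit 0) (XT.nd (nat_lit 234) (nat_lit 0) (nat_lit 0) (XT.nd (nat_lit 78) (nat_lit 0) (nat_lit 0) (XT.lf (nat_lit 0) (nat_lit 7971949334) (nat_lit 152) (nat_lit 92749169367) (nat_lit 0) (nat_lit 4010244145) (nat_lit 2) (nat_lit 5) (nat_lit 4) (nat_lit 4) (nat_lit 2) (nat_lit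 4) (nat_lit 353) (nat_lit 224) (nat_lit 203)) (XT.nd (nat_lit 78) (nat_lit 0) (nat_lit 0) (XT.lf (nat_lit 0) (nat_lit 12382756208) (nat_lit 152) (nat_lit 89139423589) (nat_lit 0) (nat_lit 8315420235) (nat_lit 2) (nat_lit 5) (nat_lit 4) (nat_lit 4) (nat_lit 2) (nat_lit 4) (nat_lit 354) (nat_lit 224) (nat_lit 202)) (XT.lf (nat_lit 0) (nat_lit 16929317496) (nat_lit 152) (nat_lit 85511008018) (nat_lit 0) (nat_lit 12761380776) (nat_lit 2) (nat_lit 5) (nat_lit 4) (nat_lit 4) (nat_lit 2) (nat_lit 4) (nat_lit 355) (nat_lit 224) (nat_lit 201)))) (XT.nd (nat_lit 156) (nat_lit 0) (nat_lit 0) (XT.nd (nat_lit 78) (nat_lit 0) (nat_lit 0) (XT.lf (nat_lit 0) (nat_lit 21622458342) (nat_lit 152) (nat_lit 81855283567) (nat_lit 0) (nat_lit 17358711388) (nat_lit 2) (nat_lit 5) (nat_lit 4) (nat_lit 4) (nat_lit 2) (nat_lit 4) (nat_lit 356) (nat_lit 224) (nat_lit 200)) (XT.lf (nat_lit 0) (nat_lit 26473352892) (nat_lit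 152) (nat_lit 78163546132) (nat_lit 0) (nat_lit 22118358095) (nat_lit 2) (nat_lit 5) (nat_lit 4) (nat_lit 4) (nat_lit 2) (nat_lit 4) (nat_lit 357) (nat_lit 224) (nat_lit 199))) (XT.nd (nat_lit 78) (nat_lit 0) (nat_lit 0) (XT.lf (nat_lit 0) (nat_lit 31493550894) (nat_lit 152) (nat_lit 74427005861) (nat_lit 0) (nat_lit 27051653391) (nat_lit 2) (nat_lit 5) (nat_lit 4) (nat_lit 4) (nat_lit 2) (nat_lit 4) (nat_lit 358) (nat_lit 224) (nat_lit 198)) (XT.lf (nat_lit 0) (nat_lit 36695005202) (nat_lit 152) (nat_lit 70636766229) (nat_lit 0) (nat_lit 32170343215) (nat_lit 2) (nat_lit 5) (nat_lit 4) (nat_lit 4) (nat_lit 2) (nat_lit 4) (nat_lit 359) (nat_lit 224) (nat_lit 197))))) (XT.nd (nat_lit 312) (nat_lit 0) (nat_lit 0) (XT.nd (nat_lit 156) (nat_lit 0) (nat_lit 0) (XT.nd (nat_lit 78) (nat_lit 0) (nat_lit 0) (XT.lf (nat_lit 0) (nat_lit 42090100230) (nat_lit 152) (nat_lit 66783802856) (nat_lit 0) (nat_lit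 37486614926) (nat_lit 2) (nat_lit 5) (nat_lit 4) (nat_lit 4) (nat_lit 2) (nat_lit 4) (nat_lit 360) (nat_lit 224) (nat_lit 196)) (XT.lf (nat_lit 0) (nat_lit 47691681442) (nat_lit 152) (nat_lit 62858942021) (nat_lit 0) (nat_lit 43013126312) (nat_lit 2) (nat_lit 5) (nat_lit 4) (nat_lit 4) (nat_lit 2) (nat_lit 4) (nat_lit 361) (nat_lit 224) (nat_lit 195))) (XT.nd (nat_lit 78) (nat_lit 0) (nat_lit 0) (XT.lf (nat_lit 0) (nat_lit 53513085937) (nat_lit 152) (nat_lit 58852838817) (nat_lit 0) (nat_lit 48763035735) (nat_lit 2) (nat_lit 5) (nat_lit 4) (nat_lit 4) (nat_lit 2) (nat_lit 4) (nat_lit 362) (nat_lit 224) (nat_lit 194)) (XT.lf (nat_lit 0) (nat_lit 59568174201) (nat_lit 152) (nat_lit 54755954901) (nat_lit 0) (nat_lit 54750033454) (nat_lit 2) (nat_lit 5) (nat_lit 4) (nat_lit 4) (nat_lit 2) (nat_lit 4) (nat_lit 363) (nat_lit 224) (nat_lit 193)))) (XT.nd (nat_lit 156) (nat_lit 0) (nat_lit 0) (XT.nd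 (nat_lit 78) (nat_lit 0) (nat_lit 0) (XT.lf (nat_lit 0) (nat_lit 65871363112) (nat_lit 152) (nat_lit 50558535790) (nat_lit 0) (nat_lit 60988374227) (nat_lit 2) (nat_lit 5) (nat_lit 4) (nat_lit 4) (nat_lit 2) (nat_lit 4) (nat_lit 364) (nat_lit 224) (nat_lit 192)) (XT.lf (nat_lit 0) (nat_lit 72437660261) (nat_lit 152) (nat_lit 46250587628) (nat_lit 0) (nat_lit 67492911244) (nat_lit 2) (nat_lit 5) (nat_lit 4) (nat_lit 4) (nat_lit 2) (nat_lit 4) (nat_lit 365) (nat_lit 224) (nat_lit 191))) (XT.nd (nat_lit 37830) (nat_lit 0) (nat_lit 608) (XT.lf (nat_lit 0) (nat_lit 79282699690) (nat_lit 152) (nat_lit 41821853395) (nat_lit 0) (nat_lit 74279131501) (nat_lit 2) (nat_lit 5) (nat_lit 4) (nat_lit 4) (nat_lit 2) (nat_lit 4) (nat_lit 366) (nat_lit 224) (nat_lit 190)) (XT.lf (nat_lit 0) (nat_lit 16746547362) (nat_lit 76) (nat_lit 740897277) (nat_lit 76) (nat_lit 740897277) (nat_lit 10) (nat_lit 4) (nat_lit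 11) (nat_lit 5) (nat_lit 11) (nat_lit 4) (nat_lit 330) (nat_lit 225) (nat_lit 225))))))))
noncomputable def xc6 : XT := (XT.nd (nat_lit 2184) (nat_lit 0) (nat_lit 0) (XT.nd (nat_lit 1092) (nat_lit 152) (nat_lit 0) (XT.nd (nat_lit 546) (nat_lit 228) (nat_lit 0) (XT.nd (nat_lit 234) (nat_lit 76) (nat_lit 0) (XT.nd (nat_lit 78) (nat_lit 0) (nat_lit 0) (XT.lf (nat_lit 0) (nat_lit 5134418457) (nat_lit 152) (nat_lit 28127477473) (nat_lit 0) (nat_lit 4806602922) (nat_lit 8) (nat_lit 5) (nat_lit 10) (nat_lit 4) (nat_lit 8) (nat_lit 4) (nat_lit 331) (nat_lit 225) (nat_lit 224)) (XT.nd (nat_lit 78) (nat_lit 0) (nat_lit 0) (XT.lf (nat_lit 0) (nat_lit 11874845020) (nat_lit 152) (nat_lit 16656116092) (nat_lit 0) (nat_lit 11234824213) (nat_lit 8) (nat_lit 5) (nat_lit 10) (nat_lit 4) (nat_lit 8) (nat_lit 4) (nat_lit 332) (nat_lit 225) (nat_lit 223)) (XT.lf (nat_lit 0) (nat_lit 18740862535) (nat_lit 152)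 (nat_lit 5009953414) (nat_lit 0) (nat_lit 17803503374) (nat_lit 8) (nat_lit 5) (nat_lit 10) (nat_lit 4) (nat_lit 8) (nat_lit 4) (nat_lit 333) (nat_lit 225) (nat_lit 222)))) (XT.nd (nat_lit 156) (nat_lit 0) (nat_lit 0) (XT.nd (nat_lit 78) (nat_lit 0) (nat_lit 0) (XT.lf (nat_lit 0) (nat_lit 6974843843) (nat_lit 76) (nat_lit 18841021284) (nat_lit 76) (nat_lit 17620482739) (nat_lit 7) (nat_lit 4) (nat_lit 8) (nat_lit 5) (nat_lit 8) (nat_lit 4) (nat_lit 334) (nat_lit 225) (nat_lit 221)) (XT.lf (nat_lit 0) (nat_lit 19294682633) (nat_lit 76) (nat_lit 13806188671) (nat_lit 76) (nat_lit 12315955473) (nat_lit 7) (nat_lit 4) (nat_lit 8) (nat_lit 5) (nat_lit 8) (nat_lit 4) (nat_lit 335) (nat_lit 225) (nat_lit 220))) (XT.nd (nat_lit 78) (nat_lit 0) (nat_lit 0) (XT.lf (nat_lit 0) (nat_lit 31879188009) (nat_lit 76) (nat_lit 8684921117) (nat_lit 76) (nat_lit 6937835871) (nat_lit 7) (nat_lit 4) (nat_lit 8)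 (nat_lit 5) (nat_lit 8) (nat_lit 4) (nat_lit 336) (nat_lit 225) (nat_lit 219)) (XT.lf (nat_lit 0) (nat_lit 44758323077) (nat_lit 76) (nat_lit 3465025131) (nat_lit 76) (nat_lit 1473318885) (nat_lit 7) (nat_lit 4) (nat_lit 8) (nat_lit 5) (nat_lit 8) (nat_lit 4) (nat_lit 337) (nat_lit 225) (nat_lit 218))))) (XT.nd (nat_lit 234) (nat_lit 76) (nat_lit 0) (XT.nd (nat_lit 78) (nat_lit 0) (nat_lit 0) (XT.lf (nat_lit 0) (nat_lit 4087695797) (nat_lit 152) (nat_lit 45987222159) (nat_lit 0) (nat_lit 1927813635) (nat_lit 5) (nat_lit 5) (nat_lit 7) (nat_lit 4) (nat_lit 5) (nat_lit 4) (nat_lit 338) (nat_lit 225) (nat_lit 217)) (XT.nd (nat_lit 78) (nat_lit 0) (nat_lit 0) (XT.lf (nat_lit 0) (nat_lit 9816150622) (nat_lit 152) (nat_lit 37169091984) (nat_lit 0) (nat_lit 7440852482) (nat_lit 5) (nat_lit 5) (nat_lit 7) (nat_lit 4) (nat_lit 5) (nat_lit 4) (nat_lit 339) (nat_lit 225) (nat_lit 216)) (XT.lf (nat_lit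 0) (nat_lit 15672232087) (nat_lit 152) (nat_lit 28211410480) (nat_lit 0) (nat_lit 13091775873) (nat_lit 5) (nat_lit 5) (nat_lit 7) (nat_lit 4) (nat_lit 5) (nat_lit 4) (nat_lit 340) (nat_lit 225) (nat_lit 215)))) (XT.nd (nat_lit 156) (nat_lit 76) (nat_lit 0) (XT.nd (nat_lit 78) (nat_lit 0) (nat_lit 0) (XT.lf (nat_lit 0) (nat_lit 21669883245) (nat_lit 152) (nat_lit 19092849834) (nat_lit 0) (nat_lit 18894038388) (nat_lit 5) (nat_lit 5) (nat_lit 7) (nat_lit 4) (nat_lit 5) (nat_lit 4) (nat_lit 341) (nat_lit 225) (nat_lit 214)) (XT.lf (nat_lit 0) (nat_lit 27823384218) (nat_lit 152) (nat_lit 9791699186) (nat_lit 0) (nat_lit 24861454939) (nat_lit 5) (nat_lit 5) (nat_lit 7) (nat_lit 4) (nat_lit 5) (nat_lit 4) (nat_lit 342) (nat_lit 225) (nat_lit 213))) (XT.nd (nat_lit 78) (nat_lit 76) (nat_lit 0) (XT.lf (nat_lit 0) (nat_lit 34147386197) (nat_lit 152) (nat_lit 285812941) (nat_lit 0) (nat_lit 31008233660)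 (nat_lit 5) (nat_lit 5) (nat_lit 7) (nat_lit 4) (nat_lit 5) (nat_lit 4) (nat_lit 343) (nat_lit 225) (nat_lit 212)) (XT.lf (nat_lit 0) (nat_lit 9635464583) (nat_lit 76) (nat_lit 31114103727) (nat_lit 76) (nat_lit 27806167134) (nat_lit 4) (nat_lit 4) (nat_lit 5) (nat_lit 5) (nat_lit 5) (nat_lit 4) (nat_lit 344) (nat_lit 225) (nat_lit 211)))))) (XT.nd (nat_lit 546) (nat_lit 152) (nat_lit 0) (XT.nd (nat_lit 234) (nat_lit 0) (nat_lit 0) (XT.nd (nat_lit 78) (nat_lit 0) (nat_lit 0) (XT.lf (nat_lit 0) (nat_lit 19817959721) (nat_lit 76) (nat_lit 27740106202) (nat_lit 76) (nat_lit 24271422890) (nat_lit 4) (nat_lit 4) (nat_lit 5) (nat_lit 5) (nat_lit 5) (nat_lit 4) (nat_lit 345) (nat_lit 225) (nat_lit 210)) (XT.nd (nat_lit 78) (nat_lit 0) (nat_lit 0) (XT.lf (nat_lit 0) (nat_lit 30280228271) (nat_lit 76) (nat_lit 24306059386) (nat_lit 76) (nat_lit 20684283960) (nat_lit 4) (nat_lit 4) (nat_lit 5) (nat_lit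 5) (nat_lit 5) (nat_lit 4) (nat_lit 346) (nat_lit 225) (nat_lit 209)) (XT.lf (nat_lit 0) (nat_lit 41047180395) (nat_lit 76) (nat_lit 20803786977) (nat_lit 76) (nat_lit 17036209538) (nat_lit 4) (nat_lit 4) (nat_lit 5) (nat_lit 5) (nat_lit 5) (nat_lit 4) (nat_lit 347) (nat_lit 225) (nat_lit 208)))) (XT.nd (nat_lit 156) (nat_lit 0) (nat_lit 0) (XT.nd (nat_lit 78) (nat_lit 0) (nat_lit 0) (XT.lf (nat_lit 0) (nat_lit 52144451694) (nat_lit 76) (nat_lit 17224950232) (nat_lit 76) (nat_lit 13318513732) (nat_lit 4) (nat_lit 4) (nat_lit 5) (nat_lit 5) (nat_lit 5) (nat_lit 4) (nat_lit 348) (nat_lit 225) (nat_lit 207)) (XT.lf (nat_lit 0) (nat_lit 63598464242) (nat_lit 76) (nat_lit 13561028111) (nat_lit 76) (nat_lit 9522344887) (nat_lit 4) (nat_lit 4) (nat_lit 5) (nat_lit 5) (nat_lit 5) (nat_lit 4) (nat_lit 349) (nat_lit 225) (nat_lit 206))) (XT.nd (nat_lit 78) (nat_lit 0) (nat_lit 0) (XT.lf (nat_lit 0)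 (nat_lit 75436489497) (nat_lit 76) (nat_lit 9803296989) (nat_lit 76) (nat_lit 5638664503) (nat_lit 4) (nat_lit 4) (nat_lit 5) (nat_lit 5) (nat_lit 5) (nat_lit 4) (nat_lit 350) (nat_lit 225) (nat_lit 205)) (XT.lf (nat_lit 0) (nat_lit 87686713236) (nat_lit 76) (nat_lit 5942809887) (nat_lit 76) (nat_lit 1658225725) (nat_lit 4) (nat_lit 4) (nat_lit 5) (nat_lit 5) (nat_lit 5) (nat_lit 4) (nat_lit 351) (nat_lit 225) (nat_lit 204))))) (XT.nd (nat_lit 234) (nat_lit 0) (nat_lit 0) (XT.nd (nat_lit 78) (nat_lit 0) (nat_lit 0) (XT.lf (nat_lit 0) (nat_lit 443381754) (nat_lit 76) (nat_lit 1941941205) (nat_lit 152) (nat_lit 97534078007) (nat_lit 2) (nat_lit 5) (nat_lit 3) (nat_lit 5) (nat_lit 4) (nat_lit 4) (nat_lit 352) (nat_lit 225) (nat_lit 203)) (XT.nd (nat_lit 78) (nat_lit 0) (nat_lit 0) (XT.lf (nat_lit 0) (nat_lit 6608783275) (nat_lit 152) (nat_lit 95940563602) (nat_lit 0) (nat_lit 2232449720) (nat_lit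 2) (nat_lit 5) (nat_lit 4) (nat_lit 4) (nat_lit 2) (nat_lit 4) (nat_lit 353) (nat_lit 225) (nat_lit 202)) (XT.lf (nat_lit 0) (nat_lit 10978231159) (nat_lit 152) (nat_lit 92409753188) (nat_lit 0) (nat_lit 6501296857) (nat_lit 2) (nat_lit 5) (nat_lit 4) (nat_lit 4) (nat_lit 2) (nat_lit 4) (nat_lit 354) (nat_lit 225) (nat_lit 201)))) (XT.nd (nat_lit 156) (nat_lit 0) (nat_lit 0) (XT.nd (nat_lit 78) (nat_lit 0) (nat_lit 0) (XT.lf (nat_lit 0) (nat_lit 15485402931) (nat_lit 152) (nat_lit 88856514153) (nat_lit 0) (nat_lit 10912658395) (nat_lit 2) (nat_lit 5) (nat_lit 4) (nat_lit 4) (nat_lit 2) (nat_lit 4) (nat_lit 355) (nat_lit 225) (nat_lit 200)) (XT.lf (nat_lit 0) (nat_lit 20141029954) (nat_lit 152) (nat_lit 85272386404) (nat_lit 0) (nat_lit 15477037575) (nat_lit 2) (nat_lit 5) (nat_lit 4) (nat_lit 4) (nat_lit 2) (nat_lit 4) (nat_lit 356) (nat_lit 225) (nat_lit 199))) (XT.nd (nat_lit 78) (nat_lit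 0) (nat_lit 0) (XT.lf (nat_lit 0) (nat_lit 24956197053) (nat_lit 152) (nat_lit 81648836303) (nat_lit 0) (nat_lit 20205301967) (nat_lit 2) (nat_lit 5) (nat_lit 4) (nat_lit 4) (nat_lit 2) (nat_lit 4) (nat_lit 357) (nat_lit 225) (nat_lit 198)) (XT.lf (nat_lit 0) (nat_lit 29942368912) (nat_lit 152) (nat_lit 77977236350) (nat_lit 0) (nat_lit 25108709342) (nat_lit 2) (nat_lit 5) (nat_lit 4) (nat_lit 4) (nat_lit 2) (nat_lit 4) (nat_lit 358) (nat_lit 225) (nat_lit 197))))))) (XT.nd (nat_lit 38688) (nat_lit 0) (nat_lit 152) (XT.nd (nat_lit 546) (nat_lit 0) (nat_lit 0) (XT.nd (nat_lit 234) (nat_lit 0) (nat_lit 0) (XT.nd (nat_lit 78) (nat_lit 0) (nat_lit 0) (XT.lf (nat_lit 0) (nat_lit 35111417368) (nat_lit 152) (nat_lit 74248844641) (nat_lit 0) (nat_lit 30198934482) (nat_lit 2) (nat_lit 5) (nat_lit 4) (nat_lit 4) (nat_lit 2) (nat_lit 4) (nat_lit 359) (nat_lit 225) (nat_lit 196)) (XT.nd (nat_lit 78)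 (nat_lit 0) (nat_lit 0) (XT.lf (nat_lit 0) (nat_lit 40475649680) (nat_lit 152) (nat_lit 70454784052) (nat_lit 0) (nat_lit 35488096968) (nat_lit 2) (nat_lit 5) (nat_lit 4) (nat_lit 4) (nat_lit 2) (nat_lit 4) (nat_lit 360) (nat_lit 225) (nat_lit 195)) (XT.lf (nat_lit 0) (nat_lit 46047837830) (nat_lit 152) (nat_lit 66586021106) (nat_lit 0) (nat_lit 40988790045) (nat_lit 2) (nat_lit 5) (nat_lit 4) (nat_lit 4) (nat_lit 2) (nat_lit 4) (nat_lit 361) (nat_lit 225) (nat_lit 194)))) (XT.nd (nat_lit 156) (nat_lit 0) (nat_lit 0) (XT.nd (nat_lit 78) (nat_lit 0) (nat_lit 0) (XT.lf (nat_lit 0) (nat_lit 51841248932) (nat_lit 152) (nat_lit 62633344462) (nat_lit 0) (nat_lit 46714110602) (nat_lit 2) (nat_lit 5) (nat_lit 4) (nat_lit 4) (nat_lit 2) (nat_lit 4) (nat_lit 362) (nat_lit 225) (nat_lit 193)) (XT.lf (nat_lit 0) (nat_lit 57869676822) (nat_lit 152) (nat_lit 58587342985) (nat_lit 0) (nat_lit 52677690354)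 (nat_lit 2) (nat_lit 5) (nat_lit 4) (nat_lit 4) (nat_lit 2) (nat_lit 4) (nat_lit 363) (nat_lit 225) (nat_lit 192))) (XT.nd (nat_lit 78) (nat_lit 0) (nat_lit 0) (XT.lf (nat_lit 0) (nat_lit 64147474900) (nat_lit 152) (nat_lit 54438383340) (nat_lit 0) (nat_lit 58893728301) (nat_lit 2) (nat_lit 5) (nat_lit 4) (nat_lit 4) (nat_lit 2) (nat_lit 4) (nat_lit 364) (nat_lit 225) (nat_lit 191)) (XT.lf (nat_lit 0) (nat_lit 70689590304) (nat_lit 152) (nat_lit 50176587049) (nat_lit 0) (nat_lit 65377024532) (nat_lit 2) (nat_lit 5) (nat_lit 4) (nat_lit 4) (nat_lit 2) (nat_lit 4) (nat_lit 365) (nat_lit 225) (nat_lit 190))))) (XT.nd (nat_lit 37830) (nat_lit 0) (nat_lit 456) (XT.nd (nat_lit 37674) (nat_lit 0) (nat_lit 608) (XT.lf (nat_lit 0) (nat_lit 77511599500) (nat_lit 152) (nat_lit 45791806980) (nat_lit 0) (nat_lit 72143015468) (nat_lit 2) (nat_lit 5) (nat_lit 4) (nat_lit 4) (nat_lit 2) (nat_lit 4) (nat_lit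 366) (nat_lit 225) (nat_lit 189)) (XT.nd (nat_lit 78) (nat_lit 0) (nat_lit 0) (XT.lf (nat_lit 0) (nat_lit 2841039815) (nat_lit 76) (nat_lit 6945698394) (nat_lit 76) (nat_lit 6945698394) (nat_lit 10) (nat_lit 4) (nat_lit 11) (nat_lit 5) (nat_lit 11) (nat_lit 4) (nat_lit 328) (nat_lit 226) (nat_lit 226)) (XT.lf (nat_lit 0) (nat_lit 19353759503) (nat_lit 76) (nat_lit 7961685177) (nat_lit 76) (nat_lit 7607152676) (nat_lit 10) (nat_lit 4) (nat_lit 11) (nat_lit 5) (nat_lit 11) (nat_lit 4) (nat_lit 329) (nat_lit 226) (nat_lit 225)))) (XT.nd (nat_lit 156) (nat_lit 0) (nat_lit 0) (XT.nd (nat_lit 78) (nat_lit 152) (nat_lit 0) (XT.lf (nat_lit 0) (nat_lit 33287448398) (nat_lit 76) (nat_lit 1932364266) (nat_lit 76) (nat_lit 1240181763) (nat_lit 10) (nat_lit 4) (nat_lit 11) (nat_lit 5) (nat_lit 11) (nat_lit 4) (nat_lit 330) (nat_lit 226) (nat_lit 224)) (XT.lf (nat_lit 0) (nat_lit 5256622873) (nat_lit 152)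 (nat_lit 28546182585) (nat_lit 0) (nat_lit 4272395755) (nat_lit 8) (nat_lit 5) (nat_lit 10) (nat_lit 4) (nat_lit 8) (nat_lit 4) (nat_lit 331) (nat_lit 226) (nat_lit 223))) (XT.nd (nat_lit 78) (nat_lit 0) (nat_lit 0) (XT.lf (nat_lit 0) (nat_lit 11893912667) (nat_lit 152) (nat_lit 17269341580) (nat_lit 0) (nat_lit 10612347195) (nat_lit 8) (nat_lit 5) (nat_lit 10) (nat_lit 4) (nat_lit 8) (nat_lit 4) (nat_lit 332) (nat_lit 226) (nat_lit 222)) (XT.lf (nat_lit 0) (nat_lit 18661704688) (nat_lit 152) (nat_lit 5808436405) (nat_lit 0) (nat_lit 17096959831) (nat_lit 8) (nat_lit 5) (nat_lit 10) (nat_lit 4) (nat_lit 8) (nat_lit 4) (nat_lit 333) (nat_lit 226) (nat_lit 221)))))) (XT.nd (nat_lit 546) (nat_lit 76) (nat_lit 0) (XT.nd (nat_lit 234) (nat_lit 152) (nat_lit 0) (XT.nd (nat_lit 78) (nat_lit 0) (nat_lit 0) (XT.lf (nat_lit 0) (nat_lit 5980522343) (nat_lit 76) (nat_lit 19653078821) (nat_lit 76) (nat_lit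 17818639312) (nat_lit 7) (nat_lit 4) (nat_lit 8) (nat_lit 5) (nat_lit 8) (nat_lit 4) (nat_lit 334) (nat_lit 226) (nat_lit 220)) (XT.nd (nat_lit 78) (nat_lit 0) (nat_lit 0) (XT.lf (nat_lit 0) (nat_lit 18128982912) (nat_lit 76) (nat_lit 14698883618) (nat_lit 76) (nat_lit 12607592059) (nat_lit 7) (nat_lit 4) (nat_lit 8) (nat_lit 5) (nat_lit 8) (nat_lit 4) (nat_lit 335) (nat_lit 226) (nat_lit 219)) (XT.lf (nat_lit 0) (nat_lit 30550270933) (nat_lit 76) (nat_lit 9654413599) (nat_lit 76) (nat_lit 7318501041) (nat_lit 7) (nat_lit 4) (nat_lit 8) (nat_lit 5) (nat_lit 8) (nat_lit 4) (nat_lit 336) (nat_lit 226) (nat_lit 218)))) (XT.nd (nat_lit 156) (nat_lit 0) (nat_lit 0) (XT.nd (nat_lit 78) (nat_lit 152) (nat_lit 0) (XT.lf (nat_lit 0) (nat_lit 43273960903) (nat_lit 76) (nat_lit 4507658121) (nat_lit 76) (nat_lit 1938773182) (nat_lit 7) (nat_lit 4) (nat_lit 8) (nat_lit 5) (nat_lit 8) (nat_lit 4) (nat_lit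 337) (nat_lit 226) (nat_lit 217)) (XT.lf (nat_lit 0) (nat_lit 3525035619) (nat_lit 152) (nat_lit 47689201614) (nat_lit 0) (nat_lit 815556593) (nat_lit 5) (nat_lit 5) (nat_lit 7) (nat_lit 4) (nat_lit 5) (nat_lit 4) (nat_lit 338) (nat_lit 226) (nat_lit 216))) (XT.nd (nat_lit 78) (nat_lit 0) (nat_lit 0) (XT.lf (nat_lit 0) (nat_lit 9176028931) (nat_lit 152) (nat_lit 39018073966) (nat_lit 0) (nat_lit 6261391831) (nat_lit 5) (nat_lit 5) (nat_lit 7) (nat_lit 4) (nat_lit 5) (nat_lit 4) (nat_lit 339) (nat_lit 226) (nat_lit 215)) (XT.lf (nat_lit 0) (nat_lit 14958337528) (nat_lit 152) (nat_lit 30200394868) (nat_lit 0) (nat_lit 11848311785) (nat_lit 5) (nat_lit 5) (nat_lit 7) (nat_lit 4) (nat_lit 5) (nat_lit 4) (nat_lit 340) (nat_lit 226) (nat_lit 214))))) (XT.nd (nat_lit 312) (nat_lit 0) (nat_lit 0) (XT.nd (nat_lit 156) (nat_lit 76) (nat_lit 0) (XT.nd (nat_lit 78) (nat_lit 0) (nat_lit 0) (XT.lf (nat_lit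 0) (nat_lit 20885728811) (nat_lit 152) (nat_lit 21215169847) (nat_lit 0) (nat_lit 17589618647) (nat_lit 5) (nat_lit 5) (nat_lit 7) (nat_lit 4) (nat_lit 5) (nat_lit 4) (nat_lit 341) (nat_lit 226) (nat_lit 213)) (XT.lf (nat_lit 0) (nat_lit 26972315616) (nat_lit 152) (nat_lit 12041005509) (nat_lit 0) (nat_lit 23498982194) (nat_lit 5) (nat_lit 5) (nat_lit 7) (nat_lit 4) (nat_lit 5) (nat_lit 4) (nat_lit 342) (nat_lit 226) (nat_lit 212))) (XT.nd (nat_lit 78) (nat_lit 76) (nat_lit 0) (XT.lf (nat_lit 0) (nat_lit 33232589818) (nat_lit 152) (nat_lit 2656058606) (nat_lit 0) (nat_lit 29590472340) (nat_lit 5) (nat_lit 5) (nat_lit 7) (nat_lit 4) (nat_lit 5) (nat_lit 4) (nat_lit 343) (nat_lit 226) (nat_lit 211)) (XT.lf (nat_lit 0) (nat_lit 7100573741) (nat_lit 76) (nat_lit 32649138147) (nat_lit 76) (nat_lit 28846273949) (nat_lit 4) (nat_lit 4) (nat_lit 5) (nat_lit 5) (nat_lit 5) (nat_lit 4) (nat_lit 344)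 (nat_lit 226) (nat_lit 210)))) (XT.nd (nat_lit 156) (nat_lit 0) (nat_lit 0) (XT.nd (nat_lit 78) (nat_lit 0) (nat_lit 0) (XT.lf (nat_lit 0) (nat_lit 17171190174) (nat_lit 76) (nat_lit 29328140907) (nat_lit 76) (nat_lit 25372184596) (nat_lit 4) (nat_lit 4) (nat_lit 5) (nat_lit 5) (nat_lit 5) (nat_lit 4) (nat_lit 345) (nat_lit 226) (nat_lit 209)) (XT.lf (nat_lit 0) (nat_lit 27526907576) (nat_lit 76) (nat_lit 25944570554) (nat_lit 76) (nat_lit 21842812229) (nat_lit 4) (nat_lit 4) (nat_lit 5) (nat_lit 5) (nat_lit 5) (nat_lit 4) (nat_lit 346) (nat_lit 226) (nat_lit 208))) (XT.nd (nat_lit 78) (nat_lit 0) (nat_lit 0) (XT.lf (nat_lit 0) (nat_lit 38192382416) (nat_lit 76) (nat_lit 22490370967) (nat_lit 76) (nat_lit 18249753581) (nat_lit 4) (nat_lit 4) (nat_lit 5) (nat_lit 5) (nat_lit 5) (nat_lit 4) (nat_lit 347) (nat_lit 226) (nat_lit 207)) (XT.lf (nat_lit 0) (nat_lit 49193008683) (nat_lit 76) (nat_lit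 18957317861) (nat_lit 76) (nat_lit 14584453751) (nat_lit 4) (nat_lit 4) (nat_lit 5) (nat_lit 5) (nat_lit 5) (nat_lit 4) (nat_lit 348) (nat_lit 226) (nat_lit 206))))))))
noncomputable def xc7 : XT := (XT.nd (nat_lit 39624) (nat_lit 0) (nat_lit 0) (XT.nd (nat_lit 1092) (nat_lit 0) (nat_lit 0) (XT.nd (nat_lit 546) (nat_lit 0) (nat_lit 0) (XT.nd (nat_lit 234) (nat_lit 152) (nat_lit 0) (XT.nd (nat_lit 78) (nat_lit 0) (nat_lit 0) (XT.lf (nat_lit 0) (nat_lit 60554978344) (nat_lit 76) (nat_lit 15336999205) (nat_lit 76) (nat_lit 10838185835) (nat_lit 4) (nat_lit 4) (nat_lit 5) (nat_lit 5) (nat_lit 5) (nat_lit 4) (nat_lit 349) (nat_lit 226) (nat_lit 205)) (XT.nd (nat_lit 78) (nat_lit 0) (nat_lit 0) (XT.lf (nat_lit 0) (nat_lit 72305343706) (nat_lit 76) (nat_lit 11620795194) (nat_lit 76) (nat_lit 7002030146) (nat_lit 4) (nat_lit 4) (nat_lit 5) (nat_lit 5) (nat_lit 5) (nat_lit 4) (nat_lit 350) (nat_lit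 226) (nat_lit 204)) (XT.lf (nat_lit 0) (nat_lit 84472081832) (nat_lit 76) (nat_lit 7799857721) (nat_lit 76) (nat_lit 3066852981) (nat_lit 4) (nat_lit 4) (nat_lit 5) (nat_lit 5) (nat_lit 5) (nat_lit 4) (nat_lit 351) (nat_lit 226) (nat_lit 203)))) (XT.nd (nat_lit 156) (nat_lit 0) (nat_lit 0) (XT.nd (nat_lit 78) (nat_lit 76) (nat_lit 0) (XT.lf (nat_lit 0) (nat_lit 957655898) (nat_lit 152) (nat_lit 2897762972) (nat_lit 76) (nat_lit 96116834799) (nat_lit 3) (nat_lit 5) (nat_lit 5) (nat_lit 5) (nat_lit 4) (nat_lit 4) (nat_lit 352) (nat_lit 226) (nat_lit 202)) (XT.lf (nat_lit 0) (nat_lit 5092672983) (nat_lit 152) (nat_lit 99453345044) (nat_lit 0) (nat_lit 291291220) (nat_lit 2) (nat_lit 5) (nat_lit 4) (nat_lit 4) (nat_lit 2) (nat_lit 4) (nat_lit 353) (nat_lit 226) (nat_lit 201))) (XT.nd (nat_lit 78) (nat_lit 0) (nat_lit 0) (XT.lf (nat_lit 0) (nat_lit 9422731352) (nat_lit 152) (nat_lit 95997711167)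 (nat_lit 0) (nat_lit 4525539354) (nat_lit 2) (nat_lit 5) (nat_lit 4) (nat_lit 4) (nat_lit 2) (nat_lit 4) (nat_lit 354) (nat_lit 226) (nat_lit 200)) (XT.lf (nat_lit 0) (nat_lit 13892389301) (nat_lit 152) (nat_lit 92516068833) (nat_lit 0) (nat_lit 8903949460) (nat_lit 2) (nat_lit 5) (nat_lit 4) (nat_lit 4) (nat_lit 2) (nat_lit 4) (nat_lit 355) (nat_lit 226) (nat_lit 199))))) (XT.nd (nat_lit 234) (nat_lit 0) (nat_lit 0) (XT.nd (nat_lit 78) (nat_lit 0) (nat_lit 0) (XT.lf (nat_lit 0) (nat_lit 18512288872) (nat_lit 152) (nat_lit 89000128418) (nat_lit 0) (nat_lit 13436946324) (nat_lit 2) (nat_lit 5) (nat_lit 4) (nat_lit 4) (nat_lit 2) (nat_lit 4) (nat_lit 356) (nat_lit 226) (nat_lit 198)) (XT.nd (nat_lit 78) (nat_lit 0) (nat_lit 0) (XT.lf (nat_lit 0) (nat_lit 23293429827) (nat_lit 152) (nat_lit 85441518636) (nat_lit 0) (nat_lit 18135322796) (nat_lit 2) (nat_lit 5) (nat_lit 4) (nat_lit 4) (nat_lit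 2) (nat_lit 4) (nat_lit 357) (nat_lit 226) (nat_lit 197)) (XT.lf (nat_lit 0) (nat_lit 28247195834) (nat_lit 152) (nat_lit 81831766605) (nat_lit 0) (nat_lit 23010265486) (nat_lit 2) (nat_lit 5) (nat_lit 4) (nat_lit 4) (nat_lit 2) (nat_lit 4) (nat_lit 358) (nat_lit 226) (nat_lit 196)))) (XT.nd (nat_lit 156) (nat_lit 0) (nat_lit 0) (XT.nd (nat_lit 78) (nat_lit 0) (nat_lit 0) (XT.lf (nat_lit 0) (nat_lit 33385381575) (nat_lit 152) (nat_lit 78162277679) (nat_lit 0) (nat_lit 28073381401) (nat_lit 2) (nat_lit 5) (nat_lit 4) (nat_lit 4) (nat_lit 2) (nat_lit 4) (nat_lit 359) (nat_lit 226) (nat_lit 195)) (XT.lf (nat_lit 0) (nat_lit 38720220825) (nat_lit 152) (nat_lit 74424314979) (nat_lit 0) (nat_lit 33336725579) (nat_lit 2) (nat_lit 5) (nat_lit 4) (nat_lit 4) (nat_lit 2) (nat_lit 4) (nat_lit 360) (nat_lit 226) (nat_lit 194))) (XT.nd (nat_lit 78) (nat_lit 0) (nat_lit 0) (XT.lf (nat_lit 0) (nat_lit 44264415582)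 (nat_lit 152) (nat_lit 70608978594) (nat_lit 0) (nat_lit 38812829791) (nat_lit 2) (nat_lit 5) (nat_lit 4) (nat_lit 4) (nat_lit 2) (nat_lit 4) (nat_lit 361) (nat_lit 226) (nat_lit 193)) (XT.lf (nat_lit 0) (nat_lit 50031166309) (nat_lit 152) (nat_lit 66707184389) (nat_lit 0) (nat_lit 44514732381) (nat_lit 2) (nat_lit 5) (nat_lit 4) (nat_lit 4) (nat_lit 2) (nat_lit 4) (nat_lit 362) (nat_lit 226) (nat_lit 192)))))) (XT.nd (nat_lit 37986) (nat_lit 0) (nat_lit 380) (XT.nd (nat_lit 234) (nat_lit 0) (nat_lit 0) (XT.nd (nat_lit 78) (nat_lit 0) (nat_lit 0) (XT.lf (nat_lit 0) (nat_lit 56034203367) (nat_lit 152) (nat_lit 62709642378) (nat_lit 0) (nat_lit 50456009307) (nat_lit 2) (nat_lit 5) (nat_lit 4) (nat_lit 4) (nat_lit 2) (nat_lit 4) (nat_lit 363) (nat_lit 226) (nat_lit 191)) (XT.nd (nat_lit 78) (nat_lit 0) (nat_lit 0) (XT.lf (nat_lit 0) (nat_lit 62287819700) (nat_lit 152) (nat_lit 58606834604) (nat_lit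 0) (nat_lit 56650806467) (nat_lit 2) (nat_lit 5) (nat_lit 4) (nat_lit 4) (nat_lit 2) (nat_lit 4) (nat_lit 364) (nat_lit 226) (nat_lit 190)) (XT.lf (nat_lit 0) (nat_lit 68806904870) (nat_lit 152) (nat_lit 54388992478) (nat_lit 0) (nat_lit 63113873377) (nat_lit 2) (nat_lit 5) (nat_lit 4) (nat_lit 4) (nat_lit 2) (nat_lit 4) (nat_lit 365) (nat_lit 226) (nat_lit 189)))) (XT.nd (nat_lit 37596) (nat_lit 0) (nat_lit 608) (XT.nd (nat_lit 37518) (nat_lit 0) (nat_lit 684) (XT.lf (nat_lit 0) (nat_lit 75606980510) (nat_lit 152) (nat_lit 50046073517) (nat_lit 0) (nat_lit 69860598293) (nat_lit 2) (nat_lit 5) (nat_lit 4) (nat_lit 4) (nat_lit 2) (nat_lit 4) (nat_lit 366) (nat_lit 226) (nat_lit 188)) (XT.lf (nat_lit 0) (nat_lit 2598092320) (nat_lit 152) (nat_lit 10186365412) (nat_lit 0) (nat_lit 2598092320) (nat_lit 11) (nat_lit 5) (nat_lit 13) (nat_lit 4) (nat_lit 11) (nat_lit 4) (nat_lit 326) (nat_lit 227)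 (nat_lit 227))) (XT.nd (nat_lit 78) (nat_lit 76) (nat_lit 0) (XT.lf (nat_lit 0) (nat_lit 12422328987) (nat_lit 152) (nat_lit 7608714498) (nat_lit 0) (nat_lit 12050069861) (nat_lit 11) (nat_lit 5) (nat_lit 13) (nat_lit 4) (nat_lit 11) (nat_lit 4) (nat_lit 327) (nat_lit 227) (nat_lit 226)) (XT.lf (nat_lit 0) (nat_lit 5466150987) (nat_lit 76) (nat_lit 14364494984) (nat_lit 76) (nat_lit 13637703356) (nat_lit 10) (nat_lit 4) (nat_lit 11) (nat_lit 5) (nat_lit 11) (nat_lit 4) (nat_lit 328) (nat_lit 227) (nat_lit 225))))) (XT.nd (nat_lit 234) (nat_lit 76) (nat_lit 0) (XT.nd (nat_lit 78) (nat_lit 152) (nat_lit 0) (XT.lf (nat_lit 0) (nat_lit 18932184532) (nat_lit 76) (nat_lit 8530820583) (nat_lit 76) (nat_lit 7466378954) (nat_lit 10) (nat_lit 4) (nat_lit 11) (nat_lit 5) (nat_lit 11) (nat_lit 4) (nat_lit 329) (nat_lit 227) (nat_lit 224)) (XT.nd (nat_lit 78) (nat_lit 152) (nat_lit 0) (XT.lf (nat_lit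 0) (nat_lit 32670019783) (nat_lit 76) (nat_lit 2592963680) (nat_lit 76) (nat_lit 1206950622) (nat_lit 10) (nat_lit 4) (nat_lit 11) (nat_lit 5) (nat_lit 11) (nat_lit 4) (nat_lit 330) (nat_lit 227) (nat_lit 223)) (XT.lf (nat_lit 0) (nat_lit 5173507134) (nat_lit 152) (nat_lit 29384589724) (nat_lit 0) (nat_lit 3530525034) (nat_lit 8) (nat_lit 5) (nat_lit 10) (nat_lit 4) (nat_lit 8) (nat_lit 4) (nat_lit 331) (nat_lit 227) (nat_lit 222)))) (XT.nd (nat_lit 156) (nat_lit 76) (nat_lit 0) (XT.nd (nat_lit 78) (nat_lit 0) (nat_lit 0) (XT.lf (nat_lit 0) (nat_lit 11712571434) (nat_lit 152) (nat_lit 18293006222) (nat_lit 0) (nat_lit 9786409950) (nat_lit 8) (nat_lit 5) (nat_lit 10) (nat_lit 4) (nat_lit 8) (nat_lit 4) (nat_lit 332) (nat_lit 227) (nat_lit 221)) (XT.lf (nat_lit 0) (nat_lit 18386815365) (nat_lit 152) (nat_lit 7008536762) (nat_lit 0) (nat_lit 16190959228) (nat_lit 8) (nat_lit 5) (nat_lit 10)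 (nat_lit 4) (nat_lit 8) (nat_lit 4) (nat_lit 333) (nat_lit 227) (nat_lit 220))) (XT.nd (nat_lit 78) (nat_lit 0) (nat_lit 0) (XT.lf (nat_lit 0) (nat_lit 4585159413) (nat_lit 76) (nat_lit 20671045927) (nat_lit 76) (nat_lit 18218337741) (nat_lit 7) (nat_lit 4) (nat_lit 8) (nat_lit 5) (nat_lit 8) (nat_lit 4) (nat_lit 334) (nat_lit 227) (nat_lit 219)) (XT.lf (nat_lit 0) (nat_lit 16570402628) (nat_lit 76) (nat_lit 15793648257) (nat_lit 76) (nat_lit 13096319071) (nat_lit 7) (nat_lit 4) (nat_lit 8) (nat_lit 5) (nat_lit 8) (nat_lit 4) (nat_lit 335) (nat_lit 227) (nat_lit 218))))))) (XT.nd (nat_lit 1092) (nat_lit 152) (nat_lit 0) (XT.nd (nat_lit 546) (nat_lit 76) (nat_lit 0) (XT.nd (nat_lit 234) (nat_lit 0) (nat_lit 0) (XT.nd (nat_lit 78) (nat_lit 152) (nat_lit 0) (XT.lf (nat_lit 0) (nat_lit 28836245551) (nat_lit 76) (nat_lit 10822318746) (nat_lit 76) (nat_lit 7892017180) (nat_lit 7) (nat_lit 4) (nat_lit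 8) (nat_lit 5) (nat_lit 8) (nat_lit 4) (nat_lit 336) (nat_lit 227) (nat_lit 217)) (XT.nd (nat_lit 78) (nat_lit 152) (nat_lit 0) (XT.lf (nat_lit 0) (nat_lit 41411892569) (nat_lit 76) (nat_lit 5745220895) (nat_lit 76) (nat_lit 2593040871) (nat_lit 7) (nat_lit 4) (nat_lit 8) (nat_lit 5) (nat_lit 8) (nat_lit 4) (nat_lit 337) (nat_lit 227) (nat_lit 216)) (XT.lf (nat_lit 0) (nat_lit 2280416779) (nat_lit 76) (nat_lit 499834264) (nat_lit 152) (nat_lit 49282605670) (nat_lit 5) (nat_lit 5) (nat_lit 6) (nat_lit 5) (nat_lit 7) (nat_lit 4) (nat_lit 338) (nat_lit 227) (nat_lit 215)))) (XT.nd (nat_lit 156) (nat_lit 0) (nat_lit 0) (XT.nd (nat_lit 78) (nat_lit 0) (nat_lit 0) (XT.lf (nat_lit 0) (nat_lit 8352666775) (nat_lit 152) (nat_lit 41246509980) (nat_lit 0) (nat_lit 4891751103) (nat_lit 5) (nat_lit 5) (nat_lit 7) (nat_lit 4) (nat_lit 5) (nat_lit 4) (nat_lit 339) (nat_lit 227) (nat_lit 214)) (XT.lf (nat_lit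 0) (nat_lit 14064715497) (nat_lit 152) (nat_lit 32562166507) (nat_lit 0) (nat_lit 10417715403) (nat_lit 5) (nat_lit 5) (nat_lit 7) (nat_lit 4) (nat_lit 5) (nat_lit 4) (nat_lit 340) (nat_lit 227) (nat_lit 213))) (XT.nd (nat_lit 78) (nat_lit 0) (nat_lit 0) (XT.lf (nat_lit 0) (nat_lit 19925192613) (nat_lit 152) (nat_lit 23703927795) (nat_lit 0) (nat_lit 16100969261) (nat_lit 5) (nat_lit 5) (nat_lit 7) (nat_lit 4) (nat_lit 5) (nat_lit 4) (nat_lit 341) (nat_lit 227) (nat_lit 212)) (XT.lf (nat_lit 0) (nat_lit 25948051641) (nat_lit 152) (nat_lit 14650702800) (nat_lit 0) (nat_lit 21955044233) (nat_lit 5) (nat_lit 5) (nat_lit 7) (nat_lit 4) (nat_lit 5) (nat_lit 4) (nat_lit 342) (nat_lit 227) (nat_lit 211))))) (XT.nd (nat_lit 234) (nat_lit 0) (nat_lit 0) (XT.nd (nat_lit 78) (nat_lit 76) (nat_lit 0) (XT.lf (nat_lit 0) (nat_lit 32147632720) (nat_lit 152) (nat_lit 5380936223) (nat_lit 0) (nat_lit 27993878593)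 (nat_lit 5) (nat_lit 5) (nat_lit 7) (nat_lit 4) (nat_lit 5) (nat_lit 4) (nat_lit 343) (nat_lit 227) (nat_lit 210)) (XT.nd (nat_lit 78) (nat_lit 0) (nat_lit 0) (XT.lf (nat_lit 0) (nat_lit 4209587012) (nat_lit 76) (nat_lit 34369574873) (nat_lit 76) (nat_lit 30062728632) (nat_lit 4) (nat_lit 4) (nat_lit 5) (nat_lit 5) (nat_lit 5) (nat_lit 4) (nat_lit 344) (nat_lit 227) (nat_lit 209)) (XT.lf (nat_lit 0) (nat_lit 14173652297) (nat_lit 76) (nat_lit 31099054096) (nat_lit 76) (nat_lit 26646405841) (nat_lit 4) (nat_lit 4) (nat_lit 5) (nat_lit 5) (nat_lit 5) (nat_lit 4) (nat_lit 345) (nat_lit 227) (nat_lit 208)))) (XT.nd (nat_lit 156) (nat_lit 0) (nat_lit 0) (XT.nd (nat_lit 78) (nat_lit 0) (nat_lit 0) (XT.lf (nat_lit 0) (nat_lit 24427892415) (nat_lit 76) (nat_lit 27763556564) (nat_lit 76) (nat_lit 23172049249) (nat_lit 4) (nat_lit 4) (nat_lit 5) (nat_lit 5) (nat_lit 5) (nat_lit 4) (nat_lit 346) (nat_lit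 227) (nat_lit 207)) (XT.lf (nat_lit 0) (nat_lit 34996722223) (nat_lit 76) (nat_lit 24355140616) (nat_lit 76) (nat_lit 19631386577) (nat_lit 4) (nat_lit 4) (nat_lit 5) (nat_lit 5) (nat_lit 5) (nat_lit 4) (nat_lit 347) (nat_lit 227) (nat_lit 206))) (XT.nd (nat_lit 78) (nat_lit 0) (nat_lit 0) (XT.lf (nat_lit 0) (nat_lit 45905305603) (nat_lit 76) (nat_lit 20865690976) (nat_lit 76) (nat_lit 16015987676) (nat_lit 4) (nat_lit 4) (nat_lit 5) (nat_lit 5) (nat_lit 5) (nat_lit 4) (nat_lit 348) (nat_lit 227) (nat_lit 205)) (XT.lf (nat_lit 0) (nat_lit 57179615370) (nat_lit 76) (nat_lit 17286899431) (nat_lit 76) (nat_lit 12317244454) (nat_lit 4) (nat_lit 4) (nat_lit 5) (nat_lit 5) (nat_lit 5) (nat_lit 4) (nat_lit 349) (nat_lit 227) (nat_lit 204)))))) (XT.nd (nat_lit 546) (nat_lit 0) (nat_lit 0) (XT.nd (nat_lit 234) (nat_lit 152) (nat_lit 0) (XT.nd (nat_lit 78) (nat_lit 0) (nat_lit 0) (XT.lf (nat_lit 0)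 (nat_lit 68846495121) (nat_lit 76) (nat_lit 13610245049) (nat_lit 76) (nat_lit 8526350379) (nat_lit 4) (nat_lit 4) (nat_lit 5) (nat_lit 5) (nat_lit 5) (nat_lit 4) (nat_lit 350) (nat_lit 227) (nat_lit 203)) (XT.nd (nat_lit 78) (nat_lit 0) (nat_lit 0) (XT.lf (nat_lit 0) (nat_lit 80933723139) (nat_lit 76) (nat_lit 9826973890) (nat_lit 76) (nat_lit 4634279513) (nat_lit 4) (nat_lit 4) (nat_lit 5) (nat_lit 5) (nat_lit 5) (nat_lit 4) (nat_lit 351) (nat_lit 227) (nat_lit 202)) (XT.lf (nat_lit 0) (nat_lit 93470078540) (nat_lit 76) (nat_lit 5928078166) (nat_lit 76) (nat_lit 631765020) (nat_lit 4) (nat_lit 4) (nat_lit 5) (nat_lit 5) (nat_lit 5) (nat_lit 4) (nat_lit 352) (nat_lit 227) (nat_lit 201)))) (XT.nd (nat_lit 156) (nat_lit 0) (nat_lit 0) (XT.nd (nat_lit 78) (nat_lit 0) (nat_lit 0) (XT.lf (nat_lit 0) (nat_lit 1583798756) (nat_lit 76) (nat_lit 1854032003) (nat_lit 152) (nat_lit 101459667544) (nat_lit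 2) (nat_lit 5) (nat_lit 3) (nat_lit 5) (nat_lit 4) (nat_lit 4) (nat_lit 353) (nat_lit 227) (nat_lit 200)) (XT.lf (nat_lit 0) (nat_lit 7712553216) (nat_lit 152) (nat_lit 99911840281) (nat_lit 0) (nat_lit 2383443541) (nat_lit 2) (nat_lit 5) (nat_lit 4) (nat_lit 4) (nat_lit 2) (nat_lit 4) (nat_lit 354) (nat_lit 227) (nat_lit 199))) (XT.nd (nat_lit 78) (nat_lit 0) (nat_lit 0) (XT.lf (nat_lit 0) (nat_lit 12146483713) (nat_lit 152) (nat_lit 96498385282) (nat_lit 0) (nat_lit 6730471331) (nat_lit 2) (nat_lit 5) (nat_lit 4) (nat_lit 4) (nat_lit 2) (nat_lit 4) (nat_lit 355) (nat_lit 227) (nat_lit 198)) (XT.lf (nat_lit 0) (nat_lit 16732357141) (nat_lit 152) (nat_lit 93047385186) (nat_lit 0) (nat_lit 11233580276) (nat_lit 2) (nat_lit 5) (nat_lit 4) (nat_lit 4) (nat_lit 2) (nat_lit 4) (nat_lit 356) (nat_lit 227) (nat_lit 197))))) (XT.nd (nat_lit 312) (nat_lit 0) (nat_lit 0) (XT.nd (nat_lit 156) (nat_lit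 0) (nat_lit 0) (XT.nd (nat_lit 78) (nat_lit 0) (nat_lit 0) (XT.lf (nat_lit 0) (nat_lit 21481092244) (nat_lit 152) (nat_lit 89550623326) (nat_lit 0) (nat_lit 15903492062) (nat_lit 2) (nat_lit 5) (nat_lit 4) (nat_lit 4) (nat_lit 2) (nat_lit 4) (nat_lit 357) (nat_lit 227) (nat_lit 196)) (XT.lf (nat_lit 0) (nat_lit 26403995536) (nat_lit 152) (nat_lit 85999774079) (nat_lit 0) (nat_lit 20751325528) (nat_lit 2) (nat_lit 5) (nat_lit 4) (nat_lit 4) (nat_lit 2) (nat_lit 4) (nat_lit 358) (nat_lit 227) (nat_lit 195))) (XT.nd (nat_lit 78) (nat_lit 0) (nat_lit 0) (XT.lf (nat_lit 0) (nat_lit 31512788214) (nat_lit 152) (nat_lit 82386383042) (nat_lit 0) (nat_lit 25788623134) (nat_lit 2) (nat_lit 5) (nat_lit 4) (nat_lit 4) (nat_lit 2) (nat_lit 4) (nat_lit 359) (nat_lit 227) (nat_lit 194)) (XT.lf (nat_lit 0) (nat_lit 36819634071) (nat_lit 152) (nat_lit 78701846903) (nat_lit 0) (nat_lit 31027378446) (nat_lit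 2) (nat_lit 5) (nat_lit 4) (nat_lit 4) (nat_lit 2) (nat_lit 4) (nat_lit 360) (nat_lit 227) (nat_lit 193)))) (XT.nd (nat_lit 156) (nat_lit 0) (nat_lit 0) (XT.nd (nat_lit 78) (nat_lit 0) (nat_lit 0) (XT.lf (nat_lit 0) (nat_lit 42337168454) (nat_lit 152) (nat_lit 74937392956) (nat_lit 0) (nat_lit 36480064691) (nat_lit 2) (nat_lit 5) (nat_lit 4) (nat_lit 4) (nat_lit 2) (nat_lit 4) (nat_lit 361) (nat_lit 227) (nat_lit 192)) (XT.lf (nat_lit 0) (nat_lit 48078528349) (nat_lit 152) (nat_lit 71084058217) (nat_lit 0) (nat_lit 42159664454) (nat_lit 2) (nat_lit 5) (nat_lit 4) (nat_lit 4) (nat_lit 2) (nat_lit 4) (nat_lit 362) (nat_lit 227) (nat_lit 191))) (XT.nd (nat_lit 78) (nat_lit 0) (nat_lit 0) (XT.lf (nat_lit 0) (nat_lit 54057383662) (nat_lit 152) (nat_lit 67132668078) (nat_lit 0) (nat_lit 48079700594) (nat_lit 2) (nat_lit 5) (nat_lit 4) (nat_lit 4) (nat_lit 2) (nat_lit 4) (nat_lit 363) (nat_lit 227)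 (nat_lit 190)) (XT.lf (nat_lit 0) (nat_lit 60287969761) (nat_lit 152) (nat_lit 63073814468) (nat_lit 0) (nat_lit 54254268433) (nat_lit 2) (nat_lit 5) (nat_lit 4) (nat_lit 4) (nat_lit 2) (nat_lit 4) (nat_lit 364) (nat_lit 227) (nat_lit 189))))))))
noncomputable def xc8 : XT := (XT.nd (nat_lit 39468) (nat_lit 0) (nat_lit 0) (XT.nd (nat_lit 38376) (nat_lit 0) (nat_lit 152) (XT.nd (nat_lit 37830) (nat_lit 0) (nat_lit 380) (XT.nd (nat_lit 37518) (nat_lit 0) (nat_lit 608) (XT.nd (nat_lit 78) (nat_lit 0) (nat_lit 0) (XT.lf (nat_lit 0) (nat_lit 66785121376) (nat_lit 152) (nat_lit 58897833450) (nat_lit 0) (nat_lit 60698069324) (nat_lit 2) (nat_lit 5) (nat_lit 4) (nat_lit 4) (nat_lit 2) (nat_lit 4) (nat_lit 365) (nat_lit 227) (nat_lit 188)) (XT.nd (nat_lit 37362) (nat_lit 0) (nat_lit 836) (XT.lf (nat_lit 0) (nat_lit 73564307915) (nat_lit 152) (nat_lit 54594782212) (nat_lit 0) (nat_lit 67426445651)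 (nat_lit 2) (nat_lit 5) (nat_lit 4) (nat_lit 4) (nat_lit 2) (nat_lit 4) (nat_lit 366) (nat_lit 227) (nat_lit 187)) (XT.lf (nat_lit 0) (nat_lit 5825039798) (nat_lit 76) (nat_lit 4168874467) (nat_lit 76) (nat_lit 4168874467) (nat_lit 13) (nat_lit 4) (nat_lit 14) (nat_lit 5) (nat_lit 14) (nat_lit 4) (nat_lit 324) (nat_lit 228) (nat_lit 228)))) (XT.nd (nat_lit 156) (nat_lit 76) (nat_lit 0) (XT.nd (nat_lit 78) (nat_lit 152) (nat_lit 0) (XT.lf (nat_lit 0) (nat_lit 26106322491) (nat_lit 76) (nat_lit 1906515908) (nat_lit 76) (nat_lit 1503917663) (nat_lit 13) (nat_lit 4) (nat_lit 14) (nat_lit 5) (nat_lit 14) (nat_lit 4) (nat_lit 325) (nat_lit 228) (nat_lit 227)) (XT.lf (nat_lit 0) (nat_lit 5468392091) (nat_lit 152) (nat_lit 20595031677) (nat_lit 0) (nat_lit 4705260882) (nat_lit 11) (nat_lit 5) (nat_lit 13) (nat_lit 4) (nat_lit 11) (nat_lit 4) (nat_lit 326) (nat_lit 228) (nat_lit 226))) (XT.nd (nat_lit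 78) (nat_lit 76) (nat_lit 0) (XT.lf (nat_lit 0) (nat_lit 12581522502) (nat_lit 152) (nat_lit 8042730449) (nat_lit 0) (nat_lit 11463858792) (nat_lit 11) (nat_lit 5) (nat_lit 13) (nat_lit 4) (nat_lit 11) (nat_lit 4) (nat_lit 327) (nat_lit 228) (nat_lit 225)) (XT.lf (nat_lit 0) (nat_lit 4817850941) (nat_lit 76) (nat_lit 15058124368) (nat_lit 76) (nat_lit 13602810657) (nat_lit 10) (nat_lit 4) (nat_lit 11) (nat_lit 5) (nat_lit 11) (nat_lit 4) (nat_lit 328) (nat_lit 228) (nat_lit 224))))) (XT.nd (nat_lit 234) (nat_lit 76) (nat_lit 0) (XT.nd (nat_lit 78) (nat_lit 152) (nat_lit 0) (XT.lf (nat_lit 0) (nat_lit 18088030842) (nat_lit 76) (nat_lit 9315913976) (nat_lit 76) (nat_lit 7539028835) (nat_lit 10) (nat_lit 4) (nat_lit 11) (nat_lit 5) (nat_lit 11) (nat_lit 4) (nat_lit 329) (nat_lit 228) (nat_lit 223)) (XT.nd (nat_lit 78) (nat_lit 152) (nat_lit 0) (XT.lf (nat_lit 0) (nat_lit 31639338811) (nat_lit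 76) (nat_lit 3465165653) (nat_lit 76) (nat_lit 1382022008) (nat_lit 10) (nat_lit 4) (nat_lit 11) (nat_lit 5) (nat_lit 11) (nat_lit 4) (nat_lit 330) (nat_lit 228) (nat_lit 222)) (XT.lf (nat_lit 0) (nat_lit 4884873345) (nat_lit 152) (nat_lit 30644695100) (nat_lit 0) (nat_lit 2579224401) (nat_lit 8) (nat_lit 5) (nat_lit 10) (nat_lit 4) (nat_lit 8) (nat_lit 4) (nat_lit 331) (nat_lit 228) (nat_lit 221)))) (XT.nd (nat_lit 156) (nat_lit 76) (nat_lit 0) (XT.nd (nat_lit 78) (nat_lit 0) (nat_lit 0) (XT.lf (nat_lit 0) (nat_lit 11330389555) (nat_lit 152) (nat_lit 19729547313) (nat_lit 0) (nat_lit 8755045959) (nat_lit 8) (nat_lit 5) (nat_lit 10) (nat_lit 4) (nat_lit 8) (nat_lit 4) (nat_lit 332) (nat_lit 228) (nat_lit 220)) (XT.lf (nat_lit 0) (nat_lit 17915540066) (nat_lit 152) (nat_lit 8613111869) (nat_lit 0) (nat_lit 15083344422) (nat_lit 8) (nat_lit 5) (nat_lit 10) (nat_lit 4) (nat_lit 8) (nat_lit 4)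 (nat_lit 333) (nat_lit 228) (nat_lit 219))) (XT.nd (nat_lit 78) (nat_lit 0) (nat_lit 0) (XT.lf (nat_lit 0) (nat_lit 2785432762) (nat_lit 76) (nat_lit 21897346331) (nat_lit 76) (nat_lit 18820529687) (nat_lit 7) (nat_lit 4) (nat_lit 8) (nat_lit 5) (nat_lit 8) (nat_lit 4) (nat_lit 334) (nat_lit 228) (nat_lit 218)) (XT.lf (nat_lit 0) (nat_lit 14615230877) (nat_lit 76) (nat_lit 17093089170) (nat_lit 76) (nat_lit 13783300145) (nat_lit 7) (nat_lit 4) (nat_lit 8) (nat_lit 5) (nat_lit 8) (nat_lit 4) (nat_lit 335) (nat_lit 228) (nat_lit 217)))))) (XT.nd (nat_lit 546) (nat_lit 76) (nat_lit 0) (XT.nd (nat_lit 234) (nat_lit 76) (nat_lit 0) (XT.nd (nat_lit 78) (nat_lit 76) (nat_lit 0) (XT.lf (nat_lit 0) (nat_lit 26733030848) (nat_lit 76) (nat_lit 12191417286) (nat_lit 76) (nat_lit 8659749804) (nat_lit 7) (nat_lit 4) (nat_lit 8) (nat_lit 5) (nat_lit 8) (nat_lit 4) (nat_lit 336) (nat_lit 228) (nat_lit 216))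 (XT.nd (nat_lit 78) (nat_lit 76) (nat_lit 0) (XT.lf (nat_lit 0) (nat_lit 39167684579) (nat_lit 76) (nat_lit 7180660032) (nat_lit 76) (nat_lit 3437679733) (nat_lit 7) (nat_lit 4) (nat_lit 8) (nat_lit 5) (nat_lit 8) (nat_lit 4) (nat_lit 337) (nat_lit 228) (nat_lit 215)) (XT.lf (nat_lit 0) (nat_lit 1858358586) (nat_lit 152) (nat_lit 171762669) (nat_lit 76) (nat_lit 50071674024) (nat_lit 6) (nat_lit 5) (nat_lit 8) (nat_lit 5) (nat_lit 7) (nat_lit 4) (nat_lit 338) (nat_lit 228) (nat_lit 214)))) (XT.nd (nat_lit 156) (nat_lit 0) (nat_lit 0) (XT.nd (nat_lit 78) (nat_lit 0) (nat_lit 0) (XT.lf (nat_lit 0) (nat_lit 7344103767) (nat_lit 152) (nat_lit 43859705826) (nat_lit 0) (nat_lit 3328669247) (nat_lit 5) (nat_lit 5) (nat_lit 7) (nat_lit 4) (nat_lit 5) (nat_lit 4) (nat_lit 339) (nat_lit 228) (nat_lit 213)) (XT.lf (nat_lit 0) (nat_lit 12989238322) (nat_lit 152) (nat_lit 35302348662) (nat_lit 0) (nat_lit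 8796580544) (nat_lit 5) (nat_lit 5) (nat_lit 7) (nat_lit 4) (nat_lit 5) (nat_lit 4) (nat_lit 340) (nat_lit 228) (nat_lit 212))) (XT.nd (nat_lit 78) (nat_lit 0) (nat_lit 0) (XT.lf (nat_lit 0) (nat_lit 18785987661) (nat_lit 152) (nat_lit 26565049293) (nat_lit 0) (nat_lit 14424545827) (nat_lit 5) (nat_lit 5) (nat_lit 7) (nat_lit 4) (nat_lit 5) (nat_lit 4) (nat_lit 341) (nat_lit 228) (nat_lit 211)) (XT.lf (nat_lit 0) (nat_lit 24748153567) (nat_lit 152) (nat_lit 17627004624) (nat_lit 0) (nat_lit 20225965014) (nat_lit 5) (nat_lit 5) (nat_lit 7) (nat_lit 4) (nat_lit 5) (nat_lit 4) (nat_lit 342) (nat_lit 228) (nat_lit 210))))) (XT.nd (nat_lit 234) (nat_lit 0) (nat_lit 0) (XT.nd (nat_lit 78) (nat_lit 76) (nat_lit 0) (XT.lf (nat_lit 0) (nat_lit 30889931673) (nat_lit 152) (nat_lit 8466933596) (nat_lit 0) (nat_lit 26214651006) (nat_lit 5) (nat_lit 5) (nat_lit 7) (nat_lit 4) (nat_lit 5) (nat_lit 4) (nat_lit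 343) (nat_lit 228) (nat_lit 209)) (XT.nd (nat_lit 78) (nat_lit 0) (nat_lit 0) (XT.lf (nat_lit 0) (nat_lit 955621093) (nat_lit 76) (nat_lit 36279510183) (nat_lit 76) (nat_lit 31458427503) (nat_lit 4) (nat_lit 4) (nat_lit 5) (nat_lit 5) (nat_lit 5) (nat_lit 4) (nat_lit 344) (nat_lit 228) (nat_lit 208)) (XT.lf (nat_lit 0) (nat_lit 10818209094) (nat_lit 76) (nat_lit 33057062228) (nat_lit 76) (nat_lit 28097120487) (nat_lit 4) (nat_lit 4) (nat_lit 5) (nat_lit 5) (nat_lit 5) (nat_lit 4) (nat_lit 345) (nat_lit 228) (nat_lit 207)))) (XT.nd (nat_lit 156) (nat_lit 0) (nat_lit 0) (XT.nd (nat_lit 78) (nat_lit 0) (nat_lit 0) (XT.lf (nat_lit 0) (nat_lit 20975804180) (nat_lit 76) (nat_lit 29767348335) (nat_lit 76) (nat_lit 24675159870) (nat_lit 4) (nat_lit 4) (nat_lit 5) (nat_lit 5) (nat_lit 5) (nat_lit 4) (nat_lit 346) (nat_lit 228) (nat_lit 206)) (XT.lf (nat_lit 0) (nat_lit 31452591101) (nat_lit 76) (nat_lit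 26402535853) (nat_lit 76) (nat_lit 21184398127) (nat_lit 4) (nat_lit 4) (nat_lit 5) (nat_lit 5) (nat_lit 5) (nat_lit 4) (nat_lit 347) (nat_lit 228) (nat_lit 205))) (XT.nd (nat_lit 78) (nat_lit 0) (nat_lit 0) (XT.lf (nat_lit 0) (nat_lit 42273514587) (nat_lit 76) (nat_lit 22954613324) (nat_lit 76) (nat_lit 17616523921) (nat_lit 4) (nat_lit 4) (nat_lit 5) (nat_lit 5) (nat_lit 5) (nat_lit 4) (nat_lit 348) (nat_lit 228) (nat_lit 204)) (XT.lf (nat_lit 0) (nat_lit 53464338742) (nat_lit 76) (nat_lit 19415371408) (nat_lit 76) (nat_lit 13963042313) (nat_lit 4) (nat_lit 4) (nat_lit 5) (nat_lit 5) (nat_lit 5) (nat_lit 4) (nat_lit 349) (nat_lit 228) (nat_lit 203))))))) (XT.nd (nat_lit 1092) (nat_lit 0) (nat_lit 0) (XT.nd (nat_lit 546) (nat_lit 0) (nat_lit 0) (XT.nd (nat_lit 234) (nat_lit 152) (nat_lit 0) (XT.nd (nat_lit 78) (nat_lit 0) (nat_lit 0) (XT.lf (nat_lit 0) (nat_lit 65051708386) (nat_lit 76)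 (nat_lit 15776383339) (nat_lit 76) (nat_lit 10215254537) (nat_lit 4) (nat_lit 4) (nat_lit 5) (nat_lit 5) (nat_lit 5) (nat_lit 4) (nat_lit 350) (nat_lit 228) (nat_lit 202)) (XT.nd (nat_lit 78) (nat_lit 0) (nat_lit 0) (XT.lf (nat_lit 0) (nat_lit 77063212493) (nat_lit 76) (nat_lit 12028984860) (nat_lit 76) (nat_lit 6364237288) (nat_lit 4) (nat_lit 4) (nat_lit 5) (nat_lit 5) (nat_lit 5) (nat_lit 4) (nat_lit 351) (nat_lit 228) (nat_lit 201)) (XT.lf (nat_lit 0) (nat_lit 89527449883) (nat_lit 76) (nat_lit 8164253593) (nat_lit 76) (nat_lit 2400821479) (nat_lit 4) (nat_lit 4) (nat_lit 5) (nat_lit 5) (nat_lit 5) (nat_lit 4) (nat_lit 352) (nat_lit 228) (nat_lit 200)))) (XT.nd (nat_lit 156) (nat_lit 0) (nat_lit 0) (XT.nd (nat_lit 78) (nat_lit 76) (nat_lit 0) (XT.lf (nat_lit 0) (nat_lit 1651560305) (nat_lit 152) (nat_lit 2504749970) (nat_lit 76) (nat_lit 100805859486) (nat_lit 3) (nat_lit 5) (nat_lit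 5) (nat_lit 5) (nat_lit 4) (nat_lit 4) (nat_lit 353) (nat_lit 228) (nat_lit 199)) (XT.lf (nat_lit 0) (nat_lit 5843624898) (nat_lit 152) (nat_lit 104161459888) (nat_lit 0) (nat_lit 69909189) (nat_lit 2) (nat_lit 5) (nat_lit 4) (nat_lit 4) (nat_lit 2) (nat_lit 4) (nat_lit 354) (nat_lit 228) (nat_lit 198))) (XT.nd (nat_lit 78) (nat_lit 0) (nat_lit 0) (XT.lf (nat_lit 0) (nat_lit 10243529251) (nat_lit 152) (nat_lit 100812945207) (nat_lit 0) (nat_lit 4387049060) (nat_lit 2) (nat_lit 5) (nat_lit 4) (nat_lit 4) (nat_lit 2) (nat_lit 4) (nat_lit 355) (nat_lit 228) (nat_lit 197)) (XT.lf (nat_lit 0) (nat_lit 14796996828) (nat_lit 152) (nat_lit 97423793034) (nat_lit 0) (nat_lit 8861693319) (nat_lit 2) (nat_lit 5) (nat_lit 4) (nat_lit 4) (nat_lit 2) (nat_lit 4) (nat_lit 356) (nat_lit 228) (nat_lit 196))))) (XT.nd (nat_lit 234) (nat_lit 0) (nat_lit 0) (XT.nd (nat_lit 78) (nat_lit 0) (nat_lit 0) (XT.lf (nat_lit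 0) (nat_lit 19514869215) (nat_lit 152) (nat_lit 93985933957) (nat_lit 0) (nat_lit 13504495881) (nat_lit 2) (nat_lit 5) (nat_lit 4) (nat_lit 4) (nat_lit 2) (nat_lit 4) (nat_lit 357) (nat_lit 228) (nat_lit 195)) (XT.nd (nat_lit 78) (nat_lit 0) (nat_lit 0) (XT.lf (nat_lit 0) (nat_lit 24408379445) (nat_lit 152) (nat_lit 90491182599) (nat_lit 0) (nat_lit 18326511038) (nat_lit 2) (nat_lit 5) (nat_lit 4) (nat_lit 4) (nat_lit 2) (nat_lit 4) (nat_lit 358) (nat_lit 228) (nat_lit 194)) (XT.lf (nat_lit 0) (nat_lit 29489178730) (nat_lit 152) (nat_lit 86931218123) (nat_lit 0) (nat_lit 23339219779) (nat_lit 2) (nat_lit 5) (nat_lit 4) (nat_lit 4) (nat_lit 2) (nat_lit 4) (nat_lit 359) (nat_lit 228) (nat_lit 193)))) (XT.nd (nat_lit 156) (nat_lit 0) (nat_lit 0) (XT.nd (nat_lit 78) (nat_lit 0) (nat_lit 0) (XT.lf (nat_lit 0) (nat_lit 34769364213) (nat_lit 152) (nat_lit 83297564422) (nat_lit 0) (nat_lit 28554557123)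 (nat_lit 2) (nat_lit 5) (nat_lit 4) (nat_lit 4) (nat_lit 2) (nat_lit 4) (nat_lit 360) (nat_lit 228) (nat_lit 192)) (XT.lf (nat_lit 0) (nat_lit 40261507763) (nat_lit 152) (nat_lit 79581569941) (nat_lit 0) (nat_lit 33984940542) (nat_lit 2) (nat_lit 5) (nat_lit 4) (nat_lit 4) (nat_lit 2) (nat_lit 4) (nat_lit 361) (nat_lit 228) (nat_lit 191))) (XT.nd (nat_lit 78) (nat_lit 0) (nat_lit 0) (XT.lf (nat_lit 0) (nat_lit 45978685913) (nat_lit 152) (nat_lit 75774387074) (nat_lit 0) (nat_lit 39643299519) (nat_lit 2) (nat_lit 5) (nat_lit 4) (nat_lit 4) (nat_lit 2) (nat_lit 4) (nat_lit 362) (nat_lit 228) (nat_lit 190)) (XT.lf (nat_lit 0) (nat_lit 51934510992) (nat_lit 152) (nat_lit 71866951099) (nat_lit 0) (nat_lit 45543106338) (nat_lit 2) (nat_lit 5) (nat_lit 4) (nat_lit 4) (nat_lit 2) (nat_lit 4) (nat_lit 363) (nat_lit 228) (nat_lit 189)))))) (XT.nd (nat_lit 37674) (nat_lit 0) (nat_lit 456) (XT.nd (nat_lit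 37362) (nat_lit 0) (nat_lit 836) (XT.nd (nat_lit 78) (nat_lit 0) (nat_lit 0) (XT.lf (nat_lit 0) (nat_lit 58143163536) (nat_lit 152) (nat_lit 67849958598) (nat_lit 0) (nat_lit 51698408158) (nat_lit 2) (nat_lit 5) (nat_lit 4) (nat_lit 4) (nat_lit 2) (nat_lit 4) (nat_lit 364) (nat_lit 228) (nat_lit 188)) (XT.nd (nat_lit 78) (nat_lit 0) (nat_lit 0) (XT.lf (nat_lit 0) (nat_lit 64619426050) (nat_lit 152) (nat_lit 63713845302) (nat_lit 0) (nat_lit 58123860459) (nat_lit 2) (nat_lit 5) (nat_lit 4) (nat_lit 4) (nat_lit 2) (nat_lit 4) (nat_lit 365) (nat_lit 228) (nat_lit 187)) (XT.lf (nat_lit 0) (nat_lit 71378718207) (nat_lit 152) (nat_lit 59448763323) (nat_lit 0) (nat_lit 64834761938) (nat_lit 2) (nat_lit 5) (nat_lit 4) (nat_lit 4) (nat_lit 2) (nat_lit 4) (nat_lit 366) (nat_lit 228) (nat_lit 186)))) (XT.nd (nat_lit 156) (nat_lit 76) (nat_lit 0) (XT.nd (nat_lit 78) (nat_lit 0) (nat_lit 0) (XT.lf (nat_lit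 0) (nat_lit 2533728645) (nat_lit 152) (nat_lit 7994270199) (nat_lit 0) (nat_lit 2533728645) (nat_lit 14) (nat_lit 5) (nat_lit 16) (nat_lit 4) (nat_lit 14) (nat_lit 4) (nat_lit 322) (nat_lit 229) (nat_lit 229)) (XT.lf (nat_lit 0) (nat_lit 12557698508) (nat_lit 152) (nat_lit 2504804507) (nat_lit 0) (nat_lit 12134970351) (nat_lit 14) (nat_lit 5) (nat_lit 16) (nat_lit 4) (nat_lit 14) (nat_lit 4) (nat_lit 323) (nat_lit 229) (nat_lit 228))) (XT.nd (nat_lit 78) (nat_lit 0) (nat_lit 0) (XT.lf (nat_lit 0) (nat_lit 11426309614) (nat_lit 76) (nat_lit 8864112452) (nat_lit 76) (nat_lit 8038786050) (nat_lit 13) (nat_lit 4) (nat_lit 14) (nat_lit 5) (nat_lit 14) (nat_lit 4) (nat_lit 324) (nat_lit 229) (nat_lit 227)) (XT.lf (nat_lit 0) (nat_lit 25669438239) (nat_lit 76) (nat_lit 2531579769) (nat_lit 76) (nat_lit 1322826466) (nat_lit 13) (nat_lit 4) (nat_lit 14) (nat_lit 5) (nat_lit 14) (nat_lit 4) (nat_lit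 325) (nat_lit 229) (nat_lit 226))))) (XT.nd (nat_lit 234) (nat_lit 152) (nat_lit 0) (XT.nd (nat_lit 78) (nat_lit 76) (nat_lit 0) (XT.lf (nat_lit 0) (nat_lit 5522531346) (nat_lit 152) (nat_lit 21262463523) (nat_lit 0) (nat_lit 3994451949) (nat_lit 11) (nat_lit 5) (nat_lit 13) (nat_lit 4) (nat_lit 11) (nat_lit 4) (nat_lit 326) (nat_lit 229) (nat_lit 225)) (XT.nd (nat_lit 78) (nat_lit 76) (nat_lit 0) (XT.lf (nat_lit 0) (nat_lit 12528029438) (nat_lit 152) (nat_lit 8911795721) (nat_lit 0) (nat_lit 10662300040) (nat_lit 11) (nat_lit 5) (nat_lit 13) (nat_lit 4) (nat_lit 11) (nat_lit 4) (nat_lit 327) (nat_lit 229) (nat_lit 224)) (XT.lf (nat_lit 0) (nat_lit 3735635921) (nat_lit 76) (nat_lit 15973936440) (nat_lit 76) (nat_lit 13786635613) (nat_lit 10) (nat_lit 4) (nat_lit 11) (nat_lit 5) (nat_lit 11) (nat_lit 4) (nat_lit 328) (nat_lit 229) (nat_lit 223)))) (XT.nd (nat_lit 156) (nat_lit 152) (nat_lit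 0) (XT.nd (nat_lit 78) (nat_lit 0) (nat_lit 0) (XT.lf (nat_lit 0) (nat_lit 16819288541) (nat_lit 76) (nat_lit 10318834628) (nat_lit 76) (nat_lit 7825275296) (nat_lit 10) (nat_lit 4) (nat_lit 11) (nat_lit 5) (nat_lit 11) (nat_lit 4) (nat_lit 329) (nat_lit 229) (nat_lit 222)) (XT.lf (nat_lit 0) (nat_lit 30192951481) (nat_lit 76) (nat_lit 4551046858) (nat_lit 76) (nat_lit 1765812759) (nat_lit 10) (nat_lit 4) (nat_lit 11) (nat_lit 5) (nat_lit 11) (nat_lit 4) (nat_lit 330) (nat_lit 229) (nat_lit 221))) (XT.nd (nat_lit 78) (nat_lit 0) (nat_lit 0) (XT.lf (nat_lit 0) (nat_lit 4390034281) (nat_lit 152) (nat_lit 32329498962) (nat_lit 0) (nat_lit 1416228854) (nat_lit 8) (nat_lit 5) (nat_lit 10) (nat_lit 4) (nat_lit 8) (nat_lit 4) (nat_lit 331) (nat_lit 229) (nat_lit 220)) (XT.lf (nat_lit 0) (nat_lit 10746457073) (nat_lit 152) (nat_lit 21582385191) (nat_lit 0) (nat_lit 7515799596) (nat_lit 8) (nat_lit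 5) (nat_lit 10) (nat_lit 4) (nat_lit 8) (nat_lit 4) (nat_lit 332) (nat_lit 229) (nat_lit 219))))))))
noncomputable def xc9 : XT := (XT.nd (nat_lit 2184) (nat_lit 0) (nat_lit 0) (XT.nd (nat_lit 1092) (nat_lit 152) (nat_lit 0) (XT.nd (nat_lit 546) (nat_lit 76) (nat_lit 0) (XT.nd (nat_lit 234) (nat_lit 152) (nat_lit 0) (XT.nd (nat_lit 78) (nat_lit 76) (nat_lit 0) (XT.lf (nat_lit 0) (nat_lit 17246756709) (nat_lit 152) (nat_lit 10625982142) (nat_lit 0) (nat_lit 13771478233) (nat_lit 8) (nat_lit 5) (nat_lit 10) (nat_lit 4) (nat_lit 8) (nat_lit 4) (nat_lit 333) (nat_lit 229) (nat_lit 218)) (XT.nd (nat_lit 78) (nat_lit 0) (nat_lit 0) (XT.lf (nat_lit 0) (nat_lit 577057324) (nat_lit 76) (nat_lit 23334899798) (nat_lit 76) (nat_lit 19626648942) (nat_lit 7) (nat_lit 4) (nat_lit 8) (nat_lit 5) (nat_lit 8) (nat_lit 4) (nat_lit 334) (nat_lit 229) (nat_lit 217)) (XT.lf (nat_lit 0) (nat_lit 12258812489) (nat_lit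 76) (nat_lit 18600300264) (nat_lit 76) (nat_lit 14670170950) (nat_lit 7) (nat_lit 4) (nat_lit 8) (nat_lit 5) (nat_lit 8) (nat_lit 4) (nat_lit 335) (nat_lit 229) (nat_lit 216)))) (XT.nd (nat_lit 156) (nat_lit 152) (nat_lit 0) (XT.nd (nat_lit 78) (nat_lit 0) (nat_lit 0) (XT.lf (nat_lit 0) (nat_lit 24235619173) (nat_lit 76) (nat_lit 13764968977) (nat_lit 76) (nat_lit 9623526846) (nat_lit 7) (nat_lit 4) (nat_lit 8) (nat_lit 5) (nat_lit 8) (nat_lit 4) (nat_lit 336) (nat_lit 229) (nat_lit 215)) (XT.lf (nat_lit 0) (nat_lit 36535993583) (nat_lit 76) (nat_lit 8817393245) (nat_lit 76) (nat_lit 4474700812) (nat_lit 7) (nat_lit 4) (nat_lit 8) (nat_lit 5) (nat_lit 8) (nat_lit 4) (nat_lit 337) (nat_lit 229) (nat_lit 214))) (XT.nd (nat_lit 78) (nat_lit 76) (nat_lit 0) (XT.lf (nat_lit 0) (nat_lit 773178494) (nat_lit 152) (nat_lit 2964807042) (nat_lit 76) (nat_lit 48408236243) (nat_lit 6) (nat_lit 5) (nat_lit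 8) (nat_lit 5) (nat_lit 7) (nat_lit 4) (nat_lit 338) (nat_lit 229) (nat_lit 213)) (XT.lf (nat_lit 0) (nat_lit 6147938567) (nat_lit 152) (nat_lit 46863883398) (nat_lit 0) (nat_lit 1568424642) (nat_lit 5) (nat_lit 5) (nat_lit 7) (nat_lit 4) (nat_lit 5) (nat_lit 4) (nat_lit 339) (nat_lit 229) (nat_lit 212))))) (XT.nd (nat_lit 234) (nat_lit 76) (nat_lit 0) (XT.nd (nat_lit 78) (nat_lit 0) (nat_lit 0) (XT.lf (nat_lit 0) (nat_lit 11729345345) (nat_lit 152) (nat_lit 38427465577) (nat_lit 0) (nat_lit 6981047364) (nat_lit 5) (nat_lit 5) (nat_lit 7) (nat_lit 4) (nat_lit 5) (nat_lit 4) (nat_lit 340) (nat_lit 229) (nat_lit 211)) (XT.nd (nat_lit 78) (nat_lit 0) (nat_lit 0) (XT.lf (nat_lit 0) (nat_lit 17465401561) (nat_lit 152) (nat_lit 29805346534) (nat_lit 0) (nat_lit 12556356861) (nat_lit 5) (nat_lit 5) (nat_lit 7) (nat_lit 4) (nat_lit 5) (nat_lit 4) (nat_lit 341) (nat_lit 229) (nat_lit 210)) (XT.lf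 (nat_lit 0) (nat_lit 23369764494) (nat_lit 152) (nat_lit 20976997413) (nat_lit 0) (nat_lit 18307627680) (nat_lit 5) (nat_lit 5) (nat_lit 7) (nat_lit 4) (nat_lit 5) (nat_lit 4) (nat_lit 342) (nat_lit 229) (nat_lit 209)))) (XT.nd (nat_lit 156) (nat_lit 76) (nat_lit 0) (XT.nd (nat_lit 78) (nat_lit 0) (nat_lit 0) (XT.lf (nat_lit 0) (nat_lit 29456492151) (nat_lit 152) (nat_lit 11921398336) (nat_lit 0) (nat_lit 24248553323) (nat_lit 5) (nat_lit 5) (nat_lit 7) (nat_lit 4) (nat_lit 5) (nat_lit 4) (nat_lit 343) (nat_lit 229) (nat_lit 208)) (XT.lf (nat_lit 0) (nat_lit 35740076738) (nat_lit 152) (nat_lit 2616988353) (nat_lit 0) (nat_lit 30393278850) (nat_lit 5) (nat_lit 5) (nat_lit 7) (nat_lit 4) (nat_lit 5) (nat_lit 4) (nat_lit 344) (nat_lit 229) (nat_lit 207))) (XT.nd (nat_lit 78) (nat_lit 0) (nat_lit 0) (XT.lf (nat_lit 0) (nat_lit 7096871416) (nat_lit 76) (nat_lit 35206827227) (nat_lit 76) (nat_lit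 29727782614) (nat_lit 4) (nat_lit 4) (nat_lit 5) (nat_lit 5) (nat_lit 5) (nat_lit 4) (nat_lit 345) (nat_lit 229) (nat_lit 206)) (XT.lf (nat_lit 0) (nat_lit 17162423614) (nat_lit 76) (nat_lit 31960716800) (nat_lit 76) (nat_lit 26355722927) (nat_lit 4) (nat_lit 4) (nat_lit 5) (nat_lit 5) (nat_lit 5) (nat_lit 4) (nat_lit 346) (nat_lit 229) (nat_lit 205)))))) (XT.nd (nat_lit 546) (nat_lit 152) (nat_lit 0) (XT.nd (nat_lit 234) (nat_lit 0) (nat_lit 0) (XT.nd (nat_lit 78) (nat_lit 0) (nat_lit 0) (XT.lf (nat_lit 0) (nat_lit 27551550642) (nat_lit 76) (nat_lit 28637431429) (nat_lit 76) (nat_lit 22912485879) (nat_lit 4) (nat_lit 4) (nat_lit 5) (nat_lit 5) (nat_lit 5) (nat_lit 4) (nat_lit 347) (nat_lit 229) (nat_lit 204)) (XT.nd (nat_lit 78) (nat_lit 0) (nat_lit 0) (XT.lf (nat_lit 0) (nat_lit 38288988516) (nat_lit 76) (nat_lit 25229058529) (nat_lit 76) (nat_lit 19389873286) (nat_lit 4) (nat_lit 4) (nat_lit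 5) (nat_lit 5) (nat_lit 5) (nat_lit 4) (nat_lit 348) (nat_lit 229) (nat_lit 203)) (XT.lf (nat_lit 0) (nat_lit 49400302564) (nat_lit 76) (nat_lit 21727482927) (nat_lit 76) (nat_lit 15779497977) (nat_lit 4) (nat_lit 4) (nat_lit 5) (nat_lit 5) (nat_lit 5) (nat_lit 4) (nat_lit 349) (nat_lit 229) (nat_lit 202)))) (XT.nd (nat_lit 156) (nat_lit 0) (nat_lit 0) (XT.nd (nat_lit 78) (nat_lit 0) (nat_lit 0) (XT.lf (nat_lit 0) (nat_lit 60911948296) (nat_lit 76) (nat_lit 18124367538) (nat_lit 76) (nat_lit 12072763818) (nat_lit 4) (nat_lit 4) (nat_lit 5) (nat_lit 5) (nat_lit 5) (nat_lit 4) (nat_lit 350) (nat_lit 229) (nat_lit 201)) (XT.lf (nat_lit 0) (nat_lit 72851334392) (nat_lit 76) (nat_lit 14411133515) (nat_lit 76) (nat_lit 8260845254) (nat_lit 4) (nat_lit 4) (nat_lit 5) (nat_lit 5) (nat_lit 5) (nat_lit 4) (nat_lit 351) (nat_lit 229) (nat_lit 200))) (XT.nd (nat_lit 78) (nat_lit 0) (nat_lit 0) (XT.lf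 (nat_lit 0) (nat_lit 85246887963) (nat_lit 76) (nat_lit 10578939825) (nat_lit 76) (nat_lit 4334666287) (nat_lit 4) (nat_lit 4) (nat_lit 5) (nat_lit 5) (nat_lit 5) (nat_lit 4) (nat_lit 352) (nat_lit 229) (nat_lit 199)) (XT.lf (nat_lit 0) (nat_lit 98128122230) (nat_lit 76) (nat_lit 6618662198) (nat_lit 76) (nat_lit 284878871) (nat_lit 4) (nat_lit 4) (nat_lit 5) (nat_lit 5) (nat_lit 5) (nat_lit 4) (nat_lit 353) (nat_lit 229) (nat_lit 198))))) (XT.nd (nat_lit 234) (nat_lit 0) (nat_lit 0) (XT.nd (nat_lit 78) (nat_lit 0) (nat_lit 0) (XT.lf (nat_lit 0) (nat_lit 1366481423) (nat_lit 76) (nat_lit 2468746245) (nat_lit 152) (nat_lit 106311672981) (nat_lit 2) (nat_lit 5) (nat_lit 3) (nat_lit 5) (nat_lit 4) (nat_lit 4) (nat_lit 354) (nat_lit 229) (nat_lit 197)) (XT.nd (nat_lit 78) (nat_lit 0) (nat_lit 0) (XT.lf (nat_lit 0) (nat_lit 8178995071) (nat_lit 152) (nat_lit 105470021369) (nat_lit 0) (nat_lit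 1868103070) (nat_lit 2) (nat_lit 5) (nat_lit 4) (nat_lit 4) (nat_lit 2) (nat_lit 4) (nat_lit 355) (nat_lit 229) (nat_lit 196)) (XT.lf (nat_lit 0) (nat_lit 12701599932) (nat_lit 152) (nat_lit 102139771979) (nat_lit 0) (nat_lit 6315638105) (nat_lit 2) (nat_lit 5) (nat_lit 4) (nat_lit 4) (nat_lit 2) (nat_lit 4) (nat_lit 356) (nat_lit 229) (nat_lit 195)))) (XT.nd (nat_lit 156) (nat_lit 0) (nat_lit 0) (XT.nd (nat_lit 78) (nat_lit 0) (nat_lit 0) (XT.lf (nat_lit 0) (nat_lit 17390079257) (nat_lit 152) (nat_lit 98758010792) (nat_lit 0) (nat_lit 10932622358) (nat_lit 2) (nat_lit 5) (nat_lit 4) (nat_lit 4) (nat_lit 2) (nat_lit 4) (nat_lit 357) (nat_lit 229) (nat_lit 194)) (XT.lf (nat_lit 0) (nat_lit 22255596094) (nat_lit 152) (nat_lit 95316685994) (nat_lit 0) (nat_lit 15730048650) (nat_lit 2) (nat_lit 5) (nat_lit 4) (nat_lit 4) (nat_lit 2) (nat_lit 4) (nat_lit 358) (nat_lit 229) (nat_lit 193))) (XT.nd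 (nat_lit 78) (nat_lit 0) (nat_lit 0) (XT.lf (nat_lit 0) (nat_lit 27309735005) (nat_lit 152) (nat_lit 91807603957) (nat_lit 0) (nat_lit 20719339423) (nat_lit 2) (nat_lit 5) (nat_lit 4) (nat_lit 4) (nat_lit 2) (nat_lit 4) (nat_lit 359) (nat_lit 229) (nat_lit 192)) (XT.lf (nat_lit 0) (nat_lit 32564529655) (nat_lit 152) (nat_lit 88222409722) (nat_lit 0) (nat_lit 25912373942) (nat_lit 2) (nat_lit 5) (nat_lit 4) (nat_lit 4) (nat_lit 2) (nat_lit 4) (nat_lit 360) (nat_lit 229) (nat_lit 191))))))) (XT.nd (nat_lit 38064) (nat_lit 0) (nat_lit 228) (XT.nd (nat_lit 37518) (nat_lit 0) (nat_lit 684) (XT.nd (nat_lit 234) (nat_lit 0) (nat_lit 0) (XT.nd (nat_lit 78) (nat_lit 0) (nat_lit 0) (XT.lf (nat_lit 0) (nat_lit 38032491460) (nat_lit 152) (nat_lit 84552567113) (nat_lit 0) (nat_lit 31321516574) (nat_lit 2) (nat_lit 5) (nat_lit 4) (nat_lit 4) (nat_lit 2) (nat_lit 4) (nat_lit 361) (nat_lit 229) (nat_lit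 190)) (XT.nd (nat_lit 78) (nat_lit 0) (nat_lit 0) (XT.lf (nat_lit 0) (nat_lit 43726639377) (nat_lit 152) (nat_lit 80789338410) (nat_lit 0) (nat_lit 36959646231) (nat_lit 2) (nat_lit 5) (nat_lit 4) (nat_lit 4) (nat_lit 2) (nat_lit 4) (nat_lit 362) (nat_lit 229) (nat_lit 189)) (XT.lf (nat_lit 0) (nat_lit 49660530900) (nat_lit 152) (nat_lit 76923763543) (nat_lit 0) (nat_lit 42840187030) (nat_lit 2) (nat_lit 5) (nat_lit 4) (nat_lit 4) (nat_lit 2) (nat_lit 4) (nat_lit 363) (nat_lit 229) (nat_lit 188)))) (XT.nd (nat_lit 156) (nat_lit 0) (nat_lit 0) (XT.nd (nat_lit 78) (nat_lit 0) (nat_lit 0) (XT.lf (nat_lit 0) (nat_lit 55848294343) (nat_lit 152) (nat_lit 72946638764) (nat_lit 0) (nat_lit 48977140260) (nat_lit 2) (nat_lit 5) (nat_lit 4) (nat_lit 4) (nat_lit 2) (nat_lit 4) (nat_lit 364) (nat_lit 229) (nat_lit 187)) (XT.lf (nat_lit 0) (nat_lit 62304662475) (nat_lit 152) (nat_lit 68848494727) (nat_lit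 0) (nat_lit 55385117713) (nat_lit 2) (nat_lit 5) (nat_lit 4) (nat_lit 4) (nat_lit 2) (nat_lit 4) (nat_lit 365) (nat_lit 229) (nat_lit 186))) (XT.nd (nat_lit 37050) (nat_lit 0) (nat_lit 1064) (XT.lf (nat_lit 0) (nat_lit 69045007603) (nat_lit 152) (nat_lit 64619573948) (nat_lit 0) (nat_lit 62079376479) (nat_lit 2) (nat_lit 5) (nat_lit 4) (nat_lit 4) (nat_lit 2) (nat_lit 4) (nat_lit 366) (nat_lit 229) (nat_lit 185)) (XT.lf (nat_lit 0) (nat_lit 3143137653) (nat_lit 76) (nat_lit 4461926970) (nat_lit 76) (nat_lit 4461926970) (nat_lit 16) (nat_lit 4) (nat_lit 17) (nat_lit 5) (nat_lit 17) (nat_lit 4) (nat_lit 320) (nat_lit 230) (nat_lit 230))))) (XT.nd (nat_lit 234) (nat_lit 228) (nat_lit 0) (XT.nd (nat_lit 78) (nat_lit 152) (nat_lit 0) (XT.lf (nat_lit 0) (nat_lit 20974295410) (nat_lit 76) (nat_lit 2294178768) (nat_lit 76) (nat_lit 1836998266) (nat_lit 16) (nat_lit 4) (nat_lit 17) (nat_lit 5) (nat_lit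 17) (nat_lit 4) (nat_lit 321) (nat_lit 230) (nat_lit 229)) (XT.nd (nat_lit 78) (nat_lit 0) (nat_lit 0) (XT.lf (nat_lit 0) (nat_lit 5387439066) (nat_lit 152) (nat_lit 16218913994) (nat_lit 0) (nat_lit 4520846344) (nat_lit 14) (nat_lit 5) (nat_lit 16) (nat_lit 4) (nat_lit 14) (nat_lit 4) (nat_lit 322) (nat_lit 230) (nat_lit 228)) (XT.lf (nat_lit 0) (nat_lit 12759696676) (nat_lit 152) (nat_lit 2954581527) (nat_lit 0) (nat_lit 11490505708) (nat_lit 14) (nat_lit 5) (nat_lit 16) (nat_lit 4) (nat_lit 14) (nat_lit 4) (nat_lit 323) (nat_lit 230) (nat_lit 227)))) (XT.nd (nat_lit 156) (nat_lit 152) (nat_lit 0) (XT.nd (nat_lit 78) (nat_lit 0) (nat_lit 0) (XT.lf (nat_lit 0) (nat_lit 10754466881) (nat_lit 76) (nat_lit 9619129848) (nat_lit 76) (nat_lit 7966511981) (nat_lit 13) (nat_lit 4) (nat_lit 14) (nat_lit 5) (nat_lit 14) (nat_lit 4) (nat_lit 324) (nat_lit 230) (nat_lit 226)) (XT.lf (nat_lit 0) (nat_lit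 24794629535) (nat_lit 76) (nat_lit 3380597491) (nat_lit 76) (nat_lit 1362811147) (nat_lit 13) (nat_lit 4) (nat_lit 14) (nat_lit 5) (nat_lit 14) (nat_lit 4) (nat_lit 325) (nat_lit 230) (nat_lit 225))) (XT.nd (nat_lit 78) (nat_lit 0) (nat_lit 0) (XT.lf (nat_lit 0) (nat_lit 5358731309) (nat_lit 152) (nat_lit 22376615486) (nat_lit 0) (nat_lit 3062065440) (nat_lit 11) (nat_lit 5) (nat_lit 13) (nat_lit 4) (nat_lit 11) (nat_lit 4) (nat_lit 326) (nat_lit 230) (nat_lit 224)) (XT.lf (nat_lit 0) (nat_lit 12261722430) (nat_lit 152) (nat_lit 10217979518) (nat_lit 0) (nat_lit 9643485132) (nat_lit 11) (nat_lit 5) (nat_lit 13) (nat_lit 4) (nat_lit 11) (nat_lit 4) (nat_lit 327) (nat_lit 230) (nat_lit 223)))))) (XT.nd (nat_lit 546) (nat_lit 228) (nat_lit 0) (XT.nd (nat_lit 234) (nat_lit 152) (nat_lit 0) (XT.nd (nat_lit 78) (nat_lit 0) (nat_lit 0) (XT.lf (nat_lit 0) (nat_lit 2216929225) (nat_lit 76) (nat_lit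 17114111705) (nat_lit 76) (nat_lit 14189615902) (nat_lit 10) (nat_lit 4) (nat_lit 11) (nat_lit 5) (nat_lit 11) (nat_lit 4) (nat_lit 328) (nat_lit 230) (nat_lit 222)) (XT.nd (nat_lit 78) (nat_lit 0) (nat_lit 0) (XT.lf (nat_lit 0) (nat_lit 15122936815) (nat_lit 76) (nat_lit 11541970445) (nat_lit 76) (nat_lit 8325799876) (nat_lit 10) (nat_lit 4) (nat_lit 11) (nat_lit 5) (nat_lit 11) (nat_lit 4) (nat_lit 329) (nat_lit 230) (nat_lit 221)) (XT.lf (nat_lit 0) (nat_lit 28327414013) (nat_lit 76) (nat_lit 5853192724) (nat_lit 76) (nat_lit 2359236663) (nat_lit 10) (nat_lit 4) (nat_lit 11) (nat_lit 5) (nat_lit 11) (nat_lit 4) (nat_lit 330) (nat_lit 230) (nat_lit 220)))) (XT.nd (nat_lit 156) (nat_lit 0) (nat_lit 0) (XT.nd (nat_lit 78) (nat_lit 0) (nat_lit 0) (XT.lf (nat_lit 0) (nat_lit 3687811756) (nat_lit 152) (nat_lit 34443012749) (nat_lit 0) (nat_lit 38769356) (nat_lit 8) (nat_lit 5) (nat_lit 10) (nat_lit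 4) (nat_lit 8) (nat_lit 4) (nat_lit 331) (nat_lit 230) (nat_lit 219)) (XT.lf (nat_lit 0) (nat_lit 9959383672) (nat_lit 152) (nat_lit 23855931373) (nat_lit 0) (nat_lit 6065720273) (nat_lit 8) (nat_lit 5) (nat_lit 10) (nat_lit 4) (nat_lit 8) (nat_lit 4) (nat_lit 332) (nat_lit 230) (nat_lit 218))) (XT.nd (nat_lit 78) (nat_lit 0) (nat_lit 0) (XT.lf (nat_lit 0) (nat_lit 16378872952) (nat_lit 152) (nat_lit 13051940129) (nat_lit 0) (nat_lit 12252237172) (nat_lit 8) (nat_lit 5) (nat_lit 10) (nat_lit 4) (nat_lit 8) (nat_lit 4) (nat_lit 333) (nat_lit 230) (nat_lit 217)) (XT.lf (nat_lit 0) (nat_lit 22961564093) (nat_lit 152) (nat_lit 2005315229) (nat_lit 0) (nat_lit 18613049855) (nat_lit 8) (nat_lit 5) (nat_lit 10) (nat_lit 4) (nat_lit 8) (nat_lit 4) (nat_lit 334) (nat_lit 230) (nat_lit 216))))) (XT.nd (nat_lit 312) (nat_lit 152) (nat_lit 0) (XT.nd (nat_lit 156) (nat_lit 0) (nat_lit 0) (XT.nd (nat_lit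 78) (nat_lit 0) (nat_lit 0) (XT.lf (nat_lit 0) (nat_lit 9495536942) (nat_lit 76) (nat_lit 20318870137) (nat_lit 76) (nat_lit 15759043083) (nat_lit 7) (nat_lit 4) (nat_lit 8) (nat_lit 5) (nat_lit 8) (nat_lit 4) (nat_lit 335) (nat_lit 230) (nat_lit 215)) (XT.lf (nat_lit 0) (nat_lit 21338064305) (nat_lit 76) (nat_lit 15546720372) (nat_lit 76) (nat_lit 10785643016) (nat_lit 7) (nat_lit 4) (nat_lit 8) (nat_lit 5) (nat_lit 8) (nat_lit 4) (nat_lit 336) (nat_lit 230) (nat_lit 214))) (XT.nd (nat_lit 78) (nat_lit 0) (nat_lit 0) (XT.lf (nat_lit 0) (nat_lit 33510553647) (nat_lit 76) (nat_lit 10659317516) (nat_lit 76) (nat_lit 5706573206) (nat_lit 7) (nat_lit 4) (nat_lit 8) (nat_lit 5) (nat_lit 8) (nat_lit 4) (nat_lit 337) (nat_lit 230) (nat_lit 213)) (XT.lf (nat_lit 0) (nat_lit 46041987086) (nat_lit 76) (nat_lit 5645024897) (nat_lit 76) (nat_lit 509740631) (nat_lit 7) (nat_lit 4) (nat_lit 8) (nat_lit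 5) (nat_lit 8) (nat_lit 4) (nat_lit 338) (nat_lit 230) (nat_lit 212)))) (XT.nd (nat_lit 156) (nat_lit 0) (nat_lit 0) (XT.nd (nat_lit 78) (nat_lit 0) (nat_lit 0) (XT.lf (nat_lit 0) (nat_lit 4364179106) (nat_lit 76) (nat_lit 400998701) (nat_lit 152) (nat_lit 49869051445) (nat_lit 5) (nat_lit 5) (nat_lit 6) (nat_lit 5) (nat_lit 7) (nat_lit 4) (nat_lit 339) (nat_lit 230) (nat_lit 211)) (XT.lf (nat_lit 0) (nat_lit 10282036819) (nat_lit 152) (nat_lit 41944958007) (nat_lit 0) (nat_lit 4966793163) (nat_lit 5) (nat_lit 5) (nat_lit 7) (nat_lit 4) (nat_lit 5) (nat_lit 4) (nat_lit 340) (nat_lit 230) (nat_lit 210))) (XT.nd (nat_lit 78) (nat_lit 0) (nat_lit 0) (XT.lf (nat_lit 0) (nat_lit 15960290062) (nat_lit 152) (nat_lit 33432534512) (nat_lit 0) (nat_lit 10491954293) (nat_lit 5) (nat_lit 5) (nat_lit 7) (nat_lit 4) (nat_lit 5) (nat_lit 4) (nat_lit 341) (nat_lit 230) (nat_lit 209)) (XT.lf (nat_lit 0) (nat_lit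 21809602545) (nat_lit 152) (nat_lit 24708657342) (nat_lit 0) (nat_lit 16195464762) (nat_lit 5) (nat_lit 5) (nat_lit 7) (nat_lit 4) (nat_lit 5) (nat_lit 4) (nat_lit 342) (nat_lit 230) (nat_lit 208))))))))
noncomputable def xc10 : XT := (XT.nd (nat_lit 39000) (nat_lit 0) (nat_lit 152) (XT.nd (nat_lit 1092) (nat_lit 0) (nat_lit 0) (XT.nd (nat_lit 546) (nat_lit 152) (nat_lit 0) (XT.nd (nat_lit 234) (nat_lit 0) (nat_lit 0) (XT.nd (nat_lit 78) (nat_lit 76) (nat_lit 0) (XT.lf (nat_lit 0) (nat_lit 27843901200) (nat_lit 152) (nat_lit 15752555362) (nat_lit 0) (nat_lit 22090904358) (nat_lit 5) (nat_lit 5) (nat_lit 7) (nat_lit 4) (nat_lit 5) (nat_lit 4) (nat_lit 343) (nat_lit 230) (nat_lit 207)) (XT.nd (nat_lit 78) (nat_lit 76) (nat_lit 0) (XT.lf (nat_lit 0) (nat_lit 34077553407) (nat_lit 152) (nat_lit 6542904518) (nat_lit 0) (nat_lit 28192309840) (nat_lit 5) (nat_lit 5) (nat_lit 7) (nat_lit 4) (nat_lit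 5) (nat_lit 4) (nat_lit 344) (nat_lit 230) (nat_lit 206)) (XT.lf (nat_lit 0) (nat_lit 3000778934) (nat_lit 76) (nat_lit 37553467582) (nat_lit 76) (nat_lit 31542274753) (nat_lit 4) (nat_lit 4) (nat_lit 5) (nat_lit 5) (nat_lit 5) (nat_lit 4) (nat_lit 345) (nat_lit 230) (nat_lit 205)))) (XT.nd (nat_lit 156) (nat_lit 0) (nat_lit 0) (XT.nd (nat_lit 78) (nat_lit 0) (nat_lit 0) (XT.lf (nat_lit 0) (nat_lit 12978671240) (nat_lit 76) (nat_lit 34348884266) (nat_lit 76) (nat_lit 28217739760) (nat_lit 4) (nat_lit 4) (nat_lit 5) (nat_lit 5) (nat_lit 5) (nat_lit 4) (nat_lit 346) (nat_lit 230) (nat_lit 204)) (XT.lf (nat_lit 0) (nat_lit 23284312655) (nat_lit 76) (nat_lit 31065148524) (nat_lit 76) (nat_lit 24819764326) (nat_lit 4) (nat_lit 4) (nat_lit 5) (nat_lit 5) (nat_lit 5) (nat_lit 4) (nat_lit 347) (nat_lit 230) (nat_lit 203))) (XT.nd (nat_lit 78) (nat_lit 0) (nat_lit 0) (XT.lf (nat_lit 0) (nat_lit 33942240422)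 (nat_lit 76) (nat_lit 27694441937) (nat_lit 76) (nat_lit 21340258032) (nat_lit 4) (nat_lit 4) (nat_lit 5) (nat_lit 5) (nat_lit 5) (nat_lit 4) (nat_lit 348) (nat_lit 230) (nat_lit 202)) (XT.lf (nat_lit 0) (nat_lit 44977830558) (nat_lit 76) (nat_lit 24228739014) (nat_lit 76) (nat_lit 17770936341) (nat_lit 4) (nat_lit 4) (nat_lit 5) (nat_lit 5) (nat_lit 5) (nat_lit 4) (nat_lit 349) (nat_lit 230) (nat_lit 201))))) (XT.nd (nat_lit 234) (nat_lit 152) (nat_lit 0) (XT.nd (nat_lit 78) (nat_lit 0) (nat_lit 0) (XT.lf (nat_lit 0) (nat_lit 56417358280) (nat_lit 76) (nat_lit 20659788082) (nat_lit 76) (nat_lit 14103300866) (nat_lit 4) (nat_lit 4) (nat_lit 5) (nat_lit 5) (nat_lit 5) (nat_lit 4) (nat_lit 350) (nat_lit 230) (nat_lit 200)) (XT.nd (nat_lit 78) (nat_lit 0) (nat_lit 0) (XT.lf (nat_lit 0) (nat_lit 68288060556) (nat_lit 76) (nat_lit 16979091636) (nat_lit 76) (nat_lit 10328619143) (nat_lit 4) (nat_lit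 4) (nat_lit 5) (nat_lit 5) (nat_lit 5) (nat_lit 4) (nat_lit 351) (nat_lit 230) (nat_lit 199)) (XT.lf (nat_lit 0) (nat_lit 80618200964) (nat_lit 76) (nat_lit 13177886116) (nat_lit 76) (nat_lit 6437903835) (nat_lit 4) (nat_lit 4) (nat_lit 5) (nat_lit 5) (nat_lit 5) (nat_lit 4) (nat_lit 352) (nat_lit 230) (nat_lit 198)))) (XT.nd (nat_lit 156) (nat_lit 76) (nat_lit 0) (XT.nd (nat_lit 78) (nat_lit 76) (nat_lit 0) (XT.lf (nat_lit 0) (nat_lit 93437136982) (nat_lit 76) (nat_lit 9247121031) (nat_lit 76) (nat_lit 2421891332) (nat_lit 4) (nat_lit 4) (nat_lit 5) (nat_lit 5) (nat_lit 5) (nat_lit 4) (nat_lit 353) (nat_lit 230) (nat_lit 197)) (XT.lf (nat_lit 0) (nat_lit 1695241664) (nat_lit 152) (nat_lit 3465077136) (nat_lit 76) (nat_lit 105063029604) (nat_lit 3) (nat_lit 5) (nat_lit 5) (nat_lit 5) (nat_lit 4) (nat_lit 4) (nat_lit 354) (nat_lit 230) (nat_lit 196))) (XT.nd (nat_lit 78) (nat_lit 0) (nat_lit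 0) (XT.lf (nat_lit 0) (nat_lit 5107196241) (nat_lit 76) (nat_lit 848929806) (nat_lit 152) (nat_lit 109639932672) (nat_lit 2) (nat_lit 5) (nat_lit 3) (nat_lit 5) (nat_lit 4) (nat_lit 4) (nat_lit 355) (nat_lit 230) (nat_lit 195)) (XT.lf (nat_lit 0) (nat_lit 10441177413) (nat_lit 152) (nat_lit 107206550544) (nat_lit 0) (nat_lit 3589352597) (nat_lit 2) (nat_lit 5) (nat_lit 4) (nat_lit 4) (nat_lit 2) (nat_lit 4) (nat_lit 356) (nat_lit 230) (nat_lit 194)))))) (XT.nd (nat_lit 546) (nat_lit 0) (nat_lit 0) (XT.nd (nat_lit 234) (nat_lit 0) (nat_lit 0) (XT.nd (nat_lit 78) (nat_lit 0) (nat_lit 0) (XT.lf (nat_lit 0) (nat_lit 15101663346) (nat_lit 152) (nat_lit 103878215918) (nat_lit 0) (nat_lit 8181747985) (nat_lit 2) (nat_lit 5) (nat_lit 4) (nat_lit 4) (nat_lit 2) (nat_lit 4) (nat_lit 357) (nat_lit 230) (nat_lit 193)) (XT.nd (nat_lit 78) (nat_lit 0) (nat_lit 0) (XT.lf (nat_lit 0) (nat_lit 19940519808)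 (nat_lit 152) (nat_lit 100487773559) (nat_lit 0) (nat_lit 12955756309) (nat_lit 2) (nat_lit 5) (nat_lit 4) (nat_lit 4) (nat_lit 2) (nat_lit 4) (nat_lit 358) (nat_lit 230) (nat_lit 192)) (XT.lf (nat_lit 0) (nat_lit 24969267887) (nat_lit 152) (nat_lit 97027150987) (nat_lit 0) (nat_lit 17922744256) (nat_lit 2) (nat_lit 5) (nat_lit 4) (nat_lit 4) (nat_lit 2) (nat_lit 4) (nat_lit 359) (nat_lit 230) (nat_lit 191)))) (XT.nd (nat_lit 156) (nat_lit 0) (nat_lit 0) (XT.nd (nat_lit 78) (nat_lit 0) (nat_lit 0) (XT.lf (nat_lit 0) (nat_lit 30199880792) (nat_lit 152) (nat_lit 93488108625) (nat_lit 0) (nat_lit 23094537988) (nat_lit 2) (nat_lit 5) (nat_lit 4) (nat_lit 4) (nat_lit 2) (nat_lit 4) (nat_lit 360) (nat_lit 230) (nat_lit 190)) (XT.lf (nat_lit 0) (nat_lit 35644812364) (nat_lit 152) (nat_lit 89862220179) (nat_lit 0) (nat_lit 28483451300) (nat_lit 2) (nat_lit 5) (nat_lit 4) (nat_lit 4) (nat_lit 2) (nat_lit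 4) (nat_lit 361) (nat_lit 230) (nat_lit 189))) (XT.nd (nat_lit 78) (nat_lit 0) (nat_lit 0) (XT.lf (nat_lit 0) (nat_lit 41317026725) (nat_lit 152) (nat_lit 86140852584) (nat_lit 0) (nat_lit 34102314937) (nat_lit 2) (nat_lit 5) (nat_lit 4) (nat_lit 4) (nat_lit 2) (nat_lit 4) (nat_lit 362) (nat_lit 230) (nat_lit 188)) (XT.lf (nat_lit 0) (nat_lit 47230029147) (nat_lit 152) (nat_lit 82315145440) (nat_lit 0) (nat_lit 39964507146) (nat_lit 2) (nat_lit 5) (nat_lit 4) (nat_lit 4) (nat_lit 2) (nat_lit 4) (nat_lit 363) (nat_lit 230) (nat_lit 187))))) (XT.nd (nat_lit 37050) (nat_lit 0) (nat_lit 1064) (XT.nd (nat_lit 78) (nat_lit 0) (nat_lit 0) (XT.lf (nat_lit 0) (nat_lit 53397898208) (nat_lit 152) (nat_lit 78375989920) (nat_lit 0) (nat_lit 46083985528) (nat_lit 2) (nat_lit 5) (nat_lit 4) (nat_lit 4) (nat_lit 2) (nat_lit 4) (nat_lit 364) (nat_lit 230) (nat_lit 186)) (XT.nd (nat_lit 78) (nat_lit 0) (nat_lit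 0) (XT.lf (nat_lit 0) (nat_lit 59835319310) (nat_lit 152) (nat_lit 74314007083) (nat_lit 0) (nat_lit 52475320270) (nat_lit 2) (nat_lit 5) (nat_lit 4) (nat_lit 4) (nat_lit 2) (nat_lit 4) (nat_lit 365) (nat_lit 230) (nat_lit 185)) (XT.lf (nat_lit 0) (nat_lit 66557619647) (nat_lit 152) (nat_lit 70119525541) (nat_lit 0) (nat_lit 59153728834) (nat_lit 2) (nat_lit 5) (nat_lit 4) (nat_lit 4) (nat_lit 2) (nat_lit 4) (nat_lit 366) (nat_lit 230) (nat_lit 184)))) (XT.nd (nat_lit 156) (nat_lit 76) (nat_lit 0) (XT.nd (nat_lit 78) (nat_lit 0) (nat_lit 0) (XT.lf (nat_lit 0) (nat_lit 157793462) (nat_lit 152) (nat_lit 10854140912) (nat_lit 0) (nat_lit 157793462) (nat_lit 17) (nat_lit 5) (nat_lit 19) (nat_lit 4) (nat_lit 17) (nat_lit 4) (nat_lit 318) (nat_lit 231) (nat_lit 231)) (XT.lf (nat_lit 0) (nat_lit 7849019362) (nat_lit 152) (nat_lit 7995811182) (nat_lit 0) (nat_lit 7368979835) (nat_lit 17) (nat_lit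 5) (nat_lit 19) (nat_lit 4) (nat_lit 17) (nat_lit 4) (nat_lit 319) (nat_lit 231) (nat_lit 230))) (XT.nd (nat_lit 78) (nat_lit 0) (nat_lit 0) (XT.lf (nat_lit 0) (nat_lit 6054441332) (nat_lit 76) (nat_lit 9510277796) (nat_lit 76) (nat_lit 8573057767) (nat_lit 16) (nat_lit 4) (nat_lit 17) (nat_lit 5) (nat_lit 17) (nat_lit 4) (nat_lit 320) (nat_lit 231) (nat_lit 229)) (XT.lf (nat_lit 0) (nat_lit 20521667177) (nat_lit 76) (nat_lit 2981921031) (nat_lit 76) (nat_lit 1609291000) (nat_lit 16) (nat_lit 4) (nat_lit 17) (nat_lit 5) (nat_lit 17) (nat_lit 4) (nat_lit 321) (nat_lit 231) (nat_lit 228))))))) (XT.nd (nat_lit 1092) (nat_lit 228) (nat_lit 0) (XT.nd (nat_lit 546) (nat_lit 228) (nat_lit 0) (XT.nd (nat_lit 234) (nat_lit 228) (nat_lit 0) (XT.nd (nat_lit 78) (nat_lit 76) (nat_lit 0) (XT.lf (nat_lit 0) (nat_lit 5481553534) (nat_lit 152) (nat_lit 16910583289) (nat_lit 0) (nat_lit 3746304773) (nat_lit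 14) (nat_lit 5) (nat_lit 16) (nat_lit 4) (nat_lit 14) (nat_lit 4) (nat_lit 322) (nat_lit 231) (nat_lit 227)) (XT.nd (nat_lit 78) (nat_lit 76) (nat_lit 0) (XT.lf (nat_lit 0) (nat_lit 12741445802) (nat_lit 152) (nat_lit 3855206463) (nat_lit 0) (nat_lit 10622770140) (nat_lit 14) (nat_lit 5) (nat_lit 16) (nat_lit 4) (nat_lit 14) (nat_lit 4) (nat_lit 323) (nat_lit 231) (nat_lit 226)) (XT.lf (nat_lit 0) (nat_lit 9632951772) (nat_lit 76) (nat_lit 10604598783) (nat_lit 76) (nat_lit 8120754646) (nat_lit 13) (nat_lit 4) (nat_lit 14) (nat_lit 5) (nat_lit 14) (nat_lit 4) (nat_lit 324) (nat_lit 231) (nat_lit 225)))) (XT.nd (nat_lit 156) (nat_lit 76) (nat_lit 0) (XT.nd (nat_lit 78) (nat_lit 152) (nat_lit 0) (XT.lf (nat_lit 0) (nat_lit 23479813502) (nat_lit 76) (nat_lit 4455590546) (nat_lit 76) (nat_lit 1623966908) (nat_lit 13) (nat_lit 4) (nat_lit 14) (nat_lit 5) (nat_lit 14) (nat_lit 4) (nat_lit 325)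 (nat_lit 231) (nat_lit 224)) (XT.lf (nat_lit 0) (nat_lit 4976601980) (nat_lit 152) (nat_lit 23940140308) (nat_lit 0) (nat_lit 1905881386) (nat_lit 11) (nat_lit 5) (nat_lit 13) (nat_lit 4) (nat_lit 11) (nat_lit 4) (nat_lit 326) (nat_lit 231) (nat_lit 223))) (XT.nd (nat_lit 78) (nat_lit 76) (nat_lit 0) (XT.lf (nat_lit 0) (nat_lit 11781967414) (nat_lit 152) (nat_lit 11964391802) (nat_lit 0) (nat_lit 8404988317) (nat_lit 11) (nat_lit 5) (nat_lit 13) (nat_lit 4) (nat_lit 11) (nat_lit 4) (nat_lit 327) (nat_lit 231) (nat_lit 222)) (XT.lf (nat_lit 0) (nat_lit 258114883) (nat_lit 76) (nat_lit 18481364865) (nat_lit 76) (nat_lit 14812711001) (nat_lit 10) (nat_lit 4) (nat_lit 11) (nat_lit 5) (nat_lit 11) (nat_lit 4) (nat_lit 328) (nat_lit 231) (nat_lit 221))))) (XT.nd (nat_lit 234) (nat_lit 76) (nat_lit 0) (XT.nd (nat_lit 78) (nat_lit 152) (nat_lit 0) (XT.lf (nat_lit 0) (nat_lit 12994936731) (nat_lit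 76) (nat_lit 12988233654) (nat_lit 76) (nat_lit 9041794299) (nat_lit 10) (nat_lit 4) (nat_lit 11) (nat_lit 5) (nat_lit 11) (nat_lit 4) (nat_lit 329) (nat_lit 231) (nat_lit 220)) (XT.nd (nat_lit 78) (nat_lit 152) (nat_lit 0) (XT.lf (nat_lit 0) (nat_lit 26038284651) (nat_lit 76) (nat_lit 7374703600) (nat_lit 76) (nat_lit 3163706633) (nat_lit 10) (nat_lit 4) (nat_lit 11) (nat_lit 5) (nat_lit 11) (nat_lit 4) (nat_lit 330) (nat_lit 231) (nat_lit 219)) (XT.lf (nat_lit 0) (nat_lit 1204383125) (nat_lit 76) (nat_lit 1587409840) (nat_lit 152) (nat_lit 35418117949) (nat_lit 8) (nat_lit 5) (nat_lit 9) (nat_lit 5) (nat_lit 10) (nat_lit 4) (nat_lit 331) (nat_lit 231) (nat_lit 218)))) (XT.nd (nat_lit 156) (nat_lit 76) (nat_lit 0) (XT.nd (nat_lit 78) (nat_lit 0) (nat_lit 0) (XT.lf (nat_lit 0) (nat_lit 8967295370) (nat_lit 152) (nat_lit 26555599065) (nat_lit 0) (nat_lit 4401355420) (nat_lit 8) (nat_lit 5)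 (nat_lit 10) (nat_lit 4) (nat_lit 8) (nat_lit 4) (nat_lit 332) (nat_lit 231) (nat_lit 217)) (XT.lf (nat_lit 0) (nat_lit 15309822404) (nat_lit 152) (nat_lit 15896761922) (nat_lit 0) (nat_lit 10522003997) (nat_lit 8) (nat_lit 5) (nat_lit 10) (nat_lit 4) (nat_lit 8) (nat_lit 4) (nat_lit 333) (nat_lit 231) (nat_lit 216))) (XT.nd (nat_lit 78) (nat_lit 76) (nat_lit 0) (XT.lf (nat_lit 0) (nat_lit 21819216169) (nat_lit 152) (nat_lit 4988379022) (nat_lit 0) (nat_lit 16820084945) (nat_lit 8) (nat_lit 5) (nat_lit 10) (nat_lit 4) (nat_lit 8) (nat_lit 4) (nat_lit 334) (nat_lit 231) (nat_lit 215)) (XT.lf (nat_lit 0) (nat_lit 6318825010) (nat_lit 76) (nat_lit 22252890622) (nat_lit 76) (nat_lit 17052509097) (nat_lit 7) (nat_lit 4) (nat_lit 8) (nat_lit 5) (nat_lit 8) (nat_lit 4) (nat_lit 335) (nat_lit 231) (nat_lit 214)))))) (XT.nd (nat_lit 546) (nat_lit 76) (nat_lit 0) (XT.nd (nat_lit 234) (nat_lit 152)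 (nat_lit 0) (XT.nd (nat_lit 78) (nat_lit 0) (nat_lit 0) (XT.lf (nat_lit 0) (nat_lit 18033467305) (nat_lit 76) (nat_lit 17540913734) (nat_lit 76) (nat_lit 12148865254) (nat_lit 7) (nat_lit 4) (nat_lit 8) (nat_lit 5) (nat_lit 8) (nat_lit 4) (nat_lit 336) (nat_lit 231) (nat_lit 213)) (XT.nd (nat_lit 78) (nat_lit 0) (nat_lit 0) (XT.lf (nat_lit 0) (nat_lit 30084161345) (nat_lit 76) (nat_lit 12710818380) (nat_lit 76) (nat_lit 7136229945) (nat_lit 7) (nat_lit 4) (nat_lit 8) (nat_lit 5) (nat_lit 8) (nat_lit 4) (nat_lit 337) (nat_lit 231) (nat_lit 212)) (XT.lf (nat_lit 0) (nat_lit 42499599258) (nat_lit 76) (nat_lit 7751104335) (nat_lit 76) (nat_lit 2002668322) (nat_lit 7) (nat_lit 4) (nat_lit 8) (nat_lit 5) (nat_lit 8) (nat_lit 4) (nat_lit 338) (nat_lit 231) (nat_lit 211)))) (XT.nd (nat_lit 156) (nat_lit 0) (nat_lit 0) (XT.nd (nat_lit 78) (nat_lit 0) (nat_lit 0) (XT.lf (nat_lit 0) (nat_lit 594300597)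 (nat_lit 76) (nat_lit 2611761339) (nat_lit 152) (nat_lit 51488087387) (nat_lit 5) (nat_lit 5) (nat_lit 6) (nat_lit 5) (nat_lit 7) (nat_lit 4) (nat_lit 339) (nat_lit 231) (nat_lit 210)) (XT.lf (nat_lit 0) (nat_lit 8643866772) (nat_lit 152) (nat_lit 45863200932) (nat_lit 0) (nat_lit 2749022100) (nat_lit 5) (nat_lit 5) (nat_lit 7) (nat_lit 4) (nat_lit 5) (nat_lit 4) (nat_lit 340) (nat_lit 231) (nat_lit 209))) (XT.nd (nat_lit 78) (nat_lit 0) (nat_lit 0) (XT.lf (nat_lit 0) (nat_lit 14267069565) (nat_lit 152) (nat_lit 37455249389) (nat_lit 0) (nat_lit 8226422880) (nat_lit 5) (nat_lit 5) (nat_lit 7) (nat_lit 4) (nat_lit 5) (nat_lit 4) (nat_lit 341) (nat_lit 231) (nat_lit 208)) (XT.lf (nat_lit 0) (nat_lit 20063953047) (nat_lit 152) (nat_lit 28830869315) (nat_lit 0) (nat_lit 13884447301) (nat_lit 5) (nat_lit 5) (nat_lit 7) (nat_lit 4) (nat_lit 5) (nat_lit 4) (nat_lit 342) (nat_lit 231) (nat_lit 207)))))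 (XT.nd (nat_lit 312) (nat_lit 0) (nat_lit 0) (XT.nd (nat_lit 156) (nat_lit 76) (nat_lit 0) (XT.nd (nat_lit 78) (nat_lit 0) (nat_lit 0) (XT.lf (nat_lit 0) (nat_lit 26048319321) (nat_lit 152) (nat_lit 19969526474) (nat_lit 0) (nat_lit 19736566851) (nat_lit 5) (nat_lit 5) (nat_lit 7) (nat_lit 4) (nat_lit 5) (nat_lit 4) (nat_lit 343) (nat_lit 231) (nat_lit 206)) (XT.lf (nat_lit 0) (nat_lit 32234416878) (nat_lit 152) (nat_lit 10850122429) (nat_lit 0) (nat_lit 25796715148) (nat_lit 5) (nat_lit 5) (nat_lit 7) (nat_lit 4) (nat_lit 5) (nat_lit 4) (nat_lit 344) (nat_lit 231) (nat_lit 205))) (XT.nd (nat_lit 78) (nat_lit 76) (nat_lit 0) (XT.lf (nat_lit 0) (nat_lit 38636974523) (nat_lit 152) (nat_lit 1450944315) (nat_lit 0) (nat_lit 32079321115) (nat_lit 5) (nat_lit 5) (nat_lit 7) (nat_lit 4) (nat_lit 5) (nat_lit 4) (nat_lit 345) (nat_lit 231) (nat_lit 204)) (XT.lf (nat_lit 0) (nat_lit 8414585741) (nat_lit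 76) (nat_lit 36937536844) (nat_lit 76) (nat_lit 30265643744) (nat_lit 4) (nat_lit 4) (nat_lit 5) (nat_lit 5) (nat_lit 5) (nat_lit 4) (nat_lit 346) (nat_lit 231) (nat_lit 203)))) (XT.nd (nat_lit 156) (nat_lit 0) (nat_lit 0) (XT.nd (nat_lit 78) (nat_lit 0) (nat_lit 0) (XT.lf (nat_lit 0) (nat_lit 18640717049) (nat_lit 76) (nat_lit 33691467415) (nat_lit 76) (nat_lit 26910774608) (nat_lit 4) (nat_lit 4) (nat_lit 5) (nat_lit 5) (nat_lit 5) (nat_lit 4) (nat_lit 347) (nat_lit 231) (nat_lit 202)) (XT.lf (nat_lit 0) (nat_lit 29222920904) (nat_lit 76) (nat_lit 30356633508) (nat_lit 76) (nat_lit 23472321932) (nat_lit 4) (nat_lit 4) (nat_lit 5) (nat_lit 5) (nat_lit 5) (nat_lit 4) (nat_lit 348) (nat_lit 231) (nat_lit 201))) (XT.nd (nat_lit 78) (nat_lit 0) (nat_lit 0) (XT.lf (nat_lit 0) (nat_lit 40186393030) (nat_lit 76) (nat_lit 26925095042) (nat_lit 76) (nat_lit 19942098924) (nat_lit 4) (nat_lit 4) (nat_lit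 5) (nat_lit 5) (nat_lit 5) (nat_lit 4) (nat_lit 349) (nat_lit 231) (nat_lit 200)) (XT.lf (nat_lit 0) (nat_lit 51557236931) (nat_lit 76) (nat_lit 23388681687) (nat_lit 76) (nat_lit 16311700292) (nat_lit 4) (nat_lit 4) (nat_lit 5) (nat_lit 5) (nat_lit 5) (nat_lit 4) (nat_lit 350) (nat_lit 231) (nat_lit 199))))))))
noncomputable def xc11 : XT := (XT.nd (nat_lit 38844) (nat_lit 0) (nat_lit 0) (XT.nd (nat_lit 1092) (nat_lit 0) (nat_lit 0) (XT.nd (nat_lit 546) (nat_lit 0) (nat_lit 0) (XT.nd (nat_lit 234) (nat_lit 152) (nat_lit 0) (XT.nd (nat_lit 78) (nat_lit 0) (nat_lit 0) (XT.lf (nat_lit 0) (nat_lit 63362526046) (nat_lit 76) (nat_lit 19738973411) (nat_lit 76) (nat_lit 12572482227) (nat_lit 4) (nat_lit 4) (nat_lit 5) (nat_lit 5) (nat_lit 5) (nat_lit 4) (nat_lit 351) (nat_lit 231) (nat_lit 198)) (XT.nd (nat_lit 78) (nat_lit 0) (nat_lit 0) (XT.lf (nat_lit 0) (nat_lit 75630368205) (nat_lit 76) (nat_lit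 15967280433) (nat_lit 76) (nat_lit 8715541832) (nat_lit 4) (nat_lit 4) (nat_lit 5) (nat_lit 5) (nat_lit 5) (nat_lit 4) (nat_lit 352) (nat_lit 231) (nat_lit 197)) (XT.lf (nat_lit 0) (nat_lit 88389972557) (nat_lit 76) (nat_lit 12064622532) (nat_lit 76) (nat_lit 4731695913) (nat_lit 4) (nat_lit 4) (nat_lit 5) (nat_lit 5) (nat_lit 5) (nat_lit 4) (nat_lit 353) (nat_lit 231) (nat_lit 196)))) (XT.nd (nat_lit 156) (nat_lit 76) (nat_lit 0) (XT.nd (nat_lit 78) (nat_lit 76) (nat_lit 0) (XT.lf (nat_lit 0) (nat_lit 101671719111) (nat_lit 76) (nat_lit 8021707664) (nat_lit 76) (nat_lit 611459125) (nat_lit 4) (nat_lit 4) (nat_lit 5) (nat_lit 5) (nat_lit 5) (nat_lit 4) (nat_lit 354) (nat_lit 231) (nat_lit 195)) (XT.lf (nat_lit 0) (nat_lit 3583656823) (nat_lit 152) (nat_lit 209065110) (nat_lit 76) (nat_lit 111887386344) (nat_lit 3) (nat_lit 5) (nat_lit 5) (nat_lit 5) (nat_lit 4) (nat_lit 4) (nat_lit 355) (nat_lit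 231) (nat_lit 194))) (XT.nd (nat_lit 78) (nat_lit 0) (nat_lit 0) (XT.lf (nat_lit 0) (nat_lit 8010347314) (nat_lit 152) (nat_lit 112636192487) (nat_lit 0) (nat_lit 676345639) (nat_lit 2) (nat_lit 5) (nat_lit 4) (nat_lit 4) (nat_lit 2) (nat_lit 4) (nat_lit 356) (nat_lit 231) (nat_lit 193)) (XT.lf (nat_lit 0) (nat_lit 12644172872) (nat_lit 152) (nat_lit 109358740300) (nat_lit 0) (nat_lit 5245323060) (nat_lit 2) (nat_lit 5) (nat_lit 4) (nat_lit 4) (nat_lit 2) (nat_lit 4) (nat_lit 357) (nat_lit 231) (nat_lit 192))))) (XT.nd (nat_lit 234) (nat_lit 0) (nat_lit 0) (XT.nd (nat_lit 78) (nat_lit 0) (nat_lit 0) (XT.lf (nat_lit 0) (nat_lit 17457638502) (nat_lit 152) (nat_lit 106016757407) (nat_lit 0) (nat_lit 9997028558) (nat_lit 2) (nat_lit 5) (nat_lit 4) (nat_lit 4) (nat_lit 2) (nat_lit 4) (nat_lit 358) (nat_lit 231) (nat_lit 191)) (XT.nd (nat_lit 78) (nat_lit 0) (nat_lit 0) (XT.lf (nat_lit 0) (nat_lit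 22462204836) (nat_lit 152) (nat_lit 102602286707) (nat_lit 0) (nat_lit 14942775719) (nat_lit 2) (nat_lit 5) (nat_lit 4) (nat_lit 4) (nat_lit 2) (nat_lit 4) (nat_lit 359) (nat_lit 231) (nat_lit 190)) (XT.lf (nat_lit 0) (nat_lit 27669787507) (nat_lit 152) (nat_lit 99107198508) (nat_lit 0) (nat_lit 20094340130) (nat_lit 2) (nat_lit 5) (nat_lit 4) (nat_lit 4) (nat_lit 2) (nat_lit 4) (nat_lit 360) (nat_lit 231) (nat_lit 189)))) (XT.nd (nat_lit 156) (nat_lit 0) (nat_lit 0) (XT.nd (nat_lit 78) (nat_lit 0) (nat_lit 0) (XT.lf (nat_lit 0) (nat_lit 33092785523) (nat_lit 152) (nat_lit 95523171171) (nat_lit 0) (nat_lit 25463987422) (nat_lit 2) (nat_lit 5) (nat_lit 4) (nat_lit 4) (nat_lit 2) (nat_lit 4) (nat_lit 361) (nat_lit 231) (nat_lit 188)) (XT.lf (nat_lit 0) (nat_lit 38744110783) (nat_lit 152) (nat_lit 91841671298) (nat_lit 0) (nat_lit 31064502469) (nat_lit 2) (nat_lit 5) (nat_lit 4) (nat_lit 4)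 (nat_lit 2) (nat_lit 4) (nat_lit 362) (nat_lit 231) (nat_lit 187))) (XT.nd (nat_lit 78) (nat_lit 0) (nat_lit 0) (XT.lf (nat_lit 0) (nat_lit 44637218824) (nat_lit 152) (nat_lit 88053933413) (nat_lit 0) (nat_lit 36909219831) (nat_lit 2) (nat_lit 5) (nat_lit 4) (nat_lit 4) (nat_lit 2) (nat_lit 4) (nat_lit 363) (nat_lit 231) (nat_lit 186)) (XT.lf (nat_lit 0) (nat_lit 50786140855) (nat_lit 152) (nat_lit 84150939093) (nat_lit 0) (nat_lit 43012055501) (nat_lit 2) (nat_lit 5) (nat_lit 4) (nat_lit 4) (nat_lit 2) (nat_lit 4) (nat_lit 364) (nat_lit 231) (nat_lit 185)))))) (XT.nd (nat_lit 37206) (nat_lit 0) (nat_lit 684) (XT.nd (nat_lit 36894) (nat_lit 0) (nat_lit 1064) (XT.nd (nat_lit 78) (nat_lit 0) (nat_lit 0) (XT.lf (nat_lit 0) (nat_lit 57205517166) (nat_lit 152) (nat_lit 80123395493) (nat_lit 0) (nat_lit 49387540040) (nat_lit 2) (nat_lit 5) (nat_lit 4) (nat_lit 4) (nat_lit 2) (nat_lit 4) (nat_lit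 365) (nat_lit 231) (nat_lit 184)) (XT.nd (nat_lit 36738) (nat_lit 0) (nat_lit 1368) (XT.lf (nat_lit 0) (nat_lit 63910631988) (nat_lit 152) (nat_lit 75961713225) (nat_lit 0) (nat_lit 56050853174) (nat_lit 2) (nat_lit 5) (nat_lit 4) (nat_lit 4) (nat_lit 2) (nat_lit 4) (nat_lit 366) (nat_lit 231) (nat_lit 183)) (XT.lf (nat_lit 0) (nat_lit 3552492323) (nat_lit 152) (nat_lit 3252303623) (nat_lit 0) (nat_lit 3552492323) (nat_lit 20) (nat_lit 5) (nat_lit 22) (nat_lit 4) (nat_lit 20) (nat_lit 4) (nat_lit 316) (nat_lit 232) (nat_lit 232)))) (XT.nd (nat_lit 156) (nat_lit 76) (nat_lit 0) (XT.nd (nat_lit 78) (nat_lit 152) (nat_lit 0) (XT.lf (nat_lit 0) (nat_lit 7921541704) (nat_lit 76) (nat_lit 7052022649) (nat_lit 76) (nat_lit 6532859901) (nat_lit 19) (nat_lit 4) (nat_lit 20) (nat_lit 5) (nat_lit 20) (nat_lit 4) (nat_lit 317) (nat_lit 232) (nat_lit 231)) (XT.lf (nat_lit 0) (nat_lit 393444328) (nat_lit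 76) (nat_lit 299682661) (nat_lit 152) (nat_lit 21650155457) (nat_lit 17) (nat_lit 5) (nat_lit 18) (nat_lit 5) (nat_lit 19) (nat_lit 4) (nat_lit 318) (nat_lit 232) (nat_lit 230))) (XT.nd (nat_lit 78) (nat_lit 76) (nat_lit 0) (XT.lf (nat_lit 0) (nat_lit 8100457579) (nat_lit 152) (nat_lit 8461796800) (nat_lit 0) (nat_lit 6659196046) (nat_lit 17) (nat_lit 5) (nat_lit 19) (nat_lit 4) (nat_lit 17) (nat_lit 4) (nat_lit 319) (nat_lit 232) (nat_lit 229)) (XT.lf (nat_lit 0) (nat_lit 5358387427) (nat_lit 76) (nat_lit 10333725580) (nat_lit 76) (nat_lit 8457054045) (nat_lit 16) (nat_lit 4) (nat_lit 17) (nat_lit 5) (nat_lit 17) (nat_lit 4) (nat_lit 320) (nat_lit 232) (nat_lit 228))))) (XT.nd (nat_lit 234) (nat_lit 228) (nat_lit 0) (XT.nd (nat_lit 78) (nat_lit 152) (nat_lit 0) (XT.lf (nat_lit 0) (nat_lit 19615333024) (nat_lit 76) (nat_lit 3901862537) (nat_lit 76) (nat_lit 1610514809) (nat_lit 16) (nat_lit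 4) (nat_lit 17) (nat_lit 5) (nat_lit 17) (nat_lit 4) (nat_lit 321) (nat_lit 232) (nat_lit 227)) (XT.nd (nat_lit 78) (nat_lit 0) (nat_lit 0) (XT.lf (nat_lit 0) (nat_lit 5350024774) (nat_lit 152) (nat_lit 18065195114) (nat_lit 0) (nat_lit 2741988430) (nat_lit 14) (nat_lit 5) (nat_lit 16) (nat_lit 4) (nat_lit 14) (nat_lit 4) (nat_lit 322) (nat_lit 232) (nat_lit 226)) (XT.lf (nat_lit 0) (nat_lit 12502902431) (nat_lit 152) (nat_lit 5208823662) (nat_lit 0) (nat_lit 9529697611) (nat_lit 14) (nat_lit 5) (nat_lit 16) (nat_lit 4) (nat_lit 14) (nat_lit 4) (nat_lit 323) (nat_lit 232) (nat_lit 225)))) (XT.nd (nat_lit 156) (nat_lit 152) (nat_lit 0) (XT.nd (nat_lit 78) (nat_lit 0) (nat_lit 0) (XT.lf (nat_lit 0) (nat_lit 8059094012) (nat_lit 76) (nat_lit 11822865612) (nat_lit 76) (nat_lit 8501881290) (nat_lit 13) (nat_lit 4) (nat_lit 14) (nat_lit 5) (nat_lit 14) (nat_lit 4) (nat_lit 324) (nat_lit 232) (nat_lit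 224)) (XT.lf (nat_lit 0) (nat_lit 21721859624) (nat_lit 76) (nat_lit 5759118442) (nat_lit 76) (nat_lit 2106915548) (nat_lit 13) (nat_lit 4) (nat_lit 14) (nat_lit 5) (nat_lit 14) (nat_lit 4) (nat_lit 325) (nat_lit 232) (nat_lit 223))) (XT.nd (nat_lit 78) (nat_lit 0) (nat_lit 0) (XT.lf (nat_lit 0) (nat_lit 4375233527) (nat_lit 152) (nat_lit 25956760667) (nat_lit 0) (nat_lit 523146969) (nat_lit 11) (nat_lit 5) (nat_lit 13) (nat_lit 4) (nat_lit 11) (nat_lit 4) (nat_lit 326) (nat_lit 232) (nat_lit 222)) (XT.lf (nat_lit 0) (nat_lit 11087622117) (nat_lit 152) (nat_lit 14155190696) (nat_lit 0) (nat_lit 6943860794) (nat_lit 11) (nat_lit 5) (nat_lit 13) (nat_lit 4) (nat_lit 11) (nat_lit 4) (nat_lit 327) (nat_lit 232) (nat_lit 221))))))) (XT.nd (nat_lit 1092) (nat_lit 228) (nat_lit 0) (XT.nd (nat_lit 546) (nat_lit 228) (nat_lit 0) (XT.nd (nat_lit 234) (nat_lit 152) (nat_lit 0) (XT.nd (nat_lit 78) (nat_lit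 76) (nat_lit 0) (XT.lf (nat_lit 0) (nat_lit 17954103917) (nat_lit 152) (nat_lit 2103605080) (nat_lit 0) (nat_lit 13532557102) (nat_lit 11) (nat_lit 5) (nat_lit 13) (nat_lit 4) (nat_lit 11) (nat_lit 4) (nat_lit 328) (nat_lit 232) (nat_lit 220)) (XT.nd (nat_lit 78) (nat_lit 0) (nat_lit 0) (XT.lf (nat_lit 0) (nat_lit 10430221622) (nat_lit 76) (nat_lit 14661067740) (nat_lit 76) (nat_lit 9974963315) (nat_lit 10) (nat_lit 4) (nat_lit 11) (nat_lit 5) (nat_lit 11) (nat_lit 4) (nat_lit 329) (nat_lit 232) (nat_lit 219)) (XT.lf (nat_lit 0) (nat_lit 23320113087) (nat_lit 76) (nat_lit 9119202130) (nat_lit 76) (nat_lit 4181138075) (nat_lit 10) (nat_lit 4) (nat_lit 11) (nat_lit 5) (nat_lit 11) (nat_lit 4) (nat_lit 330) (nat_lit 232) (nat_lit 218)))) (XT.nd (nat_lit 156) (nat_lit 0) (nat_lit 0) (XT.nd (nat_lit 78) (nat_lit 76) (nat_lit 0) (XT.lf (nat_lit 0) (nat_lit 1703954045) (nat_lit 152) (nat_lit 1718998895)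 (nat_lit 76) (nat_lit 34833733023) (nat_lit 9) (nat_lit 5) (nat_lit 11) (nat_lit 5) (nat_lit 10) (nat_lit 4) (nat_lit 331) (nat_lit 232) (nat_lit 217)) (XT.lf (nat_lit 0) (nat_lit 7767830050) (nat_lit 152) (nat_lit 29687816047) (nat_lit 0) (nat_lit 2518742265) (nat_lit 8) (nat_lit 5) (nat_lit 10) (nat_lit 4) (nat_lit 8) (nat_lit 4) (nat_lit 332) (nat_lit 232) (nat_lit 216))) (XT.nd (nat_lit 78) (nat_lit 0) (nat_lit 0) (XT.lf (nat_lit 0) (nat_lit 14037059708) (nat_lit 152) (nat_lit 19167220904) (nat_lit 0) (nat_lit 8576659106) (nat_lit 8) (nat_lit 5) (nat_lit 10) (nat_lit 4) (nat_lit 8) (nat_lit 4) (nat_lit 333) (nat_lit 232) (nat_lit 215)) (XT.lf (nat_lit 0) (nat_lit 20476646448) (nat_lit 152) (nat_lit 8390497052) (nat_lit 0) (nat_lit 14814995544) (nat_lit 8) (nat_lit 5) (nat_lit 10) (nat_lit 4) (nat_lit 8) (nat_lit 4) (nat_lit 334) (nat_lit 232) (nat_lit 214))))) (XT.nd (nat_lit 234) (nat_lit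 152) (nat_lit 0) (XT.nd (nat_lit 78) (nat_lit 0) (nat_lit 0) (XT.lf (nat_lit 0) (nat_lit 2721113092) (nat_lit 76) (nat_lit 24406966530) (nat_lit 76) (nat_lit 18553648672) (nat_lit 7) (nat_lit 4) (nat_lit 8) (nat_lit 5) (nat_lit 8) (nat_lit 4) (nat_lit 335) (nat_lit 232) (nat_lit 213)) (XT.nd (nat_lit 78) (nat_lit 0) (nat_lit 0) (XT.lf (nat_lit 0) (nat_lit 14313960085) (nat_lit 76) (nat_lit 19752297144) (nat_lit 76) (nat_lit 13716439330) (nat_lit 7) (nat_lit 4) (nat_lit 8) (nat_lit 5) (nat_lit 8) (nat_lit 4) (nat_lit 336) (nat_lit 232) (nat_lit 212)) (XT.lf (nat_lit 0) (nat_lit 26248658599) (nat_lit 76) (nat_lit 14976780364) (nat_lit 76) (nat_lit 8767074972) (nat_lit 7) (nat_lit 4) (nat_lit 8) (nat_lit 5) (nat_lit 8) (nat_lit 4) (nat_lit 337) (nat_lit 232) (nat_lit 211)))) (XT.nd (nat_lit 156) (nat_lit 76) (nat_lit 0) (XT.nd (nat_lit 78) (nat_lit 76) (nat_lit 0) (XT.lf (nat_lit 0) (nat_lit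 38553624582) (nat_lit 76) (nat_lit 10069045912) (nat_lit 76) (nat_lit 3693771399) (nat_lit 7) (nat_lit 4) (nat_lit 8) (nat_lit 5) (nat_lit 8) (nat_lit 4) (nat_lit 338) (nat_lit 232) (nat_lit 210)) (XT.lf (nat_lit 0) (nat_lit 1485976830) (nat_lit 152) (nat_lit 3516426424) (nat_lit 76) (nat_lit 49757173290) (nat_lit 6) (nat_lit 5) (nat_lit 8) (nat_lit 5) (nat_lit 7) (nat_lit 4) (nat_lit 339) (nat_lit 232) (nat_lit 209))) (XT.nd (nat_lit 78) (nat_lit 0) (nat_lit 0) (XT.lf (nat_lit 0) (nat_lit 6810934799) (nat_lit 152) (nat_lit 50191523504) (nat_lit 0) (nat_lit 322453766) (nat_lit 5) (nat_lit 5) (nat_lit 7) (nat_lit 4) (nat_lit 5) (nat_lit 4) (nat_lit 340) (nat_lit 232) (nat_lit 208)) (XT.lf (nat_lit 0) (nat_lit 12381708591) (nat_lit 152) (nat_lit 41883069057) (nat_lit 0) (nat_lit 5754368498) (nat_lit 5) (nat_lit 5) (nat_lit 7) (nat_lit 4) (nat_lit 5) (nat_lit 4) (nat_lit 341) (nat_lit 232) (nat_lit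 207)))))) (XT.nd (nat_lit 546) (nat_lit 152) (nat_lit 0) (XT.nd (nat_lit 234) (nat_lit 76) (nat_lit 0) (XT.nd (nat_lit 78) (nat_lit 0) (nat_lit 0) (XT.lf (nat_lit 0) (nat_lit 18128659692) (nat_lit 152) (nat_lit 33353448123) (nat_lit 0) (nat_lit 11369072875) (nat_lit 5) (nat_lit 5) (nat_lit 7) (nat_lit 4) (nat_lit 5) (nat_lit 4) (nat_lit 342) (nat_lit 232) (nat_lit 206)) (XT.nd (nat_lit 78) (nat_lit 0) (nat_lit 0) (XT.lf (nat_lit 0) (nat_lit 24065471317) (nat_lit 152) (nat_lit 24582352081) (nat_lit 0) (nat_lit 17179935239) (nat_lit 5) (nat_lit 5) (nat_lit 7) (nat_lit 4) (nat_lit 5) (nat_lit 4) (nat_lit 343) (nat_lit 232) (nat_lit 205)) (XT.lf (nat_lit 0) (nat_lit 30206278733) (nat_lit 152) (nat_lit 15548897369) (nat_lit 0) (nat_lit 23200790977) (nat_lit 5) (nat_lit 5) (nat_lit 7) (nat_lit 4) (nat_lit 5) (nat_lit 4) (nat_lit 344) (nat_lit 232) (nat_lit 204)))) (XT.nd (nat_lit 156) (nat_lit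 0) (nat_lit 0) (XT.nd (nat_lit 78) (nat_lit 76) (nat_lit 0) (XT.lf (nat_lit 0) (nat_lit 36565702909) (nat_lit 152) (nat_lit 6231575761) (nat_lit 0) (nat_lit 29445975461) (nat_lit 5) (nat_lit 5) (nat_lit 7) (nat_lit 4) (nat_lit 5) (nat_lit 4) (nat_lit 345) (nat_lit 232) (nat_lit 203)) (XT.lf (nat_lit 0) (nat_lit 3459300247) (nat_lit 76) (nat_lit 39732837994) (nat_lit 76) (nat_lit 32504310839) (nat_lit 4) (nat_lit 4) (nat_lit 5) (nat_lit 5) (nat_lit 5) (nat_lit 4) (nat_lit 346) (nat_lit 232) (nat_lit 202))) (XT.nd (nat_lit 78) (nat_lit 0) (nat_lit 0) (XT.lf (nat_lit 0) (nat_lit 13609707644) (nat_lit 76) (nat_lit 36522641245) (nat_lit 76) (nat_lit 29190495321) (nat_lit 4) (nat_lit 4) (nat_lit 5) (nat_lit 5) (nat_lit 5) (nat_lit 4) (nat_lit 347) (nat_lit 232) (nat_lit 201)) (XT.lf (nat_lit 0) (nat_lit 24119793489) (nat_lit 76) (nat_lit 33221971794) (nat_lit 76) (nat_lit 25791141329) (nat_lit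 4) (nat_lit 4) (nat_lit 5) (nat_lit 5) (nat_lit 5) (nat_lit 4) (nat_lit 348) (nat_lit 232) (nat_lit 200))))) (XT.nd (nat_lit 312) (nat_lit 152) (nat_lit 0) (XT.nd (nat_lit 156) (nat_lit 0) (nat_lit 0) (XT.nd (nat_lit 78) (nat_lit 0) (nat_lit 0) (XT.lf (nat_lit 0) (nat_lit 35014581794) (nat_lit 76) (nat_lit 29822970906) (nat_lit 76) (nat_lit 22298155163) (nat_lit 4) (nat_lit 4) (nat_lit 5) (nat_lit 5) (nat_lit 5) (nat_lit 4) (nat_lit 349) (nat_lit 232) (nat_lit 199)) (XT.lf (nat_lit 0) (nat_lit 46320012534) (nat_lit 76) (nat_lit 26317545720) (nat_lit 76) (nat_lit 18703220189) (nat_lit 4) (nat_lit 4) (nat_lit 5) (nat_lit 5) (nat_lit 5) (nat_lit 4) (nat_lit 350) (nat_lit 232) (nat_lit 198))) (XT.nd (nat_lit 78) (nat_lit 0) (nat_lit 0) (XT.lf (nat_lit 0) (nat_lit 58063003399) (nat_lit 76) (nat_lit 22697349987) (nat_lit 76) (nat_lit 14997777037) (nat_lit 4) (nat_lit 4) (nat_lit 5) (nat_lit 5)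 (nat_lit 5) (nat_lit 4) (nat_lit 351) (nat_lit 232) (nat_lit 197)) (XT.lf (nat_lit 0) (nat_lit 70271513892) (nat_lit 76) (nat_lit 18953764192) (nat_lit 76) (nat_lit 11173003226) (nat_lit 4) (nat_lit 4) (nat_lit 5) (nat_lit 5) (nat_lit 5) (nat_lit 4) (nat_lit 352) (nat_lit 232) (nat_lit 196)))) (XT.nd (nat_lit 156) (nat_lit 152) (nat_lit 0) (XT.nd (nat_lit 78) (nat_lit 0) (nat_lit 0) (XT.lf (nat_lit 0) (nat_lit 82974611895) (nat_lit 76) (nat_lit 15077875036) (nat_lit 76) (nat_lit 7219792149) (nat_lit 4) (nat_lit 4) (nat_lit 5) (nat_lit 5) (nat_lit 5) (nat_lit 4) (nat_lit 353) (nat_lit 232) (nat_lit 195)) (XT.lf (nat_lit 0) (nat_lit 96202542880) (nat_lit 76) (nat_lit 11060454211) (nat_lit 76) (nat_lit 3128731400) (nat_lit 4) (nat_lit 4) (nat_lit 5) (nat_lit 5) (nat_lit 5) (nat_lit 4) (nat_lit 354) (nat_lit 232) (nat_lit 194))) (XT.nd (nat_lit 78) (nat_lit 76) (nat_lit 0) (XT.lf (nat_lit 0)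 (nat_lit 1088261111) (nat_lit 152) (nat_lit 5792686016) (nat_lit 76) (nat_lit 108887551505) (nat_lit 3) (nat_lit 5) (nat_lit 5) (nat_lit 5) (nat_lit 4) (nat_lit 4) (nat_lit 355) (nat_lit 232) (nat_lit 193)) (XT.lf (nat_lit 0) (nat_lit 2948461991) (nat_lit 76) (nat_lit 2478686602) (nat_lit 152) (nat_lit 115986765577) (nat_lit 2) (nat_lit 5) (nat_lit 3) (nat_lit 5) (nat_lit 4) (nat_lit 4) (nat_lit 356) (nat_lit 232) (nat_lit 192))))))))
noncomputable def xc12 : XT := (XT.nd (nat_lit 38688) (nat_lit 0) (nat_lit 0) (XT.nd (nat_lit 37596) (nat_lit 0) (nat_lit 532) (XT.nd (nat_lit 546) (nat_lit 0) (nat_lit 0) (XT.nd (nat_lit 234) (nat_lit 0) (nat_lit 0) (XT.nd (nat_lit 78) (nat_lit 0) (nat_lit 0) (XT.lf (nat_lit 0) (nat_lit 10011756668) (nat_lit 152) (nat_lit 115212632805) (nat_lit 0) (nat_lit 2116356095) (nat_lit 2) (nat_lit 5) (nat_lit 4) (nat_lit 4) (nat_lit 2) (nat_lit 4) (nat_lit 357) (nat_lit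 232) (nat_lit 191)) (XT.nd (nat_lit 78) (nat_lit 0) (nat_lit 0) (XT.lf (nat_lit 0) (nat_lit 14801040552) (nat_lit 152) (nat_lit 111916801784) (nat_lit 0) (nat_lit 6846820807) (nat_lit 2) (nat_lit 5) (nat_lit 4) (nat_lit 4) (nat_lit 2) (nat_lit 4) (nat_lit 358) (nat_lit 232) (nat_lit 190)) (XT.lf (nat_lit 0) (nat_lit 19782576653) (nat_lit 152) (nat_lit 108546285248) (nat_lit 0) (nat_lit 11772338647) (nat_lit 2) (nat_lit 5) (nat_lit 4) (nat_lit 4) (nat_lit 2) (nat_lit 4) (nat_lit 359) (nat_lit 232) (nat_lit 189)))) (XT.nd (nat_lit 156) (nat_lit 0) (nat_lit 0) (XT.nd (nat_lit 78) (nat_lit 0) (nat_lit 0) (XT.lf (nat_lit 0) (nat_lit 24968225768) (nat_lit 152) (nat_lit 105093058158) (nat_lit 0) (nat_lit 16904637039) (nat_lit 2) (nat_lit 5) (nat_lit 4) (nat_lit 4) (nat_lit 2) (nat_lit 4) (nat_lit 360) (nat_lit 232) (nat_lit 188)) (XT.lf (nat_lit 0) (nat_lit 30370334683) (nat_lit 152) (nat_lit 101548898543)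 (nat_lit 0) (nat_lit 22255935741) (nat_lit 2) (nat_lit 5) (nat_lit 4) (nat_lit 4) (nat_lit 2) (nat_lit 4) (nat_lit 361) (nat_lit 232) (nat_lit 187))) (XT.nd (nat_lit 78) (nat_lit 0) (nat_lit 0) (XT.lf (nat_lit 0) (nat_lit 36001765562) (nat_lit 152) (nat_lit 97905367930) (nat_lit 0) (nat_lit 27838975941) (nat_lit 2) (nat_lit 5) (nat_lit 4) (nat_lit 4) (nat_lit 2) (nat_lit 4) (nat_lit 362) (nat_lit 232) (nat_lit 186)) (XT.lf (nat_lit 0) (nat_lit 41875926572) (nat_lit 152) (nat_lit 94153791244) (nat_lit 0) (nat_lit 33667050590) (nat_lit 2) (nat_lit 5) (nat_lit 4) (nat_lit 4) (nat_lit 2) (nat_lit 4) (nat_lit 363) (nat_lit 232) (nat_lit 185))))) (XT.nd (nat_lit 36738) (nat_lit 0) (nat_lit 1292) (XT.nd (nat_lit 78) (nat_lit 0) (nat_lit 0) (XT.lf (nat_lit 0) (nat_lit 48006803813) (nat_lit 152) (nat_lit 90285236161) (nat_lit 0) (nat_lit 39754036058) (nat_lit 2) (nat_lit 5) (nat_lit 4) (nat_lit 4)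 (nat_lit 2) (nat_lit 4) (nat_lit 364) (nat_lit 232) (nat_lit 184)) (XT.nd (nat_lit 78) (nat_lit 0) (nat_lit 0) (XT.lf (nat_lit 0) (nat_lit 54408994610) (nat_lit 152) (nat_lit 86290491835) (nat_lit 0) (nat_lit 46114425167) (nat_lit 2) (nat_lit 5) (nat_lit 4) (nat_lit 4) (nat_lit 2) (nat_lit 4) (nat_lit 365) (nat_lit 232) (nat_lit 183)) (XT.lf (nat_lit 0) (nat_lit 61097742274) (nat_lit 152) (nat_lit 82160046971) (nat_lit 0) (nat_lit 52763361700) (nat_lit 2) (nat_lit 5) (nat_lit 4) (nat_lit 4) (nat_lit 2) (nat_lit 4) (nat_lit 366) (nat_lit 232) (nat_lit 182)))) (XT.nd (nat_lit 156) (nat_lit 228) (nat_lit 0) (XT.nd (nat_lit 78) (nat_lit 0) (nat_lit 0) (XT.lf (nat_lit 0) (nat_lit 2238427149) (nat_lit 152) (nat_lit 3692801931) (nat_lit 152) (nat_lit 3692801931) (nat_lit 22) (nat_lit 4) (nat_lit 24) (nat_lit 5) (nat_lit 24) (nat_lit 4) (nat_lit 314) (nat_lit 233) (nat_lit 233)) (XT.lf (nat_lit 0)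 (nat_lit 19380948658) (nat_lit 152) (nat_lit 573025880) (nat_lit 152) (nat_lit 11551367) (nat_lit 22) (nat_lit 4) (nat_lit 24) (nat_lit 5) (nat_lit 24) (nat_lit 4) (nat_lit 315) (nat_lit 233) (nat_lit 232))) (XT.nd (nat_lit 78) (nat_lit 76) (nat_lit 0) (XT.lf (nat_lit 0) (nat_lit 7521358683) (nat_lit 152) (nat_lit 6740039529) (nat_lit 0) (nat_lit 6457075048) (nat_lit 20) (nat_lit 5) (nat_lit 22) (nat_lit 4) (nat_lit 20) (nat_lit 4) (nat_lit 316) (nat_lit 233) (nat_lit 231)) (XT.lf (nat_lit 0) (nat_lit 7452740194) (nat_lit 76) (nat_lit 7810075742) (nat_lit 76) (nat_lit 6251351394) (nat_lit 19) (nat_lit 4) (nat_lit 20) (nat_lit 5) (nat_lit 20) (nat_lit 4) (nat_lit 317) (nat_lit 233) (nat_lit 230)))))) (XT.nd (nat_lit 546) (nat_lit 304) (nat_lit 0) (XT.nd (nat_lit 234) (nat_lit 228) (nat_lit 0) (XT.nd (nat_lit 78) (nat_lit 152) (nat_lit 0) (XT.lf (nat_lit 0) (nat_lit 845282012) (nat_lit 152)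 (nat_lit 313697780) (nat_lit 76) (nat_lit 21195710576) (nat_lit 18) (nat_lit 5) (nat_lit 20) (nat_lit 5) (nat_lit 19) (nat_lit 4) (nat_lit 318) (nat_lit 233) (nat_lit 229)) (XT.nd (nat_lit 78) (nat_lit 76) (nat_lit 0) (XT.lf (nat_lit 0) (nat_lit 8123893150) (nat_lit 152) (nat_lit 9394877524) (nat_lit 0) (nat_lit 5717978036) (nat_lit 17) (nat_lit 5) (nat_lit 19) (nat_lit 4) (nat_lit 17) (nat_lit 4) (nat_lit 319) (nat_lit 233) (nat_lit 228)) (XT.lf (nat_lit 0) (nat_lit 4196456319) (nat_lit 76) (nat_lit 11396157883) (nat_lit 76) (nat_lit 8575566577) (nat_lit 16) (nat_lit 4) (nat_lit 17) (nat_lit 5) (nat_lit 17) (nat_lit 4) (nat_lit 320) (nat_lit 233) (nat_lit 227)))) (XT.nd (nat_lit 156) (nat_lit 76) (nat_lit 0) (XT.nd (nat_lit 78) (nat_lit 152) (nat_lit 0) (XT.lf (nat_lit 0) (nat_lit 18253135012) (nat_lit 76) (nat_lit 5056193622) (nat_lit 76) (nat_lit 1840672609) (nat_lit 16) (nat_lit 4) (nat_lit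 17) (nat_lit 5) (nat_lit 17) (nat_lit 4) (nat_lit 321) (nat_lit 233) (nat_lit 226)) (XT.lf (nat_lit 0) (nat_lit 4992539625) (nat_lit 152) (nat_lit 19685498546) (nat_lit 0) (nat_lit 1505506087) (nat_lit 14) (nat_lit 5) (nat_lit 16) (nat_lit 4) (nat_lit 14) (nat_lit 4) (nat_lit 322) (nat_lit 233) (nat_lit 225))) (XT.nd (nat_lit 78) (nat_lit 76) (nat_lit 0) (XT.lf (nat_lit 0) (nat_lit 12043498604) (nat_lit 152) (nat_lit 7018656022) (nat_lit 0) (nat_lit 8208685565) (nat_lit 14) (nat_lit 5) (nat_lit 16) (nat_lit 4) (nat_lit 14) (nat_lit 4) (nat_lit 323) (nat_lit 233) (nat_lit 224)) (XT.lf (nat_lit 0) (nat_lit 6029146322) (nat_lit 76) (nat_lit 13276830969) (nat_lit 76) (nat_lit 9110799358) (nat_lit 13) (nat_lit 4) (nat_lit 14) (nat_lit 5) (nat_lit 14) (nat_lit 4) (nat_lit 324) (nat_lit 233) (nat_lit 223))))) (XT.nd (nat_lit 234) (nat_lit 152) (nat_lit 0) (XT.nd (nat_lit 78) (nat_lit 152) (nat_lit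 0) (XT.lf (nat_lit 0) (nat_lit 19516582297) (nat_lit 76) (nat_lit 7294284816) (nat_lit 76) (nat_lit 2812806945) (nat_lit 13) (nat_lit 4) (nat_lit 14) (nat_lit 5) (nat_lit 14) (nat_lit 4) (nat_lit 325) (nat_lit 233) (nat_lit 222)) (XT.nd (nat_lit 78) (nat_lit 0) (nat_lit 0) (XT.lf (nat_lit 0) (nat_lit 2452762977) (nat_lit 76) (nat_lit 1111111829) (nat_lit 152) (nat_lit 27330846898) (nat_lit 11) (nat_lit 5) (nat_lit 12) (nat_lit 5) (nat_lit 13) (nat_lit 4) (nat_lit 326) (nat_lit 233) (nat_lit 221)) (XT.lf (nat_lit 0) (nat_lit 10177033334) (nat_lit 152) (nat_lit 16795592389) (nat_lit 0) (nat_lit 5256623687) (nat_lit 11) (nat_lit 5) (nat_lit 13) (nat_lit 4) (nat_lit 11) (nat_lit 4) (nat_lit 327) (nat_lit 233) (nat_lit 220)))) (XT.nd (nat_lit 156) (nat_lit 76) (nat_lit 0) (XT.nd (nat_lit 78) (nat_lit 76) (nat_lit 0) (XT.lf (nat_lit 0) (nat_lit 16959182396) (nat_lit 152) (nat_lit 4901991839) (nat_lit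 0) (nat_lit 11774215138) (nat_lit 11) (nat_lit 5) (nat_lit 13) (nat_lit 4) (nat_lit 11) (nat_lit 4) (nat_lit 328) (nat_lit 233) (nat_lit 219)) (XT.lf (nat_lit 0) (nat_lit 7422685025) (nat_lit 76) (nat_lit 16564455641) (nat_lit 76) (nat_lit 11127528754) (nat_lit 10) (nat_lit 4) (nat_lit 11) (nat_lit 5) (nat_lit 11) (nat_lit 4) (nat_lit 329) (nat_lit 233) (nat_lit 218))) (XT.nd (nat_lit 78) (nat_lit 76) (nat_lit 0) (XT.lf (nat_lit 0) (nat_lit 20166427484) (nat_lit 76) (nat_lit 11090841883) (nat_lit 76) (nat_lit 5413953443) (nat_lit 10) (nat_lit 4) (nat_lit 11) (nat_lit 5) (nat_lit 11) (nat_lit 4) (nat_lit 330) (nat_lit 233) (nat_lit 217)) (XT.lf (nat_lit 0) (nat_lit 420258236) (nat_lit 152) (nat_lit 5052299030) (nat_lit 76) (nat_lit 32837516511) (nat_lit 9) (nat_lit 5) (nat_lit 11) (nat_lit 5) (nat_lit 10) (nat_lit 4) (nat_lit 331) (nat_lit 233) (nat_lit 216))))))) (XT.nd (nat_lit 1092) (nat_lit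 228) (nat_lit 0) (XT.nd (nat_lit 546) (nat_lit 152) (nat_lit 0) (XT.nd (nat_lit 234) (nat_lit 76) (nat_lit 0) (XT.nd (nat_lit 78) (nat_lit 0) (nat_lit 0) (XT.lf (nat_lit 0) (nat_lit 6358131843) (nat_lit 152) (nat_lit 33260039979) (nat_lit 0) (nat_lit 413398394) (nat_lit 8) (nat_lit 5) (nat_lit 10) (nat_lit 4) (nat_lit 8) (nat_lit 4) (nat_lit 332) (nat_lit 233) (nat_lit 215)) (XT.nd (nat_lit 78) (nat_lit 0) (nat_lit 0) (XT.lf (nat_lit 0) (nat_lit 12557554476) (nat_lit 152) (nat_lit 22871103883) (nat_lit 0) (nat_lit 6411570725) (nat_lit 8) (nat_lit 5) (nat_lit 10) (nat_lit 4) (nat_lit 8) (nat_lit 4) (nat_lit 333) (nat_lit 233) (nat_lit 214)) (XT.lf (nat_lit 0) (nat_lit 18930658335) (nat_lit 152) (nat_lit 12219769601) (nat_lit 0) (nat_lit 12593007630) (nat_lit 8) (nat_lit 5) (nat_lit 10) (nat_lit 4) (nat_lit 8) (nat_lit 4) (nat_lit 334) (nat_lit 233) (nat_lit 213)))) (XT.nd (nat_lit 156) (nat_lit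 0) (nat_lit 0) (XT.nd (nat_lit 78) (nat_lit 76) (nat_lit 0) (XT.lf (nat_lit 0) (nat_lit 25492617477) (nat_lit 152) (nat_lit 1280676810) (nat_lit 0) (nat_lit 18972426816) (nat_lit 8) (nat_lit 5) (nat_lit 10) (nat_lit 4) (nat_lit 8) (nat_lit 4) (nat_lit 335) (nat_lit 233) (nat_lit 212)) (XT.lf (nat_lit 0) (nat_lit 10170686675) (nat_lit 76) (nat_lit 22186135799) (nat_lit 76) (nat_lit 15492097561) (nat_lit 7) (nat_lit 4) (nat_lit 8) (nat_lit 5) (nat_lit 8) (nat_lit 4) (nat_lit 336) (nat_lit 233) (nat_lit 211))) (XT.nd (nat_lit 78) (nat_lit 0) (nat_lit 0) (XT.lf (nat_lit 0) (nat_lit 21994913259) (nat_lit 76) (nat_lit 17462598613) (nat_lit 76) (nat_lit 10602991254) (nat_lit 7) (nat_lit 4) (nat_lit 8) (nat_lit 5) (nat_lit 8) (nat_lit 4) (nat_lit 337) (nat_lit 233) (nat_lit 210)) (XT.lf (nat_lit 0) (nat_lit 34194667881) (nat_lit 76) (nat_lit 12604368537) (nat_lit 76) (nat_lit 5587076300) (nat_lit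 7) (nat_lit 4) (nat_lit 8) (nat_lit 5) (nat_lit 8) (nat_lit 4) (nat_lit 338) (nat_lit 233) (nat_lit 209))))) (XT.nd (nat_lit 234) (nat_lit 0) (nat_lit 0) (XT.nd (nat_lit 78) (nat_lit 152) (nat_lit 0) (XT.lf (nat_lit 0) (nat_lit 46798997575) (nat_lit 76) (nat_lit 7599878355) (nat_lit 76) (nat_lit 432410044) (nat_lit 7) (nat_lit 4) (nat_lit 8) (nat_lit 5) (nat_lit 8) (nat_lit 4) (nat_lit 339) (nat_lit 233) (nat_lit 208)) (XT.nd (nat_lit 78) (nat_lit 0) (nat_lit 0) (XT.lf (nat_lit 0) (nat_lit 2436773178) (nat_lit 76) (nat_lit 2364835846) (nat_lit 152) (nat_lit 52598127654) (nat_lit 5) (nat_lit 5) (nat_lit 6) (nat_lit 5) (nat_lit 7) (nat_lit 4) (nat_lit 340) (nat_lit 233) (nat_lit 207)) (XT.lf (nat_lit 0) (nat_lit 10299718187) (nat_lit 152) (nat_lit 46726535944) (nat_lit 0) (nat_lit 3069905305) (nat_lit 5) (nat_lit 5) (nat_lit 7) (nat_lit 4) (nat_lit 5) (nat_lit 4) (nat_lit 341) (nat_lit 233)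 (nat_lit 206)))) (XT.nd (nat_lit 156) (nat_lit 0) (nat_lit 0) (XT.nd (nat_lit 78) (nat_lit 0) (nat_lit 0) (XT.lf (nat_lit 0) (nat_lit 15999114639) (nat_lit 152) (nat_lit 38287161809) (nat_lit 0) (nat_lit 8643352496) (nat_lit 5) (nat_lit 5) (nat_lit 7) (nat_lit 4) (nat_lit 5) (nat_lit 4) (nat_lit 342) (nat_lit 233) (nat_lit 205)) (XT.lf (nat_lit 0) (nat_lit 21890636122) (nat_lit 152) (nat_lit 29602015100) (nat_lit 0) (nat_lit 14414922302) (nat_lit 5) (nat_lit 5) (nat_lit 7) (nat_lit 4) (nat_lit 5) (nat_lit 4) (nat_lit 343) (nat_lit 233) (nat_lit 204))) (XT.nd (nat_lit 78) (nat_lit 0) (nat_lit 0) (XT.lf (nat_lit 0) (nat_lit 27988310069) (nat_lit 152) (nat_lit 20650416895) (nat_lit 0) (nat_lit 20398356557) (nat_lit 5) (nat_lit 5) (nat_lit 7) (nat_lit 4) (nat_lit 5) (nat_lit 4) (nat_lit 344) (nat_lit 233) (nat_lit 203)) (XT.lf (nat_lit 0) (nat_lit 34306654752) (nat_lit 152) (nat_lit 11411053866)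 (nat_lit 0) (nat_lit 26607901532) (nat_lit 5) (nat_lit 5) (nat_lit 7) (nat_lit 4) (nat_lit 5) (nat_lit 4) (nat_lit 345) (nat_lit 233) (nat_lit 202)))))) (XT.nd (nat_lit 546) (nat_lit 152) (nat_lit 0) (XT.nd (nat_lit 234) (nat_lit 0) (nat_lit 0) (XT.nd (nat_lit 78) (nat_lit 76) (nat_lit 0) (XT.lf (nat_lit 0) (nat_lit 40860713847) (nat_lit 152) (nat_lit 1861927530) (nat_lit 0) (nat_lit 33058341858) (nat_lit 5) (nat_lit 5) (nat_lit 7) (nat_lit 4) (nat_lit 5) (nat_lit 4) (nat_lit 346) (nat_lit 233) (nat_lit 201)) (XT.nd (nat_lit 78) (nat_lit 0) (nat_lit 0) (XT.lf (nat_lit 0) (nat_lit 8179305847) (nat_lit 76) (nat_lit 39565410902) (nat_lit 76) (nat_lit 31664354371) (nat_lit 4) (nat_lit 4) (nat_lit 5) (nat_lit 5) (nat_lit 5) (nat_lit 4) (nat_lit 347) (nat_lit 233) (nat_lit 200)) (XT.lf (nat_lit 0) (nat_lit 18620707871) (nat_lit 76) (nat_lit 36297279029) (nat_lit 76) (nat_lit 28302237221) (nat_lit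 4) (nat_lit 4) (nat_lit 5) (nat_lit 5) (nat_lit 5) (nat_lit 4) (nat_lit 348) (nat_lit 233) (nat_lit 199)))) (XT.nd (nat_lit 156) (nat_lit 0) (nat_lit 0) (XT.nd (nat_lit 78) (nat_lit 0) (nat_lit 0) (XT.lf (nat_lit 0) (nat_lit 29450083015) (nat_lit 76) (nat_lit 32929266310) (nat_lit 76) (nat_lit 24844714713) (nat_lit 4) (nat_lit 4) (nat_lit 5) (nat_lit 5) (nat_lit 5) (nat_lit 4) (nat_lit 349) (nat_lit 233) (nat_lit 198)) (XT.lf (nat_lit 0) (nat_lit 40693215505) (nat_lit 76) (nat_lit 29453353666) (nat_lit 76) (nat_lit 21283554652) (nat_lit 4) (nat_lit 4) (nat_lit 5) (nat_lit 5) (nat_lit 5) (nat_lit 4) (nat_lit 350) (nat_lit 233) (nat_lit 197))) (XT.nd (nat_lit 78) (nat_lit 0) (nat_lit 0) (XT.lf (nat_lit 0) (nat_lit 52376874705) (nat_lit 76) (nat_lit 25861265116) (nat_lit 76) (nat_lit 17610278085) (nat_lit 4) (nat_lit 4) (nat_lit 5) (nat_lit 5) (nat_lit 5) (nat_lit 4) (nat_lit 351) (nat_lit 233)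 (nat_lit 196)) (XT.lf (nat_lit 0) (nat_lit 64528878849) (nat_lit 76) (nat_lit 22144448066) (nat_lit 76) (nat_lit 13816139115) (nat_lit 4) (nat_lit 4) (nat_lit 5) (nat_lit 5) (nat_lit 5) (nat_lit 4) (nat_lit 352) (nat_lit 233) (nat_lit 195))))) (XT.nd (nat_lit 234) (nat_lit 152) (nat_lit 0) (XT.nd (nat_lit 78) (nat_lit 0) (nat_lit 0) (XT.lf (nat_lit 0) (nat_lit 77178161282) (nat_lit 76) (nat_lit 18294052954) (nat_lit 76) (nat_lit 9892104078) (nat_lit 4) (nat_lit 4) (nat_lit 5) (nat_lit 5) (nat_lit 5) (nat_lit 4) (nat_lit 353) (nat_lit 233) (nat_lit 194)) (XT.nd (nat_lit 78) (nat_lit 0) (nat_lit 0) (XT.lf (nat_lit 0) (nat_lit 90354839343) (nat_lit 76) (nat_lit 14300912171) (nat_lit 76) (nat_lit 5828830034) (nat_lit 4) (nat_lit 4) (nat_lit 5) (nat_lit 5) (nat_lit 5) (nat_lit 4) (nat_lit 354) (nat_lit 233) (nat_lit 193)) (XT.lf (nat_lit 0) (nat_lit 104090286074) (nat_lit 76) (nat_lit 10155518239)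 (nat_lit 76) (nat_lit 1616642520) (nat_lit 4) (nat_lit 4) (nat_lit 5) (nat_lit 5) (nat_lit 5) (nat_lit 4) (nat_lit 355) (nat_lit 233) (nat_lit 192)))) (XT.nd (nat_lit 156) (nat_lit 0) (nat_lit 0) (XT.nd (nat_lit 78) (nat_lit 76) (nat_lit 0) (XT.lf (nat_lit 0) (nat_lit 2700737508) (nat_lit 152) (nat_lit 3119991512) (nat_lit 76) (nat_lit 115689195259) (nat_lit 3) (nat_lit 5) (nat_lit 5) (nat_lit 5) (nat_lit 4) (nat_lit 4) (nat_lit 356) (nat_lit 233) (nat_lit 191)) (XT.lf (nat_lit 0) (nat_lit 5973299335) (nat_lit 76) (nat_lit 1236736003) (nat_lit 152) (nat_lit 120228983533) (nat_lit 2) (nat_lit 5) (nat_lit 3) (nat_lit 5) (nat_lit 4) (nat_lit 4) (nat_lit 357) (nat_lit 233) (nat_lit 190))) (XT.nd (nat_lit 78) (nat_lit 0) (nat_lit 0) (XT.lf (nat_lit 0) (nat_lit 11964400727) (nat_lit 152) (nat_lit 118201954417) (nat_lit 0) (nat_lit 3497632561) (nat_lit 2) (nat_lit 5) (nat_lit 4) (nat_lit 4) (nat_lit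 2) (nat_lit 4) (nat_lit 358) (nat_lit 233) (nat_lit 189)) (XT.lf (nat_lit 0) (nat_lit 16924003271) (nat_lit 152) (nat_lit 114873298989) (nat_lit 0) (nat_lit 8403884382) (nat_lit 2) (nat_lit 5) (nat_lit 4) (nat_lit 4) (nat_lit 2) (nat_lit 4) (nat_lit 359) (nat_lit 233) (nat_lit 188))))))))
noncomputable def xc13 : XT := (XT.nd (nat_lit 38532) (nat_lit 0) (nat_lit 0) (XT.nd (nat_lit 37440) (nat_lit 0) (nat_lit 456) (XT.nd (nat_lit 36894) (nat_lit 0) (nat_lit 1216) (XT.nd (nat_lit 234) (nat_lit 0) (nat_lit 0) (XT.nd (nat_lit 78) (nat_lit 0) (nat_lit 0) (XT.lf (nat_lit 0) (nat_lit 22088763286) (nat_lit 152) (nat_lit 111459939621) (nat_lit 0) (nat_lit 13517834184) (nat_lit 2) (nat_lit 5) (nat_lit 4) (nat_lit 4) (nat_lit 2) (nat_lit 4) (nat_lit 360) (nat_lit 233) (nat_lit 187)) (XT.nd (nat_lit 78) (nat_lit 0) (nat_lit 0) (XT.lf (nat_lit 0) (nat_lit 27470977820) (nat_lit 152) (nat_lit 107953749266)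 (nat_lit 0) (nat_lit 18851658038) (nat_lit 2) (nat_lit 5) (nat_lit 4) (nat_lit 4) (nat_lit 2) (nat_lit 4) (nat_lit 361) (nat_lit 233) (nat_lit 186)) (XT.lf (nat_lit 0) (nat_lit 33083461668) (nat_lit 152) (nat_lit 104346379851) (nat_lit 0) (nat_lit 24418055525) (nat_lit 2) (nat_lit 5) (nat_lit 4) (nat_lit 4) (nat_lit 2) (nat_lit 4) (nat_lit 362) (nat_lit 233) (nat_lit 185)))) (XT.nd (nat_lit 156) (nat_lit 0) (nat_lit 0) (XT.nd (nat_lit 78) (nat_lit 0) (nat_lit 0) (XT.lf (nat_lit 0) (nat_lit 38939577888) (nat_lit 152) (nat_lit 100629242403) (nat_lit 0) (nat_lit 30230279973) (nat_lit 2) (nat_lit 5) (nat_lit 4) (nat_lit 4) (nat_lit 2) (nat_lit 4) (nat_lit 363) (nat_lit 233) (nat_lit 184)) (XT.lf (nat_lit 0) (nat_lit 45053269613) (nat_lit 152) (nat_lit 96793486594) (nat_lit 0) (nat_lit 36302170010) (nat_lit 2) (nat_lit 5) (nat_lit 4) (nat_lit 4) (nat_lit 2) (nat_lit 4) (nat_lit 364) (nat_lit 233)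 (nat_lit 183))) (XT.nd (nat_lit 78) (nat_lit 0) (nat_lit 0) (XT.lf (nat_lit 0) (nat_lit 51439093253) (nat_lit 152) (nat_lit 92829979672) (nat_lit 0) (nat_lit 42648182519) (nat_lit 2) (nat_lit 5) (nat_lit 4) (nat_lit 4) (nat_lit 2) (nat_lit 4) (nat_lit 365) (nat_lit 233) (nat_lit 182)) (XT.lf (nat_lit 0) (nat_lit 58112253149) (nat_lit 152) (nat_lit 88729284715) (nat_lit 0) (nat_lit 49283427052) (nat_lit 2) (nat_lit 5) (nat_lit 4) (nat_lit 4) (nat_lit 2) (nat_lit 4) (nat_lit 366) (nat_lit 233) (nat_lit 181))))) (XT.nd (nat_lit 234) (nat_lit 304) (nat_lit 0) (XT.nd (nat_lit 78) (nat_lit 304) (nat_lit 0) (XT.lf (nat_lit 0) (nat_lit 6003707908) (nat_lit 152) (nat_lit 1478775985) (nat_lit 152) (nat_lit 1478775985) (nat_lit 26) (nat_lit 4) (nat_lit 28) (nat_lit 5) (nat_lit 28) (nat_lit 4) (nat_lit 312) (nat_lit 234) (nat_lit 234)) (XT.nd (nat_lit 78) (nat_lit 152) (nat_lit 0) (XT.lf (nat_lit 0)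 (nat_lit 4588965408) (nat_lit 152) (nat_lit 9981158016) (nat_lit 0) (nat_lit 3999417169) (nat_lit 24) (nat_lit 5) (nat_lit 26) (nat_lit 4) (nat_lit 24) (nat_lit 4) (nat_lit 313) (nat_lit 234) (nat_lit 233)) (XT.lf (nat_lit 0) (nat_lit 4240076046) (nat_lit 152) (nat_lit 8081479681) (nat_lit 152) (nat_lit 6930456930) (nat_lit 22) (nat_lit 4) (nat_lit 24) (nat_lit 5) (nat_lit 24) (nat_lit 4) (nat_lit 314) (nat_lit 234) (nat_lit 232)))) (XT.nd (nat_lit 156) (nat_lit 152) (nat_lit 0) (XT.nd (nat_lit 78) (nat_lit 76) (nat_lit 0) (XT.lf (nat_lit 0) (nat_lit 309435940) (nat_lit 228) (nat_lit 1057605423) (nat_lit 76) (nat_lit 18606106672) (nat_lit 21) (nat_lit 5) (nat_lit 24) (nat_lit 5) (nat_lit 22) (nat_lit 4) (nat_lit 315) (nat_lit 234) (nat_lit 231)) (XT.lf (nat_lit 0) (nat_lit 7707188526) (nat_lit 152) (nat_lit 7446896929) (nat_lit 0) (nat_lit 5576087247) (nat_lit 20) (nat_lit 5) (nat_lit 22)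 (nat_lit 4) (nat_lit 20) (nat_lit 4) (nat_lit 316) (nat_lit 234) (nat_lit 230))) (XT.nd (nat_lit 78) (nat_lit 76) (nat_lit 0) (XT.lf (nat_lit 0) (nat_lit 6514020981) (nat_lit 76) (nat_lit 8808824067) (nat_lit 76) (nat_lit 6206826871) (nat_lit 19) (nat_lit 4) (nat_lit 20) (nat_lit 5) (nat_lit 20) (nat_lit 4) (nat_lit 317) (nat_lit 234) (nat_lit 229)) (XT.lf (nat_lit 0) (nat_lit 774577498) (nat_lit 152) (nat_lit 1478077175) (nat_lit 76) (nat_lit 20120987029) (nat_lit 18) (nat_lit 5) (nat_lit 20) (nat_lit 5) (nat_lit 19) (nat_lit 4) (nat_lit 318) (nat_lit 234) (nat_lit 228)))))) (XT.nd (nat_lit 546) (nat_lit 380) (nat_lit 0) (XT.nd (nat_lit 234) (nat_lit 228) (nat_lit 0) (XT.nd (nat_lit 78) (nat_lit 76) (nat_lit 0) (XT.lf (nat_lit 0) (nat_lit 7919381872) (nat_lit 152) (nat_lit 10797274977) (nat_lit 0) (nat_lit 4543084808) (nat_lit 17) (nat_lit 5) (nat_lit 19) (nat_lit 4) (nat_lit 17) (nat_lit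 4) (nat_lit 319) (nat_lit 234) (nat_lit 227)) (XT.nd (nat_lit 78) (nat_lit 0) (nat_lit 0) (XT.lf (nat_lit 0) (nat_lit 2565881504) (nat_lit 76) (nat_lit 12700104305) (nat_lit 76) (nat_lit 8928877534) (nat_lit 16) (nat_lit 4) (nat_lit 17) (nat_lit 5) (nat_lit 17) (nat_lit 4) (nat_lit 320) (nat_lit 234) (nat_lit 226)) (XT.lf (nat_lit 0) (nat_lit 16431829814) (nat_lit 76) (nat_lit 6447662694) (nat_lit 76) (nat_lit 2300312392) (nat_lit 16) (nat_lit 4) (nat_lit 17) (nat_lit 5) (nat_lit 17) (nat_lit 4) (nat_lit 321) (nat_lit 234) (nat_lit 225)))) (XT.nd (nat_lit 156) (nat_lit 76) (nat_lit 0) (XT.nd (nat_lit 78) (nat_lit 0) (nat_lit 0) (XT.lf (nat_lit 0) (nat_lit 4408246929) (nat_lit 152) (nat_lit 21775351451) (nat_lit 0) (nat_lit 33913737) (nat_lit 14) (nat_lit 5) (nat_lit 16) (nat_lit 4) (nat_lit 14) (nat_lit 4) (nat_lit 322) (nat_lit 234) (nat_lit 224)) (XT.lf (nat_lit 0) (nat_lit 11362140502)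 (nat_lit 152) (nat_lit 9289012666) (nat_lit 0) (nat_lit 6656588738) (nat_lit 14) (nat_lit 5) (nat_lit 16) (nat_lit 4) (nat_lit 14) (nat_lit 4) (nat_lit 323) (nat_lit 234) (nat_lit 223))) (XT.nd (nat_lit 78) (nat_lit 0) (nat_lit 0) (XT.lf (nat_lit 0) (nat_lit 3538275493) (nat_lit 76) (nat_lit 14969956678) (nat_lit 76) (nat_lit 9948958654) (nat_lit 13) (nat_lit 4) (nat_lit 14) (nat_lit 5) (nat_lit 14) (nat_lit 4) (nat_lit 324) (nat_lit 234) (nat_lit 222)) (XT.lf (nat_lit 0) (nat_lit 16858730861) (nat_lit 76) (nat_lit 9064744826) (nat_lit 76) (nat_lit 3743321792) (nat_lit 13) (nat_lit 4) (nat_lit 14) (nat_lit 5) (nat_lit 14) (nat_lit 4) (nat_lit 325) (nat_lit 234) (nat_lit 221))))) (XT.nd (nat_lit 234) (nat_lit 228) (nat_lit 0) (XT.nd (nat_lit 78) (nat_lit 76) (nat_lit 0) (XT.lf (nat_lit 0) (nat_lit 2541698899) (nat_lit 152) (nat_lit 447893323) (nat_lit 76) (nat_lit 27951834168) (nat_lit 12)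 (nat_lit 5) (nat_lit 14) (nat_lit 5) (nat_lit 13) (nat_lit 4) (nat_lit 326) (nat_lit 234) (nat_lit 220)) (XT.nd (nat_lit 78) (nat_lit 0) (nat_lit 0) (XT.lf (nat_lit 0) (nat_lit 9048032999) (nat_lit 152) (nat_lit 19891883551) (nat_lit 0) (nat_lit 3339259767) (nat_lit 11) (nat_lit 5) (nat_lit 13) (nat_lit 4) (nat_lit 11) (nat_lit 4) (nat_lit 327) (nat_lit 234) (nat_lit 219)) (XT.lf (nat_lit 0) (nat_lit 15749865166) (nat_lit 152) (nat_lit 8148744968) (nat_lit 0) (nat_lit 9789132304) (nat_lit 11) (nat_lit 5) (nat_lit 13) (nat_lit 4) (nat_lit 11) (nat_lit 4) (nat_lit 328) (nat_lit 234) (nat_lit 218)))) (XT.nd (nat_lit 156) (nat_lit 152) (nat_lit 0) (XT.nd (nat_lit 78) (nat_lit 0) (nat_lit 0) (XT.lf (nat_lit 0) (nat_lit 3965166137) (nat_lit 76) (nat_lit 18702929233) (nat_lit 76) (nat_lit 12502234820) (nat_lit 10) (nat_lit 4) (nat_lit 11) (nat_lit 5) (nat_lit 11) (nat_lit 4) (nat_lit 329) (nat_lit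 234) (nat_lit 217)) (XT.lf (nat_lit 0) (nat_lit 16569719067) (nat_lit 76) (nat_lit 13294317238) (nat_lit 76) (nat_lit 6865088013) (nat_lit 10) (nat_lit 4) (nat_lit 11) (nat_lit 5) (nat_lit 11) (nat_lit 4) (nat_lit 330) (nat_lit 234) (nat_lit 216))) (XT.nd (nat_lit 78) (nat_lit 152) (nat_lit 0) (XT.lf (nat_lit 0) (nat_lit 29532748659) (nat_lit 76) (nat_lit 7742182848) (nat_lit 76) (nat_lit 1095301421) (nat_lit 10) (nat_lit 4) (nat_lit 11) (nat_lit 5) (nat_lit 11) (nat_lit 4) (nat_lit 331) (nat_lit 234) (nat_lit 215)) (XT.lf (nat_lit 0) (nat_lit 2795770315) (nat_lit 76) (nat_lit 1957894488) (nat_lit 152) (nat_lit 35341702146) (nat_lit 8) (nat_lit 5) (nat_lit 9) (nat_lit 5) (nat_lit 10) (nat_lit 4) (nat_lit 332) (nat_lit 234) (nat_lit 214))))))) (XT.nd (nat_lit 1092) (nat_lit 228) (nat_lit 0) (XT.nd (nat_lit 546) (nat_lit 152) (nat_lit 0) (XT.nd (nat_lit 234) (nat_lit 76) (nat_lit 0) (XT.nd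 (nat_lit 78) (nat_lit 0) (nat_lit 0) (XT.lf (nat_lit 0) (nat_lit 10867784076) (nat_lit 152) (nat_lit 27017229629) (nat_lit 0) (nat_lit 4021583883) (nat_lit 8) (nat_lit 5) (nat_lit 10) (nat_lit 4) (nat_lit 8) (nat_lit 4) (nat_lit 333) (nat_lit 234) (nat_lit 213)) (XT.nd (nat_lit 78) (nat_lit 0) (nat_lit 0) (XT.lf (nat_lit 0) (nat_lit 17177570906) (nat_lit 152) (nat_lit 16485313984) (nat_lit 0) (nat_lit 10148830756) (nat_lit 8) (nat_lit 5) (nat_lit 10) (nat_lit 4) (nat_lit 8) (nat_lit 4) (nat_lit 334) (nat_lit 234) (nat_lit 212)) (XT.lf (nat_lit 0) (nat_lit 23679228115) (nat_lit 152) (nat_lit 5659953229) (nat_lit 0) (nat_lit 16476640387) (nat_lit 8) (nat_lit 5) (nat_lit 10) (nat_lit 4) (nat_lit 8) (nat_lit 4) (nat_lit 335) (nat_lit 234) (nat_lit 211)))) (XT.nd (nat_lit 156) (nat_lit 0) (nat_lit 0) (XT.nd (nat_lit 78) (nat_lit 0) (nat_lit 0) (XT.lf (nat_lit 0) (nat_lit 5593782139) (nat_lit 76)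 (nat_lit 24848224555) (nat_lit 76) (nat_lit 17480067707) (nat_lit 7) (nat_lit 4) (nat_lit 8) (nat_lit 5) (nat_lit 8) (nat_lit 4) (nat_lit 336) (nat_lit 234) (nat_lit 210)) (XT.lf (nat_lit 0) (nat_lit 17312797361) (nat_lit 76) (nat_lit 20174191744) (nat_lit 76) (nat_lit 12648350018) (nat_lit 7) (nat_lit 4) (nat_lit 8) (nat_lit 5) (nat_lit 8) (nat_lit 4) (nat_lit 337) (nat_lit 234) (nat_lit 209))) (XT.nd (nat_lit 78) (nat_lit 0) (nat_lit 0) (XT.lf (nat_lit 0) (nat_lit 29412350686) (nat_lit 76) (nat_lit 15363108691) (nat_lit 76) (nat_lit 7687090891) (nat_lit 7) (nat_lit 4) (nat_lit 8) (nat_lit 5) (nat_lit 8) (nat_lit 4) (nat_lit 338) (nat_lit 234) (nat_lit 208)) (XT.lf (nat_lit 0) (nat_lit 41921250574) (nat_lit 76) (nat_lit 10403520437) (nat_lit 76) (nat_lit 2584477805) (nat_lit 7) (nat_lit 4) (nat_lit 8) (nat_lit 5) (nat_lit 8) (nat_lit 4) (nat_lit 339) (nat_lit 234) (nat_lit 207))))) (XT.nd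 (nat_lit 234) (nat_lit 0) (nat_lit 0) (XT.nd (nat_lit 78) (nat_lit 76) (nat_lit 0) (XT.lf (nat_lit 0) (nat_lit 2619505032) (nat_lit 152) (nat_lit 2637661541) (nat_lit 76) (nat_lit 52223323222) (nat_lit 6) (nat_lit 5) (nat_lit 8) (nat_lit 5) (nat_lit 7) (nat_lit 4) (nat_lit 340) (nat_lit 234) (nat_lit 206)) (XT.nd (nat_lit 78) (nat_lit 0) (nat_lit 0) (XT.lf (nat_lit 0) (nat_lit 8016141233) (nat_lit 152) (nat_lit 51997182114) (nat_lit 0) (nat_lit 166641721) (nat_lit 5) (nat_lit 5) (nat_lit 7) (nat_lit 4) (nat_lit 5) (nat_lit 4) (nat_lit 341) (nat_lit 234) (nat_lit 205)) (XT.lf (nat_lit 0) (nat_lit 13670247542) (nat_lit 152) (nat_lit 43643757312) (nat_lit 0) (nat_lit 5700796354) (nat_lit 5) (nat_lit 5) (nat_lit 7) (nat_lit 4) (nat_lit 5) (nat_lit 4) (nat_lit 342) (nat_lit 234) (nat_lit 204)))) (XT.nd (nat_lit 156) (nat_lit 0) (nat_lit 0) (XT.nd (nat_lit 78) (nat_lit 0) (nat_lit 0) (XT.lf (nat_lit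 0) (nat_lit 19518635557) (nat_lit 152) (nat_lit 35040467110) (nat_lit 0) (nat_lit 11434944676) (nat_lit 5) (nat_lit 5) (nat_lit 7) (nat_lit 4) (nat_lit 5) (nat_lit 4) (nat_lit 343) (nat_lit 234) (nat_lit 203)) (XT.lf (nat_lit 0) (nat_lit 25575230011) (nat_lit 152) (nat_lit 26166827484) (nat_lit 0) (nat_lit 17382739422) (nat_lit 5) (nat_lit 5) (nat_lit 7) (nat_lit 4) (nat_lit 5) (nat_lit 4) (nat_lit 344) (nat_lit 234) (nat_lit 202))) (XT.nd (nat_lit 78) (nat_lit 0) (nat_lit 0) (XT.lf (nat_lit 0) (nat_lit 31854451365) (nat_lit 152) (nat_lit 17001710720) (nat_lit 0) (nat_lit 23558342008) (nat_lit 5) (nat_lit 5) (nat_lit 7) (nat_lit 4) (nat_lit 5) (nat_lit 4) (nat_lit 345) (nat_lit 234) (nat_lit 201)) (XT.lf (nat_lit 0) (nat_lit 38371250149) (nat_lit 152) (nat_lit 7523295112) (nat_lit 0) (nat_lit 29976456250) (nat_lit 5) (nat_lit 5) (nat_lit 7) (nat_lit 4) (nat_lit 5) (nat_lit 4) (nat_lit 346)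 (nat_lit 234) (nat_lit 200)))))) (XT.nd (nat_lit 546) (nat_lit 152) (nat_lit 0) (XT.nd (nat_lit 234) (nat_lit 0) (nat_lit 0) (XT.nd (nat_lit 78) (nat_lit 0) (nat_lit 0) (XT.lf (nat_lit 0) (nat_lit 2336582129) (nat_lit 76) (nat_lit 42827021076) (nat_lit 76) (nat_lit 34338241899) (nat_lit 4) (nat_lit 4) (nat_lit 5) (nat_lit 5) (nat_lit 5) (nat_lit 4) (nat_lit 347) (nat_lit 234) (nat_lit 199)) (XT.nd (nat_lit 78) (nat_lit 0) (nat_lit 0) (XT.lf (nat_lit 0) (nat_lit 12712570991) (nat_lit 76) (nat_lit 39589877373) (nat_lit 76) (nat_lit 31011588408) (nat_lit 4) (nat_lit 4) (nat_lit 5) (nat_lit 5) (nat_lit 5) (nat_lit 4) (nat_lit 348) (nat_lit 234) (nat_lit 198)) (XT.lf (nat_lit 0) (nat_lit 23479647886) (nat_lit 76) (nat_lit 36251377196) (nat_lit 76) (nat_lit 27587840813) (nat_lit 4) (nat_lit 4) (nat_lit 5) (nat_lit 5) (nat_lit 5) (nat_lit 4) (nat_lit 349) (nat_lit 234) (nat_lit 197)))) (XT.nd (nat_lit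 156) (nat_lit 0) (nat_lit 0) (XT.nd (nat_lit 78) (nat_lit 0) (nat_lit 0) (XT.lf (nat_lit 0) (nat_lit 34663448710) (nat_lit 76) (nat_lit 32803571735) (nat_lit 76) (nat_lit 24058847336) (nat_lit 4) (nat_lit 4) (nat_lit 5) (nat_lit 5) (nat_lit 5) (nat_lit 4) (nat_lit 350) (nat_lit 234) (nat_lit 196)) (XT.lf (nat_lit 0) (nat_lit 46290601561) (nat_lit 76) (nat_lit 29238251930) (nat_lit 76) (nat_lit 20416205611) (nat_lit 4) (nat_lit 4) (nat_lit 5) (nat_lit 5) (nat_lit 5) (nat_lit 4) (nat_lit 351) (nat_lit 234) (nat_lit 195))) (XT.nd (nat_lit 78) (nat_lit 0) (nat_lit 0) (XT.lf (nat_lit 0) (nat_lit 58388790135) (nat_lit 76) (nat_lit 25546928924) (nat_lit 76) (nat_lit 16651242680) (nat_lit 4) (nat_lit 4) (nat_lit 5) (nat_lit 5) (nat_lit 5) (nat_lit 4) (nat_lit 352) (nat_lit 234) (nat_lit 194)) (XT.lf (nat_lit 0) (nat_lit 70986819644) (nat_lit 76) (nat_lit 21720813854) (nat_lit 76) (nat_lit 12754994348)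 (nat_lit 4) (nat_lit 4) (nat_lit 5) (nat_lit 5) (nat_lit 5) (nat_lit 4) (nat_lit 353) (nat_lit 234) (nat_lit 193))))) (XT.nd (nat_lit 312) (nat_lit 76) (nat_lit 0) (XT.nd (nat_lit 156) (nat_lit 76) (nat_lit 0) (XT.nd (nat_lit 78) (nat_lit 0) (nat_lit 0) (XT.lf (nat_lit 0) (nat_lit 84114685396) (nat_lit 76) (nat_lit 17750796920) (nat_lit 76) (nat_lit 8718183832) (nat_lit 4) (nat_lit 4) (nat_lit 5) (nat_lit 5) (nat_lit 5) (nat_lit 4) (nat_lit 354) (nat_lit 234) (nat_lit 192)) (XT.lf (nat_lit 0) (nat_lit 97803644215) (nat_lit 76) (nat_lit 13627425701) (nat_lit 76) (nat_lit 4531199678) (nat_lit 4) (nat_lit 4) (nat_lit 5) (nat_lit 5) (nat_lit 5) (nat_lit 4) (nat_lit 355) (nat_lit 234) (nat_lit 191))) (XT.nd (nat_lit 78) (nat_lit 76) (nat_lit 0) (XT.lf (nat_lit 0) (nat_lit 112086288859) (nat_lit 76) (nat_lit 9340882648) (nat_lit 76) (nat_lit 184072877) (nat_lit 4) (nat_lit 4) (nat_lit 5) (nat_lit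 5) (nat_lit 5) (nat_lit 4) (nat_lit 356) (nat_lit 234) (nat_lit 190)) (XT.lf (nat_lit 0) (nat_lit 4248983764) (nat_lit 152) (nat_lit 589071536) (nat_lit 76) (nat_lit 122704735456) (nat_lit 3) (nat_lit 5) (nat_lit 5) (nat_lit 5) (nat_lit 4) (nat_lit 4) (nat_lit 357) (nat_lit 234) (nat_lit 189)))) (XT.nd (nat_lit 156) (nat_lit 0) (nat_lit 0) (XT.nd (nat_lit 78) (nat_lit 0) (nat_lit 0) (XT.lf (nat_lit 0) (nat_lit 8881863843) (nat_lit 76) (nat_lit 59674908) (nat_lit 152) (nat_lit 124828078676) (nat_lit 2) (nat_lit 5) (nat_lit 3) (nat_lit 5) (nat_lit 4) (nat_lit 4) (nat_lit 358) (nat_lit 234) (nat_lit 188)) (XT.lf (nat_lit 0) (nat_lit 13879678564) (nat_lit 152) (nat_lit 121598392247) (nat_lit 0) (nat_lit 4829392794) (nat_lit 2) (nat_lit 5) (nat_lit 4) (nat_lit 4) (nat_lit 2) (nat_lit 4) (nat_lit 359) (nat_lit 234) (nat_lit 187))) (XT.nd (nat_lit 78) (nat_lit 0) (nat_lit 0) (XT.lf (nat_lit 0) (nat_lit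 19024544197) (nat_lit 152) (nat_lit 118223002138) (nat_lit 0) (nat_lit 9925867748) (nat_lit 2) (nat_lit 5) (nat_lit 4) (nat_lit 4) (nat_lit 2) (nat_lit 4) (nat_lit 360) (nat_lit 234) (nat_lit 186)) (XT.lf (nat_lit 0) (nat_lit 24387811701) (nat_lit 152) (nat_lit 114752972983) (nat_lit 0) (nat_lit 15243048890) (nat_lit 2) (nat_lit 5) (nat_lit 4) (nat_lit 4) (nat_lit 2) (nat_lit 4) (nat_lit 361) (nat_lit 234) (nat_lit 185))))))))
noncomputable def xc14 : XT := (XT.nd (nat_lit 38376) (nat_lit 0) (nat_lit 0) (XT.nd (nat_lit 37284) (nat_lit 0) (nat_lit 532) (XT.nd (nat_lit 36738) (nat_lit 0) (nat_lit 1216) (XT.nd (nat_lit 234) (nat_lit 0) (nat_lit 0) (XT.nd (nat_lit 78) (nat_lit 0) (nat_lit 0) (XT.lf (nat_lit 0) (nat_lit 29982250758) (nat_lit 152) (nat_lit 111180042806) (nat_lit 0) (nat_lit 20793596175) (nat_lit 2) (nat_lit 5) (nat_lit 4) (nat_lit 4) (nat_lit 2) (nat_lit 4) (nat_lit 362) (nat_lit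 234) (nat_lit 184)) (XT.nd (nat_lit 78) (nat_lit 0) (nat_lit 0) (XT.lf (nat_lit 0) (nat_lit 35821181463) (nat_lit 152) (nat_lit 107495704632) (nat_lit 0) (nat_lit 26590725192) (nat_lit 2) (nat_lit 5) (nat_lit 4) (nat_lit 4) (nat_lit 2) (nat_lit 4) (nat_lit 363) (nat_lit 234) (nat_lit 183)) (XT.lf (nat_lit 0) (nat_lit 41918506032) (nat_lit 152) (nat_lit 103691186226) (nat_lit 0) (nat_lit 32648238629) (nat_lit 2) (nat_lit 5) (nat_lit 4) (nat_lit 4) (nat_lit 2) (nat_lit 4) (nat_lit 364) (nat_lit 234) (nat_lit 182)))) (XT.nd (nat_lit 36348) (nat_lit 0) (nat_lit 1976) (XT.nd (nat_lit 78) (nat_lit 0) (nat_lit 0) (XT.lf (nat_lit 0) (nat_lit 48288741903) (nat_lit 152) (nat_lit 99757429212) (nat_lit 0) (nat_lit 38980559137) (nat_lit 2) (nat_lit 5) (nat_lit 4) (nat_lit 4) (nat_lit 2) (nat_lit 4) (nat_lit 365) (nat_lit 234) (nat_lit 181)) (XT.lf (nat_lit 0) (nat_lit 54947056306) (nat_lit 152) (nat_lit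 95685067501) (nat_lit 0) (nat_lit 45602763670) (nat_lit 2) (nat_lit 5) (nat_lit 4) (nat_lit 4) (nat_lit 2) (nat_lit 4) (nat_lit 366) (nat_lit 234) (nat_lit 180))) (XT.nd (nat_lit 78) (nat_lit 152) (nat_lit 0) (XT.lf (nat_lit 0) (nat_lit 8322101509) (nat_lit 152) (nat_lit 19984918) (nat_lit 152) (nat_lit 19984918) (nat_lit 30) (nat_lit 4) (nat_lit 32) (nat_lit 5) (nat_lit 32) (nat_lit 4) (nat_lit 310) (nat_lit 235) (nat_lit 235)) (XT.lf (nat_lit 0) (nat_lit 7599419818) (nat_lit 152) (nat_lit 2747204428) (nat_lit 0) (nat_lit 6961823398) (nat_lit 28) (nat_lit 5) (nat_lit 30) (nat_lit 4) (nat_lit 28) (nat_lit 4) (nat_lit 311) (nat_lit 235) (nat_lit 234))))) (XT.nd (nat_lit 234) (nat_lit 304) (nat_lit 0) (XT.nd (nat_lit 78) (nat_lit 304) (nat_lit 0) (XT.lf (nat_lit 0) (nat_lit 11774013960) (nat_lit 152) (nat_lit 3698637216) (nat_lit 152) (nat_lit 2453806111) (nat_lit 26) (nat_lit 4) (nat_lit 28)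 (nat_lit 5) (nat_lit 28) (nat_lit 4) (nat_lit 312) (nat_lit 235) (nat_lit 233)) (XT.nd (nat_lit 78) (nat_lit 152) (nat_lit 0) (XT.lf (nat_lit 0) (nat_lit 4945233097) (nat_lit 152) (nat_lit 10457081621) (nat_lit 0) (nat_lit 3175184695) (nat_lit 24) (nat_lit 5) (nat_lit 26) (nat_lit 4) (nat_lit 24) (nat_lit 4) (nat_lit 313) (nat_lit 235) (nat_lit 232)) (XT.lf (nat_lit 0) (nat_lit 3529177531) (nat_lit 152) (nat_lit 9019741231) (nat_lit 152) (nat_lit 6714955198) (nat_lit 22) (nat_lit 4) (nat_lit 24) (nat_lit 5) (nat_lit 24) (nat_lit 4) (nat_lit 314) (nat_lit 235) (nat_lit 231)))) (XT.nd (nat_lit 156) (nat_lit 152) (nat_lit 0) (XT.nd (nat_lit 78) (nat_lit 76) (nat_lit 0) (XT.lf (nat_lit 0) (nat_lit 401205335) (nat_lit 228) (nat_lit 1999613136) (nat_lit 76) (nat_lit 17587747217) (nat_lit 21) (nat_lit 5) (nat_lit 24) (nat_lit 5) (nat_lit 22) (nat_lit 4) (nat_lit 315) (nat_lit 235) (nat_lit 230))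 (XT.lf (nat_lit 0) (nat_lit 7662916626) (nat_lit 152) (nat_lit 8626862440) (nat_lit 0) (nat_lit 4459923653) (nat_lit 20) (nat_lit 5) (nat_lit 22) (nat_lit 4) (nat_lit 20) (nat_lit 4) (nat_lit 316) (nat_lit 235) (nat_lit 229))) (XT.nd (nat_lit 78) (nat_lit 76) (nat_lit 0) (XT.lf (nat_lit 0) (nat_lit 5103149019) (nat_lit 76) (nat_lit 10050645596) (nat_lit 76) (nat_lit 6399180321) (nat_lit 19) (nat_lit 4) (nat_lit 20) (nat_lit 5) (nat_lit 20) (nat_lit 4) (nat_lit 317) (nat_lit 235) (nat_lit 228)) (XT.lf (nat_lit 0) (nat_lit 477063078) (nat_lit 152) (nat_lit 3110143702) (nat_lit 76) (nat_lit 18813088252) (nat_lit 18) (nat_lit 5) (nat_lit 20) (nat_lit 5) (nat_lit 19) (nat_lit 4) (nat_lit 318) (nat_lit 235) (nat_lit 227)))))) (XT.nd (nat_lit 546) (nat_lit 304) (nat_lit 0) (XT.nd (nat_lit 234) (nat_lit 228) (nat_lit 0) (XT.nd (nat_lit 78) (nat_lit 76) (nat_lit 0) (XT.lf (nat_lit 0) (nat_lit 7486436814)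 (nat_lit 152) (nat_lit 12672328199) (nat_lit 0) (nat_lit 3131718997) (nat_lit 17) (nat_lit 5) (nat_lit 19) (nat_lit 4) (nat_lit 17) (nat_lit 4) (nat_lit 319) (nat_lit 235) (nat_lit 226)) (XT.nd (nat_lit 78) (nat_lit 0) (nat_lit 0) (XT.lf (nat_lit 0) (nat_lit 462780663) (nat_lit 76) (nat_lit 14248669480) (nat_lit 76) (nat_lit 9517828133) (nat_lit 16) (nat_lit 4) (nat_lit 17) (nat_lit 5) (nat_lit 17) (nat_lit 4) (nat_lit 320) (nat_lit 235) (nat_lit 225)) (XT.lf (nat_lit 0) (nat_lit 14147080989) (nat_lit 76) (nat_lit 8079582774) (nat_lit 76) (nat_lit 2990528540) (nat_lit 16) (nat_lit 4) (nat_lit 17) (nat_lit 5) (nat_lit 17) (nat_lit 4) (nat_lit 321) (nat_lit 235) (nat_lit 224)))) (XT.nd (nat_lit 156) (nat_lit 76) (nat_lit 0) (XT.nd (nat_lit 78) (nat_lit 0) (nat_lit 0) (XT.lf (nat_lit 0) (nat_lit 1902535839) (nat_lit 76) (nat_lit 1709653915) (nat_lit 152) (nat_lit 22646509991) (nat_lit 14) (nat_lit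 5) (nat_lit 15) (nat_lit 5) (nat_lit 16) (nat_lit 4) (nat_lit 322) (nat_lit 235) (nat_lit 223)) (XT.lf (nat_lit 0) (nat_lit 10457205844) (nat_lit 152) (nat_lit 12025299206) (nat_lit 0) (nat_lit 4869711659) (nat_lit 14) (nat_lit 5) (nat_lit 16) (nat_lit 4) (nat_lit 14) (nat_lit 4) (nat_lit 323) (nat_lit 235) (nat_lit 222))) (XT.nd (nat_lit 78) (nat_lit 0) (nat_lit 0) (XT.lf (nat_lit 0) (nat_lit 580550879) (nat_lit 76) (nat_lit 16906273990) (nat_lit 76) (nat_lit 11018354796) (nat_lit 13) (nat_lit 4) (nat_lit 14) (nat_lit 5) (nat_lit 14) (nat_lit 4) (nat_lit 324) (nat_lit 235) (nat_lit 221)) (XT.lf (nat_lit 0) (nat_lit 13741977099) (nat_lit 76) (nat_lit 11074713853) (nat_lit 76) (nat_lit 4900675603) (nat_lit 13) (nat_lit 4) (nat_lit 14) (nat_lit 5) (nat_lit 14) (nat_lit 4) (nat_lit 325) (nat_lit 235) (nat_lit 220))))) (XT.nd (nat_lit 234) (nat_lit 152) (nat_lit 0) (XT.nd (nat_lit 78) (nat_lit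 76) (nat_lit 0) (XT.lf (nat_lit 0) (nat_lit 1324794662) (nat_lit 152) (nat_lit 3757199425) (nat_lit 76) (nat_lit 25912816658) (nat_lit 12) (nat_lit 5) (nat_lit 14) (nat_lit 5) (nat_lit 13) (nat_lit 4) (nat_lit 326) (nat_lit 235) (nat_lit 219)) (XT.nd (nat_lit 78) (nat_lit 0) (nat_lit 0) (XT.lf (nat_lit 0) (nat_lit 7697933013) (nat_lit 152) (nat_lit 23451436305) (nat_lit 0) (nat_lit 1187203879) (nat_lit 11) (nat_lit 5) (nat_lit 13) (nat_lit 4) (nat_lit 11) (nat_lit 4) (nat_lit 327) (nat_lit 235) (nat_lit 218)) (XT.lf (nat_lit 0) (nat_lit 14323272901) (nat_lit 152) (nat_lit 11851594834) (nat_lit 0) (nat_lit 7572582215) (nat_lit 11) (nat_lit 5) (nat_lit 13) (nat_lit 4) (nat_lit 11) (nat_lit 4) (nat_lit 328) (nat_lit 235) (nat_lit 217)))) (XT.nd (nat_lit 156) (nat_lit 76) (nat_lit 0) (XT.nd (nat_lit 78) (nat_lit 0) (nat_lit 0) (XT.lf (nat_lit 0) (nat_lit 49432770) (nat_lit 76) (nat_lit 21081580120)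 (nat_lit 76) (nat_lit 14102354622) (nat_lit 10) (nat_lit 4) (nat_lit 11) (nat_lit 5) (nat_lit 11) (nat_lit 4) (nat_lit 329) (nat_lit 235) (nat_lit 216)) (XT.lf (nat_lit 0) (nat_lit 12521424244) (nat_lit 76) (nat_lit 15734874566) (nat_lit 76) (nat_lit 8537996867) (nat_lit 10) (nat_lit 4) (nat_lit 11) (nat_lit 5) (nat_lit 11) (nat_lit 4) (nat_lit 330) (nat_lit 235) (nat_lit 215))) (XT.nd (nat_lit 78) (nat_lit 76) (nat_lit 0) (XT.lf (nat_lit 0) (nat_lit 25358204830) (nat_lit 76) (nat_lit 10241698691) (nat_lit 76) (nat_lit 2837533181) (nat_lit 10) (nat_lit 4) (nat_lit 11) (nat_lit 5) (nat_lit 11) (nat_lit 4) (nat_lit 331) (nat_lit 235) (nat_lit 214)) (XT.lf (nat_lit 0) (nat_lit 2953822114) (nat_lit 152) (nat_lit 1605323580) (nat_lit 76) (nat_lit 35606688366) (nat_lit 9) (nat_lit 5) (nat_lit 11) (nat_lit 5) (nat_lit 10) (nat_lit 4) (nat_lit 332) (nat_lit 235) (nat_lit 213))))))) (XT.nd (nat_lit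 1092) (nat_lit 228) (nat_lit 0) (XT.nd (nat_lit 546) (nat_lit 152) (nat_lit 0) (XT.nd (nat_lit 234) (nat_lit 76) (nat_lit 0) (XT.nd (nat_lit 78) (nat_lit 0) (nat_lit 0) (XT.lf (nat_lit 0) (nat_lit 8963725246) (nat_lit 152) (nat_lit 31615469869) (nat_lit 0) (nat_lit 1401008133) (nat_lit 8) (nat_lit 5) (nat_lit 10) (nat_lit 4) (nat_lit 8) (nat_lit 4) (nat_lit 333) (nat_lit 235) (nat_lit 212)) (XT.nd (nat_lit 78) (nat_lit 0) (nat_lit 0) (XT.lf (nat_lit 0) (nat_lit 15213210143) (nat_lit 152) (nat_lit 21197286259) (nat_lit 0) (nat_lit 7476645452) (nat_lit 8) (nat_lit 5) (nat_lit 10) (nat_lit 4) (nat_lit 8) (nat_lit 4) (nat_lit 334) (nat_lit 235) (nat_lit 211)) (XT.lf (nat_lit 0) (nat_lit 21657436940) (nat_lit 152) (nat_lit 10480241729) (nat_lit 0) (nat_lit 13755303128) (nat_lit 8) (nat_lit 5) (nat_lit 10) (nat_lit 4) (nat_lit 8) (nat_lit 4) (nat_lit 335) (nat_lit 235) (nat_lit 210)))) (XT.nd (nat_lit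 156) (nat_lit 0) (nat_lit 0) (XT.nd (nat_lit 78) (nat_lit 0) (nat_lit 0) (XT.lf (nat_lit 0) (nat_lit 572349085) (nat_lit 76) (nat_lit 27744901718) (nat_lit 76) (nat_lit 19685083028) (nat_lit 7) (nat_lit 4) (nat_lit 8) (nat_lit 5) (nat_lit 8) (nat_lit 4) (nat_lit 336) (nat_lit 235) (nat_lit 209)) (XT.lf (nat_lit 0) (nat_lit 12191163010) (nat_lit 76) (nat_lit 23118015930) (nat_lit 76) (nat_lit 14908021167) (nat_lit 7) (nat_lit 4) (nat_lit 8) (nat_lit 5) (nat_lit 8) (nat_lit 4) (nat_lit 337) (nat_lit 235) (nat_lit 208))) (XT.nd (nat_lit 78) (nat_lit 0) (nat_lit 0) (XT.lf (nat_lit 0) (nat_lit 24195286529) (nat_lit 76) (nat_lit 18351834805) (nat_lit 76) (nat_lit 9998815209) (nat_lit 7) (nat_lit 4) (nat_lit 8) (nat_lit 5) (nat_lit 8) (nat_lit 4) (nat_lit 338) (nat_lit 235) (nat_lit 207)) (XT.lf (nat_lit 0) (nat_lit 36613300886) (nat_lit 76) (nat_lit 13435010291) (nat_lit 76) (nat_lit 4945776570)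 (nat_lit 7) (nat_lit 4) (nat_lit 8) (nat_lit 5) (nat_lit 8) (nat_lit 4) (nat_lit 339) (nat_lit 235) (nat_lit 206))))) (XT.nd (nat_lit 234) (nat_lit 0) (nat_lit 0) (XT.nd (nat_lit 78) (nat_lit 76) (nat_lit 0) (XT.lf (nat_lit 0) (nat_lit 257991263) (nat_lit 152) (nat_lit 8095239194) (nat_lit 76) (nat_lit 49214176315) (nat_lit 6) (nat_lit 5) (nat_lit 8) (nat_lit 5) (nat_lit 7) (nat_lit 4) (nat_lit 340) (nat_lit 235) (nat_lit 205)) (XT.nd (nat_lit 78) (nat_lit 0) (nat_lit 0) (XT.lf (nat_lit 0) (nat_lit 2533292081) (nat_lit 76) (nat_lit 3021291055) (nat_lit 152) (nat_lit 54715308166) (nat_lit 5) (nat_lit 5) (nat_lit 6) (nat_lit 5) (nat_lit 7) (nat_lit 4) (nat_lit 341) (nat_lit 235) (nat_lit 204)) (XT.lf (nat_lit 0) (nat_lit 11136513481) (nat_lit 152) (nat_lit 49435988430) (nat_lit 0) (nat_lit 2534398363) (nat_lit 5) (nat_lit 5) (nat_lit 7) (nat_lit 4) (nat_lit 5) (nat_lit 4) (nat_lit 342) (nat_lit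 235) (nat_lit 203)))) (XT.nd (nat_lit 156) (nat_lit 0) (nat_lit 0) (XT.nd (nat_lit 78) (nat_lit 0) (nat_lit 0) (XT.lf (nat_lit 0) (nat_lit 16943822002) (nat_lit 152) (nat_lit 40910656806) (nat_lit 0) (nat_lit 8232907177) (nat_lit 5) (nat_lit 5) (nat_lit 7) (nat_lit 4) (nat_lit 5) (nat_lit 4) (nat_lit 343) (nat_lit 235) (nat_lit 202)) (XT.lf (nat_lit 0) (nat_lit 22961293128) (nat_lit 152) (nat_lit 32111263445) (nat_lit 0) (nat_lit 14146759534) (nat_lit 5) (nat_lit 5) (nat_lit 7) (nat_lit 4) (nat_lit 5) (nat_lit 4) (nat_lit 344) (nat_lit 235) (nat_lit 201))) (XT.nd (nat_lit 78) (nat_lit 0) (nat_lit 0) (XT.lf (nat_lit 0) (nat_lit 29203254171) (nat_lit 152) (nat_lit 23016857410) (nat_lit 0) (nat_lit 20290036035) (nat_lit 5) (nat_lit 5) (nat_lit 7) (nat_lit 4) (nat_lit 5) (nat_lit 4) (nat_lit 345) (nat_lit 235) (nat_lit 200)) (XT.lf (nat_lit 0) (nat_lit 35684566943) (nat_lit 152) (nat_lit 13605785354)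 (nat_lit 0) (nat_lit 26677363530) (nat_lit 5) (nat_lit 5) (nat_lit 7) (nat_lit 4) (nat_lit 5) (nat_lit 4) (nat_lit 346) (nat_lit 235) (nat_lit 199)))))) (XT.nd (nat_lit 546) (nat_lit 152) (nat_lit 0) (XT.nd (nat_lit 234) (nat_lit 0) (nat_lit 0) (XT.nd (nat_lit 78) (nat_lit 76) (nat_lit 0) (XT.lf (nat_lit 0) (nat_lit 42420663141) (nat_lit 152) (nat_lit 3855639961) (nat_lit 0) (nat_lit 33323949940) (nat_lit 5) (nat_lit 5) (nat_lit 7) (nat_lit 4) (nat_lit 5) (nat_lit 4) (nat_lit 347) (nat_lit 235) (nat_lit 198)) (XT.nd (nat_lit 78) (nat_lit 0) (nat_lit 0) (XT.lf (nat_lit 0) (nat_lit 6381315857) (nat_lit 76) (nat_lit 43107606345) (nat_lit 76) (nat_lit 33925645726) (nat_lit 4) (nat_lit 4) (nat_lit 5) (nat_lit 5) (nat_lit 5) (nat_lit 4) (nat_lit 348) (nat_lit 235) (nat_lit 197)) (XT.lf (nat_lit 0) (nat_lit 17089061085) (nat_lit 76) (nat_lit 39797213351) (nat_lit 76) (nat_lit 30534064715) (nat_lit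 4) (nat_lit 4) (nat_lit 5) (nat_lit 5) (nat_lit 5) (nat_lit 4) (nat_lit 349) (nat_lit 235) (nat_lit 196)))) (XT.nd (nat_lit 156) (nat_lit 0) (nat_lit 0) (XT.nd (nat_lit 78) (nat_lit 0) (nat_lit 0) (XT.lf (nat_lit 0) (nat_lit 28216355561) (nat_lit 76) (nat_lit 36376176636) (nat_lit 76) (nat_lit 27035706080) (nat_lit 4) (nat_lit 4) (nat_lit 5) (nat_lit 5) (nat_lit 5) (nat_lit 4) (nat_lit 350) (nat_lit 235) (nat_lit 195)) (XT.lf (nat_lit 0) (nat_lit 39789692841) (nat_lit 76) (nat_lit 32836350875) (nat_lit 76) (nat_lit 23422240394) (nat_lit 4) (nat_lit 4) (nat_lit 5) (nat_lit 5) (nat_lit 5) (nat_lit 4) (nat_lit 351) (nat_lit 235) (nat_lit 194))) (XT.nd (nat_lit 78) (nat_lit 0) (nat_lit 0) (XT.lf (nat_lit 0) (nat_lit 51836628492) (nat_lit 76) (nat_lit 29169307910) (nat_lit 76) (nat_lit 19685064168) (nat_lit 4) (nat_lit 4) (nat_lit 5) (nat_lit 5) (nat_lit 5) (nat_lit 4) (nat_lit 352) (nat_lit 235)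 (nat_lit 193)) (XT.lf (nat_lit 0) (nat_lit 64385845692) (nat_lit 76) (nat_lit 25366316689) (nat_lit 76) (nat_lit 15815279364) (nat_lit 4) (nat_lit 4) (nat_lit 5) (nat_lit 5) (nat_lit 5) (nat_lit 4) (nat_lit 353) (nat_lit 235) (nat_lit 192))))) (XT.nd (nat_lit 312) (nat_lit 76) (nat_lit 0) (XT.nd (nat_lit 156) (nat_lit 76) (nat_lit 0) (XT.nd (nat_lit 78) (nat_lit 0) (nat_lit 0) (XT.lf (nat_lit 0) (nat_lit 77467223531) (nat_lit 76) (nat_lit 21418322468) (nat_lit 76) (nat_lit 11803672208) (nat_lit 4) (nat_lit 4) (nat_lit 5) (nat_lit 5) (nat_lit 5) (nat_lit 4) (nat_lit 354) (nat_lit 235) (nat_lit 191)) (XT.lf (nat_lit 0) (nat_lit 91111908147) (nat_lit 76) (nat_lit 17315925262) (nat_lit 76) (nat_lit 7640691255) (nat_lit 4) (nat_lit 4) (nat_lit 5) (nat_lit 5) (nat_lit 5) (nat_lit 4) (nat_lit 355) (nat_lit 235) (nat_lit 190))) (XT.nd (nat_lit 78) (nat_lit 76) (nat_lit 0) (XT.lf (nat_lit 0) (nat_lit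 105352386884) (nat_lit 76) (nat_lit 13049357460) (nat_lit 76) (nat_lit 3316424644) (nat_lit 4) (nat_lit 4) (nat_lit 5) (nat_lit 5) (nat_lit 5) (nat_lit 4) (nat_lit 356) (nat_lit 235) (nat_lit 189)) (XT.lf (nat_lit 0) (nat_lit 1156408695) (nat_lit 152) (nat_lit 7440374409) (nat_lit 76) (nat_lit 119054479487) (nat_lit 3) (nat_lit 5) (nat_lit 5) (nat_lit 5) (nat_lit 4) (nat_lit 4) (nat_lit 357) (nat_lit 235) (nat_lit 188)))) (XT.nd (nat_lit 156) (nat_lit 0) (nat_lit 0) (XT.nd (nat_lit 78) (nat_lit 0) (nat_lit 0) (XT.lf (nat_lit 0) (nat_lit 1854783634) (nat_lit 76) (nat_lit 3906301200) (nat_lit 152) (nat_lit 128119644153) (nat_lit 2) (nat_lit 5) (nat_lit 3) (nat_lit 5) (nat_lit 4) (nat_lit 4) (nat_lit 358) (nat_lit 235) (nat_lit 187)) (XT.lf (nat_lit 0) (nat_lit 10642354139) (nat_lit 152) (nat_lit 128737577150) (nat_lit 0) (nat_lit 1040353188) (nat_lit 2) (nat_lit 5) (nat_lit 4) (nat_lit 4) (nat_lit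 2) (nat_lit 4) (nat_lit 359) (nat_lit 235) (nat_lit 186))) (XT.nd (nat_lit 78) (nat_lit 0) (nat_lit 0) (XT.lf (nat_lit 0) (nat_lit 15768272743) (nat_lit 152) (nat_lit 125398348241) (nat_lit 0) (nat_lit 6120185430) (nat_lit 2) (nat_lit 5) (nat_lit 4) (nat_lit 4) (nat_lit 2) (nat_lit 4) (nat_lit 360) (nat_lit 235) (nat_lit 185)) (XT.lf (nat_lit 0) (nat_lit 21113495455) (nat_lit 152) (nat_lit 121962758323) (nat_lit 0) (nat_lit 11421516371) (nat_lit 2) (nat_lit 5) (nat_lit 4) (nat_lit 4) (nat_lit 2) (nat_lit 4) (nat_lit 361) (nat_lit 235) (nat_lit 184))))))))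
noncomputable def xc15 : XT := (XT.nd (nat_lit 38220) (nat_lit 0) (nat_lit 0) (XT.nd (nat_lit 37128) (nat_lit 0) (nat_lit 608) (XT.nd (nat_lit 36582) (nat_lit 0) (nat_lit 1368) (XT.nd (nat_lit 234) (nat_lit 0) (nat_lit 0) (XT.nd (nat_lit 78) (nat_lit 0) (nat_lit 0) (XT.lf (nat_lit 0) (nat_lit 26690748998) (nat_lit 152) (nat_lit 118422627420) (nat_lit 0) (nat_lit 16956968225) (nat_lit 2) (nat_lit 5) (nat_lit 4) (nat_lit 4) (nat_lit 2) (nat_lit 4) (nat_lit 362) (nat_lit 235) (nat_lit 183)) (XT.nd (nat_lit 78) (nat_lit 0) (nat_lit 0) (XT.lf (nat_lit 0) (nat_lit 32513312546) (nat_lit 152) (nat_lit 114769526649) (nat_lit 0) (nat_lit 22739720642) (nat_lit 2) (nat_lit 5) (nat_lit 4) (nat_lit 4) (nat_lit 2) (nat_lit 4) (nat_lit 363) (nat_lit 235) (nat_lit 182)) (XT.lf (nat_lit 0) (nat_lit 38595049346) (nat_lit 152) (nat_lit 110994758152) (nat_lit 0) (nat_lit 28783542079) (nat_lit 2) (nat_lit 5) (nat_lit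 4) (nat_lit 4) (nat_lit 2) (nat_lit 4) (nat_lit 364) (nat_lit 235) (nat_lit 181)))) (XT.nd (nat_lit 36192) (nat_lit 0) (nat_lit 2128) (XT.nd (nat_lit 78) (nat_lit 0) (nat_lit 0) (XT.lf (nat_lit 0) (nat_lit 44950439723) (nat_lit 152) (nat_lit 107089334383) (nat_lit 0) (nat_lit 35102822586) (nat_lit 2) (nat_lit 5) (nat_lit 4) (nat_lit 4) (nat_lit 2) (nat_lit 4) (nat_lit 365) (nat_lit 235) (nat_lit 180)) (XT.lf (nat_lit 0) (nat_lit 51594615560) (nat_lit 152) (nat_lit 103043956716) (nat_lit 0) (nat_lit 41712608071) (nat_lit 2) (nat_lit 5) (nat_lit 4) (nat_lit 4) (nat_lit 2) (nat_lit 4) (nat_lit 366) (nat_lit 235) (nat_lit 179))) (XT.nd (nat_lit 78) (nat_lit 152) (nat_lit 0) (XT.lf (nat_lit 0) (nat_lit 839632536) (nat_lit 152) (nat_lit 6139369320) (nat_lit 0) (nat_lit 839632536) (nat_lit 32) (nat_lit 5) (nat_lit 34) (nat_lit 4) (nat_lit 32) (nat_lit 4) (nat_lit 308) (nat_lit 236) (nat_lit 236))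 (XT.lf (nat_lit 0) (nat_lit 1822644062) (nat_lit 152) (nat_lit 7517103048) (nat_lit 152) (nat_lit 6827542520) (nat_lit 30) (nat_lit 4) (nat_lit 32) (nat_lit 5) (nat_lit 32) (nat_lit 4) (nat_lit 309) (nat_lit 236) (nat_lit 235))))) (XT.nd (nat_lit 234) (nat_lit 456) (nat_lit 0) (XT.nd (nat_lit 78) (nat_lit 228) (nat_lit 0) (XT.lf (nat_lit 0) (nat_lit 506144298) (nat_lit 228) (nat_lit 318811914) (nat_lit 76) (nat_lit 15902964411) (nat_lit 29) (nat_lit 5) (nat_lit 32) (nat_lit 5) (nat_lit 30) (nat_lit 4) (nat_lit 310) (nat_lit 236) (nat_lit 234)) (XT.nd (nat_lit 78) (nat_lit 152) (nat_lit 0) (XT.lf (nat_lit 0) (nat_lit 8007173726) (nat_lit 152) (nat_lit 3216341488) (nat_lit 0) (nat_lit 6092866380) (nat_lit 28) (nat_lit 5) (nat_lit 30) (nat_lit 4) (nat_lit 28) (nat_lit 4) (nat_lit 311) (nat_lit 236) (nat_lit 233)) (XT.lf (nat_lit 0) (nat_lit 11073252669) (nat_lit 152) (nat_lit 4678826335) (nat_lit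 152) (nat_lit 2186200241) (nat_lit 26) (nat_lit 4) (nat_lit 28) (nat_lit 5) (nat_lit 28) (nat_lit 4) (nat_lit 312) (nat_lit 236) (nat_lit 232)))) (XT.nd (nat_lit 156) (nat_lit 152) (nat_lit 0) (XT.nd (nat_lit 78) (nat_lit 152) (nat_lit 0) (XT.lf (nat_lit 0) (nat_lit 5069068493) (nat_lit 152) (nat_lit 11410061981) (nat_lit 0) (nat_lit 2114305527) (nat_lit 24) (nat_lit 5) (nat_lit 26) (nat_lit 4) (nat_lit 24) (nat_lit 4) (nat_lit 313) (nat_lit 236) (nat_lit 231)) (XT.lf (nat_lit 0) (nat_lit 2342466138) (nat_lit 152) (nat_lit 10202622469) (nat_lit 152) (nat_lit 6738585569) (nat_lit 22) (nat_lit 4) (nat_lit 24) (nat_lit 5) (nat_lit 24) (nat_lit 4) (nat_lit 314) (nat_lit 236) (nat_lit 230))) (XT.nd (nat_lit 78) (nat_lit 76) (nat_lit 0) (XT.lf (nat_lit 0) (nat_lit 264200723) (nat_lit 228) (nat_lit 3412732225) (nat_lit 76) (nat_lit 16334885957) (nat_lit 21) (nat_lit 5) (nat_lit 24) (nat_lit 5) (nat_lit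 22) (nat_lit 4) (nat_lit 315) (nat_lit 236) (nat_lit 229)) (XT.lf (nat_lit 0) (nat_lit 7388437574) (nat_lit 152) (nat_lit 10282745505) (nat_lit 0) (nat_lit 3105926733) (nat_lit 20) (nat_lit 5) (nat_lit 22) (nat_lit 4) (nat_lit 20) (nat_lit 4) (nat_lit 316) (nat_lit 236) (nat_lit 228)))))) (XT.nd (nat_lit 546) (nat_lit 304) (nat_lit 0) (XT.nd (nat_lit 234) (nat_lit 228) (nat_lit 0) (XT.nd (nat_lit 78) (nat_lit 152) (nat_lit 0) (XT.lf (nat_lit 0) (nat_lit 3216765088) (nat_lit 76) (nat_lit 11538497047) (nat_lit 76) (nat_lit 6828869728) (nat_lit 19) (nat_lit 4) (nat_lit 20) (nat_lit 5) (nat_lit 20) (nat_lit 4) (nat_lit 317) (nat_lit 236) (nat_lit 227)) (XT.nd (nat_lit 78) (nat_lit 152) (nat_lit 0) (XT.lf (nat_lit 0) (nat_lit 17220446186) (nat_lit 76) (nat_lit 5165329221) (nat_lit 76) (nat_lit 48924304) (nat_lit 19) (nat_lit 4) (nat_lit 20) (nat_lit 5) (nat_lit 20) (nat_lit 4) (nat_lit 318) (nat_lit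 236) (nat_lit 226)) (XT.lf (nat_lit 0) (nat_lit 6824027155) (nat_lit 152) (nat_lit 15024501603) (nat_lit 0) (nat_lit 1480520210) (nat_lit 17) (nat_lit 5) (nat_lit 19) (nat_lit 4) (nat_lit 17) (nat_lit 4) (nat_lit 319) (nat_lit 236) (nat_lit 225)))) (XT.nd (nat_lit 156) (nat_lit 152) (nat_lit 0) (XT.nd (nat_lit 78) (nat_lit 76) (nat_lit 0) (XT.lf (nat_lit 0) (nat_lit 13948044985) (nat_lit 152) (nat_lit 2076526636) (nat_lit 0) (nat_lit 8246325154) (nat_lit 17) (nat_lit 5) (nat_lit 19) (nat_lit 4) (nat_lit 17) (nat_lit 4) (nat_lit 320) (nat_lit 236) (nat_lit 224)) (XT.lf (nat_lit 0) (nat_lit 11393448657) (nat_lit 76) (nat_lit 9955839386) (nat_lit 76) (nat_lit 3912964425) (nat_lit 16) (nat_lit 4) (nat_lit 17) (nat_lit 5) (nat_lit 17) (nat_lit 4) (nat_lit 321) (nat_lit 236) (nat_lit 223))) (XT.nd (nat_lit 78) (nat_lit 76) (nat_lit 0) (XT.lf (nat_lit 0) (nat_lit 2599407081) (nat_lit 152) (nat_lit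 1090988234) (nat_lit 76) (nat_lit 22616901863) (nat_lit 15) (nat_lit 5) (nat_lit 17) (nat_lit 5) (nat_lit 16) (nat_lit 4) (nat_lit 322) (nat_lit 236) (nat_lit 222)) (XT.lf (nat_lit 0) (nat_lit 9326540023) (nat_lit 152) (nat_lit 15234030610) (nat_lit 0) (nat_lit 2843799860) (nat_lit 14) (nat_lit 5) (nat_lit 16) (nat_lit 4) (nat_lit 14) (nat_lit 4) (nat_lit 323) (nat_lit 236) (nat_lit 221))))) (XT.nd (nat_lit 234) (nat_lit 228) (nat_lit 0) (XT.nd (nat_lit 78) (nat_lit 76) (nat_lit 0) (XT.lf (nat_lit 0) (nat_lit 16266729690) (nat_lit 152) (nat_lit 2795435080) (nat_lit 0) (nat_lit 9497870471) (nat_lit 14) (nat_lit 5) (nat_lit 16) (nat_lit 4) (nat_lit 14) (nat_lit 4) (nat_lit 324) (nat_lit 236) (nat_lit 220)) (XT.nd (nat_lit 78) (nat_lit 0) (nat_lit 0) (XT.lf (nat_lit 0) (nat_lit 10158900167) (nat_lit 76) (nat_lit 13328977538) (nat_lit 76) (nat_lit 6287623979) (nat_lit 13) (nat_lit 4) (nat_lit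 14) (nat_lit 5) (nat_lit 14) (nat_lit 4) (nat_lit 325) (nat_lit 236) (nat_lit 219)) (XT.lf (nat_lit 0) (nat_lit 23523668091) (nat_lit 76) (nat_lit 7416439878) (nat_lit 76) (nat_lit 115567901) (nat_lit 13) (nat_lit 4) (nat_lit 14) (nat_lit 5) (nat_lit 14) (nat_lit 4) (nat_lit 326) (nat_lit 236) (nat_lit 218)))) (XT.nd (nat_lit 156) (nat_lit 76) (nat_lit 0) (XT.nd (nat_lit 78) (nat_lit 0) (nat_lit 0) (XT.lf (nat_lit 0) (nat_lit 4906686154) (nat_lit 76) (nat_lit 1228643170) (nat_lit 152) (nat_lit 26265893074) (nat_lit 11) (nat_lit 5) (nat_lit 12) (nat_lit 5) (nat_lit 13) (nat_lit 4) (nat_lit 327) (nat_lit 236) (nat_lit 217)) (XT.lf (nat_lit 0) (nat_lit 12676008952) (nat_lit 152) (nat_lit 16019357743) (nat_lit 0) (nat_lit 5119287368) (nat_lit 11) (nat_lit 5) (nat_lit 13) (nat_lit 4) (nat_lit 11) (nat_lit 4) (nat_lit 328) (nat_lit 236) (nat_lit 216))) (XT.nd (nat_lit 78) (nat_lit 76) (nat_lit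 0) (XT.lf (nat_lit 0) (nat_lit 19413893010) (nat_lit 152) (nat_lit 4249269455) (nat_lit 0) (nat_lit 11639519225) (nat_lit 11) (nat_lit 5) (nat_lit 13) (nat_lit 4) (nat_lit 11) (nat_lit 4) (nat_lit 329) (nat_lit 236) (nat_lit 215)) (XT.lf (nat_lit 0) (nat_lit 8011904218) (nat_lit 76) (nat_lit 18418324717) (nat_lit 76) (nat_lit 10436663121) (nat_lit 10) (nat_lit 4) (nat_lit 11) (nat_lit 5) (nat_lit 11) (nat_lit 4) (nat_lit 330) (nat_lit 236) (nat_lit 214))))))) (XT.nd (nat_lit 1092) (nat_lit 228) (nat_lit 0) (XT.nd (nat_lit 546) (nat_lit 152) (nat_lit 0) (XT.nd (nat_lit 234) (nat_lit 76) (nat_lit 0) (XT.nd (nat_lit 78) (nat_lit 152) (nat_lit 0) (XT.lf (nat_lit 0) (nat_lit 20728447656) (nat_lit 76) (nat_lit 12981299810) (nat_lit 76) (nat_lit 4802221251) (nat_lit 10) (nat_lit 4) (nat_lit 11) (nat_lit 5) (nat_lit 11) (nat_lit 4) (nat_lit 331) (nat_lit 236) (nat_lit 213)) (XT.nd (nat_lit 78) (nat_lit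 76) (nat_lit 0) (XT.lf (nat_lit 0) (nat_lit 965821240) (nat_lit 152) (nat_lit 6406477594) (nat_lit 76) (nat_lit 32870495407) (nat_lit 9) (nat_lit 5) (nat_lit 11) (nat_lit 5) (nat_lit 10) (nat_lit 4) (nat_lit 332) (nat_lit 236) (nat_lit 212)) (XT.lf (nat_lit 0) (nat_lit 5369741779) (nat_lit 76) (nat_lit 1485381125) (nat_lit 152) (nat_lit 35205670060) (nat_lit 8) (nat_lit 5) (nat_lit 9) (nat_lit 5) (nat_lit 10) (nat_lit 4) (nat_lit 333) (nat_lit 236) (nat_lit 211)))) (XT.nd (nat_lit 156) (nat_lit 76) (nat_lit 0) (XT.nd (nat_lit 78) (nat_lit 0) (nat_lit 0) (XT.lf (nat_lit 0) (nat_lit 13032898997) (nat_lit 152) (nat_lit 26366905409) (nat_lit 0) (nat_lit 4570089373) (nat_lit 8) (nat_lit 5) (nat_lit 10) (nat_lit 4) (nat_lit 8) (nat_lit 4) (nat_lit 334) (nat_lit 236) (nat_lit 210)) (XT.lf (nat_lit 0) (nat_lit 19422430163) (nat_lit 152) (nat_lit 15753019188) (nat_lit 0) (nat_lit 10801935662) (nat_lit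 8) (nat_lit 5) (nat_lit 10) (nat_lit 4) (nat_lit 8) (nat_lit 4) (nat_lit 335) (nat_lit 236) (nat_lit 209))) (XT.nd (nat_lit 78) (nat_lit 76) (nat_lit 0) (XT.lf (nat_lit 0) (nat_lit 26024651180) (nat_lit 152) (nat_lit 4809842973) (nat_lit 0) (nat_lit 17253980605) (nat_lit 8) (nat_lit 5) (nat_lit 10) (nat_lit 4) (nat_lit 8) (nat_lit 4) (nat_lit 336) (nat_lit 236) (nat_lit 208)) (XT.lf (nat_lit 0) (nat_lit 6617815838) (nat_lit 76) (nat_lit 26301080277) (nat_lit 76) (nat_lit 17387384870) (nat_lit 7) (nat_lit 4) (nat_lit 8) (nat_lit 5) (nat_lit 8) (nat_lit 4) (nat_lit 337) (nat_lit 236) (nat_lit 207))))) (XT.nd (nat_lit 234) (nat_lit 152) (nat_lit 0) (XT.nd (nat_lit 78) (nat_lit 0) (nat_lit 0) (XT.lf (nat_lit 0) (nat_lit 18531053827) (nat_lit 76) (nat_lit 21577662892) (nat_lit 76) (nat_lit 12527753359) (nat_lit 7) (nat_lit 4) (nat_lit 8) (nat_lit 5) (nat_lit 8) (nat_lit 4) (nat_lit 338) (nat_lit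 236) (nat_lit 206)) (XT.nd (nat_lit 78) (nat_lit 0) (nat_lit 0) (XT.lf (nat_lit 0) (nat_lit 30862510537) (nat_lit 76) (nat_lit 16701565750) (nat_lit 76) (nat_lit 7521928478) (nat_lit 7) (nat_lit 4) (nat_lit 8) (nat_lit 5) (nat_lit 8) (nat_lit 4) (nat_lit 339) (nat_lit 236) (nat_lit 205)) (XT.lf (nat_lit 0) (nat_lit 43641546580) (nat_lit 76) (nat_lit 11661179096) (nat_lit 76) (nat_lit 2357991597) (nat_lit 7) (nat_lit 4) (nat_lit 8) (nat_lit 5) (nat_lit 8) (nat_lit 4) (nat_lit 340) (nat_lit 236) (nat_lit 204)))) (XT.nd (nat_lit 156) (nat_lit 0) (nat_lit 0) (XT.nd (nat_lit 78) (nat_lit 76) (nat_lit 0) (XT.lf (nat_lit 0) (nat_lit 2918273017) (nat_lit 152) (nat_lit 3496760157) (nat_lit 76) (nat_lit 53950846379) (nat_lit 6) (nat_lit 5) (nat_lit 8) (nat_lit 5) (nat_lit 7) (nat_lit 4) (nat_lit 341) (nat_lit 236) (nat_lit 203)) (XT.lf (nat_lit 0) (nat_lit 7519780784) (nat_lit 76) (nat_lit 880563484)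 (nat_lit 152) (nat_lit 54805547220) (nat_lit 5) (nat_lit 5) (nat_lit 6) (nat_lit 5) (nat_lit 7) (nat_lit 4) (nat_lit 342) (nat_lit 236) (nat_lit 202))) (XT.nd (nat_lit 78) (nat_lit 0) (nat_lit 0) (XT.lf (nat_lit 0) (nat_lit 14160064947) (nat_lit 152) (nat_lit 47226560831) (nat_lit 0) (nat_lit 4801185905) (nat_lit 5) (nat_lit 5) (nat_lit 7) (nat_lit 4) (nat_lit 5) (nat_lit 4) (nat_lit 343) (nat_lit 236) (nat_lit 201)) (XT.lf (nat_lit 0) (nat_lit 20140275761) (nat_lit 152) (nat_lit 38497878199) (nat_lit 0) (nat_lit 10682712178) (nat_lit 5) (nat_lit 5) (nat_lit 7) (nat_lit 4) (nat_lit 5) (nat_lit 4) (nat_lit 344) (nat_lit 236) (nat_lit 200)))))) (XT.nd (nat_lit 546) (nat_lit 152) (nat_lit 0) (XT.nd (nat_lit 234) (nat_lit 76) (nat_lit 0) (XT.nd (nat_lit 78) (nat_lit 0) (nat_lit 0) (XT.lf (nat_lit 0) (nat_lit 26346750793) (nat_lit 152) (nat_lit 29470815715) (nat_lit 0) (nat_lit 16795201932) (nat_lit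 5) (nat_lit 5) (nat_lit 7) (nat_lit 4) (nat_lit 5) (nat_lit 4) (nat_lit 345) (nat_lit 236) (nat_lit 199)) (XT.nd (nat_lit 78) (nat_lit 0) (nat_lit 0) (XT.lf (nat_lit 0) (nat_lit 32794267364) (nat_lit 152) (nat_lit 20123880374) (nat_lit 0) (nat_lit 23153208714) (nat_lit 5) (nat_lit 5) (nat_lit 7) (nat_lit 4) (nat_lit 5) (nat_lit 4) (nat_lit 346) (nat_lit 236) (nat_lit 198)) (XT.lf (nat_lit 0) (nat_lit 39498176704) (nat_lit 152) (nat_lit 10434817567) (nat_lit 0) (nat_lit 29771870637) (nat_lit 5) (nat_lit 5) (nat_lit 7) (nat_lit 4) (nat_lit 5) (nat_lit 4) (nat_lit 347) (nat_lit 236) (nat_lit 197)))) (XT.nd (nat_lit 156) (nat_lit 0) (nat_lit 0) (XT.nd (nat_lit 78) (nat_lit 76) (nat_lit 0) (XT.lf (nat_lit 0) (nat_lit 46474440502) (nat_lit 152) (nat_lit 380558097) (nat_lit 0) (nat_lit 36666946418) (nat_lit 5) (nat_lit 5) (nat_lit 7) (nat_lit 4) (nat_lit 5) (nat_lit 4) (nat_lit 348) (nat_lit 236)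 (nat_lit 196)) (XT.lf (nat_lit 0) (nat_lit 10263106929) (nat_lit 76) (nat_lit 43575217242) (nat_lit 76) (nat_lit 33690401238) (nat_lit 4) (nat_lit 4) (nat_lit 5) (nat_lit 5) (nat_lit 5) (nat_lit 4) (nat_lit 349) (nat_lit 236) (nat_lit 195))) (XT.nd (nat_lit 78) (nat_lit 0) (nat_lit 0) (XT.lf (nat_lit 0) (nat_lit 21336585835) (nat_lit 76) (nat_lit 40179674571) (nat_lit 76) (nat_lit 30221218642) (nat_lit 4) (nat_lit 4) (nat_lit 5) (nat_lit 5) (nat_lit 5) (nat_lit 4) (nat_lit 350) (nat_lit 236) (nat_lit 194)) (XT.lf (nat_lit 0) (nat_lit 32858670191) (nat_lit 76) (nat_lit 36664128851) (nat_lit 76) (nat_lit 26635539661) (nat_lit 4) (nat_lit 4) (nat_lit 5) (nat_lit 5) (nat_lit 5) (nat_lit 4) (nat_lit 351) (nat_lit 236) (nat_lit 193))))) (XT.nd (nat_lit 312) (nat_lit 152) (nat_lit 0) (XT.nd (nat_lit 156) (nat_lit 0) (nat_lit 0) (XT.nd (nat_lit 78) (nat_lit 0) (nat_lit 0) (XT.lf (nat_lit 0) (nat_lit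 44856793533) (nat_lit 76) (nat_lit 33020209736) (nat_lit 76) (nat_lit 22924826964) (nat_lit 4) (nat_lit 4) (nat_lit 5) (nat_lit 5) (nat_lit 5) (nat_lit 4) (nat_lit 352) (nat_lit 236) (nat_lit 192)) (XT.lf (nat_lit 0) (nat_lit 57359522821) (nat_lit 76) (nat_lit 29239241228) (nat_lit 76) (nat_lit 19080245520) (nat_lit 4) (nat_lit 4) (nat_lit 5) (nat_lit 5) (nat_lit 5) (nat_lit 4) (nat_lit 353) (nat_lit 236) (nat_lit 191))) (XT.nd (nat_lit 78) (nat_lit 0) (nat_lit 0) (XT.lf (nat_lit 0) (nat_lit 70396626458) (nat_lit 76) (nat_lit 25312221020) (nat_lit 76) (nat_lit 15092641564) (nat_lit 4) (nat_lit 4) (nat_lit 5) (nat_lit 5) (nat_lit 5) (nat_lit 4) (nat_lit 354) (nat_lit 236) (nat_lit 190)) (XT.lf (nat_lit 0) (nat_lit 83999145166) (nat_lit 76) (nat_lit 21229799065) (nat_lit 76) (nat_lit 10952520801) (nat_lit 4) (nat_lit 4) (nat_lit 5) (nat_lit 5) (nat_lit 5) (nat_lit 4) (nat_lit 355) (nat_lit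 236) (nat_lit 189)))) (XT.nd (nat_lit 156) (nat_lit 152) (nat_lit 0) (XT.nd (nat_lit 78) (nat_lit 0) (nat_lit 0) (XT.lf (nat_lit 0) (nat_lit 98199465895) (nat_lit 76) (nat_lit 16982255310) (nat_lit 76) (nat_lit 6650025800) (nat_lit 4) (nat_lit 4) (nat_lit 5) (nat_lit 5) (nat_lit 5) (nat_lit 4) (nat_lit 356) (nat_lit 236) (nat_lit 188)) (XT.lf (nat_lit 0) (nat_lit 113031398933) (nat_lit 76) (nat_lit 12559476556) (nat_lit 76) (nat_lit 2174912527) (nat_lit 4) (nat_lit 4) (nat_lit 5) (nat_lit 5) (nat_lit 5) (nat_lit 4) (nat_lit 357) (nat_lit 236) (nat_lit 187))) (XT.nd (nat_lit 78) (nat_lit 76) (nat_lit 0) (XT.lf (nat_lit 0) (nat_lit 2435012527) (nat_lit 152) (nat_lit 5491330998) (nat_lit 76) (nat_lit 126070657027) (nat_lit 3) (nat_lit 5) (nat_lit 5) (nat_lit 5) (nat_lit 4) (nat_lit 4) (nat_lit 358) (nat_lit 236) (nat_lit 186)) (XT.lf (nat_lit 0) (nat_lit 4202052168) (nat_lit 76) (nat_lit 3031409678)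 (nat_lit 152) (nat_lit 133305581843) (nat_lit 2) (nat_lit 5) (nat_lit 3) (nat_lit 5) (nat_lit 4) (nat_lit 4) (nat_lit 359) (nat_lit 236) (nat_lit 185))))))))
noncomputable def xc16 : XT := (XT.nd (nat_lit 38064) (nat_lit 0) (nat_lit 152) (XT.nd (nat_lit 36972) (nat_lit 0) (nat_lit 836) (XT.nd (nat_lit 36426) (nat_lit 0) (nat_lit 1824) (XT.nd (nat_lit 234) (nat_lit 0) (nat_lit 0) (XT.nd (nat_lit 78) (nat_lit 0) (nat_lit 0) (XT.lf (nat_lit 0) (nat_lit 12312195894) (nat_lit 152) (nat_lit 133003062085) (nat_lit 0) (nat_lit 2091726083) (nat_lit 2) (nat_lit 5) (nat_lit 4) (nat_lit 4) (nat_lit 2) (nat_lit 4) (nat_lit 360) (nat_lit 236) (nat_lit 184)) (XT.nd (nat_lit 78) (nat_lit 0) (nat_lit 0) (XT.lf (nat_lit 0) (nat_lit 17640233092) (nat_lit 152) (nat_lit 129600271441) (nat_lit 0) (nat_lit 7377961593) (nat_lit 2) (nat_lit 5) (nat_lit 4) (nat_lit 4) (nat_lit 2) (nat_lit 4) (nat_lit 361) (nat_lit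 236) (nat_lit 183)) (XT.lf (nat_lit 0) (nat_lit 23201119478) (nat_lit 152) (nat_lit 126091377941) (nat_lit 0) (nat_lit 12899036847) (nat_lit 2) (nat_lit 5) (nat_lit 4) (nat_lit 4) (nat_lit 2) (nat_lit 4) (nat_lit 362) (nat_lit 236) (nat_lit 182)))) (XT.nd (nat_lit 156) (nat_lit 0) (nat_lit 0) (XT.nd (nat_lit 78) (nat_lit 0) (nat_lit 0) (XT.lf (nat_lit 0) (nat_lit 29008095257) (nat_lit 152) (nat_lit 122468027079) (nat_lit 0) (nat_lit 18668097263) (nat_lit 2) (nat_lit 5) (nat_lit 4) (nat_lit 4) (nat_lit 2) (nat_lit 4) (nat_lit 363) (nat_lit 236) (nat_lit 181)) (XT.lf (nat_lit 0) (nat_lit 35074986563) (nat_lit 152) (nat_lit 118721591827) (nat_lit 0) (nat_lit 24698878700) (nat_lit 2) (nat_lit 5) (nat_lit 4) (nat_lit 4) (nat_lit 2) (nat_lit 4) (nat_lit 364) (nat_lit 236) (nat_lit 180))) (XT.nd (nat_lit 78) (nat_lit 0) (nat_lit 0) (XT.lf (nat_lit 0) (nat_lit 41416238375) (nat_lit 152) (nat_lit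 114843152103) (nat_lit 0) (nat_lit 31005740159) (nat_lit 2) (nat_lit 5) (nat_lit 4) (nat_lit 4) (nat_lit 2) (nat_lit 4) (nat_lit 365) (nat_lit 236) (nat_lit 179)) (XT.lf (nat_lit 0) (nat_lit 48046948911) (nat_lit 152) (nat_lit 110823473525) (nat_lit 0) (nat_lit 37603697979) (nat_lit 2) (nat_lit 5) (nat_lit 4) (nat_lit 4) (nat_lit 2) (nat_lit 4) (nat_lit 366) (nat_lit 236) (nat_lit 178))))) (XT.nd (nat_lit 234) (nat_lit 456) (nat_lit 0) (XT.nd (nat_lit 78) (nat_lit 304) (nat_lit 0) (XT.lf (nat_lit 0) (nat_lit 1211552892) (nat_lit 228) (nat_lit 4903369510) (nat_lit 0) (nat_lit 1211552892) (nat_lit 36) (nat_lit 5) (nat_lit 39) (nat_lit 4) (nat_lit 36) (nat_lit 4) (nat_lit 306) (nat_lit 237) (nat_lit 237)) (XT.nd (nat_lit 78) (nat_lit 152) (nat_lit 0) (XT.lf (nat_lit 0) (nat_lit 4244221187) (nat_lit 152) (nat_lit 5817532130) (nat_lit 152) (nat_lit 5071772419) (nat_lit 34) (nat_lit 4) (nat_lit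 36) (nat_lit 5) (nat_lit 36) (nat_lit 4) (nat_lit 307) (nat_lit 237) (nat_lit 236)) (XT.lf (nat_lit 0) (nat_lit 2269706257) (nat_lit 152) (nat_lit 12515508854) (nat_lit 0) (nat_lit 856107174) (nat_lit 32) (nat_lit 5) (nat_lit 34) (nat_lit 4) (nat_lit 32) (nat_lit 4) (nat_lit 308) (nat_lit 237) (nat_lit 235)))) (XT.nd (nat_lit 156) (nat_lit 228) (nat_lit 0) (XT.nd (nat_lit 78) (nat_lit 76) (nat_lit 0) (XT.lf (nat_lit 0) (nat_lit 1351178412) (nat_lit 152) (nat_lit 8447242274) (nat_lit 152) (nat_lit 6376918879) (nat_lit 30) (nat_lit 4) (nat_lit 32) (nat_lit 5) (nat_lit 32) (nat_lit 4) (nat_lit 309) (nat_lit 237) (nat_lit 234)) (XT.lf (nat_lit 0) (nat_lit 823431278) (nat_lit 228) (nat_lit 1024209625) (nat_lit 76) (nat_lit 14891976144) (nat_lit 29) (nat_lit 5) (nat_lit 32) (nat_lit 5) (nat_lit 30) (nat_lit 4) (nat_lit 310) (nat_lit 237) (nat_lit 233))) (XT.nd (nat_lit 78) (nat_lit 152) (nat_lit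 0) (XT.lf (nat_lit 0) (nat_lit 8186055966) (nat_lit 152) (nat_lit 4155732601) (nat_lit 0) (nat_lit 4990479819) (nat_lit 28) (nat_lit 5) (nat_lit 30) (nat_lit 4) (nat_lit 28) (nat_lit 4) (nat_lit 311) (nat_lit 237) (nat_lit 232)) (XT.lf (nat_lit 0) (nat_lit 9903463466) (nat_lit 152) (nat_lit 5900453112) (nat_lit 152) (nat_lit 2154097205) (nat_lit 26) (nat_lit 4) (nat_lit 28) (nat_lit 5) (nat_lit 28) (nat_lit 4) (nat_lit 312) (nat_lit 237) (nat_lit 231)))))) (XT.nd (nat_lit 546) (nat_lit 304) (nat_lit 0) (XT.nd (nat_lit 234) (nat_lit 380) (nat_lit 0) (XT.nd (nat_lit 78) (nat_lit 152) (nat_lit 0) (XT.lf (nat_lit 0) (nat_lit 4960766442) (nat_lit 152) (nat_lit 12842368098) (nat_lit 0) (nat_lit 814253762) (nat_lit 24) (nat_lit 5) (nat_lit 26) (nat_lit 4) (nat_lit 24) (nat_lit 4) (nat_lit 313) (nat_lit 237) (nat_lit 230)) (XT.nd (nat_lit 78) (nat_lit 0) (nat_lit 0) (XT.lf (nat_lit 0) (nat_lit 677116364)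 (nat_lit 152) (nat_lit 11632939779) (nat_lit 152) (nat_lit 7001404305) (nat_lit 22) (nat_lit 4) (nat_lit 24) (nat_lit 5) (nat_lit 24) (nat_lit 4) (nat_lit 314) (nat_lit 237) (nat_lit 229)) (XT.lf (nat_lit 0) (nat_lit 14741606761) (nat_lit 152) (nat_lit 5197394131) (nat_lit 152) (nat_lit 103932186) (nat_lit 22) (nat_lit 4) (nat_lit 24) (nat_lit 5) (nat_lit 24) (nat_lit 4) (nat_lit 315) (nat_lit 237) (nat_lit 228)))) (XT.nd (nat_lit 156) (nat_lit 152) (nat_lit 0) (XT.nd (nat_lit 78) (nat_lit 76) (nat_lit 0) (XT.lf (nat_lit 0) (nat_lit 6883097849) (nat_lit 152) (nat_lit 12418488701) (nat_lit 0) (nat_lit 1510872686) (nat_lit 20) (nat_lit 5) (nat_lit 22) (nat_lit 4) (nat_lit 20) (nat_lit 4) (nat_lit 316) (nat_lit 237) (nat_lit 227)) (XT.lf (nat_lit 0) (nat_lit 850377798) (nat_lit 76) (nat_lit 13275920924) (nat_lit 76) (nat_lit 7496918163) (nat_lit 19) (nat_lit 4) (nat_lit 20) (nat_lit 5) (nat_lit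 20) (nat_lit 4) (nat_lit 317) (nat_lit 237) (nat_lit 226))) (XT.nd (nat_lit 78) (nat_lit 152) (nat_lit 0) (XT.lf (nat_lit 0) (nat_lit 14674879263) (nat_lit 76) (nat_lit 6984137467) (nat_lit 76) (nat_lit 817727469) (nat_lit 19) (nat_lit 4) (nat_lit 20) (nat_lit 5) (nat_lit 20) (nat_lit 4) (nat_lit 318) (nat_lit 237) (nat_lit 225)) (XT.lf (nat_lit 0) (nat_lit 5511947687) (nat_lit 76) (nat_lit 422691208) (nat_lit 152) (nat_lit 17440767561) (nat_lit 17) (nat_lit 5) (nat_lit 18) (nat_lit 5) (nat_lit 19) (nat_lit 4) (nat_lit 319) (nat_lit 237) (nat_lit 224))))) (XT.nd (nat_lit 234) (nat_lit 152) (nat_lit 0) (XT.nd (nat_lit 78) (nat_lit 152) (nat_lit 0) (XT.lf (nat_lit 0) (nat_lit 12962644065) (nat_lit 152) (nat_lit 5081042899) (nat_lit 0) (nat_lit 6276470226) (nat_lit 17) (nat_lit 5) (nat_lit 19) (nat_lit 4) (nat_lit 17) (nat_lit 4) (nat_lit 320) (nat_lit 237) (nat_lit 223)) (XT.nd (nat_lit 78)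 (nat_lit 76) (nat_lit 0) (XT.lf (nat_lit 0) (nat_lit 8164376552) (nat_lit 76) (nat_lit 12080899809) (nat_lit 76) (nat_lit 5069816323) (nat_lit 16) (nat_lit 4) (nat_lit 17) (nat_lit 5) (nat_lit 17) (nat_lit 4) (nat_lit 321) (nat_lit 237) (nat_lit 222)) (XT.lf (nat_lit 0) (nat_lit 1379359533) (nat_lit 152) (nat_lit 4520421393) (nat_lit 76) (nat_lit 20463283035) (nat_lit 15) (nat_lit 5) (nat_lit 17) (nat_lit 5) (nat_lit 16) (nat_lit 4) (nat_lit 322) (nat_lit 237) (nat_lit 221)))) (XT.nd (nat_lit 156) (nat_lit 76) (nat_lit 0) (XT.nd (nat_lit 78) (nat_lit 0) (nat_lit 0) (XT.lf (nat_lit 0) (nat_lit 7967450977) (nat_lit 152) (nat_lit 18922846715) (nat_lit 0) (nat_lit 574029741) (nat_lit 14) (nat_lit 5) (nat_lit 16) (nat_lit 4) (nat_lit 14) (nat_lit 4) (nat_lit 323) (nat_lit 237) (nat_lit 220)) (XT.lf (nat_lit 0) (nat_lit 14827784694) (nat_lit 152) (nat_lit 6632752059) (nat_lit 0) (nat_lit 7161869118)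 (nat_lit 14) (nat_lit 5) (nat_lit 16) (nat_lit 4) (nat_lit 14) (nat_lit 4) (nat_lit 324) (nat_lit 237) (nat_lit 219))) (XT.nd (nat_lit 78) (nat_lit 0) (nat_lit 0) (XT.lf (nat_lit 0) (nat_lit 6100968930) (nat_lit 76) (nat_lit 15832903175) (nat_lit 76) (nat_lit 7907469181) (nat_lit 13) (nat_lit 4) (nat_lit 14) (nat_lit 5) (nat_lit 14) (nat_lit 4) (nat_lit 325) (nat_lit 237) (nat_lit 218)) (XT.lf (nat_lit 0) (nat_lit 19328361496) (nat_lit 76) (nat_lit 9983988636) (nat_lit 76) (nat_lit 1811394243) (nat_lit 13) (nat_lit 4) (nat_lit 14) (nat_lit 5) (nat_lit 14) (nat_lit 4) (nat_lit 326) (nat_lit 237) (nat_lit 217))))))) (XT.nd (nat_lit 1092) (nat_lit 228) (nat_lit 0) (XT.nd (nat_lit 546) (nat_lit 152) (nat_lit 0) (XT.nd (nat_lit 234) (nat_lit 152) (nat_lit 0) (XT.nd (nat_lit 78) (nat_lit 0) (nat_lit 0) (XT.lf (nat_lit 0) (nat_lit 440194185) (nat_lit 76) (nat_lit 3918514895) (nat_lit 152) (nat_lit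 28114502537) (nat_lit 11) (nat_lit 5) (nat_lit 12) (nat_lit 5) (nat_lit 13) (nat_lit 4) (nat_lit 327) (nat_lit 237) (nat_lit 216)) (XT.nd (nat_lit 78) (nat_lit 0) (nat_lit 0) (XT.lf (nat_lit 0) (nat_lit 10804151262) (nat_lit 152) (nat_lit 20661956943) (nat_lit 0) (nat_lit 2423406587) (nat_lit 11) (nat_lit 5) (nat_lit 13) (nat_lit 4) (nat_lit 11) (nat_lit 4) (nat_lit 328) (nat_lit 237) (nat_lit 215)) (XT.lf (nat_lit 0) (nat_lit 17475958413) (nat_lit 152) (nat_lit 9015654087) (nat_lit 0) (nat_lit 8887925927) (nat_lit 11) (nat_lit 5) (nat_lit 13) (nat_lit 4) (nat_lit 11) (nat_lit 4) (nat_lit 329) (nat_lit 237) (nat_lit 214)))) (XT.nd (nat_lit 156) (nat_lit 76) (nat_lit 0) (XT.nd (nat_lit 78) (nat_lit 0) (nat_lit 0) (XT.lf (nat_lit 0) (nat_lit 3030422038) (nat_lit 76) (nat_lit 21351056859) (nat_lit 76) (nat_lit 12565607410) (nat_lit 10) (nat_lit 4) (nat_lit 11) (nat_lit 5) (nat_lit 11) (nat_lit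 4) (nat_lit 330) (nat_lit 237) (nat_lit 213)) (XT.lf (nat_lit 0) (nat_lit 15632453906) (nat_lit 76) (nat_lit 15967509063) (nat_lit 76) (nat_lit 6994043459) (nat_lit 10) (nat_lit 4) (nat_lit 11) (nat_lit 5) (nat_lit 11) (nat_lit 4) (nat_lit 331) (nat_lit 237) (nat_lit 212))) (XT.nd (nat_lit 78) (nat_lit 76) (nat_lit 0) (XT.lf (nat_lit 0) (nat_lit 28641017160) (nat_lit 76) (nat_lit 10419191572) (nat_lit 76) (nat_lit 1266662963) (nat_lit 10) (nat_lit 4) (nat_lit 11) (nat_lit 5) (nat_lit 11) (nat_lit 4) (nat_lit 332) (nat_lit 237) (nat_lit 211)) (XT.lf (nat_lit 0) (nat_lit 4539819390) (nat_lit 152) (nat_lit 107231440) (nat_lit 76) (nat_lit 37501421904) (nat_lit 9) (nat_lit 5) (nat_lit 11) (nat_lit 5) (nat_lit 10) (nat_lit 4) (nat_lit 333) (nat_lit 237) (nat_lit 210))))) (XT.nd (nat_lit 234) (nat_lit 76) (nat_lit 0) (XT.nd (nat_lit 78) (nat_lit 0) (nat_lit 0) (XT.lf (nat_lit 0) (nat_lit 10631446251)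 (nat_lit 152) (nat_lit 32006480049) (nat_lit 0) (nat_lit 1422242147) (nat_lit 8) (nat_lit 5) (nat_lit 10) (nat_lit 4) (nat_lit 8) (nat_lit 4) (nat_lit 334) (nat_lit 237) (nat_lit 209)) (XT.nd (nat_lit 78) (nat_lit 0) (nat_lit 0) (XT.lf (nat_lit 0) (nat_lit 16968886341) (nat_lit 152) (nat_lit 21490839837) (nat_lit 0) (nat_lit 7609506163) (nat_lit 8) (nat_lit 5) (nat_lit 10) (nat_lit 4) (nat_lit 8) (nat_lit 4) (nat_lit 335) (nat_lit 237) (nat_lit 208)) (XT.lf (nat_lit 0) (nat_lit 23521496808) (nat_lit 152) (nat_lit 10641231250) (nat_lit 0) (nat_lit 14019091798) (nat_lit 8) (nat_lit 5) (nat_lit 10) (nat_lit 4) (nat_lit 8) (nat_lit 4) (nat_lit 336) (nat_lit 237) (nat_lit 207)))) (XT.nd (nat_lit 156) (nat_lit 0) (nat_lit 0) (XT.nd (nat_lit 78) (nat_lit 0) (nat_lit 0) (XT.lf (nat_lit 0) (nat_lit 579485971) (nat_lit 76) (nat_lit 29730963509) (nat_lit 76) (nat_lit 20092344374) (nat_lit 7) (nat_lit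 4) (nat_lit 8) (nat_lit 5) (nat_lit 8) (nat_lit 4) (nat_lit 337) (nat_lit 237) (nat_lit 206)) (XT.lf (nat_lit 0) (nat_lit 12406166312) (nat_lit 76) (nat_lit 25048273496) (nat_lit 76) (nat_lit 15279926622) (nat_lit 7) (nat_lit 4) (nat_lit 8) (nat_lit 5) (nat_lit 8) (nat_lit 4) (nat_lit 338) (nat_lit 237) (nat_lit 205))) (XT.nd (nat_lit 78) (nat_lit 0) (nat_lit 0) (XT.lf (nat_lit 0) (nat_lit 24655187167) (nat_lit 76) (nat_lit 20210964328) (nat_lit 76) (nat_lit 10319067225) (nat_lit 7) (nat_lit 4) (nat_lit 8) (nat_lit 5) (nat_lit 8) (nat_lit 4) (nat_lit 339) (nat_lit 237) (nat_lit 204)) (XT.lf (nat_lit 0) (nat_lit 37355712872) (nat_lit 76) (nat_lit 15207518600) (nat_lit 76) (nat_lit 5197954615) (nat_lit 7) (nat_lit 4) (nat_lit 8) (nat_lit 5) (nat_lit 8) (nat_lit 4) (nat_lit 340) (nat_lit 237) (nat_lit 203)))))) (XT.nd (nat_lit 546) (nat_lit 76) (nat_lit 0) (XT.nd (nat_lit 234) (nat_lit 0) (nat_lit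 0) (XT.nd (nat_lit 78) (nat_lit 76) (nat_lit 0) (XT.lf (nat_lit 0) (nat_lit 93738749) (nat_lit 152) (nat_lit 9931338022) (nat_lit 76) (nat_lit 50443297447) (nat_lit 6) (nat_lit 5) (nat_lit 8) (nat_lit 5) (nat_lit 7) (nat_lit 4) (nat_lit 341) (nat_lit 237) (nat_lit 202)) (XT.nd (nat_lit 78) (nat_lit 0) (nat_lit 0) (XT.lf (nat_lit 0) (nat_lit 883733735) (nat_lit 76) (nat_lit 4590201609) (nat_lit 152) (nat_lit 57837513897) (nat_lit 5) (nat_lit 5) (nat_lit 6) (nat_lit 5) (nat_lit 7) (nat_lit 4) (nat_lit 342) (nat_lit 237) (nat_lit 201)) (XT.lf (nat_lit 0) (nat_lit 11160736401) (nat_lit 152) (nat_lit 54003217051) (nat_lit 0) (nat_lit 1131610096) (nat_lit 5) (nat_lit 5) (nat_lit 7) (nat_lit 4) (nat_lit 5) (nat_lit 4) (nat_lit 343) (nat_lit 237) (nat_lit 200)))) (XT.nd (nat_lit 156) (nat_lit 0) (nat_lit 0) (XT.nd (nat_lit 78) (nat_lit 0) (nat_lit 0) (XT.lf (nat_lit 0) (nat_lit 17105461204) (nat_lit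 152) (nat_lit 45341877970) (nat_lit 0) (nat_lit 6982349621) (nat_lit 5) (nat_lit 5) (nat_lit 7) (nat_lit 4) (nat_lit 5) (nat_lit 4) (nat_lit 344) (nat_lit 237) (nat_lit 199)) (XT.lf (nat_lit 0) (nat_lit 23278140034) (nat_lit 152) (nat_lit 36378952202) (nat_lit 0) (nat_lit 13065518664) (nat_lit 5) (nat_lit 5) (nat_lit 7) (nat_lit 4) (nat_lit 5) (nat_lit 4) (nat_lit 345) (nat_lit 237) (nat_lit 198))) (XT.nd (nat_lit 78) (nat_lit 0) (nat_lit 0) (XT.lf (nat_lit 0) (nat_lit 29693469747) (nat_lit 152) (nat_lit 27093099447) (nat_lit 0) (nat_lit 19395600959) (nat_lit 5) (nat_lit 5) (nat_lit 7) (nat_lit 4) (nat_lit 5) (nat_lit 4) (nat_lit 346) (nat_lit 237) (nat_lit 197)) (XT.lf (nat_lit 0) (nat_lit 36366724936) (nat_lit 152) (nat_lit 17462210531) (nat_lit 0) (nat_lit 25987668132) (nat_lit 5) (nat_lit 5) (nat_lit 7) (nat_lit 4) (nat_lit 5) (nat_lit 4) (nat_lit 347) (nat_lit 237) (nat_lit 196)))))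 (XT.nd (nat_lit 234) (nat_lit 0) (nat_lit 0) (XT.nd (nat_lit 78) (nat_lit 76) (nat_lit 0) (XT.lf (nat_lit 0) (nat_lit 43313794305) (nat_lit 152) (nat_lit 7463354768) (nat_lit 0) (nat_lit 32857415580) (nat_lit 5) (nat_lit 5) (nat_lit 7) (nat_lit 4) (nat_lit 5) (nat_lit 4) (nat_lit 348) (nat_lit 237) (nat_lit 195)) (XT.nd (nat_lit 78) (nat_lit 0) (nat_lit 0) (XT.lf (nat_lit 0) (nat_lit 2985533147) (nat_lit 76) (nat_lit 47594384118) (nat_lit 76) (nat_lit 37064365468) (nat_lit 4) (nat_lit 4) (nat_lit 5) (nat_lit 5) (nat_lit 5) (nat_lit 4) (nat_lit 349) (nat_lit 237) (nat_lit 194)) (XT.lf (nat_lit 0) (nat_lit 14007759129) (nat_lit 76) (nat_lit 44223121488) (nat_lit 76) (nat_lit 33622969577) (nat_lit 4) (nat_lit 4) (nat_lit 5) (nat_lit 5) (nat_lit 5) (nat_lit 4) (nat_lit 350) (nat_lit 237) (nat_lit 193)))) (XT.nd (nat_lit 156) (nat_lit 0) (nat_lit 0) (XT.nd (nat_lit 78) (nat_lit 0) (nat_lit 0)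 (XT.lf (nat_lit 0) (nat_lit 25481031177) (nat_lit 76) (nat_lit 40730699618) (nat_lit 76) (nat_lit 30063754124) (nat_lit 4) (nat_lit 4) (nat_lit 5) (nat_lit 5) (nat_lit 5) (nat_lit 4) (nat_lit 351) (nat_lit 237) (nat_lit 192)) (XT.lf (nat_lit 0) (nat_lit 37432666606) (nat_lit 76) (nat_lit 37108803216) (nat_lit 76) (nat_lit 26378244787) (nat_lit 4) (nat_lit 4) (nat_lit 5) (nat_lit 5) (nat_lit 5) (nat_lit 4) (nat_lit 352) (nat_lit 237) (nat_lit 191))) (XT.nd (nat_lit 78) (nat_lit 0) (nat_lit 0) (XT.lf (nat_lit 0) (nat_lit 49891121691) (nat_lit 76) (nat_lit 33348808720) (nat_lit 76) (nat_lit 22557666543) (nat_lit 4) (nat_lit 4) (nat_lit 5) (nat_lit 5) (nat_lit 5) (nat_lit 4) (nat_lit 353) (nat_lit 237) (nat_lit 190)) (XT.lf (nat_lit 0) (nat_lit 62886059420) (nat_lit 76) (nat_lit 29441763762) (nat_lit 76) (nat_lit 18592922778) (nat_lit 4) (nat_lit 4) (nat_lit 5) (nat_lit 5) (nat_lit 5) (nat_lit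 4) (nat_lit 354) (nat_lit 237) (nat_lit 189))))))))
noncomputable def xc17 : XT := (XT.nd (nat_lit 37908) (nat_lit 0) (nat_lit 228) (XT.nd (nat_lit 36816) (nat_lit 0) (nat_lit 1140) (XT.nd (nat_lit 546) (nat_lit 0) (nat_lit 0) (XT.nd (nat_lit 234) (nat_lit 152) (nat_lit 0) (XT.nd (nat_lit 78) (nat_lit 0) (nat_lit 0) (XT.lf (nat_lit 0) (nat_lit 76448420121) (nat_lit 76) (nat_lit 25378365855) (nat_lit 76) (nat_lit 14474573625) (nat_lit 4) (nat_lit 4) (nat_lit 5) (nat_lit 5) (nat_lit 5) (nat_lit 4) (nat_lit 355) (nat_lit 237) (nat_lit 188)) (XT.nd (nat_lit 78) (nat_lit 0) (nat_lit 0) (XT.lf (nat_lit 0) (nat_lit 90610495130) (nat_lit 76) (nat_lit 21148940241) (nat_lit 76) (nat_lit 10192813491) (nat_lit 4) (nat_lit 4) (nat_lit 5) (nat_lit 5) (nat_lit 5) (nat_lit 4) (nat_lit 356) (nat_lit 237) (nat_lit 187)) (XT.lf (nat_lit 0) (nat_lit 105406003672) (nat_lit 76) (nat_lit 16743416859) (nat_lit 76)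 (nat_lit 5737447710) (nat_lit 4) (nat_lit 4) (nat_lit 5) (nat_lit 5) (nat_lit 5) (nat_lit 4) (nat_lit 357) (nat_lit 237) (nat_lit 186)))) (XT.nd (nat_lit 156) (nat_lit 76) (nat_lit 0) (XT.nd (nat_lit 78) (nat_lit 76) (nat_lit 0) (XT.lf (nat_lit 0) (nat_lit 120870173148) (nat_lit 76) (nat_lit 12151306368) (nat_lit 76) (nat_lit 1097868267) (nat_lit 4) (nat_lit 4) (nat_lit 5) (nat_lit 5) (nat_lit 5) (nat_lit 4) (nat_lit 358) (nat_lit 237) (nat_lit 185)) (XT.lf (nat_lit 0) (nat_lit 3664049681) (nat_lit 152) (nat_lit 3660625772) (nat_lit 76) (nat_lit 133338773612) (nat_lit 3) (nat_lit 5) (nat_lit 5) (nat_lit 5) (nat_lit 4) (nat_lit 4) (nat_lit 359) (nat_lit 237) (nat_lit 184))) (XT.nd (nat_lit 78) (nat_lit 0) (nat_lit 0) (XT.lf (nat_lit 0) (nat_lit 6457079359) (nat_lit 76) (nat_lit 2212271243) (nat_lit 152) (nat_lit 138864244593) (nat_lit 2) (nat_lit 5) (nat_lit 3) (nat_lit 5) (nat_lit 4) (nat_lit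 4) (nat_lit 360) (nat_lit 237) (nat_lit 183)) (XT.lf (nat_lit 0) (nat_lit 13959754939) (nat_lit 152) (nat_lit 137683696892) (nat_lit 0) (nat_lit 3102757045) (nat_lit 2) (nat_lit 5) (nat_lit 4) (nat_lit 4) (nat_lit 2) (nat_lit 4) (nat_lit 361) (nat_lit 237) (nat_lit 182))))) (XT.nd (nat_lit 234) (nat_lit 0) (nat_lit 0) (XT.nd (nat_lit 78) (nat_lit 0) (nat_lit 0) (XT.lf (nat_lit 0) (nat_lit 19505053556) (nat_lit 152) (nat_lit 134204553301) (nat_lit 0) (nat_lit 8610140299) (nat_lit 2) (nat_lit 5) (nat_lit 4) (nat_lit 4) (nat_lit 2) (nat_lit 4) (nat_lit 362) (nat_lit 237) (nat_lit 181)) (XT.nd (nat_lit 78) (nat_lit 0) (nat_lit 0) (XT.lf (nat_lit 0) (nat_lit 25297183842) (nat_lit 152) (nat_lit 130609535684) (nat_lit 0) (nat_lit 14366160715) (nat_lit 2) (nat_lit 5) (nat_lit 4) (nat_lit 4) (nat_lit 2) (nat_lit 4) (nat_lit 363) (nat_lit 237) (nat_lit 180)) (XT.lf (nat_lit 0) (nat_lit 31349936582)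 (nat_lit 152) (nat_lit 126890084476) (nat_lit 0) (nat_lit 20384523103) (nat_lit 2) (nat_lit 5) (nat_lit 4) (nat_lit 4) (nat_lit 2) (nat_lit 4) (nat_lit 364) (nat_lit 237) (nat_lit 179)))) (XT.nd (nat_lit 35880) (nat_lit 0) (nat_lit 2812) (XT.nd (nat_lit 78) (nat_lit 0) (nat_lit 0) (XT.lf (nat_lit 0) (nat_lit 37677723093) (nat_lit 152) (nat_lit 123037343841) (nat_lit 0) (nat_lit 26679556898) (nat_lit 2) (nat_lit 5) (nat_lit 4) (nat_lit 4) (nat_lit 2) (nat_lit 4) (nat_lit 365) (nat_lit 237) (nat_lit 178)) (XT.lf (nat_lit 0) (nat_lit 44295609534) (nat_lit 152) (nat_lit 119042140587) (nat_lit 0) (nat_lit 33266250275) (nat_lit 2) (nat_lit 5) (nat_lit 4) (nat_lit 4) (nat_lit 2) (nat_lit 4) (nat_lit 366) (nat_lit 237) (nat_lit 177))) (XT.nd (nat_lit 78) (nat_lit 152) (nat_lit 0) (XT.lf (nat_lit 0) (nat_lit 1200958741) (nat_lit 228) (nat_lit 4478341279) (nat_lit 0) (nat_lit 1200958741) (nat_lit 41)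 (nat_lit 5) (nat_lit 44) (nat_lit 4) (nat_lit 41) (nat_lit 4) (nat_lit 304) (nat_lit 238) (nat_lit 238)) (XT.lf (nat_lit 0) (nat_lit 4925326741) (nat_lit 152) (nat_lit 5038889231) (nat_lit 152) (nat_lit 4232350104) (nat_lit 39) (nat_lit 4) (nat_lit 41) (nat_lit 5) (nat_lit 41) (nat_lit 4) (nat_lit 305) (nat_lit 238) (nat_lit 237)))))) (XT.nd (nat_lit 546) (nat_lit 684) (nat_lit 0) (XT.nd (nat_lit 234) (nat_lit 456) (nat_lit 0) (XT.nd (nat_lit 78) (nat_lit 304) (nat_lit 0) (XT.lf (nat_lit 0) (nat_lit 3072931837) (nat_lit 228) (nat_lit 10039940264) (nat_lit 0) (nat_lit 1544124430) (nat_lit 36) (nat_lit 5) (nat_lit 39) (nat_lit 4) (nat_lit 36) (nat_lit 4) (nat_lit 306) (nat_lit 238) (nat_lit 236)) (XT.nd (nat_lit 78) (nat_lit 152) (nat_lit 0) (XT.lf (nat_lit 0) (nat_lit 3779862204) (nat_lit 152) (nat_lit 6800375708) (nat_lit 152) (nat_lit 4561320956) (nat_lit 34) (nat_lit 4) (nat_lit 36) (nat_lit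 5) (nat_lit 36) (nat_lit 4) (nat_lit 307) (nat_lit 238) (nat_lit 235)) (XT.lf (nat_lit 0) (nat_lit 2425072150) (nat_lit 76) (nat_lit 205742107) (nat_lit 152) (nat_lit 13022618847) (nat_lit 32) (nat_lit 5) (nat_lit 33) (nat_lit 5) (nat_lit 34) (nat_lit 4) (nat_lit 308) (nat_lit 238) (nat_lit 234)))) (XT.nd (nat_lit 156) (nat_lit 228) (nat_lit 0) (XT.nd (nat_lit 78) (nat_lit 76) (nat_lit 0) (XT.lf (nat_lit 0) (nat_lit 407124576) (nat_lit 152) (nat_lit 9620174816) (nat_lit 152) (nat_lit 6164159213) (nat_lit 30) (nat_lit 4) (nat_lit 32) (nat_lit 5) (nat_lit 32) (nat_lit 4) (nat_lit 309) (nat_lit 238) (nat_lit 233)) (XT.lf (nat_lit 0) (nat_lit 913426504) (nat_lit 228) (nat_lit 2197428109) (nat_lit 76) (nat_lit 13648416726) (nat_lit 29) (nat_lit 5) (nat_lit 32) (nat_lit 5) (nat_lit 30) (nat_lit 4) (nat_lit 310) (nat_lit 238) (nat_lit 232))) (XT.nd (nat_lit 78) (nat_lit 152) (nat_lit 0) (XT.lf (nat_lit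 0) (nat_lit 8136492448) (nat_lit 152) (nat_lit 5567614413) (nat_lit 0) (nat_lit 3652038985) (nat_lit 28) (nat_lit 5) (nat_lit 30) (nat_lit 4) (nat_lit 28) (nat_lit 4) (nat_lit 311) (nat_lit 238) (nat_lit 231)) (XT.lf (nat_lit 0) (nat_lit 8261861138) (nat_lit 152) (nat_lit 7366426182) (nat_lit 152) (nat_lit 2357420567) (nat_lit 26) (nat_lit 4) (nat_lit 28) (nat_lit 5) (nat_lit 28) (nat_lit 4) (nat_lit 312) (nat_lit 238) (nat_lit 230))))) (XT.nd (nat_lit 234) (nat_lit 380) (nat_lit 0) (XT.nd (nat_lit 78) (nat_lit 152) (nat_lit 0) (XT.lf (nat_lit 0) (nat_lit 3884651083) (nat_lit 76) (nat_lit 742555900) (nat_lit 152) (nat_lit 14021992225) (nat_lit 24) (nat_lit 5) (nat_lit 25) (nat_lit 5) (nat_lit 26) (nat_lit 4) (nat_lit 313) (nat_lit 238) (nat_lit 229)) (XT.nd (nat_lit 78) (nat_lit 152) (nat_lit 0) (XT.lf (nat_lit 0) (nat_lit 11857400355) (nat_lit 152) (nat_lit 1442135582) (nat_lit 0) (nat_lit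 6047338841) (nat_lit 24) (nat_lit 5) (nat_lit 26) (nat_lit 4) (nat_lit 24) (nat_lit 4) (nat_lit 314) (nat_lit 238) (nat_lit 228)) (XT.lf (nat_lit 0) (nat_lit 12408131531) (nat_lit 152) (nat_lit 6961863472) (nat_lit 152) (nat_lit 711871986) (nat_lit 22) (nat_lit 4) (nat_lit 24) (nat_lit 5) (nat_lit 24) (nat_lit 4) (nat_lit 315) (nat_lit 238) (nat_lit 227)))) (XT.nd (nat_lit 156) (nat_lit 228) (nat_lit 0) (XT.nd (nat_lit 78) (nat_lit 0) (nat_lit 0) (XT.lf (nat_lit 0) (nat_lit 5813335405) (nat_lit 76) (nat_lit 335584702) (nat_lit 152) (nat_lit 14706818276) (nat_lit 20) (nat_lit 5) (nat_lit 21) (nat_lit 5) (nat_lit 22) (nat_lit 4) (nat_lit 316) (nat_lit 238) (nat_lit 226)) (XT.lf (nat_lit 0) (nat_lit 13284647902) (nat_lit 152) (nat_lit 1962587760) (nat_lit 0) (nat_lit 6422510168) (nat_lit 20) (nat_lit 5) (nat_lit 22) (nat_lit 4) (nat_lit 20) (nat_lit 4) (nat_lit 317) (nat_lit 238) (nat_lit 225)))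 (XT.nd (nat_lit 78) (nat_lit 152) (nat_lit 0) (XT.lf (nat_lit 0) (nat_lit 11652207089) (nat_lit 76) (nat_lit 9052779415) (nat_lit 76) (nat_lit 1821682408) (nat_lit 19) (nat_lit 4) (nat_lit 20) (nat_lit 5) (nat_lit 20) (nat_lit 4) (nat_lit 318) (nat_lit 238) (nat_lit 224)) (XT.lf (nat_lit 0) (nat_lit 2220445301) (nat_lit 76) (nat_lit 2608585285) (nat_lit 152) (nat_lit 18600249976) (nat_lit 17) (nat_lit 5) (nat_lit 18) (nat_lit 5) (nat_lit 19) (nat_lit 4) (nat_lit 319) (nat_lit 238) (nat_lit 223))))))) (XT.nd (nat_lit 1092) (nat_lit 304) (nat_lit 0) (XT.nd (nat_lit 546) (nat_lit 304) (nat_lit 0) (XT.nd (nat_lit 234) (nat_lit 228) (nat_lit 0) (XT.nd (nat_lit 78) (nat_lit 76) (nat_lit 0) (XT.lf (nat_lit 0) (nat_lit 11748452660) (nat_lit 152) (nat_lit 8566952255) (nat_lit 0) (nat_lit 4061905352) (nat_lit 17) (nat_lit 5) (nat_lit 19) (nat_lit 4) (nat_lit 17) (nat_lit 4) (nat_lit 320) (nat_lit 238)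 (nat_lit 222)) (XT.nd (nat_lit 78) (nat_lit 0) (nat_lit 0) (XT.lf (nat_lit 0) (nat_lit 4452176407) (nat_lit 76) (nat_lit 14459823709) (nat_lit 76) (nat_lit 6463838642) (nat_lit 16) (nat_lit 4) (nat_lit 17) (nat_lit 5) (nat_lit 17) (nat_lit 4) (nat_lit 321) (nat_lit 238) (nat_lit 221)) (XT.lf (nat_lit 0) (nat_lit 17994929004) (nat_lit 76) (nat_lit 8361209939) (nat_lit 76) (nat_lit 70522244) (nat_lit 16) (nat_lit 4) (nat_lit 17) (nat_lit 5) (nat_lit 17) (nat_lit 4) (nat_lit 322) (nat_lit 238) (nat_lit 220)))) (XT.nd (nat_lit 156) (nat_lit 76) (nat_lit 0) (XT.nd (nat_lit 78) (nat_lit 0) (nat_lit 0) (XT.lf (nat_lit 0) (nat_lit 4412059153) (nat_lit 76) (nat_lit 1983712283) (nat_lit 152) (nat_lit 21135886788) (nat_lit 14) (nat_lit 5) (nat_lit 15) (nat_lit 5) (nat_lit 16) (nat_lit 4) (nat_lit 323) (nat_lit 238) (nat_lit 219)) (XT.lf (nat_lit 0) (nat_lit 13160983212) (nat_lit 152) (nat_lit 10951865163)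 (nat_lit 0) (nat_lit 4579759100) (nat_lit 14) (nat_lit 5) (nat_lit 16) (nat_lit 4) (nat_lit 14) (nat_lit 4) (nat_lit 324) (nat_lit 238) (nat_lit 218))) (XT.nd (nat_lit 78) (nat_lit 0) (nat_lit 0) (XT.lf (nat_lit 0) (nat_lit 1558521648) (nat_lit 76) (nat_lit 18592452492) (nat_lit 76) (nat_lit 9764067981) (nat_lit 13) (nat_lit 4) (nat_lit 14) (nat_lit 5) (nat_lit 14) (nat_lit 4) (nat_lit 325) (nat_lit 238) (nat_lit 217)) (XT.lf (nat_lit 0) (nat_lit 14655080540) (nat_lit 76) (nat_lit 12804131401) (nat_lit 76) (nat_lit 3740356035) (nat_lit 13) (nat_lit 4) (nat_lit 14) (nat_lit 5) (nat_lit 14) (nat_lit 4) (nat_lit 326) (nat_lit 238) (nat_lit 216))))) (XT.nd (nat_lit 234) (nat_lit 152) (nat_lit 0) (XT.nd (nat_lit 78) (nat_lit 76) (nat_lit 0) (XT.lf (nat_lit 0) (nat_lit 2395584552) (nat_lit 152) (nat_lit 4424920491) (nat_lit 76) (nat_lit 25731254943) (nat_lit 12) (nat_lit 5) (nat_lit 14) (nat_lit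 5) (nat_lit 13) (nat_lit 4) (nat_lit 327) (nat_lit 238) (nat_lit 215)) (XT.nd (nat_lit 78) (nat_lit 0) (nat_lit 0) (XT.lf (nat_lit 0) (nat_lit 8176498221) (nat_lit 76) (nat_lit 531857345) (nat_lit 152) (nat_lit 25263701433) (nat_lit 11) (nat_lit 5) (nat_lit 12) (nat_lit 5) (nat_lit 13) (nat_lit 4) (nat_lit 328) (nat_lit 238) (nat_lit 214)) (XT.lf (nat_lit 0) (nat_lit 15312119791) (nat_lit 152) (nat_lit 14262034273) (nat_lit 0) (nat_lit 5889980907) (nat_lit 11) (nat_lit 5) (nat_lit 13) (nat_lit 4) (nat_lit 11) (nat_lit 4) (nat_lit 329) (nat_lit 238) (nat_lit 213)))) (XT.nd (nat_lit 156) (nat_lit 76) (nat_lit 0) (XT.nd (nat_lit 78) (nat_lit 76) (nat_lit 0) (XT.lf (nat_lit 0) (nat_lit 22128576301) (nat_lit 152) (nat_lit 2387369633) (nat_lit 0) (nat_lit 12518421262) (nat_lit 11) (nat_lit 5) (nat_lit 13) (nat_lit 4) (nat_lit 11) (nat_lit 4) (nat_lit 330) (nat_lit 238) (nat_lit 212)) (XT.lf (nat_lit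 0) (nat_lit 10058090260) (nat_lit 76) (nat_lit 19207436473) (nat_lit 76) (nat_lit 9418218429) (nat_lit 10) (nat_lit 4) (nat_lit 11) (nat_lit 5) (nat_lit 11) (nat_lit 4) (nat_lit 331) (nat_lit 238) (nat_lit 211))) (XT.nd (nat_lit 78) (nat_lit 76) (nat_lit 0) (XT.lf (nat_lit 0) (nat_lit 22962788144) (nat_lit 76) (nat_lit 13707624298) (nat_lit 76) (nat_lit 3747870060) (nat_lit 10) (nat_lit 4) (nat_lit 11) (nat_lit 5) (nat_lit 11) (nat_lit 4) (nat_lit 332) (nat_lit 238) (nat_lit 210)) (XT.lf (nat_lit 0) (nat_lit 2053773177) (nat_lit 152) (nat_lit 5953010112) (nat_lit 76) (nat_lit 34235423895) (nat_lit 9) (nat_lit 5) (nat_lit 11) (nat_lit 5) (nat_lit 10) (nat_lit 4) (nat_lit 333) (nat_lit 238) (nat_lit 209)))))) (XT.nd (nat_lit 546) (nat_lit 152) (nat_lit 0) (XT.nd (nat_lit 234) (nat_lit 76) (nat_lit 0) (XT.nd (nat_lit 78) (nat_lit 0) (nat_lit 0) (XT.lf (nat_lit 0) (nat_lit 6008805582) (nat_lit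 76) (nat_lit 2013685353) (nat_lit 152) (nat_lit 36135109161) (nat_lit 8) (nat_lit 5) (nat_lit 9) (nat_lit 5) (nat_lit 10) (nat_lit 4) (nat_lit 334) (nat_lit 238) (nat_lit 208)) (XT.nd (nat_lit 78) (nat_lit 0) (nat_lit 0) (XT.lf (nat_lit 0) (nat_lit 14290963700) (nat_lit 152) (nat_lit 27707365154) (nat_lit 0) (nat_lit 4170413608) (nat_lit 8) (nat_lit 5) (nat_lit 10) (nat_lit 4) (nat_lit 8) (nat_lit 4) (nat_lit 335) (nat_lit 238) (nat_lit 207)) (XT.lf (nat_lit 0) (nat_lit 20796326026) (nat_lit 152) (nat_lit 16946868593) (nat_lit 0) (nat_lit 10539561807) (nat_lit 8) (nat_lit 5) (nat_lit 10) (nat_lit 4) (nat_lit 8) (nat_lit 4) (nat_lit 336) (nat_lit 238) (nat_lit 206)))) (XT.nd (nat_lit 156) (nat_lit 0) (nat_lit 0) (XT.nd (nat_lit 78) (nat_lit 76) (nat_lit 0) (XT.lf (nat_lit 0) (nat_lit 27534710094) (nat_lit 152) (nat_lit 5822327826) (nat_lit 0) (nat_lit 17148218137) (nat_lit 8) (nat_lit 5) (nat_lit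 10) (nat_lit 4) (nat_lit 8) (nat_lit 4) (nat_lit 337) (nat_lit 238) (nat_lit 205)) (XT.lf (nat_lit 0) (nat_lit 5806040919) (nat_lit 76) (nat_lit 28771929975) (nat_lit 76) (nat_lit 18261887791) (nat_lit 7) (nat_lit 4) (nat_lit 8) (nat_lit 5) (nat_lit 8) (nat_lit 4) (nat_lit 338) (nat_lit 238) (nat_lit 204))) (XT.nd (nat_lit 78) (nat_lit 0) (nat_lit 0) (XT.lf (nat_lit 0) (nat_lit 17976551436) (nat_lit 76) (nat_lit 23971561734) (nat_lit 76) (nat_lit 13343852665) (nat_lit 7) (nat_lit 4) (nat_lit 8) (nat_lit 5) (nat_lit 8) (nat_lit 4) (nat_lit 339) (nat_lit 238) (nat_lit 203)) (XT.lf (nat_lit 0) (nat_lit 30602305391) (nat_lit 76) (nat_lit 19003297842) (nat_lit 76) (nat_lit 8263525075) (nat_lit 7) (nat_lit 4) (nat_lit 8) (nat_lit 5) (nat_lit 8) (nat_lit 4) (nat_lit 340) (nat_lit 238) (nat_lit 202))))) (XT.nd (nat_lit 312) (nat_lit 0) (nat_lit 0) (XT.nd (nat_lit 156) (nat_lit 76) (nat_lit 0) (XT.nd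 (nat_lit 78) (nat_lit 76) (nat_lit 0) (XT.lf (nat_lit 0) (nat_lit 43713364102) (nat_lit 76) (nat_lit 13855309100) (nat_lit 76) (nat_lit 3008809001) (nat_lit 7) (nat_lit 4) (nat_lit 8) (nat_lit 5) (nat_lit 8) (nat_lit 4) (nat_lit 341) (nat_lit 238) (nat_lit 201)) (XT.lf (nat_lit 0) (nat_lit 2385333961) (nat_lit 152) (nat_lit 6105917235) (nat_lit 76) (nat_lit 54931523219) (nat_lit 6) (nat_lit 5) (nat_lit 8) (nat_lit 5) (nat_lit 7) (nat_lit 4) (nat_lit 342) (nat_lit 238) (nat_lit 200))) (XT.nd (nat_lit 78) (nat_lit 0) (nat_lit 0) (XT.lf (nat_lit 0) (nat_lit 5126019200) (nat_lit 76) (nat_lit 2839975485) (nat_lit 152) (nat_lit 58444084459) (nat_lit 5) (nat_lit 5) (nat_lit 6) (nat_lit 5) (nat_lit 7) (nat_lit 4) (nat_lit 343) (nat_lit 238) (nat_lit 199)) (XT.lf (nat_lit 0) (nat_lit 13849623706) (nat_lit 152) (nat_lit 52659557997) (nat_lit 0) (nat_lit 3036861478) (nat_lit 5) (nat_lit 5) (nat_lit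 7) (nat_lit 4) (nat_lit 5) (nat_lit 4) (nat_lit 344) (nat_lit 238) (nat_lit 198)))) (XT.nd (nat_lit 156) (nat_lit 0) (nat_lit 0) (XT.nd (nat_lit 78) (nat_lit 0) (nat_lit 0) (XT.lf (nat_lit 0) (nat_lit 19990115678) (nat_lit 152) (nat_lit 43757714815) (nat_lit 0) (nat_lit 9092106033) (nat_lit 5) (nat_lit 5) (nat_lit 7) (nat_lit 4) (nat_lit 5) (nat_lit 4) (nat_lit 345) (nat_lit 238) (nat_lit 197)) (XT.lf (nat_lit 0) (nat_lit 26374791240) (nat_lit 152) (nat_lit 34530035951) (nat_lit 0) (nat_lit 15395593578) (nat_lit 5) (nat_lit 5) (nat_lit 7) (nat_lit 4) (nat_lit 5) (nat_lit 4) (nat_lit 346) (nat_lit 238) (nat_lit 196))) (XT.nd (nat_lit 78) (nat_lit 0) (nat_lit 0) (XT.lf (nat_lit 0) (nat_lit 33018852000) (nat_lit 152) (nat_lit 24954550742) (nat_lit 0) (nat_lit 21962332418) (nat_lit 5) (nat_lit 5) (nat_lit 7) (nat_lit 4) (nat_lit 5) (nat_lit 4) (nat_lit 347) (nat_lit 238) (nat_lit 195)) (XT.lf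 (nat_lit 0) (nat_lit 39938117151) (nat_lit 152) (nat_lit 15008460413) (nat_lit 0) (nat_lit 28807957644) (nat_lit 5) (nat_lit 5) (nat_lit 7) (nat_lit 4) (nat_lit 5) (nat_lit 4) (nat_lit 348) (nat_lit 238) (nat_lit 194))))))))
noncomputable def xc18 : XT := (XT.nd (nat_lit 37752) (nat_lit 0) (nat_lit 380) (XT.nd (nat_lit 1092) (nat_lit 0) (nat_lit 0) (XT.nd (nat_lit 546) (nat_lit 152) (nat_lit 0) (XT.nd (nat_lit 234) (nat_lit 0) (nat_lit 0) (XT.nd (nat_lit 78) (nat_lit 76) (nat_lit 0) (XT.lf (nat_lit 0) (nat_lit 47149061132) (nat_lit 152) (nat_lit 4668083797) (nat_lit 0) (nat_lit 35948768364) (nat_lit 5) (nat_lit 5) (nat_lit 7) (nat_lit 4) (nat_lit 5) (nat_lit 4) (nat_lit 349) (nat_lit 238) (nat_lit 193)) (XT.nd (nat_lit 78) (nat_lit 0) (nat_lit 0) (XT.lf (nat_lit 0) (nat_lit 6212425855) (nat_lit 76) (nat_lit 48516144642) (nat_lit 76) (nat_lit 37249058291) (nat_lit 4) (nat_lit 4) (nat_lit 5)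 (nat_lit 5) (nat_lit 5) (nat_lit 4) (nat_lit 350) (nat_lit 238) (nat_lit 192)) (XT.lf (nat_lit 0) (nat_lit 17639209990) (nat_lit 76) (nat_lit 45045745484) (nat_lit 76) (nat_lit 33715046199) (nat_lit 4) (nat_lit 4) (nat_lit 5) (nat_lit 5) (nat_lit 5) (nat_lit 4) (nat_lit 351) (nat_lit 238) (nat_lit 191)))) (XT.nd (nat_lit 156) (nat_lit 0) (nat_lit 0) (XT.nd (nat_lit 78) (nat_lit 0) (nat_lit 0) (XT.lf (nat_lit 0) (nat_lit 29546571216) (nat_lit 76) (nat_lit 41444823095) (nat_lit 76) (nat_lit 30053540061) (nat_lit 4) (nat_lit 4) (nat_lit 5) (nat_lit 5) (nat_lit 5) (nat_lit 4) (nat_lit 352) (nat_lit 238) (nat_lit 190)) (XT.lf (nat_lit 0) (nat_lit 41962860394) (nat_lit 76) (nat_lit 37704803850) (nat_lit 76) (nat_lit 26255822008) (nat_lit 4) (nat_lit 4) (nat_lit 5) (nat_lit 5) (nat_lit 5) (nat_lit 4) (nat_lit 353) (nat_lit 238) (nat_lit 189))) (XT.nd (nat_lit 78) (nat_lit 0) (nat_lit 0) (XT.lf (nat_lit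 0) (nat_lit 54917640116) (nat_lit 76) (nat_lit 33816782940) (nat_lit 76) (nat_lit 22312849853) (nat_lit 4) (nat_lit 4) (nat_lit 5) (nat_lit 5) (nat_lit 5) (nat_lit 4) (nat_lit 354) (nat_lit 238) (nat_lit 188)) (XT.lf (nat_lit 0) (nat_lit 68441755097) (nat_lit 76) (nat_lit 29771503173) (nat_lit 76) (nat_lit 18215235567) (nat_lit 4) (nat_lit 4) (nat_lit 5) (nat_lit 5) (nat_lit 5) (nat_lit 4) (nat_lit 355) (nat_lit 238) (nat_lit 187))))) (XT.nd (nat_lit 234) (nat_lit 152) (nat_lit 0) (XT.nd (nat_lit 78) (nat_lit 0) (nat_lit 0) (XT.lf (nat_lit 0) (nat_lit 82567405609) (nat_lit 76) (nat_lit 25559332931) (nat_lit 76) (nat_lit 13953222925) (nat_lit 4) (nat_lit 4) (nat_lit 5) (nat_lit 5) (nat_lit 5) (nat_lit 4) (nat_lit 356) (nat_lit 238) (nat_lit 186)) (XT.nd (nat_lit 78) (nat_lit 0) (nat_lit 0) (XT.lf (nat_lit 0) (nat_lit 97328224155) (nat_lit 76) (nat_lit 21170243237) (nat_lit 76) (nat_lit 9516664280)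 (nat_lit 4) (nat_lit 4) (nat_lit 5) (nat_lit 5) (nat_lit 5) (nat_lit 4) (nat_lit 357) (nat_lit 238) (nat_lit 185)) (XT.lf (nat_lit 0) (nat_lit 112759355539) (nat_lit 76) (nat_lit 16593783877) (nat_lit 76) (nat_lit 4894996394) (nat_lit 4) (nat_lit 4) (nat_lit 5) (nat_lit 5) (nat_lit 5) (nat_lit 4) (nat_lit 358) (nat_lit 238) (nat_lit 184)))) (XT.nd (nat_lit 156) (nat_lit 76) (nat_lit 0) (XT.nd (nat_lit 78) (nat_lit 76) (nat_lit 0) (XT.lf (nat_lit 0) (nat_lit 128897540552) (nat_lit 76) (nat_lit 11819058520) (nat_lit 76) (nat_lit 77215298) (nat_lit 4) (nat_lit 4) (nat_lit 5) (nat_lit 5) (nat_lit 5) (nat_lit 4) (nat_lit 359) (nat_lit 238) (nat_lit 183)) (XT.lf (nat_lit 0) (nat_lit 4851593687) (nat_lit 152) (nat_lit 1934113501) (nat_lit 76) (nat_lit 140880618172) (nat_lit 3) (nat_lit 5) (nat_lit 5) (nat_lit 5) (nat_lit 4) (nat_lit 4) (nat_lit 360) (nat_lit 238) (nat_lit 182))) (XT.nd (nat_lit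 78) (nat_lit 0) (nat_lit 0) (XT.lf (nat_lit 0) (nat_lit 8634740204) (nat_lit 76) (nat_lit 1442423202) (nat_lit 152) (nat_lit 144803723179) (nat_lit 2) (nat_lit 5) (nat_lit 3) (nat_lit 5) (nat_lit 4) (nat_lit 4) (nat_lit 361) (nat_lit 238) (nat_lit 181)) (XT.lf (nat_lit 0) (nat_lit 15593751076) (nat_lit 152) (nat_lit 142781470582) (nat_lit 0) (nat_lit 4080066923) (nat_lit 2) (nat_lit 5) (nat_lit 4) (nat_lit 4) (nat_lit 2) (nat_lit 4) (nat_lit 362) (nat_lit 238) (nat_lit 180)))))) (XT.nd (nat_lit 36114) (nat_lit 0) (nat_lit 1976) (XT.nd (nat_lit 234) (nat_lit 0) (nat_lit 0) (XT.nd (nat_lit 78) (nat_lit 0) (nat_lit 0) (XT.lf (nat_lit 0) (nat_lit 21371742796) (nat_lit 152) (nat_lit 139213437009) (nat_lit 0) (nat_lit 9823668291) (nat_lit 2) (nat_lit 5) (nat_lit 4) (nat_lit 4) (nat_lit 2) (nat_lit 4) (nat_lit 363) (nat_lit 238) (nat_lit 179)) (XT.nd (nat_lit 78) (nat_lit 0) (nat_lit 0) (XT.lf (nat_lit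 0) (nat_lit 27411030235) (nat_lit 152) (nat_lit 135519684891) (nat_lit 0) (nat_lit 15830203014) (nat_lit 2) (nat_lit 5) (nat_lit 4) (nat_lit 4) (nat_lit 2) (nat_lit 4) (nat_lit 364) (nat_lit 238) (nat_lit 178)) (XT.lf (nat_lit 0) (nat_lit 33725992651) (nat_lit 152) (nat_lit 131691419579) (nat_lit 0) (nat_lit 22113972366) (nat_lit 2) (nat_lit 5) (nat_lit 4) (nat_lit 4) (nat_lit 2) (nat_lit 4) (nat_lit 365) (nat_lit 238) (nat_lit 177)))) (XT.nd (nat_lit 35724) (nat_lit 0) (nat_lit 2964) (XT.nd (nat_lit 35646) (nat_lit 0) (nat_lit 3344) (XT.lf (nat_lit 0) (nat_lit 40331665667) (nat_lit 152) (nat_lit 127719526156) (nat_lit 0) (nat_lit 28689937703) (nat_lit 2) (nat_lit 5) (nat_lit 4) (nat_lit 4) (nat_lit 2) (nat_lit 4) (nat_lit 366) (nat_lit 238) (nat_lit 176)) (XT.lf (nat_lit 0) (nat_lit 896177592) (nat_lit 228) (nat_lit 4682944425) (nat_lit 0) (nat_lit 896177592) (nat_lit 46) (nat_lit 5) (nat_lit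 49) (nat_lit 4) (nat_lit 46) (nat_lit 4) (nat_lit 302) (nat_lit 239) (nat_lit 239))) (XT.nd (nat_lit 78) (nat_lit 228) (nat_lit 0) (XT.lf (nat_lit 0) (nat_lit 4253913174) (nat_lit 152) (nat_lit 4982403279) (nat_lit 152) (nat_lit 4110131213) (nat_lit 44) (nat_lit 4) (nat_lit 46) (nat_lit 5) (nat_lit 46) (nat_lit 4) (nat_lit 303) (nat_lit 239) (nat_lit 238)) (XT.lf (nat_lit 0) (nat_lit 3115852543) (nat_lit 228) (nat_lit 9186258890) (nat_lit 0) (nat_lit 1462447332) (nat_lit 41) (nat_lit 5) (nat_lit 44) (nat_lit 4) (nat_lit 41) (nat_lit 4) (nat_lit 304) (nat_lit 239) (nat_lit 237))))) (XT.nd (nat_lit 234) (nat_lit 456) (nat_lit 0) (XT.nd (nat_lit 78) (nat_lit 380) (nat_lit 0) (XT.lf (nat_lit 0) (nat_lit 4468185818) (nat_lit 152) (nat_lit 6078969922) (nat_lit 152) (nat_lit 3657432208) (nat_lit 39) (nat_lit 4) (nat_lit 41) (nat_lit 5) (nat_lit 41) (nat_lit 4) (nat_lit 305) (nat_lit 239) (nat_lit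 236)) (XT.nd (nat_lit 78) (nat_lit 152) (nat_lit 0) (XT.lf (nat_lit 0) (nat_lit 3495149794) (nat_lit 228) (nat_lit 10740099236) (nat_lit 0) (nat_lit 433894961) (nat_lit 36) (nat_lit 5) (nat_lit 39) (nat_lit 4) (nat_lit 36) (nat_lit 4) (nat_lit 306) (nat_lit 239) (nat_lit 235)) (XT.lf (nat_lit 0) (nat_lit 2850038622) (nat_lit 152) (nat_lit 8022643256) (nat_lit 152) (nat_lit 4284962382) (nat_lit 34) (nat_lit 4) (nat_lit 36) (nat_lit 5) (nat_lit 36) (nat_lit 4) (nat_lit 307) (nat_lit 239) (nat_lit 234)))) (XT.nd (nat_lit 156) (nat_lit 304) (nat_lit 0) (XT.nd (nat_lit 78) (nat_lit 0) (nat_lit 0) (XT.lf (nat_lit 0) (nat_lit 1245639559) (nat_lit 76) (nat_lit 1526545520) (nat_lit 152) (nat_lit 12901182912) (nat_lit 32) (nat_lit 5) (nat_lit 33) (nat_lit 5) (nat_lit 34) (nat_lit 4) (nat_lit 308) (nat_lit 239) (nat_lit 233)) (XT.lf (nat_lit 0) (nat_lit 10036653882) (nat_lit 152) (nat_lit 992022009)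 (nat_lit 0) (nat_lit 5186717462) (nat_lit 32) (nat_lit 5) (nat_lit 34) (nat_lit 4) (nat_lit 32) (nat_lit 4) (nat_lit 309) (nat_lit 239) (nat_lit 232))) (XT.nd (nat_lit 78) (nat_lit 76) (nat_lit 0) (XT.lf (nat_lit 0) (nat_lit 776344250) (nat_lit 228) (nat_lit 3841260744) (nat_lit 76) (nat_lit 12169325299) (nat_lit 29) (nat_lit 5) (nat_lit 32) (nat_lit 5) (nat_lit 30) (nat_lit 4) (nat_lit 310) (nat_lit 239) (nat_lit 231)) (XT.lf (nat_lit 0) (nat_lit 7858365162) (nat_lit 152) (nat_lit 7455348546) (nat_lit 0) (nat_lit 2074357114) (nat_lit 28) (nat_lit 5) (nat_lit 30) (nat_lit 4) (nat_lit 28) (nat_lit 4) (nat_lit 311) (nat_lit 239) (nat_lit 230))))))) (XT.nd (nat_lit 1092) (nat_lit 532) (nat_lit 0) (XT.nd (nat_lit 546) (nat_lit 380) (nat_lit 0) (XT.nd (nat_lit 234) (nat_lit 380) (nat_lit 0) (XT.nd (nat_lit 78) (nat_lit 152) (nat_lit 0) (XT.lf (nat_lit 0) (nat_lit 6144537108) (nat_lit 152) (nat_lit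 9080235956) (nat_lit 152) (nat_lit 2796654429) (nat_lit 26) (nat_lit 4) (nat_lit 28) (nat_lit 5) (nat_lit 28) (nat_lit 4) (nat_lit 312) (nat_lit 239) (nat_lit 229)) (XT.nd (nat_lit 78) (nat_lit 0) (nat_lit 0) (XT.lf (nat_lit 0) (nat_lit 1504429441) (nat_lit 76) (nat_lit 2566405649) (nat_lit 152) (nat_lit 14618012196) (nat_lit 24) (nat_lit 5) (nat_lit 25) (nat_lit 5) (nat_lit 26) (nat_lit 4) (nat_lit 313) (nat_lit 239) (nat_lit 228)) (XT.lf (nat_lit 0) (nat_lit 11183068337) (nat_lit 152) (nat_lit 4026375097) (nat_lit 0) (nat_lit 4180647304) (nat_lit 24) (nat_lit 5) (nat_lit 26) (nat_lit 4) (nat_lit 24) (nat_lit 4) (nat_lit 314) (nat_lit 239) (nat_lit 227)))) (XT.nd (nat_lit 156) (nat_lit 76) (nat_lit 0) (XT.nd (nat_lit 78) (nat_lit 152) (nat_lit 0) (XT.lf (nat_lit 0) (nat_lit 9595773006) (nat_lit 152) (nat_lit 8977209998) (nat_lit 152) (nat_lit 1555808038) (nat_lit 22) (nat_lit 4) (nat_lit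 24) (nat_lit 5) (nat_lit 24) (nat_lit 4) (nat_lit 315) (nat_lit 239) (nat_lit 226)) (XT.lf (nat_lit 0) (nat_lit 2731871434) (nat_lit 76) (nat_lit 2466307308) (nat_lit 152) (nat_lit 15708450879) (nat_lit 20) (nat_lit 5) (nat_lit 21) (nat_lit 5) (nat_lit 22) (nat_lit 4) (nat_lit 316) (nat_lit 239) (nat_lit 225))) (XT.nd (nat_lit 78) (nat_lit 76) (nat_lit 0) (XT.lf (nat_lit 0) (nat_lit 12221926746) (nat_lit 152) (nat_lit 5241778487) (nat_lit 0) (nat_lit 4260315616) (nat_lit 20) (nat_lit 5) (nat_lit 22) (nat_lit 4) (nat_lit 20) (nat_lit 4) (nat_lit 317) (nat_lit 239) (nat_lit 224)) (XT.lf (nat_lit 0) (nat_lit 8145232826) (nat_lit 76) (nat_lit 11376180405) (nat_lit 76) (nat_lit 3063179491) (nat_lit 19) (nat_lit 4) (nat_lit 20) (nat_lit 5) (nat_lit 20) (nat_lit 4) (nat_lit 318) (nat_lit 239) (nat_lit 223))))) (XT.nd (nat_lit 234) (nat_lit 152) (nat_lit 0) (XT.nd (nat_lit 78) (nat_lit 152) (nat_lit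 0) (XT.lf (nat_lit 0) (nat_lit 3505077961) (nat_lit 152) (nat_lit 1532349588) (nat_lit 76) (nat_lit 18453356768) (nat_lit 18) (nat_lit 5) (nat_lit 20) (nat_lit 5) (nat_lit 19) (nat_lit 4) (nat_lit 319) (nat_lit 239) (nat_lit 222)) (XT.nd (nat_lit 78) (nat_lit 76) (nat_lit 0) (XT.lf (nat_lit 0) (nat_lit 10302579838) (nat_lit 152) (nat_lit 12542554486) (nat_lit 0) (nat_lit 1597357758) (nat_lit 17) (nat_lit 5) (nat_lit 19) (nat_lit 4) (nat_lit 17) (nat_lit 4) (nat_lit 320) (nat_lit 239) (nat_lit 221)) (XT.lf (nat_lit 0) (nat_lit 248009650) (nat_lit 76) (nat_lit 17098275192) (nat_lit 76) (nat_lit 8098350484) (nat_lit 16) (nat_lit 4) (nat_lit 17) (nat_lit 5) (nat_lit 17) (nat_lit 4) (nat_lit 321) (nat_lit 239) (nat_lit 220)))) (XT.nd (nat_lit 156) (nat_lit 76) (nat_lit 0) (XT.nd (nat_lit 78) (nat_lit 76) (nat_lit 0) (XT.lf (nat_lit 0) (nat_lit 13648436298) (nat_lit 76) (nat_lit 11064972171) (nat_lit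 76) (nat_lit 1784378293) (nat_lit 16) (nat_lit 4) (nat_lit 17) (nat_lit 5) (nat_lit 17) (nat_lit 4) (nat_lit 322) (nat_lit 239) (nat_lit 219)) (XT.lf (nat_lit 0) (nat_lit 4598856132) (nat_lit 152) (nat_lit 212219899) (nat_lit 76) (nat_lit 22795714245) (nat_lit 15) (nat_lit 5) (nat_lit 17) (nat_lit 5) (nat_lit 16) (nat_lit 4) (nat_lit 323) (nat_lit 239) (nat_lit 218))) (XT.nd (nat_lit 78) (nat_lit 0) (nat_lit 0) (XT.lf (nat_lit 0) (nat_lit 11262356669) (nat_lit 152) (nat_lit 15763057997) (nat_lit 0) (nat_lit 1745392534) (nat_lit 14) (nat_lit 5) (nat_lit 16) (nat_lit 4) (nat_lit 14) (nat_lit 4) (nat_lit 324) (nat_lit 239) (nat_lit 217)) (XT.lf (nat_lit 0) (nat_lit 18168383562) (nat_lit 152) (nat_lit 3411364193) (nat_lit 0) (nat_lit 8416028571) (nat_lit 14) (nat_lit 5) (nat_lit 16) (nat_lit 4) (nat_lit 14) (nat_lit 4) (nat_lit 325) (nat_lit 239) (nat_lit 216)))))) (XT.nd (nat_lit 546) (nat_lit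 228) (nat_lit 0) (XT.nd (nat_lit 234) (nat_lit 76) (nat_lit 0) (XT.nd (nat_lit 78) (nat_lit 152) (nat_lit 0) (XT.lf (nat_lit 0) (nat_lit 9492698362) (nat_lit 76) (nat_lit 15883582800) (nat_lit 76) (nat_lit 5907046042) (nat_lit 13) (nat_lit 4) (nat_lit 14) (nat_lit 5) (nat_lit 14) (nat_lit 4) (nat_lit 326) (nat_lit 239) (nat_lit 215)) (XT.nd (nat_lit 78) (nat_lit 76) (nat_lit 0) (XT.lf (nat_lit 0) (nat_lit 206819887) (nat_lit 152) (nat_lit 9770198831) (nat_lit 76) (nat_lit 22661069663) (nat_lit 12) (nat_lit 5) (nat_lit 14) (nat_lit 5) (nat_lit 13) (nat_lit 4) (nat_lit 327) (nat_lit 239) (nat_lit 214)) (XT.lf (nat_lit 0) (nat_lit 2608312636) (nat_lit 76) (nat_lit 3796463378) (nat_lit 152) (nat_lit 27657066873) (nat_lit 11) (nat_lit 5) (nat_lit 12) (nat_lit 5) (nat_lit 13) (nat_lit 4) (nat_lit 328) (nat_lit 239) (nat_lit 213)))) (XT.nd (nat_lit 156) (nat_lit 76) (nat_lit 0) (XT.nd (nat_lit 78)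 (nat_lit 0) (nat_lit 0) (XT.lf (nat_lit 0) (nat_lit 12917225147) (nat_lit 152) (nat_lit 20000901393) (nat_lit 0) (nat_lit 2638546201) (nat_lit 11) (nat_lit 5) (nat_lit 13) (nat_lit 4) (nat_lit 11) (nat_lit 4) (nat_lit 329) (nat_lit 239) (nat_lit 212)) (XT.lf (nat_lit 0) (nat_lit 19676601940) (nat_lit 152) (nat_lit 8233167263) (nat_lit 0) (nat_lit 9218859989) (nat_lit 11) (nat_lit 5) (nat_lit 13) (nat_lit 4) (nat_lit 11) (nat_lit 4) (nat_lit 330) (nat_lit 239) (nat_lit 211))) (XT.nd (nat_lit 78) (nat_lit 0) (nat_lit 0) (XT.lf (nat_lit 0) (nat_lit 3992084424) (nat_lit 76) (nat_lit 22708796153) (nat_lit 76) (nat_lit 12080518007) (nat_lit 10) (nat_lit 4) (nat_lit 11) (nat_lit 5) (nat_lit 11) (nat_lit 4) (nat_lit 331) (nat_lit 239) (nat_lit 210)) (XT.lf (nat_lit 0) (nat_lit 16797862909) (nat_lit 76) (nat_lit 17255179518) (nat_lit 76) (nat_lit 6464485949) (nat_lit 10) (nat_lit 4) (nat_lit 11) (nat_lit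 5) (nat_lit 11) (nat_lit 4) (nat_lit 332) (nat_lit 239) (nat_lit 209))))) (XT.nd (nat_lit 312) (nat_lit 76) (nat_lit 0) (XT.nd (nat_lit 156) (nat_lit 76) (nat_lit 0) (XT.nd (nat_lit 78) (nat_lit 76) (nat_lit 0) (XT.lf (nat_lit 0) (nat_lit 30050801967) (nat_lit 76) (nat_lit 11619073343) (nat_lit 76) (nat_lit 673698418) (nat_lit 10) (nat_lit 4) (nat_lit 11) (nat_lit 5) (nat_lit 11) (nat_lit 4) (nat_lit 333) (nat_lit 239) (nat_lit 208)) (XT.lf (nat_lit 0) (nat_lit 5202100180) (nat_lit 152) (nat_lit 532427136) (nat_lit 76) (nat_lit 38527825023) (nat_lit 9) (nat_lit 5) (nat_lit 11) (nat_lit 5) (nat_lit 10) (nat_lit 4) (nat_lit 334) (nat_lit 239) (nat_lit 207))) (XT.nd (nat_lit 78) (nat_lit 0) (nat_lit 0) (XT.lf (nat_lit 0) (nat_lit 11382286237) (nat_lit 152) (nat_lit 34417396391) (nat_lit 0) (nat_lit 476469682) (nat_lit 8) (nat_lit 5) (nat_lit 10) (nat_lit 4) (nat_lit 8) (nat_lit 4) (nat_lit 335)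 (nat_lit 239) (nat_lit 206)) (XT.lf (nat_lit 0) (nat_lit 17842650331) (nat_lit 152) (nat_lit 23741768426) (nat_lit 0) (nat_lit 6807106037) (nat_lit 8) (nat_lit 5) (nat_lit 10) (nat_lit 4) (nat_lit 8) (nat_lit 4) (nat_lit 336) (nat_lit 239) (nat_lit 205)))) (XT.nd (nat_lit 156) (nat_lit 76) (nat_lit 0) (XT.nd (nat_lit 78) (nat_lit 0) (nat_lit 0) (XT.lf (nat_lit 0) (nat_lit 24538178942) (nat_lit 152) (nat_lit 12698054893) (nat_lit 0) (nat_lit 13379084420) (nat_lit 8) (nat_lit 5) (nat_lit 10) (nat_lit 4) (nat_lit 8) (nat_lit 4) (nat_lit 337) (nat_lit 239) (nat_lit 204)) (XT.lf (nat_lit 0) (nat_lit 31484813804) (nat_lit 152) (nat_lit 1259961236) (nat_lit 0) (nat_lit 20208052399) (nat_lit 8) (nat_lit 5) (nat_lit 10) (nat_lit 4) (nat_lit 8) (nat_lit 4) (nat_lit 338) (nat_lit 239) (nat_lit 203))) (XT.nd (nat_lit 78) (nat_lit 0) (nat_lit 0) (XT.lf (nat_lit 0) (nat_lit 10810701830) (nat_lit 76) (nat_lit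 27992311772) (nat_lit 76) (nat_lit 16603486669) (nat_lit 7) (nat_lit 4) (nat_lit 8) (nat_lit 5) (nat_lit 8) (nat_lit 4) (nat_lit 339) (nat_lit 239) (nat_lit 202)) (XT.lf (nat_lit 0) (nat_lit 23365244594) (nat_lit 76) (nat_lit 23057554389) (nat_lit 76) (nat_lit 11562001954) (nat_lit 7) (nat_lit 4) (nat_lit 8) (nat_lit 5) (nat_lit 8) (nat_lit 4) (nat_lit 340) (nat_lit 239) (nat_lit 201))))))))
noncomputable def xc19 : XT := (XT.nd (nat_lit 37596) (nat_lit 0) (nat_lit 684) (XT.nd (nat_lit 1092) (nat_lit 152) (nat_lit 0) (XT.nd (nat_lit 546) (nat_lit 76) (nat_lit 0) (XT.nd (nat_lit 234) (nat_lit 76) (nat_lit 0) (XT.nd (nat_lit 78) (nat_lit 76) (nat_lit 0) (XT.lf (nat_lit 0) (nat_lit 36408483124) (nat_lit 76) (nat_lit 17941476609) (nat_lit 76) (nat_lit 6344279096) (nat_lit 7) (nat_lit 4) (nat_lit 8) (nat_lit 5) (nat_lit 8) (nat_lit 4) (nat_lit 341) (nat_lit 239) (nat_lit 200)) (XT.nd (nat_lit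 78) (nat_lit 76) (nat_lit 0) (XT.lf (nat_lit 0) (nat_lit 49971472748) (nat_lit 76) (nat_lit 12631897293) (nat_lit 76) (nat_lit 937894944) (nat_lit 7) (nat_lit 4) (nat_lit 8) (nat_lit 5) (nat_lit 8) (nat_lit 4) (nat_lit 342) (nat_lit 239) (nat_lit 199)) (XT.lf (nat_lit 0) (nat_lit 4578893878) (nat_lit 152) (nat_lit 2491042858) (nat_lit 76) (nat_lit 59461374573) (nat_lit 6) (nat_lit 5) (nat_lit 8) (nat_lit 5) (nat_lit 7) (nat_lit 4) (nat_lit 343) (nat_lit 239) (nat_lit 198)))) (XT.nd (nat_lit 156) (nat_lit 0) (nat_lit 0) (XT.nd (nat_lit 78) (nat_lit 0) (nat_lit 0) (XT.lf (nat_lit 0) (nat_lit 9190119506) (nat_lit 76) (nat_lit 1186295162) (nat_lit 152) (nat_lit 59293449559) (nat_lit 5) (nat_lit 5) (nat_lit 6) (nat_lit 5) (nat_lit 7) (nat_lit 4) (nat_lit 344) (nat_lit 239) (nat_lit 197)) (XT.lf (nat_lit 0) (nat_lit 16474849095) (nat_lit 152) (nat_lit 51624672035) (nat_lit 0) (nat_lit 4865503534)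 (nat_lit 5) (nat_lit 5) (nat_lit 7) (nat_lit 4) (nat_lit 5) (nat_lit 4) (nat_lit 345) (nat_lit 239) (nat_lit 196))) (XT.nd (nat_lit 78) (nat_lit 0) (nat_lit 0) (XT.lf (nat_lit 0) (nat_lit 22830330228) (nat_lit 152) (nat_lit 42452396878) (nat_lit 0) (nat_lit 11143662746) (nat_lit 5) (nat_lit 5) (nat_lit 7) (nat_lit 4) (nat_lit 5) (nat_lit 4) (nat_lit 346) (nat_lit 239) (nat_lit 195)) (XT.lf (nat_lit 0) (nat_lit 29446586770) (nat_lit 152) (nat_lit 32929677103) (nat_lit 0) (nat_lit 17686279363) (nat_lit 5) (nat_lit 5) (nat_lit 7) (nat_lit 4) (nat_lit 5) (nat_lit 4) (nat_lit 347) (nat_lit 239) (nat_lit 194))))) (XT.nd (nat_lit 234) (nat_lit 76) (nat_lit 0) (XT.nd (nat_lit 78) (nat_lit 0) (nat_lit 0) (XT.lf (nat_lit 0) (nat_lit 36339371712) (nat_lit 152) (nat_lit 23033839569) (nat_lit 0) (nat_lit 24508931044) (nat_lit 5) (nat_lit 5) (nat_lit 7) (nat_lit 4) (nat_lit 5) (nat_lit 4) (nat_lit 348)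 (nat_lit 239) (nat_lit 193)) (XT.nd (nat_lit 78) (nat_lit 0) (nat_lit 0) (XT.lf (nat_lit 0) (nat_lit 43525096448) (nat_lit 152) (nat_lit 12741322757) (nat_lit 0) (nat_lit 31627862198) (nat_lit 5) (nat_lit 5) (nat_lit 7) (nat_lit 4) (nat_lit 5) (nat_lit 4) (nat_lit 349) (nat_lit 239) (nat_lit 192)) (XT.lf (nat_lit 0) (nat_lit 51020869846) (nat_lit 152) (nat_lit 2027620676) (nat_lit 0) (nat_lit 39060022660) (nat_lit 5) (nat_lit 5) (nat_lit 7) (nat_lit 4) (nat_lit 5) (nat_lit 4) (nat_lit 350) (nat_lit 239) (nat_lit 191)))) (XT.nd (nat_lit 156) (nat_lit 0) (nat_lit 0) (XT.nd (nat_lit 78) (nat_lit 0) (nat_lit 0) (XT.lf (nat_lit 0) (nat_lit 9314535628) (nat_lit 76) (nat_lit 49619540371) (nat_lit 76) (nat_lit 37598109437) (nat_lit 4) (nat_lit 4) (nat_lit 5) (nat_lit 5) (nat_lit 5) (nat_lit 4) (nat_lit 351) (nat_lit 239) (nat_lit 190)) (XT.lf (nat_lit 0) (nat_lit 21179730947) (nat_lit 76) (nat_lit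 46038593232) (nat_lit 76) (nat_lit 33959463491) (nat_lit 4) (nat_lit 4) (nat_lit 5) (nat_lit 5) (nat_lit 5) (nat_lit 4) (nat_lit 352) (nat_lit 239) (nat_lit 189))) (XT.nd (nat_lit 78) (nat_lit 0) (nat_lit 0) (XT.lf (nat_lit 0) (nat_lit 33555862118) (nat_lit 76) (nat_lit 42317598034) (nat_lit 76) (nat_lit 30183517047) (nat_lit 4) (nat_lit 4) (nat_lit 5) (nat_lit 5) (nat_lit 5) (nat_lit 4) (nat_lit 353) (nat_lit 239) (nat_lit 188)) (XT.lf (nat_lit 0) (nat_lit 46472396119) (nat_lit 76) (nat_lit 38447695265) (nat_lit 76) (nat_lit 26261279759) (nat_lit 4) (nat_lit 4) (nat_lit 5) (nat_lit 5) (nat_lit 5) (nat_lit 4) (nat_lit 354) (nat_lit 239) (nat_lit 187)))))) (XT.nd (nat_lit 546) (nat_lit 76) (nat_lit 0) (XT.nd (nat_lit 234) (nat_lit 76) (nat_lit 0) (XT.nd (nat_lit 78) (nat_lit 0) (nat_lit 0) (XT.lf (nat_lit 0) (nat_lit 59960086604) (nat_lit 76) (nat_lit 34419670871) (nat_lit 76) (nat_lit 22183412965)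 (nat_lit 4) (nat_lit 4) (nat_lit 5) (nat_lit 5) (nat_lit 5) (nat_lit 4) (nat_lit 355) (nat_lit 239) (nat_lit 186)) (XT.nd (nat_lit 78) (nat_lit 0) (nat_lit 0) (XT.lf (nat_lit 0) (nat_lit 74051047120) (nat_lit 76) (nat_lit 30223934316) (nat_lit 76) (nat_lit 17940207459) (nat_lit 4) (nat_lit 4) (nat_lit 5) (nat_lit 5) (nat_lit 5) (nat_lit 4) (nat_lit 356) (nat_lit 239) (nat_lit 185)) (XT.lf (nat_lit 0) (nat_lit 88778827574) (nat_lit 76) (nat_lit 25850495754) (nat_lit 76) (nat_lit 13521560371) (nat_lit 4) (nat_lit 4) (nat_lit 5) (nat_lit 5) (nat_lit 5) (nat_lit 4) (nat_lit 357) (nat_lit 239) (nat_lit 184)))) (XT.nd (nat_lit 156) (nat_lit 76) (nat_lit 0) (XT.nd (nat_lit 78) (nat_lit 0) (nat_lit 0) (XT.lf (nat_lit 0) (nat_lit 104178494109) (nat_lit 76) (nat_lit 21288942233) (nat_lit 76) (nat_lit 8916951111) (nat_lit 4) (nat_lit 4) (nat_lit 5) (nat_lit 5) (nat_lit 5) (nat_lit 4) (nat_lit 358) (nat_lit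 239) (nat_lit 183)) (XT.lf (nat_lit 0) (nat_lit 120286712599) (nat_lit 76) (nat_lit 16528412913) (nat_lit 76) (nat_lit 4115416326) (nat_lit 4) (nat_lit 4) (nat_lit 5) (nat_lit 5) (nat_lit 5) (nat_lit 4) (nat_lit 359) (nat_lit 239) (nat_lit 182))) (XT.nd (nat_lit 78) (nat_lit 0) (nat_lit 0) (XT.lf (nat_lit 0) (nat_lit 877021757) (nat_lit 152) (nat_lit 10671695243) (nat_lit 76) (nat_lit 136255957986) (nat_lit 3) (nat_lit 5) (nat_lit 5) (nat_lit 5) (nat_lit 4) (nat_lit 4) (nat_lit 360) (nat_lit 239) (nat_lit 181)) (XT.lf (nat_lit 0) (nat_lit 6005140739) (nat_lit 152) (nat_lit 298806876) (nat_lit 76) (nat_lit 148718214505) (nat_lit 3) (nat_lit 5) (nat_lit 5) (nat_lit 5) (nat_lit 4) (nat_lit 4) (nat_lit 361) (nat_lit 239) (nat_lit 180))))) (XT.nd (nat_lit 234) (nat_lit 0) (nat_lit 0) (XT.nd (nat_lit 78) (nat_lit 0) (nat_lit 0) (XT.lf (nat_lit 0) (nat_lit 10748841729) (nat_lit 76) (nat_lit 715939733)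 (nat_lit 152) (nat_lit 151133493335) (nat_lit 2) (nat_lit 5) (nat_lit 3) (nat_lit 5) (nat_lit 4) (nat_lit 4) (nat_lit 362) (nat_lit 239) (nat_lit 179)) (XT.nd (nat_lit 78) (nat_lit 0) (nat_lit 0) (XT.lf (nat_lit 0) (nat_lit 17222425831) (nat_lit 152) (nat_lit 148300216534) (nat_lit 0) (nat_lit 5029804532) (nat_lit 2) (nat_lit 5) (nat_lit 4) (nat_lit 4) (nat_lit 2) (nat_lit 4) (nat_lit 363) (nat_lit 239) (nat_lit 178)) (XT.lf (nat_lit 0) (nat_lit 23248889175) (nat_lit 152) (nat_lit 144630939739) (nat_lit 0) (nat_lit 11025074813) (nat_lit 2) (nat_lit 5) (nat_lit 4) (nat_lit 4) (nat_lit 2) (nat_lit 4) (nat_lit 364) (nat_lit 239) (nat_lit 177)))) (XT.nd (nat_lit 35568) (nat_lit 0) (nat_lit 3572) (XT.nd (nat_lit 78) (nat_lit 0) (nat_lit 0) (XT.lf (nat_lit 0) (nat_lit 29551638166) (nat_lit 152) (nat_lit 140825984258) (nat_lit 0) (nat_lit 17298116125) (nat_lit 2) (nat_lit 5) (nat_lit 4) (nat_lit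 4) (nat_lit 2) (nat_lit 4) (nat_lit 365) (nat_lit 239) (nat_lit 176)) (XT.lf (nat_lit 0) (nat_lit 36145679349) (nat_lit 152) (nat_lit 136876290674) (nat_lit 0) (nat_lit 23863864280) (nat_lit 2) (nat_lit 5) (nat_lit 4) (nat_lit 4) (nat_lit 2) (nat_lit 4) (nat_lit 366) (nat_lit 239) (nat_lit 175))) (XT.nd (nat_lit 78) (nat_lit 228) (nat_lit 0) (XT.lf (nat_lit 0) (nat_lit 371118782) (nat_lit 228) (nat_lit 5365260324) (nat_lit 0) (nat_lit 371118782) (nat_lit 52) (nat_lit 5) (nat_lit 55) (nat_lit 4) (nat_lit 52) (nat_lit 4) (nat_lit 300) (nat_lit 240) (nat_lit 240)) (XT.lf (nat_lit 0) (nat_lit 2554883606) (nat_lit 228) (nat_lit 5481466153) (nat_lit 228) (nat_lit 4538103913) (nat_lit 49) (nat_lit 4) (nat_lit 52) (nat_lit 5) (nat_lit 52) (nat_lit 4) (nat_lit 301) (nat_lit 240) (nat_lit 239))))))) (XT.nd (nat_lit 1092) (nat_lit 836) (nat_lit 0) (XT.nd (nat_lit 546) (nat_lit 836) (nat_lit 0) (XT.nd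 (nat_lit 234) (nat_lit 608) (nat_lit 0) (XT.nd (nat_lit 78) (nat_lit 380) (nat_lit 0) (XT.lf (nat_lit 0) (nat_lit 2575509598) (nat_lit 228) (nat_lit 9591777356) (nat_lit 0) (nat_lit 787351862) (nat_lit 46) (nat_lit 5) (nat_lit 49) (nat_lit 4) (nat_lit 46) (nat_lit 4) (nat_lit 302) (nat_lit 240) (nat_lit 238)) (XT.nd (nat_lit 78) (nat_lit 228) (nat_lit 0) (XT.lf (nat_lit 0) (nat_lit 3804115589) (nat_lit 152) (nat_lit 6084620826) (nat_lit 152) (nat_lit 3465727788) (nat_lit 44) (nat_lit 4) (nat_lit 46) (nat_lit 5) (nat_lit 46) (nat_lit 4) (nat_lit 303) (nat_lit 240) (nat_lit 237)) (XT.lf (nat_lit 0) (nat_lit 3605952359) (nat_lit 228) (nat_lit 9875534496) (nat_lit 0) (nat_lit 295205257) (nat_lit 41) (nat_lit 5) (nat_lit 44) (nat_lit 4) (nat_lit 41) (nat_lit 4) (nat_lit 304) (nat_lit 240) (nat_lit 236)))) (XT.nd (nat_lit 156) (nat_lit 228) (nat_lit 0) (XT.nd (nat_lit 78) (nat_lit 228) (nat_lit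 0) (XT.lf (nat_lit 0) (nat_lit 3552815541) (nat_lit 152) (nat_lit 7355068559) (nat_lit 152) (nat_lit 3312766693) (nat_lit 39) (nat_lit 4) (nat_lit 41) (nat_lit 5) (nat_lit 41) (nat_lit 4) (nat_lit 305) (nat_lit 240) (nat_lit 235)) (XT.lf (nat_lit 0) (nat_lit 2771347413) (nat_lit 152) (nat_lit 928341306) (nat_lit 228) (nat_lit 10989465461) (nat_lit 36) (nat_lit 5) (nat_lit 38) (nat_lit 5) (nat_lit 39) (nat_lit 4) (nat_lit 306) (nat_lit 240) (nat_lit 234))) (XT.nd (nat_lit 78) (nat_lit 76) (nat_lit 0) (XT.lf (nat_lit 0) (nat_lit 1452536574) (nat_lit 152) (nat_lit 9487244936) (nat_lit 152) (nat_lit 4242038698) (nat_lit 34) (nat_lit 4) (nat_lit 36) (nat_lit 5) (nat_lit 36) (nat_lit 4) (nat_lit 307) (nat_lit 240) (nat_lit 233)) (XT.lf (nat_lit 0) (nat_lit 2689671057) (nat_lit 228) (nat_lit 398712351) (nat_lit 76) (nat_lit 12612925529) (nat_lit 33) (nat_lit 5) (nat_lit 36) (nat_lit 5) (nat_lit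 34) (nat_lit 4) (nat_lit 308) (nat_lit 240) (nat_lit 232))))) (XT.nd (nat_lit 234) (nat_lit 456) (nat_lit 0) (XT.nd (nat_lit 78) (nat_lit 304) (nat_lit 0) (XT.lf (nat_lit 0) (nat_lit 9825267984) (nat_lit 152) (nat_lit 2852106690) (nat_lit 0) (nat_lit 3569863280) (nat_lit 32) (nat_lit 5) (nat_lit 34) (nat_lit 4) (nat_lit 32) (nat_lit 4) (nat_lit 309) (nat_lit 240) (nat_lit 231)) (XT.nd (nat_lit 78) (nat_lit 76) (nat_lit 0) (XT.lf (nat_lit 0) (nat_lit 411858129) (nat_lit 228) (nat_lit 5959621418) (nat_lit 76) (nat_lit 10451180218) (nat_lit 29) (nat_lit 5) (nat_lit 32) (nat_lit 5) (nat_lit 30) (nat_lit 4) (nat_lit 310) (nat_lit 240) (nat_lit 230)) (XT.lf (nat_lit 0) (nat_lit 7351011902) (nat_lit 152) (nat_lit 9823429607) (nat_lit 0) (nat_lit 253677820) (nat_lit 28) (nat_lit 5) (nat_lit 30) (nat_lit 4) (nat_lit 28) (nat_lit 4) (nat_lit 311) (nat_lit 240) (nat_lit 229)))) (XT.nd (nat_lit 156)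 (nat_lit 228) (nat_lit 0) (XT.nd (nat_lit 78) (nat_lit 76) (nat_lit 0) (XT.lf (nat_lit 0) (nat_lit 3546450128) (nat_lit 152) (nat_lit 11045962935) (nat_lit 152) (nat_lit 3472844588) (nat_lit 26) (nat_lit 4) (nat_lit 28) (nat_lit 5) (nat_lit 28) (nat_lit 4) (nat_lit 312) (nat_lit 240) (nat_lit 228)) (XT.lf (nat_lit 0) (nat_lit 3295446037) (nat_lit 228) (nat_lit 1336490762) (nat_lit 76) (nat_lit 14104336535) (nat_lit 25) (nat_lit 5) (nat_lit 28) (nat_lit 5) (nat_lit 26) (nat_lit 4) (nat_lit 313) (nat_lit 240) (nat_lit 227))) (XT.nd (nat_lit 78) (nat_lit 152) (nat_lit 0) (XT.lf (nat_lit 0) (nat_lit 10278945682) (nat_lit 152) (nat_lit 7094968108) (nat_lit 0) (nat_lit 2067492698) (nat_lit 24) (nat_lit 5) (nat_lit 26) (nat_lit 4) (nat_lit 24) (nat_lit 4) (nat_lit 314) (nat_lit 240) (nat_lit 226)) (XT.lf (nat_lit 0) (nat_lit 6297835093) (nat_lit 152) (nat_lit 11248232152) (nat_lit 152) (nat_lit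 2637749715) (nat_lit 22) (nat_lit 4) (nat_lit 24) (nat_lit 5) (nat_lit 24) (nat_lit 4) (nat_lit 315) (nat_lit 240) (nat_lit 225)))))) (XT.nd (nat_lit 546) (nat_lit 380) (nat_lit 0) (XT.nd (nat_lit 234) (nat_lit 228) (nat_lit 0) (XT.nd (nat_lit 78) (nat_lit 152) (nat_lit 0) (XT.lf (nat_lit 0) (nat_lit 4021896246) (nat_lit 228) (nat_lit 826061107) (nat_lit 76) (nat_lit 16117498185) (nat_lit 21) (nat_lit 5) (nat_lit 24) (nat_lit 5) (nat_lit 22) (nat_lit 4) (nat_lit 316) (nat_lit 240) (nat_lit 224)) (XT.nd (nat_lit 78) (nat_lit 76) (nat_lit 0) (XT.lf (nat_lit 0) (nat_lit 10927430615) (nat_lit 152) (nat_lit 9011595915) (nat_lit 0) (nat_lit 1847389872) (nat_lit 20) (nat_lit 5) (nat_lit 22) (nat_lit 4) (nat_lit 20) (nat_lit 4) (nat_lit 317) (nat_lit 240) (nat_lit 223)) (XT.lf (nat_lit 0) (nat_lit 4145606535) (nat_lit 76) (nat_lit 13959872343) (nat_lit 76) (nat_lit 4545174663) (nat_lit 19) (nat_lit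 4) (nat_lit 20) (nat_lit 5) (nat_lit 20) (nat_lit 4) (nat_lit 318) (nat_lit 240) (nat_lit 222)))) (XT.nd (nat_lit 156) (nat_lit 76) (nat_lit 0) (XT.nd (nat_lit 78) (nat_lit 76) (nat_lit 0) (XT.lf (nat_lit 0) (nat_lit 1970728192) (nat_lit 152) (nat_lit 5732840340) (nat_lit 76) (nat_lit 15856162642) (nat_lit 18) (nat_lit 5) (nat_lit 20) (nat_lit 5) (nat_lit 19) (nat_lit 4) (nat_lit 319) (nat_lit 240) (nat_lit 221)) (XT.lf (nat_lit 0) (nat_lit 7487202010) (nat_lit 76) (nat_lit 1145391235) (nat_lit 152) (nat_lit 15882934278) (nat_lit 17) (nat_lit 5) (nat_lit 18) (nat_lit 5) (nat_lit 19) (nat_lit 4) (nat_lit 320) (nat_lit 240) (nat_lit 220))) (XT.nd (nat_lit 78) (nat_lit 76) (nat_lit 0) (XT.lf (nat_lit 0) (nat_lit 15587256953) (nat_lit 152) (nat_lit 4371139394) (nat_lit 0) (nat_lit 5561964211) (nat_lit 17) (nat_lit 5) (nat_lit 19) (nat_lit 4) (nat_lit 17) (nat_lit 4) (nat_lit 321) (nat_lit 240)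 (nat_lit 219)) (XT.lf (nat_lit 0) (nat_lit 8806744486) (nat_lit 76) (nat_lit 14031433976) (nat_lit 76) (nat_lit 3738837264) (nat_lit 16) (nat_lit 4) (nat_lit 17) (nat_lit 5) (nat_lit 17) (nat_lit 4) (nat_lit 322) (nat_lit 240) (nat_lit 218))))) (XT.nd (nat_lit 312) (nat_lit 152) (nat_lit 0) (XT.nd (nat_lit 156) (nat_lit 76) (nat_lit 0) (XT.nd (nat_lit 78) (nat_lit 76) (nat_lit 0) (XT.lf (nat_lit 0) (nat_lit 2611972506) (nat_lit 152) (nat_lit 5244867733) (nat_lit 76) (nat_lit 19831875856) (nat_lit 15) (nat_lit 5) (nat_lit 17) (nat_lit 5) (nat_lit 16) (nat_lit 4) (nat_lit 323) (nat_lit 240) (nat_lit 217)) (XT.lf (nat_lit 0) (nat_lit 7765793510) (nat_lit 76) (nat_lit 1374806496) (nat_lit 152) (nat_lit 19716194764) (nat_lit 14) (nat_lit 5) (nat_lit 15) (nat_lit 5) (nat_lit 16) (nat_lit 4) (nat_lit 324) (nat_lit 240) (nat_lit 216))) (XT.nd (nat_lit 78) (nat_lit 76) (nat_lit 0) (XT.lf (nat_lit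 0) (nat_lit 15967713730) (nat_lit 152) (nat_lit 8848264012) (nat_lit 0) (nat_lit 5268168367) (nat_lit 14) (nat_lit 5) (nat_lit 16) (nat_lit 4) (nat_lit 14) (nat_lit 4) (nat_lit 325) (nat_lit 240) (nat_lit 215)) (XT.lf (nat_lit 0) (nat_lit 3828923577) (nat_lit 76) (nat_lit 19229674859) (nat_lit 76) (nat_lit 8316623051) (nat_lit 13) (nat_lit 4) (nat_lit 14) (nat_lit 5) (nat_lit 14) (nat_lit 4) (nat_lit 326) (nat_lit 240) (nat_lit 214)))) (XT.nd (nat_lit 156) (nat_lit 76) (nat_lit 0) (XT.nd (nat_lit 78) (nat_lit 76) (nat_lit 0) (XT.lf (nat_lit 0) (nat_lit 17093184193) (nat_lit 76) (nat_lit 13377542152) (nat_lit 76) (nat_lit 2261150872) (nat_lit 13) (nat_lit 4) (nat_lit 14) (nat_lit 5) (nat_lit 14) (nat_lit 4) (nat_lit 327) (nat_lit 240) (nat_lit 213)) (XT.lf (nat_lit 0) (nat_lit 3897484251) (nat_lit 152) (nat_lit 3398154888) (nat_lit 76) (nat_lit 26863160405) (nat_lit 12) (nat_lit 5) (nat_lit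 14) (nat_lit 5) (nat_lit 13) (nat_lit 4) (nat_lit 328) (nat_lit 240) (nat_lit 212))) (XT.nd (nat_lit 78) (nat_lit 0) (nat_lit 0) (XT.lf (nat_lit 0) (nat_lit 9402625753) (nat_lit 76) (nat_lit 891516398) (nat_lit 152) (nat_lit 25362972819) (nat_lit 11) (nat_lit 5) (nat_lit 12) (nat_lit 5) (nat_lit 13) (nat_lit 4) (nat_lit 329) (nat_lit 240) (nat_lit 211)) (XT.lf (nat_lit 0) (nat_lit 16990587508) (nat_lit 152) (nat_lit 14580023869) (nat_lit 0) (nat_lit 5660359260) (nat_lit 11) (nat_lit 5) (nat_lit 13) (nat_lit 4) (nat_lit 11) (nat_lit 4) (nat_lit 330) (nat_lit 240) (nat_lit 210))))))))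
noncomputable def xc20 : XT := (XT.nd (nat_lit 2184) (nat_lit 152) (nat_lit 0) (XT.nd (nat_lit 1092) (nat_lit 76) (nat_lit 0) (XT.nd (nat_lit 546) (nat_lit 228) (nat_lit 0) (XT.nd (nat_lit 234) (nat_lit 152) (nat_lit 0) (XT.nd (nat_lit 78) (nat_lit 76) (nat_lit 0) (XT.lf (nat_lit 0) (nat_lit 23924718802) (nat_lit 152) (nat_lit 2529661252) (nat_lit 0) (nat_lit 12432075131) (nat_lit 11) (nat_lit 5) (nat_lit 13) (nat_lit 4) (nat_lit 11) (nat_lit 4) (nat_lit 331) (nat_lit 240) (nat_lit 209)) (XT.nd (nat_lit 78) (nat_lit 0) (nat_lit 0) (XT.lf (nat_lit 0) (nat_lit 10131563061) (nat_lit 76) (nat_lit 21070303790) (nat_lit 76) (nat_lit 9422978763) (nat_lit 10) (nat_lit 4) (nat_lit 11) (nat_lit 5) (nat_lit 11) (nat_lit 4) (nat_lit 332) (nat_lit 240) (nat_lit 208)) (XT.lf (nat_lit 0) (nat_lit 23294779308) (nat_lit 76) (nat_lit 15476098332) (nat_lit 76) (nat_lit 3681457727) (nat_lit 10) (nat_lit 4) (nat_lit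 11) (nat_lit 5) (nat_lit 11) (nat_lit 4) (nat_lit 333) (nat_lit 240) (nat_lit 207)))) (XT.nd (nat_lit 156) (nat_lit 0) (nat_lit 0) (XT.nd (nat_lit 78) (nat_lit 76) (nat_lit 0) (XT.lf (nat_lit 0) (nat_lit 2207028204) (nat_lit 152) (nat_lit 7454673899) (nat_lit 76) (nat_lit 34711668397) (nat_lit 9) (nat_lit 5) (nat_lit 11) (nat_lit 5) (nat_lit 10) (nat_lit 4) (nat_lit 334) (nat_lit 240) (nat_lit 206)) (XT.lf (nat_lit 0) (nat_lit 4719655313) (nat_lit 76) (nat_lit 3550401848) (nat_lit 152) (nat_lit 38120636597) (nat_lit 8) (nat_lit 5) (nat_lit 9) (nat_lit 5) (nat_lit 10) (nat_lit 4) (nat_lit 335) (nat_lit 240) (nat_lit 205))) (XT.nd (nat_lit 78) (nat_lit 0) (nat_lit 0) (XT.lf (nat_lit 0) (nat_lit 14653437164) (nat_lit 152) (nat_lit 31042109080) (nat_lit 0) (nat_lit 2812837688) (nat_lit 8) (nat_lit 5) (nat_lit 10) (nat_lit 4) (nat_lit 8) (nat_lit 4) (nat_lit 336) (nat_lit 240) (nat_lit 204)) (XT.lf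 (nat_lit 0) (nat_lit 21308151053) (nat_lit 152) (nat_lit 20075373866) (nat_lit 0) (nat_lit 9349884694) (nat_lit 8) (nat_lit 5) (nat_lit 10) (nat_lit 4) (nat_lit 8) (nat_lit 4) (nat_lit 337) (nat_lit 240) (nat_lit 203))))) (XT.nd (nat_lit 234) (nat_lit 152) (nat_lit 0) (XT.nd (nat_lit 78) (nat_lit 76) (nat_lit 0) (XT.lf (nat_lit 0) (nat_lit 28215914751) (nat_lit 152) (nat_lit 8710592894) (nat_lit 0) (nat_lit 16145584694) (nat_lit 8) (nat_lit 5) (nat_lit 10) (nat_lit 4) (nat_lit 8) (nat_lit 4) (nat_lit 338) (nat_lit 240) (nat_lit 202)) (XT.nd (nat_lit 78) (nat_lit 0) (nat_lit 0) (XT.lf (nat_lit 0) (nat_lit 3140576803) (nat_lit 76) (nat_lit 32282787657) (nat_lit 76) (nat_lit 20105730268) (nat_lit 7) (nat_lit 4) (nat_lit 8) (nat_lit 5) (nat_lit 8) (nat_lit 4) (nat_lit 339) (nat_lit 240) (nat_lit 201)) (XT.lf (nat_lit 0) (nat_lit 15627299385) (nat_lit 76) (nat_lit 27379941236) (nat_lit 76) (nat_lit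 15101238769) (nat_lit 7) (nat_lit 4) (nat_lit 8) (nat_lit 5) (nat_lit 8) (nat_lit 4) (nat_lit 340) (nat_lit 240) (nat_lit 200)))) (XT.nd (nat_lit 156) (nat_lit 152) (nat_lit 0) (XT.nd (nat_lit 78) (nat_lit 0) (nat_lit 0) (XT.lf (nat_lit 0) (nat_lit 28605947265) (nat_lit 76) (nat_lit 22294254847) (nat_lit 76) (nat_lit 9918747545) (nat_lit 7) (nat_lit 4) (nat_lit 8) (nat_lit 5) (nat_lit 8) (nat_lit 4) (nat_lit 341) (nat_lit 240) (nat_lit 199)) (XT.lf (nat_lit 0) (nat_lit 42107421986) (nat_lit 76) (nat_lit 17013619714) (nat_lit 76) (nat_lit 4545917329) (nat_lit 7) (nat_lit 4) (nat_lit 8) (nat_lit 5) (nat_lit 8) (nat_lit 4) (nat_lit 342) (nat_lit 240) (nat_lit 198))) (XT.nd (nat_lit 78) (nat_lit 76) (nat_lit 0) (XT.lf (nat_lit 0) (nat_lit 1009944453) (nat_lit 152) (nat_lit 10505319983) (nat_lit 76) (nat_lit 55143727002) (nat_lit 6) (nat_lit 5) (nat_lit 8) (nat_lit 5) (nat_lit 7) (nat_lit 4) (nat_lit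 343) (nat_lit 240) (nat_lit 197)) (XT.lf (nat_lit 0) (nat_lit 958825096) (nat_lit 76) (nat_lit 5739675385) (nat_lit 152) (nat_lit 63102318185) (nat_lit 5) (nat_lit 5) (nat_lit 6) (nat_lit 5) (nat_lit 7) (nat_lit 4) (nat_lit 344) (nat_lit 240) (nat_lit 196)))))) (XT.nd (nat_lit 546) (nat_lit 0) (nat_lit 0) (XT.nd (nat_lit 234) (nat_lit 76) (nat_lit 0) (XT.nd (nat_lit 78) (nat_lit 0) (nat_lit 0) (XT.lf (nat_lit 0) (nat_lit 12723970603) (nat_lit 152) (nat_lit 59998554715) (nat_lit 0) (nat_lit 375647826) (nat_lit 5) (nat_lit 5) (nat_lit 7) (nat_lit 4) (nat_lit 5) (nat_lit 4) (nat_lit 345) (nat_lit 240) (nat_lit 195)) (XT.nd (nat_lit 78) (nat_lit 0) (nat_lit 0) (XT.lf (nat_lit 0) (nat_lit 19051647517) (nat_lit 152) (nat_lit 50879044992) (nat_lit 0) (nat_lit 6629684816) (nat_lit 5) (nat_lit 5) (nat_lit 7) (nat_lit 4) (nat_lit 5) (nat_lit 4) (nat_lit 346) (nat_lit 240) (nat_lit 194)) (XT.lf (nat_lit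 0) (nat_lit 25641423851) (nat_lit 152) (nat_lit 41406578012) (nat_lit 0) (nat_lit 13149327888) (nat_lit 5) (nat_lit 5) (nat_lit 7) (nat_lit 4) (nat_lit 5) (nat_lit 4) (nat_lit 347) (nat_lit 240) (nat_lit 193)))) (XT.nd (nat_lit 156) (nat_lit 76) (nat_lit 0) (XT.nd (nat_lit 78) (nat_lit 0) (nat_lit 0) (XT.lf (nat_lit 0) (nat_lit 32508989548) (nat_lit 152) (nat_lit 31558600282) (nat_lit 0) (nat_lit 19950100003) (nat_lit 5) (nat_lit 5) (nat_lit 7) (nat_lit 4) (nat_lit 5) (nat_lit 4) (nat_lit 348) (nat_lit 240) (nat_lit 192)) (XT.lf (nat_lit 0) (nat_lit 39670695954) (nat_lit 152) (nat_lit 21311664237) (nat_lit 0) (nat_lit 27048193474) (nat_lit 5) (nat_lit 5) (nat_lit 7) (nat_lit 4) (nat_lit 5) (nat_lit 4) (nat_lit 349) (nat_lit 240) (nat_lit 191))) (XT.nd (nat_lit 78) (nat_lit 76) (nat_lit 0) (XT.lf (nat_lit 0) (nat_lit 47143594753) (nat_lit 152) (nat_lit 10641372409) (nat_lit 0) (nat_lit 34460508525)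 (nat_lit 5) (nat_lit 5) (nat_lit 7) (nat_lit 4) (nat_lit 5) (nat_lit 4) (nat_lit 350) (nat_lit 240) (nat_lit 190)) (XT.lf (nat_lit 0) (nat_lit 487187439) (nat_lit 76) (nat_lit 54462974264) (nat_lit 76) (nat_lit 41722189228) (nat_lit 4) (nat_lit 4) (nat_lit 5) (nat_lit 5) (nat_lit 5) (nat_lit 4) (nat_lit 351) (nat_lit 240) (nat_lit 189))))) (XT.nd (nat_lit 234) (nat_lit 0) (nat_lit 0) (XT.nd (nat_lit 78) (nat_lit 0) (nat_lit 0) (XT.lf (nat_lit 0) (nat_lit 12312224751) (nat_lit 76) (nat_lit 50901051173) (nat_lit 76) (nat_lit 38105314892) (nat_lit 4) (nat_lit 4) (nat_lit 5) (nat_lit 5) (nat_lit 5) (nat_lit 4) (nat_lit 352) (nat_lit 240) (nat_lit 188)) (XT.nd (nat_lit 78) (nat_lit 0) (nat_lit 0) (XT.lf (nat_lit 0) (nat_lit 24650110200) (nat_lit 76) (nat_lit 47198174116) (nat_lit 76) (nat_lit 34350103315) (nat_lit 4) (nat_lit 4) (nat_lit 5) (nat_lit 5) (nat_lit 5) (nat_lit 4) (nat_lit 353) (nat_lit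 240) (nat_lit 187)) (XT.lf (nat_lit 0) (nat_lit 37530219706) (nat_lit 76) (nat_lit 43345526720) (nat_lit 76) (nat_lit 30447613519) (nat_lit 4) (nat_lit 4) (nat_lit 5) (nat_lit 5) (nat_lit 5) (nat_lit 4) (nat_lit 354) (nat_lit 240) (nat_lit 186)))) (XT.nd (nat_lit 156) (nat_lit 0) (nat_lit 0) (XT.nd (nat_lit 78) (nat_lit 0) (nat_lit 0) (XT.lf (nat_lit 0) (nat_lit 50983220194) (nat_lit 76) (nat_lit 39333936013) (nat_lit 76) (nat_lit 26388553861) (nat_lit 4) (nat_lit 4) (nat_lit 5) (nat_lit 5) (nat_lit 5) (nat_lit 4) (nat_lit 355) (nat_lit 240) (nat_lit 185)) (XT.lf (nat_lit 0) (nat_lit 65041142618) (nat_lit 76) (nat_lit 35153850590) (nat_lit 76) (nat_lit 22163259912) (nat_lit 4) (nat_lit 4) (nat_lit 5) (nat_lit 5) (nat_lit 5) (nat_lit 4) (nat_lit 356) (nat_lit 240) (nat_lit 184))) (XT.nd (nat_lit 78) (nat_lit 0) (nat_lit 0) (XT.lf (nat_lit 0) (nat_lit 79737458222) (nat_lit 76) (nat_lit 30795317866)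 (nat_lit 76) (nat_lit 17761671450) (nat_lit 4) (nat_lit 4) (nat_lit 5) (nat_lit 5) (nat_lit 5) (nat_lit 4) (nat_lit 357) (nat_lit 240) (nat_lit 183)) (XT.lf (nat_lit 0) (nat_lit 95107158235) (nat_lit 76) (nat_lit 26247960383) (nat_lit 76) (nat_lit 13173308501) (nat_lit 4) (nat_lit 4) (nat_lit 5) (nat_lit 5) (nat_lit 5) (nat_lit 4) (nat_lit 358) (nat_lit 240) (nat_lit 182))))))) (XT.nd (nat_lit 36348) (nat_lit 0) (nat_lit 1368) (XT.nd (nat_lit 546) (nat_lit 0) (nat_lit 0) (XT.nd (nat_lit 234) (nat_lit 76) (nat_lit 0) (XT.nd (nat_lit 78) (nat_lit 76) (nat_lit 0) (XT.lf (nat_lit 0) (nat_lit 111186837179) (nat_lit 76) (nat_lit 21500951099) (nat_lit 76) (nat_lit 8387246393) (nat_lit 4) (nat_lit 4) (nat_lit 5) (nat_lit 5) (nat_lit 5) (nat_lit 4) (nat_lit 359) (nat_lit 240) (nat_lit 181)) (XT.nd (nat_lit 78) (nat_lit 76) (nat_lit 0) (XT.lf (nat_lit 0) (nat_lit 128014780004) (nat_lit 76) (nat_lit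 16542987611) (nat_lit 76) (nat_lit 3392089739) (nat_lit 4) (nat_lit 4) (nat_lit 5) (nat_lit 5) (nat_lit 5) (nat_lit 4) (nat_lit 360) (nat_lit 240) (nat_lit 180)) (XT.lf (nat_lit 0) (nat_lit 1788460814) (nat_lit 152) (nat_lit 9555744481) (nat_lit 76) (nat_lit 143824532480) (nat_lit 3) (nat_lit 5) (nat_lit 5) (nat_lit 5) (nat_lit 4) (nat_lit 4) (nat_lit 361) (nat_lit 240) (nat_lit 179)))) (XT.nd (nat_lit 156) (nat_lit 0) (nat_lit 0) (XT.nd (nat_lit 78) (nat_lit 0) (nat_lit 0) (XT.lf (nat_lit 0) (nat_lit 1282260513) (nat_lit 76) (nat_lit 5861737390) (nat_lit 152) (nat_lit 155603977823) (nat_lit 2) (nat_lit 5) (nat_lit 3) (nat_lit 5) (nat_lit 4) (nat_lit 4) (nat_lit 362) (nat_lit 240) (nat_lit 178)) (XT.lf (nat_lit 0) (nat_lit 12812238024) (nat_lit 76) (nat_lit 27378779) (nat_lit 152) (nat_lit 157864393849) (nat_lit 2) (nat_lit 5) (nat_lit 3) (nat_lit 5) (nat_lit 4) (nat_lit 4) (nat_lit 363)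 (nat_lit 240) (nat_lit 177))) (XT.nd (nat_lit 78) (nat_lit 0) (nat_lit 0) (XT.lf (nat_lit 0) (nat_lit 18853603541) (nat_lit 152) (nat_lit 154245542483) (nat_lit 0) (nat_lit 5957697719) (nat_lit 2) (nat_lit 5) (nat_lit 4) (nat_lit 4) (nat_lit 2) (nat_lit 4) (nat_lit 364) (nat_lit 240) (nat_lit 176)) (XT.lf (nat_lit 0) (nat_lit 25144720699) (nat_lit 152) (nat_lit 150462786842) (nat_lit 0) (nat_lit 12220521849) (nat_lit 2) (nat_lit 5) (nat_lit 4) (nat_lit 4) (nat_lit 2) (nat_lit 4) (nat_lit 365) (nat_lit 240) (nat_lit 175))))) (XT.nd (nat_lit 35490) (nat_lit 0) (nat_lit 3192) (XT.nd (nat_lit 35334) (nat_lit 0) (nat_lit 4028) (XT.lf (nat_lit 0) (nat_lit 31727683946) (nat_lit 152) (nat_lit 146534235963) (nat_lit 0) (nat_lit 18776539355) (nat_lit 2) (nat_lit 5) (nat_lit 4) (nat_lit 4) (nat_lit 2) (nat_lit 4) (nat_lit 366) (nat_lit 240) (nat_lit 174)) (XT.nd (nat_lit 78) (nat_lit 456) (nat_lit 0)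 (XT.lf (nat_lit 0) (nat_lit 5154066071) (nat_lit 228) (nat_lit 309417328) (nat_lit 228) (nat_lit 309417328) (nat_lit 61) (nat_lit 4) (nat_lit 64) (nat_lit 5) (nat_lit 64) (nat_lit 4) (nat_lit 298) (nat_lit 241) (nat_lit 241)) (XT.lf (nat_lit 0) (nat_lit 99871006) (nat_lit 228) (nat_lit 6396663211) (nat_lit 228) (nat_lit 5376416949) (nat_lit 55) (nat_lit 4) (nat_lit 58) (nat_lit 5) (nat_lit 58) (nat_lit 4) (nat_lit 299) (nat_lit 241) (nat_lit 240)))) (XT.nd (nat_lit 156) (nat_lit 380) (nat_lit 0) (XT.nd (nat_lit 78) (nat_lit 228) (nat_lit 0) (XT.lf (nat_lit 0) (nat_lit 1263015841) (nat_lit 152) (nat_lit 340395592) (nat_lit 228) (nat_lit 10615527393) (nat_lit 52) (nat_lit 5) (nat_lit 54) (nat_lit 5) (nat_lit 55) (nat_lit 4) (nat_lit 300) (nat_lit 241) (nat_lit 239)) (XT.lf (nat_lit 0) (nat_lit 2112569603) (nat_lit 228) (nat_lit 6651117213) (nat_lit 228) (nat_lit 3818784393) (nat_lit 49) (nat_lit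 4) (nat_lit 52) (nat_lit 5) (nat_lit 52) (nat_lit 4) (nat_lit 301) (nat_lit 241) (nat_lit 238))) (XT.nd (nat_lit 78) (nat_lit 152) (nat_lit 0) (XT.lf (nat_lit 0) (nat_lit 2692324258) (nat_lit 152) (nat_lit 450687780) (nat_lit 228) (nat_lit 9823625207) (nat_lit 46) (nat_lit 5) (nat_lit 48) (nat_lit 5) (nat_lit 49) (nat_lit 4) (nat_lit 302) (nat_lit 241) (nat_lit 237)) (XT.lf (nat_lit 0) (nat_lit 2903449472) (nat_lit 152) (nat_lit 7419408180) (nat_lit 152) (nat_lit 3047658712) (nat_lit 44) (nat_lit 4) (nat_lit 46) (nat_lit 5) (nat_lit 46) (nat_lit 4) (nat_lit 303) (nat_lit 241) (nat_lit 236)))))) (XT.nd (nat_lit 546) (nat_lit 760) (nat_lit 0) (XT.nd (nat_lit 234) (nat_lit 456) (nat_lit 0) (XT.nd (nat_lit 78) (nat_lit 380) (nat_lit 0) (XT.lf (nat_lit 0) (nat_lit 2759661969) (nat_lit 152) (nat_lit 1124531550) (nat_lit 228) (nat_lit 9912428642) (nat_lit 41) (nat_lit 5) (nat_lit 43) (nat_lit 5)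 (nat_lit 44) (nat_lit 4) (nat_lit 304) (nat_lit 241) (nat_lit 235)) (XT.nd (nat_lit 78) (nat_lit 228) (nat_lit 0) (XT.lf (nat_lit 0) (nat_lit 2177036458) (nat_lit 152) (nat_lit 8870223471) (nat_lit 152) (nat_lit 3197532925) (nat_lit 39) (nat_lit 4) (nat_lit 41) (nat_lit 5) (nat_lit 41) (nat_lit 4) (nat_lit 305) (nat_lit 241) (nat_lit 234)) (XT.lf (nat_lit 0) (nat_lit 1143645550) (nat_lit 152) (nat_lit 2541023333) (nat_lit 228) (nat_lit 11032476859) (nat_lit 36) (nat_lit 5) (nat_lit 38) (nat_lit 5) (nat_lit 39) (nat_lit 4) (nat_lit 306) (nat_lit 241) (nat_lit 233)))) (XT.nd (nat_lit 156) (nat_lit 228) (nat_lit 0) (XT.nd (nat_lit 78) (nat_lit 228) (nat_lit 0) (XT.lf (nat_lit 0) (nat_lit 10785695141) (nat_lit 228) (nat_lit 407854224) (nat_lit 0) (nat_lit 4020474953) (nat_lit 36) (nat_lit 5) (nat_lit 39) (nat_lit 4) (nat_lit 36) (nat_lit 4) (nat_lit 307) (nat_lit 241) (nat_lit 232)) (XT.lf (nat_lit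 0) (nat_lit 2395714509) (nat_lit 228) (nat_lit 2486241981) (nat_lit 76) (nat_lit 10854986815) (nat_lit 33) (nat_lit 5) (nat_lit 36) (nat_lit 5) (nat_lit 34) (nat_lit 4) (nat_lit 308) (nat_lit 241) (nat_lit 231))) (XT.nd (nat_lit 78) (nat_lit 152) (nat_lit 0) (XT.lf (nat_lit 0) (nat_lit 9388724869) (nat_lit 152) (nat_lit 5185502704) (nat_lit 0) (nat_lit 1712958059) (nat_lit 32) (nat_lit 5) (nat_lit 34) (nat_lit 4) (nat_lit 32) (nat_lit 4) (nat_lit 309) (nat_lit 241) (nat_lit 230)) (XT.lf (nat_lit 0) (nat_lit 8307164248) (nat_lit 152) (nat_lit 8374827432) (nat_lit 152) (nat_lit 184499939) (nat_lit 30) (nat_lit 4) (nat_lit 32) (nat_lit 5) (nat_lit 32) (nat_lit 4) (nat_lit 310) (nat_lit 241) (nat_lit 229))))) (XT.nd (nat_lit 234) (nat_lit 380) (nat_lit 0) (XT.nd (nat_lit 78) (nat_lit 228) (nat_lit 0) (XT.lf (nat_lit 0) (nat_lit 4780569624) (nat_lit 76) (nat_lit 1850442646) (nat_lit 152) (nat_lit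 10844840823) (nat_lit 28) (nat_lit 5) (nat_lit 29) (nat_lit 5) (nat_lit 30) (nat_lit 4) (nat_lit 311) (nat_lit 241) (nat_lit 228)) (XT.nd (nat_lit 78) (nat_lit 76) (nat_lit 0) (XT.lf (nat_lit 0) (nat_lit 461414278) (nat_lit 152) (nat_lit 13268287421) (nat_lit 152) (nat_lit 4387601019) (nat_lit 26) (nat_lit 4) (nat_lit 28) (nat_lit 5) (nat_lit 28) (nat_lit 4) (nat_lit 312) (nat_lit 241) (nat_lit 227)) (XT.lf (nat_lit 0) (nat_lit 2305270938) (nat_lit 228) (nat_lit 4632536750) (nat_lit 76) (nat_lit 11853600268) (nat_lit 25) (nat_lit 5) (nat_lit 28) (nat_lit 5) (nat_lit 26) (nat_lit 4) (nat_lit 313) (nat_lit 241) (nat_lit 226)))) (XT.nd (nat_lit 156) (nat_lit 152) (nat_lit 0) (XT.nd (nat_lit 78) (nat_lit 152) (nat_lit 0) (XT.lf (nat_lit 0) (nat_lit 8842722725) (nat_lit 76) (nat_lit 303070288) (nat_lit 152) (nat_lit 10355063799) (nat_lit 24) (nat_lit 5) (nat_lit 25) (nat_lit 5) (nat_lit 26) (nat_lit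 4) (nat_lit 314) (nat_lit 241) (nat_lit 225)) (XT.lf (nat_lit 0) (nat_lit 2506465561) (nat_lit 152) (nat_lit 13780337131) (nat_lit 152) (nat_lit 3960273068) (nat_lit 22) (nat_lit 4) (nat_lit 24) (nat_lit 5) (nat_lit 24) (nat_lit 4) (nat_lit 315) (nat_lit 241) (nat_lit 224))) (XT.nd (nat_lit 78) (nat_lit 76) (nat_lit 0) (XT.lf (nat_lit 0) (nat_lit 2640234394) (nat_lit 228) (nat_lit 4822319720) (nat_lit 76) (nat_lit 13569113207) (nat_lit 21) (nat_lit 5) (nat_lit 24) (nat_lit 5) (nat_lit 22) (nat_lit 4) (nat_lit 316) (nat_lit 241) (nat_lit 223)) (XT.lf (nat_lit 0) (nat_lit 8567764540) (nat_lit 76) (nat_lit 838371777) (nat_lit 152) (nat_lit 12450702962) (nat_lit 20) (nat_lit 5) (nat_lit 21) (nat_lit 5) (nat_lit 22) (nat_lit 4) (nat_lit 317) (nat_lit 241) (nat_lit 222))))))))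
noncomputable def xc21 : XT := (XT.nd (nat_lit 2184) (nat_lit 228) (nat_lit 0) (XT.nd (nat_lit 1092) (nat_lit 456) (nat_lit 0) (XT.nd (nat_lit 546) (nat_lit 228) (nat_lit 0) (XT.nd (nat_lit 234) (nat_lit 228) (nat_lit 0) (XT.nd (nat_lit 78) (nat_lit 228) (nat_lit 0) (XT.lf (nat_lit 0) (nat_lit 16457236135) (nat_lit 152) (nat_lit 349244061) (nat_lit 0) (nat_lit 5918425743) (nat_lit 20) (nat_lit 5) (nat_lit 22) (nat_lit 4) (nat_lit 20) (nat_lit 4) (nat_lit 318) (nat_lit 241) (nat_lit 221)) (XT.nd (nat_lit 78) (nat_lit 76) (nat_lit 0) (XT.lf (nat_lit 0) (nat_lit 200983788) (nat_lit 152) (nat_lit 10434357009) (nat_lit 76) (nat_lit 13001584825) (nat_lit 18) (nat_lit 5) (nat_lit 20) (nat_lit 5) (nat_lit 19) (nat_lit 4) (nat_lit 319) (nat_lit 241) (nat_lit 220)) (XT.lf (nat_lit 0) (nat_lit 2554233071) (nat_lit 76) (nat_lit 4187479448) (nat_lit 152) (nat_lit 17854662093) (nat_lit 17) (nat_lit 5)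 (nat_lit 18) (nat_lit 5) (nat_lit 19) (nat_lit 4) (nat_lit 320) (nat_lit 241) (nat_lit 219)))) (XT.nd (nat_lit 156) (nat_lit 152) (nat_lit 0) (XT.nd (nat_lit 78) (nat_lit 76) (nat_lit 0) (XT.lf (nat_lit 0) (nat_lit 13595088980) (nat_lit 152) (nat_lit 9488616491) (nat_lit 0) (nat_lit 2520558461) (nat_lit 17) (nat_lit 5) (nat_lit 19) (nat_lit 4) (nat_lit 17) (nat_lit 4) (nat_lit 321) (nat_lit 241) (nat_lit 218)) (XT.lf (nat_lit 0) (nat_lit 3458325729) (nat_lit 76) (nat_lit 17267658360) (nat_lit 76) (nat_lit 5938552631) (nat_lit 16) (nat_lit 4) (nat_lit 17) (nat_lit 5) (nat_lit 17) (nat_lit 4) (nat_lit 322) (nat_lit 241) (nat_lit 217))) (XT.nd (nat_lit 78) (nat_lit 76) (nat_lit 0) (XT.lf (nat_lit 0) (nat_lit 387978472) (nat_lit 152) (nat_lit 10783962011) (nat_lit 76) (nat_lit 16606962606) (nat_lit 15) (nat_lit 5) (nat_lit 17) (nat_lit 5) (nat_lit 16) (nat_lit 4) (nat_lit 323) (nat_lit 241) (nat_lit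 216)) (XT.lf (nat_lit 0) (nat_lit 1995723880) (nat_lit 76) (nat_lit 4801413760) (nat_lit 152) (nat_lit 22153442991) (nat_lit 14) (nat_lit 5) (nat_lit 15) (nat_lit 5) (nat_lit 16) (nat_lit 4) (nat_lit 324) (nat_lit 241) (nat_lit 215))))) (XT.nd (nat_lit 234) (nat_lit 152) (nat_lit 0) (XT.nd (nat_lit 78) (nat_lit 76) (nat_lit 0) (XT.lf (nat_lit 0) (nat_lit 13528743492) (nat_lit 152) (nat_lit 14795535178) (nat_lit 0) (nat_lit 1856532648) (nat_lit 14) (nat_lit 5) (nat_lit 16) (nat_lit 4) (nat_lit 14) (nat_lit 4) (nat_lit 325) (nat_lit 241) (nat_lit 214)) (XT.nd (nat_lit 78) (nat_lit 76) (nat_lit 0) (XT.lf (nat_lit 0) (nat_lit 20523232503) (nat_lit 152) (nat_lit 2303877317) (nat_lit 0) (nat_lit 8647682188) (nat_lit 14) (nat_lit 5) (nat_lit 16) (nat_lit 4) (nat_lit 14) (nat_lit 4) (nat_lit 326) (nat_lit 241) (nat_lit 213)) (XT.lf (nat_lit 0) (nat_lit 10806894435) (nat_lit 76) (nat_lit 17048092137)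 (nat_lit 76) (nat_lit 4978885182) (nat_lit 13) (nat_lit 4) (nat_lit 14) (nat_lit 5) (nat_lit 14) (nat_lit 4) (nat_lit 327) (nat_lit 241) (nat_lit 212)))) (XT.nd (nat_lit 156) (nat_lit 0) (nat_lit 0) (XT.nd (nat_lit 78) (nat_lit 76) (nat_lit 0) (XT.lf (nat_lit 0) (nat_lit 1177190817) (nat_lit 152) (nat_lit 9863944489) (nat_lit 76) (nat_lit 23222122103) (nat_lit 12) (nat_lit 5) (nat_lit 14) (nat_lit 5) (nat_lit 13) (nat_lit 4) (nat_lit 328) (nat_lit 241) (nat_lit 211)) (XT.lf (nat_lit 0) (nat_lit 2707494957) (nat_lit 76) (nat_lit 4749051391) (nat_lit 152) (nat_lit 28308556830) (nat_lit 11) (nat_lit 5) (nat_lit 12) (nat_lit 5) (nat_lit 13) (nat_lit 4) (nat_lit 329) (nat_lit 241) (nat_lit 210))) (XT.nd (nat_lit 78) (nat_lit 0) (nat_lit 0) (XT.lf (nat_lit 0) (nat_lit 14064137733) (nat_lit 152) (nat_lit 21443051012) (nat_lit 0) (nat_lit 1834446455) (nat_lit 11) (nat_lit 5) (nat_lit 13) (nat_lit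 4) (nat_lit 11) (nat_lit 4) (nat_lit 330) (nat_lit 241) (nat_lit 209)) (XT.lf (nat_lit 0) (nat_lit 20948961422) (nat_lit 152) (nat_lit 9485058991) (nat_lit 0) (nat_lit 8564588787) (nat_lit 11) (nat_lit 5) (nat_lit 13) (nat_lit 4) (nat_lit 11) (nat_lit 4) (nat_lit 331) (nat_lit 241) (nat_lit 208)))))) (XT.nd (nat_lit 546) (nat_lit 228) (nat_lit 0) (XT.nd (nat_lit 234) (nat_lit 152) (nat_lit 0) (XT.nd (nat_lit 78) (nat_lit 0) (nat_lit 0) (XT.lf (nat_lit 0) (nat_lit 2948016457) (nat_lit 76) (nat_lit 25162080745) (nat_lit 76) (nat_lit 12630392533) (nat_lit 10) (nat_lit 4) (nat_lit 11) (nat_lit 5) (nat_lit 11) (nat_lit 4) (nat_lit 332) (nat_lit 241) (nat_lit 207)) (XT.nd (nat_lit 78) (nat_lit 0) (nat_lit 0) (XT.lf (nat_lit 0) (nat_lit 16025782407) (nat_lit 76) (nat_lit 19607780730) (nat_lit 76) (nat_lit 6935791969) (nat_lit 10) (nat_lit 4) (nat_lit 11) (nat_lit 5) (nat_lit 11) (nat_lit 4) (nat_lit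 333) (nat_lit 241) (nat_lit 206)) (XT.lf (nat_lit 0) (nat_lit 29590605124) (nat_lit 76) (nat_lit 13853676344) (nat_lit 76) (nat_lit 1048068012) (nat_lit 10) (nat_lit 4) (nat_lit 11) (nat_lit 5) (nat_lit 11) (nat_lit 4) (nat_lit 334) (nat_lit 241) (nat_lit 205)))) (XT.nd (nat_lit 156) (nat_lit 0) (nat_lit 0) (XT.nd (nat_lit 78) (nat_lit 76) (nat_lit 0) (XT.lf (nat_lit 0) (nat_lit 4948316527) (nat_lit 152) (nat_lit 2887782516) (nat_lit 76) (nat_lit 38676496982) (nat_lit 9) (nat_lit 5) (nat_lit 11) (nat_lit 5) (nat_lit 10) (nat_lit 4) (nat_lit 335) (nat_lit 241) (nat_lit 204)) (XT.lf (nat_lit 0) (nat_lit 9753669796) (nat_lit 76) (nat_lit 1481666042) (nat_lit 152) (nat_lit 37397848959) (nat_lit 8) (nat_lit 5) (nat_lit 9) (nat_lit 5) (nat_lit 10) (nat_lit 4) (nat_lit 336) (nat_lit 241) (nat_lit 203))) (XT.nd (nat_lit 78) (nat_lit 0) (nat_lit 0) (XT.lf (nat_lit 0) (nat_lit 17836935883) (nat_lit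 152) (nat_lit 27971849791) (nat_lit 0) (nat_lit 5051025625) (nat_lit 8) (nat_lit 5) (nat_lit 10) (nat_lit 4) (nat_lit 8) (nat_lit 4) (nat_lit 337) (nat_lit 241) (nat_lit 202)) (XT.lf (nat_lit 0) (nat_lit 24707679426) (nat_lit 152) (nat_lit 16676890423) (nat_lit 0) (nat_lit 11815041836) (nat_lit 8) (nat_lit 5) (nat_lit 10) (nat_lit 4) (nat_lit 8) (nat_lit 4) (nat_lit 338) (nat_lit 241) (nat_lit 201))))) (XT.nd (nat_lit 234) (nat_lit 152) (nat_lit 0) (XT.nd (nat_lit 78) (nat_lit 76) (nat_lit 0) (XT.lf (nat_lit 0) (nat_lit 31849682698) (nat_lit 152) (nat_lit 4953501456) (nat_lit 0) (nat_lit 18855400031) (nat_lit 8) (nat_lit 5) (nat_lit 10) (nat_lit 4) (nat_lit 8) (nat_lit 4) (nat_lit 339) (nat_lit 241) (nat_lit 200)) (XT.nd (nat_lit 78) (nat_lit 0) (nat_lit 0) (XT.lf (nat_lit 0) (nat_lit 7370046084) (nat_lit 76) (nat_lit 31980749778) (nat_lit 76) (nat_lit 18889662274) (nat_lit 7) (nat_lit 4)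 (nat_lit 8) (nat_lit 5) (nat_lit 8) (nat_lit 4) (nat_lit 340) (nat_lit 241) (nat_lit 199)) (XT.lf (nat_lit 0) (nat_lit 20287179060) (nat_lit 76) (nat_lit 26924007572) (nat_lit 76) (nat_lit 13740724986) (nat_lit 7) (nat_lit 4) (nat_lit 8) (nat_lit 5) (nat_lit 8) (nat_lit 4) (nat_lit 341) (nat_lit 241) (nat_lit 198)))) (XT.nd (nat_lit 156) (nat_lit 152) (nat_lit 0) (XT.nd (nat_lit 78) (nat_lit 0) (nat_lit 0) (XT.lf (nat_lit 0) (nat_lit 33730068157) (nat_lit 76) (nat_lit 21670938328) (nat_lit 76) (nat_lit 8399850901) (nat_lit 7) (nat_lit 4) (nat_lit 8) (nat_lit 5) (nat_lit 8) (nat_lit 4) (nat_lit 342) (nat_lit 241) (nat_lit 197)) (XT.lf (nat_lit 0) (nat_lit 47730720256) (nat_lit 76) (nat_lit 16209034736) (nat_lit 76) (nat_lit 2854323653) (nat_lit 7) (nat_lit 4) (nat_lit 8) (nat_lit 5) (nat_lit 8) (nat_lit 4) (nat_lit 343) (nat_lit 241) (nat_lit 196))) (XT.nd (nat_lit 78) (nat_lit 76) (nat_lit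 0) (XT.lf (nat_lit 0) (nat_lit 2852294149) (nat_lit 152) (nat_lit 7644195537) (nat_lit 76) (nat_lit 59441373512) (nat_lit 6) (nat_lit 5) (nat_lit 8) (nat_lit 5) (nat_lit 7) (nat_lit 4) (nat_lit 344) (nat_lit 241) (nat_lit 195)) (XT.lf (nat_lit 0) (nat_lit 4296086594) (nat_lit 76) (nat_lit 4475484035) (nat_lit 152) (nat_lit 64466837725) (nat_lit 5) (nat_lit 5) (nat_lit 6) (nat_lit 5) (nat_lit 7) (nat_lit 4) (nat_lit 345) (nat_lit 241) (nat_lit 194))))))) (XT.nd (nat_lit 1092) (nat_lit 152) (nat_lit 0) (XT.nd (nat_lit 546) (nat_lit 0) (nat_lit 0) (XT.nd (nat_lit 234) (nat_lit 76) (nat_lit 0) (XT.nd (nat_lit 78) (nat_lit 0) (nat_lit 0) (XT.lf (nat_lit 0) (nat_lit 15029746245) (nat_lit 152) (nat_lit 59830043741) (nat_lit 0) (nat_lit 1842912223) (nat_lit 5) (nat_lit 5) (nat_lit 7) (nat_lit 4) (nat_lit 5) (nat_lit 4) (nat_lit 346) (nat_lit 241) (nat_lit 193)) (XT.nd (nat_lit 78) (nat_lit 0) (nat_lit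 0) (XT.lf (nat_lit 0) (nat_lit 21594303333) (nat_lit 152) (nat_lit 50405436566) (nat_lit 0) (nat_lit 8340675729) (nat_lit 5) (nat_lit 5) (nat_lit 7) (nat_lit 4) (nat_lit 5) (nat_lit 4) (nat_lit 347) (nat_lit 241) (nat_lit 192)) (XT.lf (nat_lit 0) (nat_lit 28437850701) (nat_lit 152) (nat_lit 40603039602) (nat_lit 0) (nat_lit 15120610161) (nat_lit 5) (nat_lit 5) (nat_lit 7) (nat_lit 4) (nat_lit 5) (nat_lit 4) (nat_lit 348) (nat_lit 241) (nat_lit 191)))) (XT.nd (nat_lit 156) (nat_lit 76) (nat_lit 0) (XT.nd (nat_lit 78) (nat_lit 0) (nat_lit 0) (XT.lf (nat_lit 0) (nat_lit 35576682508) (nat_lit 152) (nat_lit 30399513810) (nat_lit 0) (nat_lit 22198858220) (nat_lit 5) (nat_lit 5) (nat_lit 7) (nat_lit 4) (nat_lit 5) (nat_lit 4) (nat_lit 349) (nat_lit 241) (nat_lit 190)) (XT.lf (nat_lit 0) (nat_lit 43027795974) (nat_lit 152) (nat_lit 19770565081) (nat_lit 0) (nat_lit 29592272878) (nat_lit 5) (nat_lit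 5) (nat_lit 7) (nat_lit 4) (nat_lit 5) (nat_lit 4) (nat_lit 350) (nat_lit 241) (nat_lit 189))) (XT.nd (nat_lit 78) (nat_lit 76) (nat_lit 0) (XT.lf (nat_lit 0) (nat_lit 50808931845) (nat_lit 152) (nat_lit 8690886394) (nat_lit 0) (nat_lit 37318457504) (nat_lit 5) (nat_lit 5) (nat_lit 7) (nat_lit 4) (nat_lit 5) (nat_lit 4) (nat_lit 351) (nat_lit 241) (nat_lit 188)) (XT.lf (nat_lit 0) (nat_lit 2922939516) (nat_lit 76) (nat_lit 56043774200) (nat_lit 76) (nat_lit 42500965340) (nat_lit 4) (nat_lit 4) (nat_lit 5) (nat_lit 5) (nat_lit 5) (nat_lit 4) (nat_lit 352) (nat_lit 241) (nat_lit 187))))) (XT.nd (nat_lit 234) (nat_lit 0) (nat_lit 0) (XT.nd (nat_lit 78) (nat_lit 0) (nat_lit 0) (XT.lf (nat_lit 0) (nat_lit 15224400470) (nat_lit 76) (nat_lit 52358152516) (nat_lit 76) (nat_lit 38765501256) (nat_lit 4) (nat_lit 4) (nat_lit 5) (nat_lit 5) (nat_lit 5) (nat_lit 4) (nat_lit 353) (nat_lit 241) (nat_lit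 186)) (XT.nd (nat_lit 78) (nat_lit 0) (nat_lit 0) (XT.lf (nat_lit 0) (nat_lit 28069819979) (nat_lit 76) (nat_lit 48521938807) (nat_lit 76) (nat_lit 34881818595) (nat_lit 4) (nat_lit 4) (nat_lit 5) (nat_lit 5) (nat_lit 5) (nat_lit 4) (nat_lit 354) (nat_lit 241) (nat_lit 185)) (XT.lf (nat_lit 0) (nat_lit 41489782375) (nat_lit 76) (nat_lit 44525999231) (nat_lit 76) (nat_lit 30840670494) (nat_lit 4) (nat_lit 4) (nat_lit 5) (nat_lit 5) (nat_lit 5) (nat_lit 4) (nat_lit 355) (nat_lit 241) (nat_lit 184)))) (XT.nd (nat_lit 156) (nat_lit 0) (nat_lit 0) (XT.nd (nat_lit 78) (nat_lit 0) (nat_lit 0) (XT.lf (nat_lit 0) (nat_lit 55516239950) (nat_lit 76) (nat_lit 40360819648) (nat_lit 76) (nat_lit 26632435172) (nat_lit 4) (nat_lit 4) (nat_lit 5) (nat_lit 5) (nat_lit 5) (nat_lit 4) (nat_lit 356) (nat_lit 241) (nat_lit 183)) (XT.lf (nat_lit 0) (nat_lit 70182589031) (nat_lit 76) (nat_lit 36016482961) (nat_lit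 76) (nat_lit 22247093020) (nat_lit 4) (nat_lit 4) (nat_lit 5) (nat_lit 5) (nat_lit 5) (nat_lit 4) (nat_lit 357) (nat_lit 241) (nat_lit 182))) (XT.nd (nat_lit 78) (nat_lit 0) (nat_lit 0) (XT.lf (nat_lit 0) (nat_lit 85523749498) (nat_lit 76) (nat_lit 31482645514) (nat_lit 76) (nat_lit 17674202748) (nat_lit 4) (nat_lit 4) (nat_lit 5) (nat_lit 5) (nat_lit 5) (nat_lit 4) (nat_lit 358) (nat_lit 241) (nat_lit 181)) (XT.lf (nat_lit 0) (nat_lit 101576247922) (nat_lit 76) (nat_lit 26748512454) (nat_lit 76) (nat_lit 12902876523) (nat_lit 4) (nat_lit 4) (nat_lit 5) (nat_lit 5) (nat_lit 5) (nat_lit 4) (nat_lit 359) (nat_lit 241) (nat_lit 180)))))) (XT.nd (nat_lit 35646) (nat_lit 0) (nat_lit 3192) (XT.nd (nat_lit 234) (nat_lit 76) (nat_lit 0) (XT.nd (nat_lit 78) (nat_lit 76) (nat_lit 0) (XT.lf (nat_lit 0) (nat_lit 118378304538) (nat_lit 76) (nat_lit 21802812036) (nat_lit 76) (nat_lit 7921754042) (nat_lit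 4) (nat_lit 4) (nat_lit 5) (nat_lit 5) (nat_lit 5) (nat_lit 4) (nat_lit 360) (nat_lit 241) (nat_lit 179)) (XT.nd (nat_lit 78) (nat_lit 76) (nat_lit 0) (XT.lf (nat_lit 0) (nat_lit 135969924243) (nat_lit 76) (nat_lit 16633768784) (nat_lit 76) (nat_lit 2718975492) (nat_lit 4) (nat_lit 4) (nat_lit 5) (nat_lit 5) (nat_lit 5) (nat_lit 4) (nat_lit 361) (nat_lit 241) (nat_lit 178)) (XT.lf (nat_lit 0) (nat_lit 2664811717) (nat_lit 152) (nat_lit 8537354360) (nat_lit 76) (nat_lit 151701270755) (nat_lit 3) (nat_lit 5) (nat_lit 5) (nat_lit 5) (nat_lit 4) (nat_lit 4) (nat_lit 362) (nat_lit 241) (nat_lit 177)))) (XT.nd (nat_lit 156) (nat_lit 0) (nat_lit 0) (XT.nd (nat_lit 78) (nat_lit 0) (nat_lit 0) (XT.lf (nat_lit 0) (nat_lit 2799663261) (nat_lit 76) (nat_lit 5464959555) (nat_lit 152) (nat_lit 162597725140) (nat_lit 2) (nat_lit 5) (nat_lit 3) (nat_lit 5) (nat_lit 4) (nat_lit 4) (nat_lit 363) (nat_lit 241)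 (nat_lit 176)) (XT.lf (nat_lit 0) (nat_lit 14214708368) (nat_lit 152) (nat_lit 164386385036) (nat_lit 0) (nat_lit 616006548) (nat_lit 2) (nat_lit 5) (nat_lit 4) (nat_lit 4) (nat_lit 2) (nat_lit 4) (nat_lit 364) (nat_lit 241) (nat_lit 175))) (XT.nd (nat_lit 78) (nat_lit 0) (nat_lit 0) (XT.lf (nat_lit 0) (nat_lit 20494747590) (nat_lit 152) (nat_lit 160624772099) (nat_lit 0) (nat_lit 6869100029) (nat_lit 2) (nat_lit 5) (nat_lit 4) (nat_lit 4) (nat_lit 2) (nat_lit 4) (nat_lit 365) (nat_lit 241) (nat_lit 174)) (XT.lf (nat_lit 0) (nat_lit 27067160422) (nat_lit 152) (nat_lit 156716357129) (nat_lit 0) (nat_lit 13415850250) (nat_lit 2) (nat_lit 5) (nat_lit 4) (nat_lit 4) (nat_lit 2) (nat_lit 4) (nat_lit 366) (nat_lit 241) (nat_lit 173))))) (XT.nd (nat_lit 312) (nat_lit 1064) (nat_lit 0) (XT.nd (nat_lit 156) (nat_lit 456) (nat_lit 0) (XT.nd (nat_lit 78) (nat_lit 304) (nat_lit 0) (XT.lf (nat_lit 0)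 (nat_lit 3283513200) (nat_lit 228) (nat_lit 1092328176) (nat_lit 228) (nat_lit 1092328176) (nat_lit 68) (nat_lit 4) (nat_lit 71) (nat_lit 5) (nat_lit 71) (nat_lit 4) (nat_lit 296) (nat_lit 242) (nat_lit 242)) (XT.lf (nat_lit 0) (nat_lit 4754837131) (nat_lit 304) (nat_lit 2828141917) (nat_lit 0) (nat_lit 3651440798) (nat_lit 64) (nat_lit 5) (nat_lit 68) (nat_lit 4) (nat_lit 64) (nat_lit 4) (nat_lit 297) (nat_lit 242) (nat_lit 241))) (XT.nd (nat_lit 78) (nat_lit 152) (nat_lit 0) (XT.lf (nat_lit 0) (nat_lit 345343980) (nat_lit 304) (nat_lit 1453201702) (nat_lit 76) (nat_lit 9751076336) (nat_lit 60) (nat_lit 5) (nat_lit 64) (nat_lit 5) (nat_lit 61) (nat_lit 4) (nat_lit 298) (nat_lit 242) (nat_lit 240)) (XT.lf (nat_lit 0) (nat_lit 7307889034) (nat_lit 228) (nat_lit 328269817) (nat_lit 0) (nat_lit 4244721089) (nat_lit 58) (nat_lit 5) (nat_lit 61) (nat_lit 4) (nat_lit 58) (nat_lit 4) (nat_lit 299)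 (nat_lit 242) (nat_lit 239)))) (XT.nd (nat_lit 156) (nat_lit 380) (nat_lit 0) (XT.nd (nat_lit 78) (nat_lit 228) (nat_lit 0) (XT.lf (nat_lit 0) (nat_lit 595135936) (nat_lit 152) (nat_lit 1662843037) (nat_lit 228) (nat_lit 9972711745) (nat_lit 52) (nat_lit 5) (nat_lit 54) (nat_lit 5) (nat_lit 55) (nat_lit 4) (nat_lit 300) (nat_lit 242) (nat_lit 238)) (XT.lf (nat_lit 0) (nat_lit 1226888470) (nat_lit 228) (nat_lit 8049841978) (nat_lit 228) (nat_lit 3321794928) (nat_lit 49) (nat_lit 4) (nat_lit 52) (nat_lit 5) (nat_lit 52) (nat_lit 4) (nat_lit 301) (nat_lit 242) (nat_lit 237))) (XT.nd (nat_lit 78) (nat_lit 152) (nat_lit 0) (XT.lf (nat_lit 0) (nat_lit 1565730462) (nat_lit 152) (nat_lit 1936086918) (nat_lit 228) (nat_lit 9484637587) (nat_lit 46) (nat_lit 5) (nat_lit 48) (nat_lit 5) (nat_lit 49) (nat_lit 4) (nat_lit 302) (nat_lit 242) (nat_lit 236)) (XT.lf (nat_lit 0) (nat_lit 1549770380) (nat_lit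 152) (nat_lit 8989943407) (nat_lit 152) (nat_lit 2854928581) (nat_lit 44) (nat_lit 4) (nat_lit 46) (nat_lit 5) (nat_lit 46) (nat_lit 4) (nat_lit 303) (nat_lit 242) (nat_lit 235))))))))
noncomputable def xc22 : XT := (XT.nd (nat_lit 2184) (nat_lit 532) (nat_lit 0) (XT.nd (nat_lit 1092) (nat_lit 684) (nat_lit 0) (XT.nd (nat_lit 546) (nat_lit 760) (nat_lit 0) (XT.nd (nat_lit 234) (nat_lit 608) (nat_lit 0) (XT.nd (nat_lit 78) (nat_lit 228) (nat_lit 0) (XT.lf (nat_lit 0) (nat_lit 1156912857) (nat_lit 152) (nat_lit 2788677325) (nat_lit 228) (nat_lit 9878975633) (nat_lit 41) (nat_lit 5) (nat_lit 43) (nat_lit 5) (nat_lit 44) (nat_lit 4) (nat_lit 304) (nat_lit 242) (nat_lit 234)) (XT.nd (nat_lit 78) (nat_lit 76) (nat_lit 0) (XT.lf (nat_lit 0) (nat_lit 337572903) (nat_lit 152) (nat_lit 10628042172) (nat_lit 152) (nat_lit 3311456539) (nat_lit 39) (nat_lit 4) (nat_lit 41) (nat_lit 5) (nat_lit 41) (nat_lit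 4) (nat_lit 305) (nat_lit 242) (nat_lit 233)) (XT.lf (nat_lit 0) (nat_lit 3454966800) (nat_lit 228) (nat_lit 934947538) (nat_lit 76) (nat_lit 10363123615) (nat_lit 38) (nat_lit 5) (nat_lit 41) (nat_lit 5) (nat_lit 39) (nat_lit 4) (nat_lit 306) (nat_lit 242) (nat_lit 232)))) (XT.nd (nat_lit 156) (nat_lit 228) (nat_lit 0) (XT.nd (nat_lit 78) (nat_lit 228) (nat_lit 0) (XT.lf (nat_lit 0) (nat_lit 10424580838) (nat_lit 228) (nat_lit 2706077649) (nat_lit 0) (nat_lit 2123239033) (nat_lit 36) (nat_lit 5) (nat_lit 39) (nat_lit 4) (nat_lit 36) (nat_lit 4) (nat_lit 307) (nat_lit 242) (nat_lit 231)) (XT.lf (nat_lit 0) (nat_lit 1877641689) (nat_lit 228) (nat_lit 5046226554) (nat_lit 76) (nat_lit 8856846912) (nat_lit 33) (nat_lit 5) (nat_lit 36) (nat_lit 5) (nat_lit 34) (nat_lit 4) (nat_lit 308) (nat_lit 242) (nat_lit 230))) (XT.nd (nat_lit 78) (nat_lit 152) (nat_lit 0) (XT.lf (nat_lit 0) (nat_lit 8333643470)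 (nat_lit 76) (nat_lit 396149710) (nat_lit 152) (nat_lit 7605424079) (nat_lit 32) (nat_lit 5) (nat_lit 33) (nat_lit 5) (nat_lit 34) (nat_lit 4) (nat_lit 309) (nat_lit 242) (nat_lit 229)) (XT.lf (nat_lit 0) (nat_lit 5267314610) (nat_lit 152) (nat_lit 10627771297) (nat_lit 152) (nat_lit 1023308954) (nat_lit 30) (nat_lit 4) (nat_lit 32) (nat_lit 5) (nat_lit 32) (nat_lit 4) (nat_lit 310) (nat_lit 242) (nat_lit 228))))) (XT.nd (nat_lit 234) (nat_lit 380) (nat_lit 0) (XT.nd (nat_lit 78) (nat_lit 228) (nat_lit 0) (XT.lf (nat_lit 0) (nat_lit 1466893777) (nat_lit 76) (nat_lit 4216888404) (nat_lit 152) (nat_lit 11847989677) (nat_lit 28) (nat_lit 5) (nat_lit 29) (nat_lit 5) (nat_lit 30) (nat_lit 4) (nat_lit 311) (nat_lit 242) (nat_lit 227)) (XT.nd (nat_lit 78) (nat_lit 228) (nat_lit 0) (XT.lf (nat_lit 0) (nat_lit 12664556208) (nat_lit 152) (nat_lit 3057074000) (nat_lit 0) (nat_lit 2455157261) (nat_lit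 28) (nat_lit 5) (nat_lit 30) (nat_lit 4) (nat_lit 28) (nat_lit 4) (nat_lit 312) (nat_lit 242) (nat_lit 226)) (XT.lf (nat_lit 0) (nat_lit 1083490737) (nat_lit 228) (nat_lit 8420913086) (nat_lit 76) (nat_lit 9350412444) (nat_lit 25) (nat_lit 5) (nat_lit 28) (nat_lit 5) (nat_lit 26) (nat_lit 4) (nat_lit 313) (nat_lit 242) (nat_lit 225)))) (XT.nd (nat_lit 156) (nat_lit 304) (nat_lit 0) (XT.nd (nat_lit 78) (nat_lit 0) (nat_lit 0) (XT.lf (nat_lit 0) (nat_lit 4823760259) (nat_lit 76) (nat_lit 2977022221) (nat_lit 152) (nat_lit 11767204673) (nat_lit 24) (nat_lit 5) (nat_lit 25) (nat_lit 5) (nat_lit 26) (nat_lit 4) (nat_lit 314) (nat_lit 242) (nat_lit 224)) (XT.lf (nat_lit 0) (nat_lit 14809372318) (nat_lit 152) (nat_lit 1752484778) (nat_lit 0) (nat_lit 3756345523) (nat_lit 24) (nat_lit 5) (nat_lit 26) (nat_lit 4) (nat_lit 24) (nat_lit 4) (nat_lit 315) (nat_lit 242) (nat_lit 223))) (XT.nd (nat_lit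 78) (nat_lit 76) (nat_lit 0) (XT.lf (nat_lit 0) (nat_lit 1023643094) (nat_lit 228) (nat_lit 9319727958) (nat_lit 76) (nat_lit 10762839379) (nat_lit 21) (nat_lit 5) (nat_lit 24) (nat_lit 5) (nat_lit 22) (nat_lit 4) (nat_lit 316) (nat_lit 242) (nat_lit 222)) (XT.lf (nat_lit 0) (nat_lit 3838069090) (nat_lit 76) (nat_lit 3828962953) (nat_lit 152) (nat_lit 14268046802) (nat_lit 20) (nat_lit 5) (nat_lit 21) (nat_lit 5) (nat_lit 22) (nat_lit 4) (nat_lit 317) (nat_lit 242) (nat_lit 221)))))) (XT.nd (nat_lit 546) (nat_lit 304) (nat_lit 0) (XT.nd (nat_lit 234) (nat_lit 228) (nat_lit 0) (XT.nd (nat_lit 78) (nat_lit 152) (nat_lit 0) (XT.lf (nat_lit 0) (nat_lit 14614108853) (nat_lit 152) (nat_lit 5266084064) (nat_lit 0) (nat_lit 2926093342) (nat_lit 20) (nat_lit 5) (nat_lit 22) (nat_lit 4) (nat_lit 20) (nat_lit 4) (nat_lit 318) (nat_lit 242) (nat_lit 220)) (XT.nd (nat_lit 78) (nat_lit 76) (nat_lit 0)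 (XT.lf (nat_lit 0) (nat_lit 8056196794) (nat_lit 76) (nat_lit 13821463772) (nat_lit 76) (nat_lit 1844359016) (nat_lit 19) (nat_lit 4) (nat_lit 20) (nat_lit 5) (nat_lit 20) (nat_lit 4) (nat_lit 319) (nat_lit 242) (nat_lit 219)) (XT.lf (nat_lit 0) (nat_lit 4637599707) (nat_lit 152) (nat_lit 2838100439) (nat_lit 76) (nat_lit 17209160770) (nat_lit 18) (nat_lit 5) (nat_lit 20) (nat_lit 5) (nat_lit 19) (nat_lit 4) (nat_lit 320) (nat_lit 242) (nat_lit 218)))) (XT.nd (nat_lit 156) (nat_lit 152) (nat_lit 0) (XT.nd (nat_lit 78) (nat_lit 0) (nat_lit 0) (XT.lf (nat_lit 0) (nat_lit 10567219038) (nat_lit 76) (nat_lit 803155026) (nat_lit 152) (nat_lit 14326011063) (nat_lit 17) (nat_lit 5) (nat_lit 18) (nat_lit 5) (nat_lit 19) (nat_lit 4) (nat_lit 321) (nat_lit 242) (nat_lit 217)) (XT.lf (nat_lit 0) (nat_lit 18394958425) (nat_lit 152) (nat_lit 2362535219) (nat_lit 0) (nat_lit 6002369618) (nat_lit 17) (nat_lit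 5) (nat_lit 19) (nat_lit 4) (nat_lit 17) (nat_lit 4) (nat_lit 322) (nat_lit 242) (nat_lit 216))) (XT.nd (nat_lit 78) (nat_lit 76) (nat_lit 0) (XT.lf (nat_lit 0) (nat_lit 11013886959) (nat_lit 76) (nat_lit 14743281878) (nat_lit 76) (nat_lit 2119785850) (nat_lit 16) (nat_lit 4) (nat_lit 17) (nat_lit 5) (nat_lit 17) (nat_lit 4) (nat_lit 323) (nat_lit 242) (nat_lit 215)) (XT.lf (nat_lit 0) (nat_lit 4250598720) (nat_lit 152) (nat_lit 4214692264) (nat_lit 76) (nat_lit 20586370835) (nat_lit 15) (nat_lit 5) (nat_lit 17) (nat_lit 5) (nat_lit 16) (nat_lit 4) (nat_lit 324) (nat_lit 242) (nat_lit 214))))) (XT.nd (nat_lit 234) (nat_lit 152) (nat_lit 0) (XT.nd (nat_lit 78) (nat_lit 76) (nat_lit 0) (XT.lf (nat_lit 0) (nat_lit 9000215117) (nat_lit 76) (nat_lit 1863362438) (nat_lit 152) (nat_lit 19421887202) (nat_lit 14) (nat_lit 5) (nat_lit 15) (nat_lit 5) (nat_lit 16) (nat_lit 4) (nat_lit 325) (nat_lit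 242) (nat_lit 213)) (XT.nd (nat_lit 78) (nat_lit 76) (nat_lit 0) (XT.lf (nat_lit 0) (nat_lit 17783402654) (nat_lit 152) (nat_lit 8881216799) (nat_lit 0) (nat_lit 4917078712) (nat_lit 14) (nat_lit 5) (nat_lit 16) (nat_lit 4) (nat_lit 14) (nat_lit 4) (nat_lit 326) (nat_lit 242) (nat_lit 212)) (XT.lf (nat_lit 0) (nat_lit 3996141393) (nat_lit 76) (nat_lit 20999496554) (nat_lit 76) (nat_lit 7948737717) (nat_lit 13) (nat_lit 4) (nat_lit 14) (nat_lit 5) (nat_lit 14) (nat_lit 4) (nat_lit 327) (nat_lit 242) (nat_lit 211)))) (XT.nd (nat_lit 156) (nat_lit 76) (nat_lit 0) (XT.nd (nat_lit 78) (nat_lit 76) (nat_lit 0) (XT.lf (nat_lit 0) (nat_lit 17502817097) (nat_lit 76) (nat_lit 15049642807) (nat_lit 76) (nat_lit 1823231689) (nat_lit 13) (nat_lit 4) (nat_lit 14) (nat_lit 5) (nat_lit 14) (nat_lit 4) (nat_lit 328) (nat_lit 242) (nat_lit 210)) (XT.lf (nat_lit 0) (nat_lit 4415252060) (nat_lit 152) (nat_lit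 4430737321) (nat_lit 76) (nat_lit 27034377984) (nat_lit 12) (nat_lit 5) (nat_lit 14) (nat_lit 5) (nat_lit 13) (nat_lit 4) (nat_lit 329) (nat_lit 242) (nat_lit 209))) (XT.nd (nat_lit 78) (nat_lit 0) (nat_lit 0) (XT.lf (nat_lit 0) (nat_lit 8599394906) (nat_lit 76) (nat_lit 2313125146) (nat_lit 152) (nat_lit 26547699262) (nat_lit 11) (nat_lit 5) (nat_lit 12) (nat_lit 5) (nat_lit 13) (nat_lit 4) (nat_lit 330) (nat_lit 242) (nat_lit 208)) (XT.lf (nat_lit 0) (nat_lit 17728148943) (nat_lit 152) (nat_lit 16968569209) (nat_lit 0) (nat_lit 4422560743) (nat_lit 11) (nat_lit 5) (nat_lit 13) (nat_lit 4) (nat_lit 11) (nat_lit 4) (nat_lit 331) (nat_lit 242) (nat_lit 207))))))) (XT.nd (nat_lit 1092) (nat_lit 152) (nat_lit 0) (XT.nd (nat_lit 546) (nat_lit 152) (nat_lit 0) (XT.nd (nat_lit 234) (nat_lit 152) (nat_lit 0) (XT.nd (nat_lit 78) (nat_lit 76) (nat_lit 0) (XT.lf (nat_lit 0) (nat_lit 24816223134) (nat_lit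 152) (nat_lit 4676803033) (nat_lit 0) (nat_lit 11370334385) (nat_lit 11) (nat_lit 5) (nat_lit 13) (nat_lit 4) (nat_lit 11) (nat_lit 4) (nat_lit 332) (nat_lit 242) (nat_lit 206)) (XT.nd (nat_lit 78) (nat_lit 0) (nat_lit 0) (XT.lf (nat_lit 0) (nat_lit 8226504131) (nat_lit 76) (nat_lit 24023957878) (nat_lit 76) (nat_lit 10444449558) (nat_lit 10) (nat_lit 4) (nat_lit 11) (nat_lit 5) (nat_lit 11) (nat_lit 4) (nat_lit 333) (nat_lit 242) (nat_lit 205)) (XT.lf (nat_lit 0) (nat_lit 21713820909) (nat_lit 76) (nat_lit 18306048906) (nat_lit 76) (nat_lit 4599283851) (nat_lit 10) (nat_lit 4) (nat_lit 11) (nat_lit 5) (nat_lit 11) (nat_lit 4) (nat_lit 334) (nat_lit 242) (nat_lit 204)))) (XT.nd (nat_lit 156) (nat_lit 0) (nat_lit 0) (XT.nd (nat_lit 78) (nat_lit 76) (nat_lit 0) (XT.lf (nat_lit 0) (nat_lit 1426656951) (nat_lit 152) (nat_lit 10931848333) (nat_lit 76) (nat_lit 34283119021) (nat_lit 9) (nat_lit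 5) (nat_lit 11) (nat_lit 5) (nat_lit 10) (nat_lit 4) (nat_lit 335) (nat_lit 242) (nat_lit 203)) (XT.lf (nat_lit 0) (nat_lit 1477036213) (nat_lit 76) (nat_lit 6119231652) (nat_lit 152) (nat_lit 41169474872) (nat_lit 8) (nat_lit 5) (nat_lit 9) (nat_lit 5) (nat_lit 10) (nat_lit 4) (nat_lit 336) (nat_lit 242) (nat_lit 202))) (XT.nd (nat_lit 78) (nat_lit 0) (nat_lit 0) (XT.lf (nat_lit 0) (nat_lit 14116268637) (nat_lit 152) (nat_lit 36406283800) (nat_lit 0) (nat_lit 472271835) (nat_lit 8) (nat_lit 5) (nat_lit 10) (nat_lit 4) (nat_lit 8) (nat_lit 4) (nat_lit 337) (nat_lit 242) (nat_lit 201)) (XT.lf (nat_lit 0) (nat_lit 20951754888) (nat_lit 152) (nat_lit 25177821198) (nat_lit 0) (nat_lit 7206113009) (nat_lit 8) (nat_lit 5) (nat_lit 10) (nat_lit 4) (nat_lit 8) (nat_lit 4) (nat_lit 338) (nat_lit 242) (nat_lit 200))))) (XT.nd (nat_lit 234) (nat_lit 76) (nat_lit 0) (XT.nd (nat_lit 78) (nat_lit 76) (nat_lit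 0) (XT.lf (nat_lit 0) (nat_lit 28060179788) (nat_lit 152) (nat_lit 13517762484) (nat_lit 0) (nat_lit 14217733072) (nat_lit 8) (nat_lit 5) (nat_lit 10) (nat_lit 4) (nat_lit 8) (nat_lit 4) (nat_lit 339) (nat_lit 242) (nat_lit 199)) (XT.nd (nat_lit 78) (nat_lit 76) (nat_lit 0) (XT.lf (nat_lit 0) (nat_lit 35458468158) (nat_lit 152) (nat_lit 1398345615) (nat_lit 0) (nat_lit 21523826360) (nat_lit 8) (nat_lit 5) (nat_lit 10) (nat_lit 4) (nat_lit 8) (nat_lit 4) (nat_lit 340) (nat_lit 242) (nat_lit 198)) (XT.lf (nat_lit 0) (nat_lit 11432371917) (nat_lit 76) (nat_lit 31841758005) (nat_lit 76) (nat_lit 17819311367) (nat_lit 7) (nat_lit 4) (nat_lit 8) (nat_lit 5) (nat_lit 8) (nat_lit 4) (nat_lit 341) (nat_lit 242) (nat_lit 197)))) (XT.nd (nat_lit 156) (nat_lit 76) (nat_lit 0) (XT.nd (nat_lit 78) (nat_lit 0) (nat_lit 0) (XT.lf (nat_lit 0) (nat_lit 24819465184) (nat_lit 76) (nat_lit 26614941987) (nat_lit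 76) (nat_lit 12508871692) (nat_lit 7) (nat_lit 4) (nat_lit 8) (nat_lit 5) (nat_lit 8) (nat_lit 4) (nat_lit 342) (nat_lit 242) (nat_lit 196)) (XT.lf (nat_lit 0) (nat_lit 38766978395) (nat_lit 76) (nat_lit 21178041469) (nat_lit 76) (nat_lit 6992329596) (nat_lit 7) (nat_lit 4) (nat_lit 8) (nat_lit 5) (nat_lit 8) (nat_lit 4) (nat_lit 343) (nat_lit 242) (nat_lit 195))) (XT.nd (nat_lit 78) (nat_lit 76) (nat_lit 0) (XT.lf (nat_lit 0) (nat_lit 53308119915) (nat_lit 76) (nat_lit 15518111449) (nat_lit 76) (nat_lit 1256550454) (nat_lit 7) (nat_lit 4) (nat_lit 8) (nat_lit 5) (nat_lit 8) (nat_lit 4) (nat_lit 344) (nat_lit 242) (nat_lit 194)) (XT.lf (nat_lit 0) (nat_lit 4620171871) (nat_lit 152) (nat_lit 4954849355) (nat_lit 76) (nat_lit 63810684963) (nat_lit 6) (nat_lit 5) (nat_lit 8) (nat_lit 5) (nat_lit 7) (nat_lit 4) (nat_lit 345) (nat_lit 242) (nat_lit 193)))))) (XT.nd (nat_lit 546) (nat_lit 76) (nat_lit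 0) (XT.nd (nat_lit 234) (nat_lit 0) (nat_lit 0) (XT.nd (nat_lit 78) (nat_lit 0) (nat_lit 0) (XT.lf (nat_lit 0) (nat_lit 7494401348) (nat_lit 76) (nat_lit 3292296677) (nat_lit 152) (nat_lit 66066055919) (nat_lit 5) (nat_lit 5) (nat_lit 6) (nat_lit 5) (nat_lit 7) (nat_lit 4) (nat_lit 346) (nat_lit 242) (nat_lit 192)) (XT.nd (nat_lit 78) (nat_lit 0) (nat_lit 0) (XT.lf (nat_lit 0) (nat_lit 17295589214) (nat_lit 152) (nat_lit 59947678618) (nat_lit 0) (nat_lit 3248873712) (nat_lit 5) (nat_lit 5) (nat_lit 7) (nat_lit 4) (nat_lit 5) (nat_lit 4) (nat_lit 347) (nat_lit 242) (nat_lit 191)) (XT.lf (nat_lit 0) (nat_lit 24116261982) (nat_lit 152) (nat_lit 50188691908) (nat_lit 0) (nat_lit 10008962732) (nat_lit 5) (nat_lit 5) (nat_lit 7) (nat_lit 4) (nat_lit 5) (nat_lit 4) (nat_lit 348) (nat_lit 242) (nat_lit 190)))) (XT.nd (nat_lit 156) (nat_lit 0) (nat_lit 0) (XT.nd (nat_lit 78) (nat_lit 0) (nat_lit 0)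 (XT.lf (nat_lit 0) (nat_lit 31233308457) (nat_lit 152) (nat_lit 40026509215) (nat_lit 0) (nat_lit 17068310399) (nat_lit 5) (nat_lit 5) (nat_lit 7) (nat_lit 4) (nat_lit 5) (nat_lit 4) (nat_lit 349) (nat_lit 242) (nat_lit 189)) (XT.lf (nat_lit 0) (nat_lit 38663673987) (nat_lit 152) (nat_lit 29436934865) (nat_lit 0) (nat_lit 24443724684) (nat_lit 5) (nat_lit 5) (nat_lit 7) (nat_lit 4) (nat_lit 5) (nat_lit 4) (nat_lit 350) (nat_lit 242) (nat_lit 188))) (XT.nd (nat_lit 78) (nat_lit 0) (nat_lit 0) (XT.lf (nat_lit 0) (nat_lit 46425049919) (nat_lit 152) (nat_lit 18394755587) (nat_lit 0) (nat_lit 32152766096) (nat_lit 5) (nat_lit 5) (nat_lit 7) (nat_lit 4) (nat_lit 5) (nat_lit 4) (nat_lit 351) (nat_lit 242) (nat_lit 187)) (XT.lf (nat_lit 0) (nat_lit 54535915720) (nat_lit 152) (nat_lit 6873680477) (nat_lit 0) (nat_lit 40213789497) (nat_lit 5) (nat_lit 5) (nat_lit 7) (nat_lit 4) (nat_lit 5) (nat_lit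 4) (nat_lit 352) (nat_lit 242) (nat_lit 186))))) (XT.nd (nat_lit 312) (nat_lit 0) (nat_lit 0) (XT.nd (nat_lit 156) (nat_lit 0) (nat_lit 0) (XT.nd (nat_lit 78) (nat_lit 0) (nat_lit 0) (XT.lf (nat_lit 0) (nat_lit 5256290760) (nat_lit 76) (nat_lit 57809818895) (nat_lit 76) (nat_lit 43440223721) (nat_lit 4) (nat_lit 4) (nat_lit 5) (nat_lit 5) (nat_lit 5) (nat_lit 4) (nat_lit 353) (nat_lit 242) (nat_lit 185)) (XT.lf (nat_lit 0) (nat_lit 18068672177) (nat_lit 76) (nat_lit 53989256317) (nat_lit 76) (nat_lit 39574452617) (nat_lit 4) (nat_lit 4) (nat_lit 5) (nat_lit 5) (nat_lit 5) (nat_lit 4) (nat_lit 354) (nat_lit 242) (nat_lit 184))) (XT.nd (nat_lit 78) (nat_lit 0) (nat_lit 0) (XT.lf (nat_lit 0) (nat_lit 31457169724) (nat_lit 76) (nat_lit 50008222581) (nat_lit 76) (nat_lit 35550363143) (nat_lit 4) (nat_lit 4) (nat_lit 5) (nat_lit 5) (nat_lit 5) (nat_lit 4) (nat_lit 355) (nat_lit 242) (nat_lit 183))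 (XT.lf (nat_lit 0) (nat_lit 45453660776) (nat_lit 76) (nat_lit 45857239035) (nat_lit 76) (nat_lit 31358374131) (nat_lit 4) (nat_lit 4) (nat_lit 5) (nat_lit 5) (nat_lit 5) (nat_lit 4) (nat_lit 356) (nat_lit 242) (nat_lit 182)))) (XT.nd (nat_lit 156) (nat_lit 0) (nat_lit 0) (XT.nd (nat_lit 78) (nat_lit 0) (nat_lit 0) (XT.lf (nat_lit 0) (nat_lit 60091470312) (nat_lit 76) (nat_lit 41526422384) (nat_lit 76) (nat_lit 26988504656) (nat_lit 4) (nat_lit 4) (nat_lit 5) (nat_lit 5) (nat_lit 5) (nat_lit 4) (nat_lit 357) (nat_lit 242) (nat_lit 181)) (XT.lf (nat_lit 0) (nat_lit 75405450258) (nat_lit 76) (nat_lit 37005461161) (nat_lit 76) (nat_lit 22430350267) (nat_lit 4) (nat_lit 4) (nat_lit 5) (nat_lit 5) (nat_lit 5) (nat_lit 4) (nat_lit 358) (nat_lit 242) (nat_lit 180))) (XT.nd (nat_lit 78) (nat_lit 0) (nat_lit 0) (XT.lf (nat_lit 0) (nat_lit 91432062473) (nat_lit 76) (nat_lit 32283591172) (nat_lit 76)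 (nat_lit 17673058215) (nat_lit 4) (nat_lit 4) (nat_lit 5) (nat_lit 5) (nat_lit 5) (nat_lit 4) (nat_lit 359) (nat_lit 242) (nat_lit 179)) (XT.lf (nat_lit 0) (nat_lit 108209465557) (nat_lit 76) (nat_lit 27349569870) (nat_lit 76) (nat_lit 12705301615) (nat_lit 4) (nat_lit 4) (nat_lit 5) (nat_lit 5) (nat_lit 5) (nat_lit 4) (nat_lit 360) (nat_lit 242) (nat_lit 178))))))))
noncomputable def xc23 : XT := (XT.nd (nat_lit 37128) (nat_lit 0) (nat_lit 380) (XT.nd (nat_lit 36036) (nat_lit 0) (nat_lit 1672) (XT.nd (nat_lit 35490) (nat_lit 0) (nat_lit 3800) (XT.nd (nat_lit 234) (nat_lit 76) (nat_lit 0) (XT.nd (nat_lit 78) (nat_lit 76) (nat_lit 0) (XT.lf (nat_lit 0) (nat_lit 125777605707) (nat_lit 76) (nat_lit 22191649584) (nat_lit 76) (nat_lit 7515252474) (nat_lit 4) (nat_lit 4) (nat_lit 5) (nat_lit 5) (nat_lit 5) (nat_lit 4) (nat_lit 361) (nat_lit 242) (nat_lit 177)) (XT.nd (nat_lit 78) (nat_lit 76) (nat_lit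 0) (XT.lf (nat_lit 0) (nat_lit 144178311828) (nat_lit 76) (nat_lit 16797549552) (nat_lit 76) (nat_lit 2090553533) (nat_lit 4) (nat_lit 4) (nat_lit 5) (nat_lit 5) (nat_lit 5) (nat_lit 4) (nat_lit 362) (nat_lit 242) (nat_lit 176)) (XT.lf (nat_lit 0) (nat_lit 3511819072) (nat_lit 152) (nat_lit 7607145120) (nat_lit 76) (nat_lit 159908113567) (nat_lit 3) (nat_lit 5) (nat_lit 5) (nat_lit 5) (nat_lit 4) (nat_lit 4) (nat_lit 363) (nat_lit 242) (nat_lit 175)))) (XT.nd (nat_lit 156) (nat_lit 0) (nat_lit 0) (XT.nd (nat_lit 78) (nat_lit 0) (nat_lit 0) (XT.lf (nat_lit 0) (nat_lit 4257823043) (nat_lit 76) (nat_lit 5112479909) (nat_lit 152) (nat_lit 170014276636) (nat_lit 2) (nat_lit 5) (nat_lit 3) (nat_lit 5) (nat_lit 4) (nat_lit 4) (nat_lit 364) (nat_lit 242) (nat_lit 174)) (XT.lf (nat_lit 0) (nat_lit 15590647474) (nat_lit 152) (nat_lit 171336135233) (nat_lit 0) (nat_lit 1231109184) (nat_lit 2) (nat_lit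 5) (nat_lit 4) (nat_lit 4) (nat_lit 2) (nat_lit 4) (nat_lit 365) (nat_lit 242) (nat_lit 173))) (XT.nd (nat_lit 35022) (nat_lit 0) (nat_lit 5548) (XT.lf (nat_lit 0) (nat_lit 22153012291) (nat_lit 152) (nat_lit 167446897319) (nat_lit 0) (nat_lit 7769033419) (nat_lit 2) (nat_lit 5) (nat_lit 4) (nat_lit 4) (nat_lit 2) (nat_lit 4) (nat_lit 366) (nat_lit 242) (nat_lit 172)) (XT.lf (nat_lit 0) (nat_lit 1313381194) (nat_lit 228) (nat_lit 1938822328) (nat_lit 228) (nat_lit 1938822328) (nat_lit 75) (nat_lit 4) (nat_lit 78) (nat_lit 5) (nat_lit 78) (nat_lit 4) (nat_lit 294) (nat_lit 243) (nat_lit 243))))) (XT.nd (nat_lit 234) (nat_lit 912) (nat_lit 0) (XT.nd (nat_lit 78) (nat_lit 532) (nat_lit 0) (XT.lf (nat_lit 0) (nat_lit 2879518984) (nat_lit 304) (nat_lit 6087985708) (nat_lit 0) (nat_lit 1686195850) (nat_lit 71) (nat_lit 5) (nat_lit 75) (nat_lit 4) (nat_lit 71) (nat_lit 4) (nat_lit 295) (nat_lit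 243) (nat_lit 242)) (XT.nd (nat_lit 78) (nat_lit 304) (nat_lit 0) (XT.lf (nat_lit 0) (nat_lit 6362707393) (nat_lit 228) (nat_lit 3453693173) (nat_lit 228) (nat_lit 1123871817) (nat_lit 68) (nat_lit 4) (nat_lit 71) (nat_lit 5) (nat_lit 71) (nat_lit 4) (nat_lit 296) (nat_lit 243) (nat_lit 241)) (XT.lf (nat_lit 0) (nat_lit 5654240321) (nat_lit 304) (nat_lit 3246672617) (nat_lit 0) (nat_lit 2341424189) (nat_lit 64) (nat_lit 5) (nat_lit 68) (nat_lit 4) (nat_lit 64) (nat_lit 4) (nat_lit 297) (nat_lit 243) (nat_lit 240)))) (XT.nd (nat_lit 156) (nat_lit 456) (nat_lit 0) (XT.nd (nat_lit 78) (nat_lit 152) (nat_lit 0) (XT.lf (nat_lit 0) (nat_lit 1091706919) (nat_lit 304) (nat_lit 2097464086) (nat_lit 76) (nat_lit 8372007240) (nat_lit 60) (nat_lit 5) (nat_lit 64) (nat_lit 5) (nat_lit 61) (nat_lit 4) (nat_lit 298) (nat_lit 243) (nat_lit 239)) (XT.lf (nat_lit 0) (nat_lit 7914206531) (nat_lit 228) (nat_lit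 1181668519) (nat_lit 0) (nat_lit 2800823646) (nat_lit 58) (nat_lit 5) (nat_lit 61) (nat_lit 4) (nat_lit 58) (nat_lit 4) (nat_lit 299) (nat_lit 243) (nat_lit 238))) (XT.nd (nat_lit 78) (nat_lit 152) (nat_lit 0) (XT.lf (nat_lit 0) (nat_lit 2705155605) (nat_lit 304) (nat_lit 503244085) (nat_lit 76) (nat_lit 9041950034) (nat_lit 54) (nat_lit 5) (nat_lit 58) (nat_lit 5) (nat_lit 55) (nat_lit 4) (nat_lit 300) (nat_lit 243) (nat_lit 237)) (XT.lf (nat_lit 0) (nat_lit 9577704479) (nat_lit 228) (nat_lit 102233902) (nat_lit 0) (nat_lit 2942685944) (nat_lit 52) (nat_lit 5) (nat_lit 55) (nat_lit 4) (nat_lit 52) (nat_lit 4) (nat_lit 301) (nat_lit 243) (nat_lit 236)))))) (XT.nd (nat_lit 546) (nat_lit 684) (nat_lit 0) (XT.nd (nat_lit 234) (nat_lit 760) (nat_lit 0) (XT.nd (nat_lit 78) (nat_lit 380) (nat_lit 0) (XT.lf (nat_lit 0) (nat_lit 3645172789) (nat_lit 304) (nat_lit 11424220) (nat_lit 76) (nat_lit 9357770372)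 (nat_lit 48) (nat_lit 5) (nat_lit 52) (nat_lit 5) (nat_lit 49) (nat_lit 4) (nat_lit 302) (nat_lit 243) (nat_lit 235)) (XT.nd (nat_lit 78) (nat_lit 228) (nat_lit 0) (XT.lf (nat_lit 0) (nat_lit 10542321814) (nat_lit 228) (nat_lit 255068371) (nat_lit 0) (nat_lit 2629434452) (nat_lit 46) (nat_lit 5) (nat_lit 49) (nat_lit 4) (nat_lit 46) (nat_lit 4) (nat_lit 303) (nat_lit 243) (nat_lit 234)) (XT.lf (nat_lit 0) (nat_lit 3796121891) (nat_lit 228) (nat_lit 890207911) (nat_lit 76) (nat_lit 9174084805) (nat_lit 43) (nat_lit 5) (nat_lit 46) (nat_lit 5) (nat_lit 44) (nat_lit 4) (nat_lit 304) (nat_lit 243) (nat_lit 233)))) (XT.nd (nat_lit 156) (nat_lit 380) (nat_lit 0) (XT.nd (nat_lit 78) (nat_lit 228) (nat_lit 0) (XT.lf (nat_lit 0) (nat_lit 10681691554) (nat_lit 228) (nat_lit 1931513884) (nat_lit 0) (nat_lit 1703790393) (nat_lit 41) (nat_lit 5) (nat_lit 44) (nat_lit 4) (nat_lit 41) (nat_lit 4) (nat_lit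 305) (nat_lit 243) (nat_lit 232)) (XT.lf (nat_lit 0) (nat_lit 3016402113) (nat_lit 228) (nat_lit 3456456785) (nat_lit 76) (nat_lit 8323866378) (nat_lit 38) (nat_lit 5) (nat_lit 41) (nat_lit 5) (nat_lit 39) (nat_lit 4) (nat_lit 306) (nat_lit 243) (nat_lit 231))) (XT.nd (nat_lit 78) (nat_lit 228) (nat_lit 0) (XT.lf (nat_lit 0) (nat_lit 9825846092) (nat_lit 152) (nat_lit 15923103) (nat_lit 228) (nat_lit 5460179839) (nat_lit 36) (nat_lit 5) (nat_lit 38) (nat_lit 5) (nat_lit 39) (nat_lit 4) (nat_lit 307) (nat_lit 243) (nat_lit 230)) (XT.lf (nat_lit 0) (nat_lit 1134219090) (nat_lit 228) (nat_lit 8084761271) (nat_lit 76) (nat_lit 6613748344) (nat_lit 33) (nat_lit 5) (nat_lit 36) (nat_lit 5) (nat_lit 34) (nat_lit 4) (nat_lit 308) (nat_lit 243) (nat_lit 229))))) (XT.nd (nat_lit 234) (nat_lit 380) (nat_lit 0) (XT.nd (nat_lit 78) (nat_lit 228) (nat_lit 0) (XT.lf (nat_lit 0) (nat_lit 5068537201) (nat_lit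 76) (nat_lit 2793789277) (nat_lit 152) (nat_lit 8528658045) (nat_lit 32) (nat_lit 5) (nat_lit 33) (nat_lit 5) (nat_lit 34) (nat_lit 4) (nat_lit 309) (nat_lit 243) (nat_lit 228)) (XT.nd (nat_lit 78) (nat_lit 76) (nat_lit 0) (XT.lf (nat_lit 0) (nat_lit 1740410654) (nat_lit 152) (nat_lit 13139834256) (nat_lit 152) (nat_lit 2098369294) (nat_lit 30) (nat_lit 4) (nat_lit 32) (nat_lit 5) (nat_lit 32) (nat_lit 4) (nat_lit 310) (nat_lit 243) (nat_lit 227)) (XT.lf (nat_lit 0) (nat_lit 4527088812) (nat_lit 228) (nat_lit 2295971536) (nat_lit 76) (nat_lit 10772347741) (nat_lit 29) (nat_lit 5) (nat_lit 32) (nat_lit 5) (nat_lit 30) (nat_lit 4) (nat_lit 311) (nat_lit 243) (nat_lit 226)))) (XT.nd (nat_lit 156) (nat_lit 152) (nat_lit 0) (XT.nd (nat_lit 78) (nat_lit 152) (nat_lit 0) (XT.lf (nat_lit 0) (nat_lit 11183007646) (nat_lit 76) (nat_lit 192509506) (nat_lit 152) (nat_lit 6868904086) (nat_lit 28) (nat_lit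 5) (nat_lit 29) (nat_lit 5) (nat_lit 30) (nat_lit 4) (nat_lit 312) (nat_lit 243) (nat_lit 225)) (XT.lf (nat_lit 0) (nat_lit 6212244941) (nat_lit 152) (nat_lit 12334071566) (nat_lit 152) (nat_lit 380223087) (nat_lit 26) (nat_lit 4) (nat_lit 28) (nat_lit 5) (nat_lit 28) (nat_lit 4) (nat_lit 313) (nat_lit 243) (nat_lit 224))) (XT.nd (nat_lit 78) (nat_lit 0) (nat_lit 0) (XT.lf (nat_lit 0) (nat_lit 300859647) (nat_lit 76) (nat_lit 5919582494) (nat_lit 152) (nat_lit 13423123291) (nat_lit 24) (nat_lit 5) (nat_lit 25) (nat_lit 5) (nat_lit 26) (nat_lit 4) (nat_lit 314) (nat_lit 243) (nat_lit 223)) (XT.lf (nat_lit 0) (nat_lit 13122058194) (nat_lit 152) (nat_lit 6465202764) (nat_lit 0) (nat_lit 809751937) (nat_lit 24) (nat_lit 5) (nat_lit 26) (nat_lit 4) (nat_lit 24) (nat_lit 4) (nat_lit 315) (nat_lit 243) (nat_lit 222))))))) (XT.nd (nat_lit 1092) (nat_lit 380) (nat_lit 0) (XT.nd (nat_lit 546) (nat_lit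 380) (nat_lit 0) (XT.nd (nat_lit 234) (nat_lit 228) (nat_lit 0) (XT.nd (nat_lit 78) (nat_lit 152) (nat_lit 0) (XT.lf (nat_lit 0) (nat_lit 6851869607) (nat_lit 152) (nat_lit 13488868447) (nat_lit 152) (nat_lit 848279671) (nat_lit 22) (nat_lit 4) (nat_lit 24) (nat_lit 5) (nat_lit 24) (nat_lit 4) (nat_lit 316) (nat_lit 243) (nat_lit 221)) (XT.nd (nat_lit 78) (nat_lit 76) (nat_lit 0) (XT.lf (nat_lit 0) (nat_lit 5701389117) (nat_lit 228) (nat_lit 1379418885) (nat_lit 76) (nat_lit 14940651021) (nat_lit 21) (nat_lit 5) (nat_lit 24) (nat_lit 5) (nat_lit 22) (nat_lit 4) (nat_lit 317) (nat_lit 243) (nat_lit 220)) (XT.lf (nat_lit 0) (nat_lit 12195303243) (nat_lit 76) (nat_lit 339821859) (nat_lit 152) (nat_lit 10360960667) (nat_lit 20) (nat_lit 5) (nat_lit 21) (nat_lit 5) (nat_lit 22) (nat_lit 4) (nat_lit 318) (nat_lit 243) (nat_lit 219)))) (XT.nd (nat_lit 156) (nat_lit 76) (nat_lit 0) (XT.nd (nat_lit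 78) (nat_lit 76) (nat_lit 0) (XT.lf (nat_lit 0) (nat_lit 2389329142) (nat_lit 76) (nat_lit 17283330497) (nat_lit 76) (nat_lit 4142958168) (nat_lit 19) (nat_lit 4) (nat_lit 20) (nat_lit 5) (nat_lit 20) (nat_lit 4) (nat_lit 319) (nat_lit 243) (nat_lit 218)) (XT.lf (nat_lit 0) (nat_lit 2316990462) (nat_lit 152) (nat_lit 8699094155) (nat_lit 76) (nat_lit 13765060137) (nat_lit 18) (nat_lit 5) (nat_lit 20) (nat_lit 5) (nat_lit 19) (nat_lit 4) (nat_lit 320) (nat_lit 243) (nat_lit 217))) (XT.nd (nat_lit 78) (nat_lit 0) (nat_lit 0) (XT.lf (nat_lit 0) (nat_lit 4470471647) (nat_lit 76) (nat_lit 4457007466) (nat_lit 152) (nat_lit 16868874449) (nat_lit 17) (nat_lit 5) (nat_lit 18) (nat_lit 5) (nat_lit 19) (nat_lit 4) (nat_lit 321) (nat_lit 243) (nat_lit 216)) (XT.lf (nat_lit 0) (nat_lit 15854705373) (nat_lit 152) (nat_lit 8638935006) (nat_lit 0) (nat_lit 2369127324) (nat_lit 17) (nat_lit 5) (nat_lit 19)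 (nat_lit 4) (nat_lit 17) (nat_lit 4) (nat_lit 322) (nat_lit 243) (nat_lit 215))))) (XT.nd (nat_lit 234) (nat_lit 152) (nat_lit 0) (XT.nd (nat_lit 78) (nat_lit 152) (nat_lit 0) (XT.lf (nat_lit 0) (nat_lit 4501058404) (nat_lit 76) (nat_lit 18593980625) (nat_lit 76) (nat_lit 4888490937) (nat_lit 16) (nat_lit 4) (nat_lit 17) (nat_lit 5) (nat_lit 17) (nat_lit 4) (nat_lit 323) (nat_lit 243) (nat_lit 214)) (XT.nd (nat_lit 78) (nat_lit 76) (nat_lit 0) (XT.lf (nat_lit 0) (nat_lit 1477868531) (nat_lit 152) (nat_lit 10914856224) (nat_lit 76) (nat_lit 16768065794) (nat_lit 15) (nat_lit 5) (nat_lit 17) (nat_lit 5) (nat_lit 16) (nat_lit 4) (nat_lit 324) (nat_lit 243) (nat_lit 213)) (XT.lf (nat_lit 0) (nat_lit 2062408015) (nat_lit 76) (nat_lit 5906460801) (nat_lit 152) (nat_lit 22429396829) (nat_lit 14) (nat_lit 5) (nat_lit 15) (nat_lit 5) (nat_lit 16) (nat_lit 4) (nat_lit 325) (nat_lit 243) (nat_lit 212))))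 (XT.nd (nat_lit 156) (nat_lit 152) (nat_lit 0) (XT.nd (nat_lit 78) (nat_lit 0) (nat_lit 0) (XT.lf (nat_lit 0) (nat_lit 14795779529) (nat_lit 152) (nat_lit 15993471289) (nat_lit 0) (nat_lit 908047855) (nat_lit 14) (nat_lit 5) (nat_lit 16) (nat_lit 4) (nat_lit 14) (nat_lit 4) (nat_lit 326) (nat_lit 243) (nat_lit 211)) (XT.lf (nat_lit 0) (nat_lit 21918125609) (nat_lit 152) (nat_lit 3289817196) (nat_lit 0) (nat_lit 7854741655) (nat_lit 14) (nat_lit 5) (nat_lit 16) (nat_lit 4) (nat_lit 14) (nat_lit 4) (nat_lit 327) (nat_lit 243) (nat_lit 210))) (XT.nd (nat_lit 78) (nat_lit 76) (nat_lit 0) (XT.lf (nat_lit 0) (nat_lit 10058403644) (nat_lit 76) (nat_lit 19334372395) (nat_lit 76) (nat_lit 5103700554) (nat_lit 13) (nat_lit 4) (nat_lit 14) (nat_lit 5) (nat_lit 14) (nat_lit 4) (nat_lit 328) (nat_lit 243) (nat_lit 209)) (XT.lf (nat_lit 0) (nat_lit 1150774578) (nat_lit 152) (nat_lit 12053921243) (nat_lit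 76) (nat_lit 22798853455) (nat_lit 12) (nat_lit 5) (nat_lit 14) (nat_lit 5) (nat_lit 13) (nat_lit 4) (nat_lit 329) (nat_lit 243) (nat_lit 208)))))) (XT.nd (nat_lit 546) (nat_lit 152) (nat_lit 0) (XT.nd (nat_lit 234) (nat_lit 152) (nat_lit 0) (XT.nd (nat_lit 78) (nat_lit 0) (nat_lit 0) (XT.lf (nat_lit 0) (nat_lit 737541386) (nat_lit 76) (nat_lit 6789192637) (nat_lit 152) (nat_lit 30060316195) (nat_lit 11) (nat_lit 5) (nat_lit 12) (nat_lit 5) (nat_lit 13) (nat_lit 4) (nat_lit 330) (nat_lit 243) (nat_lit 207)) (XT.nd (nat_lit 78) (nat_lit 0) (nat_lit 0) (XT.lf (nat_lit 0) (nat_lit 14250702701) (nat_lit 76) (nat_lit 3948012) (nat_lit 152) (nat_lit 24994099726) (nat_lit 11) (nat_lit 5) (nat_lit 12) (nat_lit 5) (nat_lit 13) (nat_lit 4) (nat_lit 331) (nat_lit 243) (nat_lit 206)) (XT.lf (nat_lit 0) (nat_lit 21300093190) (nat_lit 152) (nat_lit 12786036805) (nat_lit 0) (nat_lit 6907989883) (nat_lit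 11) (nat_lit 5) (nat_lit 13) (nat_lit 4) (nat_lit 11) (nat_lit 4) (nat_lit 332) (nat_lit 243) (nat_lit 205)))) (XT.nd (nat_lit 156) (nat_lit 76) (nat_lit 0) (XT.nd (nat_lit 78) (nat_lit 76) (nat_lit 0) (XT.lf (nat_lit 0) (nat_lit 28614688386) (nat_lit 152) (nat_lit 119251884) (nat_lit 0) (nat_lit 14095328345) (nat_lit 11) (nat_lit 5) (nat_lit 13) (nat_lit 4) (nat_lit 11) (nat_lit 4) (nat_lit 333) (nat_lit 243) (nat_lit 204)) (XT.lf (nat_lit 0) (nat_lit 13291876368) (nat_lit 76) (nat_lit 23051707332) (nat_lit 76) (nat_lit 8411150401) (nat_lit 10) (nat_lit 4) (nat_lit 11) (nat_lit 5) (nat_lit 11) (nat_lit 4) (nat_lit 334) (nat_lit 243) (nat_lit 203))) (XT.nd (nat_lit 78) (nat_lit 76) (nat_lit 0) (XT.lf (nat_lit 0) (nat_lit 27231937698) (nat_lit 76) (nat_lit 17151400456) (nat_lit 76) (nat_lit 2395417916) (nat_lit 10) (nat_lit 4) (nat_lit 11) (nat_lit 5) (nat_lit 11) (nat_lit 4) (nat_lit 335)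 (nat_lit 243) (nat_lit 202)) (XT.lf (nat_lit 0) (nat_lit 3770692023) (nat_lit 152) (nat_lit 7211406884) (nat_lit 76) (nat_lit 37922980762) (nat_lit 9) (nat_lit 5) (nat_lit 11) (nat_lit 5) (nat_lit 10) (nat_lit 4) (nat_lit 336) (nat_lit 243) (nat_lit 201))))) (XT.nd (nat_lit 312) (nat_lit 76) (nat_lit 0) (XT.nd (nat_lit 156) (nat_lit 0) (nat_lit 0) (XT.nd (nat_lit 78) (nat_lit 0) (nat_lit 0) (XT.lf (nat_lit 0) (nat_lit 5695608220) (nat_lit 76) (nat_lit 4484792933) (nat_lit 152) (nat_lit 40957075519) (nat_lit 8) (nat_lit 5) (nat_lit 9) (nat_lit 5) (nat_lit 10) (nat_lit 4) (nat_lit 337) (nat_lit 243) (nat_lit 200)) (XT.lf (nat_lit 0) (nat_lit 16939198459) (nat_lit 152) (nat_lit 34233625530) (nat_lit 0) (nat_lit 2307824572) (nat_lit 8) (nat_lit 5) (nat_lit 10) (nat_lit 4) (nat_lit 8) (nat_lit 4) (nat_lit 338) (nat_lit 243) (nat_lit 199))) (XT.nd (nat_lit 78) (nat_lit 0) (nat_lit 0) (XT.lf (nat_lit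 0) (nat_lit 24015643957) (nat_lit 152) (nat_lit 22633881344) (nat_lit 0) (nat_lit 9292074987) (nat_lit 8) (nat_lit 5) (nat_lit 10) (nat_lit 4) (nat_lit 8) (nat_lit 4) (nat_lit 339) (nat_lit 243) (nat_lit 198)) (XT.lf (nat_lit 0) (nat_lit 31383475753) (nat_lit 152) (nat_lit 10571906881) (nat_lit 0) (nat_lit 16572101944) (nat_lit 8) (nat_lit 5) (nat_lit 10) (nat_lit 4) (nat_lit 8) (nat_lit 4) (nat_lit 340) (nat_lit 243) (nat_lit 197)))) (XT.nd (nat_lit 156) (nat_lit 0) (nat_lit 0) (XT.nd (nat_lit 78) (nat_lit 0) (nat_lit 0) (XT.lf (nat_lit 0) (nat_lit 2020442964) (nat_lit 76) (nat_lit 37059215074) (nat_lit 76) (nat_lit 22164217608) (nat_lit 7) (nat_lit 4) (nat_lit 8) (nat_lit 5) (nat_lit 8) (nat_lit 4) (nat_lit 341) (nat_lit 243) (nat_lit 196)) (XT.lf (nat_lit 0) (nat_lit 15354397343) (nat_lit 76) (nat_lit 31857402130) (nat_lit 76) (nat_lit 16882763085) (nat_lit 7) (nat_lit 4) (nat_lit 8) (nat_lit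 5) (nat_lit 8) (nat_lit 4) (nat_lit 342) (nat_lit 243) (nat_lit 195))) (XT.nd (nat_lit 78) (nat_lit 0) (nat_lit 0) (XT.lf (nat_lit 0) (nat_lit 29251302090) (nat_lit 76) (nat_lit 26444314062) (nat_lit 76) (nat_lit 11393825896) (nat_lit 7) (nat_lit 4) (nat_lit 8) (nat_lit 5) (nat_lit 8) (nat_lit 4) (nat_lit 343) (nat_lit 243) (nat_lit 194)) (XT.lf (nat_lit 0) (nat_lit 43744245073) (nat_lit 76) (nat_lit 20807062567) (nat_lit 76) (nat_lit 5684337141) (nat_lit 7) (nat_lit 4) (nat_lit 8) (nat_lit 5) (nat_lit 8) (nat_lit 4) (nat_lit 344) (nat_lit 243) (nat_lit 193))))))))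
noncomputable def xc24 : XT := (XT.nd (nat_lit 36972) (nat_lit 0) (nat_lit 988) (XT.nd (nat_lit 1092) (nat_lit 152) (nat_lit 0) (XT.nd (nat_lit 546) (nat_lit 76) (nat_lit 0) (XT.nd (nat_lit 234) (nat_lit 0) (nat_lit 0) (XT.nd (nat_lit 78) (nat_lit 76) (nat_lit 0) (XT.lf (nat_lit 0) (nat_lit 254237376) (nat_lit 152) (nat_lit 14675420940) (nat_lit 76) (nat_lit 58610928625) (nat_lit 6) (nat_lit 5) (nat_lit 8) (nat_lit 5) (nat_lit 7) (nat_lit 4) (nat_lit 345) (nat_lit 243) (nat_lit 192)) (XT.nd (nat_lit 78) (nat_lit 76) (nat_lit 0) (XT.lf (nat_lit 0) (nat_lit 6325341928) (nat_lit 152) (nat_lit 2416600024) (nat_lit 76) (nat_lit 68268559597) (nat_lit 6) (nat_lit 5) (nat_lit 8) (nat_lit 5) (nat_lit 7) (nat_lit 4) (nat_lit 346) (nat_lit 243) (nat_lit 191)) (XT.lf (nat_lit 0) (nat_lit 10575253319) (nat_lit 76) (nat_lit 2180755901) (nat_lit 152) (nat_lit 67896230650) (nat_lit 5) (nat_lit 5) (nat_lit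 6) (nat_lit 5) (nat_lit 7) (nat_lit 4) (nat_lit 347) (nat_lit 243) (nat_lit 190)))) (XT.nd (nat_lit 156) (nat_lit 0) (nat_lit 0) (XT.nd (nat_lit 78) (nat_lit 0) (nat_lit 0) (XT.lf (nat_lit 0) (nat_lit 19533933897) (nat_lit 152) (nat_lit 60338380181) (nat_lit 0) (nat_lit 4602987128) (nat_lit 5) (nat_lit 5) (nat_lit 7) (nat_lit 4) (nat_lit 5) (nat_lit 4) (nat_lit 348) (nat_lit 243) (nat_lit 189)) (XT.lf (nat_lit 0) (nat_lit 26630232436) (nat_lit 152) (nat_lit 50215571867) (nat_lit 0) (nat_lit 11644334422) (nat_lit 5) (nat_lit 5) (nat_lit 7) (nat_lit 4) (nat_lit 5) (nat_lit 4) (nat_lit 349) (nat_lit 243) (nat_lit 188))) (XT.nd (nat_lit 78) (nat_lit 0) (nat_lit 0) (XT.lf (nat_lit 0) (nat_lit 34040838027) (nat_lit 152) (nat_lit 39663496927) (nat_lit 0) (nat_lit 19002605493) (nat_lit 5) (nat_lit 5) (nat_lit 7) (nat_lit 4) (nat_lit 5) (nat_lit 4) (nat_lit 350) (nat_lit 243) (nat_lit 187)) (XT.lf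 (nat_lit 0) (nat_lit 41783394969) (nat_lit 152) (nat_lit 28657031372) (nat_lit 0) (nat_lit 26695320036) (nat_lit 5) (nat_lit 5) (nat_lit 7) (nat_lit 4) (nat_lit 5) (nat_lit 4) (nat_lit 351) (nat_lit 243) (nat_lit 186))))) (XT.nd (nat_lit 234) (nat_lit 0) (nat_lit 0) (XT.nd (nat_lit 78) (nat_lit 76) (nat_lit 0) (XT.lf (nat_lit 0) (nat_lit 49876337922) (nat_lit 152) (nat_lit 17169969331) (nat_lit 0) (nat_lit 34740794038) (nat_lit 5) (nat_lit 5) (nat_lit 7) (nat_lit 4) (nat_lit 5) (nat_lit 4) (nat_lit 352) (nat_lit 243) (nat_lit 185)) (XT.nd (nat_lit 78) (nat_lit 76) (nat_lit 0) (XT.lf (nat_lit 0) (nat_lit 58338935798) (nat_lit 152) (nat_lit 5174960658) (nat_lit 0) (nat_lit 43158183388) (nat_lit 5) (nat_lit 5) (nat_lit 7) (nat_lit 4) (nat_lit 5) (nat_lit 4) (nat_lit 353) (nat_lit 243) (nat_lit 184)) (XT.lf (nat_lit 0) (nat_lit 7502964045) (nat_lit 76) (nat_lit 59760496674) (nat_lit 76) (nat_lit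 44536688525) (nat_lit 4) (nat_lit 4) (nat_lit 5) (nat_lit 5) (nat_lit 5) (nat_lit 4) (nat_lit 354) (nat_lit 243) (nat_lit 183)))) (XT.nd (nat_lit 156) (nat_lit 0) (nat_lit 0) (XT.nd (nat_lit 78) (nat_lit 0) (nat_lit 0) (XT.lf (nat_lit 0) (nat_lit 20861495069) (nat_lit 76) (nat_lit 55793658975) (nat_lit 76) (nat_lit 40528845361) (nat_lit 4) (nat_lit 4) (nat_lit 5) (nat_lit 5) (nat_lit 5) (nat_lit 4) (nat_lit 355) (nat_lit 243) (nat_lit 182)) (XT.lf (nat_lit 0) (nat_lit 34829446575) (nat_lit 76) (nat_lit 51656195464) (nat_lit 76) (nat_lit 36352329026) (nat_lit 4) (nat_lit 4) (nat_lit 5) (nat_lit 5) (nat_lit 5) (nat_lit 4) (nat_lit 356) (nat_lit 243) (nat_lit 181))) (XT.nd (nat_lit 78) (nat_lit 0) (nat_lit 0) (XT.lf (nat_lit 0) (nat_lit 49440075591) (nat_lit 76) (nat_lit 47338255038) (nat_lit 76) (nat_lit 31997195434) (nat_lit 4) (nat_lit 4) (nat_lit 5) (nat_lit 5) (nat_lit 5) (nat_lit 4) (nat_lit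 357) (nat_lit 243) (nat_lit 180)) (XT.lf (nat_lit 0) (nat_lit 64728169328) (nat_lit 76) (nat_lit 42829556886) (nat_lit 76) (nat_lit 27453075219) (nat_lit 4) (nat_lit 4) (nat_lit 5) (nat_lit 5) (nat_lit 5) (nat_lit 4) (nat_lit 358) (nat_lit 243) (nat_lit 179)))))) (XT.nd (nat_lit 546) (nat_lit 0) (nat_lit 0) (XT.nd (nat_lit 234) (nat_lit 152) (nat_lit 0) (XT.nd (nat_lit 78) (nat_lit 0) (nat_lit 0) (XT.lf (nat_lit 0) (nat_lit 80730128010) (nat_lit 76) (nat_lit 38119366012) (nat_lit 76) (nat_lit 22709149047) (nat_lit 4) (nat_lit 4) (nat_lit 5) (nat_lit 5) (nat_lit 5) (nat_lit 4) (nat_lit 359) (nat_lit 243) (nat_lit 178)) (XT.nd (nat_lit 78) (nat_lit 0) (nat_lit 0) (XT.lf (nat_lit 0) (nat_lit 97484051538) (nat_lit 76) (nat_lit 33196467676) (nat_lit 76) (nat_lit 17754121856) (nat_lit 4) (nat_lit 4) (nat_lit 5) (nat_lit 5) (nat_lit 5) (nat_lit 4) (nat_lit 360) (nat_lit 243) (nat_lit 177)) (XT.lf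 (nat_lit 0) (nat_lit 115029830207) (nat_lit 76) (nat_lit 28049140692) (nat_lit 76) (nat_lit 12576195962) (nat_lit 4) (nat_lit 4) (nat_lit 5) (nat_lit 5) (nat_lit 5) (nat_lit 4) (nat_lit 361) (nat_lit 243) (nat_lit 176)))) (XT.nd (nat_lit 156) (nat_lit 152) (nat_lit 0) (XT.nd (nat_lit 78) (nat_lit 0) (nat_lit 0) (XT.lf (nat_lit 0) (nat_lit 133409239680) (nat_lit 76) (nat_lit 22665129519) (nat_lit 76) (nat_lit 7163042971) (nat_lit 4) (nat_lit 4) (nat_lit 5) (nat_lit 5) (nat_lit 5) (nat_lit 4) (nat_lit 362) (nat_lit 243) (nat_lit 175)) (XT.lf (nat_lit 0) (nat_lit 152666040456) (nat_lit 76) (nat_lit 17031615083) (nat_lit 76) (nat_lit 1501774422) (nat_lit 4) (nat_lit 4) (nat_lit 5) (nat_lit 5) (nat_lit 5) (nat_lit 4) (nat_lit 363) (nat_lit 243) (nat_lit 174))) (XT.nd (nat_lit 78) (nat_lit 76) (nat_lit 0) (XT.lf (nat_lit 0) (nat_lit 4334817526) (nat_lit 152) (nat_lit 6756593572) (nat_lit 76) (nat_lit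 168467491377) (nat_lit 3) (nat_lit 5) (nat_lit 5) (nat_lit 5) (nat_lit 4) (nat_lit 4) (nat_lit 364) (nat_lit 243) (nat_lit 173)) (XT.lf (nat_lit 0) (nat_lit 5666339246) (nat_lit 76) (nat_lit 4800550504) (nat_lit 152) (nat_lit 177867974811) (nat_lit 2) (nat_lit 5) (nat_lit 3) (nat_lit 5) (nat_lit 4) (nat_lit 4) (nat_lit 365) (nat_lit 243) (nat_lit 172))))) (XT.nd (nat_lit 35022) (nat_lit 0) (nat_lit 4712) (XT.nd (nat_lit 34866) (nat_lit 0) (nat_lit 5776) (XT.lf (nat_lit 0) (nat_lit 16973539202) (nat_lit 152) (nat_lit 178751405437) (nat_lit 0) (nat_lit 1822644061) (nat_lit 2) (nat_lit 5) (nat_lit 4) (nat_lit 4) (nat_lit 2) (nat_lit 4) (nat_lit 366) (nat_lit 243) (nat_lit 171)) (XT.nd (nat_lit 78) (nat_lit 608) (nat_lit 0) (XT.lf (nat_lit 0) (nat_lit 2132069830) (nat_lit 304) (nat_lit 674754150) (nat_lit 0) (nat_lit 2132069830) (nat_lit 86) (nat_lit 5) (nat_lit 90) (nat_lit 4) (nat_lit 86) (nat_lit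 4) (nat_lit 292) (nat_lit 244) (nat_lit 244)) (XT.lf (nat_lit 0) (nat_lit 594634882) (nat_lit 228) (nat_lit 353114487) (nat_lit 304) (nat_lit 9177873494) (nat_lit 78) (nat_lit 5) (nat_lit 81) (nat_lit 5) (nat_lit 82) (nat_lit 4) (nat_lit 293) (nat_lit 244) (nat_lit 243)))) (XT.nd (nat_lit 156) (nat_lit 532) (nat_lit 0) (XT.nd (nat_lit 78) (nat_lit 304) (nat_lit 0) (XT.lf (nat_lit 0) (nat_lit 2426452719) (nat_lit 228) (nat_lit 5239624641) (nat_lit 228) (nat_lit 2719922844) (nat_lit 75) (nat_lit 4) (nat_lit 78) (nat_lit 5) (nat_lit 78) (nat_lit 4) (nat_lit 294) (nat_lit 244) (nat_lit 242)) (XT.lf (nat_lit 0) (nat_lit 3872893651) (nat_lit 304) (nat_lit 6498666322) (nat_lit 0) (nat_lit 290083004) (nat_lit 71) (nat_lit 5) (nat_lit 75) (nat_lit 4) (nat_lit 71) (nat_lit 4) (nat_lit 295) (nat_lit 244) (nat_lit 241))) (XT.nd (nat_lit 78) (nat_lit 304) (nat_lit 0) (XT.lf (nat_lit 0) (nat_lit 5749263898)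 (nat_lit 228) (nat_lit 4934003798) (nat_lit 228) (nat_lit 268813891) (nat_lit 68) (nat_lit 4) (nat_lit 71) (nat_lit 5) (nat_lit 71) (nat_lit 4) (nat_lit 296) (nat_lit 244) (nat_lit 240)) (XT.lf (nat_lit 0) (nat_lit 6351791804) (nat_lit 304) (nat_lit 4084730519) (nat_lit 0) (nat_lit 821668215) (nat_lit 64) (nat_lit 5) (nat_lit 68) (nat_lit 4) (nat_lit 64) (nat_lit 4) (nat_lit 297) (nat_lit 244) (nat_lit 239))))))) (XT.nd (nat_lit 1092) (nat_lit 1064) (nat_lit 0) (XT.nd (nat_lit 546) (nat_lit 1064) (nat_lit 0) (XT.nd (nat_lit 234) (nat_lit 836) (nat_lit 0) (XT.nd (nat_lit 78) (nat_lit 456) (nat_lit 0) (XT.lf (nat_lit 0) (nat_lit 1634106906) (nat_lit 304) (nat_lit 3166041808) (nat_lit 76) (nat_lit 6780527394) (nat_lit 60) (nat_lit 5) (nat_lit 64) (nat_lit 5) (nat_lit 61) (nat_lit 4) (nat_lit 298) (nat_lit 244) (nat_lit 238)) (XT.nd (nat_lit 78) (nat_lit 304) (nat_lit 0) (XT.lf (nat_lit 0) (nat_lit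 8315970299) (nat_lit 228) (nat_lit 2464305847) (nat_lit 0) (nat_lit 1140197754) (nat_lit 58) (nat_lit 5) (nat_lit 61) (nat_lit 4) (nat_lit 58) (nat_lit 4) (nat_lit 299) (nat_lit 244) (nat_lit 237)) (XT.lf (nat_lit 0) (nat_lit 2951041208) (nat_lit 304) (nat_lit 2024518016) (nat_lit 76) (nat_lit 7302252376) (nat_lit 54) (nat_lit 5) (nat_lit 58) (nat_lit 5) (nat_lit 55) (nat_lit 4) (nat_lit 300) (nat_lit 244) (nat_lit 236)))) (XT.nd (nat_lit 156) (nat_lit 380) (nat_lit 0) (XT.nd (nat_lit 78) (nat_lit 304) (nat_lit 0) (XT.lf (nat_lit 0) (nat_lit 9682427089) (nat_lit 228) (nat_lit 1847305893) (nat_lit 0) (nat_lit 1124639407) (nat_lit 52) (nat_lit 5) (nat_lit 55) (nat_lit 4) (nat_lit 52) (nat_lit 4) (nat_lit 301) (nat_lit 244) (nat_lit 235)) (XT.lf (nat_lit 0) (nat_lit 3592727431) (nat_lit 304) (nat_lit 2003699995) (nat_lit 76) (nat_lit 7453434286) (nat_lit 48) (nat_lit 5) (nat_lit 52) (nat_lit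 5) (nat_lit 49) (nat_lit 4) (nat_lit 302) (nat_lit 244) (nat_lit 234))) (XT.nd (nat_lit 78) (nat_lit 228) (nat_lit 0) (XT.lf (nat_lit 0) (nat_lit 10347505703) (nat_lit 228) (nat_lit 2481223964) (nat_lit 0) (nat_lit 637905597) (nat_lit 46) (nat_lit 5) (nat_lit 49) (nat_lit 4) (nat_lit 46) (nat_lit 4) (nat_lit 303) (nat_lit 244) (nat_lit 233)) (XT.lf (nat_lit 0) (nat_lit 3442294549) (nat_lit 228) (nat_lit 3372645017) (nat_lit 76) (nat_lit 7089108470) (nat_lit 43) (nat_lit 5) (nat_lit 46) (nat_lit 5) (nat_lit 44) (nat_lit 4) (nat_lit 304) (nat_lit 244) (nat_lit 232))))) (XT.nd (nat_lit 234) (nat_lit 532) (nat_lit 0) (XT.nd (nat_lit 78) (nat_lit 380) (nat_lit 0) (XT.lf (nat_lit 0) (nat_lit 9701848861) (nat_lit 152) (nat_lit 486456205) (nat_lit 228) (nat_lit 4176550751) (nat_lit 41) (nat_lit 5) (nat_lit 43) (nat_lit 5) (nat_lit 44) (nat_lit 4) (nat_lit 305) (nat_lit 244) (nat_lit 231)) (XT.nd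 (nat_lit 78) (nat_lit 152) (nat_lit 0) (XT.lf (nat_lit 0) (nat_lit 2356937199) (nat_lit 228) (nat_lit 6449202429) (nat_lit 76) (nat_lit 6042501903) (nat_lit 38) (nat_lit 5) (nat_lit 41) (nat_lit 5) (nat_lit 39) (nat_lit 4) (nat_lit 306) (nat_lit 244) (nat_lit 230)) (XT.lf (nat_lit 0) (nat_lit 6609994081) (nat_lit 152) (nat_lit 2448959837) (nat_lit 228) (nat_lit 6298646915) (nat_lit 36) (nat_lit 5) (nat_lit 38) (nat_lit 5) (nat_lit 39) (nat_lit 4) (nat_lit 307) (nat_lit 244) (nat_lit 229)))) (XT.nd (nat_lit 156) (nat_lit 228) (nat_lit 0) (XT.nd (nat_lit 78) (nat_lit 76) (nat_lit 0) (XT.lf (nat_lit 0) (nat_lit 163676659) (nat_lit 228) (nat_lit 11609080738) (nat_lit 76) (nat_lit 4120350400) (nat_lit 33) (nat_lit 5) (nat_lit 36) (nat_lit 5) (nat_lit 34) (nat_lit 4) (nat_lit 308) (nat_lit 244) (nat_lit 228)) (XT.lf (nat_lit 0) (nat_lit 1315887577) (nat_lit 76) (nat_lit 5451578083) (nat_lit 152)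 (nat_lit 9687658356) (nat_lit 32) (nat_lit 5) (nat_lit 33) (nat_lit 5) (nat_lit 34) (nat_lit 4) (nat_lit 309) (nat_lit 244) (nat_lit 227))) (XT.nd (nat_lit 78) (nat_lit 228) (nat_lit 0) (XT.lf (nat_lit 0) (nat_lit 13656987853) (nat_lit 152) (nat_lit 2237416041) (nat_lit 0) (nat_lit 1152231071) (nat_lit 32) (nat_lit 5) (nat_lit 34) (nat_lit 4) (nat_lit 32) (nat_lit 4) (nat_lit 310) (nat_lit 244) (nat_lit 226)) (XT.lf (nat_lit 0) (nat_lit 3154559986) (nat_lit 228) (nat_lit 6524330356) (nat_lit 76) (nat_lit 7988131505) (nat_lit 29) (nat_lit 5) (nat_lit 32) (nat_lit 5) (nat_lit 30) (nat_lit 4) (nat_lit 311) (nat_lit 244) (nat_lit 225)))))) (XT.nd (nat_lit 546) (nat_lit 380) (nat_lit 0) (XT.nd (nat_lit 234) (nat_lit 380) (nat_lit 0) (XT.nd (nat_lit 78) (nat_lit 228) (nat_lit 0) (XT.lf (nat_lit 0) (nat_lit 6724840529) (nat_lit 76) (nat_lit 3155011400) (nat_lit 152) (nat_lit 8439903031) (nat_lit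 28) (nat_lit 5) (nat_lit 29) (nat_lit 5) (nat_lit 30) (nat_lit 4) (nat_lit 312) (nat_lit 244) (nat_lit 224)) (XT.nd (nat_lit 78) (nat_lit 76) (nat_lit 0) (XT.lf (nat_lit 0) (nat_lit 1474274189) (nat_lit 152) (nat_lit 15423977487) (nat_lit 152) (nat_lit 2108218270) (nat_lit 26) (nat_lit 4) (nat_lit 28) (nat_lit 5) (nat_lit 28) (nat_lit 4) (nat_lit 313) (nat_lit 244) (nat_lit 223)) (XT.lf (nat_lit 0) (nat_lit 4446541798) (nat_lit 228) (nat_lit 4644316908) (nat_lit 76) (nat_lit 10635546913) (nat_lit 25) (nat_lit 5) (nat_lit 28) (nat_lit 5) (nat_lit 26) (nat_lit 4) (nat_lit 314) (nat_lit 244) (nat_lit 222)))) (XT.nd (nat_lit 156) (nat_lit 152) (nat_lit 0) (XT.nd (nat_lit 78) (nat_lit 152) (nat_lit 0) (XT.lf (nat_lit 0) (nat_lit 8768320502) (nat_lit 76) (nat_lit 2451998836) (nat_lit 152) (nat_lit 9263390600) (nat_lit 24) (nat_lit 5) (nat_lit 25) (nat_lit 5) (nat_lit 26) (nat_lit 4) (nat_lit 315)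 (nat_lit 244) (nat_lit 221)) (XT.lf (nat_lit 0) (nat_lit 1389386139) (nat_lit 152) (nat_lit 16902161792) (nat_lit 152) (nat_lit 2988611041) (nat_lit 22) (nat_lit 4) (nat_lit 24) (nat_lit 5) (nat_lit 24) (nat_lit 4) (nat_lit 316) (nat_lit 244) (nat_lit 220))) (XT.nd (nat_lit 78) (nat_lit 76) (nat_lit 0) (XT.lf (nat_lit 0) (nat_lit 3532938289) (nat_lit 228) (nat_lit 7039447945) (nat_lit 76) (nat_lit 11542946920) (nat_lit 21) (nat_lit 5) (nat_lit 24) (nat_lit 5) (nat_lit 22) (nat_lit 4) (nat_lit 317) (nat_lit 244) (nat_lit 219)) (XT.lf (nat_lit 0) (nat_lit 6299289800) (nat_lit 76) (nat_lit 3944151212) (nat_lit 152) (nat_lit 12750234084) (nat_lit 20) (nat_lit 5) (nat_lit 21) (nat_lit 5) (nat_lit 22) (nat_lit 4) (nat_lit 318) (nat_lit 244) (nat_lit 218))))) (XT.nd (nat_lit 234) (nat_lit 228) (nat_lit 0) (XT.nd (nat_lit 78) (nat_lit 152) (nat_lit 0) (XT.lf (nat_lit 0) (nat_lit 17258334929) (nat_lit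 152) (nat_lit 3735160327) (nat_lit 0) (nat_lit 2923408427) (nat_lit 20) (nat_lit 5) (nat_lit 22) (nat_lit 4) (nat_lit 20) (nat_lit 4) (nat_lit 319) (nat_lit 244) (nat_lit 217)) (XT.nd (nat_lit 78) (nat_lit 76) (nat_lit 0) (XT.lf (nat_lit 0) (nat_lit 9791120386) (nat_lit 76) (nat_lit 14839825324) (nat_lit 76) (nat_lit 255172664) (nat_lit 19) (nat_lit 4) (nat_lit 20) (nat_lit 5) (nat_lit 20) (nat_lit 4) (nat_lit 320) (nat_lit 244) (nat_lit 216)) (XT.lf (nat_lit 0) (nat_lit 6256674759) (nat_lit 152) (nat_lit 2121437335) (nat_lit 76) (nat_lit 17526412553) (nat_lit 18) (nat_lit 5) (nat_lit 20) (nat_lit 5) (nat_lit 19) (nat_lit 4) (nat_lit 321) (nat_lit 244) (nat_lit 215)))) (XT.nd (nat_lit 156) (nat_lit 152) (nat_lit 0) (XT.nd (nat_lit 78) (nat_lit 0) (nat_lit 0) (XT.lf (nat_lit 0) (nat_lit 11505591656) (nat_lit 76) (nat_lit 1575486048) (nat_lit 152) (nat_lit 13892960319) (nat_lit 17) (nat_lit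 5) (nat_lit 18) (nat_lit 5) (nat_lit 19) (nat_lit 4) (nat_lit 322) (nat_lit 244) (nat_lit 214)) (XT.lf (nat_lit 0) (nat_lit 20206550886) (nat_lit 152) (nat_lit 2505273638) (nat_lit 0) (nat_lit 5386435420) (nat_lit 17) (nat_lit 5) (nat_lit 19) (nat_lit 4) (nat_lit 17) (nat_lit 4) (nat_lit 323) (nat_lit 244) (nat_lit 213))) (XT.nd (nat_lit 78) (nat_lit 76) (nat_lit 0) (XT.lf (nat_lit 0) (nat_lit 11103517603) (nat_lit 76) (nat_lit 16597205712) (nat_lit 76) (nat_lit 1577623907) (nat_lit 16) (nat_lit 4) (nat_lit 17) (nat_lit 5) (nat_lit 17) (nat_lit 4) (nat_lit 324) (nat_lit 244) (nat_lit 212)) (XT.lf (nat_lit 0) (nat_lit 4871681037) (nat_lit 152) (nat_lit 5320037241) (nat_lit 76) (nat_lit 20326745597) (nat_lit 15) (nat_lit 5) (nat_lit 17) (nat_lit 5) (nat_lit 16) (nat_lit 4) (nat_lit 325) (nat_lit 244) (nat_lit 211))))))))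
noncomputable def xc25 : XT := (XT.nd (nat_lit 2184) (nat_lit 228) (nat_lit 0) (XT.nd (nat_lit 1092) (nat_lit 228) (nat_lit 0) (XT.nd (nat_lit 546) (nat_lit 228) (nat_lit 0) (XT.nd (nat_lit 234) (nat_lit 152) (nat_lit 0) (XT.nd (nat_lit 78) (nat_lit 76) (nat_lit 0) (XT.lf (nat_lit 0) (nat_lit 8130072239) (nat_lit 76) (nat_lit 3456402556) (nat_lit 152) (nat_lit 20234397228) (nat_lit 14) (nat_lit 5) (nat_lit 15) (nat_lit 5) (nat_lit 16) (nat_lit 4) (nat_lit 326) (nat_lit 244) (nat_lit 210)) (XT.nd (nat_lit 78) (nat_lit 76) (nat_lit 0) (XT.lf (nat_lit 0) (nat_lit 18626571194) (nat_lit 152) (nat_lit 11045087289) (nat_lit 0) (nat_lit 3517077874) (nat_lit 14) (nat_lit 5) (nat_lit 16) (nat_lit 4) (nat_lit 14) (nat_lit 4) (nat_lit 327) (nat_lit 244) (nat_lit 209)) (XT.lf (nat_lit 0) (nat_lit 2060235089) (nat_lit 76) (nat_lit 23917413125) (nat_lit 76) (nat_lit 8648598009) (nat_lit 13) (nat_lit 4)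 (nat_lit 14) (nat_lit 5) (nat_lit 14) (nat_lit 4) (nat_lit 328) (nat_lit 244) (nat_lit 208)))) (XT.nd (nat_lit 156) (nat_lit 76) (nat_lit 0) (XT.nd (nat_lit 78) (nat_lit 76) (nat_lit 0) (XT.lf (nat_lit 0) (nat_lit 15878743492) (nat_lit 76) (nat_lit 17838416196) (nat_lit 76) (nat_lit 2417866035) (nat_lit 13) (nat_lit 4) (nat_lit 14) (nat_lit 5) (nat_lit 14) (nat_lit 4) (nat_lit 329) (nat_lit 244) (nat_lit 207)) (XT.lf (nat_lit 0) (nat_lit 3954627270) (nat_lit 152) (nat_lit 7537166367) (nat_lit 76) (nat_lit 26228958984) (nat_lit 12) (nat_lit 5) (nat_lit 14) (nat_lit 5) (nat_lit 13) (nat_lit 4) (nat_lit 330) (nat_lit 244) (nat_lit 206))) (XT.nd (nat_lit 78) (nat_lit 0) (nat_lit 0) (XT.lf (nat_lit 0) (nat_lit 5747121360) (nat_lit 76) (nat_lit 4819287134) (nat_lit 152) (nat_lit 28819537244) (nat_lit 11) (nat_lit 5) (nat_lit 12) (nat_lit 5) (nat_lit 13) (nat_lit 4) (nat_lit 331) (nat_lit 244) (nat_lit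 205)) (XT.lf (nat_lit 0) (nat_lit 17524997497) (nat_lit 152) (nat_lit 21456518978) (nat_lit 0) (nat_lit 2152412719) (nat_lit 11) (nat_lit 5) (nat_lit 13) (nat_lit 4) (nat_lit 11) (nat_lit 4) (nat_lit 332) (nat_lit 244) (nat_lit 204))))) (XT.nd (nat_lit 234) (nat_lit 152) (nat_lit 0) (XT.nd (nat_lit 78) (nat_lit 76) (nat_lit 0) (XT.lf (nat_lit 0) (nat_lit 24800958893) (nat_lit 152) (nat_lit 8862108836) (nat_lit 0) (nat_lit 9307177226) (nat_lit 11) (nat_lit 5) (nat_lit 13) (nat_lit 4) (nat_lit 11) (nat_lit 4) (nat_lit 333) (nat_lit 244) (nat_lit 203)) (XT.nd (nat_lit 78) (nat_lit 0) (nat_lit 0) (XT.lf (nat_lit 0) (nat_lit 4304719250) (nat_lit 76) (nat_lit 28101950811) (nat_lit 76) (nat_lit 12492743534) (nat_lit 10) (nat_lit 4) (nat_lit 11) (nat_lit 5) (nat_lit 11) (nat_lit 4) (nat_lit 334) (nat_lit 244) (nat_lit 202)) (XT.lf (nat_lit 0) (nat_lit 18177828037) (nat_lit 76) (nat_lit 22232910894)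 (nat_lit 76) (nat_lit 6513774466) (nat_lit 10) (nat_lit 4) (nat_lit 11) (nat_lit 5) (nat_lit 11) (nat_lit 4) (nat_lit 335) (nat_lit 244) (nat_lit 201)))) (XT.nd (nat_lit 156) (nat_lit 76) (nat_lit 0) (XT.nd (nat_lit 78) (nat_lit 76) (nat_lit 0) (XT.lf (nat_lit 0) (nat_lit 32613875393) (nat_lit 76) (nat_lit 16131463999) (nat_lit 76) (nat_lit 307633140) (nat_lit 10) (nat_lit 4) (nat_lit 11) (nat_lit 5) (nat_lit 11) (nat_lit 4) (nat_lit 336) (nat_lit 244) (nat_lit 200)) (XT.lf (nat_lit 0) (nat_lit 6020634538) (nat_lit 152) (nat_lit 3701651727) (nat_lit 76) (nat_lit 41565801718) (nat_lit 9) (nat_lit 5) (nat_lit 11) (nat_lit 5) (nat_lit 10) (nat_lit 4) (nat_lit 337) (nat_lit 244) (nat_lit 199))) (XT.nd (nat_lit 78) (nat_lit 0) (nat_lit 0) (XT.lf (nat_lit 0) (nat_lit 9739772029) (nat_lit 76) (nat_lit 2949032307) (nat_lit 152) (nat_lit 40945180455) (nat_lit 8) (nat_lit 5) (nat_lit 9) (nat_lit 5)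 (nat_lit 10) (nat_lit 4) (nat_lit 338) (nat_lit 244) (nat_lit 198)) (XT.lf (nat_lit 0) (nat_lit 19706445358) (nat_lit 152) (nat_lit 32323563079) (nat_lit 0) (nat_lit 4066698018) (nat_lit 8) (nat_lit 5) (nat_lit 10) (nat_lit 4) (nat_lit 8) (nat_lit 4) (nat_lit 339) (nat_lit 244) (nat_lit 197)))))) (XT.nd (nat_lit 546) (nat_lit 76) (nat_lit 0) (XT.nd (nat_lit 234) (nat_lit 76) (nat_lit 0) (XT.nd (nat_lit 78) (nat_lit 76) (nat_lit 0) (XT.lf (nat_lit 0) (nat_lit 27045270893) (nat_lit 152) (nat_lit 20316295670) (nat_lit 0) (nat_lit 11321899896) (nat_lit 8) (nat_lit 5) (nat_lit 10) (nat_lit 4) (nat_lit 8) (nat_lit 4) (nat_lit 340) (nat_lit 244) (nat_lit 196)) (XT.nd (nat_lit 78) (nat_lit 76) (nat_lit 0) (XT.lf (nat_lit 0) (nat_lit 34694406434) (nat_lit 152) (nat_lit 7815473901) (nat_lit 0) (nat_lit 18891393859) (nat_lit 8) (nat_lit 5) (nat_lit 10) (nat_lit 4) (nat_lit 8) (nat_lit 4) (nat_lit 341)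 (nat_lit 244) (nat_lit 195)) (XT.lf (nat_lit 0) (nat_lit 5312328759) (nat_lit 76) (nat_lit 37410800804) (nat_lit 76) (nat_lit 21531939107) (nat_lit 7) (nat_lit 4) (nat_lit 8) (nat_lit 5) (nat_lit 8) (nat_lit 4) (nat_lit 342) (nat_lit 244) (nat_lit 194)))) (XT.nd (nat_lit 156) (nat_lit 76) (nat_lit 0) (XT.nd (nat_lit 78) (nat_lit 0) (nat_lit 0) (XT.lf (nat_lit 0) (nat_lit 19161034969) (nat_lit 76) (nat_lit 32020391261) (nat_lit 76) (nat_lit 16069292305) (nat_lit 7) (nat_lit 4) (nat_lit 8) (nat_lit 5) (nat_lit 8) (nat_lit 4) (nat_lit 343) (nat_lit 244) (nat_lit 193)) (XT.lf (nat_lit 0) (nat_lit 33608074584) (nat_lit 76) (nat_lit 26404738360) (nat_lit 76) (nat_lit 10384842014) (nat_lit 7) (nat_lit 4) (nat_lit 8) (nat_lit 5) (nat_lit 8) (nat_lit 4) (nat_lit 344) (nat_lit 244) (nat_lit 192))) (XT.nd (nat_lit 78) (nat_lit 76) (nat_lit 0) (XT.lf (nat_lit 0) (nat_lit 48687845317) (nat_lit 76) (nat_lit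 20550471500) (nat_lit 76) (nat_lit 4465053830) (nat_lit 7) (nat_lit 4) (nat_lit 8) (nat_lit 5) (nat_lit 8) (nat_lit 4) (nat_lit 345) (nat_lit 244) (nat_lit 191)) (XT.lf (nat_lit 0) (nat_lit 1670912544) (nat_lit 152) (nat_lit 12755866464) (nat_lit 76) (nat_lit 62748465900) (nat_lit 6) (nat_lit 5) (nat_lit 8) (nat_lit 5) (nat_lit 7) (nat_lit 4) (nat_lit 346) (nat_lit 244) (nat_lit 190))))) (XT.nd (nat_lit 234) (nat_lit 0) (nat_lit 0) (XT.nd (nat_lit 78) (nat_lit 76) (nat_lit 0) (XT.lf (nat_lit 0) (nat_lit 7978716928) (nat_lit 152) (nat_lit 10453336) (nat_lit 76) (nat_lit 72831502666) (nat_lit 6) (nat_lit 5) (nat_lit 8) (nat_lit 5) (nat_lit 7) (nat_lit 4) (nat_lit 347) (nat_lit 244) (nat_lit 189)) (XT.nd (nat_lit 78) (nat_lit 0) (nat_lit 0) (XT.lf (nat_lit 0) (nat_lit 13558557394) (nat_lit 76) (nat_lit 1132282940) (nat_lit 152) (nat_lit 69954871602) (nat_lit 5) (nat_lit 5) (nat_lit 6) (nat_lit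 5) (nat_lit 7) (nat_lit 4) (nat_lit 348) (nat_lit 244) (nat_lit 188)) (XT.lf (nat_lit 0) (nat_lit 21756494738) (nat_lit 152) (nat_lit 60990961442) (nat_lit 0) (nat_lit 5914016059) (nat_lit 5) (nat_lit 5) (nat_lit 7) (nat_lit 4) (nat_lit 5) (nat_lit 4) (nat_lit 349) (nat_lit 244) (nat_lit 187)))) (XT.nd (nat_lit 156) (nat_lit 0) (nat_lit 0) (XT.nd (nat_lit 78) (nat_lit 0) (nat_lit 0) (XT.lf (nat_lit 0) (nat_lit 29148281340) (nat_lit 152) (nat_lit 50474600224) (nat_lit 0) (nat_lit 13255960261) (nat_lit 5) (nat_lit 5) (nat_lit 7) (nat_lit 4) (nat_lit 5) (nat_lit 4) (nat_lit 350) (nat_lit 244) (nat_lit 186)) (XT.lf (nat_lit 0) (nat_lit 36872915435) (nat_lit 152) (nat_lit 39502147738) (nat_lit 0) (nat_lit 20933125405) (nat_lit 5) (nat_lit 5) (nat_lit 7) (nat_lit 4) (nat_lit 5) (nat_lit 4) (nat_lit 351) (nat_lit 244) (nat_lit 185))) (XT.nd (nat_lit 78) (nat_lit 0) (nat_lit 0) (XT.lf (nat_lit 0)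 (nat_lit 44948789010) (nat_lit 152) (nat_lit 28047479098) (nat_lit 0) (nat_lit 28963790454) (nat_lit 5) (nat_lit 5) (nat_lit 7) (nat_lit 4) (nat_lit 5) (nat_lit 4) (nat_lit 352) (nat_lit 244) (nat_lit 184)) (XT.lf (nat_lit 0) (nat_lit 53395130335) (nat_lit 152) (nat_lit 16083321281) (nat_lit 0) (nat_lit 37367076040) (nat_lit 5) (nat_lit 5) (nat_lit 7) (nat_lit 4) (nat_lit 5) (nat_lit 4) (nat_lit 353) (nat_lit 244) (nat_lit 183))))))) (XT.nd (nat_lit 35724) (nat_lit 0) (nat_lit 2964) (XT.nd (nat_lit 546) (nat_lit 152) (nat_lit 0) (XT.nd (nat_lit 234) (nat_lit 0) (nat_lit 0) (XT.nd (nat_lit 78) (nat_lit 76) (nat_lit 0) (XT.lf (nat_lit 0) (nat_lit 62232049747) (nat_lit 152) (nat_lit 3581188199) (nat_lit 0) (nat_lit 46162989986) (nat_lit 5) (nat_lit 5) (nat_lit 7) (nat_lit 4) (nat_lit 5) (nat_lit 4) (nat_lit 354) (nat_lit 244) (nat_lit 182)) (XT.nd (nat_lit 78) (nat_lit 0) (nat_lit 0) (XT.lf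 (nat_lit 0) (nat_lit 9677530611) (nat_lit 76) (nat_lit 61896083262) (nat_lit 76) (nat_lit 45787970677) (nat_lit 4) (nat_lit 4) (nat_lit 5) (nat_lit 5) (nat_lit 5) (nat_lit 4) (nat_lit 355) (nat_lit 244) (nat_lit 181)) (XT.lf (nat_lit 0) (nat_lit 23618301598) (nat_lit 76) (nat_lit 57771495975) (nat_lit 76) (nat_lit 41626190225) (nat_lit 4) (nat_lit 4) (nat_lit 5) (nat_lit 5) (nat_lit 5) (nat_lit 4) (nat_lit 356) (nat_lit 244) (nat_lit 180)))) (XT.nd (nat_lit 156) (nat_lit 0) (nat_lit 0) (XT.nd (nat_lit 78) (nat_lit 0) (nat_lit 0) (XT.lf (nat_lit 0) (nat_lit 38203044404) (nat_lit 76) (nat_lit 53465818620) (nat_lit 76) (nat_lit 37285090807) (nat_lit 4) (nat_lit 4) (nat_lit 5) (nat_lit 5) (nat_lit 5) (nat_lit 4) (nat_lit 357) (nat_lit 244) (nat_lit 179)) (XT.lf (nat_lit 0) (nat_lit 53466484609) (nat_lit 76) (nat_lit 48968799583) (nat_lit 76) (nat_lit 32754336472) (nat_lit 4) (nat_lit 4) (nat_lit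 5) (nat_lit 5) (nat_lit 5) (nat_lit 4) (nat_lit 358) (nat_lit 244) (nat_lit 178))) (XT.nd (nat_lit 78) (nat_lit 0) (nat_lit 0) (XT.lf (nat_lit 0) (nat_lit 69444963736) (nat_lit 76) (nat_lit 44269731676) (nat_lit 76) (nat_lit 28023139710) (nat_lit 4) (nat_lit 4) (nat_lit 5) (nat_lit 5) (nat_lit 5) (nat_lit 4) (nat_lit 359) (nat_lit 244) (nat_lit 177)) (XT.lf (nat_lit 0) (nat_lit 86176525783) (nat_lit 76) (nat_lit 39357426642) (nat_lit 76) (nat_lit 23080235766) (nat_lit 4) (nat_lit 4) (nat_lit 5) (nat_lit 5) (nat_lit 5) (nat_lit 4) (nat_lit 360) (nat_lit 244) (nat_lit 176))))) (XT.nd (nat_lit 234) (nat_lit 152) (nat_lit 0) (XT.nd (nat_lit 78) (nat_lit 0) (nat_lit 0) (XT.lf (nat_lit 0) (nat_lit 103701007804) (nat_lit 76) (nat_lit 34220188516) (nat_lit 76) (nat_lit 17913855822) (nat_lit 4) (nat_lit 4) (nat_lit 5) (nat_lit 5) (nat_lit 5) (nat_lit 4) (nat_lit 361) (nat_lit 244) (nat_lit 175)) (XT.nd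 (nat_lit 78) (nat_lit 0) (nat_lit 0) (XT.lf (nat_lit 0) (nat_lit 122060134754) (nat_lit 76) (nat_lit 28845785780) (nat_lit 76) (nat_lit 12511698973) (nat_lit 4) (nat_lit 4) (nat_lit 5) (nat_lit 5) (nat_lit 5) (nat_lit 4) (nat_lit 362) (nat_lit 244) (nat_lit 174)) (XT.lf (nat_lit 0) (nat_lit 141297618842) (nat_lit 76) (nat_lit 23221422237) (nat_lit 76) (nat_lit 6860902941) (nat_lit 4) (nat_lit 4) (nat_lit 5) (nat_lit 5) (nat_lit 5) (nat_lit 4) (nat_lit 363) (nat_lit 244) (nat_lit 173)))) (XT.nd (nat_lit 156) (nat_lit 76) (nat_lit 0) (XT.nd (nat_lit 78) (nat_lit 76) (nat_lit 0) (XT.lf (nat_lit 0) (nat_lit 161459263601) (nat_lit 76) (nat_lit 17333706544) (nat_lit 76) (nat_lit 948013449) (nat_lit 4) (nat_lit 4) (nat_lit 5) (nat_lit 5) (nat_lit 5) (nat_lit 4) (nat_lit 364) (nat_lit 244) (nat_lit 172)) (XT.lf (nat_lit 0) (nat_lit 5138776089) (nat_lit 152) (nat_lit 5977952679) (nat_lit 76) (nat_lit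 177402405294) (nat_lit 3) (nat_lit 5) (nat_lit 5) (nat_lit 5) (nat_lit 4) (nat_lit 4) (nat_lit 365) (nat_lit 244) (nat_lit 171))) (XT.nd (nat_lit 34710) (nat_lit 0) (nat_lit 6992) (XT.lf (nat_lit 0) (nat_lit 7034123375) (nat_lit 76) (nat_lit 4525790365) (nat_lit 152) (nat_lit 186174511279) (nat_lit 2) (nat_lit 5) (nat_lit 3) (nat_lit 5) (nat_lit 4) (nat_lit 4) (nat_lit 366) (nat_lit 244) (nat_lit 170)) (XT.lf (nat_lit 0) (nat_lit 1048390117) (nat_lit 380) (nat_lit 2612734065) (nat_lit 0) (nat_lit 1048390117) (nat_lit 94) (nat_lit 5) (nat_lit 99) (nat_lit 4) (nat_lit 94) (nat_lit 4) (nat_lit 290) (nat_lit 245) (nat_lit 245)))))) (XT.nd (nat_lit 546) (nat_lit 1748) (nat_lit 0) (XT.nd (nat_lit 234) (nat_lit 1064) (nat_lit 0) (XT.nd (nat_lit 78) (nat_lit 912) (nat_lit 0) (XT.lf (nat_lit 0) (nat_lit 6304096359) (nat_lit 304) (nat_lit 2388801150) (nat_lit 304) (nat_lit 951167160) (nat_lit 90) (nat_lit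 4) (nat_lit 94) (nat_lit 5) (nat_lit 94) (nat_lit 4) (nat_lit 291) (nat_lit 245) (nat_lit 244)) (XT.nd (nat_lit 78) (nat_lit 608) (nat_lit 0) (XT.lf (nat_lit 0) (nat_lit 5532445390) (nat_lit 304) (nat_lit 1541865862) (nat_lit 0) (nat_lit 2807387897) (nat_lit 86) (nat_lit 5) (nat_lit 90) (nat_lit 4) (nat_lit 86) (nat_lit 4) (nat_lit 292) (nat_lit 245) (nat_lit 243)) (XT.lf (nat_lit 0) (nat_lit 184948628) (nat_lit 228) (nat_lit 1872195526) (nat_lit 304) (nat_lit 8076016651) (nat_lit 78) (nat_lit 5) (nat_lit 81) (nat_lit 5) (nat_lit 82) (nat_lit 4) (nat_lit 293) (nat_lit 245) (nat_lit 242)))) (XT.nd (nat_lit 156) (nat_lit 532) (nat_lit 0) (XT.nd (nat_lit 78) (nat_lit 304) (nat_lit 0) (XT.lf (nat_lit 0) (nat_lit 1825046780) (nat_lit 228) (nat_lit 6809105608) (nat_lit 228) (nat_lit 1763702724) (nat_lit 75) (nat_lit 4) (nat_lit 78) (nat_lit 5) (nat_lit 78) (nat_lit 4) (nat_lit 294) (nat_lit 245)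 (nat_lit 241)) (XT.lf (nat_lit 0) (nat_lit 3343291318) (nat_lit 228) (nat_lit 1338257863) (nat_lit 304) (nat_lit 5995611652) (nat_lit 71) (nat_lit 5) (nat_lit 74) (nat_lit 5) (nat_lit 75) (nat_lit 4) (nat_lit 295) (nat_lit 245) (nat_lit 240))) (XT.nd (nat_lit 78) (nat_lit 228) (nat_lit 0) (XT.lf (nat_lit 0) (nat_lit 375088284) (nat_lit 304) (nat_lit 6250236834) (nat_lit 76) (nat_lit 4346359396) (nat_lit 67) (nat_lit 5) (nat_lit 71) (nat_lit 5) (nat_lit 68) (nat_lit 4) (nat_lit 296) (nat_lit 245) (nat_lit 239)) (XT.lf (nat_lit 0) (nat_lit 5928503015) (nat_lit 228) (nat_lit 929585143) (nat_lit 304) (nat_lit 4423661597) (nat_lit 64) (nat_lit 5) (nat_lit 67) (nat_lit 5) (nat_lit 68) (nat_lit 4) (nat_lit 297) (nat_lit 245) (nat_lit 238))))) (XT.nd (nat_lit 312) (nat_lit 836) (nat_lit 0) (XT.nd (nat_lit 156) (nat_lit 456) (nat_lit 0) (XT.nd (nat_lit 78) (nat_lit 152) (nat_lit 0) (XT.lf (nat_lit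 0) (nat_lit 1973835370) (nat_lit 304) (nat_lit 4661479099) (nat_lit 76) (nat_lit 4972847561) (nat_lit 60) (nat_lit 5) (nat_lit 64) (nat_lit 5) (nat_lit 61) (nat_lit 4) (nat_lit 298) (nat_lit 245) (nat_lit 237)) (XT.lf (nat_lit 0) (nat_lit 7765542697) (nat_lit 152) (nat_lit 755860010) (nat_lit 228) (nat_lit 3430641476) (nat_lit 58) (nat_lit 5) (nat_lit 60) (nat_lit 5) (nat_lit 61) (nat_lit 4) (nat_lit 299) (nat_lit 245) (nat_lit 236))) (XT.nd (nat_lit 78) (nat_lit 152) (nat_lit 0) (XT.lf (nat_lit 0) (nat_lit 2990500412) (nat_lit 304) (nat_lit 3983921183) (nat_lit 76) (nat_lit 5338891757) (nat_lit 54) (nat_lit 5) (nat_lit 58) (nat_lit 5) (nat_lit 55) (nat_lit 4) (nat_lit 300) (nat_lit 245) (nat_lit 235)) (XT.lf (nat_lit 0) (nat_lit 8648469382) (nat_lit 152) (nat_lit 939919717) (nat_lit 228) (nat_lit 3105538814) (nat_lit 52) (nat_lit 5) (nat_lit 54) (nat_lit 5) (nat_lit 55) (nat_lit 4) (nat_lit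 301) (nat_lit 245) (nat_lit 234)))) (XT.nd (nat_lit 156) (nat_lit 380) (nat_lit 0) (XT.nd (nat_lit 78) (nat_lit 152) (nat_lit 0) (XT.lf (nat_lit 0) (nat_lit 3329305677) (nat_lit 304) (nat_lit 4446393417) (nat_lit 76) (nat_lit 5317774896) (nat_lit 48) (nat_lit 5) (nat_lit 52) (nat_lit 5) (nat_lit 49) (nat_lit 4) (nat_lit 302) (nat_lit 245) (nat_lit 233)) (XT.lf (nat_lit 0) (nat_lit 8334326482) (nat_lit 152) (nat_lit 1621161377) (nat_lit 228) (nat_lit 3558660589) (nat_lit 46) (nat_lit 5) (nat_lit 48) (nat_lit 5) (nat_lit 49) (nat_lit 4) (nat_lit 303) (nat_lit 245) (nat_lit 232))) (XT.nd (nat_lit 78) (nat_lit 152) (nat_lit 0) (XT.lf (nat_lit 0) (nat_lit 2872144757) (nat_lit 228) (nat_lit 6318884561) (nat_lit 76) (nat_lit 4764874303) (nat_lit 43) (nat_lit 5) (nat_lit 46) (nat_lit 5) (nat_lit 44) (nat_lit 4) (nat_lit 304) (nat_lit 245) (nat_lit 231)) (XT.lf (nat_lit 0) (nat_lit 6536025223) (nat_lit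 152) (nat_lit 2959418969) (nat_lit 228) (nat_lit 4924986429) (nat_lit 41) (nat_lit 5) (nat_lit 43) (nat_lit 5) (nat_lit 44) (nat_lit 4) (nat_lit 305) (nat_lit 245) (nat_lit 230))))))))
noncomputable def xc26 : XT := (XT.nd (nat_lit 2184) (nat_lit 532) (nat_lit 0) (XT.nd (nat_lit 1092) (nat_lit 684) (nat_lit 0) (XT.nd (nat_lit 546) (nat_lit 608) (nat_lit 0) (XT.nd (nat_lit 234) (nat_lit 456) (nat_lit 0) (XT.nd (nat_lit 78) (nat_lit 304) (nat_lit 0) (XT.lf (nat_lit 0) (nat_lit 1475001904) (nat_lit 228) (nat_lit 9920310054) (nat_lit 76) (nat_lit 3513598371) (nat_lit 38) (nat_lit 5) (nat_lit 41) (nat_lit 5) (nat_lit 39) (nat_lit 4) (nat_lit 306) (nat_lit 245) (nat_lit 229)) (XT.nd (nat_lit 78) (nat_lit 152) (nat_lit 0) (XT.lf (nat_lit 0) (nat_lit 2914047598) (nat_lit 152) (nat_lit 5139407491) (nat_lit 228) (nat_lit 7368154812) (nat_lit 36) (nat_lit 5) (nat_lit 38) (nat_lit 5) (nat_lit 39) (nat_lit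 4) (nat_lit 307) (nat_lit 245) (nat_lit 228)) (XT.lf (nat_lit 0) (nat_lit 323955437) (nat_lit 152) (nat_lit 14580815210) (nat_lit 152) (nat_lit 1056920750) (nat_lit 34) (nat_lit 4) (nat_lit 36) (nat_lit 5) (nat_lit 36) (nat_lit 4) (nat_lit 308) (nat_lit 245) (nat_lit 227)))) (XT.nd (nat_lit 156) (nat_lit 304) (nat_lit 0) (XT.nd (nat_lit 78) (nat_lit 76) (nat_lit 0) (XT.lf (nat_lit 0) (nat_lit 5470800016) (nat_lit 228) (nat_lit 2876002197) (nat_lit 76) (nat_lit 8180140354) (nat_lit 33) (nat_lit 5) (nat_lit 36) (nat_lit 5) (nat_lit 34) (nat_lit 4) (nat_lit 309) (nat_lit 245) (nat_lit 226)) (XT.lf (nat_lit 0) (nat_lit 10428243992) (nat_lit 76) (nat_lit 1811165111) (nat_lit 152) (nat_lit 4882699787) (nat_lit 32) (nat_lit 5) (nat_lit 33) (nat_lit 5) (nat_lit 34) (nat_lit 4) (nat_lit 310) (nat_lit 245) (nat_lit 225))) (XT.nd (nat_lit 78) (nat_lit 76) (nat_lit 0) (XT.lf (nat_lit 0) (nat_lit 1548827097)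 (nat_lit 228) (nat_lit 11256874585) (nat_lit 76) (nat_lit 4941504980) (nat_lit 29) (nat_lit 5) (nat_lit 32) (nat_lit 5) (nat_lit 30) (nat_lit 4) (nat_lit 311) (nat_lit 245) (nat_lit 224)) (XT.lf (nat_lit 0) (nat_lit 1759389710) (nat_lit 76) (nat_lit 6390539554) (nat_lit 152) (nat_lit 10253760844) (nat_lit 28) (nat_lit 5) (nat_lit 29) (nat_lit 5) (nat_lit 30) (nat_lit 4) (nat_lit 312) (nat_lit 245) (nat_lit 223))))) (XT.nd (nat_lit 234) (nat_lit 304) (nat_lit 0) (XT.nd (nat_lit 78) (nat_lit 304) (nat_lit 0) (XT.lf (nat_lit 0) (nat_lit 15048409837) (nat_lit 152) (nat_lit 3706580604) (nat_lit 0) (nat_lit 339035694) (nat_lit 28) (nat_lit 5) (nat_lit 30) (nat_lit 4) (nat_lit 28) (nat_lit 4) (nat_lit 313) (nat_lit 245) (nat_lit 222)) (XT.nd (nat_lit 78) (nat_lit 76) (nat_lit 0) (XT.lf (nat_lit 0) (nat_lit 2437171973) (nat_lit 228) (nat_lit 10100046031) (nat_lit 76) (nat_lit 7280617531) (nat_lit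 25) (nat_lit 5) (nat_lit 28) (nat_lit 5) (nat_lit 26) (nat_lit 4) (nat_lit 314) (nat_lit 245) (nat_lit 221)) (XT.lf (nat_lit 0) (nat_lit 3076336465) (nat_lit 76) (nat_lit 6010299554) (nat_lit 152) (nat_lit 11492253904) (nat_lit 24) (nat_lit 5) (nat_lit 25) (nat_lit 5) (nat_lit 26) (nat_lit 4) (nat_lit 315) (nat_lit 245) (nat_lit 220)))) (XT.nd (nat_lit 156) (nat_lit 76) (nat_lit 0) (XT.nd (nat_lit 78) (nat_lit 228) (nat_lit 0) (XT.lf (nat_lit 0) (nat_lit 16042330685) (nat_lit 152) (nat_lit 4513803515) (nat_lit 0) (nat_lit 822690456) (nat_lit 24) (nat_lit 5) (nat_lit 26) (nat_lit 4) (nat_lit 24) (nat_lit 4) (nat_lit 316) (nat_lit 245) (nat_lit 219)) (XT.lf (nat_lit 0) (nat_lit 1119622713) (nat_lit 228) (nat_lit 13230388903) (nat_lit 76) (nat_lit 7868019949) (nat_lit 21) (nat_lit 5) (nat_lit 24) (nat_lit 5) (nat_lit 22) (nat_lit 4) (nat_lit 317) (nat_lit 245) (nat_lit 218))) (XT.nd (nat_lit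 78) (nat_lit 76) (nat_lit 0) (XT.lf (nat_lit 0) (nat_lit 7706185025) (nat_lit 228) (nat_lit 129746250) (nat_lit 76) (nat_lit 15264177775) (nat_lit 21) (nat_lit 5) (nat_lit 24) (nat_lit 5) (nat_lit 22) (nat_lit 4) (nat_lit 318) (nat_lit 245) (nat_lit 217)) (XT.lf (nat_lit 0) (nat_lit 13667773952) (nat_lit 76) (nat_lit 961927401) (nat_lit 152) (nat_lit 9396394120) (nat_lit 20) (nat_lit 5) (nat_lit 21) (nat_lit 5) (nat_lit 22) (nat_lit 4) (nat_lit 319) (nat_lit 245) (nat_lit 216)))))) (XT.nd (nat_lit 546) (nat_lit 304) (nat_lit 0) (XT.nd (nat_lit 234) (nat_lit 152) (nat_lit 0) (XT.nd (nat_lit 78) (nat_lit 152) (nat_lit 0) (XT.lf (nat_lit 0) (nat_lit 2935575207) (nat_lit 76) (nat_lit 18932610184) (nat_lit 76) (nat_lit 3131164295) (nat_lit 19) (nat_lit 4) (nat_lit 20) (nat_lit 5) (nat_lit 20) (nat_lit 4) (nat_lit 320) (nat_lit 245) (nat_lit 215)) (XT.nd (nat_lit 78) (nat_lit 76) (nat_lit 0) (XT.lf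 (nat_lit 0) (nat_lit 3379044411) (nat_lit 152) (nat_lit 9168494722) (nat_lit 76) (nat_lit 13472793526) (nat_lit 18) (nat_lit 5) (nat_lit 20) (nat_lit 5) (nat_lit 19) (nat_lit 4) (nat_lit 321) (nat_lit 245) (nat_lit 214)) (XT.lf (nat_lit 0) (nat_lit 4215393689) (nat_lit 76) (nat_lit 5862966611) (nat_lit 152) (nat_lit 17015252189) (nat_lit 17) (nat_lit 5) (nat_lit 18) (nat_lit 5) (nat_lit 19) (nat_lit 4) (nat_lit 322) (nat_lit 245) (nat_lit 213)))) (XT.nd (nat_lit 156) (nat_lit 76) (nat_lit 0) (XT.nd (nat_lit 78) (nat_lit 76) (nat_lit 0) (XT.lf (nat_lit 0) (nat_lit 17108858632) (nat_lit 152) (nat_lit 9973006811) (nat_lit 0) (nat_lit 1138831397) (nat_lit 17) (nat_lit 5) (nat_lit 19) (nat_lit 4) (nat_lit 17) (nat_lit 4) (nat_lit 323) (nat_lit 245) (nat_lit 212)) (XT.lf (nat_lit 0) (nat_lit 3390830094) (nat_lit 76) (nat_lit 21086860978) (nat_lit 76) (nat_lit 4926865802) (nat_lit 16) (nat_lit 4)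 (nat_lit 17) (nat_lit 5) (nat_lit 17) (nat_lit 4) (nat_lit 324) (nat_lit 245) (nat_lit 211))) (XT.nd (nat_lit 78) (nat_lit 0) (nat_lit 0) (XT.lf (nat_lit 0) (nat_lit 1537646972) (nat_lit 152) (nat_lit 13219493669) (nat_lit 76) (nat_lit 15890014782) (nat_lit 15) (nat_lit 5) (nat_lit 17) (nat_lit 5) (nat_lit 16) (nat_lit 4) (nat_lit 325) (nat_lit 245) (nat_lit 210)) (XT.lf (nat_lit 0) (nat_lit 8126529559) (nat_lit 152) (nat_lit 16368542) (nat_lit 76) (nat_lit 23810453864) (nat_lit 15) (nat_lit 5) (nat_lit 17) (nat_lit 5) (nat_lit 16) (nat_lit 4) (nat_lit 326) (nat_lit 245) (nat_lit 209))))) (XT.nd (nat_lit 234) (nat_lit 152) (nat_lit 0) (XT.nd (nat_lit 78) (nat_lit 76) (nat_lit 0) (XT.lf (nat_lit 0) (nat_lit 13946592924) (nat_lit 76) (nat_lit 1139080929) (nat_lit 152) (nat_lit 18237981540) (nat_lit 14) (nat_lit 5) (nat_lit 15) (nat_lit 5) (nat_lit 16) (nat_lit 4) (nat_lit 327) (nat_lit 245)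 (nat_lit 208)) (XT.nd (nat_lit 78) (nat_lit 76) (nat_lit 0) (XT.lf (nat_lit 0) (nat_lit 22361530310) (nat_lit 152) (nat_lit 6383683998) (nat_lit 0) (nat_lit 6018217597) (nat_lit 14) (nat_lit 5) (nat_lit 16) (nat_lit 4) (nat_lit 14) (nat_lit 4) (nat_lit 328) (nat_lit 245) (nat_lit 207)) (XT.lf (nat_lit 0) (nat_lit 7227456048) (nat_lit 76) (nat_lit 22767879192) (nat_lit 76) (nat_lit 6280056913) (nat_lit 13) (nat_lit 4) (nat_lit 14) (nat_lit 5) (nat_lit 14) (nat_lit 4) (nat_lit 329) (nat_lit 245) (nat_lit 206)))) (XT.nd (nat_lit 156) (nat_lit 76) (nat_lit 0) (XT.nd (nat_lit 78) (nat_lit 0) (nat_lit 0) (XT.lf (nat_lit 0) (nat_lit 126318108) (nat_lit 152) (nat_lit 16369024675) (nat_lit 76) (nat_lit 21368143378) (nat_lit 12) (nat_lit 5) (nat_lit 14) (nat_lit 5) (nat_lit 13) (nat_lit 4) (nat_lit 330) (nat_lit 245) (nat_lit 205)) (XT.lf (nat_lit 0) (nat_lit 6643346355) (nat_lit 152) (nat_lit 3270531771)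 (nat_lit 76) (nat_lit 29617652154) (nat_lit 12) (nat_lit 5) (nat_lit 14) (nat_lit 5) (nat_lit 13) (nat_lit 4) (nat_lit 331) (nat_lit 245) (nat_lit 204))) (XT.nd (nat_lit 78) (nat_lit 0) (nat_lit 0) (XT.lf (nat_lit 0) (nat_lit 10544865550) (nat_lit 76) (nat_lit 2965589237) (nat_lit 152) (nat_lit 27771811376) (nat_lit 11) (nat_lit 5) (nat_lit 12) (nat_lit 5) (nat_lit 13) (nat_lit 4) (nat_lit 332) (nat_lit 245) (nat_lit 203)) (XT.lf (nat_lit 0) (nat_lit 20721115032) (nat_lit 152) (nat_lit 18183411775) (nat_lit 0) (nat_lit 4216021782) (nat_lit 11) (nat_lit 5) (nat_lit 13) (nat_lit 4) (nat_lit 11) (nat_lit 4) (nat_lit 333) (nat_lit 245) (nat_lit 202))))))) (XT.nd (nat_lit 1092) (nat_lit 152) (nat_lit 0) (XT.nd (nat_lit 546) (nat_lit 152) (nat_lit 0) (XT.nd (nat_lit 234) (nat_lit 152) (nat_lit 0) (XT.nd (nat_lit 78) (nat_lit 76) (nat_lit 0) (XT.lf (nat_lit 0) (nat_lit 28250404610) (nat_lit 152)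 (nat_lit 5166230324) (nat_lit 0) (nat_lit 11635382208) (nat_lit 11) (nat_lit 5) (nat_lit 13) (nat_lit 4) (nat_lit 11) (nat_lit 4) (nat_lit 334) (nat_lit 245) (nat_lit 201)) (XT.nd (nat_lit 78) (nat_lit 0) (nat_lit 0) (XT.lf (nat_lit 0) (nat_lit 8540296022) (nat_lit 76) (nat_lit 27629541871) (nat_lit 76) (nat_lit 10909825039) (nat_lit 10) (nat_lit 4) (nat_lit 11) (nat_lit 5) (nat_lit 11) (nat_lit 4) (nat_lit 335) (nat_lit 245) (nat_lit 200)) (XT.lf (nat_lit 0) (nat_lit 22915615448) (nat_lit 76) (nat_lit 21556455029) (nat_lit 76) (nat_lit 4737029216) (nat_lit 10) (nat_lit 4) (nat_lit 11) (nat_lit 5) (nat_lit 11) (nat_lit 4) (nat_lit 336) (nat_lit 245) (nat_lit 199)))) (XT.nd (nat_lit 156) (nat_lit 76) (nat_lit 0) (XT.nd (nat_lit 78) (nat_lit 0) (nat_lit 0) (XT.lf (nat_lit 0) (nat_lit 1646534017) (nat_lit 152) (nat_lit 13571922693) (nat_lit 76) (nat_lit 36227976008) (nat_lit 9) (nat_lit 5) (nat_lit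 11) (nat_lit 5) (nat_lit 10) (nat_lit 4) (nat_lit 337) (nat_lit 245) (nat_lit 198)) (XT.lf (nat_lit 0) (nat_lit 8191424010) (nat_lit 152) (nat_lit 376234992) (nat_lit 76) (nat_lit 45228374722) (nat_lit 9) (nat_lit 5) (nat_lit 11) (nat_lit 5) (nat_lit 10) (nat_lit 4) (nat_lit 338) (nat_lit 245) (nat_lit 197))) (XT.nd (nat_lit 78) (nat_lit 0) (nat_lit 0) (XT.lf (nat_lit 0) (nat_lit 13636632193) (nat_lit 76) (nat_lit 1500111793) (nat_lit 152) (nat_lit 41124186561) (nat_lit 8) (nat_lit 5) (nat_lit 9) (nat_lit 5) (nat_lit 10) (nat_lit 4) (nat_lit 339) (nat_lit 245) (nat_lit 196)) (XT.lf (nat_lit 0) (nat_lit 22433524520) (nat_lit 152) (nat_lit 30654712909) (nat_lit 0) (nat_lit 5760719737) (nat_lit 8) (nat_lit 5) (nat_lit 10) (nat_lit 4) (nat_lit 8) (nat_lit 4) (nat_lit 340) (nat_lit 245) (nat_lit 195))))) (XT.nd (nat_lit 234) (nat_lit 76) (nat_lit 0) (XT.nd (nat_lit 78) (nat_lit 76) (nat_lit 0)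 (XT.lf (nat_lit 0) (nat_lit 30056350527) (nat_lit 152) (nat_lit 18203512050) (nat_lit 0) (nat_lit 13307696623) (nat_lit 8) (nat_lit 5) (nat_lit 10) (nat_lit 4) (nat_lit 8) (nat_lit 4) (nat_lit 341) (nat_lit 245) (nat_lit 194)) (XT.nd (nat_lit 78) (nat_lit 76) (nat_lit 0) (XT.lf (nat_lit 0) (nat_lit 38008951603) (nat_lit 152) (nat_lit 5226630068) (nat_lit 0) (nat_lit 21188060440) (nat_lit 8) (nat_lit 5) (nat_lit 10) (nat_lit 4) (nat_lit 8) (nat_lit 4) (nat_lit 342) (nat_lit 245) (nat_lit 193)) (XT.lf (nat_lit 0) (nat_lit 8472152586) (nat_lit 76) (nat_lit 37919549439) (nat_lit 76) (nat_lit 21029860886) (nat_lit 7) (nat_lit 4) (nat_lit 8) (nat_lit 5) (nat_lit 8) (nat_lit 4) (nat_lit 343) (nat_lit 245) (nat_lit 192)))) (XT.nd (nat_lit 156) (nat_lit 76) (nat_lit 0) (XT.nd (nat_lit 78) (nat_lit 0) (nat_lit 0) (XT.lf (nat_lit 0) (nat_lit 22875474707) (nat_lit 76) (nat_lit 32324466629) (nat_lit 76)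 (nat_lit 15369256752) (nat_lit 7) (nat_lit 4) (nat_lit 8) (nat_lit 5) (nat_lit 8) (nat_lit 4) (nat_lit 344) (nat_lit 245) (nat_lit 191)) (XT.lf (nat_lit 0) (nat_lit 37913609732) (nat_lit 76) (nat_lit 26489790331) (nat_lit 76) (nat_lit 9472179193) (nat_lit 7) (nat_lit 4) (nat_lit 8) (nat_lit 5) (nat_lit 8) (nat_lit 4) (nat_lit 345) (nat_lit 245) (nat_lit 190))) (XT.nd (nat_lit 78) (nat_lit 76) (nat_lit 0) (XT.lf (nat_lit 0) (nat_lit 53622362744) (nat_lit 76) (nat_lit 20401628458) (nat_lit 76) (nat_lit 3324587549) (nat_lit 7) (nat_lit 4) (nat_lit 8) (nat_lit 5) (nat_lit 8) (nat_lit 4) (nat_lit 346) (nat_lit 245) (nat_lit 189)) (XT.lf (nat_lit 0) (nat_lit 3027894270) (nat_lit 152) (nat_lit 10987015322) (nat_lit 76) (nat_lit 66980665470) (nat_lit 6) (nat_lit 5) (nat_lit 8) (nat_lit 5) (nat_lit 7) (nat_lit 4) (nat_lit 347) (nat_lit 245) (nat_lit 188)))))) (XT.nd (nat_lit 546) (nat_lit 76) (nat_lit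 0) (XT.nd (nat_lit 234) (nat_lit 0) (nat_lit 0) (XT.nd (nat_lit 78) (nat_lit 0) (nat_lit 0) (XT.lf (nat_lit 0) (nat_lit 2326464037) (nat_lit 76) (nat_lit 7286348417) (nat_lit 152) (nat_lit 75211621229) (nat_lit 5) (nat_lit 5) (nat_lit 6) (nat_lit 5) (nat_lit 7) (nat_lit 4) (nat_lit 348) (nat_lit 245) (nat_lit 187)) (XT.nd (nat_lit 78) (nat_lit 0) (nat_lit 0) (XT.lf (nat_lit 0) (nat_lit 16462826678) (nat_lit 76) (nat_lit 139000708) (nat_lit 152) (nat_lit 72240669077) (nat_lit 5) (nat_lit 5) (nat_lit 6) (nat_lit 5) (nat_lit 7) (nat_lit 4) (nat_lit 349) (nat_lit 245) (nat_lit 186)) (XT.lf (nat_lit 0) (nat_lit 23974354982) (nat_lit 152) (nat_lit 61895985479) (nat_lit 0) (nat_lit 7190106498) (nat_lit 5) (nat_lit 5) (nat_lit 7) (nat_lit 4) (nat_lit 5) (nat_lit 4) (nat_lit 350) (nat_lit 245) (nat_lit 185)))) (XT.nd (nat_lit 156) (nat_lit 0) (nat_lit 0) (XT.nd (nat_lit 78) (nat_lit 0) (nat_lit 0)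 (XT.lf (nat_lit 0) (nat_lit 31681919699) (nat_lit 152) (nat_lit 50955926393) (nat_lit 0) (nat_lit 14852462690) (nat_lit 5) (nat_lit 5) (nat_lit 7) (nat_lit 4) (nat_lit 5) (nat_lit 4) (nat_lit 351) (nat_lit 245) (nat_lit 184)) (XT.lf (nat_lit 0) (nat_lit 39741536724) (nat_lit 152) (nat_lit 39532108608) (nat_lit 0) (nat_lit 22869023975) (nat_lit 5) (nat_lit 5) (nat_lit 7) (nat_lit 4) (nat_lit 5) (nat_lit 4) (nat_lit 352) (nat_lit 245) (nat_lit 183))) (XT.nd (nat_lit 78) (nat_lit 0) (nat_lit 0) (XT.lf (nat_lit 0) (nat_lit 48172395620) (nat_lit 152) (nat_lit 27597332560) (nat_lit 0) (nat_lit 31258877406) (nat_lit 5) (nat_lit 5) (nat_lit 7) (nat_lit 4) (nat_lit 5) (nat_lit 4) (nat_lit 353) (nat_lit 245) (nat_lit 182)) (XT.lf (nat_lit 0) (nat_lit 56994569860) (nat_lit 152) (nat_lit 15123182114) (nat_lit 0) (nat_lit 40041998822) (nat_lit 5) (nat_lit 5) (nat_lit 7) (nat_lit 4) (nat_lit 5) (nat_lit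 4) (nat_lit 354) (nat_lit 245) (nat_lit 181))))) (XT.nd (nat_lit 312) (nat_lit 0) (nat_lit 0) (XT.nd (nat_lit 156) (nat_lit 0) (nat_lit 0) (XT.nd (nat_lit 78) (nat_lit 76) (nat_lit 0) (XT.lf (nat_lit 0) (nat_lit 66229064623) (nat_lit 152) (nat_lit 2079956913) (nat_lit 0) (nat_lit 49239300419) (nat_lit 5) (nat_lit 5) (nat_lit 7) (nat_lit 4) (nat_lit 5) (nat_lit 4) (nat_lit 355) (nat_lit 245) (nat_lit 180)) (XT.lf (nat_lit 0) (nat_lit 11793532642) (nat_lit 76) (nat_lit 64217700807) (nat_lit 76) (nat_lit 47192514540) (nat_lit 4) (nat_lit 4) (nat_lit 5) (nat_lit 5) (nat_lit 5) (nat_lit 4) (nat_lit 356) (nat_lit 245) (nat_lit 179))) (XT.nd (nat_lit 78) (nat_lit 0) (nat_lit 0) (XT.lf (nat_lit 0) (nat_lit 26353621916) (nat_lit 76) (nat_lit 59923702567) (nat_lit 76) (nat_lit 42864781002) (nat_lit 4) (nat_lit 4) (nat_lit 5) (nat_lit 5) (nat_lit 5) (nat_lit 4) (nat_lit 357) (nat_lit 245) (nat_lit 178))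 (XT.lf (nat_lit 0) (nat_lit 41593582566) (nat_lit 76) (nat_lit 55437806497) (nat_lit 76) (nat_lit 38346756077) (nat_lit 4) (nat_lit 4) (nat_lit 5) (nat_lit 5) (nat_lit 5) (nat_lit 4) (nat_lit 358) (nat_lit 245) (nat_lit 177)))) (XT.nd (nat_lit 156) (nat_lit 0) (nat_lit 0) (XT.nd (nat_lit 78) (nat_lit 0) (nat_lit 0) (XT.lf (nat_lit 0) (nat_lit 57549700212) (nat_lit 76) (nat_lit 50749331891) (nat_lit 76) (nat_lit 33627682562) (nat_lit 4) (nat_lit 4) (nat_lit 5) (nat_lit 5) (nat_lit 5) (nat_lit 4) (nat_lit 359) (nat_lit 245) (nat_lit 176)) (XT.lf (nat_lit 0) (nat_lit 74259965611) (nat_lit 76) (nat_lit 45847115716) (nat_lit 76) (nat_lit 28696324568) (nat_lit 4) (nat_lit 4) (nat_lit 5) (nat_lit 5) (nat_lit 5) (nat_lit 4) (nat_lit 360) (nat_lit 245) (nat_lit 175))) (XT.nd (nat_lit 78) (nat_lit 0) (nat_lit 0) (XT.lf (nat_lit 0) (nat_lit 91764165109) (nat_lit 76) (nat_lit 40719486027) (nat_lit 76)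 (nat_lit 23540940766) (nat_lit 4) (nat_lit 4) (nat_lit 5) (nat_lit 5) (nat_lit 5) (nat_lit 4) (nat_lit 361) (nat_lit 245) (nat_lit 174)) (XT.lf (nat_lit 0) (nat_lit 110103975372) (nat_lit 76) (nat_lit 35354234184) (nat_lit 76) (nat_lit 18149256434) (nat_lit 4) (nat_lit 4) (nat_lit 5) (nat_lit 5) (nat_lit 5) (nat_lit 4) (nat_lit 362) (nat_lit 245) (nat_lit 173))))))))
noncomputable def xc27 : XT := (XT.nd (nat_lit 36738) (nat_lit 0) (nat_lit 304) (XT.nd (nat_lit 35646) (nat_lit 0) (nat_lit 1900) (XT.nd (nat_lit 35100) (nat_lit 0) (nat_lit 4256) (XT.nd (nat_lit 34788) (nat_lit 0) (nat_lit 6460) (XT.nd (nat_lit 78) (nat_lit 0) (nat_lit 0) (XT.lf (nat_lit 0) (nat_lit 129323062614) (nat_lit 76) (nat_lit 29738585776) (nat_lit 76) (nat_lit 12508434227) (nat_lit 4) (nat_lit 4) (nat_lit 5) (nat_lit 5) (nat_lit 5) (nat_lit 4) (nat_lit 363) (nat_lit 245) (nat_lit 172)) (XT.nd (nat_lit 78) (nat_lit 0)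 (nat_lit 0) (XT.lf (nat_lit 0) (nat_lit 149467186567) (nat_lit 76) (nat_lit 23859170212) (nat_lit 76) (nat_lit 6605043617) (nat_lit 4) (nat_lit 4) (nat_lit 5) (nat_lit 5) (nat_lit 5) (nat_lit 4) (nat_lit 364) (nat_lit 245) (nat_lit 171)) (XT.lf (nat_lit 0) (nat_lit 170584309431) (nat_lit 76) (nat_lit 17701988884) (nat_lit 76) (nat_lit 425028912) (nat_lit 4) (nat_lit 4) (nat_lit 5) (nat_lit 5) (nat_lit 5) (nat_lit 4) (nat_lit 365) (nat_lit 245) (nat_lit 170)))) (XT.nd (nat_lit 156) (nat_lit 760) (nat_lit 0) (XT.nd (nat_lit 78) (nat_lit 304) (nat_lit 0) (XT.lf (nat_lit 0) (nat_lit 10530868) (nat_lit 380) (nat_lit 4480388552) (nat_lit 0) (nat_lit 10530868) (nat_lit 103) (nat_lit 5) (nat_lit 108) (nat_lit 4) (nat_lit 103) (nat_lit 4) (nat_lit 288) (nat_lit 246) (nat_lit 246)) (XT.lf (nat_lit 0) (nat_lit 2031894916) (nat_lit 304) (nat_lit 4364684980) (nat_lit 304) (nat_lit 2809883820) (nat_lit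 99) (nat_lit 4) (nat_lit 103) (nat_lit 5) (nat_lit 103) (nat_lit 4) (nat_lit 289) (nat_lit 246) (nat_lit 245))) (XT.nd (nat_lit 78) (nat_lit 380) (nat_lit 0) (XT.lf (nat_lit 0) (nat_lit 3478228260) (nat_lit 380) (nat_lit 5413658811) (nat_lit 0) (nat_lit 531078581) (nat_lit 94) (nat_lit 5) (nat_lit 99) (nat_lit 4) (nat_lit 94) (nat_lit 4) (nat_lit 290) (nat_lit 246) (nat_lit 244)) (XT.lf (nat_lit 0) (nat_lit 291120934) (nat_lit 380) (nat_lit 3725349411) (nat_lit 76) (nat_lit 5635303395) (nat_lit 89) (nat_lit 5) (nat_lit 94) (nat_lit 5) (nat_lit 90) (nat_lit 4) (nat_lit 291) (nat_lit 246) (nat_lit 243))))) (XT.nd (nat_lit 234) (nat_lit 1140) (nat_lit 0) (XT.nd (nat_lit 78) (nat_lit 836) (nat_lit 0) (XT.lf (nat_lit 0) (nat_lit 6615324861) (nat_lit 304) (nat_lit 2119396539) (nat_lit 0) (nat_lit 1158721642) (nat_lit 86) (nat_lit 5) (nat_lit 90) (nat_lit 4) (nat_lit 86) (nat_lit 4) (nat_lit 292)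 (nat_lit 246) (nat_lit 242)) (XT.nd (nat_lit 78) (nat_lit 456) (nat_lit 0) (XT.lf (nat_lit 0) (nat_lit 2981326009) (nat_lit 380) (nat_lit 610222385) (nat_lit 76) (nat_lit 6556906346) (nat_lit 81) (nat_lit 5) (nat_lit 86) (nat_lit 5) (nat_lit 82) (nat_lit 4) (nat_lit 293) (nat_lit 246) (nat_lit 241)) (XT.lf (nat_lit 0) (nat_lit 821112654) (nat_lit 228) (nat_lit 8589824417) (nat_lit 228) (nat_lit 1006707581) (nat_lit 75) (nat_lit 4) (nat_lit 78) (nat_lit 5) (nat_lit 78) (nat_lit 4) (nat_lit 294) (nat_lit 246) (nat_lit 240)))) (XT.nd (nat_lit 156) (nat_lit 532) (nat_lit 0) (XT.nd (nat_lit 78) (nat_lit 304) (nat_lit 0) (XT.lf (nat_lit 0) (nat_lit 2112939681) (nat_lit 228) (nat_lit 3186478559) (nat_lit 304) (nat_lit 5401112600) (nat_lit 71) (nat_lit 5) (nat_lit 74) (nat_lit 5) (nat_lit 75) (nat_lit 4) (nat_lit 295) (nat_lit 246) (nat_lit 239)) (XT.lf (nat_lit 0) (nat_lit 815549527) (nat_lit 304)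 (nat_lit 7719271099) (nat_lit 76) (nat_lit 2464398566) (nat_lit 67) (nat_lit 5) (nat_lit 71) (nat_lit 5) (nat_lit 68) (nat_lit 4) (nat_lit 296) (nat_lit 246) (nat_lit 238))) (XT.nd (nat_lit 78) (nat_lit 304) (nat_lit 0) (XT.lf (nat_lit 0) (nat_lit 4256561638) (nat_lit 228) (nat_lit 2919003966) (nat_lit 304) (nat_lit 4137468344) (nat_lit 64) (nat_lit 5) (nat_lit 67) (nat_lit 5) (nat_lit 68) (nat_lit 4) (nat_lit 297) (nat_lit 246) (nat_lit 237)) (XT.lf (nat_lit 0) (nat_lit 2111701188) (nat_lit 304) (nat_lit 6587336525) (nat_lit 76) (nat_lit 2944663741) (nat_lit 60) (nat_lit 5) (nat_lit 64) (nat_lit 5) (nat_lit 61) (nat_lit 4) (nat_lit 298) (nat_lit 246) (nat_lit 236)))))) (XT.nd (nat_lit 546) (nat_lit 912) (nat_lit 0) (XT.nd (nat_lit 234) (nat_lit 836) (nat_lit 0) (XT.nd (nat_lit 78) (nat_lit 456) (nat_lit 0) (XT.lf (nat_lit 0) (nat_lit 5632842941) (nat_lit 152) (nat_lit 2904252729) (nat_lit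 228) (nat_lit 3454205962) (nat_lit 58) (nat_lit 5) (nat_lit 60) (nat_lit 5) (nat_lit 61) (nat_lit 4) (nat_lit 299) (nat_lit 246) (nat_lit 235)) (XT.nd (nat_lit 78) (nat_lit 152) (nat_lit 0) (XT.lf (nat_lit 0) (nat_lit 2823627169) (nat_lit 304) (nat_lit 6386118830) (nat_lit 76) (nat_lit 3147193510) (nat_lit 54) (nat_lit 5) (nat_lit 58) (nat_lit 5) (nat_lit 55) (nat_lit 4) (nat_lit 300) (nat_lit 246) (nat_lit 234)) (XT.lf (nat_lit 0) (nat_lit 6035077923) (nat_lit 152) (nat_lit 3264542706) (nat_lit 228) (nat_lit 3441636828) (nat_lit 52) (nat_lit 5) (nat_lit 54) (nat_lit 5) (nat_lit 55) (nat_lit 4) (nat_lit 301) (nat_lit 246) (nat_lit 233)))) (XT.nd (nat_lit 156) (nat_lit 380) (nat_lit 0) (XT.nd (nat_lit 78) (nat_lit 152) (nat_lit 0) (XT.lf (nat_lit 0) (nat_lit 2854280333) (nat_lit 304) (nat_lit 7345320423) (nat_lit 76) (nat_lit 2945707300) (nat_lit 48) (nat_lit 5) (nat_lit 52) (nat_lit 5) (nat_lit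 49) (nat_lit 4) (nat_lit 302) (nat_lit 246) (nat_lit 232)) (XT.lf (nat_lit 0) (nat_lit 5219401714) (nat_lit 152) (nat_lit 4138931246) (nat_lit 228) (nat_lit 4211354416) (nat_lit 46) (nat_lit 5) (nat_lit 48) (nat_lit 5) (nat_lit 49) (nat_lit 4) (nat_lit 303) (nat_lit 246) (nat_lit 231))) (XT.nd (nat_lit 78) (nat_lit 152) (nat_lit 0) (XT.lf (nat_lit 0) (nat_lit 2084315015) (nat_lit 228) (nat_lit 9735941400) (nat_lit 76) (nat_lit 2195848413) (nat_lit 43) (nat_lit 5) (nat_lit 46) (nat_lit 5) (nat_lit 44) (nat_lit 4) (nat_lit 304) (nat_lit 246) (nat_lit 230)) (XT.lf (nat_lit 0) (nat_lit 2897678301) (nat_lit 152) (nat_lit 5687077133) (nat_lit 228) (nat_lit 5899598246) (nat_lit 41) (nat_lit 5) (nat_lit 43) (nat_lit 5) (nat_lit 44) (nat_lit 4) (nat_lit 305) (nat_lit 246) (nat_lit 229))))) (XT.nd (nat_lit 234) (nat_lit 532) (nat_lit 0) (XT.nd (nat_lit 78) (nat_lit 152) (nat_lit 0) (XT.lf (nat_lit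 0) (nat_lit 368496382) (nat_lit 228) (nat_lit 13878044202) (nat_lit 76) (nat_lit 731134582) (nat_lit 38) (nat_lit 5) (nat_lit 41) (nat_lit 5) (nat_lit 39) (nat_lit 4) (nat_lit 306) (nat_lit 246) (nat_lit 228)) (XT.nd (nat_lit 78) (nat_lit 152) (nat_lit 0) (XT.lf (nat_lit 0) (nat_lit 6835094306) (nat_lit 228) (nat_lit 1245995476) (nat_lit 76) (nat_lit 7412672388) (nat_lit 38) (nat_lit 5) (nat_lit 41) (nat_lit 5) (nat_lit 39) (nat_lit 4) (nat_lit 307) (nat_lit 246) (nat_lit 227)) (XT.lf (nat_lit 0) (nat_lit 11967214388) (nat_lit 152) (nat_lit 1609149173) (nat_lit 228) (nat_lit 2460811757) (nat_lit 36) (nat_lit 5) (nat_lit 38) (nat_lit 5) (nat_lit 39) (nat_lit 4) (nat_lit 308) (nat_lit 246) (nat_lit 226)))) (XT.nd (nat_lit 156) (nat_lit 228) (nat_lit 0) (XT.nd (nat_lit 78) (nat_lit 76) (nat_lit 0) (XT.lf (nat_lit 0) (nat_lit 3958497829) (nat_lit 228) (nat_lit 7538923976) (nat_lit 76) (nat_lit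 5109511700) (nat_lit 33) (nat_lit 5) (nat_lit 36) (nat_lit 5) (nat_lit 34) (nat_lit 4) (nat_lit 309) (nat_lit 246) (nat_lit 225)) (XT.lf (nat_lit 0) (nat_lit 5535871072) (nat_lit 76) (nat_lit 5067977476) (nat_lit 152) (nat_lit 6601975679) (nat_lit 32) (nat_lit 5) (nat_lit 33) (nat_lit 5) (nat_lit 34) (nat_lit 4) (nat_lit 310) (nat_lit 246) (nat_lit 224))) (XT.nd (nat_lit 78) (nat_lit 76) (nat_lit 0) (XT.lf (nat_lit 0) (nat_lit 1328313116) (nat_lit 152) (nat_lit 16207971007) (nat_lit 152) (nat_lit 299782872) (nat_lit 30) (nat_lit 4) (nat_lit 32) (nat_lit 5) (nat_lit 32) (nat_lit 4) (nat_lit 311) (nat_lit 246) (nat_lit 223)) (XT.lf (nat_lit 0) (nat_lit 6217438879) (nat_lit 228) (nat_lit 3652475881) (nat_lit 76) (nat_lit 8625437509) (nat_lit 29) (nat_lit 5) (nat_lit 32) (nat_lit 5) (nat_lit 30) (nat_lit 4) (nat_lit 312) (nat_lit 246) (nat_lit 222))))))) (XT.nd (nat_lit 1092) (nat_lit 532) (nat_lit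 0) (XT.nd (nat_lit 546) (nat_lit 380) (nat_lit 0) (XT.nd (nat_lit 234) (nat_lit 380) (nat_lit 0) (XT.nd (nat_lit 78) (nat_lit 228) (nat_lit 0) (XT.lf (nat_lit 0) (nat_lit 9780489264) (nat_lit 76) (nat_lit 3225737826) (nat_lit 152) (nat_lit 6182774327) (nat_lit 28) (nat_lit 5) (nat_lit 29) (nat_lit 5) (nat_lit 30) (nat_lit 4) (nat_lit 313) (nat_lit 246) (nat_lit 221)) (XT.nd (nat_lit 78) (nat_lit 0) (nat_lit 0) (XT.lf (nat_lit 0) (nat_lit 184656403) (nat_lit 228) (nat_lit 16085188408) (nat_lit 76) (nat_lit 3648314817) (nat_lit 25) (nat_lit 5) (nat_lit 28) (nat_lit 5) (nat_lit 26) (nat_lit 4) (nat_lit 314) (nat_lit 246) (nat_lit 220)) (XT.lf (nat_lit 0) (nat_lit 6738264384) (nat_lit 228) (nat_lit 3088058985) (nat_lit 76) (nat_lit 10855786010) (nat_lit 25) (nat_lit 5) (nat_lit 28) (nat_lit 5) (nat_lit 26) (nat_lit 4) (nat_lit 315) (nat_lit 246) (nat_lit 219)))) (XT.nd (nat_lit 156) (nat_lit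 152) (nat_lit 0) (XT.nd (nat_lit 78) (nat_lit 152) (nat_lit 0) (XT.lf (nat_lit 0) (nat_lit 10531669646) (nat_lit 76) (nat_lit 3059707496) (nat_lit 152) (nat_lit 7893763172) (nat_lit 24) (nat_lit 5) (nat_lit 25) (nat_lit 5) (nat_lit 26) (nat_lit 4) (nat_lit 316) (nat_lit 246) (nat_lit 218)) (XT.lf (nat_lit 0) (nat_lit 2347222244) (nat_lit 152) (nat_lit 18407084054) (nat_lit 152) (nat_lit 1575038269) (nat_lit 22) (nat_lit 4) (nat_lit 24) (nat_lit 5) (nat_lit 24) (nat_lit 4) (nat_lit 317) (nat_lit 246) (nat_lit 217))) (XT.nd (nat_lit 78) (nat_lit 76) (nat_lit 0) (XT.lf (nat_lit 0) (nat_lit 4981889393) (nat_lit 228) (nat_lit 6976028260) (nat_lit 76) (nat_lit 11255786193) (nat_lit 21) (nat_lit 5) (nat_lit 24) (nat_lit 5) (nat_lit 22) (nat_lit 4) (nat_lit 318) (nat_lit 246) (nat_lit 216)) (XT.lf (nat_lit 0) (nat_lit 6578692894) (nat_lit 76) (nat_lit 5201073654) (nat_lit 152) (nat_lit 12363708616)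 (nat_lit 20) (nat_lit 5) (nat_lit 21) (nat_lit 5) (nat_lit 22) (nat_lit 4) (nat_lit 319) (nat_lit 246) (nat_lit 215))))) (XT.nd (nat_lit 234) (nat_lit 228) (nat_lit 0) (XT.nd (nat_lit 78) (nat_lit 152) (nat_lit 0) (XT.lf (nat_lit 0) (nat_lit 18893110951) (nat_lit 152) (nat_lit 4390138245) (nat_lit 0) (nat_lit 1837249342) (nat_lit 20) (nat_lit 5) (nat_lit 22) (nat_lit 4) (nat_lit 20) (nat_lit 4) (nat_lit 320) (nat_lit 246) (nat_lit 214)) (XT.nd (nat_lit 78) (nat_lit 0) (nat_lit 0) (XT.lf (nat_lit 0) (nat_lit 244763658) (nat_lit 152) (nat_lit 16774714226) (nat_lit 76) (nat_lit 9125864631) (nat_lit 18) (nat_lit 5) (nat_lit 20) (nat_lit 5) (nat_lit 19) (nat_lit 4) (nat_lit 321) (nat_lit 246) (nat_lit 213)) (XT.lf (nat_lit 0) (nat_lit 6851168879) (nat_lit 152) (nat_lit 3569161956) (nat_lit 76) (nat_lit 16801092016) (nat_lit 18) (nat_lit 5) (nat_lit 20) (nat_lit 5) (nat_lit 19) (nat_lit 4) (nat_lit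 322) (nat_lit 246) (nat_lit 212)))) (XT.nd (nat_lit 156) (nat_lit 152) (nat_lit 0) (XT.nd (nat_lit 78) (nat_lit 0) (nat_lit 0) (XT.lf (nat_lit 0) (nat_lit 10310276473) (nat_lit 76) (nat_lit 3474441869) (nat_lit 152) (nat_lit 14566709883) (nat_lit 17) (nat_lit 5) (nat_lit 18) (nat_lit 5) (nat_lit 19) (nat_lit 4) (nat_lit 323) (nat_lit 246) (nat_lit 211)) (XT.lf (nat_lit 0) (nat_lit 21038794809) (nat_lit 152) (nat_lit 4800038003) (nat_lit 0) (nat_lit 3699910084) (nat_lit 17) (nat_lit 5) (nat_lit 19) (nat_lit 4) (nat_lit 17) (nat_lit 4) (nat_lit 324) (nat_lit 246) (nat_lit 210))) (XT.nd (nat_lit 78) (nat_lit 76) (nat_lit 0) (XT.lf (nat_lit 0) (nat_lit 9069414923) (nat_lit 76) (nat_lit 19613205803) (nat_lit 76) (nat_lit 2102014554) (nat_lit 16) (nat_lit 4) (nat_lit 17) (nat_lit 5) (nat_lit 17) (nat_lit 4) (nat_lit 325) (nat_lit 246) (nat_lit 209)) (XT.lf (nat_lit 0) (nat_lit 4482400246) (nat_lit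 152) (nat_lit 8576020199) (nat_lit 76) (nat_lit 19034392652) (nat_lit 15) (nat_lit 5) (nat_lit 17) (nat_lit 5) (nat_lit 16) (nat_lit 4) (nat_lit 326) (nat_lit 246) (nat_lit 208)))))) (XT.nd (nat_lit 546) (nat_lit 228) (nat_lit 0) (XT.nd (nat_lit 234) (nat_lit 228) (nat_lit 0) (XT.nd (nat_lit 78) (nat_lit 0) (nat_lit 0) (XT.lf (nat_lit 0) (nat_lit 5134868189) (nat_lit 76) (nat_lit 6178652985) (nat_lit 152) (nat_lit 22153446082) (nat_lit 14) (nat_lit 5) (nat_lit 15) (nat_lit 5) (nat_lit 16) (nat_lit 4) (nat_lit 327) (nat_lit 246) (nat_lit 207)) (XT.nd (nat_lit 78) (nat_lit 0) (nat_lit 0) (XT.lf (nat_lit 0) (nat_lit 18498584865) (nat_lit 152) (nat_lit 15369030330) (nat_lit 0) (nat_lit 1041861906) (nat_lit 14) (nat_lit 5) (nat_lit 16) (nat_lit 4) (nat_lit 14) (nat_lit 4) (nat_lit 328) (nat_lit 246) (nat_lit 206)) (XT.lf (nat_lit 0) (nat_lit 26022582386) (nat_lit 152) (nat_lit 1973927015) (nat_lit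 0) (nat_lit 8428231269) (nat_lit 14) (nat_lit 5) (nat_lit 16) (nat_lit 4) (nat_lit 14) (nat_lit 4) (nat_lit 329) (nat_lit 246) (nat_lit 205)))) (XT.nd (nat_lit 156) (nat_lit 76) (nat_lit 0) (XT.nd (nat_lit 78) (nat_lit 76) (nat_lit 0) (XT.lf (nat_lit 0) (nat_lit 12182215885) (nat_lit 76) (nat_lit 21778922051) (nat_lit 76) (nat_lit 4053496497) (nat_lit 13) (nat_lit 4) (nat_lit 14) (nat_lit 5) (nat_lit 14) (nat_lit 4) (nat_lit 330) (nat_lit 246) (nat_lit 204)) (XT.lf (nat_lit 0) (nat_lit 2505003273) (nat_lit 152) (nat_lit 12765101705) (nat_lit 76) (nat_lit 24414879328) (nat_lit 12) (nat_lit 5) (nat_lit 14) (nat_lit 5) (nat_lit 13) (nat_lit 4) (nat_lit 331) (nat_lit 246) (nat_lit 203))) (XT.nd (nat_lit 78) (nat_lit 0) (nat_lit 0) (XT.lf (nat_lit 0) (nat_lit 793204880) (nat_lit 76) (nat_lit 8449332857) (nat_lit 152) (nat_lit 32197077301) (nat_lit 11) (nat_lit 5) (nat_lit 12) (nat_lit 5) (nat_lit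 13) (nat_lit 4) (nat_lit 332) (nat_lit 246) (nat_lit 202)) (XT.lf (nat_lit 0) (nat_lit 15163163814) (nat_lit 76) (nat_lit 1213948288) (nat_lit 152) (nat_lit 26903075205) (nat_lit 11) (nat_lit 5) (nat_lit 12) (nat_lit 5) (nat_lit 13) (nat_lit 4) (nat_lit 333) (nat_lit 246) (nat_lit 201))))) (XT.nd (nat_lit 312) (nat_lit 152) (nat_lit 0) (XT.nd (nat_lit 156) (nat_lit 76) (nat_lit 0) (XT.nd (nat_lit 78) (nat_lit 0) (nat_lit 0) (XT.lf (nat_lit 0) (nat_lit 23861359138) (nat_lit 152) (nat_lit 15150692883) (nat_lit 0) (nat_lit 6200962034) (nat_lit 11) (nat_lit 5) (nat_lit 13) (nat_lit 4) (nat_lit 11) (nat_lit 4) (nat_lit 334) (nat_lit 246) (nat_lit 200)) (XT.lf (nat_lit 0) (nat_lit 31666913749) (nat_lit 152) (nat_lit 1670361383) (nat_lit 0) (nat_lit 13906807664) (nat_lit 11) (nat_lit 5) (nat_lit 13) (nat_lit 4) (nat_lit 11) (nat_lit 4) (nat_lit 335) (nat_lit 246) (nat_lit 199))) (XT.nd (nat_lit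 78) (nat_lit 0) (nat_lit 0) (XT.lf (nat_lit 0) (nat_lit 12613878451) (nat_lit 76) (nat_lit 27308065241) (nat_lit 76) (nat_lit 9452998221) (nat_lit 10) (nat_lit 4) (nat_lit 11) (nat_lit 5) (nat_lit 11) (nat_lit 4) (nat_lit 336) (nat_lit 246) (nat_lit 198)) (XT.lf (nat_lit 0) (nat_lit 27534317771) (nat_lit 76) (nat_lit 21012417092) (nat_lit 76) (nat_lit 3066911087) (nat_lit 10) (nat_lit 4) (nat_lit 11) (nat_lit 5) (nat_lit 11) (nat_lit 4) (nat_lit 337) (nat_lit 246) (nat_lit 197)))) (XT.nd (nat_lit 156) (nat_lit 0) (nat_lit 0) (XT.nd (nat_lit 78) (nat_lit 76) (nat_lit 0) (XT.lf (nat_lit 0) (nat_lit 3509582379) (nat_lit 152) (nat_lit 10907186141) (nat_lit 76) (nat_lit 39548215684) (nat_lit 9) (nat_lit 5) (nat_lit 11) (nat_lit 5) (nat_lit 10) (nat_lit 4) (nat_lit 338) (nat_lit 246) (nat_lit 196)) (XT.lf (nat_lit 0) (nat_lit 2844587779) (nat_lit 76) (nat_lit 7479676741) (nat_lit 152) (nat_lit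 46109540906) (nat_lit 8) (nat_lit 5) (nat_lit 9) (nat_lit 5) (nat_lit 10) (nat_lit 4) (nat_lit 339) (nat_lit 246) (nat_lit 195))) (XT.nd (nat_lit 78) (nat_lit 0) (nat_lit 0) (XT.lf (nat_lit 0) (nat_lit 17411317828) (nat_lit 76) (nat_lit 127160802) (nat_lit 152) (nat_lit 41485835421) (nat_lit 8) (nat_lit 5) (nat_lit 9) (nat_lit 5) (nat_lit 10) (nat_lit 4) (nat_lit 340) (nat_lit 246) (nat_lit 194)) (XT.lf (nat_lit 0) (nat_lit 25135025593) (nat_lit 152) (nat_lit 29207831027) (nat_lit 0) (nat_lit 7400852612) (nat_lit 8) (nat_lit 5) (nat_lit 10) (nat_lit 4) (nat_lit 8) (nat_lit 4) (nat_lit 341) (nat_lit 246) (nat_lit 193))))))))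
noncomputable def xc28 : XT := (XT.nd (nat_lit 36582) (nat_lit 0) (nat_lit 1520) (XT.nd (nat_lit 1092) (nat_lit 76) (nat_lit 0) (XT.nd (nat_lit 546) (nat_lit 76) (nat_lit 0) (XT.nd (nat_lit 234) (nat_lit 76) (nat_lit 0) (XT.nd (nat_lit 78) (nat_lit 76) (nat_lit 0) (XT.lf (nat_lit 0) (nat_lit 33063763146) (nat_lit 152) (nat_lit 16275956673) (nat_lit 0) (nat_lit 15260792776) (nat_lit 8) (nat_lit 5) (nat_lit 10) (nat_lit 4) (nat_lit 8) (nat_lit 4) (nat_lit 342) (nat_lit 246) (nat_lit 192)) (XT.nd (nat_lit 78) (nat_lit 76) (nat_lit 0) (XT.lf (nat_lit 0) (nat_lit 41342346891) (nat_lit 152) (nat_lit 2785360639) (nat_lit 0) (nat_lit 23473855197) (nat_lit 8) (nat_lit 5) (nat_lit 10) (nat_lit 4) (nat_lit 8) (nat_lit 4) (nat_lit 343) (nat_lit 246) (nat_lit 191)) (XT.lf (nat_lit 0) (nat_lit 11520891634) (nat_lit 76) (nat_lit 38580341963) (nat_lit 76) (nat_lit 20649449009) (nat_lit 7) (nat_lit 4) (nat_lit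 8) (nat_lit 5) (nat_lit 8) (nat_lit 4) (nat_lit 344) (nat_lit 246) (nat_lit 190)))) (XT.nd (nat_lit 156) (nat_lit 76) (nat_lit 0) (XT.nd (nat_lit 78) (nat_lit 0) (nat_lit 0) (XT.lf (nat_lit 0) (nat_lit 26519373604) (nat_lit 76) (nat_lit 32764323343) (nat_lit 76) (nat_lit 14774000617) (nat_lit 7) (nat_lit 4) (nat_lit 8) (nat_lit 5) (nat_lit 8) (nat_lit 4) (nat_lit 345) (nat_lit 246) (nat_lit 189)) (XT.lf (nat_lit 0) (nat_lit 42190361800) (nat_lit 76) (nat_lit 26693930688) (nat_lit 76) (nat_lit 8647008179) (nat_lit 7) (nat_lit 4) (nat_lit 8) (nat_lit 5) (nat_lit 8) (nat_lit 4) (nat_lit 346) (nat_lit 246) (nat_lit 188))) (XT.nd (nat_lit 78) (nat_lit 76) (nat_lit 0) (XT.lf (nat_lit 0) (nat_lit 58571168102) (nat_lit 76) (nat_lit 20354710682) (nat_lit 76) (nat_lit 2253883618) (nat_lit 7) (nat_lit 4) (nat_lit 8) (nat_lit 5) (nat_lit 8) (nat_lit 4) (nat_lit 347) (nat_lit 246) (nat_lit 187)) (XT.lf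 (nat_lit 0) (nat_lit 4334333064) (nat_lit 152) (nat_lit 9353468613) (nat_lit 76) (nat_lit 71322693097) (nat_lit 6) (nat_lit 5) (nat_lit 8) (nat_lit 5) (nat_lit 7) (nat_lit 4) (nat_lit 348) (nat_lit 246) (nat_lit 186))))) (XT.nd (nat_lit 234) (nat_lit 0) (nat_lit 0) (XT.nd (nat_lit 78) (nat_lit 0) (nat_lit 0) (XT.lf (nat_lit 0) (nat_lit 4563112396) (nat_lit 76) (nat_lit 6650764525) (nat_lit 152) (nat_lit 77817967905) (nat_lit 5) (nat_lit 5) (nat_lit 6) (nat_lit 5) (nat_lit 7) (nat_lit 4) (nat_lit 349) (nat_lit 246) (nat_lit 185)) (XT.nd (nat_lit 78) (nat_lit 0) (nat_lit 0) (XT.lf (nat_lit 0) (nat_lit 18506740081) (nat_lit 152) (nat_lit 73954846465) (nat_lit 0) (nat_lit 790601695) (nat_lit 5) (nat_lit 5) (nat_lit 7) (nat_lit 4) (nat_lit 5) (nat_lit 4) (nat_lit 350) (nat_lit 246) (nat_lit 184)) (XT.lf (nat_lit 0) (nat_lit 26198048248) (nat_lit 152) (nat_lit 63045638236) (nat_lit 0) (nat_lit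 8438854123) (nat_lit 5) (nat_lit 5) (nat_lit 7) (nat_lit 4) (nat_lit 5) (nat_lit 4) (nat_lit 351) (nat_lit 246) (nat_lit 183)))) (XT.nd (nat_lit 156) (nat_lit 0) (nat_lit 0) (XT.nd (nat_lit 78) (nat_lit 0) (nat_lit 0) (XT.lf (nat_lit 0) (nat_lit 34242182843) (nat_lit 152) (nat_lit 51651202220) (nat_lit 0) (nat_lit 16441983253) (nat_lit 5) (nat_lit 5) (nat_lit 7) (nat_lit 4) (nat_lit 5) (nat_lit 4) (nat_lit 352) (nat_lit 246) (nat_lit 182)) (XT.lf (nat_lit 0) (nat_lit 42658296568) (nat_lit 152) (nat_lit 39744408808) (nat_lit 0) (nat_lit 24819044154) (nat_lit 5) (nat_lit 5) (nat_lit 7) (nat_lit 4) (nat_lit 5) (nat_lit 4) (nat_lit 353) (nat_lit 246) (nat_lit 181))) (XT.nd (nat_lit 78) (nat_lit 0) (nat_lit 0) (XT.lf (nat_lit 0) (nat_lit 51466427790) (nat_lit 152) (nat_lit 27296908492) (nat_lit 0) (nat_lit 33589982210) (nat_lit 5) (nat_lit 5) (nat_lit 7) (nat_lit 4) (nat_lit 5) (nat_lit 4) (nat_lit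 354) (nat_lit 246) (nat_lit 180)) (XT.lf (nat_lit 0) (nat_lit 60687548248) (nat_lit 152) (nat_lit 14279064367) (nat_lit 0) (nat_lit 42775680605) (nat_lit 5) (nat_lit 5) (nat_lit 7) (nat_lit 4) (nat_lit 5) (nat_lit 4) (nat_lit 355) (nat_lit 246) (nat_lit 179)))))) (XT.nd (nat_lit 546) (nat_lit 0) (nat_lit 0) (XT.nd (nat_lit 234) (nat_lit 0) (nat_lit 0) (XT.nd (nat_lit 78) (nat_lit 76) (nat_lit 0) (XT.lf (nat_lit 0) (nat_lit 70343612992) (nat_lit 152) (nat_lit 659881565) (nat_lit 0) (nat_lit 52398010051) (nat_lit 5) (nat_lit 5) (nat_lit 7) (nat_lit 4) (nat_lit 5) (nat_lit 4) (nat_lit 356) (nat_lit 246) (nat_lit 178)) (XT.nd (nat_lit 78) (nat_lit 0) (nat_lit 0) (XT.lf (nat_lit 0) (nat_lit 13863595216) (nat_lit 76) (nat_lit 66727282793) (nat_lit 76) (nat_lit 48749550997) (nat_lit 4) (nat_lit 4) (nat_lit 5) (nat_lit 5) (nat_lit 5) (nat_lit 4) (nat_lit 357) (nat_lit 246) (nat_lit 177)) (XT.lf (nat_lit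 0) (nat_lit 29081194385) (nat_lit 76) (nat_lit 62251980024) (nat_lit 76) (nat_lit 44243649319) (nat_lit 4) (nat_lit 4) (nat_lit 5) (nat_lit 5) (nat_lit 5) (nat_lit 4) (nat_lit 358) (nat_lit 246) (nat_lit 176)))) (XT.nd (nat_lit 156) (nat_lit 0) (nat_lit 0) (XT.nd (nat_lit 78) (nat_lit 0) (nat_lit 0) (XT.lf (nat_lit 0) (nat_lit 45016015382) (nat_lit 76) (nat_lit 57573594278) (nat_lit 76) (nat_lit 39536121754) (nat_lit 4) (nat_lit 4) (nat_lit 5) (nat_lit 5) (nat_lit 5) (nat_lit 4) (nat_lit 359) (nat_lit 246) (nat_lit 175)) (XT.lf (nat_lit 0) (nat_lit 61705998259) (nat_lit 76) (nat_lit 52680986539) (nat_lit 76) (nat_lit 34615759902) (nat_lit 4) (nat_lit 4) (nat_lit 5) (nat_lit 5) (nat_lit 5) (nat_lit 4) (nat_lit 360) (nat_lit 246) (nat_lit 174))) (XT.nd (nat_lit 78) (nat_lit 0) (nat_lit 0) (XT.lf (nat_lit 0) (nat_lit 79190881069) (nat_lit 76) (nat_lit 47562507743) (nat_lit 76) (nat_lit 29470848618)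 (nat_lit 4) (nat_lit 4) (nat_lit 5) (nat_lit 5) (nat_lit 5) (nat_lit 4) (nat_lit 361) (nat_lit 246) (nat_lit 173)) (XT.lf (nat_lit 0) (nat_lit 97512294486) (nat_lit 76) (nat_lit 42205971035) (nat_lit 76) (nat_lit 24089138111) (nat_lit 4) (nat_lit 4) (nat_lit 5) (nat_lit 5) (nat_lit 5) (nat_lit 4) (nat_lit 362) (nat_lit 246) (nat_lit 172))))) (XT.nd (nat_lit 34632) (nat_lit 0) (nat_lit 7220) (XT.nd (nat_lit 78) (nat_lit 0) (nat_lit 0) (XT.lf (nat_lit 0) (nat_lit 116713860923) (nat_lit 76) (nat_lit 36598622756) (nat_lit 76) (nat_lit 18457814785) (nat_lit 4) (nat_lit 4) (nat_lit 5) (nat_lit 5) (nat_lit 5) (nat_lit 4) (nat_lit 363) (nat_lit 246) (nat_lit 171)) (XT.nd (nat_lit 78) (nat_lit 0) (nat_lit 0) (XT.lf (nat_lit 0) (nat_lit 136841298395) (nat_lit 76) (nat_lit 30727112077) (nat_lit 76) (nat_lit 12563470729) (nat_lit 4) (nat_lit 4) (nat_lit 5) (nat_lit 5) (nat_lit 5) (nat_lit 4) (nat_lit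 364) (nat_lit 246) (nat_lit 170)) (XT.lf (nat_lit 0) (nat_lit 157942529371) (nat_lit 76) (nat_lit 24577459210) (nat_lit 76) (nat_lit 6392071789) (nat_lit 4) (nat_lit 4) (nat_lit 5) (nat_lit 5) (nat_lit 5) (nat_lit 4) (nat_lit 365) (nat_lit 246) (nat_lit 169)))) (XT.nd (nat_lit 156) (nat_lit 1064) (nat_lit 0) (XT.nd (nat_lit 78) (nat_lit 456) (nat_lit 0) (XT.lf (nat_lit 0) (nat_lit 2404168703) (nat_lit 380) (nat_lit 953912638) (nat_lit 380) (nat_lit 953912638) (nat_lit 119) (nat_lit 4) (nat_lit 124) (nat_lit 5) (nat_lit 124) (nat_lit 4) (nat_lit 286) (nat_lit 247) (nat_lit 247)) (XT.lf (nat_lit 0) (nat_lit 4256126398) (nat_lit 456) (nat_lit 1978563318) (nat_lit 0) (nat_lit 2574608944) (nat_lit 113) (nat_lit 5) (nat_lit 119) (nat_lit 4) (nat_lit 113) (nat_lit 4) (nat_lit 287) (nat_lit 247) (nat_lit 246))) (XT.nd (nat_lit 78) (nat_lit 608) (nat_lit 0) (XT.lf (nat_lit 0) (nat_lit 1542558395)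 (nat_lit 456) (nat_lit 151569106) (nat_lit 76) (nat_lit 7312207181) (nat_lit 107) (nat_lit 5) (nat_lit 113) (nat_lit 5) (nat_lit 108) (nat_lit 4) (nat_lit 288) (nat_lit 247) (nat_lit 245)) (XT.lf (nat_lit 0) (nat_lit 1665730127) (nat_lit 304) (nat_lit 6108345493) (nat_lit 304) (nat_lit 1440240105) (nat_lit 99) (nat_lit 4) (nat_lit 103) (nat_lit 5) (nat_lit 103) (nat_lit 4) (nat_lit 289) (nat_lit 247) (nat_lit 244))))))) (XT.nd (nat_lit 1092) (nat_lit 1672) (nat_lit 0) (XT.nd (nat_lit 546) (nat_lit 1596) (nat_lit 0) (XT.nd (nat_lit 234) (nat_lit 1444) (nat_lit 0) (XT.nd (nat_lit 78) (nat_lit 608) (nat_lit 0) (XT.lf (nat_lit 0) (nat_lit 3443761352) (nat_lit 304) (nat_lit 1246936788) (nat_lit 380) (nat_lit 4743728461) (nat_lit 94) (nat_lit 5) (nat_lit 98) (nat_lit 5) (nat_lit 99) (nat_lit 4) (nat_lit 290) (nat_lit 247) (nat_lit 243)) (XT.nd (nat_lit 78) (nat_lit 228) (nat_lit 0) (XT.lf (nat_lit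 0) (nat_lit 1331908792) (nat_lit 380) (nat_lit 4501517941) (nat_lit 76) (nat_lit 3833648843) (nat_lit 89) (nat_lit 5) (nat_lit 94) (nat_lit 5) (nat_lit 90) (nat_lit 4) (nat_lit 291) (nat_lit 247) (nat_lit 242)) (XT.lf (nat_lit 0) (nat_lit 6822646781) (nat_lit 228) (nat_lit 699432954) (nat_lit 304) (nat_lit 2390765828) (nat_lit 86) (nat_lit 5) (nat_lit 89) (nat_lit 5) (nat_lit 90) (nat_lit 4) (nat_lit 292) (nat_lit 247) (nat_lit 241)))) (XT.nd (nat_lit 156) (nat_lit 836) (nat_lit 0) (XT.nd (nat_lit 78) (nat_lit 228) (nat_lit 0) (XT.lf (nat_lit 0) (nat_lit 3722117122) (nat_lit 380) (nat_lit 1793539255) (nat_lit 76) (nat_lit 4655896053) (nat_lit 81) (nat_lit 5) (nat_lit 86) (nat_lit 5) (nat_lit 82) (nat_lit 4) (nat_lit 293) (nat_lit 247) (nat_lit 240)) (XT.lf (nat_lit 0) (nat_lit 9867612613) (nat_lit 228) (nat_lit 137641088) (nat_lit 304) (nat_lit 439953056) (nat_lit 78) (nat_lit 5) (nat_lit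 81) (nat_lit 5) (nat_lit 82) (nat_lit 4) (nat_lit 294) (nat_lit 247) (nat_lit 239))) (XT.nd (nat_lit 78) (nat_lit 304) (nat_lit 0) (XT.lf (nat_lit 0) (nat_lit 471921605) (nat_lit 228) (nat_lit 5253206386) (nat_lit 304) (nat_lit 5006765967) (nat_lit 71) (nat_lit 5) (nat_lit 74) (nat_lit 5) (nat_lit 75) (nat_lit 4) (nat_lit 295) (nat_lit 247) (nat_lit 238)) (XT.lf (nat_lit 0) (nat_lit 1058864082) (nat_lit 304) (nat_lit 9610834180) (nat_lit 76) (nat_lit 365130436) (nat_lit 67) (nat_lit 5) (nat_lit 71) (nat_lit 5) (nat_lit 68) (nat_lit 4) (nat_lit 296) (nat_lit 247) (nat_lit 237))))) (XT.nd (nat_lit 234) (nat_lit 912) (nat_lit 0) (XT.nd (nat_lit 78) (nat_lit 456) (nat_lit 0) (XT.lf (nat_lit 0) (nat_lit 2161952313) (nat_lit 228) (nat_lit 5134972157) (nat_lit 304) (nat_lit 4055434800) (nat_lit 64) (nat_lit 5) (nat_lit 67) (nat_lit 5) (nat_lit 68) (nat_lit 4) (nat_lit 297) (nat_lit 247) (nat_lit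 236)) (XT.nd (nat_lit 78) (nat_lit 152) (nat_lit 0) (XT.lf (nat_lit 0) (nat_lit 2048032613) (nat_lit 304) (nat_lit 8948199460) (nat_lit 76) (nat_lit 691146925) (nat_lit 60) (nat_lit 5) (nat_lit 64) (nat_lit 5) (nat_lit 61) (nat_lit 4) (nat_lit 298) (nat_lit 247) (nat_lit 235)) (XT.lf (nat_lit 0) (nat_lit 3064504688) (nat_lit 152) (nat_lit 5287403453) (nat_lit 228) (nat_lit 3686766925) (nat_lit 58) (nat_lit 5) (nat_lit 60) (nat_lit 5) (nat_lit 61) (nat_lit 4) (nat_lit 299) (nat_lit 247) (nat_lit 234)))) (XT.nd (nat_lit 156) (nat_lit 456) (nat_lit 0) (XT.nd (nat_lit 78) (nat_lit 152) (nat_lit 0) (XT.lf (nat_lit 0) (nat_lit 2450024160) (nat_lit 304) (nat_lit 9236830477) (nat_lit 76) (nat_lit 721939307) (nat_lit 54) (nat_lit 5) (nat_lit 58) (nat_lit 5) (nat_lit 55) (nat_lit 4) (nat_lit 300) (nat_lit 247) (nat_lit 233)) (XT.lf (nat_lit 0) (nat_lit 2972026413) (nat_lit 152) (nat_lit 5832381845)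 (nat_lit 228) (nat_lit 3992396229) (nat_lit 52) (nat_lit 5) (nat_lit 54) (nat_lit 5) (nat_lit 55) (nat_lit 4) (nat_lit 301) (nat_lit 247) (nat_lit 232))) (XT.nd (nat_lit 78) (nat_lit 152) (nat_lit 0) (XT.lf (nat_lit 0) (nat_lit 2166520385) (nat_lit 304) (nat_lit 10707383219) (nat_lit 76) (nat_lit 331583718) (nat_lit 48) (nat_lit 5) (nat_lit 52) (nat_lit 5) (nat_lit 49) (nat_lit 4) (nat_lit 302) (nat_lit 247) (nat_lit 231)) (XT.lf (nat_lit 0) (nat_lit 1639662102) (nat_lit 152) (nat_lit 6908703126) (nat_lit 228) (nat_lit 5085206670) (nat_lit 46) (nat_lit 5) (nat_lit 48) (nat_lit 5) (nat_lit 49) (nat_lit 4) (nat_lit 303) (nat_lit 247) (nat_lit 230)))))) (XT.nd (nat_lit 546) (nat_lit 608) (nat_lit 0) (XT.nd (nat_lit 234) (nat_lit 684) (nat_lit 0) (XT.nd (nat_lit 78) (nat_lit 152) (nat_lit 0) (XT.lf (nat_lit 0) (nat_lit 446541565) (nat_lit 152) (nat_lit 636506462) (nat_lit 228) (nat_lit 13001563409)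 (nat_lit 43) (nat_lit 5) (nat_lit 45) (nat_lit 5) (nat_lit 46) (nat_lit 5) (nat_lit 304) (nat_lit 247) (nat_lit 229)) (XT.nd (nat_lit 78) (nat_lit 152) (nat_lit 0) (XT.lf (nat_lit 0) (nat_lit 7465815702) (nat_lit 228) (nat_lit 1198011851) (nat_lit 76) (nat_lit 5892597283) (nat_lit 43) (nat_lit 5) (nat_lit 46) (nat_lit 5) (nat_lit 44) (nat_lit 4) (nat_lit 305) (nat_lit 247) (nat_lit 228)) (XT.lf (nat_lit 0) (nat_lit 11808596858) (nat_lit 152) (nat_lit 2315646490) (nat_lit 228) (nat_lit 928957003) (nat_lit 41) (nat_lit 5) (nat_lit 43) (nat_lit 5) (nat_lit 44) (nat_lit 4) (nat_lit 306) (nat_lit 247) (nat_lit 227)))) (XT.nd (nat_lit 156) (nat_lit 304) (nat_lit 0) (XT.nd (nat_lit 78) (nat_lit 152) (nat_lit 0) (XT.lf (nat_lit 0) (nat_lit 5421532921) (nat_lit 228) (nat_lit 5838298716) (nat_lit 76) (nat_lit 4313780929) (nat_lit 38) (nat_lit 5) (nat_lit 41) (nat_lit 5) (nat_lit 39) (nat_lit 4) (nat_lit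 307) (nat_lit 247) (nat_lit 226)) (XT.lf (nat_lit 0) (nat_lit 7148966546) (nat_lit 152) (nat_lit 4891471019) (nat_lit 228) (nat_lit 4080287907) (nat_lit 36) (nat_lit 5) (nat_lit 38) (nat_lit 5) (nat_lit 39) (nat_lit 4) (nat_lit 308) (nat_lit 247) (nat_lit 225))) (XT.nd (nat_lit 78) (nat_lit 76) (nat_lit 0) (XT.lf (nat_lit 0) (nat_lit 2214309266) (nat_lit 228) (nat_lit 12709657658) (nat_lit 76) (nat_lit 1771699835) (nat_lit 33) (nat_lit 5) (nat_lit 36) (nat_lit 5) (nat_lit 34) (nat_lit 4) (nat_lit 309) (nat_lit 247) (nat_lit 224)) (XT.lf (nat_lit 0) (nat_lit 132086932) (nat_lit 76) (nat_lit 8603028682) (nat_lit 152) (nat_lit 8563203578) (nat_lit 32) (nat_lit 5) (nat_lit 33) (nat_lit 5) (nat_lit 34) (nat_lit 4) (nat_lit 310) (nat_lit 247) (nat_lit 223))))) (XT.nd (nat_lit 234) (nat_lit 304) (nat_lit 0) (XT.nd (nat_lit 78) (nat_lit 304) (nat_lit 0) (XT.lf (nat_lit 0) (nat_lit 13627425050) (nat_lit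 76) (nat_lit 1941186844) (nat_lit 152) (nat_lit 2362942416) (nat_lit 32) (nat_lit 5) (nat_lit 33) (nat_lit 5) (nat_lit 34) (nat_lit 4) (nat_lit 311) (nat_lit 247) (nat_lit 222)) (XT.nd (nat_lit 78) (nat_lit 76) (nat_lit 0) (XT.lf (nat_lit 0) (nat_lit 4063913583) (nat_lit 228) (nat_lit 9551789666) (nat_lit 76) (nat_lit 4979672417) (nat_lit 29) (nat_lit 5) (nat_lit 32) (nat_lit 5) (nat_lit 30) (nat_lit 4) (nat_lit 312) (nat_lit 247) (nat_lit 221)) (XT.lf (nat_lit 0) (nat_lit 3643936291) (nat_lit 76) (nat_lit 7083729194) (nat_lit 152) (nat_lit 8565131704) (nat_lit 28) (nat_lit 5) (nat_lit 29) (nat_lit 5) (nat_lit 30) (nat_lit 4) (nat_lit 313) (nat_lit 247) (nat_lit 220)))) (XT.nd (nat_lit 156) (nat_lit 76) (nat_lit 0) (XT.nd (nat_lit 78) (nat_lit 228) (nat_lit 0) (XT.lf (nat_lit 0) (nat_lit 17465096556) (nat_lit 76) (nat_lit 226635869) (nat_lit 152) (nat_lit 2334385098) (nat_lit 28) (nat_lit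 5) (nat_lit 29) (nat_lit 5) (nat_lit 30) (nat_lit 4) (nat_lit 314) (nat_lit 247) (nat_lit 219)) (XT.lf (nat_lit 0) (nat_lit 4174111902) (nat_lit 228) (nat_lit 9730410354) (nat_lit 76) (nat_lit 6888956846) (nat_lit 25) (nat_lit 5) (nat_lit 28) (nat_lit 5) (nat_lit 26) (nat_lit 4) (nat_lit 315) (nat_lit 247) (nat_lit 218))) (XT.nd (nat_lit 78) (nat_lit 0) (nat_lit 0) (XT.lf (nat_lit 0) (nat_lit 3646831816) (nat_lit 76) (nat_lit 7254089631) (nat_lit 152) (nat_lit 10699395537) (nat_lit 24) (nat_lit 5) (nat_lit 25) (nat_lit 5) (nat_lit 26) (nat_lit 4) (nat_lit 316) (nat_lit 247) (nat_lit 217)) (XT.lf (nat_lit 0) (nat_lit 17680943701) (nat_lit 76) (nat_lit 263842951) (nat_lit 152) (nat_lit 4503323505) (nat_lit 24) (nat_lit 5) (nat_lit 25) (nat_lit 5) (nat_lit 26) (nat_lit 4) (nat_lit 317) (nat_lit 247) (nat_lit 216))))))))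
noncomputable def xc29 : XT := (XT.nd (nat_lit 2184) (nat_lit 228) (nat_lit 0) (XT.nd (nat_lit 1092) (nat_lit 456) (nat_lit 0) (XT.nd (nat_lit 546) (nat_lit 304) (nat_lit 0) (XT.nd (nat_lit 234) (nat_lit 228) (nat_lit 0) (XT.nd (nat_lit 78) (nat_lit 76) (nat_lit 0) (XT.lf (nat_lit 0) (nat_lit 2003515072) (nat_lit 228) (nat_lit 14378778732) (nat_lit 76) (nat_lit 6954252722) (nat_lit 21) (nat_lit 5) (nat_lit 24) (nat_lit 5) (nat_lit 22) (nat_lit 4) (nat_lit 318) (nat_lit 247) (nat_lit 215)) (XT.nd (nat_lit 78) (nat_lit 76) (nat_lit 0) (XT.lf (nat_lit 0) (nat_lit 8683397055) (nat_lit 228) (nat_lit 1051922564) (nat_lit 76) (nat_lit 14534553052) (nat_lit 21) (nat_lit 5) (nat_lit 24) (nat_lit 5) (nat_lit 22) (nat_lit 4) (nat_lit 319) (nat_lit 247) (nat_lit 214)) (XT.lf (nat_lit 0) (nat_lit 13000723025) (nat_lit 76) (nat_lit 2714614975) (nat_lit 152) (nat_lit 9534014406) (nat_lit 20) (nat_lit 5)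 (nat_lit 21) (nat_lit 5) (nat_lit 22) (nat_lit 4) (nat_lit 320) (nat_lit 247) (nat_lit 213)))) (XT.nd (nat_lit 156) (nat_lit 76) (nat_lit 0) (XT.nd (nat_lit 78) (nat_lit 76) (nat_lit 0) (XT.lf (nat_lit 0) (nat_lit 1289800490) (nat_lit 76) (nat_lit 21772730342) (nat_lit 76) (nat_lit 3216393492) (nat_lit 19) (nat_lit 4) (nat_lit 20) (nat_lit 5) (nat_lit 20) (nat_lit 4) (nat_lit 321) (nat_lit 247) (nat_lit 212)) (XT.lf (nat_lit 0) (nat_lit 3402880173) (nat_lit 152) (nat_lit 11844157078) (nat_lit 76) (nat_lit 12110404352) (nat_lit 18) (nat_lit 5) (nat_lit 20) (nat_lit 5) (nat_lit 19) (nat_lit 4) (nat_lit 322) (nat_lit 247) (nat_lit 211))) (XT.nd (nat_lit 78) (nat_lit 0) (nat_lit 0) (XT.lf (nat_lit 0) (nat_lit 1781712195) (nat_lit 76) (nat_lit 8425216637) (nat_lit 152) (nat_lit 18284415127) (nat_lit 17) (nat_lit 5) (nat_lit 18) (nat_lit 5) (nat_lit 19) (nat_lit 4) (nat_lit 323) (nat_lit 247) (nat_lit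 210)) (XT.lf (nat_lit 0) (nat_lit 16162854332) (nat_lit 76) (nat_lit 1215807434) (nat_lit 152) (nat_lit 12302478560) (nat_lit 17) (nat_lit 5) (nat_lit 18) (nat_lit 5) (nat_lit 19) (nat_lit 4) (nat_lit 324) (nat_lit 247) (nat_lit 209))))) (XT.nd (nat_lit 234) (nat_lit 152) (nat_lit 0) (XT.nd (nat_lit 78) (nat_lit 76) (nat_lit 0) (XT.lf (nat_lit 0) (nat_lit 106361348) (nat_lit 76) (nat_lit 24774051617) (nat_lit 76) (nat_lit 6050892833) (nat_lit 16) (nat_lit 4) (nat_lit 17) (nat_lit 5) (nat_lit 17) (nat_lit 4) (nat_lit 325) (nat_lit 247) (nat_lit 208)) (XT.nd (nat_lit 78) (nat_lit 0) (nat_lit 0) (XT.lf (nat_lit 0) (nat_lit 567259128) (nat_lit 152) (nat_lit 17727909848) (nat_lit 76) (nat_lit 13946763029) (nat_lit 15) (nat_lit 5) (nat_lit 17) (nat_lit 5) (nat_lit 16) (nat_lit 4) (nat_lit 326) (nat_lit 247) (nat_lit 207)) (XT.lf (nat_lit 0) (nat_lit 7307763727) (nat_lit 152) (nat_lit 4193530366)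 (nat_lit 76) (nat_lit 22117520113) (nat_lit 15) (nat_lit 5) (nat_lit 17) (nat_lit 5) (nat_lit 16) (nat_lit 4) (nat_lit 327) (nat_lit 247) (nat_lit 206)))) (XT.nd (nat_lit 156) (nat_lit 76) (nat_lit 0) (XT.nd (nat_lit 78) (nat_lit 0) (nat_lit 0) (XT.lf (nat_lit 0) (nat_lit 10064987755) (nat_lit 76) (nat_lit 4336507560) (nat_lit 152) (nat_lit 20662577798) (nat_lit 14) (nat_lit 5) (nat_lit 15) (nat_lit 5) (nat_lit 16) (nat_lit 4) (nat_lit 328) (nat_lit 247) (nat_lit 205)) (XT.lf (nat_lit 0) (nat_lit 21845395595) (nat_lit 152) (nat_lit 11633728339) (nat_lit 0) (nat_lit 3102624328) (nat_lit 14) (nat_lit 5) (nat_lit 16) (nat_lit 4) (nat_lit 14) (nat_lit 4) (nat_lit 329) (nat_lit 247) (nat_lit 204))) (XT.nd (nat_lit 78) (nat_lit 0) (nat_lit 0) (XT.lf (nat_lit 0) (nat_lit 2260781683) (nat_lit 76) (nat_lit 27391215636) (nat_lit 76) (nat_lit 8523611572) (nat_lit 13) (nat_lit 4) (nat_lit 14) (nat_lit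 5) (nat_lit 14) (nat_lit 4) (nat_lit 330) (nat_lit 247) (nat_lit 203)) (XT.lf (nat_lit 0) (nat_lit 16957664125) (nat_lit 76) (nat_lit 20938297994) (nat_lit 76) (nat_lit 1951805552) (nat_lit 13) (nat_lit 4) (nat_lit 14) (nat_lit 5) (nat_lit 14) (nat_lit 4) (nat_lit 331) (nat_lit 247) (nat_lit 202)))))) (XT.nd (nat_lit 546) (nat_lit 228) (nat_lit 0) (XT.nd (nat_lit 234) (nat_lit 76) (nat_lit 0) (XT.nd (nat_lit 78) (nat_lit 76) (nat_lit 0) (XT.lf (nat_lit 0) (nat_lit 4782062288) (nat_lit 152) (nat_lit 9392133022) (nat_lit 76) (nat_lit 27430025818) (nat_lit 12) (nat_lit 5) (nat_lit 14) (nat_lit 5) (nat_lit 13) (nat_lit 4) (nat_lit 332) (nat_lit 247) (nat_lit 201)) (XT.nd (nat_lit 78) (nat_lit 0) (nat_lit 0) (XT.lf (nat_lit 0) (nat_lit 4729107968) (nat_lit 76) (nat_lit 7062351489) (nat_lit 152) (nat_lit 31657096176) (nat_lit 11) (nat_lit 5) (nat_lit 12) (nat_lit 5) (nat_lit 13) (nat_lit 4) (nat_lit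 333) (nat_lit 247) (nat_lit 200)) (XT.lf (nat_lit 0) (nat_lit 19187703942) (nat_lit 152) (nat_lit 25756441536) (nat_lit 0) (nat_lit 439883571) (nat_lit 11) (nat_lit 5) (nat_lit 13) (nat_lit 4) (nat_lit 11) (nat_lit 4) (nat_lit 334) (nat_lit 247) (nat_lit 199)))) (XT.nd (nat_lit 156) (nat_lit 0) (nat_lit 0) (XT.nd (nat_lit 78) (nat_lit 76) (nat_lit 0) (XT.lf (nat_lit 0) (nat_lit 26962987961) (nat_lit 152) (nat_lit 12332817568) (nat_lit 0) (nat_lit 8120206655) (nat_lit 11) (nat_lit 5) (nat_lit 13) (nat_lit 4) (nat_lit 11) (nat_lit 4) (nat_lit 335) (nat_lit 247) (nat_lit 198)) (XT.lf (nat_lit 0) (nat_lit 1684136458) (nat_lit 76) (nat_lit 33399988943) (nat_lit 76) (nat_lit 14466768653) (nat_lit 10) (nat_lit 4) (nat_lit 11) (nat_lit 5) (nat_lit 11) (nat_lit 4) (nat_lit 336) (nat_lit 247) (nat_lit 197))) (XT.nd (nat_lit 78) (nat_lit 0) (nat_lit 0) (XT.lf (nat_lit 0) (nat_lit 16552116708) (nat_lit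 76) (nat_lit 27128839275) (nat_lit 76) (nat_lit 8109486618) (nat_lit 10) (nat_lit 4) (nat_lit 11) (nat_lit 5) (nat_lit 11) (nat_lit 4) (nat_lit 337) (nat_lit 247) (nat_lit 196)) (XT.lf (nat_lit 0) (nat_lit 32061075882) (nat_lit 76) (nat_lit 20591962491) (nat_lit 76) (nat_lit 1490579008) (nat_lit 10) (nat_lit 4) (nat_lit 11) (nat_lit 5) (nat_lit 11) (nat_lit 4) (nat_lit 338) (nat_lit 247) (nat_lit 195))))) (XT.nd (nat_lit 234) (nat_lit 76) (nat_lit 0) (XT.nd (nat_lit 78) (nat_lit 76) (nat_lit 0) (XT.lf (nat_lit 0) (nat_lit 5300228538) (nat_lit 152) (nat_lit 8420044144) (nat_lit 76) (nat_lit 42894189620) (nat_lit 9) (nat_lit 5) (nat_lit 11) (nat_lit 5) (nat_lit 10) (nat_lit 4) (nat_lit 339) (nat_lit 247) (nat_lit 194)) (XT.nd (nat_lit 78) (nat_lit 0) (nat_lit 0) (XT.lf (nat_lit 0) (nat_lit 5932392430) (nat_lit 76) (nat_lit 6474654311) (nat_lit 152) (nat_lit 46801150839) (nat_lit 8) (nat_lit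 5) (nat_lit 9) (nat_lit 5) (nat_lit 10) (nat_lit 4) (nat_lit 340) (nat_lit 247) (nat_lit 193)) (XT.lf (nat_lit 0) (nat_lit 19918714190) (nat_lit 152) (nat_lit 40854631591) (nat_lit 0) (nat_lit 1156797911) (nat_lit 8) (nat_lit 5) (nat_lit 10) (nat_lit 4) (nat_lit 8) (nat_lit 4) (nat_lit 341) (nat_lit 247) (nat_lit 192)))) (XT.nd (nat_lit 156) (nat_lit 76) (nat_lit 0) (XT.nd (nat_lit 78) (nat_lit 0) (nat_lit 0) (XT.lf (nat_lit 0) (nat_lit 27824724579) (nat_lit 152) (nat_lit 27965621646) (nat_lit 0) (nat_lit 8997286977) (nat_lit 8) (nat_lit 5) (nat_lit 10) (nat_lit 4) (nat_lit 8) (nat_lit 4) (nat_lit 342) (nat_lit 247) (nat_lit 191)) (XT.lf (nat_lit 0) (nat_lit 36081663406) (nat_lit 152) (nat_lit 14515848857) (nat_lit 0) (nat_lit 17191824543) (nat_lit 8) (nat_lit 5) (nat_lit 10) (nat_lit 4) (nat_lit 8) (nat_lit 4) (nat_lit 343) (nat_lit 247) (nat_lit 190))) (XT.nd (nat_lit 78) (nat_lit 76) (nat_lit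 0) (XT.lf (nat_lit 0) (nat_lit 44709190047) (nat_lit 152) (nat_lit 473289957) (nat_lit 0) (nat_lit 25759921412) (nat_lit 8) (nat_lit 5) (nat_lit 10) (nat_lit 4) (nat_lit 8) (nat_lit 4) (nat_lit 344) (nat_lit 247) (nat_lit 189)) (XT.lf (nat_lit 0) (nat_lit 14478007798) (nat_lit 76) (nat_lit 39389009902) (nat_lit 76) (nat_lit 20383141485) (nat_lit 7) (nat_lit 4) (nat_lit 8) (nat_lit 5) (nat_lit 8) (nat_lit 4) (nat_lit 345) (nat_lit 247) (nat_lit 188))))))) (XT.nd (nat_lit 1092) (nat_lit 0) (nat_lit 0) (XT.nd (nat_lit 546) (nat_lit 76) (nat_lit 0) (XT.nd (nat_lit 234) (nat_lit 152) (nat_lit 0) (XT.nd (nat_lit 78) (nat_lit 0) (nat_lit 0) (XT.lf (nat_lit 0) (nat_lit 30113029505) (nat_lit 76) (nat_lit 33335540311) (nat_lit 76) (nat_lit 14275767339) (nat_lit 7) (nat_lit 4) (nat_lit 8) (nat_lit 5) (nat_lit 8) (nat_lit 4) (nat_lit 346) (nat_lit 247) (nat_lit 187)) (XT.nd (nat_lit 78) (nat_lit 0) (nat_lit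 0) (XT.lf (nat_lit 0) (nat_lit 46459582006) (nat_lit 76) (nat_lit 27012437509) (nat_lit 76) (nat_lit 7901326865) (nat_lit 7) (nat_lit 4) (nat_lit 8) (nat_lit 5) (nat_lit 8) (nat_lit 4) (nat_lit 347) (nat_lit 247) (nat_lit 186)) (XT.lf (nat_lit 0) (nat_lit 63556585664) (nat_lit 76) (nat_lit 20404646489) (nat_lit 76) (nat_lit 1244642825) (nat_lit 7) (nat_lit 4) (nat_lit 8) (nat_lit 5) (nat_lit 8) (nat_lit 4) (nat_lit 348) (nat_lit 247) (nat_lit 185)))) (XT.nd (nat_lit 156) (nat_lit 0) (nat_lit 0) (XT.nd (nat_lit 78) (nat_lit 76) (nat_lit 0) (XT.lf (nat_lit 0) (nat_lit 5598708748) (nat_lit 152) (nat_lit 7841189686) (nat_lit 76) (nat_lit 75789502903) (nat_lit 6) (nat_lit 5) (nat_lit 8) (nat_lit 5) (nat_lit 7) (nat_lit 4) (nat_lit 349) (nat_lit 247) (nat_lit 184)) (XT.lf (nat_lit 0) (nat_lit 6714465437) (nat_lit 76) (nat_lit 6076362786) (nat_lit 152) (nat_lit 80661941687) (nat_lit 5) (nat_lit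 5) (nat_lit 6) (nat_lit 5) (nat_lit 7) (nat_lit 4) (nat_lit 350) (nat_lit 247) (nat_lit 183))) (XT.nd (nat_lit 78) (nat_lit 0) (nat_lit 0) (XT.lf (nat_lit 0) (nat_lit 20408244244) (nat_lit 152) (nat_lit 75800068296) (nat_lit 0) (nat_lit 1677029209) (nat_lit 5) (nat_lit 5) (nat_lit 7) (nat_lit 4) (nat_lit 5) (nat_lit 4) (nat_lit 351) (nat_lit 247) (nat_lit 182)) (XT.lf (nat_lit 0) (nat_lit 28437633669) (nat_lit 152) (nat_lit 64433614917) (nat_lit 0) (nat_lit 9667365810) (nat_lit 5) (nat_lit 5) (nat_lit 7) (nat_lit 4) (nat_lit 5) (nat_lit 4) (nat_lit 352) (nat_lit 247) (nat_lit 181))))) (XT.nd (nat_lit 234) (nat_lit 76) (nat_lit 0) (XT.nd (nat_lit 78) (nat_lit 0) (nat_lit 0) (XT.lf (nat_lit 0) (nat_lit 36839704374) (nat_lit 152) (nat_lit 52553471635) (nat_lit 0) (nat_lit 18032243349) (nat_lit 5) (nat_lit 5) (nat_lit 7) (nat_lit 4) (nat_lit 5) (nat_lit 4) (nat_lit 353) (nat_lit 247) (nat_lit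 180)) (XT.nd (nat_lit 78) (nat_lit 0) (nat_lit 0) (XT.lf (nat_lit 0) (nat_lit 45634461291) (nat_lit 152) (nat_lit 40131352395) (nat_lit 0) (nat_lit 26791578203) (nat_lit 5) (nat_lit 5) (nat_lit 7) (nat_lit 4) (nat_lit 5) (nat_lit 4) (nat_lit 354) (nat_lit 247) (nat_lit 179)) (XT.lf (nat_lit 0) (nat_lit 54842844316) (nat_lit 152) (nat_lit 27137680723) (nat_lit 0) (nat_lit 35966225931) (nat_lit 5) (nat_lit 5) (nat_lit 7) (nat_lit 4) (nat_lit 5) (nat_lit 4) (nat_lit 355) (nat_lit 247) (nat_lit 178)))) (XT.nd (nat_lit 156) (nat_lit 0) (nat_lit 0) (XT.nd (nat_lit 78) (nat_lit 76) (nat_lit 0) (XT.lf (nat_lit 0) (nat_lit 64486778172) (nat_lit 152) (nat_lit 13541519305) (nat_lit 0) (nat_lit 45578030931) (nat_lit 5) (nat_lit 5) (nat_lit 7) (nat_lit 4) (nat_lit 5) (nat_lit 4) (nat_lit 356) (nat_lit 247) (nat_lit 177)) (XT.lf (nat_lit 0) (nat_lit 703226145) (nat_lit 76) (nat_lit 73892758299) (nat_lit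 76) (nat_lit 54953412149) (nat_lit 4) (nat_lit 4) (nat_lit 5) (nat_lit 5) (nat_lit 5) (nat_lit 4) (nat_lit 357) (nat_lit 247) (nat_lit 176))) (XT.nd (nat_lit 78) (nat_lit 0) (nat_lit 0) (XT.lf (nat_lit 0) (nat_lit 15899528665) (nat_lit 76) (nat_lit 69427544389) (nat_lit 76) (nat_lit 50459056420) (nat_lit 4) (nat_lit 4) (nat_lit 5) (nat_lit 5) (nat_lit 5) (nat_lit 4) (nat_lit 358) (nat_lit 247) (nat_lit 175)) (XT.lf (nat_lit 0) (nat_lit 31814067141) (nat_lit 76) (nat_lit 64758767079) (nat_lit 76) (nat_lit 45762524997) (nat_lit 4) (nat_lit 4) (nat_lit 5) (nat_lit 5) (nat_lit 5) (nat_lit 4) (nat_lit 359) (nat_lit 247) (nat_lit 174)))))) (XT.nd (nat_lit 34788) (nat_lit 0) (nat_lit 6232) (XT.nd (nat_lit 234) (nat_lit 0) (nat_lit 0) (XT.nd (nat_lit 78) (nat_lit 0) (nat_lit 0) (XT.lf (nat_lit 0) (nat_lit 48484733329) (nat_lit 76) (nat_lit 59875310233) (nat_lit 76) (nat_lit 40852635663) (nat_lit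 4) (nat_lit 4) (nat_lit 5) (nat_lit 5) (nat_lit 5) (nat_lit 4) (nat_lit 360) (nat_lit 247) (nat_lit 173)) (XT.nd (nat_lit 78) (nat_lit 0) (nat_lit 0) (XT.lf (nat_lit 0) (nat_lit 65951219294) (nat_lit 76) (nat_lit 54765546572) (nat_lit 76) (nat_lit 35717698203) (nat_lit 4) (nat_lit 4) (nat_lit 5) (nat_lit 5) (nat_lit 5) (nat_lit 4) (nat_lit 361) (nat_lit 247) (nat_lit 172)) (XT.lf (nat_lit 0) (nat_lit 84255111905) (nat_lit 76) (nat_lit 49417309993) (nat_lit 76) (nat_lit 30345486578) (nat_lit 4) (nat_lit 4) (nat_lit 5) (nat_lit 5) (nat_lit 5) (nat_lit 4) (nat_lit 362) (nat_lit 247) (nat_lit 171)))) (XT.nd (nat_lit 156) (nat_lit 0) (nat_lit 0) (XT.nd (nat_lit 78) (nat_lit 0) (nat_lit 0) (XT.lf (nat_lit 0) (nat_lit 103439991861) (nat_lit 76) (nat_lit 43817866599) (nat_lit 76) (nat_lit 24723209806) (nat_lit 4) (nat_lit 4) (nat_lit 5) (nat_lit 5) (nat_lit 5) (nat_lit 4) (nat_lit 363) (nat_lit 247)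 (nat_lit 170)) (XT.lf (nat_lit 0) (nat_lit 123551537445) (nat_lit 76) (nat_lit 37953884382) (nat_lit 76) (nat_lit 18837481515) (nat_lit 4) (nat_lit 4) (nat_lit 5) (nat_lit 5) (nat_lit 5) (nat_lit 4) (nat_lit 364) (nat_lit 247) (nat_lit 169))) (XT.nd (nat_lit 34320) (nat_lit 0) (nat_lit 9576) (XT.lf (nat_lit 0) (nat_lit 144637633292) (nat_lit 76) (nat_lit 31811401479) (nat_lit 76) (nat_lit 12674288066) (nat_lit 4) (nat_lit 4) (nat_lit 5) (nat_lit 5) (nat_lit 5) (nat_lit 4) (nat_lit 365) (nat_lit 247) (nat_lit 168)) (XT.lf (nat_lit 0) (nat_lit 460830682) (nat_lit 456) (nat_lit 1840059857) (nat_lit 456) (nat_lit 1840059857) (nat_lit 130) (nat_lit 4) (nat_lit 136) (nat_lit 5) (nat_lit 136) (nat_lit 4) (nat_lit 284) (nat_lit 248) (nat_lit 248))))) (XT.nd (nat_lit 312) (nat_lit 1596) (nat_lit 0) (XT.nd (nat_lit 156) (nat_lit 912) (nat_lit 0) (XT.nd (nat_lit 78) (nat_lit 380) (nat_lit 0) (XT.lf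 (nat_lit 0) (nat_lit 2300961432) (nat_lit 456) (nat_lit 5666320618) (nat_lit 0) (nat_lit 482400305) (nat_lit 124) (nat_lit 5) (nat_lit 130) (nat_lit 4) (nat_lit 124) (nat_lit 4) (nat_lit 285) (nat_lit 248) (nat_lit 247)) (XT.lf (nat_lit 0) (nat_lit 4638526580) (nat_lit 380) (nat_lit 3769943785) (nat_lit 380) (nat_lit 219419679) (nat_lit 119) (nat_lit 4) (nat_lit 124) (nat_lit 5) (nat_lit 124) (nat_lit 4) (nat_lit 286) (nat_lit 248) (nat_lit 246))) (XT.nd (nat_lit 78) (nat_lit 456) (nat_lit 0) (XT.lf (nat_lit 0) (nat_lit 5768389792) (nat_lit 456) (nat_lit 2328891949) (nat_lit 0) (nat_lit 719833815) (nat_lit 113) (nat_lit 5) (nat_lit 119) (nat_lit 4) (nat_lit 113) (nat_lit 4) (nat_lit 287) (nat_lit 248) (nat_lit 245)) (XT.lf (nat_lit 0) (nat_lit 2893612565) (nat_lit 456) (nat_lit 699708368) (nat_lit 76) (nat_lit 5424215725) (nat_lit 107) (nat_lit 5) (nat_lit 113) (nat_lit 5) (nat_lit 108) (nat_lit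 4) (nat_lit 288) (nat_lit 248) (nat_lit 244)))) (XT.nd (nat_lit 156) (nat_lit 608) (nat_lit 0) (XT.nd (nat_lit 78) (nat_lit 380) (nat_lit 0) (XT.lf (nat_lit 0) (nat_lit 932528728) (nat_lit 304) (nat_lit 8045016932) (nat_lit 304) (nat_lit 252492780) (nat_lit 99) (nat_lit 4) (nat_lit 103) (nat_lit 5) (nat_lit 103) (nat_lit 4) (nat_lit 289) (nat_lit 248) (nat_lit 243)) (XT.lf (nat_lit 0) (nat_lit 2500649508) (nat_lit 304) (nat_lit 3231502886) (nat_lit 380) (nat_lit 3721434067) (nat_lit 94) (nat_lit 5) (nat_lit 98) (nat_lit 5) (nat_lit 99) (nat_lit 4) (nat_lit 290) (nat_lit 248) (nat_lit 242))) (XT.nd (nat_lit 78) (nat_lit 228) (nat_lit 0) (XT.lf (nat_lit 0) (nat_lit 2192235178) (nat_lit 380) (nat_lit 5661178719) (nat_lit 76) (nat_lit 1836867007) (nat_lit 89) (nat_lit 5) (nat_lit 94) (nat_lit 5) (nat_lit 90) (nat_lit 4) (nat_lit 291) (nat_lit 248) (nat_lit 241)) (XT.lf (nat_lit 0) (nat_lit 5476587685)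 (nat_lit 228) (nat_lit 2784864953) (nat_lit 304) (nat_lit 1678302758) (nat_lit 86) (nat_lit 5) (nat_lit 89) (nat_lit 5) (nat_lit 90) (nat_lit 4) (nat_lit 292) (nat_lit 248) (nat_lit 240))))))))
noncomputable def xc30 : XT := (XT.nd (nat_lit 2184) (nat_lit 988) (nat_lit 0) (XT.nd (nat_lit 1092) (nat_lit 1596) (nat_lit 0) (XT.nd (nat_lit 546) (nat_lit 1292) (nat_lit 0) (XT.nd (nat_lit 234) (nat_lit 1216) (nat_lit 0) (XT.nd (nat_lit 78) (nat_lit 532) (nat_lit 0) (XT.lf (nat_lit 0) (nat_lit 4279503443) (nat_lit 380) (nat_lit 3371428418) (nat_lit 76) (nat_lit 2551630345) (nat_lit 81) (nat_lit 5) (nat_lit 86) (nat_lit 5) (nat_lit 82) (nat_lit 4) (nat_lit 293) (nat_lit 248) (nat_lit 239)) (XT.nd (nat_lit 78) (nat_lit 304) (nat_lit 0) (XT.lf (nat_lit 0) (nat_lit 8099397391) (nat_lit 228) (nat_lit 2343832295) (nat_lit 304) (nat_lit 36635995) (nat_lit 78) (nat_lit 5) (nat_lit 81) (nat_lit 5) (nat_lit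 82) (nat_lit 4) (nat_lit 294) (nat_lit 248) (nat_lit 238)) (XT.lf (nat_lit 0) (nat_lit 5974915236) (nat_lit 304) (nat_lit 1552766989) (nat_lit 76) (nat_lit 3243185941) (nat_lit 74) (nat_lit 5) (nat_lit 78) (nat_lit 5) (nat_lit 75) (nat_lit 4) (nat_lit 295) (nat_lit 248) (nat_lit 237)))) (XT.nd (nat_lit 156) (nat_lit 684) (nat_lit 0) (XT.nd (nat_lit 78) (nat_lit 228) (nat_lit 0) (XT.lf (nat_lit 0) (nat_lit 1133160711) (nat_lit 304) (nat_lit 853599908) (nat_lit 76) (nat_lit 9091010718) (nat_lit 70) (nat_lit 5) (nat_lit 74) (nat_lit 5) (nat_lit 71) (nat_lit 5) (nat_lit 296) (nat_lit 248) (nat_lit 236)) (XT.lf (nat_lit 0) (nat_lit 7225917248) (nat_lit 304) (nat_lit 353281136) (nat_lit 76) (nat_lit 3820517065) (nat_lit 67) (nat_lit 5) (nat_lit 71) (nat_lit 5) (nat_lit 68) (nat_lit 4) (nat_lit 297) (nat_lit 248) (nat_lit 235))) (XT.nd (nat_lit 78) (nat_lit 380) (nat_lit 0) (XT.lf (nat_lit 0) (nat_lit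 1800531084) (nat_lit 304) (nat_lit 27940748) (nat_lit 76) (nat_lit 9910291234) (nat_lit 63) (nat_lit 5) (nat_lit 67) (nat_lit 5) (nat_lit 64) (nat_lit 5) (nat_lit 298) (nat_lit 248) (nat_lit 234)) (XT.lf (nat_lit 0) (nat_lit 54412848) (nat_lit 152) (nat_lit 7910986350) (nat_lit 228) (nat_lit 4128878084) (nat_lit 58) (nat_lit 5) (nat_lit 60) (nat_lit 5) (nat_lit 61) (nat_lit 4) (nat_lit 299) (nat_lit 248) (nat_lit 233))))) (XT.nd (nat_lit 234) (nat_lit 760) (nat_lit 0) (XT.nd (nat_lit 78) (nat_lit 456) (nat_lit 0) (XT.lf (nat_lit 0) (nat_lit 1888745795) (nat_lit 228) (nat_lit 91636572) (nat_lit 76) (nat_lit 10488019433) (nat_lit 57) (nat_lit 5) (nat_lit 60) (nat_lit 5) (nat_lit 58) (nat_lit 5) (nat_lit 300) (nat_lit 248) (nat_lit 232)) (XT.nd (nat_lit 78) (nat_lit 228) (nat_lit 0) (XT.lf (nat_lit 0) (nat_lit 8106840412) (nat_lit 304) (nat_lit 537285100) (nat_lit 76) (nat_lit 4216417720) (nat_lit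 54) (nat_lit 5) (nat_lit 58) (nat_lit 5) (nat_lit 55) (nat_lit 4) (nat_lit 301) (nat_lit 248) (nat_lit 231)) (XT.lf (nat_lit 0) (nat_lit 1301619650) (nat_lit 228) (nat_lit 1266776622) (nat_lit 76) (nat_lit 10704641863) (nat_lit 51) (nat_lit 5) (nat_lit 54) (nat_lit 5) (nat_lit 52) (nat_lit 5) (nat_lit 302) (nat_lit 248) (nat_lit 230)))) (XT.nd (nat_lit 156) (nat_lit 380) (nat_lit 0) (XT.nd (nat_lit 78) (nat_lit 152) (nat_lit 0) (XT.lf (nat_lit 0) (nat_lit 7546855399) (nat_lit 304) (nat_lit 2366321110) (nat_lit 76) (nat_lit 3792081640) (nat_lit 48) (nat_lit 5) (nat_lit 52) (nat_lit 5) (nat_lit 49) (nat_lit 4) (nat_lit 303) (nat_lit 248) (nat_lit 229)) (XT.lf (nat_lit 0) (nat_lit 10343635358) (nat_lit 152) (nat_lit 3735988924) (nat_lit 228) (nat_lit 80279304) (nat_lit 46) (nat_lit 5) (nat_lit 48) (nat_lit 5) (nat_lit 49) (nat_lit 4) (nat_lit 304) (nat_lit 248) (nat_lit 228))) (XT.nd (nat_lit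 78) (nat_lit 152) (nat_lit 0) (XT.lf (nat_lit 0) (nat_lit 6156761668) (nat_lit 228) (nat_lit 5718571219) (nat_lit 76) (nat_lit 2760858774) (nat_lit 43) (nat_lit 5) (nat_lit 46) (nat_lit 5) (nat_lit 44) (nat_lit 4) (nat_lit 305) (nat_lit 248) (nat_lit 227)) (XT.lf (nat_lit 0) (nat_lit 7065657053) (nat_lit 152) (nat_lit 5628021856) (nat_lit 228) (nat_lit 2442964750) (nat_lit 41) (nat_lit 5) (nat_lit 43) (nat_lit 5) (nat_lit 44) (nat_lit 4) (nat_lit 306) (nat_lit 248) (nat_lit 226)))))) (XT.nd (nat_lit 546) (nat_lit 684) (nat_lit 0) (XT.nd (nat_lit 234) (nat_lit 456) (nat_lit 0) (XT.nd (nat_lit 78) (nat_lit 228) (nat_lit 0) (XT.lf (nat_lit 0) (nat_lit 3781393705) (nat_lit 228) (nat_lit 10930659742) (nat_lit 76) (nat_lit 950138111) (nat_lit 38) (nat_lit 5) (nat_lit 41) (nat_lit 5) (nat_lit 39) (nat_lit 4) (nat_lit 307) (nat_lit 248) (nat_lit 225)) (XT.nd (nat_lit 78) (nat_lit 76) (nat_lit 0)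 (XT.lf (nat_lit 0) (nat_lit 1827115873) (nat_lit 152) (nat_lit 8449598292) (nat_lit 228) (nat_lit 5936325273) (nat_lit 36) (nat_lit 5) (nat_lit 38) (nat_lit 5) (nat_lit 39) (nat_lit 4) (nat_lit 308) (nat_lit 248) (nat_lit 224)) (XT.lf (nat_lit 0) (nat_lit 267760632) (nat_lit 228) (nat_lit 1594029541) (nat_lit 76) (nat_lit 14930553048) (nat_lit 35) (nat_lit 5) (nat_lit 38) (nat_lit 5) (nat_lit 36) (nat_lit 5) (nat_lit 309) (nat_lit 248) (nat_lit 223)))) (XT.nd (nat_lit 156) (nat_lit 228) (nat_lit 0) (XT.nd (nat_lit 78) (nat_lit 76) (nat_lit 0) (XT.lf (nat_lit 0) (nat_lit 6684475389) (nat_lit 228) (nat_lit 5682874240) (nat_lit 76) (nat_lit 5030792945) (nat_lit 33) (nat_lit 5) (nat_lit 36) (nat_lit 5) (nat_lit 34) (nat_lit 4) (nat_lit 310) (nat_lit 248) (nat_lit 222)) (XT.lf (nat_lit 0) (nat_lit 7581320254) (nat_lit 76) (nat_lit 5813952015) (nat_lit 152) (nat_lit 4639809426) (nat_lit 32) (nat_lit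 5) (nat_lit 33) (nat_lit 5) (nat_lit 34) (nat_lit 4) (nat_lit 311) (nat_lit 248) (nat_lit 221))) (XT.nd (nat_lit 78) (nat_lit 0) (nat_lit 0) (XT.lf (nat_lit 0) (nat_lit 1667313606) (nat_lit 228) (nat_lit 15986929660) (nat_lit 76) (nat_lit 1050262555) (nat_lit 29) (nat_lit 5) (nat_lit 32) (nat_lit 5) (nat_lit 30) (nat_lit 4) (nat_lit 312) (nat_lit 248) (nat_lit 220)) (XT.lf (nat_lit 0) (nat_lit 8233134899) (nat_lit 228) (nat_lit 2974208059) (nat_lit 76) (nat_lit 8197542577) (nat_lit 29) (nat_lit 5) (nat_lit 32) (nat_lit 5) (nat_lit 30) (nat_lit 4) (nat_lit 313) (nat_lit 248) (nat_lit 219))))) (XT.nd (nat_lit 234) (nat_lit 380) (nat_lit 0) (XT.nd (nat_lit 78) (nat_lit 228) (nat_lit 0) (XT.lf (nat_lit 0) (nat_lit 10679069133) (nat_lit 76) (nat_lit 4428021513) (nat_lit 152) (nat_lit 5033837865) (nat_lit 28) (nat_lit 5) (nat_lit 29) (nat_lit 5) (nat_lit 30) (nat_lit 4) (nat_lit 314) (nat_lit 248)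 (nat_lit 218)) (XT.nd (nat_lit 78) (nat_lit 0) (nat_lit 0) (XT.lf (nat_lit 0) (nat_lit 1358501820) (nat_lit 228) (nat_lit 16926563168) (nat_lit 76) (nat_lit 2629086417) (nat_lit 25) (nat_lit 5) (nat_lit 28) (nat_lit 5) (nat_lit 26) (nat_lit 4) (nat_lit 315) (nat_lit 248) (nat_lit 217)) (XT.lf (nat_lit 0) (nat_lit 7992996798) (nat_lit 228) (nat_lit 3723472846) (nat_lit 76) (nat_lit 10007306083) (nat_lit 25) (nat_lit 5) (nat_lit 28) (nat_lit 5) (nat_lit 26) (nat_lit 4) (nat_lit 316) (nat_lit 248) (nat_lit 216)))) (XT.nd (nat_lit 156) (nat_lit 152) (nat_lit 0) (XT.nd (nat_lit 78) (nat_lit 152) (nat_lit 0) (XT.lf (nat_lit 0) (nat_lit 10136497762) (nat_lit 76) (nat_lit 4808365618) (nat_lit 152) (nat_lit 7629481671) (nat_lit 24) (nat_lit 5) (nat_lit 25) (nat_lit 5) (nat_lit 26) (nat_lit 4) (nat_lit 317) (nat_lit 248) (nat_lit 215)) (XT.lf (nat_lit 0) (nat_lit 1100824836) (nat_lit 152) (nat_lit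 21107112486) (nat_lit 152) (nat_lit 1260628712) (nat_lit 22) (nat_lit 4) (nat_lit 24) (nat_lit 5) (nat_lit 24) (nat_lit 4) (nat_lit 318) (nat_lit 248) (nat_lit 214))) (XT.nd (nat_lit 78) (nat_lit 76) (nat_lit 0) (XT.lf (nat_lit 0) (nat_lit 5391703389) (nat_lit 228) (nat_lit 9123520422) (nat_lit 76) (nat_lit 9888610642) (nat_lit 21) (nat_lit 5) (nat_lit 24) (nat_lit 5) (nat_lit 22) (nat_lit 4) (nat_lit 319) (nat_lit 248) (nat_lit 213)) (XT.lf (nat_lit 0) (nat_lit 4676447301) (nat_lit 76) (nat_lit 7617513015) (nat_lit 152) (nat_lit 13093257974) (nat_lit 20) (nat_lit 5) (nat_lit 21) (nat_lit 5) (nat_lit 22) (nat_lit 4) (nat_lit 320) (nat_lit 248) (nat_lit 212))))))) (XT.nd (nat_lit 1092) (nat_lit 304) (nat_lit 0) (XT.nd (nat_lit 546) (nat_lit 304) (nat_lit 0) (XT.nd (nat_lit 234) (nat_lit 228) (nat_lit 0) (XT.nd (nat_lit 78) (nat_lit 152) (nat_lit 0) (XT.lf (nat_lit 0) (nat_lit 19177376397)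 (nat_lit 76) (nat_lit 359178050) (nat_lit 152) (nat_lit 6883386655) (nat_lit 20) (nat_lit 5) (nat_lit 21) (nat_lit 5) (nat_lit 22) (nat_lit 4) (nat_lit 321) (nat_lit 248) (nat_lit 211)) (XT.nd (nat_lit 78) (nat_lit 76) (nat_lit 0) (XT.lf (nat_lit 0) (nat_lit 6788473394) (nat_lit 76) (nat_lit 20393131312) (nat_lit 76) (nat_lit 321510805) (nat_lit 19) (nat_lit 4) (nat_lit 20) (nat_lit 5) (nat_lit 20) (nat_lit 4) (nat_lit 322) (nat_lit 248) (nat_lit 210)) (XT.lf (nat_lit 0) (nat_lit 6426428564) (nat_lit 152) (nat_lit 7203446239) (nat_lit 76) (nat_lit 15009118664) (nat_lit 18) (nat_lit 5) (nat_lit 20) (nat_lit 5) (nat_lit 19) (nat_lit 4) (nat_lit 323) (nat_lit 248) (nat_lit 209)))) (XT.nd (nat_lit 156) (nat_lit 152) (nat_lit 0) (XT.nd (nat_lit 78) (nat_lit 0) (nat_lit 0) (XT.lf (nat_lit 0) (nat_lit 6953715935) (nat_lit 76) (nat_lit 6529947441) (nat_lit 152) (nat_lit 16348572249) (nat_lit 17)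 (nat_lit 5) (nat_lit 18) (nat_lit 5) (nat_lit 19) (nat_lit 4) (nat_lit 324) (nat_lit 248) (nat_lit 208)) (XT.lf (nat_lit 0) (nat_lit 20891186278) (nat_lit 152) (nat_lit 9282570989) (nat_lit 0) (nat_lit 911481008) (nat_lit 17) (nat_lit 5) (nat_lit 19) (nat_lit 4) (nat_lit 17) (nat_lit 4) (nat_lit 325) (nat_lit 248) (nat_lit 207))) (XT.nd (nat_lit 78) (nat_lit 76) (nat_lit 0) (XT.lf (nat_lit 0) (nat_lit 4870598171) (nat_lit 76) (nat_lit 23828974283) (nat_lit 76) (nat_lit 3700424160) (nat_lit 16) (nat_lit 4) (nat_lit 17) (nat_lit 5) (nat_lit 17) (nat_lit 4) (nat_lit 326) (nat_lit 248) (nat_lit 206)) (XT.lf (nat_lit 0) (nat_lit 3072996817) (nat_lit 152) (nat_lit 14032123586) (nat_lit 76) (nat_lit 16674013398) (nat_lit 15) (nat_lit 5) (nat_lit 17) (nat_lit 5) (nat_lit 16) (nat_lit 4) (nat_lit 327) (nat_lit 248) (nat_lit 205))))) (XT.nd (nat_lit 234) (nat_lit 228) (nat_lit 0) (XT.nd (nat_lit 78)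 (nat_lit 76) (nat_lit 0) (XT.lf (nat_lit 0) (nat_lit 10032556420) (nat_lit 152) (nat_lit 39224261) (nat_lit 76) (nat_lit 25156645850) (nat_lit 15) (nat_lit 5) (nat_lit 17) (nat_lit 5) (nat_lit 16) (nat_lit 4) (nat_lit 328) (nat_lit 248) (nat_lit 204)) (XT.nd (nat_lit 78) (nat_lit 0) (nat_lit 0) (XT.lf (nat_lit 0) (nat_lit 14807127080) (nat_lit 76) (nat_lit 2602241715) (nat_lit 152) (nat_lit 19338753773) (nat_lit 14) (nat_lit 5) (nat_lit 15) (nat_lit 5) (nat_lit 16) (nat_lit 4) (nat_lit 329) (nat_lit 248) (nat_lit 203)) (XT.lf (nat_lit 0) (nat_lit 25134383277) (nat_lit 152) (nat_lit 8130377560) (nat_lit 0) (nat_lit 5079677836) (nat_lit 14) (nat_lit 5) (nat_lit 16) (nat_lit 4) (nat_lit 14) (nat_lit 4) (nat_lit 330) (nat_lit 248) (nat_lit 202)))) (XT.nd (nat_lit 156) (nat_lit 76) (nat_lit 0) (XT.nd (nat_lit 78) (nat_lit 76) (nat_lit 0) (XT.lf (nat_lit 0) (nat_lit 6341761192) (nat_lit 76) (nat_lit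 26923090551) (nat_lit 76) (nat_lit 6755158084) (nat_lit 13) (nat_lit 4) (nat_lit 14) (nat_lit 5) (nat_lit 14) (nat_lit 4) (nat_lit 331) (nat_lit 248) (nat_lit 201)) (XT.lf (nat_lit 0) (nat_lit 39937027) (nat_lit 152) (nat_lit 20194695565) (nat_lit 76) (nat_lit 21544197899) (nat_lit 12) (nat_lit 5) (nat_lit 14) (nat_lit 5) (nat_lit 13) (nat_lit 4) (nat_lit 332) (nat_lit 248) (nat_lit 200))) (XT.nd (nat_lit 78) (nat_lit 76) (nat_lit 0) (XT.lf (nat_lit 0) (nat_lit 6972919463) (nat_lit 152) (nat_lit 6223441471) (nat_lit 76) (nat_lit 30429103093) (nat_lit 12) (nat_lit 5) (nat_lit 14) (nat_lit 5) (nat_lit 13) (nat_lit 4) (nat_lit 333) (nat_lit 248) (nat_lit 199)) (XT.lf (nat_lit 0) (nat_lit 8499570481) (nat_lit 76) (nat_lit 5774246378) (nat_lit 152) (nat_lit 31289987274) (nat_lit 11) (nat_lit 5) (nat_lit 12) (nat_lit 5) (nat_lit 13) (nat_lit 4) (nat_lit 334) (nat_lit 248) (nat_lit 198)))))) (XT.nd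 (nat_lit 546) (nat_lit 76) (nat_lit 0) (XT.nd (nat_lit 234) (nat_lit 152) (nat_lit 0) (XT.nd (nat_lit 78) (nat_lit 76) (nat_lit 0) (XT.lf (nat_lit 0) (nat_lit 21964766154) (nat_lit 152) (nat_lit 23639111271) (nat_lit 0) (nat_lit 1994445863) (nat_lit 11) (nat_lit 5) (nat_lit 13) (nat_lit 4) (nat_lit 11) (nat_lit 4) (nat_lit 335) (nat_lit 248) (nat_lit 197)) (XT.nd (nat_lit 78) (nat_lit 76) (nat_lit 0) (XT.lf (nat_lit 0) (nat_lit 30042258325) (nat_lit 152) (nat_lit 9706456216) (nat_lit 0) (nat_lit 9985805668) (nat_lit 11) (nat_lit 5) (nat_lit 13) (nat_lit 4) (nat_lit 11) (nat_lit 4) (nat_lit 336) (nat_lit 248) (nat_lit 196)) (XT.lf (nat_lit 0) (nat_lit 4918385503) (nat_lit 76) (nat_lit 33598912936) (nat_lit 76) (nat_lit 13460429453) (nat_lit 10) (nat_lit 4) (nat_lit 11) (nat_lit 5) (nat_lit 11) (nat_lit 4) (nat_lit 337) (nat_lit 248) (nat_lit 195)))) (XT.nd (nat_lit 156) (nat_lit 76) (nat_lit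 0) (XT.nd (nat_lit 78) (nat_lit 76) (nat_lit 0) (XT.lf (nat_lit 0) (nat_lit 20379762755) (nat_lit 76) (nat_lit 27084256996) (nat_lit 76) (nat_lit 6867648917) (nat_lit 10) (nat_lit 4) (nat_lit 11) (nat_lit 5) (nat_lit 11) (nat_lit 4) (nat_lit 338) (nat_lit 248) (nat_lit 194)) (XT.lf (nat_lit 0) (nat_lit 3687258) (nat_lit 152) (nat_lit 20283527320) (nat_lit 76) (nat_lit 36517586338) (nat_lit 9) (nat_lit 5) (nat_lit 11) (nat_lit 5) (nat_lit 10) (nat_lit 4) (nat_lit 339) (nat_lit 248) (nat_lit 193))) (XT.nd (nat_lit 78) (nat_lit 76) (nat_lit 0) (XT.lf (nat_lit 0) (nat_lit 7030244083) (nat_lit 152) (nat_lit 6090478276) (nat_lit 76) (nat_lit 46280226223) (nat_lit 9) (nat_lit 5) (nat_lit 11) (nat_lit 5) (nat_lit 10) (nat_lit 4) (nat_lit 340) (nat_lit 248) (nat_lit 192)) (XT.lf (nat_lit 0) (nat_lit 8900735645) (nat_lit 76) (nat_lit 5547587692) (nat_lit 152) (nat_lit 47677383335) (nat_lit 8) (nat_lit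 5) (nat_lit 9) (nat_lit 5) (nat_lit 10) (nat_lit 4) (nat_lit 341) (nat_lit 248) (nat_lit 191))))) (XT.nd (nat_lit 312) (nat_lit 0) (nat_lit 0) (XT.nd (nat_lit 156) (nat_lit 76) (nat_lit 0) (XT.nd (nat_lit 78) (nat_lit 0) (nat_lit 0) (XT.lf (nat_lit 0) (nat_lit 22279362002) (nat_lit 152) (nat_lit 40323457521) (nat_lit 0) (nat_lit 2382629935) (nat_lit 8) (nat_lit 5) (nat_lit 10) (nat_lit 4) (nat_lit 8) (nat_lit 4) (nat_lit 342) (nat_lit 248) (nat_lit 190)) (XT.lf (nat_lit 0) (nat_lit 30515686620) (nat_lit 152) (nat_lit 26912564014) (nat_lit 0) (nat_lit 10559524782) (nat_lit 8) (nat_lit 5) (nat_lit 10) (nat_lit 4) (nat_lit 8) (nat_lit 4) (nat_lit 343) (nat_lit 248) (nat_lit 189))) (XT.nd (nat_lit 78) (nat_lit 76) (nat_lit 0) (XT.lf (nat_lit 0) (nat_lit 39123580682) (nat_lit 152) (nat_lit 12907033001) (nat_lit 0) (nat_lit 19110819061) (nat_lit 8) (nat_lit 5) (nat_lit 10) (nat_lit 4) (nat_lit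 8) (nat_lit 4) (nat_lit 344) (nat_lit 248) (nat_lit 188)) (XT.lf (nat_lit 0) (nat_lit 1760842397) (nat_lit 76) (nat_lit 46379623071) (nat_lit 76) (nat_lit 26312956895) (nat_lit 7) (nat_lit 4) (nat_lit 8) (nat_lit 5) (nat_lit 8) (nat_lit 4) (nat_lit 345) (nat_lit 248) (nat_lit 187)))) (XT.nd (nat_lit 156) (nat_lit 0) (nat_lit 0) (XT.nd (nat_lit 78) (nat_lit 0) (nat_lit 0) (XT.lf (nat_lit 0) (nat_lit 17361610303) (nat_lit 76) (nat_lit 40342270684) (nat_lit 76) (nat_lit 20224266837) (nat_lit 7) (nat_lit 4) (nat_lit 8) (nat_lit 5) (nat_lit 8) (nat_lit 4) (nat_lit 346) (nat_lit 248) (nat_lit 186)) (XT.lf (nat_lit 0) (nat_lit 33675540137) (nat_lit 76) (nat_lit 34034517600) (nat_lit 76) (nat_lit 13867620732) (nat_lit 7) (nat_lit 4) (nat_lit 8) (nat_lit 5) (nat_lit 8) (nat_lit 4) (nat_lit 347) (nat_lit 248) (nat_lit 185))) (XT.nd (nat_lit 78) (nat_lit 0) (nat_lit 0) (XT.lf (nat_lit 0) (nat_lit 50741474589)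 (nat_lit 76) (nat_lit 27441345359) (nat_lit 76) (nat_lit 7227883710) (nat_lit 7) (nat_lit 4) (nat_lit 8) (nat_lit 5) (nat_lit 8) (nat_lit 4) (nat_lit 348) (nat_lit 248) (nat_lit 184)) (XT.lf (nat_lit 0) (nat_lit 68600046836) (nat_lit 76) (nat_lit 20547055932) (nat_lit 76) (nat_lit 289246872) (nat_lit 7) (nat_lit 4) (nat_lit 8) (nat_lit 5) (nat_lit 8) (nat_lit 4) (nat_lit 349) (nat_lit 248) (nat_lit 183))))))))
noncomputable def xc31 : XT := (XT.nd (nat_lit 36270) (nat_lit 0) (nat_lit 1216) (XT.nd (nat_lit 1092) (nat_lit 0) (nat_lit 0) (XT.nd (nat_lit 546) (nat_lit 76) (nat_lit 0) (XT.nd (nat_lit 234) (nat_lit 0) (nat_lit 0) (XT.nd (nat_lit 78) (nat_lit 76) (nat_lit 0) (XT.lf (nat_lit 0) (nat_lit 6828901809) (nat_lit 152) (nat_lit 6437374016) (nat_lit 76) (nat_lit 80395916961) (nat_lit 6) (nat_lit 5) (nat_lit 8) (nat_lit 5) (nat_lit 7) (nat_lit 4) (nat_lit 350) (nat_lit 248) (nat_lit 182))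 (XT.nd (nat_lit 78) (nat_lit 0) (nat_lit 0) (XT.lf (nat_lit 0) (nat_lit 8794585462) (nat_lit 76) (nat_lit 5557559641) (nat_lit 152) (nat_lit 83745447286) (nat_lit 5) (nat_lit 5) (nat_lit 6) (nat_lit 5) (nat_lit 7) (nat_lit 4) (nat_lit 351) (nat_lit 248) (nat_lit 181)) (XT.lf (nat_lit 0) (nat_lit 22314068845) (nat_lit 152) (nat_lit 77909781015) (nat_lit 0) (nat_lit 2529041603) (nat_lit 5) (nat_lit 5) (nat_lit 7) (nat_lit 4) (nat_lit 5) (nat_lit 4) (nat_lit 352) (nat_lit 248) (nat_lit 180)))) (XT.nd (nat_lit 156) (nat_lit 0) (nat_lit 0) (XT.nd (nat_lit 78) (nat_lit 0) (nat_lit 0) (XT.lf (nat_lit 0) (nat_lit 30702765246) (nat_lit 152) (nat_lit 66055018809) (nat_lit 0) (nat_lit 10882315942) (nat_lit 5) (nat_lit 5) (nat_lit 7) (nat_lit 4) (nat_lit 5) (nat_lit 4) (nat_lit 353) (nat_lit 248) (nat_lit 179)) (XT.lf (nat_lit 0) (nat_lit 39484784730) (nat_lit 152) (nat_lit 53657072023) (nat_lit 0) (nat_lit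 19630600128) (nat_lit 5) (nat_lit 5) (nat_lit 7) (nat_lit 4) (nat_lit 5) (nat_lit 4) (nat_lit 354) (nat_lit 248) (nat_lit 178))) (XT.nd (nat_lit 78) (nat_lit 0) (nat_lit 0) (XT.lf (nat_lit 0) (nat_lit 48681036867) (nat_lit 152) (nat_lit 40686421735) (nat_lit 0) (nat_lit 28794723410) (nat_lit 5) (nat_lit 5) (nat_lit 7) (nat_lit 4) (nat_lit 5) (nat_lit 4) (nat_lit 355) (nat_lit 248) (nat_lit 177)) (XT.lf (nat_lit 0) (nat_lit 58313417496) (nat_lit 152) (nat_lit 27112185445) (nat_lit 0) (nat_lit 38396505129) (nat_lit 5) (nat_lit 5) (nat_lit 7) (nat_lit 4) (nat_lit 5) (nat_lit 4) (nat_lit 356) (nat_lit 248) (nat_lit 176))))) (XT.nd (nat_lit 234) (nat_lit 0) (nat_lit 0) (XT.nd (nat_lit 78) (nat_lit 76) (nat_lit 0) (XT.lf (nat_lit 0) (nat_lit 68404860855) (nat_lit 152) (nat_lit 12902043543) (nat_lit 0) (nat_lit 48458806669) (nat_lit 5) (nat_lit 5) (nat_lit 7) (nat_lit 4) (nat_lit 5) (nat_lit 4)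 (nat_lit 357) (nat_lit 248) (nat_lit 175)) (XT.nd (nat_lit 78) (nat_lit 0) (nat_lit 0) (XT.lf (nat_lit 0) (nat_lit 2017200489) (nat_lit 76) (nat_lit 76981584268) (nat_lit 76) (nat_lit 57007775969) (nat_lit 4) (nat_lit 4) (nat_lit 5) (nat_lit 5) (nat_lit 5) (nat_lit 4) (nat_lit 358) (nat_lit 248) (nat_lit 174)) (XT.lf (nat_lit 0) (nat_lit 17912422276) (nat_lit 76) (nat_lit 72321957850) (nat_lit 76) (nat_lit 52321717062) (nat_lit 4) (nat_lit 4) (nat_lit 5) (nat_lit 5) (nat_lit 5) (nat_lit 4) (nat_lit 359) (nat_lit 248) (nat_lit 173)))) (XT.nd (nat_lit 156) (nat_lit 0) (nat_lit 0) (XT.nd (nat_lit 78) (nat_lit 0) (nat_lit 0) (XT.lf (nat_lit 0) (nat_lit 34564691619) (nat_lit 76) (nat_lit 67447216139) (nat_lit 76) (nat_lit 47421801553) (nat_lit 4) (nat_lit 4) (nat_lit 5) (nat_lit 5) (nat_lit 5) (nat_lit 4) (nat_lit 360) (nat_lit 248) (nat_lit 172)) (XT.lf (nat_lit 0) (nat_lit 52013656778) (nat_lit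 76) (nat_lit 62345752608) (nat_lit 76) (nat_lit 42296362975) (nat_lit 4) (nat_lit 4) (nat_lit 5) (nat_lit 5) (nat_lit 5) (nat_lit 4) (nat_lit 361) (nat_lit 248) (nat_lit 171))) (XT.nd (nat_lit 78) (nat_lit 0) (nat_lit 0) (XT.lf (nat_lit 0) (nat_lit 70300862908) (nat_lit 76) (nat_lit 57005420914) (nat_lit 76) (nat_lit 36933197903) (nat_lit 4) (nat_lit 4) (nat_lit 5) (nat_lit 5) (nat_lit 5) (nat_lit 4) (nat_lit 362) (nat_lit 248) (nat_lit 170)) (XT.lf (nat_lit 0) (nat_lit 89469850977) (nat_lit 76) (nat_lit 51413505981) (nat_lit 76) (nat_lit 31319536897) (nat_lit 4) (nat_lit 4) (nat_lit 5) (nat_lit 5) (nat_lit 5) (nat_lit 4) (nat_lit 363) (nat_lit 248) (nat_lit 169)))))) (XT.nd (nat_lit 34632) (nat_lit 0) (nat_lit 5852) (XT.nd (nat_lit 34320) (nat_lit 0) (nat_lit 8664) (XT.nd (nat_lit 78) (nat_lit 0) (nat_lit 0) (XT.lf (nat_lit 0) (nat_lit 109566261431) (nat_lit 76) (nat_lit 45556693727) (nat_lit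 76) (nat_lit 25442014097) (nat_lit 4) (nat_lit 4) (nat_lit 5) (nat_lit 5) (nat_lit 5) (nat_lit 4) (nat_lit 364) (nat_lit 248) (nat_lit 168)) (XT.nd (nat_lit 34164) (nat_lit 0) (nat_lit 10944) (XT.lf (nat_lit 0) (nat_lit 130637942867) (nat_lit 76) (nat_lit 39421039361) (nat_lit 76) (nat_lit 19286635401) (nat_lit 4) (nat_lit 4) (nat_lit 5) (nat_lit 5) (nat_lit 5) (nat_lit 4) (nat_lit 365) (nat_lit 248) (nat_lit 167)) (XT.lf (nat_lit 0) (nat_lit 1363769862) (nat_lit 532) (nat_lit 1259223148) (nat_lit 0) (nat_lit 1363769862) (nat_lit 148) (nat_lit 5) (nat_lit 155) (nat_lit 4) (nat_lit 148) (nat_lit 4) (nat_lit 282) (nat_lit 249) (nat_lit 249)))) (XT.nd (nat_lit 156) (nat_lit 912) (nat_lit 0) (XT.nd (nat_lit 78) (nat_lit 836) (nat_lit 0) (XT.lf (nat_lit 0) (nat_lit 560302633) (nat_lit 532) (nat_lit 888362729) (nat_lit 76) (nat_lit 6676278720) (nat_lit 141) (nat_lit 5) (nat_lit 148) (nat_lit 5)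 (nat_lit 142) (nat_lit 4) (nat_lit 283) (nat_lit 249) (nat_lit 248)) (XT.lf (nat_lit 0) (nat_lit 756506119) (nat_lit 456) (nat_lit 5684616636) (nat_lit 456) (nat_lit 1844724816) (nat_lit 130) (nat_lit 4) (nat_lit 136) (nat_lit 5) (nat_lit 136) (nat_lit 4) (nat_lit 284) (nat_lit 249) (nat_lit 247))) (XT.nd (nat_lit 78) (nat_lit 456) (nat_lit 0) (XT.lf (nat_lit 0) (nat_lit 2434743434) (nat_lit 380) (nat_lit 1534989138) (nat_lit 456) (nat_lit 4487406008) (nat_lit 124) (nat_lit 5) (nat_lit 129) (nat_lit 5) (nat_lit 130) (nat_lit 4) (nat_lit 285) (nat_lit 249) (nat_lit 246)) (XT.lf (nat_lit 0) (nat_lit 1273939134) (nat_lit 456) (nat_lit 4523405397) (nat_lit 76) (nat_lit 2841886365) (nat_lit 118) (nat_lit 5) (nat_lit 124) (nat_lit 5) (nat_lit 119) (nat_lit 4) (nat_lit 286) (nat_lit 249) (nat_lit 245))))) (XT.nd (nat_lit 234) (nat_lit 1596) (nat_lit 0) (XT.nd (nat_lit 78) (nat_lit 836) (nat_lit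 0) (XT.lf (nat_lit 0) (nat_lit 5789129794) (nat_lit 380) (nat_lit 1338738733) (nat_lit 456) (nat_lit 1704513368) (nat_lit 113) (nat_lit 5) (nat_lit 118) (nat_lit 5) (nat_lit 119) (nat_lit 4) (nat_lit 287) (nat_lit 249) (nat_lit 244)) (XT.nd (nat_lit 78) (nat_lit 380) (nat_lit 0) (XT.lf (nat_lit 0) (nat_lit 4076827595) (nat_lit 456) (nat_lit 1604212852) (nat_lit 76) (nat_lit 3355511133) (nat_lit 107) (nat_lit 5) (nat_lit 113) (nat_lit 5) (nat_lit 108) (nat_lit 4) (nat_lit 288) (nat_lit 249) (nat_lit 243)) (XT.lf (nat_lit 0) (nat_lit 752223879) (nat_lit 380) (nat_lit 182582007) (nat_lit 76) (nat_lit 8318321531) (nat_lit 102) (nat_lit 5) (nat_lit 107) (nat_lit 5) (nat_lit 103) (nat_lit 5) (nat_lit 289) (nat_lit 249) (nat_lit 242)))) (XT.nd (nat_lit 156) (nat_lit 608) (nat_lit 0) (XT.nd (nat_lit 78) (nat_lit 380) (nat_lit 0) (XT.lf (nat_lit 0) (nat_lit 1183088656) (nat_lit 304) (nat_lit 5416775365)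 (nat_lit 380) (nat_lit 2880783029) (nat_lit 94) (nat_lit 5) (nat_lit 98) (nat_lit 5) (nat_lit 99) (nat_lit 4) (nat_lit 290) (nat_lit 249) (nat_lit 241)) (XT.lf (nat_lit 0) (nat_lit 2510718896) (nat_lit 304) (nat_lit 366957006) (nat_lit 380) (nat_lit 6843663252) (nat_lit 89) (nat_lit 5) (nat_lit 93) (nat_lit 5) (nat_lit 94) (nat_lit 5) (nat_lit 291) (nat_lit 249) (nat_lit 240))) (XT.nd (nat_lit 78) (nat_lit 380) (nat_lit 0) (XT.lf (nat_lit 0) (nat_lit 3744365130) (nat_lit 228) (nat_lit 5079478835) (nat_lit 304) (nat_lit 1150733448) (nat_lit 86) (nat_lit 5) (nat_lit 89) (nat_lit 5) (nat_lit 90) (nat_lit 4) (nat_lit 292) (nat_lit 249) (nat_lit 239)) (XT.lf (nat_lit 0) (nat_lit 4654812082) (nat_lit 380) (nat_lit 5347646752) (nat_lit 76) (nat_lit 239099065) (nat_lit 81) (nat_lit 5) (nat_lit 86) (nat_lit 5) (nat_lit 82) (nat_lit 4) (nat_lit 293) (nat_lit 249) (nat_lit 238))))))) (XT.nd (nat_lit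 1092) (nat_lit 1520) (nat_lit 0) (XT.nd (nat_lit 546) (nat_lit 1292) (nat_lit 0) (XT.nd (nat_lit 234) (nat_lit 988) (nat_lit 0) (XT.nd (nat_lit 78) (nat_lit 532) (nat_lit 0) (XT.lf (nat_lit 0) (nat_lit 174228860) (nat_lit 304) (nat_lit 4591690908) (nat_lit 76) (nat_lit 5756504998) (nat_lit 77) (nat_lit 5) (nat_lit 81) (nat_lit 5) (nat_lit 78) (nat_lit 5) (nat_lit 294) (nat_lit 249) (nat_lit 237)) (XT.nd (nat_lit 78) (nat_lit 304) (nat_lit 0) (XT.lf (nat_lit 0) (nat_lit 6042683835) (nat_lit 304) (nat_lit 3979529255) (nat_lit 76) (nat_lit 795533894) (nat_lit 74) (nat_lit 5) (nat_lit 78) (nat_lit 5) (nat_lit 75) (nat_lit 4) (nat_lit 295) (nat_lit 249) (nat_lit 236)) (XT.lf (nat_lit 0) (nat_lit 1034639035) (nat_lit 304) (nat_lit 3525287768) (nat_lit 76) (nat_lit 6568341866) (nat_lit 70) (nat_lit 5) (nat_lit 74) (nat_lit 5) (nat_lit 71) (nat_lit 5) (nat_lit 296) (nat_lit 249) (nat_lit 235))))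 (XT.nd (nat_lit 156) (nat_lit 456) (nat_lit 0) (XT.nd (nat_lit 78) (nat_lit 304) (nat_lit 0) (XT.lf (nat_lit 0) (nat_lit 6983853700) (nat_lit 304) (nat_lit 3251525335) (nat_lit 76) (nat_lit 1219191832) (nat_lit 67) (nat_lit 5) (nat_lit 71) (nat_lit 5) (nat_lit 68) (nat_lit 4) (nat_lit 297) (nat_lit 249) (nat_lit 234)) (XT.lf (nat_lit 0) (nat_lit 1390447461) (nat_lit 304) (nat_lit 3181161487) (nat_lit 76) (nat_lit 7225711847) (nat_lit 63) (nat_lit 5) (nat_lit 67) (nat_lit 5) (nat_lit 64) (nat_lit 5) (nat_lit 298) (nat_lit 249) (nat_lit 233))) (XT.nd (nat_lit 78) (nat_lit 228) (nat_lit 0) (XT.lf (nat_lit 0) (nat_lit 7409375674) (nat_lit 304) (nat_lit 3338163465) (nat_lit 76) (nat_lit 1409719712) (nat_lit 60) (nat_lit 5) (nat_lit 64) (nat_lit 5) (nat_lit 61) (nat_lit 4) (nat_lit 299) (nat_lit 249) (nat_lit 232)) (XT.lf (nat_lit 0) (nat_lit 1162906101) (nat_lit 228) (nat_lit 3748725895) (nat_lit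 76) (nat_lit 7623539494) (nat_lit 57) (nat_lit 5) (nat_lit 60) (nat_lit 5) (nat_lit 58) (nat_lit 5) (nat_lit 300) (nat_lit 249) (nat_lit 231))))) (XT.nd (nat_lit 234) (nat_lit 608) (nat_lit 0) (XT.nd (nat_lit 78) (nat_lit 456) (nat_lit 0) (XT.lf (nat_lit 0) (nat_lit 7233018180) (nat_lit 304) (nat_lit 4444855327) (nat_lit 76) (nat_lit 1253919085) (nat_lit 54) (nat_lit 5) (nat_lit 58) (nat_lit 5) (nat_lit 55) (nat_lit 4) (nat_lit 301) (nat_lit 249) (nat_lit 230)) (XT.nd (nat_lit 78) (nat_lit 228) (nat_lit 0) (XT.lf (nat_lit 0) (nat_lit 254554318) (nat_lit 228) (nat_lit 5451131526) (nat_lit 76) (nat_lit 7642524419) (nat_lit 51) (nat_lit 5) (nat_lit 54) (nat_lit 5) (nat_lit 52) (nat_lit 5) (nat_lit 302) (nat_lit 249) (nat_lit 229)) (XT.lf (nat_lit 0) (nat_lit 6348568674) (nat_lit 304) (nat_lit 6813871987) (nat_lit 76) (nat_lit 622561654) (nat_lit 48) (nat_lit 5) (nat_lit 52) (nat_lit 5) (nat_lit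 49) (nat_lit 4) (nat_lit 303) (nat_lit 249) (nat_lit 228)))) (XT.nd (nat_lit 156) (nat_lit 228) (nat_lit 0) (XT.nd (nat_lit 78) (nat_lit 228) (nat_lit 0) (XT.lf (nat_lit 0) (nat_lit 5677332873) (nat_lit 152) (nat_lit 7083306862) (nat_lit 228) (nat_lit 1482662661) (nat_lit 46) (nat_lit 5) (nat_lit 48) (nat_lit 5) (nat_lit 49) (nat_lit 4) (nat_lit 304) (nat_lit 249) (nat_lit 227)) (XT.lf (nat_lit 0) (nat_lit 3986977944) (nat_lit 152) (nat_lit 645852668) (nat_lit 228) (nat_lit 10091662843) (nat_lit 43) (nat_lit 5) (nat_lit 45) (nat_lit 5) (nat_lit 46) (nat_lit 5) (nat_lit 305) (nat_lit 249) (nat_lit 226))) (XT.nd (nat_lit 78) (nat_lit 76) (nat_lit 0) (XT.lf (nat_lit 0) (nat_lit 1827050729) (nat_lit 152) (nat_lit 9213828898) (nat_lit 228) (nat_lit 4187961558) (nat_lit 41) (nat_lit 5) (nat_lit 43) (nat_lit 5) (nat_lit 44) (nat_lit 4) (nat_lit 306) (nat_lit 249) (nat_lit 225)) (XT.lf (nat_lit 0)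 (nat_lit 1944822759) (nat_lit 228) (nat_lit 786957189) (nat_lit 76) (nat_lit 13026908564) (nat_lit 40) (nat_lit 5) (nat_lit 43) (nat_lit 5) (nat_lit 41) (nat_lit 5) (nat_lit 307) (nat_lit 249) (nat_lit 224)))))) (XT.nd (nat_lit 546) (nat_lit 608) (nat_lit 0) (XT.nd (nat_lit 234) (nat_lit 380) (nat_lit 0) (XT.nd (nat_lit 78) (nat_lit 380) (nat_lit 0) (XT.lf (nat_lit 0) (nat_lit 8319550288) (nat_lit 228) (nat_lit 3932739477) (nat_lit 76) (nat_lit 4060890556) (nat_lit 38) (nat_lit 5) (nat_lit 41) (nat_lit 5) (nat_lit 39) (nat_lit 4) (nat_lit 308) (nat_lit 249) (nat_lit 223)) (XT.nd (nat_lit 78) (nat_lit 228) (nat_lit 0) (XT.lf (nat_lit 0) (nat_lit 9246664681) (nat_lit 152) (nat_lit 5756315789) (nat_lit 228) (nat_lit 1892768301) (nat_lit 36) (nat_lit 5) (nat_lit 38) (nat_lit 5) (nat_lit 39) (nat_lit 4) (nat_lit 309) (nat_lit 249) (nat_lit 222)) (XT.lf (nat_lit 0) (nat_lit 4397643342) (nat_lit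 228) (nat_lit 12023143763) (nat_lit 76) (nat_lit 1086227007) (nat_lit 33) (nat_lit 5) (nat_lit 36) (nat_lit 5) (nat_lit 34) (nat_lit 4) (nat_lit 310) (nat_lit 249) (nat_lit 221)))) (XT.nd (nat_lit 156) (nat_lit 304) (nat_lit 0) (XT.nd (nat_lit 78) (nat_lit 0) (nat_lit 0) (XT.lf (nat_lit 0) (nat_lit 1002444761) (nat_lit 76) (nat_lit 9980040768) (nat_lit 152) (nat_lit 7165268268) (nat_lit 32) (nat_lit 5) (nat_lit 33) (nat_lit 5) (nat_lit 34) (nat_lit 4) (nat_lit 311) (nat_lit 249) (nat_lit 220)) (XT.lf (nat_lit 0) (nat_lit 14711070144) (nat_lit 76) (nat_lit 3184714831) (nat_lit 152) (nat_lit 924811842) (nat_lit 32) (nat_lit 5) (nat_lit 33) (nat_lit 5) (nat_lit 34) (nat_lit 4) (nat_lit 312) (nat_lit 249) (nat_lit 219))) (XT.nd (nat_lit 78) (nat_lit 76) (nat_lit 0) (XT.lf (nat_lit 0) (nat_lit 5527846559) (nat_lit 228) (nat_lit 10067065581) (nat_lit 76) (nat_lit 3930286672) (nat_lit 29) (nat_lit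 5) (nat_lit 32) (nat_lit 5) (nat_lit 30) (nat_lit 4) (nat_lit 313) (nat_lit 249) (nat_lit 218)) (XT.lf (nat_lit 0) (nat_lit 3341535077) (nat_lit 76) (nat_lit 8932679610) (nat_lit 152) (nat_lit 7990873117) (nat_lit 28) (nat_lit 5) (nat_lit 29) (nat_lit 5) (nat_lit 30) (nat_lit 4) (nat_lit 314) (nat_lit 249) (nat_lit 217))))) (XT.nd (nat_lit 312) (nat_lit 304) (nat_lit 0) (XT.nd (nat_lit 156) (nat_lit 76) (nat_lit 0) (XT.nd (nat_lit 78) (nat_lit 228) (nat_lit 0) (XT.lf (nat_lit 0) (nat_lit 17428837580) (nat_lit 76) (nat_lit 1919359875) (nat_lit 152) (nat_lit 1694100802) (nat_lit 28) (nat_lit 5) (nat_lit 29) (nat_lit 5) (nat_lit 30) (nat_lit 4) (nat_lit 315) (nat_lit 249) (nat_lit 216)) (XT.lf (nat_lit 0) (nat_lit 4864692912) (nat_lit 228) (nat_lit 11588645588) (nat_lit 76) (nat_lit 5402351590) (nat_lit 25) (nat_lit 5) (nat_lit 28) (nat_lit 5) (nat_lit 26) (nat_lit 4) (nat_lit 316) (nat_lit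 249) (nat_lit 215))) (XT.nd (nat_lit 78) (nat_lit 0) (nat_lit 0) (XT.lf (nat_lit 0) (nat_lit 2019519456) (nat_lit 76) (nat_lit 9667079086) (nat_lit 152) (nat_lit 11023575122) (nat_lit 24) (nat_lit 5) (nat_lit 25) (nat_lit 5) (nat_lit 26) (nat_lit 4) (nat_lit 317) (nat_lit 249) (nat_lit 214)) (XT.lf (nat_lit 0) (nat_lit 16364251771) (nat_lit 76) (nat_lit 2501456466) (nat_lit 152) (nat_lit 4741220024) (nat_lit 24) (nat_lit 5) (nat_lit 25) (nat_lit 5) (nat_lit 26) (nat_lit 4) (nat_lit 318) (nat_lit 249) (nat_lit 213)))) (XT.nd (nat_lit 156) (nat_lit 76) (nat_lit 0) (XT.nd (nat_lit 78) (nat_lit 0) (nat_lit 0) (XT.lf (nat_lit 0) (nat_lit 1833609765) (nat_lit 228) (nat_lit 17783692764) (nat_lit 76) (nat_lit 4930274095) (nat_lit 21) (nat_lit 5) (nat_lit 24) (nat_lit 5) (nat_lit 22) (nat_lit 4) (nat_lit 319) (nat_lit 249) (nat_lit 212)) (XT.lf (nat_lit 0) (nat_lit 8643612880) (nat_lit 228) (nat_lit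 4160923431) (nat_lit 76) (nat_lit 12729204698) (nat_lit 21) (nat_lit 5) (nat_lit 24) (nat_lit 5) (nat_lit 22) (nat_lit 4) (nat_lit 320) (nat_lit 249) (nat_lit 211))) (XT.nd (nat_lit 78) (nat_lit 0) (nat_lit 0) (XT.lf (nat_lit 0) (nat_lit 10173714638) (nat_lit 76) (nat_lit 5625848024) (nat_lit 152) (nat_lit 10769512805) (nat_lit 20) (nat_lit 5) (nat_lit 21) (nat_lit 5) (nat_lit 22) (nat_lit 4) (nat_lit 321) (nat_lit 249) (nat_lit 210)) (XT.lf (nat_lit 0) (nat_lit 23284719415) (nat_lit 152) (nat_lit 2526646337) (nat_lit 0) (nat_lit 1845692660) (nat_lit 20) (nat_lit 5) (nat_lit 22) (nat_lit 4) (nat_lit 20) (nat_lit 4) (nat_lit 322) (nat_lit 249) (nat_lit 209))))))))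
noncomputable def xc32 : XT := (XT.nd (nat_lit 2184) (nat_lit 152) (nat_lit 0) (XT.nd (nat_lit 1092) (nat_lit 380) (nat_lit 0) (XT.nd (nat_lit 546) (nat_lit 228) (nat_lit 0) (XT.nd (nat_lit 234) (nat_lit 228) (nat_lit 0) (XT.nd (nat_lit 78) (nat_lit 76) (nat_lit 0) (XT.lf (nat_lit 0) (nat_lit 2386529162) (nat_lit 152) (nat_lit 16763397048) (nat_lit 76) (nat_lit 9646232699) (nat_lit 18) (nat_lit 5) (nat_lit 20) (nat_lit 5) (nat_lit 19) (nat_lit 4) (nat_lit 323) (nat_lit 249) (nat_lit 208)) (XT.nd (nat_lit 78) (nat_lit 76) (nat_lit 0) (XT.lf (nat_lit 0) (nat_lit 9335871881) (nat_lit 152) (nat_lit 2817207037) (nat_lit 76) (nat_lit 17839569241) (nat_lit 18) (nat_lit 5) (nat_lit 20) (nat_lit 5) (nat_lit 19) (nat_lit 4) (nat_lit 324) (nat_lit 249) (nat_lit 207)) (XT.lf (nat_lit 0) (nat_lit 11911758311) (nat_lit 76) (nat_lit 4755283790) (nat_lit 152) (nat_lit 14580909129) (nat_lit 17) (nat_lit 5)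 (nat_lit 18) (nat_lit 5) (nat_lit 19) (nat_lit 4) (nat_lit 325) (nat_lit 249) (nat_lit 206)))) (XT.nd (nat_lit 156) (nat_lit 152) (nat_lit 0) (XT.nd (nat_lit 78) (nat_lit 76) (nat_lit 0) (XT.lf (nat_lit 0) (nat_lit 24344691499) (nat_lit 152) (nat_lit 5302837529) (nat_lit 0) (nat_lit 2919112014) (nat_lit 17) (nat_lit 5) (nat_lit 19) (nat_lit 4) (nat_lit 17) (nat_lit 4) (nat_lit 326) (nat_lit 249) (nat_lit 205)) (XT.lf (nat_lit 0) (nat_lit 9430607677) (nat_lit 76) (nat_lit 23039670240) (nat_lit 76) (nat_lit 1479084085) (nat_lit 16) (nat_lit 4) (nat_lit 17) (nat_lit 5) (nat_lit 17) (nat_lit 4) (nat_lit 327) (nat_lit 249) (nat_lit 204))) (XT.nd (nat_lit 78) (nat_lit 76) (nat_lit 0) (XT.lf (nat_lit 0) (nat_lit 5473698569) (nat_lit 152) (nat_lit 10577555838) (nat_lit 76) (nat_lit 19348904288) (nat_lit 15) (nat_lit 5) (nat_lit 17) (nat_lit 5) (nat_lit 16) (nat_lit 4) (nat_lit 328) (nat_lit 249)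 (nat_lit 203)) (XT.lf (nat_lit 0) (nat_lit 3995032890) (nat_lit 76) (nat_lit 8717603491) (nat_lit 152) (nat_lit 24211362447) (nat_lit 14) (nat_lit 5) (nat_lit 15) (nat_lit 5) (nat_lit 16) (nat_lit 4) (nat_lit 329) (nat_lit 249) (nat_lit 202))))) (XT.nd (nat_lit 234) (nat_lit 152) (nat_lit 0) (XT.nd (nat_lit 78) (nat_lit 76) (nat_lit 0) (XT.lf (nat_lit 0) (nat_lit 19392281564) (nat_lit 76) (nat_lit 962656546) (nat_lit 152) (nat_lit 18167865689) (nat_lit 14) (nat_lit 5) (nat_lit 15) (nat_lit 5) (nat_lit 16) (nat_lit 4) (nat_lit 330) (nat_lit 249) (nat_lit 201)) (XT.nd (nat_lit 78) (nat_lit 76) (nat_lit 0) (XT.lf (nat_lit 0) (nat_lit 28383590334) (nat_lit 152) (nat_lit 4831647280) (nat_lit 0) (nat_lit 6986198953) (nat_lit 14) (nat_lit 5) (nat_lit 16) (nat_lit 4) (nat_lit 14) (nat_lit 4) (nat_lit 331) (nat_lit 249) (nat_lit 200)) (XT.lf (nat_lit 0) (nat_lit 10257888185) (nat_lit 76) (nat_lit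 26602409826) (nat_lit 76) (nat_lit 5102318195) (nat_lit 13) (nat_lit 4) (nat_lit 14) (nat_lit 5) (nat_lit 14) (nat_lit 4) (nat_lit 332) (nat_lit 249) (nat_lit 199)))) (XT.nd (nat_lit 156) (nat_lit 76) (nat_lit 0) (XT.nd (nat_lit 78) (nat_lit 0) (nat_lit 0) (XT.lf (nat_lit 0) (nat_lit 1900747269) (nat_lit 152) (nat_lit 17739384436) (nat_lit 76) (nat_lit 24171480160) (nat_lit 12) (nat_lit 5) (nat_lit 14) (nat_lit 5) (nat_lit 13) (nat_lit 4) (nat_lit 333) (nat_lit 249) (nat_lit 198)) (XT.lf (nat_lit 0) (nat_lit 9091863903) (nat_lit 152) (nat_lit 3234569824) (nat_lit 76) (nat_lit 33426817645) (nat_lit 12) (nat_lit 5) (nat_lit 14) (nat_lit 5) (nat_lit 13) (nat_lit 4) (nat_lit 334) (nat_lit 249) (nat_lit 197))) (XT.nd (nat_lit 78) (nat_lit 0) (nat_lit 0) (XT.lf (nat_lit 0) (nat_lit 12129997635) (nat_lit 76) (nat_lit 4574321340) (nat_lit 152) (nat_lit 31085812071) (nat_lit 11) (nat_lit 5) (nat_lit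 12) (nat_lit 5) (nat_lit 13) (nat_lit 4) (nat_lit 335) (nat_lit 249) (nat_lit 196)) (XT.lf (nat_lit 0) (nat_lit 24711691096) (nat_lit 152) (nat_lit 21732493281) (nat_lit 0) (nat_lit 3484252614) (nat_lit 11) (nat_lit 5) (nat_lit 13) (nat_lit 4) (nat_lit 11) (nat_lit 4) (nat_lit 336) (nat_lit 249) (nat_lit 195)))))) (XT.nd (nat_lit 546) (nat_lit 152) (nat_lit 0) (XT.nd (nat_lit 234) (nat_lit 152) (nat_lit 0) (XT.nd (nat_lit 78) (nat_lit 76) (nat_lit 0) (XT.lf (nat_lit 0) (nat_lit 33114548989) (nat_lit 152) (nat_lit 7250280405) (nat_lit 0) (nat_lit 11808985910) (nat_lit 11) (nat_lit 5) (nat_lit 13) (nat_lit 4) (nat_lit 11) (nat_lit 4) (nat_lit 337) (nat_lit 249) (nat_lit 194)) (XT.nd (nat_lit 78) (nat_lit 0) (nat_lit 0) (XT.lf (nat_lit 0) (nat_lit 8021485933) (nat_lit 76) (nat_lit 33944549780) (nat_lit 76) (nat_lit 12564582324) (nat_lit 10) (nat_lit 4) (nat_lit 11) (nat_lit 5) (nat_lit 11) (nat_lit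 4) (nat_lit 338) (nat_lit 249) (nat_lit 193)) (XT.lf (nat_lit 0) (nat_lit 24119875802) (nat_lit 76) (nat_lit 27167699557) (nat_lit 76) (nat_lit 5716870791) (nat_lit 10) (nat_lit 4) (nat_lit 11) (nat_lit 5) (nat_lit 11) (nat_lit 4) (nat_lit 339) (nat_lit 249) (nat_lit 192)))) (XT.nd (nat_lit 156) (nat_lit 76) (nat_lit 0) (XT.nd (nat_lit 78) (nat_lit 0) (nat_lit 0) (XT.lf (nat_lit 0) (nat_lit 1399113638) (nat_lit 152) (nat_lit 18678115043) (nat_lit 76) (nat_lit 39525681962) (nat_lit 9) (nat_lit 5) (nat_lit 11) (nat_lit 5) (nat_lit 10) (nat_lit 4) (nat_lit 340) (nat_lit 249) (nat_lit 191)) (XT.lf (nat_lit 0) (nat_lit 8710558209) (nat_lit 152) (nat_lit 3900155863) (nat_lit 76) (nat_lit 49720157826) (nat_lit 9) (nat_lit 5) (nat_lit 11) (nat_lit 5) (nat_lit 10) (nat_lit 4) (nat_lit 341) (nat_lit 249) (nat_lit 190))) (XT.nd (nat_lit 78) (nat_lit 0) (nat_lit 0) (XT.lf (nat_lit 0) (nat_lit 11769104485)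 (nat_lit 76) (nat_lit 4690455208) (nat_lit 152) (nat_lit 48733520034) (nat_lit 8) (nat_lit 5) (nat_lit 9) (nat_lit 5) (nat_lit 10) (nat_lit 4) (nat_lit 342) (nat_lit 249) (nat_lit 189)) (XT.lf (nat_lit 0) (nat_lit 24631164208) (nat_lit 152) (nat_lit 40005022098) (nat_lit 0) (nat_lit 3561164723) (nat_lit 8) (nat_lit 5) (nat_lit 10) (nat_lit 4) (nat_lit 8) (nat_lit 4) (nat_lit 343) (nat_lit 249) (nat_lit 188))))) (XT.nd (nat_lit 234) (nat_lit 76) (nat_lit 0) (XT.nd (nat_lit 78) (nat_lit 76) (nat_lit 0) (XT.lf (nat_lit 0) (nat_lit 33220360576) (nat_lit 152) (nat_lit 26034755740) (nat_lit 0) (nat_lit 12096456536) (nat_lit 8) (nat_lit 5) (nat_lit 10) (nat_lit 4) (nat_lit 8) (nat_lit 4) (nat_lit 344) (nat_lit 249) (nat_lit 187)) (XT.nd (nat_lit 78) (nat_lit 76) (nat_lit 0) (XT.lf (nat_lit 0) (nat_lit 42202511740) (nat_lit 152) (nat_lit 11434826103) (nat_lit 0) (nat_lit 21027270029) (nat_lit 8)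 (nat_lit 5) (nat_lit 10) (nat_lit 4) (nat_lit 8) (nat_lit 4) (nat_lit 345) (nat_lit 249) (nat_lit 186)) (XT.lf (nat_lit 0) (nat_lit 3905743674) (nat_lit 76) (nat_lit 47730804497) (nat_lit 76) (nat_lit 26506669766) (nat_lit 7) (nat_lit 4) (nat_lit 8) (nat_lit 5) (nat_lit 8) (nat_lit 4) (nat_lit 346) (nat_lit 249) (nat_lit 185)))) (XT.nd (nat_lit 156) (nat_lit 76) (nat_lit 0) (XT.nd (nat_lit 78) (nat_lit 0) (nat_lit 0) (XT.lf (nat_lit 0) (nat_lit 20188604301) (nat_lit 76) (nat_lit 41437670193) (nat_lit 76) (nat_lit 20166970679) (nat_lit 7) (nat_lit 4) (nat_lit 8) (nat_lit 5) (nat_lit 8) (nat_lit 4) (nat_lit 347) (nat_lit 249) (nat_lit 184)) (XT.lf (nat_lit 0) (nat_lit 37224949033) (nat_lit 76) (nat_lit 34858420598) (nat_lit 76) (nat_lit 13543373674) (nat_lit 7) (nat_lit 4) (nat_lit 8) (nat_lit 5) (nat_lit 8) (nat_lit 4) (nat_lit 348) (nat_lit 249) (nat_lit 183))) (XT.nd (nat_lit 78) (nat_lit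 76) (nat_lit 0) (XT.lf (nat_lit 0) (nat_lit 55055340593) (nat_lit 76) (nat_lit 27977390835) (nat_lit 76) (nat_lit 6620108281) (nat_lit 7) (nat_lit 4) (nat_lit 8) (nat_lit 5) (nat_lit 8) (nat_lit 4) (nat_lit 349) (nat_lit 249) (nat_lit 182)) (XT.lf (nat_lit 0) (nat_lit 607224505) (nat_lit 152) (nat_lit 20164841215) (nat_lit 76) (nat_lit 73108876014) (nat_lit 6) (nat_lit 5) (nat_lit 8) (nat_lit 5) (nat_lit 7) (nat_lit 4) (nat_lit 350) (nat_lit 249) (nat_lit 181))))))) (XT.nd (nat_lit 1092) (nat_lit 0) (nat_lit 0) (XT.nd (nat_lit 546) (nat_lit 76) (nat_lit 0) (XT.nd (nat_lit 234) (nat_lit 0) (nat_lit 0) (XT.nd (nat_lit 78) (nat_lit 76) (nat_lit 0) (XT.lf (nat_lit 0) (nat_lit 8032258576) (nat_lit 152) (nat_lit 5130331012) (nat_lit 76) (nat_lit 85156700485) (nat_lit 6) (nat_lit 5) (nat_lit 8) (nat_lit 5) (nat_lit 7) (nat_lit 4) (nat_lit 351) (nat_lit 249) (nat_lit 180)) (XT.nd (nat_lit 78) (nat_lit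 0) (nat_lit 0) (XT.lf (nat_lit 0) (nat_lit 10816534013) (nat_lit 76) (nat_lit 5089295868) (nat_lit 152) (nat_lit 87071412181) (nat_lit 5) (nat_lit 5) (nat_lit 6) (nat_lit 5) (nat_lit 7) (nat_lit 4) (nat_lit 352) (nat_lit 249) (nat_lit 179)) (XT.lf (nat_lit 0) (nat_lit 24232867425) (nat_lit 152) (nat_lit 80281196872) (nat_lit 0) (nat_lit 3352238294) (nat_lit 5) (nat_lit 5) (nat_lit 7) (nat_lit 4) (nat_lit 5) (nat_lit 4) (nat_lit 353) (nat_lit 249) (nat_lit 178)))) (XT.nd (nat_lit 156) (nat_lit 0) (nat_lit 0) (XT.nd (nat_lit 78) (nat_lit 0) (nat_lit 0) (XT.lf (nat_lit 0) (nat_lit 33002756021) (nat_lit 152) (nat_lit 67906271470) (nat_lit 0) (nat_lit 12089998035) (nat_lit 5) (nat_lit 5) (nat_lit 7) (nat_lit 4) (nat_lit 5) (nat_lit 4) (nat_lit 354) (nat_lit 249) (nat_lit 177)) (XT.lf (nat_lit 0) (nat_lit 42187454931) (nat_lit 152) (nat_lit 54957546310) (nat_lit 0) (nat_lit 21244098035) (nat_lit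 5) (nat_lit 5) (nat_lit 7) (nat_lit 4) (nat_lit 5) (nat_lit 4) (nat_lit 355) (nat_lit 249) (nat_lit 176))) (XT.nd (nat_lit 78) (nat_lit 0) (nat_lit 0) (XT.lf (nat_lit 0) (nat_lit 51808832486) (nat_lit 152) (nat_lit 41404191095) (nat_lit 0) (nat_lit 30836333772) (nat_lit 5) (nat_lit 5) (nat_lit 7) (nat_lit 4) (nat_lit 5) (nat_lit 4) (nat_lit 356) (nat_lit 249) (nat_lit 175)) (XT.lf (nat_lit 0) (nat_lit 61889796728) (nat_lit 152) (nat_lit 27213935930) (nat_lit 0) (nat_lit 40889543901) (nat_lit 5) (nat_lit 5) (nat_lit 7) (nat_lit 4) (nat_lit 5) (nat_lit 4) (nat_lit 357) (nat_lit 249) (nat_lit 174))))) (XT.nd (nat_lit 234) (nat_lit 0) (nat_lit 0) (XT.nd (nat_lit 78) (nat_lit 76) (nat_lit 0) (XT.lf (nat_lit 0) (nat_lit 72454349952) (nat_lit 152) (nat_lit 12352994493) (nat_lit 0) (nat_lit 51427664637) (nat_lit 5) (nat_lit 5) (nat_lit 7) (nat_lit 4) (nat_lit 5) (nat_lit 4) (nat_lit 358) (nat_lit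 249) (nat_lit 173)) (XT.nd (nat_lit 78) (nat_lit 0) (nat_lit 0) (XT.lf (nat_lit 0) (nat_lit 3277981635) (nat_lit 76) (nat_lit 80281174187) (nat_lit 76) (nat_lit 59229315073) (nat_lit 4) (nat_lit 4) (nat_lit 5) (nat_lit 5) (nat_lit 5) (nat_lit 4) (nat_lit 359) (nat_lit 249) (nat_lit 172)) (XT.lf (nat_lit 0) (nat_lit 19912730173) (nat_lit 76) (nat_lit 75414732606) (nat_lit 76) (nat_lit 54338898445) (nat_lit 4) (nat_lit 4) (nat_lit 5) (nat_lit 5) (nat_lit 5) (nat_lit 4) (nat_lit 360) (nat_lit 249) (nat_lit 171)))) (XT.nd (nat_lit 156) (nat_lit 0) (nat_lit 0) (XT.nd (nat_lit 78) (nat_lit 0) (nat_lit 0) (XT.lf (nat_lit 0) (nat_lit 37345008850) (nat_lit 76) (nat_lit 70321173959) (nat_lit 76) (nat_lit 49222506421) (nat_lit 4) (nat_lit 4) (nat_lit 5) (nat_lit 5) (nat_lit 5) (nat_lit 4) (nat_lit 361) (nat_lit 249) (nat_lit 170)) (XT.lf (nat_lit 0) (nat_lit 55616323093) (nat_lit 76) (nat_lit 64988370726)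 (nat_lit 76) (nat_lit 43867957114) (nat_lit 4) (nat_lit 4) (nat_lit 5) (nat_lit 5) (nat_lit 5) (nat_lit 4) (nat_lit 362) (nat_lit 249) (nat_lit 169))) (XT.nd (nat_lit 78) (nat_lit 0) (nat_lit 0) (XT.lf (nat_lit 0) (nat_lit 74770176031) (nat_lit 76) (nat_lit 59403625757) (nat_lit 76) (nat_lit 38262501599) (nat_lit 4) (nat_lit 4) (nat_lit 5) (nat_lit 5) (nat_lit 5) (nat_lit 4) (nat_lit 363) (nat_lit 249) (nat_lit 168)) (XT.lf (nat_lit 0) (nat_lit 94852172075) (nat_lit 76) (nat_lit 53553642040) (nat_lit 76) (nat_lit 32392793552) (nat_lit 4) (nat_lit 4) (nat_lit 5) (nat_lit 5) (nat_lit 5) (nat_lit 4) (nat_lit 364) (nat_lit 249) (nat_lit 167)))))) (XT.nd (nat_lit 34476) (nat_lit 0) (nat_lit 6232) (XT.nd (nat_lit 34164) (nat_lit 0) (nat_lit 9120) (XT.nd (nat_lit 34008) (nat_lit 0) (nat_lit 11476) (XT.lf (nat_lit 0) (nat_lit 115910125502) (nat_lit 76) (nat_lit 47424491042) (nat_lit 76) (nat_lit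 26244857478) (nat_lit 4) (nat_lit 4) (nat_lit 5) (nat_lit 5) (nat_lit 5) (nat_lit 4) (nat_lit 365) (nat_lit 249) (nat_lit 166)) (XT.nd (nat_lit 78) (nat_lit 532) (nat_lit 0) (XT.lf (nat_lit 0) (nat_lit 545926377) (nat_lit 608) (nat_lit 2756837785) (nat_lit 0) (nat_lit 545926377) (nat_lit 162) (nat_lit 5) (nat_lit 170) (nat_lit 4) (nat_lit 162) (nat_lit 4) (nat_lit 280) (nat_lit 250) (nat_lit 250)) (XT.lf (nat_lit 0) (nat_lit 3721446676) (nat_lit 532) (nat_lit 3150955800) (nat_lit 532) (nat_lit 960077894) (nat_lit 155) (nat_lit 4) (nat_lit 162) (nat_lit 5) (nat_lit 162) (nat_lit 4) (nat_lit 281) (nat_lit 250) (nat_lit 249)))) (XT.nd (nat_lit 156) (nat_lit 1292) (nat_lit 0) (XT.nd (nat_lit 78) (nat_lit 532) (nat_lit 0) (XT.lf (nat_lit 0) (nat_lit 4727346055) (nat_lit 532) (nat_lit 2675628324) (nat_lit 0) (nat_lit 574503052) (nat_lit 148) (nat_lit 5) (nat_lit 155) (nat_lit 4) (nat_lit 148) (nat_lit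 4) (nat_lit 282) (nat_lit 250) (nat_lit 248)) (XT.lf (nat_lit 0) (nat_lit 2391647908) (nat_lit 532) (nat_lit 1227109249) (nat_lit 76) (nat_lit 4513453753) (nat_lit 141) (nat_lit 5) (nat_lit 148) (nat_lit 5) (nat_lit 142) (nat_lit 4) (nat_lit 283) (nat_lit 250) (nat_lit 247))) (XT.nd (nat_lit 78) (nat_lit 456) (nat_lit 0) (XT.lf (nat_lit 0) (nat_lit 260647156) (nat_lit 456) (nat_lit 7862988188) (nat_lit 456) (nat_lit 174061949) (nat_lit 130) (nat_lit 4) (nat_lit 136) (nat_lit 5) (nat_lit 136) (nat_lit 4) (nat_lit 284) (nat_lit 250) (nat_lit 246)) (XT.lf (nat_lit 0) (nat_lit 1745286492) (nat_lit 380) (nat_lit 3739041556) (nat_lit 456) (nat_lit 2987991501) (nat_lit 124) (nat_lit 5) (nat_lit 129) (nat_lit 5) (nat_lit 130) (nat_lit 4) (nat_lit 285) (nat_lit 250) (nat_lit 245))))) (XT.nd (nat_lit 234) (nat_lit 1596) (nat_lit 0) (XT.nd (nat_lit 78) (nat_lit 836) (nat_lit 0) (XT.lf (nat_lit 0) (nat_lit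 2600180124) (nat_lit 456) (nat_lit 5407041306) (nat_lit 76) (nat_lit 651176284) (nat_lit 118) (nat_lit 5) (nat_lit 124) (nat_lit 5) (nat_lit 119) (nat_lit 4) (nat_lit 286) (nat_lit 250) (nat_lit 244)) (XT.nd (nat_lit 78) (nat_lit 456) (nat_lit 0) (XT.lf (nat_lit 0) (nat_lit 4735963858) (nat_lit 380) (nat_lit 3597782721) (nat_lit 456) (nat_lit 521509034) (nat_lit 113) (nat_lit 5) (nat_lit 118) (nat_lit 5) (nat_lit 119) (nat_lit 4) (nat_lit 287) (nat_lit 250) (nat_lit 243)) (XT.lf (nat_lit 0) (nat_lit 5095020661) (nat_lit 456) (nat_lit 2867236142) (nat_lit 76) (nat_lit 1101167915) (nat_lit 107) (nat_lit 5) (nat_lit 113) (nat_lit 5) (nat_lit 108) (nat_lit 4) (nat_lit 288) (nat_lit 250) (nat_lit 242)))) (XT.nd (nat_lit 156) (nat_lit 912) (nat_lit 0) (XT.nd (nat_lit 78) (nat_lit 304) (nat_lit 0) (XT.lf (nat_lit 0) (nat_lit 1604989315) (nat_lit 380) (nat_lit 1658044260) (nat_lit 76) (nat_lit 6020339499)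 (nat_lit 102) (nat_lit 5) (nat_lit 107) (nat_lit 5) (nat_lit 103) (nat_lit 5) (nat_lit 289) (nat_lit 250) (nat_lit 241)) (XT.lf (nat_lit 0) (nat_lit 7300821219) (nat_lit 380) (nat_lit 502066151) (nat_lit 76) (nat_lit 1712637762) (nat_lit 98) (nat_lit 5) (nat_lit 103) (nat_lit 5) (nat_lit 99) (nat_lit 4) (nat_lit 290) (nat_lit 250) (nat_lit 240))) (XT.nd (nat_lit 78) (nat_lit 228) (nat_lit 0) (XT.lf (nat_lit 0) (nat_lit 589814477) (nat_lit 304) (nat_lit 2816532075) (nat_lit 380) (nat_lit 6353483213) (nat_lit 89) (nat_lit 5) (nat_lit 93) (nat_lit 5) (nat_lit 94) (nat_lit 5) (nat_lit 291) (nat_lit 250) (nat_lit 239)) (XT.lf (nat_lit 0) (nat_lit 1621854777) (nat_lit 228) (nat_lit 7588737967) (nat_lit 304) (nat_lit 806801781) (nat_lit 86) (nat_lit 5) (nat_lit 89) (nat_lit 5) (nat_lit 90) (nat_lit 4) (nat_lit 292) (nat_lit 250) (nat_lit 238))))))))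
noncomputable def xc33 : XT := (XT.nd (nat_lit 2184) (nat_lit 1064) (nat_lit 0) (XT.nd (nat_lit 1092) (nat_lit 1672) (nat_lit 0) (XT.nd (nat_lit 546) (nat_lit 1292) (nat_lit 0) (XT.nd (nat_lit 234) (nat_lit 1064) (nat_lit 0) (XT.nd (nat_lit 78) (nat_lit 532) (nat_lit 0) (XT.lf (nat_lit 0) (nat_lit 2538636545) (nat_lit 304) (nat_lit 2332723654) (nat_lit 380) (nat_lit 5416599451) (nat_lit 81) (nat_lit 5) (nat_lit 85) (nat_lit 5) (nat_lit 86) (nat_lit 5) (nat_lit 293) (nat_lit 250) (nat_lit 237)) (XT.nd (nat_lit 78) (nat_lit 228) (nat_lit 0) (XT.lf (nat_lit 0) (nat_lit 199582234) (nat_lit 304) (nat_lit 7213355056) (nat_lit 76) (nat_lit 3160143202) (nat_lit 77) (nat_lit 5) (nat_lit 81) (nat_lit 5) (nat_lit 78) (nat_lit 5) (nat_lit 294) (nat_lit 250) (nat_lit 236)) (XT.lf (nat_lit 0) (nat_lit 4030495919) (nat_lit 228) (nat_lit 1911941576) (nat_lit 304) (nat_lit 4929789264) (nat_lit 74) (nat_lit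 5) (nat_lit 77) (nat_lit 5) (nat_lit 78) (nat_lit 5) (nat_lit 295) (nat_lit 250) (nat_lit 235)))) (XT.nd (nat_lit 156) (nat_lit 532) (nat_lit 0) (XT.nd (nat_lit 78) (nat_lit 228) (nat_lit 0) (XT.lf (nat_lit 0) (nat_lit 745761019) (nat_lit 304) (nat_lit 6621602331) (nat_lit 76) (nat_lit 3819596681) (nat_lit 70) (nat_lit 5) (nat_lit 74) (nat_lit 5) (nat_lit 71) (nat_lit 5) (nat_lit 296) (nat_lit 250) (nat_lit 234)) (XT.lf (nat_lit 0) (nat_lit 4919517422) (nat_lit 228) (nat_lit 1645677313) (nat_lit 304) (nat_lit 4952010285) (nat_lit 67) (nat_lit 5) (nat_lit 70) (nat_lit 5) (nat_lit 71) (nat_lit 5) (nat_lit 297) (nat_lit 250) (nat_lit 233))) (XT.nd (nat_lit 78) (nat_lit 228) (nat_lit 0) (XT.lf (nat_lit 0) (nat_lit 783631646) (nat_lit 304) (nat_lit 6774598567) (nat_lit 76) (nat_lit 4305956606) (nat_lit 63) (nat_lit 5) (nat_lit 67) (nat_lit 5) (nat_lit 64) (nat_lit 5) (nat_lit 298) (nat_lit 250)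 (nat_lit 232)) (XT.lf (nat_lit 0) (nat_lit 5034496335) (nat_lit 228) (nat_lit 1635854705) (nat_lit 304) (nat_lit 5557783571) (nat_lit 60) (nat_lit 5) (nat_lit 63) (nat_lit 5) (nat_lit 64) (nat_lit 5) (nat_lit 299) (nat_lit 250) (nat_lit 231))))) (XT.nd (nat_lit 234) (nat_lit 684) (nat_lit 0) (XT.nd (nat_lit 78) (nat_lit 380) (nat_lit 0) (XT.lf (nat_lit 0) (nat_lit 233138122) (nat_lit 228) (nat_lit 7862760374) (nat_lit 76) (nat_lit 4514492656) (nat_lit 57) (nat_lit 5) (nat_lit 60) (nat_lit 5) (nat_lit 58) (nat_lit 5) (nat_lit 300) (nat_lit 250) (nat_lit 230)) (XT.nd (nat_lit 78) (nat_lit 152) (nat_lit 0) (XT.lf (nat_lit 0) (nat_lit 4173817346) (nat_lit 228) (nat_lit 1997677652) (nat_lit 304) (nat_lit 6839508192) (nat_lit 54) (nat_lit 5) (nat_lit 57) (nat_lit 5) (nat_lit 58) (nat_lit 5) (nat_lit 301) (nat_lit 250) (nat_lit 229)) (XT.lf (nat_lit 0) (nat_lit 3311471094) (nat_lit 152) (nat_lit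 9095779297) (nat_lit 228) (nat_lit 1024455756) (nat_lit 52) (nat_lit 5) (nat_lit 54) (nat_lit 5) (nat_lit 55) (nat_lit 4) (nat_lit 302) (nat_lit 250) (nat_lit 228)))) (XT.nd (nat_lit 156) (nat_lit 228) (nat_lit 0) (XT.nd (nat_lit 78) (nat_lit 152) (nat_lit 0) (XT.lf (nat_lit 0) (nat_lit 2099546272) (nat_lit 228) (nat_lit 2862863881) (nat_lit 304) (nat_lit 8910231366) (nat_lit 48) (nat_lit 5) (nat_lit 51) (nat_lit 5) (nat_lit 52) (nat_lit 5) (nat_lit 303) (nat_lit 250) (nat_lit 227)) (XT.lf (nat_lit 0) (nat_lit 523443758) (nat_lit 152) (nat_lit 10701744600) (nat_lit 228) (nat_lit 3110264131) (nat_lit 46) (nat_lit 5) (nat_lit 48) (nat_lit 5) (nat_lit 49) (nat_lit 4) (nat_lit 304) (nat_lit 250) (nat_lit 226))) (XT.nd (nat_lit 78) (nat_lit 152) (nat_lit 0) (XT.lf (nat_lit 0) (nat_lit 2928015038) (nat_lit 228) (nat_lit 1440780263) (nat_lit 76) (nat_lit 10451616533) (nat_lit 45) (nat_lit 5) (nat_lit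 48) (nat_lit 5) (nat_lit 46) (nat_lit 5) (nat_lit 305) (nat_lit 250) (nat_lit 225)) (XT.lf (nat_lit 0) (nat_lit 9199588774) (nat_lit 228) (nat_lit 3843207616) (nat_lit 76) (nat_lit 2286085703) (nat_lit 43) (nat_lit 5) (nat_lit 46) (nat_lit 5) (nat_lit 44) (nat_lit 4) (nat_lit 306) (nat_lit 250) (nat_lit 224)))))) (XT.nd (nat_lit 546) (nat_lit 608) (nat_lit 0) (XT.nd (nat_lit 234) (nat_lit 532) (nat_lit 0) (XT.nd (nat_lit 78) (nat_lit 380) (nat_lit 0) (XT.lf (nat_lit 0) (nat_lit 9130241660) (nat_lit 152) (nat_lit 6666897387) (nat_lit 228) (nat_lit 65320080) (nat_lit 41) (nat_lit 5) (nat_lit 43) (nat_lit 5) (nat_lit 44) (nat_lit 4) (nat_lit 307) (nat_lit 250) (nat_lit 223)) (XT.nd (nat_lit 78) (nat_lit 152) (nat_lit 0) (XT.lf (nat_lit 0) (nat_lit 6148297663) (nat_lit 228) (nat_lit 10176769810) (nat_lit 76) (nat_lit 96798729) (nat_lit 38) (nat_lit 5) (nat_lit 41) (nat_lit 5) (nat_lit 39) (nat_lit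 4) (nat_lit 308) (nat_lit 250) (nat_lit 222)) (XT.lf (nat_lit 0) (nat_lit 2767672302) (nat_lit 152) (nat_lit 9939210080) (nat_lit 228) (nat_lit 4301321345) (nat_lit 36) (nat_lit 5) (nat_lit 38) (nat_lit 5) (nat_lit 39) (nat_lit 4) (nat_lit 309) (nat_lit 250) (nat_lit 221)))) (XT.nd (nat_lit 156) (nat_lit 304) (nat_lit 0) (XT.nd (nat_lit 78) (nat_lit 152) (nat_lit 0) (XT.lf (nat_lit 0) (nat_lit 1911399164) (nat_lit 228) (nat_lit 1287342669) (nat_lit 76) (nat_lit 14425184454) (nat_lit 35) (nat_lit 5) (nat_lit 38) (nat_lit 5) (nat_lit 36) (nat_lit 5) (nat_lit 310) (nat_lit 250) (nat_lit 220)) (XT.lf (nat_lit 0) (nat_lit 8383382899) (nat_lit 228) (nat_lit 6005347231) (nat_lit 76) (nat_lit 3879342477) (nat_lit 33) (nat_lit 5) (nat_lit 36) (nat_lit 5) (nat_lit 34) (nat_lit 4) (nat_lit 311) (nat_lit 250) (nat_lit 219))) (XT.nd (nat_lit 78) (nat_lit 228) (nat_lit 0) (XT.lf (nat_lit 0) (nat_lit 7481789740)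 (nat_lit 76) (nat_lit 7698152535) (nat_lit 152) (nat_lit 3764495439) (nat_lit 32) (nat_lit 5) (nat_lit 33) (nat_lit 5) (nat_lit 34) (nat_lit 4) (nat_lit 312) (nat_lit 250) (nat_lit 218)) (XT.lf (nat_lit 0) (nat_lit 1926002550) (nat_lit 152) (nat_lit 650582809) (nat_lit 228) (nat_lit 17078301342) (nat_lit 29) (nat_lit 5) (nat_lit 31) (nat_lit 5) (nat_lit 32) (nat_lit 5) (nat_lit 313) (nat_lit 250) (nat_lit 217))))) (XT.nd (nat_lit 234) (nat_lit 304) (nat_lit 0) (XT.nd (nat_lit 78) (nat_lit 304) (nat_lit 0) (XT.lf (nat_lit 0) (nat_lit 9230240949) (nat_lit 228) (nat_lit 4475896808) (nat_lit 76) (nat_lit 6691436824) (nat_lit 29) (nat_lit 5) (nat_lit 32) (nat_lit 5) (nat_lit 30) (nat_lit 4) (nat_lit 314) (nat_lit 250) (nat_lit 216)) (XT.nd (nat_lit 78) (nat_lit 228) (nat_lit 0) (XT.lf (nat_lit 0) (nat_lit 9428435631) (nat_lit 76) (nat_lit 6779253864) (nat_lit 152) (nat_lit 4970008243) (nat_lit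 28) (nat_lit 5) (nat_lit 29) (nat_lit 5) (nat_lit 30) (nat_lit 4) (nat_lit 315) (nat_lit 250) (nat_lit 215)) (XT.lf (nat_lit 0) (nat_lit 1473505869) (nat_lit 228) (nat_lit 20038575833) (nat_lit 76) (nat_lit 485344121) (nat_lit 25) (nat_lit 5) (nat_lit 28) (nat_lit 5) (nat_lit 26) (nat_lit 4) (nat_lit 316) (nat_lit 250) (nat_lit 214)))) (XT.nd (nat_lit 156) (nat_lit 228) (nat_lit 0) (XT.nd (nat_lit 78) (nat_lit 76) (nat_lit 0) (XT.lf (nat_lit 0) (nat_lit 8226536175) (nat_lit 228) (nat_lit 6558784679) (nat_lit 76) (nat_lit 8068669489) (nat_lit 25) (nat_lit 5) (nat_lit 28) (nat_lit 5) (nat_lit 26) (nat_lit 4) (nat_lit 317) (nat_lit 250) (nat_lit 213)) (XT.lf (nat_lit 0) (nat_lit 7568999354) (nat_lit 76) (nat_lit 7724406914) (nat_lit 152) (nat_lit 8460719849) (nat_lit 24) (nat_lit 5) (nat_lit 25) (nat_lit 5) (nat_lit 26) (nat_lit 4) (nat_lit 318) (nat_lit 250) (nat_lit 212))) (XT.nd (nat_lit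 78) (nat_lit 228) (nat_lit 0) (XT.lf (nat_lit 0) (nat_lit 22371515716) (nat_lit 76) (nat_lit 316028217) (nat_lit 152) (nat_lit 2012534330) (nat_lit 24) (nat_lit 5) (nat_lit 25) (nat_lit 5) (nat_lit 26) (nat_lit 4) (nat_lit 319) (nat_lit 250) (nat_lit 211)) (XT.lf (nat_lit 0) (nat_lit 4765599131) (nat_lit 228) (nat_lit 13512141199) (nat_lit 76) (nat_lit 7411229250) (nat_lit 21) (nat_lit 5) (nat_lit 24) (nat_lit 5) (nat_lit 22) (nat_lit 4) (nat_lit 320) (nat_lit 250) (nat_lit 210))))))) (XT.nd (nat_lit 1092) (nat_lit 380) (nat_lit 0) (XT.nd (nat_lit 546) (nat_lit 380) (nat_lit 0) (XT.nd (nat_lit 234) (nat_lit 152) (nat_lit 0) (XT.nd (nat_lit 78) (nat_lit 76) (nat_lit 0) (XT.lf (nat_lit 0) (nat_lit 556884070) (nat_lit 76) (nat_lit 11229318637) (nat_lit 152) (nat_lit 14942173449) (nat_lit 20) (nat_lit 5) (nat_lit 21) (nat_lit 5) (nat_lit 22) (nat_lit 4) (nat_lit 321) (nat_lit 250) (nat_lit 209))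 (XT.nd (nat_lit 78) (nat_lit 76) (nat_lit 0) (XT.lf (nat_lit 0) (nat_lit 15456500118) (nat_lit 76) (nat_lit 3755176124) (nat_lit 152) (nat_lit 8606484528) (nat_lit 20) (nat_lit 5) (nat_lit 21) (nat_lit 5) (nat_lit 22) (nat_lit 4) (nat_lit 322) (nat_lit 250) (nat_lit 208)) (XT.lf (nat_lit 0) (nat_lit 1988473356) (nat_lit 76) (nat_lit 24996569255) (nat_lit 76) (nat_lit 1978115241) (nat_lit 19) (nat_lit 4) (nat_lit 20) (nat_lit 5) (nat_lit 20) (nat_lit 4) (nat_lit 323) (nat_lit 250) (nat_lit 207)))) (XT.nd (nat_lit 156) (nat_lit 0) (nat_lit 0) (XT.nd (nat_lit 78) (nat_lit 76) (nat_lit 0) (XT.lf (nat_lit 0) (nat_lit 4970733610) (nat_lit 152) (nat_lit 13081174984) (nat_lit 76) (nat_lit 12109491614) (nat_lit 18) (nat_lit 5) (nat_lit 20) (nat_lit 5) (nat_lit 19) (nat_lit 4) (nat_lit 324) (nat_lit 250) (nat_lit 206)) (XT.lf (nat_lit 0) (nat_lit 1373877059) (nat_lit 76) (nat_lit 10789497810) (nat_lit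 152) (nat_lit 19257493648) (nat_lit 17) (nat_lit 5) (nat_lit 18) (nat_lit 5) (nat_lit 19) (nat_lit 4) (nat_lit 325) (nat_lit 250) (nat_lit 205))) (XT.nd (nat_lit 78) (nat_lit 0) (nat_lit 0) (XT.lf (nat_lit 0) (nat_lit 16689075551) (nat_lit 76) (nat_lit 3087232993) (nat_lit 152) (nat_lit 12965200179) (nat_lit 17) (nat_lit 5) (nat_lit 18) (nat_lit 5) (nat_lit 19) (nat_lit 4) (nat_lit 326) (nat_lit 250) (nat_lit 204)) (XT.lf (nat_lit 0) (nat_lit 27746911024) (nat_lit 152) (nat_lit 1537265565) (nat_lit 0) (nat_lit 4844711112) (nat_lit 17) (nat_lit 5) (nat_lit 19) (nat_lit 4) (nat_lit 17) (nat_lit 4) (nat_lit 327) (nat_lit 250) (nat_lit 203))))) (XT.nd (nat_lit 234) (nat_lit 152) (nat_lit 0) (XT.nd (nat_lit 78) (nat_lit 76) (nat_lit 0) (XT.lf (nat_lit 0) (nat_lit 617316520) (nat_lit 152) (nat_lit 21771502404) (nat_lit 76) (nat_lit 13193762092) (nat_lit 15) (nat_lit 5) (nat_lit 17) (nat_lit 5)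 (nat_lit 16) (nat_lit 4) (nat_lit 328) (nat_lit 250) (nat_lit 202)) (XT.nd (nat_lit 78) (nat_lit 76) (nat_lit 0) (XT.lf (nat_lit 0) (nat_lit 7785525821) (nat_lit 152) (nat_lit 7336661360) (nat_lit 76) (nat_lit 21986363307) (nat_lit 15) (nat_lit 5) (nat_lit 17) (nat_lit 5) (nat_lit 16) (nat_lit 4) (nat_lit 329) (nat_lit 250) (nat_lit 201)) (XT.lf (nat_lit 0) (nat_lit 7856497038) (nat_lit 76) (nat_lit 7468057708) (nat_lit 152) (nat_lit 23385906024) (nat_lit 14) (nat_lit 5) (nat_lit 15) (nat_lit 5) (nat_lit 16) (nat_lit 4) (nat_lit 330) (nat_lit 250) (nat_lit 200)))) (XT.nd (nat_lit 156) (nat_lit 152) (nat_lit 0) (XT.nd (nat_lit 78) (nat_lit 0) (nat_lit 0) (XT.lf (nat_lit 0) (nat_lit 23260576207) (nat_lit 152) (nat_lit 16548523300) (nat_lit 0) (nat_lit 582779744) (nat_lit 14) (nat_lit 5) (nat_lit 16) (nat_lit 4) (nat_lit 14) (nat_lit 4) (nat_lit 331) (nat_lit 250) (nat_lit 199)) (XT.lf (nat_lit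 0) (nat_lit 31610015105) (nat_lit 152) (nat_lit 1712459434) (nat_lit 0) (nat_lit 8834408879) (nat_lit 14) (nat_lit 5) (nat_lit 16) (nat_lit 4) (nat_lit 14) (nat_lit 4) (nat_lit 332) (nat_lit 250) (nat_lit 198))) (XT.nd (nat_lit 78) (nat_lit 76) (nat_lit 0) (XT.lf (nat_lit 0) (nat_lit 14035217002) (nat_lit 76) (nat_lit 26420661607) (nat_lit 76) (nat_lit 3551903226) (nat_lit 13) (nat_lit 4) (nat_lit 14) (nat_lit 5) (nat_lit 14) (nat_lit 4) (nat_lit 333) (nat_lit 250) (nat_lit 197)) (XT.lf (nat_lit 0) (nat_lit 3681783173) (nat_lit 152) (nat_lit 15483454876) (nat_lit 76) (nat_lit 26786015498) (nat_lit 12) (nat_lit 5) (nat_lit 14) (nat_lit 5) (nat_lit 13) (nat_lit 4) (nat_lit 334) (nat_lit 250) (nat_lit 196)))))) (XT.nd (nat_lit 546) (nat_lit 152) (nat_lit 0) (XT.nd (nat_lit 234) (nat_lit 152) (nat_lit 0) (XT.nd (nat_lit 78) (nat_lit 76) (nat_lit 0) (XT.lf (nat_lit 0) (nat_lit 11152169994) (nat_lit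 152) (nat_lit 403061380) (nat_lit 76) (nat_lit 36437169317) (nat_lit 12) (nat_lit 5) (nat_lit 14) (nat_lit 5) (nat_lit 13) (nat_lit 4) (nat_lit 335) (nat_lit 250) (nat_lit 195)) (XT.nd (nat_lit 78) (nat_lit 0) (nat_lit 0) (XT.lf (nat_lit 0) (nat_lit 15643933916) (nat_lit 76) (nat_lit 3452799442) (nat_lit 152) (nat_lit 31035862704) (nat_lit 11) (nat_lit 5) (nat_lit 12) (nat_lit 5) (nat_lit 13) (nat_lit 4) (nat_lit 336) (nat_lit 250) (nat_lit 194)) (XT.lf (nat_lit 0) (nat_lit 27442683029) (nat_lit 152) (nat_lit 20017690686) (nat_lit 0) (nat_lit 4919312824) (nat_lit 11) (nat_lit 5) (nat_lit 13) (nat_lit 4) (nat_lit 11) (nat_lit 4) (nat_lit 337) (nat_lit 250) (nat_lit 193)))) (XT.nd (nat_lit 156) (nat_lit 76) (nat_lit 0) (XT.nd (nat_lit 78) (nat_lit 76) (nat_lit 0) (XT.lf (nat_lit 0) (nat_lit 36194473941) (nat_lit 152) (nat_lit 4944768464) (nat_lit 0) (nat_lit 13600242425) (nat_lit 11) (nat_lit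 5) (nat_lit 13) (nat_lit 4) (nat_lit 11) (nat_lit 4) (nat_lit 338) (nat_lit 250) (nat_lit 192)) (XT.lf (nat_lit 0) (nat_lit 11014107762) (nat_lit 76) (nat_lit 34431519851) (nat_lit 76) (nat_lit 11769801371) (nat_lit 10) (nat_lit 4) (nat_lit 11) (nat_lit 5) (nat_lit 11) (nat_lit 4) (nat_lit 339) (nat_lit 250) (nat_lit 191))) (XT.nd (nat_lit 78) (nat_lit 76) (nat_lit 0) (XT.lf (nat_lit 0) (nat_lit 27794010099) (nat_lit 76) (nat_lit 27373458423) (nat_lit 76) (nat_lit 4647466645) (nat_lit 10) (nat_lit 4) (nat_lit 11) (nat_lit 5) (nat_lit 11) (nat_lit 4) (nat_lit 340) (nat_lit 250) (nat_lit 190)) (XT.lf (nat_lit 0) (nat_lit 2734594959) (nat_lit 152) (nat_lit 17235976674) (nat_lit 76) (nat_lit 42574271100) (nat_lit 9) (nat_lit 5) (nat_lit 11) (nat_lit 5) (nat_lit 10) (nat_lit 4) (nat_lit 341) (nat_lit 250) (nat_lit 189))))) (XT.nd (nat_lit 312) (nat_lit 76) (nat_lit 0) (XT.nd (nat_lit 156) (nat_lit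 0) (nat_lit 0) (XT.nd (nat_lit 78) (nat_lit 76) (nat_lit 0) (XT.lf (nat_lit 0) (nat_lit 10351348633) (nat_lit 152) (nat_lit 1832264493) (nat_lit 76) (nat_lit 53227408612) (nat_lit 9) (nat_lit 5) (nat_lit 11) (nat_lit 5) (nat_lit 10) (nat_lit 4) (nat_lit 342) (nat_lit 250) (nat_lit 188)) (XT.lf (nat_lit 0) (nat_lit 14555593322) (nat_lit 76) (nat_lit 3895942260) (nat_lit 152) (nat_lit 49965903548) (nat_lit 8) (nat_lit 5) (nat_lit 9) (nat_lit 5) (nat_lit 10) (nat_lit 4) (nat_lit 343) (nat_lit 250) (nat_lit 187))) (XT.nd (nat_lit 78) (nat_lit 0) (nat_lit 0) (XT.lf (nat_lit 0) (nat_lit 26985474442) (nat_lit 152) (nat_lit 39887714655) (nat_lit 0) (nat_lit 4700132974) (nat_lit 8) (nat_lit 5) (nat_lit 10) (nat_lit 4) (nat_lit 8) (nat_lit 4) (nat_lit 344) (nat_lit 250) (nat_lit 186)) (XT.lf (nat_lit 0) (nat_lit 35950666246) (nat_lit 152) (nat_lit 25319771100) (nat_lit 0) (nat_lit 13616431758) (nat_lit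 8) (nat_lit 5) (nat_lit 10) (nat_lit 4) (nat_lit 8) (nat_lit 4) (nat_lit 345) (nat_lit 250) (nat_lit 185)))) (XT.nd (nat_lit 156) (nat_lit 0) (nat_lit 0) (XT.nd (nat_lit 78) (nat_lit 76) (nat_lit 0) (XT.lf (nat_lit 0) (nat_lit 45331006510) (nat_lit 152) (nat_lit 10085879383) (nat_lit 0) (nat_lit 22950207239) (nat_lit 8) (nat_lit 5) (nat_lit 10) (nat_lit 4) (nat_lit 8) (nat_lit 4) (nat_lit 346) (nat_lit 250) (nat_lit 184)) (XT.lf (nat_lit 0) (nat_lit 5966662746) (nat_lit 76) (nat_lit 49239521841) (nat_lit 76) (nat_lit 26814375160) (nat_lit 7) (nat_lit 4) (nat_lit 8) (nat_lit 5) (nat_lit 8) (nat_lit 4) (nat_lit 347) (nat_lit 250) (nat_lit 183))) (XT.nd (nat_lit 78) (nat_lit 0) (nat_lit 0) (XT.lf (nat_lit 0) (nat_lit 22974826791) (nat_lit 76) (nat_lit 42673531910) (nat_lit 76) (nat_lit 20206149600) (nat_lit 7) (nat_lit 4) (nat_lit 8) (nat_lit 5) (nat_lit 8) (nat_lit 4) (nat_lit 348) (nat_lit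 250) (nat_lit 182)) (XT.lf (nat_lit 0) (nat_lit 40778379603) (nat_lit 76) (nat_lit 35805130398) (nat_lit 76) (nat_lit 13297523678) (nat_lit 7) (nat_lit 4) (nat_lit 8) (nat_lit 5) (nat_lit 8) (nat_lit 4) (nat_lit 349) (nat_lit 250) (nat_lit 181))))))))
noncomputable def xc34 : XT := (XT.nd (nat_lit 35958) (nat_lit 0) (nat_lit 1596) (XT.nd (nat_lit 1092) (nat_lit 0) (nat_lit 0) (XT.nd (nat_lit 546) (nat_lit 76) (nat_lit 0) (XT.nd (nat_lit 234) (nat_lit 76) (nat_lit 0) (XT.nd (nat_lit 78) (nat_lit 76) (nat_lit 0) (XT.lf (nat_lit 0) (nat_lit 59419710593) (nat_lit 76) (nat_lit 28617963966) (nat_lit 76) (nat_lit 6072048286) (nat_lit 7) (nat_lit 4) (nat_lit 8) (nat_lit 5) (nat_lit 8) (nat_lit 4) (nat_lit 350) (nat_lit 250) (nat_lit 180)) (XT.nd (nat_lit 78) (nat_lit 0) (nat_lit 0) (XT.lf (nat_lit 0) (nat_lit 1458453994) (nat_lit 152) (nat_lit 19621738795) (nat_lit 76) (nat_lit 77470022364) (nat_lit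 6) (nat_lit 5) (nat_lit 8) (nat_lit 5) (nat_lit 7) (nat_lit 4) (nat_lit 351) (nat_lit 250) (nat_lit 179)) (XT.lf (nat_lit 0) (nat_lit 9215650803) (nat_lit 152) (nat_lit 3909376629) (nat_lit 76) (nat_lit 90086633174) (nat_lit 6) (nat_lit 5) (nat_lit 8) (nat_lit 5) (nat_lit 7) (nat_lit 4) (nat_lit 352) (nat_lit 250) (nat_lit 178)))) (XT.nd (nat_lit 156) (nat_lit 0) (nat_lit 0) (XT.nd (nat_lit 78) (nat_lit 0) (nat_lit 0) (XT.lf (nat_lit 0) (nat_lit 12792480240) (nat_lit 76) (nat_lit 4666988095) (nat_lit 152) (nat_lit 90643751525) (nat_lit 5) (nat_lit 5) (nat_lit 6) (nat_lit 5) (nat_lit 7) (nat_lit 4) (nat_lit 353) (nat_lit 250) (nat_lit 177)) (XT.lf (nat_lit 0) (nat_lit 26172941760) (nat_lit 152) (nat_lit 82912877402) (nat_lit 0) (nat_lit 4151818110) (nat_lit 5) (nat_lit 5) (nat_lit 7) (nat_lit 4) (nat_lit 5) (nat_lit 4) (nat_lit 354) (nat_lit 250) (nat_lit 176))) (XT.nd (nat_lit 78) (nat_lit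 0) (nat_lit 0) (XT.lf (nat_lit 0) (nat_lit 35346637596) (nat_lit 152) (nat_lit 69985033316) (nat_lit 0) (nat_lit 13296372128) (nat_lit 5) (nat_lit 5) (nat_lit 7) (nat_lit 4) (nat_lit 5) (nat_lit 4) (nat_lit 355) (nat_lit 250) (nat_lit 175)) (XT.lf (nat_lit 0) (nat_lit 44957536034) (nat_lit 152) (nat_lit 56451564838) (nat_lit 0) (nat_lit 22879516453) (nat_lit 5) (nat_lit 5) (nat_lit 7) (nat_lit 4) (nat_lit 5) (nat_lit 4) (nat_lit 356) (nat_lit 250) (nat_lit 174))))) (XT.nd (nat_lit 234) (nat_lit 76) (nat_lit 0) (XT.nd (nat_lit 78) (nat_lit 0) (nat_lit 0) (XT.lf (nat_lit 0) (nat_lit 55028520164) (nat_lit 152) (nat_lit 42280249423) (nat_lit 0) (nat_lit 32924068094) (nat_lit 5) (nat_lit 5) (nat_lit 7) (nat_lit 4) (nat_lit 5) (nat_lit 4) (nat_lit 357) (nat_lit 250) (nat_lit 173)) (XT.nd (nat_lit 78) (nat_lit 0) (nat_lit 0) (XT.lf (nat_lit 0) (nat_lit 65583568520) (nat_lit 152) (nat_lit 27437345843)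 (nat_lit 0) (nat_lit 43453942652) (nat_lit 5) (nat_lit 5) (nat_lit 7) (nat_lit 4) (nat_lit 5) (nat_lit 4) (nat_lit 358) (nat_lit 250) (nat_lit 172)) (XT.lf (nat_lit 0) (nat_lit 76647812170) (nat_lit 152) (nat_lit 11887513854) (nat_lit 0) (nat_lit 54494211255) (nat_lit 5) (nat_lit 5) (nat_lit 7) (nat_lit 4) (nat_lit 5) (nat_lit 4) (nat_lit 359) (nat_lit 250) (nat_lit 171)))) (XT.nd (nat_lit 156) (nat_lit 0) (nat_lit 0) (XT.nd (nat_lit 78) (nat_lit 0) (nat_lit 0) (XT.lf (nat_lit 0) (nat_lit 4493963367) (nat_lit 76) (nat_lit 83796829909) (nat_lit 76) (nat_lit 61620395617) (nat_lit 4) (nat_lit 4) (nat_lit 5) (nat_lit 5) (nat_lit 5) (nat_lit 4) (nat_lit 360) (nat_lit 250) (nat_lit 170)) (XT.lf (nat_lit 0) (nat_lit 21910350158) (nat_lit 76) (nat_lit 78710799724) (nat_lit 76) (nat_lit 56512619358) (nat_lit 4) (nat_lit 4) (nat_lit 5) (nat_lit 5) (nat_lit 5) (nat_lit 4) (nat_lit 361) (nat_lit 250)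 (nat_lit 169))) (XT.nd (nat_lit 78) (nat_lit 0) (nat_lit 0) (XT.lf (nat_lit 0) (nat_lit 40166529270) (nat_lit 76) (nat_lit 73385166455) (nat_lit 76) (nat_lit 51166275542) (nat_lit 4) (nat_lit 4) (nat_lit 5) (nat_lit 5) (nat_lit 5) (nat_lit 4) (nat_lit 362) (nat_lit 250) (nat_lit 168)) (XT.lf (nat_lit 0) (nat_lit 59305967798) (nat_lit 76) (nat_lit 67807250023) (nat_lit 76) (nat_lit 45568634780) (nat_lit 4) (nat_lit 4) (nat_lit 5) (nat_lit 5) (nat_lit 5) (nat_lit 4) (nat_lit 363) (nat_lit 250) (nat_lit 167)))))) (XT.nd (nat_lit 34320) (nat_lit 0) (nat_lit 7448) (XT.nd (nat_lit 34008) (nat_lit 0) (nat_lit 10944) (XT.nd (nat_lit 78) (nat_lit 0) (nat_lit 0) (XT.lf (nat_lit 0) (nat_lit 79374235833) (nat_lit 76) (nat_lit 61963769674) (nat_lit 76) (nat_lit 39706369355) (nat_lit 4) (nat_lit 4) (nat_lit 5) (nat_lit 5) (nat_lit 5) (nat_lit 4) (nat_lit 364) (nat_lit 250) (nat_lit 166)) (XT.nd (nat_lit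 33852) (nat_lit 0) (nat_lit 13756) (XT.lf (nat_lit 0) (nat_lit 100419114965) (nat_lit 76) (nat_lit 55840812360) (nat_lit 76) (nat_lit 33565521493) (nat_lit 4) (nat_lit 4) (nat_lit 5) (nat_lit 5) (nat_lit 5) (nat_lit 4) (nat_lit 365) (nat_lit 250) (nat_lit 165)) (XT.lf (nat_lit 0) (nat_lit 3429738532) (nat_lit 608) (nat_lit 148030091) (nat_lit 608) (nat_lit 148030091) (nat_lit 185) (nat_lit 4) (nat_lit 193) (nat_lit 5) (nat_lit 193) (nat_lit 4) (nat_lit 278) (nat_lit 251) (nat_lit 251)))) (XT.nd (nat_lit 156) (nat_lit 1064) (nat_lit 0) (XT.nd (nat_lit 78) (nat_lit 608) (nat_lit 0) (XT.lf (nat_lit 0) (nat_lit 678186097) (nat_lit 532) (nat_lit 4631368714) (nat_lit 532) (nat_lit 2261934258) (nat_lit 170) (nat_lit 4) (nat_lit 177) (nat_lit 5) (nat_lit 177) (nat_lit 4) (nat_lit 279) (nat_lit 251) (nat_lit 250)) (XT.lf (nat_lit 0) (nat_lit 2023088476) (nat_lit 532) (nat_lit 1252343630) (nat_lit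 608) (nat_lit 4425599059) (nat_lit 162) (nat_lit 5) (nat_lit 169) (nat_lit 5) (nat_lit 170) (nat_lit 4) (nat_lit 280) (nat_lit 251) (nat_lit 249))) (XT.nd (nat_lit 78) (nat_lit 456) (nat_lit 0) (XT.lf (nat_lit 0) (nat_lit 1056853459) (nat_lit 608) (nat_lit 4432437571) (nat_lit 76) (nat_lit 2350797374) (nat_lit 154) (nat_lit 5) (nat_lit 162) (nat_lit 5) (nat_lit 155) (nat_lit 4) (nat_lit 281) (nat_lit 251) (nat_lit 248)) (XT.lf (nat_lit 0) (nat_lit 4824254067) (nat_lit 456) (nat_lit 1771457759) (nat_lit 532) (nat_lit 1393119228) (nat_lit 148) (nat_lit 5) (nat_lit 154) (nat_lit 5) (nat_lit 155) (nat_lit 4) (nat_lit 282) (nat_lit 251) (nat_lit 247))))) (XT.nd (nat_lit 234) (nat_lit 1672) (nat_lit 0) (XT.nd (nat_lit 78) (nat_lit 1292) (nat_lit 0) (XT.lf (nat_lit 0) (nat_lit 4072451937) (nat_lit 532) (nat_lit 1885935819) (nat_lit 76) (nat_lit 2188958301) (nat_lit 141) (nat_lit 5) (nat_lit 148)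 (nat_lit 5) (nat_lit 142) (nat_lit 4) (nat_lit 283) (nat_lit 251) (nat_lit 246)) (XT.nd (nat_lit 78) (nat_lit 836) (nat_lit 0) (XT.lf (nat_lit 0) (nat_lit 1334071766) (nat_lit 456) (nat_lit 587712046) (nat_lit 76) (nat_lit 6394580365) (nat_lit 135) (nat_lit 5) (nat_lit 141) (nat_lit 5) (nat_lit 136) (nat_lit 5) (nat_lit 284) (nat_lit 251) (nat_lit 245)) (XT.lf (nat_lit 0) (nat_lit 718220644) (nat_lit 380) (nat_lit 6125403982) (nat_lit 456) (nat_lit 1651778665) (nat_lit 124) (nat_lit 5) (nat_lit 129) (nat_lit 5) (nat_lit 130) (nat_lit 4) (nat_lit 285) (nat_lit 251) (nat_lit 244)))) (XT.nd (nat_lit 156) (nat_lit 760) (nat_lit 0) (XT.nd (nat_lit 78) (nat_lit 456) (nat_lit 0) (XT.lf (nat_lit 0) (nat_lit 2027849654) (nat_lit 380) (nat_lit 1755770562) (nat_lit 456) (nat_lit 4901372869) (nat_lit 118) (nat_lit 5) (nat_lit 123) (nat_lit 5) (nat_lit 124) (nat_lit 5) (nat_lit 286) (nat_lit 251) (nat_lit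 243)) (XT.lf (nat_lit 0) (nat_lit 486159478) (nat_lit 456) (nat_lit 5557281986) (nat_lit 76) (nat_lit 2842418435) (nat_lit 112) (nat_lit 5) (nat_lit 118) (nat_lit 5) (nat_lit 113) (nat_lit 5) (nat_lit 287) (nat_lit 251) (nat_lit 242))) (XT.nd (nat_lit 78) (nat_lit 380) (nat_lit 0) (XT.lf (nat_lit 0) (nat_lit 4592861028) (nat_lit 380) (nat_lit 1370933255) (nat_lit 456) (nat_lit 3134030429) (nat_lit 107) (nat_lit 5) (nat_lit 112) (nat_lit 5) (nat_lit 113) (nat_lit 5) (nat_lit 288) (nat_lit 251) (nat_lit 241)) (XT.lf (nat_lit 0) (nat_lit 2292064042) (nat_lit 380) (nat_lit 3501408029) (nat_lit 76) (nat_lit 3528069077) (nat_lit 102) (nat_lit 5) (nat_lit 107) (nat_lit 5) (nat_lit 103) (nat_lit 5) (nat_lit 289) (nat_lit 251) (nat_lit 240))))))) (XT.nd (nat_lit 1092) (nat_lit 1976) (nat_lit 0) (XT.nd (nat_lit 546) (nat_lit 1444) (nat_lit 0) (XT.nd (nat_lit 234) (nat_lit 1444) (nat_lit 0) (XT.nd (nat_lit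 78) (nat_lit 684) (nat_lit 0) (XT.lf (nat_lit 0) (nat_lit 7011338420) (nat_lit 304) (nat_lit 843570449) (nat_lit 380) (nat_lit 1702848404) (nat_lit 98) (nat_lit 5) (nat_lit 102) (nat_lit 5) (nat_lit 103) (nat_lit 5) (nat_lit 290) (nat_lit 251) (nat_lit 239)) (XT.nd (nat_lit 78) (nat_lit 304) (nat_lit 0) (XT.lf (nat_lit 0) (nat_lit 3778027560) (nat_lit 380) (nat_lit 1686079609) (nat_lit 76) (nat_lit 4341781563) (nat_lit 93) (nat_lit 5) (nat_lit 98) (nat_lit 5) (nat_lit 94) (nat_lit 5) (nat_lit 291) (nat_lit 251) (nat_lit 238)) (XT.lf (nat_lit 0) (nat_lit 9187096800) (nat_lit 304) (nat_lit 246505435) (nat_lit 380) (nat_lit 634376967) (nat_lit 89) (nat_lit 5) (nat_lit 93) (nat_lit 5) (nat_lit 94) (nat_lit 5) (nat_lit 292) (nat_lit 251) (nat_lit 237)))) (XT.nd (nat_lit 156) (nat_lit 532) (nat_lit 0) (XT.nd (nat_lit 78) (nat_lit 608) (nat_lit 0) (XT.lf (nat_lit 0) (nat_lit 4913817195) (nat_lit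 304) (nat_lit 217452662) (nat_lit 76) (nat_lit 5211083467) (nat_lit 85) (nat_lit 5) (nat_lit 89) (nat_lit 5) (nat_lit 86) (nat_lit 5) (nat_lit 293) (nat_lit 251) (nat_lit 236)) (XT.lf (nat_lit 0) (nat_lit 40199394) (nat_lit 304) (nat_lit 10251350625) (nat_lit 76) (nat_lit 340414018) (nat_lit 77) (nat_lit 5) (nat_lit 81) (nat_lit 5) (nat_lit 78) (nat_lit 5) (nat_lit 294) (nat_lit 251) (nat_lit 235))) (XT.nd (nat_lit 78) (nat_lit 304) (nat_lit 0) (XT.lf (nat_lit 0) (nat_lit 796881388) (nat_lit 228) (nat_lit 4868676831) (nat_lit 304) (nat_lit 5269130364) (nat_lit 74) (nat_lit 5) (nat_lit 77) (nat_lit 5) (nat_lit 78) (nat_lit 5) (nat_lit 295) (nat_lit 251) (nat_lit 234)) (XT.lf (nat_lit 0) (nat_lit 265838858) (nat_lit 304) (nat_lit 10149915774) (nat_lit 76) (nat_lit 838230530) (nat_lit 70) (nat_lit 5) (nat_lit 74) (nat_lit 5) (nat_lit 71) (nat_lit 5) (nat_lit 296) (nat_lit 251) (nat_lit 233)))))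 (XT.nd (nat_lit 234) (nat_lit 684) (nat_lit 0) (XT.nd (nat_lit 78) (nat_lit 532) (nat_lit 0) (XT.lf (nat_lit 0) (nat_lit 1189648134) (nat_lit 228) (nat_lit 4777726407) (nat_lit 304) (nat_lit 5620439566) (nat_lit 67) (nat_lit 5) (nat_lit 70) (nat_lit 5) (nat_lit 71) (nat_lit 5) (nat_lit 297) (nat_lit 251) (nat_lit 232)) (XT.nd (nat_lit 78) (nat_lit 304) (nat_lit 0) (XT.lf (nat_lit 0) (nat_lit 1122496850) (nat_lit 228) (nat_lit 10795230925) (nat_lit 304) (nat_lit 21786287) (nat_lit 64) (nat_lit 5) (nat_lit 67) (nat_lit 5) (nat_lit 68) (nat_lit 4) (nat_lit 298) (nat_lit 251) (nat_lit 231)) (XT.lf (nat_lit 0) (nat_lit 784333573) (nat_lit 228) (nat_lit 4962196814) (nat_lit 304) (nat_lit 6560543986) (nat_lit 60) (nat_lit 5) (nat_lit 63) (nat_lit 5) (nat_lit 64) (nat_lit 5) (nat_lit 299) (nat_lit 251) (nat_lit 230)))) (XT.nd (nat_lit 156) (nat_lit 456) (nat_lit 0) (XT.nd (nat_lit 78) (nat_lit 76)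 (nat_lit 0) (XT.lf (nat_lit 0) (nat_lit 241588325) (nat_lit 152) (nat_lit 11531647228) (nat_lit 228) (nat_lit 920738805) (nat_lit 58) (nat_lit 5) (nat_lit 60) (nat_lit 5) (nat_lit 61) (nat_lit 4) (nat_lit 300) (nat_lit 251) (nat_lit 229)) (XT.lf (nat_lit 0) (nat_lit 4921292463) (nat_lit 228) (nat_lit 609676176) (nat_lit 76) (nat_lit 7567348511) (nat_lit 57) (nat_lit 5) (nat_lit 60) (nat_lit 5) (nat_lit 58) (nat_lit 5) (nat_lit 301) (nat_lit 251) (nat_lit 228))) (XT.nd (nat_lit 78) (nat_lit 228) (nat_lit 0) (XT.lf (nat_lit 0) (nat_lit 11013001387) (nat_lit 304) (nat_lit 1721786416) (nat_lit 76) (nat_lit 788588421) (nat_lit 54) (nat_lit 5) (nat_lit 58) (nat_lit 5) (nat_lit 55) (nat_lit 4) (nat_lit 302) (nat_lit 251) (nat_lit 227)) (XT.lf (nat_lit 0) (nat_lit 3397641338) (nat_lit 228) (nat_lit 3204226092) (nat_lit 76) (nat_lit 7366140136) (nat_lit 51) (nat_lit 5) (nat_lit 54) (nat_lit 5) (nat_lit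 52) (nat_lit 5) (nat_lit 303) (nat_lit 251) (nat_lit 226)))))) (XT.nd (nat_lit 546) (nat_lit 836) (nat_lit 0) (XT.nd (nat_lit 234) (nat_lit 532) (nat_lit 0) (XT.nd (nat_lit 78) (nat_lit 380) (nat_lit 0) (XT.lf (nat_lit 0) (nat_lit 9403749881) (nat_lit 228) (nat_lit 116297974) (nat_lit 304) (nat_lit 4915012409) (nat_lit 48) (nat_lit 5) (nat_lit 51) (nat_lit 5) (nat_lit 52) (nat_lit 5) (nat_lit 304) (nat_lit 251) (nat_lit 225)) (XT.nd (nat_lit 78) (nat_lit 152) (nat_lit 0) (XT.lf (nat_lit 0) (nat_lit 1040266064) (nat_lit 228) (nat_lit 7291670934) (nat_lit 76) (nat_lit 6592177869) (nat_lit 45) (nat_lit 5) (nat_lit 48) (nat_lit 5) (nat_lit 46) (nat_lit 5) (nat_lit 305) (nat_lit 251) (nat_lit 224)) (XT.lf (nat_lit 0) (nat_lit 5430818004) (nat_lit 152) (nat_lit 1736103390) (nat_lit 228) (nat_lit 8270038209) (nat_lit 43) (nat_lit 5) (nat_lit 45) (nat_lit 5) (nat_lit 46) (nat_lit 5) (nat_lit 306)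 (nat_lit 251) (nat_lit 223)))) (XT.nd (nat_lit 156) (nat_lit 304) (nat_lit 0) (XT.nd (nat_lit 78) (nat_lit 76) (nat_lit 0) (XT.lf (nat_lit 0) (nat_lit 2752737785) (nat_lit 152) (nat_lit 10871282699) (nat_lit 228) (nat_lit 2350755332) (nat_lit 41) (nat_lit 5) (nat_lit 43) (nat_lit 5) (nat_lit 44) (nat_lit 4) (nat_lit 307) (nat_lit 251) (nat_lit 222)) (XT.lf (nat_lit 0) (nat_lit 3785365302) (nat_lit 228) (nat_lit 448649505) (nat_lit 76) (nat_lit 12304513691) (nat_lit 40) (nat_lit 5) (nat_lit 43) (nat_lit 5) (nat_lit 41) (nat_lit 5) (nat_lit 308) (nat_lit 251) (nat_lit 221))) (XT.nd (nat_lit 78) (nat_lit 152) (nat_lit 0) (XT.lf (nat_lit 0) (nat_lit 10212617329) (nat_lit 228) (nat_lit 4168425921) (nat_lit 76) (nat_lit 2747785336) (nat_lit 38) (nat_lit 5) (nat_lit 41) (nat_lit 5) (nat_lit 39) (nat_lit 4) (nat_lit 309) (nat_lit 251) (nat_lit 220)) (XT.lf (nat_lit 0) (nat_lit 9236424572) (nat_lit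 152) (nat_lit 7744657860) (nat_lit 228) (nat_lit 767009819) (nat_lit 36) (nat_lit 5) (nat_lit 38) (nat_lit 5) (nat_lit 39) (nat_lit 4) (nat_lit 310) (nat_lit 251) (nat_lit 219))))) (XT.nd (nat_lit 312) (nat_lit 304) (nat_lit 0) (XT.nd (nat_lit 156) (nat_lit 304) (nat_lit 0) (XT.nd (nat_lit 78) (nat_lit 0) (nat_lit 0) (XT.lf (nat_lit 0) (nat_lit 4842643816) (nat_lit 152) (nat_lit 712031695) (nat_lit 228) (nat_lit 12842762099) (nat_lit 33) (nat_lit 5) (nat_lit 35) (nat_lit 5) (nat_lit 36) (nat_lit 5) (nat_lit 311) (nat_lit 251) (nat_lit 218)) (XT.lf (nat_lit 0) (nat_lit 12218295707) (nat_lit 228) (nat_lit 302028452) (nat_lit 76) (nat_lit 6557485673) (nat_lit 33) (nat_lit 5) (nat_lit 36) (nat_lit 5) (nat_lit 34) (nat_lit 4) (nat_lit 312) (nat_lit 251) (nat_lit 217))) (XT.nd (nat_lit 78) (nat_lit 228) (nat_lit 0) (XT.lf (nat_lit 0) (nat_lit 13687373776) (nat_lit 76) (nat_lit 5560710709) (nat_lit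 152) (nat_lit 543163528) (nat_lit 32) (nat_lit 5) (nat_lit 33) (nat_lit 5) (nat_lit 34) (nat_lit 4) (nat_lit 313) (nat_lit 251) (nat_lit 216)) (XT.lf (nat_lit 0) (nat_lit 5961707243) (nat_lit 228) (nat_lit 12804455154) (nat_lit 76) (nat_lit 1772728327) (nat_lit 29) (nat_lit 5) (nat_lit 32) (nat_lit 5) (nat_lit 30) (nat_lit 4) (nat_lit 314) (nat_lit 251) (nat_lit 215)))) (XT.nd (nat_lit 156) (nat_lit 228) (nat_lit 0) (XT.nd (nat_lit 78) (nat_lit 0) (nat_lit 0) (XT.lf (nat_lit 0) (nat_lit 844702701) (nat_lit 76) (nat_lit 11962654957) (nat_lit 152) (nat_lit 8515626052) (nat_lit 28) (nat_lit 5) (nat_lit 29) (nat_lit 5) (nat_lit 30) (nat_lit 4) (nat_lit 315) (nat_lit 251) (nat_lit 214)) (XT.lf (nat_lit 0) (nat_lit 15269312107) (nat_lit 76) (nat_lit 4759885740) (nat_lit 152) (nat_lit 2116097291) (nat_lit 28) (nat_lit 5) (nat_lit 29) (nat_lit 5) (nat_lit 30) (nat_lit 4) (nat_lit 316) (nat_lit 251)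 (nat_lit 213))) (XT.nd (nat_lit 78) (nat_lit 0) (nat_lit 0) (XT.lf (nat_lit 0) (nat_lit 4517284608) (nat_lit 228) (nat_lit 15698320637) (nat_lit 76) (nat_lit 2791706869) (nat_lit 25) (nat_lit 5) (nat_lit 28) (nat_lit 5) (nat_lit 26) (nat_lit 4) (nat_lit 317) (nat_lit 251) (nat_lit 212)) (XT.lf (nat_lit 0) (nat_lit 11466532932) (nat_lit 228) (nat_lit 1798929639) (nat_lit 76) (nat_lit 10645527290) (nat_lit 25) (nat_lit 5) (nat_lit 28) (nat_lit 5) (nat_lit 26) (nat_lit 4) (nat_lit 318) (nat_lit 251) (nat_lit 211))))))))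
noncomputable def xc35 : XT := (XT.nd (nat_lit 2184) (nat_lit 304) (nat_lit 0) (XT.nd (nat_lit 1092) (nat_lit 456) (nat_lit 0) (XT.nd (nat_lit 546) (nat_lit 304) (nat_lit 0) (XT.nd (nat_lit 234) (nat_lit 228) (nat_lit 0) (XT.nd (nat_lit 78) (nat_lit 228) (nat_lit 0) (XT.lf (nat_lit 0) (nat_lit 12889402994) (nat_lit 76) (nat_lit 5910150047) (nat_lit 152) (nat_lit 6059235180) (nat_lit 24) (nat_lit 5) (nat_lit 25) (nat_lit 5) (nat_lit 26) (nat_lit 4) (nat_lit 319) (nat_lit 251) (nat_lit 210)) (XT.nd (nat_lit 78) (nat_lit 0) (nat_lit 0) (XT.lf (nat_lit 0) (nat_lit 605732831) (nat_lit 228) (nat_lit 23490725139) (nat_lit 76) (nat_lit 1758164214) (nat_lit 21) (nat_lit 5) (nat_lit 24) (nat_lit 5) (nat_lit 22) (nat_lit 4) (nat_lit 320) (nat_lit 251) (nat_lit 209)) (XT.lf (nat_lit 0) (nat_lit 7580122967) (nat_lit 228) (nat_lit 9506808393) (nat_lit 76) (nat_lit 9808494976) (nat_lit 21) (nat_lit 5) (nat_lit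 24) (nat_lit 5) (nat_lit 22) (nat_lit 4) (nat_lit 321) (nat_lit 251) (nat_lit 208)))) (XT.nd (nat_lit 156) (nat_lit 152) (nat_lit 0) (XT.nd (nat_lit 78) (nat_lit 0) (nat_lit 0) (XT.lf (nat_lit 0) (nat_lit 5131489939) (nat_lit 76) (nat_lit 9741294758) (nat_lit 152) (nat_lit 13116421248) (nat_lit 20) (nat_lit 5) (nat_lit 21) (nat_lit 5) (nat_lit 22) (nat_lit 4) (nat_lit 322) (nat_lit 251) (nat_lit 207)) (XT.lf (nat_lit 0) (nat_lit 20559574329) (nat_lit 76) (nat_lit 1991039872) (nat_lit 152) (nat_lit 6586465065) (nat_lit 20) (nat_lit 5) (nat_lit 21) (nat_lit 5) (nat_lit 22) (nat_lit 4) (nat_lit 323) (nat_lit 251) (nat_lit 206))) (XT.nd (nat_lit 78) (nat_lit 0) (nat_lit 0) (XT.lf (nat_lit 0) (nat_lit 311012004) (nat_lit 152) (nat_lit 23998317966) (nat_lit 76) (nat_lit 6031568888) (nat_lit 18) (nat_lit 5) (nat_lit 20) (nat_lit 5) (nat_lit 19) (nat_lit 4) (nat_lit 324) (nat_lit 251) (nat_lit 205))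 (XT.lf (nat_lit 0) (nat_lit 7454987288) (nat_lit 152) (nat_lit 9635105010) (nat_lit 76) (nat_lit 14511743772) (nat_lit 18) (nat_lit 5) (nat_lit 20) (nat_lit 5) (nat_lit 19) (nat_lit 4) (nat_lit 325) (nat_lit 251) (nat_lit 204))))) (XT.nd (nat_lit 234) (nat_lit 152) (nat_lit 0) (XT.nd (nat_lit 78) (nat_lit 76) (nat_lit 0) (XT.lf (nat_lit 0) (nat_lit 5425170268) (nat_lit 76) (nat_lit 9513910808) (nat_lit 152) (nat_lit 17987268896) (nat_lit 17) (nat_lit 5) (nat_lit 18) (nat_lit 5) (nat_lit 19) (nat_lit 4) (nat_lit 326) (nat_lit 251) (nat_lit 203)) (XT.nd (nat_lit 78) (nat_lit 76) (nat_lit 0) (XT.lf (nat_lit 0) (nat_lit 21316481097) (nat_lit 76) (nat_lit 1512964270) (nat_lit 152) (nat_lit 11486698822) (nat_lit 17) (nat_lit 5) (nat_lit 18) (nat_lit 5) (nat_lit 19) (nat_lit 4) (nat_lit 327) (nat_lit 251) (nat_lit 202)) (XT.lf (nat_lit 0) (nat_lit 2082484196) (nat_lit 76) (nat_lit 29053636249) (nat_lit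 76) (nat_lit 4638669695) (nat_lit 16) (nat_lit 4) (nat_lit 17) (nat_lit 5) (nat_lit 17) (nat_lit 4) (nat_lit 328) (nat_lit 251) (nat_lit 201)))) (XT.nd (nat_lit 156) (nat_lit 76) (nat_lit 0) (XT.nd (nat_lit 78) (nat_lit 0) (nat_lit 0) (XT.lf (nat_lit 0) (nat_lit 2589270273) (nat_lit 152) (nat_lit 19269818220) (nat_lit 76) (nat_lit 15443939535) (nat_lit 15) (nat_lit 5) (nat_lit 17) (nat_lit 5) (nat_lit 16) (nat_lit 4) (nat_lit 329) (nat_lit 251) (nat_lit 200)) (XT.lf (nat_lit 0) (nat_lit 10023457281) (nat_lit 152) (nat_lit 4284199852) (nat_lit 76) (nat_lit 24600433223) (nat_lit 15) (nat_lit 5) (nat_lit 17) (nat_lit 5) (nat_lit 16) (nat_lit 4) (nat_lit 330) (nat_lit 251) (nat_lit 199))) (XT.nd (nat_lit 78) (nat_lit 0) (nat_lit 0) (XT.lf (nat_lit 0) (nat_lit 11570603074) (nat_lit 76) (nat_lit 6312729567) (nat_lit 152) (nat_lit 22708467043) (nat_lit 14) (nat_lit 5) (nat_lit 15) (nat_lit 5) (nat_lit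 16) (nat_lit 4) (nat_lit 331) (nat_lit 251) (nat_lit 198)) (XT.lf (nat_lit 0) (nat_lit 26144790974) (nat_lit 152) (nat_lit 14175215931) (nat_lit 0) (nat_lit 2039442520) (nat_lit 14) (nat_lit 5) (nat_lit 16) (nat_lit 4) (nat_lit 14) (nat_lit 4) (nat_lit 332) (nat_lit 251) (nat_lit 197)))))) (XT.nd (nat_lit 546) (nat_lit 228) (nat_lit 0) (XT.nd (nat_lit 234) (nat_lit 76) (nat_lit 0) (XT.nd (nat_lit 78) (nat_lit 76) (nat_lit 0) (XT.lf (nat_lit 0) (nat_lit 1275117378) (nat_lit 76) (nat_lit 33566880411) (nat_lit 76) (nat_lit 9372815618) (nat_lit 13) (nat_lit 4) (nat_lit 14) (nat_lit 5) (nat_lit 14) (nat_lit 4) (nat_lit 333) (nat_lit 251) (nat_lit 196)) (XT.nd (nat_lit 78) (nat_lit 76) (nat_lit 0) (XT.lf (nat_lit 0) (nat_lit 17697916090) (nat_lit 76) (nat_lit 26370385200) (nat_lit 76) (nat_lit 2091828657) (nat_lit 13) (nat_lit 4) (nat_lit 14) (nat_lit 5) (nat_lit 14) (nat_lit 4) (nat_lit 334) (nat_lit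 251) (nat_lit 195)) (XT.lf (nat_lit 0) (nat_lit 5395122709) (nat_lit 152) (nat_lit 13406925777) (nat_lit 76) (nat_lit 29400564645) (nat_lit 12) (nat_lit 5) (nat_lit 14) (nat_lit 5) (nat_lit 13) (nat_lit 4) (nat_lit 335) (nat_lit 251) (nat_lit 194)))) (XT.nd (nat_lit 156) (nat_lit 0) (nat_lit 0) (XT.nd (nat_lit 78) (nat_lit 0) (nat_lit 0) (XT.lf (nat_lit 0) (nat_lit 2337349799) (nat_lit 76) (nat_lit 10851325660) (nat_lit 152) (nat_lit 37158668278) (nat_lit 11) (nat_lit 5) (nat_lit 12) (nat_lit 5) (nat_lit 13) (nat_lit 4) (nat_lit 336) (nat_lit 251) (nat_lit 193)) (XT.lf (nat_lit 0) (nat_lit 19063261132) (nat_lit 76) (nat_lit 2400733777) (nat_lit 152) (nat_lit 31132562896) (nat_lit 11) (nat_lit 5) (nat_lit 12) (nat_lit 5) (nat_lit 13) (nat_lit 4) (nat_lit 337) (nat_lit 251) (nat_lit 192))) (XT.nd (nat_lit 78) (nat_lit 0) (nat_lit 0) (XT.lf (nat_lit 0) (nat_lit 30171195755) (nat_lit 152) (nat_lit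 18477598115) (nat_lit 0) (nat_lit 6308904389) (nat_lit 11) (nat_lit 5) (nat_lit 13) (nat_lit 4) (nat_lit 11) (nat_lit 4) (nat_lit 338) (nat_lit 251) (nat_lit 191)) (XT.lf (nat_lit 0) (nat_lit 39295986757) (nat_lit 152) (nat_lit 2772028692) (nat_lit 0) (nat_lit 15369422092) (nat_lit 11) (nat_lit 5) (nat_lit 13) (nat_lit 4) (nat_lit 11) (nat_lit 4) (nat_lit 339) (nat_lit 251) (nat_lit 190))))) (XT.nd (nat_lit 234) (nat_lit 76) (nat_lit 0) (XT.nd (nat_lit 78) (nat_lit 76) (nat_lit 0) (XT.lf (nat_lit 0) (nat_lit 13915423157) (nat_lit 76) (nat_lit 35055356689) (nat_lit 76) (nat_lit 11067579359) (nat_lit 10) (nat_lit 4) (nat_lit 11) (nat_lit 5) (nat_lit 11) (nat_lit 4) (nat_lit 340) (nat_lit 251) (nat_lit 189)) (XT.nd (nat_lit 78) (nat_lit 76) (nat_lit 0) (XT.lf (nat_lit 0) (nat_lit 31422386801) (nat_lit 76) (nat_lit 27696665483) (nat_lit 76) (nat_lit 3650590377) (nat_lit 10) (nat_lit 4) (nat_lit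 11) (nat_lit 5) (nat_lit 11) (nat_lit 4) (nat_lit 341) (nat_lit 251) (nat_lit 188)) (XT.lf (nat_lit 0) (nat_lit 4019193768) (nat_lit 152) (nat_lit 15942633448) (nat_lit 76) (nat_lit 45675596936) (nat_lit 9) (nat_lit 5) (nat_lit 11) (nat_lit 5) (nat_lit 10) (nat_lit 4) (nat_lit 342) (nat_lit 251) (nat_lit 187)))) (XT.nd (nat_lit 156) (nat_lit 0) (nat_lit 0) (XT.nd (nat_lit 78) (nat_lit 0) (nat_lit 0) (XT.lf (nat_lit 0) (nat_lit 131198687) (nat_lit 76) (nat_lit 11832187168) (nat_lit 152) (nat_lit 56685138928) (nat_lit 8) (nat_lit 5) (nat_lit 9) (nat_lit 5) (nat_lit 10) (nat_lit 4) (nat_lit 343) (nat_lit 251) (nat_lit 186)) (XT.lf (nat_lit 0) (nat_lit 17277054270) (nat_lit 76) (nat_lit 3157373651) (nat_lit 152) (nat_lit 51371869939) (nat_lit 8) (nat_lit 5) (nat_lit 9) (nat_lit 5) (nat_lit 10) (nat_lit 4) (nat_lit 344) (nat_lit 251) (nat_lit 185))) (XT.nd (nat_lit 78) (nat_lit 0) (nat_lit 0)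 (XT.lf (nat_lit 0) (nat_lit 29353117347) (nat_lit 152) (nat_lit 39961412363) (nat_lit 0) (nat_lit 5806713332) (nat_lit 8) (nat_lit 5) (nat_lit 10) (nat_lit 4) (nat_lit 8) (nat_lit 4) (nat_lit 345) (nat_lit 251) (nat_lit 184)) (XT.lf (nat_lit 0) (nat_lit 38718074971) (nat_lit 152) (nat_lit 24756532964) (nat_lit 0) (nat_lit 15127323545) (nat_lit 8) (nat_lit 5) (nat_lit 10) (nat_lit 4) (nat_lit 8) (nat_lit 4) (nat_lit 346) (nat_lit 251) (nat_lit 183))))))) (XT.nd (nat_lit 1092) (nat_lit 76) (nat_lit 0) (XT.nd (nat_lit 546) (nat_lit 76) (nat_lit 0) (XT.nd (nat_lit 234) (nat_lit 76) (nat_lit 0) (XT.nd (nat_lit 78) (nat_lit 76) (nat_lit 0) (XT.lf (nat_lit 0) (nat_lit 48521247704) (nat_lit 152) (nat_lit 8848052695) (nat_lit 0) (nat_lit 24888260648) (nat_lit 8) (nat_lit 5) (nat_lit 10) (nat_lit 4) (nat_lit 8) (nat_lit 4) (nat_lit 347) (nat_lit 251) (nat_lit 182)) (XT.nd (nat_lit 78) (nat_lit 0) (nat_lit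 0) (XT.lf (nat_lit 0) (nat_lit 7957179003) (nat_lit 76) (nat_lit 50905286702) (nat_lit 76) (nat_lit 27232075238) (nat_lit 7) (nat_lit 4) (nat_lit 8) (nat_lit 5) (nat_lit 8) (nat_lit 4) (nat_lit 348) (nat_lit 251) (nat_lit 181)) (XT.lf (nat_lit 0) (nat_lit 25735171101) (nat_lit 76) (nat_lit 44048912096) (nat_lit 76) (nat_lit 20337391671) (nat_lit 7) (nat_lit 4) (nat_lit 8) (nat_lit 5) (nat_lit 8) (nat_lit 4) (nat_lit 349) (nat_lit 251) (nat_lit 180)))) (XT.nd (nat_lit 156) (nat_lit 76) (nat_lit 0) (XT.nd (nat_lit 78) (nat_lit 0) (nat_lit 0) (XT.lf (nat_lit 0) (nat_lit 44352158555) (nat_lit 76) (nat_lit 36873199860) (nat_lit 76) (nat_lit 13125194711) (nat_lit 7) (nat_lit 4) (nat_lit 8) (nat_lit 5) (nat_lit 8) (nat_lit 4) (nat_lit 350) (nat_lit 251) (nat_lit 179)) (XT.lf (nat_lit 0) (nat_lit 63852467525) (nat_lit 76) (nat_lit 29361064967) (nat_lit 76) (nat_lit 5578312461) (nat_lit 7) (nat_lit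 4) (nat_lit 8) (nat_lit 5) (nat_lit 8) (nat_lit 4) (nat_lit 351) (nat_lit 251) (nat_lit 178))) (XT.nd (nat_lit 78) (nat_lit 0) (nat_lit 0) (XT.lf (nat_lit 0) (nat_lit 2275928407) (nat_lit 152) (nat_lit 19195710560) (nat_lit 76) (nat_lit 81983616496) (nat_lit 6) (nat_lit 5) (nat_lit 8) (nat_lit 5) (nat_lit 7) (nat_lit 4) (nat_lit 352) (nat_lit 251) (nat_lit 177)) (XT.lf (nat_lit 0) (nat_lit 10385530213) (nat_lit 152) (nat_lit 2764735770) (nat_lit 76) (nat_lit 95200577228) (nat_lit 6) (nat_lit 5) (nat_lit 8) (nat_lit 5) (nat_lit 7) (nat_lit 4) (nat_lit 353) (nat_lit 251) (nat_lit 176))))) (XT.nd (nat_lit 234) (nat_lit 0) (nat_lit 0) (XT.nd (nat_lit 78) (nat_lit 0) (nat_lit 0) (XT.lf (nat_lit 0) (nat_lit 14733799968) (nat_lit 76) (nat_lit 4286484832) (nat_lit 152) (nat_lit 94467339314) (nat_lit 5) (nat_lit 5) (nat_lit 6) (nat_lit 5) (nat_lit 7) (nat_lit 4) (nat_lit 354) (nat_lit 251) (nat_lit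 175)) (XT.nd (nat_lit 78) (nat_lit 0) (nat_lit 0) (XT.lf (nat_lit 0) (nat_lit 28142297205) (nat_lit 152) (nat_lit 85804662484) (nat_lit 0) (nat_lit 4932622531) (nat_lit 5) (nat_lit 5) (nat_lit 7) (nat_lit 4) (nat_lit 5) (nat_lit 4) (nat_lit 355) (nat_lit 251) (nat_lit 174)) (XT.lf (nat_lit 0) (nat_lit 37743215531) (nat_lit 152) (nat_lit 72290133755) (nat_lit 0) (nat_lit 14507108369) (nat_lit 5) (nat_lit 5) (nat_lit 7) (nat_lit 4) (nat_lit 5) (nat_lit 4) (nat_lit 356) (nat_lit 251) (nat_lit 173)))) (XT.nd (nat_lit 156) (nat_lit 0) (nat_lit 0) (XT.nd (nat_lit 78) (nat_lit 0) (nat_lit 0) (XT.lf (nat_lit 0) (nat_lit 47804694792) (nat_lit 152) (nat_lit 58136856197) (nat_lit 0) (nat_lit 24543413832) (nat_lit 5) (nat_lit 5) (nat_lit 7) (nat_lit 4) (nat_lit 5) (nat_lit 4) (nat_lit 357) (nat_lit 251) (nat_lit 172)) (XT.lf (nat_lit 0) (nat_lit 58350690893) (nat_lit 152) (nat_lit 43311131529) (nat_lit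 0) (nat_lit 35065434886) (nat_lit 5) (nat_lit 5) (nat_lit 7) (nat_lit 4) (nat_lit 5) (nat_lit 4) (nat_lit 358) (nat_lit 251) (nat_lit 171))) (XT.nd (nat_lit 78) (nat_lit 0) (nat_lit 0) (XT.lf (nat_lit 0) (nat_lit 69406313347) (nat_lit 152) (nat_lit 27777660408) (nat_lit 0) (nat_lit 46098223962) (nat_lit 5) (nat_lit 5) (nat_lit 7) (nat_lit 4) (nat_lit 5) (nat_lit 4) (nat_lit 359) (nat_lit 251) (nat_lit 170)) (XT.lf (nat_lit 0) (nat_lit 80997885065) (nat_lit 152) (nat_lit 11499458377) (nat_lit 0) (nat_lit 57668049607) (nat_lit 5) (nat_lit 5) (nat_lit 7) (nat_lit 4) (nat_lit 5) (nat_lit 4) (nat_lit 360) (nat_lit 251) (nat_lit 169)))))) (XT.nd (nat_lit 34164) (nat_lit 0) (nat_lit 9500) (XT.nd (nat_lit 234) (nat_lit 0) (nat_lit 0) (XT.nd (nat_lit 78) (nat_lit 0) (nat_lit 0) (XT.lf (nat_lit 0) (nat_lit 5672931513) (nat_lit 76) (nat_lit 87534605203) (nat_lit 76) (nat_lit 64184059198) (nat_lit 4)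 (nat_lit 4) (nat_lit 5) (nat_lit 5) (nat_lit 5) (nat_lit 4) (nat_lit 361) (nat_lit 251) (nat_lit 168)) (XT.nd (nat_lit 78) (nat_lit 0) (nat_lit 0) (XT.lf (nat_lit 0) (nat_lit 23914696215) (nat_lit 76) (nat_lit 82215800470) (nat_lit 76) (nat_lit 58845530136) (nat_lit 4) (nat_lit 4) (nat_lit 5) (nat_lit 5) (nat_lit 5) (nat_lit 4) (nat_lit 362) (nat_lit 251) (nat_lit 167)) (XT.lf (nat_lit 0) (nat_lit 43040406734) (nat_lit 76) (nat_lit 76644387406) (nat_lit 76) (nat_lit 53255331995) (nat_lit 4) (nat_lit 4) (nat_lit 5) (nat_lit 5) (nat_lit 5) (nat_lit 4) (nat_lit 363) (nat_lit 251) (nat_lit 166)))) (XT.nd (nat_lit 33774) (nat_lit 0) (nat_lit 14364) (XT.nd (nat_lit 78) (nat_lit 0) (nat_lit 0) (XT.lf (nat_lit 0) (nat_lit 63095600473) (nat_lit 76) (nat_lit 70807100742) (nat_lit 76) (nat_lit 47400154782) (nat_lit 4) (nat_lit 4) (nat_lit 5) (nat_lit 5) (nat_lit 5) (nat_lit 4) (nat_lit 364) (nat_lit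 251) (nat_lit 165)) (XT.lf (nat_lit 0) (nat_lit 84128027896) (nat_lit 76) (nat_lit 64690042175) (nat_lit 76) (nat_lit 41266057597) (nat_lit 4) (nat_lit 4) (nat_lit 5) (nat_lit 5) (nat_lit 5) (nat_lit 4) (nat_lit 365) (nat_lit 251) (nat_lit 164))) (XT.nd (nat_lit 78) (nat_lit 836) (nat_lit 0) (XT.lf (nat_lit 0) (nat_lit 2198982498) (nat_lit 1140) (nat_lit 709014431) (nat_lit 1140) (nat_lit 709014431) (nat_lit 204) (nat_lit 4) (nat_lit 219) (nat_lit 5) (nat_lit 219) (nat_lit 4) (nat_lit 276) (nat_lit 252) (nat_lit 252)) (XT.lf (nat_lit 0) (nat_lit 4039647426) (nat_lit 836) (nat_lit 1823194416) (nat_lit 0) (nat_lit 1477104062) (nat_lit 193) (nat_lit 5) (nat_lit 204) (nat_lit 4) (nat_lit 193) (nat_lit 4) (nat_lit 277) (nat_lit 252) (nat_lit 251))))) (XT.nd (nat_lit 312) (nat_lit 1900) (nat_lit 0) (XT.nd (nat_lit 156) (nat_lit 1216) (nat_lit 0) (XT.nd (nat_lit 78) (nat_lit 1064) (nat_lit 0) (XT.lf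 (nat_lit 0) (nat_lit 2093027696) (nat_lit 684) (nat_lit 754214630) (nat_lit 76) (nat_lit 4607734961) (nat_lit 184) (nat_lit 5) (nat_lit 193) (nat_lit 5) (nat_lit 185) (nat_lit 4) (nat_lit 278) (nat_lit 252) (nat_lit 250)) (XT.lf (nat_lit 0) (nat_lit 385365821) (nat_lit 532) (nat_lit 7154057514) (nat_lit 532) (nat_lit 40112636) (nat_lit 170) (nat_lit 4) (nat_lit 177) (nat_lit 5) (nat_lit 177) (nat_lit 4) (nat_lit 279) (nat_lit 252) (nat_lit 249))) (XT.nd (nat_lit 78) (nat_lit 608) (nat_lit 0) (XT.lf (nat_lit 0) (nat_lit 1553105310) (nat_lit 532) (nat_lit 3775070594) (nat_lit 608) (nat_lit 2384171016) (nat_lit 162) (nat_lit 5) (nat_lit 169) (nat_lit 5) (nat_lit 170) (nat_lit 4) (nat_lit 280) (nat_lit 252) (nat_lit 248)) (XT.lf (nat_lit 0) (nat_lit 2780678171) (nat_lit 532) (nat_lit 130454473) (nat_lit 608) (nat_lit 4944229734) (nat_lit 154) (nat_lit 5) (nat_lit 161) (nat_lit 5) (nat_lit 162)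 (nat_lit 5) (nat_lit 281) (nat_lit 252) (nat_lit 247)))) (XT.nd (nat_lit 156) (nat_lit 912) (nat_lit 0) (XT.nd (nat_lit 78) (nat_lit 456) (nat_lit 0) (XT.lf (nat_lit 0) (nat_lit 313115344) (nat_lit 532) (nat_lit 3979696181) (nat_lit 76) (nat_lit 3715004926) (nat_lit 147) (nat_lit 5) (nat_lit 154) (nat_lit 5) (nat_lit 148) (nat_lit 5) (nat_lit 282) (nat_lit 252) (nat_lit 246)) (XT.lf (nat_lit 0) (nat_lit 5300917384) (nat_lit 456) (nat_lit 308767308) (nat_lit 532) (nat_lit 2560611827) (nat_lit 141) (nat_lit 5) (nat_lit 147) (nat_lit 5) (nat_lit 148) (nat_lit 5) (nat_lit 283) (nat_lit 252) (nat_lit 245))) (XT.nd (nat_lit 78) (nat_lit 456) (nat_lit 0) (XT.lf (nat_lit 0) (nat_lit 2696484641) (nat_lit 456) (nat_lit 1764541514) (nat_lit 76) (nat_lit 3881625244) (nat_lit 135) (nat_lit 5) (nat_lit 141) (nat_lit 5) (nat_lit 136) (nat_lit 5) (nat_lit 284) (nat_lit 252) (nat_lit 244)) (XT.lf (nat_lit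 0) (nat_lit 7888333365) (nat_lit 456) (nat_lit 170400978) (nat_lit 532) (nat_lit 467474156) (nat_lit 129) (nat_lit 5) (nat_lit 135) (nat_lit 5) (nat_lit 136) (nat_lit 5) (nat_lit 285) (nat_lit 252) (nat_lit 243))))))))
noncomputable def xc36 : XT := (XT.nd (nat_lit 2184) (nat_lit 1672) (nat_lit 0) (XT.nd (nat_lit 1092) (nat_lit 2356) (nat_lit 0) (XT.nd (nat_lit 546) (nat_lit 1976) (nat_lit 0) (XT.nd (nat_lit 234) (nat_lit 1368) (nat_lit 0) (XT.nd (nat_lit 78) (nat_lit 836) (nat_lit 0) (XT.lf (nat_lit 0) (nat_lit 451347137) (nat_lit 380) (nat_lit 4367035801) (nat_lit 456) (nat_lit 3900958219) (nat_lit 118) (nat_lit 5) (nat_lit 123) (nat_lit 5) (nat_lit 124) (nat_lit 5) (nat_lit 286) (nat_lit 252) (nat_lit 242)) (XT.nd (nat_lit 78) (nat_lit 380) (nat_lit 0) (XT.lf (nat_lit 0) (nat_lit 1323598787) (nat_lit 456) (nat_lit 7359312879) (nat_lit 76) (nat_lit 241395964) (nat_lit 112) (nat_lit 5) (nat_lit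 118) (nat_lit 5) (nat_lit 113) (nat_lit 5) (nat_lit 287) (nat_lit 252) (nat_lit 241)) (XT.lf (nat_lit 0) (nat_lit 2619037332) (nat_lit 380) (nat_lit 4065695465) (nat_lit 456) (nat_lit 2455115193) (nat_lit 107) (nat_lit 5) (nat_lit 112) (nat_lit 5) (nat_lit 113) (nat_lit 5) (nat_lit 288) (nat_lit 252) (nat_lit 240)))) (XT.nd (nat_lit 156) (nat_lit 684) (nat_lit 0) (XT.nd (nat_lit 78) (nat_lit 304) (nat_lit 0) (XT.lf (nat_lit 0) (nat_lit 2815083953) (nat_lit 380) (nat_lit 5717062275) (nat_lit 76) (nat_lit 835576286) (nat_lit 102) (nat_lit 5) (nat_lit 107) (nat_lit 5) (nat_lit 103) (nat_lit 5) (nat_lit 289) (nat_lit 252) (nat_lit 239)) (XT.lf (nat_lit 0) (nat_lit 4618860194) (nat_lit 304) (nat_lit 3643894754) (nat_lit 380) (nat_lit 1344709814) (nat_lit 98) (nat_lit 5) (nat_lit 102) (nat_lit 5) (nat_lit 103) (nat_lit 5) (nat_lit 290) (nat_lit 252) (nat_lit 238))) (XT.nd (nat_lit 78) (nat_lit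 304) (nat_lit 0) (XT.lf (nat_lit 0) (nat_lit 3986491785) (nat_lit 380) (nat_lit 4336819708) (nat_lit 76) (nat_lit 1536527587) (nat_lit 93) (nat_lit 5) (nat_lit 98) (nat_lit 5) (nat_lit 94) (nat_lit 5) (nat_lit 291) (nat_lit 252) (nat_lit 237)) (XT.lf (nat_lit 0) (nat_lit 6354183828) (nat_lit 304) (nat_lit 3173424937) (nat_lit 380) (nat_lit 597816961) (nat_lit 89) (nat_lit 5) (nat_lit 93) (nat_lit 5) (nat_lit 94) (nat_lit 5) (nat_lit 292) (nat_lit 252) (nat_lit 236))))) (XT.nd (nat_lit 234) (nat_lit 1064) (nat_lit 0) (XT.nd (nat_lit 78) (nat_lit 608) (nat_lit 0) (XT.lf (nat_lit 0) (nat_lit 4806140458) (nat_lit 304) (nat_lit 3325317331) (nat_lit 76) (nat_lit 2272694952) (nat_lit 85) (nat_lit 5) (nat_lit 89) (nat_lit 5) (nat_lit 86) (nat_lit 5) (nat_lit 293) (nat_lit 252) (nat_lit 235)) (XT.nd (nat_lit 78) (nat_lit 304) (nat_lit 0) (XT.lf (nat_lit 0) (nat_lit 7713319350) (nat_lit 304) (nat_lit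 2730699633) (nat_lit 380) (nat_lit 253449671) (nat_lit 81) (nat_lit 5) (nat_lit 85) (nat_lit 5) (nat_lit 86) (nat_lit 5) (nat_lit 294) (nat_lit 252) (nat_lit 234)) (XT.lf (nat_lit 0) (nat_lit 5231101518) (nat_lit 304) (nat_lit 2806437993) (nat_lit 76) (nat_lit 2967150224) (nat_lit 77) (nat_lit 5) (nat_lit 81) (nat_lit 5) (nat_lit 78) (nat_lit 5) (nat_lit 295) (nat_lit 252) (nat_lit 233)))) (XT.nd (nat_lit 156) (nat_lit 532) (nat_lit 0) (XT.nd (nat_lit 78) (nat_lit 304) (nat_lit 0) (XT.lf (nat_lit 0) (nat_lit 8566106050) (nat_lit 228) (nat_lit 2398831667) (nat_lit 304) (nat_lit 362949163) (nat_lit 74) (nat_lit 5) (nat_lit 77) (nat_lit 5) (nat_lit 78) (nat_lit 5) (nat_lit 296) (nat_lit 252) (nat_lit 232)) (XT.lf (nat_lit 0) (nat_lit 5205692559) (nat_lit 304) (nat_lit 2924919884) (nat_lit 76) (nat_lit 3535452114) (nat_lit 70) (nat_lit 5) (nat_lit 74) (nat_lit 5) (nat_lit 71) (nat_lit 5) (nat_lit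 297) (nat_lit 252) (nat_lit 231))) (XT.nd (nat_lit 78) (nat_lit 304) (nat_lit 0) (XT.lf (nat_lit 0) (nat_lit 8759971898) (nat_lit 228) (nat_lit 2269933751) (nat_lit 304) (nat_lit 991685710) (nat_lit 67) (nat_lit 5) (nat_lit 70) (nat_lit 5) (nat_lit 71) (nat_lit 5) (nat_lit 298) (nat_lit 252) (nat_lit 230)) (XT.lf (nat_lit 0) (nat_lit 4659644749) (nat_lit 304) (nat_lit 3850641612) (nat_lit 76) (nat_lit 3883261808) (nat_lit 63) (nat_lit 5) (nat_lit 67) (nat_lit 5) (nat_lit 64) (nat_lit 5) (nat_lit 299) (nat_lit 252) (nat_lit 229)))))) (XT.nd (nat_lit 546) (nat_lit 988) (nat_lit 0) (XT.nd (nat_lit 234) (nat_lit 684) (nat_lit 0) (XT.nd (nat_lit 78) (nat_lit 456) (nat_lit 0) (XT.lf (nat_lit 0) (nat_lit 8115369983) (nat_lit 228) (nat_lit 2447698419) (nat_lit 304) (nat_lit 2221115750) (nat_lit 60) (nat_lit 5) (nat_lit 63) (nat_lit 5) (nat_lit 64) (nat_lit 5) (nat_lit 300) (nat_lit 252) (nat_lit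 228)) (XT.nd (nat_lit 78) (nat_lit 228) (nat_lit 0) (XT.lf (nat_lit 0) (nat_lit 3505896612) (nat_lit 228) (nat_lit 5783595699) (nat_lit 76) (nat_lit 3903656174) (nat_lit 57) (nat_lit 5) (nat_lit 60) (nat_lit 5) (nat_lit 58) (nat_lit 5) (nat_lit 301) (nat_lit 252) (nat_lit 227)) (XT.lf (nat_lit 0) (nat_lit 6420475567) (nat_lit 228) (nat_lit 3050320087) (nat_lit 304) (nat_lit 4151249267) (nat_lit 54) (nat_lit 5) (nat_lit 57) (nat_lit 5) (nat_lit 58) (nat_lit 5) (nat_lit 302) (nat_lit 252) (nat_lit 226)))) (XT.nd (nat_lit 156) (nat_lit 228) (nat_lit 0) (XT.nd (nat_lit 78) (nat_lit 228) (nat_lit 0) (XT.lf (nat_lit 0) (nat_lit 1637956267) (nat_lit 228) (nat_lit 8959676003) (nat_lit 76) (nat_lit 3474072664) (nat_lit 51) (nat_lit 5) (nat_lit 54) (nat_lit 5) (nat_lit 52) (nat_lit 5) (nat_lit 303) (nat_lit 252) (nat_lit 225)) (XT.lf (nat_lit 0) (nat_lit 3425009697) (nat_lit 228) (nat_lit 4213831119)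 (nat_lit 304) (nat_lit 6903591595) (nat_lit 48) (nat_lit 5) (nat_lit 51) (nat_lit 5) (nat_lit 52) (nat_lit 5) (nat_lit 304) (nat_lit 252) (nat_lit 224))) (XT.nd (nat_lit 78) (nat_lit 76) (nat_lit 0) (XT.lf (nat_lit 0) (nat_lit 1368736581) (nat_lit 152) (nat_lit 12573351260) (nat_lit 228) (nat_lit 1094595725) (nat_lit 46) (nat_lit 5) (nat_lit 48) (nat_lit 5) (nat_lit 49) (nat_lit 4) (nat_lit 305) (nat_lit 252) (nat_lit 223)) (XT.lf (nat_lit 0) (nat_lit 4940185329) (nat_lit 228) (nat_lit 1144194995) (nat_lit 76) (nat_lit 9468886294) (nat_lit 45) (nat_lit 5) (nat_lit 48) (nat_lit 5) (nat_lit 46) (nat_lit 5) (nat_lit 306) (nat_lit 252) (nat_lit 222))))) (XT.nd (nat_lit 234) (nat_lit 456) (nat_lit 0) (XT.nd (nat_lit 78) (nat_lit 380) (nat_lit 0) (XT.lf (nat_lit 0) (nat_lit 11258212431) (nat_lit 228) (nat_lit 4075221050) (nat_lit 76) (nat_lit 761845932) (nat_lit 43) (nat_lit 5) (nat_lit 46) (nat_lit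 5) (nat_lit 44) (nat_lit 4) (nat_lit 307) (nat_lit 252) (nat_lit 221)) (XT.nd (nat_lit 78) (nat_lit 152) (nat_lit 0) (XT.lf (nat_lit 0) (nat_lit 1249027451) (nat_lit 228) (nat_lit 7555108863) (nat_lit 76) (nat_lit 7858591654) (nat_lit 40) (nat_lit 5) (nat_lit 43) (nat_lit 5) (nat_lit 41) (nat_lit 5) (nat_lit 308) (nat_lit 252) (nat_lit 220)) (XT.lf (nat_lit 0) (nat_lit 5643135273) (nat_lit 152) (nat_lit 1880177145) (nat_lit 228) (nat_lit 9734326155) (nat_lit 38) (nat_lit 5) (nat_lit 40) (nat_lit 5) (nat_lit 41) (nat_lit 5) (nat_lit 309) (nat_lit 252) (nat_lit 219)))) (XT.nd (nat_lit 156) (nat_lit 228) (nat_lit 0) (XT.nd (nat_lit 78) (nat_lit 76) (nat_lit 0) (XT.lf (nat_lit 0) (nat_lit 1564967469) (nat_lit 152) (nat_lit 12580947535) (nat_lit 228) (nat_lit 3735383592) (nat_lit 36) (nat_lit 5) (nat_lit 38) (nat_lit 5) (nat_lit 39) (nat_lit 4) (nat_lit 310) (nat_lit 252) (nat_lit 218)) (XT.lf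 (nat_lit 0) (nat_lit 2544789393) (nat_lit 228) (nat_lit 3120122594) (nat_lit 76) (nat_lit 12869590003) (nat_lit 35) (nat_lit 5) (nat_lit 38) (nat_lit 5) (nat_lit 36) (nat_lit 5) (nat_lit 311) (nat_lit 252) (nat_lit 217))) (XT.nd (nat_lit 78) (nat_lit 76) (nat_lit 0) (XT.lf (nat_lit 0) (nat_lit 9078311782) (nat_lit 228) (nat_lit 8507645689) (nat_lit 76) (nat_lit 1632837711) (nat_lit 33) (nat_lit 5) (nat_lit 36) (nat_lit 5) (nat_lit 34) (nat_lit 4) (nat_lit 312) (nat_lit 252) (nat_lit 216)) (XT.lf (nat_lit 0) (nat_lit 5230362951) (nat_lit 76) (nat_lit 10747305183) (nat_lit 152) (nat_lit 3958495380) (nat_lit 32) (nat_lit 5) (nat_lit 33) (nat_lit 5) (nat_lit 34) (nat_lit 4) (nat_lit 313) (nat_lit 252) (nat_lit 215))))))) (XT.nd (nat_lit 1092) (nat_lit 532) (nat_lit 0) (XT.nd (nat_lit 546) (nat_lit 532) (nat_lit 0) (XT.nd (nat_lit 234) (nat_lit 304) (nat_lit 0) (XT.nd (nat_lit 78) (nat_lit 228)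 (nat_lit 0) (XT.lf (nat_lit 0) (nat_lit 2473028597) (nat_lit 152) (nat_lit 1052899599) (nat_lit 76) (nat_lit 17163078588) (nat_lit 31) (nat_lit 5) (nat_lit 33) (nat_lit 5) (nat_lit 32) (nat_lit 5) (nat_lit 314) (nat_lit 252) (nat_lit 214)) (XT.nd (nat_lit 78) (nat_lit 76) (nat_lit 0) (XT.lf (nat_lit 0) (nat_lit 9219301999) (nat_lit 228) (nat_lit 8180000618) (nat_lit 76) (nat_lit 4076793590) (nat_lit 29) (nat_lit 5) (nat_lit 32) (nat_lit 5) (nat_lit 30) (nat_lit 4) (nat_lit 315) (nat_lit 252) (nat_lit 213)) (XT.lf (nat_lit 0) (nat_lit 6000704211) (nat_lit 76) (nat_lit 10314758354) (nat_lit 152) (nat_lit 5986729864) (nat_lit 28) (nat_lit 5) (nat_lit 29) (nat_lit 5) (nat_lit 30) (nat_lit 4) (nat_lit 316) (nat_lit 252) (nat_lit 212)))) (XT.nd (nat_lit 156) (nat_lit 76) (nat_lit 0) (XT.nd (nat_lit 78) (nat_lit 152) (nat_lit 0) (XT.lf (nat_lit 0) (nat_lit 580522863) (nat_lit 152) (nat_lit 2272419449)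 (nat_lit 76) (nat_lit 20316646398) (nat_lit 27) (nat_lit 5) (nat_lit 29) (nat_lit 5) (nat_lit 28) (nat_lit 5) (nat_lit 317) (nat_lit 252) (nat_lit 211)) (XT.lf (nat_lit 0) (nat_lit 7437120217) (nat_lit 228) (nat_lit 11637718312) (nat_lit 76) (nat_lit 5001220142) (nat_lit 25) (nat_lit 5) (nat_lit 28) (nat_lit 5) (nat_lit 26) (nat_lit 4) (nat_lit 318) (nat_lit 252) (nat_lit 210))) (XT.nd (nat_lit 78) (nat_lit 0) (nat_lit 0) (XT.lf (nat_lit 0) (nat_lit 2780154085) (nat_lit 76) (nat_lit 11852117062) (nat_lit 152) (nat_lit 10395734043) (nat_lit 24) (nat_lit 5) (nat_lit 25) (nat_lit 5) (nat_lit 26) (nat_lit 4) (nat_lit 319) (nat_lit 252) (nat_lit 209)) (XT.lf (nat_lit 0) (nat_lit 18016370807) (nat_lit 76) (nat_lit 4209759851) (nat_lit 152) (nat_lit 3800273437) (nat_lit 24) (nat_lit 5) (nat_lit 25) (nat_lit 5) (nat_lit 26) (nat_lit 4) (nat_lit 320) (nat_lit 252) (nat_lit 208))))) (XT.nd (nat_lit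 234) (nat_lit 228) (nat_lit 0) (XT.nd (nat_lit 78) (nat_lit 76) (nat_lit 0) (XT.lf (nat_lit 0) (nat_lit 3089585072) (nat_lit 228) (nat_lit 20207223428) (nat_lit 76) (nat_lit 3776266962) (nat_lit 21) (nat_lit 5) (nat_lit 24) (nat_lit 5) (nat_lit 22) (nat_lit 4) (nat_lit 321) (nat_lit 252) (nat_lit 207)) (XT.nd (nat_lit 78) (nat_lit 76) (nat_lit 0) (XT.lf (nat_lit 0) (nat_lit 10295858257) (nat_lit 228) (nat_lit 5736398367) (nat_lit 76) (nat_lit 12137200236) (nat_lit 21) (nat_lit 5) (nat_lit 24) (nat_lit 5) (nat_lit 22) (nat_lit 4) (nat_lit 322) (nat_lit 252) (nat_lit 206)) (XT.lf (nat_lit 0) (nat_lit 9512111297) (nat_lit 76) (nat_lit 8369411821) (nat_lit 152) (nat_lit 11438581654) (nat_lit 20) (nat_lit 5) (nat_lit 21) (nat_lit 5) (nat_lit 22) (nat_lit 4) (nat_lit 323) (nat_lit 252) (nat_lit 205)))) (XT.nd (nat_lit 156) (nat_lit 76) (nat_lit 0) (XT.nd (nat_lit 78) (nat_lit 152) (nat_lit 0) (XT.lf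 (nat_lit 0) (nat_lit 25515216723) (nat_lit 76) (nat_lit 320165510) (nat_lit 152) (nat_lit 4693254360) (nat_lit 20) (nat_lit 5) (nat_lit 21) (nat_lit 5) (nat_lit 22) (nat_lit 4) (nat_lit 324) (nat_lit 252) (nat_lit 204)) (XT.lf (nat_lit 0) (nat_lit 2455816887) (nat_lit 152) (nat_lit 21293349366) (nat_lit 76) (nat_lit 8044364073) (nat_lit 18) (nat_lit 5) (nat_lit 20) (nat_lit 5) (nat_lit 19) (nat_lit 4) (nat_lit 325) (nat_lit 252) (nat_lit 203))) (XT.nd (nat_lit 78) (nat_lit 76) (nat_lit 0) (XT.lf (nat_lit 0) (nat_lit 9855597874) (nat_lit 152) (nat_lit 6397922643) (nat_lit 76) (nat_lit 16867061190) (nat_lit 18) (nat_lit 5) (nat_lit 20) (nat_lit 5) (nat_lit 19) (nat_lit 4) (nat_lit 326) (nat_lit 252) (nat_lit 202)) (XT.lf (nat_lit 0) (nat_lit 9308763799) (nat_lit 76) (nat_lit 8343291708) (nat_lit 152) (nat_lit 16861145325) (nat_lit 17) (nat_lit 5) (nat_lit 18) (nat_lit 5) (nat_lit 19) (nat_lit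 4) (nat_lit 327) (nat_lit 252) (nat_lit 201)))))) (XT.nd (nat_lit 546) (nat_lit 228) (nat_lit 0) (XT.nd (nat_lit 234) (nat_lit 152) (nat_lit 0) (XT.nd (nat_lit 78) (nat_lit 152) (nat_lit 0) (XT.lf (nat_lit 0) (nat_lit 25822624215) (nat_lit 76) (nat_lit 20693777) (nat_lit 152) (nat_lit 10131998511) (nat_lit 17) (nat_lit 5) (nat_lit 18) (nat_lit 5) (nat_lit 19) (nat_lit 4) (nat_lit 328) (nat_lit 252) (nat_lit 200)) (XT.nd (nat_lit 78) (nat_lit 76) (nat_lit 0) (XT.lf (nat_lit 0) (nat_lit 5568683118) (nat_lit 76) (nat_lit 28954346447) (nat_lit 76) (nat_lit 2985156149) (nat_lit 16) (nat_lit 4) (nat_lit 17) (nat_lit 5) (nat_lit 17) (nat_lit 4) (nat_lit 329) (nat_lit 252) (nat_lit 199)) (XT.lf (nat_lit 0) (nat_lit 4479357757) (nat_lit 152) (nat_lit 16976838106) (nat_lit 76) (nat_lit 17658757226) (nat_lit 15) (nat_lit 5) (nat_lit 17) (nat_lit 5) (nat_lit 16) (nat_lit 4) (nat_lit 330) (nat_lit 252)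 (nat_lit 198)))) (XT.nd (nat_lit 156) (nat_lit 76) (nat_lit 0) (XT.nd (nat_lit 78) (nat_lit 76) (nat_lit 0) (XT.lf (nat_lit 0) (nat_lit 12201414878) (nat_lit 152) (nat_lit 1397008869) (nat_lit 76) (nat_lit 27204379375) (nat_lit 15) (nat_lit 5) (nat_lit 17) (nat_lit 5) (nat_lit 16) (nat_lit 4) (nat_lit 331) (nat_lit 252) (nat_lit 197)) (XT.lf (nat_lit 0) (nat_lit 15161633167) (nat_lit 76) (nat_lit 5241761940) (nat_lit 152) (nat_lit 22168847963) (nat_lit 14) (nat_lit 5) (nat_lit 15) (nat_lit 5) (nat_lit 16) (nat_lit 4) (nat_lit 332) (nat_lit 252) (nat_lit 196))) (XT.nd (nat_lit 78) (nat_lit 76) (nat_lit 0) (XT.lf (nat_lit 0) (nat_lit 29013196924) (nat_lit 152) (nat_lit 11980817060) (nat_lit 0) (nat_lit 3436220803) (nat_lit 14) (nat_lit 5) (nat_lit 16) (nat_lit 4) (nat_lit 14) (nat_lit 4) (nat_lit 333) (nat_lit 252) (nat_lit 195)) (XT.lf (nat_lit 0) (nat_lit 4158814425) (nat_lit 76) (nat_lit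 33939215396) (nat_lit 76) (nat_lit 8281770942) (nat_lit 13) (nat_lit 4) (nat_lit 14) (nat_lit 5) (nat_lit 14) (nat_lit 4) (nat_lit 334) (nat_lit 252) (nat_lit 194))))) (XT.nd (nat_lit 234) (nat_lit 76) (nat_lit 0) (XT.nd (nat_lit 78) (nat_lit 152) (nat_lit 0) (XT.lf (nat_lit 0) (nat_lit 21268470160) (nat_lit 76) (nat_lit 26445086331) (nat_lit 76) (nat_lit 711005368) (nat_lit 13) (nat_lit 4) (nat_lit 14) (nat_lit 5) (nat_lit 14) (nat_lit 4) (nat_lit 335) (nat_lit 252) (nat_lit 193)) (XT.nd (nat_lit 78) (nat_lit 76) (nat_lit 0) (XT.lf (nat_lit 0) (nat_lit 7051954016) (nat_lit 152) (nat_lit 11491601460) (nat_lit 76) (nat_lit 32027280742) (nat_lit 12) (nat_lit 5) (nat_lit 14) (nat_lit 5) (nat_lit 13) (nat_lit 4) (nat_lit 336) (nat_lit 252) (nat_lit 192)) (XT.lf (nat_lit 0) (nat_lit 4965770166) (nat_lit 76) (nat_lit 10227505622) (nat_lit 152) (nat_lit 37630798889) (nat_lit 11) (nat_lit 5) (nat_lit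 12) (nat_lit 5) (nat_lit 13) (nat_lit 4) (nat_lit 337) (nat_lit 252) (nat_lit 191)))) (XT.nd (nat_lit 156) (nat_lit 76) (nat_lit 0) (XT.nd (nat_lit 78) (nat_lit 0) (nat_lit 0) (XT.lf (nat_lit 0) (nat_lit 22408379310) (nat_lit 76) (nat_lit 1409926351) (nat_lit 152) (nat_lit 31369378848) (nat_lit 11) (nat_lit 5) (nat_lit 12) (nat_lit 5) (nat_lit 13) (nat_lit 4) (nat_lit 338) (nat_lit 252) (nat_lit 190)) (XT.lf (nat_lit 0) (nat_lit 32910030894) (nat_lit 152) (nat_lit 17096736882) (nat_lit 0) (nat_lit 7661652033) (nat_lit 11) (nat_lit 5) (nat_lit 13) (nat_lit 4) (nat_lit 11) (nat_lit 4) (nat_lit 339) (nat_lit 252) (nat_lit 189))) (XT.nd (nat_lit 78) (nat_lit 76) (nat_lit 0) (XT.lf (nat_lit 0) (nat_lit 42432476906) (nat_lit 152) (nat_lit 715638566) (nat_lit 0) (nat_lit 17125800268) (nat_lit 11) (nat_lit 5) (nat_lit 13) (nat_lit 4) (nat_lit 11) (nat_lit 4) (nat_lit 340) (nat_lit 252) (nat_lit 188))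 (XT.lf (nat_lit 0) (nat_lit 16743266883) (nat_lit 76) (nat_lit 35812442751) (nat_lit 76) (nat_lit 10450244422) (nat_lit 10) (nat_lit 4) (nat_lit 11) (nat_lit 5) (nat_lit 11) (nat_lit 4) (nat_lit 341) (nat_lit 252) (nat_lit 187))))))))
noncomputable def xc37 : XT := (XT.nd (nat_lit 35646) (nat_lit 0) (nat_lit 3116) (XT.nd (nat_lit 1092) (nat_lit 76) (nat_lit 0) (XT.nd (nat_lit 546) (nat_lit 228) (nat_lit 0) (XT.nd (nat_lit 234) (nat_lit 0) (nat_lit 0) (XT.nd (nat_lit 78) (nat_lit 152) (nat_lit 0) (XT.lf (nat_lit 0) (nat_lit 35024051444) (nat_lit 76) (nat_lit 28133230403) (nat_lit 76) (nat_lit 2718154272) (nat_lit 10) (nat_lit 4) (nat_lit 11) (nat_lit 5) (nat_lit 11) (nat_lit 4) (nat_lit 342) (nat_lit 252) (nat_lit 186)) (XT.nd (nat_lit 78) (nat_lit 76) (nat_lit 0) (XT.lf (nat_lit 0) (nat_lit 5261304531) (nat_lit 152) (nat_lit 14784987742) (nat_lit 76) (nat_lit 48841564793) (nat_lit 9) (nat_lit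 5) (nat_lit 11) (nat_lit 5) (nat_lit 10) (nat_lit 4) (nat_lit 343) (nat_lit 252) (nat_lit 185)) (XT.lf (nat_lit 0) (nat_lit 2036502699) (nat_lit 76) (nat_lit 11534876791) (nat_lit 152) (nat_lit 58479082744) (nat_lit 8) (nat_lit 5) (nat_lit 9) (nat_lit 5) (nat_lit 10) (nat_lit 4) (nat_lit 344) (nat_lit 252) (nat_lit 184)))) (XT.nd (nat_lit 156) (nat_lit 0) (nat_lit 0) (XT.nd (nat_lit 78) (nat_lit 0) (nat_lit 0) (XT.lf (nat_lit 0) (nat_lit 19949234676) (nat_lit 76) (nat_lit 2468652110) (nat_lit 152) (nat_lit 52949689026) (nat_lit 8) (nat_lit 5) (nat_lit 9) (nat_lit 5) (nat_lit 10) (nat_lit 4) (nat_lit 345) (nat_lit 252) (nat_lit 183)) (XT.lf (nat_lit 0) (nat_lit 31744464083) (nat_lit 152) (nat_lit 40217362323) (nat_lit 0) (nat_lit 6887592046) (nat_lit 8) (nat_lit 5) (nat_lit 10) (nat_lit 4) (nat_lit 8) (nat_lit 4) (nat_lit 346) (nat_lit 252) (nat_lit 182))) (XT.nd (nat_lit 78) (nat_lit 0) (nat_lit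 0) (XT.lf (nat_lit 0) (nat_lit 41533684308) (nat_lit 152) (nat_lit 24335197081) (nat_lit 0) (nat_lit 16636587862) (nat_lit 8) (nat_lit 5) (nat_lit 10) (nat_lit 4) (nat_lit 8) (nat_lit 4) (nat_lit 347) (nat_lit 252) (nat_lit 181)) (XT.lf (nat_lit 0) (nat_lit 51785124936) (nat_lit 152) (nat_lit 7710300538) (nat_lit 0) (nat_lit 26849719528) (nat_lit 8) (nat_lit 5) (nat_lit 10) (nat_lit 4) (nat_lit 8) (nat_lit 4) (nat_lit 348) (nat_lit 252) (nat_lit 180))))) (XT.nd (nat_lit 234) (nat_lit 152) (nat_lit 0) (XT.nd (nat_lit 78) (nat_lit 0) (nat_lit 0) (XT.lf (nat_lit 0) (nat_lit 9889897925) (nat_lit 76) (nat_lit 52728363980) (nat_lit 76) (nat_lit 27756473848) (nat_lit 7) (nat_lit 4) (nat_lit 8) (nat_lit 5) (nat_lit 8) (nat_lit 4) (nat_lit 349) (nat_lit 252) (nat_lit 179)) (XT.nd (nat_lit 78) (nat_lit 0) (nat_lit 0) (XT.lf (nat_lit 0) (nat_lit 28483701058) (nat_lit 76) (nat_lit 45563560503) (nat_lit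 76) (nat_lit 20556923015) (nat_lit 7) (nat_lit 4) (nat_lit 8) (nat_lit 5) (nat_lit 8) (nat_lit 4) (nat_lit 350) (nat_lit 252) (nat_lit 178)) (XT.lf (nat_lit 0) (nat_lit 47961929723) (nat_lit 76) (nat_lit 38061814904) (nat_lit 76) (nat_lit 13022084694) (nat_lit 7) (nat_lit 4) (nat_lit 8) (nat_lit 5) (nat_lit 8) (nat_lit 4) (nat_lit 351) (nat_lit 252) (nat_lit 177)))) (XT.nd (nat_lit 156) (nat_lit 76) (nat_lit 0) (XT.nd (nat_lit 78) (nat_lit 76) (nat_lit 0) (XT.lf (nat_lit 0) (nat_lit 68370960653) (nat_lit 76) (nat_lit 30205265883) (nat_lit 76) (nat_lit 5134018797) (nat_lit 7) (nat_lit 4) (nat_lit 8) (nat_lit 5) (nat_lit 8) (nat_lit 4) (nat_lit 352) (nat_lit 252) (nat_lit 176)) (XT.lf (nat_lit 0) (nat_lit 3065055179) (nat_lit 152) (nat_lit 18879201144) (nat_lit 76) (nat_lit 86663380554) (nat_lit 6) (nat_lit 5) (nat_lit 8) (nat_lit 5) (nat_lit 7) (nat_lit 4) (nat_lit 353) (nat_lit 252) (nat_lit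 175))) (XT.nd (nat_lit 78) (nat_lit 76) (nat_lit 0) (XT.lf (nat_lit 0) (nat_lit 11547978488) (nat_lit 152) (nat_lit 1687453564) (nat_lit 76) (nat_lit 100513542501) (nat_lit 6) (nat_lit 5) (nat_lit 8) (nat_lit 5) (nat_lit 7) (nat_lit 4) (nat_lit 354) (nat_lit 252) (nat_lit 174)) (XT.lf (nat_lit 0) (nat_lit 16651166352) (nat_lit 76) (nat_lit 3944026608) (nat_lit 152) (nat_lit 98547985384) (nat_lit 5) (nat_lit 5) (nat_lit 6) (nat_lit 5) (nat_lit 7) (nat_lit 4) (nat_lit 355) (nat_lit 252) (nat_lit 173)))))) (XT.nd (nat_lit 546) (nat_lit 0) (nat_lit 0) (XT.nd (nat_lit 234) (nat_lit 76) (nat_lit 0) (XT.nd (nat_lit 78) (nat_lit 0) (nat_lit 0) (XT.lf (nat_lit 0) (nat_lit 30148694022) (nat_lit 152) (nat_lit 88957608725) (nat_lit 0) (nat_lit 5699175214) (nat_lit 5) (nat_lit 5) (nat_lit 7) (nat_lit 4) (nat_lit 5) (nat_lit 4) (nat_lit 356) (nat_lit 252) (nat_lit 172)) (XT.nd (nat_lit 78) (nat_lit 0)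 (nat_lit 0) (XT.lf (nat_lit 0) (nat_lit 40201121028) (nat_lit 152) (nat_lit 74821510078) (nat_lit 0) (nat_lit 15727627174) (nat_lit 5) (nat_lit 5) (nat_lit 7) (nat_lit 4) (nat_lit 5) (nat_lit 4) (nat_lit 357) (nat_lit 252) (nat_lit 171)) (XT.lf (nat_lit 0) (nat_lit 50738495932) (nat_lit 152) (nat_lit 60012146279) (nat_lit 0) (nat_lit 26242168701) (nat_lit 5) (nat_lit 5) (nat_lit 7) (nat_lit 4) (nat_lit 5) (nat_lit 4) (nat_lit 358) (nat_lit 252) (nat_lit 170)))) (XT.nd (nat_lit 156) (nat_lit 76) (nat_lit 0) (XT.nd (nat_lit 78) (nat_lit 0) (nat_lit 0) (XT.lf (nat_lit 0) (nat_lit 61785907724) (nat_lit 152) (nat_lit 44494256936) (nat_lit 0) (nat_lit 37267834419) (nat_lit 5) (nat_lit 5) (nat_lit 7) (nat_lit 4) (nat_lit 5) (nat_lit 4) (nat_lit 359) (nat_lit 252) (nat_lit 169)) (XT.lf (nat_lit 0) (nat_lit 73369659763) (nat_lit 152) (nat_lit 28230894695) (nat_lit 0) (nat_lit 48830875911) (nat_lit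 5) (nat_lit 5) (nat_lit 7) (nat_lit 4) (nat_lit 5) (nat_lit 4) (nat_lit 360) (nat_lit 252) (nat_lit 168))) (XT.nd (nat_lit 78) (nat_lit 76) (nat_lit 0) (XT.lf (nat_lit 0) (nat_lit 85517332412) (nat_lit 152) (nat_lit 11183337264) (nat_lit 0) (nat_lit 60958824231) (nat_lit 5) (nat_lit 5) (nat_lit 7) (nat_lit 4) (nat_lit 5) (nat_lit 4) (nat_lit 361) (nat_lit 252) (nat_lit 167)) (XT.lf (nat_lit 0) (nat_lit 6822129088) (nat_lit 76) (nat_lit 91501298091) (nat_lit 76) (nat_lit 66924004834) (nat_lit 4) (nat_lit 4) (nat_lit 5) (nat_lit 5) (nat_lit 5) (nat_lit 4) (nat_lit 362) (nat_lit 252) (nat_lit 166))))) (XT.nd (nat_lit 33696) (nat_lit 0) (nat_lit 14364) (XT.nd (nat_lit 78) (nat_lit 0) (nat_lit 0) (XT.lf (nat_lit 0) (nat_lit 25934765312) (nat_lit 76) (nat_lit 85936078712) (nat_lit 76) (nat_lit 61340894905) (nat_lit 4) (nat_lit 4) (nat_lit 5) (nat_lit 5) (nat_lit 5) (nat_lit 4) (nat_lit 363) (nat_lit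 252) (nat_lit 165)) (XT.nd (nat_lit 78) (nat_lit 0) (nat_lit 0) (XT.lf (nat_lit 0) (nat_lit 45977507342) (nat_lit 76) (nat_lit 80104690794) (nat_lit 76) (nat_lit 55492468370) (nat_lit 4) (nat_lit 4) (nat_lit 5) (nat_lit 5) (nat_lit 5) (nat_lit 4) (nat_lit 364) (nat_lit 252) (nat_lit 164)) (XT.lf (nat_lit 0) (nat_lit 66998075994) (nat_lit 76) (nat_lit 73993250081) (nat_lit 76) (nat_lit 49364800401) (nat_lit 4) (nat_lit 4) (nat_lit 5) (nat_lit 5) (nat_lit 5) (nat_lit 4) (nat_lit 365) (nat_lit 252) (nat_lit 163)))) (XT.nd (nat_lit 156) (nat_lit 1976) (nat_lit 0) (XT.nd (nat_lit 78) (nat_lit 1140) (nat_lit 0) (XT.lf (nat_lit 0) (nat_lit 1248739356) (nat_lit 988) (nat_lit 1136790111) (nat_lit 988) (nat_lit 1136790111) (nat_lit 234) (nat_lit 4) (nat_lit 247) (nat_lit 5) (nat_lit 247) (nat_lit 4) (nat_lit 274) (nat_lit 253) (nat_lit 253)) (XT.lf (nat_lit 0) (nat_lit 3058224176) (nat_lit 1140) (nat_lit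 3791878676) (nat_lit 0) (nat_lit 286833528) (nat_lit 219) (nat_lit 5) (nat_lit 234) (nat_lit 4) (nat_lit 219) (nat_lit 4) (nat_lit 275) (nat_lit 253) (nat_lit 252))) (XT.nd (nat_lit 78) (nat_lit 760) (nat_lit 0) (XT.lf (nat_lit 0) (nat_lit 1195514451) (nat_lit 1216) (nat_lit 2983915975) (nat_lit 76) (nat_lit 3058314544) (nat_lit 203) (nat_lit 5) (nat_lit 219) (nat_lit 5) (nat_lit 204) (nat_lit 4) (nat_lit 276) (nat_lit 253) (nat_lit 251)) (XT.lf (nat_lit 0) (nat_lit 5235980688) (nat_lit 760) (nat_lit 1247036068) (nat_lit 836) (nat_lit 864678879) (nat_lit 193) (nat_lit 5) (nat_lit 203) (nat_lit 5) (nat_lit 204) (nat_lit 4) (nat_lit 277) (nat_lit 253) (nat_lit 250))))))) (XT.nd (nat_lit 1092) (nat_lit 3648) (nat_lit 0) (XT.nd (nat_lit 546) (nat_lit 3192) (nat_lit 0) (XT.nd (nat_lit 234) (nat_lit 2052) (nat_lit 0) (XT.nd (nat_lit 78) (nat_lit 1672) (nat_lit 0) (XT.lf (nat_lit 0) (nat_lit 4343201163)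 (nat_lit 684) (nat_lit 1201335394) (nat_lit 76) (nat_lit 1921774788) (nat_lit 184) (nat_lit 5) (nat_lit 193) (nat_lit 5) (nat_lit 185) (nat_lit 4) (nat_lit 278) (nat_lit 253) (nat_lit 249)) (XT.nd (nat_lit 78) (nat_lit 1064) (nat_lit 0) (XT.lf (nat_lit 0) (nat_lit 2023704061) (nat_lit 608) (nat_lit 238835827) (nat_lit 76) (nat_lit 5331797522) (nat_lit 176) (nat_lit 5) (nat_lit 184) (nat_lit 5) (nat_lit 177) (nat_lit 5) (nat_lit 279) (nat_lit 253) (nat_lit 248)) (XT.lf (nat_lit 0) (nat_lit 783662576) (nat_lit 532) (nat_lit 6460604621) (nat_lit 608) (nat_lit 487409225) (nat_lit 162) (nat_lit 5) (nat_lit 169) (nat_lit 5) (nat_lit 170) (nat_lit 4) (nat_lit 280) (nat_lit 253) (nat_lit 247)))) (XT.nd (nat_lit 156) (nat_lit 912) (nat_lit 0) (XT.nd (nat_lit 78) (nat_lit 532) (nat_lit 0) (XT.lf (nat_lit 0) (nat_lit 1824450792) (nat_lit 532) (nat_lit 2824847549) (nat_lit 608) (nat_lit 3228615508) (nat_lit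 154) (nat_lit 5) (nat_lit 161) (nat_lit 5) (nat_lit 162) (nat_lit 5) (nat_lit 281) (nat_lit 253) (nat_lit 246)) (XT.lf (nat_lit 0) (nat_lit 1848749380) (nat_lit 532) (nat_lit 5126202692) (nat_lit 76) (nat_lit 1059428474) (nat_lit 147) (nat_lit 5) (nat_lit 154) (nat_lit 5) (nat_lit 148) (nat_lit 5) (nat_lit 282) (nat_lit 253) (nat_lit 245))) (XT.nd (nat_lit 78) (nat_lit 456) (nat_lit 0) (XT.lf (nat_lit 0) (nat_lit 4000548055) (nat_lit 456) (nat_lit 3026640877) (nat_lit 532) (nat_lit 1173322528) (nat_lit 141) (nat_lit 5) (nat_lit 147) (nat_lit 5) (nat_lit 148) (nat_lit 5) (nat_lit 283) (nat_lit 253) (nat_lit 244)) (XT.lf (nat_lit 0) (nat_lit 3913007539) (nat_lit 456) (nat_lit 3271752146) (nat_lit 76) (nat_lit 1192116343) (nat_lit 135) (nat_lit 5) (nat_lit 141) (nat_lit 5) (nat_lit 136) (nat_lit 5) (nat_lit 284) (nat_lit 253) (nat_lit 243))))) (XT.nd (nat_lit 234) (nat_lit 1824) (nat_lit 0)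 (XT.nd (nat_lit 78) (nat_lit 836) (nat_lit 0) (XT.lf (nat_lit 0) (nat_lit 584202467) (nat_lit 532) (nat_lit 2347253120) (nat_lit 76) (nat_lit 5632363026) (nat_lit 128) (nat_lit 5) (nat_lit 135) (nat_lit 5) (nat_lit 129) (nat_lit 5) (nat_lit 285) (nat_lit 253) (nat_lit 242)) (XT.nd (nat_lit 78) (nat_lit 456) (nat_lit 0) (XT.lf (nat_lit 0) (nat_lit 5714729694) (nat_lit 456) (nat_lit 1446540131) (nat_lit 76) (nat_lit 1600019954) (nat_lit 123) (nat_lit 5) (nat_lit 129) (nat_lit 5) (nat_lit 124) (nat_lit 5) (nat_lit 286) (nat_lit 253) (nat_lit 241)) (XT.lf (nat_lit 0) (nat_lit 2033617838) (nat_lit 456) (nat_lit 568328989) (nat_lit 76) (nat_lit 6367974759) (nat_lit 117) (nat_lit 5) (nat_lit 123) (nat_lit 5) (nat_lit 118) (nat_lit 5) (nat_lit 287) (nat_lit 253) (nat_lit 240)))) (XT.nd (nat_lit 156) (nat_lit 684) (nat_lit 0) (XT.nd (nat_lit 78) (nat_lit 380) (nat_lit 0) (XT.lf (nat_lit 0) (nat_lit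 281137544) (nat_lit 380) (nat_lit 6967619415) (nat_lit 456) (nat_lit 1941161522) (nat_lit 107) (nat_lit 5) (nat_lit 112) (nat_lit 5) (nat_lit 113) (nat_lit 5) (nat_lit 288) (nat_lit 253) (nat_lit 239)) (XT.lf (nat_lit 0) (nat_lit 1090906959) (nat_lit 304) (nat_lit 2104618251) (nat_lit 380) (nat_lit 6225894991) (nat_lit 102) (nat_lit 5) (nat_lit 106) (nat_lit 5) (nat_lit 107) (nat_lit 5) (nat_lit 289) (nat_lit 253) (nat_lit 238))) (XT.nd (nat_lit 78) (nat_lit 380) (nat_lit 0) (XT.lf (nat_lit 0) (nat_lit 1847622210) (nat_lit 304) (nat_lit 6660917743) (nat_lit 380) (nat_lit 1156729715) (nat_lit 98) (nat_lit 5) (nat_lit 102) (nat_lit 5) (nat_lit 103) (nat_lit 5) (nat_lit 290) (nat_lit 253) (nat_lit 237)) (XT.lf (nat_lit 0) (nat_lit 2526759143) (nat_lit 304) (nat_lit 1514363763) (nat_lit 380) (nat_lit 5880419740) (nat_lit 93) (nat_lit 5) (nat_lit 97) (nat_lit 5) (nat_lit 98) (nat_lit 5) (nat_lit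 291) (nat_lit 253) (nat_lit 236)))))) (XT.nd (nat_lit 546) (nat_lit 1672) (nat_lit 0) (XT.nd (nat_lit 234) (nat_lit 1064) (nat_lit 0) (XT.nd (nat_lit 78) (nat_lit 608) (nat_lit 0) (XT.lf (nat_lit 0) (nat_lit 3126952074) (nat_lit 304) (nat_lit 6326636310) (nat_lit 380) (nat_lit 737459921) (nat_lit 89) (nat_lit 5) (nat_lit 93) (nat_lit 5) (nat_lit 94) (nat_lit 5) (nat_lit 292) (nat_lit 253) (nat_lit 235)) (XT.nd (nat_lit 78) (nat_lit 304) (nat_lit 0) (XT.lf (nat_lit 0) (nat_lit 3623341376) (nat_lit 228) (nat_lit 909067827) (nat_lit 304) (nat_lit 5941565773) (nat_lit 85) (nat_lit 5) (nat_lit 88) (nat_lit 5) (nat_lit 89) (nat_lit 5) (nat_lit 293) (nat_lit 253) (nat_lit 234)) (XT.lf (nat_lit 0) (nat_lit 4006726275) (nat_lit 304) (nat_lit 6040489438) (nat_lit 380) (nat_lit 723819706) (nat_lit 81) (nat_lit 5) (nat_lit 85) (nat_lit 5) (nat_lit 86) (nat_lit 5) (nat_lit 294) (nat_lit 253) (nat_lit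 233)))) (XT.nd (nat_lit 156) (nat_lit 532) (nat_lit 0) (XT.nd (nat_lit 78) (nat_lit 228) (nat_lit 0) (XT.lf (nat_lit 0) (nat_lit 4259235820) (nat_lit 228) (nat_lit 366575881) (nat_lit 304) (nat_lit 6456951818) (nat_lit 77) (nat_lit 5) (nat_lit 80) (nat_lit 5) (nat_lit 81) (nat_lit 5) (nat_lit 295) (nat_lit 253) (nat_lit 232)) (XT.lf (nat_lit 0) (nat_lit 4355908657) (nat_lit 228) (nat_lit 5885097741) (nat_lit 304) (nat_lit 1168559629) (nat_lit 74) (nat_lit 5) (nat_lit 77) (nat_lit 5) (nat_lit 78) (nat_lit 5) (nat_lit 296) (nat_lit 253) (nat_lit 231))) (XT.nd (nat_lit 78) (nat_lit 228) (nat_lit 0) (XT.lf (nat_lit 0) (nat_lit 4265379953) (nat_lit 304) (nat_lit 7460282498) (nat_lit 76) (nat_lit 26868892) (nat_lit 70) (nat_lit 5) (nat_lit 74) (nat_lit 5) (nat_lit 71) (nat_lit 5) (nat_lit 297) (nat_lit 253) (nat_lit 230)) (XT.lf (nat_lit 0) (nat_lit 4020894142) (nat_lit 228) (nat_lit 5952271080)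 (nat_lit 304) (nat_lit 2138426368) (nat_lit 67) (nat_lit 5) (nat_lit 70) (nat_lit 5) (nat_lit 71) (nat_lit 5) (nat_lit 298) (nat_lit 253) (nat_lit 229))))) (XT.nd (nat_lit 312) (nat_lit 684) (nat_lit 0) (XT.nd (nat_lit 156) (nat_lit 456) (nat_lit 0) (XT.nd (nat_lit 78) (nat_lit 228) (nat_lit 0) (XT.lf (nat_lit 0) (nat_lit 3381348078) (nat_lit 304) (nat_lit 8933754072) (nat_lit 76) (nat_lit 173432488) (nat_lit 63) (nat_lit 5) (nat_lit 67) (nat_lit 5) (nat_lit 64) (nat_lit 5) (nat_lit 299) (nat_lit 253) (nat_lit 228)) (XT.lf (nat_lit 0) (nat_lit 2820949443) (nat_lit 228) (nat_lit 6345573343) (nat_lit 304) (nat_lit 3716231066) (nat_lit 60) (nat_lit 5) (nat_lit 63) (nat_lit 5) (nat_lit 64) (nat_lit 5) (nat_lit 300) (nat_lit 253) (nat_lit 227))) (XT.nd (nat_lit 78) (nat_lit 228) (nat_lit 0) (XT.lf (nat_lit 0) (nat_lit 1854951766) (nat_lit 152) (nat_lit 27125144) (nat_lit 228) (nat_lit 11414841885)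 (nat_lit 57) (nat_lit 5) (nat_lit 59) (nat_lit 5) (nat_lit 60) (nat_lit 5) (nat_lit 301) (nat_lit 253) (nat_lit 226)) (XT.lf (nat_lit 0) (nat_lit 542912940) (nat_lit 228) (nat_lit 7183231627) (nat_lit 304) (nat_lit 6003327100) (nat_lit 54) (nat_lit 5) (nat_lit 57) (nat_lit 5) (nat_lit 58) (nat_lit 5) (nat_lit 302) (nat_lit 253) (nat_lit 225)))) (XT.nd (nat_lit 156) (nat_lit 456) (nat_lit 0) (XT.nd (nat_lit 78) (nat_lit 228) (nat_lit 0) (XT.lf (nat_lit 0) (nat_lit 13157259883) (nat_lit 228) (nat_lit 696113783) (nat_lit 304) (nat_lit 330611262) (nat_lit 54) (nat_lit 5) (nat_lit 57) (nat_lit 5) (nat_lit 58) (nat_lit 5) (nat_lit 303) (nat_lit 253) (nat_lit 224)) (XT.lf (nat_lit 0) (nat_lit 5565943720) (nat_lit 228) (nat_lit 3005171404) (nat_lit 76) (nat_lit 6087043784) (nat_lit 51) (nat_lit 5) (nat_lit 54) (nat_lit 5) (nat_lit 52) (nat_lit 5) (nat_lit 304) (nat_lit 253) (nat_lit 223))) (XT.nd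 (nat_lit 78) (nat_lit 228) (nat_lit 0) (XT.lf (nat_lit 0) (nat_lit 9815222537) (nat_lit 228) (nat_lit 1928283305) (nat_lit 304) (nat_lit 3412701182) (nat_lit 48) (nat_lit 5) (nat_lit 51) (nat_lit 5) (nat_lit 52) (nat_lit 5) (nat_lit 305) (nat_lit 253) (nat_lit 222)) (XT.lf (nat_lit 0) (nat_lit 2537774313) (nat_lit 228) (nat_lit 8138334899) (nat_lit 76) (nat_lit 5001259981) (nat_lit 45) (nat_lit 5) (nat_lit 48) (nat_lit 5) (nat_lit 46) (nat_lit 5) (nat_lit 306) (nat_lit 253) (nat_lit 221))))))))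
noncomputable def xc38 : XT := (XT.nd (nat_lit 2184) (nat_lit 760) (nat_lit 0) (XT.nd (nat_lit 1092) (nat_lit 760) (nat_lit 0) (XT.nd (nat_lit 546) (nat_lit 684) (nat_lit 0) (XT.nd (nat_lit 234) (nat_lit 532) (nat_lit 0) (XT.nd (nat_lit 78) (nat_lit 228) (nat_lit 0) (XT.lf (nat_lit 0) (nat_lit 4798868381) (nat_lit 152) (nat_lit 3924620010) (nat_lit 228) (nat_lit 7499886246) (nat_lit 43) (nat_lit 5) (nat_lit 45) (nat_lit 5) (nat_lit 46) (nat_lit 5) (nat_lit 307) (nat_lit 253) (nat_lit 220)) (XT.nd (nat_lit 78) (nat_lit 76) (nat_lit 0) (XT.lf (nat_lit 0) (nat_lit 1569055057) (nat_lit 152) (nat_lit 13668935635) (nat_lit 228) (nat_lit 1558149997) (nat_lit 41) (nat_lit 5) (nat_lit 43) (nat_lit 5) (nat_lit 44) (nat_lit 4) (nat_lit 308) (nat_lit 253) (nat_lit 219)) (XT.lf (nat_lit 0) (nat_lit 4639510807) (nat_lit 228) (nat_lit 2214674440) (nat_lit 76) (nat_lit 10540546745) (nat_lit 40) (nat_lit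 5) (nat_lit 43) (nat_lit 5) (nat_lit 41) (nat_lit 5) (nat_lit 309) (nat_lit 253) (nat_lit 218)))) (XT.nd (nat_lit 156) (nat_lit 228) (nat_lit 0) (XT.nd (nat_lit 78) (nat_lit 152) (nat_lit 0) (XT.lf (nat_lit 0) (nat_lit 11125856561) (nat_lit 228) (nat_lit 6546464206) (nat_lit 76) (nat_lit 350178461) (nat_lit 38) (nat_lit 5) (nat_lit 41) (nat_lit 5) (nat_lit 39) (nat_lit 4) (nat_lit 310) (nat_lit 253) (nat_lit 217)) (XT.lf (nat_lit 0) (nat_lit 7111626299) (nat_lit 152) (nat_lit 10884965024) (nat_lit 228) (nat_lit 683299436) (nat_lit 36) (nat_lit 5) (nat_lit 38) (nat_lit 5) (nat_lit 39) (nat_lit 4) (nat_lit 311) (nat_lit 253) (nat_lit 216))) (XT.nd (nat_lit 78) (nat_lit 0) (nat_lit 0) (XT.lf (nat_lit 0) (nat_lit 2032824124) (nat_lit 152) (nat_lit 3683175621) (nat_lit 228) (nat_lit 13652825138) (nat_lit 33) (nat_lit 5) (nat_lit 35) (nat_lit 5) (nat_lit 36) (nat_lit 5) (nat_lit 312) (nat_lit 253)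 (nat_lit 215)) (XT.lf (nat_lit 0) (nat_lit 12482875175) (nat_lit 228) (nat_lit 3746904539) (nat_lit 76) (nat_lit 3860404289) (nat_lit 33) (nat_lit 5) (nat_lit 36) (nat_lit 5) (nat_lit 34) (nat_lit 4) (nat_lit 313) (nat_lit 253) (nat_lit 214))))) (XT.nd (nat_lit 234) (nat_lit 380) (nat_lit 0) (XT.nd (nat_lit 78) (nat_lit 228) (nat_lit 0) (XT.lf (nat_lit 0) (nat_lit 10529345346) (nat_lit 76) (nat_lit 9105770149) (nat_lit 152) (nat_lit 1211116892) (nat_lit 32) (nat_lit 5) (nat_lit 33) (nat_lit 5) (nat_lit 34) (nat_lit 4) (nat_lit 314) (nat_lit 253) (nat_lit 213)) (XT.nd (nat_lit 78) (nat_lit 0) (nat_lit 0) (XT.lf (nat_lit 0) (nat_lit 3822271703) (nat_lit 152) (nat_lit 1561464415) (nat_lit 228) (nat_lit 16255200968) (nat_lit 29) (nat_lit 5) (nat_lit 31) (nat_lit 5) (nat_lit 32) (nat_lit 5) (nat_lit 315) (nat_lit 253) (nat_lit 212)) (XT.lf (nat_lit 0) (nat_lit 12364629360) (nat_lit 228) (nat_lit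 3813783149) (nat_lit 76) (nat_lit 6290092541) (nat_lit 29) (nat_lit 5) (nat_lit 32) (nat_lit 5) (nat_lit 30) (nat_lit 4) (nat_lit 316) (nat_lit 253) (nat_lit 211)))) (XT.nd (nat_lit 156) (nat_lit 76) (nat_lit 0) (XT.nd (nat_lit 78) (nat_lit 228) (nat_lit 0) (XT.lf (nat_lit 0) (nat_lit 10939076271) (nat_lit 76) (nat_lit 8793281442) (nat_lit 152) (nat_lit 3606086775) (nat_lit 28) (nat_lit 5) (nat_lit 29) (nat_lit 5) (nat_lit 30) (nat_lit 4) (nat_lit 317) (nat_lit 253) (nat_lit 210)) (XT.lf (nat_lit 0) (nat_lit 2123426525) (nat_lit 152) (nat_lit 1009089897) (nat_lit 228) (nat_lit 21119100885) (nat_lit 25) (nat_lit 5) (nat_lit 27) (nat_lit 5) (nat_lit 28) (nat_lit 5) (nat_lit 318) (nat_lit 253) (nat_lit 209))) (XT.nd (nat_lit 78) (nat_lit 76) (nat_lit 0) (XT.lf (nat_lit 0) (nat_lit 10252487683) (nat_lit 228) (nat_lit 7824576240) (nat_lit 76) (nat_lit 7128766800) (nat_lit 25) (nat_lit 5) (nat_lit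 28) (nat_lit 5) (nat_lit 26) (nat_lit 4) (nat_lit 319) (nat_lit 253) (nat_lit 208)) (XT.lf (nat_lit 0) (nat_lit 7188207183) (nat_lit 76) (nat_lit 10543867964) (nat_lit 152) (nat_lit 8475593600) (nat_lit 24) (nat_lit 5) (nat_lit 25) (nat_lit 5) (nat_lit 26) (nat_lit 4) (nat_lit 320) (nat_lit 253) (nat_lit 207)))))) (XT.nd (nat_lit 546) (nat_lit 304) (nat_lit 0) (XT.nd (nat_lit 234) (nat_lit 228) (nat_lit 0) (XT.nd (nat_lit 78) (nat_lit 228) (nat_lit 0) (XT.lf (nat_lit 0) (nat_lit 22982946864) (nat_lit 76) (nat_lit 2609909796) (nat_lit 152) (nat_lit 1666546970) (nat_lit 24) (nat_lit 5) (nat_lit 25) (nat_lit 5) (nat_lit 26) (nat_lit 4) (nat_lit 321) (nat_lit 253) (nat_lit 206)) (XT.nd (nat_lit 78) (nat_lit 0) (nat_lit 0) (XT.lf (nat_lit 0) (nat_lit 5469520652) (nat_lit 228) (nat_lit 17174012746) (nat_lit 76) (nat_lit 5715823654) (nat_lit 21) (nat_lit 5) (nat_lit 24) (nat_lit 5) (nat_lit 22)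 (nat_lit 4) (nat_lit 322) (nat_lit 253) (nat_lit 205)) (XT.lf (nat_lit 0) (nat_lit 12930133385) (nat_lit 228) (nat_lit 2172197473) (nat_lit 76) (nat_lit 14411434861) (nat_lit 21) (nat_lit 5) (nat_lit 24) (nat_lit 5) (nat_lit 22) (nat_lit 4) (nat_lit 323) (nat_lit 253) (nat_lit 204)))) (XT.nd (nat_lit 156) (nat_lit 152) (nat_lit 0) (XT.nd (nat_lit 78) (nat_lit 0) (nat_lit 0) (XT.lf (nat_lit 0) (nat_lit 13728348936) (nat_lit 76) (nat_lit 7101762073) (nat_lit 152) (nat_lit 9893811729) (nat_lit 20) (nat_lit 5) (nat_lit 21) (nat_lit 5) (nat_lit 22) (nat_lit 4) (nat_lit 324) (nat_lit 253) (nat_lit 203)) (XT.lf (nat_lit 0) (nat_lit 29096033889) (nat_lit 152) (nat_lit 1654562854) (nat_lit 0) (nat_lit 1244879564) (nat_lit 20) (nat_lit 5) (nat_lit 22) (nat_lit 4) (nat_lit 20) (nat_lit 4) (nat_lit 325) (nat_lit 253) (nat_lit 202))) (XT.nd (nat_lit 78) (nat_lit 0) (nat_lit 0) (XT.lf (nat_lit 0) (nat_lit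 4509904133) (nat_lit 152) (nat_lit 18816171484) (nat_lit 76) (nat_lit 9998706305) (nat_lit 18) (nat_lit 5) (nat_lit 20) (nat_lit 5) (nat_lit 19) (nat_lit 4) (nat_lit 326) (nat_lit 253) (nat_lit 201)) (XT.lf (nat_lit 0) (nat_lit 12187707674) (nat_lit 152) (nat_lit 3344632728) (nat_lit 76) (nat_lit 19188627610) (nat_lit 18) (nat_lit 5) (nat_lit 20) (nat_lit 5) (nat_lit 19) (nat_lit 4) (nat_lit 327) (nat_lit 253) (nat_lit 200))))) (XT.nd (nat_lit 234) (nat_lit 152) (nat_lit 0) (XT.nd (nat_lit 78) (nat_lit 76) (nat_lit 0) (XT.lf (nat_lit 0) (nat_lit 13050696335) (nat_lit 76) (nat_lit 7267200383) (nat_lit 152) (nat_lit 15867026161) (nat_lit 17) (nat_lit 5) (nat_lit 18) (nat_lit 5) (nat_lit 19) (nat_lit 4) (nat_lit 328) (nat_lit 253) (nat_lit 199)) (XT.nd (nat_lit 78) (nat_lit 76) (nat_lit 0) (XT.lf (nat_lit 0) (nat_lit 28847267907) (nat_lit 152) (nat_lit 7501948272) (nat_lit 0) (nat_lit 1373092780)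 (nat_lit 17) (nat_lit 5) (nat_lit 19) (nat_lit 4) (nat_lit 17) (nat_lit 4) (nat_lit 329) (nat_lit 253) (nat_lit 198)) (XT.lf (nat_lit 0) (nat_lit 8914758735) (nat_lit 76) (nat_lit 28994379765) (nat_lit 76) (nat_lit 1424257919) (nat_lit 16) (nat_lit 4) (nat_lit 17) (nat_lit 5) (nat_lit 17) (nat_lit 4) (nat_lit 330) (nat_lit 253) (nat_lit 197)))) (XT.nd (nat_lit 156) (nat_lit 0) (nat_lit 0) (XT.nd (nat_lit 78) (nat_lit 76) (nat_lit 0) (XT.lf (nat_lit 0) (nat_lit 6300263486) (nat_lit 152) (nat_lit 14871964797) (nat_lit 76) (nat_lit 19850194602) (nat_lit 15) (nat_lit 5) (nat_lit 17) (nat_lit 5) (nat_lit 16) (nat_lit 4) (nat_lit 331) (nat_lit 253) (nat_lit 196)) (XT.lf (nat_lit 0) (nat_lit 1372994871) (nat_lit 76) (nat_lit 12972581999) (nat_lit 152) (nat_lit 28450991552) (nat_lit 14) (nat_lit 5) (nat_lit 15) (nat_lit 5) (nat_lit 16) (nat_lit 4) (nat_lit 332) (nat_lit 253) (nat_lit 195))) (XT.nd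 (nat_lit 78) (nat_lit 0) (nat_lit 0) (XT.lf (nat_lit 0) (nat_lit 18652141074) (nat_lit 76) (nat_lit 4246159238) (nat_lit 152) (nat_lit 21757977497) (nat_lit 14) (nat_lit 5) (nat_lit 15) (nat_lit 5) (nat_lit 16) (nat_lit 4) (nat_lit 333) (nat_lit 253) (nat_lit 194)) (XT.lf (nat_lit 0) (nat_lit 31879880716) (nat_lit 152) (nat_lit 9946606513) (nat_lit 0) (nat_lit 4782459197) (nat_lit 14) (nat_lit 5) (nat_lit 16) (nat_lit 4) (nat_lit 14) (nat_lit 4) (nat_lit 334) (nat_lit 253) (nat_lit 193))))))) (XT.nd (nat_lit 1092) (nat_lit 304) (nat_lit 0) (XT.nd (nat_lit 546) (nat_lit 152) (nat_lit 0) (XT.nd (nat_lit 234) (nat_lit 152) (nat_lit 0) (XT.nd (nat_lit 78) (nat_lit 76) (nat_lit 0) (XT.lf (nat_lit 0) (nat_lit 6924524923) (nat_lit 76) (nat_lit 34451587471) (nat_lit 76) (nat_lit 7281178801) (nat_lit 13) (nat_lit 4) (nat_lit 14) (nat_lit 5) (nat_lit 14) (nat_lit 4) (nat_lit 335) (nat_lit 253) (nat_lit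 192)) (XT.nd (nat_lit 78) (nat_lit 0) (nat_lit 0) (XT.lf (nat_lit 0) (nat_lit 589036325) (nat_lit 152) (nat_lit 26044176501) (nat_lit 76) (nat_lit 24172880446) (nat_lit 12) (nat_lit 5) (nat_lit 14) (nat_lit 5) (nat_lit 13) (nat_lit 4) (nat_lit 336) (nat_lit 253) (nat_lit 191)) (XT.lf (nat_lit 0) (nat_lit 8662669786) (nat_lit 152) (nat_lit 9720902072) (nat_lit 76) (nat_lit 34677794771) (nat_lit 12) (nat_lit 5) (nat_lit 14) (nat_lit 5) (nat_lit 13) (nat_lit 4) (nat_lit 337) (nat_lit 253) (nat_lit 190)))) (XT.nd (nat_lit 156) (nat_lit 76) (nat_lit 0) (XT.nd (nat_lit 78) (nat_lit 0) (nat_lit 0) (XT.lf (nat_lit 0) (nat_lit 7492111171) (nat_lit 76) (nat_lit 9680934126) (nat_lit 152) (nat_lit 38255374840) (nat_lit 11) (nat_lit 5) (nat_lit 12) (nat_lit 5) (nat_lit 13) (nat_lit 4) (nat_lit 338) (nat_lit 253) (nat_lit 189)) (XT.lf (nat_lit 0) (nat_lit 25698372081) (nat_lit 76) (nat_lit 472854309) (nat_lit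 152) (nat_lit 31740739224) (nat_lit 11) (nat_lit 5) (nat_lit 12) (nat_lit 5) (nat_lit 13) (nat_lit 4) (nat_lit 339) (nat_lit 253) (nat_lit 188))) (XT.nd (nat_lit 78) (nat_lit 76) (nat_lit 0) (XT.lf (nat_lit 0) (nat_lit 35671428449) (nat_lit 152) (nat_lit 15861105573) (nat_lit 0) (nat_lit 8985598511) (nat_lit 11) (nat_lit 5) (nat_lit 13) (nat_lit 4) (nat_lit 11) (nat_lit 4) (nat_lit 340) (nat_lit 253) (nat_lit 187)) (XT.lf (nat_lit 0) (nat_lit 1264170067) (nat_lit 76) (nat_lit 44364840764) (nat_lit 76) (nat_lit 17626133025) (nat_lit 10) (nat_lit 4) (nat_lit 11) (nat_lit 5) (nat_lit 11) (nat_lit 4) (nat_lit 341) (nat_lit 253) (nat_lit 186))))) (XT.nd (nat_lit 234) (nat_lit 76) (nat_lit 0) (XT.nd (nat_lit 78) (nat_lit 76) (nat_lit 0) (XT.lf (nat_lit 0) (nat_lit 19514282897) (nat_lit 76) (nat_lit 36699952170) (nat_lit 76) (nat_lit 9910884620) (nat_lit 10) (nat_lit 4) (nat_lit 11) (nat_lit 5)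 (nat_lit 11) (nat_lit 4) (nat_lit 342) (nat_lit 253) (nat_lit 185)) (XT.nd (nat_lit 78) (nat_lit 76) (nat_lit 0) (XT.lf (nat_lit 0) (nat_lit 38617018464) (nat_lit 76) (nat_lit 28679784572) (nat_lit 76) (nat_lit 1842755296) (nat_lit 10) (nat_lit 4) (nat_lit 11) (nat_lit 5) (nat_lit 11) (nat_lit 4) (nat_lit 343) (nat_lit 253) (nat_lit 184)) (XT.lf (nat_lit 0) (nat_lit 6468724475) (nat_lit 152) (nat_lit 13751196423) (nat_lit 76) (nat_lit 52083813563) (nat_lit 9) (nat_lit 5) (nat_lit 11) (nat_lit 5) (nat_lit 10) (nat_lit 4) (nat_lit 344) (nat_lit 253) (nat_lit 183)))) (XT.nd (nat_lit 156) (nat_lit 0) (nat_lit 0) (XT.nd (nat_lit 78) (nat_lit 0) (nat_lit 0) (XT.lf (nat_lit 0) (nat_lit 3860544684) (nat_lit 76) (nat_lit 11305344227) (nat_lit 152) (nat_lit 60459442205) (nat_lit 8) (nat_lit 5) (nat_lit 9) (nat_lit 5) (nat_lit 10) (nat_lit 4) (nat_lit 345) (nat_lit 253) (nat_lit 182)) (XT.lf (nat_lit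 0) (nat_lit 22586902934) (nat_lit 76) (nat_lit 1824202426) (nat_lit 152) (nat_lit 54698511880) (nat_lit 8) (nat_lit 5) (nat_lit 9) (nat_lit 5) (nat_lit 10) (nat_lit 4) (nat_lit 346) (nat_lit 253) (nat_lit 181))) (XT.nd (nat_lit 78) (nat_lit 0) (nat_lit 0) (XT.lf (nat_lit 0) (nat_lit 34169502134) (nat_lit 152) (nat_lit 40648075647) (nat_lit 0) (nat_lit 7949017495) (nat_lit 8) (nat_lit 5) (nat_lit 10) (nat_lit 4) (nat_lit 8) (nat_lit 4) (nat_lit 347) (nat_lit 253) (nat_lit 180)) (XT.lf (nat_lit 0) (nat_lit 44408287425) (nat_lit 152) (nat_lit 24047047610) (nat_lit 0) (nat_lit 18151318063) (nat_lit 8) (nat_lit 5) (nat_lit 10) (nat_lit 4) (nat_lit 8) (nat_lit 4) (nat_lit 348) (nat_lit 253) (nat_lit 179)))))) (XT.nd (nat_lit 546) (nat_lit 152) (nat_lit 0) (XT.nd (nat_lit 234) (nat_lit 76) (nat_lit 0) (XT.nd (nat_lit 78) (nat_lit 76) (nat_lit 0) (XT.lf (nat_lit 0) (nat_lit 55134303946) (nat_lit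 152) (nat_lit 6662568588) (nat_lit 0) (nat_lit 28842587226) (nat_lit 8) (nat_lit 5) (nat_lit 10) (nat_lit 4) (nat_lit 8) (nat_lit 4) (nat_lit 349) (nat_lit 253) (nat_lit 178)) (XT.nd (nat_lit 78) (nat_lit 0) (nat_lit 0) (XT.lf (nat_lit 0) (nat_lit 11776556061) (nat_lit 76) (nat_lit 54709737229) (nat_lit 76) (nat_lit 28384927789) (nat_lit 7) (nat_lit 4) (nat_lit 8) (nat_lit 5) (nat_lit 8) (nat_lit 4) (nat_lit 350) (nat_lit 253) (nat_lit 177)) (XT.lf (nat_lit 0) (nat_lit 31233755863) (nat_lit 76) (nat_lit 47217886195) (nat_lit 76) (nat_lit 20861559878) (nat_lit 7) (nat_lit 4) (nat_lit 8) (nat_lit 5) (nat_lit 8) (nat_lit 4) (nat_lit 351) (nat_lit 253) (nat_lit 176)))) (XT.nd (nat_lit 156) (nat_lit 76) (nat_lit 0) (XT.nd (nat_lit 78) (nat_lit 0) (nat_lit 0) (XT.lf (nat_lit 0) (nat_lit 51622759306) (nat_lit 76) (nat_lit 39370760570) (nat_lit 76) (nat_lit 12984418179) (nat_lit 7) (nat_lit 4) (nat_lit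 8) (nat_lit 5) (nat_lit 8) (nat_lit 4) (nat_lit 352) (nat_lit 253) (nat_lit 175)) (XT.lf (nat_lit 0) (nat_lit 72992111636) (nat_lit 76) (nat_lit 31149676720) (nat_lit 76) (nat_lit 4734747594) (nat_lit 7) (nat_lit 4) (nat_lit 8) (nat_lit 5) (nat_lit 8) (nat_lit 4) (nat_lit 353) (nat_lit 253) (nat_lit 174))) (XT.nd (nat_lit 78) (nat_lit 0) (nat_lit 0) (XT.lf (nat_lit 0) (nat_lit 3830852475) (nat_lit 152) (nat_lit 18665524065) (nat_lit 76) (nat_lit 91523155689) (nat_lit 6) (nat_lit 5) (nat_lit 8) (nat_lit 5) (nat_lit 7) (nat_lit 4) (nat_lit 354) (nat_lit 253) (nat_lit 173)) (XT.lf (nat_lit 0) (nat_lit 12708753161) (nat_lit 152) (nat_lit 669314683) (nat_lit 76) (nat_lit 106040749252) (nat_lit 6) (nat_lit 5) (nat_lit 8) (nat_lit 5) (nat_lit 7) (nat_lit 4) (nat_lit 355) (nat_lit 253) (nat_lit 172))))) (XT.nd (nat_lit 312) (nat_lit 76) (nat_lit 0) (XT.nd (nat_lit 156) (nat_lit 0) (nat_lit 0) (XT.nd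 (nat_lit 78) (nat_lit 0) (nat_lit 0) (XT.lf (nat_lit 0) (nat_lit 18554632956) (nat_lit 76) (nat_lit 3636209830) (nat_lit 152) (nat_lit 102892417855) (nat_lit 5) (nat_lit 5) (nat_lit 6) (nat_lit 5) (nat_lit 7) (nat_lit 4) (nat_lit 356) (nat_lit 253) (nat_lit 171)) (XT.lf (nat_lit 0) (nat_lit 32199695123) (nat_lit 152) (nat_lit 92373936434) (nat_lit 0) (nat_lit 6455718153) (nat_lit 5) (nat_lit 5) (nat_lit 7) (nat_lit 4) (nat_lit 5) (nat_lit 4) (nat_lit 357) (nat_lit 253) (nat_lit 170))) (XT.nd (nat_lit 78) (nat_lit 0) (nat_lit 0) (XT.lf (nat_lit 0) (nat_lit 42728859365) (nat_lit 152) (nat_lit 77580154413) (nat_lit 0) (nat_lit 16963136321) (nat_lit 5) (nat_lit 5) (nat_lit 7) (nat_lit 4) (nat_lit 5) (nat_lit 4) (nat_lit 358) (nat_lit 253) (nat_lit 169)) (XT.lf (nat_lit 0) (nat_lit 53768451478) (nat_lit 152) (nat_lit 62077104860) (nat_lit 0) (nat_lit 27982017887) (nat_lit 5) (nat_lit 5) (nat_lit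 7) (nat_lit 4) (nat_lit 5) (nat_lit 4) (nat_lit 359) (nat_lit 253) (nat_lit 168)))) (XT.nd (nat_lit 156) (nat_lit 76) (nat_lit 0) (XT.nd (nat_lit 78) (nat_lit 0) (nat_lit 0) (XT.lf (nat_lit 0) (nat_lit 65344756204) (nat_lit 152) (nat_lit 45827875752) (nat_lit 0) (nat_lit 39538598283) (nat_lit 5) (nat_lit 5) (nat_lit 7) (nat_lit 4) (nat_lit 5) (nat_lit 4) (nat_lit 360) (nat_lit 253) (nat_lit 167)) (XT.lf (nat_lit 0) (nat_lit 77485336174) (nat_lit 152) (nat_lit 28793778448) (nat_lit 0) (nat_lit 51660393177) (nat_lit 5) (nat_lit 5) (nat_lit 7) (nat_lit 4) (nat_lit 5) (nat_lit 4) (nat_lit 361) (nat_lit 253) (nat_lit 166))) (XT.nd (nat_lit 78) (nat_lit 76) (nat_lit 0) (XT.lf (nat_lit 0) (nat_lit 90219097531) (nat_lit 152) (nat_lit 10934255573) (nat_lit 0) (nat_lit 64376263986) (nat_lit 5) (nat_lit 5) (nat_lit 7) (nat_lit 4) (nat_lit 5) (nat_lit 4) (nat_lit 362) (nat_lit 253) (nat_lit 165)) (XT.lf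 (nat_lit 0) (nat_lit 7948315815) (nat_lit 76) (nat_lit 95704447013) (nat_lit 76) (nat_lit 69844574850) (nat_lit 4) (nat_lit 4) (nat_lit 5) (nat_lit 5) (nat_lit 5) (nat_lit 4) (nat_lit 363) (nat_lit 253) (nat_lit 164))))))))
noncomputable def xc39 : XT := (XT.nd (nat_lit 35490) (nat_lit 0) (nat_lit 1140) (XT.nd (nat_lit 34398) (nat_lit 0) (nat_lit 5244) (XT.nd (nat_lit 33852) (nat_lit 0) (nat_lit 10336) (XT.nd (nat_lit 33540) (nat_lit 0) (nat_lit 15124) (XT.nd (nat_lit 78) (nat_lit 0) (nat_lit 0) (XT.lf (nat_lit 0) (nat_lit 27979199074) (nat_lit 76) (nat_lit 89878676949) (nat_lit 76) (nat_lit 64002577531) (nat_lit 4) (nat_lit 4) (nat_lit 5) (nat_lit 5) (nat_lit 5) (nat_lit 4) (nat_lit 364) (nat_lit 253) (nat_lit 163)) (XT.nd (nat_lit 33384) (nat_lit 0) (nat_lit 19456) (XT.lf (nat_lit 0) (nat_lit 48988473659) (nat_lit 76) (nat_lit 83772586573) (nat_lit 76) (nat_lit 57881032626) (nat_lit 4)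 (nat_lit 4) (nat_lit 5) (nat_lit 5) (nat_lit 5) (nat_lit 4) (nat_lit 365) (nat_lit 253) (nat_lit 162)) (XT.lf (nat_lit 0) (nat_lit 588533922) (nat_lit 836) (nat_lit 1426327647) (nat_lit 836) (nat_lit 1426327647) (nat_lit 260) (nat_lit 4) (nat_lit 271) (nat_lit 5) (nat_lit 271) (nat_lit 4) (nat_lit 272) (nat_lit 254) (nat_lit 254)))) (XT.nd (nat_lit 156) (nat_lit 2280) (nat_lit 0) (XT.nd (nat_lit 78) (nat_lit 1064) (nat_lit 0) (XT.lf (nat_lit 0) (nat_lit 1735064321) (nat_lit 912) (nat_lit 640423893) (nat_lit 988) (nat_lit 4585806426) (nat_lit 247) (nat_lit 5) (nat_lit 259) (nat_lit 5) (nat_lit 260) (nat_lit 4) (nat_lit 273) (nat_lit 254) (nat_lit 253)) (XT.lf (nat_lit 0) (nat_lit 575643048) (nat_lit 1064) (nat_lit 4683235965) (nat_lit 76) (nat_lit 1789752060) (nat_lit 233) (nat_lit 5) (nat_lit 247) (nat_lit 5) (nat_lit 234) (nat_lit 4) (nat_lit 274) (nat_lit 254) (nat_lit 252))) (XT.nd (nat_lit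 78) (nat_lit 1216) (nat_lit 0) (XT.lf (nat_lit 0) (nat_lit 3061462567) (nat_lit 1064) (nat_lit 2668515844) (nat_lit 1140) (nat_lit 1414461792) (nat_lit 219) (nat_lit 5) (nat_lit 233) (nat_lit 5) (nat_lit 234) (nat_lit 4) (nat_lit 275) (nat_lit 254) (nat_lit 251)) (XT.lf (nat_lit 0) (nat_lit 3654062767) (nat_lit 1216) (nat_lit 3416756090) (nat_lit 76) (nat_lit 178434327) (nat_lit 203) (nat_lit 5) (nat_lit 219) (nat_lit 5) (nat_lit 204) (nat_lit 4) (nat_lit 276) (nat_lit 254) (nat_lit 250))))) (XT.nd (nat_lit 234) (nat_lit 2736) (nat_lit 0) (XT.nd (nat_lit 78) (nat_lit 1216) (nat_lit 0) (XT.lf (nat_lit 0) (nat_lit 1425437609) (nat_lit 836) (nat_lit 2707292170) (nat_lit 76) (nat_lit 3229948289) (nat_lit 192) (nat_lit 5) (nat_lit 203) (nat_lit 5) (nat_lit 193) (nat_lit 5) (nat_lit 277) (nat_lit 254) (nat_lit 249)) (XT.nd (nat_lit 78) (nat_lit 608) (nat_lit 0) (XT.lf (nat_lit 0) (nat_lit 5544805436)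 (nat_lit 608) (nat_lit 929726640) (nat_lit 684) (nat_lit 1010911779) (nat_lit 184) (nat_lit 5) (nat_lit 192) (nat_lit 5) (nat_lit 193) (nat_lit 5) (nat_lit 278) (nat_lit 254) (nat_lit 248)) (XT.lf (nat_lit 0) (nat_lit 3964358778) (nat_lit 608) (nat_lit 1149513851) (nat_lit 76) (nat_lit 2503029342) (nat_lit 176) (nat_lit 5) (nat_lit 184) (nat_lit 5) (nat_lit 177) (nat_lit 5) (nat_lit 279) (nat_lit 254) (nat_lit 247)))) (XT.nd (nat_lit 156) (nat_lit 1064) (nat_lit 0) (XT.nd (nat_lit 78) (nat_lit 1064) (nat_lit 0) (XT.lf (nat_lit 0) (nat_lit 1262603866) (nat_lit 608) (nat_lit 309078935) (nat_lit 76) (nat_lit 6186471835) (nat_lit 168) (nat_lit 5) (nat_lit 176) (nat_lit 5) (nat_lit 169) (nat_lit 5) (nat_lit 280) (nat_lit 254) (nat_lit 246)) (XT.lf (nat_lit 0) (nat_lit 560430408) (nat_lit 532) (nat_lit 5692011597) (nat_lit 608) (nat_lit 1656045916) (nat_lit 154) (nat_lit 5) (nat_lit 161) (nat_lit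 5) (nat_lit 162) (nat_lit 5) (nat_lit 281) (nat_lit 254) (nat_lit 245))) (XT.nd (nat_lit 78) (nat_lit 532) (nat_lit 0) (XT.lf (nat_lit 0) (nat_lit 1457689406) (nat_lit 456) (nat_lit 1804278342) (nat_lit 532) (nat_lit 4806500268) (nat_lit 147) (nat_lit 5) (nat_lit 153) (nat_lit 5) (nat_lit 154) (nat_lit 5) (nat_lit 282) (nat_lit 254) (nat_lit 244)) (XT.lf (nat_lit 0) (nat_lit 66842363) (nat_lit 532) (nat_lit 5860051628) (nat_lit 76) (nat_lit 2311792978) (nat_lit 140) (nat_lit 5) (nat_lit 147) (nat_lit 5) (nat_lit 141) (nat_lit 5) (nat_lit 283) (nat_lit 254) (nat_lit 243)))))) (XT.nd (nat_lit 546) (nat_lit 2204) (nat_lit 0) (XT.nd (nat_lit 234) (nat_lit 1596) (nat_lit 0) (XT.nd (nat_lit 78) (nat_lit 912) (nat_lit 0) (XT.lf (nat_lit 0) (nat_lit 3289218774) (nat_lit 380) (nat_lit 1713792189) (nat_lit 456) (nat_lit 3415614368) (nat_lit 135) (nat_lit 5) (nat_lit 140) (nat_lit 5) (nat_lit 141) (nat_lit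 5) (nat_lit 284) (nat_lit 254) (nat_lit 242)) (XT.nd (nat_lit 78) (nat_lit 380) (nat_lit 0) (XT.lf (nat_lit 0) (nat_lit 1480230000) (nat_lit 532) (nat_lit 4402146725) (nat_lit 76) (nat_lit 2726929125) (nat_lit 128) (nat_lit 5) (nat_lit 135) (nat_lit 5) (nat_lit 129) (nat_lit 5) (nat_lit 285) (nat_lit 254) (nat_lit 241)) (XT.lf (nat_lit 0) (nat_lit 5114136476) (nat_lit 380) (nat_lit 1367335103) (nat_lit 456) (nat_lit 2329266945) (nat_lit 123) (nat_lit 5) (nat_lit 128) (nat_lit 5) (nat_lit 129) (nat_lit 5) (nat_lit 286) (nat_lit 254) (nat_lit 240)))) (XT.nd (nat_lit 156) (nat_lit 760) (nat_lit 0) (XT.nd (nat_lit 78) (nat_lit 380) (nat_lit 0) (XT.lf (nat_lit 0) (nat_lit 2610110817) (nat_lit 456) (nat_lit 3028769545) (nat_lit 76) (nat_lit 3384163900) (nat_lit 117) (nat_lit 5) (nat_lit 123) (nat_lit 5) (nat_lit 118) (nat_lit 5) (nat_lit 287) (nat_lit 254) (nat_lit 239)) (XT.lf (nat_lit 0) (nat_lit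 6860197843) (nat_lit 380) (nat_lit 828298037) (nat_lit 456) (nat_lit 1558720935) (nat_lit 112) (nat_lit 5) (nat_lit 117) (nat_lit 5) (nat_lit 118) (nat_lit 5) (nat_lit 288) (nat_lit 254) (nat_lit 238))) (XT.nd (nat_lit 78) (nat_lit 304) (nat_lit 0) (XT.lf (nat_lit 0) (nat_lit 3442130695) (nat_lit 456) (nat_lit 1818731603) (nat_lit 76) (nat_lit 4221664650) (nat_lit 106) (nat_lit 5) (nat_lit 112) (nat_lit 5) (nat_lit 107) (nat_lit 5) (nat_lit 289) (nat_lit 254) (nat_lit 237)) (XT.lf (nat_lit 0) (nat_lit 8445906431) (nat_lit 304) (nat_lit 161073650) (nat_lit 380) (nat_lit 1123905613) (nat_lit 102) (nat_lit 5) (nat_lit 106) (nat_lit 5) (nat_lit 107) (nat_lit 5) (nat_lit 290) (nat_lit 254) (nat_lit 236))))) (XT.nd (nat_lit 234) (nat_lit 1140) (nat_lit 0) (XT.nd (nat_lit 78) (nat_lit 684) (nat_lit 0) (XT.lf (nat_lit 0) (nat_lit 3953160376) (nat_lit 380) (nat_lit 861697263) (nat_lit 76) (nat_lit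 5175955418) (nat_lit 97) (nat_lit 5) (nat_lit 102) (nat_lit 5) (nat_lit 98) (nat_lit 5) (nat_lit 291) (nat_lit 254) (nat_lit 235)) (XT.nd (nat_lit 78) (nat_lit 380) (nat_lit 0) (XT.lf (nat_lit 0) (nat_lit 9216193100) (nat_lit 380) (nat_lit 492481008) (nat_lit 76) (nat_lit 556184230) (nat_lit 93) (nat_lit 5) (nat_lit 98) (nat_lit 5) (nat_lit 94) (nat_lit 5) (nat_lit 292) (nat_lit 254) (nat_lit 234)) (XT.lf (nat_lit 0) (nat_lit 4110337487) (nat_lit 380) (nat_lit 260898617) (nat_lit 76) (nat_lit 6180199194) (nat_lit 88) (nat_lit 5) (nat_lit 93) (nat_lit 5) (nat_lit 89) (nat_lit 5) (nat_lit 293) (nat_lit 254) (nat_lit 233)))) (XT.nd (nat_lit 156) (nat_lit 532) (nat_lit 0) (XT.nd (nat_lit 78) (nat_lit 380) (nat_lit 0) (XT.lf (nat_lit 0) (nat_lit 9475809582) (nat_lit 304) (nat_lit 117205255) (nat_lit 76) (nat_lit 1260010812) (nat_lit 85) (nat_lit 5) (nat_lit 89) (nat_lit 5) (nat_lit 86) (nat_lit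 5) (nat_lit 294) (nat_lit 254) (nat_lit 232)) (XT.lf (nat_lit 0) (nat_lit 3869866021) (nat_lit 380) (nat_lit 136246124) (nat_lit 76) (nat_lit 7162335130) (nat_lit 80) (nat_lit 5) (nat_lit 85) (nat_lit 5) (nat_lit 81) (nat_lit 5) (nat_lit 295) (nat_lit 254) (nat_lit 231))) (XT.nd (nat_lit 78) (nat_lit 304) (nat_lit 0) (XT.lf (nat_lit 0) (nat_lit 9335762486) (nat_lit 304) (nat_lit 287033590) (nat_lit 76) (nat_lit 1876976574) (nat_lit 77) (nat_lit 5) (nat_lit 81) (nat_lit 5) (nat_lit 78) (nat_lit 5) (nat_lit 296) (nat_lit 254) (nat_lit 230)) (XT.lf (nat_lit 0) (nat_lit 3175540342) (nat_lit 304) (nat_lit 627913134) (nat_lit 76) (nat_lit 8043026585) (nat_lit 73) (nat_lit 5) (nat_lit 77) (nat_lit 5) (nat_lit 74) (nat_lit 5) (nat_lit 297) (nat_lit 254) (nat_lit 229))))))) (XT.nd (nat_lit 1092) (nat_lit 1444) (nat_lit 0) (XT.nd (nat_lit 546) (nat_lit 988) (nat_lit 0) (XT.nd (nat_lit 234) (nat_lit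 912) (nat_lit 0) (XT.nd (nat_lit 78) (nat_lit 532) (nat_lit 0) (XT.lf (nat_lit 0) (nat_lit 8734398228) (nat_lit 304) (nat_lit 1153679580) (nat_lit 76) (nat_lit 2321968999) (nat_lit 70) (nat_lit 5) (nat_lit 74) (nat_lit 5) (nat_lit 71) (nat_lit 5) (nat_lit 298) (nat_lit 254) (nat_lit 228)) (XT.nd (nat_lit 78) (nat_lit 228) (nat_lit 0) (XT.lf (nat_lit 0) (nat_lit 1956954055) (nat_lit 304) (nat_lit 1900484609) (nat_lit 76) (nat_lit 8733370555) (nat_lit 66) (nat_lit 5) (nat_lit 70) (nat_lit 5) (nat_lit 67) (nat_lit 5) (nat_lit 299) (nat_lit 254) (nat_lit 227)) (XT.lf (nat_lit 0) (nat_lit 7594967013) (nat_lit 304) (nat_lit 2895607250) (nat_lit 76) (nat_lit 2498903082) (nat_lit 63) (nat_lit 5) (nat_lit 67) (nat_lit 5) (nat_lit 64) (nat_lit 5) (nat_lit 300) (nat_lit 254) (nat_lit 226)))) (XT.nd (nat_lit 156) (nat_lit 456) (nat_lit 0) (XT.nd (nat_lit 78) (nat_lit 152) (nat_lit 0) (XT.lf (nat_lit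 0) (nat_lit 127346430) (nat_lit 304) (nat_lit 4147774766) (nat_lit 76) (nat_lit 9132312580) (nat_lit 59) (nat_lit 5) (nat_lit 63) (nat_lit 5) (nat_lit 60) (nat_lit 5) (nat_lit 301) (nat_lit 254) (nat_lit 225)) (XT.lf (nat_lit 0) (nat_lit 5823272989) (nat_lit 228) (nat_lit 5723225660) (nat_lit 76) (nat_lit 2297962226) (nat_lit 57) (nat_lit 5) (nat_lit 60) (nat_lit 5) (nat_lit 58) (nat_lit 5) (nat_lit 302) (nat_lit 254) (nat_lit 224))) (XT.nd (nat_lit 78) (nat_lit 228) (nat_lit 0) (XT.lf (nat_lit 0) (nat_lit 6680306717) (nat_lit 228) (nat_lit 5155038629) (nat_lit 304) (nat_lit 2467112057) (nat_lit 54) (nat_lit 5) (nat_lit 57) (nat_lit 5) (nat_lit 58) (nat_lit 5) (nat_lit 303) (nat_lit 254) (nat_lit 223)) (XT.lf (nat_lit 0) (nat_lit 3304874757) (nat_lit 228) (nat_lit 9884942453) (nat_lit 76) (nat_lit 1592444476) (nat_lit 51) (nat_lit 5) (nat_lit 54) (nat_lit 5) (nat_lit 52) (nat_lit 5) (nat_lit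 304) (nat_lit 254) (nat_lit 222))))) (XT.nd (nat_lit 234) (nat_lit 532) (nat_lit 0) (XT.nd (nat_lit 78) (nat_lit 228) (nat_lit 0) (XT.lf (nat_lit 0) (nat_lit 2704592072) (nat_lit 228) (nat_lit 6654163708) (nat_lit 304) (nat_lit 5925289610) (nat_lit 48) (nat_lit 5) (nat_lit 51) (nat_lit 5) (nat_lit 52) (nat_lit 5) (nat_lit 305) (nat_lit 254) (nat_lit 221)) (XT.nd (nat_lit 78) (nat_lit 76) (nat_lit 0) (XT.lf (nat_lit 0) (nat_lit 135907708) (nat_lit 152) (nat_lit 15575001228) (nat_lit 228) (nat_lit 100191113) (nat_lit 46) (nat_lit 5) (nat_lit 48) (nat_lit 5) (nat_lit 49) (nat_lit 4) (nat_lit 306) (nat_lit 254) (nat_lit 220)) (XT.lf (nat_lit 0) (nat_lit 5988628875) (nat_lit 228) (nat_lit 2919889816) (nat_lit 76) (nat_lit 7451603323) (nat_lit 45) (nat_lit 5) (nat_lit 48) (nat_lit 5) (nat_lit 46) (nat_lit 5) (nat_lit 307) (nat_lit 254) (nat_lit 219)))) (XT.nd (nat_lit 156) (nat_lit 152) (nat_lit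 0) (XT.nd (nat_lit 78) (nat_lit 228) (nat_lit 0) (XT.lf (nat_lit 0) (nat_lit 10502923761) (nat_lit 152) (nat_lit 1874945195) (nat_lit 228) (nat_lit 4558798072) (nat_lit 43) (nat_lit 5) (nat_lit 45) (nat_lit 5) (nat_lit 46) (nat_lit 5) (nat_lit 308) (nat_lit 254) (nat_lit 218)) (XT.lf (nat_lit 0) (nat_lit 1565422147) (nat_lit 228) (nat_lit 10526818018) (nat_lit 76) (nat_lit 5447862816) (nat_lit 40) (nat_lit 5) (nat_lit 43) (nat_lit 5) (nat_lit 41) (nat_lit 5) (nat_lit 309) (nat_lit 254) (nat_lit 217))) (XT.nd (nat_lit 78) (nat_lit 0) (nat_lit 0) (XT.lf (nat_lit 0) (nat_lit 2918101276) (nat_lit 152) (nat_lit 5000058761) (nat_lit 228) (nat_lit 10253736994) (nat_lit 38) (nat_lit 5) (nat_lit 40) (nat_lit 5) (nat_lit 41) (nat_lit 5) (nat_lit 310) (nat_lit 254) (nat_lit 216)) (XT.lf (nat_lit 0) (nat_lit 14625782590) (nat_lit 228) (nat_lit 1767404491) (nat_lit 76) (nat_lit 2441012541) (nat_lit 38)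 (nat_lit 5) (nat_lit 41) (nat_lit 5) (nat_lit 39) (nat_lit 4) (nat_lit 311) (nat_lit 254) (nat_lit 215)))))) (XT.nd (nat_lit 546) (nat_lit 684) (nat_lit 0) (XT.nd (nat_lit 234) (nat_lit 304) (nat_lit 0) (XT.nd (nat_lit 78) (nat_lit 228) (nat_lit 0) (XT.lf (nat_lit 0) (nat_lit 2176945558) (nat_lit 228) (nat_lit 7121414188) (nat_lit 76) (nat_lit 10228288658) (nat_lit 35) (nat_lit 5) (nat_lit 38) (nat_lit 5) (nat_lit 36) (nat_lit 5) (nat_lit 312) (nat_lit 254) (nat_lit 214)) (XT.nd (nat_lit 78) (nat_lit 76) (nat_lit 0) (XT.lf (nat_lit 0) (nat_lit 7008981643) (nat_lit 152) (nat_lit 1782922210) (nat_lit 228) (nat_lit 11460676766) (nat_lit 33) (nat_lit 5) (nat_lit 35) (nat_lit 5) (nat_lit 36) (nat_lit 5) (nat_lit 313) (nat_lit 254) (nat_lit 213)) (XT.lf (nat_lit 0) (nat_lit 785035946) (nat_lit 76) (nat_lit 15005853772) (nat_lit 152) (nat_lit 5222351757) (nat_lit 32) (nat_lit 5) (nat_lit 33) (nat_lit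 5) (nat_lit 34) (nat_lit 4) (nat_lit 314) (nat_lit 254) (nat_lit 212)))) (XT.nd (nat_lit 156) (nat_lit 76) (nat_lit 0) (XT.nd (nat_lit 78) (nat_lit 152) (nat_lit 0) (XT.lf (nat_lit 0) (nat_lit 1372488919) (nat_lit 152) (nat_lit 6198383493) (nat_lit 76) (nat_lit 14238592816) (nat_lit 31) (nat_lit 5) (nat_lit 33) (nat_lit 5) (nat_lit 32) (nat_lit 5) (nat_lit 315) (nat_lit 254) (nat_lit 211)) (XT.lf (nat_lit 0) (nat_lit 8193698173) (nat_lit 228) (nat_lit 14143912224) (nat_lit 76) (nat_lit 306226382) (nat_lit 29) (nat_lit 5) (nat_lit 32) (nat_lit 5) (nat_lit 30) (nat_lit 4) (nat_lit 316) (nat_lit 254) (nat_lit 210))) (XT.nd (nat_lit 78) (nat_lit 0) (nat_lit 0) (XT.lf (nat_lit 0) (nat_lit 333294507) (nat_lit 76) (nat_lit 15087565854) (nat_lit 152) (nat_lit 8097145286) (nat_lit 28) (nat_lit 5) (nat_lit 29) (nat_lit 5) (nat_lit 30) (nat_lit 4) (nat_lit 317) (nat_lit 254) (nat_lit 209)) (XT.lf (nat_lit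 0) (nat_lit 15693138337) (nat_lit 76) (nat_lit 7385131609) (nat_lit 152) (nat_lit 1355570630) (nat_lit 28) (nat_lit 5) (nat_lit 29) (nat_lit 5) (nat_lit 30) (nat_lit 4) (nat_lit 318) (nat_lit 254) (nat_lit 208))))) (XT.nd (nat_lit 312) (nat_lit 304) (nat_lit 0) (XT.nd (nat_lit 156) (nat_lit 152) (nat_lit 0) (XT.nd (nat_lit 78) (nat_lit 0) (nat_lit 0) (XT.lf (nat_lit 0) (nat_lit 5606111021) (nat_lit 228) (nat_lit 19038674392) (nat_lit 76) (nat_lit 749212707) (nat_lit 25) (nat_lit 5) (nat_lit 28) (nat_lit 5) (nat_lit 26) (nat_lit 4) (nat_lit 319) (nat_lit 254) (nat_lit 207)) (XT.lf (nat_lit 0) (nat_lit 12981448988) (nat_lit 228) (nat_lit 4229385108) (nat_lit 76) (nat_lit 9188139970) (nat_lit 25) (nat_lit 5) (nat_lit 28) (nat_lit 5) (nat_lit 26) (nat_lit 4) (nat_lit 320) (nat_lit 254) (nat_lit 206))) (XT.nd (nat_lit 78) (nat_lit 76) (nat_lit 0) (XT.lf (nat_lit 0) (nat_lit 11419767558) (nat_lit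 76) (nat_lit 9346929888) (nat_lit 152) (nat_lit 6686287435) (nat_lit 24) (nat_lit 5) (nat_lit 25) (nat_lit 5) (nat_lit 26) (nat_lit 4) (nat_lit 321) (nat_lit 254) (nat_lit 205)) (XT.lf (nat_lit 0) (nat_lit 350844002) (nat_lit 152) (nat_lit 743988471) (nat_lit 76) (nat_lit 27465469288) (nat_lit 23) (nat_lit 5) (nat_lit 25) (nat_lit 5) (nat_lit 24) (nat_lit 5) (nat_lit 322) (nat_lit 254) (nat_lit 204)))) (XT.nd (nat_lit 156) (nat_lit 76) (nat_lit 0) (XT.nd (nat_lit 78) (nat_lit 76) (nat_lit 0) (XT.lf (nat_lit 0) (nat_lit 7761551175) (nat_lit 228) (nat_lit 14365074515) (nat_lit 76) (nat_lit 7589590659) (nat_lit 21) (nat_lit 5) (nat_lit 24) (nat_lit 5) (nat_lit 22) (nat_lit 4) (nat_lit 323) (nat_lit 254) (nat_lit 203)) (XT.lf (nat_lit 0) (nat_lit 1236306851) (nat_lit 76) (nat_lit 14274650189) (nat_lit 152) (nat_lit 15419941817) (nat_lit 20) (nat_lit 5) (nat_lit 21) (nat_lit 5) (nat_lit 22) (nat_lit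 4) (nat_lit 324) (nat_lit 254) (nat_lit 202))) (XT.nd (nat_lit 78) (nat_lit 76) (nat_lit 0) (XT.lf (nat_lit 0) (nat_lit 17807629942) (nat_lit 76) (nat_lit 5927489325) (nat_lit 152) (nat_lit 8468593918) (nat_lit 20) (nat_lit 5) (nat_lit 21) (nat_lit 5) (nat_lit 22) (nat_lit 4) (nat_lit 325) (nat_lit 254) (nat_lit 201)) (XT.lf (nat_lit 0) (nat_lit 1564250397) (nat_lit 76) (nat_lit 30790387298) (nat_lit 76) (nat_lit 1186021594) (nat_lit 19) (nat_lit 4) (nat_lit 20) (nat_lit 5) (nat_lit 20) (nat_lit 4) (nat_lit 326) (nat_lit 254) (nat_lit 200))))))))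
noncomputable def xc40 : XT := (XT.nd (nat_lit 2184) (nat_lit 228) (nat_lit 0) (XT.nd (nat_lit 1092) (nat_lit 304) (nat_lit 0) (XT.nd (nat_lit 546) (nat_lit 228) (nat_lit 0) (XT.nd (nat_lit 234) (nat_lit 228) (nat_lit 0) (XT.nd (nat_lit 78) (nat_lit 76) (nat_lit 0) (XT.lf (nat_lit 0) (nat_lit 6487142108) (nat_lit 152) (nat_lit 16544421918) (nat_lit 76) (nat_lit 11906463868) (nat_lit 18) (nat_lit 5) (nat_lit 20) (nat_lit 5) (nat_lit 19) (nat_lit 4) (nat_lit 327) (nat_lit 254) (nat_lit 199)) (XT.nd (nat_lit 78) (nat_lit 76) (nat_lit 0) (XT.lf (nat_lit 0) (nat_lit 14465419504) (nat_lit 152) (nat_lit 452285183) (nat_lit 76) (nat_lit 21488842083) (nat_lit 18) (nat_lit 5) (nat_lit 20) (nat_lit 5) (nat_lit 19) (nat_lit 4) (nat_lit 328) (nat_lit 254) (nat_lit 198)) (XT.lf (nat_lit 0) (nat_lit 16675108110) (nat_lit 76) (nat_lit 6276133272) (nat_lit 152) (nat_lit 14994004289) (nat_lit 17) (nat_lit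 5) (nat_lit 18) (nat_lit 5) (nat_lit 19) (nat_lit 4) (nat_lit 329) (nat_lit 254) (nat_lit 197)))) (XT.nd (nat_lit 156) (nat_lit 76) (nat_lit 0) (XT.nd (nat_lit 78) (nat_lit 152) (nat_lit 0) (XT.lf (nat_lit 0) (nat_lit 31842459313) (nat_lit 152) (nat_lit 5012492612) (nat_lit 0) (nat_lit 2706506827) (nat_lit 17) (nat_lit 5) (nat_lit 19) (nat_lit 4) (nat_lit 17) (nat_lit 4) (nat_lit 330) (nat_lit 254) (nat_lit 196)) (XT.lf (nat_lit 0) (nat_lit 54604388) (nat_lit 152) (nat_lit 29112132079) (nat_lit 76) (nat_lit 12087782121) (nat_lit 15) (nat_lit 5) (nat_lit 17) (nat_lit 5) (nat_lit 16) (nat_lit 4) (nat_lit 331) (nat_lit 254) (nat_lit 195))) (XT.nd (nat_lit 78) (nat_lit 76) (nat_lit 0) (XT.lf (nat_lit 0) (nat_lit 8063746357) (nat_lit 152) (nat_lit 12936456266) (nat_lit 76) (nat_lit 22029551964) (nat_lit 15) (nat_lit 5) (nat_lit 17) (nat_lit 5) (nat_lit 16) (nat_lit 4) (nat_lit 332) (nat_lit 254)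 (nat_lit 194)) (XT.lf (nat_lit 0) (nat_lit 4043955328) (nat_lit 76) (nat_lit 12423410338) (nat_lit 152) (nat_lit 28426576497) (nat_lit 14) (nat_lit 5) (nat_lit 15) (nat_lit 5) (nat_lit 16) (nat_lit 4) (nat_lit 333) (nat_lit 254) (nat_lit 193))))) (XT.nd (nat_lit 234) (nat_lit 152) (nat_lit 0) (XT.nd (nat_lit 78) (nat_lit 76) (nat_lit 0) (XT.lf (nat_lit 0) (nat_lit 22063139283) (nat_lit 76) (nat_lit 3317704571) (nat_lit 152) (nat_lit 21467814818) (nat_lit 14) (nat_lit 5) (nat_lit 15) (nat_lit 5) (nat_lit 16) (nat_lit 4) (nat_lit 334) (nat_lit 254) (nat_lit 192)) (XT.nd (nat_lit 78) (nat_lit 76) (nat_lit 0) (XT.lf (nat_lit 0) (nat_lit 34758250213) (nat_lit 152) (nat_lit 8055500195) (nat_lit 0) (nat_lit 6086822387) (nat_lit 14) (nat_lit 5) (nat_lit 16) (nat_lit 4) (nat_lit 14) (nat_lit 4) (nat_lit 335) (nat_lit 254) (nat_lit 191)) (XT.lf (nat_lit 0) (nat_lit 9590723756) (nat_lit 76) (nat_lit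 35099709979) (nat_lit 76) (nat_lit 6362080655) (nat_lit 13) (nat_lit 4) (nat_lit 14) (nat_lit 5) (nat_lit 14) (nat_lit 4) (nat_lit 336) (nat_lit 254) (nat_lit 190)))) (XT.nd (nat_lit 156) (nat_lit 76) (nat_lit 0) (XT.nd (nat_lit 78) (nat_lit 0) (nat_lit 0) (XT.lf (nat_lit 0) (nat_lit 1816695826) (nat_lit 152) (nat_lit 25112785839) (nat_lit 76) (nat_lit 26380714937) (nat_lit 12) (nat_lit 5) (nat_lit 14) (nat_lit 5) (nat_lit 13) (nat_lit 4) (nat_lit 337) (nat_lit 254) (nat_lit 189)) (XT.lf (nat_lit 0) (nat_lit 10236953452) (nat_lit 152) (nat_lit 8079709569) (nat_lit 76) (nat_lit 37363294479) (nat_lit 12) (nat_lit 5) (nat_lit 14) (nat_lit 5) (nat_lit 13) (nat_lit 4) (nat_lit 338) (nat_lit 254) (nat_lit 188))) (XT.nd (nat_lit 78) (nat_lit 0) (nat_lit 0) (XT.lf (nat_lit 0) (nat_lit 9932977497) (nat_lit 76) (nat_lit 9205391920) (nat_lit 152) (nat_lit 39028040186) (nat_lit 11) (nat_lit 5) (nat_lit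 12) (nat_lit 5) (nat_lit 13) (nat_lit 4) (nat_lit 339) (nat_lit 254) (nat_lit 187)) (XT.lf (nat_lit 0) (nat_lit 28537773183) (nat_lit 152) (nat_lit 31828578527) (nat_lit 0) (nat_lit 409252255) (nat_lit 11) (nat_lit 5) (nat_lit 13) (nat_lit 4) (nat_lit 11) (nat_lit 4) (nat_lit 340) (nat_lit 254) (nat_lit 186)))))) (XT.nd (nat_lit 546) (nat_lit 76) (nat_lit 0) (XT.nd (nat_lit 234) (nat_lit 152) (nat_lit 0) (XT.nd (nat_lit 78) (nat_lit 76) (nat_lit 0) (XT.lf (nat_lit 0) (nat_lit 38467150448) (nat_lit 152) (nat_lit 14758044613) (nat_lit 0) (nat_lit 10288269709) (nat_lit 11) (nat_lit 5) (nat_lit 13) (nat_lit 4) (nat_lit 11) (nat_lit 4) (nat_lit 341) (nat_lit 254) (nat_lit 185)) (XT.nd (nat_lit 78) (nat_lit 0) (nat_lit 0) (XT.lf (nat_lit 0) (nat_lit 3169143018) (nat_lit 76) (nat_lit 45722975451) (nat_lit 76) (nat_lit 17496132987) (nat_lit 10) (nat_lit 4) (nat_lit 11) (nat_lit 5) (nat_lit 11) (nat_lit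 4) (nat_lit 342) (nat_lit 254) (nat_lit 184)) (XT.lf (nat_lit 0) (nat_lit 22244058420) (nat_lit 76) (nat_lit 37715799920) (nat_lit 76) (nat_lit 9443279623) (nat_lit 10) (nat_lit 4) (nat_lit 11) (nat_lit 5) (nat_lit 11) (nat_lit 4) (nat_lit 343) (nat_lit 254) (nat_lit 183)))) (XT.nd (nat_lit 156) (nat_lit 76) (nat_lit 0) (XT.nd (nat_lit 78) (nat_lit 76) (nat_lit 0) (XT.lf (nat_lit 0) (nat_lit 42218404033) (nat_lit 76) (nat_lit 29333631078) (nat_lit 76) (nat_lit 1017608083) (nat_lit 10) (nat_lit 4) (nat_lit 11) (nat_lit 5) (nat_lit 11) (nat_lit 4) (nat_lit 344) (nat_lit 254) (nat_lit 182)) (XT.lf (nat_lit 0) (nat_lit 7648718265) (nat_lit 152) (nat_lit 12830556057) (nat_lit 76) (nat_lit 55413782500) (nat_lit 9) (nat_lit 5) (nat_lit 11) (nat_lit 5) (nat_lit 10) (nat_lit 4) (nat_lit 345) (nat_lit 254) (nat_lit 181))) (XT.nd (nat_lit 78) (nat_lit 0) (nat_lit 0) (XT.lf (nat_lit 0) (nat_lit 5615673370)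 (nat_lit 76) (nat_lit 11139294972) (nat_lit 152) (nat_lit 62626546128) (nat_lit 8) (nat_lit 5) (nat_lit 9) (nat_lit 5) (nat_lit 10) (nat_lit 4) (nat_lit 346) (nat_lit 254) (nat_lit 180)) (XT.lf (nat_lit 0) (nat_lit 25203963749) (nat_lit 76) (nat_lit 1218920675) (nat_lit 152) (nat_lit 56618324915) (nat_lit 8) (nat_lit 5) (nat_lit 9) (nat_lit 5) (nat_lit 10) (nat_lit 4) (nat_lit 347) (nat_lit 254) (nat_lit 179))))) (XT.nd (nat_lit 234) (nat_lit 76) (nat_lit 0) (XT.nd (nat_lit 78) (nat_lit 0) (nat_lit 0) (XT.lf (nat_lit 0) (nat_lit 36637900004) (nat_lit 152) (nat_lit 41247232453) (nat_lit 0) (nat_lit 8996850091) (nat_lit 8) (nat_lit 5) (nat_lit 10) (nat_lit 4) (nat_lit 8) (nat_lit 4) (nat_lit 348) (nat_lit 254) (nat_lit 178)) (XT.nd (nat_lit 78) (nat_lit 0) (nat_lit 0) (XT.lf (nat_lit 0) (nat_lit 47352437762) (nat_lit 152) (nat_lit 23884402870) (nat_lit 0) (nat_lit 19678295129) (nat_lit 8) (nat_lit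 5) (nat_lit 10) (nat_lit 4) (nat_lit 8) (nat_lit 4) (nat_lit 349) (nat_lit 254) (nat_lit 177)) (XT.lf (nat_lit 0) (nat_lit 58580291491) (nat_lit 152) (nat_lit 5695699760) (nat_lit 0) (nat_lit 30874631981) (nat_lit 8) (nat_lit 5) (nat_lit 10) (nat_lit 4) (nat_lit 8) (nat_lit 4) (nat_lit 350) (nat_lit 254) (nat_lit 176)))) (XT.nd (nat_lit 156) (nat_lit 0) (nat_lit 0) (XT.nd (nat_lit 78) (nat_lit 0) (nat_lit 0) (XT.lf (nat_lit 0) (nat_lit 13628116961) (nat_lit 76) (nat_lit 56851079012) (nat_lit 76) (nat_lit 29115403428) (nat_lit 7) (nat_lit 4) (nat_lit 8) (nat_lit 5) (nat_lit 8) (nat_lit 4) (nat_lit 351) (nat_lit 254) (nat_lit 175)) (XT.lf (nat_lit 0) (nat_lit 33998046606) (nat_lit 76) (nat_lit 49012928048) (nat_lit 76) (nat_lit 21248665729) (nat_lit 7) (nat_lit 4) (nat_lit 8) (nat_lit 5) (nat_lit 8) (nat_lit 4) (nat_lit 352) (nat_lit 254) (nat_lit 174))) (XT.nd (nat_lit 78) (nat_lit 0) (nat_lit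 0) (XT.lf (nat_lit 0) (nat_lit 55349233414) (nat_lit 76) (nat_lit 40800391497) (nat_lit 76) (nat_lit 13008903714) (nat_lit 7) (nat_lit 4) (nat_lit 8) (nat_lit 5) (nat_lit 8) (nat_lit 4) (nat_lit 353) (nat_lit 254) (nat_lit 173)) (XT.lf (nat_lit 0) (nat_lit 77732513544) (nat_lit 76) (nat_lit 32193915698) (nat_lit 76) (nat_lit 4376498902) (nat_lit 7) (nat_lit 4) (nat_lit 8) (nat_lit 5) (nat_lit 8) (nat_lit 4) (nat_lit 354) (nat_lit 254) (nat_lit 172))))))) (XT.nd (nat_lit 34242) (nat_lit 0) (nat_lit 9044) (XT.nd (nat_lit 546) (nat_lit 76) (nat_lit 0) (XT.nd (nat_lit 234) (nat_lit 0) (nat_lit 0) (XT.nd (nat_lit 78) (nat_lit 76) (nat_lit 0) (XT.lf (nat_lit 0) (nat_lit 4577991050) (nat_lit 152) (nat_lit 18548789259) (nat_lit 76) (nat_lit 96576960736) (nat_lit 6) (nat_lit 5) (nat_lit 8) (nat_lit 5) (nat_lit 7) (nat_lit 4) (nat_lit 355) (nat_lit 254) (nat_lit 171)) (XT.nd (nat_lit 78) (nat_lit 0)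 (nat_lit 0) (XT.lf (nat_lit 0) (nat_lit 303145527) (nat_lit 76) (nat_lit 13573098314) (nat_lit 152) (nat_lit 111497457363) (nat_lit 5) (nat_lit 5) (nat_lit 6) (nat_lit 5) (nat_lit 7) (nat_lit 4) (nat_lit 356) (nat_lit 254) (nat_lit 170)) (XT.lf (nat_lit 0) (nat_lit 20453709988) (nat_lit 76) (nat_lit 3359954009) (nat_lit 152) (nat_lit 107508270677) (nat_lit 5) (nat_lit 5) (nat_lit 6) (nat_lit 5) (nat_lit 7) (nat_lit 4) (nat_lit 357) (nat_lit 254) (nat_lit 169)))) (XT.nd (nat_lit 156) (nat_lit 0) (nat_lit 0) (XT.nd (nat_lit 78) (nat_lit 0) (nat_lit 0) (XT.lf (nat_lit 0) (nat_lit 34302710628) (nat_lit 152) (nat_lit 96056984522) (nat_lit 0) (nat_lit 7206244811) (nat_lit 5) (nat_lit 5) (nat_lit 7) (nat_lit 4) (nat_lit 5) (nat_lit 4) (nat_lit 358) (nat_lit 254) (nat_lit 168)) (XT.lf (nat_lit 0) (nat_lit 45334855427) (nat_lit 152) (nat_lit 80568068102) (nat_lit 0) (nat_lit 18218665281) (nat_lit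 5) (nat_lit 5) (nat_lit 7) (nat_lit 4) (nat_lit 5) (nat_lit 4) (nat_lit 359) (nat_lit 254) (nat_lit 167))) (XT.nd (nat_lit 78) (nat_lit 0) (nat_lit 0) (XT.lf (nat_lit 0) (nat_lit 56904067474) (nat_lit 152) (nat_lit 64332299121) (nat_lit 0) (nat_lit 29769092252) (nat_lit 5) (nat_lit 5) (nat_lit 7) (nat_lit 4) (nat_lit 5) (nat_lit 4) (nat_lit 360) (nat_lit 254) (nat_lit 166)) (XT.lf (nat_lit 0) (nat_lit 69037892512) (nat_lit 152) (nat_lit 47311020985) (nat_lit 0) (nat_lit 41885026741) (nat_lit 5) (nat_lit 5) (nat_lit 7) (nat_lit 4) (nat_lit 5) (nat_lit 4) (nat_lit 361) (nat_lit 254) (nat_lit 165))))) (XT.nd (nat_lit 234) (nat_lit 0) (nat_lit 0) (XT.nd (nat_lit 78) (nat_lit 76) (nat_lit 0) (XT.lf (nat_lit 0) (nat_lit 81765220600) (nat_lit 152) (nat_lit 29463706842) (nat_lit 0) (nat_lit 54595316211) (nat_lit 5) (nat_lit 5) (nat_lit 7) (nat_lit 4) (nat_lit 5) (nat_lit 4) (nat_lit 362) (nat_lit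 254) (nat_lit 164)) (XT.nd (nat_lit 78) (nat_lit 76) (nat_lit 0) (XT.lf (nat_lit 0) (nat_lit 95116354900) (nat_lit 152) (nat_lit 10747863087) (nat_lit 0) (nat_lit 67930223256) (nat_lit 5) (nat_lit 5) (nat_lit 7) (nat_lit 4) (nat_lit 5) (nat_lit 4) (nat_lit 363) (nat_lit 254) (nat_lit 163)) (XT.lf (nat_lit 0) (nat_lit 9057822555) (nat_lit 76) (nat_lit 100152330604) (nat_lit 76) (nat_lit 72950744431) (nat_lit 4) (nat_lit 4) (nat_lit 5) (nat_lit 5) (nat_lit 5) (nat_lit 4) (nat_lit 364) (nat_lit 254) (nat_lit 162)))) (XT.nd (nat_lit 33306) (nat_lit 0) (nat_lit 19380) (XT.nd (nat_lit 33228) (nat_lit 0) (nat_lit 21128) (XT.lf (nat_lit 0) (nat_lit 30056340885) (nat_lit 76) (nat_lit 94051335787) (nat_lit 76) (nat_lit 66835031015) (nat_lit 4) (nat_lit 4) (nat_lit 5) (nat_lit 5) (nat_lit 5) (nat_lit 4) (nat_lit 365) (nat_lit 254) (nat_lit 161)) (XT.lf (nat_lit 0) (nat_lit 227306815) (nat_lit 684) (nat_lit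 1572939752) (nat_lit 684) (nat_lit 1572939752) (nat_lit 282) (nat_lit 4) (nat_lit 291) (nat_lit 5) (nat_lit 291) (nat_lit 4) (nat_lit 270) (nat_lit 255) (nat_lit 255))) (XT.nd (nat_lit 78) (nat_lit 912) (nat_lit 0) (XT.lf (nat_lit 0) (nat_lit 711361526) (nat_lit 760) (nat_lit 1283782900) (nat_lit 836) (nat_lit 4817091129) (nat_lit 271) (nat_lit 5) (nat_lit 281) (nat_lit 5) (nat_lit 282) (nat_lit 4) (nat_lit 271) (nat_lit 255) (nat_lit 254)) (XT.lf (nat_lit 0) (nat_lit 244615544) (nat_lit 912) (nat_lit 5832142793) (nat_lit 76) (nat_lit 809806354) (nat_lit 259) (nat_lit 5) (nat_lit 271) (nat_lit 5) (nat_lit 260) (nat_lit 4) (nat_lit 272) (nat_lit 255) (nat_lit 253)))))) (XT.nd (nat_lit 546) (nat_lit 4028) (nat_lit 0) (XT.nd (nat_lit 234) (nat_lit 3192) (nat_lit 0) (XT.nd (nat_lit 78) (nat_lit 2204) (nat_lit 0) (XT.lf (nat_lit 0) (nat_lit 1458175120) (nat_lit 912) (nat_lit 3826088824) (nat_lit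 988) (nat_lit 1684567875) (nat_lit 247) (nat_lit 5) (nat_lit 259) (nat_lit 5) (nat_lit 260) (nat_lit 4) (nat_lit 273) (nat_lit 255) (nat_lit 252)) (XT.nd (nat_lit 78) (nat_lit 1140) (nat_lit 0) (XT.lf (nat_lit 0) (nat_lit 1946054100) (nat_lit 988) (nat_lit 1325984120) (nat_lit 1064) (nat_lit 3787914730) (nat_lit 233) (nat_lit 5) (nat_lit 246) (nat_lit 5) (nat_lit 247) (nat_lit 5) (nat_lit 274) (nat_lit 255) (nat_lit 251)) (XT.lf (nat_lit 0) (nat_lit 1104817990) (nat_lit 1140) (nat_lit 4655160585) (nat_lit 76) (nat_lit 1399808381) (nat_lit 218) (nat_lit 5) (nat_lit 233) (nat_lit 5) (nat_lit 219) (nat_lit 5) (nat_lit 275) (nat_lit 255) (nat_lit 250)))) (XT.nd (nat_lit 156) (nat_lit 1216) (nat_lit 0) (XT.nd (nat_lit 78) (nat_lit 836) (nat_lit 0) (XT.lf (nat_lit 0) (nat_lit 3118285828) (nat_lit 1140) (nat_lit 2900738464) (nat_lit 1216) (nat_lit 1249122887) (nat_lit 203) (nat_lit 5) (nat_lit 218)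 (nat_lit 5) (nat_lit 219) (nat_lit 5) (nat_lit 276) (nat_lit 255) (nat_lit 249)) (XT.lf (nat_lit 0) (nat_lit 3574620389) (nat_lit 836) (nat_lit 3589950103) (nat_lit 76) (nat_lit 221000206) (nat_lit 192) (nat_lit 5) (nat_lit 203) (nat_lit 5) (nat_lit 193) (nat_lit 5) (nat_lit 277) (nat_lit 255) (nat_lit 248))) (XT.nd (nat_lit 78) (nat_lit 532) (nat_lit 0) (XT.lf (nat_lit 0) (nat_lit 972064267) (nat_lit 684) (nat_lit 2994807769) (nat_lit 76) (nat_lit 3544920621) (nat_lit 183) (nat_lit 5) (nat_lit 192) (nat_lit 5) (nat_lit 184) (nat_lit 5) (nat_lit 278) (nat_lit 255) (nat_lit 247)) (XT.lf (nat_lit 0) (nat_lit 5290891250) (nat_lit 532) (nat_lit 493187400) (nat_lit 608) (nat_lit 1863311580) (nat_lit 176) (nat_lit 5) (nat_lit 183) (nat_lit 5) (nat_lit 184) (nat_lit 5) (nat_lit 279) (nat_lit 255) (nat_lit 246))))) (XT.nd (nat_lit 234) (nat_lit 2280) (nat_lit 0) (XT.nd (nat_lit 78) (nat_lit 1140)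 (nat_lit 0) (XT.lf (nat_lit 0) (nat_lit 2894492055) (nat_lit 608) (nat_lit 1702065528) (nat_lit 76) (nat_lit 3195357876) (nat_lit 168) (nat_lit 5) (nat_lit 176) (nat_lit 5) (nat_lit 169) (nat_lit 5) (nat_lit 280) (nat_lit 255) (nat_lit 245)) (XT.nd (nat_lit 78) (nat_lit 608) (nat_lit 0) (XT.lf (nat_lit 0) (nat_lit 6944371462) (nat_lit 532) (nat_lit 797425489) (nat_lit 608) (nat_lit 204837952) (nat_lit 161) (nat_lit 5) (nat_lit 168) (nat_lit 5) (nat_lit 169) (nat_lit 5) (nat_lit 281) (nat_lit 255) (nat_lit 244)) (XT.lf (nat_lit 0) (nat_lit 4553987568) (nat_lit 608) (nat_lit 315132519) (nat_lit 76) (nat_lit 3241104368) (nat_lit 153) (nat_lit 5) (nat_lit 161) (nat_lit 5) (nat_lit 154) (nat_lit 5) (nat_lit 282) (nat_lit 255) (nat_lit 243)))) (XT.nd (nat_lit 156) (nat_lit 912) (nat_lit 0) (XT.nd (nat_lit 78) (nat_lit 380) (nat_lit 0) (XT.lf (nat_lit 0) (nat_lit 414497814) (nat_lit 456) (nat_lit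 736643878) (nat_lit 532) (nat_lit 7133282355) (nat_lit 140) (nat_lit 5) (nat_lit 146) (nat_lit 5) (nat_lit 147) (nat_lit 5) (nat_lit 283) (nat_lit 255) (nat_lit 242)) (XT.lf (nat_lit 0) (nat_lit 1129125006) (nat_lit 380) (nat_lit 4837000076) (nat_lit 456) (nat_lit 2501962582) (nat_lit 135) (nat_lit 5) (nat_lit 140) (nat_lit 5) (nat_lit 141) (nat_lit 5) (nat_lit 284) (nat_lit 255) (nat_lit 241))) (XT.nd (nat_lit 78) (nat_lit 380) (nat_lit 0) (XT.lf (nat_lit 0) (nat_lit 1856202898) (nat_lit 456) (nat_lit 379307179) (nat_lit 532) (nat_lit 6427293858) (nat_lit 128) (nat_lit 5) (nat_lit 134) (nat_lit 5) (nat_lit 135) (nat_lit 5) (nat_lit 285) (nat_lit 255) (nat_lit 240)) (XT.lf (nat_lit 0) (nat_lit 2550328247) (nat_lit 380) (nat_lit 4570236930) (nat_lit 456) (nat_lit 1747236015) (nat_lit 123) (nat_lit 5) (nat_lit 128) (nat_lit 5) (nat_lit 129) (nat_lit 5) (nat_lit 286) (nat_lit 255) (nat_lit 239))))))))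
noncomputable def xc41 : XT := (XT.nd (nat_lit 2184) (nat_lit 1748) (nat_lit 0) (XT.nd (nat_lit 1092) (nat_lit 2280) (nat_lit 0) (XT.nd (nat_lit 546) (nat_lit 1900) (nat_lit 0) (XT.nd (nat_lit 234) (nat_lit 1368) (nat_lit 0) (XT.nd (nat_lit 78) (nat_lit 836) (nat_lit 0) (XT.lf (nat_lit 0) (nat_lit 3037016580) (nat_lit 456) (nat_lit 5850333730) (nat_lit 76) (nat_lit 196974842) (nat_lit 117) (nat_lit 5) (nat_lit 123) (nat_lit 5) (nat_lit 118) (nat_lit 5) (nat_lit 287) (nat_lit 255) (nat_lit 238)) (XT.nd (nat_lit 78) (nat_lit 456) (nat_lit 0) (XT.lf (nat_lit 0) (nat_lit 3869661209) (nat_lit 380) (nat_lit 4134107682) (nat_lit 456) (nat_lit 1308147354) (nat_lit 112) (nat_lit 5) (nat_lit 117) (nat_lit 5) (nat_lit 118) (nat_lit 5) (nat_lit 288) (nat_lit 255) (nat_lit 237)) (XT.lf (nat_lit 0) (nat_lit 3543606513) (nat_lit 456) (nat_lit 5084234402) (nat_lit 76) (nat_lit 923703766) (nat_lit 106) (nat_lit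 5) (nat_lit 112) (nat_lit 5) (nat_lit 107) (nat_lit 5) (nat_lit 289) (nat_lit 255) (nat_lit 236)))) (XT.nd (nat_lit 156) (nat_lit 684) (nat_lit 0) (XT.nd (nat_lit 78) (nat_lit 380) (nat_lit 0) (XT.lf (nat_lit 0) (nat_lit 5005139125) (nat_lit 304) (nat_lit 3591974543) (nat_lit 380) (nat_lit 1206191278) (nat_lit 102) (nat_lit 5) (nat_lit 106) (nat_lit 5) (nat_lit 107) (nat_lit 5) (nat_lit 290) (nat_lit 255) (nat_lit 235)) (XT.lf (nat_lit 0) (nat_lit 3727015071) (nat_lit 380) (nat_lit 4594942545) (nat_lit 76) (nat_lit 1745719021) (nat_lit 97) (nat_lit 5) (nat_lit 102) (nat_lit 5) (nat_lit 98) (nat_lit 5) (nat_lit 291) (nat_lit 255) (nat_lit 234))) (XT.nd (nat_lit 78) (nat_lit 380) (nat_lit 0) (XT.lf (nat_lit 0) (nat_lit 5862826745) (nat_lit 304) (nat_lit 3010131963) (nat_lit 380) (nat_lit 1472329824) (nat_lit 93) (nat_lit 5) (nat_lit 97) (nat_lit 5) (nat_lit 98) (nat_lit 5) (nat_lit 292) (nat_lit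 255) (nat_lit 233)) (XT.lf (nat_lit 0) (nat_lit 3552944597) (nat_lit 380) (nat_lit 4486482740) (nat_lit 76) (nat_lit 2596870071) (nat_lit 88) (nat_lit 5) (nat_lit 93) (nat_lit 5) (nat_lit 89) (nat_lit 5) (nat_lit 293) (nat_lit 255) (nat_lit 232))))) (XT.nd (nat_lit 234) (nat_lit 1064) (nat_lit 0) (XT.nd (nat_lit 78) (nat_lit 608) (nat_lit 0) (XT.lf (nat_lit 0) (nat_lit 6333971664) (nat_lit 228) (nat_lit 2459603519) (nat_lit 304) (nat_lit 2148105323) (nat_lit 85) (nat_lit 5) (nat_lit 88) (nat_lit 5) (nat_lit 89) (nat_lit 5) (nat_lit 294) (nat_lit 255) (nat_lit 231)) (XT.nd (nat_lit 78) (nat_lit 228) (nat_lit 0) (XT.lf (nat_lit 0) (nat_lit 2976204890) (nat_lit 380) (nat_lit 4879722237) (nat_lit 76) (nat_lit 3405575675) (nat_lit 80) (nat_lit 5) (nat_lit 85) (nat_lit 5) (nat_lit 81) (nat_lit 5) (nat_lit 295) (nat_lit 255) (nat_lit 230)) (XT.lf (nat_lit 0) (nat_lit 6291708933) (nat_lit 228) (nat_lit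 2018113062) (nat_lit 304) (nat_lit 3287016394) (nat_lit 77) (nat_lit 5) (nat_lit 80) (nat_lit 5) (nat_lit 81) (nat_lit 5) (nat_lit 296) (nat_lit 255) (nat_lit 229)))) (XT.nd (nat_lit 156) (nat_lit 532) (nat_lit 0) (XT.nd (nat_lit 78) (nat_lit 228) (nat_lit 0) (XT.lf (nat_lit 0) (nat_lit 1939225286) (nat_lit 304) (nat_lit 5915950269) (nat_lit 76) (nat_lit 4092789454) (nat_lit 73) (nat_lit 5) (nat_lit 77) (nat_lit 5) (nat_lit 74) (nat_lit 5) (nat_lit 297) (nat_lit 255) (nat_lit 228)) (XT.lf (nat_lit 0) (nat_lit 5587253848) (nat_lit 228) (nat_lit 1772277287) (nat_lit 304) (nat_lit 4956194018) (nat_lit 70) (nat_lit 5) (nat_lit 73) (nat_lit 5) (nat_lit 74) (nat_lit 5) (nat_lit 298) (nat_lit 255) (nat_lit 227))) (XT.nd (nat_lit 78) (nat_lit 228) (nat_lit 0) (XT.lf (nat_lit 0) (nat_lit 370252570) (nat_lit 304) (nat_lit 7761023110) (nat_lit 76) (nat_lit 4569724306) (nat_lit 66) (nat_lit 5) (nat_lit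 70) (nat_lit 5) (nat_lit 67) (nat_lit 5) (nat_lit 299) (nat_lit 255) (nat_lit 226)) (XT.lf (nat_lit 0) (nat_lit 4045486743) (nat_lit 228) (nat_lit 1820072932) (nat_lit 304) (nat_lit 7238422051) (nat_lit 63) (nat_lit 5) (nat_lit 66) (nat_lit 5) (nat_lit 67) (nat_lit 5) (nat_lit 300) (nat_lit 255) (nat_lit 225)))))) (XT.nd (nat_lit 546) (nat_lit 912) (nat_lit 0) (XT.nd (nat_lit 234) (nat_lit 912) (nat_lit 0) (XT.nd (nat_lit 78) (nat_lit 228) (nat_lit 0) (XT.lf (nat_lit 0) (nat_lit 2898100850) (nat_lit 228) (nat_lit 8773000298) (nat_lit 304) (nat_lit 1855010666) (nat_lit 60) (nat_lit 5) (nat_lit 63) (nat_lit 5) (nat_lit 64) (nat_lit 5) (nat_lit 301) (nat_lit 255) (nat_lit 224)) (XT.nd (nat_lit 78) (nat_lit 0) (nat_lit 0) (XT.lf (nat_lit 0) (nat_lit 1459818081) (nat_lit 152) (nat_lit 2273639123) (nat_lit 228) (nat_lit 10234554916) (nat_lit 57) (nat_lit 5) (nat_lit 59) (nat_lit 5) (nat_lit 60)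 (nat_lit 5) (nat_lit 302) (nat_lit 255) (nat_lit 223)) (XT.lf (nat_lit 0) (nat_lit 9604111027) (nat_lit 228) (nat_lit 303658199) (nat_lit 76) (nat_lit 4522509184) (nat_lit 57) (nat_lit 5) (nat_lit 60) (nat_lit 5) (nat_lit 58) (nat_lit 5) (nat_lit 303) (nat_lit 255) (nat_lit 222)))) (XT.nd (nat_lit 156) (nat_lit 456) (nat_lit 0) (XT.nd (nat_lit 78) (nat_lit 152) (nat_lit 0) (XT.lf (nat_lit 0) (nat_lit 871891018) (nat_lit 304) (nat_lit 2366694173) (nat_lit 76) (nat_lit 11675801820) (nat_lit 53) (nat_lit 5) (nat_lit 57) (nat_lit 5) (nat_lit 54) (nat_lit 5) (nat_lit 304) (nat_lit 255) (nat_lit 221)) (XT.lf (nat_lit 0) (nat_lit 6792515334) (nat_lit 228) (nat_lit 4848479372) (nat_lit 76) (nat_lit 3779197667) (nat_lit 51) (nat_lit 5) (nat_lit 54) (nat_lit 5) (nat_lit 52) (nat_lit 5) (nat_lit 305) (nat_lit 255) (nat_lit 220))) (XT.nd (nat_lit 78) (nat_lit 228) (nat_lit 0) (XT.lf (nat_lit 0) (nat_lit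 8211995181) (nat_lit 228) (nat_lit 4830526472) (nat_lit 304) (nat_lit 2907812600) (nat_lit 48) (nat_lit 5) (nat_lit 51) (nat_lit 5) (nat_lit 52) (nat_lit 5) (nat_lit 306) (nat_lit 255) (nat_lit 219)) (XT.lf (nat_lit 0) (nat_lit 3062533933) (nat_lit 228) (nat_lit 11100453250) (nat_lit 76) (nat_lit 2342397597) (nat_lit 45) (nat_lit 5) (nat_lit 48) (nat_lit 5) (nat_lit 46) (nat_lit 5) (nat_lit 307) (nat_lit 255) (nat_lit 218))))) (XT.nd (nat_lit 234) (nat_lit 532) (nat_lit 0) (XT.nd (nat_lit 78) (nat_lit 228) (nat_lit 0) (XT.lf (nat_lit 0) (nat_lit 2077014736) (nat_lit 152) (nat_lit 7245946125) (nat_lit 228) (nat_lit 7762853420) (nat_lit 43) (nat_lit 5) (nat_lit 45) (nat_lit 5) (nat_lit 46) (nat_lit 5) (nat_lit 308) (nat_lit 255) (nat_lit 217)) (XT.nd (nat_lit 78) (nat_lit 228) (nat_lit 0) (XT.lf (nat_lit 0) (nat_lit 15916427848) (nat_lit 228) (nat_lit 1711200685) (nat_lit 76) (nat_lit 67075394)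 (nat_lit 43) (nat_lit 5) (nat_lit 46) (nat_lit 5) (nat_lit 44) (nat_lit 4) (nat_lit 309) (nat_lit 255) (nat_lit 216)) (XT.lf (nat_lit 0) (nat_lit 4518572411) (nat_lit 228) (nat_lit 6113571517) (nat_lit 76) (nat_lit 7697602256) (nat_lit 40) (nat_lit 5) (nat_lit 43) (nat_lit 5) (nat_lit 41) (nat_lit 5) (nat_lit 310) (nat_lit 255) (nat_lit 215)))) (XT.nd (nat_lit 156) (nat_lit 228) (nat_lit 0) (XT.nd (nat_lit 78) (nat_lit 152) (nat_lit 0) (XT.lf (nat_lit 0) (nat_lit 7862001460) (nat_lit 152) (nat_lit 3236167992) (nat_lit 228) (nat_lit 7897736939) (nat_lit 38) (nat_lit 5) (nat_lit 40) (nat_lit 5) (nat_lit 41) (nat_lit 5) (nat_lit 311) (nat_lit 255) (nat_lit 214)) (XT.lf (nat_lit 0) (nat_lit 2831110285) (nat_lit 152) (nat_lit 15223137886) (nat_lit 228) (nat_lit 1639734282) (nat_lit 36) (nat_lit 5) (nat_lit 38) (nat_lit 5) (nat_lit 39) (nat_lit 4) (nat_lit 312) (nat_lit 255) (nat_lit 213))) (XT.nd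 (nat_lit 78) (nat_lit 152) (nat_lit 0) (XT.lf (nat_lit 0) (nat_lit 4898409300) (nat_lit 228) (nat_lit 2925678286) (nat_lit 76) (nat_lit 12599579139) (nat_lit 35) (nat_lit 5) (nat_lit 38) (nat_lit 5) (nat_lit 36) (nat_lit 5) (nat_lit 313) (nat_lit 255) (nat_lit 212)) (XT.lf (nat_lit 0) (nat_lit 11762384093) (nat_lit 228) (nat_lit 9407815046) (nat_lit 76) (nat_lit 18192907) (nat_lit 33) (nat_lit 5) (nat_lit 36) (nat_lit 5) (nat_lit 34) (nat_lit 4) (nat_lit 314) (nat_lit 255) (nat_lit 211))))))) (XT.nd (nat_lit 1092) (nat_lit 608) (nat_lit 0) (XT.nd (nat_lit 546) (nat_lit 532) (nat_lit 0) (XT.nd (nat_lit 234) (nat_lit 304) (nat_lit 0) (XT.nd (nat_lit 78) (nat_lit 228) (nat_lit 0) (XT.lf (nat_lit 0) (nat_lit 5175838761) (nat_lit 76) (nat_lit 13873930464) (nat_lit 152) (nat_lit 2939205653) (nat_lit 32) (nat_lit 5) (nat_lit 33) (nat_lit 5) (nat_lit 34) (nat_lit 4) (nat_lit 315) (nat_lit 255) (nat_lit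 210)) (XT.nd (nat_lit 78) (nat_lit 152) (nat_lit 0) (XT.lf (nat_lit 0) (nat_lit 3816938073) (nat_lit 152) (nat_lit 2315900124) (nat_lit 76) (nat_lit 16695040881) (nat_lit 31) (nat_lit 5) (nat_lit 33) (nat_lit 5) (nat_lit 32) (nat_lit 5) (nat_lit 316) (nat_lit 255) (nat_lit 209)) (XT.lf (nat_lit 0) (nat_lit 10922236131) (nat_lit 228) (nat_lit 10726095418) (nat_lit 76) (nat_lit 2057384172) (nat_lit 29) (nat_lit 5) (nat_lit 32) (nat_lit 5) (nat_lit 30) (nat_lit 4) (nat_lit 317) (nat_lit 255) (nat_lit 208)))) (XT.nd (nat_lit 156) (nat_lit 152) (nat_lit 0) (XT.nd (nat_lit 78) (nat_lit 76) (nat_lit 0) (XT.lf (nat_lit 0) (nat_lit 4356728997) (nat_lit 76) (nat_lit 14082121380) (nat_lit 152) (nat_lit 6186935423) (nat_lit 28) (nat_lit 5) (nat_lit 29) (nat_lit 5) (nat_lit 30) (nat_lit 4) (nat_lit 318) (nat_lit 255) (nat_lit 207)) (XT.lf (nat_lit 0) (nat_lit 766227248) (nat_lit 152) (nat_lit 5304401865)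 (nat_lit 76) (nat_lit 19519801817) (nat_lit 27) (nat_lit 5) (nat_lit 29) (nat_lit 5) (nat_lit 28) (nat_lit 5) (nat_lit 319) (nat_lit 255) (nat_lit 206))) (XT.nd (nat_lit 78) (nat_lit 0) (nat_lit 0) (XT.lf (nat_lit 0) (nat_lit 7997213639) (nat_lit 228) (nat_lit 16194017689) (nat_lit 76) (nat_lit 2408516038) (nat_lit 25) (nat_lit 5) (nat_lit 28) (nat_lit 5) (nat_lit 26) (nat_lit 4) (nat_lit 320) (nat_lit 255) (nat_lit 205)) (XT.lf (nat_lit 0) (nat_lit 15640804358) (nat_lit 228) (nat_lit 825053961) (nat_lit 76) (nat_lit 11192159060) (nat_lit 25) (nat_lit 5) (nat_lit 28) (nat_lit 5) (nat_lit 26) (nat_lit 4) (nat_lit 321) (nat_lit 255) (nat_lit 204))))) (XT.nd (nat_lit 234) (nat_lit 228) (nat_lit 0) (XT.nd (nat_lit 78) (nat_lit 228) (nat_lit 0) (XT.lf (nat_lit 0) (nat_lit 15502910146) (nat_lit 76) (nat_lit 8250438310) (nat_lit 152) (nat_lit 5013267706) (nat_lit 24) (nat_lit 5) (nat_lit 25) (nat_lit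 5) (nat_lit 26) (nat_lit 4) (nat_lit 322) (nat_lit 255) (nat_lit 203)) (XT.nd (nat_lit 78) (nat_lit 0) (nat_lit 0) (XT.lf (nat_lit 0) (nat_lit 2272034108) (nat_lit 228) (nat_lit 27281166040) (nat_lit 76) (nat_lit 377481625) (nat_lit 21) (nat_lit 5) (nat_lit 24) (nat_lit 5) (nat_lit 22) (nat_lit 4) (nat_lit 323) (nat_lit 255) (nat_lit 202)) (XT.lf (nat_lit 0) (nat_lit 9980517161) (nat_lit 228) (nat_lit 11756671670) (nat_lit 76) (nat_lit 9409411074) (nat_lit 21) (nat_lit 5) (nat_lit 24) (nat_lit 5) (nat_lit 22) (nat_lit 4) (nat_lit 324) (nat_lit 255) (nat_lit 201)))) (XT.nd (nat_lit 156) (nat_lit 152) (nat_lit 0) (XT.nd (nat_lit 78) (nat_lit 0) (nat_lit 0) (XT.lf (nat_lit 0) (nat_lit 4529420821) (nat_lit 76) (nat_lit 13531848554) (nat_lit 152) (nat_lit 14362454720) (nat_lit 20) (nat_lit 5) (nat_lit 21) (nat_lit 5) (nat_lit 22) (nat_lit 4) (nat_lit 325) (nat_lit 255) (nat_lit 200)) (XT.lf (nat_lit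 0) (nat_lit 21775438704) (nat_lit 76) (nat_lit 4836688415) (nat_lit 152) (nat_lit 7150610102) (nat_lit 20) (nat_lit 5) (nat_lit 21) (nat_lit 5) (nat_lit 22) (nat_lit 4) (nat_lit 326) (nat_lit 255) (nat_lit 199))) (XT.nd (nat_lit 78) (nat_lit 0) (nat_lit 0) (XT.lf (nat_lit 0) (nat_lit 447304502) (nat_lit 152) (nat_lit 30503679352) (nat_lit 76) (nat_lit 4216597881) (nat_lit 18) (nat_lit 5) (nat_lit 20) (nat_lit 5) (nat_lit 19) (nat_lit 4) (nat_lit 327) (nat_lit 255) (nat_lit 198)) (XT.lf (nat_lit 0) (nat_lit 8400381543) (nat_lit 152) (nat_lit 14457758080) (nat_lit 76) (nat_lit 13778723340) (nat_lit 18) (nat_lit 5) (nat_lit 20) (nat_lit 5) (nat_lit 19) (nat_lit 4) (nat_lit 328) (nat_lit 255) (nat_lit 197)))))) (XT.nd (nat_lit 546) (nat_lit 304) (nat_lit 0) (XT.nd (nat_lit 234) (nat_lit 228) (nat_lit 0) (XT.nd (nat_lit 78) (nat_lit 0) (nat_lit 0) (XT.lf (nat_lit 0) (nat_lit 2346008135) (nat_lit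 76) (nat_lit 14378454875) (nat_lit 152) (nat_lit 21455957107) (nat_lit 17) (nat_lit 5) (nat_lit 18) (nat_lit 5) (nat_lit 19) (nat_lit 4) (nat_lit 329) (nat_lit 255) (nat_lit 196)) (XT.nd (nat_lit 78) (nat_lit 0) (nat_lit 0) (XT.lf (nat_lit 0) (nat_lit 20204443524) (nat_lit 76) (nat_lit 5361434603) (nat_lit 152) (nat_lit 14232254907) (nat_lit 17) (nat_lit 5) (nat_lit 18) (nat_lit 5) (nat_lit 19) (nat_lit 4) (nat_lit 330) (nat_lit 255) (nat_lit 195)) (XT.lf (nat_lit 0) (nat_lit 34843043059) (nat_lit 152) (nat_lit 2664883162) (nat_lit 0) (nat_lit 3989006234) (nat_lit 17) (nat_lit 5) (nat_lit 19) (nat_lit 4) (nat_lit 17) (nat_lit 4) (nat_lit 331) (nat_lit 255) (nat_lit 194)))) (XT.nd (nat_lit 156) (nat_lit 76) (nat_lit 0) (XT.nd (nat_lit 78) (nat_lit 0) (nat_lit 0) (XT.lf (nat_lit 0) (nat_lit 1436829558) (nat_lit 152) (nat_lit 28016208425) (nat_lit 76) (nat_lit 13822502305) (nat_lit 15) (nat_lit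 5) (nat_lit 17) (nat_lit 5) (nat_lit 16) (nat_lit 4) (nat_lit 332) (nat_lit 255) (nat_lit 193)) (XT.lf (nat_lit 0) (nat_lit 9780738389) (nat_lit 152) (nat_lit 11153250262) (nat_lit 76) (nat_lit 24207535352) (nat_lit 15) (nat_lit 5) (nat_lit 17) (nat_lit 5) (nat_lit 16) (nat_lit 4) (nat_lit 333) (nat_lit 255) (nat_lit 192))) (XT.nd (nat_lit 78) (nat_lit 0) (nat_lit 0) (XT.lf (nat_lit 0) (nat_lit 6606525624) (nat_lit 76) (nat_lit 11958140256) (nat_lit 152) (nat_lit 28535465746) (nat_lit 14) (nat_lit 5) (nat_lit 15) (nat_lit 5) (nat_lit 16) (nat_lit 4) (nat_lit 334) (nat_lit 255) (nat_lit 191)) (XT.lf (nat_lit 0) (nat_lit 25414270084) (nat_lit 76) (nat_lit 2448884466) (nat_lit 152) (nat_lit 21291263105) (nat_lit 14) (nat_lit 5) (nat_lit 15) (nat_lit 5) (nat_lit 16) (nat_lit 4) (nat_lit 335) (nat_lit 255) (nat_lit 190))))) (XT.nd (nat_lit 312) (nat_lit 152) (nat_lit 0) (XT.nd (nat_lit 156) (nat_lit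 76) (nat_lit 0) (XT.nd (nat_lit 78) (nat_lit 76) (nat_lit 0) (XT.lf (nat_lit 0) (nat_lit 37661129128) (nat_lit 152) (nat_lit 6291892762) (nat_lit 0) (nat_lit 7357367797) (nat_lit 14) (nat_lit 5) (nat_lit 16) (nat_lit 4) (nat_lit 14) (nat_lit 4) (nat_lit 336) (nat_lit 255) (nat_lit 189)) (XT.lf (nat_lit 0) (nat_lit 12174543469) (nat_lit 76) (nat_lit 35880131427) (nat_lit 76) (nat_lit 5516323386) (nat_lit 13) (nat_lit 4) (nat_lit 14) (nat_lit 5) (nat_lit 14) (nat_lit 4) (nat_lit 337) (nat_lit 255) (nat_lit 188))) (XT.nd (nat_lit 78) (nat_lit 0) (nat_lit 0) (XT.lf (nat_lit 0) (nat_lit 2994340310) (nat_lit 152) (nat_lit 24342484553) (nat_lit 76) (nat_lit 28606045893) (nat_lit 12) (nat_lit 5) (nat_lit 14) (nat_lit 5) (nat_lit 13) (nat_lit 4) (nat_lit 338) (nat_lit 255) (nat_lit 187)) (XT.lf (nat_lit 0) (nat_lit 11783857974) (nat_lit 152) (nat_lit 6554227831) (nat_lit 76) (nat_lit 40094597498)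 (nat_lit 12) (nat_lit 5) (nat_lit 14) (nat_lit 5) (nat_lit 13) (nat_lit 4) (nat_lit 339) (nat_lit 255) (nat_lit 186)))) (XT.nd (nat_lit 156) (nat_lit 76) (nat_lit 0) (XT.nd (nat_lit 78) (nat_lit 0) (nat_lit 0) (XT.lf (nat_lit 0) (nat_lit 12303785798) (nat_lit 76) (nat_lit 8795286084) (nat_lit 152) (nat_lit 39945334807) (nat_lit 11) (nat_lit 5) (nat_lit 12) (nat_lit 5) (nat_lit 13) (nat_lit 4) (nat_lit 340) (nat_lit 255) (nat_lit 185)) (XT.lf (nat_lit 0) (nat_lit 30928614771) (nat_lit 152) (nat_lit 31614182464) (nat_lit 0) (nat_lit 1242468460) (nat_lit 11) (nat_lit 5) (nat_lit 13) (nat_lit 4) (nat_lit 11) (nat_lit 4) (nat_lit 341) (nat_lit 255) (nat_lit 184))) (XT.nd (nat_lit 78) (nat_lit 76) (nat_lit 0) (XT.lf (nat_lit 0) (nat_lit 41308558379) (nat_lit 152) (nat_lit 13776113521) (nat_lit 0) (nat_lit 11576734234) (nat_lit 11) (nat_lit 5) (nat_lit 13) (nat_lit 4) (nat_lit 11) (nat_lit 4) (nat_lit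 342) (nat_lit 255) (nat_lit 183)) (XT.lf (nat_lit 0) (nat_lit 4998134815) (nat_lit 76) (nat_lit 47228981502) (nat_lit 76) (nat_lit 17453654658) (nat_lit 10) (nat_lit 4) (nat_lit 11) (nat_lit 5) (nat_lit 11) (nat_lit 4) (nat_lit 343) (nat_lit 255) (nat_lit 182))))))))
noncomputable def xc42 : XT := (XT.nd (nat_lit 35178) (nat_lit 0) (nat_lit 4180) (XT.nd (nat_lit 1092) (nat_lit 76) (nat_lit 0) (XT.nd (nat_lit 546) (nat_lit 228) (nat_lit 0) (XT.nd (nat_lit 234) (nat_lit 76) (nat_lit 0) (XT.nd (nat_lit 78) (nat_lit 76) (nat_lit 0) (XT.lf (nat_lit 0) (nat_lit 24947246719) (nat_lit 76) (nat_lit 38858596847) (nat_lit 76) (nat_lit 9041838863) (nat_lit 10) (nat_lit 4) (nat_lit 11) (nat_lit 5) (nat_lit 11) (nat_lit 4) (nat_lit 344) (nat_lit 255) (nat_lit 181)) (XT.nd (nat_lit 78) (nat_lit 76) (nat_lit 0) (XT.lf (nat_lit 0) (nat_lit 45844548404) (nat_lit 76) (nat_lit 30092700185) (nat_lit 76) (nat_lit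 236483972) (nat_lit 10) (nat_lit 4) (nat_lit 11) (nat_lit 5) (nat_lit 11) (nat_lit 4) (nat_lit 345) (nat_lit 255) (nat_lit 180)) (XT.lf (nat_lit 0) (nat_lit 8808077141) (nat_lit 152) (nat_lit 12013398883) (nat_lit 76) (nat_lit 58842773901) (nat_lit 9) (nat_lit 5) (nat_lit 11) (nat_lit 5) (nat_lit 10) (nat_lit 4) (nat_lit 346) (nat_lit 255) (nat_lit 179)))) (XT.nd (nat_lit 156) (nat_lit 0) (nat_lit 0) (XT.nd (nat_lit 78) (nat_lit 0) (nat_lit 0) (XT.lf (nat_lit 0) (nat_lit 7313329103) (nat_lit 76) (nat_lit 11032934128) (nat_lit 152) (nat_lit 64981575759) (nat_lit 8) (nat_lit 5) (nat_lit 9) (nat_lit 5) (nat_lit 10) (nat_lit 4) (nat_lit 347) (nat_lit 255) (nat_lit 178)) (XT.lf (nat_lit 0) (nat_lit 27813563902) (nat_lit 76) (nat_lit 648128049) (nat_lit 152) (nat_lit 58709910042) (nat_lit 8) (nat_lit 5) (nat_lit 9) (nat_lit 5) (nat_lit 10) (nat_lit 4) (nat_lit 348) (nat_lit 255) (nat_lit 177)))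 (XT.nd (nat_lit 78) (nat_lit 0) (nat_lit 0) (XT.lf (nat_lit 0) (nat_lit 39159067352) (nat_lit 152) (nat_lit 42009596818) (nat_lit 0) (nat_lit 10036607989) (nat_lit 8) (nat_lit 5) (nat_lit 10) (nat_lit 4) (nat_lit 8) (nat_lit 4) (nat_lit 349) (nat_lit 255) (nat_lit 176)) (XT.lf (nat_lit 0) (nat_lit 50376509505) (nat_lit 152) (nat_lit 23840530387) (nat_lit 0) (nat_lit 21224034069) (nat_lit 8) (nat_lit 5) (nat_lit 10) (nat_lit 4) (nat_lit 8) (nat_lit 4) (nat_lit 350) (nat_lit 255) (nat_lit 175))))) (XT.nd (nat_lit 234) (nat_lit 152) (nat_lit 0) (XT.nd (nat_lit 78) (nat_lit 76) (nat_lit 0) (XT.lf (nat_lit 0) (nat_lit 62134496404) (nat_lit 152) (nat_lit 4801348913) (nat_lit 0) (nat_lit 32953434232) (nat_lit 8) (nat_lit 5) (nat_lit 10) (nat_lit 4) (nat_lit 8) (nat_lit 4) (nat_lit 351) (nat_lit 255) (nat_lit 174)) (XT.nd (nat_lit 78) (nat_lit 0) (nat_lit 0) (XT.lf (nat_lit 0) (nat_lit 15454858952)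 (nat_lit 76) (nat_lit 59154725861) (nat_lit 76) (nat_lit 29946438225) (nat_lit 7) (nat_lit 4) (nat_lit 8) (nat_lit 5) (nat_lit 8) (nat_lit 4) (nat_lit 352) (nat_lit 255) (nat_lit 173)) (XT.lf (nat_lit 0) (nat_lit 36788745263) (nat_lit 76) (nat_lit 50950329592) (nat_lit 76) (nat_lit 21716112944) (nat_lit 7) (nat_lit 4) (nat_lit 8) (nat_lit 5) (nat_lit 8) (nat_lit 4) (nat_lit 353) (nat_lit 255) (nat_lit 172)))) (XT.nd (nat_lit 156) (nat_lit 152) (nat_lit 0) (XT.nd (nat_lit 78) (nat_lit 0) (nat_lit 0) (XT.lf (nat_lit 0) (nat_lit 59155548729) (nat_lit 76) (nat_lit 42351606445) (nat_lit 76) (nat_lit 13092695499) (nat_lit 7) (nat_lit 4) (nat_lit 8) (nat_lit 5) (nat_lit 8) (nat_lit 4) (nat_lit 354) (nat_lit 255) (nat_lit 171)) (XT.lf (nat_lit 0) (nat_lit 82608523644) (nat_lit 76) (nat_lit 33338083267) (nat_lit 76) (nat_lit 4055653942) (nat_lit 7) (nat_lit 4) (nat_lit 8) (nat_lit 5) (nat_lit 8) (nat_lit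 4) (nat_lit 355) (nat_lit 255) (nat_lit 170))) (XT.nd (nat_lit 78) (nat_lit 76) (nat_lit 0) (XT.lf (nat_lit 0) (nat_lit 5310832509) (nat_lit 152) (nat_lit 18523837785) (nat_lit 76) (nat_lit 101839048920) (nat_lit 6) (nat_lit 5) (nat_lit 8) (nat_lit 5) (nat_lit 7) (nat_lit 4) (nat_lit 356) (nat_lit 255) (nat_lit 169)) (XT.lf (nat_lit 0) (nat_lit 1243393646) (nat_lit 76) (nat_lit 13815499599) (nat_lit 152) (nat_lit 116568741592) (nat_lit 5) (nat_lit 5) (nat_lit 6) (nat_lit 5) (nat_lit 7) (nat_lit 4) (nat_lit 357) (nat_lit 255) (nat_lit 168)))))) (XT.nd (nat_lit 546) (nat_lit 76) (nat_lit 0) (XT.nd (nat_lit 234) (nat_lit 0) (nat_lit 0) (XT.nd (nat_lit 78) (nat_lit 0) (nat_lit 0) (XT.lf (nat_lit 0) (nat_lit 22357434385) (nat_lit 76) (nat_lit 3112472061) (nat_lit 152) (nat_lit 112404075983) (nat_lit 5) (nat_lit 5) (nat_lit 6) (nat_lit 5) (nat_lit 7) (nat_lit 4) (nat_lit 358) (nat_lit 255) (nat_lit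 167)) (XT.nd (nat_lit 78) (nat_lit 0) (nat_lit 0) (XT.lf (nat_lit 0) (nat_lit 36465039582) (nat_lit 152) (nat_lit 100011172766) (nat_lit 0) (nat_lit 7954530522) (nat_lit 5) (nat_lit 5) (nat_lit 7) (nat_lit 4) (nat_lit 5) (nat_lit 4) (nat_lit 359) (nat_lit 255) (nat_lit 166)) (XT.lf (nat_lit 0) (nat_lit 48027496697) (nat_lit 152) (nat_lit 83788222953) (nat_lit 0) (nat_lit 19499097088) (nat_lit 5) (nat_lit 5) (nat_lit 7) (nat_lit 4) (nat_lit 5) (nat_lit 4) (nat_lit 360) (nat_lit 255) (nat_lit 165)))) (XT.nd (nat_lit 156) (nat_lit 0) (nat_lit 0) (XT.nd (nat_lit 78) (nat_lit 0) (nat_lit 0) (XT.lf (nat_lit 0) (nat_lit 60154888465) (nat_lit 152) (nat_lit 66779153548) (nat_lit 0) (nat_lit 31609450239) (nat_lit 5) (nat_lit 5) (nat_lit 7) (nat_lit 4) (nat_lit 5) (nat_lit 4) (nat_lit 361) (nat_lit 255) (nat_lit 164)) (XT.lf (nat_lit 0) (nat_lit 72876089630) (nat_lit 152) (nat_lit 48943466769) (nat_lit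 0) (nat_lit 44314424148) (nat_lit 5) (nat_lit 5) (nat_lit 7) (nat_lit 4) (nat_lit 5) (nat_lit 4) (nat_lit 362) (nat_lit 255) (nat_lit 163))) (XT.nd (nat_lit 78) (nat_lit 0) (nat_lit 0) (XT.lf (nat_lit 0) (nat_lit 86221388765) (nat_lit 152) (nat_lit 30238696694) (nat_lit 0) (nat_lit 57644268755) (nat_lit 5) (nat_lit 5) (nat_lit 7) (nat_lit 4) (nat_lit 5) (nat_lit 4) (nat_lit 363) (nat_lit 255) (nat_lit 162)) (XT.lf (nat_lit 0) (nat_lit 100222560393) (nat_lit 152) (nat_lit 10620308155) (nat_lit 0) (nat_lit 71630721784) (nat_lit 5) (nat_lit 5) (nat_lit 7) (nat_lit 4) (nat_lit 5) (nat_lit 4) (nat_lit 364) (nat_lit 255) (nat_lit 161))))) (XT.nd (nat_lit 33228) (nat_lit 0) (nat_lit 18392) (XT.nd (nat_lit 33072) (nat_lit 0) (nat_lit 21812) (XT.lf (nat_lit 0) (nat_lit 10156601165) (nat_lit 76) (nat_lit 104853970934) (nat_lit 76) (nat_lit 76248114612) (nat_lit 4) (nat_lit 4) (nat_lit 5) (nat_lit 5)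 (nat_lit 5) (nat_lit 4) (nat_lit 365) (nat_lit 255) (nat_lit 160)) (XT.nd (nat_lit 78) (nat_lit 684) (nat_lit 0) (XT.lf (nat_lit 0) (nat_lit 173786385) (nat_lit 532) (nat_lit 1572092295) (nat_lit 532) (nat_lit 1572092295) (nat_lit 300) (nat_lit 4) (nat_lit 307) (nat_lit 5) (nat_lit 307) (nat_lit 4) (nat_lit 268) (nat_lit 256) (nat_lit 256)) (XT.lf (nat_lit 0) (nat_lit 294425830) (nat_lit 608) (nat_lit 1629376237) (nat_lit 684) (nat_lit 4765268886) (nat_lit 291) (nat_lit 5) (nat_lit 299) (nat_lit 5) (nat_lit 300) (nat_lit 4) (nat_lit 269) (nat_lit 256) (nat_lit 255)))) (XT.nd (nat_lit 156) (nat_lit 1900) (nat_lit 0) (XT.nd (nat_lit 78) (nat_lit 760) (nat_lit 0) (XT.lf (nat_lit 0) (nat_lit 213072109) (nat_lit 760) (nat_lit 6411966023) (nat_lit 76) (nat_lit 125637416) (nat_lit 281) (nat_lit 5) (nat_lit 291) (nat_lit 5) (nat_lit 282) (nat_lit 4) (nat_lit 270) (nat_lit 256) (nat_lit 254)) (XT.lf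 (nat_lit 0) (nat_lit 444518759) (nat_lit 760) (nat_lit 4712532089) (nat_lit 836) (nat_lit 1662854202) (nat_lit 271) (nat_lit 5) (nat_lit 281) (nat_lit 5) (nat_lit 282) (nat_lit 4) (nat_lit 271) (nat_lit 256) (nat_lit 253))) (XT.nd (nat_lit 78) (nat_lit 988) (nat_lit 0) (XT.lf (nat_lit 0) (nat_lit 638733121) (nat_lit 836) (nat_lit 2557306136) (nat_lit 912) (nat_lit 3701711874) (nat_lit 259) (nat_lit 5) (nat_lit 270) (nat_lit 5) (nat_lit 271) (nat_lit 5) (nat_lit 272) (nat_lit 256) (nat_lit 252)) (XT.lf (nat_lit 0) (nat_lit 921597250) (nat_lit 912) (nat_lit 155779600) (nat_lit 988) (nat_lit 5907067460) (nat_lit 246) (nat_lit 5) (nat_lit 258) (nat_lit 5) (nat_lit 259) (nat_lit 5) (nat_lit 273) (nat_lit 256) (nat_lit 251))))))) (XT.nd (nat_lit 1092) (nat_lit 4408) (nat_lit 0) (XT.nd (nat_lit 546) (nat_lit 3876) (nat_lit 0) (XT.nd (nat_lit 234) (nat_lit 2584) (nat_lit 0) (XT.nd (nat_lit 78) (nat_lit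 2356) (nat_lit 0) (XT.lf (nat_lit 0) (nat_lit 1254663609) (nat_lit 988) (nat_lit 4617848135) (nat_lit 1064) (nat_lit 1206592034) (nat_lit 233) (nat_lit 5) (nat_lit 246) (nat_lit 5) (nat_lit 247) (nat_lit 5) (nat_lit 274) (nat_lit 256) (nat_lit 250)) (XT.nd (nat_lit 78) (nat_lit 1216) (nat_lit 0) (XT.lf (nat_lit 0) (nat_lit 1656262550) (nat_lit 1064) (nat_lit 1840435248) (nat_lit 1140) (nat_lit 3685821379) (nat_lit 218) (nat_lit 5) (nat_lit 232) (nat_lit 5) (nat_lit 233) (nat_lit 5) (nat_lit 275) (nat_lit 256) (nat_lit 249)) (XT.lf (nat_lit 0) (nat_lit 957037837) (nat_lit 1216) (nat_lit 5169628732) (nat_lit 76) (nat_lit 1168265829) (nat_lit 202) (nat_lit 5) (nat_lit 218) (nat_lit 5) (nat_lit 203) (nat_lit 5) (nat_lit 276) (nat_lit 256) (nat_lit 248)))) (XT.nd (nat_lit 156) (nat_lit 1140) (nat_lit 0) (XT.nd (nat_lit 78) (nat_lit 684) (nat_lit 0) (XT.lf (nat_lit 0) (nat_lit 2633493891) (nat_lit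 760) (nat_lit 3000205481) (nat_lit 836) (nat_lit 1782112820) (nat_lit 192) (nat_lit 5) (nat_lit 202) (nat_lit 5) (nat_lit 203) (nat_lit 5) (nat_lit 277) (nat_lit 256) (nat_lit 247)) (XT.lf (nat_lit 0) (nat_lit 2813228425) (nat_lit 684) (nat_lit 4346480294) (nat_lit 76) (nat_lit 386307956) (nat_lit 183) (nat_lit 5) (nat_lit 192) (nat_lit 5) (nat_lit 184) (nat_lit 5) (nat_lit 278) (nat_lit 256) (nat_lit 246))) (XT.nd (nat_lit 78) (nat_lit 608) (nat_lit 0) (XT.lf (nat_lit 0) (nat_lit 3801163246) (nat_lit 532) (nat_lit 3707437511) (nat_lit 608) (nat_lit 176631892) (nat_lit 176) (nat_lit 5) (nat_lit 183) (nat_lit 5) (nat_lit 184) (nat_lit 5) (nat_lit 279) (nat_lit 256) (nat_lit 245)) (XT.lf (nat_lit 0) (nat_lit 4401533985) (nat_lit 608) (nat_lit 3396635774) (nat_lit 76) (nat_lit 35613613) (nat_lit 168) (nat_lit 5) (nat_lit 176) (nat_lit 5) (nat_lit 169) (nat_lit 5) (nat_lit 280) (nat_lit 256)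 (nat_lit 244))))) (XT.nd (nat_lit 234) (nat_lit 2204) (nat_lit 0) (XT.nd (nat_lit 78) (nat_lit 1064) (nat_lit 0) (XT.lf (nat_lit 0) (nat_lit 1120937761) (nat_lit 608) (nat_lit 2896824283) (nat_lit 76) (nat_lit 3973923314) (nat_lit 160) (nat_lit 5) (nat_lit 168) (nat_lit 5) (nat_lit 161) (nat_lit 5) (nat_lit 281) (nat_lit 256) (nat_lit 243)) (XT.nd (nat_lit 78) (nat_lit 532) (nat_lit 0) (XT.lf (nat_lit 0) (nat_lit 5731510466) (nat_lit 608) (nat_lit 2375366523) (nat_lit 76) (nat_lit 52763529) (nat_lit 153) (nat_lit 5) (nat_lit 161) (nat_lit 5) (nat_lit 154) (nat_lit 5) (nat_lit 282) (nat_lit 256) (nat_lit 242)) (XT.lf (nat_lit 0) (nat_lit 2140778763) (nat_lit 532) (nat_lit 1865749179) (nat_lit 76) (nat_lit 4330570236) (nat_lit 146) (nat_lit 5) (nat_lit 153) (nat_lit 5) (nat_lit 147) (nat_lit 5) (nat_lit 283) (nat_lit 256) (nat_lit 241)))) (XT.nd (nat_lit 156) (nat_lit 1292) (nat_lit 0) (XT.nd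 (nat_lit 78) (nat_lit 456) (nat_lit 0) (XT.lf (nat_lit 0) (nat_lit 6806108188) (nat_lit 532) (nat_lit 1341562735) (nat_lit 76) (nat_lit 377665917) (nat_lit 140) (nat_lit 5) (nat_lit 147) (nat_lit 5) (nat_lit 141) (nat_lit 5) (nat_lit 284) (nat_lit 256) (nat_lit 240)) (XT.lf (nat_lit 0) (nat_lit 2885230059) (nat_lit 456) (nat_lit 850768394) (nat_lit 76) (nat_lit 4987440122) (nat_lit 134) (nat_lit 5) (nat_lit 140) (nat_lit 5) (nat_lit 135) (nat_lit 5) (nat_lit 285) (nat_lit 256) (nat_lit 239))) (XT.nd (nat_lit 78) (nat_lit 836) (nat_lit 0) (XT.lf (nat_lit 0) (nat_lit 7621369868) (nat_lit 532) (nat_lit 359468156) (nat_lit 76) (nat_lit 952140494) (nat_lit 128) (nat_lit 5) (nat_lit 135) (nat_lit 5) (nat_lit 129) (nat_lit 5) (nat_lit 286) (nat_lit 256) (nat_lit 238)) (XT.lf (nat_lit 0) (nat_lit 81844956) (nat_lit 380) (nat_lit 3264890739) (nat_lit 456) (nat_lit 5806232943) (nat_lit 117) (nat_lit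 5) (nat_lit 122) (nat_lit 5) (nat_lit 123) (nat_lit 5) (nat_lit 287) (nat_lit 256) (nat_lit 237)))))) (XT.nd (nat_lit 546) (nat_lit 1976) (nat_lit 0) (XT.nd (nat_lit 234) (nat_lit 1292) (nat_lit 0) (XT.nd (nat_lit 78) (nat_lit 760) (nat_lit 0) (XT.lf (nat_lit 0) (nat_lit 509334440) (nat_lit 380) (nat_lit 7661528986) (nat_lit 456) (nat_lit 1214041289) (nat_lit 112) (nat_lit 5) (nat_lit 117) (nat_lit 5) (nat_lit 118) (nat_lit 5) (nat_lit 288) (nat_lit 256) (nat_lit 236)) (XT.nd (nat_lit 78) (nat_lit 304) (nat_lit 0) (XT.lf (nat_lit 0) (nat_lit 868079707) (nat_lit 380) (nat_lit 2647073389) (nat_lit 456) (nat_lit 6113035864) (nat_lit 106) (nat_lit 5) (nat_lit 111) (nat_lit 5) (nat_lit 112) (nat_lit 5) (nat_lit 289) (nat_lit 256) (nat_lit 235)) (XT.lf (nat_lit 0) (nat_lit 1177035428) (nat_lit 304) (nat_lit 7254841013) (nat_lit 380) (nat_lit 1452234636) (nat_lit 102) (nat_lit 5) (nat_lit 106) (nat_lit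 5) (nat_lit 107) (nat_lit 5) (nat_lit 290) (nat_lit 256) (nat_lit 234)))) (XT.nd (nat_lit 156) (nat_lit 608) (nat_lit 0) (XT.nd (nat_lit 78) (nat_lit 304) (nat_lit 0) (XT.lf (nat_lit 0) (nat_lit 1402525798) (nat_lit 304) (nat_lit 1954118175) (nat_lit 380) (nat_lit 6795837558) (nat_lit 97) (nat_lit 5) (nat_lit 101) (nat_lit 5) (nat_lit 102) (nat_lit 5) (nat_lit 291) (nat_lit 256) (nat_lit 233)) (XT.lf (nat_lit 0) (nat_lit 1541780790) (nat_lit 304) (nat_lit 6830008656) (nat_lit 380) (nat_lit 2062279296) (nat_lit 93) (nat_lit 5) (nat_lit 97) (nat_lit 5) (nat_lit 98) (nat_lit 5) (nat_lit 292) (nat_lit 256) (nat_lit 232))) (XT.nd (nat_lit 78) (nat_lit 228) (nat_lit 0) (XT.lf (nat_lit 0) (nat_lit 1583227055) (nat_lit 304) (nat_lit 1252890126) (nat_lit 380) (nat_lit 7893329766) (nat_lit 88) (nat_lit 5) (nat_lit 92) (nat_lit 5) (nat_lit 93) (nat_lit 5) (nat_lit 293) (nat_lit 256) (nat_lit 231)) (XT.lf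 (nat_lit 0) (nat_lit 1493883806) (nat_lit 228) (nat_lit 6457577490) (nat_lit 304) (nat_lit 3087172582) (nat_lit 85) (nat_lit 5) (nat_lit 88) (nat_lit 5) (nat_lit 89) (nat_lit 5) (nat_lit 294) (nat_lit 256) (nat_lit 230))))) (XT.nd (nat_lit 312) (nat_lit 1064) (nat_lit 0) (XT.nd (nat_lit 156) (nat_lit 304) (nat_lit 0) (XT.nd (nat_lit 78) (nat_lit 228) (nat_lit 0) (XT.lf (nat_lit 0) (nat_lit 1291681403) (nat_lit 304) (nat_lit 615998113) (nat_lit 380) (nat_lit 9455522776) (nat_lit 80) (nat_lit 5) (nat_lit 84) (nat_lit 5) (nat_lit 85) (nat_lit 5) (nat_lit 295) (nat_lit 256) (nat_lit 229)) (XT.lf (nat_lit 0) (nat_lit 905381243) (nat_lit 228) (nat_lit 6214987368) (nat_lit 304) (nat_lit 4581836946) (nat_lit 77) (nat_lit 5) (nat_lit 80) (nat_lit 5) (nat_lit 81) (nat_lit 5) (nat_lit 296) (nat_lit 256) (nat_lit 228))) (XT.nd (nat_lit 78) (nat_lit 0) (nat_lit 0) (XT.lf (nat_lit 0) (nat_lit 389302992)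 (nat_lit 228) (nat_lit 123852984) (nat_lit 304) (nat_lit 11545281896) (nat_lit 73) (nat_lit 5) (nat_lit 76) (nat_lit 5) (nat_lit 77) (nat_lit 5) (nat_lit 297) (nat_lit 256) (nat_lit 227)) (XT.lf (nat_lit 0) (nat_lit 5818572907) (nat_lit 304) (nat_lit 366476170) (nat_lit 76) (nat_lit 6244630689) (nat_lit 73) (nat_lit 5) (nat_lit 77) (nat_lit 5) (nat_lit 74) (nat_lit 5) (nat_lit 298) (nat_lit 256) (nat_lit 226)))) (XT.nd (nat_lit 156) (nat_lit 532) (nat_lit 0) (XT.nd (nat_lit 78) (nat_lit 304) (nat_lit 0) (XT.lf (nat_lit 0) (nat_lit 11385895905) (nat_lit 304) (nat_lit 1276902502) (nat_lit 76) (nat_lit 156854784) (nat_lit 70) (nat_lit 5) (nat_lit 74) (nat_lit 5) (nat_lit 71) (nat_lit 5) (nat_lit 299) (nat_lit 256) (nat_lit 225)) (XT.lf (nat_lit 0) (nat_lit 3981022555) (nat_lit 304) (nat_lit 2470928012) (nat_lit 76) (nat_lit 6774383872) (nat_lit 66) (nat_lit 5) (nat_lit 70) (nat_lit 5) (nat_lit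 67) (nat_lit 5) (nat_lit 300) (nat_lit 256) (nat_lit 224))) (XT.nd (nat_lit 78) (nat_lit 304) (nat_lit 0) (XT.lf (nat_lit 0) (nat_lit 9634302904) (nat_lit 304) (nat_lit 3891205412) (nat_lit 76) (nat_lit 127553466) (nat_lit 63) (nat_lit 5) (nat_lit 67) (nat_lit 5) (nat_lit 64) (nat_lit 5) (nat_lit 301) (nat_lit 256) (nat_lit 223)) (XT.lf (nat_lit 0) (nat_lit 1505209292) (nat_lit 304) (nat_lit 5629740557) (nat_lit 76) (nat_lit 6963865091) (nat_lit 59) (nat_lit 5) (nat_lit 63) (nat_lit 5) (nat_lit 60) (nat_lit 5) (nat_lit 302) (nat_lit 256) (nat_lit 222))))))))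
noncomputable def xc43 : XT := (XT.nd (nat_lit 2184) (nat_lit 912) (nat_lit 0) (XT.nd (nat_lit 1092) (nat_lit 1140) (nat_lit 0) (XT.nd (nat_lit 546) (nat_lit 836) (nat_lit 0) (XT.nd (nat_lit 234) (nat_lit 608) (nat_lit 0) (XT.nd (nat_lit 78) (nat_lit 456) (nat_lit 0) (XT.lf (nat_lit 0) (nat_lit 6885786654) (nat_lit 152) (nat_lit 338144894) (nat_lit 228) (nat_lit 7341733538) (nat_lit 57) (nat_lit 5) (nat_lit 59) (nat_lit 5) (nat_lit 60) (nat_lit 5) (nat_lit 303) (nat_lit 256) (nat_lit 221)) (XT.nd (nat_lit 78) (nat_lit 228) (nat_lit 0) (XT.lf (nat_lit 0) (nat_lit 4953075399) (nat_lit 228) (nat_lit 8344090711) (nat_lit 304) (nat_lit 1756684928) (nat_lit 54) (nat_lit 5) (nat_lit 57) (nat_lit 5) (nat_lit 58) (nat_lit 5) (nat_lit 304) (nat_lit 256) (nat_lit 220)) (XT.lf (nat_lit 0) (nat_lit 2656757691) (nat_lit 152) (nat_lit 1378877889) (nat_lit 228) (nat_lit 11529427717) (nat_lit 51) (nat_lit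 5) (nat_lit 53) (nat_lit 5) (nat_lit 54) (nat_lit 5) (nat_lit 305) (nat_lit 256) (nat_lit 219)))) (XT.nd (nat_lit 156) (nat_lit 380) (nat_lit 0) (XT.nd (nat_lit 78) (nat_lit 228) (nat_lit 0) (XT.lf (nat_lit 0) (nat_lit 10145652972) (nat_lit 228) (nat_lit 74386149) (nat_lit 76) (nat_lit 5879387453) (nat_lit 51) (nat_lit 5) (nat_lit 54) (nat_lit 5) (nat_lit 52) (nat_lit 5) (nat_lit 306) (nat_lit 256) (nat_lit 218)) (XT.lf (nat_lit 0) (nat_lit 13495314673) (nat_lit 228) (nat_lit 3116183931) (nat_lit 304) (nat_lit 47542015) (nat_lit 48) (nat_lit 5) (nat_lit 51) (nat_lit 5) (nat_lit 52) (nat_lit 5) (nat_lit 307) (nat_lit 256) (nat_lit 217))) (XT.nd (nat_lit 78) (nat_lit 152) (nat_lit 0) (XT.lf (nat_lit 0) (nat_lit 6087027303) (nat_lit 228) (nat_lit 6796076859) (nat_lit 76) (nat_lit 4360202365) (nat_lit 45) (nat_lit 5) (nat_lit 48) (nat_lit 5) (nat_lit 46) (nat_lit 5) (nat_lit 308) (nat_lit 256)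 (nat_lit 216)) (XT.lf (nat_lit 0) (nat_lit 6900970828) (nat_lit 152) (nat_lit 5668145545) (nat_lit 228) (nat_lit 5286439360) (nat_lit 43) (nat_lit 5) (nat_lit 45) (nat_lit 5) (nat_lit 46) (nat_lit 5) (nat_lit 309) (nat_lit 256) (nat_lit 215))))) (XT.nd (nat_lit 234) (nat_lit 456) (nat_lit 0) (XT.nd (nat_lit 78) (nat_lit 152) (nat_lit 0) (XT.lf (nat_lit 0) (nat_lit 889436155) (nat_lit 228) (nat_lit 15689995429) (nat_lit 76) (nat_lit 1917877833) (nat_lit 40) (nat_lit 5) (nat_lit 43) (nat_lit 5) (nat_lit 41) (nat_lit 5) (nat_lit 310) (nat_lit 256) (nat_lit 214)) (XT.nd (nat_lit 78) (nat_lit 152) (nat_lit 0) (XT.lf (nat_lit 0) (nat_lit 7352101174) (nat_lit 228) (nat_lit 1938898708) (nat_lit 76) (nat_lit 9875993750) (nat_lit 40) (nat_lit 5) (nat_lit 43) (nat_lit 5) (nat_lit 41) (nat_lit 5) (nat_lit 311) (nat_lit 256) (nat_lit 213)) (XT.lf (nat_lit 0) (nat_lit 12607024545) (nat_lit 152) (nat_lit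 1571315433) (nat_lit 228) (nat_lit 5690640198) (nat_lit 38) (nat_lit 5) (nat_lit 40) (nat_lit 5) (nat_lit 41) (nat_lit 5) (nat_lit 312) (nat_lit 256) (nat_lit 212)))) (XT.nd (nat_lit 156) (nat_lit 76) (nat_lit 0) (XT.nd (nat_lit 78) (nat_lit 152) (nat_lit 0) (XT.lf (nat_lit 0) (nat_lit 800082138) (nat_lit 228) (nat_lit 13354411626) (nat_lit 76) (nat_lit 6449147082) (nat_lit 35) (nat_lit 5) (nat_lit 38) (nat_lit 5) (nat_lit 36) (nat_lit 5) (nat_lit 313) (nat_lit 256) (nat_lit 211)) (XT.lf (nat_lit 0) (nat_lit 1077690192) (nat_lit 152) (nat_lit 6445719139) (nat_lit 228) (nat_lit 13849189723) (nat_lit 33) (nat_lit 5) (nat_lit 35) (nat_lit 5) (nat_lit 36) (nat_lit 5) (nat_lit 314) (nat_lit 256) (nat_lit 210))) (XT.nd (nat_lit 78) (nat_lit 76) (nat_lit 0) (XT.lf (nat_lit 0) (nat_lit 14662413060) (nat_lit 228) (nat_lit 5814742385) (nat_lit 76) (nat_lit 1700490700) (nat_lit 33) (nat_lit 5) (nat_lit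 36) (nat_lit 5) (nat_lit 34) (nat_lit 4) (nat_lit 315) (nat_lit 256) (nat_lit 209)) (XT.lf (nat_lit 0) (nat_lit 9381615750) (nat_lit 76) (nat_lit 12860401592) (nat_lit 152) (nat_lit 778443765) (nat_lit 32) (nat_lit 5) (nat_lit 33) (nat_lit 5) (nat_lit 34) (nat_lit 4) (nat_lit 316) (nat_lit 256) (nat_lit 208)))))) (XT.nd (nat_lit 546) (nat_lit 532) (nat_lit 0) (XT.nd (nat_lit 234) (nat_lit 304) (nat_lit 0) (XT.nd (nat_lit 78) (nat_lit 76) (nat_lit 0) (XT.lf (nat_lit 0) (nat_lit 1398221908) (nat_lit 152) (nat_lit 4777946679) (nat_lit 228) (nat_lit 17727341217) (nat_lit 29) (nat_lit 5) (nat_lit 31) (nat_lit 5) (nat_lit 32) (nat_lit 5) (nat_lit 317) (nat_lit 256) (nat_lit 207)) (XT.nd (nat_lit 78) (nat_lit 76) (nat_lit 0) (XT.lf (nat_lit 0) (nat_lit 13571616010) (nat_lit 228) (nat_lit 7520892327) (nat_lit 76) (nat_lit 3734717300) (nat_lit 29) (nat_lit 5) (nat_lit 32) (nat_lit 5) (nat_lit 30)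 (nat_lit 4) (nat_lit 318) (nat_lit 256) (nat_lit 206)) (XT.lf (nat_lit 0) (nat_lit 8208823737) (nat_lit 76) (nat_lit 13190016322) (nat_lit 152) (nat_lit 4396448065) (nat_lit 28) (nat_lit 5) (nat_lit 29) (nat_lit 5) (nat_lit 30) (nat_lit 4) (nat_lit 319) (nat_lit 256) (nat_lit 205)))) (XT.nd (nat_lit 156) (nat_lit 76) (nat_lit 0) (XT.nd (nat_lit 78) (nat_lit 152) (nat_lit 0) (XT.lf (nat_lit 0) (nat_lit 2765356517) (nat_lit 152) (nat_lit 2068802564) (nat_lit 76) (nat_lit 21976371956) (nat_lit 27) (nat_lit 5) (nat_lit 29) (nat_lit 5) (nat_lit 28) (nat_lit 5) (nat_lit 320) (nat_lit 256) (nat_lit 204)) (XT.lf (nat_lit 0) (nat_lit 10311629483) (nat_lit 228) (nat_lit 13560099142) (nat_lit 76) (nat_lit 4000000974) (nat_lit 25) (nat_lit 5) (nat_lit 28) (nat_lit 5) (nat_lit 26) (nat_lit 4) (nat_lit 321) (nat_lit 256) (nat_lit 203))) (XT.nd (nat_lit 78) (nat_lit 0) (nat_lit 0) (XT.lf (nat_lit 0) (nat_lit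 2461360910) (nat_lit 76) (nat_lit 15808529642) (nat_lit 152) (nat_lit 10715074909) (nat_lit 24) (nat_lit 5) (nat_lit 25) (nat_lit 5) (nat_lit 26) (nat_lit 4) (nat_lit 322) (nat_lit 256) (nat_lit 202)) (XT.lf (nat_lit 0) (nat_lit 19463683054) (nat_lit 76) (nat_lit 7244512995) (nat_lit 152) (nat_lit 3443219889) (nat_lit 24) (nat_lit 5) (nat_lit 25) (nat_lit 5) (nat_lit 26) (nat_lit 4) (nat_lit 323) (nat_lit 256) (nat_lit 201))))) (XT.nd (nat_lit 234) (nat_lit 228) (nat_lit 0) (XT.nd (nat_lit 78) (nat_lit 76) (nat_lit 0) (XT.lf (nat_lit 0) (nat_lit 4129339077) (nat_lit 228) (nat_lit 25476979989) (nat_lit 76) (nat_lit 1768108928) (nat_lit 21) (nat_lit 5) (nat_lit 24) (nat_lit 5) (nat_lit 22) (nat_lit 4) (nat_lit 324) (nat_lit 256) (nat_lit 200)) (XT.nd (nat_lit 78) (nat_lit 76) (nat_lit 0) (XT.lf (nat_lit 0) (nat_lit 12140212794) (nat_lit 228) (nat_lit 9327129679) (nat_lit 76) (nat_lit 11186313266)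 (nat_lit 21) (nat_lit 5) (nat_lit 24) (nat_lit 5) (nat_lit 22) (nat_lit 4) (nat_lit 325) (nat_lit 256) (nat_lit 199)) (XT.lf (nat_lit 0) (nat_lit 7686774972) (nat_lit 76) (nat_lit 12887321576) (nat_lit 152) (nat_lit 13422088397) (nat_lit 20) (nat_lit 5) (nat_lit 21) (nat_lit 5) (nat_lit 22) (nat_lit 4) (nat_lit 326) (nat_lit 256) (nat_lit 198)))) (XT.nd (nat_lit 156) (nat_lit 76) (nat_lit 0) (XT.nd (nat_lit 78) (nat_lit 152) (nat_lit 0) (XT.lf (nat_lit 0) (nat_lit 25655527886) (nat_lit 76) (nat_lit 3820313878) (nat_lit 152) (nat_lit 5928627218) (nat_lit 20) (nat_lit 5) (nat_lit 21) (nat_lit 5) (nat_lit 22) (nat_lit 4) (nat_lit 327) (nat_lit 256) (nat_lit 197)) (XT.lf (nat_lit 0) (nat_lit 1982890993) (nat_lit 152) (nat_lit 29253734811) (nat_lit 76) (nat_lit 5643557564) (nat_lit 18) (nat_lit 5) (nat_lit 20) (nat_lit 5) (nat_lit 19) (nat_lit 4) (nat_lit 328) (nat_lit 256) (nat_lit 196))) (XT.nd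 (nat_lit 78) (nat_lit 76) (nat_lit 0) (XT.lf (nat_lit 0) (nat_lit 10261563731) (nat_lit 152) (nat_lit 12537666451) (nat_lit 76) (nat_lit 15625878354) (nat_lit 18) (nat_lit 5) (nat_lit 20) (nat_lit 5) (nat_lit 19) (nat_lit 4) (nat_lit 329) (nat_lit 256) (nat_lit 195)) (XT.lf (nat_lit 0) (nat_lit 5030527597) (nat_lit 76) (nat_lit 13927372539) (nat_lit 152) (nat_lit 21089279156) (nat_lit 17) (nat_lit 5) (nat_lit 18) (nat_lit 5) (nat_lit 19) (nat_lit 4) (nat_lit 330) (nat_lit 256) (nat_lit 194))))))) (XT.nd (nat_lit 1092) (nat_lit 380) (nat_lit 0) (XT.nd (nat_lit 546) (nat_lit 304) (nat_lit 0) (XT.nd (nat_lit 234) (nat_lit 76) (nat_lit 0) (XT.nd (nat_lit 78) (nat_lit 152) (nat_lit 0) (XT.lf (nat_lit 0) (nat_lit 23659636228) (nat_lit 76) (nat_lit 4515215781) (nat_lit 152) (nat_lit 13572938313) (nat_lit 17) (nat_lit 5) (nat_lit 18) (nat_lit 5) (nat_lit 19) (nat_lit 4) (nat_lit 331) (nat_lit 256)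 (nat_lit 193)) (XT.nd (nat_lit 78) (nat_lit 152) (nat_lit 0) (XT.lf (nat_lit 0) (nat_lit 37862710659) (nat_lit 152) (nat_lit 441452417) (nat_lit 0) (nat_lit 5228977240) (nat_lit 17) (nat_lit 5) (nat_lit 19) (nat_lit 4) (nat_lit 17) (nat_lit 4) (nat_lit 332) (nat_lit 256) (nat_lit 192)) (XT.lf (nat_lit 0) (nat_lit 2759913620) (nat_lit 152) (nat_lit 27102705687) (nat_lit 76) (nat_lit 15538871029) (nat_lit 15) (nat_lit 5) (nat_lit 17) (nat_lit 5) (nat_lit 16) (nat_lit 4) (nat_lit 333) (nat_lit 256) (nat_lit 191)))) (XT.nd (nat_lit 156) (nat_lit 0) (nat_lit 0) (XT.nd (nat_lit 78) (nat_lit 76) (nat_lit 0) (XT.lf (nat_lit 0) (nat_lit 11461434913) (nat_lit 152) (nat_lit 9506805004) (nat_lit 76) (nat_lit 26394334603) (nat_lit 15) (nat_lit 5) (nat_lit 17) (nat_lit 5) (nat_lit 16) (nat_lit 4) (nat_lit 334) (nat_lit 256) (nat_lit 190)) (XT.lf (nat_lit 0) (nat_lit 9077779369) (nat_lit 76) (nat_lit 11570613618)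 (nat_lit 152) (nat_lit 28771817650) (nat_lit 14) (nat_lit 5) (nat_lit 15) (nat_lit 5) (nat_lit 16) (nat_lit 4) (nat_lit 335) (nat_lit 256) (nat_lit 189))) (XT.nd (nat_lit 78) (nat_lit 0) (nat_lit 0) (XT.lf (nat_lit 0) (nat_lit 28723962125) (nat_lit 76) (nat_lit 1632820451) (nat_lit 152) (nat_lit 21222091609) (nat_lit 14) (nat_lit 5) (nat_lit 15) (nat_lit 5) (nat_lit 16) (nat_lit 4) (nat_lit 336) (nat_lit 256) (nat_lit 188)) (XT.lf (nat_lit 0) (nat_lit 40600844455) (nat_lit 152) (nat_lit 4641514663) (nat_lit 0) (nat_lit 8601611960) (nat_lit 14) (nat_lit 5) (nat_lit 16) (nat_lit 4) (nat_lit 14) (nat_lit 4) (nat_lit 337) (nat_lit 256) (nat_lit 187))))) (XT.nd (nat_lit 234) (nat_lit 152) (nat_lit 0) (XT.nd (nat_lit 78) (nat_lit 76) (nat_lit 0) (XT.lf (nat_lit 0) (nat_lit 14691917831) (nat_lit 76) (nat_lit 36790179676) (nat_lit 76) (nat_lit 4736483045) (nat_lit 13) (nat_lit 4) (nat_lit 14) (nat_lit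 5) (nat_lit 14) (nat_lit 4) (nat_lit 338) (nat_lit 256) (nat_lit 186)) (XT.nd (nat_lit 78) (nat_lit 0) (nat_lit 0) (XT.lf (nat_lit 0) (nat_lit 4129825753) (nat_lit 152) (nat_lit 23722020956) (nat_lit 76) (nat_lit 30858384658) (nat_lit 12) (nat_lit 5) (nat_lit 14) (nat_lit 5) (nat_lit 13) (nat_lit 4) (nat_lit 339) (nat_lit 256) (nat_lit 185)) (XT.lf (nat_lit 0) (nat_lit 13311877947) (nat_lit 152) (nat_lit 5131855579) (nat_lit 76) (nat_lit 42882219250) (nat_lit 12) (nat_lit 5) (nat_lit 14) (nat_lit 5) (nat_lit 13) (nat_lit 4) (nat_lit 340) (nat_lit 256) (nat_lit 184)))) (XT.nd (nat_lit 156) (nat_lit 76) (nat_lit 0) (XT.nd (nat_lit 78) (nat_lit 0) (nat_lit 0) (XT.lf (nat_lit 0) (nat_lit 14618892935) (nat_lit 76) (nat_lit 8445594215) (nat_lit 152) (nat_lit 41004635662) (nat_lit 11) (nat_lit 5) (nat_lit 12) (nat_lit 5) (nat_lit 13) (nat_lit 4) (nat_lit 341) (nat_lit 256) (nat_lit 183)) (XT.lf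 (nat_lit 0) (nat_lit 33349379233) (nat_lit 152) (nat_lit 31556955089) (nat_lit 0) (nat_lit 2041783349) (nat_lit 11) (nat_lit 5) (nat_lit 13) (nat_lit 4) (nat_lit 11) (nat_lit 4) (nat_lit 342) (nat_lit 256) (nat_lit 182))) (XT.nd (nat_lit 78) (nat_lit 76) (nat_lit 0) (XT.lf (nat_lit 0) (nat_lit 44206685082) (nat_lit 152) (nat_lit 12904979675) (nat_lit 0) (nat_lit 12857658057) (nat_lit 11) (nat_lit 5) (nat_lit 13) (nat_lit 4) (nat_lit 11) (nat_lit 4) (nat_lit 343) (nat_lit 256) (nat_lit 181)) (XT.lf (nat_lit 0) (nat_lit 6763265724) (nat_lit 76) (nat_lit 48882818130) (nat_lit 76) (nat_lit 17494332876) (nat_lit 10) (nat_lit 4) (nat_lit 11) (nat_lit 5) (nat_lit 11) (nat_lit 4) (nat_lit 344) (nat_lit 256) (nat_lit 180)))))) (XT.nd (nat_lit 546) (nat_lit 228) (nat_lit 0) (XT.nd (nat_lit 234) (nat_lit 76) (nat_lit 0) (XT.nd (nat_lit 78) (nat_lit 76) (nat_lit 0) (XT.lf (nat_lit 0) (nat_lit 27637679691)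 (nat_lit 76) (nat_lit 40127610074) (nat_lit 76) (nat_lit 8701545554) (nat_lit 10) (nat_lit 4) (nat_lit 11) (nat_lit 5) (nat_lit 11) (nat_lit 4) (nat_lit 345) (nat_lit 256) (nat_lit 179)) (XT.nd (nat_lit 78) (nat_lit 0) (nat_lit 0) (XT.lf (nat_lit 0) (nat_lit 496463847) (nat_lit 152) (nat_lit 30454032688) (nat_lit 76) (nat_lit 49009651653) (nat_lit 9) (nat_lit 5) (nat_lit 11) (nat_lit 5) (nat_lit 10) (nat_lit 4) (nat_lit 346) (nat_lit 256) (nat_lit 178)) (XT.lf (nat_lit 0) (nat_lit 9953173027) (nat_lit 152) (nat_lit 11290998554) (nat_lit 76) (nat_lit 62382012166) (nat_lit 9) (nat_lit 5) (nat_lit 11) (nat_lit 5) (nat_lit 10) (nat_lit 4) (nat_lit 347) (nat_lit 256) (nat_lit 177)))) (XT.nd (nat_lit 156) (nat_lit 0) (nat_lit 0) (XT.nd (nat_lit 78) (nat_lit 0) (nat_lit 0) (XT.lf (nat_lit 0) (nat_lit 8964140288) (nat_lit 76) (nat_lit 10982924968) (nat_lit 152) (nat_lit 67526529672) (nat_lit 8) (nat_lit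 5) (nat_lit 9) (nat_lit 5) (nat_lit 10) (nat_lit 4) (nat_lit 348) (nat_lit 256) (nat_lit 176)) (XT.lf (nat_lit 0) (nat_lit 30428189459) (nat_lit 76) (nat_lit 107528864) (nat_lit 152) (nat_lit 60974810424) (nat_lit 8) (nat_lit 5) (nat_lit 9) (nat_lit 5) (nat_lit 10) (nat_lit 4) (nat_lit 349) (nat_lit 256) (nat_lit 175))) (XT.nd (nat_lit 78) (nat_lit 0) (nat_lit 0) (XT.lf (nat_lit 0) (nat_lit 41742211058) (nat_lit 152) (nat_lit 42930940824) (nat_lit 0) (nat_lit 11073509041) (nat_lit 8) (nat_lit 5) (nat_lit 10) (nat_lit 4) (nat_lit 8) (nat_lit 4) (nat_lit 350) (nat_lit 256) (nat_lit 174)) (XT.lf (nat_lit 0) (nat_lit 53490754350) (nat_lit 152) (nat_lit 23909570397) (nat_lit 0) (nat_lit 22794826870) (nat_lit 8) (nat_lit 5) (nat_lit 10) (nat_lit 4) (nat_lit 8) (nat_lit 4) (nat_lit 351) (nat_lit 256) (nat_lit 173))))) (XT.nd (nat_lit 312) (nat_lit 152) (nat_lit 0) (XT.nd (nat_lit 156) (nat_lit 0)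 (nat_lit 0) (XT.nd (nat_lit 78) (nat_lit 76) (nat_lit 0) (XT.lf (nat_lit 0) (nat_lit 65808287290) (nat_lit 152) (nat_lit 3971905397) (nat_lit 0) (nat_lit 35086430797) (nat_lit 8) (nat_lit 5) (nat_lit 10) (nat_lit 4) (nat_lit 8) (nat_lit 4) (nat_lit 352) (nat_lit 256) (nat_lit 172)) (XT.lf (nat_lit 0) (nat_lit 17266455544) (nat_lit 76) (nat_lit 61623657527) (nat_lit 76) (nat_lit 30877106736) (nat_lit 7) (nat_lit 4) (nat_lit 8) (nat_lit 5) (nat_lit 8) (nat_lit 4) (nat_lit 353) (nat_lit 256) (nat_lit 171))) (XT.nd (nat_lit 78) (nat_lit 0) (nat_lit 0) (XT.lf (nat_lit 0) (nat_lit 39617566949) (nat_lit 76) (nat_lit 53032317856) (nat_lit 76) (nat_lit 22262248686) (nat_lit 7) (nat_lit 4) (nat_lit 8) (nat_lit 5) (nat_lit 8) (nat_lit 4) (nat_lit 354) (nat_lit 256) (nat_lit 170)) (XT.lf (nat_lit 0) (nat_lit 63055597045) (nat_lit 76) (nat_lit 44025826561) (nat_lit 76) (nat_lit 13233358935) (nat_lit 7)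 (nat_lit 4) (nat_lit 8) (nat_lit 5) (nat_lit 8) (nat_lit 4) (nat_lit 355) (nat_lit 256) (nat_lit 169)))) (XT.nd (nat_lit 156) (nat_lit 76) (nat_lit 0) (XT.nd (nat_lit 78) (nat_lit 76) (nat_lit 0) (XT.lf (nat_lit 0) (nat_lit 87636350664) (nat_lit 76) (nat_lit 34582739615) (nat_lit 76) (nat_lit 3768940127) (nat_lit 7) (nat_lit 4) (nat_lit 8) (nat_lit 5) (nat_lit 8) (nat_lit 4) (nat_lit 356) (nat_lit 256) (nat_lit 168)) (XT.lf (nat_lit 0) (nat_lit 6033464300) (nat_lit 152) (nat_lit 18586183019) (nat_lit 76) (nat_lit 107323962951) (nat_lit 6) (nat_lit 5) (nat_lit 8) (nat_lit 5) (nat_lit 7) (nat_lit 4) (nat_lit 357) (nat_lit 256) (nat_lit 167))) (XT.nd (nat_lit 78) (nat_lit 0) (nat_lit 0) (XT.lf (nat_lit 0) (nat_lit 2144647992) (nat_lit 76) (nat_lit 14110579676) (nat_lit 152) (nat_lit 121940408931) (nat_lit 5) (nat_lit 5) (nat_lit 6) (nat_lit 5) (nat_lit 7) (nat_lit 4) (nat_lit 358) (nat_lit 256)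 (nat_lit 166)) (XT.lf (nat_lit 0) (nat_lit 24274434357) (nat_lit 76) (nat_lit 2891243376) (nat_lit 152) (nat_lit 117589260982) (nat_lit 5) (nat_lit 5) (nat_lit 6) (nat_lit 5) (nat_lit 7) (nat_lit 4) (nat_lit 359) (nat_lit 256) (nat_lit 165))))))))
noncomputable def xc44 : XT := (XT.nd (nat_lit 35022) (nat_lit 0) (nat_lit 2128) (XT.nd (nat_lit 33930) (nat_lit 0) (nat_lit 8892) (XT.nd (nat_lit 33384) (nat_lit 0) (nat_lit 18316) (XT.nd (nat_lit 234) (nat_lit 0) (nat_lit 0) (XT.nd (nat_lit 78) (nat_lit 0) (nat_lit 0) (XT.lf (nat_lit 0) (nat_lit 38693909178) (nat_lit 152) (nat_lit 104241970876) (nat_lit 0) (nat_lit 8704160423) (nat_lit 5) (nat_lit 5) (nat_lit 7) (nat_lit 4) (nat_lit 5) (nat_lit 4) (nat_lit 360) (nat_lit 256) (nat_lit 164)) (XT.nd (nat_lit 78) (nat_lit 0) (nat_lit 0) (XT.lf (nat_lit 0) (nat_lit 50815174024) (nat_lit 152) (nat_lit 87244528836) (nat_lit 0) (nat_lit 20809198013) (nat_lit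 5) (nat_lit 5) (nat_lit 7) (nat_lit 4) (nat_lit 5) (nat_lit 4) (nat_lit 361) (nat_lit 256) (nat_lit 163)) (XT.lf (nat_lit 0) (nat_lit 63530540024) (nat_lit 152) (nat_lit 69419915736) (nat_lit 0) (nat_lit 33509109485) (nat_lit 5) (nat_lit 5) (nat_lit 7) (nat_lit 4) (nat_lit 5) (nat_lit 4) (nat_lit 362) (nat_lit 256) (nat_lit 162)))) (XT.nd (nat_lit 156) (nat_lit 0) (nat_lit 0) (XT.nd (nat_lit 78) (nat_lit 0) (nat_lit 0) (XT.lf (nat_lit 0) (nat_lit 76870281860) (nat_lit 152) (nat_lit 50725692021) (nat_lit 0) (nat_lit 46834132722) (nat_lit 5) (nat_lit 5) (nat_lit 7) (nat_lit 4) (nat_lit 5) (nat_lit 4) (nat_lit 363) (nat_lit 256) (nat_lit 161)) (XT.lf (nat_lit 0) (nat_lit 90866160821) (nat_lit 152) (nat_lit 31117347637) (nat_lit 0) (nat_lit 60815993970) (nat_lit 5) (nat_lit 5) (nat_lit 7) (nat_lit 4) (nat_lit 5) (nat_lit 4) (nat_lit 364) (nat_lit 256) (nat_lit 160))) (XT.nd (nat_lit 32916) (nat_lit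 0) (nat_lit 23484) (XT.lf (nat_lit 0) (nat_lit 105551500429) (nat_lit 152) (nat_lit 10548196047) (nat_lit 0) (nat_lit 75487983375) (nat_lit 5) (nat_lit 5) (nat_lit 7) (nat_lit 4) (nat_lit 5) (nat_lit 4) (nat_lit 365) (nat_lit 256) (nat_lit 159)) (XT.lf (nat_lit 0) (nat_lit 436815417) (nat_lit 380) (nat_lit 1419238438) (nat_lit 380) (nat_lit 1419238438) (nat_lit 314) (nat_lit 4) (nat_lit 319) (nat_lit 5) (nat_lit 319) (nat_lit 4) (nat_lit 266) (nat_lit 257) (nat_lit 257))))) (XT.nd (nat_lit 234) (nat_lit 3420) (nat_lit 0) (XT.nd (nat_lit 78) (nat_lit 1216) (nat_lit 0) (XT.lf (nat_lit 0) (nat_lit 501750057) (nat_lit 456) (nat_lit 1669151495) (nat_lit 532) (nat_lit 4420309549) (nat_lit 307) (nat_lit 5) (nat_lit 313) (nat_lit 5) (nat_lit 314) (nat_lit 4) (nat_lit 267) (nat_lit 257) (nat_lit 256)) (XT.nd (nat_lit 78) (nat_lit 608) (nat_lit 0) (XT.lf (nat_lit 0) (nat_lit 233054162) (nat_lit 532)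 (nat_lit 260924625) (nat_lit 608) (nat_lit 6146227532) (nat_lit 299) (nat_lit 5) (nat_lit 306) (nat_lit 5) (nat_lit 307) (nat_lit 5) (nat_lit 268) (nat_lit 257) (nat_lit 255)) (XT.lf (nat_lit 0) (nat_lit 38113206) (nat_lit 608) (nat_lit 5321191063) (nat_lit 684) (nat_lit 1337584229) (nat_lit 291) (nat_lit 5) (nat_lit 299) (nat_lit 5) (nat_lit 300) (nat_lit 4) (nat_lit 269) (nat_lit 257) (nat_lit 254)))) (XT.nd (nat_lit 156) (nat_lit 2584) (nat_lit 0) (XT.nd (nat_lit 78) (nat_lit 760) (nat_lit 0) (XT.lf (nat_lit 0) (nat_lit 3437047822) (nat_lit 684) (nat_lit 68380667) (nat_lit 76) (nat_lit 3256384865) (nat_lit 290) (nat_lit 5) (nat_lit 299) (nat_lit 5) (nat_lit 291) (nat_lit 5) (nat_lit 270) (nat_lit 257) (nat_lit 253)) (XT.lf (nat_lit 0) (nat_lit 1366720157) (nat_lit 760) (nat_lit 83426924) (nat_lit 76) (nat_lit 5385228005) (nat_lit 280) (nat_lit 5) (nat_lit 290) (nat_lit 5) (nat_lit 281)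 (nat_lit 5) (nat_lit 271) (nat_lit 257) (nat_lit 252))) (XT.nd (nat_lit 78) (nat_lit 1824) (nat_lit 0) (XT.lf (nat_lit 0) (nat_lit 6049165501) (nat_lit 836) (nat_lit 26356014) (nat_lit 76) (nat_lit 841719811) (nat_lit 270) (nat_lit 5) (nat_lit 281) (nat_lit 5) (nat_lit 271) (nat_lit 5) (nat_lit 272) (nat_lit 257) (nat_lit 251)) (XT.lf (nat_lit 0) (nat_lit 87972811) (nat_lit 912) (nat_lit 3639915558) (nat_lit 988) (nat_lit 3279230033) (nat_lit 246) (nat_lit 5) (nat_lit 258) (nat_lit 5) (nat_lit 259) (nat_lit 5) (nat_lit 273) (nat_lit 257) (nat_lit 250)))))) (XT.nd (nat_lit 546) (nat_lit 3496) (nat_lit 0) (XT.nd (nat_lit 234) (nat_lit 2584) (nat_lit 0) (XT.nd (nat_lit 78) (nat_lit 2280) (nat_lit 0) (XT.lf (nat_lit 0) (nat_lit 285699495) (nat_lit 988) (nat_lit 957993748) (nat_lit 1064) (nat_lit 5862322957) (nat_lit 232) (nat_lit 5) (nat_lit 245) (nat_lit 5) (nat_lit 246) (nat_lit 5) (nat_lit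 274) (nat_lit 257) (nat_lit 249)) (XT.nd (nat_lit 78) (nat_lit 1216) (nat_lit 0) (XT.lf (nat_lit 0) (nat_lit 530976905) (nat_lit 1064) (nat_lit 5260952122) (nat_lit 1140) (nat_lit 1421246206) (nat_lit 218) (nat_lit 5) (nat_lit 232) (nat_lit 5) (nat_lit 233) (nat_lit 5) (nat_lit 275) (nat_lit 257) (nat_lit 248)) (XT.lf (nat_lit 0) (nat_lit 829534111) (nat_lit 1140) (nat_lit 2215513017) (nat_lit 1216) (nat_lit 4283994838) (nat_lit 202) (nat_lit 5) (nat_lit 217) (nat_lit 5) (nat_lit 218) (nat_lit 5) (nat_lit 276) (nat_lit 257) (nat_lit 247)))) (XT.nd (nat_lit 156) (nat_lit 1140) (nat_lit 0) (XT.nd (nat_lit 78) (nat_lit 608) (nat_lit 0) (XT.lf (nat_lit 0) (nat_lit 125685363) (nat_lit 836) (nat_lit 6263306951) (nat_lit 76) (nat_lit 1065200104) (nat_lit 191) (nat_lit 5) (nat_lit 202) (nat_lit 5) (nat_lit 192) (nat_lit 5) (nat_lit 277) (nat_lit 257) (nat_lit 246)) (XT.lf (nat_lit 0) (nat_lit 1569670597)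 (nat_lit 608) (nat_lit 2995817986) (nat_lit 684) (nat_lit 3022136410) (nat_lit 183) (nat_lit 5) (nat_lit 191) (nat_lit 5) (nat_lit 192) (nat_lit 5) (nat_lit 278) (nat_lit 257) (nat_lit 245))) (XT.nd (nat_lit 78) (nat_lit 532) (nat_lit 0) (XT.lf (nat_lit 0) (nat_lit 1359185629) (nat_lit 608) (nat_lit 5724648036) (nat_lit 76) (nat_lit 647022085) (nat_lit 175) (nat_lit 5) (nat_lit 183) (nat_lit 5) (nat_lit 176) (nat_lit 5) (nat_lit 279) (nat_lit 257) (nat_lit 244)) (XT.lf (nat_lit 0) (nat_lit 2453707298) (nat_lit 532) (nat_lit 3365966278) (nat_lit 608) (nat_lit 2063213811) (nat_lit 168) (nat_lit 5) (nat_lit 175) (nat_lit 5) (nat_lit 176) (nat_lit 5) (nat_lit 280) (nat_lit 257) (nat_lit 243))))) (XT.nd (nat_lit 234) (nat_lit 1824) (nat_lit 0) (XT.nd (nat_lit 78) (nat_lit 1064) (nat_lit 0) (XT.lf (nat_lit 0) (nat_lit 2317419849) (nat_lit 608) (nat_lit 5106746525) (nat_lit 76) (nat_lit 620700367)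 (nat_lit 160) (nat_lit 5) (nat_lit 168) (nat_lit 5) (nat_lit 161) (nat_lit 5) (nat_lit 281) (nat_lit 257) (nat_lit 242)) (XT.nd (nat_lit 78) (nat_lit 532) (nat_lit 0) (XT.lf (nat_lit 0) (nat_lit 3427341442) (nat_lit 532) (nat_lit 3388559331) (nat_lit 608) (nat_lit 1400376271) (nat_lit 153) (nat_lit 5) (nat_lit 160) (nat_lit 5) (nat_lit 161) (nat_lit 5) (nat_lit 282) (nat_lit 257) (nat_lit 241)) (XT.lf (nat_lit 0) (nat_lit 3004318619) (nat_lit 532) (nat_lit 4466777210) (nat_lit 76) (nat_lit 926752682) (nat_lit 146) (nat_lit 5) (nat_lit 153) (nat_lit 5) (nat_lit 147) (nat_lit 5) (nat_lit 283) (nat_lit 257) (nat_lit 240)))) (XT.nd (nat_lit 156) (nat_lit 912) (nat_lit 0) (XT.nd (nat_lit 78) (nat_lit 456) (nat_lit 0) (XT.lf (nat_lit 0) (nat_lit 4432798581) (nat_lit 456) (nat_lit 3123152689) (nat_lit 532) (nat_lit 1033628163) (nat_lit 140) (nat_lit 5) (nat_lit 146) (nat_lit 5) (nat_lit 147) (nat_lit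 5) (nat_lit 284) (nat_lit 257) (nat_lit 239)) (XT.lf (nat_lit 0) (nat_lit 3417067167) (nat_lit 456) (nat_lit 3866547600) (nat_lit 76) (nat_lit 1508155462) (nat_lit 134) (nat_lit 5) (nat_lit 140) (nat_lit 5) (nat_lit 135) (nat_lit 5) (nat_lit 285) (nat_lit 257) (nat_lit 238))) (XT.nd (nat_lit 78) (nat_lit 456) (nat_lit 0) (XT.lf (nat_lit 0) (nat_lit 5407116601) (nat_lit 456) (nat_lit 2627664266) (nat_lit 532) (nat_lit 970153734) (nat_lit 128) (nat_lit 5) (nat_lit 134) (nat_lit 5) (nat_lit 135) (nat_lit 5) (nat_lit 286) (nat_lit 257) (nat_lit 237)) (XT.lf (nat_lit 0) (nat_lit 3545706988) (nat_lit 456) (nat_lit 3374312843) (nat_lit 76) (nat_lit 2308947286) (nat_lit 122) (nat_lit 5) (nat_lit 128) (nat_lit 5) (nat_lit 123) (nat_lit 5) (nat_lit 287) (nat_lit 257) (nat_lit 236))))))) (XT.nd (nat_lit 1092) (nat_lit 2280) (nat_lit 0) (XT.nd (nat_lit 546) (nat_lit 1900) (nat_lit 0) (XT.nd (nat_lit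 234) (nat_lit 1368) (nat_lit 0) (XT.nd (nat_lit 78) (nat_lit 836) (nat_lit 0) (XT.lf (nat_lit 0) (nat_lit 6280242783) (nat_lit 380) (nat_lit 1959810484) (nat_lit 456) (nat_lit 1224806462) (nat_lit 117) (nat_lit 5) (nat_lit 122) (nat_lit 5) (nat_lit 123) (nat_lit 5) (nat_lit 288) (nat_lit 257) (nat_lit 235)) (XT.nd (nat_lit 78) (nat_lit 380) (nat_lit 0) (XT.lf (nat_lit 0) (nat_lit 3372569867) (nat_lit 456) (nat_lit 3066804999) (nat_lit 76) (nat_lit 3272791393) (nat_lit 111) (nat_lit 5) (nat_lit 117) (nat_lit 5) (nat_lit 112) (nat_lit 5) (nat_lit 289) (nat_lit 257) (nat_lit 234)) (XT.lf (nat_lit 0) (nat_lit 6972897204) (nat_lit 380) (nat_lit 1178601835) (nat_lit 456) (nat_lit 1820778722) (nat_lit 106) (nat_lit 5) (nat_lit 111) (nat_lit 5) (nat_lit 112) (nat_lit 5) (nat_lit 290) (nat_lit 257) (nat_lit 233)))) (XT.nd (nat_lit 156) (nat_lit 684) (nat_lit 0) (XT.nd (nat_lit 78) (nat_lit 304) (nat_lit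 0) (XT.lf (nat_lit 0) (nat_lit 2871526864) (nat_lit 380) (nat_lit 3031526723) (nat_lit 76) (nat_lit 4341465219) (nat_lit 101) (nat_lit 5) (nat_lit 106) (nat_lit 5) (nat_lit 102) (nat_lit 5) (nat_lit 291) (nat_lit 257) (nat_lit 232)) (XT.lf (nat_lit 0) (nat_lit 7394149404) (nat_lit 304) (nat_lit 345931621) (nat_lit 380) (nat_lit 2790471657) (nat_lit 97) (nat_lit 5) (nat_lit 101) (nat_lit 5) (nat_lit 102) (nat_lit 5) (nat_lit 292) (nat_lit 257) (nat_lit 231))) (XT.nd (nat_lit 78) (nat_lit 304) (nat_lit 0) (XT.lf (nat_lit 0) (nat_lit 2007030474) (nat_lit 380) (nat_lit 3369366419) (nat_lit 76) (nat_lit 5453242348) (nat_lit 92) (nat_lit 5) (nat_lit 97) (nat_lit 5) (nat_lit 93) (nat_lit 5) (nat_lit 293) (nat_lit 257) (nat_lit 230)) (XT.lf (nat_lit 0) (nat_lit 6971476694) (nat_lit 380) (nat_lit 3709418850) (nat_lit 76) (nat_lit 462500651) (nat_lit 88) (nat_lit 5) (nat_lit 93) (nat_lit 5) (nat_lit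 89) (nat_lit 5) (nat_lit 294) (nat_lit 257) (nat_lit 229))))) (XT.nd (nat_lit 234) (nat_lit 1064) (nat_lit 0) (XT.nd (nat_lit 78) (nat_lit 532) (nat_lit 0) (XT.lf (nat_lit 0) (nat_lit 732923251) (nat_lit 304) (nat_lit 4197600392) (nat_lit 76) (nat_lit 6541128921) (nat_lit 84) (nat_lit 5) (nat_lit 88) (nat_lit 5) (nat_lit 85) (nat_lit 5) (nat_lit 295) (nat_lit 257) (nat_lit 228)) (XT.nd (nat_lit 78) (nat_lit 228) (nat_lit 0) (XT.lf (nat_lit 0) (nat_lit 5793655977) (nat_lit 380) (nat_lit 4843715380) (nat_lit 76) (nat_lit 1177881103) (nat_lit 80) (nat_lit 5) (nat_lit 85) (nat_lit 5) (nat_lit 81) (nat_lit 5) (nat_lit 296) (nat_lit 257) (nat_lit 227)) (XT.lf (nat_lit 0) (nat_lit 6511703762) (nat_lit 228) (nat_lit 4634148959) (nat_lit 304) (nat_lit 1029100884) (nat_lit 77) (nat_lit 5) (nat_lit 80) (nat_lit 5) (nat_lit 81) (nat_lit 5) (nat_lit 297) (nat_lit 257) (nat_lit 226)))) (XT.nd (nat_lit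 156) (nat_lit 532) (nat_lit 0) (XT.nd (nat_lit 78) (nat_lit 228) (nat_lit 0) (XT.lf (nat_lit 0) (nat_lit 4139836418) (nat_lit 304) (nat_lit 6684416202) (nat_lit 76) (nat_lit 1726969893) (nat_lit 73) (nat_lit 5) (nat_lit 77) (nat_lit 5) (nat_lit 74) (nat_lit 5) (nat_lit 298) (nat_lit 257) (nat_lit 225)) (XT.lf (nat_lit 0) (nat_lit 5014892293) (nat_lit 228) (nat_lit 4573551395) (nat_lit 304) (nat_lit 3356345541) (nat_lit 70) (nat_lit 5) (nat_lit 73) (nat_lit 5) (nat_lit 74) (nat_lit 5) (nat_lit 299) (nat_lit 257) (nat_lit 224))) (XT.nd (nat_lit 78) (nat_lit 228) (nat_lit 0) (XT.lf (nat_lit 0) (nat_lit 1931854259) (nat_lit 304) (nat_lit 9406101582) (nat_lit 76) (nat_lit 2019021392) (nat_lit 66) (nat_lit 5) (nat_lit 70) (nat_lit 5) (nat_lit 67) (nat_lit 5) (nat_lit 300) (nat_lit 257) (nat_lit 223)) (XT.lf (nat_lit 0) (nat_lit 2606636487) (nat_lit 228) (nat_lit 4856777095) (nat_lit 304) (nat_lit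 6323970646) (nat_lit 63) (nat_lit 5) (nat_lit 66) (nat_lit 5) (nat_lit 67) (nat_lit 5) (nat_lit 301) (nat_lit 257) (nat_lit 222)))))) (XT.nd (nat_lit 546) (nat_lit 912) (nat_lit 0) (XT.nd (nat_lit 234) (nat_lit 912) (nat_lit 0) (XT.nd (nat_lit 78) (nat_lit 228) (nat_lit 0) (XT.lf (nat_lit 0) (nat_lit 1015079714) (nat_lit 228) (nat_lit 12279707859) (nat_lit 304) (nat_lit 943881608) (nat_lit 60) (nat_lit 5) (nat_lit 63) (nat_lit 5) (nat_lit 64) (nat_lit 5) (nat_lit 302) (nat_lit 257) (nat_lit 221)) (XT.nd (nat_lit 78) (nat_lit 152) (nat_lit 0) (XT.lf (nat_lit 0) (nat_lit 4677941553) (nat_lit 304) (nat_lit 912635400) (nat_lit 76) (nat_lit 9118698772) (nat_lit 59) (nat_lit 5) (nat_lit 63) (nat_lit 5) (nat_lit 60) (nat_lit 5) (nat_lit 303) (nat_lit 257) (nat_lit 220)) (XT.lf (nat_lit 0) (nat_lit 10596227090) (nat_lit 228) (nat_lit 3131636359) (nat_lit 76) (nat_lit 1474270200) (nat_lit 57) (nat_lit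 5) (nat_lit 60) (nat_lit 5) (nat_lit 58) (nat_lit 5) (nat_lit 304) (nat_lit 257) (nat_lit 219)))) (XT.nd (nat_lit 156) (nat_lit 456) (nat_lit 0) (XT.nd (nat_lit 78) (nat_lit 152) (nat_lit 0) (XT.lf (nat_lit 0) (nat_lit 1138723210) (nat_lit 304) (nat_lit 5740518382) (nat_lit 76) (nat_lit 8838046380) (nat_lit 53) (nat_lit 5) (nat_lit 57) (nat_lit 5) (nat_lit 54) (nat_lit 5) (nat_lit 305) (nat_lit 257) (nat_lit 218)) (XT.lf (nat_lit 0) (nat_lit 7093511317) (nat_lit 228) (nat_lit 8762168118) (nat_lit 76) (nat_lit 400649388) (nat_lit 51) (nat_lit 5) (nat_lit 54) (nat_lit 5) (nat_lit 52) (nat_lit 5) (nat_lit 306) (nat_lit 257) (nat_lit 217))) (XT.nd (nat_lit 78) (nat_lit 228) (nat_lit 0) (XT.lf (nat_lit 0) (nat_lit 4561025551) (nat_lit 228) (nat_lit 8869097539) (nat_lit 304) (nat_lit 3389716504) (nat_lit 48) (nat_lit 5) (nat_lit 51) (nat_lit 5) (nat_lit 52) (nat_lit 5) (nat_lit 307) (nat_lit 257)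 (nat_lit 216)) (XT.lf (nat_lit 0) (nat_lit 1175554831) (nat_lit 152) (nat_lit 1459825194) (nat_lit 228) (nat_lit 14774948231) (nat_lit 45) (nat_lit 5) (nat_lit 47) (nat_lit 5) (nat_lit 48) (nat_lit 5) (nat_lit 308) (nat_lit 257) (nat_lit 215))))) (XT.nd (nat_lit 234) (nat_lit 532) (nat_lit 0) (XT.nd (nat_lit 78) (nat_lit 380) (nat_lit 0) (XT.lf (nat_lit 0) (nat_lit 8995792885) (nat_lit 228) (nat_lit 2728262514) (nat_lit 76) (nat_lit 6302189706) (nat_lit 45) (nat_lit 5) (nat_lit 48) (nat_lit 5) (nat_lit 46) (nat_lit 5) (nat_lit 309) (nat_lit 257) (nat_lit 214)) (XT.nd (nat_lit 78) (nat_lit 228) (nat_lit 0) (XT.lf (nat_lit 0) (nat_lit 11527294067) (nat_lit 152) (nat_lit 4191826848) (nat_lit 228) (nat_lit 2952523931) (nat_lit 43) (nat_lit 5) (nat_lit 45) (nat_lit 5) (nat_lit 46) (nat_lit 5) (nat_lit 310) (nat_lit 257) (nat_lit 213)) (XT.lf (nat_lit 0) (nat_lit 3417336670) (nat_lit 228) (nat_lit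 12207493881) (nat_lit 76) (nat_lit 3721877802) (nat_lit 40) (nat_lit 5) (nat_lit 43) (nat_lit 5) (nat_lit 41) (nat_lit 5) (nat_lit 311) (nat_lit 257) (nat_lit 212)))) (XT.nd (nat_lit 156) (nat_lit 380) (nat_lit 0) (XT.nd (nat_lit 78) (nat_lit 0) (nat_lit 0) (XT.lf (nat_lit 0) (nat_lit 2068327658) (nat_lit 152) (nat_lit 8036430802) (nat_lit 228) (nat_lit 9948115504) (nat_lit 38) (nat_lit 5) (nat_lit 40) (nat_lit 5) (nat_lit 41) (nat_lit 5) (nat_lit 312) (nat_lit 257) (nat_lit 211)) (XT.lf (nat_lit 0) (nat_lit 17177810948) (nat_lit 228) (nat_lit 3608209107) (nat_lit 76) (nat_lit 6818431) (nat_lit 38) (nat_lit 5) (nat_lit 41) (nat_lit 5) (nat_lit 39) (nat_lit 4) (nat_lit 313) (nat_lit 257) (nat_lit 210))) (XT.nd (nat_lit 78) (nat_lit 152) (nat_lit 0) (XT.lf (nat_lit 0) (nat_lit 3096962577) (nat_lit 228) (nat_lit 10090110515) (nat_lit 76) (nat_lit 8378235295) (nat_lit 35) (nat_lit 5) (nat_lit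 38) (nat_lit 5) (nat_lit 36) (nat_lit 5) (nat_lit 314) (nat_lit 257) (nat_lit 209)) (XT.lf (nat_lit 0) (nat_lit 4950885781) (nat_lit 152) (nat_lit 5134813602) (nat_lit 228) (nat_lit 12289176311) (nat_lit 33) (nat_lit 5) (nat_lit 35) (nat_lit 5) (nat_lit 36) (nat_lit 5) (nat_lit 315) (nat_lit 257) (nat_lit 208))))))))
noncomputable def xc45 : XT := (XT.nd (nat_lit 2184) (nat_lit 456) (nat_lit 0) (XT.nd (nat_lit 1092) (nat_lit 532) (nat_lit 0) (XT.nd (nat_lit 546) (nat_lit 532) (nat_lit 0) (XT.nd (nat_lit 234) (nat_lit 304) (nat_lit 0) (XT.nd (nat_lit 78) (nat_lit 304) (nat_lit 0) (XT.lf (nat_lit 0) (nat_lit 17492504019) (nat_lit 228) (nat_lit 2419798404) (nat_lit 76) (nat_lit 3310583850) (nat_lit 33) (nat_lit 5) (nat_lit 36) (nat_lit 5) (nat_lit 34) (nat_lit 4) (nat_lit 316) (nat_lit 257) (nat_lit 207)) (XT.nd (nat_lit 78) (nat_lit 152) (nat_lit 0) (XT.lf (nat_lit 0) (nat_lit 1250910510) (nat_lit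 152) (nat_lit 10691375659) (nat_lit 76) (nat_lit 12167186075) (nat_lit 31) (nat_lit 5) (nat_lit 33) (nat_lit 5) (nat_lit 32) (nat_lit 5) (nat_lit 317) (nat_lit 257) (nat_lit 206)) (XT.lf (nat_lit 0) (nat_lit 4985876803) (nat_lit 152) (nat_lit 3487511786) (nat_lit 228) (nat_lit 16564998807) (nat_lit 29) (nat_lit 5) (nat_lit 31) (nat_lit 5) (nat_lit 32) (nat_lit 5) (nat_lit 318) (nat_lit 257) (nat_lit 205)))) (XT.nd (nat_lit 156) (nat_lit 228) (nat_lit 0) (XT.nd (nat_lit 78) (nat_lit 76) (nat_lit 0) (XT.lf (nat_lit 0) (nat_lit 16157922953) (nat_lit 228) (nat_lit 4503279019) (nat_lit 76) (nat_lit 5349538353) (nat_lit 29) (nat_lit 5) (nat_lit 32) (nat_lit 5) (nat_lit 30) (nat_lit 4) (nat_lit 319) (nat_lit 257) (nat_lit 204)) (XT.lf (nat_lit 0) (nat_lit 11915644325) (nat_lit 76) (nat_lit 12401706593) (nat_lit 152) (nat_lit 2711659014) (nat_lit 28) (nat_lit 5) (nat_lit 29) (nat_lit 5) (nat_lit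 30) (nat_lit 4) (nat_lit 320) (nat_lit 257) (nat_lit 203))) (XT.nd (nat_lit 78) (nat_lit 0) (nat_lit 0) (XT.lf (nat_lit 0) (nat_lit 1023067428) (nat_lit 152) (nat_lit 3668910907) (nat_lit 228) (nat_lit 23404887225) (nat_lit 25) (nat_lit 5) (nat_lit 27) (nat_lit 5) (nat_lit 28) (nat_lit 5) (nat_lit 321) (nat_lit 257) (nat_lit 202)) (XT.lf (nat_lit 0) (nat_lit 12563768928) (nat_lit 228) (nat_lit 11114639763) (nat_lit 76) (nat_lit 5534295022) (nat_lit 25) (nat_lit 5) (nat_lit 28) (nat_lit 5) (nat_lit 26) (nat_lit 4) (nat_lit 322) (nat_lit 257) (nat_lit 201))))) (XT.nd (nat_lit 234) (nat_lit 228) (nat_lit 0) (XT.nd (nat_lit 78) (nat_lit 228) (nat_lit 0) (XT.lf (nat_lit 0) (nat_lit 5618359813) (nat_lit 76) (nat_lit 15248053999) (nat_lit 152) (nat_lit 9516817985) (nat_lit 24) (nat_lit 5) (nat_lit 25) (nat_lit 5) (nat_lit 26) (nat_lit 4) (nat_lit 323) (nat_lit 257) (nat_lit 200)) (XT.nd (nat_lit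 78) (nat_lit 228) (nat_lit 0) (XT.lf (nat_lit 0) (nat_lit 23326325167) (nat_lit 76) (nat_lit 6320165193) (nat_lit 152) (nat_lit 1963942151) (nat_lit 24) (nat_lit 5) (nat_lit 25) (nat_lit 5) (nat_lit 26) (nat_lit 4) (nat_lit 324) (nat_lit 257) (nat_lit 199)) (XT.lf (nat_lit 0) (nat_lit 5917396293) (nat_lit 228) (nat_lit 23877137965) (nat_lit 76) (nat_lit 3100734982) (nat_lit 21) (nat_lit 5) (nat_lit 24) (nat_lit 5) (nat_lit 22) (nat_lit 4) (nat_lit 325) (nat_lit 257) (nat_lit 198)))) (XT.nd (nat_lit 156) (nat_lit 152) (nat_lit 0) (XT.nd (nat_lit 78) (nat_lit 76) (nat_lit 0) (XT.lf (nat_lit 0) (nat_lit 14253499874) (nat_lit 228) (nat_lit 7056637570) (nat_lit 76) (nat_lit 12930600938) (nat_lit 21) (nat_lit 5) (nat_lit 24) (nat_lit 5) (nat_lit 22) (nat_lit 4) (nat_lit 326) (nat_lit 257) (nat_lit 197)) (XT.lf (nat_lit 0) (nat_lit 10729511098) (nat_lit 76) (nat_lit 12333393409) (nat_lit 152) (nat_lit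 12588894350) (nat_lit 20) (nat_lit 5) (nat_lit 21) (nat_lit 5) (nat_lit 22) (nat_lit 4) (nat_lit 327) (nat_lit 257) (nat_lit 196))) (XT.nd (nat_lit 78) (nat_lit 152) (nat_lit 0) (XT.lf (nat_lit 0) (nat_lit 29470111306) (nat_lit 76) (nat_lit 2870096957) (nat_lit 152) (nat_lit 4792393372) (nat_lit 20) (nat_lit 5) (nat_lit 21) (nat_lit 5) (nat_lit 22) (nat_lit 4) (nat_lit 328) (nat_lit 257) (nat_lit 195)) (XT.lf (nat_lit 0) (nat_lit 3454571838) (nat_lit 152) (nat_lit 28199298187) (nat_lit 76) (nat_lit 7028801011) (nat_lit 18) (nat_lit 5) (nat_lit 20) (nat_lit 5) (nat_lit 19) (nat_lit 4) (nat_lit 329) (nat_lit 257) (nat_lit 194)))))) (XT.nd (nat_lit 546) (nat_lit 228) (nat_lit 0) (XT.nd (nat_lit 234) (nat_lit 228) (nat_lit 0) (XT.nd (nat_lit 78) (nat_lit 76) (nat_lit 0) (XT.lf (nat_lit 0) (nat_lit 12081819342) (nat_lit 152) (nat_lit 10767289427) (nat_lit 76) (nat_lit 17457710909) (nat_lit 18)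 (nat_lit 5) (nat_lit 20) (nat_lit 5) (nat_lit 19) (nat_lit 4) (nat_lit 330) (nat_lit 257) (nat_lit 193)) (XT.nd (nat_lit 78) (nat_lit 0) (nat_lit 0) (XT.lf (nat_lit 0) (nat_lit 7610597337) (nat_lit 76) (nat_lit 13562512070) (nat_lit 152) (nat_lit 20838096124) (nat_lit 17) (nat_lit 5) (nat_lit 18) (nat_lit 5) (nat_lit 19) (nat_lit 4) (nat_lit 331) (nat_lit 257) (nat_lit 192)) (XT.lf (nat_lit 0) (nat_lit 27060278383) (nat_lit 76) (nat_lit 3730282193) (nat_lit 152) (nat_lit 13008111905) (nat_lit 17) (nat_lit 5) (nat_lit 18) (nat_lit 5) (nat_lit 19) (nat_lit 4) (nat_lit 332) (nat_lit 257) (nat_lit 191)))) (XT.nd (nat_lit 156) (nat_lit 76) (nat_lit 0) (XT.nd (nat_lit 78) (nat_lit 76) (nat_lit 0) (XT.lf (nat_lit 0) (nat_lit 1707365418) (nat_lit 76) (nat_lit 39223637183) (nat_lit 76) (nat_lit 4743255867) (nat_lit 16) (nat_lit 4) (nat_lit 17) (nat_lit 5) (nat_lit 17) (nat_lit 4) (nat_lit 333) (nat_lit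 257) (nat_lit 190)) (XT.lf (nat_lit 0) (nat_lit 4032823211) (nat_lit 152) (nat_lit 26358690714) (nat_lit 76) (nat_lit 17245740756) (nat_lit 15) (nat_lit 5) (nat_lit 17) (nat_lit 5) (nat_lit 16) (nat_lit 4) (nat_lit 334) (nat_lit 257) (nat_lit 189))) (XT.nd (nat_lit 78) (nat_lit 76) (nat_lit 0) (XT.lf (nat_lit 0) (nat_lit 13115377049) (nat_lit 152) (nat_lit 7982954533) (nat_lit 76) (nat_lit 28599695310) (nat_lit 15) (nat_lit 5) (nat_lit 17) (nat_lit 5) (nat_lit 16) (nat_lit 4) (nat_lit 335) (nat_lit 257) (nat_lit 188)) (XT.lf (nat_lit 0) (nat_lit 11473552658) (nat_lit 76) (nat_lit 11255326929) (nat_lit 152) (nat_lit 29130661245) (nat_lit 14) (nat_lit 5) (nat_lit 15) (nat_lit 5) (nat_lit 16) (nat_lit 4) (nat_lit 336) (nat_lit 257) (nat_lit 187))))) (XT.nd (nat_lit 234) (nat_lit 152) (nat_lit 0) (XT.nd (nat_lit 78) (nat_lit 76) (nat_lit 0) (XT.lf (nat_lit 0) (nat_lit 32009573871) (nat_lit 76)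 (nat_lit 863206836) (nat_lit 152) (nat_lit 21254865440) (nat_lit 14) (nat_lit 5) (nat_lit 15) (nat_lit 5) (nat_lit 16) (nat_lit 4) (nat_lit 337) (nat_lit 257) (nat_lit 186)) (XT.nd (nat_lit 78) (nat_lit 76) (nat_lit 0) (XT.lf (nat_lit 0) (nat_lit 43589307422) (nat_lit 152) (nat_lit 3091302199) (nat_lit 0) (nat_lit 9826591219) (nat_lit 14) (nat_lit 5) (nat_lit 16) (nat_lit 4) (nat_lit 14) (nat_lit 4) (nat_lit 338) (nat_lit 257) (nat_lit 185)) (XT.lf (nat_lit 0) (nat_lit 17157712987) (nat_lit 76) (nat_lit 37827912403) (nat_lit 76) (nat_lit 4015795623) (nat_lit 13) (nat_lit 4) (nat_lit 14) (nat_lit 5) (nat_lit 14) (nat_lit 4) (nat_lit 339) (nat_lit 257) (nat_lit 184)))) (XT.nd (nat_lit 156) (nat_lit 76) (nat_lit 0) (XT.nd (nat_lit 78) (nat_lit 0) (nat_lit 0) (XT.lf (nat_lit 0) (nat_lit 5230438064) (nat_lit 152) (nat_lit 23241375676) (nat_lit 76) (nat_lit 33146915203) (nat_lit 12) (nat_lit 5)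 (nat_lit 14) (nat_lit 5) (nat_lit 13) (nat_lit 4) (nat_lit 340) (nat_lit 257) (nat_lit 183)) (XT.lf (nat_lit 0) (nat_lit 14829015676) (nat_lit 152) (nat_lit 3801070904) (nat_lit 76) (nat_lit 45736436223) (nat_lit 12) (nat_lit 5) (nat_lit 14) (nat_lit 5) (nat_lit 13) (nat_lit 4) (nat_lit 341) (nat_lit 257) (nat_lit 182))) (XT.nd (nat_lit 78) (nat_lit 0) (nat_lit 0) (XT.lf (nat_lit 0) (nat_lit 16891713180) (nat_lit 76) (nat_lit 8151813904) (nat_lit 152) (nat_lit 42204104737) (nat_lit 11) (nat_lit 5) (nat_lit 12) (nat_lit 5) (nat_lit 13) (nat_lit 4) (nat_lit 342) (nat_lit 257) (nat_lit 181)) (XT.lf (nat_lit 0) (nat_lit 35809894655) (nat_lit 152) (nat_lit 31649146156) (nat_lit 0) (nat_lit 2812526908) (nat_lit 11) (nat_lit 5) (nat_lit 13) (nat_lit 4) (nat_lit 11) (nat_lit 4) (nat_lit 343) (nat_lit 257) (nat_lit 180))))))) (XT.nd (nat_lit 1092) (nat_lit 152) (nat_lit 0) (XT.nd (nat_lit 546) (nat_lit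 76) (nat_lit 0) (XT.nd (nat_lit 234) (nat_lit 152) (nat_lit 0) (XT.nd (nat_lit 78) (nat_lit 76) (nat_lit 0) (XT.lf (nat_lit 0) (nat_lit 47172301679) (nat_lit 152) (nat_lit 12135317527) (nat_lit 0) (nat_lit 14137354666) (nat_lit 11) (nat_lit 5) (nat_lit 13) (nat_lit 4) (nat_lit 11) (nat_lit 4) (nat_lit 344) (nat_lit 257) (nat_lit 179)) (XT.nd (nat_lit 78) (nat_lit 0) (nat_lit 0) (XT.lf (nat_lit 0) (nat_lit 8475781998) (nat_lit 76) (nat_lit 50685133688) (nat_lit 76) (nat_lit 17614396898) (nat_lit 10) (nat_lit 4) (nat_lit 11) (nat_lit 5) (nat_lit 11) (nat_lit 4) (nat_lit 345) (nat_lit 257) (nat_lit 178)) (XT.lf (nat_lit 0) (nat_lit 30328471283) (nat_lit 76) (nat_lit 41522728341) (nat_lit 76) (nat_lit 8417906049) (nat_lit 10) (nat_lit 4) (nat_lit 11) (nat_lit 5) (nat_lit 11) (nat_lit 4) (nat_lit 346) (nat_lit 257) (nat_lit 177)))) (XT.nd (nat_lit 156) (nat_lit 76) (nat_lit 0) (XT.nd (nat_lit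 78) (nat_lit 0) (nat_lit 0) (XT.lf (nat_lit 0) (nat_lit 1192422305) (nat_lit 152) (nat_lit 30716667395) (nat_lit 76) (nat_lit 52028800493) (nat_lit 9) (nat_lit 5) (nat_lit 11) (nat_lit 5) (nat_lit 10) (nat_lit 4) (nat_lit 347) (nat_lit 257) (nat_lit 176)) (XT.lf (nat_lit 0) (nat_lit 11090008123) (nat_lit 152) (nat_lit 10655484741) (nat_lit 76) (nat_lit 66042699686) (nat_lit 9) (nat_lit 5) (nat_lit 11) (nat_lit 5) (nat_lit 10) (nat_lit 4) (nat_lit 348) (nat_lit 257) (nat_lit 175))) (XT.nd (nat_lit 78) (nat_lit 0) (nat_lit 0) (XT.lf (nat_lit 0) (nat_lit 10578011457) (nat_lit 76) (nat_lit 10986351610) (nat_lit 152) (nat_lit 70264194137) (nat_lit 8) (nat_lit 5) (nat_lit 9) (nat_lit 5) (nat_lit 10) (nat_lit 4) (nat_lit 349) (nat_lit 257) (nat_lit 174)) (XT.lf (nat_lit 0) (nat_lit 32656838295) (nat_lit 152) (nat_lit 63012384430) (nat_lit 0) (nat_lit 398888978) (nat_lit 8) (nat_lit 5) (nat_lit 10)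 (nat_lit 4) (nat_lit 8) (nat_lit 4) (nat_lit 350) (nat_lit 257) (nat_lit 173))))) (XT.nd (nat_lit 234) (nat_lit 76) (nat_lit 0) (XT.nd (nat_lit 78) (nat_lit 0) (nat_lit 0) (XT.lf (nat_lit 0) (nat_lit 44396387677) (nat_lit 152) (nat_lit 44007976904) (nat_lit 0) (nat_lit 12112509347) (nat_lit 8) (nat_lit 5) (nat_lit 10) (nat_lit 4) (nat_lit 8) (nat_lit 4) (nat_lit 351) (nat_lit 257) (nat_lit 172)) (XT.nd (nat_lit 78) (nat_lit 0) (nat_lit 0) (XT.lf (nat_lit 0) (nat_lit 56705354988) (nat_lit 152) (nat_lit 24086467049) (nat_lit 0) (nat_lit 24396782360) (nat_lit 8) (nat_lit 5) (nat_lit 10) (nat_lit 4) (nat_lit 8) (nat_lit 4) (nat_lit 352) (nat_lit 257) (nat_lit 171)) (XT.lf (nat_lit 0) (nat_lit 69613047293) (nat_lit 152) (nat_lit 3200422698) (nat_lit 0) (nat_lit 37280956286) (nat_lit 8) (nat_lit 5) (nat_lit 10) (nat_lit 4) (nat_lit 8) (nat_lit 4) (nat_lit 353) (nat_lit 257) (nat_lit 170)))) (XT.nd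 (nat_lit 156) (nat_lit 0) (nat_lit 0) (XT.nd (nat_lit 78) (nat_lit 0) (nat_lit 0) (XT.lf (nat_lit 0) (nat_lit 19072049200) (nat_lit 76) (nat_lit 64261480197) (nat_lit 76) (nat_lit 31906990734) (nat_lit 7) (nat_lit 4) (nat_lit 8) (nat_lit 5) (nat_lit 8) (nat_lit 4) (nat_lit 354) (nat_lit 257) (nat_lit 169)) (XT.lf (nat_lit 0) (nat_lit 42495846134) (nat_lit 76) (nat_lit 55261685933) (nat_lit 76) (nat_lit 22885864608) (nat_lit 7) (nat_lit 4) (nat_lit 8) (nat_lit 5) (nat_lit 8) (nat_lit 4) (nat_lit 355) (nat_lit 257) (nat_lit 168))) (XT.nd (nat_lit 78) (nat_lit 0) (nat_lit 0) (XT.lf (nat_lit 0) (nat_lit 67063044361) (nat_lit 76) (nat_lit 45824977113) (nat_lit 76) (nat_lit 13428839727) (nat_lit 7) (nat_lit 4) (nat_lit 8) (nat_lit 5) (nat_lit 8) (nat_lit 4) (nat_lit 356) (nat_lit 257) (nat_lit 167)) (XT.lf (nat_lit 0) (nat_lit 92832137210) (nat_lit 76) (nat_lit 35928885380) (nat_lit 76) (nat_lit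 3513399366) (nat_lit 7) (nat_lit 4) (nat_lit 8) (nat_lit 5) (nat_lit 8) (nat_lit 4) (nat_lit 357) (nat_lit 257) (nat_lit 166)))))) (XT.nd (nat_lit 546) (nat_lit 0) (nat_lit 0) (XT.nd (nat_lit 234) (nat_lit 0) (nat_lit 0) (XT.nd (nat_lit 78) (nat_lit 76) (nat_lit 0) (XT.lf (nat_lit 0) (nat_lit 6749731768) (nat_lit 152) (nat_lit 18731957788) (nat_lit 76) (nat_lit 113046588840) (nat_lit 6) (nat_lit 5) (nat_lit 8) (nat_lit 5) (nat_lit 7) (nat_lit 4) (nat_lit 358) (nat_lit 257) (nat_lit 165)) (XT.nd (nat_lit 78) (nat_lit 0) (nat_lit 0) (XT.lf (nat_lit 0) (nat_lit 3012954918) (nat_lit 76) (nat_lit 14457201719) (nat_lit 152) (nat_lit 127623125757) (nat_lit 5) (nat_lit 5) (nat_lit 6) (nat_lit 5) (nat_lit 7) (nat_lit 4) (nat_lit 359) (nat_lit 257) (nat_lit 164)) (XT.lf (nat_lit 0) (nat_lit 26212988956) (nat_lit 76) (nat_lit 2693989410) (nat_lit 152) (nat_lit 123074149155) (nat_lit 5) (nat_lit 5) (nat_lit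 6) (nat_lit 5) (nat_lit 7) (nat_lit 4) (nat_lit 360) (nat_lit 257) (nat_lit 163)))) (XT.nd (nat_lit 156) (nat_lit 0) (nat_lit 0) (XT.nd (nat_lit 78) (nat_lit 0) (nat_lit 0) (XT.lf (nat_lit 0) (nat_lit 40996511773) (nat_lit 152) (nat_lit 108755873930) (nat_lit 0) (nat_lit 9458555178) (nat_lit 5) (nat_lit 5) (nat_lit 7) (nat_lit 4) (nat_lit 5) (nat_lit 4) (nat_lit 361) (nat_lit 257) (nat_lit 162)) (XT.lf (nat_lit 0) (nat_lit 53706320473) (nat_lit 152) (nat_lit 90941807191) (nat_lit 0) (nat_lit 22153645280) (nat_lit 5) (nat_lit 5) (nat_lit 7) (nat_lit 4) (nat_lit 5) (nat_lit 4) (nat_lit 362) (nat_lit 257) (nat_lit 161))) (XT.nd (nat_lit 78) (nat_lit 0) (nat_lit 0) (XT.lf (nat_lit 0) (nat_lit 67040769643) (nat_lit 152) (nat_lit 72257627631) (nat_lit 0) (nat_lit 35474076736) (nat_lit 5) (nat_lit 5) (nat_lit 7) (nat_lit 4) (nat_lit 5) (nat_lit 4) (nat_lit 363) (nat_lit 257) (nat_lit 160)) (XT.lf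 (nat_lit 0) (nat_lit 81031607969) (nat_lit 152) (nat_lit 52658849107) (nat_lit 0) (nat_lit 49451564860) (nat_lit 5) (nat_lit 5) (nat_lit 7) (nat_lit 4) (nat_lit 5) (nat_lit 4) (nat_lit 364) (nat_lit 257) (nat_lit 159))))) (XT.nd (nat_lit 32994) (nat_lit 0) (nat_lit 21660) (XT.nd (nat_lit 32838) (nat_lit 0) (nat_lit 23408) (XT.nd (nat_lit 32760) (nat_lit 0) (nat_lit 24244) (XT.lf (nat_lit 0) (nat_lit 95712146973) (nat_lit 152) (nat_lit 32098807861) (nat_lit 0) (nat_lit 64119389385) (nat_lit 5) (nat_lit 5) (nat_lit 7) (nat_lit 4) (nat_lit 5) (nat_lit 4) (nat_lit 365) (nat_lit 257) (nat_lit 158)) (XT.lf (nat_lit 0) (nat_lit 1025640880) (nat_lit 228) (nat_lit 1109671773) (nat_lit 228) (nat_lit 1109671773) (nat_lit 324) (nat_lit 4) (nat_lit 327) (nat_lit 5) (nat_lit 327) (nat_lit 4) (nat_lit 264) (nat_lit 258) (nat_lit 258))) (XT.nd (nat_lit 78) (nat_lit 456) (nat_lit 0) (XT.lf (nat_lit 0) (nat_lit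 1351354342) (nat_lit 304) (nat_lit 1394855812) (nat_lit 380) (nat_lit 3772029944) (nat_lit 319) (nat_lit 5) (nat_lit 323) (nat_lit 5) (nat_lit 324) (nat_lit 4) (nat_lit 265) (nat_lit 258) (nat_lit 257)) (XT.lf (nat_lit 0) (nat_lit 759507088) (nat_lit 380) (nat_lit 334126281) (nat_lit 456) (nat_lit 5461149005) (nat_lit 313) (nat_lit 5) (nat_lit 318) (nat_lit 5) (nat_lit 319) (nat_lit 5) (nat_lit 266) (nat_lit 258) (nat_lit 256)))) (XT.nd (nat_lit 156) (nat_lit 1216) (nat_lit 0) (XT.nd (nat_lit 78) (nat_lit 76) (nat_lit 0) (XT.lf (nat_lit 0) (nat_lit 256494153) (nat_lit 456) (nat_lit 5645640075) (nat_lit 532) (nat_lit 697059437) (nat_lit 307) (nat_lit 5) (nat_lit 313) (nat_lit 5) (nat_lit 314) (nat_lit 4) (nat_lit 267) (nat_lit 258) (nat_lit 255)) (XT.lf (nat_lit 0) (nat_lit 4006611111) (nat_lit 532) (nat_lit 158707930) (nat_lit 76) (nat_lit 2486155737) (nat_lit 306) (nat_lit 5) (nat_lit 313)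 (nat_lit 5) (nat_lit 307) (nat_lit 5) (nat_lit 268) (nat_lit 258) (nat_lit 254))) (XT.nd (nat_lit 78) (nat_lit 608) (nat_lit 0) (XT.lf (nat_lit 0) (nat_lit 1974325789) (nat_lit 608) (nat_lit 474225608) (nat_lit 76) (nat_lit 4263602552) (nat_lit 298) (nat_lit 5) (nat_lit 306) (nat_lit 5) (nat_lit 299) (nat_lit 5) (nat_lit 269) (nat_lit 258) (nat_lit 253)) (XT.lf (nat_lit 0) (nat_lit 6082152445) (nat_lit 608) (nat_lit 491171904) (nat_lit 684) (nat_lit 208049037) (nat_lit 290) (nat_lit 5) (nat_lit 298) (nat_lit 5) (nat_lit 299) (nat_lit 5) (nat_lit 270) (nat_lit 258) (nat_lit 252))))))))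
noncomputable def xc46 : XT := (XT.nd (nat_lit 2184) (nat_lit 4180) (nat_lit 0) (XT.nd (nat_lit 1092) (nat_lit 4864) (nat_lit 0) (XT.nd (nat_lit 546) (nat_lit 4636) (nat_lit 0) (XT.nd (nat_lit 234) (nat_lit 4332) (nat_lit 0) (XT.nd (nat_lit 78) (nat_lit 1672) (nat_lit 0) (XT.lf (nat_lit 0) (nat_lit 4289320790) (nat_lit 760) (nat_lit 871164732) (nat_lit 76) (nat_lit 1697729422) (nat_lit 280) (nat_lit 5) (nat_lit 290) (nat_lit 5) (nat_lit 281) (nat_lit 5) (nat_lit 271) (nat_lit 258) (nat_lit 251)) (XT.nd (nat_lit 78) (nat_lit 836) (nat_lit 0) (XT.lf (nat_lit 0) (nat_lit 1857142554) (nat_lit 836) (nat_lit 963062196) (nat_lit 76) (nat_lit 4123503601) (nat_lit 269) (nat_lit 5) (nat_lit 280) (nat_lit 5) (nat_lit 270) (nat_lit 5) (nat_lit 272) (nat_lit 258) (nat_lit 250)) (XT.lf (nat_lit 0) (nat_lit 6058775635) (nat_lit 836) (nat_lit 228496081) (nat_lit 912) (nat_lit 750688487) (nat_lit 258) (nat_lit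 5) (nat_lit 269) (nat_lit 5) (nat_lit 270) (nat_lit 5) (nat_lit 273) (nat_lit 258) (nat_lit 249)))) (XT.nd (nat_lit 156) (nat_lit 2280) (nat_lit 0) (XT.nd (nat_lit 78) (nat_lit 1064) (nat_lit 0) (XT.lf (nat_lit 0) (nat_lit 3597651046) (nat_lit 988) (nat_lit 959154884) (nat_lit 76) (nat_lit 2583226496) (nat_lit 245) (nat_lit 5) (nat_lit 258) (nat_lit 5) (nat_lit 246) (nat_lit 5) (nat_lit 274) (nat_lit 258) (nat_lit 248)) (XT.lf (nat_lit 0) (nat_lit 739773040) (nat_lit 1064) (nat_lit 865755000) (nat_lit 76) (nat_lit 5645781112) (nat_lit 231) (nat_lit 5) (nat_lit 245) (nat_lit 5) (nat_lit 232) (nat_lit 5) (nat_lit 275) (nat_lit 258) (nat_lit 247))) (XT.nd (nat_lit 78) (nat_lit 1216) (nat_lit 0) (XT.lf (nat_lit 0) (nat_lit 5043160134) (nat_lit 1140) (nat_lit 736520897) (nat_lit 76) (nat_lit 1591269022) (nat_lit 217) (nat_lit 5) (nat_lit 232) (nat_lit 5) (nat_lit 218) (nat_lit 5) (nat_lit 276)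 (nat_lit 258) (nat_lit 246)) (XT.lf (nat_lit 0) (nat_lit 1914121423) (nat_lit 1216) (nat_lit 562016742) (nat_lit 76) (nat_lit 5023405239) (nat_lit 201) (nat_lit 5) (nat_lit 217) (nat_lit 5) (nat_lit 202) (nat_lit 5) (nat_lit 277) (nat_lit 258) (nat_lit 245))))) (XT.nd (nat_lit 234) (nat_lit 2128) (nat_lit 0) (XT.nd (nat_lit 78) (nat_lit 1748) (nat_lit 0) (XT.lf (nat_lit 0) (nat_lit 6213021250) (nat_lit 836) (nat_lit 345531735) (nat_lit 76) (nat_lit 1078763560) (nat_lit 191) (nat_lit 5) (nat_lit 202) (nat_lit 5) (nat_lit 192) (nat_lit 5) (nat_lit 278) (nat_lit 258) (nat_lit 244)) (XT.nd (nat_lit 78) (nat_lit 1064) (nat_lit 0) (XT.lf (nat_lit 0) (nat_lit 2802932343) (nat_lit 684) (nat_lit 111696967) (nat_lit 76) (nat_lit 4869249566) (nat_lit 182) (nat_lit 5) (nat_lit 191) (nat_lit 5) (nat_lit 183) (nat_lit 5) (nat_lit 279) (nat_lit 258) (nat_lit 243)) (XT.lf (nat_lit 0) (nat_lit 165993663)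 (nat_lit 532) (nat_lit 6956014944) (nat_lit 608) (nat_lit 818244175) (nat_lit 168) (nat_lit 5) (nat_lit 175) (nat_lit 5) (nat_lit 176) (nat_lit 5) (nat_lit 280) (nat_lit 258) (nat_lit 242)))) (XT.nd (nat_lit 156) (nat_lit 988) (nat_lit 0) (XT.nd (nat_lit 78) (nat_lit 532) (nat_lit 0) (XT.lf (nat_lit 0) (nat_lit 441551448) (nat_lit 532) (nat_lit 2978534248) (nat_lit 608) (nat_lit 4685420105) (nat_lit 160) (nat_lit 5) (nat_lit 167) (nat_lit 5) (nat_lit 168) (nat_lit 5) (nat_lit 281) (nat_lit 258) (nat_lit 241)) (XT.lf (nat_lit 0) (nat_lit 749811639) (nat_lit 532) (nat_lit 7029706299) (nat_lit 608) (nat_lit 501657615) (nat_lit 153) (nat_lit 5) (nat_lit 160) (nat_lit 5) (nat_lit 161) (nat_lit 5) (nat_lit 282) (nat_lit 258) (nat_lit 240))) (XT.nd (nat_lit 78) (nat_lit 456) (nat_lit 0) (XT.lf (nat_lit 0) (nat_lit 1037051734) (nat_lit 456) (nat_lit 2729014121) (nat_lit 532) (nat_lit 4700086377)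 (nat_lit 146) (nat_lit 5) (nat_lit 152) (nat_lit 5) (nat_lit 153) (nat_lit 5) (nat_lit 283) (nat_lit 258) (nat_lit 239)) (XT.lf (nat_lit 0) (nat_lit 1341135604) (nat_lit 456) (nat_lit 6841074379) (nat_lit 532) (nat_lit 479815312) (nat_lit 140) (nat_lit 5) (nat_lit 146) (nat_lit 5) (nat_lit 147) (nat_lit 5) (nat_lit 284) (nat_lit 258) (nat_lit 238)))))) (XT.nd (nat_lit 546) (nat_lit 1900) (nat_lit 0) (XT.nd (nat_lit 234) (nat_lit 1596) (nat_lit 0) (XT.nd (nat_lit 78) (nat_lit 912) (nat_lit 0) (XT.lf (nat_lit 0) (nat_lit 1611941918) (nat_lit 380) (nat_lit 2223880102) (nat_lit 456) (nat_lit 5032033542) (nat_lit 134) (nat_lit 5) (nat_lit 139) (nat_lit 5) (nat_lit 140) (nat_lit 5) (nat_lit 285) (nat_lit 258) (nat_lit 237)) (XT.nd (nat_lit 78) (nat_lit 456) (nat_lit 0) (XT.lf (nat_lit 0) (nat_lit 1876660759) (nat_lit 456) (nat_lit 6446740133) (nat_lit 532) (nat_lit 761591320) (nat_lit 128) (nat_lit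 5) (nat_lit 134) (nat_lit 5) (nat_lit 135) (nat_lit 5) (nat_lit 286) (nat_lit 258) (nat_lit 236)) (XT.lf (nat_lit 0) (nat_lit 2099309555) (nat_lit 380) (nat_lit 1519021158) (nat_lit 456) (nat_lit 5694653029) (nat_lit 122) (nat_lit 5) (nat_lit 127) (nat_lit 5) (nat_lit 128) (nat_lit 5) (nat_lit 287) (nat_lit 258) (nat_lit 235)))) (XT.nd (nat_lit 156) (nat_lit 760) (nat_lit 0) (XT.nd (nat_lit 78) (nat_lit 456) (nat_lit 0) (XT.lf (nat_lit 0) (nat_lit 2285796947) (nat_lit 380) (nat_lit 5903393899) (nat_lit 456) (nat_lit 1363450179) (nat_lit 117) (nat_lit 5) (nat_lit 122) (nat_lit 5) (nat_lit 123) (nat_lit 5) (nat_lit 288) (nat_lit 258) (nat_lit 234)) (XT.lf (nat_lit 0) (nat_lit 2423962368) (nat_lit 380) (nat_lit 670970051) (nat_lit 456) (nat_lit 6709361651) (nat_lit 111) (nat_lit 5) (nat_lit 116) (nat_lit 5) (nat_lit 117) (nat_lit 5) (nat_lit 289) (nat_lit 258) (nat_lit 233))) (XT.nd (nat_lit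 78) (nat_lit 380) (nat_lit 0) (XT.lf (nat_lit 0) (nat_lit 2488542319) (nat_lit 380) (nat_lit 5269265311) (nat_lit 456) (nat_lit 2310132475) (nat_lit 106) (nat_lit 5) (nat_lit 111) (nat_lit 5) (nat_lit 112) (nat_lit 5) (nat_lit 290) (nat_lit 258) (nat_lit 232)) (XT.lf (nat_lit 0) (nat_lit 2241094994) (nat_lit 380) (nat_lit 7847318995) (nat_lit 76) (nat_lit 256476020) (nat_lit 101) (nat_lit 5) (nat_lit 106) (nat_lit 5) (nat_lit 102) (nat_lit 5) (nat_lit 291) (nat_lit 258) (nat_lit 231))))) (XT.nd (nat_lit 234) (nat_lit 912) (nat_lit 0) (XT.nd (nat_lit 78) (nat_lit 684) (nat_lit 0) (XT.lf (nat_lit 0) (nat_lit 2393068201) (nat_lit 304) (nat_lit 4605689878) (nat_lit 380) (nat_lit 3635539136) (nat_lit 97) (nat_lit 5) (nat_lit 101) (nat_lit 5) (nat_lit 102) (nat_lit 5) (nat_lit 292) (nat_lit 258) (nat_lit 230)) (XT.nd (nat_lit 78) (nat_lit 304) (nat_lit 0) (XT.lf (nat_lit 0) (nat_lit 1024576169)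 (nat_lit 380) (nat_lit 8721294150) (nat_lit 76) (nat_lit 1192416553) (nat_lit 92) (nat_lit 5) (nat_lit 97) (nat_lit 5) (nat_lit 93) (nat_lit 5) (nat_lit 293) (nat_lit 258) (nat_lit 229)) (XT.lf (nat_lit 0) (nat_lit 1892954731) (nat_lit 304) (nat_lit 3978808643) (nat_lit 380) (nat_lit 5383839254) (nat_lit 88) (nat_lit 5) (nat_lit 92) (nat_lit 5) (nat_lit 93) (nat_lit 5) (nat_lit 294) (nat_lit 258) (nat_lit 228)))) (XT.nd (nat_lit 156) (nat_lit 304) (nat_lit 0) (XT.nd (nat_lit 78) (nat_lit 380) (nat_lit 0) (XT.lf (nat_lit 0) (nat_lit 1468427847) (nat_lit 228) (nat_lit 9499479039) (nat_lit 304) (nat_lit 620759490) (nat_lit 85) (nat_lit 5) (nat_lit 88) (nat_lit 5) (nat_lit 89) (nat_lit 5) (nat_lit 295) (nat_lit 258) (nat_lit 227)) (XT.lf (nat_lit 0) (nat_lit 864007702) (nat_lit 304) (nat_lit 3461441243) (nat_lit 380) (nat_lit 7610831601) (nat_lit 80) (nat_lit 5) (nat_lit 84) (nat_lit 5) (nat_lit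 85) (nat_lit 5) (nat_lit 296) (nat_lit 258) (nat_lit 226))) (XT.nd (nat_lit 78) (nat_lit 76) (nat_lit 0) (XT.lf (nat_lit 0) (nat_lit 109120832) (nat_lit 228) (nat_lit 9419085386) (nat_lit 304) (nat_lit 2772293070) (nat_lit 77) (nat_lit 5) (nat_lit 80) (nat_lit 5) (nat_lit 81) (nat_lit 5) (nat_lit 297) (nat_lit 258) (nat_lit 225)) (XT.lf (nat_lit 0) (nat_lit 2303822875) (nat_lit 304) (nat_lit 823043564) (nat_lit 76) (nat_lit 9554241396) (nat_lit 76) (nat_lit 5) (nat_lit 80) (nat_lit 5) (nat_lit 77) (nat_lit 5) (nat_lit 298) (nat_lit 258) (nat_lit 224))))))) (XT.nd (nat_lit 1092) (nat_lit 1444) (nat_lit 0) (XT.nd (nat_lit 546) (nat_lit 1064) (nat_lit 0) (XT.nd (nat_lit 234) (nat_lit 912) (nat_lit 0) (XT.nd (nat_lit 78) (nat_lit 532) (nat_lit 0) (XT.lf (nat_lit 0) (nat_lit 7614195786) (nat_lit 304) (nat_lit 1969271620) (nat_lit 76) (nat_lit 3495384481) (nat_lit 73) (nat_lit 5) (nat_lit 77) (nat_lit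 5) (nat_lit 74) (nat_lit 5) (nat_lit 299) (nat_lit 258) (nat_lit 223)) (XT.nd (nat_lit 78) (nat_lit 304) (nat_lit 0) (XT.lf (nat_lit 0) (nat_lit 10170263254) (nat_lit 228) (nat_lit 3056527504) (nat_lit 304) (nat_lit 268650448) (nat_lit 70) (nat_lit 5) (nat_lit 73) (nat_lit 5) (nat_lit 74) (nat_lit 5) (nat_lit 300) (nat_lit 258) (nat_lit 222)) (XT.lf (nat_lit 0) (nat_lit 5131573940) (nat_lit 304) (nat_lit 4971410437) (nat_lit 76) (nat_lit 3827065303) (nat_lit 66) (nat_lit 5) (nat_lit 70) (nat_lit 5) (nat_lit 67) (nat_lit 5) (nat_lit 301) (nat_lit 258) (nat_lit 221)))) (XT.nd (nat_lit 156) (nat_lit 380) (nat_lit 0) (XT.nd (nat_lit 78) (nat_lit 304) (nat_lit 0) (XT.lf (nat_lit 0) (nat_lit 7501363803) (nat_lit 228) (nat_lit 3336377760) (nat_lit 304) (nat_lit 3547374677) (nat_lit 63) (nat_lit 5) (nat_lit 66) (nat_lit 5) (nat_lit 67) (nat_lit 5) (nat_lit 302) (nat_lit 258) (nat_lit 220)) (XT.lf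 (nat_lit 0) (nat_lit 1978236906) (nat_lit 304) (nat_lit 9114678130) (nat_lit 76) (nat_lit 3767992493) (nat_lit 59) (nat_lit 5) (nat_lit 63) (nat_lit 5) (nat_lit 60) (nat_lit 5) (nat_lit 303) (nat_lit 258) (nat_lit 219))) (XT.nd (nat_lit 78) (nat_lit 228) (nat_lit 0) (XT.lf (nat_lit 0) (nat_lit 3646764807) (nat_lit 152) (nat_lit 4109626986) (nat_lit 228) (nat_lit 7601599961) (nat_lit 57) (nat_lit 5) (nat_lit 59) (nat_lit 5) (nat_lit 60) (nat_lit 5) (nat_lit 304) (nat_lit 258) (nat_lit 218)) (XT.lf (nat_lit 0) (nat_lit 1205901065) (nat_lit 228) (nat_lit 12665980434) (nat_lit 304) (nat_lit 2006639577) (nat_lit 54) (nat_lit 5) (nat_lit 57) (nat_lit 5) (nat_lit 58) (nat_lit 5) (nat_lit 305) (nat_lit 258) (nat_lit 217))))) (XT.nd (nat_lit 234) (nat_lit 608) (nat_lit 0) (XT.nd (nat_lit 78) (nat_lit 380) (nat_lit 0) (XT.lf (nat_lit 0) (nat_lit 3868901251) (nat_lit 304) (nat_lit 1630659591) (nat_lit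 76) (nat_lit 10922151586) (nat_lit 53) (nat_lit 5) (nat_lit 57) (nat_lit 5) (nat_lit 54) (nat_lit 5) (nat_lit 306) (nat_lit 258) (nat_lit 216)) (XT.nd (nat_lit 78) (nat_lit 228) (nat_lit 0) (XT.lf (nat_lit 0) (nat_lit 10051371742) (nat_lit 228) (nat_lit 4866820360) (nat_lit 76) (nat_lit 2071674107) (nat_lit 51) (nat_lit 5) (nat_lit 54) (nat_lit 5) (nat_lit 52) (nat_lit 5) (nat_lit 307) (nat_lit 258) (nat_lit 215)) (XT.lf (nat_lit 0) (nat_lit 8998315341) (nat_lit 228) (nat_lit 7622999354) (nat_lit 304) (nat_lit 962799163) (nat_lit 48) (nat_lit 5) (nat_lit 51) (nat_lit 5) (nat_lit 52) (nat_lit 5) (nat_lit 308) (nat_lit 258) (nat_lit 214)))) (XT.nd (nat_lit 156) (nat_lit 228) (nat_lit 0) (XT.nd (nat_lit 78) (nat_lit 152) (nat_lit 0) (XT.lf (nat_lit 0) (nat_lit 5232809150) (nat_lit 228) (nat_lit 12834046119) (nat_lit 76) (nat_lit 138977384) (nat_lit 45) (nat_lit 5) (nat_lit 48) (nat_lit 5) (nat_lit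 46) (nat_lit 5) (nat_lit 309) (nat_lit 258) (nat_lit 213)) (XT.lf (nat_lit 0) (nat_lit 1155716171) (nat_lit 152) (nat_lit 10663256277) (nat_lit 228) (nat_lit 7036390631) (nat_lit 43) (nat_lit 5) (nat_lit 45) (nat_lit 5) (nat_lit 46) (nat_lit 5) (nat_lit 310) (nat_lit 258) (nat_lit 212))) (XT.nd (nat_lit 78) (nat_lit 228) (nat_lit 0) (XT.lf (nat_lit 0) (nat_lit 15986901127) (nat_lit 152) (nat_lit 2805294857) (nat_lit 228) (nat_lit 743472216) (nat_lit 43) (nat_lit 5) (nat_lit 45) (nat_lit 5) (nat_lit 46) (nat_lit 5) (nat_lit 311) (nat_lit 258) (nat_lit 211)) (XT.lf (nat_lit 0) (nat_lit 5840746548) (nat_lit 228) (nat_lit 8947572594) (nat_lit 76) (nat_lit 5457274258) (nat_lit 40) (nat_lit 5) (nat_lit 43) (nat_lit 5) (nat_lit 41) (nat_lit 5) (nat_lit 312) (nat_lit 258) (nat_lit 210)))))) (XT.nd (nat_lit 546) (nat_lit 608) (nat_lit 0) (XT.nd (nat_lit 234) (nat_lit 456) (nat_lit 0) (XT.nd (nat_lit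 78) (nat_lit 228) (nat_lit 0) (XT.lf (nat_lit 0) (nat_lit 5931098765) (nat_lit 152) (nat_lit 6860313926) (nat_lit 228) (nat_lit 8197830025) (nat_lit 38) (nat_lit 5) (nat_lit 40) (nat_lit 5) (nat_lit 41) (nat_lit 5) (nat_lit 313) (nat_lit 258) (nat_lit 209)) (XT.nd (nat_lit 78) (nat_lit 228) (nat_lit 0) (XT.lf (nat_lit 0) (nat_lit 20128686654) (nat_lit 228) (nat_lit 159608552) (nat_lit 76) (nat_lit 1480632833) (nat_lit 38) (nat_lit 5) (nat_lit 41) (nat_lit 5) (nat_lit 39) (nat_lit 4) (nat_lit 314) (nat_lit 258) (nat_lit 208)) (XT.lf (nat_lit 0) (nat_lit 5298864069) (nat_lit 228) (nat_lit 7028156456) (nat_lit 76) (nat_lit 10254408610) (nat_lit 35) (nat_lit 5) (nat_lit 38) (nat_lit 5) (nat_lit 36) (nat_lit 5) (nat_lit 315) (nat_lit 258) (nat_lit 207)))) (XT.nd (nat_lit 156) (nat_lit 228) (nat_lit 0) (XT.nd (nat_lit 78) (nat_lit 76) (nat_lit 0) (XT.lf (nat_lit 0) (nat_lit 8662657807) (nat_lit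 152) (nat_lit 3910201453) (nat_lit 228) (nat_lit 10860575810) (nat_lit 33) (nat_lit 5) (nat_lit 35) (nat_lit 5) (nat_lit 36) (nat_lit 5) (nat_lit 316) (nat_lit 258) (nat_lit 206)) (XT.lf (nat_lit 0) (nat_lit 818199093) (nat_lit 76) (nat_lit 19458809040) (nat_lit 152) (nat_lit 4049061169) (nat_lit 32) (nat_lit 5) (nat_lit 33) (nat_lit 5) (nat_lit 34) (nat_lit 4) (nat_lit 317) (nat_lit 258) (nat_lit 205))) (XT.nd (nat_lit 78) (nat_lit 152) (nat_lit 0) (XT.lf (nat_lit 0) (nat_lit 3174976862) (nat_lit 152) (nat_lit 7941087349) (nat_lit 76) (nat_lit 14142421211) (nat_lit 31) (nat_lit 5) (nat_lit 33) (nat_lit 5) (nat_lit 32) (nat_lit 5) (nat_lit 318) (nat_lit 258) (nat_lit 204)) (XT.lf (nat_lit 0) (nat_lit 8425867967) (nat_lit 152) (nat_lit 2274737963) (nat_lit 228) (nat_lit 15535008865) (nat_lit 29) (nat_lit 5) (nat_lit 31) (nat_lit 5) (nat_lit 32) (nat_lit 5) (nat_lit 319) (nat_lit 258) (nat_lit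 203))))) (XT.nd (nat_lit 312) (nat_lit 304) (nat_lit 0) (XT.nd (nat_lit 156) (nat_lit 228) (nat_lit 0) (XT.nd (nat_lit 78) (nat_lit 76) (nat_lit 0) (XT.lf (nat_lit 0) (nat_lit 18696182949) (nat_lit 228) (nat_lit 1650295193) (nat_lit 76) (nat_lit 6912330634) (nat_lit 29) (nat_lit 5) (nat_lit 32) (nat_lit 5) (nat_lit 30) (nat_lit 4) (nat_lit 320) (nat_lit 258) (nat_lit 202)) (XT.lf (nat_lit 0) (nat_lit 15501339830) (nat_lit 76) (nat_lit 11708585079) (nat_lit 152) (nat_lit 1119703230) (nat_lit 28) (nat_lit 5) (nat_lit 29) (nat_lit 5) (nat_lit 30) (nat_lit 4) (nat_lit 321) (nat_lit 258) (nat_lit 201))) (XT.nd (nat_lit 78) (nat_lit 0) (nat_lit 0) (XT.lf (nat_lit 0) (nat_lit 4011673869) (nat_lit 152) (nat_lit 2556309723) (nat_lit 228) (nat_lit 22883991983) (nat_lit 25) (nat_lit 5) (nat_lit 27) (nat_lit 5) (nat_lit 28) (nat_lit 5) (nat_lit 322) (nat_lit 258) (nat_lit 200)) (XT.lf (nat_lit 0) (nat_lit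 14767066646) (nat_lit 228) (nat_lit 8837297523) (nat_lit 76) (nat_lit 7021253764) (nat_lit 25) (nat_lit 5) (nat_lit 28) (nat_lit 5) (nat_lit 26) (nat_lit 4) (nat_lit 323) (nat_lit 258) (nat_lit 199)))) (XT.nd (nat_lit 156) (nat_lit 228) (nat_lit 0) (XT.nd (nat_lit 78) (nat_lit 0) (nat_lit 0) (XT.lf (nat_lit 0) (nat_lit 8651142528) (nat_lit 76) (nat_lit 14785148650) (nat_lit 152) (nat_lit 8419860092) (nat_lit 24) (nat_lit 5) (nat_lit 25) (nat_lit 5) (nat_lit 26) (nat_lit 4) (nat_lit 324) (nat_lit 258) (nat_lit 198)) (XT.lf (nat_lit 0) (nat_lit 27113464972) (nat_lit 76) (nat_lit 5469213405) (nat_lit 152) (nat_lit 564235646) (nat_lit 24) (nat_lit 5) (nat_lit 25) (nat_lit 5) (nat_lit 26) (nat_lit 4) (nat_lit 325) (nat_lit 258) (nat_lit 197))) (XT.nd (nat_lit 78) (nat_lit 0) (nat_lit 0) (XT.lf (nat_lit 0) (nat_lit 7647815098) (nat_lit 228) (nat_lit 22464472394) (nat_lit 76) (nat_lit 4384316501)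 (nat_lit 21) (nat_lit 5) (nat_lit 24) (nat_lit 5) (nat_lit 22) (nat_lit 4) (nat_lit 326) (nat_lit 258) (nat_lit 196)) (XT.lf (nat_lit 0) (nat_lit 16332412001) (nat_lit 228) (nat_lit 4927067096) (nat_lit 76) (nat_lit 14651935527) (nat_lit 21) (nat_lit 5) (nat_lit 24) (nat_lit 5) (nat_lit 22) (nat_lit 4) (nat_lit 327) (nat_lit 258) (nat_lit 195))))))))
noncomputable def xc47 : XT := (XT.nd (nat_lit 2184) (nat_lit 152) (nat_lit 0) (XT.nd (nat_lit 1092) (nat_lit 380) (nat_lit 0) (XT.nd (nat_lit 546) (nat_lit 304) (nat_lit 0) (XT.nd (nat_lit 234) (nat_lit 152) (nat_lit 0) (XT.nd (nat_lit 78) (nat_lit 152) (nat_lit 0) (XT.lf (nat_lit 0) (nat_lit 13677231440) (nat_lit 76) (nat_lit 11863174875) (nat_lit 152) (nat_lit 11853896014) (nat_lit 20) (nat_lit 5) (nat_lit 21) (nat_lit 5) (nat_lit 22) (nat_lit 4) (nat_lit 328) (nat_lit 258) (nat_lit 194)) (XT.nd (nat_lit 78) (nat_lit 152) (nat_lit 0) (XT.lf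 (nat_lit 0) (nat_lit 33240040479) (nat_lit 76) (nat_lit 1978470182) (nat_lit 152) (nat_lit 3732543466) (nat_lit 20) (nat_lit 5) (nat_lit 21) (nat_lit 5) (nat_lit 22) (nat_lit 4) (nat_lit 329) (nat_lit 258) (nat_lit 193)) (XT.lf (nat_lit 0) (nat_lit 4872231311) (nat_lit 152) (nat_lit 27326158004) (nat_lit 76) (nat_lit 8380754049) (nat_lit 18) (nat_lit 5) (nat_lit 20) (nat_lit 5) (nat_lit 19) (nat_lit 4) (nat_lit 330) (nat_lit 258) (nat_lit 192)))) (XT.nd (nat_lit 156) (nat_lit 76) (nat_lit 0) (XT.nd (nat_lit 78) (nat_lit 76) (nat_lit 0) (XT.lf (nat_lit 0) (nat_lit 13871558767) (nat_lit 152) (nat_lit 9131268096) (nat_lit 76) (nat_lit 19283465966) (nat_lit 18) (nat_lit 5) (nat_lit 20) (nat_lit 5) (nat_lit 19) (nat_lit 4) (nat_lit 331) (nat_lit 258) (nat_lit 191)) (XT.lf (nat_lit 0) (nat_lit 10103184674) (nat_lit 76) (nat_lit 13278071599) (nat_lit 152) (nat_lit 20695740622) (nat_lit 17) (nat_lit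 5) (nat_lit 18) (nat_lit 5) (nat_lit 19) (nat_lit 4) (nat_lit 332) (nat_lit 258) (nat_lit 190))) (XT.nd (nat_lit 78) (nat_lit 76) (nat_lit 0) (XT.lf (nat_lit 0) (nat_lit 30424775607) (nat_lit 76) (nat_lit 3000066708) (nat_lit 152) (nat_lit 12530650541) (nat_lit 17) (nat_lit 5) (nat_lit 18) (nat_lit 5) (nat_lit 19) (nat_lit 4) (nat_lit 333) (nat_lit 258) (nat_lit 189)) (XT.lf (nat_lit 0) (nat_lit 3770162727) (nat_lit 76) (nat_lit 40277413382) (nat_lit 76) (nat_lit 3878036831) (nat_lit 16) (nat_lit 4) (nat_lit 17) (nat_lit 5) (nat_lit 17) (nat_lit 4) (nat_lit 334) (nat_lit 258) (nat_lit 188))))) (XT.nd (nat_lit 234) (nat_lit 152) (nat_lit 0) (XT.nd (nat_lit 78) (nat_lit 76) (nat_lit 0) (XT.lf (nat_lit 0) (nat_lit 5263864742) (nat_lit 152) (nat_lit 25772634086) (nat_lit 76) (nat_lit 18951498248) (nat_lit 15) (nat_lit 5) (nat_lit 17) (nat_lit 5) (nat_lit 16) (nat_lit 4) (nat_lit 335) (nat_lit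 258) (nat_lit 187)) (XT.nd (nat_lit 78) (nat_lit 76) (nat_lit 0) (XT.lf (nat_lit 0) (nat_lit 14751527207) (nat_lit 152) (nat_lit 6568777342) (nat_lit 76) (nat_lit 30832985270) (nat_lit 15) (nat_lit 5) (nat_lit 17) (nat_lit 5) (nat_lit 16) (nat_lit 4) (nat_lit 336) (nat_lit 258) (nat_lit 186)) (XT.lf (nat_lit 0) (nat_lit 13808576614) (nat_lit 76) (nat_lit 11007374573) (nat_lit 152) (nat_lit 29607831689) (nat_lit 14) (nat_lit 5) (nat_lit 15) (nat_lit 5) (nat_lit 16) (nat_lit 4) (nat_lit 337) (nat_lit 258) (nat_lit 185)))) (XT.nd (nat_lit 156) (nat_lit 152) (nat_lit 0) (XT.nd (nat_lit 78) (nat_lit 0) (nat_lit 0) (XT.lf (nat_lit 0) (nat_lit 35287525253) (nat_lit 76) (nat_lit 134254128) (nat_lit 152) (nat_lit 21384882409) (nat_lit 14) (nat_lit 5) (nat_lit 15) (nat_lit 5) (nat_lit 16) (nat_lit 4) (nat_lit 338) (nat_lit 258) (nat_lit 184)) (XT.lf (nat_lit 0) (nat_lit 46638088661) (nat_lit 152) (nat_lit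 1629279374) (nat_lit 0) (nat_lit 11038917298) (nat_lit 14) (nat_lit 5) (nat_lit 16) (nat_lit 4) (nat_lit 14) (nat_lit 4) (nat_lit 339) (nat_lit 258) (nat_lit 183))) (XT.nd (nat_lit 78) (nat_lit 76) (nat_lit 0) (XT.lf (nat_lit 0) (nat_lit 19585847402) (nat_lit 76) (nat_lit 38992073324) (nat_lit 76) (nat_lit 3348094181) (nat_lit 13) (nat_lit 4) (nat_lit 14) (nat_lit 5) (nat_lit 14) (nat_lit 4) (nat_lit 340) (nat_lit 258) (nat_lit 182)) (XT.lf (nat_lit 0) (nat_lit 6302954093) (nat_lit 152) (nat_lit 22891656409) (nat_lit 76) (nat_lit 35480552402) (nat_lit 12) (nat_lit 5) (nat_lit 14) (nat_lit 5) (nat_lit 13) (nat_lit 4) (nat_lit 341) (nat_lit 258) (nat_lit 181)))))) (XT.nd (nat_lit 546) (nat_lit 152) (nat_lit 0) (XT.nd (nat_lit 234) (nat_lit 152) (nat_lit 0) (XT.nd (nat_lit 78) (nat_lit 76) (nat_lit 0) (XT.lf (nat_lit 0) (nat_lit 16342841817) (nat_lit 152) (nat_lit 2551326305) (nat_lit 76) (nat_lit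 48667345119) (nat_lit 12) (nat_lit 5) (nat_lit 14) (nat_lit 5) (nat_lit 13) (nat_lit 4) (nat_lit 342) (nat_lit 258) (nat_lit 180)) (XT.nd (nat_lit 78) (nat_lit 0) (nat_lit 0) (XT.lf (nat_lit 0) (nat_lit 19134825458) (nat_lit 76) (nat_lit 7909917052) (nat_lit 152) (nat_lit 43542643119) (nat_lit 11) (nat_lit 5) (nat_lit 12) (nat_lit 5) (nat_lit 13) (nat_lit 4) (nat_lit 343) (nat_lit 258) (nat_lit 179)) (XT.lf (nat_lit 0) (nat_lit 38319705906) (nat_lit 152) (nat_lit 31884069053) (nat_lit 0) (nat_lit 3559642498) (nat_lit 11) (nat_lit 5) (nat_lit 13) (nat_lit 4) (nat_lit 11) (nat_lit 4) (nat_lit 344) (nat_lit 258) (nat_lit 178)))) (XT.nd (nat_lit 156) (nat_lit 76) (nat_lit 0) (XT.nd (nat_lit 78) (nat_lit 76) (nat_lit 0) (XT.lf (nat_lit 0) (nat_lit 50215980114) (nat_lit 152) (nat_lit 11458717298) (nat_lit 0) (nat_lit 15421831204) (nat_lit 11) (nat_lit 5) (nat_lit 13) (nat_lit 4) (nat_lit 11) (nat_lit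 4) (nat_lit 345) (nat_lit 258) (nat_lit 177)) (XT.lf (nat_lit 0) (nat_lit 10146149772) (nat_lit 76) (nat_lit 52637235862) (nat_lit 76) (nat_lit 17810624569) (nat_lit 10) (nat_lit 4) (nat_lit 11) (nat_lit 5) (nat_lit 11) (nat_lit 4) (nat_lit 346) (nat_lit 258) (nat_lit 176))) (XT.nd (nat_lit 78) (nat_lit 76) (nat_lit 0) (XT.lf (nat_lit 0) (nat_lit 33032112632) (nat_lit 76) (nat_lit 43044431891) (nat_lit 76) (nat_lit 8186904042) (nat_lit 10) (nat_lit 4) (nat_lit 11) (nat_lit 5) (nat_lit 11) (nat_lit 4) (nat_lit 347) (nat_lit 258) (nat_lit 175)) (XT.lf (nat_lit 0) (nat_lit 1860782891) (nat_lit 152) (nat_lit 31109582917) (nat_lit 76) (nat_lit 55146037576) (nat_lit 9) (nat_lit 5) (nat_lit 11) (nat_lit 5) (nat_lit 10) (nat_lit 4) (nat_lit 348) (nat_lit 258) (nat_lit 174))))) (XT.nd (nat_lit 234) (nat_lit 76) (nat_lit 0) (XT.nd (nat_lit 78) (nat_lit 76) (nat_lit 0) (XT.lf (nat_lit 0) (nat_lit 12224260405)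 (nat_lit 152) (nat_lit 10099765790) (nat_lit 76) (nat_lit 69836069964) (nat_lit 9) (nat_lit 5) (nat_lit 11) (nat_lit 5) (nat_lit 10) (nat_lit 4) (nat_lit 349) (nat_lit 258) (nat_lit 173)) (XT.nd (nat_lit 78) (nat_lit 0) (nat_lit 0) (XT.lf (nat_lit 0) (nat_lit 12164203780) (nat_lit 76) (nat_lit 11040685420) (nat_lit 152) (nat_lit 73198118566) (nat_lit 8) (nat_lit 5) (nat_lit 9) (nat_lit 5) (nat_lit 10) (nat_lit 4) (nat_lit 350) (nat_lit 258) (nat_lit 172)) (XT.lf (nat_lit 0) (nat_lit 34829743130) (nat_lit 152) (nat_lit 65144421783) (nat_lit 0) (nat_lit 881047573) (nat_lit 8) (nat_lit 5) (nat_lit 10) (nat_lit 4) (nat_lit 8) (nat_lit 4) (nat_lit 351) (nat_lit 258) (nat_lit 171)))) (XT.nd (nat_lit 156) (nat_lit 76) (nat_lit 0) (XT.nd (nat_lit 78) (nat_lit 0) (nat_lit 0) (XT.lf (nat_lit 0) (nat_lit 47130552699) (nat_lit 152) (nat_lit 45238297780) (nat_lit 0) (nat_lit 13158338763) (nat_lit 8) (nat_lit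 5) (nat_lit 10) (nat_lit 4) (nat_lit 8) (nat_lit 4) (nat_lit 352) (nat_lit 258) (nat_lit 170)) (XT.lf (nat_lit 0) (nat_lit 60030475726) (nat_lit 152) (nat_lit 24366906621) (nat_lit 0) (nat_lit 26035863334) (nat_lit 8) (nat_lit 5) (nat_lit 10) (nat_lit 4) (nat_lit 8) (nat_lit 4) (nat_lit 353) (nat_lit 258) (nat_lit 169))) (XT.nd (nat_lit 78) (nat_lit 76) (nat_lit 0) (XT.lf (nat_lit 0) (nat_lit 73560226314) (nat_lit 152) (nat_lit 2480554518) (nat_lit 0) (nat_lit 39544282059) (nat_lit 8) (nat_lit 5) (nat_lit 10) (nat_lit 4) (nat_lit 8) (nat_lit 4) (nat_lit 354) (nat_lit 258) (nat_lit 168)) (XT.lf (nat_lit 0) (nat_lit 20880319124) (nat_lit 76) (nat_lit 67072413431) (nat_lit 76) (nat_lit 33036153116) (nat_lit 7) (nat_lit 4) (nat_lit 8) (nat_lit 5) (nat_lit 8) (nat_lit 4) (nat_lit 355) (nat_lit 258) (nat_lit 167))))))) (XT.nd (nat_lit 33696) (nat_lit 0) (nat_lit 12312) (XT.nd (nat_lit 546) (nat_lit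 0) (nat_lit 0) (XT.nd (nat_lit 234) (nat_lit 152) (nat_lit 0) (XT.nd (nat_lit 78) (nat_lit 0) (nat_lit 0) (XT.lf (nat_lit 0) (nat_lit 45434607454) (nat_lit 76) (nat_lit 57641779015) (nat_lit 76) (nat_lit 23586170071) (nat_lit 7) (nat_lit 4) (nat_lit 8) (nat_lit 5) (nat_lit 8) (nat_lit 4) (nat_lit 356) (nat_lit 258) (nat_lit 166)) (XT.nd (nat_lit 78) (nat_lit 0) (nat_lit 0) (XT.lf (nat_lit 0) (nat_lit 71191405163) (nat_lit 76) (nat_lit 47751472430) (nat_lit 76) (nat_lit 13677436221) (nat_lit 7) (nat_lit 4) (nat_lit 8) (nat_lit 5) (nat_lit 8) (nat_lit 4) (nat_lit 357) (nat_lit 258) (nat_lit 165)) (XT.lf (nat_lit 0) (nat_lit 98212037960) (nat_lit 76) (nat_lit 37377945327) (nat_lit 76) (nat_lit 3286359342) (nat_lit 7) (nat_lit 4) (nat_lit 8) (nat_lit 5) (nat_lit 8) (nat_lit 4) (nat_lit 358) (nat_lit 258) (nat_lit 164)))) (XT.nd (nat_lit 156) (nat_lit 0) (nat_lit 0) (XT.nd (nat_lit 78) (nat_lit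 76) (nat_lit 0) (XT.lf (nat_lit 0) (nat_lit 7463267566) (nat_lit 152) (nat_lit 18957866897) (nat_lit 76) (nat_lit 119022208751) (nat_lit 6) (nat_lit 5) (nat_lit 8) (nat_lit 5) (nat_lit 7) (nat_lit 4) (nat_lit 359) (nat_lit 258) (nat_lit 163)) (XT.lf (nat_lit 0) (nat_lit 3853919693) (nat_lit 76) (nat_lit 14854522629) (nat_lit 152) (nat_lit 133628496449) (nat_lit 5) (nat_lit 5) (nat_lit 6) (nat_lit 5) (nat_lit 7) (nat_lit 4) (nat_lit 360) (nat_lit 258) (nat_lit 162))) (XT.nd (nat_lit 78) (nat_lit 0) (nat_lit 0) (XT.lf (nat_lit 0) (nat_lit 28181083194) (nat_lit 76) (nat_lit 2518651570) (nat_lit 152) (nat_lit 128869965569) (nat_lit 5) (nat_lit 5) (nat_lit 6) (nat_lit 5) (nat_lit 7) (nat_lit 4) (nat_lit 361) (nat_lit 258) (nat_lit 161)) (XT.lf (nat_lit 0) (nat_lit 43380039979) (nat_lit 152) (nat_lit 113560383735) (nat_lit 0) (nat_lit 10220994714) (nat_lit 5) (nat_lit 5) (nat_lit 7) (nat_lit 4)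 (nat_lit 5) (nat_lit 4) (nat_lit 362) (nat_lit 258) (nat_lit 160))))) (XT.nd (nat_lit 32838) (nat_lit 0) (nat_lit 23408) (XT.nd (nat_lit 78) (nat_lit 0) (nat_lit 0) (XT.lf (nat_lit 0) (nat_lit 56709448514) (nat_lit 152) (nat_lit 94885770035) (nat_lit 0) (nat_lit 23537053046) (nat_lit 5) (nat_lit 5) (nat_lit 7) (nat_lit 4) (nat_lit 5) (nat_lit 4) (nat_lit 363) (nat_lit 258) (nat_lit 159)) (XT.nd (nat_lit 32682) (nat_lit 0) (nat_lit 24700) (XT.lf (nat_lit 0) (nat_lit 70695486236) (nat_lit 152) (nat_lit 75296101855) (nat_lit 0) (nat_lit 37510376289) (nat_lit 5) (nat_lit 5) (nat_lit 7) (nat_lit 4) (nat_lit 5) (nat_lit 4) (nat_lit 364) (nat_lit 258) (nat_lit 158)) (XT.lf (nat_lit 0) (nat_lit 1950173804) (nat_lit 76) (nat_lit 638394853) (nat_lit 76) (nat_lit 638394853) (nat_lit 330) (nat_lit 4) (nat_lit 331) (nat_lit 5) (nat_lit 331) (nat_lit 4) (nat_lit 262) (nat_lit 259) (nat_lit 259)))) (XT.nd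 (nat_lit 156) (nat_lit 760) (nat_lit 0) (XT.nd (nat_lit 78) (nat_lit 304) (nat_lit 0) (XT.lf (nat_lit 0) (nat_lit 2862334097) (nat_lit 152) (nat_lit 797763306) (nat_lit 228) (nat_lit 2809811459) (nat_lit 327) (nat_lit 5) (nat_lit 329) (nat_lit 5) (nat_lit 330) (nat_lit 4) (nat_lit 263) (nat_lit 259) (nat_lit 258)) (XT.lf (nat_lit 0) (nat_lit 1937826783) (nat_lit 228) (nat_lit 83966681) (nat_lit 304) (nat_lit 4472315371) (nat_lit 323) (nat_lit 5) (nat_lit 326) (nat_lit 5) (nat_lit 327) (nat_lit 5) (nat_lit 264) (nat_lit 259) (nat_lit 257))) (XT.nd (nat_lit 78) (nat_lit 380) (nat_lit 0) (XT.lf (nat_lit 0) (nat_lit 265425186) (nat_lit 380) (nat_lit 5411280135) (nat_lit 76) (nat_lit 849622594) (nat_lit 318) (nat_lit 5) (nat_lit 323) (nat_lit 5) (nat_lit 319) (nat_lit 5) (nat_lit 265) (nat_lit 259) (nat_lit 256)) (XT.lf (nat_lit 0) (nat_lit 380096494) (nat_lit 380) (nat_lit 4534261595) (nat_lit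 456) (nat_lit 1651956738) (nat_lit 313) (nat_lit 5) (nat_lit 318) (nat_lit 5) (nat_lit 319) (nat_lit 5) (nat_lit 266) (nat_lit 259) (nat_lit 255)))))) (XT.nd (nat_lit 546) (nat_lit 6840) (nat_lit 0) (XT.nd (nat_lit 234) (nat_lit 3116) (nat_lit 0) (XT.nd (nat_lit 78) (nat_lit 1064) (nat_lit 0) (XT.lf (nat_lit 0) (nat_lit 2904262097) (nat_lit 456) (nat_lit 251575609) (nat_lit 76) (nat_lit 3458625882) (nat_lit 312) (nat_lit 5) (nat_lit 318) (nat_lit 5) (nat_lit 313) (nat_lit 5) (nat_lit 267) (nat_lit 259) (nat_lit 254)) (XT.nd (nat_lit 78) (nat_lit 532) (nat_lit 0) (XT.lf (nat_lit 0) (nat_lit 760810083) (nat_lit 532) (nat_lit 779316395) (nat_lit 76) (nat_lit 5130819877) (nat_lit 305) (nat_lit 5) (nat_lit 312) (nat_lit 5) (nat_lit 306) (nat_lit 5) (nat_lit 268) (nat_lit 259) (nat_lit 253)) (XT.lf (nat_lit 0) (nat_lit 5182037343) (nat_lit 608) (nat_lit 1230918539) (nat_lit 76) (nat_lit 322491804)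 (nat_lit 298) (nat_lit 5) (nat_lit 306) (nat_lit 5) (nat_lit 299) (nat_lit 5) (nat_lit 269) (nat_lit 259) (nat_lit 252)))) (XT.nd (nat_lit 156) (nat_lit 1672) (nat_lit 0) (XT.nd (nat_lit 78) (nat_lit 760) (nat_lit 0) (XT.lf (nat_lit 0) (nat_lit 2789120716) (nat_lit 684) (nat_lit 1616467494) (nat_lit 76) (nat_lit 2402275338) (nat_lit 289) (nat_lit 5) (nat_lit 298) (nat_lit 5) (nat_lit 290) (nat_lit 5) (nat_lit 270) (nat_lit 259) (nat_lit 251)) (XT.lf (nat_lit 0) (nat_lit 246034253) (nat_lit 760) (nat_lit 1915609970) (nat_lit 76) (nat_lit 4727372002) (nat_lit 279) (nat_lit 5) (nat_lit 289) (nat_lit 5) (nat_lit 280) (nat_lit 5) (nat_lit 271) (nat_lit 259) (nat_lit 250))) (XT.nd (nat_lit 78) (nat_lit 912) (nat_lit 0) (XT.lf (nat_lit 0) (nat_lit 4477714250) (nat_lit 836) (nat_lit 2157596553) (nat_lit 76) (nat_lit 342943106) (nat_lit 269) (nat_lit 5) (nat_lit 280) (nat_lit 5) (nat_lit 270) (nat_lit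 5) (nat_lit 272) (nat_lit 259) (nat_lit 249)) (XT.lf (nat_lit 0) (nat_lit 1677870102) (nat_lit 912) (nat_lit 2343923289) (nat_lit 76) (nat_lit 3053979020) (nat_lit 257) (nat_lit 5) (nat_lit 269) (nat_lit 5) (nat_lit 258) (nat_lit 5) (nat_lit 273) (nat_lit 259) (nat_lit 248))))) (XT.nd (nat_lit 312) (nat_lit 2584) (nat_lit 0) (XT.nd (nat_lit 156) (nat_lit 2280) (nat_lit 0) (XT.nd (nat_lit 78) (nat_lit 1064) (nat_lit 0) (XT.lf (nat_lit 0) (nat_lit 4716390924) (nat_lit 912) (nat_lit 1150919439) (nat_lit 988) (nat_lit 1314784657) (nat_lit 245) (nat_lit 5) (nat_lit 257) (nat_lit 5) (nat_lit 258) (nat_lit 5) (nat_lit 274) (nat_lit 259) (nat_lit 247)) (XT.lf (nat_lit 0) (nat_lit 2795582663) (nat_lit 1064) (nat_lit 2549198630) (nat_lit 76) (nat_lit 1951926469) (nat_lit 231) (nat_lit 5) (nat_lit 245) (nat_lit 5) (nat_lit 232) (nat_lit 5) (nat_lit 275) (nat_lit 259) (nat_lit 246))) (XT.nd (nat_lit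 78) (nat_lit 1216) (nat_lit 0) (XT.lf (nat_lit 0) (nat_lit 4842048679) (nat_lit 1064) (nat_lit 2126470771) (nat_lit 1140) (nat_lit 451865435) (nat_lit 217) (nat_lit 5) (nat_lit 231) (nat_lit 5) (nat_lit 232) (nat_lit 5) (nat_lit 276) (nat_lit 259) (nat_lit 245)) (XT.lf (nat_lit 0) (nat_lit 3619229880) (nat_lit 1216) (nat_lit 2581819624) (nat_lit 76) (nat_lit 1351527519) (nat_lit 201) (nat_lit 5) (nat_lit 217) (nat_lit 5) (nat_lit 202) (nat_lit 5) (nat_lit 277) (nat_lit 259) (nat_lit 244)))) (XT.nd (nat_lit 156) (nat_lit 1140) (nat_lit 0) (XT.nd (nat_lit 78) (nat_lit 608) (nat_lit 0) (XT.lf (nat_lit 0) (nat_lit 99779201) (nat_lit 836) (nat_lit 2543675984) (nat_lit 76) (nat_lit 5050640873) (nat_lit 190) (nat_lit 5) (nat_lit 201) (nat_lit 5) (nat_lit 191) (nat_lit 5) (nat_lit 278) (nat_lit 259) (nat_lit 243)) (XT.lf (nat_lit 0) (nat_lit 4162703583) (nat_lit 684) (nat_lit 2492381318) (nat_lit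 76) (nat_lit 1189357974) (nat_lit 182) (nat_lit 5) (nat_lit 191) (nat_lit 5) (nat_lit 183) (nat_lit 5) (nat_lit 279) (nat_lit 259) (nat_lit 242))) (XT.nd (nat_lit 78) (nat_lit 532) (nat_lit 0) (XT.lf (nat_lit 0) (nat_lit 349768858) (nat_lit 608) (nat_lit 2413668382) (nat_lit 76) (nat_lit 5240987497) (nat_lit 174) (nat_lit 5) (nat_lit 182) (nat_lit 5) (nat_lit 175) (nat_lit 5) (nat_lit 280) (nat_lit 259) (nat_lit 241)) (XT.lf (nat_lit 0) (nat_lit 4433744058) (nat_lit 608) (nat_lit 2333046894) (nat_lit 76) (nat_lit 1406890463) (nat_lit 167) (nat_lit 5) (nat_lit 175) (nat_lit 5) (nat_lit 168) (nat_lit 5) (nat_lit 281) (nat_lit 259) (nat_lit 240))))))))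
noncomputable def xc48 : XT := (XT.nd (nat_lit 2184) (nat_lit 2432) (nat_lit 0) (XT.nd (nat_lit 1092) (nat_lit 3116) (nat_lit 0) (XT.nd (nat_lit 546) (nat_lit 2584) (nat_lit 0) (XT.nd (nat_lit 234) (nat_lit 1824) (nat_lit 0) (XT.nd (nat_lit 78) (nat_lit 988) (nat_lit 0) (XT.lf (nat_lit 0) (nat_lit 311027771) (nat_lit 608) (nat_lit 2237750843) (nat_lit 76) (nat_lit 5804250023) (nat_lit 159) (nat_lit 5) (nat_lit 167) (nat_lit 5) (nat_lit 160) (nat_lit 5) (nat_lit 282) (nat_lit 259) (nat_lit 239)) (XT.nd (nat_lit 78) (nat_lit 456) (nat_lit 0) (XT.lf (nat_lit 0) (nat_lit 4433823309) (nat_lit 608) (nat_lit 2158999077) (nat_lit 76) (nat_lit 1949169912) (nat_lit 152) (nat_lit 5) (nat_lit 160) (nat_lit 5) (nat_lit 153) (nat_lit 5) (nat_lit 283) (nat_lit 259) (nat_lit 238)) (XT.lf (nat_lit 0) (nat_lit 6668127131) (nat_lit 456) (nat_lit 2054430254) (nat_lit 532) (nat_lit 19204071) (nat_lit 146) (nat_lit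 5) (nat_lit 152) (nat_lit 5) (nat_lit 153) (nat_lit 5) (nat_lit 284) (nat_lit 259) (nat_lit 237)))) (XT.nd (nat_lit 156) (nat_lit 912) (nat_lit 0) (XT.nd (nat_lit 78) (nat_lit 380) (nat_lit 0) (XT.lf (nat_lit 0) (nat_lit 4157890060) (nat_lit 532) (nat_lit 2030020463) (nat_lit 76) (nat_lit 2763503253) (nat_lit 139) (nat_lit 5) (nat_lit 146) (nat_lit 5) (nat_lit 140) (nat_lit 5) (nat_lit 285) (nat_lit 259) (nat_lit 236)) (XT.lf (nat_lit 0) (nat_lit 7182594359) (nat_lit 380) (nat_lit 1328140216) (nat_lit 456) (nat_lit 661922866) (nat_lit 134) (nat_lit 5) (nat_lit 139) (nat_lit 5) (nat_lit 140) (nat_lit 5) (nat_lit 286) (nat_lit 259) (nat_lit 235))) (XT.nd (nat_lit 78) (nat_lit 380) (nat_lit 0) (XT.lf (nat_lit 0) (nat_lit 3593966462) (nat_lit 532) (nat_lit 2012240749) (nat_lit 76) (nat_lit 3798135740) (nat_lit 127) (nat_lit 5) (nat_lit 134) (nat_lit 5) (nat_lit 128) (nat_lit 5) (nat_lit 287)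 (nat_lit 259) (nat_lit 234)) (XT.lf (nat_lit 0) (nat_lit 7594039563) (nat_lit 380) (nat_lit 426572532) (nat_lit 456) (nat_lit 1627771799) (nat_lit 122) (nat_lit 5) (nat_lit 127) (nat_lit 5) (nat_lit 128) (nat_lit 5) (nat_lit 288) (nat_lit 259) (nat_lit 233))))) (XT.nd (nat_lit 234) (nat_lit 1292) (nat_lit 0) (XT.nd (nat_lit 78) (nat_lit 836) (nat_lit 0) (XT.lf (nat_lit 0) (nat_lit 2722583133) (nat_lit 456) (nat_lit 2180093546) (nat_lit 76) (nat_lit 5000884965) (nat_lit 116) (nat_lit 5) (nat_lit 122) (nat_lit 5) (nat_lit 117) (nat_lit 5) (nat_lit 289) (nat_lit 259) (nat_lit 232)) (XT.nd (nat_lit 78) (nat_lit 456) (nat_lit 0) (XT.lf (nat_lit 0) (nat_lit 7235942853) (nat_lit 456) (nat_lit 2351978744) (nat_lit 76) (nat_lit 583821940) (nat_lit 111) (nat_lit 5) (nat_lit 117) (nat_lit 5) (nat_lit 112) (nat_lit 5) (nat_lit 290) (nat_lit 259) (nat_lit 231)) (XT.lf (nat_lit 0) (nat_lit 1516035435)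 (nat_lit 456) (nat_lit 2618531139) (nat_lit 76) (nat_lit 6317701905) (nat_lit 105) (nat_lit 5) (nat_lit 111) (nat_lit 5) (nat_lit 106) (nat_lit 5) (nat_lit 291) (nat_lit 259) (nat_lit 230)))) (XT.nd (nat_lit 156) (nat_lit 684) (nat_lit 0) (XT.nd (nat_lit 78) (nat_lit 304) (nat_lit 0) (XT.lf (nat_lit 0) (nat_lit 6125198541) (nat_lit 380) (nat_lit 2973519344) (nat_lit 76) (nat_lit 1647457175) (nat_lit 101) (nat_lit 5) (nat_lit 106) (nat_lit 5) (nat_lit 102) (nat_lit 5) (nat_lit 292) (nat_lit 259) (nat_lit 229)) (XT.lf (nat_lit 0) (nat_lit 7627933631) (nat_lit 304) (nat_lit 3362360324) (nat_lit 380) (nat_lit 63805432) (nat_lit 97) (nat_lit 5) (nat_lit 101) (nat_lit 5) (nat_lit 102) (nat_lit 5) (nat_lit 293) (nat_lit 259) (nat_lit 228))) (XT.nd (nat_lit 78) (nat_lit 304) (nat_lit 0) (XT.lf (nat_lit 0) (nat_lit 4643600347) (nat_lit 380) (nat_lit 4020357803) (nat_lit 76) (nat_lit 2711745267) (nat_lit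 92) (nat_lit 5) (nat_lit 97) (nat_lit 5) (nat_lit 93) (nat_lit 5) (nat_lit 294) (nat_lit 259) (nat_lit 227)) (XT.lf (nat_lit 0) (nat_lit 6977352418) (nat_lit 304) (nat_lit 2633864005) (nat_lit 380) (nat_lit 2101443783) (nat_lit 88) (nat_lit 5) (nat_lit 92) (nat_lit 5) (nat_lit 93) (nat_lit 5) (nat_lit 295) (nat_lit 259) (nat_lit 226)))))) (XT.nd (nat_lit 546) (nat_lit 1444) (nat_lit 0) (XT.nd (nat_lit 234) (nat_lit 760) (nat_lit 0) (XT.nd (nat_lit 78) (nat_lit 608) (nat_lit 0) (XT.lf (nat_lit 0) (nat_lit 2739563509) (nat_lit 304) (nat_lit 5615577159) (nat_lit 76) (nat_lit 3709617958) (nat_lit 84) (nat_lit 5) (nat_lit 88) (nat_lit 5) (nat_lit 85) (nat_lit 5) (nat_lit 296) (nat_lit 259) (nat_lit 225)) (XT.nd (nat_lit 78) (nat_lit 304) (nat_lit 0) (XT.lf (nat_lit 0) (nat_lit 5768165562) (nat_lit 304) (nat_lit 2038036669) (nat_lit 380) (nat_lit 4626891468) (nat_lit 80) (nat_lit 5) (nat_lit 84)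 (nat_lit 5) (nat_lit 85) (nat_lit 5) (nat_lit 297) (nat_lit 259) (nat_lit 224)) (XT.lf (nat_lit 0) (nat_lit 349031013) (nat_lit 304) (nat_lit 7903459471) (nat_lit 76) (nat_lit 4565868394) (nat_lit 76) (nat_lit 5) (nat_lit 80) (nat_lit 5) (nat_lit 77) (nat_lit 5) (nat_lit 298) (nat_lit 259) (nat_lit 223)))) (XT.nd (nat_lit 156) (nat_lit 304) (nat_lit 0) (XT.nd (nat_lit 78) (nat_lit 228) (nat_lit 0) (XT.lf (nat_lit 0) (nat_lit 3848528125) (nat_lit 228) (nat_lit 1658086437) (nat_lit 304) (nat_lit 7714100911) (nat_lit 73) (nat_lit 5) (nat_lit 76) (nat_lit 5) (nat_lit 77) (nat_lit 5) (nat_lit 299) (nat_lit 259) (nat_lit 222)) (XT.lf (nat_lit 0) (nat_lit 2562185524) (nat_lit 228) (nat_lit 8420948028) (nat_lit 304) (nat_lit 2658281007) (nat_lit 70) (nat_lit 5) (nat_lit 73) (nat_lit 5) (nat_lit 74) (nat_lit 5) (nat_lit 300) (nat_lit 259) (nat_lit 221))) (XT.nd (nat_lit 78) (nat_lit 0) (nat_lit 0)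 (XT.lf (nat_lit 0) (nat_lit 1039421371) (nat_lit 228) (nat_lit 1589216697) (nat_lit 304) (nat_lit 11452897567) (nat_lit 66) (nat_lit 5) (nat_lit 69) (nat_lit 5) (nat_lit 70) (nat_lit 5) (nat_lit 301) (nat_lit 259) (nat_lit 220)) (XT.lf (nat_lit 0) (nat_lit 8202780272) (nat_lit 304) (nat_lit 771004793) (nat_lit 76) (nat_lit 5566802098) (nat_lit 66) (nat_lit 5) (nat_lit 70) (nat_lit 5) (nat_lit 67) (nat_lit 5) (nat_lit 302) (nat_lit 259) (nat_lit 219))))) (XT.nd (nat_lit 234) (nat_lit 760) (nat_lit 0) (XT.nd (nat_lit 78) (nat_lit 456) (nat_lit 0) (XT.lf (nat_lit 0) (nat_lit 12197879151) (nat_lit 228) (nat_lit 1903887631) (nat_lit 304) (nat_lit 919487627) (nat_lit 63) (nat_lit 5) (nat_lit 66) (nat_lit 5) (nat_lit 67) (nat_lit 5) (nat_lit 303) (nat_lit 259) (nat_lit 218)) (XT.nd (nat_lit 78) (nat_lit 152) (nat_lit 0) (XT.lf (nat_lit 0) (nat_lit 4752861350) (nat_lit 304) (nat_lit 5252440168) (nat_lit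 76) (nat_lit 5517036045) (nat_lit 59) (nat_lit 5) (nat_lit 63) (nat_lit 5) (nat_lit 60) (nat_lit 5) (nat_lit 304) (nat_lit 259) (nat_lit 217)) (XT.lf (nat_lit 0) (nat_lit 8023301119) (nat_lit 152) (nat_lit 2709525174) (nat_lit 228) (nat_lit 5314126635) (nat_lit 57) (nat_lit 5) (nat_lit 59) (nat_lit 5) (nat_lit 60) (nat_lit 5) (nat_lit 305) (nat_lit 259) (nat_lit 216)))) (XT.nd (nat_lit 156) (nat_lit 304) (nat_lit 0) (XT.nd (nat_lit 78) (nat_lit 152) (nat_lit 0) (XT.lf (nat_lit 0) (nat_lit 480087695) (nat_lit 304) (nat_lit 11198488264) (nat_lit 76) (nat_lit 4916916925) (nat_lit 53) (nat_lit 5) (nat_lit 57) (nat_lit 5) (nat_lit 54) (nat_lit 5) (nat_lit 306) (nat_lit 259) (nat_lit 215)) (XT.lf (nat_lit 0) (nat_lit 2321206574) (nat_lit 152) (nat_lit 4188161785) (nat_lit 228) (nat_lit 10658891877) (nat_lit 51) (nat_lit 5) (nat_lit 53) (nat_lit 5) (nat_lit 54) (nat_lit 5) (nat_lit 307) (nat_lit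 259) (nat_lit 214))) (XT.nd (nat_lit 78) (nat_lit 304) (nat_lit 0) (XT.lf (nat_lit 0) (nat_lit 12915105733) (nat_lit 228) (nat_lit 1179588894) (nat_lit 76) (nat_lit 3672756451) (nat_lit 51) (nat_lit 5) (nat_lit 54) (nat_lit 5) (nat_lit 52) (nat_lit 5) (nat_lit 308) (nat_lit 259) (nat_lit 213)) (XT.lf (nat_lit 0) (nat_lit 1317847342) (nat_lit 304) (nat_lit 5140519872) (nat_lit 76) (nat_lit 11934979504) (nat_lit 47) (nat_lit 5) (nat_lit 51) (nat_lit 5) (nat_lit 48) (nat_lit 5) (nat_lit 309) (nat_lit 259) (nat_lit 212))))))) (XT.nd (nat_lit 1092) (nat_lit 760) (nat_lit 0) (XT.nd (nat_lit 546) (nat_lit 760) (nat_lit 0) (XT.nd (nat_lit 234) (nat_lit 532) (nat_lit 0) (XT.nd (nat_lit 78) (nat_lit 228) (nat_lit 0) (XT.lf (nat_lit 0) (nat_lit 7744240530) (nat_lit 228) (nat_lit 9668282114) (nat_lit 76) (nat_lit 1635162597) (nat_lit 45) (nat_lit 5) (nat_lit 48) (nat_lit 5) (nat_lit 46) (nat_lit 5) (nat_lit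 310) (nat_lit 259) (nat_lit 211)) (XT.nd (nat_lit 78) (nat_lit 76) (nat_lit 0) (XT.lf (nat_lit 0) (nat_lit 4911828034) (nat_lit 152) (nat_lit 9676301631) (nat_lit 228) (nat_lit 5143755008) (nat_lit 43) (nat_lit 5) (nat_lit 45) (nat_lit 5) (nat_lit 46) (nat_lit 5) (nat_lit 311) (nat_lit 259) (nat_lit 210)) (XT.lf (nat_lit 0) (nat_lit 1330451908) (nat_lit 228) (nat_lit 153941823) (nat_lit 76) (nat_lit 18964574609) (nat_lit 42) (nat_lit 5) (nat_lit 45) (nat_lit 5) (nat_lit 43) (nat_lit 5) (nat_lit 312) (nat_lit 259) (nat_lit 209)))) (XT.nd (nat_lit 156) (nat_lit 228) (nat_lit 0) (XT.nd (nat_lit 78) (nat_lit 152) (nat_lit 0) (XT.lf (nat_lit 0) (nat_lit 8175906819) (nat_lit 228) (nat_lit 5884478679) (nat_lit 76) (nat_lit 7135401068) (nat_lit 40) (nat_lit 5) (nat_lit 43) (nat_lit 5) (nat_lit 41) (nat_lit 5) (nat_lit 313) (nat_lit 259) (nat_lit 208)) (XT.lf (nat_lit 0) (nat_lit 9637499257) (nat_lit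 152) (nat_lit 5772092964) (nat_lit 228) (nat_lit 6568999301) (nat_lit 38) (nat_lit 5) (nat_lit 40) (nat_lit 5) (nat_lit 41) (nat_lit 5) (nat_lit 314) (nat_lit 259) (nat_lit 207))) (XT.nd (nat_lit 78) (nat_lit 0) (nat_lit 0) (XT.lf (nat_lit 0) (nat_lit 259269247) (nat_lit 228) (nat_lit 19615148266) (nat_lit 76) (nat_lit 2924317967) (nat_lit 35) (nat_lit 5) (nat_lit 38) (nat_lit 5) (nat_lit 36) (nat_lit 5) (nat_lit 315) (nat_lit 259) (nat_lit 206)) (XT.lf (nat_lit 0) (nat_lit 7420545016) (nat_lit 228) (nat_lit 4144680302) (nat_lit 76) (nat_lit 12088908224) (nat_lit 35) (nat_lit 5) (nat_lit 38) (nat_lit 5) (nat_lit 36) (nat_lit 5) (nat_lit 316) (nat_lit 259) (nat_lit 205))))) (XT.nd (nat_lit 234) (nat_lit 456) (nat_lit 0) (XT.nd (nat_lit 78) (nat_lit 152) (nat_lit 0) (XT.lf (nat_lit 0) (nat_lit 12237947374) (nat_lit 152) (nat_lit 2762080842) (nat_lit 228) (nat_lit 9550489573) (nat_lit 33) (nat_lit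 5) (nat_lit 35) (nat_lit 5) (nat_lit 36) (nat_lit 5) (nat_lit 317) (nat_lit 259) (nat_lit 204)) (XT.nd (nat_lit 78) (nat_lit 76) (nat_lit 0) (XT.lf (nat_lit 0) (nat_lit 3951675114) (nat_lit 76) (nat_lit 19094093723) (nat_lit 152) (nat_lit 2443353522) (nat_lit 32) (nat_lit 5) (nat_lit 33) (nat_lit 5) (nat_lit 34) (nat_lit 4) (nat_lit 318) (nat_lit 259) (nat_lit 203)) (XT.lf (nat_lit 0) (nat_lit 5022179969) (nat_lit 152) (nat_lit 5358679500) (nat_lit 76) (nat_lit 16089338946) (nat_lit 31) (nat_lit 5) (nat_lit 33) (nat_lit 5) (nat_lit 32) (nat_lit 5) (nat_lit 319) (nat_lit 259) (nat_lit 202)))) (XT.nd (nat_lit 156) (nat_lit 228) (nat_lit 0) (XT.nd (nat_lit 78) (nat_lit 76) (nat_lit 0) (XT.lf (nat_lit 0) (nat_lit 11741217896) (nat_lit 152) (nat_lit 1130289453) (nat_lit 228) (nat_lit 14626280957) (nat_lit 29) (nat_lit 5) (nat_lit 31) (nat_lit 5) (nat_lit 32) (nat_lit 5) (nat_lit 320) (nat_lit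 259) (nat_lit 201)) (XT.lf (nat_lit 0) (nat_lit 1080240197) (nat_lit 76) (nat_lit 20130626847) (nat_lit 152) (nat_lit 7362980116) (nat_lit 28) (nat_lit 5) (nat_lit 29) (nat_lit 5) (nat_lit 30) (nat_lit 4) (nat_lit 321) (nat_lit 259) (nat_lit 200))) (XT.nd (nat_lit 78) (nat_lit 152) (nat_lit 0) (XT.lf (nat_lit 0) (nat_lit 383605660) (nat_lit 152) (nat_lit 10715417689) (nat_lit 76) (nat_lit 18600866987) (nat_lit 27) (nat_lit 5) (nat_lit 29) (nat_lit 5) (nat_lit 28) (nat_lit 5) (nat_lit 322) (nat_lit 259) (nat_lit 199)) (XT.lf (nat_lit 0) (nat_lit 6876614089) (nat_lit 152) (nat_lit 1508572620) (nat_lit 228) (nat_lit 22494278109) (nat_lit 25) (nat_lit 5) (nat_lit 27) (nat_lit 5) (nat_lit 28) (nat_lit 5) (nat_lit 323) (nat_lit 259) (nat_lit 198)))))) (XT.nd (nat_lit 546) (nat_lit 380) (nat_lit 0) (XT.nd (nat_lit 234) (nat_lit 228) (nat_lit 0) (XT.nd (nat_lit 78) (nat_lit 152) (nat_lit 0) (XT.lf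 (nat_lit 0) (nat_lit 16934090518) (nat_lit 228) (nat_lit 6709480560) (nat_lit 76) (nat_lit 8470043427) (nat_lit 25) (nat_lit 5) (nat_lit 28) (nat_lit 5) (nat_lit 26) (nat_lit 4) (nat_lit 324) (nat_lit 259) (nat_lit 197)) (XT.nd (nat_lit 78) (nat_lit 76) (nat_lit 0) (XT.lf (nat_lit 0) (nat_lit 11579722080) (nat_lit 76) (nat_lit 14413015561) (nat_lit 152) (nat_lit 7414278228) (nat_lit 24) (nat_lit 5) (nat_lit 25) (nat_lit 5) (nat_lit 26) (nat_lit 4) (nat_lit 325) (nat_lit 259) (nat_lit 196)) (XT.lf (nat_lit 0) (nat_lit 751244072) (nat_lit 152) (nat_lit 3925376747) (nat_lit 76) (nat_lit 30087472270) (nat_lit 23) (nat_lit 5) (nat_lit 25) (nat_lit 5) (nat_lit 24) (nat_lit 5) (nat_lit 326) (nat_lit 259) (nat_lit 195)))) (XT.nd (nat_lit 156) (nat_lit 76) (nat_lit 0) (XT.nd (nat_lit 78) (nat_lit 0) (nat_lit 0) (XT.lf (nat_lit 0) (nat_lit 9331384075) (nat_lit 228) (nat_lit 21223503297) (nat_lit 76)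 (nat_lit 5627155700) (nat_lit 21) (nat_lit 5) (nat_lit 24) (nat_lit 5) (nat_lit 22) (nat_lit 4) (nat_lit 327) (nat_lit 259) (nat_lit 194)) (XT.lf (nat_lit 0) (nat_lit 18388249956) (nat_lit 228) (nat_lit 2921808340) (nat_lit 76) (nat_lit 16359411707) (nat_lit 21) (nat_lit 5) (nat_lit 24) (nat_lit 5) (nat_lit 22) (nat_lit 4) (nat_lit 328) (nat_lit 259) (nat_lit 193))) (XT.nd (nat_lit 78) (nat_lit 0) (nat_lit 0) (XT.lf (nat_lit 0) (nat_lit 16548163114) (nat_lit 76) (nat_lit 11470493978) (nat_lit 152) (nat_lit 11209000744) (nat_lit 20) (nat_lit 5) (nat_lit 21) (nat_lit 5) (nat_lit 22) (nat_lit 4) (nat_lit 329) (nat_lit 259) (nat_lit 192)) (XT.lf (nat_lit 0) (nat_lit 36984966409) (nat_lit 76) (nat_lit 1138498794) (nat_lit 152) (nat_lit 2740513429) (nat_lit 20) (nat_lit 5) (nat_lit 21) (nat_lit 5) (nat_lit 22) (nat_lit 4) (nat_lit 330) (nat_lit 259) (nat_lit 191))))) (XT.nd (nat_lit 234) (nat_lit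 152) (nat_lit 0) (XT.nd (nat_lit 78) (nat_lit 76) (nat_lit 0) (XT.lf (nat_lit 0) (nat_lit 6245031884) (nat_lit 152) (nat_lit 26621622283) (nat_lit 76) (nat_lit 9707286525) (nat_lit 18) (nat_lit 5) (nat_lit 20) (nat_lit 5) (nat_lit 19) (nat_lit 4) (nat_lit 331) (nat_lit 259) (nat_lit 190)) (XT.nd (nat_lit 78) (nat_lit 76) (nat_lit 0) (XT.lf (nat_lit 0) (nat_lit 15640554807) (nat_lit 152) (nat_lit 7615599480) (nat_lit 76) (nat_lit 21111920001) (nat_lit 18) (nat_lit 5) (nat_lit 20) (nat_lit 5) (nat_lit 19) (nat_lit 4) (nat_lit 332) (nat_lit 259) (nat_lit 189)) (XT.lf (nat_lit 0) (nat_lit 12524042293) (nat_lit 76) (nat_lit 13068899375) (nat_lit 152) (nat_lit 20656368644) (nat_lit 17) (nat_lit 5) (nat_lit 18) (nat_lit 5) (nat_lit 19) (nat_lit 4) (nat_lit 333) (nat_lit 259) (nat_lit 188)))) (XT.nd (nat_lit 156) (nat_lit 76) (nat_lit 0) (XT.nd (nat_lit 78) (nat_lit 76) (nat_lit 0) (XT.lf (nat_lit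 0) (nat_lit 33770489040) (nat_lit 76) (nat_lit 2318569278) (nat_lit 152) (nat_lit 12134174487) (nat_lit 17) (nat_lit 5) (nat_lit 18) (nat_lit 5) (nat_lit 19) (nat_lit 4) (nat_lit 334) (nat_lit 259) (nat_lit 187)) (XT.lf (nat_lit 0) (nat_lit 5752257292) (nat_lit 76) (nat_lit 41468240368) (nat_lit 76) (nat_lit 3072045856) (nat_lit 16) (nat_lit 4) (nat_lit 17) (nat_lit 5) (nat_lit 17) (nat_lit 4) (nat_lit 335) (nat_lit 259) (nat_lit 186))) (XT.nd (nat_lit 78) (nat_lit 0) (nat_lit 0) (XT.lf (nat_lit 0) (nat_lit 6460754461) (nat_lit 152) (nat_lit 25334289678) (nat_lit 76) (nat_lit 20664125726) (nat_lit 15) (nat_lit 5) (nat_lit 17) (nat_lit 5) (nat_lit 16) (nat_lit 4) (nat_lit 336) (nat_lit 259) (nat_lit 185)) (XT.lf (nat_lit 0) (nat_lit 16378338312) (nat_lit 152) (nat_lit 5252477055) (nat_lit 76) (nat_lit 33103256025) (nat_lit 15) (nat_lit 5) (nat_lit 17) (nat_lit 5) (nat_lit 16) (nat_lit 4) (nat_lit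 337) (nat_lit 259) (nat_lit 184))))))))
noncomputable def xc49 : XT := (XT.nd (nat_lit 34632) (nat_lit 0) (nat_lit 8436) (XT.nd (nat_lit 1092) (nat_lit 228) (nat_lit 0) (XT.nd (nat_lit 546) (nat_lit 228) (nat_lit 0) (XT.nd (nat_lit 234) (nat_lit 228) (nat_lit 0) (XT.nd (nat_lit 78) (nat_lit 0) (nat_lit 0) (XT.lf (nat_lit 0) (nat_lit 16096598481) (nat_lit 76) (nat_lit 10822397540) (nat_lit 152) (nat_lit 30199912508) (nat_lit 14) (nat_lit 5) (nat_lit 15) (nat_lit 5) (nat_lit 16) (nat_lit 4) (nat_lit 338) (nat_lit 259) (nat_lit 183)) (XT.nd (nat_lit 78) (nat_lit 0) (nat_lit 0) (XT.lf (nat_lit 0) (nat_lit 38019433165) (nat_lit 152) (nat_lit 21054130748) (nat_lit 0) (nat_lit 548447286) (nat_lit 14) (nat_lit 5) (nat_lit 16) (nat_lit 4) (nat_lit 14) (nat_lit 4) (nat_lit 339) (nat_lit 259) (nat_lit 182)) (XT.lf (nat_lit 0) (nat_lit 49758488212) (nat_lit 152) (nat_lit 244450432) (nat_lit 0) (nat_lit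 12244828258) (nat_lit 14) (nat_lit 5) (nat_lit 16) (nat_lit 4) (nat_lit 14) (nat_lit 4) (nat_lit 340) (nat_lit 259) (nat_lit 181)))) (XT.nd (nat_lit 156) (nat_lit 76) (nat_lit 0) (XT.nd (nat_lit 78) (nat_lit 76) (nat_lit 0) (XT.lf (nat_lit 0) (nat_lit 21989401691) (nat_lit 76) (nat_lit 40282053679) (nat_lit 76) (nat_lit 2727751748) (nat_lit 13) (nat_lit 4) (nat_lit 14) (nat_lit 5) (nat_lit 14) (nat_lit 4) (nat_lit 341) (nat_lit 259) (nat_lit 180)) (XT.lf (nat_lit 0) (nat_lit 7353697376) (nat_lit 152) (nat_lit 22665002901) (nat_lit 76) (nat_lit 37867996293) (nat_lit 12) (nat_lit 5) (nat_lit 14) (nat_lit 5) (nat_lit 13) (nat_lit 4) (nat_lit 342) (nat_lit 259) (nat_lit 179))) (XT.nd (nat_lit 78) (nat_lit 76) (nat_lit 0) (XT.lf (nat_lit 0) (nat_lit 17860551125) (nat_lit 152) (nat_lit 1372953260) (nat_lit 76) (nat_lit 51684918347) (nat_lit 12) (nat_lit 5) (nat_lit 14) (nat_lit 5) (nat_lit 13)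 (nat_lit 4) (nat_lit 343) (nat_lit 259) (nat_lit 178)) (XT.lf (nat_lit 0) (nat_lit 21360071602) (nat_lit 76) (nat_lit 7716308553) (nat_lit 152) (nat_lit 45019850690) (nat_lit 11) (nat_lit 5) (nat_lit 12) (nat_lit 5) (nat_lit 13) (nat_lit 4) (nat_lit 344) (nat_lit 259) (nat_lit 177))))) (XT.nd (nat_lit 234) (nat_lit 152) (nat_lit 0) (XT.nd (nat_lit 78) (nat_lit 76) (nat_lit 0) (XT.lf (nat_lit 0) (nat_lit 40888132487) (nat_lit 152) (nat_lit 32256019073) (nat_lit 0) (nat_lit 4287728246) (nat_lit 11) (nat_lit 5) (nat_lit 13) (nat_lit 4) (nat_lit 11) (nat_lit 4) (nat_lit 345) (nat_lit 259) (nat_lit 176)) (XT.nd (nat_lit 78) (nat_lit 76) (nat_lit 0) (XT.lf (nat_lit 0) (nat_lit 53348151772) (nat_lit 152) (nat_lit 10867602274) (nat_lit 0) (nat_lit 16716830976) (nat_lit 11) (nat_lit 5) (nat_lit 13) (nat_lit 4) (nat_lit 11) (nat_lit 4) (nat_lit 346) (nat_lit 259) (nat_lit 175)) (XT.lf (nat_lit 0) (nat_lit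 11784140865) (nat_lit 76) (nat_lit 54741066353) (nat_lit 76) (nat_lit 18080301218) (nat_lit 10) (nat_lit 4) (nat_lit 11) (nat_lit 5) (nat_lit 11) (nat_lit 4) (nat_lit 347) (nat_lit 259) (nat_lit 174)))) (XT.nd (nat_lit 156) (nat_lit 76) (nat_lit 0) (XT.nd (nat_lit 78) (nat_lit 76) (nat_lit 0) (XT.lf (nat_lit 0) (nat_lit 35760559791) (nat_lit 76) (nat_lit 44693766531) (nat_lit 76) (nat_lit 8004959169) (nat_lit 10) (nat_lit 4) (nat_lit 11) (nat_lit 5) (nat_lit 11) (nat_lit 4) (nat_lit 348) (nat_lit 259) (nat_lit 173)) (XT.lf (nat_lit 0) (nat_lit 2505966680) (nat_lit 152) (nat_lit 31628401883) (nat_lit 76) (nat_lit 58371182592) (nat_lit 9) (nat_lit 5) (nat_lit 11) (nat_lit 5) (nat_lit 10) (nat_lit 4) (nat_lit 349) (nat_lit 259) (nat_lit 172))) (XT.nd (nat_lit 78) (nat_lit 76) (nat_lit 0) (XT.lf (nat_lit 0) (nat_lit 13361325468) (nat_lit 152) (nat_lit 9617458670) (nat_lit 76) (nat_lit 73773438355)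 (nat_lit 9) (nat_lit 5) (nat_lit 11) (nat_lit 5) (nat_lit 10) (nat_lit 4) (nat_lit 350) (nat_lit 259) (nat_lit 171)) (XT.lf (nat_lit 0) (nat_lit 13731408753) (nat_lit 76) (nat_lit 11143754820) (nat_lit 152) (nat_lit 76332595671) (nat_lit 8) (nat_lit 5) (nat_lit 9) (nat_lit 5) (nat_lit 10) (nat_lit 4) (nat_lit 351) (nat_lit 259) (nat_lit 170)))))) (XT.nd (nat_lit 546) (nat_lit 152) (nat_lit 0) (XT.nd (nat_lit 234) (nat_lit 76) (nat_lit 0) (XT.nd (nat_lit 78) (nat_lit 0) (nat_lit 0) (XT.lf (nat_lit 0) (nat_lit 37061083276) (nat_lit 152) (nat_lit 67477759092) (nat_lit 0) (nat_lit 1344341808) (nat_lit 8) (nat_lit 5) (nat_lit 10) (nat_lit 4) (nat_lit 8) (nat_lit 4) (nat_lit 352) (nat_lit 259) (nat_lit 169)) (XT.nd (nat_lit 78) (nat_lit 0) (nat_lit 0) (XT.lf (nat_lit 0) (nat_lit 49953606990) (nat_lit 152) (nat_lit 46620323355) (nat_lit 0) (nat_lit 14215533660) (nat_lit 8) (nat_lit 5) (nat_lit 10)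 (nat_lit 4) (nat_lit 8) (nat_lit 4) (nat_lit 353) (nat_lit 259) (nat_lit 168)) (XT.lf (nat_lit 0) (nat_lit 63476310614) (nat_lit 152) (nat_lit 24747262129) (nat_lit 0) (nat_lit 27717921223) (nat_lit 8) (nat_lit 5) (nat_lit 10) (nat_lit 4) (nat_lit 8) (nat_lit 4) (nat_lit 354) (nat_lit 259) (nat_lit 167)))) (XT.nd (nat_lit 156) (nat_lit 0) (nat_lit 0) (XT.nd (nat_lit 78) (nat_lit 76) (nat_lit 0) (XT.lf (nat_lit 0) (nat_lit 77661391059) (nat_lit 152) (nat_lit 1806496698) (nat_lit 0) (nat_lit 41883653041) (nat_lit 8) (nat_lit 5) (nat_lit 10) (nat_lit 4) (nat_lit 8) (nat_lit 4) (nat_lit 355) (nat_lit 259) (nat_lit 166)) (XT.lf (nat_lit 0) (nat_lit 22699543664) (nat_lit 76) (nat_lit 70061280564) (nat_lit 76) (nat_lit 34265115280) (nat_lit 7) (nat_lit 4) (nat_lit 8) (nat_lit 5) (nat_lit 8) (nat_lit 4) (nat_lit 356) (nat_lit 259) (nat_lit 165))) (XT.nd (nat_lit 78) (nat_lit 0) (nat_lit 0) (XT.lf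 (nat_lit 0) (nat_lit 48444631716) (nat_lit 76) (nat_lit 60176483643) (nat_lit 76) (nat_lit 24362768582) (nat_lit 7) (nat_lit 4) (nat_lit 8) (nat_lit 5) (nat_lit 8) (nat_lit 4) (nat_lit 357) (nat_lit 259) (nat_lit 164)) (XT.lf (nat_lit 0) (nat_lit 75454112459) (nat_lit 76) (nat_lit 49808203839) (nat_lit 76) (nat_lit 13977774706) (nat_lit 7) (nat_lit 4) (nat_lit 8) (nat_lit 5) (nat_lit 8) (nat_lit 4) (nat_lit 358) (nat_lit 259) (nat_lit 163))))) (XT.nd (nat_lit 234) (nat_lit 0) (nat_lit 0) (XT.nd (nat_lit 78) (nat_lit 152) (nat_lit 0) (XT.lf (nat_lit 0) (nat_lit 103792294180) (nat_lit 76) (nat_lit 38931754772) (nat_lit 76) (nat_lit 3085407475) (nat_lit 7) (nat_lit 4) (nat_lit 8) (nat_lit 5) (nat_lit 8) (nat_lit 4) (nat_lit 359) (nat_lit 259) (nat_lit 162)) (XT.nd (nat_lit 78) (nat_lit 76) (nat_lit 0) (XT.lf (nat_lit 0) (nat_lit 8177518663) (nat_lit 152) (nat_lit 19261144567) (nat_lit 76) (nat_lit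 125266553173) (nat_lit 6) (nat_lit 5) (nat_lit 8) (nat_lit 5) (nat_lit 7) (nat_lit 4) (nat_lit 360) (nat_lit 259) (nat_lit 161)) (XT.lf (nat_lit 0) (nat_lit 4672753574) (nat_lit 76) (nat_lit 15301975131) (nat_lit 152) (nat_lit 139969072659) (nat_lit 5) (nat_lit 5) (nat_lit 6) (nat_lit 5) (nat_lit 7) (nat_lit 4) (nat_lit 361) (nat_lit 259) (nat_lit 160)))) (XT.nd (nat_lit 156) (nat_lit 0) (nat_lit 0) (XT.nd (nat_lit 78) (nat_lit 0) (nat_lit 0) (XT.lf (nat_lit 0) (nat_lit 30186459159) (nat_lit 76) (nat_lit 2363371169) (nat_lit 152) (nat_lit 134988846120) (nat_lit 5) (nat_lit 5) (nat_lit 6) (nat_lit 5) (nat_lit 7) (nat_lit 4) (nat_lit 362) (nat_lit 259) (nat_lit 159)) (XT.lf (nat_lit 0) (nat_lit 45851720089) (nat_lit 152) (nat_lit 118663995764) (nat_lit 0) (nat_lit 10994640166) (nat_lit 5) (nat_lit 5) (nat_lit 7) (nat_lit 4) (nat_lit 5) (nat_lit 4) (nat_lit 363) (nat_lit 259) (nat_lit 158)))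 (XT.nd (nat_lit 32526) (nat_lit 0) (nat_lit 24852) (XT.lf (nat_lit 0) (nat_lit 59833185807) (nat_lit 152) (nat_lit 99083004101) (nat_lit 0) (nat_lit 24963996856) (nat_lit 5) (nat_lit 5) (nat_lit 7) (nat_lit 4) (nat_lit 5) (nat_lit 4) (nat_lit 364) (nat_lit 259) (nat_lit 157)) (XT.lf (nat_lit 0) (nat_lit 1073741823) (nat_lit 0) (nat_lit 0) (nat_lit 0) (nat_lit 0) (nat_lit 332) (nat_lit 0) (nat_lit 1) (nat_lit 0) (nat_lit 1) (nat_lit 0) (nat_lit 260) (nat_lit 260) (nat_lit 260))))))) (XT.nd (nat_lit 1092) (nat_lit 9728) (nat_lit 0) (XT.nd (nat_lit 546) (nat_lit 5168) (nat_lit 0) (XT.nd (nat_lit 234) (nat_lit 1064) (nat_lit 0) (XT.nd (nat_lit 78) (nat_lit 380) (nat_lit 0) (XT.lf (nat_lit 0) (nat_lit 4925049393) (nat_lit 76) (nat_lit 1392039973) (nat_lit 0) (nat_lit 129002579) (nat_lit 331) (nat_lit 5) (nat_lit 332) (nat_lit 0) (nat_lit 331) (nat_lit 4) (nat_lit 261) (nat_lit 260) (nat_lit 259))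 (XT.nd (nat_lit 78) (nat_lit 228) (nat_lit 0) (XT.lf (nat_lit 0) (nat_lit 3294946463) (nat_lit 152) (nat_lit 2674969125) (nat_lit 76) (nat_lit 487958793) (nat_lit 329) (nat_lit 5) (nat_lit 331) (nat_lit 5) (nat_lit 330) (nat_lit 4) (nat_lit 262) (nat_lit 260) (nat_lit 258)) (XT.lf (nat_lit 0) (nat_lit 1547488993) (nat_lit 228) (nat_lit 3852488878) (nat_lit 76) (nat_lit 1077844789) (nat_lit 326) (nat_lit 5) (nat_lit 329) (nat_lit 5) (nat_lit 327) (nat_lit 5) (nat_lit 263) (nat_lit 260) (nat_lit 257)))) (XT.nd (nat_lit 156) (nat_lit 456) (nat_lit 0) (XT.nd (nat_lit 78) (nat_lit 380) (nat_lit 0) (XT.lf (nat_lit 0) (nat_lit 1574700317) (nat_lit 228) (nat_lit 4602461165) (nat_lit 304) (nat_lit 328722075) (nat_lit 323) (nat_lit 5) (nat_lit 326) (nat_lit 5) (nat_lit 327) (nat_lit 5) (nat_lit 264) (nat_lit 260) (nat_lit 256)) (XT.lf (nat_lit 0) (nat_lit 614241508) (nat_lit 304) (nat_lit 3561532351)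 (nat_lit 380) (nat_lit 2365944173) (nat_lit 318) (nat_lit 5) (nat_lit 322) (nat_lit 5) (nat_lit 323) (nat_lit 5) (nat_lit 265) (nat_lit 260) (nat_lit 255))) (XT.nd (nat_lit 78) (nat_lit 380) (nat_lit 0) (XT.lf (nat_lit 0) (nat_lit 2049002639) (nat_lit 380) (nat_lit 238561260) (nat_lit 76) (nat_lit 4298221803) (nat_lit 317) (nat_lit 5) (nat_lit 322) (nat_lit 5) (nat_lit 318) (nat_lit 5) (nat_lit 266) (nat_lit 260) (nat_lit 254)) (XT.lf (nat_lit 0) (nat_lit 5654943845) (nat_lit 380) (nat_lit 772319211) (nat_lit 456) (nat_lit 210776881) (nat_lit 312) (nat_lit 5) (nat_lit 317) (nat_lit 5) (nat_lit 318) (nat_lit 5) (nat_lit 267) (nat_lit 260) (nat_lit 253))))) (XT.nd (nat_lit 234) (nat_lit 3420) (nat_lit 0) (XT.nd (nat_lit 78) (nat_lit 1216) (nat_lit 0) (XT.lf (nat_lit 0) (nat_lit 4052385529) (nat_lit 532) (nat_lit 1662791588) (nat_lit 76) (nat_lit 982717653) (nat_lit 305) (nat_lit 5) (nat_lit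 312) (nat_lit 5) (nat_lit 306) (nat_lit 5) (nat_lit 268) (nat_lit 260) (nat_lit 252)) (XT.nd (nat_lit 78) (nat_lit 608) (nat_lit 0) (XT.lf (nat_lit 0) (nat_lit 1544751946) (nat_lit 608) (nat_lit 2259899731) (nat_lit 76) (nat_lit 2961422820) (nat_lit 297) (nat_lit 5) (nat_lit 305) (nat_lit 5) (nat_lit 298) (nat_lit 5) (nat_lit 269) (nat_lit 260) (nat_lit 251)) (XT.lf (nat_lit 0) (nat_lit 4062673446) (nat_lit 608) (nat_lit 1647490781) (nat_lit 684) (nat_lit 1132453486) (nat_lit 289) (nat_lit 5) (nat_lit 297) (nat_lit 5) (nat_lit 298) (nat_lit 5) (nat_lit 270) (nat_lit 260) (nat_lit 250)))) (XT.nd (nat_lit 156) (nat_lit 1824) (nat_lit 0) (XT.nd (nat_lit 78) (nat_lit 836) (nat_lit 0) (XT.lf (nat_lit 0) (nat_lit 2936189714) (nat_lit 760) (nat_lit 3237970037) (nat_lit 76) (nat_lit 753130895) (nat_lit 279) (nat_lit 5) (nat_lit 289) (nat_lit 5) (nat_lit 280) (nat_lit 5) (nat_lit 271) (nat_lit 260)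 (nat_lit 249)) (XT.lf (nat_lit 0) (nat_lit 22753473) (nat_lit 836) (nat_lit 3631476859) (nat_lit 76) (nat_lit 3366169711) (nat_lit 268) (nat_lit 5) (nat_lit 279) (nat_lit 5) (nat_lit 269) (nat_lit 5) (nat_lit 272) (nat_lit 260) (nat_lit 248))) (XT.nd (nat_lit 78) (nat_lit 988) (nat_lit 0) (XT.lf (nat_lit 0) (nat_lit 3145428321) (nat_lit 836) (nat_lit 860899705) (nat_lit 912) (nat_lit 3115389987) (nat_lit 257) (nat_lit 5) (nat_lit 268) (nat_lit 5) (nat_lit 269) (nat_lit 5) (nat_lit 273) (nat_lit 260) (nat_lit 247)) (XT.lf (nat_lit 0) (nat_lit 822829818) (nat_lit 988) (nat_lit 4266966891) (nat_lit 76) (nat_lit 2141874109) (nat_lit 244) (nat_lit 5) (nat_lit 257) (nat_lit 5) (nat_lit 245) (nat_lit 5) (nat_lit 274) (nat_lit 260) (nat_lit 246)))))) (XT.nd (nat_lit 546) (nat_lit 3876) (nat_lit 0) (XT.nd (nat_lit 234) (nat_lit 2584) (nat_lit 0) (XT.nd (nat_lit 78) (nat_lit 2280) (nat_lit 0) (XT.lf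 (nat_lit 0) (nat_lit 2830657776) (nat_lit 988) (nat_lit 1942391742) (nat_lit 1064) (nat_lit 2577012342) (nat_lit 231) (nat_lit 5) (nat_lit 244) (nat_lit 5) (nat_lit 245) (nat_lit 5) (nat_lit 275) (nat_lit 260) (nat_lit 245)) (XT.nd (nat_lit 78) (nat_lit 1140) (nat_lit 0) (XT.lf (nat_lit 0) (nat_lit 1310635923) (nat_lit 1140) (nat_lit 4726118374) (nat_lit 76) (nat_lit 1440660062) (nat_lit 216) (nat_lit 5) (nat_lit 231) (nat_lit 5) (nat_lit 217) (nat_lit 5) (nat_lit 276) (nat_lit 260) (nat_lit 244)) (XT.lf (nat_lit 0) (nat_lit 2702860386) (nat_lit 1140) (nat_lit 2544677067) (nat_lit 1216) (nat_lit 2365808085) (nat_lit 201) (nat_lit 5) (nat_lit 216) (nat_lit 5) (nat_lit 217) (nat_lit 5) (nat_lit 277) (nat_lit 260) (nat_lit 243)))) (XT.nd (nat_lit 156) (nat_lit 1140) (nat_lit 0) (XT.nd (nat_lit 78) (nat_lit 608) (nat_lit 0) (XT.lf (nat_lit 0) (nat_lit 1500758872) (nat_lit 836) (nat_lit 5059285796)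 (nat_lit 76) (nat_lit 1198546911) (nat_lit 190) (nat_lit 5) (nat_lit 201) (nat_lit 5) (nat_lit 191) (nat_lit 5) (nat_lit 278) (nat_lit 260) (nat_lit 242)) (XT.lf (nat_lit 0) (nat_lit 2712176042) (nat_lit 608) (nat_lit 2730113323) (nat_lit 684) (nat_lit 2470386009) (nat_lit 182) (nat_lit 5) (nat_lit 190) (nat_lit 5) (nat_lit 191) (nat_lit 5) (nat_lit 279) (nat_lit 260) (nat_lit 241))) (XT.nd (nat_lit 78) (nat_lit 532) (nat_lit 0) (XT.lf (nat_lit 0) (nat_lit 1401668477) (nat_lit 608) (nat_lit 5317894689) (nat_lit 76) (nat_lit 1356907204) (nat_lit 174) (nat_lit 5) (nat_lit 182) (nat_lit 5) (nat_lit 175) (nat_lit 5) (nat_lit 280) (nat_lit 260) (nat_lit 240)) (XT.lf (nat_lit 0) (nat_lit 2807294477) (nat_lit 532) (nat_lit 2556442957) (nat_lit 608) (nat_lit 2885730601) (nat_lit 167) (nat_lit 5) (nat_lit 174) (nat_lit 5) (nat_lit 175) (nat_lit 5) (nat_lit 281) (nat_lit 260) (nat_lit 239))))) (XT.nd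 (nat_lit 312) (nat_lit 1748) (nat_lit 0) (XT.nd (nat_lit 156) (nat_lit 988) (nat_lit 0) (XT.nd (nat_lit 78) (nat_lit 532) (nat_lit 0) (XT.lf (nat_lit 0) (nat_lit 1015647565) (nat_lit 608) (nat_lit 5555829211) (nat_lit 76) (nat_lit 1861157180) (nat_lit 159) (nat_lit 5) (nat_lit 167) (nat_lit 5) (nat_lit 160) (nat_lit 5) (nat_lit 282) (nat_lit 260) (nat_lit 238)) (XT.lf (nat_lit 0) (nat_lit 2934018647) (nat_lit 532) (nat_lit 2078104673) (nat_lit 608) (nat_lit 3613337683) (nat_lit 152) (nat_lit 5) (nat_lit 159) (nat_lit 5) (nat_lit 160) (nat_lit 5) (nat_lit 283) (nat_lit 260) (nat_lit 237))) (XT.nd (nat_lit 78) (nat_lit 456) (nat_lit 0) (XT.lf (nat_lit 0) (nat_lit 338589021) (nat_lit 532) (nat_lit 5830933260) (nat_lit 76) (nat_lit 2659471664) (nat_lit 145) (nat_lit 5) (nat_lit 152) (nat_lit 5) (nat_lit 146) (nat_lit 5) (nat_lit 284) (nat_lit 260) (nat_lit 236)) (XT.lf (nat_lit 0) (nat_lit 3033701343)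 (nat_lit 456) (nat_lit 1347535431) (nat_lit 532) (nat_lit 4661491088) (nat_lit 139) (nat_lit 5) (nat_lit 145) (nat_lit 5) (nat_lit 146) (nat_lit 5) (nat_lit 285) (nat_lit 260) (nat_lit 235)))) (XT.nd (nat_lit 156) (nat_lit 836) (nat_lit 0) (XT.nd (nat_lit 78) (nat_lit 532) (nat_lit 0) (XT.lf (nat_lit 0) (nat_lit 3054681194) (nat_lit 380) (nat_lit 5559845579) (nat_lit 456) (nat_lit 653093277) (nat_lit 134) (nat_lit 5) (nat_lit 139) (nat_lit 5) (nat_lit 140) (nat_lit 5) (nat_lit 286) (nat_lit 260) (nat_lit 234)) (XT.lf (nat_lit 0) (nat_lit 3041517387) (nat_lit 456) (nat_lit 416490607) (nat_lit 532) (nat_lit 6045690719) (nat_lit 127) (nat_lit 5) (nat_lit 133) (nat_lit 5) (nat_lit 134) (nat_lit 5) (nat_lit 287) (nat_lit 260) (nat_lit 233))) (XT.nd (nat_lit 78) (nat_lit 456) (nat_lit 0) (XT.lf (nat_lit 0) (nat_lit 2978206375) (nat_lit 380) (nat_lit 4795091639) (nat_lit 456) (nat_lit 1977836812)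 (nat_lit 122) (nat_lit 5) (nat_lit 127) (nat_lit 5) (nat_lit 128) (nat_lit 5) (nat_lit 288) (nat_lit 260) (nat_lit 232)) (XT.lf (nat_lit 0) (nat_lit 2228309613) (nat_lit 456) (nat_lit 7133026252) (nat_lit 76) (nat_lit 649659241) (nat_lit 116) (nat_lit 5) (nat_lit 122) (nat_lit 5) (nat_lit 117) (nat_lit 5) (nat_lit 289) (nat_lit 260) (nat_lit 231))))))))
noncomputable def xc50 : XT := (XT.nd (nat_lit 2184) (nat_lit 1824) (nat_lit 0) (XT.nd (nat_lit 1092) (nat_lit 2128) (nat_lit 0) (XT.nd (nat_lit 546) (nat_lit 1824) (nat_lit 0) (XT.nd (nat_lit 234) (nat_lit 1064) (nat_lit 0) (XT.nd (nat_lit 78) (nat_lit 760) (nat_lit 0) (XT.lf (nat_lit 0) (nat_lit 2694391626) (nat_lit 380) (nat_lit 3932869064) (nat_lit 456) (nat_lit 3655396562) (nat_lit 111) (nat_lit 5) (nat_lit 116) (nat_lit 5) (nat_lit 117) (nat_lit 5) (nat_lit 290) (nat_lit 260) (nat_lit 230)) (XT.nd (nat_lit 78) (nat_lit 304) (nat_lit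 0) (XT.lf (nat_lit 0) (nat_lit 662007206) (nat_lit 456) (nat_lit 8106560514) (nat_lit 76) (nat_lit 1799320595) (nat_lit 105) (nat_lit 5) (nat_lit 111) (nat_lit 5) (nat_lit 106) (nat_lit 5) (nat_lit 291) (nat_lit 260) (nat_lit 229)) (XT.lf (nat_lit 0) (nat_lit 2114034931) (nat_lit 304) (nat_lit 3030406284) (nat_lit 380) (nat_lit 5721197819) (nat_lit 101) (nat_lit 5) (nat_lit 105) (nat_lit 5) (nat_lit 106) (nat_lit 5) (nat_lit 292) (nat_lit 260) (nat_lit 228)))) (XT.nd (nat_lit 156) (nat_lit 380) (nat_lit 0) (XT.nd (nat_lit 78) (nat_lit 380) (nat_lit 0) (XT.lf (nat_lit 0) (nat_lit 1687297375) (nat_lit 304) (nat_lit 8181739880) (nat_lit 380) (nat_lit 1308781339) (nat_lit 97) (nat_lit 5) (nat_lit 101) (nat_lit 5) (nat_lit 102) (nat_lit 5) (nat_lit 293) (nat_lit 260) (nat_lit 227)) (XT.lf (nat_lit 0) (nat_lit 1133722601) (nat_lit 304) (nat_lit 2149596941) (nat_lit 380) (nat_lit 8220687290) (nat_lit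 92) (nat_lit 5) (nat_lit 96) (nat_lit 5) (nat_lit 97) (nat_lit 5) (nat_lit 294) (nat_lit 260) (nat_lit 226))) (XT.nd (nat_lit 78) (nat_lit 76) (nat_lit 0) (XT.lf (nat_lit 0) (nat_lit 446753463) (nat_lit 304) (nat_lit 7669416942) (nat_lit 380) (nat_lit 3728871619) (nat_lit 88) (nat_lit 5) (nat_lit 92) (nat_lit 5) (nat_lit 93) (nat_lit 5) (nat_lit 295) (nat_lit 260) (nat_lit 225)) (XT.lf (nat_lit 0) (nat_lit 995074590) (nat_lit 380) (nat_lit 360085042) (nat_lit 76) (nat_lit 10846947442) (nat_lit 87) (nat_lit 5) (nat_lit 92) (nat_lit 5) (nat_lit 88) (nat_lit 5) (nat_lit 296) (nat_lit 260) (nat_lit 224))))) (XT.nd (nat_lit 234) (nat_lit 988) (nat_lit 0) (XT.nd (nat_lit 78) (nat_lit 608) (nat_lit 0) (XT.lf (nat_lit 0) (nat_lit 5941069629) (nat_lit 304) (nat_lit 1357210602) (nat_lit 76) (nat_lit 5275812442) (nat_lit 84) (nat_lit 5) (nat_lit 88) (nat_lit 5) (nat_lit 85) (nat_lit 5) (nat_lit 297)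 (nat_lit 260) (nat_lit 223)) (XT.nd (nat_lit 78) (nat_lit 304) (nat_lit 0) (XT.lf (nat_lit 0) (nat_lit 10465605564) (nat_lit 304) (nat_lit 691887131) (nat_lit 380) (nat_lit 1806551949) (nat_lit 80) (nat_lit 5) (nat_lit 84) (nat_lit 5) (nat_lit 85) (nat_lit 5) (nat_lit 298) (nat_lit 260) (nat_lit 222)) (XT.lf (nat_lit 0) (nat_lit 3271821741) (nat_lit 304) (nat_lit 3881846519) (nat_lit 76) (nat_lit 6216715303) (nat_lit 76) (nat_lit 5) (nat_lit 80) (nat_lit 5) (nat_lit 77) (nat_lit 5) (nat_lit 299) (nat_lit 260) (nat_lit 221)))) (XT.nd (nat_lit 156) (nat_lit 456) (nat_lit 0) (XT.nd (nat_lit 78) (nat_lit 304) (nat_lit 0) (XT.lf (nat_lit 0) (nat_lit 8331134175) (nat_lit 228) (nat_lit 259040639) (nat_lit 304) (nat_lit 5205678991) (nat_lit 73) (nat_lit 5) (nat_lit 76) (nat_lit 5) (nat_lit 77) (nat_lit 5) (nat_lit 300) (nat_lit 260) (nat_lit 220)) (XT.lf (nat_lit 0) (nat_lit 20628383) (nat_lit 304)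 (nat_lit 7313156181) (nat_lit 76) (nat_lit 6906258755) (nat_lit 69) (nat_lit 5) (nat_lit 73) (nat_lit 5) (nat_lit 70) (nat_lit 5) (nat_lit 301) (nat_lit 260) (nat_lit 219))) (XT.nd (nat_lit 78) (nat_lit 228) (nat_lit 0) (XT.lf (nat_lit 0) (nat_lit 5261532252) (nat_lit 228) (nat_lit 164678105) (nat_lit 304) (nat_lit 9277964350) (nat_lit 66) (nat_lit 5) (nat_lit 69) (nat_lit 5) (nat_lit 70) (nat_lit 5) (nat_lit 302) (nat_lit 260) (nat_lit 218)) (XT.lf (nat_lit 0) (nat_lit 3289997194) (nat_lit 228) (nat_lit 7907497793) (nat_lit 304) (nat_lit 3991199979) (nat_lit 63) (nat_lit 5) (nat_lit 66) (nat_lit 5) (nat_lit 67) (nat_lit 5) (nat_lit 303) (nat_lit 260) (nat_lit 217)))))) (XT.nd (nat_lit 546) (nat_lit 912) (nat_lit 0) (XT.nd (nat_lit 234) (nat_lit 760) (nat_lit 0) (XT.nd (nat_lit 78) (nat_lit 152) (nat_lit 0) (XT.lf (nat_lit 0) (nat_lit 1035555309) (nat_lit 228) (nat_lit 522575026) (nat_lit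 304) (nat_lit 14138042666) (nat_lit 59) (nat_lit 5) (nat_lit 62) (nat_lit 5) (nat_lit 63) (nat_lit 5) (nat_lit 304) (nat_lit 260) (nat_lit 216)) (XT.nd (nat_lit 78) (nat_lit 152) (nat_lit 0) (XT.lf (nat_lit 0) (nat_lit 7417454620) (nat_lit 304) (nat_lit 1598534405) (nat_lit 76) (nat_lit 7208437895) (nat_lit 59) (nat_lit 5) (nat_lit 63) (nat_lit 5) (nat_lit 60) (nat_lit 5) (nat_lit 305) (nat_lit 260) (nat_lit 215)) (XT.lf (nat_lit 0) (nat_lit 12228727465) (nat_lit 152) (nat_lit 1388690175) (nat_lit 228) (nat_lit 3160283467) (nat_lit 57) (nat_lit 5) (nat_lit 59) (nat_lit 5) (nat_lit 60) (nat_lit 5) (nat_lit 306) (nat_lit 260) (nat_lit 214)))) (XT.nd (nat_lit 156) (nat_lit 304) (nat_lit 0) (XT.nd (nat_lit 78) (nat_lit 152) (nat_lit 0) (XT.lf (nat_lit 0) (nat_lit 2813338926) (nat_lit 304) (nat_lit 7960218349) (nat_lit 76) (nat_lit 6581359370) (nat_lit 53) (nat_lit 5) (nat_lit 57) (nat_lit 5)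 (nat_lit 54) (nat_lit 5) (nat_lit 307) (nat_lit 260) (nat_lit 213)) (XT.lf (nat_lit 0) (nat_lit 6126586753) (nat_lit 152) (nat_lit 2942996734) (nat_lit 228) (nat_lit 8889024999) (nat_lit 51) (nat_lit 5) (nat_lit 53) (nat_lit 5) (nat_lit 54) (nat_lit 5) (nat_lit 308) (nat_lit 260) (nat_lit 212))) (XT.nd (nat_lit 78) (nat_lit 76) (nat_lit 0) (XT.lf (nat_lit 0) (nat_lit 2372880210) (nat_lit 228) (nat_lit 13352437011) (nat_lit 304) (nat_lit 2864599048) (nat_lit 48) (nat_lit 5) (nat_lit 51) (nat_lit 5) (nat_lit 52) (nat_lit 5) (nat_lit 309) (nat_lit 260) (nat_lit 211)) (XT.lf (nat_lit 0) (nat_lit 3478124652) (nat_lit 304) (nat_lit 1892012255) (nat_lit 76) (nat_lit 13879145296) (nat_lit 47) (nat_lit 5) (nat_lit 51) (nat_lit 5) (nat_lit 48) (nat_lit 5) (nat_lit 310) (nat_lit 260) (nat_lit 210))))) (XT.nd (nat_lit 234) (nat_lit 380) (nat_lit 0) (XT.nd (nat_lit 78) (nat_lit 380) (nat_lit 0) (XT.lf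 (nat_lit 0) (nat_lit 10172079243) (nat_lit 228) (nat_lit 6698212038) (nat_lit 76) (nat_lit 3067701991) (nat_lit 45) (nat_lit 5) (nat_lit 48) (nat_lit 5) (nat_lit 46) (nat_lit 5) (nat_lit 311) (nat_lit 260) (nat_lit 209)) (XT.nd (nat_lit 78) (nat_lit 228) (nat_lit 0) (XT.lf (nat_lit 0) (nat_lit 8511910187) (nat_lit 152) (nat_lit 8781325366) (nat_lit 228) (nat_lit 3365155771) (nat_lit 43) (nat_lit 5) (nat_lit 45) (nat_lit 5) (nat_lit 46) (nat_lit 5) (nat_lit 312) (nat_lit 260) (nat_lit 208)) (XT.lf (nat_lit 0) (nat_lit 3132836004) (nat_lit 152) (nat_lit 195264140) (nat_lit 228) (nat_lit 18084627779) (nat_lit 40) (nat_lit 5) (nat_lit 42) (nat_lit 5) (nat_lit 43) (nat_lit 5) (nat_lit 313) (nat_lit 260) (nat_lit 207)))) (XT.nd (nat_lit 156) (nat_lit 228) (nat_lit 0) (XT.nd (nat_lit 78) (nat_lit 152) (nat_lit 0) (XT.lf (nat_lit 0) (nat_lit 10437874897) (nat_lit 228) (nat_lit 2994600531) (nat_lit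 76) (nat_lit 8766786176) (nat_lit 40) (nat_lit 5) (nat_lit 43) (nat_lit 5) (nat_lit 41) (nat_lit 5) (nat_lit 314) (nat_lit 260) (nat_lit 206)) (XT.lf (nat_lit 0) (nat_lit 13212204655) (nat_lit 152) (nat_lit 4762523773) (nat_lit 228) (nat_lit 5048268108) (nat_lit 38) (nat_lit 5) (nat_lit 40) (nat_lit 5) (nat_lit 41) (nat_lit 5) (nat_lit 315) (nat_lit 260) (nat_lit 205))) (XT.nd (nat_lit 78) (nat_lit 0) (nat_lit 0) (XT.lf (nat_lit 0) (nat_lit 2040554370) (nat_lit 228) (nat_lit 17515063796) (nat_lit 76) (nat_lit 4329371183) (nat_lit 35) (nat_lit 5) (nat_lit 38) (nat_lit 5) (nat_lit 36) (nat_lit 5) (nat_lit 316) (nat_lit 260) (nat_lit 204)) (XT.lf (nat_lit 0) (nat_lit 9475688135) (nat_lit 228) (nat_lit 1417779191) (nat_lit 76) (nat_lit 13892246319) (nat_lit 35) (nat_lit 5) (nat_lit 38) (nat_lit 5) (nat_lit 36) (nat_lit 5) (nat_lit 317) (nat_lit 260) (nat_lit 203))))))) (XT.nd (nat_lit 1092) (nat_lit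 684) (nat_lit 0) (XT.nd (nat_lit 546) (nat_lit 380) (nat_lit 0) (XT.nd (nat_lit 234) (nat_lit 456) (nat_lit 0) (XT.nd (nat_lit 78) (nat_lit 152) (nat_lit 0) (XT.lf (nat_lit 0) (nat_lit 15699873475) (nat_lit 152) (nat_lit 1681472245) (nat_lit 228) (nat_lit 8347184095) (nat_lit 33) (nat_lit 5) (nat_lit 35) (nat_lit 5) (nat_lit 36) (nat_lit 5) (nat_lit 318) (nat_lit 260) (nat_lit 202)) (XT.nd (nat_lit 78) (nat_lit 76) (nat_lit 0) (XT.lf (nat_lit 0) (nat_lit 6954307455) (nat_lit 76) (nat_lit 18835505195) (nat_lit 152) (nat_lit 925466137) (nat_lit 32) (nat_lit 5) (nat_lit 33) (nat_lit 5) (nat_lit 34) (nat_lit 4) (nat_lit 319) (nat_lit 260) (nat_lit 201)) (XT.lf (nat_lit 0) (nat_lit 6804766758) (nat_lit 152) (nat_lit 2924153415) (nat_lit 76) (nat_lit 18018338023) (nat_lit 31) (nat_lit 5) (nat_lit 33) (nat_lit 5) (nat_lit 32) (nat_lit 5) (nat_lit 320) (nat_lit 260) (nat_lit 200)))) (XT.nd (nat_lit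 156) (nat_lit 228) (nat_lit 0) (XT.nd (nat_lit 78) (nat_lit 76) (nat_lit 0) (XT.lf (nat_lit 0) (nat_lit 14953273375) (nat_lit 152) (nat_lit 45592671) (nat_lit 228) (nat_lit 13828816455) (nat_lit 29) (nat_lit 5) (nat_lit 31) (nat_lit 5) (nat_lit 32) (nat_lit 5) (nat_lit 321) (nat_lit 260) (nat_lit 199)) (XT.lf (nat_lit 0) (nat_lit 3717051722) (nat_lit 76) (nat_lit 20002760743) (nat_lit 152) (nat_lit 6238816210) (nat_lit 28) (nat_lit 5) (nat_lit 29) (nat_lit 5) (nat_lit 30) (nat_lit 4) (nat_lit 322) (nat_lit 260) (nat_lit 198))) (XT.nd (nat_lit 78) (nat_lit 152) (nat_lit 0) (XT.lf (nat_lit 0) (nat_lit 1796302621) (nat_lit 152) (nat_lit 8763221589) (nat_lit 76) (nat_lit 20583130935) (nat_lit 27) (nat_lit 5) (nat_lit 29) (nat_lit 5) (nat_lit 28) (nat_lit 5) (nat_lit 323) (nat_lit 260) (nat_lit 197)) (XT.lf (nat_lit 0) (nat_lit 9637094703) (nat_lit 152) (nat_lit 517740399) (nat_lit 228) (nat_lit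 22227687277) (nat_lit 25) (nat_lit 5) (nat_lit 27) (nat_lit 5) (nat_lit 28) (nat_lit 5) (nat_lit 324) (nat_lit 260) (nat_lit 196))))) (XT.nd (nat_lit 234) (nat_lit 228) (nat_lit 0) (XT.nd (nat_lit 78) (nat_lit 152) (nat_lit 0) (XT.lf (nat_lit 0) (nat_lit 19076641339) (nat_lit 228) (nat_lit 4714177409) (nat_lit 76) (nat_lit 9889216324) (nat_lit 25) (nat_lit 5) (nat_lit 28) (nat_lit 5) (nat_lit 26) (nat_lit 4) (nat_lit 325) (nat_lit 260) (nat_lit 195)) (XT.nd (nat_lit 78) (nat_lit 76) (nat_lit 0) (XT.lf (nat_lit 0) (nat_lit 14422674102) (nat_lit 76) (nat_lit 14125602374) (nat_lit 152) (nat_lit 6491046680) (nat_lit 24) (nat_lit 5) (nat_lit 25) (nat_lit 5) (nat_lit 26) (nat_lit 4) (nat_lit 326) (nat_lit 260) (nat_lit 194)) (XT.lf (nat_lit 0) (nat_lit 1997088107) (nat_lit 152) (nat_lit 1941101558) (nat_lit 76) (nat_lit 32527520793) (nat_lit 23) (nat_lit 5) (nat_lit 25) (nat_lit 5) (nat_lit 24)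 (nat_lit 5) (nat_lit 327) (nat_lit 260) (nat_lit 193)))) (XT.nd (nat_lit 156) (nat_lit 76) (nat_lit 0) (XT.nd (nat_lit 78) (nat_lit 0) (nat_lit 0) (XT.lf (nat_lit 0) (nat_lit 10978160284) (nat_lit 228) (nat_lit 20140285975) (nat_lit 76) (nat_lit 6836970060) (nat_lit 21) (nat_lit 5) (nat_lit 24) (nat_lit 5) (nat_lit 22) (nat_lit 4) (nat_lit 328) (nat_lit 260) (nat_lit 192)) (XT.lf (nat_lit 0) (nat_lit 20431669125) (nat_lit 228) (nat_lit 1025620199) (nat_lit 76) (nat_lit 18061626650) (nat_lit 21) (nat_lit 5) (nat_lit 24) (nat_lit 5) (nat_lit 22) (nat_lit 4) (nat_lit 329) (nat_lit 260) (nat_lit 191))) (XT.nd (nat_lit 78) (nat_lit 0) (nat_lit 0) (XT.lf (nat_lit 0) (nat_lit 19359308323) (nat_lit 76) (nat_lit 11149833061) (nat_lit 152) (nat_lit 10646920104) (nat_lit 20) (nat_lit 5) (nat_lit 21) (nat_lit 5) (nat_lit 22) (nat_lit 4) (nat_lit 330) (nat_lit 260) (nat_lit 190)) (XT.lf (nat_lit 0) (nat_lit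 40723488114) (nat_lit 76) (nat_lit 343818386) (nat_lit 152) (nat_lit 1808462266) (nat_lit 20) (nat_lit 5) (nat_lit 21) (nat_lit 5) (nat_lit 22) (nat_lit 4) (nat_lit 331) (nat_lit 260) (nat_lit 189)))))) (XT.nd (nat_lit 546) (nat_lit 304) (nat_lit 0) (XT.nd (nat_lit 234) (nat_lit 152) (nat_lit 0) (XT.nd (nat_lit 78) (nat_lit 76) (nat_lit 0) (XT.lf (nat_lit 0) (nat_lit 7581491194) (nat_lit 152) (nat_lit 26074387187) (nat_lit 76) (nat_lit 11015775362) (nat_lit 18) (nat_lit 5) (nat_lit 20) (nat_lit 5) (nat_lit 19) (nat_lit 4) (nat_lit 332) (nat_lit 260) (nat_lit 188)) (XT.nd (nat_lit 78) (nat_lit 76) (nat_lit 0) (XT.lf (nat_lit 0) (nat_lit 17398018468) (nat_lit 152) (nat_lit 6207506874) (nat_lit 76) (nat_lit 22951444107) (nat_lit 18) (nat_lit 5) (nat_lit 20) (nat_lit 5) (nat_lit 19) (nat_lit 4) (nat_lit 333) (nat_lit 260) (nat_lit 187)) (XT.lf (nat_lit 0) (nat_lit 14887839315) (nat_lit 76) (nat_lit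 12930438853) (nat_lit 152) (nat_lit 20714893190) (nat_lit 17) (nat_lit 5) (nat_lit 18) (nat_lit 5) (nat_lit 19) (nat_lit 4) (nat_lit 334) (nat_lit 260) (nat_lit 186)))) (XT.nd (nat_lit 156) (nat_lit 76) (nat_lit 0) (XT.nd (nat_lit 78) (nat_lit 76) (nat_lit 0) (XT.lf (nat_lit 0) (nat_lit 37113865784) (nat_lit 76) (nat_lit 1680302036) (nat_lit 152) (nat_lit 11812984272) (nat_lit 17) (nat_lit 5) (nat_lit 18) (nat_lit 5) (nat_lit 19) (nat_lit 4) (nat_lit 335) (nat_lit 260) (nat_lit 185)) (XT.lf (nat_lit 0) (nat_lit 7666705920) (nat_lit 76) (nat_lit 42795127504) (nat_lit 76) (nat_lit 2318715890) (nat_lit 16) (nat_lit 4) (nat_lit 17) (nat_lit 5) (nat_lit 17) (nat_lit 4) (nat_lit 336) (nat_lit 260) (nat_lit 184))) (XT.nd (nat_lit 78) (nat_lit 0) (nat_lit 0) (XT.lf (nat_lit 0) (nat_lit 7630682417) (nat_lit 152) (nat_lit 25034585920) (nat_lit 76) (nat_lit 22391257242) (nat_lit 15) (nat_lit 5) (nat_lit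 17) (nat_lit 5) (nat_lit 16) (nat_lit 4) (nat_lit 337) (nat_lit 260) (nat_lit 183)) (XT.lf (nat_lit 0) (nat_lit 18003817354) (nat_lit 152) (nat_lit 4023274010) (nat_lit 76) (nat_lit 35419299997) (nat_lit 15) (nat_lit 5) (nat_lit 17) (nat_lit 5) (nat_lit 16) (nat_lit 4) (nat_lit 338) (nat_lit 260) (nat_lit 182))))) (XT.nd (nat_lit 312) (nat_lit 152) (nat_lit 0) (XT.nd (nat_lit 156) (nat_lit 76) (nat_lit 0) (XT.nd (nat_lit 78) (nat_lit 0) (nat_lit 0) (XT.lf (nat_lit 0) (nat_lit 18350492384) (nat_lit 76) (nat_lit 10696537133) (nat_lit 152) (nat_lit 30904184084) (nat_lit 14) (nat_lit 5) (nat_lit 15) (nat_lit 5) (nat_lit 16) (nat_lit 4) (nat_lit 339) (nat_lit 260) (nat_lit 181)) (XT.lf (nat_lit 0) (nat_lit 40671352555) (nat_lit 152) (nat_lit 20710367847) (nat_lit 0) (nat_lit 1198693551) (nat_lit 14) (nat_lit 5) (nat_lit 16) (nat_lit 4) (nat_lit 14) (nat_lit 4) (nat_lit 340) (nat_lit 260) (nat_lit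 180))) (XT.nd (nat_lit 78) (nat_lit 0) (nat_lit 0) (XT.lf (nat_lit 0) (nat_lit 1094658672) (nat_lit 76) (nat_lit 51877464795) (nat_lit 76) (nat_lit 12366099146) (nat_lit 13) (nat_lit 4) (nat_lit 14) (nat_lit 5) (nat_lit 14) (nat_lit 4) (nat_lit 341) (nat_lit 260) (nat_lit 179)) (XT.lf (nat_lit 0) (nat_lit 24380719320) (nat_lit 76) (nat_lit 41697858576) (nat_lit 76) (nat_lit 2149629457) (nat_lit 13) (nat_lit 4) (nat_lit 14) (nat_lit 5) (nat_lit 14) (nat_lit 4) (nat_lit 342) (nat_lit 260) (nat_lit 178)))) (XT.nd (nat_lit 156) (nat_lit 76) (nat_lit 0) (XT.nd (nat_lit 78) (nat_lit 0) (nat_lit 0) (XT.lf (nat_lit 0) (nat_lit 8388589118) (nat_lit 152) (nat_lit 22554501275) (nat_lit 76) (nat_lit 40317782748) (nat_lit 12) (nat_lit 5) (nat_lit 14) (nat_lit 5) (nat_lit 13) (nat_lit 4) (nat_lit 343) (nat_lit 260) (nat_lit 177)) (XT.lf (nat_lit 0) (nat_lit 19389013800) (nat_lit 152) (nat_lit 257075426)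 (nat_lit 76) (nat_lit 54799056303) (nat_lit 12) (nat_lit 5) (nat_lit 14) (nat_lit 5) (nat_lit 13) (nat_lit 4) (nat_lit 344) (nat_lit 260) (nat_lit 176))) (XT.nd (nat_lit 78) (nat_lit 0) (nat_lit 0) (XT.lf (nat_lit 0) (nat_lit 23578646493) (nat_lit 76) (nat_lit 7567788968) (nat_lit 152) (nat_lit 46635990993) (nat_lit 11) (nat_lit 5) (nat_lit 12) (nat_lit 5) (nat_lit 13) (nat_lit 4) (nat_lit 345) (nat_lit 260) (nat_lit 175)) (XT.lf (nat_lit 0) (nat_lit 43524322590) (nat_lit 152) (nat_lit 32760200132) (nat_lit 0) (nat_lit 5001074860) (nat_lit 11) (nat_lit 5) (nat_lit 13) (nat_lit 4) (nat_lit 11) (nat_lit 4) (nat_lit 346) (nat_lit 260) (nat_lit 174))))))))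
noncomputable def xc51 : XT := (XT.nd (nat_lit 34710) (nat_lit 0) (nat_lit 5396) (XT.nd (nat_lit 1092) (nat_lit 152) (nat_lit 0) (XT.nd (nat_lit 546) (nat_lit 76) (nat_lit 0) (XT.nd (nat_lit 234) (nat_lit 152) (nat_lit 0) (XT.nd (nat_lit 78) (nat_lit 76) (nat_lit 0) (XT.lf (nat_lit 0) (nat_lit 56579162675) (nat_lit 152) (nat_lit 10355153917) (nat_lit 0) (nat_lit 18027872717) (nat_lit 11) (nat_lit 5) (nat_lit 13) (nat_lit 4) (nat_lit 11) (nat_lit 4) (nat_lit 347) (nat_lit 260) (nat_lit 173)) (XT.nd (nat_lit 78) (nat_lit 0) (nat_lit 0) (XT.lf (nat_lit 0) (nat_lit 13398911268) (nat_lit 76) (nat_lit 56999179713) (nat_lit 76) (nat_lit 18421182873) (nat_lit 10) (nat_lit 4) (nat_lit 11) (nat_lit 5) (nat_lit 11) (nat_lit 4) (nat_lit 348) (nat_lit 260) (nat_lit 172)) (XT.lf (nat_lit 0) (nat_lit 38525314790) (nat_lit 76) (nat_lit 46472321565) (nat_lit 76) (nat_lit 7868889598) (nat_lit 10) (nat_lit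 4) (nat_lit 11) (nat_lit 5) (nat_lit 11) (nat_lit 4) (nat_lit 349) (nat_lit 260) (nat_lit 171)))) (XT.nd (nat_lit 156) (nat_lit 76) (nat_lit 0) (XT.nd (nat_lit 78) (nat_lit 0) (nat_lit 0) (XT.lf (nat_lit 0) (nat_lit 3132076483) (nat_lit 152) (nat_lit 32269540635) (nat_lit 76) (nat_lit 61714089238) (nat_lit 9) (nat_lit 5) (nat_lit 11) (nat_lit 5) (nat_lit 10) (nat_lit 4) (nat_lit 350) (nat_lit 260) (nat_lit 170)) (XT.lf (nat_lit 0) (nat_lit 14506355045) (nat_lit 152) (nat_lit 9202825564) (nat_lit 76) (nat_lit 77866250765) (nat_lit 9) (nat_lit 5) (nat_lit 11) (nat_lit 5) (nat_lit 10) (nat_lit 4) (nat_lit 351) (nat_lit 260) (nat_lit 169))) (XT.nd (nat_lit 78) (nat_lit 0) (nat_lit 0) (XT.lf (nat_lit 0) (nat_lit 15287815730) (nat_lit 76) (nat_lit 11293718188) (nat_lit 152) (nat_lit 79672646023) (nat_lit 8) (nat_lit 5) (nat_lit 9) (nat_lit 5) (nat_lit 10) (nat_lit 4) (nat_lit 352) (nat_lit 260)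 (nat_lit 168)) (XT.lf (nat_lit 0) (nat_lit 39358448541) (nat_lit 152) (nat_lit 70013657224) (nat_lit 0) (nat_lit 1791823621) (nat_lit 8) (nat_lit 5) (nat_lit 10) (nat_lit 4) (nat_lit 8) (nat_lit 4) (nat_lit 353) (nat_lit 260) (nat_lit 167))))) (XT.nd (nat_lit 234) (nat_lit 76) (nat_lit 0) (XT.nd (nat_lit 78) (nat_lit 0) (nat_lit 0) (XT.lf (nat_lit 0) (nat_lit 52874440770) (nat_lit 152) (nat_lit 48153253976) (nat_lit 0) (nat_lit 15288467221) (nat_lit 8) (nat_lit 5) (nat_lit 10) (nat_lit 4) (nat_lit 8) (nat_lit 4) (nat_lit 354) (nat_lit 260) (nat_lit 166)) (XT.nd (nat_lit 78) (nat_lit 0) (nat_lit 0) (XT.lf (nat_lit 0) (nat_lit 67053129411) (nat_lit 152) (nat_lit 25224543763) (nat_lit 0) (nat_lit 29448728597) (nat_lit 8) (nat_lit 5) (nat_lit 10) (nat_lit 4) (nat_lit 8) (nat_lit 4) (nat_lit 355) (nat_lit 260) (nat_lit 165)) (XT.lf (nat_lit 0) (nat_lit 81928273247) (nat_lit 152) (nat_lit 1172934417)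 (nat_lit 0) (nat_lit 44306322657) (nat_lit 8) (nat_lit 5) (nat_lit 10) (nat_lit 4) (nat_lit 8) (nat_lit 4) (nat_lit 356) (nat_lit 260) (nat_lit 164)))) (XT.nd (nat_lit 156) (nat_lit 0) (nat_lit 0) (XT.nd (nat_lit 78) (nat_lit 0) (nat_lit 0) (XT.lf (nat_lit 0) (nat_lit 24537657885) (nat_lit 76) (nat_lit 73233502380) (nat_lit 76) (nat_lit 35594837718) (nat_lit 7) (nat_lit 4) (nat_lit 8) (nat_lit 5) (nat_lit 8) (nat_lit 4) (nat_lit 357) (nat_lit 260) (nat_lit 163)) (XT.lf (nat_lit 0) (nat_lit 51536517624) (nat_lit 76) (nat_lit 62870220004) (nat_lit 76) (nat_lit 25215637177) (nat_lit 7) (nat_lit 4) (nat_lit 8) (nat_lit 5) (nat_lit 8) (nat_lit 4) (nat_lit 358) (nat_lit 260) (nat_lit 162))) (XT.nd (nat_lit 78) (nat_lit 0) (nat_lit 0) (XT.lf (nat_lit 0) (nat_lit 79864584103) (nat_lit 76) (nat_lit 51998530392) (nat_lit 76) (nat_lit 14328787409) (nat_lit 7) (nat_lit 4) (nat_lit 8) (nat_lit 5) (nat_lit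 8) (nat_lit 4) (nat_lit 359) (nat_lit 260) (nat_lit 161)) (XT.lf (nat_lit 0) (nat_lit 109589305099) (nat_lit 76) (nat_lit 40592548569) (nat_lit 76) (nat_lit 2908367341) (nat_lit 7) (nat_lit 4) (nat_lit 8) (nat_lit 5) (nat_lit 8) (nat_lit 4) (nat_lit 360) (nat_lit 260) (nat_lit 160)))))) (XT.nd (nat_lit 33072) (nat_lit 0) (nat_lit 21508) (XT.nd (nat_lit 234) (nat_lit 0) (nat_lit 0) (XT.nd (nat_lit 78) (nat_lit 76) (nat_lit 0) (XT.lf (nat_lit 0) (nat_lit 8895771211) (nat_lit 152) (nat_lit 19639516376) (nat_lit 76) (nat_lit 131795852700) (nat_lit 6) (nat_lit 5) (nat_lit 8) (nat_lit 5) (nat_lit 7) (nat_lit 4) (nat_lit 361) (nat_lit 260) (nat_lit 159)) (XT.nd (nat_lit 78) (nat_lit 0) (nat_lit 0) (XT.lf (nat_lit 0) (nat_lit 5474316781) (nat_lit 76) (nat_lit 15799252002) (nat_lit 152) (nat_lit 146658366552) (nat_lit 5) (nat_lit 5) (nat_lit 6) (nat_lit 5) (nat_lit 7) (nat_lit 4) (nat_lit 362) (nat_lit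 260) (nat_lit 158)) (XT.lf (nat_lit 0) (nat_lit 32236663573) (nat_lit 76) (nat_lit 2226471264) (nat_lit 152) (nat_lit 141443850579) (nat_lit 5) (nat_lit 5) (nat_lit 6) (nat_lit 5) (nat_lit 7) (nat_lit 4) (nat_lit 363) (nat_lit 260) (nat_lit 157)))) (XT.nd (nat_lit 32682) (nat_lit 0) (nat_lit 24320) (XT.nd (nat_lit 32604) (nat_lit 0) (nat_lit 24548) (XT.lf (nat_lit 0) (nat_lit 48418844063) (nat_lit 152) (nat_lit 124076191327) (nat_lit 0) (nat_lit 11782554229) (nat_lit 5) (nat_lit 5) (nat_lit 7) (nat_lit 4) (nat_lit 5) (nat_lit 4) (nat_lit 364) (nat_lit 260) (nat_lit 156)) (XT.lf (nat_lit 0) (nat_lit 1587945754) (nat_lit 228) (nat_lit 819474398) (nat_lit 228) (nat_lit 819474398) (nat_lit 328) (nat_lit 3) (nat_lit 331) (nat_lit 3) (nat_lit 331) (nat_lit 5) (nat_lit 261) (nat_lit 261) (nat_lit 258))) (XT.nd (nat_lit 78) (nat_lit 0) (nat_lit 0) (XT.lf (nat_lit 0) (nat_lit 1311054026) (nat_lit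 228) (nat_lit 3041082781) (nat_lit 304) (nat_lit 2117539388) (nat_lit 325) (nat_lit 5) (nat_lit 328) (nat_lit 3) (nat_lit 329) (nat_lit 5) (nat_lit 262) (nat_lit 261) (nat_lit 257)) (XT.lf (nat_lit 76) (nat_lit 2147977914) (nat_lit 0) (nat_lit 3657861926) (nat_lit 304) (nat_lit 687747969) (nat_lit 326) (nat_lit 5) (nat_lit 325) (nat_lit 5) (nat_lit 329) (nat_lit 5) (nat_lit 263) (nat_lit 261) (nat_lit 256))))) (XT.nd (nat_lit 234) (nat_lit 2128) (nat_lit 0) (XT.nd (nat_lit 78) (nat_lit 380) (nat_lit 0) (XT.lf (nat_lit 76) (nat_lit 962024747) (nat_lit 0) (nat_lit 2722428927) (nat_lit 380) (nat_lit 2840896123) (nat_lit 322) (nat_lit 5) (nat_lit 321) (nat_lit 5) (nat_lit 326) (nat_lit 5) (nat_lit 264) (nat_lit 261) (nat_lit 255)) (XT.nd (nat_lit 78) (nat_lit 0) (nat_lit 0) (XT.lf (nat_lit 0) (nat_lit 1438583158) (nat_lit 380) (nat_lit 116750714) (nat_lit 456) (nat_lit 5010045367) (nat_lit 316)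 (nat_lit 5) (nat_lit 321) (nat_lit 5) (nat_lit 322) (nat_lit 5) (nat_lit 265) (nat_lit 261) (nat_lit 254)) (XT.lf (nat_lit 76) (nat_lit 5527471334) (nat_lit 0) (nat_lit 136650506) (nat_lit 456) (nat_lit 949150161) (nat_lit 317) (nat_lit 5) (nat_lit 316) (nat_lit 5) (nat_lit 322) (nat_lit 5) (nat_lit 266) (nat_lit 261) (nat_lit 253)))) (XT.nd (nat_lit 156) (nat_lit 1216) (nat_lit 0) (XT.nd (nat_lit 78) (nat_lit 532) (nat_lit 0) (XT.lf (nat_lit 0) (nat_lit 3176756490) (nat_lit 456) (nat_lit 1987477571) (nat_lit 76) (nat_lit 1504538849) (nat_lit 311) (nat_lit 5) (nat_lit 317) (nat_lit 5) (nat_lit 312) (nat_lit 5) (nat_lit 267) (nat_lit 261) (nat_lit 252)) (XT.lf (nat_lit 0) (nat_lit 553045918) (nat_lit 532) (nat_lit 2798894170) (nat_lit 76) (nat_lit 3380814380) (nat_lit 304) (nat_lit 5) (nat_lit 311) (nat_lit 5) (nat_lit 305) (nat_lit 5) (nat_lit 268) (nat_lit 261) (nat_lit 251))) (XT.nd (nat_lit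 78) (nat_lit 684) (nat_lit 0) (XT.lf (nat_lit 0) (nat_lit 3262122400) (nat_lit 532) (nat_lit 1283061163) (nat_lit 608) (nat_lit 2259553867) (nat_lit 297) (nat_lit 5) (nat_lit 304) (nat_lit 5) (nat_lit 305) (nat_lit 5) (nat_lit 269) (nat_lit 261) (nat_lit 250)) (XT.lf (nat_lit 0) (nat_lit 1656680398) (nat_lit 684) (nat_lit 4215725710) (nat_lit 76) (nat_lit 1012613391) (nat_lit 288) (nat_lit 5) (nat_lit 297) (nat_lit 5) (nat_lit 289) (nat_lit 5) (nat_lit 270) (nat_lit 261) (nat_lit 249))))))) (XT.nd (nat_lit 1092) (nat_lit 5700) (nat_lit 0) (XT.nd (nat_lit 546) (nat_lit 3800) (nat_lit 0) (XT.nd (nat_lit 234) (nat_lit 4256) (nat_lit 0) (XT.nd (nat_lit 78) (nat_lit 1672) (nat_lit 0) (XT.lf (nat_lit 0) (nat_lit 2140485799) (nat_lit 684) (nat_lit 3433818702) (nat_lit 760) (nat_lit 1399079689) (nat_lit 279) (nat_lit 5) (nat_lit 288) (nat_lit 5) (nat_lit 289) (nat_lit 5) (nat_lit 271) (nat_lit 261)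 (nat_lit 248)) (XT.nd (nat_lit 78) (nat_lit 836) (nat_lit 0) (XT.lf (nat_lit 0) (nat_lit 1682326529) (nat_lit 760) (nat_lit 736196870) (nat_lit 836) (nat_lit 4651732203) (nat_lit 268) (nat_lit 5) (nat_lit 278) (nat_lit 5) (nat_lit 279) (nat_lit 5) (nat_lit 272) (nat_lit 261) (nat_lit 247)) (XT.lf (nat_lit 0) (nat_lit 1279266940) (nat_lit 836) (nat_lit 4998816425) (nat_lit 912) (nat_lit 897343358) (nat_lit 257) (nat_lit 5) (nat_lit 268) (nat_lit 5) (nat_lit 269) (nat_lit 5) (nat_lit 273) (nat_lit 261) (nat_lit 246)))) (XT.nd (nat_lit 156) (nat_lit 2280) (nat_lit 0) (XT.nd (nat_lit 78) (nat_lit 988) (nat_lit 0) (XT.lf (nat_lit 0) (nat_lit 924811740) (nat_lit 912) (nat_lit 1935867081) (nat_lit 988) (nat_lit 4428291247) (nat_lit 244) (nat_lit 5) (nat_lit 256) (nat_lit 5) (nat_lit 257) (nat_lit 5) (nat_lit 274) (nat_lit 261) (nat_lit 245)) (XT.lf (nat_lit 0) (nat_lit 628268651) (nat_lit 988) (nat_lit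 6050717580) (nat_lit 1064) (nat_lit 732449117) (nat_lit 231) (nat_lit 5) (nat_lit 244) (nat_lit 5) (nat_lit 245) (nat_lit 5) (nat_lit 275) (nat_lit 261) (nat_lit 244))) (XT.nd (nat_lit 78) (nat_lit 1140) (nat_lit 0) (XT.lf (nat_lit 0) (nat_lit 356941879) (nat_lit 1064) (nat_lit 2635497590) (nat_lit 1140) (nat_lit 4549727476) (nat_lit 216) (nat_lit 5) (nat_lit 230) (nat_lit 5) (nat_lit 231) (nat_lit 5) (nat_lit 276) (nat_lit 261) (nat_lit 243)) (XT.lf (nat_lit 0) (nat_lit 138186581) (nat_lit 1140) (nat_lit 6655267772) (nat_lit 1216) (nat_lit 888823285) (nat_lit 201) (nat_lit 5) (nat_lit 216) (nat_lit 5) (nat_lit 217) (nat_lit 5) (nat_lit 277) (nat_lit 261) (nat_lit 242))))) (XT.nd (nat_lit 234) (nat_lit 2280) (nat_lit 0) (XT.nd (nat_lit 78) (nat_lit 1444) (nat_lit 0) (XT.lf (nat_lit 0) (nat_lit 2827630713) (nat_lit 1216) (nat_lit 69598114) (nat_lit 76) (nat_lit 4933602832) (nat_lit 200) (nat_lit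 5) (nat_lit 216) (nat_lit 5) (nat_lit 201) (nat_lit 5) (nat_lit 278) (nat_lit 261) (nat_lit 241)) (XT.nd (nat_lit 78) (nat_lit 684) (nat_lit 0) (XT.lf (nat_lit 0) (nat_lit 6634320729) (nat_lit 836) (nat_lit 235953417) (nat_lit 76) (nat_lit 1118777151) (nat_lit 190) (nat_lit 5) (nat_lit 201) (nat_lit 5) (nat_lit 191) (nat_lit 5) (nat_lit 279) (nat_lit 261) (nat_lit 240)) (XT.lf (nat_lit 0) (nat_lit 2375255232) (nat_lit 684) (nat_lit 401632242) (nat_lit 76) (nat_lit 5379329835) (nat_lit 181) (nat_lit 5) (nat_lit 190) (nat_lit 5) (nat_lit 182) (nat_lit 5) (nat_lit 280) (nat_lit 261) (nat_lit 239)))) (XT.nd (nat_lit 156) (nat_lit 1140) (nat_lit 0) (XT.nd (nat_lit 78) (nat_lit 608) (nat_lit 0) (XT.lf (nat_lit 0) (nat_lit 6204603998) (nat_lit 608) (nat_lit 548679088) (nat_lit 76) (nat_lit 1579993302) (nat_lit 174) (nat_lit 5) (nat_lit 182) (nat_lit 5) (nat_lit 175) (nat_lit 5) (nat_lit 281) (nat_lit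 261) (nat_lit 238)) (XT.lf (nat_lit 0) (nat_lit 1633393553) (nat_lit 608) (nat_lit 698088926) (nat_lit 76) (nat_lit 6188551484) (nat_lit 166) (nat_lit 5) (nat_lit 174) (nat_lit 5) (nat_lit 167) (nat_lit 5) (nat_lit 282) (nat_lit 261) (nat_lit 237))) (XT.nd (nat_lit 78) (nat_lit 608) (nat_lit 0) (XT.lf (nat_lit 0) (nat_lit 5501992400) (nat_lit 608) (nat_lit 856093279) (nat_lit 76) (nat_lit 2358681920) (nat_lit 159) (nat_lit 5) (nat_lit 167) (nat_lit 5) (nat_lit 160) (nat_lit 5) (nat_lit 283) (nat_lit 261) (nat_lit 236)) (XT.lf (nat_lit 0) (nat_lit 597274011) (nat_lit 608) (nat_lit 1014677739) (nat_lit 76) (nat_lit 7312261840) (nat_lit 151) (nat_lit 5) (nat_lit 159) (nat_lit 5) (nat_lit 152) (nat_lit 5) (nat_lit 284) (nat_lit 261) (nat_lit 235)))))) (XT.nd (nat_lit 546) (nat_lit 2660) (nat_lit 0) (XT.nd (nat_lit 234) (nat_lit 1672) (nat_lit 0) (XT.nd (nat_lit 78) (nat_lit 912) (nat_lit 0) (XT.lf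 (nat_lit 0) (nat_lit 4519181118) (nat_lit 532) (nat_lit 1216170291) (nat_lit 76) (nat_lit 3406280207) (nat_lit 145) (nat_lit 5) (nat_lit 152) (nat_lit 5) (nat_lit 146) (nat_lit 5) (nat_lit 285) (nat_lit 261) (nat_lit 234)) (XT.nd (nat_lit 78) (nat_lit 456) (nat_lit 0) (XT.lf (nat_lit 0) (nat_lit 7951057662) (nat_lit 456) (nat_lit 660444494) (nat_lit 532) (nat_lit 759309660) (nat_lit 139) (nat_lit 5) (nat_lit 145) (nat_lit 5) (nat_lit 146) (nat_lit 5) (nat_lit 286) (nat_lit 261) (nat_lit 233)) (XT.lf (nat_lit 0) (nat_lit 3242136093) (nat_lit 456) (nat_lit 1693135194) (nat_lit 76) (nat_lit 4675056169) (nat_lit 133) (nat_lit 5) (nat_lit 139) (nat_lit 5) (nat_lit 134) (nat_lit 5) (nat_lit 287) (nat_lit 261) (nat_lit 232)))) (XT.nd (nat_lit 156) (nat_lit 760) (nat_lit 0) (XT.nd (nat_lit 78) (nat_lit 456) (nat_lit 0) (XT.lf (nat_lit 0) (nat_lit 7408614070) (nat_lit 532) (nat_lit 1987807005) (nat_lit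 76) (nat_lit 465858760) (nat_lit 127) (nat_lit 5) (nat_lit 134) (nat_lit 5) (nat_lit 128) (nat_lit 5) (nat_lit 288) (nat_lit 261) (nat_lit 231)) (XT.lf (nat_lit 0) (nat_lit 1649530147) (nat_lit 456) (nat_lit 2359351477) (nat_lit 76) (nat_lit 6116810775) (nat_lit 121) (nat_lit 5) (nat_lit 127) (nat_lit 5) (nat_lit 122) (nat_lit 5) (nat_lit 289) (nat_lit 261) (nat_lit 230))) (XT.nd (nat_lit 78) (nat_lit 380) (nat_lit 0) (XT.lf (nat_lit 0) (nat_lit 5904152009) (nat_lit 456) (nat_lit 2793570360) (nat_lit 76) (nat_lit 1704007761) (nat_lit 116) (nat_lit 5) (nat_lit 122) (nat_lit 5) (nat_lit 117) (nat_lit 5) (nat_lit 290) (nat_lit 261) (nat_lit 229)) (XT.lf (nat_lit 0) (nat_lit 7390605442) (nat_lit 380) (nat_lit 3006558456) (nat_lit 456) (nat_lit 293725321) (nat_lit 111) (nat_lit 5) (nat_lit 116) (nat_lit 5) (nat_lit 117) (nat_lit 5) (nat_lit 291) (nat_lit 261) (nat_lit 228))))) (XT.nd (nat_lit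 312) (nat_lit 1216) (nat_lit 0) (XT.nd (nat_lit 156) (nat_lit 684) (nat_lit 0) (XT.nd (nat_lit 78) (nat_lit 304) (nat_lit 0) (XT.lf (nat_lit 0) (nat_lit 4059186244) (nat_lit 456) (nat_lit 3919278834) (nat_lit 76) (nat_lit 3014357437) (nat_lit 105) (nat_lit 5) (nat_lit 111) (nat_lit 5) (nat_lit 106) (nat_lit 5) (nat_lit 292) (nat_lit 261) (nat_lit 227)) (XT.lf (nat_lit 0) (nat_lit 6680700148) (nat_lit 304) (nat_lit 1967729093) (nat_lit 380) (nat_lit 2660671761) (nat_lit 101) (nat_lit 5) (nat_lit 105) (nat_lit 5) (nat_lit 106) (nat_lit 5) (nat_lit 293) (nat_lit 261) (nat_lit 226))) (XT.nd (nat_lit 78) (nat_lit 304) (nat_lit 0) (XT.lf (nat_lit 0) (nat_lit 1831747854) (nat_lit 380) (nat_lit 5467618737) (nat_lit 76) (nat_lit 4340129796) (nat_lit 96) (nat_lit 5) (nat_lit 101) (nat_lit 5) (nat_lit 97) (nat_lit 5) (nat_lit 294) (nat_lit 261) (nat_lit 225)) (XT.lf (nat_lit 0) (nat_lit 5546088198)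 (nat_lit 304) (nat_lit 971030845) (nat_lit 380) (nat_lit 5467870683) (nat_lit 92) (nat_lit 5) (nat_lit 96) (nat_lit 5) (nat_lit 97) (nat_lit 5) (nat_lit 295) (nat_lit 261) (nat_lit 224)))) (XT.nd (nat_lit 156) (nat_lit 608) (nat_lit 0) (XT.nd (nat_lit 78) (nat_lit 304) (nat_lit 0) (XT.lf (nat_lit 0) (nat_lit 4779424751) (nat_lit 304) (nat_lit 6719221817) (nat_lit 380) (nat_lit 847320439) (nat_lit 88) (nat_lit 5) (nat_lit 92) (nat_lit 5) (nat_lit 93) (nat_lit 5) (nat_lit 296) (nat_lit 261) (nat_lit 223)) (XT.lf (nat_lit 0) (nat_lit 3861227920) (nat_lit 228) (nat_lit 85599866) (nat_lit 304) (nat_lit 8776450328) (nat_lit 84) (nat_lit 5) (nat_lit 87) (nat_lit 5) (nat_lit 88) (nat_lit 5) (nat_lit 297) (nat_lit 261) (nat_lit 222))) (XT.nd (nat_lit 78) (nat_lit 304) (nat_lit 0) (XT.lf (nat_lit 0) (nat_lit 2745644990) (nat_lit 304) (nat_lit 6298488123) (nat_lit 380) (nat_lit 4072698818) (nat_lit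 80) (nat_lit 5) (nat_lit 84) (nat_lit 5) (nat_lit 85) (nat_lit 5) (nat_lit 298) (nat_lit 261) (nat_lit 221)) (XT.lf (nat_lit 0) (nat_lit 874167842) (nat_lit 304) (nat_lit 12056654735) (nat_lit 76) (nat_lit 598299790) (nat_lit 76) (nat_lit 5) (nat_lit 80) (nat_lit 5) (nat_lit 77) (nat_lit 5) (nat_lit 299) (nat_lit 261) (nat_lit 220))))))))
noncomputable def xc52 : XT := (XT.nd (nat_lit 2184) (nat_lit 1216) (nat_lit 0) (XT.nd (nat_lit 1092) (nat_lit 1444) (nat_lit 0) (XT.nd (nat_lit 546) (nat_lit 1064) (nat_lit 0) (XT.nd (nat_lit 234) (nat_lit 912) (nat_lit 0) (XT.nd (nat_lit 78) (nat_lit 532) (nat_lit 0) (XT.lf (nat_lit 0) (nat_lit 6070641108) (nat_lit 304) (nat_lit 69783810) (nat_lit 76) (nat_lit 7817849018) (nat_lit 76) (nat_lit 5) (nat_lit 80) (nat_lit 5) (nat_lit 77) (nat_lit 5) (nat_lit 300) (nat_lit 261) (nat_lit 219)) (XT.nd (nat_lit 78) (nat_lit 304) (nat_lit 0) (XT.lf (nat_lit 0)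 (nat_lit 11577136964) (nat_lit 304) (nat_lit 1779031144) (nat_lit 76) (nat_lit 1051257683) (nat_lit 73) (nat_lit 5) (nat_lit 77) (nat_lit 5) (nat_lit 74) (nat_lit 5) (nat_lit 301) (nat_lit 261) (nat_lit 218)) (XT.lf (nat_lit 0) (nat_lit 2522664041) (nat_lit 304) (nat_lit 3784751739) (nat_lit 76) (nat_lit 8568215295) (nat_lit 69) (nat_lit 5) (nat_lit 73) (nat_lit 5) (nat_lit 70) (nat_lit 5) (nat_lit 302) (nat_lit 261) (nat_lit 217)))) (XT.nd (nat_lit 156) (nat_lit 456) (nat_lit 0) (XT.nd (nat_lit 78) (nat_lit 228) (nat_lit 0) (XT.lf (nat_lit 0) (nat_lit 8127239916) (nat_lit 304) (nat_lit 6069919555) (nat_lit 76) (nat_lit 1168014035) (nat_lit 66) (nat_lit 5) (nat_lit 70) (nat_lit 5) (nat_lit 67) (nat_lit 5) (nat_lit 303) (nat_lit 261) (nat_lit 216)) (XT.lf (nat_lit 0) (nat_lit 7187525588) (nat_lit 228) (nat_lit 6921329423) (nat_lit 304) (nat_lit 1767474559) (nat_lit 63) (nat_lit 5) (nat_lit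 66) (nat_lit 5) (nat_lit 67) (nat_lit 5) (nat_lit 304) (nat_lit 261) (nat_lit 215))) (XT.nd (nat_lit 78) (nat_lit 152) (nat_lit 0) (XT.lf (nat_lit 0) (nat_lit 3942143521) (nat_lit 304) (nat_lit 11658347651) (nat_lit 76) (nat_lit 810146311) (nat_lit 59) (nat_lit 5) (nat_lit 63) (nat_lit 5) (nat_lit 60) (nat_lit 5) (nat_lit 305) (nat_lit 261) (nat_lit 214)) (XT.lf (nat_lit 0) (nat_lit 1911240197) (nat_lit 152) (nat_lit 8096774540) (nat_lit 228) (nat_lit 6959937224) (nat_lit 57) (nat_lit 5) (nat_lit 59) (nat_lit 5) (nat_lit 60) (nat_lit 5) (nat_lit 306) (nat_lit 261) (nat_lit 213))))) (XT.nd (nat_lit 234) (nat_lit 608) (nat_lit 0) (XT.nd (nat_lit 78) (nat_lit 456) (nat_lit 0) (XT.lf (nat_lit 0) (nat_lit 16290740972) (nat_lit 152) (nat_lit 137207443) (nat_lit 228) (nat_lit 1123694919) (nat_lit 57) (nat_lit 5) (nat_lit 59) (nat_lit 5) (nat_lit 60) (nat_lit 5) (nat_lit 307) (nat_lit 261) (nat_lit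 212)) (XT.nd (nat_lit 78) (nat_lit 152) (nat_lit 0) (XT.lf (nat_lit 0) (nat_lit 5048560835) (nat_lit 304) (nat_lit 4913155046) (nat_lit 76) (nat_lit 8197136271) (nat_lit 53) (nat_lit 5) (nat_lit 57) (nat_lit 5) (nat_lit 54) (nat_lit 5) (nat_lit 308) (nat_lit 261) (nat_lit 211)) (XT.lf (nat_lit 0) (nat_lit 9779237951) (nat_lit 152) (nat_lit 1770805853) (nat_lit 228) (nat_lit 7244758361) (nat_lit 51) (nat_lit 5) (nat_lit 53) (nat_lit 5) (nat_lit 54) (nat_lit 5) (nat_lit 309) (nat_lit 261) (nat_lit 210)))) (XT.nd (nat_lit 156) (nat_lit 152) (nat_lit 0) (XT.nd (nat_lit 78) (nat_lit 228) (nat_lit 0) (XT.lf (nat_lit 0) (nat_lit 5789572737) (nat_lit 228) (nat_lit 12696249827) (nat_lit 304) (nat_lit 973479181) (nat_lit 48) (nat_lit 5) (nat_lit 51) (nat_lit 5) (nat_lit 52) (nat_lit 5) (nat_lit 310) (nat_lit 261) (nat_lit 209)) (XT.lf (nat_lit 0) (nat_lit 1216752681) (nat_lit 152) (nat_lit 4346643258)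 (nat_lit 228) (nat_lit 14590192823) (nat_lit 45) (nat_lit 5) (nat_lit 47) (nat_lit 5) (nat_lit 48) (nat_lit 5) (nat_lit 311) (nat_lit 261) (nat_lit 208))) (XT.nd (nat_lit 78) (nat_lit 152) (nat_lit 0) (XT.lf (nat_lit 0) (nat_lit 12531591765) (nat_lit 228) (nat_lit 3900710683) (nat_lit 76) (nat_lit 4446285516) (nat_lit 45) (nat_lit 5) (nat_lit 48) (nat_lit 5) (nat_lit 46) (nat_lit 5) (nat_lit 312) (nat_lit 261) (nat_lit 207)) (XT.lf (nat_lit 0) (nat_lit 11980127693) (nat_lit 152) (nat_lit 7969787238) (nat_lit 228) (nat_lit 1686894750) (nat_lit 43) (nat_lit 5) (nat_lit 45) (nat_lit 5) (nat_lit 46) (nat_lit 5) (nat_lit 313) (nat_lit 261) (nat_lit 206)))))) (XT.nd (nat_lit 546) (nat_lit 532) (nat_lit 0) (XT.nd (nat_lit 234) (nat_lit 532) (nat_lit 0) (XT.nd (nat_lit 78) (nat_lit 152) (nat_lit 0) (XT.lf (nat_lit 0) (nat_lit 5257460720) (nat_lit 228) (nat_lit 16159437495) (nat_lit 76) (nat_lit 1012892573)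 (nat_lit 40) (nat_lit 5) (nat_lit 43) (nat_lit 5) (nat_lit 41) (nat_lit 5) (nat_lit 314) (nat_lit 261) (nat_lit 205)) (XT.nd (nat_lit 78) (nat_lit 152) (nat_lit 0) (XT.lf (nat_lit 0) (nat_lit 12640650944) (nat_lit 228) (nat_lit 256256107) (nat_lit 76) (nat_lit 10361238913) (nat_lit 40) (nat_lit 5) (nat_lit 43) (nat_lit 5) (nat_lit 41) (nat_lit 5) (nat_lit 315) (nat_lit 261) (nat_lit 204)) (XT.lf (nat_lit 0) (nat_lit 16678103264) (nat_lit 152) (nat_lit 3823168020) (nat_lit 228) (nat_lit 3623419693) (nat_lit 38) (nat_lit 5) (nat_lit 40) (nat_lit 5) (nat_lit 41) (nat_lit 5) (nat_lit 316) (nat_lit 261) (nat_lit 203)))) (XT.nd (nat_lit 156) (nat_lit 152) (nat_lit 0) (XT.nd (nat_lit 78) (nat_lit 152) (nat_lit 0) (XT.lf (nat_lit 0) (nat_lit 3746501962) (nat_lit 228) (nat_lit 15596402580) (nat_lit 76) (nat_lit 5687642298) (nat_lit 35) (nat_lit 5) (nat_lit 38) (nat_lit 5) (nat_lit 36) (nat_lit 5)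 (nat_lit 317) (nat_lit 261) (nat_lit 202)) (XT.lf (nat_lit 0) (nat_lit 1196017511) (nat_lit 152) (nat_lit 10292494619) (nat_lit 228) (nat_lit 14489768980) (nat_lit 33) (nat_lit 5) (nat_lit 35) (nat_lit 5) (nat_lit 36) (nat_lit 5) (nat_lit 318) (nat_lit 261) (nat_lit 201))) (XT.nd (nat_lit 78) (nat_lit 152) (nat_lit 0) (XT.lf (nat_lit 0) (nat_lit 19069927223) (nat_lit 152) (nat_lit 660137569) (nat_lit 228) (nat_lit 7239980981) (nat_lit 33) (nat_lit 5) (nat_lit 35) (nat_lit 5) (nat_lit 36) (nat_lit 5) (nat_lit 319) (nat_lit 261) (nat_lit 200)) (XT.lf (nat_lit 0) (nat_lit 505772969) (nat_lit 152) (nat_lit 18165907460) (nat_lit 76) (nat_lit 9335404299) (nat_lit 31) (nat_lit 5) (nat_lit 33) (nat_lit 5) (nat_lit 32) (nat_lit 5) (nat_lit 320) (nat_lit 261) (nat_lit 199))))) (XT.nd (nat_lit 234) (nat_lit 304) (nat_lit 0) (XT.nd (nat_lit 78) (nat_lit 228) (nat_lit 0) (XT.lf (nat_lit 0) (nat_lit 8534100597)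 (nat_lit 152) (nat_lit 619150147) (nat_lit 76) (nat_lit 19939238716) (nat_lit 31) (nat_lit 5) (nat_lit 33) (nat_lit 5) (nat_lit 32) (nat_lit 5) (nat_lit 321) (nat_lit 261) (nat_lit 198)) (XT.nd (nat_lit 78) (nat_lit 76) (nat_lit 0) (XT.lf (nat_lit 0) (nat_lit 17104134524) (nat_lit 228) (nat_lit 12155860078) (nat_lit 76) (nat_lit 967975336) (nat_lit 29) (nat_lit 5) (nat_lit 32) (nat_lit 5) (nat_lit 30) (nat_lit 4) (nat_lit 322) (nat_lit 261) (nat_lit 197)) (XT.lf (nat_lit 0) (nat_lit 6245579606) (nat_lit 76) (nat_lit 19973966857) (nat_lit 152) (nat_lit 5197185218) (nat_lit 28) (nat_lit 5) (nat_lit 29) (nat_lit 5) (nat_lit 30) (nat_lit 4) (nat_lit 323) (nat_lit 261) (nat_lit 196)))) (XT.nd (nat_lit 156) (nat_lit 76) (nat_lit 0) (XT.nd (nat_lit 78) (nat_lit 152) (nat_lit 0) (XT.lf (nat_lit 0) (nat_lit 3150078458) (nat_lit 152) (nat_lit 6944723272) (nat_lit 76) (nat_lit 22566682582) (nat_lit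 27) (nat_lit 5) (nat_lit 29) (nat_lit 5) (nat_lit 28) (nat_lit 5) (nat_lit 324) (nat_lit 261) (nat_lit 195)) (XT.lf (nat_lit 0) (nat_lit 11891490507) (nat_lit 228) (nat_lit 21657685592) (nat_lit 76) (nat_lit 415238543) (nat_lit 25) (nat_lit 5) (nat_lit 28) (nat_lit 5) (nat_lit 26) (nat_lit 4) (nat_lit 325) (nat_lit 261) (nat_lit 194))) (XT.nd (nat_lit 78) (nat_lit 76) (nat_lit 0) (XT.lf (nat_lit 0) (nat_lit 21205844195) (nat_lit 228) (nat_lit 2835802671) (nat_lit 76) (nat_lit 11286779840) (nat_lit 25) (nat_lit 5) (nat_lit 28) (nat_lit 5) (nat_lit 26) (nat_lit 4) (nat_lit 326) (nat_lit 261) (nat_lit 193)) (XT.lf (nat_lit 0) (nat_lit 17197291634) (nat_lit 76) (nat_lit 13917538761) (nat_lit 152) (nat_lit 5641952339) (nat_lit 24) (nat_lit 5) (nat_lit 25) (nat_lit 5) (nat_lit 26) (nat_lit 4) (nat_lit 327) (nat_lit 261) (nat_lit 192))))))) (XT.nd (nat_lit 1092) (nat_lit 456) (nat_lit 0) (XT.nd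 (nat_lit 546) (nat_lit 304) (nat_lit 0) (XT.nd (nat_lit 234) (nat_lit 152) (nat_lit 0) (XT.nd (nat_lit 78) (nat_lit 228) (nat_lit 0) (XT.lf (nat_lit 0) (nat_lit 3192889752) (nat_lit 152) (nat_lit 60338924) (nat_lit 76) (nat_lit 35002581558) (nat_lit 23) (nat_lit 5) (nat_lit 25) (nat_lit 5) (nat_lit 24) (nat_lit 5) (nat_lit 328) (nat_lit 261) (nat_lit 191)) (XT.nd (nat_lit 78) (nat_lit 76) (nat_lit 0) (XT.lf (nat_lit 0) (nat_lit 12597550842) (nat_lit 228) (nat_lit 19202273075) (nat_lit 76) (nat_lit 8020956046) (nat_lit 21) (nat_lit 5) (nat_lit 24) (nat_lit 5) (nat_lit 22) (nat_lit 4) (nat_lit 329) (nat_lit 261) (nat_lit 190)) (XT.lf (nat_lit 0) (nat_lit 790939729) (nat_lit 76) (nat_lit 21689423033) (nat_lit 152) (nat_lit 18983406947) (nat_lit 20) (nat_lit 5) (nat_lit 21) (nat_lit 5) (nat_lit 22) (nat_lit 4) (nat_lit 330) (nat_lit 261) (nat_lit 189)))) (XT.nd (nat_lit 156) (nat_lit 152) (nat_lit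 0) (XT.nd (nat_lit 78) (nat_lit 0) (nat_lit 0) (XT.lf (nat_lit 0) (nat_lit 22126581725) (nat_lit 76) (nat_lit 10896272001) (nat_lit 152) (nat_lit 10161097695) (nat_lit 20) (nat_lit 5) (nat_lit 21) (nat_lit 5) (nat_lit 22) (nat_lit 4) (nat_lit 331) (nat_lit 261) (nat_lit 188)) (XT.lf (nat_lit 0) (nat_lit 44065822161) (nat_lit 152) (nat_lit 521734164) (nat_lit 0) (nat_lit 403393527) (nat_lit 20) (nat_lit 5) (nat_lit 22) (nat_lit 4) (nat_lit 20) (nat_lit 4) (nat_lit 332) (nat_lit 261) (nat_lit 187))) (XT.nd (nat_lit 78) (nat_lit 0) (nat_lit 0) (XT.lf (nat_lit 0) (nat_lit 8889552345) (nat_lit 152) (nat_lit 25674418375) (nat_lit 76) (nat_lit 12313162326) (nat_lit 18) (nat_lit 5) (nat_lit 20) (nat_lit 5) (nat_lit 19) (nat_lit 4) (nat_lit 333) (nat_lit 261) (nat_lit 186)) (XT.lf (nat_lit 0) (nat_lit 19152668525) (nat_lit 152) (nat_lit 4895322053) (nat_lit 76) (nat_lit 24810062213) (nat_lit 18) (nat_lit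 5) (nat_lit 20) (nat_lit 5) (nat_lit 19) (nat_lit 4) (nat_lit 334) (nat_lit 261) (nat_lit 185))))) (XT.nd (nat_lit 234) (nat_lit 152) (nat_lit 0) (XT.nd (nat_lit 78) (nat_lit 76) (nat_lit 0) (XT.lf (nat_lit 0) (nat_lit 17208281083) (nat_lit 76) (nat_lit 12858679171) (nat_lit 152) (nat_lit 20866924574) (nat_lit 17) (nat_lit 5) (nat_lit 18) (nat_lit 5) (nat_lit 19) (nat_lit 4) (nat_lit 335) (nat_lit 261) (nat_lit 184)) (XT.nd (nat_lit 78) (nat_lit 76) (nat_lit 0) (XT.lf (nat_lit 0) (nat_lit 40470558885) (nat_lit 76) (nat_lit 1080239400) (nat_lit 152) (nat_lit 11562001795) (nat_lit 17) (nat_lit 5) (nat_lit 18) (nat_lit 5) (nat_lit 19) (nat_lit 4) (nat_lit 336) (nat_lit 261) (nat_lit 183)) (XT.lf (nat_lit 0) (nat_lit 9525629210) (nat_lit 76) (nat_lit 44257763805) (nat_lit 76) (nat_lit 1612037390) (nat_lit 16) (nat_lit 4) (nat_lit 17) (nat_lit 5) (nat_lit 17) (nat_lit 4) (nat_lit 337) (nat_lit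 261) (nat_lit 182)))) (XT.nd (nat_lit 156) (nat_lit 76) (nat_lit 0) (XT.nd (nat_lit 78) (nat_lit 0) (nat_lit 0) (XT.lf (nat_lit 0) (nat_lit 8780370944) (nat_lit 152) (nat_lit 24865527694) (nat_lit 76) (nat_lit 24140230744) (nat_lit 15) (nat_lit 5) (nat_lit 17) (nat_lit 5) (nat_lit 16) (nat_lit 4) (nat_lit 338) (nat_lit 261) (nat_lit 181)) (XT.lf (nat_lit 0) (nat_lit 19635583847) (nat_lit 152) (nat_lit 2871306738) (nat_lit 76) (nat_lit 37789703701) (nat_lit 15) (nat_lit 5) (nat_lit 17) (nat_lit 5) (nat_lit 16) (nat_lit 4) (nat_lit 339) (nat_lit 261) (nat_lit 180))) (XT.nd (nat_lit 78) (nat_lit 0) (nat_lit 0) (XT.lf (nat_lit 0) (nat_lit 20582360748) (nat_lit 76) (nat_lit 10626393212) (nat_lit 152) (nat_lit 31718577823) (nat_lit 14) (nat_lit 5) (nat_lit 15) (nat_lit 5) (nat_lit 16) (nat_lit 4) (nat_lit 340) (nat_lit 261) (nat_lit 179)) (XT.lf (nat_lit 0) (nat_lit 43386051912) (nat_lit 152) (nat_lit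 20479247292) (nat_lit 0) (nat_lit 1823547866) (nat_lit 14) (nat_lit 5) (nat_lit 16) (nat_lit 4) (nat_lit 14) (nat_lit 4) (nat_lit 341) (nat_lit 261) (nat_lit 178)))))) (XT.nd (nat_lit 546) (nat_lit 228) (nat_lit 0) (XT.nd (nat_lit 234) (nat_lit 76) (nat_lit 0) (XT.nd (nat_lit 78) (nat_lit 76) (nat_lit 0) (XT.lf (nat_lit 0) (nat_lit 2379722602) (nat_lit 76) (nat_lit 53901530618) (nat_lit 76) (nat_lit 12303918505) (nat_lit 13) (nat_lit 4) (nat_lit 14) (nat_lit 5) (nat_lit 14) (nat_lit 4) (nat_lit 342) (nat_lit 261) (nat_lit 177)) (XT.nd (nat_lit 78) (nat_lit 76) (nat_lit 0) (XT.lf (nat_lit 0) (nat_lit 26771499092) (nat_lit 76) (nat_lit 43240077775) (nat_lit 76) (nat_lit 1609029407) (nat_lit 13) (nat_lit 4) (nat_lit 14) (nat_lit 5) (nat_lit 14) (nat_lit 4) (nat_lit 343) (nat_lit 261) (nat_lit 176)) (XT.lf (nat_lit 0) (nat_lit 9413194877) (nat_lit 152) (nat_lit 22554106818) (nat_lit 76) (nat_lit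 42838330970) (nat_lit 12) (nat_lit 5) (nat_lit 14) (nat_lit 5) (nat_lit 13) (nat_lit 4) (nat_lit 344) (nat_lit 261) (nat_lit 175)))) (XT.nd (nat_lit 156) (nat_lit 0) (nat_lit 0) (XT.nd (nat_lit 78) (nat_lit 0) (nat_lit 0) (XT.lf (nat_lit 0) (nat_lit 820480882) (nat_lit 76) (nat_lit 20122228955) (nat_lit 152) (nat_lit 57207042900) (nat_lit 11) (nat_lit 5) (nat_lit 12) (nat_lit 5) (nat_lit 13) (nat_lit 4) (nat_lit 345) (nat_lit 261) (nat_lit 174)) (XT.lf (nat_lit 0) (nat_lit 25801180914) (nat_lit 76) (nat_lit 7461520808) (nat_lit 152) (nat_lit 48391960854) (nat_lit 11) (nat_lit 5) (nat_lit 12) (nat_lit 5) (nat_lit 13) (nat_lit 4) (nat_lit 346) (nat_lit 261) (nat_lit 173))) (XT.nd (nat_lit 78) (nat_lit 0) (nat_lit 0) (XT.lf (nat_lit 0) (nat_lit 46237303780) (nat_lit 152) (nat_lit 33392659214) (nat_lit 0) (nat_lit 5703700215) (nat_lit 11) (nat_lit 5) (nat_lit 13) (nat_lit 4) (nat_lit 11) (nat_lit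 4) (nat_lit 347) (nat_lit 261) (nat_lit 172)) (XT.lf (nat_lit 0) (nat_lit 59919325628) (nat_lit 152) (nat_lit 9915244065) (nat_lit 0) (nat_lit 19360286936) (nat_lit 11) (nat_lit 5) (nat_lit 13) (nat_lit 4) (nat_lit 11) (nat_lit 4) (nat_lit 348) (nat_lit 261) (nat_lit 171))))) (XT.nd (nat_lit 234) (nat_lit 76) (nat_lit 0) (XT.nd (nat_lit 78) (nat_lit 76) (nat_lit 0) (XT.lf (nat_lit 0) (nat_lit 14999073030) (nat_lit 76) (nat_lit 59414726040) (nat_lit 76) (nat_lit 18831463418) (nat_lit 10) (nat_lit 4) (nat_lit 11) (nat_lit 5) (nat_lit 11) (nat_lit 4) (nat_lit 349) (nat_lit 261) (nat_lit 170)) (XT.nd (nat_lit 78) (nat_lit 76) (nat_lit 0) (XT.lf (nat_lit 0) (nat_lit 41337500719) (nat_lit 76) (nat_lit 48382211301) (nat_lit 76) (nat_lit 7775878269) (nat_lit 10) (nat_lit 4) (nat_lit 11) (nat_lit 5) (nat_lit 11) (nat_lit 4) (nat_lit 350) (nat_lit 261) (nat_lit 169)) (XT.lf (nat_lit 0) (nat_lit 3742931073)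 (nat_lit 152) (nat_lit 33030154772) (nat_lit 76) (nat_lit 65184689407) (nat_lit 9) (nat_lit 5) (nat_lit 11) (nat_lit 5) (nat_lit 10) (nat_lit 4) (nat_lit 351) (nat_lit 261) (nat_lit 168)))) (XT.nd (nat_lit 156) (nat_lit 0) (nat_lit 0) (XT.nd (nat_lit 78) (nat_lit 76) (nat_lit 0) (XT.lf (nat_lit 0) (nat_lit 15664292574) (nat_lit 152) (nat_lit 8850716465) (nat_lit 76) (nat_lit 82126130643) (nat_lit 9) (nat_lit 5) (nat_lit 11) (nat_lit 5) (nat_lit 10) (nat_lit 4) (nat_lit 352) (nat_lit 261) (nat_lit 167)) (XT.lf (nat_lit 0) (nat_lit 16841173899) (nat_lit 76) (nat_lit 11489039587) (nat_lit 152) (nat_lit 83224006731) (nat_lit 8) (nat_lit 5) (nat_lit 9) (nat_lit 5) (nat_lit 10) (nat_lit 4) (nat_lit 353) (nat_lit 261) (nat_lit 166))) (XT.nd (nat_lit 78) (nat_lit 0) (nat_lit 0) (XT.lf (nat_lit 0) (nat_lit 41729374234) (nat_lit 152) (nat_lit 72754258612) (nat_lit 0) (nat_lit 2226326115) (nat_lit 8)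 (nat_lit 5) (nat_lit 10) (nat_lit 4) (nat_lit 8) (nat_lit 4) (nat_lit 354) (nat_lit 261) (nat_lit 165)) (XT.lf (nat_lit 0) (nat_lit 55901975443) (nat_lit 152) (nat_lit 49837029559) (nat_lit 0) (nat_lit 16381377547) (nat_lit 8) (nat_lit 5) (nat_lit 10) (nat_lit 4) (nat_lit 8) (nat_lit 4) (nat_lit 355) (nat_lit 261) (nat_lit 164))))))))
noncomputable def xc53 : XT := (XT.nd (nat_lit 34788) (nat_lit 0) (nat_lit 3648) (XT.nd (nat_lit 33696) (nat_lit 0) (nat_lit 13376) (XT.nd (nat_lit 546) (nat_lit 76) (nat_lit 0) (XT.nd (nat_lit 234) (nat_lit 76) (nat_lit 0) (XT.nd (nat_lit 78) (nat_lit 76) (nat_lit 0) (XT.lf (nat_lit 0) (nat_lit 70771321724) (nat_lit 152) (nat_lit 25796354650) (nat_lit 0) (nat_lit 31234009756) (nat_lit 8) (nat_lit 5) (nat_lit 10) (nat_lit 4) (nat_lit 8) (nat_lit 4) (nat_lit 356) (nat_lit 261) (nat_lit 163)) (XT.nd (nat_lit 78) (nat_lit 76) (nat_lit 0) (XT.lf (nat_lit 0) (nat_lit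 86372816283) (nat_lit 152) (nat_lit 574994184) (nat_lit 0) (nat_lit 46819586150) (nat_lit 8) (nat_lit 5) (nat_lit 10) (nat_lit 4) (nat_lit 8) (nat_lit 4) (nat_lit 357) (nat_lit 261) (nat_lit 162)) (XT.lf (nat_lit 0) (nat_lit 26402306800) (nat_lit 76) (nat_lit 76595093860) (nat_lit 76) (nat_lit 37026703571) (nat_lit 7) (nat_lit 4) (nat_lit 8) (nat_lit 5) (nat_lit 8) (nat_lit 4) (nat_lit 358) (nat_lit 261) (nat_lit 161)))) (XT.nd (nat_lit 156) (nat_lit 76) (nat_lit 0) (XT.nd (nat_lit 78) (nat_lit 0) (nat_lit 0) (XT.lf (nat_lit 0) (nat_lit 54720739715) (nat_lit 76) (nat_lit 65727937062) (nat_lit 76) (nat_lit 26145108529) (nat_lit 7) (nat_lit 4) (nat_lit 8) (nat_lit 5) (nat_lit 8) (nat_lit 4) (nat_lit 359) (nat_lit 261) (nat_lit 160)) (XT.lf (nat_lit 0) (nat_lit 84436285889) (nat_lit 76) (nat_lit 54326272205) (nat_lit 76) (nat_lit 14729692962) (nat_lit 7) (nat_lit 4) (nat_lit 8) (nat_lit 5) (nat_lit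 8) (nat_lit 4) (nat_lit 360) (nat_lit 261) (nat_lit 159))) (XT.nd (nat_lit 78) (nat_lit 76) (nat_lit 0) (XT.lf (nat_lit 0) (nat_lit 115619696622) (nat_lit 76) (nat_lit 42362952467) (nat_lit 76) (nat_lit 2753277311) (nat_lit 7) (nat_lit 4) (nat_lit 8) (nat_lit 5) (nat_lit 8) (nat_lit 4) (nat_lit 361) (nat_lit 261) (nat_lit 158)) (XT.lf (nat_lit 0) (nat_lit 9621173482) (nat_lit 152) (nat_lit 20091165284) (nat_lit 76) (nat_lit 138626889661) (nat_lit 6) (nat_lit 5) (nat_lit 8) (nat_lit 5) (nat_lit 7) (nat_lit 4) (nat_lit 362) (nat_lit 261) (nat_lit 157))))) (XT.nd (nat_lit 32838) (nat_lit 0) (nat_lit 23180) (XT.nd (nat_lit 78) (nat_lit 0) (nat_lit 0) (XT.lf (nat_lit 0) (nat_lit 6263157817) (nat_lit 76) (nat_lit 16346292257) (nat_lit 152) (nat_lit 153710867882) (nat_lit 5) (nat_lit 5) (nat_lit 6) (nat_lit 5) (nat_lit 7) (nat_lit 4) (nat_lit 363) (nat_lit 261) (nat_lit 156)) (XT.nd (nat_lit 32682)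 (nat_lit 0) (nat_lit 24320) (XT.lf (nat_lit 0) (nat_lit 34339092177) (nat_lit 76) (nat_lit 2106440213) (nat_lit 152) (nat_lit 148248979301) (nat_lit 5) (nat_lit 5) (nat_lit 6) (nat_lit 5) (nat_lit 7) (nat_lit 4) (nat_lit 364) (nat_lit 261) (nat_lit 155)) (XT.lf (nat_lit 0) (nat_lit 1420543544) (nat_lit 0) (nat_lit 1420543544) (nat_lit 228) (nat_lit 403658998) (nat_lit 325) (nat_lit 5) (nat_lit 325) (nat_lit 3) (nat_lit 328) (nat_lit 3) (nat_lit 262) (nat_lit 262) (nat_lit 256)))) (XT.nd (nat_lit 156) (nat_lit 380) (nat_lit 0) (XT.nd (nat_lit 78) (nat_lit 380) (nat_lit 0) (XT.lf (nat_lit 76) (nat_lit 1426819690) (nat_lit 0) (nat_lit 2012294459) (nat_lit 380) (nat_lit 3078060409) (nat_lit 321) (nat_lit 5) (nat_lit 320) (nat_lit 3) (nat_lit 325) (nat_lit 5) (nat_lit 263) (nat_lit 262) (nat_lit 255)) (XT.lf (nat_lit 76) (nat_lit 119357786) (nat_lit 0) (nat_lit 953178351) (nat_lit 456) (nat_lit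 5480629898) (nat_lit 316) (nat_lit 5) (nat_lit 315) (nat_lit 5) (nat_lit 321) (nat_lit 5) (nat_lit 264) (nat_lit 262) (nat_lit 254))) (XT.nd (nat_lit 78) (nat_lit 456) (nat_lit 0) (XT.lf (nat_lit 0) (nat_lit 5159202097) (nat_lit 380) (nat_lit 1080437385) (nat_lit 456) (nat_lit 357068235) (nat_lit 316) (nat_lit 5) (nat_lit 321) (nat_lit 5) (nat_lit 322) (nat_lit 5) (nat_lit 265) (nat_lit 262) (nat_lit 253)) (XT.lf (nat_lit 0) (nat_lit 2552906605) (nat_lit 456) (nat_lit 2202097540) (nat_lit 532) (nat_lit 1893013388) (nat_lit 310) (nat_lit 5) (nat_lit 316) (nat_lit 5) (nat_lit 317) (nat_lit 5) (nat_lit 266) (nat_lit 262) (nat_lit 252)))))) (XT.nd (nat_lit 546) (nat_lit 6536) (nat_lit 0) (XT.nd (nat_lit 234) (nat_lit 2204) (nat_lit 0) (XT.nd (nat_lit 78) (nat_lit 1064) (nat_lit 0) (XT.lf (nat_lit 76) (nat_lit 3475263076) (nat_lit 0) (nat_lit 3040232410) (nat_lit 532) (nat_lit 192278220) (nat_lit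 311) (nat_lit 5) (nat_lit 310) (nat_lit 5) (nat_lit 317) (nat_lit 5) (nat_lit 267) (nat_lit 262) (nat_lit 251)) (XT.nd (nat_lit 78) (nat_lit 532) (nat_lit 0) (XT.lf (nat_lit 76) (nat_lit 2576841237) (nat_lit 0) (nat_lit 1065291304) (nat_lit 608) (nat_lit 3133230140) (nat_lit 304) (nat_lit 5) (nat_lit 303) (nat_lit 5) (nat_lit 311) (nat_lit 5) (nat_lit 268) (nat_lit 262) (nat_lit 250)) (XT.lf (nat_lit 0) (nat_lit 636016635) (nat_lit 608) (nat_lit 5088285822) (nat_lit 76) (nat_lit 1127041061) (nat_lit 296) (nat_lit 5) (nat_lit 304) (nat_lit 5) (nat_lit 297) (nat_lit 5) (nat_lit 269) (nat_lit 262) (nat_lit 249)))) (XT.nd (nat_lit 156) (nat_lit 836) (nat_lit 0) (XT.nd (nat_lit 78) (nat_lit 760) (nat_lit 0) (XT.lf (nat_lit 0) (nat_lit 1005189311) (nat_lit 608) (nat_lit 3370800390) (nat_lit 684) (nat_lit 2559100061) (nat_lit 288) (nat_lit 5) (nat_lit 296) (nat_lit 5) (nat_lit 297) (nat_lit 5) (nat_lit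 270) (nat_lit 262) (nat_lit 248)) (XT.lf (nat_lit 0) (nat_lit 329455329) (nat_lit 684) (nat_lit 770556349) (nat_lit 760) (nat_lit 5927576704) (nat_lit 278) (nat_lit 5) (nat_lit 287) (nat_lit 5) (nat_lit 288) (nat_lit 5) (nat_lit 271) (nat_lit 262) (nat_lit 247))) (XT.nd (nat_lit 78) (nat_lit 836) (nat_lit 0) (XT.lf (nat_lit 0) (nat_lit 4768263525) (nat_lit 760) (nat_lit 297322926) (nat_lit 76) (nat_lit 2062264097) (nat_lit 278) (nat_lit 5) (nat_lit 288) (nat_lit 5) (nat_lit 279) (nat_lit 5) (nat_lit 272) (nat_lit 262) (nat_lit 246)) (XT.lf (nat_lit 0) (nat_lit 1235245486) (nat_lit 836) (nat_lit 856177160) (nat_lit 76) (nat_lit 5145289666) (nat_lit 267) (nat_lit 5) (nat_lit 278) (nat_lit 5) (nat_lit 268) (nat_lit 5) (nat_lit 273) (nat_lit 262) (nat_lit 245))))) (XT.nd (nat_lit 234) (nat_lit 3724) (nat_lit 0) (XT.nd (nat_lit 78) (nat_lit 1976) (nat_lit 0) (XT.lf (nat_lit 0) (nat_lit 4846762393)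 (nat_lit 912) (nat_lit 1371981978) (nat_lit 76) (nat_lit 1135239227) (nat_lit 256) (nat_lit 5) (nat_lit 268) (nat_lit 5) (nat_lit 257) (nat_lit 5) (nat_lit 274) (nat_lit 262) (nat_lit 244)) (XT.nd (nat_lit 78) (nat_lit 988) (nat_lit 0) (XT.lf (nat_lit 0) (nat_lit 1043473704) (nat_lit 988) (nat_lit 1847304416) (nat_lit 76) (nat_lit 4589094635) (nat_lit 243) (nat_lit 5) (nat_lit 256) (nat_lit 5) (nat_lit 244) (nat_lit 5) (nat_lit 275) (nat_lit 262) (nat_lit 243)) (XT.lf (nat_lit 0) (nat_lit 4619335929) (nat_lit 1064) (nat_lit 2286988877) (nat_lit 76) (nat_lit 708213248) (nat_lit 230) (nat_lit 5) (nat_lit 244) (nat_lit 5) (nat_lit 231) (nat_lit 5) (nat_lit 276) (nat_lit 262) (nat_lit 242)))) (XT.nd (nat_lit 156) (nat_lit 1444) (nat_lit 0) (XT.nd (nat_lit 78) (nat_lit 1140) (nat_lit 0) (XT.lf (nat_lit 0) (nat_lit 535783718) (nat_lit 1140) (nat_lit 2699129830) (nat_lit 76) (nat_lit 4523146230)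 (nat_lit 215) (nat_lit 5) (nat_lit 230) (nat_lit 5) (nat_lit 216) (nat_lit 5) (nat_lit 277) (nat_lit 262) (nat_lit 241)) (XT.lf (nat_lit 0) (nat_lit 4097571181) (nat_lit 1216) (nat_lit 3090864862) (nat_lit 76) (nat_lit 722131739) (nat_lit 200) (nat_lit 5) (nat_lit 216) (nat_lit 5) (nat_lit 201) (nat_lit 5) (nat_lit 278) (nat_lit 262) (nat_lit 240))) (XT.nd (nat_lit 78) (nat_lit 684) (nat_lit 0) (XT.lf (nat_lit 0) (nat_lit 4608721050) (nat_lit 760) (nat_lit 3178520930) (nat_lit 836) (nat_lit 285142328) (nat_lit 190) (nat_lit 5) (nat_lit 200) (nat_lit 5) (nat_lit 201) (nat_lit 5) (nat_lit 279) (nat_lit 262) (nat_lit 239)) (XT.lf (nat_lit 0) (nat_lit 3287165099) (nat_lit 684) (nat_lit 3833315305) (nat_lit 76) (nat_lit 1122945486) (nat_lit 181) (nat_lit 5) (nat_lit 190) (nat_lit 5) (nat_lit 182) (nat_lit 5) (nat_lit 280) (nat_lit 262) (nat_lit 238))))))) (XT.nd (nat_lit 1092) (nat_lit 3572) (nat_lit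 0) (XT.nd (nat_lit 546) (nat_lit 2508) (nat_lit 0) (XT.nd (nat_lit 234) (nat_lit 1976) (nat_lit 0) (XT.nd (nat_lit 78) (nat_lit 1140) (nat_lit 0) (XT.lf (nat_lit 0) (nat_lit 4226712699) (nat_lit 532) (nat_lit 2769199538) (nat_lit 608) (nat_lit 1428266787) (nat_lit 174) (nat_lit 5) (nat_lit 181) (nat_lit 5) (nat_lit 182) (nat_lit 5) (nat_lit 281) (nat_lit 262) (nat_lit 237)) (XT.nd (nat_lit 78) (nat_lit 532) (nat_lit 0) (XT.lf (nat_lit 0) (nat_lit 2187837380) (nat_lit 608) (nat_lit 4566559791) (nat_lit 76) (nat_lit 1860376557) (nat_lit 166) (nat_lit 5) (nat_lit 174) (nat_lit 5) (nat_lit 167) (nat_lit 5) (nat_lit 282) (nat_lit 262) (nat_lit 236)) (XT.lf (nat_lit 0) (nat_lit 3865860202) (nat_lit 532) (nat_lit 2062585480) (nat_lit 608) (nat_lit 2886968332) (nat_lit 159) (nat_lit 5) (nat_lit 166) (nat_lit 5) (nat_lit 167) (nat_lit 5) (nat_lit 283) (nat_lit 262) (nat_lit 235)))) (XT.nd (nat_lit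 156) (nat_lit 912) (nat_lit 0) (XT.nd (nat_lit 78) (nat_lit 456) (nat_lit 0) (XT.lf (nat_lit 0) (nat_lit 793115339) (nat_lit 608) (nat_lit 5346774383) (nat_lit 76) (nat_lit 2886704708) (nat_lit 151) (nat_lit 5) (nat_lit 159) (nat_lit 5) (nat_lit 152) (nat_lit 5) (nat_lit 284) (nat_lit 262) (nat_lit 234)) (XT.lf (nat_lit 0) (nat_lit 3469285673) (nat_lit 456) (nat_lit 1107068404) (nat_lit 532) (nat_lit 4671877371) (nat_lit 145) (nat_lit 5) (nat_lit 151) (nat_lit 5) (nat_lit 152) (nat_lit 5) (nat_lit 285) (nat_lit 262) (nat_lit 233))) (XT.nd (nat_lit 78) (nat_lit 456) (nat_lit 0) (XT.lf (nat_lit 0) (nat_lit 3236341337) (nat_lit 456) (nat_lit 5316473288) (nat_lit 532) (nat_lit 928128975) (nat_lit 139) (nat_lit 5) (nat_lit 145) (nat_lit 5) (nat_lit 146) (nat_lit 5) (nat_lit 286) (nat_lit 262) (nat_lit 232)) (XT.lf (nat_lit 0) (nat_lit 2924954454) (nat_lit 456) (nat_lit 6751575568) (nat_lit 76)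 (nat_lit 48579503) (nat_lit 133) (nat_lit 5) (nat_lit 139) (nat_lit 5) (nat_lit 134) (nat_lit 5) (nat_lit 287) (nat_lit 262) (nat_lit 231))))) (XT.nd (nat_lit 234) (nat_lit 1216) (nat_lit 0) (XT.nd (nat_lit 78) (nat_lit 836) (nat_lit 0) (XT.lf (nat_lit 0) (nat_lit 2649287295) (nat_lit 456) (nat_lit 4330991445) (nat_lit 532) (nat_lit 3000167210) (nat_lit 127) (nat_lit 5) (nat_lit 133) (nat_lit 5) (nat_lit 134) (nat_lit 5) (nat_lit 288) (nat_lit 262) (nat_lit 230)) (XT.nd (nat_lit 78) (nat_lit 380) (nat_lit 0) (XT.lf (nat_lit 0) (nat_lit 963482660) (nat_lit 456) (nat_lit 7952861474) (nat_lit 76) (nat_lit 1332223995) (nat_lit 121) (nat_lit 5) (nat_lit 127) (nat_lit 5) (nat_lit 122) (nat_lit 5) (nat_lit 289) (nat_lit 262) (nat_lit 229)) (XT.lf (nat_lit 0) (nat_lit 1851102499) (nat_lit 380) (nat_lit 3241767784) (nat_lit 456) (nat_lit 5435536135) (nat_lit 116) (nat_lit 5) (nat_lit 121) (nat_lit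 5) (nat_lit 122) (nat_lit 5) (nat_lit 290) (nat_lit 262) (nat_lit 228)))) (XT.nd (nat_lit 156) (nat_lit 380) (nat_lit 0) (XT.nd (nat_lit 78) (nat_lit 456) (nat_lit 0) (XT.lf (nat_lit 0) (nat_lit 1352653940) (nat_lit 380) (nat_lit 8092748491) (nat_lit 456) (nat_lit 1376418929) (nat_lit 111) (nat_lit 5) (nat_lit 116) (nat_lit 5) (nat_lit 117) (nat_lit 5) (nat_lit 291) (nat_lit 262) (nat_lit 227)) (XT.lf (nat_lit 0) (nat_lit 754959926) (nat_lit 380) (nat_lit 2102081853) (nat_lit 456) (nat_lit 8271280779) (nat_lit 105) (nat_lit 5) (nat_lit 110) (nat_lit 5) (nat_lit 111) (nat_lit 5) (nat_lit 292) (nat_lit 262) (nat_lit 226))) (XT.nd (nat_lit 78) (nat_lit 76) (nat_lit 0) (XT.lf (nat_lit 0) (nat_lit 51392461) (nat_lit 304) (nat_lit 7262565639) (nat_lit 380) (nat_lit 4134649254) (nat_lit 101) (nat_lit 5) (nat_lit 105) (nat_lit 5) (nat_lit 106) (nat_lit 5) (nat_lit 293) (nat_lit 262) (nat_lit 225))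 (XT.lf (nat_lit 0) (nat_lit 237029409) (nat_lit 380) (nat_lit 725379676) (nat_lit 76) (nat_lit 10821537584) (nat_lit 100) (nat_lit 5) (nat_lit 105) (nat_lit 5) (nat_lit 101) (nat_lit 5) (nat_lit 294) (nat_lit 262) (nat_lit 224)))))) (XT.nd (nat_lit 546) (nat_lit 1520) (nat_lit 0) (XT.nd (nat_lit 234) (nat_lit 1064) (nat_lit 0) (XT.nd (nat_lit 78) (nat_lit 684) (nat_lit 0) (XT.lf (nat_lit 0) (nat_lit 4806920073) (nat_lit 380) (nat_lit 1673681129) (nat_lit 76) (nat_lit 5652335372) (nat_lit 96) (nat_lit 5) (nat_lit 101) (nat_lit 5) (nat_lit 97) (nat_lit 5) (nat_lit 295) (nat_lit 262) (nat_lit 223)) (XT.nd (nat_lit 78) (nat_lit 380) (nat_lit 0) (XT.lf (nat_lit 0) (nat_lit 9628635174) (nat_lit 380) (nat_lit 2726071012) (nat_lit 76) (nat_lit 144032662) (nat_lit 92) (nat_lit 5) (nat_lit 97) (nat_lit 5) (nat_lit 93) (nat_lit 5) (nat_lit 296) (nat_lit 262) (nat_lit 222)) (XT.lf (nat_lit 0) (nat_lit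 1856134509) (nat_lit 380) (nat_lit 3970630729) (nat_lit 76) (nat_lit 7053117810) (nat_lit 87) (nat_lit 5) (nat_lit 92) (nat_lit 5) (nat_lit 88) (nat_lit 5) (nat_lit 297) (nat_lit 262) (nat_lit 221)))) (XT.nd (nat_lit 156) (nat_lit 532) (nat_lit 0) (XT.nd (nat_lit 78) (nat_lit 304) (nat_lit 0) (XT.lf (nat_lit 0) (nat_lit 6790559657) (nat_lit 304) (nat_lit 5383204249) (nat_lit 76) (nat_lit 1104586328) (nat_lit 84) (nat_lit 5) (nat_lit 88) (nat_lit 5) (nat_lit 85) (nat_lit 5) (nat_lit 298) (nat_lit 262) (nat_lit 220)) (XT.lf (nat_lit 0) (nat_lit 6691614615) (nat_lit 304) (nat_lit 5362531311) (nat_lit 380) (nat_lit 1640174300) (nat_lit 80) (nat_lit 5) (nat_lit 84) (nat_lit 5) (nat_lit 85) (nat_lit 5) (nat_lit 299) (nat_lit 262) (nat_lit 219))) (XT.nd (nat_lit 78) (nat_lit 228) (nat_lit 0) (XT.lf (nat_lit 0) (nat_lit 3427617452) (nat_lit 304) (nat_lit 8844101724) (nat_lit 76) (nat_lit 1857069970)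 (nat_lit 76) (nat_lit 5) (nat_lit 80) (nat_lit 5) (nat_lit 77) (nat_lit 5) (nat_lit 300) (nat_lit 262) (nat_lit 218)) (XT.lf (nat_lit 0) (nat_lit 3631287203) (nat_lit 228) (nat_lit 5168021845) (nat_lit 304) (nat_lit 5782698695) (nat_lit 73) (nat_lit 5) (nat_lit 76) (nat_lit 5) (nat_lit 77) (nat_lit 5) (nat_lit 301) (nat_lit 262) (nat_lit 217))))) (XT.nd (nat_lit 312) (nat_lit 684) (nat_lit 0) (XT.nd (nat_lit 156) (nat_lit 532) (nat_lit 0) (XT.nd (nat_lit 78) (nat_lit 76) (nat_lit 0) (XT.lf (nat_lit 0) (nat_lit 1754748474) (nat_lit 228) (nat_lit 12740170167) (nat_lit 304) (nat_lit 561352777) (nat_lit 70) (nat_lit 5) (nat_lit 73) (nat_lit 5) (nat_lit 74) (nat_lit 5) (nat_lit 302) (nat_lit 262) (nat_lit 216)) (XT.lf (nat_lit 0) (nat_lit 4917281813) (nat_lit 304) (nat_lit 441960073) (nat_lit 76) (nat_lit 10190860620) (nat_lit 69) (nat_lit 5) (nat_lit 73) (nat_lit 5) (nat_lit 70) (nat_lit 5) (nat_lit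 303) (nat_lit 262) (nat_lit 215))) (XT.nd (nat_lit 78) (nat_lit 304) (nat_lit 0) (XT.lf (nat_lit 0) (nat_lit 10738936313) (nat_lit 304) (nat_lit 2887526292) (nat_lit 76) (nat_lit 2439613747) (nat_lit 66) (nat_lit 5) (nat_lit 70) (nat_lit 5) (nat_lit 67) (nat_lit 5) (nat_lit 304) (nat_lit 262) (nat_lit 214)) (XT.lf (nat_lit 0) (nat_lit 335466579) (nat_lit 304) (nat_lit 5675441297) (nat_lit 76) (nat_lit 10594014658) (nat_lit 62) (nat_lit 5) (nat_lit 66) (nat_lit 5) (nat_lit 63) (nat_lit 5) (nat_lit 305) (nat_lit 262) (nat_lit 213)))) (XT.nd (nat_lit 156) (nat_lit 304) (nat_lit 0) (XT.nd (nat_lit 78) (nat_lit 152) (nat_lit 0) (XT.lf (nat_lit 0) (nat_lit 6235741532) (nat_lit 304) (nat_lit 8858021089) (nat_lit 76) (nat_lit 2073458981) (nat_lit 59) (nat_lit 5) (nat_lit 63) (nat_lit 5) (nat_lit 60) (nat_lit 5) (nat_lit 306) (nat_lit 262) (nat_lit 212)) (XT.lf (nat_lit 0) (nat_lit 5293066143) (nat_lit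 152) (nat_lit 7243596848) (nat_lit 228) (nat_lit 5217836256) (nat_lit 57) (nat_lit 5) (nat_lit 59) (nat_lit 5) (nat_lit 60) (nat_lit 5) (nat_lit 307) (nat_lit 262) (nat_lit 211))) (XT.nd (nat_lit 78) (nat_lit 0) (nat_lit 0) (XT.lf (nat_lit 0) (nat_lit 823465027) (nat_lit 304) (nat_lit 16486033356) (nat_lit 76) (nat_lit 1059730428) (nat_lit 53) (nat_lit 5) (nat_lit 57) (nat_lit 5) (nat_lit 54) (nat_lit 5) (nat_lit 308) (nat_lit 262) (nat_lit 210)) (XT.lf (nat_lit 0) (nat_lit 7200811972) (nat_lit 304) (nat_lit 2034028924) (nat_lit 76) (nat_lit 9774076017) (nat_lit 53) (nat_lit 5) (nat_lit 57) (nat_lit 5) (nat_lit 54) (nat_lit 5) (nat_lit 309) (nat_lit 262) (nat_lit 209))))))))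
noncomputable def xc54 : XT := (XT.nd (nat_lit 2184) (nat_lit 912) (nat_lit 0) (XT.nd (nat_lit 1092) (nat_lit 912) (nat_lit 0) (XT.nd (nat_lit 546) (nat_lit 684) (nat_lit 0) (XT.nd (nat_lit 234) (nat_lit 532) (nat_lit 0) (XT.nd (nat_lit 78) (nat_lit 456) (nat_lit 0) (XT.lf (nat_lit 0) (nat_lit 13303412420) (nat_lit 152) (nat_lit 662665223) (nat_lit 228) (nat_lit 5712467582) (nat_lit 51) (nat_lit 5) (nat_lit 53) (nat_lit 5) (nat_lit 54) (nat_lit 5) (nat_lit 310) (nat_lit 262) (nat_lit 208)) (XT.nd (nat_lit 78) (nat_lit 152) (nat_lit 0) (XT.lf (nat_lit 0) (nat_lit 807001208) (nat_lit 304) (nat_lit 11315178162) (nat_lit 76) (nat_lit 8255328260) (nat_lit 47) (nat_lit 5) (nat_lit 51) (nat_lit 5) (nat_lit 48) (nat_lit 5) (nat_lit 311) (nat_lit 262) (nat_lit 207)) (XT.lf (nat_lit 0) (nat_lit 4218998969) (nat_lit 152) (nat_lit 3373897062) (nat_lit 228) (nat_lit 13515091578) (nat_lit 45) (nat_lit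 5) (nat_lit 47) (nat_lit 5) (nat_lit 48) (nat_lit 5) (nat_lit 312) (nat_lit 262) (nat_lit 206)))) (XT.nd (nat_lit 156) (nat_lit 380) (nat_lit 0) (XT.nd (nat_lit 78) (nat_lit 152) (nat_lit 0) (XT.lf (nat_lit 0) (nat_lit 14836999979) (nat_lit 228) (nat_lit 1254556233) (nat_lit 76) (nat_lit 5779890880) (nat_lit 45) (nat_lit 5) (nat_lit 48) (nat_lit 5) (nat_lit 46) (nat_lit 5) (nat_lit 313) (nat_lit 262) (nat_lit 205)) (XT.lf (nat_lit 0) (nat_lit 15338881921) (nat_lit 152) (nat_lit 7233941546) (nat_lit 228) (nat_lit 96392495) (nat_lit 43) (nat_lit 5) (nat_lit 45) (nat_lit 5) (nat_lit 46) (nat_lit 5) (nat_lit 314) (nat_lit 262) (nat_lit 204))) (XT.nd (nat_lit 78) (nat_lit 152) (nat_lit 0) (XT.lf (nat_lit 0) (nat_lit 7121174044) (nat_lit 228) (nat_lit 14216862274) (nat_lit 76) (nat_lit 2164597610) (nat_lit 40) (nat_lit 5) (nat_lit 43) (nat_lit 5) (nat_lit 41) (nat_lit 5) (nat_lit 315) (nat_lit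 262) (nat_lit 203)) (XT.lf (nat_lit 0) (nat_lit 2397279303) (nat_lit 152) (nat_lit 12423058100) (nat_lit 228) (nat_lit 9553694630) (nat_lit 38) (nat_lit 5) (nat_lit 40) (nat_lit 5) (nat_lit 41) (nat_lit 5) (nat_lit 316) (nat_lit 262) (nat_lit 202))))) (XT.nd (nat_lit 234) (nat_lit 304) (nat_lit 0) (XT.nd (nat_lit 78) (nat_lit 380) (nat_lit 0) (XT.lf (nat_lit 0) (nat_lit 20056487680) (nat_lit 152) (nat_lit 2946315590) (nat_lit 228) (nat_lit 2283264764) (nat_lit 38) (nat_lit 5) (nat_lit 40) (nat_lit 5) (nat_lit 41) (nat_lit 5) (nat_lit 317) (nat_lit 262) (nat_lit 201)) (XT.nd (nat_lit 78) (nat_lit 152) (nat_lit 0) (XT.lf (nat_lit 0) (nat_lit 5388629667) (nat_lit 228) (nat_lit 13841606468) (nat_lit 76) (nat_lit 7007672989) (nat_lit 35) (nat_lit 5) (nat_lit 38) (nat_lit 5) (nat_lit 36) (nat_lit 5) (nat_lit 318) (nat_lit 262) (nat_lit 200)) (XT.lf (nat_lit 0) (nat_lit 3717780363) (nat_lit 152)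 (nat_lit 9754349551) (nat_lit 228) (nat_lit 13762293316) (nat_lit 33) (nat_lit 5) (nat_lit 35) (nat_lit 5) (nat_lit 36) (nat_lit 5) (nat_lit 319) (nat_lit 262) (nat_lit 199)))) (XT.nd (nat_lit 156) (nat_lit 152) (nat_lit 0) (XT.nd (nat_lit 78) (nat_lit 152) (nat_lit 0) (XT.lf (nat_lit 0) (nat_lit 22061630860) (nat_lit 228) (nat_lit 5912638649) (nat_lit 76) (nat_lit 303454124) (nat_lit 33) (nat_lit 5) (nat_lit 36) (nat_lit 5) (nat_lit 34) (nat_lit 4) (nat_lit 320) (nat_lit 262) (nat_lit 198)) (XT.lf (nat_lit 0) (nat_lit 1854009714) (nat_lit 152) (nat_lit 16739716224) (nat_lit 76) (nat_lit 10773587649) (nat_lit 31) (nat_lit 5) (nat_lit 33) (nat_lit 5) (nat_lit 32) (nat_lit 5) (nat_lit 321) (nat_lit 262) (nat_lit 197))) (XT.nd (nat_lit 78) (nat_lit 0) (nat_lit 0) (XT.lf (nat_lit 0) (nat_lit 1604522946) (nat_lit 152) (nat_lit 8631656905) (nat_lit 228) (nat_lit 20272256728) (nat_lit 29) (nat_lit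 5) (nat_lit 31) (nat_lit 5) (nat_lit 32) (nat_lit 5) (nat_lit 322) (nat_lit 262) (nat_lit 196)) (XT.lf (nat_lit 0) (nat_lit 19189078532) (nat_lit 228) (nat_lit 10576070925) (nat_lit 76) (nat_lit 1936930548) (nat_lit 29) (nat_lit 5) (nat_lit 32) (nat_lit 5) (nat_lit 30) (nat_lit 4) (nat_lit 323) (nat_lit 262) (nat_lit 195)))))) (XT.nd (nat_lit 546) (nat_lit 304) (nat_lit 0) (XT.nd (nat_lit 234) (nat_lit 304) (nat_lit 0) (XT.nd (nat_lit 78) (nat_lit 228) (nat_lit 0) (XT.lf (nat_lit 0) (nat_lit 8682734139) (nat_lit 76) (nat_lit 20039393613) (nat_lit 152) (nat_lit 4229314954) (nat_lit 28) (nat_lit 5) (nat_lit 29) (nat_lit 5) (nat_lit 30) (nat_lit 4) (nat_lit 324) (nat_lit 262) (nat_lit 194)) (XT.nd (nat_lit 78) (nat_lit 152) (nat_lit 0) (XT.lf (nat_lit 0) (nat_lit 4454032000) (nat_lit 152) (nat_lit 5245102841) (nat_lit 76) (nat_lit 24560681202) (nat_lit 27) (nat_lit 5) (nat_lit 29) (nat_lit 5)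 (nat_lit 28) (nat_lit 5) (nat_lit 325) (nat_lit 262) (nat_lit 193)) (XT.lf (nat_lit 0) (nat_lit 13605465784) (nat_lit 228) (nat_lit 20727156911) (nat_lit 76) (nat_lit 1296098279) (nat_lit 25) (nat_lit 5) (nat_lit 28) (nat_lit 5) (nat_lit 26) (nat_lit 4) (nat_lit 326) (nat_lit 262) (nat_lit 192)))) (XT.nd (nat_lit 156) (nat_lit 228) (nat_lit 0) (XT.nd (nat_lit 78) (nat_lit 76) (nat_lit 0) (XT.lf (nat_lit 0) (nat_lit 23332232359) (nat_lit 228) (nat_lit 1060056651) (nat_lit 76) (nat_lit 12670259602) (nat_lit 25) (nat_lit 5) (nat_lit 28) (nat_lit 5) (nat_lit 26) (nat_lit 4) (nat_lit 327) (nat_lit 262) (nat_lit 191)) (XT.lf (nat_lit 0) (nat_lit 19919726580) (nat_lit 76) (nat_lit 13784078980) (nat_lit 152) (nat_lit 4859517825) (nat_lit 24) (nat_lit 5) (nat_lit 25) (nat_lit 5) (nat_lit 26) (nat_lit 4) (nat_lit 328) (nat_lit 262) (nat_lit 190))) (XT.nd (nat_lit 78) (nat_lit 0) (nat_lit 0) (XT.lf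 (nat_lit 0) (nat_lit 1765025093) (nat_lit 152) (nat_lit 2598532099) (nat_lit 228) (nat_lit 35774434107) (nat_lit 21) (nat_lit 5) (nat_lit 23) (nat_lit 5) (nat_lit 24) (nat_lit 5) (nat_lit 329) (nat_lit 262) (nat_lit 189)) (XT.lf (nat_lit 0) (nat_lit 14198387608) (nat_lit 228) (nat_lit 18398189723) (nat_lit 76) (nat_lit 9185847370) (nat_lit 21) (nat_lit 5) (nat_lit 24) (nat_lit 5) (nat_lit 22) (nat_lit 4) (nat_lit 330) (nat_lit 262) (nat_lit 188))))) (XT.nd (nat_lit 234) (nat_lit 152) (nat_lit 0) (XT.nd (nat_lit 78) (nat_lit 76) (nat_lit 0) (XT.lf (nat_lit 0) (nat_lit 2544113368) (nat_lit 76) (nat_lit 22001463030) (nat_lit 152) (nat_lit 18962893090) (nat_lit 20) (nat_lit 5) (nat_lit 21) (nat_lit 5) (nat_lit 22) (nat_lit 4) (nat_lit 331) (nat_lit 262) (nat_lit 187)) (XT.nd (nat_lit 78) (nat_lit 76) (nat_lit 0) (XT.lf (nat_lit 0) (nat_lit 24864936194) (nat_lit 76) (nat_lit 10705436883) (nat_lit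 152) (nat_lit 9745643814) (nat_lit 20) (nat_lit 5) (nat_lit 21) (nat_lit 5) (nat_lit 22) (nat_lit 4) (nat_lit 332) (nat_lit 262) (nat_lit 186)) (XT.lf (nat_lit 0) (nat_lit 1046005683) (nat_lit 76) (nat_lit 46093589261) (nat_lit 76) (nat_lit 74558616) (nat_lit 19) (nat_lit 4) (nat_lit 20) (nat_lit 5) (nat_lit 20) (nat_lit 4) (nat_lit 333) (nat_lit 262) (nat_lit 185)))) (XT.nd (nat_lit 156) (nat_lit 76) (nat_lit 0) (XT.nd (nat_lit 78) (nat_lit 0) (nat_lit 0) (XT.lf (nat_lit 0) (nat_lit 10176648185) (nat_lit 152) (nat_lit 25412843899) (nat_lit 76) (nat_lit 13606007015) (nat_lit 18) (nat_lit 5) (nat_lit 20) (nat_lit 5) (nat_lit 19) (nat_lit 4) (nat_lit 334) (nat_lit 262) (nat_lit 184)) (XT.lf (nat_lit 0) (nat_lit 20912795497) (nat_lit 152) (nat_lit 3668378257) (nat_lit 76) (nat_lit 26695504916) (nat_lit 18) (nat_lit 5) (nat_lit 20) (nat_lit 5) (nat_lit 19) (nat_lit 4) (nat_lit 335) (nat_lit 262)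 (nat_lit 183))) (XT.nd (nat_lit 78) (nat_lit 0) (nat_lit 0) (XT.lf (nat_lit 0) (nat_lit 19498218767) (nat_lit 76) (nat_lit 12850110522) (nat_lit 152) (nat_lit 21108716811) (nat_lit 17) (nat_lit 5) (nat_lit 18) (nat_lit 5) (nat_lit 19) (nat_lit 4) (nat_lit 336) (nat_lit 262) (nat_lit 182)) (XT.lf (nat_lit 0) (nat_lit 43855537906) (nat_lit 76) (nat_lit 513772696) (nat_lit 152) (nat_lit 11376717131) (nat_lit 17) (nat_lit 5) (nat_lit 18) (nat_lit 5) (nat_lit 19) (nat_lit 4) (nat_lit 337) (nat_lit 262) (nat_lit 181))))))) (XT.nd (nat_lit 1092) (nat_lit 380) (nat_lit 0) (XT.nd (nat_lit 546) (nat_lit 228) (nat_lit 0) (XT.nd (nat_lit 234) (nat_lit 152) (nat_lit 0) (XT.nd (nat_lit 78) (nat_lit 76) (nat_lit 0) (XT.lf (nat_lit 0) (nat_lit 11340312479) (nat_lit 76) (nat_lit 45856484127) (nat_lit 76) (nat_lit 946503845) (nat_lit 16) (nat_lit 4) (nat_lit 17) (nat_lit 5) (nat_lit 17) (nat_lit 4) (nat_lit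 338) (nat_lit 262) (nat_lit 180)) (XT.nd (nat_lit 78) (nat_lit 0) (nat_lit 0) (XT.lf (nat_lit 0) (nat_lit 9916128182) (nat_lit 152) (nat_lit 24820107915) (nat_lit 76) (nat_lit 25918136285) (nat_lit 15) (nat_lit 5) (nat_lit 17) (nat_lit 5) (nat_lit 16) (nat_lit 4) (nat_lit 339) (nat_lit 262) (nat_lit 179)) (XT.lf (nat_lit 0) (nat_lit 21280923697) (nat_lit 152) (nat_lit 1787542394) (nat_lit 76) (nat_lit 40222897462) (nat_lit 15) (nat_lit 5) (nat_lit 17) (nat_lit 5) (nat_lit 16) (nat_lit 4) (nat_lit 340) (nat_lit 262) (nat_lit 178)))) (XT.nd (nat_lit 156) (nat_lit 76) (nat_lit 0) (XT.nd (nat_lit 78) (nat_lit 0) (nat_lit 0) (XT.lf (nat_lit 0) (nat_lit 22803627307) (nat_lit 76) (nat_lit 10608986543) (nat_lit 152) (nat_lit 32641635544) (nat_lit 14) (nat_lit 5) (nat_lit 15) (nat_lit 5) (nat_lit 16) (nat_lit 4) (nat_lit 341) (nat_lit 262) (nat_lit 177)) (XT.lf (nat_lit 0) (nat_lit 46173161065) (nat_lit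 152) (nat_lit 20354330794) (nat_lit 0) (nat_lit 2427124023) (nat_lit 14) (nat_lit 5) (nat_lit 16) (nat_lit 4) (nat_lit 14) (nat_lit 4) (nat_lit 342) (nat_lit 262) (nat_lit 176))) (XT.nd (nat_lit 78) (nat_lit 0) (nat_lit 0) (XT.lf (nat_lit 0) (nat_lit 3614655213) (nat_lit 76) (nat_lit 56079775025) (nat_lit 76) (nat_lit 12301893932) (nat_lit 13) (nat_lit 4) (nat_lit 14) (nat_lit 5) (nat_lit 14) (nat_lit 4) (nat_lit 343) (nat_lit 262) (nat_lit 175)) (XT.lf (nat_lit 0) (nat_lit 29172880219) (nat_lit 76) (nat_lit 44909860594) (nat_lit 76) (nat_lit 1101651832) (nat_lit 13) (nat_lit 4) (nat_lit 14) (nat_lit 5) (nat_lit 14) (nat_lit 4) (nat_lit 344) (nat_lit 262) (nat_lit 174))))) (XT.nd (nat_lit 234) (nat_lit 76) (nat_lit 0) (XT.nd (nat_lit 78) (nat_lit 76) (nat_lit 0) (XT.lf (nat_lit 0) (nat_lit 10432767367) (nat_lit 152) (nat_lit 22658574499) (nat_lit 76) (nat_lit 45437988185) (nat_lit 12) (nat_lit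 5) (nat_lit 14) (nat_lit 5) (nat_lit 13) (nat_lit 4) (nat_lit 345) (nat_lit 262) (nat_lit 173)) (XT.nd (nat_lit 78) (nat_lit 0) (nat_lit 0) (XT.lf (nat_lit 0) (nat_lit 1855411684) (nat_lit 76) (nat_lit 20666761729) (nat_lit 152) (nat_lit 59518985818) (nat_lit 11) (nat_lit 5) (nat_lit 12) (nat_lit 5) (nat_lit 13) (nat_lit 4) (nat_lit 346) (nat_lit 262) (nat_lit 172)) (XT.lf (nat_lit 0) (nat_lit 28037817824) (nat_lit 76) (nat_lit 7394998111) (nat_lit 152) (nat_lit 50289264395) (nat_lit 11) (nat_lit 5) (nat_lit 12) (nat_lit 5) (nat_lit 13) (nat_lit 4) (nat_lit 347) (nat_lit 262) (nat_lit 171)))) (XT.nd (nat_lit 156) (nat_lit 76) (nat_lit 0) (XT.nd (nat_lit 78) (nat_lit 0) (nat_lit 0) (XT.lf (nat_lit 0) (nat_lit 49036030702) (nat_lit 152) (nat_lit 34150227844) (nat_lit 0) (nat_lit 6399381019) (nat_lit 11) (nat_lit 5) (nat_lit 13) (nat_lit 4) (nat_lit 11) (nat_lit 4) (nat_lit 348) (nat_lit 262)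 (nat_lit 170)) (XT.lf (nat_lit 0) (nat_lit 63378969750) (nat_lit 152) (nat_lit 9542373573) (nat_lit 0) (nat_lit 20719249657) (nat_lit 11) (nat_lit 5) (nat_lit 13) (nat_lit 4) (nat_lit 11) (nat_lit 4) (nat_lit 349) (nat_lit 262) (nat_lit 169))) (XT.nd (nat_lit 78) (nat_lit 0) (nat_lit 0) (XT.lf (nat_lit 0) (nat_lit 16592760196) (nat_lit 76) (nat_lit 61991437254) (nat_lit 76) (nat_lit 19309745342) (nat_lit 10) (nat_lit 4) (nat_lit 11) (nat_lit 5) (nat_lit 11) (nat_lit 4) (nat_lit 350) (nat_lit 262) (nat_lit 168)) (XT.lf (nat_lit 0) (nat_lit 44207931483) (nat_lit 76) (nat_lit 50426059878) (nat_lit 76) (nat_lit 7723442425) (nat_lit 10) (nat_lit 4) (nat_lit 11) (nat_lit 5) (nat_lit 11) (nat_lit 4) (nat_lit 351) (nat_lit 262) (nat_lit 167)))))) (XT.nd (nat_lit 546) (nat_lit 228) (nat_lit 0) (XT.nd (nat_lit 234) (nat_lit 0) (nat_lit 0) (XT.nd (nat_lit 78) (nat_lit 76) (nat_lit 0) (XT.lf (nat_lit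 0) (nat_lit 4342096461) (nat_lit 152) (nat_lit 33908090723) (nat_lit 76) (nat_lit 68793035629) (nat_lit 9) (nat_lit 5) (nat_lit 11) (nat_lit 5) (nat_lit 10) (nat_lit 4) (nat_lit 352) (nat_lit 262) (nat_lit 166)) (XT.nd (nat_lit 78) (nat_lit 76) (nat_lit 0) (XT.lf (nat_lit 0) (nat_lit 16839906093) (nat_lit 152) (nat_lit 8556517253) (nat_lit 76) (nat_lit 86564924558) (nat_lit 9) (nat_lit 5) (nat_lit 11) (nat_lit 5) (nat_lit 10) (nat_lit 4) (nat_lit 353) (nat_lit 262) (nat_lit 165)) (XT.lf (nat_lit 0) (nat_lit 18398849267) (nat_lit 76) (nat_lit 11728467067) (nat_lit 152) (nat_lit 86993123989) (nat_lit 8) (nat_lit 5) (nat_lit 9) (nat_lit 5) (nat_lit 10) (nat_lit 4) (nat_lit 354) (nat_lit 262) (nat_lit 164)))) (XT.nd (nat_lit 156) (nat_lit 0) (nat_lit 0) (XT.nd (nat_lit 78) (nat_lit 0) (nat_lit 0) (XT.lf (nat_lit 0) (nat_lit 44181378788) (nat_lit 152) (nat_lit 75702555241) (nat_lit 0) (nat_lit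 2650487149) (nat_lit 8) (nat_lit 5) (nat_lit 10) (nat_lit 4) (nat_lit 8) (nat_lit 4) (nat_lit 355) (nat_lit 262) (nat_lit 163)) (XT.lf (nat_lit 0) (nat_lit 59045203589) (nat_lit 152) (nat_lit 51672294083) (nat_lit 0) (nat_lit 17498393785) (nat_lit 8) (nat_lit 5) (nat_lit 10) (nat_lit 4) (nat_lit 8) (nat_lit 4) (nat_lit 356) (nat_lit 262) (nat_lit 162))) (XT.nd (nat_lit 78) (nat_lit 0) (nat_lit 0) (XT.lf (nat_lit 0) (nat_lit 74641439595) (nat_lit 152) (nat_lit 26460851474) (nat_lit 0) (nat_lit 33079469634) (nat_lit 8) (nat_lit 5) (nat_lit 10) (nat_lit 4) (nat_lit 8) (nat_lit 4) (nat_lit 357) (nat_lit 262) (nat_lit 161)) (XT.lf (nat_lit 0) (nat_lit 91007220702) (nat_lit 152) (nat_lit 8200171) (nat_lit 0) (nat_lit 49430812497) (nat_lit 8) (nat_lit 5) (nat_lit 10) (nat_lit 4) (nat_lit 8) (nat_lit 4) (nat_lit 358) (nat_lit 262) (nat_lit 160))))) (XT.nd (nat_lit 312) (nat_lit 152) (nat_lit 0) (XT.nd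 (nat_lit 156) (nat_lit 0) (nat_lit 0) (XT.nd (nat_lit 78) (nat_lit 0) (nat_lit 0) (XT.lf (nat_lit 0) (nat_lit 28300894721) (nat_lit 76) (nat_lit 80152663847) (nat_lit 76) (nat_lit 38562504933) (nat_lit 7) (nat_lit 4) (nat_lit 8) (nat_lit 5) (nat_lit 8) (nat_lit 4) (nat_lit 359) (nat_lit 262) (nat_lit 159)) (XT.lf (nat_lit 0) (nat_lit 58007702968) (nat_lit 76) (nat_lit 68755110386) (nat_lit 76) (nat_lit 27151855558) (nat_lit 7) (nat_lit 4) (nat_lit 8) (nat_lit 5) (nat_lit 8) (nat_lit 4) (nat_lit 360) (nat_lit 262) (nat_lit 158))) (XT.nd (nat_lit 78) (nat_lit 0) (nat_lit 0) (XT.lf (nat_lit 0) (nat_lit 89182791867) (nat_lit 76) (nat_lit 56795706263) (nat_lit 76) (nat_lit 15179979137) (nat_lit 7) (nat_lit 4) (nat_lit 8) (nat_lit 5) (nat_lit 8) (nat_lit 4) (nat_lit 361) (nat_lit 262) (nat_lit 157)) (XT.lf (nat_lit 0) (nat_lit 121900387818) (nat_lit 76) (nat_lit 44245976707) (nat_lit 76) (nat_lit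 2618371202) (nat_lit 7) (nat_lit 4) (nat_lit 8) (nat_lit 5) (nat_lit 8) (nat_lit 4) (nat_lit 362) (nat_lit 262) (nat_lit 156)))) (XT.nd (nat_lit 32838) (nat_lit 0) (nat_lit 23560) (XT.nd (nat_lit 78) (nat_lit 76) (nat_lit 0) (XT.lf (nat_lit 0) (nat_lit 10356757063) (nat_lit 152) (nat_lit 20614701407) (nat_lit 76) (nat_lit 145777049858) (nat_lit 6) (nat_lit 5) (nat_lit 8) (nat_lit 5) (nat_lit 7) (nat_lit 4) (nat_lit 363) (nat_lit 262) (nat_lit 155)) (XT.lf (nat_lit 0) (nat_lit 7043549446) (nat_lit 76) (nat_lit 16943269141) (nat_lit 152) (nat_lit 161142064793) (nat_lit 5) (nat_lit 5) (nat_lit 6) (nat_lit 5) (nat_lit 7) (nat_lit 4) (nat_lit 364) (nat_lit 262) (nat_lit 154))) (XT.nd (nat_lit 78) (nat_lit 0) (nat_lit 0) (XT.lf (nat_lit 0) (nat_lit 237751851) (nat_lit 0) (nat_lit 237751851) (nat_lit 380) (nat_lit 2799039542) (nat_lit 315) (nat_lit 5) (nat_lit 315) (nat_lit 3) (nat_lit 320) (nat_lit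 3) (nat_lit 263) (nat_lit 263) (nat_lit 254)) (XT.lf (nat_lit 0) (nat_lit 4907723094) (nat_lit 380) (nat_lit 960265599) (nat_lit 456) (nat_lit 720426309) (nat_lit 315) (nat_lit 5) (nat_lit 320) (nat_lit 3) (nat_lit 321) (nat_lit 5) (nat_lit 264) (nat_lit 263) (nat_lit 253))))))))
noncomputable def xc55 : XT := (XT.nd (nat_lit 2184) (nat_lit 5852) (nat_lit 0) (XT.nd (nat_lit 1092) (nat_lit 6840) (nat_lit 0) (XT.nd (nat_lit 546) (nat_lit 6536) (nat_lit 0) (XT.nd (nat_lit 234) (nat_lit 1216) (nat_lit 0) (XT.nd (nat_lit 78) (nat_lit 532) (nat_lit 0) (XT.lf (nat_lit 0) (nat_lit 2179235919) (nat_lit 456) (nat_lit 2303516923) (nat_lit 532) (nat_lit 2152829815) (nat_lit 309) (nat_lit 5) (nat_lit 315) (nat_lit 5) (nat_lit 316) (nat_lit 5) (nat_lit 265) (nat_lit 263) (nat_lit 252)) (XT.nd (nat_lit 78) (nat_lit 532) (nat_lit 0) (XT.lf (nat_lit 76) (nat_lit 3132181517) (nat_lit 0) (nat_lit 2863433237)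 (nat_lit 532) (nat_lit 695427733) (nat_lit 310) (nat_lit 5) (nat_lit 309) (nat_lit 5) (nat_lit 316) (nat_lit 5) (nat_lit 266) (nat_lit 263) (nat_lit 251)) (XT.lf (nat_lit 76) (nat_lit 2009681659) (nat_lit 0) (nat_lit 989043896) (nat_lit 608) (nat_lit 3755702038) (nat_lit 303) (nat_lit 5) (nat_lit 302) (nat_lit 5) (nat_lit 310) (nat_lit 5) (nat_lit 267) (nat_lit 263) (nat_lit 250)))) (XT.nd (nat_lit 156) (nat_lit 684) (nat_lit 0) (XT.nd (nat_lit 78) (nat_lit 608) (nat_lit 0) (XT.lf (nat_lit 76) (nat_lit 972031644) (nat_lit 0) (nat_lit 5723237673) (nat_lit 608) (nat_lit 130878240) (nat_lit 304) (nat_lit 5) (nat_lit 303) (nat_lit 5) (nat_lit 311) (nat_lit 5) (nat_lit 268) (nat_lit 263) (nat_lit 249)) (XT.lf (nat_lit 0) (nat_lit 3445861694) (nat_lit 608) (nat_lit 13840765) (nat_lit 684) (nat_lit 3445728431) (nat_lit 295) (nat_lit 5) (nat_lit 303) (nat_lit 5) (nat_lit 304) (nat_lit 5) (nat_lit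 269) (nat_lit 263) (nat_lit 248))) (XT.nd (nat_lit 78) (nat_lit 0) (nat_lit 76) (XT.lf (nat_lit 0) (nat_lit 56323430) (nat_lit 684) (nat_lit 892844607) (nat_lit 760) (nat_lit 6044186635) (nat_lit 286) (nat_lit 5) (nat_lit 295) (nat_lit 5) (nat_lit 296) (nat_lit 5) (nat_lit 270) (nat_lit 263) (nat_lit 247)) (XT.lf (nat_lit 0) (nat_lit 3546334357) (nat_lit 684) (nat_lit 1737479759) (nat_lit 76) (nat_lit 1805008806) (nat_lit 287) (nat_lit 5) (nat_lit 296) (nat_lit 5) (nat_lit 288) (nat_lit 5) (nat_lit 271) (nat_lit 263) (nat_lit 246))))) (XT.nd (nat_lit 234) (nat_lit 4256) (nat_lit 0) (XT.nd (nat_lit 78) (nat_lit 1672) (nat_lit 0) (XT.lf (nat_lit 0) (nat_lit 4681080726) (nat_lit 684) (nat_lit 2402227770) (nat_lit 760) (nat_lit 109841317) (nat_lit 278) (nat_lit 5) (nat_lit 287) (nat_lit 5) (nat_lit 288) (nat_lit 5) (nat_lit 272) (nat_lit 263) (nat_lit 245)) (XT.nd (nat_lit 78) (nat_lit 836) (nat_lit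 0) (XT.lf (nat_lit 0) (nat_lit 3305073313) (nat_lit 836) (nat_lit 3251083998) (nat_lit 76) (nat_lit 749402873) (nat_lit 267) (nat_lit 5) (nat_lit 278) (nat_lit 5) (nat_lit 268) (nat_lit 5) (nat_lit 273) (nat_lit 263) (nat_lit 244)) (XT.lf (nat_lit 0) (nat_lit 3481140677) (nat_lit 836) (nat_lit 3313505580) (nat_lit 912) (nat_lit 631954836) (nat_lit 256) (nat_lit 5) (nat_lit 267) (nat_lit 5) (nat_lit 268) (nat_lit 5) (nat_lit 274) (nat_lit 263) (nat_lit 243)))) (XT.nd (nat_lit 156) (nat_lit 2280) (nat_lit 0) (XT.nd (nat_lit 78) (nat_lit 988) (nat_lit 0) (XT.lf (nat_lit 0) (nat_lit 2740189532) (nat_lit 988) (nat_lit 4603658774) (nat_lit 76) (nat_lit 212462793) (nat_lit 243) (nat_lit 5) (nat_lit 256) (nat_lit 5) (nat_lit 244) (nat_lit 5) (nat_lit 275) (nat_lit 263) (nat_lit 242)) (XT.lf (nat_lit 0) (nat_lit 2453204401) (nat_lit 988) (nat_lit 3747609275) (nat_lit 1064) (nat_lit 1493717881) (nat_lit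 230) (nat_lit 5) (nat_lit 243) (nat_lit 5) (nat_lit 244) (nat_lit 5) (nat_lit 276) (nat_lit 263) (nat_lit 241))) (XT.nd (nat_lit 78) (nat_lit 1140) (nat_lit 0) (XT.lf (nat_lit 0) (nat_lit 1863847795) (nat_lit 1140) (nat_lit 5843746037) (nat_lit 76) (nat_lit 134440706) (nat_lit 215) (nat_lit 5) (nat_lit 230) (nat_lit 5) (nat_lit 216) (nat_lit 5) (nat_lit 277) (nat_lit 263) (nat_lit 240)) (XT.lf (nat_lit 0) (nat_lit 1549376610) (nat_lit 1140) (nat_lit 3762581387) (nat_lit 1216) (nat_lit 2686081175) (nat_lit 200) (nat_lit 5) (nat_lit 215) (nat_lit 5) (nat_lit 216) (nat_lit 5) (nat_lit 278) (nat_lit 263) (nat_lit 239)))))) (XT.nd (nat_lit 546) (nat_lit 3116) (nat_lit 0) (XT.nd (nat_lit 234) (nat_lit 1748) (nat_lit 0) (XT.nd (nat_lit 78) (nat_lit 1140) (nat_lit 0) (XT.lf (nat_lit 0) (nat_lit 682341015) (nat_lit 836) (nat_lit 7020629941) (nat_lit 76) (nat_lit 461011985) (nat_lit 189) (nat_lit 5)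 (nat_lit 200) (nat_lit 5) (nat_lit 190) (nat_lit 5) (nat_lit 279) (nat_lit 263) (nat_lit 238)) (XT.nd (nat_lit 78) (nat_lit 532) (nat_lit 0) (XT.lf (nat_lit 0) (nat_lit 720683605) (nat_lit 608) (nat_lit 3411729475) (nat_lit 684) (nat_lit 4206105356) (nat_lit 181) (nat_lit 5) (nat_lit 189) (nat_lit 5) (nat_lit 190) (nat_lit 5) (nat_lit 280) (nat_lit 263) (nat_lit 237)) (XT.lf (nat_lit 0) (nat_lit 329980091) (nat_lit 532) (nat_lit 7373538562) (nat_lit 608) (nat_lit 819954554) (nat_lit 174) (nat_lit 5) (nat_lit 181) (nat_lit 5) (nat_lit 182) (nat_lit 5) (nat_lit 281) (nat_lit 263) (nat_lit 236)))) (XT.nd (nat_lit 156) (nat_lit 1140) (nat_lit 0) (XT.nd (nat_lit 78) (nat_lit 532) (nat_lit 0) (XT.lf (nat_lit 0) (nat_lit 2661413191) (nat_lit 608) (nat_lit 82599574) (nat_lit 76) (nat_lit 5973632637) (nat_lit 173) (nat_lit 5) (nat_lit 181) (nat_lit 5) (nat_lit 174) (nat_lit 5) (nat_lit 282) (nat_lit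 263) (nat_lit 235)) (XT.lf (nat_lit 0) (nat_lit 6274583000) (nat_lit 608) (nat_lit 486871859) (nat_lit 76) (nat_lit 2160717731) (nat_lit 166) (nat_lit 5) (nat_lit 174) (nat_lit 5) (nat_lit 167) (nat_lit 5) (nat_lit 283) (nat_lit 263) (nat_lit 234))) (XT.nd (nat_lit 78) (nat_lit 532) (nat_lit 0) (XT.lf (nat_lit 0) (nat_lit 897671252) (nat_lit 608) (nat_lit 902631464) (nat_lit 76) (nat_lit 7336944751) (nat_lit 158) (nat_lit 5) (nat_lit 166) (nat_lit 5) (nat_lit 159) (nat_lit 5) (nat_lit 284) (nat_lit 263) (nat_lit 233)) (XT.lf (nat_lit 0) (nat_lit 4562168695) (nat_lit 608) (nat_lit 1359828301) (nat_lit 76) (nat_lit 3440505864) (nat_lit 151) (nat_lit 5) (nat_lit 159) (nat_lit 5) (nat_lit 152) (nat_lit 5) (nat_lit 285) (nat_lit 263) (nat_lit 232))))) (XT.nd (nat_lit 234) (nat_lit 1748) (nat_lit 0) (XT.nd (nat_lit 78) (nat_lit 912) (nat_lit 0) (XT.lf (nat_lit 0) (nat_lit 7775086538) (nat_lit 456)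 (nat_lit 621615018) (nat_lit 532) (nat_lit 1202824749) (nat_lit 145) (nat_lit 5) (nat_lit 151) (nat_lit 5) (nat_lit 152) (nat_lit 5) (nat_lit 286) (nat_lit 263) (nat_lit 231)) (XT.nd (nat_lit 78) (nat_lit 380) (nat_lit 0) (XT.lf (nat_lit 0) (nat_lit 2546964583) (nat_lit 532) (nat_lit 2357875448) (nat_lit 76) (nat_lit 4942240482) (nat_lit 138) (nat_lit 5) (nat_lit 145) (nat_lit 5) (nat_lit 139) (nat_lit 5) (nat_lit 287) (nat_lit 263) (nat_lit 230)) (XT.lf (nat_lit 0) (nat_lit 6452696722) (nat_lit 456) (nat_lit 2922123764) (nat_lit 76) (nat_lit 732131295) (nat_lit 133) (nat_lit 5) (nat_lit 139) (nat_lit 5) (nat_lit 134) (nat_lit 5) (nat_lit 288) (nat_lit 263) (nat_lit 229)))) (XT.nd (nat_lit 156) (nat_lit 836) (nat_lit 0) (XT.nd (nat_lit 78) (nat_lit 380) (nat_lit 0) (XT.lf (nat_lit 0) (nat_lit 205717488) (nat_lit 532) (nat_lit 3551541542) (nat_lit 76) (nat_lit 6621540315) (nat_lit 126) (nat_lit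 5) (nat_lit 133) (nat_lit 5) (nat_lit 127) (nat_lit 5) (nat_lit 289) (nat_lit 263) (nat_lit 228)) (XT.lf (nat_lit 0) (nat_lit 4195532697) (nat_lit 456) (nat_lit 4262599906) (nat_lit 76) (nat_lit 2204733663) (nat_lit 121) (nat_lit 5) (nat_lit 127) (nat_lit 5) (nat_lit 122) (nat_lit 5) (nat_lit 290) (nat_lit 263) (nat_lit 227))) (XT.nd (nat_lit 78) (nat_lit 456) (nat_lit 0) (XT.lf (nat_lit 0) (nat_lit 5914383299) (nat_lit 380) (nat_lit 2503562309) (nat_lit 456) (nat_lit 2542278661) (nat_lit 116) (nat_lit 5) (nat_lit 121) (nat_lit 5) (nat_lit 122) (nat_lit 5) (nat_lit 291) (nat_lit 263) (nat_lit 226)) (XT.lf (nat_lit 0) (nat_lit 1585036256) (nat_lit 456) (nat_lit 5926293961) (nat_lit 76) (nat_lit 3759634848) (nat_lit 110) (nat_lit 5) (nat_lit 116) (nat_lit 5) (nat_lit 111) (nat_lit 5) (nat_lit 292) (nat_lit 263) (nat_lit 225))))))) (XT.nd (nat_lit 1092) (nat_lit 2204) (nat_lit 0) (XT.nd (nat_lit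 546) (nat_lit 1672) (nat_lit 0) (XT.nd (nat_lit 234) (nat_lit 912) (nat_lit 0) (XT.nd (nat_lit 78) (nat_lit 684) (nat_lit 0) (XT.lf (nat_lit 0) (nat_lit 4680418104) (nat_lit 380) (nat_lit 1215965191) (nat_lit 456) (nat_lit 5699268414) (nat_lit 105) (nat_lit 5) (nat_lit 110) (nat_lit 5) (nat_lit 111) (nat_lit 5) (nat_lit 293) (nat_lit 263) (nat_lit 224)) (XT.nd (nat_lit 78) (nat_lit 380) (nat_lit 0) (XT.lf (nat_lit 0) (nat_lit 3907510056) (nat_lit 304) (nat_lit 6576824464) (nat_lit 380) (nat_lit 1450474947) (nat_lit 101) (nat_lit 5) (nat_lit 105) (nat_lit 5) (nat_lit 106) (nat_lit 5) (nat_lit 294) (nat_lit 263) (nat_lit 223)) (XT.lf (nat_lit 0) (nat_lit 2977897238) (nat_lit 380) (nat_lit 9266750509) (nat_lit 76) (nat_lit 44695204) (nat_lit 96) (nat_lit 5) (nat_lit 101) (nat_lit 5) (nat_lit 97) (nat_lit 5) (nat_lit 295) (nat_lit 263) (nat_lit 222)))) (XT.nd (nat_lit 156) (nat_lit 304) (nat_lit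 0) (XT.nd (nat_lit 78) (nat_lit 304) (nat_lit 0) (XT.lf (nat_lit 0) (nat_lit 1970259492) (nat_lit 304) (nat_lit 5711442365) (nat_lit 380) (nat_lit 4977009844) (nat_lit 92) (nat_lit 5) (nat_lit 96) (nat_lit 5) (nat_lit 97) (nat_lit 5) (nat_lit 296) (nat_lit 263) (nat_lit 221)) (XT.lf (nat_lit 0) (nat_lit 804086809) (nat_lit 304) (nat_lit 11849275056) (nat_lit 380) (nat_lit 392264002) (nat_lit 88) (nat_lit 5) (nat_lit 92) (nat_lit 5) (nat_lit 93) (nat_lit 5) (nat_lit 297) (nat_lit 263) (nat_lit 220))) (XT.nd (nat_lit 78) (nat_lit 228) (nat_lit 0) (XT.lf (nat_lit 0) (nat_lit 4423734870) (nat_lit 380) (nat_lit 572167771) (nat_lit 76) (nat_lit 8452111633) (nat_lit 87) (nat_lit 5) (nat_lit 92) (nat_lit 5) (nat_lit 88) (nat_lit 5) (nat_lit 298) (nat_lit 263) (nat_lit 219)) (XT.lf (nat_lit 0) (nat_lit 9531225472) (nat_lit 304) (nat_lit 2095825254) (nat_lit 76) (nat_lit 2241640868) (nat_lit 84) (nat_lit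 5) (nat_lit 88) (nat_lit 5) (nat_lit 85) (nat_lit 5) (nat_lit 299) (nat_lit 263) (nat_lit 218))))) (XT.nd (nat_lit 234) (nat_lit 836) (nat_lit 0) (XT.nd (nat_lit 78) (nat_lit 456) (nat_lit 0) (XT.lf (nat_lit 0) (nat_lit 655838844) (nat_lit 380) (nat_lit 3833610206) (nat_lit 76) (nat_lit 9818325540) (nat_lit 79) (nat_lit 5) (nat_lit 84) (nat_lit 5) (nat_lit 80) (nat_lit 5) (nat_lit 300) (nat_lit 263) (nat_lit 217)) (XT.nd (nat_lit 78) (nat_lit 228) (nat_lit 0) (XT.lf (nat_lit 0) (nat_lit 5875407593) (nat_lit 304) (nat_lit 5825639466) (nat_lit 76) (nat_lit 3064531350) (nat_lit 76) (nat_lit 5) (nat_lit 80) (nat_lit 5) (nat_lit 77) (nat_lit 5) (nat_lit 301) (nat_lit 263) (nat_lit 216)) (XT.lf (nat_lit 0) (nat_lit 7174319573) (nat_lit 228) (nat_lit 4265276241) (nat_lit 304) (nat_lit 3804209423) (nat_lit 73) (nat_lit 5) (nat_lit 76) (nat_lit 5) (nat_lit 77) (nat_lit 5) (nat_lit 302) (nat_lit 263)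 (nat_lit 215)))) (XT.nd (nat_lit 156) (nat_lit 304) (nat_lit 0) (XT.nd (nat_lit 78) (nat_lit 228) (nat_lit 0) (XT.lf (nat_lit 0) (nat_lit 1582542793) (nat_lit 304) (nat_lit 10597095839) (nat_lit 76) (nat_lit 3563606692) (nat_lit 69) (nat_lit 5) (nat_lit 73) (nat_lit 5) (nat_lit 70) (nat_lit 5) (nat_lit 303) (nat_lit 263) (nat_lit 214)) (XT.lf (nat_lit 0) (nat_lit 2794119917) (nat_lit 228) (nat_lit 4453467152) (nat_lit 304) (nat_lit 9016348473) (nat_lit 66) (nat_lit 5) (nat_lit 69) (nat_lit 5) (nat_lit 70) (nat_lit 5) (nat_lit 304) (nat_lit 263) (nat_lit 213))) (XT.nd (nat_lit 78) (nat_lit 76) (nat_lit 0) (XT.lf (nat_lit 0) (nat_lit 132486990) (nat_lit 228) (nat_lit 13144972996) (nat_lit 304) (nat_lit 3530788257) (nat_lit 63) (nat_lit 5) (nat_lit 66) (nat_lit 5) (nat_lit 67) (nat_lit 5) (nat_lit 305) (nat_lit 263) (nat_lit 212)) (XT.lf (nat_lit 0) (nat_lit 2306979666) (nat_lit 304) (nat_lit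 2848135506) (nat_lit 76) (nat_lit 12220408409) (nat_lit 62) (nat_lit 5) (nat_lit 66) (nat_lit 5) (nat_lit 63) (nat_lit 5) (nat_lit 306) (nat_lit 263) (nat_lit 211)))))) (XT.nd (nat_lit 546) (nat_lit 912) (nat_lit 0) (XT.nd (nat_lit 234) (nat_lit 608) (nat_lit 0) (XT.nd (nat_lit 78) (nat_lit 456) (nat_lit 0) (XT.lf (nat_lit 0) (nat_lit 8449107597) (nat_lit 304) (nat_lit 6232220152) (nat_lit 76) (nat_lit 3286252432) (nat_lit 59) (nat_lit 5) (nat_lit 63) (nat_lit 5) (nat_lit 60) (nat_lit 5) (nat_lit 307) (nat_lit 263) (nat_lit 210)) (XT.nd (nat_lit 78) (nat_lit 304) (nat_lit 0) (XT.lf (nat_lit 0) (nat_lit 8538457715) (nat_lit 152) (nat_lit 6464718713) (nat_lit 228) (nat_lit 3582947724) (nat_lit 57) (nat_lit 5) (nat_lit 59) (nat_lit 5) (nat_lit 60) (nat_lit 5) (nat_lit 308) (nat_lit 263) (nat_lit 209)) (XT.lf (nat_lit 0) (nat_lit 2673993607) (nat_lit 304) (nat_lit 14334350382) (nat_lit 76) (nat_lit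 2224224504) (nat_lit 53) (nat_lit 5) (nat_lit 57) (nat_lit 5) (nat_lit 54) (nat_lit 5) (nat_lit 309) (nat_lit 263) (nat_lit 208)))) (XT.nd (nat_lit 156) (nat_lit 456) (nat_lit 0) (XT.nd (nat_lit 78) (nat_lit 0) (nat_lit 0) (XT.lf (nat_lit 0) (nat_lit 712443046) (nat_lit 152) (nat_lit 8578453513) (nat_lit 228) (nat_lit 10615763833) (nat_lit 51) (nat_lit 5) (nat_lit 53) (nat_lit 5) (nat_lit 54) (nat_lit 5) (nat_lit 310) (nat_lit 263) (nat_lit 207)) (XT.lf (nat_lit 0) (nat_lit 16335729255) (nat_lit 228) (nat_lit 3893816524) (nat_lit 76) (nat_lit 382023374) (nat_lit 51) (nat_lit 5) (nat_lit 54) (nat_lit 5) (nat_lit 52) (nat_lit 5) (nat_lit 311) (nat_lit 263) (nat_lit 206))) (XT.nd (nat_lit 78) (nat_lit 152) (nat_lit 0) (XT.lf (nat_lit 0) (nat_lit 2488356675) (nat_lit 304) (nat_lit 9134259759) (nat_lit 76) (nat_lit 9723831006) (nat_lit 47) (nat_lit 5) (nat_lit 51) (nat_lit 5) (nat_lit 48) (nat_lit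 5) (nat_lit 312) (nat_lit 263) (nat_lit 205)) (XT.lf (nat_lit 0) (nat_lit 7097893276) (nat_lit 152) (nat_lit 2463155762) (nat_lit 228) (nat_lit 12554010887) (nat_lit 45) (nat_lit 5) (nat_lit 47) (nat_lit 5) (nat_lit 48) (nat_lit 5) (nat_lit 313) (nat_lit 263) (nat_lit 204))))) (XT.nd (nat_lit 312) (nat_lit 380) (nat_lit 0) (XT.nd (nat_lit 156) (nat_lit 304) (nat_lit 0) (XT.nd (nat_lit 78) (nat_lit 76) (nat_lit 0) (XT.lf (nat_lit 0) (nat_lit 1284830698) (nat_lit 152) (nat_lit 15829116911) (nat_lit 228) (nat_lit 5804379082) (nat_lit 43) (nat_lit 5) (nat_lit 45) (nat_lit 5) (nat_lit 46) (nat_lit 5) (nat_lit 314) (nat_lit 263) (nat_lit 203)) (XT.lf (nat_lit 0) (nat_lit 1390254680) (nat_lit 228) (nat_lit 5162469766) (nat_lit 76) (nat_lit 17204705137) (nat_lit 42) (nat_lit 5) (nat_lit 45) (nat_lit 5) (nat_lit 43) (nat_lit 5) (nat_lit 315) (nat_lit 263) (nat_lit 202))) (XT.nd (nat_lit 78) (nat_lit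 152) (nat_lit 0) (XT.lf (nat_lit 0) (nat_lit 8929242077) (nat_lit 228) (nat_lit 12432878090) (nat_lit 76) (nat_lit 3271521737) (nat_lit 40) (nat_lit 5) (nat_lit 43) (nat_lit 5) (nat_lit 41) (nat_lit 5) (nat_lit 316) (nat_lit 263) (nat_lit 201)) (XT.lf (nat_lit 0) (nat_lit 4940456842) (nat_lit 152) (nat_lit 12027057833) (nat_lit 228) (nat_lit 8582497538) (nat_lit 38) (nat_lit 5) (nat_lit 40) (nat_lit 5) (nat_lit 41) (nat_lit 5) (nat_lit 317) (nat_lit 263) (nat_lit 200)))) (XT.nd (nat_lit 156) (nat_lit 152) (nat_lit 0) (XT.nd (nat_lit 78) (nat_lit 228) (nat_lit 0) (XT.lf (nat_lit 0) (nat_lit 23367229753) (nat_lit 152) (nat_lit 2124914063) (nat_lit 228) (nat_lit 1017540551) (nat_lit 38) (nat_lit 5) (nat_lit 40) (nat_lit 5) (nat_lit 41) (nat_lit 5) (nat_lit 318) (nat_lit 263) (nat_lit 199)) (XT.lf (nat_lit 0) (nat_lit 6977610000) (nat_lit 228) (nat_lit 12234715144) (nat_lit 76) (nat_lit 8297420427)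 (nat_lit 35) (nat_lit 5) (nat_lit 38) (nat_lit 5) (nat_lit 36) (nat_lit 5) (nat_lit 319) (nat_lit 263) (nat_lit 198))) (XT.nd (nat_lit 78) (nat_lit 0) (nat_lit 0) (XT.lf (nat_lit 0) (nat_lit 6136741468) (nat_lit 152) (nat_lit 9287173786) (nat_lit 228) (nat_lit 13133433729) (nat_lit 33) (nat_lit 5) (nat_lit 35) (nat_lit 5) (nat_lit 36) (nat_lit 5) (nat_lit 320) (nat_lit 263) (nat_lit 197)) (XT.lf (nat_lit 0) (nat_lit 24390767511) (nat_lit 228) (nat_lit 4053329176) (nat_lit 76) (nat_lit 1210302863) (nat_lit 33) (nat_lit 5) (nat_lit 36) (nat_lit 5) (nat_lit 34) (nat_lit 4) (nat_lit 321) (nat_lit 263) (nat_lit 196))))))))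
noncomputable def xc56 : XT := (XT.nd (nat_lit 2184) (nat_lit 380) (nat_lit 0) (XT.nd (nat_lit 1092) (nat_lit 532) (nat_lit 0) (XT.nd (nat_lit 546) (nat_lit 456) (nat_lit 0) (XT.nd (nat_lit 234) (nat_lit 380) (nat_lit 0) (XT.nd (nat_lit 78) (nat_lit 152) (nat_lit 0) (XT.lf (nat_lit 0) (nat_lit 3146663122) (nat_lit 152) (nat_lit 15459253865) (nat_lit 76) (nat_lit 12193367380) (nat_lit 31) (nat_lit 5) (nat_lit 33) (nat_lit 5) (nat_lit 32) (nat_lit 5) (nat_lit 322) (nat_lit 263) (nat_lit 195)) (XT.nd (nat_lit 78) (nat_lit 0) (nat_lit 0) (XT.lf (nat_lit 0) (nat_lit 3741501038) (nat_lit 152) (nat_lit 8169070871) (nat_lit 228) (nat_lit 20088031567) (nat_lit 29) (nat_lit 5) (nat_lit 31) (nat_lit 5) (nat_lit 32) (nat_lit 5) (nat_lit 323) (nat_lit 263) (nat_lit 194)) (XT.lf (nat_lit 0) (nat_lit 21263940423) (nat_lit 228) (nat_lit 9120672969) (nat_lit 76) (nat_lit 2868748907) (nat_lit 29) (nat_lit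 5) (nat_lit 32) (nat_lit 5) (nat_lit 30) (nat_lit 4) (nat_lit 324) (nat_lit 263) (nat_lit 193)))) (XT.nd (nat_lit 156) (nat_lit 228) (nat_lit 0) (XT.nd (nat_lit 78) (nat_lit 76) (nat_lit 0) (XT.lf (nat_lit 0) (nat_lit 11044195611) (nat_lit 76) (nat_lit 20194858453) (nat_lit 152) (nat_lit 3327193830) (nat_lit 28) (nat_lit 5) (nat_lit 29) (nat_lit 5) (nat_lit 30) (nat_lit 4) (nat_lit 325) (nat_lit 263) (nat_lit 192)) (XT.lf (nat_lit 0) (nat_lit 5716597201) (nat_lit 152) (nat_lit 3650798713) (nat_lit 76) (nat_lit 26573898473) (nat_lit 27) (nat_lit 5) (nat_lit 29) (nat_lit 5) (nat_lit 28) (nat_lit 5) (nat_lit 326) (nat_lit 263) (nat_lit 191))) (XT.nd (nat_lit 78) (nat_lit 76) (nat_lit 0) (XT.lf (nat_lit 0) (nat_lit 15301068553) (nat_lit 228) (nat_lit 19937289849) (nat_lit 76) (nat_lit 2141037260) (nat_lit 25) (nat_lit 5) (nat_lit 28) (nat_lit 5) (nat_lit 26) (nat_lit 4) (nat_lit 327) (nat_lit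 263) (nat_lit 190)) (XT.lf (nat_lit 0) (nat_lit 638664986) (nat_lit 76) (nat_lit 24833298686) (nat_lit 152) (nat_lit 13414231660) (nat_lit 24) (nat_lit 5) (nat_lit 25) (nat_lit 5) (nat_lit 26) (nat_lit 4) (nat_lit 328) (nat_lit 263) (nat_lit 189))))) (XT.nd (nat_lit 234) (nat_lit 228) (nat_lit 0) (XT.nd (nat_lit 78) (nat_lit 228) (nat_lit 0) (XT.lf (nat_lit 0) (nat_lit 22605119135) (nat_lit 76) (nat_lit 13721050078) (nat_lit 152) (nat_lit 4136931692) (nat_lit 24) (nat_lit 5) (nat_lit 25) (nat_lit 5) (nat_lit 26) (nat_lit 4) (nat_lit 329) (nat_lit 263) (nat_lit 188)) (XT.nd (nat_lit 78) (nat_lit 0) (nat_lit 0) (XT.lf (nat_lit 0) (nat_lit 3512815460) (nat_lit 152) (nat_lit 1986510603) (nat_lit 228) (nat_lit 36617784229) (nat_lit 21) (nat_lit 5) (nat_lit 23) (nat_lit 5) (nat_lit 24) (nat_lit 5) (nat_lit 330) (nat_lit 263) (nat_lit 187)) (XT.lf (nat_lit 0) (nat_lit 15788995626) (nat_lit 228)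 (nat_lit 17717920520) (nat_lit 76) (nat_lit 10337968330) (nat_lit 21) (nat_lit 5) (nat_lit 24) (nat_lit 5) (nat_lit 22) (nat_lit 4) (nat_lit 331) (nat_lit 263) (nat_lit 186)))) (XT.nd (nat_lit 156) (nat_lit 152) (nat_lit 0) (XT.nd (nat_lit 78) (nat_lit 0) (nat_lit 0) (XT.lf (nat_lit 0) (nat_lit 4225628926) (nat_lit 76) (nat_lit 22400918354) (nat_lit 152) (nat_lit 19031505587) (nat_lit 20) (nat_lit 5) (nat_lit 21) (nat_lit 5) (nat_lit 22) (nat_lit 4) (nat_lit 332) (nat_lit 263) (nat_lit 185)) (XT.lf (nat_lit 0) (nat_lit 27588478136) (nat_lit 76) (nat_lit 10573453653) (nat_lit 152) (nat_lit 9395276331) (nat_lit 20) (nat_lit 5) (nat_lit 21) (nat_lit 5) (nat_lit 22) (nat_lit 4) (nat_lit 333) (nat_lit 263) (nat_lit 184))) (XT.nd (nat_lit 78) (nat_lit 0) (nat_lit 0) (XT.lf (nat_lit 0) (nat_lit 725734650) (nat_lit 152) (nat_lit 47004092834) (nat_lit 76) (nat_lit 1820779569) (nat_lit 18) (nat_lit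 5) (nat_lit 20) (nat_lit 5) (nat_lit 19) (nat_lit 4) (nat_lit 334) (nat_lit 263) (nat_lit 183)) (XT.lf (nat_lit 0) (nat_lit 11449760162) (nat_lit 152) (nat_lit 25281857619) (nat_lit 76) (nat_lit 14900535549) (nat_lit 18) (nat_lit 5) (nat_lit 20) (nat_lit 5) (nat_lit 19) (nat_lit 4) (nat_lit 335) (nat_lit 263) (nat_lit 182)))))) (XT.nd (nat_lit 546) (nat_lit 228) (nat_lit 0) (XT.nd (nat_lit 234) (nat_lit 228) (nat_lit 0) (XT.nd (nat_lit 78) (nat_lit 76) (nat_lit 0) (XT.lf (nat_lit 0) (nat_lit 22686320574) (nat_lit 152) (nat_lit 2516912907) (nat_lit 76) (nat_lit 28615259384) (nat_lit 18) (nat_lit 5) (nat_lit 20) (nat_lit 5) (nat_lit 19) (nat_lit 4) (nat_lit 336) (nat_lit 263) (nat_lit 181)) (XT.nd (nat_lit 78) (nat_lit 0) (nat_lit 0) (XT.lf (nat_lit 0) (nat_lit 21769749779) (nat_lit 76) (nat_lit 12901683977) (nat_lit 152) (nat_lit 21437119553) (nat_lit 17) (nat_lit 5) (nat_lit 18) (nat_lit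 5) (nat_lit 19) (nat_lit 4) (nat_lit 337) (nat_lit 263) (nat_lit 180)) (XT.lf (nat_lit 0) (nat_lit 47260084218) (nat_lit 152) (nat_lit 11230033669) (nat_lit 0) (nat_lit 22875842) (nat_lit 17) (nat_lit 5) (nat_lit 19) (nat_lit 4) (nat_lit 17) (nat_lit 4) (nat_lit 338) (nat_lit 263) (nat_lit 179)))) (XT.nd (nat_lit 156) (nat_lit 76) (nat_lit 0) (XT.nd (nat_lit 78) (nat_lit 76) (nat_lit 0) (XT.lf (nat_lit 0) (nat_lit 13121297998) (nat_lit 76) (nat_lit 47592239972) (nat_lit 76) (nat_lit 317062221) (nat_lit 16) (nat_lit 4) (nat_lit 17) (nat_lit 5) (nat_lit 17) (nat_lit 4) (nat_lit 339) (nat_lit 263) (nat_lit 178)) (XT.lf (nat_lit 0) (nat_lit 11043897122) (nat_lit 152) (nat_lit 24892227900) (nat_lit 76) (nat_lit 27731860790) (nat_lit 15) (nat_lit 5) (nat_lit 17) (nat_lit 5) (nat_lit 16) (nat_lit 4) (nat_lit 340) (nat_lit 263) (nat_lit 177))) (XT.nd (nat_lit 78) (nat_lit 76) (nat_lit 0) (XT.lf (nat_lit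 0) (nat_lit 22946838959) (nat_lit 152) (nat_lit 763695314) (nat_lit 76) (nat_lit 42727202040) (nat_lit 15) (nat_lit 5) (nat_lit 17) (nat_lit 5) (nat_lit 16) (nat_lit 4) (nat_lit 341) (nat_lit 263) (nat_lit 176)) (XT.lf (nat_lit 0) (nat_lit 25025122524) (nat_lit 76) (nat_lit 10641724913) (nat_lit 152) (nat_lit 33672473630) (nat_lit 14) (nat_lit 5) (nat_lit 15) (nat_lit 5) (nat_lit 16) (nat_lit 4) (nat_lit 342) (nat_lit 263) (nat_lit 175))))) (XT.nd (nat_lit 234) (nat_lit 152) (nat_lit 0) (XT.nd (nat_lit 78) (nat_lit 76) (nat_lit 0) (XT.lf (nat_lit 0) (nat_lit 49042187877) (nat_lit 152) (nat_lit 20329980337) (nat_lit 0) (nat_lit 3013241008) (nat_lit 14) (nat_lit 5) (nat_lit 16) (nat_lit 4) (nat_lit 14) (nat_lit 4) (nat_lit 343) (nat_lit 263) (nat_lit 174)) (XT.nd (nat_lit 78) (nat_lit 0) (nat_lit 0) (XT.lf (nat_lit 0) (nat_lit 4807584329) (nat_lit 76) (nat_lit 58414981805) (nat_lit 76) (nat_lit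 12357151442) (nat_lit 13) (nat_lit 4) (nat_lit 14) (nat_lit 5) (nat_lit 14) (nat_lit 4) (nat_lit 344) (nat_lit 263) (nat_lit 173)) (XT.lf (nat_lit 0) (nat_lit 31595520759) (nat_lit 76) (nat_lit 46708894603) (nat_lit 76) (nat_lit 623556151) (nat_lit 13) (nat_lit 4) (nat_lit 14) (nat_lit 5) (nat_lit 14) (nat_lit 4) (nat_lit 345) (nat_lit 263) (nat_lit 172)))) (XT.nd (nat_lit 156) (nat_lit 0) (nat_lit 0) (XT.nd (nat_lit 78) (nat_lit 76) (nat_lit 0) (XT.lf (nat_lit 0) (nat_lit 11452285778) (nat_lit 152) (nat_lit 22863396502) (nat_lit 76) (nat_lit 48125071872) (nat_lit 12) (nat_lit 5) (nat_lit 14) (nat_lit 5) (nat_lit 13) (nat_lit 4) (nat_lit 346) (nat_lit 263) (nat_lit 171)) (XT.lf (nat_lit 0) (nat_lit 2849684997) (nat_lit 76) (nat_lit 21281434351) (nat_lit 152) (nat_lit 61997511773) (nat_lit 11) (nat_lit 5) (nat_lit 12) (nat_lit 5) (nat_lit 13) (nat_lit 4) (nat_lit 347) (nat_lit 263) (nat_lit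 170))) (XT.nd (nat_lit 78) (nat_lit 0) (nat_lit 0) (XT.lf (nat_lit 0) (nat_lit 30298282743) (nat_lit 76) (nat_lit 7366019003) (nat_lit 152) (nat_lit 52329991105) (nat_lit 11) (nat_lit 5) (nat_lit 12) (nat_lit 5) (nat_lit 13) (nat_lit 4) (nat_lit 348) (nat_lit 263) (nat_lit 169)) (XT.lf (nat_lit 0) (nat_lit 51929430181) (nat_lit 152) (nat_lit 35030470001) (nat_lit 0) (nat_lit 7091681855) (nat_lit 11) (nat_lit 5) (nat_lit 13) (nat_lit 4) (nat_lit 11) (nat_lit 4) (nat_lit 349) (nat_lit 263) (nat_lit 168))))))) (XT.nd (nat_lit 1092) (nat_lit 76) (nat_lit 0) (XT.nd (nat_lit 546) (nat_lit 76) (nat_lit 0) (XT.nd (nat_lit 234) (nat_lit 152) (nat_lit 0) (XT.nd (nat_lit 78) (nat_lit 76) (nat_lit 0) (XT.lf (nat_lit 0) (nat_lit 66968487708) (nat_lit 152) (nat_lit 9231616790) (nat_lit 0) (nat_lit 22109813840) (nat_lit 11) (nat_lit 5) (nat_lit 13) (nat_lit 4) (nat_lit 11) (nat_lit 4) (nat_lit 350) (nat_lit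 263) (nat_lit 167)) (XT.nd (nat_lit 78) (nat_lit 0) (nat_lit 0) (XT.lf (nat_lit 0) (nat_lit 18187689375) (nat_lit 76) (nat_lit 64733616747) (nat_lit 76) (nat_lit 19855013792) (nat_lit 10) (nat_lit 4) (nat_lit 11) (nat_lit 5) (nat_lit 11) (nat_lit 4) (nat_lit 351) (nat_lit 263) (nat_lit 166)) (XT.lf (nat_lit 0) (nat_lit 47147176790) (nat_lit 76) (nat_lit 52606989186) (nat_lit 76) (nat_lit 7709406148) (nat_lit 10) (nat_lit 4) (nat_lit 11) (nat_lit 5) (nat_lit 11) (nat_lit 4) (nat_lit 352) (nat_lit 263) (nat_lit 165)))) (XT.nd (nat_lit 156) (nat_lit 76) (nat_lit 0) (XT.nd (nat_lit 78) (nat_lit 0) (nat_lit 0) (XT.lf (nat_lit 0) (nat_lit 4932914513) (nat_lit 152) (nat_lit 34901842845) (nat_lit 76) (nat_lit 72549342061) (nat_lit 9) (nat_lit 5) (nat_lit 11) (nat_lit 5) (nat_lit 10) (nat_lit 4) (nat_lit 353) (nat_lit 263) (nat_lit 164)) (XT.lf (nat_lit 0) (nat_lit 18037818759) (nat_lit 152) (nat_lit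 8316102721) (nat_lit 76) (nat_lit 91194746643) (nat_lit 9) (nat_lit 5) (nat_lit 11) (nat_lit 5) (nat_lit 10) (nat_lit 4) (nat_lit 354) (nat_lit 263) (nat_lit 163))) (XT.nd (nat_lit 78) (nat_lit 0) (nat_lit 0) (XT.lf (nat_lit 0) (nat_lit 19967877149) (nat_lit 76) (nat_lit 12011013324) (nat_lit 152) (nat_lit 90987149279) (nat_lit 8) (nat_lit 5) (nat_lit 9) (nat_lit 5) (nat_lit 10) (nat_lit 4) (nat_lit 355) (nat_lit 263) (nat_lit 162)) (XT.lf (nat_lit 0) (nat_lit 46721999512) (nat_lit 152) (nat_lit 78862362095) (nat_lit 0) (nat_lit 3066770897) (nat_lit 8) (nat_lit 5) (nat_lit 10) (nat_lit 4) (nat_lit 8) (nat_lit 4) (nat_lit 356) (nat_lit 263) (nat_lit 161))))) (XT.nd (nat_lit 234) (nat_lit 0) (nat_lit 0) (XT.nd (nat_lit 78) (nat_lit 76) (nat_lit 0) (XT.lf (nat_lit 0) (nat_lit 62313227372) (nat_lit 152) (nat_lit 53660365065) (nat_lit 0) (nat_lit 18643560513) (nat_lit 8) (nat_lit 5) (nat_lit 10)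 (nat_lit 4) (nat_lit 8) (nat_lit 4) (nat_lit 357) (nat_lit 263) (nat_lit 160)) (XT.nd (nat_lit 78) (nat_lit 76) (nat_lit 0) (XT.lf (nat_lit 0) (nat_lit 78674238816) (nat_lit 152) (nat_lit 27216709550) (nat_lit 0) (nat_lit 34990821248) (nat_lit 8) (nat_lit 5) (nat_lit 10) (nat_lit 4) (nat_lit 8) (nat_lit 4) (nat_lit 358) (nat_lit 263) (nat_lit 159)) (XT.lf (nat_lit 0) (nat_lit 542144728) (nat_lit 76) (nat_lit 95307055332) (nat_lit 76) (nat_lit 51610541850) (nat_lit 7) (nat_lit 4) (nat_lit 8) (nat_lit 5) (nat_lit 8) (nat_lit 4) (nat_lit 359) (nat_lit 263) (nat_lit 158)))) (XT.nd (nat_lit 156) (nat_lit 0) (nat_lit 0) (XT.nd (nat_lit 78) (nat_lit 0) (nat_lit 0) (XT.lf (nat_lit 0) (nat_lit 30240631141) (nat_lit 76) (nat_lit 83913417487) (nat_lit 76) (nat_lit 40204431706) (nat_lit 7) (nat_lit 4) (nat_lit 8) (nat_lit 5) (nat_lit 8) (nat_lit 4) (nat_lit 360) (nat_lit 263) (nat_lit 157)) (XT.lf (nat_lit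 0) (nat_lit 61407794482) (nat_lit 76) (nat_lit 71957742522) (nat_lit 76) (nat_lit 28236878362) (nat_lit 7) (nat_lit 4) (nat_lit 8) (nat_lit 5) (nat_lit 8) (nat_lit 4) (nat_lit 361) (nat_lit 263) (nat_lit 156))) (XT.nd (nat_lit 78) (nat_lit 0) (nat_lit 0) (XT.lf (nat_lit 0) (nat_lit 94117842284) (nat_lit 76) (nat_lit 59411564545) (nat_lit 76) (nat_lit 15679387642) (nat_lit 7) (nat_lit 4) (nat_lit 8) (nat_lit 5) (nat_lit 8) (nat_lit 4) (nat_lit 362) (nat_lit 263) (nat_lit 155)) (XT.lf (nat_lit 0) (nat_lit 128448655613) (nat_lit 76) (nat_lit 46245011703) (nat_lit 76) (nat_lit 2502060761) (nat_lit 7) (nat_lit 4) (nat_lit 8) (nat_lit 5) (nat_lit 8) (nat_lit 4) (nat_lit 363) (nat_lit 263) (nat_lit 154)))))) (XT.nd (nat_lit 33306) (nat_lit 0) (nat_lit 18012) (XT.nd (nat_lit 32994) (nat_lit 0) (nat_lit 21888) (XT.nd (nat_lit 32838) (nat_lit 0) (nat_lit 22952) (XT.lf (nat_lit 0) (nat_lit 11105456510)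 (nat_lit 152) (nat_lit 21209135216) (nat_lit 76) (nat_lit 153264374654) (nat_lit 6) (nat_lit 5) (nat_lit 8) (nat_lit 5) (nat_lit 7) (nat_lit 4) (nat_lit 364) (nat_lit 263) (nat_lit 153)) (XT.nd (nat_lit 78) (nat_lit 0) (nat_lit 0) (XT.lf (nat_lit 0) (nat_lit 1027392755) (nat_lit 532) (nat_lit 1144163811) (nat_lit 532) (nat_lit 1144163811) (nat_lit 308) (nat_lit 3) (nat_lit 315) (nat_lit 3) (nat_lit 315) (nat_lit 5) (nat_lit 264) (nat_lit 264) (nat_lit 252)) (XT.lf (nat_lit 76) (nat_lit 2913436967) (nat_lit 0) (nat_lit 2822567837) (nat_lit 532) (nat_lit 946681381) (nat_lit 309) (nat_lit 5) (nat_lit 308) (nat_lit 3) (nat_lit 315) (nat_lit 5) (nat_lit 265) (nat_lit 264) (nat_lit 251)))) (XT.nd (nat_lit 156) (nat_lit 532) (nat_lit 0) (XT.nd (nat_lit 78) (nat_lit 0) (nat_lit 76) (XT.lf (nat_lit 76) (nat_lit 1563762404) (nat_lit 0) (nat_lit 1049570222) (nat_lit 608) (nat_lit 4128552633) (nat_lit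 302) (nat_lit 5) (nat_lit 301) (nat_lit 5) (nat_lit 309) (nat_lit 5) (nat_lit 266) (nat_lit 264) (nat_lit 250)) (XT.lf (nat_lit 76) (nat_lit 296627330) (nat_lit 0) (nat_lit 5861747728) (nat_lit 608) (nat_lit 650923965) (nat_lit 303) (nat_lit 5) (nat_lit 302) (nat_lit 5) (nat_lit 310) (nat_lit 5) (nat_lit 267) (nat_lit 264) (nat_lit 249))) (XT.nd (nat_lit 78) (nat_lit 0) (nat_lit 0) (XT.lf (nat_lit 0) (nat_lit 2790028712) (nat_lit 608) (nat_lit 896721769) (nat_lit 684) (nat_lit 3197336793) (nat_lit 294) (nat_lit 5) (nat_lit 302) (nat_lit 5) (nat_lit 303) (nat_lit 5) (nat_lit 268) (nat_lit 264) (nat_lit 248)) (XT.lf (nat_lit 76) (nat_lit 4965012245) (nat_lit 0) (nat_lit 1266282058) (nat_lit 684) (nat_lit 736169703) (nat_lit 295) (nat_lit 5) (nat_lit 294) (nat_lit 5) (nat_lit 303) (nat_lit 5) (nat_lit 269) (nat_lit 264) (nat_lit 247))))) (XT.nd (nat_lit 234) (nat_lit 2584) (nat_lit 0) (XT.nd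 (nat_lit 78) (nat_lit 684) (nat_lit 0) (XT.lf (nat_lit 0) (nat_lit 2597036196) (nat_lit 684) (nat_lit 3063555786) (nat_lit 760) (nat_lit 1398029451) (nat_lit 286) (nat_lit 5) (nat_lit 295) (nat_lit 5) (nat_lit 296) (nat_lit 5) (nat_lit 270) (nat_lit 264) (nat_lit 246)) (XT.nd (nat_lit 78) (nat_lit 684) (nat_lit 0) (XT.lf (nat_lit 76) (nat_lit 3091460868) (nat_lit 0) (nat_lit 2862961131) (nat_lit 760) (nat_lit 1203772832) (nat_lit 287) (nat_lit 5) (nat_lit 286) (nat_lit 5) (nat_lit 296) (nat_lit 5) (nat_lit 271) (nat_lit 264) (nat_lit 245)) (XT.lf (nat_lit 0) (nat_lit 2044246032) (nat_lit 760) (nat_lit 5018817932) (nat_lit 76) (nat_lit 203165917) (nat_lit 277) (nat_lit 5) (nat_lit 287) (nat_lit 5) (nat_lit 278) (nat_lit 5) (nat_lit 272) (nat_lit 264) (nat_lit 244)))) (XT.nd (nat_lit 156) (nat_lit 912) (nat_lit 0) (XT.nd (nat_lit 78) (nat_lit 912) (nat_lit 0) (XT.lf (nat_lit 0) (nat_lit 1438858562)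 (nat_lit 760) (nat_lit 3899355420) (nat_lit 836) (nat_lit 2044069997) (nat_lit 267) (nat_lit 5) (nat_lit 277) (nat_lit 5) (nat_lit 278) (nat_lit 5) (nat_lit 273) (nat_lit 264) (nat_lit 243)) (XT.lf (nat_lit 0) (nat_lit 690801643) (nat_lit 836) (nat_lit 464032749) (nat_lit 912) (nat_lit 6352524944) (nat_lit 255) (nat_lit 5) (nat_lit 266) (nat_lit 5) (nat_lit 267) (nat_lit 5) (nat_lit 274) (nat_lit 264) (nat_lit 242))) (XT.nd (nat_lit 78) (nat_lit 912) (nat_lit 0) (XT.lf (nat_lit 0) (nat_lit 4399601756) (nat_lit 912) (nat_lit 40533887) (nat_lit 76) (nat_lit 3200300831) (nat_lit 255) (nat_lit 5) (nat_lit 267) (nat_lit 5) (nat_lit 256) (nat_lit 5) (nat_lit 275) (nat_lit 264) (nat_lit 241)) (XT.lf (nat_lit 0) (nat_lit 7080952860) (nat_lit 912) (nat_lit 642022024) (nat_lit 988) (nat_lit 59892925) (nat_lit 243) (nat_lit 5) (nat_lit 255) (nat_lit 5) (nat_lit 256) (nat_lit 5) (nat_lit 276) (nat_lit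 264) (nat_lit 240))))))))
noncomputable def xc57 : XT := (XT.nd (nat_lit 2184) (nat_lit 3724) (nat_lit 0) (XT.nd (nat_lit 1092) (nat_lit 3952) (nat_lit 0) (XT.nd (nat_lit 546) (nat_lit 3420) (nat_lit 0) (XT.nd (nat_lit 234) (nat_lit 2508) (nat_lit 0) (XT.nd (nat_lit 78) (nat_lit 2280) (nat_lit 0) (XT.lf (nat_lit 0) (nat_lit 3161499748) (nat_lit 1064) (nat_lit 1369869249) (nat_lit 76) (nat_lit 3401920440) (nat_lit 229) (nat_lit 5) (nat_lit 243) (nat_lit 5) (nat_lit 230) (nat_lit 5) (nat_lit 277) (nat_lit 264) (nat_lit 239)) (XT.nd (nat_lit 78) (nat_lit 1216) (nat_lit 0) (XT.lf (nat_lit 0) (nat_lit 6100021721) (nat_lit 1064) (nat_lit 369610948) (nat_lit 1140) (nat_lit 1623942922) (nat_lit 215) (nat_lit 5) (nat_lit 229) (nat_lit 5) (nat_lit 230) (nat_lit 5) (nat_lit 278) (nat_lit 264) (nat_lit 238)) (XT.lf (nat_lit 0) (nat_lit 1615425984) (nat_lit 1216) (nat_lit 2624916006) (nat_lit 76) (nat_lit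 4022196895) (nat_lit 199) (nat_lit 5) (nat_lit 215) (nat_lit 5) (nat_lit 200) (nat_lit 5) (nat_lit 279) (nat_lit 264) (nat_lit 237)))) (XT.nd (nat_lit 156) (nat_lit 1140) (nat_lit 0) (XT.nd (nat_lit 78) (nat_lit 608) (nat_lit 0) (XT.lf (nat_lit 0) (nat_lit 4925069982) (nat_lit 836) (nat_lit 3237767263) (nat_lit 76) (nat_lit 278522367) (nat_lit 189) (nat_lit 5) (nat_lit 200) (nat_lit 5) (nat_lit 190) (nat_lit 5) (nat_lit 280) (nat_lit 264) (nat_lit 236)) (XT.lf (nat_lit 0) (nat_lit 4772114713) (nat_lit 608) (nat_lit 3613719298) (nat_lit 684) (nat_lit 243859560) (nat_lit 181) (nat_lit 5) (nat_lit 189) (nat_lit 5) (nat_lit 190) (nat_lit 5) (nat_lit 281) (nat_lit 264) (nat_lit 235))) (XT.nd (nat_lit 78) (nat_lit 532) (nat_lit 0) (XT.lf (nat_lit 0) (nat_lit 3090923385) (nat_lit 608) (nat_lit 4489821082) (nat_lit 76) (nat_lit 1247079207) (nat_lit 173) (nat_lit 5) (nat_lit 181) (nat_lit 5) (nat_lit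 174) (nat_lit 5) (nat_lit 282) (nat_lit 264) (nat_lit 234)) (XT.lf (nat_lit 0) (nat_lit 3898944021) (nat_lit 532) (nat_lit 2680709711) (nat_lit 608) (nat_lit 2456491024) (nat_lit 166) (nat_lit 5) (nat_lit 173) (nat_lit 5) (nat_lit 174) (nat_lit 5) (nat_lit 283) (nat_lit 264) (nat_lit 233))))) (XT.nd (nat_lit 234) (nat_lit 1824) (nat_lit 0) (XT.nd (nat_lit 78) (nat_lit 988) (nat_lit 0) (XT.lf (nat_lit 0) (nat_lit 954774784) (nat_lit 608) (nat_lit 5800895341) (nat_lit 76) (nat_lit 2499458516) (nat_lit 158) (nat_lit 5) (nat_lit 166) (nat_lit 5) (nat_lit 159) (nat_lit 5) (nat_lit 284) (nat_lit 264) (nat_lit 232)) (XT.nd (nat_lit 78) (nat_lit 456) (nat_lit 0) (XT.lf (nat_lit 0) (nat_lit 2979087298) (nat_lit 532) (nat_lit 1502159739) (nat_lit 608) (nat_lit 5003331215) (nat_lit 151) (nat_lit 5) (nat_lit 158) (nat_lit 5) (nat_lit 159) (nat_lit 5) (nat_lit 285) (nat_lit 264) (nat_lit 231)) (XT.lf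 (nat_lit 0) (nat_lit 2479322520) (nat_lit 456) (nat_lit 5717460926) (nat_lit 532) (nat_lit 1528439062) (nat_lit 145) (nat_lit 5) (nat_lit 151) (nat_lit 5) (nat_lit 152) (nat_lit 5) (nat_lit 286) (nat_lit 264) (nat_lit 230)))) (XT.nd (nat_lit 156) (nat_lit 912) (nat_lit 0) (XT.nd (nat_lit 78) (nat_lit 380) (nat_lit 0) (XT.lf (nat_lit 0) (nat_lit 1951207882) (nat_lit 456) (nat_lit 122102199) (nat_lit 532) (nat_lit 7904239436) (nat_lit 138) (nat_lit 5) (nat_lit 144) (nat_lit 5) (nat_lit 145) (nat_lit 5) (nat_lit 287) (nat_lit 264) (nat_lit 229)) (XT.lf (nat_lit 0) (nat_lit 1350667991) (nat_lit 380) (nat_lit 4513483878) (nat_lit 456) (nat_lit 4376760465) (nat_lit 133) (nat_lit 5) (nat_lit 138) (nat_lit 5) (nat_lit 139) (nat_lit 5) (nat_lit 288) (nat_lit 264) (nat_lit 228))) (XT.nd (nat_lit 78) (nat_lit 456) (nat_lit 0) (XT.lf (nat_lit 0) (nat_lit 725547671) (nat_lit 456) (nat_lit 9123873529)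 (nat_lit 532) (nat_lit 667963071) (nat_lit 127) (nat_lit 5) (nat_lit 133) (nat_lit 5) (nat_lit 134) (nat_lit 5) (nat_lit 289) (nat_lit 264) (nat_lit 227)) (XT.lf (nat_lit 0) (nat_lit 4200195) (nat_lit 380) (nat_lit 3199981218) (nat_lit 456) (nat_lit 7601423042) (nat_lit 121) (nat_lit 5) (nat_lit 126) (nat_lit 5) (nat_lit 127) (nat_lit 5) (nat_lit 290) (nat_lit 264) (nat_lit 226)))))) (XT.nd (nat_lit 546) (nat_lit 1748) (nat_lit 0) (XT.nd (nat_lit 234) (nat_lit 1368) (nat_lit 0) (XT.nd (nat_lit 78) (nat_lit 836) (nat_lit 0) (XT.lf (nat_lit 0) (nat_lit 7293178633) (nat_lit 456) (nat_lit 767879887) (nat_lit 76) (nat_lit 3045944013) (nat_lit 121) (nat_lit 5) (nat_lit 127) (nat_lit 5) (nat_lit 122) (nat_lit 5) (nat_lit 291) (nat_lit 264) (nat_lit 225)) (XT.nd (nat_lit 78) (nat_lit 380) (nat_lit 0) (XT.lf (nat_lit 0) (nat_lit 197457016) (nat_lit 456) (nat_lit 1612696404) (nat_lit 76) (nat_lit 9612216758)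 (nat_lit 115) (nat_lit 5) (nat_lit 121) (nat_lit 5) (nat_lit 116) (nat_lit 5) (nat_lit 292) (nat_lit 264) (nat_lit 224)) (XT.lf (nat_lit 0) (nat_lit 4387257952) (nat_lit 456) (nat_lit 2592278228) (nat_lit 76) (nat_lit 4771200141) (nat_lit 110) (nat_lit 5) (nat_lit 116) (nat_lit 5) (nat_lit 111) (nat_lit 5) (nat_lit 293) (nat_lit 264) (nat_lit 223)))) (XT.nd (nat_lit 156) (nat_lit 608) (nat_lit 0) (XT.nd (nat_lit 78) (nat_lit 380) (nat_lit 0) (XT.lf (nat_lit 0) (nat_lit 8440706747) (nat_lit 380) (nat_lit 377697006) (nat_lit 456) (nat_lit 3276226026) (nat_lit 105) (nat_lit 5) (nat_lit 110) (nat_lit 5) (nat_lit 111) (nat_lit 5) (nat_lit 294) (nat_lit 264) (nat_lit 222)) (XT.lf (nat_lit 0) (nat_lit 1077690804) (nat_lit 380) (nat_lit 4865736802) (nat_lit 76) (nat_lit 6509593797) (nat_lit 100) (nat_lit 5) (nat_lit 105) (nat_lit 5) (nat_lit 101) (nat_lit 5) (nat_lit 295) (nat_lit 264) (nat_lit 221)))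 (XT.nd (nat_lit 78) (nat_lit 304) (nat_lit 0) (XT.lf (nat_lit 0) (nat_lit 5617741092) (nat_lit 380) (nat_lit 6216585350) (nat_lit 76) (nat_lit 993004112) (nat_lit 96) (nat_lit 5) (nat_lit 101) (nat_lit 5) (nat_lit 97) (nat_lit 5) (nat_lit 296) (nat_lit 264) (nat_lit 220)) (XT.lf (nat_lit 0) (nat_lit 5481561302) (nat_lit 304) (nat_lit 4989363835) (nat_lit 380) (nat_lit 2746900313) (nat_lit 92) (nat_lit 5) (nat_lit 96) (nat_lit 5) (nat_lit 97) (nat_lit 5) (nat_lit 297) (nat_lit 264) (nat_lit 219))))) (XT.nd (nat_lit 234) (nat_lit 836) (nat_lit 0) (XT.nd (nat_lit 78) (nat_lit 532) (nat_lit 0) (XT.lf (nat_lit 0) (nat_lit 1953106325) (nat_lit 380) (nat_lit 9423947753) (nat_lit 76) (nat_lit 2248721454) (nat_lit 87) (nat_lit 5) (nat_lit 92) (nat_lit 5) (nat_lit 88) (nat_lit 5) (nat_lit 298) (nat_lit 264) (nat_lit 218)) (XT.nd (nat_lit 78) (nat_lit 304) (nat_lit 0) (XT.lf (nat_lit 0) (nat_lit 2714778996)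 (nat_lit 228) (nat_lit 4200949515) (nat_lit 304) (nat_lit 7135093685) (nat_lit 84) (nat_lit 5) (nat_lit 87) (nat_lit 5) (nat_lit 88) (nat_lit 5) (nat_lit 299) (nat_lit 264) (nat_lit 217)) (XT.lf (nat_lit 0) (nat_lit 1045674255) (nat_lit 304) (nat_lit 11150066947) (nat_lit 380) (nat_lit 2299347685) (nat_lit 80) (nat_lit 5) (nat_lit 84) (nat_lit 5) (nat_lit 85) (nat_lit 5) (nat_lit 300) (nat_lit 264) (nat_lit 216)))) (XT.nd (nat_lit 156) (nat_lit 532) (nat_lit 0) (XT.nd (nat_lit 78) (nat_lit 228) (nat_lit 0) (XT.lf (nat_lit 0) (nat_lit 2815085086) (nat_lit 380) (nat_lit 848260323) (nat_lit 76) (nat_lit 11294731027) (nat_lit 79) (nat_lit 5) (nat_lit 84) (nat_lit 5) (nat_lit 80) (nat_lit 5) (nat_lit 301) (nat_lit 264) (nat_lit 215)) (XT.lf (nat_lit 0) (nat_lit 8233948284) (nat_lit 304) (nat_lit 2977994142) (nat_lit 76) (nat_lit 4228740124) (nat_lit 76) (nat_lit 5) (nat_lit 80) (nat_lit 5) (nat_lit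 77) (nat_lit 5) (nat_lit 302) (nat_lit 264) (nat_lit 214))) (XT.nd (nat_lit 78) (nat_lit 304) (nat_lit 0) (XT.lf (nat_lit 0) (nat_lit 10581986128) (nat_lit 228) (nat_lit 3425345771) (nat_lit 304) (nat_lit 1937617893) (nat_lit 73) (nat_lit 5) (nat_lit 76) (nat_lit 5) (nat_lit 77) (nat_lit 5) (nat_lit 303) (nat_lit 264) (nat_lit 213)) (XT.lf (nat_lit 0) (nat_lit 3621272196) (nat_lit 304) (nat_lit 8075850963) (nat_lit 76) (nat_lit 4773411741) (nat_lit 69) (nat_lit 5) (nat_lit 73) (nat_lit 5) (nat_lit 70) (nat_lit 5) (nat_lit 304) (nat_lit 264) (nat_lit 212))))))) (XT.nd (nat_lit 1092) (nat_lit 1368) (nat_lit 0) (XT.nd (nat_lit 546) (nat_lit 988) (nat_lit 0) (XT.nd (nat_lit 234) (nat_lit 836) (nat_lit 0) (XT.nd (nat_lit 78) (nat_lit 304) (nat_lit 0) (XT.lf (nat_lit 0) (nat_lit 5897466421) (nat_lit 228) (nat_lit 3607276197) (nat_lit 304) (nat_lit 7514513442) (nat_lit 66) (nat_lit 5) (nat_lit 69)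 (nat_lit 5) (nat_lit 70) (nat_lit 5) (nat_lit 305) (nat_lit 264) (nat_lit 211)) (XT.nd (nat_lit 78) (nat_lit 76) (nat_lit 0) (XT.lf (nat_lit 0) (nat_lit 3064036877) (nat_lit 228) (nat_lit 12719746352) (nat_lit 304) (nat_lit 1808620135) (nat_lit 63) (nat_lit 5) (nat_lit 66) (nat_lit 5) (nat_lit 67) (nat_lit 5) (nat_lit 306) (nat_lit 264) (nat_lit 210)) (XT.lf (nat_lit 0) (nat_lit 4195335232) (nat_lit 304) (nat_lit 168702957) (nat_lit 76) (nat_lit 13826161726) (nat_lit 62) (nat_lit 5) (nat_lit 66) (nat_lit 5) (nat_lit 63) (nat_lit 5) (nat_lit 307) (nat_lit 264) (nat_lit 209)))) (XT.nd (nat_lit 156) (nat_lit 456) (nat_lit 0) (XT.nd (nat_lit 78) (nat_lit 152) (nat_lit 0) (XT.lf (nat_lit 0) (nat_lit 10596351175) (nat_lit 304) (nat_lit 3760427993) (nat_lit 76) (nat_lit 4456570045) (nat_lit 59) (nat_lit 5) (nat_lit 63) (nat_lit 5) (nat_lit 60) (nat_lit 5) (nat_lit 308) (nat_lit 264) (nat_lit 208))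 (XT.lf (nat_lit 0) (nat_lit 11668998074) (nat_lit 152) (nat_lit 5752981427) (nat_lit 228) (nat_lit 2042566453) (nat_lit 57) (nat_lit 5) (nat_lit 59) (nat_lit 5) (nat_lit 60) (nat_lit 5) (nat_lit 309) (nat_lit 264) (nat_lit 207))) (XT.nd (nat_lit 78) (nat_lit 152) (nat_lit 0) (XT.lf (nat_lit 0) (nat_lit 4448831908) (nat_lit 304) (nat_lit 12351762103) (nat_lit 76) (nat_lit 3343605847) (nat_lit 53) (nat_lit 5) (nat_lit 57) (nat_lit 5) (nat_lit 54) (nat_lit 5) (nat_lit 310) (nat_lit 264) (nat_lit 206)) (XT.lf (nat_lit 0) (nat_lit 3369995937) (nat_lit 152) (nat_lit 7973638214) (nat_lit 228) (nat_lit 9509986905) (nat_lit 51) (nat_lit 5) (nat_lit 53) (nat_lit 5) (nat_lit 54) (nat_lit 5) (nat_lit 311) (nat_lit 264) (nat_lit 205))))) (XT.nd (nat_lit 234) (nat_lit 532) (nat_lit 0) (XT.nd (nat_lit 78) (nat_lit 456) (nat_lit 0) (XT.lf (nat_lit 0) (nat_lit 18674543991) (nat_lit 228) (nat_lit 1554825281)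 (nat_lit 76) (nat_lit 1366425517) (nat_lit 51) (nat_lit 5) (nat_lit 54) (nat_lit 5) (nat_lit 52) (nat_lit 5) (nat_lit 312) (nat_lit 264) (nat_lit 204)) (XT.nd (nat_lit 78) (nat_lit 152) (nat_lit 0) (XT.lf (nat_lit 0) (nat_lit 4101214786) (nat_lit 304) (nat_lit 7099655458) (nat_lit 76) (nat_lit 11167606531) (nat_lit 47) (nat_lit 5) (nat_lit 51) (nat_lit 5) (nat_lit 48) (nat_lit 5) (nat_lit 313) (nat_lit 264) (nat_lit 203)) (XT.lf (nat_lit 0) (nat_lit 9872692119) (nat_lit 152) (nat_lit 1607233140) (nat_lit 228) (nat_lit 11697053590) (nat_lit 45) (nat_lit 5) (nat_lit 47) (nat_lit 5) (nat_lit 48) (nat_lit 5) (nat_lit 314) (nat_lit 264) (nat_lit 202)))) (XT.nd (nat_lit 156) (nat_lit 304) (nat_lit 0) (XT.nd (nat_lit 78) (nat_lit 76) (nat_lit 0) (XT.lf (nat_lit 0) (nat_lit 3733046182) (nat_lit 152) (nat_lit 15640691488) (nat_lit 228) (nat_lit 4647802231) (nat_lit 43) (nat_lit 5) (nat_lit 45) (nat_lit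 5) (nat_lit 46) (nat_lit 5) (nat_lit 315) (nat_lit 264) (nat_lit 201)) (XT.lf (nat_lit 0) (nat_lit 2810780373) (nat_lit 228) (nat_lit 3122717458) (nat_lit 76) (nat_lit 18970736234) (nat_lit 42) (nat_lit 5) (nat_lit 45) (nat_lit 5) (nat_lit 43) (nat_lit 5) (nat_lit 316) (nat_lit 264) (nat_lit 200))) (XT.nd (nat_lit 78) (nat_lit 152) (nat_lit 0) (XT.lf (nat_lit 0) (nat_lit 10692719447) (nat_lit 228) (nat_lit 10791640092) (nat_lit 76) (nat_lit 4340942947) (nat_lit 40) (nat_lit 5) (nat_lit 43) (nat_lit 5) (nat_lit 41) (nat_lit 5) (nat_lit 317) (nat_lit 264) (nat_lit 199)) (XT.lf (nat_lit 0) (nat_lit 7385496532) (nat_lit 152) (nat_lit 11705822813) (nat_lit 228) (nat_lit 7697443891) (nat_lit 38) (nat_lit 5) (nat_lit 40) (nat_lit 5) (nat_lit 41) (nat_lit 5) (nat_lit 318) (nat_lit 264) (nat_lit 198)))))) (XT.nd (nat_lit 546) (nat_lit 684) (nat_lit 0) (XT.nd (nat_lit 234) (nat_lit 304) (nat_lit 0)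 (XT.nd (nat_lit 78) (nat_lit 304) (nat_lit 0) (XT.lf (nat_lit 0) (nat_lit 179606493) (nat_lit 228) (nat_lit 1171084446) (nat_lit 76) (nat_lit 26447520452) (nat_lit 37) (nat_lit 5) (nat_lit 40) (nat_lit 5) (nat_lit 38) (nat_lit 5) (nat_lit 319) (nat_lit 264) (nat_lit 197)) (XT.nd (nat_lit 78) (nat_lit 152) (nat_lit 0) (XT.lf (nat_lit 0) (nat_lit 8523360205) (nat_lit 228) (nat_lit 10761215847) (nat_lit 76) (nat_lit 9564322096) (nat_lit 35) (nat_lit 5) (nat_lit 38) (nat_lit 5) (nat_lit 36) (nat_lit 5) (nat_lit 320) (nat_lit 264) (nat_lit 196)) (XT.lf (nat_lit 0) (nat_lit 8469040751) (nat_lit 152) (nat_lit 8885416157) (nat_lit 228) (nat_lit 12595570947) (nat_lit 33) (nat_lit 5) (nat_lit 35) (nat_lit 5) (nat_lit 36) (nat_lit 5) (nat_lit 321) (nat_lit 264) (nat_lit 195)))) (XT.nd (nat_lit 156) (nat_lit 152) (nat_lit 0) (XT.nd (nat_lit 78) (nat_lit 152) (nat_lit 0) (XT.lf (nat_lit 0) (nat_lit 26722374011)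 (nat_lit 228) (nat_lit 2301400256) (nat_lit 76) (nat_lit 2079594454) (nat_lit 33) (nat_lit 5) (nat_lit 36) (nat_lit 5) (nat_lit 34) (nat_lit 4) (nat_lit 322) (nat_lit 264) (nat_lit 194)) (XT.lf (nat_lit 0) (nat_lit 4392388951) (nat_lit 152) (nat_lit 14311628648) (nat_lit 76) (nat_lit 13602219740) (nat_lit 31) (nat_lit 5) (nat_lit 33) (nat_lit 5) (nat_lit 32) (nat_lit 5) (nat_lit 323) (nat_lit 264) (nat_lit 193))) (XT.nd (nat_lit 78) (nat_lit 0) (nat_lit 0) (XT.lf (nat_lit 0) (nat_lit 5794110733) (nat_lit 152) (nat_lit 7766486882) (nat_lit 228) (nat_lit 20005958772) (nat_lit 29) (nat_lit 5) (nat_lit 31) (nat_lit 5) (nat_lit 32) (nat_lit 5) (nat_lit 324) (nat_lit 264) (nat_lit 192)) (XT.lf (nat_lit 0) (nat_lit 23338845349) (nat_lit 228) (nat_lit 7776977363) (nat_lit 76) (nat_lit 3769530418) (nat_lit 29) (nat_lit 5) (nat_lit 32) (nat_lit 5) (nat_lit 30) (nat_lit 4) (nat_lit 325) (nat_lit 264)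 (nat_lit 191))))) (XT.nd (nat_lit 312) (nat_lit 304) (nat_lit 0) (XT.nd (nat_lit 156) (nat_lit 228) (nat_lit 0) (XT.nd (nat_lit 78) (nat_lit 76) (nat_lit 0) (XT.lf (nat_lit 0) (nat_lit 13344545768) (nat_lit 76) (nat_lit 20436796532) (nat_lit 152) (nat_lit 2483497402) (nat_lit 28) (nat_lit 5) (nat_lit 29) (nat_lit 5) (nat_lit 30) (nat_lit 4) (nat_lit 326) (nat_lit 264) (nat_lit 190)) (XT.lf (nat_lit 0) (nat_lit 6945614000) (nat_lit 152) (nat_lit 2149384662) (nat_lit 76) (nat_lit 28614777715) (nat_lit 27) (nat_lit 5) (nat_lit 29) (nat_lit 5) (nat_lit 28) (nat_lit 5) (nat_lit 327) (nat_lit 264) (nat_lit 189))) (XT.nd (nat_lit 78) (nat_lit 76) (nat_lit 0) (XT.lf (nat_lit 0) (nat_lit 16987055749) (nat_lit 228) (nat_lit 19277714516) (nat_lit 76) (nat_lit 2955693719) (nat_lit 25) (nat_lit 5) (nat_lit 28) (nat_lit 5) (nat_lit 26) (nat_lit 4) (nat_lit 328) (nat_lit 264) (nat_lit 188)) (XT.lf (nat_lit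 0) (nat_lit 2279556546) (nat_lit 76) (nat_lit 25358551380) (nat_lit 152) (nat_lit 13165360363) (nat_lit 24) (nat_lit 5) (nat_lit 25) (nat_lit 5) (nat_lit 26) (nat_lit 4) (nat_lit 329) (nat_lit 264) (nat_lit 187)))) (XT.nd (nat_lit 156) (nat_lit 76) (nat_lit 0) (XT.nd (nat_lit 78) (nat_lit 228) (nat_lit 0) (XT.lf (nat_lit 0) (nat_lit 25267716340) (nat_lit 76) (nat_lit 13724805211) (nat_lit 152) (nat_lit 3467985058) (nat_lit 24) (nat_lit 5) (nat_lit 25) (nat_lit 5) (nat_lit 26) (nat_lit 4) (nat_lit 330) (nat_lit 264) (nat_lit 186)) (XT.lf (nat_lit 0) (nat_lit 5193707128) (nat_lit 152) (nat_lit 1412867334) (nat_lit 228) (nat_lit 37591193547) (nat_lit 21) (nat_lit 5) (nat_lit 23) (nat_lit 5) (nat_lit 24) (nat_lit 5) (nat_lit 331) (nat_lit 264) (nat_lit 185))) (XT.nd (nat_lit 78) (nat_lit 76) (nat_lit 0) (XT.lf (nat_lit 0) (nat_lit 17377255964) (nat_lit 228) (nat_lit 17152407303) (nat_lit 76)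 (nat_lit 11483282702) (nat_lit 21) (nat_lit 5) (nat_lit 24) (nat_lit 5) (nat_lit 22) (nat_lit 4) (nat_lit 332) (nat_lit 264) (nat_lit 184)) (XT.lf (nat_lit 0) (nat_lit 5846715260) (nat_lit 76) (nat_lit 22885483249) (nat_lit 152) (nat_lit 19185319272) (nat_lit 20) (nat_lit 5) (nat_lit 21) (nat_lit 5) (nat_lit 22) (nat_lit 4) (nat_lit 333) (nat_lit 264) (nat_lit 183))))))))
noncomputable def xc58 : XT := (XT.nd (nat_lit 2184) (nat_lit 0) (nat_lit 0) (XT.nd (nat_lit 1092) (nat_lit 380) (nat_lit 0) (XT.nd (nat_lit 546) (nat_lit 228) (nat_lit 0) (XT.nd (nat_lit 234) (nat_lit 228) (nat_lit 0) (XT.nd (nat_lit 78) (nat_lit 152) (nat_lit 0) (XT.lf (nat_lit 0) (nat_lit 30310573365) (nat_lit 76) (nat_lit 10496906314) (nat_lit 152) (nat_lit 9105267200) (nat_lit 20) (nat_lit 5) (nat_lit 21) (nat_lit 5) (nat_lit 22) (nat_lit 4) (nat_lit 334) (nat_lit 264) (nat_lit 182)) (XT.nd (nat_lit 78) (nat_lit 0)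 (nat_lit 0) (XT.lf (nat_lit 0) (nat_lit 1489906685) (nat_lit 152) (nat_lit 48019413213) (nat_lit 76) (nat_lit 2496797770) (nat_lit 18) (nat_lit 5) (nat_lit 20) (nat_lit 5) (nat_lit 19) (nat_lit 4) (nat_lit 335) (nat_lit 264) (nat_lit 181)) (XT.lf (nat_lit 0) (nat_lit 12715472267) (nat_lit 152) (nat_lit 25274632155) (nat_lit 76) (nat_lit 16202685395) (nat_lit 18) (nat_lit 5) (nat_lit 20) (nat_lit 5) (nat_lit 19) (nat_lit 4) (nat_lit 336) (nat_lit 264) (nat_lit 180)))) (XT.nd (nat_lit 156) (nat_lit 152) (nat_lit 0) (XT.nd (nat_lit 78) (nat_lit 76) (nat_lit 0) (XT.lf (nat_lit 0) (nat_lit 24480850029) (nat_lit 152) (nat_lit 1431979177) (nat_lit 76) (nat_lit 30576615752) (nat_lit 18) (nat_lit 5) (nat_lit 20) (nat_lit 5) (nat_lit 19) (nat_lit 4) (nat_lit 337) (nat_lit 264) (nat_lit 179)) (XT.lf (nat_lit 0) (nat_lit 24034309896) (nat_lit 76) (nat_lit 13010775369) (nat_lit 152) (nat_lit 21849535078)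 (nat_lit 17) (nat_lit 5) (nat_lit 18) (nat_lit 5) (nat_lit 19) (nat_lit 4) (nat_lit 338) (nat_lit 264) (nat_lit 178))) (XT.nd (nat_lit 78) (nat_lit 152) (nat_lit 0) (XT.lf (nat_lit 0) (nat_lit 50237595202) (nat_lit 152) (nat_lit 10657934429) (nat_lit 0) (nat_lit 524527879) (nat_lit 17) (nat_lit 5) (nat_lit 19) (nat_lit 4) (nat_lit 17) (nat_lit 4) (nat_lit 339) (nat_lit 264) (nat_lit 177)) (XT.lf (nat_lit 0) (nat_lit 275450121) (nat_lit 152) (nat_lit 49188342918) (nat_lit 76) (nat_lit 14600237750) (nat_lit 15) (nat_lit 5) (nat_lit 17) (nat_lit 5) (nat_lit 16) (nat_lit 4) (nat_lit 340) (nat_lit 264) (nat_lit 176))))) (XT.nd (nat_lit 234) (nat_lit 152) (nat_lit 0) (XT.nd (nat_lit 78) (nat_lit 76) (nat_lit 0) (XT.lf (nat_lit 0) (nat_lit 12169300623) (nat_lit 152) (nat_lit 25076625772) (nat_lit 76) (nat_lit 29588129739) (nat_lit 15) (nat_lit 5) (nat_lit 17) (nat_lit 5) (nat_lit 16) (nat_lit 4)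 (nat_lit 341) (nat_lit 264) (nat_lit 175)) (XT.nd (nat_lit 78) (nat_lit 0) (nat_lit 0) (XT.lf (nat_lit 0) (nat_lit 211983649) (nat_lit 76) (nat_lit 24430147969) (nat_lit 152) (nat_lit 45100926599) (nat_lit 14) (nat_lit 5) (nat_lit 15) (nat_lit 5) (nat_lit 16) (nat_lit 4) (nat_lit 342) (nat_lit 264) (nat_lit 174)) (XT.lf (nat_lit 0) (nat_lit 27257162190) (nat_lit 76) (nat_lit 10722372650) (nat_lit 152) (nat_lit 34810751559) (nat_lit 14) (nat_lit 5) (nat_lit 15) (nat_lit 5) (nat_lit 16) (nat_lit 4) (nat_lit 343) (nat_lit 264) (nat_lit 173)))) (XT.nd (nat_lit 156) (nat_lit 76) (nat_lit 0) (XT.nd (nat_lit 78) (nat_lit 76) (nat_lit 0) (XT.lf (nat_lit 0) (nat_lit 52002568255) (nat_lit 152) (nat_lit 20401293870) (nat_lit 0) (nat_lit 3585454790) (nat_lit 14) (nat_lit 5) (nat_lit 16) (nat_lit 4) (nat_lit 14) (nat_lit 4) (nat_lit 344) (nat_lit 264) (nat_lit 172)) (XT.lf (nat_lit 0) (nat_lit 5966055477)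 (nat_lit 76) (nat_lit 60910531828) (nat_lit 76) (nat_lit 12467220183) (nat_lit 13) (nat_lit 4) (nat_lit 14) (nat_lit 5) (nat_lit 14) (nat_lit 4) (nat_lit 345) (nat_lit 264) (nat_lit 171))) (XT.nd (nat_lit 78) (nat_lit 76) (nat_lit 0) (XT.lf (nat_lit 0) (nat_lit 34049670065) (nat_lit 76) (nat_lit 48639387841) (nat_lit 76) (nat_lit 171125548) (nat_lit 13) (nat_lit 4) (nat_lit 14) (nat_lit 5) (nat_lit 14) (nat_lit 4) (nat_lit 346) (nat_lit 264) (nat_lit 170)) (XT.lf (nat_lit 0) (nat_lit 12476491942) (nat_lit 152) (nat_lit 23164746172) (nat_lit 76) (nat_lit 50907909844) (nat_lit 12) (nat_lit 5) (nat_lit 14) (nat_lit 5) (nat_lit 13) (nat_lit 4) (nat_lit 347) (nat_lit 264) (nat_lit 169)))))) (XT.nd (nat_lit 546) (nat_lit 152) (nat_lit 0) (XT.nd (nat_lit 234) (nat_lit 152) (nat_lit 0) (XT.nd (nat_lit 78) (nat_lit 0) (nat_lit 0) (XT.lf (nat_lit 0) (nat_lit 3809858797) (nat_lit 76) (nat_lit 21965764151)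 (nat_lit 152) (nat_lit 64646209734) (nat_lit 11) (nat_lit 5) (nat_lit 12) (nat_lit 5) (nat_lit 13) (nat_lit 4) (nat_lit 348) (nat_lit 264) (nat_lit 168)) (XT.nd (nat_lit 78) (nat_lit 0) (nat_lit 0) (XT.lf (nat_lit 0) (nat_lit 32591948832) (nat_lit 76) (nat_lit 7372660984) (nat_lit 152) (nat_lit 54516797681) (nat_lit 11) (nat_lit 5) (nat_lit 12) (nat_lit 5) (nat_lit 13) (nat_lit 4) (nat_lit 349) (nat_lit 264) (nat_lit 167)) (XT.lf (nat_lit 0) (nat_lit 54926444043) (nat_lit 152) (nat_lit 36031635919) (nat_lit 0) (nat_lit 7783981852) (nat_lit 11) (nat_lit 5) (nat_lit 13) (nat_lit 4) (nat_lit 11) (nat_lit 4) (nat_lit 350) (nat_lit 264) (nat_lit 166)))) (XT.nd (nat_lit 156) (nat_lit 76) (nat_lit 0) (XT.nd (nat_lit 78) (nat_lit 76) (nat_lit 0) (XT.lf (nat_lit 0) (nat_lit 70698381001) (nat_lit 152) (nat_lit 8978571361) (nat_lit 0) (nat_lit 23536938727) (nat_lit 11) (nat_lit 5) (nat_lit 13) (nat_lit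 4) (nat_lit 11) (nat_lit 4) (nat_lit 351) (nat_lit 264) (nat_lit 165)) (XT.lf (nat_lit 0) (nat_lit 19791215494) (nat_lit 76) (nat_lit 67646132169) (nat_lit 76) (nat_lit 20466613626) (nat_lit 10) (nat_lit 4) (nat_lit 11) (nat_lit 5) (nat_lit 11) (nat_lit 4) (nat_lit 352) (nat_lit 264) (nat_lit 164))) (XT.nd (nat_lit 78) (nat_lit 76) (nat_lit 0) (XT.lf (nat_lit 0) (nat_lit 50165622915) (nat_lit 76) (nat_lit 54928609679) (nat_lit 76) (nat_lit 7731875641) (nat_lit 10) (nat_lit 4) (nat_lit 11) (nat_lit 5) (nat_lit 11) (nat_lit 4) (nat_lit 353) (nat_lit 264) (nat_lit 163)) (XT.lf (nat_lit 0) (nat_lit 5518529154) (nat_lit 152) (nat_lit 36010515563) (nat_lit 76) (nat_lit 76464024266) (nat_lit 9) (nat_lit 5) (nat_lit 11) (nat_lit 5) (nat_lit 10) (nat_lit 4) (nat_lit 354) (nat_lit 264) (nat_lit 162))))) (XT.nd (nat_lit 234) (nat_lit 76) (nat_lit 0) (XT.nd (nat_lit 78) (nat_lit 76) (nat_lit 0) (XT.lf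 (nat_lit 0) (nat_lit 19262537235) (nat_lit 152) (nat_lit 8125794120) (nat_lit 76) (nat_lit 96028022168) (nat_lit 9) (nat_lit 5) (nat_lit 11) (nat_lit 5) (nat_lit 10) (nat_lit 4) (nat_lit 355) (nat_lit 264) (nat_lit 161)) (XT.nd (nat_lit 78) (nat_lit 0) (nat_lit 0) (XT.lf (nat_lit 0) (nat_lit 21555010614) (nat_lit 76) (nat_lit 12335938506) (nat_lit 152) (nat_lit 95213939025) (nat_lit 8) (nat_lit 5) (nat_lit 9) (nat_lit 5) (nat_lit 10) (nat_lit 4) (nat_lit 356) (nat_lit 264) (nat_lit 160)) (XT.lf (nat_lit 0) (nat_lit 49358826730) (nat_lit 152) (nat_lit 82238295702) (nat_lit 0) (nat_lit 3477487574) (nat_lit 8) (nat_lit 5) (nat_lit 10) (nat_lit 4) (nat_lit 8) (nat_lit 4) (nat_lit 357) (nat_lit 264) (nat_lit 159)))) (XT.nd (nat_lit 156) (nat_lit 76) (nat_lit 0) (XT.nd (nat_lit 78) (nat_lit 0) (nat_lit 0) (XT.lf (nat_lit 0) (nat_lit 65715295638) (nat_lit 152) (nat_lit 55803207606) (nat_lit 0) (nat_lit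 19820860569) (nat_lit 8) (nat_lit 5) (nat_lit 10) (nat_lit 4) (nat_lit 8) (nat_lit 4) (nat_lit 358) (nat_lit 264) (nat_lit 158)) (XT.lf (nat_lit 0) (nat_lit 82880719231) (nat_lit 152) (nat_lit 28063091969) (nat_lit 0) (nat_lit 36973811863) (nat_lit 8) (nat_lit 5) (nat_lit 10) (nat_lit 4) (nat_lit 8) (nat_lit 4) (nat_lit 359) (nat_lit 264) (nat_lit 157))) (XT.nd (nat_lit 78) (nat_lit 0) (nat_lit 0) (XT.lf (nat_lit 0) (nat_lit 1068958330) (nat_lit 76) (nat_lit 99837284716) (nat_lit 76) (nat_lit 53918498968) (nat_lit 7) (nat_lit 4) (nat_lit 8) (nat_lit 5) (nat_lit 8) (nat_lit 4) (nat_lit 360) (nat_lit 264) (nat_lit 156)) (XT.lf (nat_lit 0) (nat_lit 32228573522) (nat_lit 76) (nat_lit 87885161329) (nat_lit 76) (nat_lit 41955062840) (nat_lit 7) (nat_lit 4) (nat_lit 8) (nat_lit 5) (nat_lit 8) (nat_lit 4) (nat_lit 361) (nat_lit 264) (nat_lit 155))))))) (XT.nd (nat_lit 33930) (nat_lit 0) (nat_lit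 9044) (XT.nd (nat_lit 33384) (nat_lit 0) (nat_lit 18848) (XT.nd (nat_lit 33072) (nat_lit 0) (nat_lit 21736) (XT.nd (nat_lit 78) (nat_lit 0) (nat_lit 0) (XT.lf (nat_lit 0) (nat_lit 64931432610) (nat_lit 76) (nat_lit 75342365808) (nat_lit 76) (nat_lit 29401493278) (nat_lit 7) (nat_lit 4) (nat_lit 8) (nat_lit 5) (nat_lit 8) (nat_lit 4) (nat_lit 362) (nat_lit 264) (nat_lit 154)) (XT.nd (nat_lit 78) (nat_lit 0) (nat_lit 0) (XT.lf (nat_lit 0) (nat_lit 99255399545) (nat_lit 76) (nat_lit 62179034353) (nat_lit 76) (nat_lit 16227900832) (nat_lit 7) (nat_lit 4) (nat_lit 8) (nat_lit 5) (nat_lit 8) (nat_lit 4) (nat_lit 363) (nat_lit 264) (nat_lit 153)) (XT.lf (nat_lit 0) (nat_lit 135282198057) (nat_lit 76) (nat_lit 48363825699) (nat_lit 76) (nat_lit 2402919806) (nat_lit 7) (nat_lit 4) (nat_lit 8) (nat_lit 5) (nat_lit 8) (nat_lit 4) (nat_lit 364) (nat_lit 264) (nat_lit 152)))) (XT.nd (nat_lit 156) (nat_lit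 608) (nat_lit 0) (XT.nd (nat_lit 78) (nat_lit 0) (nat_lit 0) (XT.lf (nat_lit 0) (nat_lit 621244202) (nat_lit 0) (nat_lit 621244202) (nat_lit 532) (nat_lit 2126365395) (nat_lit 301) (nat_lit 5) (nat_lit 301) (nat_lit 3) (nat_lit 308) (nat_lit 3) (nat_lit 265) (nat_lit 265) (nat_lit 250)) (XT.lf (nat_lit 0) (nat_lit 5890656058) (nat_lit 532) (nat_lit 248555979) (nat_lit 608) (nat_lit 661660468) (nat_lit 301) (nat_lit 5) (nat_lit 308) (nat_lit 3) (nat_lit 309) (nat_lit 5) (nat_lit 266) (nat_lit 265) (nat_lit 249))) (XT.nd (nat_lit 78) (nat_lit 0) (nat_lit 0) (XT.lf (nat_lit 0) (nat_lit 2397185370) (nat_lit 608) (nat_lit 1660004453) (nat_lit 684) (nat_lit 2814110589) (nat_lit 293) (nat_lit 5) (nat_lit 301) (nat_lit 5) (nat_lit 302) (nat_lit 5) (nat_lit 267) (nat_lit 265) (nat_lit 248)) (XT.lf (nat_lit 76) (nat_lit 3956487104) (nat_lit 0) (nat_lit 1729590544) (nat_lit 684) (nat_lit 1264147586)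 (nat_lit 294) (nat_lit 5) (nat_lit 293) (nat_lit 5) (nat_lit 302) (nat_lit 5) (nat_lit 268) (nat_lit 265) (nat_lit 247))))) (XT.nd (nat_lit 234) (nat_lit 1520) (nat_lit 0) (XT.nd (nat_lit 78) (nat_lit 760) (nat_lit 0) (XT.lf (nat_lit 0) (nat_lit 1918077277) (nat_lit 684) (nat_lit 4272709544) (nat_lit 760) (nat_lit 846388296) (nat_lit 285) (nat_lit 5) (nat_lit 294) (nat_lit 5) (nat_lit 295) (nat_lit 5) (nat_lit 269) (nat_lit 265) (nat_lit 246)) (XT.nd (nat_lit 78) (nat_lit 760) (nat_lit 0) (XT.lf (nat_lit 76) (nat_lit 1626831820) (nat_lit 0) (nat_lit 3480699113) (nat_lit 760) (nat_lit 2024597316) (nat_lit 286) (nat_lit 5) (nat_lit 285) (nat_lit 5) (nat_lit 295) (nat_lit 5) (nat_lit 270) (nat_lit 265) (nat_lit 245)) (XT.lf (nat_lit 76) (nat_lit 558364039) (nat_lit 0) (nat_lit 507844887) (nat_lit 836) (nat_lit 6169542208) (nat_lit 276) (nat_lit 5) (nat_lit 275) (nat_lit 5) (nat_lit 286) (nat_lit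 5) (nat_lit 271) (nat_lit 265) (nat_lit 244)))) (XT.nd (nat_lit 156) (nat_lit 1596) (nat_lit 0) (XT.nd (nat_lit 78) (nat_lit 0) (nat_lit 0) (XT.lf (nat_lit 0) (nat_lit 4176346661) (nat_lit 760) (nat_lit 471823547) (nat_lit 836) (nat_lit 2698811873) (nat_lit 276) (nat_lit 5) (nat_lit 286) (nat_lit 5) (nat_lit 287) (nat_lit 5) (nat_lit 272) (nat_lit 265) (nat_lit 243)) (XT.lf (nat_lit 76) (nat_lit 6039506132) (nat_lit 0) (nat_lit 1297967734) (nat_lit 836) (nat_lit 129653538) (nat_lit 277) (nat_lit 5) (nat_lit 276) (nat_lit 5) (nat_lit 287) (nat_lit 5) (nat_lit 273) (nat_lit 265) (nat_lit 242))) (XT.nd (nat_lit 78) (nat_lit 836) (nat_lit 0) (XT.lf (nat_lit 0) (nat_lit 2918968903) (nat_lit 836) (nat_lit 2369688149) (nat_lit 76) (nat_lit 2306479391) (nat_lit 266) (nat_lit 5) (nat_lit 277) (nat_lit 5) (nat_lit 267) (nat_lit 5) (nat_lit 274) (nat_lit 265) (nat_lit 241)) (XT.lf (nat_lit 0) (nat_lit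 4465251546) (nat_lit 836) (nat_lit 1567428080) (nat_lit 912) (nat_lit 1699559002) (nat_lit 255) (nat_lit 5) (nat_lit 266) (nat_lit 5) (nat_lit 267) (nat_lit 5) (nat_lit 275) (nat_lit 265) (nat_lit 240)))))) (XT.nd (nat_lit 546) (nat_lit 4104) (nat_lit 0) (XT.nd (nat_lit 234) (nat_lit 2660) (nat_lit 0) (XT.nd (nat_lit 78) (nat_lit 2052) (nat_lit 0) (XT.lf (nat_lit 0) (nat_lit 1331422002) (nat_lit 988) (nat_lit 4145846217) (nat_lit 76) (nat_lit 2400692470) (nat_lit 242) (nat_lit 5) (nat_lit 255) (nat_lit 5) (nat_lit 243) (nat_lit 5) (nat_lit 276) (nat_lit 265) (nat_lit 239)) (XT.nd (nat_lit 78) (nat_lit 1064) (nat_lit 0) (XT.lf (nat_lit 0) (nat_lit 3024826270) (nat_lit 988) (nat_lit 1388606441) (nat_lit 1064) (nat_lit 3619160933) (nat_lit 229) (nat_lit 5) (nat_lit 242) (nat_lit 5) (nat_lit 243) (nat_lit 5) (nat_lit 277) (nat_lit 265) (nat_lit 238)) (XT.lf (nat_lit 0) (nat_lit 2342909458) (nat_lit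 1064) (nat_lit 5261588857) (nat_lit 1140) (nat_lit 591971793) (nat_lit 215) (nat_lit 5) (nat_lit 229) (nat_lit 5) (nat_lit 230) (nat_lit 5) (nat_lit 278) (nat_lit 265) (nat_lit 237)))) (XT.nd (nat_lit 156) (nat_lit 684) (nat_lit 0) (XT.nd (nat_lit 78) (nat_lit 760) (nat_lit 0) (XT.lf (nat_lit 0) (nat_lit 1671192363) (nat_lit 1140) (nat_lit 812462232) (nat_lit 1216) (nat_lit 5885861749) (nat_lit 199) (nat_lit 5) (nat_lit 214) (nat_lit 5) (nat_lit 215) (nat_lit 5) (nat_lit 279) (nat_lit 265) (nat_lit 236)) (XT.lf (nat_lit 0) (nat_lit 999457689) (nat_lit 760) (nat_lit 4679839368) (nat_lit 836) (nat_lit 2872529001) (nat_lit 189) (nat_lit 5) (nat_lit 199) (nat_lit 5) (nat_lit 200) (nat_lit 5) (nat_lit 280) (nat_lit 265) (nat_lit 235))) (XT.nd (nat_lit 78) (nat_lit 0) (nat_lit 0) (XT.lf (nat_lit 0) (nat_lit 242596050) (nat_lit 684) (nat_lit 8390171121) (nat_lit 76) (nat_lit 111826316) (nat_lit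 180) (nat_lit 5) (nat_lit 189) (nat_lit 5) (nat_lit 181) (nat_lit 5) (nat_lit 281) (nat_lit 265) (nat_lit 234)) (XT.lf (nat_lit 0) (nat_lit 3459719082) (nat_lit 684) (nat_lit 328233564) (nat_lit 76) (nat_lit 5158148369) (nat_lit 180) (nat_lit 5) (nat_lit 189) (nat_lit 5) (nat_lit 181) (nat_lit 5) (nat_lit 282) (nat_lit 265) (nat_lit 233))))) (XT.nd (nat_lit 312) (nat_lit 1900) (nat_lit 0) (XT.nd (nat_lit 156) (nat_lit 1064) (nat_lit 0) (XT.nd (nat_lit 78) (nat_lit 608) (nat_lit 0) (XT.lf (nat_lit 0) (nat_lit 6814698932) (nat_lit 608) (nat_lit 990892008) (nat_lit 76) (nat_lit 1352901492) (nat_lit 173) (nat_lit 5) (nat_lit 181) (nat_lit 5) (nat_lit 174) (nat_lit 5) (nat_lit 283) (nat_lit 265) (nat_lit 232)) (XT.lf (nat_lit 0) (nat_lit 942452575) (nat_lit 608) (nat_lit 1680118562) (nat_lit 76) (nat_lit 6758610761) (nat_lit 165) (nat_lit 5) (nat_lit 173) (nat_lit 5) (nat_lit 166) (nat_lit 5)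 (nat_lit 284) (nat_lit 265) (nat_lit 231))) (XT.nd (nat_lit 78) (nat_lit 532) (nat_lit 0) (XT.lf (nat_lit 0) (nat_lit 4345423440) (nat_lit 608) (nat_lit 2406447143) (nat_lit 76) (nat_lit 2862516884) (nat_lit 158) (nat_lit 5) (nat_lit 166) (nat_lit 5) (nat_lit 159) (nat_lit 5) (nat_lit 285) (nat_lit 265) (nat_lit 230)) (XT.lf (nat_lit 0) (nat_lit 6706919376) (nat_lit 532) (nat_lit 1216516105) (nat_lit 608) (nat_lit 1935770465) (nat_lit 151) (nat_lit 5) (nat_lit 158) (nat_lit 5) (nat_lit 159) (nat_lit 5) (nat_lit 286) (nat_lit 265) (nat_lit 229)))) (XT.nd (nat_lit 156) (nat_lit 912) (nat_lit 0) (XT.nd (nat_lit 78) (nat_lit 456) (nat_lit 0) (XT.lf (nat_lit 0) (nat_lit 1562526888) (nat_lit 532) (nat_lit 3957859373) (nat_lit 76) (nat_lit 4594651007) (nat_lit 144) (nat_lit 5) (nat_lit 151) (nat_lit 5) (nat_lit 145) (nat_lit 5) (nat_lit 287) (nat_lit 265) (nat_lit 228)) (XT.lf (nat_lit 0) (nat_lit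 5201319951) (nat_lit 532) (nat_lit 4807301725) (nat_lit 76) (nat_lit 374382575) (nat_lit 138) (nat_lit 5) (nat_lit 145) (nat_lit 5) (nat_lit 139) (nat_lit 5) (nat_lit 288) (nat_lit 265) (nat_lit 227))) (XT.nd (nat_lit 78) (nat_lit 532) (nat_lit 0) (XT.lf (nat_lit 0) (nat_lit 4933584496) (nat_lit 380) (nat_lit 4139068668) (nat_lit 456) (nat_lit 1590281776) (nat_lit 133) (nat_lit 5) (nat_lit 138) (nat_lit 5) (nat_lit 139) (nat_lit 5) (nat_lit 289) (nat_lit 265) (nat_lit 226)) (XT.lf (nat_lit 0) (nat_lit 2158170264) (nat_lit 532) (nat_lit 6719222846) (nat_lit 76) (nat_lit 2078316301) (nat_lit 126) (nat_lit 5) (nat_lit 133) (nat_lit 5) (nat_lit 127) (nat_lit 5) (nat_lit 290) (nat_lit 265) (nat_lit 225))))))))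
noncomputable def xc59 : XT := (XT.nd (nat_lit 2184) (nat_lit 2128) (nat_lit 0) (XT.nd (nat_lit 1092) (nat_lit 2508) (nat_lit 0) (XT.nd (nat_lit 546) (nat_lit 1748) (nat_lit 0) (XT.nd (nat_lit 234) (nat_lit 1064) (nat_lit 0) (XT.nd (nat_lit 78) (nat_lit 836) (nat_lit 0) (XT.lf (nat_lit 0) (nat_lit 3457957223) (nat_lit 380) (nat_lit 2649959825) (nat_lit 456) (nat_lit 5153403769) (nat_lit 121) (nat_lit 5) (nat_lit 126) (nat_lit 5) (nat_lit 127) (nat_lit 5) (nat_lit 291) (nat_lit 265) (nat_lit 224)) (XT.nd (nat_lit 78) (nat_lit 456) (nat_lit 0) (XT.lf (nat_lit 0) (nat_lit 2607741819) (nat_lit 380) (nat_lit 7694545542) (nat_lit 456) (nat_lit 1278581268) (nat_lit 116) (nat_lit 5) (nat_lit 121) (nat_lit 5) (nat_lit 122) (nat_lit 5) (nat_lit 292) (nat_lit 265) (nat_lit 223)) (XT.lf (nat_lit 0) (nat_lit 1658558652) (nat_lit 380) (nat_lit 1117784723) (nat_lit 456) (nat_lit 9138086431) (nat_lit 110)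 (nat_lit 5) (nat_lit 115) (nat_lit 5) (nat_lit 116) (nat_lit 5) (nat_lit 293) (nat_lit 265) (nat_lit 222)))) (XT.nd (nat_lit 156) (nat_lit 684) (nat_lit 0) (XT.nd (nat_lit 78) (nat_lit 0) (nat_lit 0) (XT.lf (nat_lit 0) (nat_lit 582287096) (nat_lit 380) (nat_lit 6499745006) (nat_lit 456) (nat_lit 5180084910) (nat_lit 105) (nat_lit 5) (nat_lit 110) (nat_lit 5) (nat_lit 111) (nat_lit 5) (nat_lit 294) (nat_lit 265) (nat_lit 221)) (XT.lf (nat_lit 0) (nat_lit 11646299663) (nat_lit 456) (nat_lit 568925022) (nat_lit 76) (nat_lit 410723704) (nat_lit 105) (nat_lit 5) (nat_lit 111) (nat_lit 5) (nat_lit 106) (nat_lit 5) (nat_lit 295) (nat_lit 265) (nat_lit 220))) (XT.nd (nat_lit 78) (nat_lit 304) (nat_lit 0) (XT.lf (nat_lit 0) (nat_lit 3463521203) (nat_lit 380) (nat_lit 1890622204) (nat_lit 76) (nat_lit 7649903000) (nat_lit 100) (nat_lit 5) (nat_lit 105) (nat_lit 5) (nat_lit 101) (nat_lit 5) (nat_lit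 296) (nat_lit 265) (nat_lit 219)) (XT.lf (nat_lit 0) (nat_lit 8157992311) (nat_lit 380) (nat_lit 3340564110) (nat_lit 76) (nat_lit 1900771460) (nat_lit 96) (nat_lit 5) (nat_lit 101) (nat_lit 5) (nat_lit 97) (nat_lit 5) (nat_lit 297) (nat_lit 265) (nat_lit 218))))) (XT.nd (nat_lit 234) (nat_lit 836) (nat_lit 0) (XT.nd (nat_lit 78) (nat_lit 608) (nat_lit 0) (XT.lf (nat_lit 0) (nat_lit 8851139444) (nat_lit 304) (nat_lit 4324863185) (nat_lit 380) (nat_lit 635755512) (nat_lit 92) (nat_lit 5) (nat_lit 96) (nat_lit 5) (nat_lit 97) (nat_lit 5) (nat_lit 298) (nat_lit 265) (nat_lit 217)) (XT.nd (nat_lit 78) (nat_lit 228) (nat_lit 0) (XT.lf (nat_lit 0) (nat_lit 4188581432) (nat_lit 380) (nat_lit 6787926055) (nat_lit 76) (nat_lit 3265023573) (nat_lit 87) (nat_lit 5) (nat_lit 92) (nat_lit 5) (nat_lit 88) (nat_lit 5) (nat_lit 299) (nat_lit 265) (nat_lit 216)) (XT.lf (nat_lit 0) (nat_lit 5868669221) (nat_lit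 228) (nat_lit 3457876881) (nat_lit 304) (nat_lit 5363534217) (nat_lit 84) (nat_lit 5) (nat_lit 87) (nat_lit 5) (nat_lit 88) (nat_lit 5) (nat_lit 300) (nat_lit 265) (nat_lit 215)))) (XT.nd (nat_lit 156) (nat_lit 228) (nat_lit 0) (XT.nd (nat_lit 78) (nat_lit 304) (nat_lit 0) (XT.lf (nat_lit 0) (nat_lit 4082164186) (nat_lit 304) (nat_lit 10727472129) (nat_lit 380) (nat_lit 348815154) (nat_lit 80) (nat_lit 5) (nat_lit 84) (nat_lit 5) (nat_lit 85) (nat_lit 5) (nat_lit 301) (nat_lit 265) (nat_lit 214)) (XT.lf (nat_lit 0) (nat_lit 2030611424) (nat_lit 228) (nat_lit 2873504130) (nat_lit 304) (nat_lit 10742243398) (nat_lit 76) (nat_lit 5) (nat_lit 79) (nat_lit 5) (nat_lit 80) (nat_lit 5) (nat_lit 302) (nat_lit 265) (nat_lit 213))) (XT.nd (nat_lit 78) (nat_lit 228) (nat_lit 0) (XT.lf (nat_lit 0) (nat_lit 10518453237) (nat_lit 304) (nat_lit 279794261) (nat_lit 76) (nat_lit 5357167793) (nat_lit 76) (nat_lit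 5) (nat_lit 80) (nat_lit 5) (nat_lit 77) (nat_lit 5) (nat_lit 303) (nat_lit 265) (nat_lit 212)) (XT.lf (nat_lit 0) (nat_lit 13876573485) (nat_lit 228) (nat_lit 2641334799) (nat_lit 304) (nat_lit 168918741) (nat_lit 73) (nat_lit 5) (nat_lit 76) (nat_lit 5) (nat_lit 77) (nat_lit 5) (nat_lit 304) (nat_lit 265) (nat_lit 211)))))) (XT.nd (nat_lit 546) (nat_lit 988) (nat_lit 0) (XT.nd (nat_lit 234) (nat_lit 760) (nat_lit 0) (XT.nd (nat_lit 78) (nat_lit 456) (nat_lit 0) (XT.lf (nat_lit 0) (nat_lit 5579752825) (nat_lit 304) (nat_lit 5712206171) (nat_lit 76) (nat_lit 5947796355) (nat_lit 69) (nat_lit 5) (nat_lit 73) (nat_lit 5) (nat_lit 70) (nat_lit 5) (nat_lit 305) (nat_lit 265) (nat_lit 210)) (XT.nd (nat_lit 78) (nat_lit 228) (nat_lit 0) (XT.lf (nat_lit 0) (nat_lit 8880449047) (nat_lit 228) (nat_lit 2818148567) (nat_lit 304) (nat_lit 6119125776) (nat_lit 66) (nat_lit 5) (nat_lit 69) (nat_lit 5)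 (nat_lit 70) (nat_lit 5) (nat_lit 306) (nat_lit 265) (nat_lit 209)) (XT.lf (nat_lit 0) (nat_lit 5870232405) (nat_lit 228) (nat_lit 12373896668) (nat_lit 304) (nat_lit 176867436) (nat_lit 63) (nat_lit 5) (nat_lit 66) (nat_lit 5) (nat_lit 67) (nat_lit 5) (nat_lit 307) (nat_lit 265) (nat_lit 208)))) (XT.nd (nat_lit 156) (nat_lit 456) (nat_lit 0) (XT.nd (nat_lit 78) (nat_lit 0) (nat_lit 0) (XT.lf (nat_lit 0) (nat_lit 2429766848) (nat_lit 228) (nat_lit 3606860787) (nat_lit 304) (nat_lit 13013311429) (nat_lit 59) (nat_lit 5) (nat_lit 62) (nat_lit 5) (nat_lit 63) (nat_lit 5) (nat_lit 308) (nat_lit 265) (nat_lit 207)) (XT.lf (nat_lit 0) (nat_lit 12690602473) (nat_lit 304) (nat_lit 1423820671) (nat_lit 76) (nat_lit 5591874729) (nat_lit 59) (nat_lit 5) (nat_lit 63) (nat_lit 5) (nat_lit 60) (nat_lit 5) (nat_lit 309) (nat_lit 265) (nat_lit 206))) (XT.nd (nat_lit 78) (nat_lit 304) (nat_lit 0) (XT.lf (nat_lit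 0) (nat_lit 14704708725) (nat_lit 152) (nat_lit 5101879277) (nat_lit 228) (nat_lit 585031595) (nat_lit 57) (nat_lit 5) (nat_lit 59) (nat_lit 5) (nat_lit 60) (nat_lit 5) (nat_lit 310) (nat_lit 265) (nat_lit 205)) (XT.lf (nat_lit 0) (nat_lit 6159834610) (nat_lit 304) (nat_lit 10521000279) (nat_lit 76) (nat_lit 4425226155) (nat_lit 53) (nat_lit 5) (nat_lit 57) (nat_lit 5) (nat_lit 54) (nat_lit 5) (nat_lit 311) (nat_lit 265) (nat_lit 204))))) (XT.nd (nat_lit 234) (nat_lit 532) (nat_lit 0) (XT.nd (nat_lit 78) (nat_lit 304) (nat_lit 0) (XT.lf (nat_lit 0) (nat_lit 5916664205) (nat_lit 152) (nat_lit 7434689309) (nat_lit 228) (nat_lit 8501073443) (nat_lit 51) (nat_lit 5) (nat_lit 53) (nat_lit 5) (nat_lit 54) (nat_lit 5) (nat_lit 312) (nat_lit 265) (nat_lit 203)) (XT.nd (nat_lit 78) (nat_lit 76) (nat_lit 0) (XT.lf (nat_lit 0) (nat_lit 678803684) (nat_lit 228) (nat_lit 20316517092) (nat_lit 304) (nat_lit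 1638024624) (nat_lit 48) (nat_lit 5) (nat_lit 51) (nat_lit 5) (nat_lit 52) (nat_lit 5) (nat_lit 313) (nat_lit 265) (nat_lit 202)) (XT.lf (nat_lit 0) (nat_lit 5656334734) (nat_lit 304) (nat_lit 5194940009) (nat_lit 76) (nat_lit 12594543752) (nat_lit 47) (nat_lit 5) (nat_lit 51) (nat_lit 5) (nat_lit 48) (nat_lit 5) (nat_lit 314) (nat_lit 265) (nat_lit 201)))) (XT.nd (nat_lit 156) (nat_lit 228) (nat_lit 0) (XT.nd (nat_lit 78) (nat_lit 152) (nat_lit 0) (XT.lf (nat_lit 0) (nat_lit 12561251150) (nat_lit 152) (nat_lit 799540002) (nat_lit 228) (nat_lit 10935277842) (nat_lit 45) (nat_lit 5) (nat_lit 47) (nat_lit 5) (nat_lit 48) (nat_lit 5) (nat_lit 315) (nat_lit 265) (nat_lit 200)) (XT.lf (nat_lit 0) (nat_lit 6082033139) (nat_lit 152) (nat_lit 15533944867) (nat_lit 228) (nat_lit 3567905899) (nat_lit 43) (nat_lit 5) (nat_lit 45) (nat_lit 5) (nat_lit 46) (nat_lit 5) (nat_lit 316) (nat_lit 265) (nat_lit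 199))) (XT.nd (nat_lit 78) (nat_lit 152) (nat_lit 0) (XT.lf (nat_lit 0) (nat_lit 4176727971) (nat_lit 228) (nat_lit 1194612245) (nat_lit 76) (nat_lit 20740856573) (nat_lit 42) (nat_lit 5) (nat_lit 45) (nat_lit 5) (nat_lit 43) (nat_lit 5) (nat_lit 317) (nat_lit 265) (nat_lit 198)) (XT.lf (nat_lit 0) (nat_lit 12421927089) (nat_lit 228) (nat_lit 9278721504) (nat_lit 76) (nat_lit 5379618323) (nat_lit 40) (nat_lit 5) (nat_lit 43) (nat_lit 5) (nat_lit 41) (nat_lit 5) (nat_lit 318) (nat_lit 265) (nat_lit 197))))))) (XT.nd (nat_lit 1092) (nat_lit 684) (nat_lit 0) (XT.nd (nat_lit 546) (nat_lit 608) (nat_lit 0) (XT.nd (nat_lit 234) (nat_lit 456) (nat_lit 0) (XT.nd (nat_lit 78) (nat_lit 228) (nat_lit 0) (XT.lf (nat_lit 0) (nat_lit 9748437433) (nat_lit 152) (nat_lit 11454299522) (nat_lit 228) (nat_lit 6890317424) (nat_lit 38) (nat_lit 5) (nat_lit 40) (nat_lit 5) (nat_lit 41) (nat_lit 5) (nat_lit 319)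 (nat_lit 265) (nat_lit 196)) (XT.nd (nat_lit 78) (nat_lit 0) (nat_lit 0) (XT.lf (nat_lit 0) (nat_lit 705416911) (nat_lit 152) (nat_lit 603035066) (nat_lit 228) (nat_lit 27845665827) (nat_lit 35) (nat_lit 5) (nat_lit 37) (nat_lit 5) (nat_lit 38) (nat_lit 5) (nat_lit 320) (nat_lit 265) (nat_lit 195)) (XT.lf (nat_lit 0) (nat_lit 10035124320) (nat_lit 228) (nat_lit 9407906975) (nat_lit 76) (nat_lit 10815355114) (nat_lit 35) (nat_lit 5) (nat_lit 38) (nat_lit 5) (nat_lit 36) (nat_lit 5) (nat_lit 321) (nat_lit 265) (nat_lit 194)))) (XT.nd (nat_lit 156) (nat_lit 304) (nat_lit 0) (XT.nd (nat_lit 78) (nat_lit 0) (nat_lit 0) (XT.lf (nat_lit 0) (nat_lit 10729646721) (nat_lit 152) (nat_lit 8544093932) (nat_lit 228) (nat_lit 12141871517) (nat_lit 33) (nat_lit 5) (nat_lit 35) (nat_lit 5) (nat_lit 36) (nat_lit 5) (nat_lit 322) (nat_lit 265) (nat_lit 193)) (XT.lf (nat_lit 0) (nat_lit 29067171283) (nat_lit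 228) (nat_lit 643594641) (nat_lit 76) (nat_lit 2917158256) (nat_lit 33) (nat_lit 5) (nat_lit 36) (nat_lit 5) (nat_lit 34) (nat_lit 4) (nat_lit 323) (nat_lit 265) (nat_lit 192))) (XT.nd (nat_lit 78) (nat_lit 152) (nat_lit 0) (XT.lf (nat_lit 0) (nat_lit 5599212637) (nat_lit 152) (nat_lit 13285180230) (nat_lit 76) (nat_lit 15007214164) (nat_lit 31) (nat_lit 5) (nat_lit 33) (nat_lit 5) (nat_lit 32) (nat_lit 5) (nat_lit 324) (nat_lit 265) (nat_lit 191)) (XT.lf (nat_lit 0) (nat_lit 7775911184) (nat_lit 152) (nat_lit 7419176276) (nat_lit 228) (nat_lit 20020792427) (nat_lit 29) (nat_lit 5) (nat_lit 31) (nat_lit 5) (nat_lit 32) (nat_lit 5) (nat_lit 325) (nat_lit 265) (nat_lit 190))))) (XT.nd (nat_lit 234) (nat_lit 456) (nat_lit 0) (XT.nd (nat_lit 78) (nat_lit 152) (nat_lit 0) (XT.lf (nat_lit 0) (nat_lit 25423436509) (nat_lit 228) (nat_lit 6533418745) (nat_lit 76) (nat_lit 4644940332) (nat_lit 29)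 (nat_lit 5) (nat_lit 32) (nat_lit 5) (nat_lit 30) (nat_lit 4) (nat_lit 326) (nat_lit 265) (nat_lit 189)) (XT.nd (nat_lit 78) (nat_lit 76) (nat_lit 0) (XT.lf (nat_lit 0) (nat_lit 15597387910) (nat_lit 76) (nat_lit 20762214731) (nat_lit 152) (nat_lit 1691521597) (nat_lit 28) (nat_lit 5) (nat_lit 29) (nat_lit 5) (nat_lit 30) (nat_lit 4) (nat_lit 327) (nat_lit 265) (nat_lit 188)) (XT.lf (nat_lit 0) (nat_lit 8148393058) (nat_lit 152) (nat_lit 729457989) (nat_lit 76) (nat_lit 30691488772) (nat_lit 27) (nat_lit 5) (nat_lit 29) (nat_lit 5) (nat_lit 28) (nat_lit 5) (nat_lit 328) (nat_lit 265) (nat_lit 187)))) (XT.nd (nat_lit 156) (nat_lit 228) (nat_lit 0) (XT.nd (nat_lit 78) (nat_lit 76) (nat_lit 0) (XT.lf (nat_lit 0) (nat_lit 18671722613) (nat_lit 228) (nat_lit 18739160491) (nat_lit 76) (nat_lit 3745296633) (nat_lit 25) (nat_lit 5) (nat_lit 28) (nat_lit 5) (nat_lit 26) (nat_lit 4) (nat_lit 329) (nat_lit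 265) (nat_lit 186)) (XT.lf (nat_lit 0) (nat_lit 3852906990) (nat_lit 76) (nat_lit 25976671930) (nat_lit 152) (nat_lit 12989539601) (nat_lit 24) (nat_lit 5) (nat_lit 25) (nat_lit 5) (nat_lit 26) (nat_lit 4) (nat_lit 330) (nat_lit 265) (nat_lit 185))) (XT.nd (nat_lit 78) (nat_lit 228) (nat_lit 0) (XT.lf (nat_lit 0) (nat_lit 27920980840) (nat_lit 76) (nat_lit 13792181644) (nat_lit 152) (nat_lit 2847014044) (nat_lit 24) (nat_lit 5) (nat_lit 25) (nat_lit 5) (nat_lit 26) (nat_lit 4) (nat_lit 331) (nat_lit 265) (nat_lit 184)) (XT.lf (nat_lit 0) (nat_lit 6818699418) (nat_lit 152) (nat_lit 873108163) (nat_lit 228) (nat_lit 38692993684) (nat_lit 21) (nat_lit 5) (nat_lit 23) (nat_lit 5) (nat_lit 24) (nat_lit 5) (nat_lit 332) (nat_lit 265) (nat_lit 183)))))) (XT.nd (nat_lit 546) (nat_lit 380) (nat_lit 0) (XT.nd (nat_lit 234) (nat_lit 228) (nat_lit 0) (XT.nd (nat_lit 78) (nat_lit 76) (nat_lit 0) (XT.lf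 (nat_lit 0) (nat_lit 18970663484) (nat_lit 228) (nat_lit 16693556700) (nat_lit 76) (nat_lit 12627438634) (nat_lit 21) (nat_lit 5) (nat_lit 24) (nat_lit 5) (nat_lit 22) (nat_lit 4) (nat_lit 333) (nat_lit 265) (nat_lit 182)) (XT.nd (nat_lit 78) (nat_lit 0) (nat_lit 0) (XT.lf (nat_lit 0) (nat_lit 7417785615) (nat_lit 76) (nat_lit 23453357391) (nat_lit 152) (nat_lit 19420991953) (nat_lit 20) (nat_lit 5) (nat_lit 21) (nat_lit 5) (nat_lit 22) (nat_lit 4) (nat_lit 334) (nat_lit 265) (nat_lit 181)) (XT.lf (nat_lit 0) (nat_lit 33043944502) (nat_lit 76) (nat_lit 10472799229) (nat_lit 152) (nat_lit 8871394100) (nat_lit 20) (nat_lit 5) (nat_lit 21) (nat_lit 5) (nat_lit 22) (nat_lit 4) (nat_lit 335) (nat_lit 265) (nat_lit 180)))) (XT.nd (nat_lit 156) (nat_lit 76) (nat_lit 0) (XT.nd (nat_lit 78) (nat_lit 0) (nat_lit 0) (XT.lf (nat_lit 0) (nat_lit 2224615445) (nat_lit 152) (nat_lit 49209604497) (nat_lit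 76) (nat_lit 3152231057) (nat_lit 18) (nat_lit 5) (nat_lit 20) (nat_lit 5) (nat_lit 19) (nat_lit 4) (nat_lit 336) (nat_lit 265) (nat_lit 179)) (XT.lf (nat_lit 0) (nat_lit 13980020572) (nat_lit 152) (nat_lit 25385240547) (nat_lit 76) (nat_lit 17518146711) (nat_lit 18) (nat_lit 5) (nat_lit 20) (nat_lit 5) (nat_lit 19) (nat_lit 4) (nat_lit 337) (nat_lit 265) (nat_lit 178))) (XT.nd (nat_lit 78) (nat_lit 76) (nat_lit 0) (XT.lf (nat_lit 0) (nat_lit 26303725570) (nat_lit 152) (nat_lit 405365549) (nat_lit 76) (nat_lit 32586710394) (nat_lit 18) (nat_lit 5) (nat_lit 20) (nat_lit 5) (nat_lit 19) (nat_lit 4) (nat_lit 338) (nat_lit 265) (nat_lit 177)) (XT.lf (nat_lit 0) (nat_lit 26302757934) (nat_lit 76) (nat_lit 13175152861) (nat_lit 152) (nat_lit 22343879903) (nat_lit 17) (nat_lit 5) (nat_lit 18) (nat_lit 5) (nat_lit 19) (nat_lit 4) (nat_lit 339) (nat_lit 265) (nat_lit 176))))) (XT.nd (nat_lit 312)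 (nat_lit 152) (nat_lit 0) (XT.nd (nat_lit 156) (nat_lit 76) (nat_lit 0) (XT.nd (nat_lit 78) (nat_lit 152) (nat_lit 0) (XT.lf (nat_lit 0) (nat_lit 53306850720) (nat_lit 152) (nat_lit 10162621697) (nat_lit 0) (nat_lit 1004730006) (nat_lit 17) (nat_lit 5) (nat_lit 19) (nat_lit 4) (nat_lit 17) (nat_lit 4) (nat_lit 340) (nat_lit 265) (nat_lit 175)) (XT.lf (nat_lit 0) (nat_lit 835135622) (nat_lit 152) (nat_lit 50638032898) (nat_lit 76) (nat_lit 15777560028) (nat_lit 15) (nat_lit 5) (nat_lit 17) (nat_lit 5) (nat_lit 16) (nat_lit 4) (nat_lit 341) (nat_lit 265) (nat_lit 174))) (XT.nd (nat_lit 78) (nat_lit 76) (nat_lit 0) (XT.lf (nat_lit 0) (nat_lit 13297682793) (nat_lit 152) (nat_lit 25368812141) (nat_lit 76) (nat_lit 31493546122) (nat_lit 15) (nat_lit 5) (nat_lit 17) (nat_lit 5) (nat_lit 16) (nat_lit 4) (nat_lit 342) (nat_lit 265) (nat_lit 173)) (XT.lf (nat_lit 0) (nat_lit 1156662392) (nat_lit 76)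 (nat_lit 25221713930) (nat_lit 152) (nat_lit 46836596023) (nat_lit 14) (nat_lit 5) (nat_lit 15) (nat_lit 5) (nat_lit 16) (nat_lit 4) (nat_lit 343) (nat_lit 265) (nat_lit 172)))) (XT.nd (nat_lit 156) (nat_lit 152) (nat_lit 0) (XT.nd (nat_lit 78) (nat_lit 0) (nat_lit 0) (XT.lf (nat_lit 0) (nat_lit 29509619881) (nat_lit 76) (nat_lit 10849023247) (nat_lit 152) (nat_lit 36056644464) (nat_lit 14) (nat_lit 5) (nat_lit 15) (nat_lit 5) (nat_lit 16) (nat_lit 4) (nat_lit 344) (nat_lit 265) (nat_lit 171)) (XT.lf (nat_lit 0) (nat_lit 55063713433) (nat_lit 152) (nat_lit 20564047467) (nat_lit 0) (nat_lit 4147087377) (nat_lit 14) (nat_lit 5) (nat_lit 16) (nat_lit 4) (nat_lit 14) (nat_lit 4) (nat_lit 345) (nat_lit 265) (nat_lit 170))) (XT.nd (nat_lit 78) (nat_lit 76) (nat_lit 0) (XT.lf (nat_lit 0) (nat_lit 7097094697) (nat_lit 76) (nat_lit 63570390331) (nat_lit 76) (nat_lit 12630001754) (nat_lit 13) (nat_lit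 4) (nat_lit 14) (nat_lit 5) (nat_lit 14) (nat_lit 4) (nat_lit 346) (nat_lit 265) (nat_lit 169)) (XT.lf (nat_lit 0) (nat_lit 253911913) (nat_lit 152) (nat_lit 50447578365) (nat_lit 76) (nat_lit 36288759972) (nat_lit 12) (nat_lit 5) (nat_lit 14) (nat_lit 5) (nat_lit 13) (nat_lit 4) (nat_lit 347) (nat_lit 265) (nat_lit 168))))))))
noncomputable def xc60 : XT := (XT.nd (nat_lit 35100) (nat_lit 0) (nat_lit 4940) (XT.nd (nat_lit 1092) (nat_lit 0) (nat_lit 0) (XT.nd (nat_lit 546) (nat_lit 228) (nat_lit 0) (XT.nd (nat_lit 234) (nat_lit 76) (nat_lit 0) (XT.nd (nat_lit 78) (nat_lit 76) (nat_lit 0) (XT.lf (nat_lit 0) (nat_lit 13509923682) (nat_lit 152) (nat_lit 23559427784) (nat_lit 76) (nat_lit 53794878469) (nat_lit 12) (nat_lit 5) (nat_lit 14) (nat_lit 5) (nat_lit 13) (nat_lit 4) (nat_lit 348) (nat_lit 265) (nat_lit 167)) (XT.nd (nat_lit 78) (nat_lit 0) (nat_lit 0) (XT.lf (nat_lit 0) (nat_lit 4742020262)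 (nat_lit 76) (nat_lit 22719615245) (nat_lit 152) (nat_lit 67469288812) (nat_lit 11) (nat_lit 5) (nat_lit 12) (nat_lit 5) (nat_lit 13) (nat_lit 4) (nat_lit 349) (nat_lit 265) (nat_lit 166)) (XT.lf (nat_lit 0) (nat_lit 34927897251) (nat_lit 76) (nat_lit 7413258687) (nat_lit 152) (nat_lit 56852893367) (nat_lit 11) (nat_lit 5) (nat_lit 12) (nat_lit 5) (nat_lit 13) (nat_lit 4) (nat_lit 350) (nat_lit 265) (nat_lit 165)))) (XT.nd (nat_lit 156) (nat_lit 76) (nat_lit 0) (XT.nd (nat_lit 78) (nat_lit 0) (nat_lit 0) (XT.lf (nat_lit 0) (nat_lit 58036069966) (nat_lit 152) (nat_lit 37152621269) (nat_lit 0) (nat_lit 8479499226) (nat_lit 11) (nat_lit 5) (nat_lit 13) (nat_lit 4) (nat_lit 11) (nat_lit 4) (nat_lit 351) (nat_lit 265) (nat_lit 164)) (XT.lf (nat_lit 0) (nat_lit 74579303595) (nat_lit 152) (nat_lit 8779312837) (nat_lit 0) (nat_lit 25005517360) (nat_lit 11) (nat_lit 5) (nat_lit 13) (nat_lit 4) (nat_lit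 11) (nat_lit 4) (nat_lit 352) (nat_lit 265) (nat_lit 163))) (XT.nd (nat_lit 78) (nat_lit 0) (nat_lit 0) (XT.lf (nat_lit 0) (nat_lit 21410383208) (nat_lit 76) (nat_lit 70734411191) (nat_lit 76) (nat_lit 21144229247) (nat_lit 10) (nat_lit 4) (nat_lit 11) (nat_lit 5) (nat_lit 11) (nat_lit 4) (nat_lit 353) (nat_lit 265) (nat_lit 162)) (XT.lf (nat_lit 0) (nat_lit 53273529717) (nat_lit 76) (nat_lit 57395013890) (nat_lit 76) (nat_lit 7789216984) (nat_lit 10) (nat_lit 4) (nat_lit 11) (nat_lit 5) (nat_lit 11) (nat_lit 4) (nat_lit 354) (nat_lit 265) (nat_lit 161))))) (XT.nd (nat_lit 234) (nat_lit 76) (nat_lit 0) (XT.nd (nat_lit 78) (nat_lit 76) (nat_lit 0) (XT.lf (nat_lit 0) (nat_lit 6101910410) (nat_lit 152) (nat_lit 37233790164) (nat_lit 76) (nat_lit 80547738044) (nat_lit 9) (nat_lit 5) (nat_lit 11) (nat_lit 5) (nat_lit 10) (nat_lit 4) (nat_lit 355) (nat_lit 265) (nat_lit 160)) (XT.nd (nat_lit 78)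 (nat_lit 76) (nat_lit 0) (XT.lf (nat_lit 0) (nat_lit 20518478190) (nat_lit 152) (nat_lit 7982320800) (nat_lit 76) (nat_lit 101077530481) (nat_lit 9) (nat_lit 5) (nat_lit 11) (nat_lit 5) (nat_lit 10) (nat_lit 4) (nat_lit 356) (nat_lit 265) (nat_lit 159)) (XT.lf (nat_lit 0) (nat_lit 23166765325) (nat_lit 76) (nat_lit 12702734991) (nat_lit 152) (nat_lit 99682057547) (nat_lit 8) (nat_lit 5) (nat_lit 9) (nat_lit 5) (nat_lit 10) (nat_lit 4) (nat_lit 357) (nat_lit 265) (nat_lit 158)))) (XT.nd (nat_lit 156) (nat_lit 76) (nat_lit 0) (XT.nd (nat_lit 78) (nat_lit 0) (nat_lit 0) (XT.lf (nat_lit 0) (nat_lit 52099536540) (nat_lit 152) (nat_lit 85835757429) (nat_lit 0) (nat_lit 3884811506) (nat_lit 8) (nat_lit 5) (nat_lit 10) (nat_lit 4) (nat_lit 8) (nat_lit 4) (nat_lit 358) (nat_lit 265) (nat_lit 157)) (XT.lf (nat_lit 0) (nat_lit 69260839919) (nat_lit 152) (nat_lit 58103412692) (nat_lit 0) (nat_lit 21034236505)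 (nat_lit 8) (nat_lit 5) (nat_lit 10) (nat_lit 4) (nat_lit 8) (nat_lit 4) (nat_lit 359) (nat_lit 265) (nat_lit 156))) (XT.nd (nat_lit 78) (nat_lit 76) (nat_lit 0) (XT.lf (nat_lit 0) (nat_lit 87272164239) (nat_lit 152) (nat_lit 28999622478) (nat_lit 0) (nat_lit 39034248083) (nat_lit 8) (nat_lit 5) (nat_lit 10) (nat_lit 4) (nat_lit 8) (nat_lit 4) (nat_lit 360) (nat_lit 265) (nat_lit 155)) (XT.lf (nat_lit 0) (nat_lit 1575654650) (nat_lit 76) (nat_lit 104615885112) (nat_lit 76) (nat_lit 56367194915) (nat_lit 7) (nat_lit 4) (nat_lit 8) (nat_lit 5) (nat_lit 8) (nat_lit 4) (nat_lit 361) (nat_lit 265) (nat_lit 154)))))) (XT.nd (nat_lit 33462) (nat_lit 0) (nat_lit 17860) (XT.nd (nat_lit 33150) (nat_lit 0) (nat_lit 21052) (XT.nd (nat_lit 78) (nat_lit 0) (nat_lit 0) (XT.lf (nat_lit 0) (nat_lit 34271667344) (nat_lit 76) (nat_lit 92076310977) (nat_lit 76) (nat_lit 43817359789) (nat_lit 7) (nat_lit 4) (nat_lit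 8) (nat_lit 5) (nat_lit 8) (nat_lit 4) (nat_lit 362) (nat_lit 265) (nat_lit 153)) (XT.nd (nat_lit 78) (nat_lit 0) (nat_lit 0) (XT.lf (nat_lit 0) (nat_lit 68589113904) (nat_lit 76) (nat_lit 78916047509) (nat_lit 76) (nat_lit 30647323950) (nat_lit 7) (nat_lit 4) (nat_lit 8) (nat_lit 5) (nat_lit 8) (nat_lit 4) (nat_lit 363) (nat_lit 265) (nat_lit 152)) (XT.lf (nat_lit 0) (nat_lit 104609702535) (nat_lit 76) (nat_lit 65103760748) (nat_lit 76) (nat_lit 16825730167) (nat_lit 7) (nat_lit 4) (nat_lit 8) (nat_lit 5) (nat_lit 8) (nat_lit 4) (nat_lit 364) (nat_lit 265) (nat_lit 151)))) (XT.nd (nat_lit 156) (nat_lit 608) (nat_lit 0) (XT.nd (nat_lit 78) (nat_lit 0) (nat_lit 0) (XT.lf (nat_lit 0) (nat_lit 1133173473) (nat_lit 684) (nat_lit 1150173598) (nat_lit 684) (nat_lit 1150173598) (nat_lit 292) (nat_lit 3) (nat_lit 301) (nat_lit 3) (nat_lit 301) (nat_lit 5) (nat_lit 266) (nat_lit 266) (nat_lit 248))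 (XT.lf (nat_lit 76) (nat_lit 3078690740) (nat_lit 0) (nat_lit 2335117637) (nat_lit 684) (nat_lit 1527807273) (nat_lit 293) (nat_lit 5) (nat_lit 292) (nat_lit 3) (nat_lit 301) (nat_lit 5) (nat_lit 267) (nat_lit 266) (nat_lit 247))) (XT.nd (nat_lit 78) (nat_lit 0) (nat_lit 0) (XT.lf (nat_lit 0) (nat_lit 1507833409) (nat_lit 684) (nat_lit 5361847581) (nat_lit 760) (nat_lit 154752151) (nat_lit 284) (nat_lit 5) (nat_lit 293) (nat_lit 5) (nat_lit 294) (nat_lit 5) (nat_lit 268) (nat_lit 266) (nat_lit 246)) (XT.lf (nat_lit 76) (nat_lit 290135778) (nat_lit 0) (nat_lit 4250476143) (nat_lit 760) (nat_lit 2574276291) (nat_lit 285) (nat_lit 5) (nat_lit 284) (nat_lit 5) (nat_lit 294) (nat_lit 5) (nat_lit 269) (nat_lit 266) (nat_lit 245))))) (XT.nd (nat_lit 234) (nat_lit 2432) (nat_lit 0) (XT.nd (nat_lit 78) (nat_lit 0) (nat_lit 76) (XT.lf (nat_lit 0) (nat_lit 376956657) (nat_lit 760) (nat_lit 988699566)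 (nat_lit 836) (nat_lit 5848145453) (nat_lit 274) (nat_lit 5) (nat_lit 284) (nat_lit 5) (nat_lit 285) (nat_lit 5) (nat_lit 270) (nat_lit 266) (nat_lit 244)) (XT.nd (nat_lit 78) (nat_lit 0) (nat_lit 0) (XT.lf (nat_lit 0) (nat_lit 3314346202) (nat_lit 760) (nat_lit 2231901651) (nat_lit 836) (nat_lit 1774121447) (nat_lit 275) (nat_lit 5) (nat_lit 285) (nat_lit 5) (nat_lit 286) (nat_lit 5) (nat_lit 271) (nat_lit 266) (nat_lit 243)) (XT.lf (nat_lit 76) (nat_lit 4013371234) (nat_lit 0) (nat_lit 2280701738) (nat_lit 836) (nat_lit 1141545607) (nat_lit 276) (nat_lit 5) (nat_lit 275) (nat_lit 5) (nat_lit 286) (nat_lit 5) (nat_lit 272) (nat_lit 266) (nat_lit 242)))) (XT.nd (nat_lit 156) (nat_lit 1748) (nat_lit 0) (XT.nd (nat_lit 78) (nat_lit 0) (nat_lit 0) (XT.lf (nat_lit 0) (nat_lit 1731917405) (nat_lit 836) (nat_lit 4579544127) (nat_lit 912) (nat_lit 1247766250) (nat_lit 265) (nat_lit 5) (nat_lit 276)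 (nat_lit 5) (nat_lit 277) (nat_lit 5) (nat_lit 273) (nat_lit 266) (nat_lit 241)) (XT.lf (nat_lit 76) (nat_lit 1977229284) (nat_lit 0) (nat_lit 2671178917) (nat_lit 912) (nat_lit 3042772627) (nat_lit 266) (nat_lit 5) (nat_lit 265) (nat_lit 5) (nat_lit 277) (nat_lit 5) (nat_lit 274) (nat_lit 266) (nat_lit 240))) (XT.nd (nat_lit 78) (nat_lit 988) (nat_lit 0) (XT.lf (nat_lit 0) (nat_lit 1024126807) (nat_lit 836) (nat_lit 6606971469) (nat_lit 912) (nat_lit 201204259) (nat_lit 255) (nat_lit 5) (nat_lit 266) (nat_lit 5) (nat_lit 267) (nat_lit 5) (nat_lit 275) (nat_lit 266) (nat_lit 239)) (XT.lf (nat_lit 0) (nat_lit 73622168) (nat_lit 912) (nat_lit 2597868404) (nat_lit 988) (nat_lit 5310055569) (nat_lit 242) (nat_lit 5) (nat_lit 254) (nat_lit 5) (nat_lit 255) (nat_lit 5) (nat_lit 276) (nat_lit 266) (nat_lit 238))))))) (XT.nd (nat_lit 1092) (nat_lit 4560) (nat_lit 0) (XT.nd (nat_lit 546) (nat_lit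 3116) (nat_lit 0) (XT.nd (nat_lit 234) (nat_lit 3116) (nat_lit 0) (XT.nd (nat_lit 78) (nat_lit 2128) (nat_lit 0) (XT.lf (nat_lit 0) (nat_lit 5632294665) (nat_lit 988) (nat_lit 827226909) (nat_lit 76) (nat_lit 1680372009) (nat_lit 242) (nat_lit 5) (nat_lit 255) (nat_lit 5) (nat_lit 243) (nat_lit 5) (nat_lit 277) (nat_lit 266) (nat_lit 237)) (XT.nd (nat_lit 78) (nat_lit 1064) (nat_lit 0) (XT.lf (nat_lit 0) (nat_lit 384487532) (nat_lit 1064) (nat_lit 1710414424) (nat_lit 76) (nat_lit 6212539551) (nat_lit 228) (nat_lit 5) (nat_lit 242) (nat_lit 5) (nat_lit 229) (nat_lit 5) (nat_lit 278) (nat_lit 266) (nat_lit 236)) (XT.lf (nat_lit 0) (nat_lit 3332898424) (nat_lit 1140) (nat_lit 2601766533) (nat_lit 76) (nat_lit 2549190934) (nat_lit 214) (nat_lit 5) (nat_lit 229) (nat_lit 5) (nat_lit 215) (nat_lit 5) (nat_lit 279) (nat_lit 266) (nat_lit 235)))) (XT.nd (nat_lit 156) (nat_lit 1140) (nat_lit 0) (XT.nd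 (nat_lit 78) (nat_lit 836) (nat_lit 0) (XT.lf (nat_lit 0) (nat_lit 5191818903) (nat_lit 1140) (nat_lit 1203666878) (nat_lit 1216) (nat_lit 2274737136) (nat_lit 199) (nat_lit 5) (nat_lit 214) (nat_lit 5) (nat_lit 215) (nat_lit 5) (nat_lit 280) (nat_lit 266) (nat_lit 234)) (XT.lf (nat_lit 0) (nat_lit 719877106) (nat_lit 836) (nat_lit 4367771909) (nat_lit 76) (nat_lit 3778495023) (nat_lit 188) (nat_lit 5) (nat_lit 199) (nat_lit 5) (nat_lit 189) (nat_lit 5) (nat_lit 281) (nat_lit 266) (nat_lit 233))) (XT.nd (nat_lit 78) (nat_lit 532) (nat_lit 0) (XT.lf (nat_lit 0) (nat_lit 3788797390) (nat_lit 684) (nat_lit 5267048340) (nat_lit 76) (nat_lit 16309741) (nat_lit 180) (nat_lit 5) (nat_lit 189) (nat_lit 5) (nat_lit 181) (nat_lit 5) (nat_lit 282) (nat_lit 266) (nat_lit 232)) (XT.lf (nat_lit 0) (nat_lit 3089578161) (nat_lit 532) (nat_lit 3938608207) (nat_lit 608) (nat_lit 2259883312) (nat_lit 173) (nat_lit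 5) (nat_lit 180) (nat_lit 5) (nat_lit 181) (nat_lit 5) (nat_lit 283) (nat_lit 266) (nat_lit 231))))) (XT.nd (nat_lit 234) (nat_lit 1444) (nat_lit 0) (XT.nd (nat_lit 78) (nat_lit 1064) (nat_lit 0) (XT.lf (nat_lit 0) (nat_lit 882868034) (nat_lit 608) (nat_lit 7140634410) (nat_lit 76) (nat_lit 1491539140) (nat_lit 165) (nat_lit 5) (nat_lit 173) (nat_lit 5) (nat_lit 166) (nat_lit 5) (nat_lit 284) (nat_lit 266) (nat_lit 230)) (XT.nd (nat_lit 78) (nat_lit 532) (nat_lit 0) (XT.lf (nat_lit 0) (nat_lit 1613527455) (nat_lit 532) (nat_lit 2540253121) (nat_lit 608) (nat_lit 5598476821) (nat_lit 158) (nat_lit 5) (nat_lit 165) (nat_lit 5) (nat_lit 166) (nat_lit 5) (nat_lit 285) (nat_lit 266) (nat_lit 229)) (XT.lf (nat_lit 0) (nat_lit 831397797) (nat_lit 532) (nat_lit 6771406558) (nat_lit 608) (nat_lit 2398187351) (nat_lit 151) (nat_lit 5) (nat_lit 158) (nat_lit 5) (nat_lit 159) (nat_lit 5) (nat_lit 286)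 (nat_lit 266) (nat_lit 228)))) (XT.nd (nat_lit 156) (nat_lit 912) (nat_lit 0) (XT.nd (nat_lit 78) (nat_lit 0) (nat_lit 0) (XT.lf (nat_lit 0) (nat_lit 17541417) (nat_lit 456) (nat_lit 940285408) (nat_lit 532) (nat_lit 9303711455) (nat_lit 144) (nat_lit 5) (nat_lit 150) (nat_lit 5) (nat_lit 151) (nat_lit 5) (nat_lit 287) (nat_lit 266) (nat_lit 227)) (XT.lf (nat_lit 0) (nat_lit 4485162335) (nat_lit 532) (nat_lit 858782992) (nat_lit 76) (nat_lit 5188944331) (nat_lit 144) (nat_lit 5) (nat_lit 151) (nat_lit 5) (nat_lit 145) (nat_lit 5) (nat_lit 288) (nat_lit 266) (nat_lit 226))) (XT.nd (nat_lit 78) (nat_lit 456) (nat_lit 0) (XT.lf (nat_lit 0) (nat_lit 8205673270) (nat_lit 532) (nat_lit 1765014127) (nat_lit 76) (nat_lit 846696351) (nat_lit 138) (nat_lit 5) (nat_lit 145) (nat_lit 5) (nat_lit 139) (nat_lit 5) (nat_lit 289) (nat_lit 266) (nat_lit 225)) (XT.lf (nat_lit 0) (nat_lit 1035506378) (nat_lit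 456) (nat_lit 2755760359) (nat_lit 76) (nat_lit 7322856863) (nat_lit 132) (nat_lit 5) (nat_lit 138) (nat_lit 5) (nat_lit 133) (nat_lit 5) (nat_lit 290) (nat_lit 266) (nat_lit 224)))))) (XT.nd (nat_lit 546) (nat_lit 1824) (nat_lit 0) (XT.nd (nat_lit 234) (nat_lit 1444) (nat_lit 0) (XT.nd (nat_lit 78) (nat_lit 836) (nat_lit 0) (XT.lf (nat_lit 0) (nat_lit 4847344452) (nat_lit 532) (nat_lit 3830273629) (nat_lit 76) (nat_lit 2746288294) (nat_lit 126) (nat_lit 5) (nat_lit 133) (nat_lit 5) (nat_lit 127) (nat_lit 5) (nat_lit 291) (nat_lit 266) (nat_lit 223)) (XT.nd (nat_lit 78) (nat_lit 456) (nat_lit 0) (XT.lf (nat_lit 0) (nat_lit 6763324035) (nat_lit 380) (nat_lit 2138448334) (nat_lit 456) (nat_lit 2845912573) (nat_lit 121) (nat_lit 5) (nat_lit 126) (nat_lit 5) (nat_lit 127) (nat_lit 5) (nat_lit 292) (nat_lit 266) (nat_lit 222)) (XT.lf (nat_lit 0) (nat_lit 1115182525) (nat_lit 456) (nat_lit 6247425336)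 (nat_lit 76) (nat_lit 4722852694) (nat_lit 115) (nat_lit 5) (nat_lit 121) (nat_lit 5) (nat_lit 116) (nat_lit 5) (nat_lit 293) (nat_lit 266) (nat_lit 221)))) (XT.nd (nat_lit 156) (nat_lit 684) (nat_lit 0) (XT.nd (nat_lit 78) (nat_lit 380) (nat_lit 0) (XT.lf (nat_lit 0) (nat_lit 4812316960) (nat_lit 380) (nat_lit 448072423) (nat_lit 456) (nat_lit 7177601441) (nat_lit 110) (nat_lit 5) (nat_lit 115) (nat_lit 5) (nat_lit 116) (nat_lit 5) (nat_lit 294) (nat_lit 266) (nat_lit 220)) (XT.lf (nat_lit 0) (nat_lit 3657524106) (nat_lit 380) (nat_lit 6048084857) (nat_lit 456) (nat_lit 3099811921) (nat_lit 105) (nat_lit 5) (nat_lit 110) (nat_lit 5) (nat_lit 111) (nat_lit 5) (nat_lit 295) (nat_lit 266) (nat_lit 219))) (XT.nd (nat_lit 78) (nat_lit 304) (nat_lit 0) (XT.lf (nat_lit 0) (nat_lit 1206427385) (nat_lit 380) (nat_lit 10791591597) (nat_lit 76) (nat_lit 1191485598) (nat_lit 100) (nat_lit 5) (nat_lit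 105) (nat_lit 5) (nat_lit 101) (nat_lit 5) (nat_lit 296) (nat_lit 266) (nat_lit 218)) (XT.lf (nat_lit 0) (nat_lit 952620724) (nat_lit 304) (nat_lit 4808377348) (nat_lit 380) (nat_lit 7828008986) (nat_lit 96) (nat_lit 5) (nat_lit 100) (nat_lit 5) (nat_lit 101) (nat_lit 5) (nat_lit 297) (nat_lit 266) (nat_lit 217))))) (XT.nd (nat_lit 312) (nat_lit 912) (nat_lit 0) (XT.nd (nat_lit 156) (nat_lit 532) (nat_lit 0) (XT.nd (nat_lit 78) (nat_lit 380) (nat_lit 0) (XT.lf (nat_lit 0) (nat_lit 10615201827) (nat_lit 380) (nat_lit 617024962) (nat_lit 76) (nat_lit 2774147576) (nat_lit 96) (nat_lit 5) (nat_lit 101) (nat_lit 5) (nat_lit 97) (nat_lit 5) (nat_lit 298) (nat_lit 266) (nat_lit 216)) (XT.lf (nat_lit 0) (nat_lit 1345132483) (nat_lit 380) (nat_lit 2353393978) (nat_lit 76) (nat_lit 10742690553) (nat_lit 91) (nat_lit 5) (nat_lit 96) (nat_lit 5) (nat_lit 92) (nat_lit 5) (nat_lit 299) (nat_lit 266) (nat_lit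 215))) (XT.nd (nat_lit 78) (nat_lit 228) (nat_lit 0) (XT.lf (nat_lit 0) (nat_lit 6337076075) (nat_lit 380) (nat_lit 4308983050) (nat_lit 76) (nat_lit 4248107901) (nat_lit 87) (nat_lit 5) (nat_lit 92) (nat_lit 5) (nat_lit 88) (nat_lit 5) (nat_lit 300) (nat_lit 266) (nat_lit 214)) (XT.lf (nat_lit 0) (nat_lit 8899654858) (nat_lit 228) (nat_lit 2766262690) (nat_lit 304) (nat_lit 3701267253) (nat_lit 84) (nat_lit 5) (nat_lit 87) (nat_lit 5) (nat_lit 88) (nat_lit 5) (nat_lit 301) (nat_lit 266) (nat_lit 213)))) (XT.nd (nat_lit 156) (nat_lit 304) (nat_lit 0) (XT.nd (nat_lit 78) (nat_lit 228) (nat_lit 0) (XT.lf (nat_lit 0) (nat_lit 1477802235) (nat_lit 380) (nat_lit 8882142666) (nat_lit 76) (nat_lit 5500310266) (nat_lit 79) (nat_lit 5) (nat_lit 84) (nat_lit 5) (nat_lit 80) (nat_lit 5) (nat_lit 302) (nat_lit 266) (nat_lit 212)) (XT.lf (nat_lit 0) (nat_lit 4797911528) (nat_lit 228) (nat_lit 2126474027)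 (nat_lit 304) (nat_lit 9449975456) (nat_lit 76) (nat_lit 5) (nat_lit 79) (nat_lit 5) (nat_lit 80) (nat_lit 5) (nat_lit 303) (nat_lit 266) (nat_lit 211))) (XT.nd (nat_lit 78) (nat_lit 76) (nat_lit 0) (XT.lf (nat_lit 0) (nat_lit 2334167292) (nat_lit 228) (nat_lit 10431337695) (nat_lit 304) (nat_lit 4145033897) (nat_lit 73) (nat_lit 5) (nat_lit 76) (nat_lit 5) (nat_lit 77) (nat_lit 5) (nat_lit 304) (nat_lit 266) (nat_lit 210)) (XT.lf (nat_lit 0) (nat_lit 1485212772) (nat_lit 304) (nat_lit 406725487) (nat_lit 76) (nat_lit 15578570834) (nat_lit 72) (nat_lit 5) (nat_lit 76) (nat_lit 5) (nat_lit 73) (nat_lit 5) (nat_lit 305) (nat_lit 266) (nat_lit 209))))))))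
noncomputable def xc61 : XT := (XT.nd (nat_lit 2184) (nat_lit 1064) (nat_lit 0) (XT.nd (nat_lit 1092) (nat_lit 1444) (nat_lit 0) (XT.nd (nat_lit 546) (nat_lit 988) (nat_lit 0) (XT.nd (nat_lit 234) (nat_lit 684) (nat_lit 0) (XT.nd (nat_lit 78) (nat_lit 532) (nat_lit 0) (XT.lf (nat_lit 0) (nat_lit 7470910098) (nat_lit 304) (nat_lit 3487669232) (nat_lit 76) (nat_lit 7093906378) (nat_lit 69) (nat_lit 5) (nat_lit 73) (nat_lit 5) (nat_lit 70) (nat_lit 5) (nat_lit 306) (nat_lit 266) (nat_lit 208)) (XT.nd (nat_lit 78) (nat_lit 304) (nat_lit 0) (XT.lf (nat_lit 0) (nat_lit 11762665879) (nat_lit 228) (nat_lit 2079698679) (nat_lit 304) (nat_lit 4818630058) (nat_lit 66) (nat_lit 5) (nat_lit 69) (nat_lit 5) (nat_lit 70) (nat_lit 5) (nat_lit 307) (nat_lit 266) (nat_lit 207)) (XT.lf (nat_lit 0) (nat_lit 1349502826) (nat_lit 304) (nat_lit 10738906238) (nat_lit 76) (nat_lit 7206957344) (nat_lit 62) (nat_lit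 5) (nat_lit 66) (nat_lit 5) (nat_lit 63) (nat_lit 5) (nat_lit 308) (nat_lit 266) (nat_lit 206)))) (XT.nd (nat_lit 156) (nat_lit 304) (nat_lit 0) (XT.nd (nat_lit 78) (nat_lit 152) (nat_lit 0) (XT.lf (nat_lit 0) (nat_lit 4918992468) (nat_lit 228) (nat_lit 2900883591) (nat_lit 304) (nat_lit 12137369076) (nat_lit 59) (nat_lit 5) (nat_lit 62) (nat_lit 5) (nat_lit 63) (nat_lit 5) (nat_lit 309) (nat_lit 266) (nat_lit 205)) (XT.lf (nat_lit 0) (nat_lit 810721056) (nat_lit 152) (nat_lit 13941192206) (nat_lit 228) (nat_lit 5896183351) (nat_lit 57) (nat_lit 5) (nat_lit 59) (nat_lit 5) (nat_lit 60) (nat_lit 5) (nat_lit 310) (nat_lit 266) (nat_lit 204))) (XT.nd (nat_lit 78) (nat_lit 228) (nat_lit 0) (XT.lf (nat_lit 0) (nat_lit 784759062) (nat_lit 228) (nat_lit 3712814620) (nat_lit 76) (nat_lit 16871533357) (nat_lit 56) (nat_lit 5) (nat_lit 59) (nat_lit 5) (nat_lit 57) (nat_lit 5) (nat_lit 311) (nat_lit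 266) (nat_lit 203)) (XT.lf (nat_lit 0) (nat_lit 7817995145) (nat_lit 304) (nat_lit 8826324733) (nat_lit 76) (nat_lit 5475911514) (nat_lit 53) (nat_lit 5) (nat_lit 57) (nat_lit 5) (nat_lit 54) (nat_lit 5) (nat_lit 312) (nat_lit 266) (nat_lit 202))))) (XT.nd (nat_lit 234) (nat_lit 532) (nat_lit 0) (XT.nd (nat_lit 78) (nat_lit 304) (nat_lit 0) (XT.lf (nat_lit 0) (nat_lit 8369566322) (nat_lit 152) (nat_lit 6955964985) (nat_lit 228) (nat_lit 7579720941) (nat_lit 51) (nat_lit 5) (nat_lit 53) (nat_lit 5) (nat_lit 54) (nat_lit 5) (nat_lit 313) (nat_lit 266) (nat_lit 201)) (XT.nd (nat_lit 78) (nat_lit 76) (nat_lit 0) (XT.lf (nat_lit 0) (nat_lit 2838695348) (nat_lit 228) (nat_lit 20479003840) (nat_lit 304) (nat_lit 408565823) (nat_lit 48) (nat_lit 5) (nat_lit 51) (nat_lit 5) (nat_lit 52) (nat_lit 5) (nat_lit 314) (nat_lit 266) (nat_lit 200)) (XT.lf (nat_lit 0) (nat_lit 7163694971) (nat_lit 304) (nat_lit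 3405074110) (nat_lit 76) (nat_lit 14012077646) (nat_lit 47) (nat_lit 5) (nat_lit 51) (nat_lit 5) (nat_lit 48) (nat_lit 5) (nat_lit 315) (nat_lit 266) (nat_lit 199)))) (XT.nd (nat_lit 156) (nat_lit 228) (nat_lit 0) (XT.nd (nat_lit 78) (nat_lit 152) (nat_lit 0) (XT.lf (nat_lit 0) (nat_lit 15180174865) (nat_lit 152) (nat_lit 34025125) (nat_lit 228) (nat_lit 10260610054) (nat_lit 45) (nat_lit 5) (nat_lit 47) (nat_lit 5) (nat_lit 48) (nat_lit 5) (nat_lit 316) (nat_lit 266) (nat_lit 198)) (XT.lf (nat_lit 0) (nat_lit 8347436064) (nat_lit 152) (nat_lit 15504491366) (nat_lit 228) (nat_lit 2556018706) (nat_lit 43) (nat_lit 5) (nat_lit 45) (nat_lit 5) (nat_lit 46) (nat_lit 5) (nat_lit 317) (nat_lit 266) (nat_lit 197))) (XT.nd (nat_lit 78) (nat_lit 0) (nat_lit 0) (XT.lf (nat_lit 0) (nat_lit 648785386) (nat_lit 152) (nat_lit 4854497211) (nat_lit 228) (nat_lit 21880551016) (nat_lit 40) (nat_lit 5) (nat_lit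 42) (nat_lit 5) (nat_lit 43) (nat_lit 5) (nat_lit 318) (nat_lit 266) (nat_lit 196)) (XT.lf (nat_lit 0) (nat_lit 14126535162) (nat_lit 228) (nat_lit 7880979038) (nat_lit 76) (nat_lit 6393840263) (nat_lit 40) (nat_lit 5) (nat_lit 43) (nat_lit 5) (nat_lit 41) (nat_lit 5) (nat_lit 319) (nat_lit 266) (nat_lit 195)))))) (XT.nd (nat_lit 546) (nat_lit 608) (nat_lit 0) (XT.nd (nat_lit 234) (nat_lit 456) (nat_lit 0) (XT.nd (nat_lit 78) (nat_lit 228) (nat_lit 0) (XT.lf (nat_lit 0) (nat_lit 12044173205) (nat_lit 152) (nat_lit 11267999140) (nat_lit 228) (nat_lit 6153655371) (nat_lit 38) (nat_lit 5) (nat_lit 40) (nat_lit 5) (nat_lit 41) (nat_lit 5) (nat_lit 320) (nat_lit 266) (nat_lit 194)) (XT.nd (nat_lit 78) (nat_lit 0) (nat_lit 0) (XT.lf (nat_lit 0) (nat_lit 2401689049) (nat_lit 228) (nat_lit 28063744918) (nat_lit 76) (nat_lit 115185043) (nat_lit 35) (nat_lit 5) (nat_lit 38) (nat_lit 5) (nat_lit 36)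 (nat_lit 5) (nat_lit 321) (nat_lit 266) (nat_lit 193)) (XT.lf (nat_lit 0) (nat_lit 11521548204) (nat_lit 228) (nat_lit 8162774284) (nat_lit 76) (nat_lit 12057090592) (nat_lit 35) (nat_lit 5) (nat_lit 38) (nat_lit 5) (nat_lit 36) (nat_lit 5) (nat_lit 322) (nat_lit 266) (nat_lit 192)))) (XT.nd (nat_lit 156) (nat_lit 228) (nat_lit 0) (XT.nd (nat_lit 78) (nat_lit 76) (nat_lit 0) (XT.lf (nat_lit 0) (nat_lit 12932481830) (nat_lit 152) (nat_lit 8258742589) (nat_lit 228) (nat_lit 11766218629) (nat_lit 33) (nat_lit 5) (nat_lit 35) (nat_lit 5) (nat_lit 36) (nat_lit 5) (nat_lit 323) (nat_lit 266) (nat_lit 191)) (XT.lf (nat_lit 0) (nat_lit 950830204) (nat_lit 76) (nat_lit 30493740803) (nat_lit 152) (nat_lit 2786708311) (nat_lit 32) (nat_lit 5) (nat_lit 33) (nat_lit 5) (nat_lit 34) (nat_lit 4) (nat_lit 324) (nat_lit 266) (nat_lit 190))) (XT.nd (nat_lit 78) (nat_lit 152) (nat_lit 0) (XT.lf (nat_lit 0)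 (nat_lit 6774596615) (nat_lit 152) (nat_lit 12369366815) (nat_lit 76) (nat_lit 16415065519) (nat_lit 31) (nat_lit 5) (nat_lit 33) (nat_lit 5) (nat_lit 32) (nat_lit 5) (nat_lit 325) (nat_lit 266) (nat_lit 189)) (XT.lf (nat_lit 0) (nat_lit 9699486711) (nat_lit 152) (nat_lit 7122892505) (nat_lit 228) (nat_lit 20127986892) (nat_lit 29) (nat_lit 5) (nat_lit 31) (nat_lit 5) (nat_lit 32) (nat_lit 5) (nat_lit 326) (nat_lit 266) (nat_lit 188))))) (XT.nd (nat_lit 234) (nat_lit 304) (nat_lit 0) (XT.nd (nat_lit 78) (nat_lit 304) (nat_lit 0) (XT.lf (nat_lit 0) (nat_lit 27526942932) (nat_lit 228) (nat_lit 5379447971) (nat_lit 76) (nat_lit 5500256186) (nat_lit 29) (nat_lit 5) (nat_lit 32) (nat_lit 5) (nat_lit 30) (nat_lit 4) (nat_lit 327) (nat_lit 266) (nat_lit 187)) (XT.nd (nat_lit 78) (nat_lit 228) (nat_lit 0) (XT.lf (nat_lit 0) (nat_lit 17815456719) (nat_lit 76) (nat_lit 21168650523) (nat_lit 152) (nat_lit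 945122008) (nat_lit 28) (nat_lit 5) (nat_lit 29) (nat_lit 5) (nat_lit 30) (nat_lit 4) (nat_lit 328) (nat_lit 266) (nat_lit 186)) (XT.lf (nat_lit 0) (nat_lit 631790735) (nat_lit 152) (nat_lit 8706057363) (nat_lit 228) (nat_lit 32186261435) (nat_lit 25) (nat_lit 5) (nat_lit 27) (nat_lit 5) (nat_lit 28) (nat_lit 5) (nat_lit 329) (nat_lit 266) (nat_lit 185)))) (XT.nd (nat_lit 156) (nat_lit 228) (nat_lit 0) (XT.nd (nat_lit 78) (nat_lit 76) (nat_lit 0) (XT.lf (nat_lit 0) (nat_lit 20362963234) (nat_lit 228) (nat_lit 18313361371) (nat_lit 76) (nat_lit 4514709517) (nat_lit 25) (nat_lit 5) (nat_lit 28) (nat_lit 5) (nat_lit 26) (nat_lit 4) (nat_lit 330) (nat_lit 266) (nat_lit 184)) (XT.lf (nat_lit 0) (nat_lit 5369246324) (nat_lit 76) (nat_lit 26686111404) (nat_lit 152) (nat_lit 12882473470) (nat_lit 24) (nat_lit 5) (nat_lit 25) (nat_lit 5) (nat_lit 26) (nat_lit 4) (nat_lit 331) (nat_lit 266) (nat_lit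 183))) (XT.nd (nat_lit 78) (nat_lit 228) (nat_lit 0) (XT.lf (nat_lit 0) (nat_lit 30577690819) (nat_lit 76) (nat_lit 13920462990) (nat_lit 152) (nat_lit 2268847497) (nat_lit 24) (nat_lit 5) (nat_lit 25) (nat_lit 5) (nat_lit 26) (nat_lit 4) (nat_lit 332) (nat_lit 266) (nat_lit 182)) (XT.lf (nat_lit 0) (nat_lit 8398008026) (nat_lit 152) (nat_lit 363110475) (nat_lit 228) (nat_lit 39922192537) (nat_lit 21) (nat_lit 5) (nat_lit 23) (nat_lit 5) (nat_lit 24) (nat_lit 5) (nat_lit 333) (nat_lit 266) (nat_lit 181))))))) (XT.nd (nat_lit 1092) (nat_lit 456) (nat_lit 0) (XT.nd (nat_lit 546) (nat_lit 304) (nat_lit 0) (XT.nd (nat_lit 234) (nat_lit 228) (nat_lit 0) (XT.nd (nat_lit 78) (nat_lit 76) (nat_lit 0) (XT.lf (nat_lit 0) (nat_lit 20576380079) (nat_lit 228) (nat_lit 16334156559) (nat_lit 76) (nat_lit 13775809928) (nat_lit 21) (nat_lit 5) (nat_lit 24) (nat_lit 5) (nat_lit 22) (nat_lit 4) (nat_lit 334)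 (nat_lit 266) (nat_lit 180)) (XT.nd (nat_lit 78) (nat_lit 0) (nat_lit 0) (XT.lf (nat_lit 0) (nat_lit 8948524866) (nat_lit 76) (nat_lit 24103213450) (nat_lit 152) (nat_lit 19735721112) (nat_lit 20) (nat_lit 5) (nat_lit 21) (nat_lit 5) (nat_lit 22) (nat_lit 4) (nat_lit 335) (nat_lit 266) (nat_lit 179)) (XT.lf (nat_lit 0) (nat_lit 35800760747) (nat_lit 76) (nat_lit 10498523181) (nat_lit 152) (nat_lit 8689896722) (nat_lit 20) (nat_lit 5) (nat_lit 21) (nat_lit 5) (nat_lit 22) (nat_lit 4) (nat_lit 336) (nat_lit 266) (nat_lit 178)))) (XT.nd (nat_lit 156) (nat_lit 76) (nat_lit 0) (XT.nd (nat_lit 78) (nat_lit 0) (nat_lit 0) (XT.lf (nat_lit 0) (nat_lit 2934679257) (nat_lit 152) (nat_lit 50571872136) (nat_lit 76) (nat_lit 3791106464) (nat_lit 18) (nat_lit 5) (nat_lit 20) (nat_lit 5) (nat_lit 19) (nat_lit 4) (nat_lit 337) (nat_lit 266) (nat_lit 177)) (XT.lf (nat_lit 0) (nat_lit 15249338781) (nat_lit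 152) (nat_lit 25608585826) (nat_lit 76) (nat_lit 18852400574) (nat_lit 18) (nat_lit 5) (nat_lit 20) (nat_lit 5) (nat_lit 19) (nat_lit 4) (nat_lit 338) (nat_lit 266) (nat_lit 176))) (XT.nd (nat_lit 78) (nat_lit 0) (nat_lit 0) (XT.lf (nat_lit 0) (nat_lit 581830980) (nat_lit 76) (nat_lit 27585833003) (nat_lit 152) (nat_lit 34076328351) (nat_lit 17) (nat_lit 5) (nat_lit 18) (nat_lit 5) (nat_lit 19) (nat_lit 4) (nat_lit 339) (nat_lit 266) (nat_lit 175)) (XT.lf (nat_lit 0) (nat_lit 28585453693) (nat_lit 76) (nat_lit 13392947895) (nat_lit 152) (nat_lit 22918550606) (nat_lit 17) (nat_lit 5) (nat_lit 18) (nat_lit 5) (nat_lit 19) (nat_lit 4) (nat_lit 340) (nat_lit 266) (nat_lit 174))))) (XT.nd (nat_lit 234) (nat_lit 152) (nat_lit 0) (XT.nd (nat_lit 78) (nat_lit 152) (nat_lit 0) (XT.lf (nat_lit 0) (nat_lit 56477749499) (nat_lit 152) (nat_lit 9738136497) (nat_lit 0) (nat_lit 1466735878) (nat_lit 17)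 (nat_lit 5) (nat_lit 19) (nat_lit 4) (nat_lit 17) (nat_lit 4) (nat_lit 341) (nat_lit 266) (nat_lit 173)) (XT.nd (nat_lit 78) (nat_lit 0) (nat_lit 0) (XT.lf (nat_lit 0) (nat_lit 1372051583) (nat_lit 152) (nat_lit 52254082239) (nat_lit 76) (nat_lit 16972161739) (nat_lit 15) (nat_lit 5) (nat_lit 17) (nat_lit 5) (nat_lit 16) (nat_lit 4) (nat_lit 342) (nat_lit 266) (nat_lit 172)) (XT.lf (nat_lit 0) (nat_lit 14434147103) (nat_lit 152) (nat_lit 25765012458) (nat_lit 76) (nat_lit 33454626961) (nat_lit 15) (nat_lit 5) (nat_lit 17) (nat_lit 5) (nat_lit 16) (nat_lit 4) (nat_lit 343) (nat_lit 266) (nat_lit 171)))) (XT.nd (nat_lit 156) (nat_lit 76) (nat_lit 0) (XT.nd (nat_lit 78) (nat_lit 0) (nat_lit 0) (XT.lf (nat_lit 0) (nat_lit 2061733209) (nat_lit 76) (nat_lit 26092830069) (nat_lit 152) (nat_lit 48707335659) (nat_lit 14) (nat_lit 5) (nat_lit 15) (nat_lit 5) (nat_lit 16) (nat_lit 4) (nat_lit 344) (nat_lit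 266) (nat_lit 170)) (XT.lf (nat_lit 0) (nat_lit 31791993920) (nat_lit 76) (nat_lit 11020074830) (nat_lit 152) (nat_lit 37410819388) (nat_lit 14) (nat_lit 5) (nat_lit 15) (nat_lit 5) (nat_lit 16) (nat_lit 4) (nat_lit 345) (nat_lit 266) (nat_lit 169))) (XT.nd (nat_lit 78) (nat_lit 76) (nat_lit 0) (XT.lf (nat_lit 0) (nat_lit 58235054900) (nat_lit 152) (nat_lit 20814643404) (nat_lit 0) (nat_lit 4701253399) (nat_lit 14) (nat_lit 5) (nat_lit 16) (nat_lit 4) (nat_lit 14) (nat_lit 4) (nat_lit 346) (nat_lit 266) (nat_lit 168)) (XT.lf (nat_lit 0) (nat_lit 8207265936) (nat_lit 76) (nat_lit 66399097523) (nat_lit 76) (nat_lit 12843742714) (nat_lit 13) (nat_lit 4) (nat_lit 14) (nat_lit 5) (nat_lit 14) (nat_lit 4) (nat_lit 347) (nat_lit 266) (nat_lit 167)))))) (XT.nd (nat_lit 546) (nat_lit 228) (nat_lit 0) (XT.nd (nat_lit 234) (nat_lit 76) (nat_lit 0) (XT.nd (nat_lit 78) (nat_lit 76) (nat_lit 0) (XT.lf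 (nat_lit 0) (nat_lit 656709550) (nat_lit 152) (nat_lit 52242761382) (nat_lit 76) (nat_lit 38428505716) (nat_lit 12) (nat_lit 5) (nat_lit 14) (nat_lit 5) (nat_lit 13) (nat_lit 4) (nat_lit 348) (nat_lit 266) (nat_lit 166)) (XT.nd (nat_lit 78) (nat_lit 76) (nat_lit 0) (XT.lf (nat_lit 0) (nat_lit 14556945619) (nat_lit 152) (nat_lit 24044831648) (nat_lit 76) (nat_lit 56794439293) (nat_lit 12) (nat_lit 5) (nat_lit 14) (nat_lit 5) (nat_lit 13) (nat_lit 4) (nat_lit 349) (nat_lit 266) (nat_lit 165)) (XT.lf (nat_lit 0) (nat_lit 5651836492) (nat_lit 76) (nat_lit 23543181392) (nat_lit 152) (nat_lit 70471568301) (nat_lit 11) (nat_lit 5) (nat_lit 12) (nat_lit 5) (nat_lit 13) (nat_lit 4) (nat_lit 350) (nat_lit 266) (nat_lit 164)))) (XT.nd (nat_lit 156) (nat_lit 76) (nat_lit 0) (XT.nd (nat_lit 78) (nat_lit 0) (nat_lit 0) (XT.lf (nat_lit 0) (nat_lit 37314973272) (nat_lit 76) (nat_lit 7486383892) (nat_lit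 152) (nat_lit 59342028558) (nat_lit 11) (nat_lit 5) (nat_lit 12) (nat_lit 5) (nat_lit 13) (nat_lit 4) (nat_lit 351) (nat_lit 266) (nat_lit 163)) (XT.lf (nat_lit 0) (nat_lit 61267400649) (nat_lit 152) (nat_lit 38392931293) (nat_lit 0) (nat_lit 9181313898) (nat_lit 11) (nat_lit 5) (nat_lit 13) (nat_lit 4) (nat_lit 11) (nat_lit 4) (nat_lit 352) (nat_lit 266) (nat_lit 162))) (XT.nd (nat_lit 78) (nat_lit 76) (nat_lit 0) (XT.lf (nat_lit 0) (nat_lit 78622104188) (nat_lit 152) (nat_lit 8630353679) (nat_lit 0) (nat_lit 26520402476) (nat_lit 11) (nat_lit 5) (nat_lit 13) (nat_lit 4) (nat_lit 11) (nat_lit 4) (nat_lit 353) (nat_lit 266) (nat_lit 161)) (XT.lf (nat_lit 0) (nat_lit 23051974422) (nat_lit 76) (nat_lit 74004440061) (nat_lit 76) (nat_lit 21887866957) (nat_lit 10) (nat_lit 4) (nat_lit 11) (nat_lit 5) (nat_lit 11) (nat_lit 4) (nat_lit 354) (nat_lit 266) (nat_lit 160))))) (XT.nd (nat_lit 312) (nat_lit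 76) (nat_lit 0) (XT.nd (nat_lit 156) (nat_lit 76) (nat_lit 0) (XT.nd (nat_lit 78) (nat_lit 76) (nat_lit 0) (XT.lf (nat_lit 0) (nat_lit 56481084349) (nat_lit 76) (nat_lit 60010772500) (nat_lit 76) (nat_lit 7880036165) (nat_lit 10) (nat_lit 4) (nat_lit 11) (nat_lit 5) (nat_lit 11) (nat_lit 4) (nat_lit 355) (nat_lit 266) (nat_lit 159)) (XT.lf (nat_lit 0) (nat_lit 6685876496) (nat_lit 152) (nat_lit 38571895837) (nat_lit 76) (nat_lit 84811417522) (nat_lit 9) (nat_lit 5) (nat_lit 11) (nat_lit 5) (nat_lit 10) (nat_lit 4) (nat_lit 356) (nat_lit 266) (nat_lit 158))) (XT.nd (nat_lit 78) (nat_lit 76) (nat_lit 0) (XT.lf (nat_lit 0) (nat_lit 21809993114) (nat_lit 152) (nat_lit 7882785569) (nat_lit 76) (nat_lit 106356447553) (nat_lit 9) (nat_lit 5) (nat_lit 11) (nat_lit 5) (nat_lit 10) (nat_lit 4) (nat_lit 357) (nat_lit 266) (nat_lit 157)) (XT.lf (nat_lit 0) (nat_lit 24809461124) (nat_lit 76) (nat_lit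 13111113972) (nat_lit 152) (nat_lit 104400783164) (nat_lit 8) (nat_lit 5) (nat_lit 9) (nat_lit 5) (nat_lit 10) (nat_lit 4) (nat_lit 358) (nat_lit 266) (nat_lit 156)))) (XT.nd (nat_lit 156) (nat_lit 76) (nat_lit 0) (XT.nd (nat_lit 78) (nat_lit 0) (nat_lit 0) (XT.lf (nat_lit 0) (nat_lit 54951922414) (nat_lit 152) (nat_lit 89660921210) (nat_lit 0) (nat_lit 4290797707) (nat_lit 8) (nat_lit 5) (nat_lit 10) (nat_lit 4) (nat_lit 8) (nat_lit 4) (nat_lit 359) (nat_lit 266) (nat_lit 155)) (XT.lf (nat_lit 0) (nat_lit 72959509578) (nat_lit 152) (nat_lit 60564179432) (nat_lit 0) (nat_lit 22287610831) (nat_lit 8) (nat_lit 5) (nat_lit 10) (nat_lit 4) (nat_lit 8) (nat_lit 4) (nat_lit 360) (nat_lit 266) (nat_lit 154))) (XT.nd (nat_lit 78) (nat_lit 76) (nat_lit 0) (XT.lf (nat_lit 0) (nat_lit 91860179749) (nat_lit 152) (nat_lit 30026361797) (nat_lit 0) (nat_lit 41178020012) (nat_lit 8) (nat_lit 5) (nat_lit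 10) (nat_lit 4) (nat_lit 8) (nat_lit 4) (nat_lit 361) (nat_lit 266) (nat_lit 153)) (XT.lf (nat_lit 0) (nat_lit 2065547046) (nat_lit 76) (nat_lit 109653242778) (nat_lit 76) (nat_lit 58961310668) (nat_lit 7) (nat_lit 4) (nat_lit 8) (nat_lit 5) (nat_lit 8) (nat_lit 4) (nat_lit 362) (nat_lit 266) (nat_lit 152))))))))
noncomputable def xc62 : XT := (XT.nd (nat_lit 35178) (nat_lit 0) (nat_lit 2356) (XT.nd (nat_lit 34086) (nat_lit 0) (nat_lit 9044) (XT.nd (nat_lit 33540) (nat_lit 0) (nat_lit 16796) (XT.nd (nat_lit 33228) (nat_lit 0) (nat_lit 20292) (XT.nd (nat_lit 78) (nat_lit 0) (nat_lit 0) (XT.lf (nat_lit 0) (nat_lit 36376783724) (nat_lit 76) (nat_lit 96495901203) (nat_lit 76) (nat_lit 45794662072) (nat_lit 7) (nat_lit 4) (nat_lit 8) (nat_lit 5) (nat_lit 8) (nat_lit 4) (nat_lit 363) (nat_lit 266) (nat_lit 151)) (XT.nd (nat_lit 33072) (nat_lit 0) (nat_lit 20976) (XT.lf (nat_lit 0) (nat_lit 72391458183)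 (nat_lit 76) (nat_lit 82686397196) (nat_lit 76) (nat_lit 31976294235) (nat_lit 7) (nat_lit 4) (nat_lit 8) (nat_lit 5) (nat_lit 8) (nat_lit 4) (nat_lit 364) (nat_lit 266) (nat_lit 150)) (XT.lf (nat_lit 0) (nat_lit 342984922) (nat_lit 0) (nat_lit 342984922) (nat_lit 684) (nat_lit 2824113561) (nat_lit 283) (nat_lit 5) (nat_lit 283) (nat_lit 3) (nat_lit 292) (nat_lit 3) (nat_lit 267) (nat_lit 267) (nat_lit 246)))) (XT.nd (nat_lit 156) (nat_lit 684) (nat_lit 0) (XT.nd (nat_lit 78) (nat_lit 0) (nat_lit 0) (XT.lf (nat_lit 0) (nat_lit 4261129290) (nat_lit 684) (nat_lit 897540655) (nat_lit 760) (nat_lit 1947499304) (nat_lit 283) (nat_lit 5) (nat_lit 292) (nat_lit 3) (nat_lit 293) (nat_lit 5) (nat_lit 268) (nat_lit 267) (nat_lit 245)) (XT.lf (nat_lit 76) (nat_lit 4800369022) (nat_lit 0) (nat_lit 2366823075) (nat_lit 760) (nat_lit 33354070) (nat_lit 284) (nat_lit 5) (nat_lit 283) (nat_lit 5) (nat_lit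 293) (nat_lit 5) (nat_lit 269) (nat_lit 267) (nat_lit 244))) (XT.nd (nat_lit 78) (nat_lit 0) (nat_lit 0) (XT.lf (nat_lit 0) (nat_lit 2736347193) (nat_lit 760) (nat_lit 3866504334) (nat_lit 836) (nat_lit 699945133) (nat_lit 274) (nat_lit 5) (nat_lit 284) (nat_lit 5) (nat_lit 285) (nat_lit 5) (nat_lit 270) (nat_lit 267) (nat_lit 243)) (XT.lf (nat_lit 76) (nat_lit 2120873165) (nat_lit 0) (nat_lit 3425406289) (nat_lit 836) (nat_lit 1867014551) (nat_lit 275) (nat_lit 5) (nat_lit 274) (nat_lit 5) (nat_lit 285) (nat_lit 5) (nat_lit 271) (nat_lit 267) (nat_lit 242))))) (XT.nd (nat_lit 234) (nat_lit 2736) (nat_lit 0) (XT.nd (nat_lit 78) (nat_lit 0) (nat_lit 0) (XT.lf (nat_lit 0) (nat_lit 835734191) (nat_lit 836) (nat_lit 6667303507) (nat_lit 912) (nat_lit 29583896) (nat_lit 264) (nat_lit 5) (nat_lit 275) (nat_lit 5) (nat_lit 276) (nat_lit 5) (nat_lit 272) (nat_lit 267) (nat_lit 241)) (XT.nd (nat_lit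 78) (nat_lit 0) (nat_lit 0) (XT.lf (nat_lit 0) (nat_lit 3570653082) (nat_lit 836) (nat_lit 373029059) (nat_lit 912) (nat_lit 3715800859) (nat_lit 264) (nat_lit 5) (nat_lit 275) (nat_lit 5) (nat_lit 276) (nat_lit 5) (nat_lit 273) (nat_lit 267) (nat_lit 240)) (XT.lf (nat_lit 76) (nat_lit 6258726729) (nat_lit 0) (nat_lit 96794684) (nat_lit 912) (nat_lit 1439952211) (nat_lit 265) (nat_lit 5) (nat_lit 264) (nat_lit 5) (nat_lit 276) (nat_lit 5) (nat_lit 274) (nat_lit 267) (nat_lit 239)))) (XT.nd (nat_lit 156) (nat_lit 1900) (nat_lit 0) (XT.nd (nat_lit 78) (nat_lit 0) (nat_lit 76) (XT.lf (nat_lit 0) (nat_lit 1266374196) (nat_lit 912) (nat_lit 2697313768) (nat_lit 988) (nat_lit 3975822115) (nat_lit 253) (nat_lit 5) (nat_lit 265) (nat_lit 5) (nat_lit 266) (nat_lit 5) (nat_lit 275) (nat_lit 267) (nat_lit 238)) (XT.lf (nat_lit 0) (nat_lit 4002855278) (nat_lit 912) (nat_lit 3827155700) (nat_lit 76) (nat_lit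 262731598) (nat_lit 254) (nat_lit 5) (nat_lit 266) (nat_lit 5) (nat_lit 255) (nat_lit 5) (nat_lit 276) (nat_lit 267) (nat_lit 237))) (XT.nd (nat_lit 78) (nat_lit 1064) (nat_lit 0) (XT.lf (nat_lit 0) (nat_lit 3301551410) (nat_lit 912) (nat_lit 3544028299) (nat_lit 988) (nat_lit 1409127261) (nat_lit 242) (nat_lit 5) (nat_lit 254) (nat_lit 5) (nat_lit 255) (nat_lit 5) (nat_lit 277) (nat_lit 267) (nat_lit 236)) (XT.lf (nat_lit 0) (nat_lit 1324516822) (nat_lit 1064) (nat_lit 6063612812) (nat_lit 76) (nat_lit 1037987642) (nat_lit 228) (nat_lit 5) (nat_lit 242) (nat_lit 5) (nat_lit 229) (nat_lit 5) (nat_lit 278) (nat_lit 267) (nat_lit 235)))))) (XT.nd (nat_lit 546) (nat_lit 2964) (nat_lit 0) (XT.nd (nat_lit 234) (nat_lit 2508) (nat_lit 0) (XT.nd (nat_lit 78) (nat_lit 1216) (nat_lit 0) (XT.lf (nat_lit 0) (nat_lit 1416478468) (nat_lit 1064) (nat_lit 2729151088) (nat_lit 1140) (nat_lit 4460786708)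 (nat_lit 214) (nat_lit 5) (nat_lit 228) (nat_lit 5) (nat_lit 229) (nat_lit 5) (nat_lit 279) (nat_lit 267) (nat_lit 234)) (XT.nd (nat_lit 78) (nat_lit 76) (nat_lit 0) (XT.lf (nat_lit 0) (nat_lit 487172940) (nat_lit 1140) (nat_lit 6592871759) (nat_lit 1216) (nat_lit 1716646290) (nat_lit 199) (nat_lit 5) (nat_lit 214) (nat_lit 5) (nat_lit 215) (nat_lit 5) (nat_lit 280) (nat_lit 267) (nat_lit 233)) (XT.lf (nat_lit 0) (nat_lit 1131339118) (nat_lit 1216) (nat_lit 439074583) (nat_lit 76) (nat_lit 7426167441) (nat_lit 198) (nat_lit 5) (nat_lit 214) (nat_lit 5) (nat_lit 199) (nat_lit 5) (nat_lit 281) (nat_lit 267) (nat_lit 232)))) (XT.nd (nat_lit 156) (nat_lit 1140) (nat_lit 0) (XT.nd (nat_lit 78) (nat_lit 608) (nat_lit 0) (XT.lf (nat_lit 0) (nat_lit 4091178446) (nat_lit 836) (nat_lit 1381424226) (nat_lit 76) (nat_lit 3733317397) (nat_lit 188) (nat_lit 5) (nat_lit 199) (nat_lit 5) (nat_lit 189) (nat_lit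 5) (nat_lit 282) (nat_lit 267) (nat_lit 231)) (XT.lf (nat_lit 0) (nat_lit 7108408576) (nat_lit 608) (nat_lit 76066948) (nat_lit 684) (nat_lit 2241793956) (nat_lit 180) (nat_lit 5) (nat_lit 188) (nat_lit 5) (nat_lit 189) (nat_lit 5) (nat_lit 283) (nat_lit 267) (nat_lit 230))) (XT.nd (nat_lit 78) (nat_lit 532) (nat_lit 0) (XT.lf (nat_lit 0) (nat_lit 789903445) (nat_lit 608) (nat_lit 3299361812) (nat_lit 76) (nat_lit 5567340432) (nat_lit 172) (nat_lit 5) (nat_lit 180) (nat_lit 5) (nat_lit 173) (nat_lit 5) (nat_lit 284) (nat_lit 267) (nat_lit 229)) (XT.lf (nat_lit 0) (nat_lit 3925768731) (nat_lit 608) (nat_lit 4310841165) (nat_lit 76) (nat_lit 1661309206) (nat_lit 165) (nat_lit 5) (nat_lit 173) (nat_lit 5) (nat_lit 166) (nat_lit 5) (nat_lit 285) (nat_lit 267) (nat_lit 228))))) (XT.nd (nat_lit 234) (nat_lit 1368) (nat_lit 0) (XT.nd (nat_lit 78) (nat_lit 1064) (nat_lit 0) (XT.lf (nat_lit 0) (nat_lit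 4789679095) (nat_lit 532) (nat_lit 2457505440) (nat_lit 608) (nat_lit 2903341100) (nat_lit 158) (nat_lit 5) (nat_lit 165) (nat_lit 5) (nat_lit 166) (nat_lit 5) (nat_lit 286) (nat_lit 267) (nat_lit 227)) (XT.nd (nat_lit 78) (nat_lit 456) (nat_lit 0) (XT.lf (nat_lit 0) (nat_lit 341092464) (nat_lit 608) (nat_lit 6453809243) (nat_lit 76) (nat_lit 3619999986) (nat_lit 150) (nat_lit 5) (nat_lit 158) (nat_lit 5) (nat_lit 151) (nat_lit 5) (nat_lit 287) (nat_lit 267) (nat_lit 226)) (XT.lf (nat_lit 0) (nat_lit 3078181558) (nat_lit 456) (nat_lit 633188967) (nat_lit 532) (nat_lit 6979633002) (nat_lit 144) (nat_lit 5) (nat_lit 150) (nat_lit 5) (nat_lit 151) (nat_lit 5) (nat_lit 288) (nat_lit 267) (nat_lit 225)))) (XT.nd (nat_lit 156) (nat_lit 532) (nat_lit 0) (XT.nd (nat_lit 78) (nat_lit 380) (nat_lit 0) (XT.lf (nat_lit 0) (nat_lit 2130295995) (nat_lit 456) (nat_lit 5179655772) (nat_lit 532) (nat_lit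 3669240628) (nat_lit 138) (nat_lit 5) (nat_lit 144) (nat_lit 5) (nat_lit 145) (nat_lit 5) (nat_lit 289) (nat_lit 267) (nat_lit 224)) (XT.lf (nat_lit 0) (nat_lit 1146571662) (nat_lit 380) (nat_lit 9969556318) (nat_lit 456) (nat_lit 164904770) (nat_lit 133) (nat_lit 5) (nat_lit 138) (nat_lit 5) (nat_lit 139) (nat_lit 5) (nat_lit 290) (nat_lit 267) (nat_lit 223))) (XT.nd (nat_lit 78) (nat_lit 0) (nat_lit 0) (XT.lf (nat_lit 0) (nat_lit 49833586) (nat_lit 456) (nat_lit 3462161619) (nat_lit 532) (nat_lit 8083045038) (nat_lit 126) (nat_lit 5) (nat_lit 132) (nat_lit 5) (nat_lit 133) (nat_lit 5) (nat_lit 291) (nat_lit 267) (nat_lit 222)) (XT.lf (nat_lit 0) (nat_lit 7430995733) (nat_lit 532) (nat_lit 1096698550) (nat_lit 76) (nat_lit 3395218288) (nat_lit 126) (nat_lit 5) (nat_lit 133) (nat_lit 5) (nat_lit 127) (nat_lit 5) (nat_lit 292) (nat_lit 267) (nat_lit 221))))))) (XT.nd (nat_lit 1092) (nat_lit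 2356) (nat_lit 0) (XT.nd (nat_lit 546) (nat_lit 1748) (nat_lit 0) (XT.nd (nat_lit 234) (nat_lit 1368) (nat_lit 0) (XT.nd (nat_lit 78) (nat_lit 836) (nat_lit 0) (XT.lf (nat_lit 0) (nat_lit 9942731916) (nat_lit 380) (nat_lit 1661235167) (nat_lit 456) (nat_lit 661531210) (nat_lit 121) (nat_lit 5) (nat_lit 126) (nat_lit 5) (nat_lit 127) (nat_lit 5) (nat_lit 293) (nat_lit 267) (nat_lit 220)) (XT.nd (nat_lit 78) (nat_lit 380) (nat_lit 0) (XT.lf (nat_lit 0) (nat_lit 3376379879) (nat_lit 456) (nat_lit 3692265732) (nat_lit 76) (nat_lit 5553207104) (nat_lit 115) (nat_lit 5) (nat_lit 121) (nat_lit 5) (nat_lit 116) (nat_lit 5) (nat_lit 294) (nat_lit 267) (nat_lit 219)) (XT.lf (nat_lit 0) (nat_lit 7652404503) (nat_lit 456) (nat_lit 5157976168) (nat_lit 76) (nat_lit 184003900) (nat_lit 110) (nat_lit 5) (nat_lit 116) (nat_lit 5) (nat_lit 111) (nat_lit 5) (nat_lit 295) (nat_lit 267) (nat_lit 218)))) (XT.nd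 (nat_lit 156) (nat_lit 608) (nat_lit 0) (XT.nd (nat_lit 78) (nat_lit 380) (nat_lit 0) (XT.lf (nat_lit 0) (nat_lit 6603323354) (nat_lit 380) (nat_lit 5646047015) (nat_lit 456) (nat_lit 1133009107) (nat_lit 105) (nat_lit 5) (nat_lit 110) (nat_lit 5) (nat_lit 111) (nat_lit 5) (nat_lit 296) (nat_lit 267) (nat_lit 217)) (XT.lf (nat_lit 0) (nat_lit 3281171265) (nat_lit 380) (nat_lit 8550995007) (nat_lit 76) (nat_lit 1954940248) (nat_lit 100) (nat_lit 5) (nat_lit 105) (nat_lit 5) (nat_lit 101) (nat_lit 5) (nat_lit 297) (nat_lit 267) (nat_lit 216))) (XT.nd (nat_lit 78) (nat_lit 304) (nat_lit 0) (XT.lf (nat_lit 0) (nat_lit 3700734738) (nat_lit 304) (nat_lit 4292769561) (nat_lit 380) (nat_lit 6215247410) (nat_lit 96) (nat_lit 5) (nat_lit 100) (nat_lit 5) (nat_lit 101) (nat_lit 5) (nat_lit 298) (nat_lit 267) (nat_lit 215)) (XT.lf (nat_lit 0) (nat_lit 2013239135) (nat_lit 304) (nat_lit 11010859759) (nat_lit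 380) (nat_lit 1624943401) (nat_lit 92) (nat_lit 5) (nat_lit 96) (nat_lit 5) (nat_lit 97) (nat_lit 5) (nat_lit 299) (nat_lit 267) (nat_lit 214))))) (XT.nd (nat_lit 234) (nat_lit 1140) (nat_lit 0) (XT.nd (nat_lit 78) (nat_lit 228) (nat_lit 0) (XT.lf (nat_lit 0) (nat_lit 115164383) (nat_lit 304) (nat_lit 3112072886) (nat_lit 380) (nat_lit 11880386942) (nat_lit 87) (nat_lit 5) (nat_lit 91) (nat_lit 5) (nat_lit 92) (nat_lit 5) (nat_lit 300) (nat_lit 267) (nat_lit 213)) (XT.nd (nat_lit 78) (nat_lit 228) (nat_lit 0) (XT.lf (nat_lit 0) (nat_lit 8412719511) (nat_lit 380) (nat_lit 1968115371) (nat_lit 76) (nat_lit 5204126130) (nat_lit 87) (nat_lit 5) (nat_lit 92) (nat_lit 5) (nat_lit 88) (nat_lit 5) (nat_lit 301) (nat_lit 267) (nat_lit 212)) (XT.lf (nat_lit 0) (nat_lit 11827678124) (nat_lit 228) (nat_lit 2120441552) (nat_lit 304) (nat_lit 2135361296) (nat_lit 84) (nat_lit 5) (nat_lit 87) (nat_lit 5)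 (nat_lit 88) (nat_lit 5) (nat_lit 302) (nat_lit 267) (nat_lit 211)))) (XT.nd (nat_lit 156) (nat_lit 532) (nat_lit 0) (XT.nd (nat_lit 78) (nat_lit 228) (nat_lit 0) (XT.lf (nat_lit 0) (nat_lit 3217824933) (nat_lit 380) (nat_lit 6836963354) (nat_lit 76) (nat_lit 6547482362) (nat_lit 79) (nat_lit 5) (nat_lit 84) (nat_lit 5) (nat_lit 80) (nat_lit 5) (nat_lit 303) (nat_lit 267) (nat_lit 210)) (XT.lf (nat_lit 0) (nat_lit 7455738653) (nat_lit 228) (nat_lit 1424901756) (nat_lit 304) (nat_lit 8263172539) (nat_lit 76) (nat_lit 5) (nat_lit 79) (nat_lit 5) (nat_lit 80) (nat_lit 5) (nat_lit 304) (nat_lit 267) (nat_lit 209))) (XT.nd (nat_lit 78) (nat_lit 304) (nat_lit 0) (XT.lf (nat_lit 0) (nat_lit 4839808213) (nat_lit 228) (nat_lit 10127699302) (nat_lit 304) (nat_lit 2740727405) (nat_lit 73) (nat_lit 5) (nat_lit 76) (nat_lit 5) (nat_lit 77) (nat_lit 5) (nat_lit 305) (nat_lit 267) (nat_lit 208)) (XT.lf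 (nat_lit 0) (nat_lit 1916305773) (nat_lit 228) (nat_lit 1166455848) (nat_lit 304) (nat_lit 15214724451) (nat_lit 69) (nat_lit 5) (nat_lit 72) (nat_lit 5) (nat_lit 73) (nat_lit 5) (nat_lit 306) (nat_lit 267) (nat_lit 207)))))) (XT.nd (nat_lit 546) (nat_lit 1140) (nat_lit 0) (XT.nd (nat_lit 234) (nat_lit 684) (nat_lit 0) (XT.nd (nat_lit 78) (nat_lit 532) (nat_lit 0) (XT.lf (nat_lit 0) (nat_lit 9306740983) (nat_lit 304) (nat_lit 1385275145) (nat_lit 76) (nat_lit 8218415942) (nat_lit 69) (nat_lit 5) (nat_lit 73) (nat_lit 5) (nat_lit 70) (nat_lit 5) (nat_lit 307) (nat_lit 267) (nat_lit 206)) (XT.nd (nat_lit 78) (nat_lit 304) (nat_lit 0) (XT.lf (nat_lit 0) (nat_lit 14562313351) (nat_lit 228) (nat_lit 1386080606) (nat_lit 304) (nat_lit 3602462234) (nat_lit 66) (nat_lit 5) (nat_lit 69) (nat_lit 5) (nat_lit 70) (nat_lit 5) (nat_lit 308) (nat_lit 267) (nat_lit 205)) (XT.lf (nat_lit 0) (nat_lit 2806175019)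 (nat_lit 304) (nat_lit 9064866602) (nat_lit 76) (nat_lit 8346704464) (nat_lit 62) (nat_lit 5) (nat_lit 66) (nat_lit 5) (nat_lit 63) (nat_lit 5) (nat_lit 309) (nat_lit 267) (nat_lit 204)))) (XT.nd (nat_lit 156) (nat_lit 304) (nat_lit 0) (XT.nd (nat_lit 78) (nat_lit 152) (nat_lit 0) (XT.lf (nat_lit 0) (nat_lit 7312549601) (nat_lit 228) (nat_lit 2242009190) (nat_lit 304) (nat_lit 11359559141) (nat_lit 59) (nat_lit 5) (nat_lit 62) (nat_lit 5) (nat_lit 63) (nat_lit 5) (nat_lit 310) (nat_lit 267) (nat_lit 203)) (XT.lf (nat_lit 0) (nat_lit 2969612144) (nat_lit 152) (nat_lit 13827323216) (nat_lit 228) (nat_lit 4843696822) (nat_lit 57) (nat_lit 5) (nat_lit 59) (nat_lit 5) (nat_lit 60) (nat_lit 5) (nat_lit 311) (nat_lit 267) (nat_lit 202))) (XT.nd (nat_lit 78) (nat_lit 228) (nat_lit 0) (XT.lf (nat_lit 0) (nat_lit 2082097115) (nat_lit 228) (nat_lit 1855337954) (nat_lit 76) (nat_lit 18461786566) (nat_lit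 56) (nat_lit 5) (nat_lit 59) (nat_lit 5) (nat_lit 57) (nat_lit 5) (nat_lit 312) (nat_lit 267) (nat_lit 201)) (XT.lf (nat_lit 0) (nat_lit 9433537808) (nat_lit 304) (nat_lit 7253377423) (nat_lit 76) (nat_lit 6502019154) (nat_lit 53) (nat_lit 5) (nat_lit 57) (nat_lit 5) (nat_lit 54) (nat_lit 5) (nat_lit 313) (nat_lit 267) (nat_lit 200))))) (XT.nd (nat_lit 312) (nat_lit 532) (nat_lit 0) (XT.nd (nat_lit 156) (nat_lit 152) (nat_lit 0) (XT.nd (nat_lit 78) (nat_lit 304) (nat_lit 0) (XT.lf (nat_lit 0) (nat_lit 10744569725) (nat_lit 152) (nat_lit 6532372041) (nat_lit 228) (nat_lit 6737476898) (nat_lit 51) (nat_lit 5) (nat_lit 53) (nat_lit 5) (nat_lit 54) (nat_lit 5) (nat_lit 314) (nat_lit 267) (nat_lit 199)) (XT.lf (nat_lit 0) (nat_lit 745609010) (nat_lit 304) (nat_lit 19975812108) (nat_lit 76) (nat_lit 4155792577) (nat_lit 47) (nat_lit 5) (nat_lit 51) (nat_lit 5) (nat_lit 48) (nat_lit 5) (nat_lit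 315) (nat_lit 267) (nat_lit 198))) (XT.nd (nat_lit 78) (nat_lit 152) (nat_lit 0) (XT.lf (nat_lit 0) (nat_lit 8632576771) (nat_lit 304) (nat_lit 1716268497) (nat_lit 76) (nat_lit 15427245434) (nat_lit 47) (nat_lit 5) (nat_lit 51) (nat_lit 5) (nat_lit 48) (nat_lit 5) (nat_lit 316) (nat_lit 267) (nat_lit 197)) (XT.lf (nat_lit 0) (nat_lit 17056754467) (nat_lit 228) (nat_lit 8977567119) (nat_lit 76) (nat_lit 681318912) (nat_lit 45) (nat_lit 5) (nat_lit 48) (nat_lit 5) (nat_lit 46) (nat_lit 5) (nat_lit 317) (nat_lit 267) (nat_lit 196)))) (XT.nd (nat_lit 156) (nat_lit 152) (nat_lit 0) (XT.nd (nat_lit 78) (nat_lit 228) (nat_lit 0) (XT.lf (nat_lit 0) (nat_lit 10543765933) (nat_lit 152) (nat_lit 15548513445) (nat_lit 228) (nat_lit 1604198336) (nat_lit 43) (nat_lit 5) (nat_lit 45) (nat_lit 5) (nat_lit 46) (nat_lit 5) (nat_lit 318) (nat_lit 267) (nat_lit 195)) (XT.lf (nat_lit 0) (nat_lit 2430061051)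 (nat_lit 152) (nat_lit 4373343231) (nat_lit 228) (nat_lit 21918471858) (nat_lit 40) (nat_lit 5) (nat_lit 42) (nat_lit 5) (nat_lit 43) (nat_lit 5) (nat_lit 319) (nat_lit 267) (nat_lit 194))) (XT.nd (nat_lit 78) (nat_lit 152) (nat_lit 0) (XT.lf (nat_lit 0) (nat_lit 15815638989) (nat_lit 228) (nat_lit 6586430673) (nat_lit 76) (nat_lit 7389487853) (nat_lit 40) (nat_lit 5) (nat_lit 43) (nat_lit 5) (nat_lit 41) (nat_lit 5) (nat_lit 320) (nat_lit 267) (nat_lit 193)) (XT.lf (nat_lit 0) (nat_lit 14286575878) (nat_lit 152) (nat_lit 11142949793) (nat_lit 228) (nat_lit 5480677891) (nat_lit 38) (nat_lit 5) (nat_lit 40) (nat_lit 5) (nat_lit 41) (nat_lit 5) (nat_lit 321) (nat_lit 267) (nat_lit 192))))))))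
noncomputable def xc63 : XT := (XT.nd (nat_lit 2184) (nat_lit 380) (nat_lit 0) (XT.nd (nat_lit 1092) (nat_lit 684) (nat_lit 0) (XT.nd (nat_lit 546) (nat_lit 608) (nat_lit 0) (XT.nd (nat_lit 234) (nat_lit 304) (nat_lit 0) (XT.nd (nat_lit 78) (nat_lit 152) (nat_lit 0) (XT.lf (nat_lit 0) (nat_lit 3459552234) (nat_lit 228) (nat_lit 27833095935) (nat_lit 76) (nat_lit 788532602) (nat_lit 35) (nat_lit 5) (nat_lit 38) (nat_lit 5) (nat_lit 36) (nat_lit 5) (nat_lit 322) (nat_lit 267) (nat_lit 191)) (XT.nd (nat_lit 78) (nat_lit 152) (nat_lit 0) (XT.lf (nat_lit 0) (nat_lit 12990748216) (nat_lit 228) (nat_lit 7014878495) (nat_lit 76) (nat_lit 13295743508) (nat_lit 35) (nat_lit 5) (nat_lit 38) (nat_lit 5) (nat_lit 36) (nat_lit 5) (nat_lit 323) (nat_lit 267) (nat_lit 190)) (XT.lf (nat_lit 0) (nat_lit 15090537008) (nat_lit 152) (nat_lit 8025370386) (nat_lit 228) (nat_lit 11463149548) (nat_lit 33) (nat_lit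 5) (nat_lit 35) (nat_lit 5) (nat_lit 36) (nat_lit 5) (nat_lit 324) (nat_lit 267) (nat_lit 189)))) (XT.nd (nat_lit 156) (nat_lit 152) (nat_lit 0) (XT.nd (nat_lit 78) (nat_lit 76) (nat_lit 0) (XT.lf (nat_lit 0) (nat_lit 2485948869) (nat_lit 76) (nat_lit 31374992547) (nat_lit 152) (nat_lit 2056287511) (nat_lit 32) (nat_lit 5) (nat_lit 33) (nat_lit 5) (nat_lit 34) (nat_lit 4) (nat_lit 325) (nat_lit 267) (nat_lit 188)) (XT.lf (nat_lit 0) (nat_lit 7925501816) (nat_lit 152) (nat_lit 11554662886) (nat_lit 76) (nat_lit 17832182193) (nat_lit 31) (nat_lit 5) (nat_lit 33) (nat_lit 5) (nat_lit 32) (nat_lit 5) (nat_lit 326) (nat_lit 267) (nat_lit 187))) (XT.nd (nat_lit 78) (nat_lit 0) (nat_lit 0) (XT.lf (nat_lit 0) (nat_lit 11576551720) (nat_lit 152) (nat_lit 6873828436) (nat_lit 228) (nat_lit 20323642332) (nat_lit 29) (nat_lit 5) (nat_lit 31) (nat_lit 5) (nat_lit 32) (nat_lit 5) (nat_lit 327) (nat_lit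 267) (nat_lit 186)) (XT.lf (nat_lit 0) (nat_lit 29658242093) (nat_lit 228) (nat_lit 4305434690) (nat_lit 76) (nat_lit 6340410797) (nat_lit 29) (nat_lit 5) (nat_lit 32) (nat_lit 5) (nat_lit 30) (nat_lit 4) (nat_lit 328) (nat_lit 267) (nat_lit 185))))) (XT.nd (nat_lit 234) (nat_lit 304) (nat_lit 0) (XT.nd (nat_lit 78) (nat_lit 228) (nat_lit 0) (XT.lf (nat_lit 0) (nat_lit 20010718820) (nat_lit 76) (nat_lit 21654135253) (nat_lit 152) (nat_lit 238658681) (nat_lit 28) (nat_lit 5) (nat_lit 29) (nat_lit 5) (nat_lit 30) (nat_lit 4) (nat_lit 329) (nat_lit 267) (nat_lit 184)) (XT.nd (nat_lit 78) (nat_lit 0) (nat_lit 0) (XT.lf (nat_lit 0) (nat_lit 1944981317) (nat_lit 152) (nat_lit 8575899336) (nat_lit 228) (nat_lit 33057735899) (nat_lit 25) (nat_lit 5) (nat_lit 27) (nat_lit 5) (nat_lit 28) (nat_lit 5) (nat_lit 330) (nat_lit 267) (nat_lit 183)) (XT.lf (nat_lit 0) (nat_lit 22068326353) (nat_lit 228) (nat_lit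 17992968539) (nat_lit 76) (nat_lit 5268470437) (nat_lit 25) (nat_lit 5) (nat_lit 28) (nat_lit 5) (nat_lit 26) (nat_lit 4) (nat_lit 331) (nat_lit 267) (nat_lit 182)))) (XT.nd (nat_lit 156) (nat_lit 228) (nat_lit 0) (XT.nd (nat_lit 78) (nat_lit 0) (nat_lit 0) (XT.lf (nat_lit 0) (nat_lit 6838338104) (nat_lit 76) (nat_lit 27485819131) (nat_lit 152) (nat_lit 12840390240) (nat_lit 24) (nat_lit 5) (nat_lit 25) (nat_lit 5) (nat_lit 26) (nat_lit 4) (nat_lit 332) (nat_lit 267) (nat_lit 181)) (XT.lf (nat_lit 0) (nat_lit 33250031992) (nat_lit 76) (nat_lit 14107345337) (nat_lit 152) (nat_lit 1728759488) (nat_lit 24) (nat_lit 5) (nat_lit 25) (nat_lit 5) (nat_lit 26) (nat_lit 4) (nat_lit 333) (nat_lit 267) (nat_lit 180))) (XT.nd (nat_lit 78) (nat_lit 0) (nat_lit 0) (XT.lf (nat_lit 0) (nat_lit 9821398436) (nat_lit 228) (nat_lit 41158686081) (nat_lit 76) (nat_lit 118554218) (nat_lit 21) (nat_lit 5) (nat_lit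 24) (nat_lit 5) (nat_lit 22) (nat_lit 4) (nat_lit 334) (nat_lit 267) (nat_lit 179)) (XT.lf (nat_lit 0) (nat_lit 22201283819) (nat_lit 228) (nat_lit 16067800464) (nat_lit 76) (nat_lit 14933534086) (nat_lit 21) (nat_lit 5) (nat_lit 24) (nat_lit 5) (nat_lit 22) (nat_lit 4) (nat_lit 335) (nat_lit 267) (nat_lit 178)))))) (XT.nd (nat_lit 546) (nat_lit 380) (nat_lit 0) (XT.nd (nat_lit 234) (nat_lit 76) (nat_lit 0) (XT.nd (nat_lit 78) (nat_lit 152) (nat_lit 0) (XT.lf (nat_lit 0) (nat_lit 10447969223) (nat_lit 76) (nat_lit 24834168399) (nat_lit 152) (nat_lit 20127205183) (nat_lit 20) (nat_lit 5) (nat_lit 21) (nat_lit 5) (nat_lit 22) (nat_lit 4) (nat_lit 336) (nat_lit 267) (nat_lit 177)) (XT.nd (nat_lit 78) (nat_lit 152) (nat_lit 0) (XT.lf (nat_lit 0) (nat_lit 38592720797) (nat_lit 76) (nat_lit 10571824841) (nat_lit 152) (nat_lit 8557437287) (nat_lit 20) (nat_lit 5) (nat_lit 21) (nat_lit 5) (nat_lit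 22) (nat_lit 4) (nat_lit 337) (nat_lit 267) (nat_lit 176)) (XT.lf (nat_lit 0) (nat_lit 3624572440) (nat_lit 152) (nat_lit 52104354554) (nat_lit 76) (nat_lit 4417182290) (nat_lit 18) (nat_lit 5) (nat_lit 20) (nat_lit 5) (nat_lit 19) (nat_lit 4) (nat_lit 338) (nat_lit 267) (nat_lit 175)))) (XT.nd (nat_lit 156) (nat_lit 0) (nat_lit 0) (XT.nd (nat_lit 78) (nat_lit 76) (nat_lit 0) (XT.lf (nat_lit 0) (nat_lit 16529100215) (nat_lit 152) (nat_lit 25940337794) (nat_lit 76) (nat_lit 20210754415) (nat_lit 18) (nat_lit 5) (nat_lit 20) (nat_lit 5) (nat_lit 19) (nat_lit 4) (nat_lit 339) (nat_lit 267) (nat_lit 174)) (XT.lf (nat_lit 0) (nat_lit 1532406207) (nat_lit 76) (nat_lit 28545160264) (nat_lit 152) (nat_lit 35263455919) (nat_lit 17) (nat_lit 5) (nat_lit 18) (nat_lit 5) (nat_lit 19) (nat_lit 4) (nat_lit 340) (nat_lit 267) (nat_lit 173))) (XT.nd (nat_lit 78) (nat_lit 0) (nat_lit 0) (XT.lf (nat_lit 0)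 (nat_lit 30892329880) (nat_lit 76) (nat_lit 13662629204) (nat_lit 152) (nat_lit 23572393517) (nat_lit 17) (nat_lit 5) (nat_lit 18) (nat_lit 5) (nat_lit 19) (nat_lit 4) (nat_lit 341) (nat_lit 267) (nat_lit 172)) (XT.lf (nat_lit 0) (nat_lit 59760191389) (nat_lit 152) (nat_lit 9379132859) (nat_lit 0) (nat_lit 1913559630) (nat_lit 17) (nat_lit 5) (nat_lit 19) (nat_lit 4) (nat_lit 17) (nat_lit 4) (nat_lit 342) (nat_lit 267) (nat_lit 171))))) (XT.nd (nat_lit 234) (nat_lit 152) (nat_lit 0) (XT.nd (nat_lit 78) (nat_lit 76) (nat_lit 0) (XT.lf (nat_lit 0) (nat_lit 1889778134) (nat_lit 152) (nat_lit 54036081313) (nat_lit 76) (nat_lit 18188773191) (nat_lit 15) (nat_lit 5) (nat_lit 17) (nat_lit 5) (nat_lit 16) (nat_lit 4) (nat_lit 343) (nat_lit 267) (nat_lit 170)) (XT.nd (nat_lit 78) (nat_lit 76) (nat_lit 0) (XT.lf (nat_lit 0) (nat_lit 15583591575) (nat_lit 152) (nat_lit 26262115426) (nat_lit 76) (nat_lit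 35477837705) (nat_lit 15) (nat_lit 5) (nat_lit 17) (nat_lit 5) (nat_lit 16) (nat_lit 4) (nat_lit 344) (nat_lit 267) (nat_lit 169)) (XT.lf (nat_lit 0) (nat_lit 2933289436) (nat_lit 76) (nat_lit 27043757688) (nat_lit 152) (nat_lit 50715409776) (nat_lit 14) (nat_lit 5) (nat_lit 15) (nat_lit 5) (nat_lit 16) (nat_lit 4) (nat_lit 345) (nat_lit 267) (nat_lit 168)))) (XT.nd (nat_lit 156) (nat_lit 152) (nat_lit 0) (XT.nd (nat_lit 78) (nat_lit 0) (nat_lit 0) (XT.lf (nat_lit 0) (nat_lit 34113469393) (nat_lit 76) (nat_lit 11234208205) (nat_lit 152) (nat_lit 38874414960) (nat_lit 14) (nat_lit 5) (nat_lit 15) (nat_lit 5) (nat_lit 16) (nat_lit 4) (nat_lit 346) (nat_lit 267) (nat_lit 167)) (XT.lf (nat_lit 0) (nat_lit 61526087279) (nat_lit 152) (nat_lit 21150063613) (nat_lit 0) (nat_lit 5250884461) (nat_lit 14) (nat_lit 5) (nat_lit 16) (nat_lit 4) (nat_lit 14) (nat_lit 4) (nat_lit 347) (nat_lit 267) (nat_lit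 166))) (XT.nd (nat_lit 78) (nat_lit 76) (nat_lit 0) (XT.lf (nat_lit 0) (nat_lit 9302723568) (nat_lit 76) (nat_lit 69401762309) (nat_lit 76) (nat_lit 13107010005) (nat_lit 13) (nat_lit 4) (nat_lit 14) (nat_lit 5) (nat_lit 14) (nat_lit 4) (nat_lit 348) (nat_lit 267) (nat_lit 165)) (XT.lf (nat_lit 0) (nat_lit 1043379078) (nat_lit 152) (nat_lit 54195311332) (nat_lit 76) (nat_lit 40644994716) (nat_lit 12) (nat_lit 5) (nat_lit 14) (nat_lit 5) (nat_lit 13) (nat_lit 4) (nat_lit 349) (nat_lit 267) (nat_lit 164))))))) (XT.nd (nat_lit 1092) (nat_lit 0) (nat_lit 0) (XT.nd (nat_lit 546) (nat_lit 228) (nat_lit 0) (XT.nd (nat_lit 234) (nat_lit 76) (nat_lit 0) (XT.nd (nat_lit 78) (nat_lit 76) (nat_lit 0) (XT.lf (nat_lit 0) (nat_lit 15621777710) (nat_lit 152) (nat_lit 24618894069) (nat_lit 76) (nat_lit 59915174319) (nat_lit 12) (nat_lit 5) (nat_lit 14) (nat_lit 5) (nat_lit 13) (nat_lit 4) (nat_lit 350) (nat_lit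 267) (nat_lit 163)) (XT.nd (nat_lit 78) (nat_lit 0) (nat_lit 0) (XT.lf (nat_lit 0) (nat_lit 6544600848) (nat_lit 76) (nat_lit 24436971195) (nat_lit 152) (nat_lit 73658471023) (nat_lit 11) (nat_lit 5) (nat_lit 12) (nat_lit 5) (nat_lit 13) (nat_lit 4) (nat_lit 351) (nat_lit 267) (nat_lit 162)) (XT.lf (nat_lit 0) (nat_lit 39761838632) (nat_lit 76) (nat_lit 7590827596) (nat_lit 152) (nat_lit 61988486469) (nat_lit 11) (nat_lit 5) (nat_lit 12) (nat_lit 5) (nat_lit 13) (nat_lit 4) (nat_lit 352) (nat_lit 267) (nat_lit 161)))) (XT.nd (nat_lit 156) (nat_lit 76) (nat_lit 0) (XT.nd (nat_lit 78) (nat_lit 0) (nat_lit 0) (XT.lf (nat_lit 0) (nat_lit 64629661552) (nat_lit 152) (nat_lit 39752649477) (nat_lit 0) (nat_lit 9892388401) (nat_lit 11) (nat_lit 5) (nat_lit 13) (nat_lit 4) (nat_lit 11) (nat_lit 4) (nat_lit 353) (nat_lit 267) (nat_lit 160)) (XT.lf (nat_lit 0) (nat_lit 82837867370) (nat_lit 152) (nat_lit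 8528606239) (nat_lit 0) (nat_lit 28086430988) (nat_lit 11) (nat_lit 5) (nat_lit 13) (nat_lit 4) (nat_lit 11) (nat_lit 4) (nat_lit 354) (nat_lit 267) (nat_lit 159))) (XT.nd (nat_lit 78) (nat_lit 0) (nat_lit 0) (XT.lf (nat_lit 0) (nat_lit 24722552329) (nat_lit 76) (nat_lit 77462764841) (nat_lit 76) (nat_lit 22697839669) (nat_lit 10) (nat_lit 4) (nat_lit 11) (nat_lit 5) (nat_lit 11) (nat_lit 4) (nat_lit 355) (nat_lit 267) (nat_lit 158)) (XT.lf (nat_lit 0) (nat_lit 59798452078) (nat_lit 76) (nat_lit 62780932816) (nat_lit 76) (nat_lit 8003161177) (nat_lit 10) (nat_lit 4) (nat_lit 11) (nat_lit 5) (nat_lit 11) (nat_lit 4) (nat_lit 356) (nat_lit 267) (nat_lit 157))))) (XT.nd (nat_lit 234) (nat_lit 76) (nat_lit 0) (XT.nd (nat_lit 78) (nat_lit 76) (nat_lit 0) (XT.lf (nat_lit 0) (nat_lit 7273114144) (nat_lit 152) (nat_lit 40025584656) (nat_lit 76) (nat_lit 89266312730) (nat_lit 9) (nat_lit 5) (nat_lit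 11) (nat_lit 5) (nat_lit 10) (nat_lit 4) (nat_lit 357) (nat_lit 267) (nat_lit 156)) (XT.nd (nat_lit 78) (nat_lit 76) (nat_lit 0) (XT.lf (nat_lit 0) (nat_lit 23141391650) (nat_lit 152) (nat_lit 7824633445) (nat_lit 76) (nat_lit 111878388342) (nat_lit 9) (nat_lit 5) (nat_lit 11) (nat_lit 5) (nat_lit 10) (nat_lit 4) (nat_lit 358) (nat_lit 267) (nat_lit 155)) (XT.lf (nat_lit 0) (nat_lit 26489260740) (nat_lit 76) (nat_lit 13560993691) (nat_lit 152) (nat_lit 109380117324) (nat_lit 8) (nat_lit 5) (nat_lit 9) (nat_lit 5) (nat_lit 10) (nat_lit 4) (nat_lit 359) (nat_lit 267) (nat_lit 154)))) (XT.nd (nat_lit 156) (nat_lit 76) (nat_lit 0) (XT.nd (nat_lit 78) (nat_lit 0) (nat_lit 0) (XT.lf (nat_lit 0) (nat_lit 57923925833) (nat_lit 152) (nat_lit 93720725466) (nat_lit 0) (nat_lit 4697397118) (nat_lit 8) (nat_lit 5) (nat_lit 10) (nat_lit 4) (nat_lit 8) (nat_lit 4) (nat_lit 360) (nat_lit 267) (nat_lit 153))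 (XT.lf (nat_lit 0) (nat_lit 76821206294) (nat_lit 152) (nat_lit 63189300970) (nat_lit 0) (nat_lit 23584905206) (nat_lit 8) (nat_lit 5) (nat_lit 10) (nat_lit 4) (nat_lit 8) (nat_lit 4) (nat_lit 361) (nat_lit 267) (nat_lit 152))) (XT.nd (nat_lit 78) (nat_lit 76) (nat_lit 0) (XT.lf (nat_lit 0) (nat_lit 96656732772) (nat_lit 152) (nat_lit 31143787093) (nat_lit 0) (nat_lit 43411124663) (nat_lit 8) (nat_lit 5) (nat_lit 10) (nat_lit 4) (nat_lit 8) (nat_lit 4) (nat_lit 362) (nat_lit 267) (nat_lit 151)) (XT.lf (nat_lit 0) (nat_lit 2541712982) (nat_lit 76) (nat_lit 114960452228) (nat_lit 76) (nat_lit 61705980290) (nat_lit 7) (nat_lit 4) (nat_lit 8) (nat_lit 5) (nat_lit 8) (nat_lit 4) (nat_lit 363) (nat_lit 267) (nat_lit 150)))))) (XT.nd (nat_lit 33618) (nat_lit 0) (nat_lit 14516) (XT.nd (nat_lit 33306) (nat_lit 0) (nat_lit 19380) (XT.nd (nat_lit 33150) (nat_lit 0) (nat_lit 20140) (XT.lf (nat_lit 0)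 (nat_lit 38550754895) (nat_lit 76) (nat_lit 101153598464) (nat_lit 76) (nat_lit 47890684783) (nat_lit 7) (nat_lit 4) (nat_lit 8) (nat_lit 5) (nat_lit 8) (nat_lit 4) (nat_lit 364) (nat_lit 267) (nat_lit 149)) (XT.nd (nat_lit 78) (nat_lit 836) (nat_lit 0) (XT.lf (nat_lit 0) (nat_lit 1755895781) (nat_lit 0) (nat_lit 1755895781) (nat_lit 684) (nat_lit 86255506) (nat_lit 283) (nat_lit 5) (nat_lit 283) (nat_lit 3) (nat_lit 292) (nat_lit 3) (nat_lit 268) (nat_lit 268) (nat_lit 244)) (XT.lf (nat_lit 76) (nat_lit 1916565845) (nat_lit 0) (nat_lit 529531621) (nat_lit 836) (nat_lit 4847971139) (nat_lit 273) (nat_lit 5) (nat_lit 272) (nat_lit 3) (nat_lit 283) (nat_lit 5) (nat_lit 269) (nat_lit 268) (nat_lit 243)))) (XT.nd (nat_lit 156) (nat_lit 0) (nat_lit 76) (XT.nd (nat_lit 78) (nat_lit 836) (nat_lit 0) (XT.lf (nat_lit 76) (nat_lit 365092835) (nat_lit 0) (nat_lit 4727256653) (nat_lit 836) (nat_lit 2307749946)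 (nat_lit 274) (nat_lit 5) (nat_lit 273) (nat_lit 5) (nat_lit 284) (nat_lit 5) (nat_lit 270) (nat_lit 268) (nat_lit 242)) (XT.lf (nat_lit 0) (nat_lit 252418706) (nat_lit 836) (nat_lit 1106225209) (nat_lit 912) (nat_lit 6155886619) (nat_lit 262) (nat_lit 5) (nat_lit 273) (nat_lit 5) (nat_lit 274) (nat_lit 5) (nat_lit 271) (nat_lit 268) (nat_lit 241))) (XT.nd (nat_lit 78) (nat_lit 0) (nat_lit 0) (XT.lf (nat_lit 0) (nat_lit 2811041716) (nat_lit 836) (nat_lit 2554059882) (nat_lit 912) (nat_lit 2271542271) (nat_lit 263) (nat_lit 5) (nat_lit 274) (nat_lit 5) (nat_lit 275) (nat_lit 5) (nat_lit 272) (nat_lit 268) (nat_lit 240)) (XT.lf (nat_lit 76) (nat_lit 3807495729) (nat_lit 0) (nat_lit 1605348689) (nat_lit 912) (nat_lit 2354743246) (nat_lit 264) (nat_lit 5) (nat_lit 263) (nat_lit 5) (nat_lit 275) (nat_lit 5) (nat_lit 273) (nat_lit 268) (nat_lit 239))))) (XT.nd (nat_lit 312) (nat_lit 4104) (nat_lit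 0) (XT.nd (nat_lit 156) (nat_lit 0) (nat_lit 76) (XT.nd (nat_lit 78) (nat_lit 0) (nat_lit 0) (XT.lf (nat_lit 0) (nat_lit 167957997) (nat_lit 912) (nat_lit 5339952069) (nat_lit 988) (nat_lit 2399278707) (nat_lit 252) (nat_lit 5) (nat_lit 264) (nat_lit 5) (nat_lit 265) (nat_lit 5) (nat_lit 274) (nat_lit 268) (nat_lit 238)) (XT.lf (nat_lit 76) (nat_lit 1342176855) (nat_lit 0) (nat_lit 1360974209) (nat_lit 988) (nat_lit 5352028242) (nat_lit 253) (nat_lit 5) (nat_lit 252) (nat_lit 5) (nat_lit 265) (nat_lit 5) (nat_lit 275) (nat_lit 268) (nat_lit 237))) (XT.nd (nat_lit 78) (nat_lit 0) (nat_lit 0) (XT.lf (nat_lit 76) (nat_lit 137972208) (nat_lit 0) (nat_lit 5183016339) (nat_lit 988) (nat_lit 2891057126) (nat_lit 254) (nat_lit 5) (nat_lit 253) (nat_lit 5) (nat_lit 266) (nat_lit 5) (nat_lit 276) (nat_lit 268) (nat_lit 236)) (XT.lf (nat_lit 76) (nat_lit 7364049653) (nat_lit 0) (nat_lit 663921996) (nat_lit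 988) (nat_lit 350181666) (nat_lit 254) (nat_lit 5) (nat_lit 253) (nat_lit 5) (nat_lit 266) (nat_lit 5) (nat_lit 277) (nat_lit 268) (nat_lit 235)))) (XT.nd (nat_lit 156) (nat_lit 2280) (nat_lit 0) (XT.nd (nat_lit 78) (nat_lit 988) (nat_lit 0) (XT.lf (nat_lit 0) (nat_lit 2254620816) (nat_lit 988) (nat_lit 2184219403) (nat_lit 76) (nat_lit 4113729017) (nat_lit 241) (nat_lit 5) (nat_lit 254) (nat_lit 5) (nat_lit 242) (nat_lit 5) (nat_lit 278) (nat_lit 268) (nat_lit 234)) (XT.lf (nat_lit 0) (nat_lit 4941506082) (nat_lit 1064) (nat_lit 3333676294) (nat_lit 76) (nat_lit 461775205) (nat_lit 228) (nat_lit 5) (nat_lit 242) (nat_lit 5) (nat_lit 229) (nat_lit 5) (nat_lit 279) (nat_lit 268) (nat_lit 233))) (XT.nd (nat_lit 78) (nat_lit 1216) (nat_lit 0) (XT.lf (nat_lit 0) (nat_lit 4433475855) (nat_lit 1064) (nat_lit 3329435047) (nat_lit 1140) (nat_lit 1167771268) (nat_lit 214) (nat_lit 5) (nat_lit 228)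 (nat_lit 5) (nat_lit 229) (nat_lit 5) (nat_lit 280) (nat_lit 268) (nat_lit 232)) (XT.lf (nat_lit 0) (nat_lit 1540508893) (nat_lit 1216) (nat_lit 5669295845) (nat_lit 76) (nat_lit 1924534210) (nat_lit 198) (nat_lit 5) (nat_lit 214) (nat_lit 5) (nat_lit 199) (nat_lit 5) (nat_lit 281) (nat_lit 268) (nat_lit 231))))))))
noncomputable def xc64 : XT := (XT.nd (nat_lit 2184) (nat_lit 3496) (nat_lit 0) (XT.nd (nat_lit 1092) (nat_lit 3724) (nat_lit 0) (XT.nd (nat_lit 546) (nat_lit 2660) (nat_lit 0) (XT.nd (nat_lit 234) (nat_lit 1672) (nat_lit 0) (XT.nd (nat_lit 78) (nat_lit 1216) (nat_lit 0) (XT.lf (nat_lit 0) (nat_lit 2481073588) (nat_lit 760) (nat_lit 1880981749) (nat_lit 836) (nat_lit 4985823769) (nat_lit 188) (nat_lit 5) (nat_lit 198) (nat_lit 5) (nat_lit 199) (nat_lit 5) (nat_lit 282) (nat_lit 268) (nat_lit 230)) (XT.nd (nat_lit 78) (nat_lit 608) (nat_lit 0) (XT.lf (nat_lit 0) (nat_lit 1485277960)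 (nat_lit 608) (nat_lit 5849959017) (nat_lit 684) (nat_lit 2236644950) (nat_lit 180) (nat_lit 5) (nat_lit 188) (nat_lit 5) (nat_lit 189) (nat_lit 5) (nat_lit 283) (nat_lit 268) (nat_lit 229)) (XT.lf (nat_lit 0) (nat_lit 483194007) (nat_lit 532) (nat_lit 153540521) (nat_lit 608) (nat_lit 9170274830) (nat_lit 172) (nat_lit 5) (nat_lit 179) (nat_lit 5) (nat_lit 180) (nat_lit 5) (nat_lit 284) (nat_lit 268) (nat_lit 228)))) (XT.nd (nat_lit 156) (nat_lit 1140) (nat_lit 0) (XT.nd (nat_lit 78) (nat_lit 532) (nat_lit 0) (XT.lf (nat_lit 0) (nat_lit 3656135612) (nat_lit 608) (nat_lit 574312005) (nat_lit 76) (nat_lit 5821413063) (nat_lit 172) (nat_lit 5) (nat_lit 180) (nat_lit 5) (nat_lit 173) (nat_lit 5) (nat_lit 285) (nat_lit 268) (nat_lit 227)) (XT.lf (nat_lit 0) (nat_lit 6842018433) (nat_lit 608) (nat_lit 1635839037) (nat_lit 76) (nat_lit 1830717622) (nat_lit 165) (nat_lit 5) (nat_lit 173) (nat_lit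 5) (nat_lit 166) (nat_lit 5) (nat_lit 286) (nat_lit 268) (nat_lit 226))) (XT.nd (nat_lit 78) (nat_lit 608) (nat_lit 0) (XT.lf (nat_lit 0) (nat_lit 7836850367) (nat_lit 532) (nat_lit 2390121903) (nat_lit 608) (nat_lit 350041432) (nat_lit 158) (nat_lit 5) (nat_lit 165) (nat_lit 5) (nat_lit 166) (nat_lit 5) (nat_lit 287) (nat_lit 268) (nat_lit 225)) (XT.lf (nat_lit 0) (nat_lit 2906947130) (nat_lit 608) (nat_lit 3919303445) (nat_lit 76) (nat_lit 4030606395) (nat_lit 150) (nat_lit 5) (nat_lit 158) (nat_lit 5) (nat_lit 151) (nat_lit 5) (nat_lit 288) (nat_lit 268) (nat_lit 224))))) (XT.nd (nat_lit 234) (nat_lit 1292) (nat_lit 0) (XT.nd (nat_lit 78) (nat_lit 912) (nat_lit 0) (XT.lf (nat_lit 0) (nat_lit 6007385939) (nat_lit 456) (nat_lit 343659561) (nat_lit 532) (nat_lit 4798669957) (nat_lit 144) (nat_lit 5) (nat_lit 150) (nat_lit 5) (nat_lit 151) (nat_lit 5) (nat_lit 289) (nat_lit 268) (nat_lit 223))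 (XT.nd (nat_lit 78) (nat_lit 456) (nat_lit 0) (XT.lf (nat_lit 0) (nat_lit 5003218211) (nat_lit 456) (nat_lit 5039008223) (nat_lit 532) (nat_lit 1412812694) (nat_lit 138) (nat_lit 5) (nat_lit 144) (nat_lit 5) (nat_lit 145) (nat_lit 5) (nat_lit 290) (nat_lit 268) (nat_lit 222)) (XT.lf (nat_lit 0) (nat_lit 2139023512) (nat_lit 456) (nat_lit 7837224928) (nat_lit 76) (nat_lit 1797671438) (nat_lit 132) (nat_lit 5) (nat_lit 138) (nat_lit 5) (nat_lit 133) (nat_lit 5) (nat_lit 291) (nat_lit 268) (nat_lit 221)))) (XT.nd (nat_lit 156) (nat_lit 456) (nat_lit 0) (XT.nd (nat_lit 78) (nat_lit 380) (nat_lit 0) (XT.lf (nat_lit 0) (nat_lit 2774292839) (nat_lit 456) (nat_lit 3138319478) (nat_lit 532) (nat_lit 6193571703) (nat_lit 126) (nat_lit 5) (nat_lit 132) (nat_lit 5) (nat_lit 133) (nat_lit 5) (nat_lit 292) (nat_lit 268) (nat_lit 220)) (XT.lf (nat_lit 0) (nat_lit 1531493203) (nat_lit 380) (nat_lit 8409387623)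 (nat_lit 456) (nat_lit 2512258061) (nat_lit 121) (nat_lit 5) (nat_lit 126) (nat_lit 5) (nat_lit 127) (nat_lit 5) (nat_lit 293) (nat_lit 268) (nat_lit 219))) (XT.nd (nat_lit 78) (nat_lit 0) (nat_lit 0) (XT.lf (nat_lit 0) (nat_lit 191414176) (nat_lit 380) (nat_lit 1198556146) (nat_lit 456) (nat_lit 11425236557) (nat_lit 115) (nat_lit 5) (nat_lit 120) (nat_lit 5) (nat_lit 121) (nat_lit 5) (nat_lit 294) (nat_lit 268) (nat_lit 218)) (XT.lf (nat_lit 0) (nat_lit 5545596358) (nat_lit 456) (nat_lit 1275943988) (nat_lit 76) (nat_lit 6369835056) (nat_lit 115) (nat_lit 5) (nat_lit 121) (nat_lit 5) (nat_lit 116) (nat_lit 5) (nat_lit 295) (nat_lit 268) (nat_lit 217)))))) (XT.nd (nat_lit 546) (nat_lit 1368) (nat_lit 0) (XT.nd (nat_lit 234) (nat_lit 1216) (nat_lit 0) (XT.nd (nat_lit 78) (nat_lit 760) (nat_lit 0) (XT.lf (nat_lit 0) (nat_lit 9970188586) (nat_lit 456) (nat_lit 2835866917) (nat_lit 76) (nat_lit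 778509548) (nat_lit 110) (nat_lit 5) (nat_lit 116) (nat_lit 5) (nat_lit 111) (nat_lit 5) (nat_lit 296) (nat_lit 268) (nat_lit 216)) (XT.nd (nat_lit 78) (nat_lit 304) (nat_lit 0) (XT.lf (nat_lit 0) (nat_lit 720529654) (nat_lit 456) (nat_lit 4561594039) (nat_lit 76) (nat_lit 8711736577) (nat_lit 104) (nat_lit 5) (nat_lit 110) (nat_lit 5) (nat_lit 105) (nat_lit 5) (nat_lit 297) (nat_lit 268) (nat_lit 215)) (XT.lf (nat_lit 0) (nat_lit 5272370428) (nat_lit 380) (nat_lit 6456843017) (nat_lit 76) (nat_lit 2691127506) (nat_lit 100) (nat_lit 5) (nat_lit 105) (nat_lit 5) (nat_lit 101) (nat_lit 5) (nat_lit 298) (nat_lit 268) (nat_lit 214)))) (XT.nd (nat_lit 156) (nat_lit 532) (nat_lit 0) (XT.nd (nat_lit 78) (nat_lit 380) (nat_lit 0) (XT.lf (nat_lit 0) (nat_lit 6335189142) (nat_lit 304) (nat_lit 3821669578) (nat_lit 380) (nat_lit 4708175743) (nat_lit 96) (nat_lit 5) (nat_lit 100) (nat_lit 5) (nat_lit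 101) (nat_lit 5) (nat_lit 299) (nat_lit 268) (nat_lit 213)) (XT.lf (nat_lit 0) (nat_lit 54475858) (nat_lit 380) (nat_lit 10790258286) (nat_lit 76) (nat_lit 4484280444) (nat_lit 91) (nat_lit 5) (nat_lit 96) (nat_lit 5) (nat_lit 92) (nat_lit 5) (nat_lit 300) (nat_lit 268) (nat_lit 212))) (XT.nd (nat_lit 78) (nat_lit 228) (nat_lit 0) (XT.lf (nat_lit 0) (nat_lit 2511314506) (nat_lit 304) (nat_lit 2545379209) (nat_lit 380) (nat_lit 10755172988) (nat_lit 87) (nat_lit 5) (nat_lit 91) (nat_lit 5) (nat_lit 92) (nat_lit 5) (nat_lit 301) (nat_lit 268) (nat_lit 211)) (XT.lf (nat_lit 0) (nat_lit 257151535) (nat_lit 228) (nat_lit 10173949893) (nat_lit 304) (nat_lit 5884131560) (nat_lit 84) (nat_lit 5) (nat_lit 87) (nat_lit 5) (nat_lit 88) (nat_lit 5) (nat_lit 302) (nat_lit 268) (nat_lit 210))))) (XT.nd (nat_lit 234) (nat_lit 760) (nat_lit 0) (XT.nd (nat_lit 78) (nat_lit 608) (nat_lit 0) (XT.lf (nat_lit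 0) (nat_lit 14671252981) (nat_lit 228) (nat_lit 1515230729) (nat_lit 304) (nat_lit 653948572) (nat_lit 84) (nat_lit 5) (nat_lit 87) (nat_lit 5) (nat_lit 88) (nat_lit 5) (nat_lit 303) (nat_lit 268) (nat_lit 209)) (XT.nd (nat_lit 78) (nat_lit 228) (nat_lit 0) (XT.lf (nat_lit 0) (nat_lit 4889947550) (nat_lit 380) (nat_lit 4920955336) (nat_lit 76) (nat_lit 7575225264) (nat_lit 79) (nat_lit 5) (nat_lit 84) (nat_lit 5) (nat_lit 80) (nat_lit 5) (nat_lit 304) (nat_lit 268) (nat_lit 208)) (XT.lf (nat_lit 0) (nat_lit 10021660778) (nat_lit 228) (nat_lit 763361381) (nat_lit 304) (nat_lit 7171295620) (nat_lit 76) (nat_lit 5) (nat_lit 79) (nat_lit 5) (nat_lit 80) (nat_lit 5) (nat_lit 305) (nat_lit 268) (nat_lit 207)))) (XT.nd (nat_lit 156) (nat_lit 228) (nat_lit 0) (XT.nd (nat_lit 78) (nat_lit 304) (nat_lit 0) (XT.lf (nat_lit 0) (nat_lit 7248630874) (nat_lit 228) (nat_lit 9885598753) (nat_lit 304) (nat_lit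 1416032993) (nat_lit 73) (nat_lit 5) (nat_lit 76) (nat_lit 5) (nat_lit 77) (nat_lit 5) (nat_lit 306) (nat_lit 268) (nat_lit 206)) (XT.lf (nat_lit 0) (nat_lit 4145333671) (nat_lit 228) (nat_lit 477030966) (nat_lit 304) (nat_lit 14547660970) (nat_lit 69) (nat_lit 5) (nat_lit 72) (nat_lit 5) (nat_lit 73) (nat_lit 5) (nat_lit 307) (nat_lit 268) (nat_lit 205))) (XT.nd (nat_lit 78) (nat_lit 0) (nat_lit 0) (XT.lf (nat_lit 0) (nat_lit 622716899) (nat_lit 228) (nat_lit 10481683014) (nat_lit 304) (nat_lit 8710849989) (nat_lit 66) (nat_lit 5) (nat_lit 69) (nat_lit 5) (nat_lit 70) (nat_lit 5) (nat_lit 308) (nat_lit 268) (nat_lit 204)) (XT.lf (nat_lit 0) (nat_lit 17296337569) (nat_lit 228) (nat_lit 731935197) (nat_lit 304) (nat_lit 2460953304) (nat_lit 66) (nat_lit 5) (nat_lit 69) (nat_lit 5) (nat_lit 70) (nat_lit 5) (nat_lit 309) (nat_lit 268) (nat_lit 203))))))) (XT.nd (nat_lit 1092) (nat_lit 1140)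 (nat_lit 0) (XT.nd (nat_lit 546) (nat_lit 912) (nat_lit 0) (XT.nd (nat_lit 234) (nat_lit 760) (nat_lit 0) (XT.nd (nat_lit 78) (nat_lit 380) (nat_lit 0) (XT.lf (nat_lit 0) (nat_lit 4206526446) (nat_lit 304) (nat_lit 7512681407) (nat_lit 76) (nat_lit 9470977785) (nat_lit 62) (nat_lit 5) (nat_lit 66) (nat_lit 5) (nat_lit 63) (nat_lit 5) (nat_lit 310) (nat_lit 268) (nat_lit 202)) (XT.nd (nat_lit 78) (nat_lit 152) (nat_lit 0) (XT.lf (nat_lit 0) (nat_lit 9626120399) (nat_lit 228) (nat_lit 1624931798) (nat_lit 304) (nat_lit 10671592981) (nat_lit 59) (nat_lit 5) (nat_lit 62) (nat_lit 5) (nat_lit 63) (nat_lit 5) (nat_lit 311) (nat_lit 268) (nat_lit 201)) (XT.lf (nat_lit 0) (nat_lit 5039503213) (nat_lit 152) (nat_lit 13783153231) (nat_lit 228) (nat_lit 3863844750) (nat_lit 57) (nat_lit 5) (nat_lit 59) (nat_lit 5) (nat_lit 60) (nat_lit 5) (nat_lit 312) (nat_lit 268) (nat_lit 200)))) (XT.nd (nat_lit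 156) (nat_lit 456) (nat_lit 0) (XT.nd (nat_lit 78) (nat_lit 228) (nat_lit 0) (XT.lf (nat_lit 0) (nat_lit 3327335849) (nat_lit 228) (nat_lit 94937144) (nat_lit 76) (nat_lit 20062133528) (nat_lit 56) (nat_lit 5) (nat_lit 59) (nat_lit 5) (nat_lit 57) (nat_lit 5) (nat_lit 313) (nat_lit 268) (nat_lit 199)) (XT.lf (nat_lit 0) (nat_lit 11016001916) (nat_lit 304) (nat_lit 5789049880) (nat_lit 76) (nat_lit 7509489331) (nat_lit 53) (nat_lit 5) (nat_lit 57) (nat_lit 5) (nat_lit 54) (nat_lit 5) (nat_lit 314) (nat_lit 268) (nat_lit 198))) (XT.nd (nat_lit 78) (nat_lit 304) (nat_lit 0) (XT.lf (nat_lit 0) (nat_lit 13056424139) (nat_lit 152) (nat_lit 6159316092) (nat_lit 228) (nat_lit 5966659052) (nat_lit 51) (nat_lit 5) (nat_lit 53) (nat_lit 5) (nat_lit 54) (nat_lit 5) (nat_lit 315) (nat_lit 268) (nat_lit 197)) (XT.lf (nat_lit 0) (nat_lit 1840696176) (nat_lit 304) (nat_lit 19204070028) (nat_lit 76) (nat_lit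 5044119259) (nat_lit 47) (nat_lit 5) (nat_lit 51) (nat_lit 5) (nat_lit 48) (nat_lit 5) (nat_lit 316) (nat_lit 268) (nat_lit 196))))) (XT.nd (nat_lit 234) (nat_lit 608) (nat_lit 0) (XT.nd (nat_lit 78) (nat_lit 304) (nat_lit 0) (XT.lf (nat_lit 0) (nat_lit 10071640578) (nat_lit 304) (nat_lit 115860317) (nat_lit 76) (nat_lit 16846738233) (nat_lit 47) (nat_lit 5) (nat_lit 51) (nat_lit 5) (nat_lit 48) (nat_lit 5) (nat_lit 317) (nat_lit 268) (nat_lit 195)) (XT.nd (nat_lit 78) (nat_lit 152) (nat_lit 0) (XT.lf (nat_lit 0) (nat_lit 18891168518) (nat_lit 228) (nat_lit 7765260535) (nat_lit 76) (nat_lit 1365133742) (nat_lit 45) (nat_lit 5) (nat_lit 48) (nat_lit 5) (nat_lit 46) (nat_lit 5) (nat_lit 318) (nat_lit 268) (nat_lit 194)) (XT.lf (nat_lit 0) (nat_lit 12684521637) (nat_lit 152) (nat_lit 15662716905) (nat_lit 228) (nat_lit 705159904) (nat_lit 43) (nat_lit 5) (nat_lit 45) (nat_lit 5) (nat_lit 46)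 (nat_lit 5) (nat_lit 319) (nat_lit 268) (nat_lit 193)))) (XT.nd (nat_lit 156) (nat_lit 380) (nat_lit 0) (XT.nd (nat_lit 78) (nat_lit 0) (nat_lit 0) (XT.lf (nat_lit 0) (nat_lit 4137810267) (nat_lit 152) (nat_lit 3935430947) (nat_lit 228) (nat_lit 22056475534) (nat_lit 40) (nat_lit 5) (nat_lit 42) (nat_lit 5) (nat_lit 43) (nat_lit 5) (nat_lit 320) (nat_lit 268) (nat_lit 192)) (XT.lf (nat_lit 0) (nat_lit 17497828711) (nat_lit 228) (nat_lit 5384144664) (nat_lit 76) (nat_lit 8372073881) (nat_lit 40) (nat_lit 5) (nat_lit 43) (nat_lit 5) (nat_lit 41) (nat_lit 5) (nat_lit 321) (nat_lit 268) (nat_lit 191))) (XT.nd (nat_lit 78) (nat_lit 228) (nat_lit 0) (XT.lf (nat_lit 0) (nat_lit 16488608993) (nat_lit 152) (nat_lit 11075653469) (nat_lit 228) (nat_lit 4865224031) (nat_lit 38) (nat_lit 5) (nat_lit 40) (nat_lit 5) (nat_lit 41) (nat_lit 5) (nat_lit 322) (nat_lit 268) (nat_lit 190)) (XT.lf (nat_lit 0)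 (nat_lit 4483122799) (nat_lit 228) (nat_lit 27742813110) (nat_lit 76) (nat_lit 1433481506) (nat_lit 35) (nat_lit 5) (nat_lit 38) (nat_lit 5) (nat_lit 36) (nat_lit 5) (nat_lit 323) (nat_lit 268) (nat_lit 189)))))) (XT.nd (nat_lit 546) (nat_lit 532) (nat_lit 0) (XT.nd (nat_lit 234) (nat_lit 380) (nat_lit 0) (XT.nd (nat_lit 78) (nat_lit 228) (nat_lit 0) (XT.lf (nat_lit 0) (nat_lit 14450374154) (nat_lit 228) (nat_lit 5954253256) (nat_lit 76) (nat_lit 14537218563) (nat_lit 35) (nat_lit 5) (nat_lit 38) (nat_lit 5) (nat_lit 36) (nat_lit 5) (nat_lit 324) (nat_lit 268) (nat_lit 188)) (XT.nd (nat_lit 78) (nat_lit 76) (nat_lit 0) (XT.lf (nat_lit 0) (nat_lit 17215976409) (nat_lit 152) (nat_lit 7840417289) (nat_lit 228) (nat_lit 11227799077) (nat_lit 33) (nat_lit 5) (nat_lit 35) (nat_lit 5) (nat_lit 36) (nat_lit 5) (nat_lit 325) (nat_lit 268) (nat_lit 187)) (XT.lf (nat_lit 0) (nat_lit 3959522643) (nat_lit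 76) (nat_lit 32360127393) (nat_lit 152) (nat_lit 1370207360) (nat_lit 32) (nat_lit 5) (nat_lit 33) (nat_lit 5) (nat_lit 34) (nat_lit 4) (nat_lit 326) (nat_lit 268) (nat_lit 186)))) (XT.nd (nat_lit 156) (nat_lit 152) (nat_lit 0) (XT.nd (nat_lit 78) (nat_lit 152) (nat_lit 0) (XT.lf (nat_lit 0) (nat_lit 9058443909) (nat_lit 152) (nat_lit 10832466535) (nat_lit 76) (nat_lit 19264710485) (nat_lit 31) (nat_lit 5) (nat_lit 33) (nat_lit 5) (nat_lit 32) (nat_lit 5) (nat_lit 327) (nat_lit 268) (nat_lit 185)) (XT.lf (nat_lit 0) (nat_lit 13418046584) (nat_lit 152) (nat_lit 6668577732) (nat_lit 228) (nat_lit 20604455826) (nat_lit 29) (nat_lit 5) (nat_lit 31) (nat_lit 5) (nat_lit 32) (nat_lit 5) (nat_lit 328) (nat_lit 268) (nat_lit 184))) (XT.nd (nat_lit 78) (nat_lit 152) (nat_lit 0) (XT.lf (nat_lit 0) (nat_lit 31825917931) (nat_lit 228) (nat_lit 3302578825) (nat_lit 76) (nat_lit 7170031611) (nat_lit 29)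 (nat_lit 5) (nat_lit 32) (nat_lit 5) (nat_lit 30) (nat_lit 4) (nat_lit 329) (nat_lit 268) (nat_lit 183)) (XT.lf (nat_lit 0) (nat_lit 424603677) (nat_lit 152) (nat_lit 21788270133) (nat_lit 76) (nat_lit 21765573636) (nat_lit 27) (nat_lit 5) (nat_lit 29) (nat_lit 5) (nat_lit 28) (nat_lit 5) (nat_lit 330) (nat_lit 268) (nat_lit 182))))) (XT.nd (nat_lit 234) (nat_lit 304) (nat_lit 0) (XT.nd (nat_lit 78) (nat_lit 76) (nat_lit 0) (XT.lf (nat_lit 0) (nat_lit 3204680309) (nat_lit 152) (nat_lit 8491804602) (nat_lit 228) (nat_lit 34041381327) (nat_lit 25) (nat_lit 5) (nat_lit 27) (nat_lit 5) (nat_lit 28) (nat_lit 5) (nat_lit 331) (nat_lit 268) (nat_lit 181)) (XT.nd (nat_lit 78) (nat_lit 76) (nat_lit 0) (XT.lf (nat_lit 0) (nat_lit 23795066895) (nat_lit 228) (nat_lit 17771473291) (nat_lit 76) (nat_lit 6010828602) (nat_lit 25) (nat_lit 5) (nat_lit 28) (nat_lit 5) (nat_lit 26) (nat_lit 4) (nat_lit 332)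 (nat_lit 268) (nat_lit 180)) (XT.lf (nat_lit 0) (nat_lit 8269261326) (nat_lit 76) (nat_lit 28375214084) (nat_lit 152) (nat_lit 12859999862) (nat_lit 24) (nat_lit 5) (nat_lit 25) (nat_lit 5) (nat_lit 26) (nat_lit 4) (nat_lit 333) (nat_lit 268) (nat_lit 179)))) (XT.nd (nat_lit 156) (nat_lit 76) (nat_lit 0) (XT.nd (nat_lit 78) (nat_lit 228) (nat_lit 0) (XT.lf (nat_lit 0) (nat_lit 35949682465) (nat_lit 76) (nat_lit 14350906886) (nat_lit 152) (nat_lit 1222426139) (nat_lit 24) (nat_lit 5) (nat_lit 25) (nat_lit 5) (nat_lit 26) (nat_lit 4) (nat_lit 334) (nat_lit 268) (nat_lit 178)) (XT.lf (nat_lit 0) (nat_lit 10880168107) (nat_lit 228) (nat_lit 42185130934) (nat_lit 76) (nat_lit 571085417) (nat_lit 21) (nat_lit 5) (nat_lit 24) (nat_lit 5) (nat_lit 22) (nat_lit 4) (nat_lit 335) (nat_lit 268) (nat_lit 177))) (XT.nd (nat_lit 78) (nat_lit 76) (nat_lit 0) (XT.lf (nat_lit 0) (nat_lit 23852014438) (nat_lit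 228) (nat_lit 15888819581) (nat_lit 76) (nat_lit 16105547445) (nat_lit 21) (nat_lit 5) (nat_lit 24) (nat_lit 5) (nat_lit 22) (nat_lit 4) (nat_lit 336) (nat_lit 268) (nat_lit 176)) (XT.lf (nat_lit 0) (nat_lit 11924579125) (nat_lit 76) (nat_lit 25645758249) (nat_lit 152) (nat_lit 20593608994) (nat_lit 20) (nat_lit 5) (nat_lit 21) (nat_lit 5) (nat_lit 22) (nat_lit 4) (nat_lit 337) (nat_lit 268) (nat_lit 175))))))))
noncomputable def xc65 : XT := (XT.nd (nat_lit 35412) (nat_lit 0) (nat_lit 6992) (XT.nd (nat_lit 1092) (nat_lit 304) (nat_lit 0) (XT.nd (nat_lit 546) (nat_lit 228) (nat_lit 0) (XT.nd (nat_lit 234) (nat_lit 228) (nat_lit 0) (XT.nd (nat_lit 78) (nat_lit 152) (nat_lit 0) (XT.lf (nat_lit 0) (nat_lit 41431129638) (nat_lit 76) (nat_lit 10690779350) (nat_lit 152) (nat_lit 8471064914) (nat_lit 20) (nat_lit 5) (nat_lit 21) (nat_lit 5) (nat_lit 22) (nat_lit 4) (nat_lit 338) (nat_lit 268) (nat_lit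 174)) (XT.nd (nat_lit 78) (nat_lit 0) (nat_lit 0) (XT.lf (nat_lit 0) (nat_lit 4298462485) (nat_lit 152) (nat_lit 53806070069) (nat_lit 76) (nat_lit 5033978368) (nat_lit 18) (nat_lit 5) (nat_lit 20) (nat_lit 5) (nat_lit 19) (nat_lit 4) (nat_lit 339) (nat_lit 268) (nat_lit 173)) (XT.lf (nat_lit 0) (nat_lit 17824756581) (nat_lit 152) (nat_lit 26376876386) (nat_lit 76) (nat_lit 21598374958) (nat_lit 18) (nat_lit 5) (nat_lit 20) (nat_lit 5) (nat_lit 19) (nat_lit 4) (nat_lit 340) (nat_lit 268) (nat_lit 172)))) (XT.nd (nat_lit 156) (nat_lit 152) (nat_lit 0) (XT.nd (nat_lit 78) (nat_lit 0) (nat_lit 0) (XT.lf (nat_lit 0) (nat_lit 2444839377) (nat_lit 76) (nat_lit 29591498196) (nat_lit 152) (nat_lit 36557976697) (nat_lit 17) (nat_lit 5) (nat_lit 18) (nat_lit 5) (nat_lit 19) (nat_lit 4) (nat_lit 341) (nat_lit 268) (nat_lit 171)) (XT.lf (nat_lit 0) (nat_lit 33232958622) (nat_lit 76) (nat_lit 13982979634)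 (nat_lit 152) (nat_lit 24304677938) (nat_lit 17) (nat_lit 5) (nat_lit 18) (nat_lit 5) (nat_lit 19) (nat_lit 4) (nat_lit 342) (nat_lit 268) (nat_lit 170))) (XT.nd (nat_lit 78) (nat_lit 152) (nat_lit 0) (XT.lf (nat_lit 0) (nat_lit 63164123331) (nat_lit 152) (nat_lit 9080823777) (nat_lit 0) (nat_lit 2348001293) (nat_lit 17) (nat_lit 5) (nat_lit 19) (nat_lit 4) (nat_lit 17) (nat_lit 4) (nat_lit 343) (nat_lit 268) (nat_lit 169)) (XT.lf (nat_lit 0) (nat_lit 2391635723) (nat_lit 152) (nat_lit 55984411421) (nat_lit 76) (nat_lit 19432001751) (nat_lit 15) (nat_lit 5) (nat_lit 17) (nat_lit 5) (nat_lit 16) (nat_lit 4) (nat_lit 344) (nat_lit 268) (nat_lit 168))))) (XT.nd (nat_lit 234) (nat_lit 152) (nat_lit 0) (XT.nd (nat_lit 78) (nat_lit 76) (nat_lit 0) (XT.lf (nat_lit 0) (nat_lit 16750741327) (nat_lit 152) (nat_lit 26857626952) (nat_lit 76) (nat_lit 37569624733) (nat_lit 15) (nat_lit 5) (nat_lit 17)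 (nat_lit 5) (nat_lit 16) (nat_lit 4) (nat_lit 345) (nat_lit 268) (nat_lit 167)) (XT.nd (nat_lit 78) (nat_lit 0) (nat_lit 0) (XT.lf (nat_lit 0) (nat_lit 3776978458) (nat_lit 76) (nat_lit 28075116652) (nat_lit 152) (nat_lit 52863613220) (nat_lit 14) (nat_lit 5) (nat_lit 15) (nat_lit 5) (nat_lit 16) (nat_lit 4) (nat_lit 346) (nat_lit 268) (nat_lit 166)) (XT.lf (nat_lit 0) (nat_lit 36482975768) (nat_lit 76) (nat_lit 11490367263) (nat_lit 152) (nat_lit 40449024237) (nat_lit 14) (nat_lit 5) (nat_lit 15) (nat_lit 5) (nat_lit 16) (nat_lit 4) (nat_lit 347) (nat_lit 268) (nat_lit 165)))) (XT.nd (nat_lit 156) (nat_lit 76) (nat_lit 0) (XT.nd (nat_lit 78) (nat_lit 76) (nat_lit 0) (XT.lf (nat_lit 0) (nat_lit 64946409451) (nat_lit 152) (nat_lit 21567828054) (nat_lit 0) (nat_lit 5798751489) (nat_lit 14) (nat_lit 5) (nat_lit 16) (nat_lit 4) (nat_lit 14) (nat_lit 4) (nat_lit 348) (nat_lit 268) (nat_lit 164))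 (XT.lf (nat_lit 0) (nat_lit 10389260504) (nat_lit 76) (nat_lit 72584058959) (nat_lit 76) (nat_lit 13418669037) (nat_lit 13) (nat_lit 4) (nat_lit 14) (nat_lit 5) (nat_lit 14) (nat_lit 4) (nat_lit 349) (nat_lit 268) (nat_lit 163))) (XT.nd (nat_lit 78) (nat_lit 0) (nat_lit 0) (XT.lf (nat_lit 0) (nat_lit 1416485946) (nat_lit 152) (nat_lit 56306811031) (nat_lit 76) (nat_lit 42944875939) (nat_lit 12) (nat_lit 5) (nat_lit 14) (nat_lit 5) (nat_lit 13) (nat_lit 4) (nat_lit 350) (nat_lit 268) (nat_lit 162)) (XT.lf (nat_lit 0) (nat_lit 16708521752) (nat_lit 152) (nat_lit 25280061755) (nat_lit 76) (nat_lit 63165820166) (nat_lit 12) (nat_lit 5) (nat_lit 14) (nat_lit 5) (nat_lit 13) (nat_lit 4) (nat_lit 351) (nat_lit 268) (nat_lit 161)))))) (XT.nd (nat_lit 546) (nat_lit 76) (nat_lit 0) (XT.nd (nat_lit 234) (nat_lit 152) (nat_lit 0) (XT.nd (nat_lit 78) (nat_lit 0) (nat_lit 0) (XT.lf (nat_lit 0) (nat_lit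 7425275364) (nat_lit 76) (nat_lit 25401795478) (nat_lit 152) (nat_lit 77036019797) (nat_lit 11) (nat_lit 5) (nat_lit 12) (nat_lit 5) (nat_lit 13) (nat_lit 4) (nat_lit 352) (nat_lit 268) (nat_lit 160)) (XT.nd (nat_lit 78) (nat_lit 0) (nat_lit 0) (XT.lf (nat_lit 0) (nat_lit 42277020538) (nat_lit 76) (nat_lit 7725583950) (nat_lit 152) (nat_lit 64797077670) (nat_lit 11) (nat_lit 5) (nat_lit 12) (nat_lit 5) (nat_lit 13) (nat_lit 4) (nat_lit 353) (nat_lit 268) (nat_lit 159)) (XT.lf (nat_lit 0) (nat_lit 68132247460) (nat_lit 152) (nat_lit 41232410403) (nat_lit 0) (nat_lit 10615587239) (nat_lit 11) (nat_lit 5) (nat_lit 13) (nat_lit 4) (nat_lit 11) (nat_lit 4) (nat_lit 354) (nat_lit 268) (nat_lit 158)))) (XT.nd (nat_lit 156) (nat_lit 76) (nat_lit 0) (XT.nd (nat_lit 78) (nat_lit 76) (nat_lit 0) (XT.lf (nat_lit 0) (nat_lit 87237953910) (nat_lit 152) (nat_lit 8471349363) (nat_lit 0) (nat_lit 29708447221)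 (nat_lit 11) (nat_lit 5) (nat_lit 13) (nat_lit 4) (nat_lit 11) (nat_lit 4) (nat_lit 355) (nat_lit 268) (nat_lit 157)) (XT.lf (nat_lit 0) (nat_lit 26428502338) (nat_lit 76) (nat_lit 81116495170) (nat_lit 76) (nat_lit 23574753751) (nat_lit 10) (nat_lit 4) (nat_lit 11) (nat_lit 5) (nat_lit 11) (nat_lit 4) (nat_lit 356) (nat_lit 268) (nat_lit 156))) (XT.nd (nat_lit 78) (nat_lit 76) (nat_lit 0) (XT.lf (nat_lit 0) (nat_lit 63235824579) (nat_lit 76) (nat_lit 65711019540) (nat_lit 76) (nat_lit 8157625996) (nat_lit 10) (nat_lit 4) (nat_lit 11) (nat_lit 5) (nat_lit 11) (nat_lit 4) (nat_lit 357) (nat_lit 268) (nat_lit 155)) (XT.lf (nat_lit 0) (nat_lit 7866197355) (nat_lit 152) (nat_lit 41596110172) (nat_lit 76) (nat_lit 93924026853) (nat_lit 9) (nat_lit 5) (nat_lit 11) (nat_lit 5) (nat_lit 10) (nat_lit 4) (nat_lit 358) (nat_lit 268) (nat_lit 154))))) (XT.nd (nat_lit 234) (nat_lit 0) (nat_lit 0) (XT.nd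 (nat_lit 78) (nat_lit 76) (nat_lit 0) (XT.lf (nat_lit 0) (nat_lit 24516963617) (nat_lit 152) (nat_lit 7805623482) (nat_lit 76) (nat_lit 117657449175) (nat_lit 9) (nat_lit 5) (nat_lit 11) (nat_lit 5) (nat_lit 10) (nat_lit 4) (nat_lit 359) (nat_lit 268) (nat_lit 153)) (XT.nd (nat_lit 78) (nat_lit 0) (nat_lit 0) (XT.lf (nat_lit 0) (nat_lit 28212205918) (nat_lit 76) (nat_lit 14052489198) (nat_lit 152) (nat_lit 114630796662) (nat_lit 8) (nat_lit 5) (nat_lit 9) (nat_lit 5) (nat_lit 10) (nat_lit 4) (nat_lit 360) (nat_lit 268) (nat_lit 152)) (XT.lf (nat_lit 0) (nat_lit 61023666159) (nat_lit 152) (nat_lit 98022868946) (nat_lit 0) (nat_lit 5106470624) (nat_lit 8) (nat_lit 5) (nat_lit 10) (nat_lit 4) (nat_lit 8) (nat_lit 4) (nat_lit 361) (nat_lit 268) (nat_lit 151)))) (XT.nd (nat_lit 33384) (nat_lit 0) (nat_lit 20064) (XT.nd (nat_lit 78) (nat_lit 0) (nat_lit 0) (XT.lf (nat_lit 0) (nat_lit 80856118070)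 (nat_lit 152) (nat_lit 65983153835) (nat_lit 0) (nat_lit 24930058705) (nat_lit 8) (nat_lit 5) (nat_lit 10) (nat_lit 4) (nat_lit 8) (nat_lit 4) (nat_lit 362) (nat_lit 268) (nat_lit 150)) (XT.lf (nat_lit 0) (nat_lit 101674189850) (nat_lit 152) (nat_lit 32352774368) (nat_lit 0) (nat_lit 45739688743) (nat_lit 8) (nat_lit 5) (nat_lit 10) (nat_lit 4) (nat_lit 8) (nat_lit 4) (nat_lit 363) (nat_lit 268) (nat_lit 149))) (XT.nd (nat_lit 78) (nat_lit 0) (nat_lit 0) (XT.lf (nat_lit 0) (nat_lit 2471636971) (nat_lit 836) (nat_lit 613091838) (nat_lit 836) (nat_lit 613091838) (nat_lit 272) (nat_lit 3) (nat_lit 283) (nat_lit 3) (nat_lit 283) (nat_lit 5) (nat_lit 269) (nat_lit 269) (nat_lit 242)) (XT.lf (nat_lit 76) (nat_lit 4577294905) (nat_lit 0) (nat_lit 2892787478) (nat_lit 836) (nat_lit 35274008) (nat_lit 273) (nat_lit 5) (nat_lit 272) (nat_lit 3) (nat_lit 283) (nat_lit 5) (nat_lit 270) (nat_lit 269)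 (nat_lit 241))))))) (XT.nd (nat_lit 1092) (nat_lit 6004) (nat_lit 0) (XT.nd (nat_lit 546) (nat_lit 4636) (nat_lit 0) (XT.nd (nat_lit 234) (nat_lit 1672) (nat_lit 0) (XT.nd (nat_lit 78) (nat_lit 0) (nat_lit 0) (XT.lf (nat_lit 0) (nat_lit 2348817204) (nat_lit 836) (nat_lit 4601333390) (nat_lit 912) (nat_lit 673026908) (nat_lit 262) (nat_lit 5) (nat_lit 273) (nat_lit 5) (nat_lit 274) (nat_lit 5) (nat_lit 271) (nat_lit 269) (nat_lit 240)) (XT.nd (nat_lit 78) (nat_lit 0) (nat_lit 76) (XT.lf (nat_lit 76) (nat_lit 1498301609) (nat_lit 0) (nat_lit 3280826822) (nat_lit 912) (nat_lit 2970100662) (nat_lit 263) (nat_lit 5) (nat_lit 262) (nat_lit 5) (nat_lit 274) (nat_lit 5) (nat_lit 272) (nat_lit 269) (nat_lit 239)) (XT.lf (nat_lit 76) (nat_lit 25434366) (nat_lit 0) (nat_lit 7219513412) (nat_lit 912) (nat_lit 639389281) (nat_lit 264) (nat_lit 5) (nat_lit 263) (nat_lit 5) (nat_lit 275) (nat_lit 5) (nat_lit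 273) (nat_lit 269) (nat_lit 238)))) (XT.nd (nat_lit 156) (nat_lit 836) (nat_lit 0) (XT.nd (nat_lit 78) (nat_lit 0) (nat_lit 76) (XT.lf (nat_lit 0) (nat_lit 1735432068) (nat_lit 912) (nat_lit 1417494058) (nat_lit 988) (nat_lit 4874027874) (nat_lit 251) (nat_lit 5) (nat_lit 263) (nat_lit 5) (nat_lit 264) (nat_lit 5) (nat_lit 274) (nat_lit 269) (nat_lit 237)) (XT.lf (nat_lit 0) (nat_lit 4150351588) (nat_lit 912) (nat_lit 2830724335) (nat_lit 988) (nat_lit 1197551378) (nat_lit 252) (nat_lit 5) (nat_lit 264) (nat_lit 5) (nat_lit 265) (nat_lit 5) (nat_lit 275) (nat_lit 269) (nat_lit 236))) (XT.nd (nat_lit 78) (nat_lit 912) (nat_lit 0) (XT.lf (nat_lit 76) (nat_lit 4105931093) (nat_lit 0) (nat_lit 2543057130) (nat_lit 988) (nat_lit 1690152479) (nat_lit 253) (nat_lit 5) (nat_lit 252) (nat_lit 5) (nat_lit 265) (nat_lit 5) (nat_lit 276) (nat_lit 269) (nat_lit 235)) (XT.lf (nat_lit 0) (nat_lit 709307432)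 (nat_lit 988) (nat_lit 5625964245) (nat_lit 1064) (nat_lit 2173541443) (nat_lit 240) (nat_lit 5) (nat_lit 253) (nat_lit 5) (nat_lit 254) (nat_lit 5) (nat_lit 277) (nat_lit 269) (nat_lit 234))))) (XT.nd (nat_lit 234) (nat_lit 3724) (nat_lit 0) (XT.nd (nat_lit 78) (nat_lit 912) (nat_lit 0) (XT.lf (nat_lit 76) (nat_lit 1659326732) (nat_lit 0) (nat_lit 1506281028) (nat_lit 1064) (nat_lit 5521832893) (nat_lit 241) (nat_lit 5) (nat_lit 240) (nat_lit 5) (nat_lit 254) (nat_lit 5) (nat_lit 278) (nat_lit 269) (nat_lit 233)) (XT.nd (nat_lit 78) (nat_lit 0) (nat_lit 0) (XT.lf (nat_lit 0) (nat_lit 438362914) (nat_lit 988) (nat_lit 5294048500) (nat_lit 1064) (nat_lit 3143079586) (nat_lit 228) (nat_lit 5) (nat_lit 241) (nat_lit 5) (nat_lit 242) (nat_lit 5) (nat_lit 279) (nat_lit 269) (nat_lit 232)) (XT.lf (nat_lit 0) (nat_lit 8323519670) (nat_lit 988) (nat_lit 86540690) (nat_lit 1064) (nat_lit 663524625)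 (nat_lit 228) (nat_lit 5) (nat_lit 241) (nat_lit 5) (nat_lit 242) (nat_lit 5) (nat_lit 280) (nat_lit 269) (nat_lit 231)))) (XT.nd (nat_lit 156) (nat_lit 1444) (nat_lit 0) (XT.nd (nat_lit 78) (nat_lit 1140) (nat_lit 0) (XT.lf (nat_lit 0) (nat_lit 1924700189) (nat_lit 1140) (nat_lit 1972475133) (nat_lit 76) (nat_lit 5383279942) (nat_lit 213) (nat_lit 5) (nat_lit 228) (nat_lit 5) (nat_lit 214) (nat_lit 5) (nat_lit 281) (nat_lit 269) (nat_lit 230)) (XT.lf (nat_lit 0) (nat_lit 4617819734) (nat_lit 1216) (nat_lit 3196868048) (nat_lit 76) (nat_lit 1683210394) (nat_lit 198) (nat_lit 5) (nat_lit 214) (nat_lit 5) (nat_lit 199) (nat_lit 5) (nat_lit 282) (nat_lit 269) (nat_lit 229))) (XT.nd (nat_lit 78) (nat_lit 684) (nat_lit 0) (XT.lf (nat_lit 0) (nat_lit 5282022749) (nat_lit 760) (nat_lit 2181281975) (nat_lit 836) (nat_lit 2262474741) (nat_lit 188) (nat_lit 5) (nat_lit 198) (nat_lit 5) (nat_lit 199)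 (nat_lit 5) (nat_lit 283) (nat_lit 269) (nat_lit 228)) (XT.lf (nat_lit 0) (nat_lit 497388792) (nat_lit 684) (nat_lit 5720842849) (nat_lit 76) (nat_lit 3746147286) (nat_lit 179) (nat_lit 5) (nat_lit 188) (nat_lit 5) (nat_lit 180) (nat_lit 5) (nat_lit 284) (nat_lit 269) (nat_lit 227)))))) (XT.nd (nat_lit 546) (nat_lit 2812) (nat_lit 0) (XT.nd (nat_lit 234) (nat_lit 1596) (nat_lit 0) (XT.nd (nat_lit 78) (nat_lit 1064) (nat_lit 0) (XT.lf (nat_lit 0) (nat_lit 3176113021) (nat_lit 532) (nat_lit 184815543) (nat_lit 608) (nat_lit 6853019415) (nat_lit 172) (nat_lit 5) (nat_lit 179) (nat_lit 5) (nat_lit 180) (nat_lit 5) (nat_lit 285) (nat_lit 269) (nat_lit 226)) (XT.nd (nat_lit 78) (nat_lit 532) (nat_lit 0) (XT.lf (nat_lit 0) (nat_lit 2058472025) (nat_lit 532) (nat_lit 4364191443) (nat_lit 608) (nat_lit 4051763255) (nat_lit 165) (nat_lit 5) (nat_lit 172) (nat_lit 5) (nat_lit 173) (nat_lit 5) (nat_lit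 286) (nat_lit 269) (nat_lit 225)) (XT.lf (nat_lit 0) (nat_lit 922172707) (nat_lit 532) (nat_lit 8737896183) (nat_lit 608) (nat_lit 1087260890) (nat_lit 158) (nat_lit 5) (nat_lit 165) (nat_lit 5) (nat_lit 166) (nat_lit 5) (nat_lit 287) (nat_lit 269) (nat_lit 224)))) (XT.nd (nat_lit 156) (nat_lit 988) (nat_lit 0) (XT.nd (nat_lit 78) (nat_lit 532) (nat_lit 0) (XT.lf (nat_lit 0) (nat_lit 2039456183) (nat_lit 608) (nat_lit 277006958) (nat_lit 76) (nat_lit 8715297356) (nat_lit 157) (nat_lit 5) (nat_lit 165) (nat_lit 5) (nat_lit 158) (nat_lit 5) (nat_lit 288) (nat_lit 269) (nat_lit 223)) (XT.lf (nat_lit 0) (nat_lit 5364131260) (nat_lit 608) (nat_lit 1523707384) (nat_lit 76) (nat_lit 4440396497) (nat_lit 150) (nat_lit 5) (nat_lit 158) (nat_lit 5) (nat_lit 151) (nat_lit 5) (nat_lit 289) (nat_lit 269) (nat_lit 222))) (XT.nd (nat_lit 78) (nat_lit 532) (nat_lit 0) (XT.lf (nat_lit 0) (nat_lit 8825029887)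 (nat_lit 456) (nat_lit 69514780) (nat_lit 532) (nat_lit 2743869037) (nat_lit 144) (nat_lit 5) (nat_lit 150) (nat_lit 5) (nat_lit 151) (nat_lit 5) (nat_lit 290) (nat_lit 269) (nat_lit 221)) (XT.lf (nat_lit 0) (nat_lit 715361693) (nat_lit 532) (nat_lit 4205896693) (nat_lit 76) (nat_lit 7040006754) (nat_lit 137) (nat_lit 5) (nat_lit 144) (nat_lit 5) (nat_lit 138) (nat_lit 5) (nat_lit 291) (nat_lit 269) (nat_lit 220))))) (XT.nd (nat_lit 312) (nat_lit 1140) (nat_lit 0) (XT.nd (nat_lit 156) (nat_lit 836) (nat_lit 0) (XT.nd (nat_lit 78) (nat_lit 456) (nat_lit 0) (XT.lf (nat_lit 0) (nat_lit 4340119577) (nat_lit 456) (nat_lit 5687322191) (nat_lit 76) (nat_lit 2270580504) (nat_lit 132) (nat_lit 5) (nat_lit 138) (nat_lit 5) (nat_lit 133) (nat_lit 5) (nat_lit 292) (nat_lit 269) (nat_lit 219)) (XT.lf (nat_lit 0) (nat_lit 5381912310) (nat_lit 456) (nat_lit 2844486951) (nat_lit 532) (nat_lit 4422864268)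 (nat_lit 126) (nat_lit 5) (nat_lit 132) (nat_lit 5) (nat_lit 133) (nat_lit 5) (nat_lit 293) (nat_lit 269) (nat_lit 218))) (XT.nd (nat_lit 78) (nat_lit 456) (nat_lit 0) (XT.lf (nat_lit 0) (nat_lit 4062439252) (nat_lit 380) (nat_lit 8325258724) (nat_lit 456) (nat_lit 627999899) (nat_lit 121) (nat_lit 5) (nat_lit 126) (nat_lit 5) (nat_lit 127) (nat_lit 5) (nat_lit 294) (nat_lit 269) (nat_lit 217)) (XT.lf (nat_lit 0) (nat_lit 2624611168) (nat_lit 380) (nat_lit 734965754) (nat_lit 456) (nat_lit 10037903225) (nat_lit 115) (nat_lit 5) (nat_lit 120) (nat_lit 5) (nat_lit 121) (nat_lit 5) (nat_lit 295) (nat_lit 269) (nat_lit 216)))) (XT.nd (nat_lit 156) (nat_lit 760) (nat_lit 0) (XT.nd (nat_lit 78) (nat_lit 0) (nat_lit 0) (XT.lf (nat_lit 0) (nat_lit 1039671286) (nat_lit 380) (nat_lit 6607618333) (nat_lit 456) (nat_lit 6147508977) (nat_lit 110) (nat_lit 5) (nat_lit 115) (nat_lit 5) (nat_lit 116) (nat_lit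 5) (nat_lit 296) (nat_lit 269) (nat_lit 215)) (XT.lf (nat_lit 0) (nat_lit 12223948681) (nat_lit 456) (nat_lit 637516898) (nat_lit 76) (nat_lit 1348324326) (nat_lit 110) (nat_lit 5) (nat_lit 116) (nat_lit 5) (nat_lit 111) (nat_lit 5) (nat_lit 297) (nat_lit 269) (nat_lit 214))) (XT.nd (nat_lit 78) (nat_lit 304) (nat_lit 0) (XT.lf (nat_lit 0) (nat_lit 2468097791) (nat_lit 456) (nat_lit 2481302625) (nat_lit 76) (nat_lit 9691562162) (nat_lit 104) (nat_lit 5) (nat_lit 110) (nat_lit 5) (nat_lit 105) (nat_lit 5) (nat_lit 298) (nat_lit 269) (nat_lit 213)) (XT.lf (nat_lit 0) (nat_lit 7193259334) (nat_lit 380) (nat_lit 4492427353) (nat_lit 76) (nat_lit 3404768003) (nat_lit 100) (nat_lit 5) (nat_lit 105) (nat_lit 5) (nat_lit 101) (nat_lit 5) (nat_lit 299) (nat_lit 269) (nat_lit 212))))))))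
noncomputable def xc66 : XT := (XT.nd (nat_lit 2184) (nat_lit 1596) (nat_lit 0) (XT.nd (nat_lit 1092) (nat_lit 1900) (nat_lit 0) (XT.nd (nat_lit 546) (nat_lit 1444) (nat_lit 0) (XT.nd (nat_lit 234) (nat_lit 836) (nat_lit 0) (XT.nd (nat_lit 78) (nat_lit 684) (nat_lit 0) (XT.lf (nat_lit 0) (nat_lit 8873642628) (nat_lit 304) (nat_lit 3390768058) (nat_lit 380) (nat_lit 3294755471) (nat_lit 96) (nat_lit 5) (nat_lit 100) (nat_lit 5) (nat_lit 101) (nat_lit 5) (nat_lit 300) (nat_lit 269) (nat_lit 211)) (XT.nd (nat_lit 78) (nat_lit 304) (nat_lit 0) (XT.lf (nat_lit 0) (nat_lit 1623977434) (nat_lit 380) (nat_lit 9097631441) (nat_lit 76) (nat_lit 5325809411) (nat_lit 91) (nat_lit 5) (nat_lit 96) (nat_lit 5) (nat_lit 92) (nat_lit 5) (nat_lit 301) (nat_lit 269) (nat_lit 210)) (XT.lf (nat_lit 0) (nat_lit 4805036152) (nat_lit 304) (nat_lit 2017503207) (nat_lit 380) (nat_lit 9733536352) (nat_lit 87) (nat_lit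 5) (nat_lit 91) (nat_lit 5) (nat_lit 92) (nat_lit 5) (nat_lit 302) (nat_lit 269) (nat_lit 209)))) (XT.nd (nat_lit 156) (nat_lit 532) (nat_lit 0) (XT.nd (nat_lit 78) (nat_lit 76) (nat_lit 0) (XT.lf (nat_lit 0) (nat_lit 2414952874) (nat_lit 228) (nat_lit 10005282721) (nat_lit 304) (nat_lit 4665785006) (nat_lit 84) (nat_lit 5) (nat_lit 87) (nat_lit 5) (nat_lit 88) (nat_lit 5) (nat_lit 303) (nat_lit 269) (nat_lit 208)) (XT.lf (nat_lit 0) (nat_lit 739169861) (nat_lit 304) (nat_lit 199249031) (nat_lit 76) (nat_lit 16700985186) (nat_lit 83) (nat_lit 5) (nat_lit 87) (nat_lit 5) (nat_lit 84) (nat_lit 5) (nat_lit 304) (nat_lit 269) (nat_lit 207))) (XT.nd (nat_lit 78) (nat_lit 228) (nat_lit 0) (XT.lf (nat_lit 0) (nat_lit 6505176330) (nat_lit 380) (nat_lit 3119060984) (nat_lit 76) (nat_lit 8589241659) (nat_lit 79) (nat_lit 5) (nat_lit 84) (nat_lit 5) (nat_lit 80) (nat_lit 5) (nat_lit 305) (nat_lit 269)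 (nat_lit 206)) (XT.lf (nat_lit 0) (nat_lit 12511982086) (nat_lit 228) (nat_lit 136871434) (nat_lit 304) (nat_lit 6164748795) (nat_lit 76) (nat_lit 5) (nat_lit 79) (nat_lit 5) (nat_lit 80) (nat_lit 5) (nat_lit 306) (nat_lit 269) (nat_lit 205))))) (XT.nd (nat_lit 234) (nat_lit 684) (nat_lit 0) (XT.nd (nat_lit 78) (nat_lit 532) (nat_lit 0) (XT.lf (nat_lit 0) (nat_lit 9576443144) (nat_lit 228) (nat_lit 9700980266) (nat_lit 304) (nat_lit 161001733) (nat_lit 73) (nat_lit 5) (nat_lit 76) (nat_lit 5) (nat_lit 77) (nat_lit 5) (nat_lit 307) (nat_lit 269) (nat_lit 204)) (XT.nd (nat_lit 78) (nat_lit 228) (nat_lit 0) (XT.lf (nat_lit 0) (nat_lit 6111845171) (nat_lit 304) (nat_lit 13804345694) (nat_lit 76) (nat_lit 173885996) (nat_lit 69) (nat_lit 5) (nat_lit 73) (nat_lit 5) (nat_lit 70) (nat_lit 5) (nat_lit 308) (nat_lit 269) (nat_lit 203)) (XT.lf (nat_lit 0) (nat_lit 2564241840) (nat_lit 228) (nat_lit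 10316767699) (nat_lit 304) (nat_lit 7887695306) (nat_lit 66) (nat_lit 5) (nat_lit 69) (nat_lit 5) (nat_lit 70) (nat_lit 5) (nat_lit 309) (nat_lit 269) (nat_lit 202)))) (XT.nd (nat_lit 156) (nat_lit 380) (nat_lit 0) (XT.nd (nat_lit 78) (nat_lit 304) (nat_lit 0) (XT.lf (nat_lit 0) (nat_lit 19980572634) (nat_lit 228) (nat_lit 112341989) (nat_lit 304) (nat_lit 1385241748) (nat_lit 66) (nat_lit 5) (nat_lit 69) (nat_lit 5) (nat_lit 70) (nat_lit 5) (nat_lit 310) (nat_lit 269) (nat_lit 201)) (XT.lf (nat_lit 0) (nat_lit 5559748621) (nat_lit 304) (nat_lit 6069332689) (nat_lit 76) (nat_lit 10585740368) (nat_lit 62) (nat_lit 5) (nat_lit 66) (nat_lit 5) (nat_lit 63) (nat_lit 5) (nat_lit 311) (nat_lit 269) (nat_lit 200))) (XT.nd (nat_lit 78) (nat_lit 152) (nat_lit 0) (XT.lf (nat_lit 0) (nat_lit 11874268431) (nat_lit 228) (nat_lit 1044792582) (nat_lit 304) (nat_lit 10065994293) (nat_lit 59) (nat_lit 5)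 (nat_lit 62) (nat_lit 5) (nat_lit 63) (nat_lit 5) (nat_lit 312) (nat_lit 269) (nat_lit 199)) (XT.lf (nat_lit 0) (nat_lit 7034254303) (nat_lit 152) (nat_lit 13805157926) (nat_lit 228) (nat_lit 2948613483) (nat_lit 57) (nat_lit 5) (nat_lit 59) (nat_lit 5) (nat_lit 60) (nat_lit 5) (nat_lit 313) (nat_lit 269) (nat_lit 198)))))) (XT.nd (nat_lit 546) (nat_lit 760) (nat_lit 0) (XT.nd (nat_lit 234) (nat_lit 684) (nat_lit 0) (XT.nd (nat_lit 78) (nat_lit 152) (nat_lit 0) (XT.lf (nat_lit 0) (nat_lit 1612662592) (nat_lit 228) (nat_lit 2931584014) (nat_lit 304) (nat_lit 20082372149) (nat_lit 53) (nat_lit 5) (nat_lit 56) (nat_lit 5) (nat_lit 57) (nat_lit 5) (nat_lit 314) (nat_lit 269) (nat_lit 197)) (XT.nd (nat_lit 78) (nat_lit 152) (nat_lit 0) (XT.lf (nat_lit 0) (nat_lit 12574318761) (nat_lit 304) (nat_lit 4421362770) (nat_lit 76) (nat_lit 8503892794) (nat_lit 53) (nat_lit 5) (nat_lit 57) (nat_lit 5)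 (nat_lit 54) (nat_lit 5) (nat_lit 315) (nat_lit 269) (nat_lit 196)) (XT.lf (nat_lit 0) (nat_lit 15318883377) (nat_lit 152) (nat_lit 5832656454) (nat_lit 228) (nat_lit 5260282987) (nat_lit 51) (nat_lit 5) (nat_lit 53) (nat_lit 5) (nat_lit 54) (nat_lit 5) (nat_lit 316) (nat_lit 269) (nat_lit 195)))) (XT.nd (nat_lit 156) (nat_lit 228) (nat_lit 0) (XT.nd (nat_lit 78) (nat_lit 152) (nat_lit 0) (XT.lf (nat_lit 0) (nat_lit 2892192859) (nat_lit 304) (nat_lit 18558348192) (nat_lit 76) (nat_lit 5913592391) (nat_lit 47) (nat_lit 5) (nat_lit 51) (nat_lit 5) (nat_lit 48) (nat_lit 5) (nat_lit 317) (nat_lit 269) (nat_lit 194)) (XT.lf (nat_lit 0) (nat_lit 1435817336) (nat_lit 152) (nat_lit 10066980438) (nat_lit 228) (nat_lit 16854933256) (nat_lit 45) (nat_lit 5) (nat_lit 47) (nat_lit 5) (nat_lit 48) (nat_lit 5) (nat_lit 318) (nat_lit 269) (nat_lit 193))) (XT.nd (nat_lit 78) (nat_lit 228) (nat_lit 0) (XT.lf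 (nat_lit 0) (nat_lit 20726045608) (nat_lit 228) (nat_lit 6646779852) (nat_lit 76) (nat_lit 2022731820) (nat_lit 45) (nat_lit 5) (nat_lit 48) (nat_lit 5) (nat_lit 46) (nat_lit 5) (nat_lit 319) (nat_lit 269) (nat_lit 192)) (XT.lf (nat_lit 0) (nat_lit 144905320) (nat_lit 228) (nat_lit 15697922073) (nat_lit 76) (nat_lit 14635932343) (nat_lit 42) (nat_lit 5) (nat_lit 45) (nat_lit 5) (nat_lit 43) (nat_lit 5) (nat_lit 320) (nat_lit 269) (nat_lit 191))))) (XT.nd (nat_lit 234) (nat_lit 456) (nat_lit 0) (XT.nd (nat_lit 78) (nat_lit 152) (nat_lit 0) (XT.lf (nat_lit 0) (nat_lit 5783472812) (nat_lit 152) (nat_lit 3536665581) (nat_lit 228) (nat_lit 22290437707) (nat_lit 40) (nat_lit 5) (nat_lit 42) (nat_lit 5) (nat_lit 43) (nat_lit 5) (nat_lit 321) (nat_lit 269) (nat_lit 190)) (XT.nd (nat_lit 78) (nat_lit 152) (nat_lit 0) (XT.lf (nat_lit 0) (nat_lit 19181253274) (nat_lit 228) (nat_lit 4264138705) (nat_lit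 76) (nat_lit 9346787901) (nat_lit 40) (nat_lit 5) (nat_lit 43) (nat_lit 5) (nat_lit 41) (nat_lit 5) (nat_lit 322) (nat_lit 269) (nat_lit 189)) (XT.lf (nat_lit 0) (nat_lit 18662431117) (nat_lit 152) (nat_lit 11063047197) (nat_lit 228) (nat_lit 4301693619) (nat_lit 38) (nat_lit 5) (nat_lit 40) (nat_lit 5) (nat_lit 41) (nat_lit 5) (nat_lit 323) (nat_lit 269) (nat_lit 188)))) (XT.nd (nat_lit 156) (nat_lit 228) (nat_lit 0) (XT.nd (nat_lit 78) (nat_lit 0) (nat_lit 0) (XT.lf (nat_lit 0) (nat_lit 5478791822) (nat_lit 228) (nat_lit 27785792657) (nat_lit 76) (nat_lit 2054382133) (nat_lit 35) (nat_lit 5) (nat_lit 38) (nat_lit 5) (nat_lit 36) (nat_lit 5) (nat_lit 324) (nat_lit 269) (nat_lit 187)) (XT.lf (nat_lit 0) (nat_lit 15907667036) (nat_lit 228) (nat_lit 4971812482) (nat_lit 76) (nat_lit 15787152398) (nat_lit 35) (nat_lit 5) (nat_lit 38) (nat_lit 5) (nat_lit 36) (nat_lit 5) (nat_lit 325) (nat_lit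 269) (nat_lit 186))) (XT.nd (nat_lit 78) (nat_lit 76) (nat_lit 0) (XT.lf (nat_lit 0) (nat_lit 19320233324) (nat_lit 152) (nat_lit 7700717866) (nat_lit 228) (nat_lit 11055848489) (nat_lit 33) (nat_lit 5) (nat_lit 35) (nat_lit 5) (nat_lit 36) (nat_lit 5) (nat_lit 326) (nat_lit 269) (nat_lit 185)) (XT.lf (nat_lit 0) (nat_lit 5381332182) (nat_lit 76) (nat_lit 33448777953) (nat_lit 152) (nat_lit 723167138) (nat_lit 32) (nat_lit 5) (nat_lit 33) (nat_lit 5) (nat_lit 34) (nat_lit 4) (nat_lit 327) (nat_lit 269) (nat_lit 184))))))) (XT.nd (nat_lit 1092) (nat_lit 532) (nat_lit 0) (XT.nd (nat_lit 546) (nat_lit 456) (nat_lit 0) (XT.nd (nat_lit 234) (nat_lit 380) (nat_lit 0) (XT.nd (nat_lit 78) (nat_lit 152) (nat_lit 0) (XT.lf (nat_lit 0) (nat_lit 10179544792) (nat_lit 152) (nat_lit 10195015489) (nat_lit 76) (nat_lit 20718575653) (nat_lit 31) (nat_lit 5) (nat_lit 33) (nat_lit 5) (nat_lit 32) (nat_lit 5)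 (nat_lit 328) (nat_lit 269) (nat_lit 183)) (XT.nd (nat_lit 78) (nat_lit 0) (nat_lit 0) (XT.lf (nat_lit 0) (nat_lit 15234225356) (nat_lit 152) (nat_lit 6504099929) (nat_lit 228) (nat_lit 20967677600) (nat_lit 29) (nat_lit 5) (nat_lit 31) (nat_lit 5) (nat_lit 32) (nat_lit 5) (nat_lit 329) (nat_lit 269) (nat_lit 182)) (XT.lf (nat_lit 0) (nat_lit 34038314719) (nat_lit 228) (nat_lit 2362830124) (nat_lit 76) (nat_lit 7993476751) (nat_lit 29) (nat_lit 5) (nat_lit 32) (nat_lit 5) (nat_lit 30) (nat_lit 4) (nat_lit 330) (nat_lit 269) (nat_lit 181)))) (XT.nd (nat_lit 156) (nat_lit 76) (nat_lit 0) (XT.nd (nat_lit 78) (nat_lit 152) (nat_lit 0) (XT.lf (nat_lit 0) (nat_lit 1053820572) (nat_lit 152) (nat_lit 21792191885) (nat_lit 76) (nat_lit 23312932679) (nat_lit 27) (nat_lit 5) (nat_lit 29) (nat_lit 5) (nat_lit 28) (nat_lit 5) (nat_lit 331) (nat_lit 269) (nat_lit 180)) (XT.lf (nat_lit 0) (nat_lit 4419290676)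 (nat_lit 152) (nat_lit 8451188754) (nat_lit 228) (nat_lit 35136428745) (nat_lit 25) (nat_lit 5) (nat_lit 27) (nat_lit 5) (nat_lit 28) (nat_lit 5) (nat_lit 332) (nat_lit 269) (nat_lit 179))) (XT.nd (nat_lit 78) (nat_lit 76) (nat_lit 0) (XT.lf (nat_lit 0) (nat_lit 25550193686) (nat_lit 228) (nat_lit 17643136593) (nat_lit 76) (nat_lit 6745777872) (nat_lit 25) (nat_lit 5) (nat_lit 28) (nat_lit 5) (nat_lit 26) (nat_lit 4) (nat_lit 333) (nat_lit 269) (nat_lit 178)) (XT.lf (nat_lit 0) (nat_lit 9670485223) (nat_lit 76) (nat_lit 29354159820) (nat_lit 152) (nat_lit 12938455738) (nat_lit 24) (nat_lit 5) (nat_lit 25) (nat_lit 5) (nat_lit 26) (nat_lit 4) (nat_lit 334) (nat_lit 269) (nat_lit 177))))) (XT.nd (nat_lit 234) (nat_lit 228) (nat_lit 0) (XT.nd (nat_lit 78) (nat_lit 228) (nat_lit 0) (XT.lf (nat_lit 0) (nat_lit 38687891189) (nat_lit 76) (nat_lit 14649580832) (nat_lit 152) (nat_lit 745886381) (nat_lit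 24) (nat_lit 5) (nat_lit 25) (nat_lit 5) (nat_lit 26) (nat_lit 4) (nat_lit 335) (nat_lit 269) (nat_lit 176)) (XT.nd (nat_lit 78) (nat_lit 0) (nat_lit 0) (XT.lf (nat_lit 0) (nat_lit 11939096919) (nat_lit 228) (nat_lit 43358796142) (nat_lit 76) (nat_lit 1004722216) (nat_lit 21) (nat_lit 5) (nat_lit 24) (nat_lit 5) (nat_lit 22) (nat_lit 4) (nat_lit 336) (nat_lit 269) (nat_lit 175)) (XT.lf (nat_lit 0) (nat_lit 25535015547) (nat_lit 228) (nat_lit 15792221190) (nat_lit 76) (nat_lit 17296617701) (nat_lit 21) (nat_lit 5) (nat_lit 24) (nat_lit 5) (nat_lit 22) (nat_lit 4) (nat_lit 337) (nat_lit 269) (nat_lit 174)))) (XT.nd (nat_lit 156) (nat_lit 152) (nat_lit 0) (XT.nd (nat_lit 78) (nat_lit 0) (nat_lit 0) (XT.lf (nat_lit 0) (nat_lit 13386305987) (nat_lit 76) (nat_lit 26537915939) (nat_lit 152) (nat_lit 21133533027) (nat_lit 20) (nat_lit 5) (nat_lit 21) (nat_lit 5) (nat_lit 22) (nat_lit 4) (nat_lit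 338) (nat_lit 269) (nat_lit 173)) (XT.lf (nat_lit 0) (nat_lit 44326969839) (nat_lit 76) (nat_lit 10853765725) (nat_lit 152) (nat_lit 8428183478) (nat_lit 20) (nat_lit 5) (nat_lit 21) (nat_lit 5) (nat_lit 22) (nat_lit 4) (nat_lit 339) (nat_lit 269) (nat_lit 172))) (XT.nd (nat_lit 78) (nat_lit 0) (nat_lit 0) (XT.lf (nat_lit 0) (nat_lit 4960244043) (nat_lit 152) (nat_lit 55676870432) (nat_lit 76) (nat_lit 5644803784) (nat_lit 18) (nat_lit 5) (nat_lit 20) (nat_lit 5) (nat_lit 19) (nat_lit 4) (nat_lit 340) (nat_lit 269) (nat_lit 171)) (XT.lf (nat_lit 0) (nat_lit 19141573871) (nat_lit 152) (nat_lit 26915241024) (nat_lit 76) (nat_lit 23020318942) (nat_lit 18) (nat_lit 5) (nat_lit 20) (nat_lit 5) (nat_lit 19) (nat_lit 4) (nat_lit 341) (nat_lit 269) (nat_lit 170)))))) (XT.nd (nat_lit 546) (nat_lit 228) (nat_lit 0) (XT.nd (nat_lit 234) (nat_lit 228) (nat_lit 0) (XT.nd (nat_lit 78) (nat_lit 0) (nat_lit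 0) (XT.lf (nat_lit 0) (nat_lit 3325188248) (nat_lit 76) (nat_lit 30725567363) (nat_lit 152) (nat_lit 37960794337) (nat_lit 17) (nat_lit 5) (nat_lit 18) (nat_lit 5) (nat_lit 19) (nat_lit 4) (nat_lit 342) (nat_lit 269) (nat_lit 169)) (XT.nd (nat_lit 78) (nat_lit 0) (nat_lit 0) (XT.lf (nat_lit 0) (nat_lit 35616613127) (nat_lit 76) (nat_lit 14353075528) (nat_lit 152) (nat_lit 25115072602) (nat_lit 17) (nat_lit 5) (nat_lit 18) (nat_lit 5) (nat_lit 19) (nat_lit 4) (nat_lit 343) (nat_lit 269) (nat_lit 168)) (XT.lf (nat_lit 0) (nat_lit 66699583350) (nat_lit 152) (nat_lit 8838932335) (nat_lit 0) (nat_lit 2772670003) (nat_lit 17) (nat_lit 5) (nat_lit 19) (nat_lit 4) (nat_lit 17) (nat_lit 4) (nat_lit 344) (nat_lit 269) (nat_lit 167)))) (XT.nd (nat_lit 156) (nat_lit 76) (nat_lit 0) (XT.nd (nat_lit 78) (nat_lit 0) (nat_lit 0) (XT.lf (nat_lit 0) (nat_lit 2880712913) (nat_lit 152) (nat_lit 58100208902)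 (nat_lit 76) (nat_lit 20706359118) (nat_lit 15) (nat_lit 5) (nat_lit 17) (nat_lit 5) (nat_lit 16) (nat_lit 4) (nat_lit 345) (nat_lit 269) (nat_lit 166)) (XT.lf (nat_lit 0) (nat_lit 17940178778) (nat_lit 152) (nat_lit 27549629166) (nat_lit 76) (nat_lit 39736446236) (nat_lit 15) (nat_lit 5) (nat_lit 17) (nat_lit 5) (nat_lit 16) (nat_lit 4) (nat_lit 346) (nat_lit 269) (nat_lit 165))) (XT.nd (nat_lit 78) (nat_lit 0) (nat_lit 0) (XT.lf (nat_lit 0) (nat_lit 4598049195) (nat_lit 76) (nat_lit 29187871196) (nat_lit 152) (nat_lit 55155259147) (nat_lit 14) (nat_lit 5) (nat_lit 15) (nat_lit 5) (nat_lit 16) (nat_lit 4) (nat_lit 347) (nat_lit 269) (nat_lit 164)) (XT.lf (nat_lit 0) (nat_lit 38909240570) (nat_lit 76) (nat_lit 11787741542) (nat_lit 152) (nat_lit 42136680464) (nat_lit 14) (nat_lit 5) (nat_lit 15) (nat_lit 5) (nat_lit 16) (nat_lit 4) (nat_lit 348) (nat_lit 269) (nat_lit 163))))) (XT.nd (nat_lit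 312) (nat_lit 76) (nat_lit 0) (XT.nd (nat_lit 156) (nat_lit 76) (nat_lit 0) (XT.nd (nat_lit 78) (nat_lit 76) (nat_lit 0) (XT.lf (nat_lit 0) (nat_lit 68505764217) (nat_lit 152) (nat_lit 22065957561) (nat_lit 0) (nat_lit 6347485258) (nat_lit 14) (nat_lit 5) (nat_lit 16) (nat_lit 4) (nat_lit 14) (nat_lit 4) (nat_lit 349) (nat_lit 269) (nat_lit 162)) (XT.lf (nat_lit 0) (nat_lit 11472352334) (nat_lit 76) (nat_lit 75952226564) (nat_lit 76) (nat_lit 13777864195) (nat_lit 13) (nat_lit 4) (nat_lit 14) (nat_lit 5) (nat_lit 14) (nat_lit 4) (nat_lit 350) (nat_lit 269) (nat_lit 161))) (XT.nd (nat_lit 78) (nat_lit 0) (nat_lit 0) (XT.lf (nat_lit 0) (nat_lit 1778410392) (nat_lit 152) (nat_lit 58579506804) (nat_lit 76) (nat_lit 45334869384) (nat_lit 12) (nat_lit 5) (nat_lit 14) (nat_lit 5) (nat_lit 13) (nat_lit 4) (nat_lit 351) (nat_lit 269) (nat_lit 160)) (XT.lf (nat_lit 0) (nat_lit 17821186076) (nat_lit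 152) (nat_lit 26027260293) (nat_lit 76) (nat_lit 66555301315) (nat_lit 12) (nat_lit 5) (nat_lit 14) (nat_lit 5) (nat_lit 13) (nat_lit 4) (nat_lit 352) (nat_lit 269) (nat_lit 159)))) (XT.nd (nat_lit 156) (nat_lit 0) (nat_lit 0) (XT.nd (nat_lit 78) (nat_lit 0) (nat_lit 0) (XT.lf (nat_lit 0) (nat_lit 8298529584) (nat_lit 76) (nat_lit 26438756656) (nat_lit 152) (nat_lit 80610836861) (nat_lit 11) (nat_lit 5) (nat_lit 12) (nat_lit 5) (nat_lit 13) (nat_lit 4) (nat_lit 353) (nat_lit 269) (nat_lit 158)) (XT.lf (nat_lit 0) (nat_lit 44868957710) (nat_lit 76) (nat_lit 7889835913) (nat_lit 152) (nat_lit 67773137339) (nat_lit 11) (nat_lit 5) (nat_lit 12) (nat_lit 5) (nat_lit 13) (nat_lit 4) (nat_lit 354) (nat_lit 269) (nat_lit 157))) (XT.nd (nat_lit 78) (nat_lit 0) (nat_lit 0) (XT.lf (nat_lit 0) (nat_lit 71784758092) (nat_lit 152) (nat_lit 42833376459) (nat_lit 0) (nat_lit 11353694870) (nat_lit 11) (nat_lit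 5) (nat_lit 13) (nat_lit 4) (nat_lit 11) (nat_lit 4) (nat_lit 355) (nat_lit 269) (nat_lit 156)) (XT.lf (nat_lit 0) (nat_lit 91834040423) (nat_lit 152) (nat_lit 8456198293) (nat_lit 0) (nat_lit 31391325077) (nat_lit 11) (nat_lit 5) (nat_lit 13) (nat_lit 4) (nat_lit 11) (nat_lit 4) (nat_lit 356) (nat_lit 269) (nat_lit 155))))))))
noncomputable def xc67 : XT := (XT.nd (nat_lit 35490) (nat_lit 0) (nat_lit 2812) (XT.nd (nat_lit 34398) (nat_lit 0) (nat_lit 10336) (XT.nd (nat_lit 33852) (nat_lit 0) (nat_lit 18392) (XT.nd (nat_lit 234) (nat_lit 76) (nat_lit 0) (XT.nd (nat_lit 78) (nat_lit 76) (nat_lit 0) (XT.lf (nat_lit 0) (nat_lit 28176070213) (nat_lit 76) (nat_lit 84973310484) (nat_lit 76) (nat_lit 24519497877) (nat_lit 10) (nat_lit 4) (nat_lit 11) (nat_lit 5) (nat_lit 11) (nat_lit 4) (nat_lit 357) (nat_lit 269) (nat_lit 154)) (XT.nd (nat_lit 78) (nat_lit 76) (nat_lit 0) (XT.lf (nat_lit 0) (nat_lit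 66803466054) (nat_lit 76) (nat_lit 68807037713) (nat_lit 76) (nat_lit 8342656285) (nat_lit 10) (nat_lit 4) (nat_lit 11) (nat_lit 5) (nat_lit 11) (nat_lit 4) (nat_lit 358) (nat_lit 269) (nat_lit 153)) (XT.lf (nat_lit 0) (nat_lit 8467604733) (nat_lit 152) (nat_lit 43285209362) (nat_lit 76) (nat_lit 98796553354) (nat_lit 9) (nat_lit 5) (nat_lit 11) (nat_lit 5) (nat_lit 10) (nat_lit 4) (nat_lit 359) (nat_lit 269) (nat_lit 152)))) (XT.nd (nat_lit 156) (nat_lit 0) (nat_lit 0) (XT.nd (nat_lit 78) (nat_lit 76) (nat_lit 0) (XT.lf (nat_lit 0) (nat_lit 25940999902) (nat_lit 152) (nat_lit 7823803400) (nat_lit 76) (nat_lit 123708250356) (nat_lit 9) (nat_lit 5) (nat_lit 11) (nat_lit 5) (nat_lit 10) (nat_lit 4) (nat_lit 360) (nat_lit 269) (nat_lit 151)) (XT.lf (nat_lit 0) (nat_lit 29984251262) (nat_lit 76) (nat_lit 14585903520) (nat_lit 152) (nat_lit 120164307897) (nat_lit 8) (nat_lit 5) (nat_lit 9) (nat_lit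 5) (nat_lit 10) (nat_lit 4) (nat_lit 361) (nat_lit 269) (nat_lit 150))) (XT.nd (nat_lit 78) (nat_lit 0) (nat_lit 0) (XT.lf (nat_lit 0) (nat_lit 64259469907) (nat_lit 152) (nat_lit 102575810313) (nat_lit 0) (nat_lit 5519802002) (nat_lit 8) (nat_lit 5) (nat_lit 10) (nat_lit 4) (nat_lit 8) (nat_lit 4) (nat_lit 362) (nat_lit 269) (nat_lit 149)) (XT.lf (nat_lit 0) (nat_lit 85074752964) (nat_lit 152) (nat_lit 68950690498) (nat_lit 0) (nat_lit 26327045304) (nat_lit 8) (nat_lit 5) (nat_lit 10) (nat_lit 4) (nat_lit 8) (nat_lit 4) (nat_lit 363) (nat_lit 269) (nat_lit 148))))) (XT.nd (nat_lit 234) (nat_lit 836) (nat_lit 0) (XT.nd (nat_lit 78) (nat_lit 0) (nat_lit 0) (XT.lf (nat_lit 0) (nat_lit 548371913) (nat_lit 0) (nat_lit 548371913) (nat_lit 836) (nat_lit 2712622964) (nat_lit 261) (nat_lit 5) (nat_lit 261) (nat_lit 3) (nat_lit 272) (nat_lit 3) (nat_lit 270) (nat_lit 270) (nat_lit 240)) (XT.nd (nat_lit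 78) (nat_lit 0) (nat_lit 0) (XT.lf (nat_lit 0) (nat_lit 4459333613) (nat_lit 836) (nat_lit 652590401) (nat_lit 912) (nat_lit 2628236116) (nat_lit 261) (nat_lit 5) (nat_lit 272) (nat_lit 3) (nat_lit 273) (nat_lit 5) (nat_lit 271) (nat_lit 270) (nat_lit 239)) (XT.lf (nat_lit 76) (nat_lit 5532178183) (nat_lit 0) (nat_lit 1231331622) (nat_lit 912) (nat_lit 1106570636) (nat_lit 262) (nat_lit 5) (nat_lit 261) (nat_lit 5) (nat_lit 273) (nat_lit 5) (nat_lit 272) (nat_lit 270) (nat_lit 238)))) (XT.nd (nat_lit 156) (nat_lit 0) (nat_lit 76) (XT.nd (nat_lit 78) (nat_lit 0) (nat_lit 0) (XT.lf (nat_lit 0) (nat_lit 1092615996) (nat_lit 912) (nat_lit 4012440175) (nat_lit 988) (nat_lit 2903086628) (nat_lit 250) (nat_lit 5) (nat_lit 262) (nat_lit 5) (nat_lit 263) (nat_lit 5) (nat_lit 273) (nat_lit 270) (nat_lit 237)) (XT.lf (nat_lit 76) (nat_lit 2489127299) (nat_lit 0) (nat_lit 822103312) (nat_lit 988) (nat_lit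 4843731203) (nat_lit 251) (nat_lit 5) (nat_lit 250) (nat_lit 5) (nat_lit 263) (nat_lit 5) (nat_lit 274) (nat_lit 270) (nat_lit 236))) (XT.nd (nat_lit 78) (nat_lit 0) (nat_lit 76) (XT.lf (nat_lit 76) (nat_lit 995303053) (nat_lit 0) (nat_lit 4609407289) (nat_lit 988) (nat_lit 2705638976) (nat_lit 252) (nat_lit 5) (nat_lit 251) (nat_lit 5) (nat_lit 264) (nat_lit 5) (nat_lit 275) (nat_lit 270) (nat_lit 235)) (XT.lf (nat_lit 0) (nat_lit 7962400406) (nat_lit 912) (nat_lit 454142331) (nat_lit 988) (nat_lit 58616009) (nat_lit 252) (nat_lit 5) (nat_lit 264) (nat_lit 5) (nat_lit 265) (nat_lit 5) (nat_lit 276) (nat_lit 270) (nat_lit 234)))))) (XT.nd (nat_lit 546) (nat_lit 4104) (nat_lit 0) (XT.nd (nat_lit 234) (nat_lit 3116) (nat_lit 0) (XT.nd (nat_lit 78) (nat_lit 0) (nat_lit 76) (XT.lf (nat_lit 0) (nat_lit 1754572104) (nat_lit 988) (nat_lit 1908382012) (nat_lit 1064) (nat_lit 4984874672) (nat_lit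 239) (nat_lit 5) (nat_lit 252) (nat_lit 5) (nat_lit 253) (nat_lit 5) (nat_lit 277) (nat_lit 270) (nat_lit 233)) (XT.nd (nat_lit 78) (nat_lit 0) (nat_lit 0) (XT.lf (nat_lit 0) (nat_lit 4087794782) (nat_lit 988) (nat_lit 3347051343) (nat_lit 1064) (nat_lit 1395362081) (nat_lit 240) (nat_lit 5) (nat_lit 253) (nat_lit 5) (nat_lit 254) (nat_lit 5) (nat_lit 278) (nat_lit 270) (nat_lit 232)) (XT.lf (nat_lit 76) (nat_lit 4229116245) (nat_lit 0) (nat_lit 2302507223) (nat_lit 1064) (nat_lit 2490381052) (nat_lit 241) (nat_lit 5) (nat_lit 240) (nat_lit 5) (nat_lit 254) (nat_lit 5) (nat_lit 279) (nat_lit 270) (nat_lit 231)))) (XT.nd (nat_lit 156) (nat_lit 1140) (nat_lit 0) (XT.nd (nat_lit 78) (nat_lit 1140) (nat_lit 0) (XT.lf (nat_lit 0) (nat_lit 2979498339) (nat_lit 988) (nat_lit 6112136068) (nat_lit 1064) (nat_lit 132047257) (nat_lit 228) (nat_lit 5) (nat_lit 241) (nat_lit 5) (nat_lit 242) (nat_lit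 5) (nat_lit 280) (nat_lit 270) (nat_lit 230)) (XT.lf (nat_lit 0) (nat_lit 1713854503) (nat_lit 1064) (nat_lit 577955907) (nat_lit 1140) (nat_lit 7143258096) (nat_lit 213) (nat_lit 5) (nat_lit 227) (nat_lit 5) (nat_lit 228) (nat_lit 5) (nat_lit 281) (nat_lit 270) (nat_lit 229))) (XT.nd (nat_lit 78) (nat_lit 0) (nat_lit 0) (XT.lf (nat_lit 0) (nat_lit 420373867) (nat_lit 1140) (nat_lit 4440822835) (nat_lit 1216) (nat_lit 4795074282) (nat_lit 198) (nat_lit 5) (nat_lit 213) (nat_lit 5) (nat_lit 214) (nat_lit 5) (nat_lit 282) (nat_lit 270) (nat_lit 228)) (XT.lf (nat_lit 0) (nat_lit 7570058019) (nat_lit 1216) (nat_lit 857035631) (nat_lit 76) (nat_lit 1461202636) (nat_lit 198) (nat_lit 5) (nat_lit 214) (nat_lit 5) (nat_lit 199) (nat_lit 5) (nat_lit 283) (nat_lit 270) (nat_lit 227))))) (XT.nd (nat_lit 234) (nat_lit 2128) (nat_lit 0) (XT.nd (nat_lit 78) (nat_lit 1140) (nat_lit 0) (XT.lf (nat_lit 0)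 (nat_lit 314416326) (nat_lit 836) (nat_lit 2159830621) (nat_lit 76) (nat_lit 7656555685) (nat_lit 187) (nat_lit 5) (nat_lit 198) (nat_lit 5) (nat_lit 188) (nat_lit 5) (nat_lit 284) (nat_lit 270) (nat_lit 226)) (XT.nd (nat_lit 78) (nat_lit 532) (nat_lit 0) (XT.lf (nat_lit 0) (nat_lit 3061975910) (nat_lit 684) (nat_lit 3514806699) (nat_lit 76) (nat_lit 3807108374) (nat_lit 179) (nat_lit 5) (nat_lit 188) (nat_lit 5) (nat_lit 180) (nat_lit 5) (nat_lit 285) (nat_lit 270) (nat_lit 225)) (XT.lf (nat_lit 0) (nat_lit 5755562040) (nat_lit 532) (nat_lit 215460399) (nat_lit 608) (nat_lit 4677965935) (nat_lit 172) (nat_lit 5) (nat_lit 179) (nat_lit 5) (nat_lit 180) (nat_lit 5) (nat_lit 286) (nat_lit 270) (nat_lit 224)))) (XT.nd (nat_lit 156) (nat_lit 988) (nat_lit 0) (XT.nd (nat_lit 78) (nat_lit 608) (nat_lit 0) (XT.lf (nat_lit 0) (nat_lit 4586339900) (nat_lit 532) (nat_lit 4506330310) (nat_lit 608) (nat_lit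 1832730136) (nat_lit 165) (nat_lit 5) (nat_lit 172) (nat_lit 5) (nat_lit 173) (nat_lit 5) (nat_lit 287) (nat_lit 270) (nat_lit 223)) (XT.lf (nat_lit 0) (nat_lit 1166203345) (nat_lit 608) (nat_lit 7832458567) (nat_lit 76) (nat_lit 2215687499) (nat_lit 157) (nat_lit 5) (nat_lit 165) (nat_lit 5) (nat_lit 158) (nat_lit 5) (nat_lit 288) (nat_lit 270) (nat_lit 222))) (XT.nd (nat_lit 78) (nat_lit 456) (nat_lit 0) (XT.lf (nat_lit 0) (nat_lit 2105448892) (nat_lit 532) (nat_lit 2232933330) (nat_lit 608) (nat_lit 7177048585) (nat_lit 150) (nat_lit 5) (nat_lit 157) (nat_lit 5) (nat_lit 158) (nat_lit 5) (nat_lit 289) (nat_lit 270) (nat_lit 221)) (XT.lf (nat_lit 0) (nat_lit 765670672) (nat_lit 456) (nat_lit 6970931348) (nat_lit 532) (nat_lit 4093003506) (nat_lit 144) (nat_lit 5) (nat_lit 150) (nat_lit 5) (nat_lit 151) (nat_lit 5) (nat_lit 290) (nat_lit 270) (nat_lit 220))))))) (XT.nd (nat_lit 1092) (nat_lit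 2964) (nat_lit 0) (XT.nd (nat_lit 546) (nat_lit 1976) (nat_lit 0) (XT.nd (nat_lit 234) (nat_lit 1672) (nat_lit 0) (XT.nd (nat_lit 78) (nat_lit 912) (nat_lit 0) (XT.lf (nat_lit 0) (nat_lit 11360109783) (nat_lit 532) (nat_lit 610256816) (nat_lit 76) (nat_lit 187520323) (nat_lit 144) (nat_lit 5) (nat_lit 151) (nat_lit 5) (nat_lit 145) (nat_lit 5) (nat_lit 291) (nat_lit 270) (nat_lit 219)) (XT.nd (nat_lit 78) (nat_lit 380) (nat_lit 0) (XT.lf (nat_lit 0) (nat_lit 2719263569) (nat_lit 532) (nat_lit 2099406576) (nat_lit 76) (nat_lit 7679929236) (nat_lit 137) (nat_lit 5) (nat_lit 144) (nat_lit 5) (nat_lit 138) (nat_lit 5) (nat_lit 292) (nat_lit 270) (nat_lit 218)) (XT.lf (nat_lit 0) (nat_lit 6456576703) (nat_lit 456) (nat_lit 3666233441) (nat_lit 76) (nat_lit 2731524944) (nat_lit 132) (nat_lit 5) (nat_lit 138) (nat_lit 5) (nat_lit 133) (nat_lit 5) (nat_lit 293) (nat_lit 270) (nat_lit 217)))) (XT.nd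 (nat_lit 156) (nat_lit 760) (nat_lit 0) (XT.nd (nat_lit 78) (nat_lit 456) (nat_lit 0) (XT.lf (nat_lit 0) (nat_lit 7890377385) (nat_lit 456) (nat_lit 2577869121) (nat_lit 532) (nat_lit 2757036035) (nat_lit 126) (nat_lit 5) (nat_lit 132) (nat_lit 5) (nat_lit 133) (nat_lit 5) (nat_lit 294) (nat_lit 270) (nat_lit 216)) (XT.lf (nat_lit 0) (nat_lit 1140906140) (nat_lit 456) (nat_lit 7131409089) (nat_lit 76) (nat_lit 5339321360) (nat_lit 120) (nat_lit 5) (nat_lit 126) (nat_lit 5) (nat_lit 121) (nat_lit 5) (nat_lit 295) (nat_lit 270) (nat_lit 215))) (XT.nd (nat_lit 78) (nat_lit 380) (nat_lit 0) (XT.lf (nat_lit 0) (nat_lit 4954142211) (nat_lit 380) (nat_lit 296867603) (nat_lit 456) (nat_lit 8763294841) (nat_lit 115) (nat_lit 5) (nat_lit 120) (nat_lit 5) (nat_lit 121) (nat_lit 5) (nat_lit 296) (nat_lit 270) (nat_lit 214)) (XT.lf (nat_lit 0) (nat_lit 3274036667) (nat_lit 380) (nat_lit 6422327785) (nat_lit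 456) (nat_lit 4736890975) (nat_lit 110) (nat_lit 5) (nat_lit 115) (nat_lit 5) (nat_lit 116) (nat_lit 5) (nat_lit 297) (nat_lit 270) (nat_lit 213))))) (XT.nd (nat_lit 234) (nat_lit 1216) (nat_lit 0) (XT.nd (nat_lit 78) (nat_lit 380) (nat_lit 0) (XT.lf (nat_lit 0) (nat_lit 1482107528) (nat_lit 380) (nat_lit 12959349607) (nat_lit 456) (nat_lit 429412184) (nat_lit 105) (nat_lit 5) (nat_lit 110) (nat_lit 5) (nat_lit 111) (nat_lit 5) (nat_lit 298) (nat_lit 270) (nat_lit 212)) (XT.nd (nat_lit 78) (nat_lit 304) (nat_lit 0) (XT.lf (nat_lit 0) (nat_lit 4143921415) (nat_lit 456) (nat_lit 511607107) (nat_lit 76) (nat_lit 10669780865) (nat_lit 104) (nat_lit 5) (nat_lit 110) (nat_lit 5) (nat_lit 105) (nat_lit 5) (nat_lit 299) (nat_lit 270) (nat_lit 211)) (XT.lf (nat_lit 0) (nat_lit 9056115394) (nat_lit 380) (nat_lit 2642438457) (nat_lit 76) (nat_lit 4100252773) (nat_lit 100) (nat_lit 5) (nat_lit 105) (nat_lit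 5) (nat_lit 101) (nat_lit 5) (nat_lit 300) (nat_lit 270) (nat_lit 210)))) (XT.nd (nat_lit 156) (nat_lit 532) (nat_lit 0) (XT.nd (nat_lit 78) (nat_lit 380) (nat_lit 0) (XT.lf (nat_lit 0) (nat_lit 11332466735) (nat_lit 304) (nat_lit 2996147731) (nat_lit 380) (nat_lit 1963956684) (nat_lit 96) (nat_lit 5) (nat_lit 100) (nat_lit 5) (nat_lit 101) (nat_lit 5) (nat_lit 301) (nat_lit 270) (nat_lit 209)) (XT.lf (nat_lit 0) (nat_lit 3126289942) (nat_lit 380) (nat_lit 7527896451) (nat_lit 76) (nat_lit 6152022735) (nat_lit 91) (nat_lit 5) (nat_lit 96) (nat_lit 5) (nat_lit 92) (nat_lit 5) (nat_lit 302) (nat_lit 270) (nat_lit 208))) (XT.nd (nat_lit 78) (nat_lit 228) (nat_lit 0) (XT.lf (nat_lit 0) (nat_lit 7011869294) (nat_lit 304) (nat_lit 1524142573) (nat_lit 380) (nat_lit 8805795678) (nat_lit 87) (nat_lit 5) (nat_lit 91) (nat_lit 5) (nat_lit 92) (nat_lit 5) (nat_lit 303) (nat_lit 270) (nat_lit 207)) (XT.lf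 (nat_lit 0) (nat_lit 4481227740) (nat_lit 228) (nat_lit 9891157136) (nat_lit 304) (nat_lit 3527143978) (nat_lit 84) (nat_lit 5) (nat_lit 87) (nat_lit 5) (nat_lit 88) (nat_lit 5) (nat_lit 304) (nat_lit 270) (nat_lit 206)))))) (XT.nd (nat_lit 546) (nat_lit 1368) (nat_lit 0) (XT.nd (nat_lit 234) (nat_lit 988) (nat_lit 0) (XT.nd (nat_lit 78) (nat_lit 228) (nat_lit 0) (XT.lf (nat_lit 0) (nat_lit 1703197527) (nat_lit 304) (nat_lit 370406791) (nat_lit 380) (nat_lit 16408051739) (nat_lit 79) (nat_lit 5) (nat_lit 83) (nat_lit 5) (nat_lit 84) (nat_lit 5) (nat_lit 305) (nat_lit 270) (nat_lit 205)) (XT.nd (nat_lit 78) (nat_lit 228) (nat_lit 0) (XT.lf (nat_lit 0) (nat_lit 8073728935) (nat_lit 380) (nat_lit 1417470161) (nat_lit 76) (nat_lit 9594898873) (nat_lit 79) (nat_lit 5) (nat_lit 84) (nat_lit 5) (nat_lit 80) (nat_lit 5) (nat_lit 306) (nat_lit 270) (nat_lit 204)) (XT.lf (nat_lit 0) (nat_lit 14487143157)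 (nat_lit 304) (nat_lit 4780053984) (nat_lit 76) (nat_lit 450189748) (nat_lit 76) (nat_lit 5) (nat_lit 80) (nat_lit 5) (nat_lit 77) (nat_lit 5) (nat_lit 307) (nat_lit 270) (nat_lit 203)))) (XT.nd (nat_lit 156) (nat_lit 456) (nat_lit 0) (XT.nd (nat_lit 78) (nat_lit 228) (nat_lit 0) (XT.lf (nat_lit 0) (nat_lit 1013350058) (nat_lit 304) (nat_lit 8546665488) (nat_lit 76) (nat_lit 10814340649) (nat_lit 72) (nat_lit 5) (nat_lit 76) (nat_lit 5) (nat_lit 73) (nat_lit 5) (nat_lit 308) (nat_lit 270) (nat_lit 202)) (XT.lf (nat_lit 0) (nat_lit 7563176288) (nat_lit 304) (nat_lit 12710648194) (nat_lit 76) (nat_lit 785749900) (nat_lit 69) (nat_lit 5) (nat_lit 73) (nat_lit 5) (nat_lit 70) (nat_lit 5) (nat_lit 309) (nat_lit 270) (nat_lit 201))) (XT.nd (nat_lit 78) (nat_lit 228) (nat_lit 0) (XT.lf (nat_lit 0) (nat_lit 4425233157) (nat_lit 228) (nat_lit 10207663257) (nat_lit 304) (nat_lit 7140404622) (nat_lit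 66) (nat_lit 5) (nat_lit 69) (nat_lit 5) (nat_lit 70) (nat_lit 5) (nat_lit 310) (nat_lit 270) (nat_lit 200)) (XT.lf (nat_lit 0) (nat_lit 107541825) (nat_lit 228) (nat_lit 22050721947) (nat_lit 304) (nat_lit 361404118) (nat_lit 63) (nat_lit 5) (nat_lit 66) (nat_lit 5) (nat_lit 67) (nat_lit 5) (nat_lit 311) (nat_lit 270) (nat_lit 199))))) (XT.nd (nat_lit 312) (nat_lit 608) (nat_lit 0) (XT.nd (nat_lit 156) (nat_lit 456) (nat_lit 0) (XT.nd (nat_lit 78) (nat_lit 228) (nat_lit 0) (XT.lf (nat_lit 0) (nat_lit 6874376280) (nat_lit 304) (nat_lit 4722928313) (nat_lit 76) (nat_lit 11696627109) (nat_lit 62) (nat_lit 5) (nat_lit 66) (nat_lit 5) (nat_lit 63) (nat_lit 5) (nat_lit 312) (nat_lit 270) (nat_lit 198)) (XT.lf (nat_lit 0) (nat_lit 14070559642) (nat_lit 228) (nat_lit 497135788) (nat_lit 304) (nat_lit 9536025675) (nat_lit 59) (nat_lit 5) (nat_lit 62) (nat_lit 5) (nat_lit 63) (nat_lit 5) (nat_lit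 313) (nat_lit 270) (nat_lit 197))) (XT.nd (nat_lit 78) (nat_lit 304) (nat_lit 0) (XT.lf (nat_lit 0) (nat_lit 8966716161) (nat_lit 152) (nat_lit 13890288415) (nat_lit 228) (nat_lit 2090671365) (nat_lit 57) (nat_lit 5) (nat_lit 59) (nat_lit 5) (nat_lit 60) (nat_lit 5) (nat_lit 314) (nat_lit 270) (nat_lit 196)) (XT.lf (nat_lit 0) (nat_lit 3248244023) (nat_lit 228) (nat_lit 2476975693) (nat_lit 304) (nat_lit 20103671101) (nat_lit 53) (nat_lit 5) (nat_lit 56) (nat_lit 5) (nat_lit 57) (nat_lit 5) (nat_lit 315) (nat_lit 270) (nat_lit 195)))) (XT.nd (nat_lit 156) (nat_lit 456) (nat_lit 0) (XT.nd (nat_lit 78) (nat_lit 152) (nat_lit 0) (XT.lf (nat_lit 0) (nat_lit 14116882091) (nat_lit 304) (nat_lit 3139356437) (nat_lit 76) (nat_lit 9490474279) (nat_lit 53) (nat_lit 5) (nat_lit 57) (nat_lit 5) (nat_lit 54) (nat_lit 5) (nat_lit 316) (nat_lit 270) (nat_lit 194)) (XT.lf (nat_lit 0) (nat_lit 17544816689)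 (nat_lit 152) (nat_lit 5548665292) (nat_lit 228) (nat_lit 4611996440) (nat_lit 51) (nat_lit 5) (nat_lit 53) (nat_lit 5) (nat_lit 54) (nat_lit 5) (nat_lit 317) (nat_lit 270) (nat_lit 193))) (XT.nd (nat_lit 78) (nat_lit 152) (nat_lit 0) (XT.lf (nat_lit 0) (nat_lit 3907062706) (nat_lit 304) (nat_lit 18029643980) (nat_lit 76) (nat_lit 6769151528) (nat_lit 47) (nat_lit 5) (nat_lit 51) (nat_lit 5) (nat_lit 48) (nat_lit 5) (nat_lit 318) (nat_lit 270) (nat_lit 192)) (XT.lf (nat_lit 0) (nat_lit 2922476058) (nat_lit 152) (nat_lit 9997881421) (nat_lit 228) (nat_lit 16829631227) (nat_lit 45) (nat_lit 5) (nat_lit 47) (nat_lit 5) (nat_lit 48) (nat_lit 5) (nat_lit 319) (nat_lit 270) (nat_lit 191))))))))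
noncomputable def xc68 : XT := (XT.nd (nat_lit 2184) (nat_lit 532) (nat_lit 0) (XT.nd (nat_lit 1092) (nat_lit 760) (nat_lit 0) (XT.nd (nat_lit 546) (nat_lit 760) (nat_lit 0) (XT.nd (nat_lit 234) (nat_lit 380) (nat_lit 0) (XT.nd (nat_lit 78) (nat_lit 380) (nat_lit 0) (XT.lf (nat_lit 0) (nat_lit 22569893162) (nat_lit 228) (nat_lit 5612457884) (nat_lit 76) (nat_lit 2658418426) (nat_lit 45) (nat_lit 5) (nat_lit 48) (nat_lit 5) (nat_lit 46) (nat_lit 5) (nat_lit 320) (nat_lit 270) (nat_lit 190)) (XT.nd (nat_lit 78) (nat_lit 152) (nat_lit 0) (XT.lf (nat_lit 0) (nat_lit 942059882) (nat_lit 228) (nat_lit 15139297789) (nat_lit 76) (nat_lit 15897329027) (nat_lit 42) (nat_lit 5) (nat_lit 45) (nat_lit 5) (nat_lit 43) (nat_lit 5) (nat_lit 321) (nat_lit 270) (nat_lit 189)) (XT.lf (nat_lit 0) (nat_lit 7377655097) (nat_lit 152) (nat_lit 3173329325) (nat_lit 228) (nat_lit 22616876506) (nat_lit 40) (nat_lit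 5) (nat_lit 42) (nat_lit 5) (nat_lit 43) (nat_lit 5) (nat_lit 322) (nat_lit 270) (nat_lit 188)))) (XT.nd (nat_lit 156) (nat_lit 228) (nat_lit 0) (XT.nd (nat_lit 78) (nat_lit 152) (nat_lit 0) (XT.lf (nat_lit 0) (nat_lit 20873679318) (nat_lit 228) (nat_lit 3217288324) (nat_lit 76) (nat_lit 10318535755) (nat_lit 40) (nat_lit 5) (nat_lit 43) (nat_lit 5) (nat_lit 41) (nat_lit 5) (nat_lit 323) (nat_lit 270) (nat_lit 187)) (XT.lf (nat_lit 0) (nat_lit 20819490699) (nat_lit 152) (nat_lit 11102468086) (nat_lit 228) (nat_lit 3784994523) (nat_lit 38) (nat_lit 5) (nat_lit 40) (nat_lit 5) (nat_lit 41) (nat_lit 5) (nat_lit 324) (nat_lit 270) (nat_lit 186))) (XT.nd (nat_lit 78) (nat_lit 0) (nat_lit 0) (XT.lf (nat_lit 0) (nat_lit 6452516342) (nat_lit 228) (nat_lit 27955888540) (nat_lit 76) (nat_lit 2655265912) (nat_lit 35) (nat_lit 5) (nat_lit 38) (nat_lit 5) (nat_lit 36) (nat_lit 5) (nat_lit 325) (nat_lit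 270) (nat_lit 185)) (XT.lf (nat_lit 0) (nat_lit 17369512224) (nat_lit 228) (nat_lit 4059266202) (nat_lit 76) (nat_lit 17050952564) (nat_lit 35) (nat_lit 5) (nat_lit 38) (nat_lit 5) (nat_lit 36) (nat_lit 5) (nat_lit 326) (nat_lit 270) (nat_lit 184))))) (XT.nd (nat_lit 234) (nat_lit 456) (nat_lit 0) (XT.nd (nat_lit 78) (nat_lit 152) (nat_lit 0) (XT.lf (nat_lit 0) (nat_lit 21414098138) (nat_lit 152) (nat_lit 7603467784) (nat_lit 228) (nat_lit 10943479423) (nat_lit 33) (nat_lit 5) (nat_lit 35) (nat_lit 5) (nat_lit 36) (nat_lit 5) (nat_lit 327) (nat_lit 270) (nat_lit 183)) (XT.nd (nat_lit 78) (nat_lit 76) (nat_lit 0) (XT.lf (nat_lit 0) (nat_lit 6760451767) (nat_lit 76) (nat_lit 34641075526) (nat_lit 152) (nat_lit 110300015) (nat_lit 32) (nat_lit 5) (nat_lit 33) (nat_lit 5) (nat_lit 34) (nat_lit 4) (nat_lit 328) (nat_lit 270) (nat_lit 182)) (XT.lf (nat_lit 0) (nat_lit 11294579798) (nat_lit 152)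 (nat_lit 9635311050) (nat_lit 76) (nat_lit 22199519985) (nat_lit 31) (nat_lit 5) (nat_lit 33) (nat_lit 5) (nat_lit 32) (nat_lit 5) (nat_lit 329) (nat_lit 270) (nat_lit 181)))) (XT.nd (nat_lit 156) (nat_lit 304) (nat_lit 0) (XT.nd (nat_lit 78) (nat_lit 0) (nat_lit 0) (XT.lf (nat_lit 0) (nat_lit 17034736118) (nat_lit 152) (nat_lit 6377688880) (nat_lit 228) (nat_lit 21411071895) (nat_lit 29) (nat_lit 5) (nat_lit 31) (nat_lit 5) (nat_lit 32) (nat_lit 5) (nat_lit 330) (nat_lit 270) (nat_lit 180)) (XT.lf (nat_lit 0) (nat_lit 36303587272) (nat_lit 228) (nat_lit 1478815039) (nat_lit 76) (nat_lit 8814868103) (nat_lit 29) (nat_lit 5) (nat_lit 32) (nat_lit 5) (nat_lit 30) (nat_lit 4) (nat_lit 331) (nat_lit 270) (nat_lit 179))) (XT.nd (nat_lit 78) (nat_lit 152) (nat_lit 0) (XT.lf (nat_lit 0) (nat_lit 1657973469) (nat_lit 152) (nat_lit 21897228460) (nat_lit 76) (nat_lit 24894978734) (nat_lit 27) (nat_lit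 5) (nat_lit 29) (nat_lit 5) (nat_lit 28) (nat_lit 5) (nat_lit 332) (nat_lit 270) (nat_lit 178)) (XT.lf (nat_lit 0) (nat_lit 5596605641) (nat_lit 152) (nat_lit 8451792565) (nat_lit 228) (nat_lit 36342663653) (nat_lit 25) (nat_lit 5) (nat_lit 27) (nat_lit 5) (nat_lit 28) (nat_lit 5) (nat_lit 333) (nat_lit 270) (nat_lit 177)))))) (XT.nd (nat_lit 546) (nat_lit 380) (nat_lit 0) (XT.nd (nat_lit 234) (nat_lit 304) (nat_lit 0) (XT.nd (nat_lit 78) (nat_lit 76) (nat_lit 0) (XT.lf (nat_lit 0) (nat_lit 27340513752) (nat_lit 228) (nat_lit 17602925747) (nat_lit 76) (nat_lit 7477087481) (nat_lit 25) (nat_lit 5) (nat_lit 28) (nat_lit 5) (nat_lit 26) (nat_lit 4) (nat_lit 334) (nat_lit 270) (nat_lit 176)) (XT.nd (nat_lit 78) (nat_lit 0) (nat_lit 0) (XT.lf (nat_lit 0) (nat_lit 11049937676) (nat_lit 76) (nat_lit 30422942669) (nat_lit 152) (nat_lit 13073320368) (nat_lit 24) (nat_lit 5) (nat_lit 25) (nat_lit 5)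 (nat_lit 26) (nat_lit 4) (nat_lit 335) (nat_lit 270) (nat_lit 175)) (XT.lf (nat_lit 0) (nat_lit 41475550693) (nat_lit 76) (nat_lit 15002131167) (nat_lit 152) (nat_lit 295506265) (nat_lit 24) (nat_lit 5) (nat_lit 25) (nat_lit 5) (nat_lit 26) (nat_lit 4) (nat_lit 336) (nat_lit 270) (nat_lit 174)))) (XT.nd (nat_lit 156) (nat_lit 76) (nat_lit 0) (XT.nd (nat_lit 78) (nat_lit 0) (nat_lit 0) (XT.lf (nat_lit 0) (nat_lit 13003099753) (nat_lit 228) (nat_lit 44678127025) (nat_lit 76) (nat_lit 1422380121) (nat_lit 21) (nat_lit 5) (nat_lit 24) (nat_lit 5) (nat_lit 22) (nat_lit 4) (nat_lit 337) (nat_lit 270) (nat_lit 173)) (XT.lf (nat_lit 0) (nat_lit 27256573932) (nat_lit 228) (nat_lit 15773633274) (nat_lit 76) (nat_lit 18511374104) (nat_lit 21) (nat_lit 5) (nat_lit 24) (nat_lit 5) (nat_lit 22) (nat_lit 4) (nat_lit 338) (nat_lit 270) (nat_lit 172))) (XT.nd (nat_lit 78) (nat_lit 0) (nat_lit 0) (XT.lf (nat_lit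 0) (nat_lit 14840653401) (nat_lit 76) (nat_lit 27510952124) (nat_lit 152) (nat_lit 21745986172) (nat_lit 20) (nat_lit 5) (nat_lit 21) (nat_lit 5) (nat_lit 22) (nat_lit 4) (nat_lit 339) (nat_lit 270) (nat_lit 171)) (XT.lf (nat_lit 0) (nat_lit 47290967964) (nat_lit 76) (nat_lit 11059444857) (nat_lit 152) (nat_lit 8426522646) (nat_lit 20) (nat_lit 5) (nat_lit 21) (nat_lit 5) (nat_lit 22) (nat_lit 4) (nat_lit 340) (nat_lit 270) (nat_lit 170))))) (XT.nd (nat_lit 234) (nat_lit 152) (nat_lit 0) (XT.nd (nat_lit 78) (nat_lit 76) (nat_lit 0) (XT.lf (nat_lit 0) (nat_lit 5613570018) (nat_lit 152) (nat_lit 57717400447) (nat_lit 76) (nat_lit 6252782293) (nat_lit 18) (nat_lit 5) (nat_lit 20) (nat_lit 5) (nat_lit 19) (nat_lit 4) (nat_lit 341) (nat_lit 270) (nat_lit 169)) (XT.nd (nat_lit 78) (nat_lit 76) (nat_lit 0) (XT.lf (nat_lit 0) (nat_lit 20484665681) (nat_lit 152) (nat_lit 27553085450) (nat_lit 76)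 (nat_lit 24481561860) (nat_lit 18) (nat_lit 5) (nat_lit 20) (nat_lit 5) (nat_lit 19) (nat_lit 4) (nat_lit 342) (nat_lit 270) (nat_lit 168)) (XT.lf (nat_lit 0) (nat_lit 4179072969) (nat_lit 76) (nat_lit 31948461837) (nat_lit 152) (nat_lit 39473272878) (nat_lit 17) (nat_lit 5) (nat_lit 18) (nat_lit 5) (nat_lit 19) (nat_lit 4) (nat_lit 343) (nat_lit 270) (nat_lit 167)))) (XT.nd (nat_lit 156) (nat_lit 152) (nat_lit 0) (XT.nd (nat_lit 78) (nat_lit 0) (nat_lit 0) (XT.lf (nat_lit 0) (nat_lit 38052325029) (nat_lit 76) (nat_lit 14772268453) (nat_lit 152) (nat_lit 26003625113) (nat_lit 17) (nat_lit 5) (nat_lit 18) (nat_lit 5) (nat_lit 19) (nat_lit 4) (nat_lit 344) (nat_lit 270) (nat_lit 166)) (XT.lf (nat_lit 0) (nat_lit 70376742882) (nat_lit 152) (nat_lit 8649647541) (nat_lit 0) (nat_lit 3190005222) (nat_lit 17) (nat_lit 5) (nat_lit 19) (nat_lit 4) (nat_lit 17) (nat_lit 4) (nat_lit 345) (nat_lit 270)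 (nat_lit 165))) (XT.nd (nat_lit 78) (nat_lit 0) (nat_lit 0) (XT.lf (nat_lit 0) (nat_lit 3359891781) (nat_lit 152) (nat_lit 60385334457) (nat_lit 76) (nat_lit 22016286851) (nat_lit 15) (nat_lit 5) (nat_lit 17) (nat_lit 5) (nat_lit 16) (nat_lit 4) (nat_lit 346) (nat_lit 270) (nat_lit 164)) (XT.lf (nat_lit 0) (nat_lit 19156371738) (nat_lit 152) (nat_lit 28336744063) (nat_lit 76) (nat_lit 41984801669) (nat_lit 15) (nat_lit 5) (nat_lit 17) (nat_lit 5) (nat_lit 16) (nat_lit 4) (nat_lit 347) (nat_lit 270) (nat_lit 163))))))) (XT.nd (nat_lit 1092) (nat_lit 76) (nat_lit 0) (XT.nd (nat_lit 546) (nat_lit 152) (nat_lit 0) (XT.nd (nat_lit 234) (nat_lit 228) (nat_lit 0) (XT.nd (nat_lit 78) (nat_lit 0) (nat_lit 0) (XT.lf (nat_lit 0) (nat_lit 5401395477) (nat_lit 76) (nat_lit 30383318009) (nat_lit 152) (nat_lit 57594169738) (nat_lit 14) (nat_lit 5) (nat_lit 15) (nat_lit 5) (nat_lit 16) (nat_lit 4) (nat_lit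 348) (nat_lit 270) (nat_lit 162)) (XT.nd (nat_lit 78) (nat_lit 0) (nat_lit 0) (XT.lf (nat_lit 0) (nat_lit 41400839572) (nat_lit 76) (nat_lit 12125750765) (nat_lit 152) (nat_lit 43939845567) (nat_lit 14) (nat_lit 5) (nat_lit 15) (nat_lit 5) (nat_lit 16) (nat_lit 4) (nat_lit 349) (nat_lit 270) (nat_lit 161)) (XT.lf (nat_lit 0) (nat_lit 72214076730) (nat_lit 152) (nat_lit 22642940794) (nat_lit 0) (nat_lit 6899595299) (nat_lit 14) (nat_lit 5) (nat_lit 16) (nat_lit 4) (nat_lit 14) (nat_lit 4) (nat_lit 350) (nat_lit 270) (nat_lit 160)))) (XT.nd (nat_lit 156) (nat_lit 76) (nat_lit 0) (XT.nd (nat_lit 78) (nat_lit 76) (nat_lit 0) (XT.lf (nat_lit 0) (nat_lit 12557197892) (nat_lit 76) (nat_lit 79513071142) (nat_lit 76) (nat_lit 14184001584) (nat_lit 13) (nat_lit 4) (nat_lit 14) (nat_lit 5) (nat_lit 14) (nat_lit 4) (nat_lit 351) (nat_lit 270) (nat_lit 159)) (XT.lf (nat_lit 0) (nat_lit 2131367328) (nat_lit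 152) (nat_lit 61016287334) (nat_lit 76) (nat_lit 47821793941) (nat_lit 12) (nat_lit 5) (nat_lit 14) (nat_lit 5) (nat_lit 13) (nat_lit 4) (nat_lit 352) (nat_lit 270) (nat_lit 158))) (XT.nd (nat_lit 78) (nat_lit 76) (nat_lit 0) (XT.lf (nat_lit 0) (nat_lit 18963708634) (nat_lit 152) (nat_lit 26859866345) (nat_lit 76) (nat_lit 70092762654) (nat_lit 12) (nat_lit 5) (nat_lit 14) (nat_lit 5) (nat_lit 13) (nat_lit 4) (nat_lit 353) (nat_lit 270) (nat_lit 157)) (XT.lf (nat_lit 0) (nat_lit 9168776201) (nat_lit 76) (nat_lit 27549239979) (nat_lit 152) (nat_lit 84390146118) (nat_lit 11) (nat_lit 5) (nat_lit 12) (nat_lit 5) (nat_lit 13) (nat_lit 4) (nat_lit 354) (nat_lit 270) (nat_lit 156))))) (XT.nd (nat_lit 234) (nat_lit 152) (nat_lit 0) (XT.nd (nat_lit 78) (nat_lit 0) (nat_lit 0) (XT.lf (nat_lit 0) (nat_lit 47546043822) (nat_lit 76) (nat_lit 8082942462) (nat_lit 152) (nat_lit 70922525076) (nat_lit 11)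 (nat_lit 5) (nat_lit 12) (nat_lit 5) (nat_lit 13) (nat_lit 4) (nat_lit 355) (nat_lit 270) (nat_lit 155)) (XT.nd (nat_lit 78) (nat_lit 0) (nat_lit 0) (XT.lf (nat_lit 0) (nat_lit 75597032966) (nat_lit 152) (nat_lit 44557218103) (nat_lit 0) (nat_lit 12109432467) (nat_lit 11) (nat_lit 5) (nat_lit 13) (nat_lit 4) (nat_lit 11) (nat_lit 4) (nat_lit 356) (nat_lit 270) (nat_lit 154)) (XT.lf (nat_lit 0) (nat_lit 96638158606) (nat_lit 152) (nat_lit 8481077562) (nat_lit 0) (nat_lit 33139989286) (nat_lit 11) (nat_lit 5) (nat_lit 13) (nat_lit 4) (nat_lit 11) (nat_lit 4) (nat_lit 357) (nat_lit 270) (nat_lit 153)))) (XT.nd (nat_lit 156) (nat_lit 76) (nat_lit 0) (XT.nd (nat_lit 78) (nat_lit 0) (nat_lit 0) (XT.lf (nat_lit 0) (nat_lit 29971397768) (nat_lit 76) (nat_lit 89041468576) (nat_lit 76) (nat_lit 25533233713) (nat_lit 10) (nat_lit 4) (nat_lit 11) (nat_lit 5) (nat_lit 11) (nat_lit 4) (nat_lit 358) (nat_lit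 270) (nat_lit 152)) (XT.lf (nat_lit 0) (nat_lit 70511757494) (nat_lit 76) (nat_lit 72075477758) (nat_lit 76) (nat_lit 8557656663) (nat_lit 10) (nat_lit 4) (nat_lit 11) (nat_lit 5) (nat_lit 11) (nat_lit 4) (nat_lit 359) (nat_lit 270) (nat_lit 151))) (XT.nd (nat_lit 78) (nat_lit 0) (nat_lit 0) (XT.lf (nat_lit 0) (nat_lit 9079735545) (nat_lit 152) (nat_lit 45095087681) (nat_lit 76) (nat_lit 103896313138) (nat_lit 9) (nat_lit 5) (nat_lit 11) (nat_lit 5) (nat_lit 10) (nat_lit 4) (nat_lit 360) (nat_lit 270) (nat_lit 150)) (XT.lf (nat_lit 0) (nat_lit 27417812350) (nat_lit 152) (nat_lit 7877486762) (nat_lit 76) (nat_lit 130045979175) (nat_lit 9) (nat_lit 5) (nat_lit 11) (nat_lit 5) (nat_lit 10) (nat_lit 4) (nat_lit 361) (nat_lit 270) (nat_lit 149)))))) (XT.nd (nat_lit 33930) (nat_lit 0) (nat_lit 15580) (XT.nd (nat_lit 33618) (nat_lit 0) (nat_lit 18316) (XT.nd (nat_lit 78) (nat_lit 0) (nat_lit 0)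 (XT.lf (nat_lit 0) (nat_lit 31811296069) (nat_lit 76) (nat_lit 15161720113) (nat_lit 152) (nat_lit 125992905517) (nat_lit 8) (nat_lit 5) (nat_lit 9) (nat_lit 5) (nat_lit 10) (nat_lit 4) (nat_lit 362) (nat_lit 270) (nat_lit 148)) (XT.nd (nat_lit 33462) (nat_lit 0) (nat_lit 19228) (XT.lf (nat_lit 0) (nat_lit 67639899583) (nat_lit 152) (nat_lit 107388771278) (nat_lit 0) (nat_lit 5939109877) (nat_lit 8) (nat_lit 5) (nat_lit 10) (nat_lit 4) (nat_lit 8) (nat_lit 4) (nat_lit 363) (nat_lit 270) (nat_lit 147)) (XT.lf (nat_lit 0) (nat_lit 1651352508) (nat_lit 0) (nat_lit 1651352508) (nat_lit 836) (nat_lit 629927200) (nat_lit 261) (nat_lit 5) (nat_lit 261) (nat_lit 3) (nat_lit 272) (nat_lit 3) (nat_lit 271) (nat_lit 271) (nat_lit 238)))) (XT.nd (nat_lit 156) (nat_lit 0) (nat_lit 76) (XT.nd (nat_lit 78) (nat_lit 0) (nat_lit 0) (XT.lf (nat_lit 0) (nat_lit 760359879) (nat_lit 912) (nat_lit 6465519816)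 (nat_lit 988) (nat_lit 773205596) (nat_lit 249) (nat_lit 5) (nat_lit 261) (nat_lit 5) (nat_lit 262) (nat_lit 5) (nat_lit 272) (nat_lit 271) (nat_lit 237)) (XT.lf (nat_lit 0) (nat_lit 2808193003) (nat_lit 912) (nat_lit 226936764) (nat_lit 988) (nat_lit 5105666143) (nat_lit 249) (nat_lit 5) (nat_lit 261) (nat_lit 5) (nat_lit 262) (nat_lit 5) (nat_lit 273) (nat_lit 271) (nat_lit 236))) (XT.nd (nat_lit 78) (nat_lit 0) (nat_lit 0) (XT.lf (nat_lit 0) (nat_lit 4911751524) (nat_lit 912) (nat_lit 1926390313) (nat_lit 988) (nat_lit 1452995779) (nat_lit 250) (nat_lit 5) (nat_lit 262) (nat_lit 5) (nat_lit 263) (nat_lit 5) (nat_lit 274) (nat_lit 271) (nat_lit 235)) (XT.lf (nat_lit 76) (nat_lit 4834708545) (nat_lit 0) (nat_lit 2248677005) (nat_lit 988) (nat_lit 1366862570) (nat_lit 251) (nat_lit 5) (nat_lit 250) (nat_lit 5) (nat_lit 263) (nat_lit 5) (nat_lit 275) (nat_lit 271) (nat_lit 234))))) (XT.nd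 (nat_lit 234) (nat_lit 1900) (nat_lit 0) (XT.nd (nat_lit 78) (nat_lit 0) (nat_lit 0) (XT.lf (nat_lit 0) (nat_lit 696677463) (nat_lit 988) (nat_lit 5300614319) (nat_lit 1064) (nat_lit 2620986753) (nat_lit 238) (nat_lit 5) (nat_lit 251) (nat_lit 5) (nat_lit 252) (nat_lit 5) (nat_lit 276) (nat_lit 271) (nat_lit 233)) (XT.nd (nat_lit 78) (nat_lit 0) (nat_lit 76) (XT.lf (nat_lit 76) (nat_lit 1804991092) (nat_lit 0) (nat_lit 1000204565) (nat_lit 1064) (nat_lit 5990128802) (nat_lit 239) (nat_lit 5) (nat_lit 238) (nat_lit 5) (nat_lit 252) (nat_lit 5) (nat_lit 277) (nat_lit 271) (nat_lit 232)) (XT.lf (nat_lit 76) (nat_lit 286995537) (nat_lit 0) (nat_lit 4727771157) (nat_lit 1064) (nat_lit 3966703449) (nat_lit 240) (nat_lit 5) (nat_lit 239) (nat_lit 5) (nat_lit 253) (nat_lit 5) (nat_lit 278) (nat_lit 271) (nat_lit 231)))) (XT.nd (nat_lit 156) (nat_lit 988) (nat_lit 0) (XT.nd (nat_lit 78) (nat_lit 1064)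 (nat_lit 0) (XT.lf (nat_lit 0) (nat_lit 7324404002) (nat_lit 988) (nat_lit 1192216959) (nat_lit 1064) (nat_lit 660725257) (nat_lit 240) (nat_lit 5) (nat_lit 253) (nat_lit 5) (nat_lit 254) (nat_lit 5) (nat_lit 279) (nat_lit 271) (nat_lit 230)) (XT.lf (nat_lit 0) (nat_lit 377623881) (nat_lit 1064) (nat_lit 2690084009) (nat_lit 1140) (nat_lit 6314756844) (nat_lit 226) (nat_lit 5) (nat_lit 240) (nat_lit 5) (nat_lit 241) (nat_lit 5) (nat_lit 280) (nat_lit 271) (nat_lit 229))) (XT.nd (nat_lit 78) (nat_lit 1064) (nat_lit 0) (XT.lf (nat_lit 0) (nat_lit 2681619273) (nat_lit 1064) (nat_lit 4210981138) (nat_lit 76) (nat_lit 2704779221) (nat_lit 227) (nat_lit 5) (nat_lit 241) (nat_lit 5) (nat_lit 228) (nat_lit 5) (nat_lit 281) (nat_lit 271) (nat_lit 228)) (XT.lf (nat_lit 0) (nat_lit 4076433255) (nat_lit 1064) (nat_lit 1035248155) (nat_lit 1140) (nat_lit 4711125728) (nat_lit 213) (nat_lit 5) (nat_lit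 227) (nat_lit 5) (nat_lit 228) (nat_lit 5) (nat_lit 282) (nat_lit 271) (nat_lit 227))))))))
noncomputable def xc69 : XT := (XT.nd (nat_lit 2184) (nat_lit 3648) (nat_lit 0) (XT.nd (nat_lit 1092) (nat_lit 3876) (nat_lit 0) (XT.nd (nat_lit 546) (nat_lit 2812) (nat_lit 0) (XT.nd (nat_lit 234) (nat_lit 2280) (nat_lit 0) (XT.nd (nat_lit 78) (nat_lit 836) (nat_lit 0) (XT.lf (nat_lit 0) (nat_lit 2738618581) (nat_lit 1140) (nat_lit 4960256002) (nat_lit 1216) (nat_lit 2359651048) (nat_lit 198) (nat_lit 5) (nat_lit 213) (nat_lit 5) (nat_lit 214) (nat_lit 5) (nat_lit 283) (nat_lit 271) (nat_lit 226)) (XT.nd (nat_lit 78) (nat_lit 0) (nat_lit 0) (XT.lf (nat_lit 0) (nat_lit 122208909) (nat_lit 836) (nat_lit 8912259940) (nat_lit 76) (nat_lit 1271163047) (nat_lit 187) (nat_lit 5) (nat_lit 198) (nat_lit 5) (nat_lit 188) (nat_lit 5) (nat_lit 284) (nat_lit 271) (nat_lit 225)) (XT.lf (nat_lit 0) (nat_lit 2728013170)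 (nat_lit 836) (nat_lit 15415599) (nat_lit 76) (nat_lit 7819582133) (nat_lit 187) (nat_lit 5) (nat_lit 198) (nat_lit 5) (nat_lit 188) (nat_lit 5) (nat_lit 285) (nat_lit 271) (nat_lit 224)))) (XT.nd (nat_lit 156) (nat_lit 1140) (nat_lit 0) (XT.nd (nat_lit 78) (nat_lit 532) (nat_lit 0) (XT.lf (nat_lit 0) (nat_lit 5518673507) (nat_lit 684) (nat_lit 1430158561) (nat_lit 76) (nat_lit 3882863996) (nat_lit 179) (nat_lit 5) (nat_lit 188) (nat_lit 5) (nat_lit 180) (nat_lit 5) (nat_lit 286) (nat_lit 271) (nat_lit 223)) (XT.lf (nat_lit 0) (nat_lit 8238935034) (nat_lit 532) (nat_lit 245647549) (nat_lit 608) (nat_lit 2628232077) (nat_lit 172) (nat_lit 5) (nat_lit 179) (nat_lit 5) (nat_lit 180) (nat_lit 5) (nat_lit 287) (nat_lit 271) (nat_lit 222))) (XT.nd (nat_lit 78) (nat_lit 532) (nat_lit 0) (XT.lf (nat_lit 0) (nat_lit 266805295) (nat_lit 608) (nat_lit 4393148947) (nat_lit 76) (nat_lit 6745653330) (nat_lit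 164) (nat_lit 5) (nat_lit 172) (nat_lit 5) (nat_lit 165) (nat_lit 5) (nat_lit 288) (nat_lit 271) (nat_lit 221)) (XT.lf (nat_lit 0) (nat_lit 3297574814) (nat_lit 608) (nat_lit 5981013584) (nat_lit 76) (nat_lit 2432373198) (nat_lit 157) (nat_lit 5) (nat_lit 165) (nat_lit 5) (nat_lit 158) (nat_lit 5) (nat_lit 289) (nat_lit 271) (nat_lit 220))))) (XT.nd (nat_lit 234) (nat_lit 1292) (nat_lit 0) (XT.nd (nat_lit 78) (nat_lit 988) (nat_lit 0) (XT.lf (nat_lit 0) (nat_lit 4389492157) (nat_lit 532) (nat_lit 2161096951) (nat_lit 608) (nat_lit 5478932276) (nat_lit 150) (nat_lit 5) (nat_lit 157) (nat_lit 5) (nat_lit 158) (nat_lit 5) (nat_lit 290) (nat_lit 271) (nat_lit 219)) (XT.nd (nat_lit 78) (nat_lit 532) (nat_lit 0) (XT.lf (nat_lit 0) (nat_lit 2978470695) (nat_lit 456) (nat_lit 7067818044) (nat_lit 532) (nat_lit 2315375813) (nat_lit 144) (nat_lit 5) (nat_lit 150) (nat_lit 5) (nat_lit 151) (nat_lit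 5) (nat_lit 291) (nat_lit 271) (nat_lit 218)) (XT.lf (nat_lit 0) (nat_lit 1046748763) (nat_lit 532) (nat_lit 11204915747) (nat_lit 76) (nat_lit 456711493) (nat_lit 137) (nat_lit 5) (nat_lit 144) (nat_lit 5) (nat_lit 138) (nat_lit 5) (nat_lit 292) (nat_lit 271) (nat_lit 217)))) (XT.nd (nat_lit 156) (nat_lit 912) (nat_lit 0) (XT.nd (nat_lit 78) (nat_lit 380) (nat_lit 0) (XT.lf (nat_lit 0) (nat_lit 4640382114) (nat_lit 532) (nat_lit 102984659) (nat_lit 76) (nat_lit 8325079570) (nat_lit 137) (nat_lit 5) (nat_lit 144) (nat_lit 5) (nat_lit 138) (nat_lit 5) (nat_lit 293) (nat_lit 271) (nat_lit 216)) (XT.lf (nat_lit 0) (nat_lit 8502263721) (nat_lit 456) (nat_lit 1758429593) (nat_lit 76) (nat_lit 3183217213) (nat_lit 132) (nat_lit 5) (nat_lit 138) (nat_lit 5) (nat_lit 133) (nat_lit 5) (nat_lit 294) (nat_lit 271) (nat_lit 215))) (XT.nd (nat_lit 78) (nat_lit 456) (nat_lit 0) (XT.lf (nat_lit 0) (nat_lit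 10316070367) (nat_lit 456) (nat_lit 2335930670) (nat_lit 532) (nat_lit 1183349109) (nat_lit 126) (nat_lit 5) (nat_lit 132) (nat_lit 5) (nat_lit 133) (nat_lit 5) (nat_lit 295) (nat_lit 271) (nat_lit 214)) (XT.lf (nat_lit 0) (nat_lit 2819211101) (nat_lit 456) (nat_lit 5435214093) (nat_lit 76) (nat_lit 5987873646) (nat_lit 120) (nat_lit 5) (nat_lit 126) (nat_lit 5) (nat_lit 121) (nat_lit 5) (nat_lit 296) (nat_lit 271) (nat_lit 213)))))) (XT.nd (nat_lit 546) (nat_lit 1672) (nat_lit 0) (XT.nd (nat_lit 234) (nat_lit 988) (nat_lit 0) (XT.nd (nat_lit 78) (nat_lit 836) (nat_lit 0) (XT.lf (nat_lit 0) (nat_lit 7077927722) (nat_lit 456) (nat_lit 7472273557) (nat_lit 76) (nat_lit 116666835) (nat_lit 115) (nat_lit 5) (nat_lit 121) (nat_lit 5) (nat_lit 116) (nat_lit 5) (nat_lit 297) (nat_lit 271) (nat_lit 212)) (XT.nd (nat_lit 78) (nat_lit 456) (nat_lit 0) (XT.lf (nat_lit 0) (nat_lit 5417223140) (nat_lit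 380) (nat_lit 6275714954) (nat_lit 456) (nat_lit 3415464820) (nat_lit 110) (nat_lit 5) (nat_lit 115) (nat_lit 5) (nat_lit 116) (nat_lit 5) (nat_lit 298) (nat_lit 271) (nat_lit 211)) (XT.lf (nat_lit 0) (nat_lit 1036409586) (nat_lit 456) (nat_lit 12059807958) (nat_lit 76) (nat_lit 2472895436) (nat_lit 104) (nat_lit 5) (nat_lit 110) (nat_lit 5) (nat_lit 105) (nat_lit 5) (nat_lit 299) (nat_lit 271) (nat_lit 210)))) (XT.nd (nat_lit 156) (nat_lit 684) (nat_lit 0) (XT.nd (nat_lit 78) (nat_lit 0) (nat_lit 0) (XT.lf (nat_lit 0) (nat_lit 1389019949) (nat_lit 304) (nat_lit 4383539200) (nat_lit 380) (nat_lit 10275348639) (nat_lit 100) (nat_lit 5) (nat_lit 104) (nat_lit 5) (nat_lit 105) (nat_lit 5) (nat_lit 300) (nat_lit 271) (nat_lit 209)) (XT.lf (nat_lit 0) (nat_lit 10872361610) (nat_lit 380) (nat_lit 892827716) (nat_lit 76) (nat_lit 4781679352) (nat_lit 100) (nat_lit 5) (nat_lit 105) (nat_lit 5) (nat_lit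 101) (nat_lit 5) (nat_lit 301) (nat_lit 271) (nat_lit 208))) (XT.nd (nat_lit 78) (nat_lit 380) (nat_lit 0) (XT.lf (nat_lit 0) (nat_lit 13726883248) (nat_lit 304) (nat_lit 2634246520) (nat_lit 380) (nat_lit 705658771) (nat_lit 96) (nat_lit 5) (nat_lit 100) (nat_lit 5) (nat_lit 101) (nat_lit 5) (nat_lit 302) (nat_lit 271) (nat_lit 207)) (XT.lf (nat_lit 0) (nat_lit 4571596399) (nat_lit 380) (nat_lit 6067904369) (nat_lit 76) (nat_lit 6967490405) (nat_lit 91) (nat_lit 5) (nat_lit 96) (nat_lit 5) (nat_lit 92) (nat_lit 5) (nat_lit 303) (nat_lit 271) (nat_lit 206))))) (XT.nd (nat_lit 234) (nat_lit 760) (nat_lit 0) (XT.nd (nat_lit 78) (nat_lit 608) (nat_lit 0) (XT.lf (nat_lit 0) (nat_lit 9146210001) (nat_lit 304) (nat_lit 1061360320) (nat_lit 380) (nat_lit 7963167102) (nat_lit 87) (nat_lit 5) (nat_lit 91) (nat_lit 5) (nat_lit 92) (nat_lit 5) (nat_lit 304) (nat_lit 271) (nat_lit 205)) (XT.nd (nat_lit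 78) (nat_lit 380) (nat_lit 0) (XT.lf (nat_lit 0) (nat_lit 6469939669) (nat_lit 228) (nat_lit 9828445405) (nat_lit 304) (nat_lit 2459119972) (nat_lit 84) (nat_lit 5) (nat_lit 87) (nat_lit 5) (nat_lit 88) (nat_lit 5) (nat_lit 305) (nat_lit 271) (nat_lit 204)) (XT.lf (nat_lit 0) (nat_lit 3357635251) (nat_lit 380) (nat_lit 15844553450) (nat_lit 76) (nat_lit 167419505) (nat_lit 79) (nat_lit 5) (nat_lit 84) (nat_lit 5) (nat_lit 80) (nat_lit 5) (nat_lit 306) (nat_lit 271) (nat_lit 203)))) (XT.nd (nat_lit 156) (nat_lit 532) (nat_lit 0) (XT.nd (nat_lit 78) (nat_lit 0) (nat_lit 0) (XT.lf (nat_lit 0) (nat_lit 200414182) (nat_lit 228) (nat_lit 9406631820) (nat_lit 304) (nat_lit 10398782108) (nat_lit 76) (nat_lit 5) (nat_lit 79) (nat_lit 5) (nat_lit 80) (nat_lit 5) (nat_lit 307) (nat_lit 271) (nat_lit 202)) (XT.lf (nat_lit 0) (nat_lit 16306492096) (nat_lit 304) (nat_lit 3354416520) (nat_lit 76) (nat_lit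 1008844685) (nat_lit 76) (nat_lit 5) (nat_lit 80) (nat_lit 5) (nat_lit 77) (nat_lit 5) (nat_lit 308) (nat_lit 271) (nat_lit 201))) (XT.nd (nat_lit 78) (nat_lit 228) (nat_lit 0) (XT.lf (nat_lit 0) (nat_lit 2133498803) (nat_lit 304) (nat_lit 7335186443) (nat_lit 76) (nat_lit 11891700364) (nat_lit 72) (nat_lit 5) (nat_lit 76) (nat_lit 5) (nat_lit 73) (nat_lit 5) (nat_lit 309) (nat_lit 271) (nat_lit 200)) (XT.lf (nat_lit 0) (nat_lit 8980554021) (nat_lit 304) (nat_lit 11728117307) (nat_lit 76) (nat_lit 1372130007) (nat_lit 69) (nat_lit 5) (nat_lit 73) (nat_lit 5) (nat_lit 70) (nat_lit 5) (nat_lit 310) (nat_lit 271) (nat_lit 199))))))) (XT.nd (nat_lit 1092) (nat_lit 1444) (nat_lit 0) (XT.nd (nat_lit 546) (nat_lit 988) (nat_lit 0) (XT.nd (nat_lit 234) (nat_lit 684) (nat_lit 0) (XT.nd (nat_lit 78) (nat_lit 304) (nat_lit 0) (XT.lf (nat_lit 0) (nat_lit 6218176652) (nat_lit 228) (nat_lit 10151204854)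 (nat_lit 304) (nat_lit 6461891566) (nat_lit 66) (nat_lit 5) (nat_lit 69) (nat_lit 5) (nat_lit 70) (nat_lit 5) (nat_lit 311) (nat_lit 271) (nat_lit 198)) (XT.nd (nat_lit 78) (nat_lit 0) (nat_lit 0) (XT.lf (nat_lit 0) (nat_lit 615206994) (nat_lit 304) (nat_lit 21957778905) (nat_lit 76) (nat_lit 1042649998) (nat_lit 62) (nat_lit 5) (nat_lit 66) (nat_lit 5) (nat_lit 63) (nat_lit 5) (nat_lit 312) (nat_lit 271) (nat_lit 197)) (XT.lf (nat_lit 0) (nat_lit 8158358340) (nat_lit 304) (nat_lit 3462593087) (nat_lit 76) (nat_lit 12808986558) (nat_lit 62) (nat_lit 5) (nat_lit 66) (nat_lit 5) (nat_lit 63) (nat_lit 5) (nat_lit 313) (nat_lit 271) (nat_lit 196)))) (XT.nd (nat_lit 156) (nat_lit 304) (nat_lit 0) (XT.nd (nat_lit 78) (nat_lit 152) (nat_lit 0) (XT.lf (nat_lit 0) (nat_lit 16205754497) (nat_lit 304) (nat_lit 9053703698) (nat_lit 76) (nat_lit 21699302) (nat_lit 59) (nat_lit 5) (nat_lit 63) (nat_lit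 5) (nat_lit 60) (nat_lit 5) (nat_lit 314) (nat_lit 271) (nat_lit 195)) (XT.lf (nat_lit 0) (nat_lit 10848838039) (nat_lit 152) (nat_lit 14035934439) (nat_lit 228) (nat_lit 1283302173) (nat_lit 57) (nat_lit 5) (nat_lit 59) (nat_lit 5) (nat_lit 60) (nat_lit 5) (nat_lit 315) (nat_lit 271) (nat_lit 194))) (XT.nd (nat_lit 78) (nat_lit 0) (nat_lit 0) (XT.lf (nat_lit 0) (nat_lit 4821040171) (nat_lit 228) (nat_lit 2055529673) (nat_lit 304) (nat_lit 20217408257) (nat_lit 53) (nat_lit 5) (nat_lit 56) (nat_lit 5) (nat_lit 57) (nat_lit 5) (nat_lit 316) (nat_lit 271) (nat_lit 193)) (XT.lf (nat_lit 0) (nat_lit 15651612719) (nat_lit 304) (nat_lit 1932991405) (nat_lit 76) (nat_lit 10474192411) (nat_lit 53) (nat_lit 5) (nat_lit 57) (nat_lit 5) (nat_lit 54) (nat_lit 5) (nat_lit 317) (nat_lit 271) (nat_lit 192))))) (XT.nd (nat_lit 234) (nat_lit 380) (nat_lit 0) (XT.nd (nat_lit 78) (nat_lit 456) (nat_lit 0) (XT.lf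 (nat_lit 0) (nat_lit 19746310714) (nat_lit 152) (nat_lit 5303990634) (nat_lit 228) (nat_lit 4016019667) (nat_lit 51) (nat_lit 5) (nat_lit 53) (nat_lit 5) (nat_lit 54) (nat_lit 5) (nat_lit 318) (nat_lit 271) (nat_lit 191)) (XT.nd (nat_lit 78) (nat_lit 152) (nat_lit 0) (XT.lf (nat_lit 0) (nat_lit 4891767499) (nat_lit 304) (nat_lit 17609927430) (nat_lit 76) (nat_lit 7615436332) (nat_lit 47) (nat_lit 5) (nat_lit 51) (nat_lit 5) (nat_lit 48) (nat_lit 5) (nat_lit 319) (nat_lit 271) (nat_lit 190)) (XT.lf (nat_lit 0) (nat_lit 4351926714) (nat_lit 152) (nat_lit 9978548246) (nat_lit 228) (nat_lit 16883767037) (nat_lit 45) (nat_lit 5) (nat_lit 47) (nat_lit 5) (nat_lit 48) (nat_lit 5) (nat_lit 320) (nat_lit 271) (nat_lit 189)))) (XT.nd (nat_lit 156) (nat_lit 152) (nat_lit 0) (XT.nd (nat_lit 78) (nat_lit 228) (nat_lit 0) (XT.lf (nat_lit 0) (nat_lit 24430855188) (nat_lit 228) (nat_lit 4653478999) (nat_lit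 76) (nat_lit 3276191968) (nat_lit 45) (nat_lit 5) (nat_lit 48) (nat_lit 5) (nat_lit 46) (nat_lit 5) (nat_lit 321) (nat_lit 271) (nat_lit 188)) (XT.lf (nat_lit 0) (nat_lit 1705633893) (nat_lit 228) (nat_lit 14677650083) (nat_lit 76) (nat_lit 17172558352) (nat_lit 42) (nat_lit 5) (nat_lit 45) (nat_lit 5) (nat_lit 43) (nat_lit 5) (nat_lit 322) (nat_lit 271) (nat_lit 187))) (XT.nd (nat_lit 78) (nat_lit 0) (nat_lit 0) (XT.lf (nat_lit 0) (nat_lit 8930219163) (nat_lit 152) (nat_lit 2842046099) (nat_lit 228) (nat_lit 23032905740) (nat_lit 40) (nat_lit 5) (nat_lit 42) (nat_lit 5) (nat_lit 43) (nat_lit 5) (nat_lit 323) (nat_lit 271) (nat_lit 186)) (XT.lf (nat_lit 0) (nat_lit 22582545489) (nat_lit 228) (nat_lit 2235243610) (nat_lit 76) (nat_lit 11291975885) (nat_lit 40) (nat_lit 5) (nat_lit 43) (nat_lit 5) (nat_lit 41) (nat_lit 5) (nat_lit 324) (nat_lit 271) (nat_lit 185)))))) (XT.nd (nat_lit 546) (nat_lit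 608) (nat_lit 0) (XT.nd (nat_lit 234) (nat_lit 456) (nat_lit 0) (XT.nd (nat_lit 78) (nat_lit 228) (nat_lit 0) (XT.lf (nat_lit 0) (nat_lit 22970613104) (nat_lit 152) (nat_lit 11191621902) (nat_lit 228) (nat_lit 3310494792) (nat_lit 38) (nat_lit 5) (nat_lit 40) (nat_lit 5) (nat_lit 41) (nat_lit 5) (nat_lit 325) (nat_lit 271) (nat_lit 184)) (XT.nd (nat_lit 78) (nat_lit 0) (nat_lit 0) (XT.lf (nat_lit 0) (nat_lit 7409867717) (nat_lit 228) (nat_lit 28247838297) (nat_lit 76) (nat_lit 3239879252) (nat_lit 35) (nat_lit 5) (nat_lit 38) (nat_lit 5) (nat_lit 36) (nat_lit 5) (nat_lit 326) (nat_lit 271) (nat_lit 183)) (XT.lf (nat_lit 0) (nat_lit 18842488367) (nat_lit 228) (nat_lit 3209044112) (nat_lit 76) (nat_lit 18333833567) (nat_lit 35) (nat_lit 5) (nat_lit 38) (nat_lit 5) (nat_lit 36) (nat_lit 5) (nat_lit 327) (nat_lit 271) (nat_lit 182)))) (XT.nd (nat_lit 156) (nat_lit 152) (nat_lit 0) (XT.nd (nat_lit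 78) (nat_lit 152) (nat_lit 0) (XT.lf (nat_lit 0) (nat_lit 23507799098) (nat_lit 152) (nat_lit 7546193577) (nat_lit 228) (nat_lit 10887332315) (nat_lit 33) (nat_lit 5) (nat_lit 35) (nat_lit 5) (nat_lit 36) (nat_lit 5) (nat_lit 328) (nat_lit 271) (nat_lit 181)) (XT.lf (nat_lit 0) (nat_lit 463642823) (nat_lit 152) (nat_lit 35469302259) (nat_lit 76) (nat_lit 7637000421) (nat_lit 31) (nat_lit 5) (nat_lit 33) (nat_lit 5) (nat_lit 32) (nat_lit 5) (nat_lit 329) (nat_lit 271) (nat_lit 180))) (XT.nd (nat_lit 78) (nat_lit 152) (nat_lit 0) (XT.lf (nat_lit 0) (nat_lit 12409021047) (nat_lit 152) (nat_lit 9147049198) (nat_lit 76) (nat_lit 23713138206) (nat_lit 31) (nat_lit 5) (nat_lit 33) (nat_lit 5) (nat_lit 32) (nat_lit 5) (nat_lit 330) (nat_lit 271) (nat_lit 179)) (XT.lf (nat_lit 0) (nat_lit 18828694687) (nat_lit 152) (nat_lit 6286944257) (nat_lit 228) (nat_lit 21932882103) (nat_lit 29) (nat_lit 5) (nat_lit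 31) (nat_lit 5) (nat_lit 32) (nat_lit 5) (nat_lit 331) (nat_lit 271) (nat_lit 178))))) (XT.nd (nat_lit 312) (nat_lit 304) (nat_lit 0) (XT.nd (nat_lit 156) (nat_lit 152) (nat_lit 0) (XT.nd (nat_lit 78) (nat_lit 152) (nat_lit 0) (XT.lf (nat_lit 0) (nat_lit 38629747876) (nat_lit 228) (nat_lit 643770221) (nat_lit 76) (nat_lit 9638121725) (nat_lit 29) (nat_lit 5) (nat_lit 32) (nat_lit 5) (nat_lit 30) (nat_lit 4) (nat_lit 332) (nat_lit 271) (nat_lit 177)) (XT.lf (nat_lit 0) (nat_lit 2241064314) (nat_lit 152) (nat_lit 22099053130) (nat_lit 76) (nat_lit 26517414221) (nat_lit 27) (nat_lit 5) (nat_lit 29) (nat_lit 5) (nat_lit 28) (nat_lit 5) (nat_lit 333) (nat_lit 271) (nat_lit 176))) (XT.nd (nat_lit 78) (nat_lit 0) (nat_lit 0) (XT.lf (nat_lit 0) (nat_lit 6743873957) (nat_lit 152) (nat_lit 8491656002) (nat_lit 228) (nat_lit 37660398624) (nat_lit 25) (nat_lit 5) (nat_lit 27) (nat_lit 5) (nat_lit 28)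 (nat_lit 5) (nat_lit 334) (nat_lit 271) (nat_lit 175)) (XT.lf (nat_lit 0) (nat_lit 29172673573) (nat_lit 228) (nat_lit 17646457362) (nat_lit 76) (nat_lit 8208330260) (nat_lit 25) (nat_lit 5) (nat_lit 28) (nat_lit 5) (nat_lit 26) (nat_lit 4) (nat_lit 335) (nat_lit 271) (nat_lit 174)))) (XT.nd (nat_lit 156) (nat_lit 152) (nat_lit 0) (XT.nd (nat_lit 78) (nat_lit 76) (nat_lit 0) (XT.lf (nat_lit 0) (nat_lit 12415067840) (nat_lit 76) (nat_lit 31582252939) (nat_lit 152) (nat_lit 13262534544) (nat_lit 24) (nat_lit 5) (nat_lit 25) (nat_lit 5) (nat_lit 26) (nat_lit 4) (nat_lit 336) (nat_lit 271) (nat_lit 173)) (XT.lf (nat_lit 0) (nat_lit 129476669) (nat_lit 152) (nat_lit 15276847059) (nat_lit 76) (nat_lit 44192480555) (nat_lit 23) (nat_lit 5) (nat_lit 25) (nat_lit 5) (nat_lit 24) (nat_lit 5) (nat_lit 337) (nat_lit 271) (nat_lit 172))) (XT.nd (nat_lit 78) (nat_lit 0) (nat_lit 0) (XT.lf (nat_lit 0) (nat_lit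 14076881034) (nat_lit 228) (nat_lit 46142320067) (nat_lit 76) (nat_lit 1826761525) (nat_lit 21) (nat_lit 5) (nat_lit 24) (nat_lit 5) (nat_lit 22) (nat_lit 4) (nat_lit 338) (nat_lit 271) (nat_lit 171)) (XT.lf (nat_lit 0) (nat_lit 29022856241) (nat_lit 228) (nat_lit 15829254643) (nat_lit 76) (nat_lit 19754335570) (nat_lit 21) (nat_lit 5) (nat_lit 24) (nat_lit 5) (nat_lit 22) (nat_lit 4) (nat_lit 339) (nat_lit 271) (nat_lit 170))))))))
noncomputable def xc70 : XT := (XT.nd (nat_lit 35646) (nat_lit 0) (nat_lit 6308) (XT.nd (nat_lit 1092) (nat_lit 304) (nat_lit 0) (XT.nd (nat_lit 546) (nat_lit 380) (nat_lit 0) (XT.nd (nat_lit 234) (nat_lit 76) (nat_lit 0) (XT.nd (nat_lit 78) (nat_lit 152) (nat_lit 0) (XT.lf (nat_lit 0) (nat_lit 16294733340) (nat_lit 76) (nat_lit 28565538631) (nat_lit 152) (nat_lit 22430361665) (nat_lit 20) (nat_lit 5) (nat_lit 21) (nat_lit 5) (nat_lit 22) (nat_lit 4) (nat_lit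 340) (nat_lit 271) (nat_lit 169)) (XT.nd (nat_lit 78) (nat_lit 152) (nat_lit 0) (XT.lf (nat_lit 0) (nat_lit 50333656618) (nat_lit 76) (nat_lit 11306739862) (nat_lit 152) (nat_lit 8464111811) (nat_lit 20) (nat_lit 5) (nat_lit 21) (nat_lit 5) (nat_lit 22) (nat_lit 4) (nat_lit 341) (nat_lit 271) (nat_lit 168)) (XT.lf (nat_lit 0) (nat_lit 6261880059) (nat_lit 152) (nat_lit 59929063208) (nat_lit 76) (nat_lit 6860875666) (nat_lit 18) (nat_lit 5) (nat_lit 20) (nat_lit 5) (nat_lit 19) (nat_lit 4) (nat_lit 342) (nat_lit 271) (nat_lit 167)))) (XT.nd (nat_lit 156) (nat_lit 0) (nat_lit 0) (XT.nd (nat_lit 78) (nat_lit 76) (nat_lit 0) (XT.lf (nat_lit 0) (nat_lit 21859024241) (nat_lit 152) (nat_lit 28288637569) (nat_lit 76) (nat_lit 25987024961) (nat_lit 18) (nat_lit 5) (nat_lit 20) (nat_lit 5) (nat_lit 19) (nat_lit 4) (nat_lit 343) (nat_lit 271) (nat_lit 166)) (XT.lf (nat_lit 0) (nat_lit 5011723042) (nat_lit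 76) (nat_lit 33261636499) (nat_lit 152) (nat_lit 41097221171) (nat_lit 17) (nat_lit 5) (nat_lit 18) (nat_lit 5) (nat_lit 19) (nat_lit 4) (nat_lit 344) (nat_lit 271) (nat_lit 165))) (XT.nd (nat_lit 78) (nat_lit 0) (nat_lit 0) (XT.lf (nat_lit 0) (nat_lit 40548937876) (nat_lit 76) (nat_lit 15240169086) (nat_lit 152) (nat_lit 26970744129) (nat_lit 17) (nat_lit 5) (nat_lit 18) (nat_lit 5) (nat_lit 19) (nat_lit 4) (nat_lit 345) (nat_lit 271) (nat_lit 164)) (XT.lf (nat_lit 0) (nat_lit 74205947705) (nat_lit 152) (nat_lit 8509584420) (nat_lit 0) (nat_lit 3602296158) (nat_lit 17) (nat_lit 5) (nat_lit 19) (nat_lit 4) (nat_lit 17) (nat_lit 4) (nat_lit 346) (nat_lit 271) (nat_lit 163))))) (XT.nd (nat_lit 234) (nat_lit 152) (nat_lit 0) (XT.nd (nat_lit 78) (nat_lit 76) (nat_lit 0) (XT.lf (nat_lit 0) (nat_lit 3831871153) (nat_lit 152) (nat_lit 62842347312) (nat_lit 76) (nat_lit 23366180357) (nat_lit 15)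 (nat_lit 5) (nat_lit 17) (nat_lit 5) (nat_lit 16) (nat_lit 4) (nat_lit 347) (nat_lit 271) (nat_lit 162)) (XT.nd (nat_lit 78) (nat_lit 76) (nat_lit 0) (XT.lf (nat_lit 0) (nat_lit 20403699642) (nat_lit 152) (nat_lit 29218101392) (nat_lit 76) (nat_lit 44321260002) (nat_lit 15) (nat_lit 5) (nat_lit 17) (nat_lit 5) (nat_lit 16) (nat_lit 4) (nat_lit 348) (nat_lit 271) (nat_lit 161)) (XT.lf (nat_lit 0) (nat_lit 6191595702) (nat_lit 76) (nat_lit 31663076430) (nat_lit 152) (nat_lit 60184669729) (nat_lit 14) (nat_lit 5) (nat_lit 15) (nat_lit 5) (nat_lit 16) (nat_lit 4) (nat_lit 349) (nat_lit 271) (nat_lit 160)))) (XT.nd (nat_lit 156) (nat_lit 152) (nat_lit 0) (XT.nd (nat_lit 78) (nat_lit 0) (nat_lit 0) (XT.lf (nat_lit 0) (nat_lit 43966243885) (nat_lit 76) (nat_lit 12504031180) (nat_lit 152) (nat_lit 45861401183) (nat_lit 14) (nat_lit 5) (nat_lit 15) (nat_lit 5) (nat_lit 16) (nat_lit 4) (nat_lit 350)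 (nat_lit 271) (nat_lit 159)) (XT.lf (nat_lit 0) (nat_lit 76081491952) (nat_lit 152) (nat_lit 23297704936) (nat_lit 0) (nat_lit 7457487334) (nat_lit 14) (nat_lit 5) (nat_lit 16) (nat_lit 4) (nat_lit 14) (nat_lit 4) (nat_lit 351) (nat_lit 271) (nat_lit 158))) (XT.nd (nat_lit 78) (nat_lit 76) (nat_lit 0) (XT.lf (nat_lit 0) (nat_lit 13648756599) (nat_lit 76) (nat_lit 83273970276) (nat_lit 76) (nat_lit 14636733797) (nat_lit 13) (nat_lit 4) (nat_lit 14) (nat_lit 5) (nat_lit 14) (nat_lit 4) (nat_lit 352) (nat_lit 271) (nat_lit 157)) (XT.lf (nat_lit 0) (nat_lit 2477424508) (nat_lit 152) (nat_lit 63620666499) (nat_lit 76) (nat_lit 50412594374) (nat_lit 12) (nat_lit 5) (nat_lit 14) (nat_lit 5) (nat_lit 13) (nat_lit 4) (nat_lit 353) (nat_lit 271) (nat_lit 156)))))) (XT.nd (nat_lit 546) (nat_lit 152) (nat_lit 0) (XT.nd (nat_lit 234) (nat_lit 76) (nat_lit 0) (XT.nd (nat_lit 78) (nat_lit 76) (nat_lit 0)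 (XT.lf (nat_lit 0) (nat_lit 20139978650) (nat_lit 152) (nat_lit 27777683280) (nat_lit 76) (nat_lit 73787601489) (nat_lit 12) (nat_lit 5) (nat_lit 14) (nat_lit 5) (nat_lit 13) (nat_lit 4) (nat_lit 354) (nat_lit 271) (nat_lit 155)) (XT.nd (nat_lit 78) (nat_lit 0) (nat_lit 0) (XT.lf (nat_lit 0) (nat_lit 10040203798) (nat_lit 76) (nat_lit 28734906505) (nat_lit 152) (nat_lit 88381778063) (nat_lit 11) (nat_lit 5) (nat_lit 12) (nat_lit 5) (nat_lit 13) (nat_lit 4) (nat_lit 355) (nat_lit 271) (nat_lit 154)) (XT.lf (nat_lit 0) (nat_lit 50316668667) (nat_lit 76) (nat_lit 8304427229) (nat_lit 152) (nat_lit 74251627177) (nat_lit 11) (nat_lit 5) (nat_lit 12) (nat_lit 5) (nat_lit 13) (nat_lit 4) (nat_lit 356) (nat_lit 271) (nat_lit 153)))) (XT.nd (nat_lit 156) (nat_lit 76) (nat_lit 0) (XT.nd (nat_lit 78) (nat_lit 0) (nat_lit 0) (XT.lf (nat_lit 0) (nat_lit 79579185720) (nat_lit 152) (nat_lit 46406097440)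 (nat_lit 0) (nat_lit 12885473571) (nat_lit 11) (nat_lit 5) (nat_lit 13) (nat_lit 4) (nat_lit 11) (nat_lit 4) (nat_lit 357) (nat_lit 271) (nat_lit 152)) (XT.lf (nat_lit 0) (nat_lit 101662734256) (nat_lit 152) (nat_lit 8544196613) (nat_lit 0) (nat_lit 34959435875) (nat_lit 11) (nat_lit 5) (nat_lit 13) (nat_lit 4) (nat_lit 11) (nat_lit 4) (nat_lit 358) (nat_lit 271) (nat_lit 151))) (XT.nd (nat_lit 78) (nat_lit 0) (nat_lit 0) (XT.lf (nat_lit 0) (nat_lit 31820556359) (nat_lit 76) (nat_lit 93329816442) (nat_lit 76) (nat_lit 26617388316) (nat_lit 10) (nat_lit 4) (nat_lit 11) (nat_lit 5) (nat_lit 11) (nat_lit 4) (nat_lit 359) (nat_lit 271) (nat_lit 150)) (XT.lf (nat_lit 0) (nat_lit 74371239371) (nat_lit 76) (nat_lit 75523322539) (nat_lit 76) (nat_lit 8802199418) (nat_lit 10) (nat_lit 4) (nat_lit 11) (nat_lit 5) (nat_lit 11) (nat_lit 4) (nat_lit 360) (nat_lit 271) (nat_lit 149))))) (XT.nd (nat_lit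 33696) (nat_lit 0) (nat_lit 18240) (XT.nd (nat_lit 78) (nat_lit 76) (nat_lit 0) (XT.lf (nat_lit 0) (nat_lit 9704924658) (nat_lit 152) (nat_lit 47028407010) (nat_lit 76) (nat_lit 109236191938) (nat_lit 9) (nat_lit 5) (nat_lit 11) (nat_lit 5) (nat_lit 10) (nat_lit 4) (nat_lit 361) (nat_lit 271) (nat_lit 148)) (XT.nd (nat_lit 78) (nat_lit 76) (nat_lit 0) (XT.lf (nat_lit 0) (nat_lit 28951752812) (nat_lit 152) (nat_lit 7965232475) (nat_lit 76) (nat_lit 136686433508) (nat_lit 9) (nat_lit 5) (nat_lit 11) (nat_lit 5) (nat_lit 10) (nat_lit 4) (nat_lit 362) (nat_lit 271) (nat_lit 147)) (XT.lf (nat_lit 0) (nat_lit 33699214381) (nat_lit 76) (nat_lit 15780596519) (nat_lit 152) (nat_lit 132129632175) (nat_lit 8) (nat_lit 5) (nat_lit 9) (nat_lit 5) (nat_lit 10) (nat_lit 4) (nat_lit 363) (nat_lit 271) (nat_lit 146)))) (XT.nd (nat_lit 156) (nat_lit 0) (nat_lit 76) (XT.nd (nat_lit 78) (nat_lit 0) (nat_lit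 0) (XT.lf (nat_lit 0) (nat_lit 1324308014) (nat_lit 988) (nat_lit 1371805644) (nat_lit 988) (nat_lit 1371805644) (nat_lit 248) (nat_lit 3) (nat_lit 261) (nat_lit 3) (nat_lit 261) (nat_lit 5) (nat_lit 272) (nat_lit 272) (nat_lit 236)) (XT.lf (nat_lit 76) (nat_lit 3594487564) (nat_lit 0) (nat_lit 972687359) (nat_lit 988) (nat_lit 3714323540) (nat_lit 249) (nat_lit 5) (nat_lit 248) (nat_lit 3) (nat_lit 261) (nat_lit 5) (nat_lit 273) (nat_lit 272) (nat_lit 235))) (XT.nd (nat_lit 78) (nat_lit 0) (nat_lit 76) (XT.lf (nat_lit 76) (nat_lit 1807593799) (nat_lit 0) (nat_lit 4738810250) (nat_lit 988) (nat_lit 1889233631) (nat_lit 250) (nat_lit 5) (nat_lit 249) (nat_lit 5) (nat_lit 262) (nat_lit 5) (nat_lit 274) (nat_lit 272) (nat_lit 234)) (XT.lf (nat_lit 76) (nat_lit 52391307) (nat_lit 0) (nat_lit 8519968169) (nat_lit 988) (nat_lit 26823474) (nat_lit 251) (nat_lit 5) (nat_lit 250) (nat_lit 5) (nat_lit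 263) (nat_lit 5) (nat_lit 275) (nat_lit 272) (nat_lit 233))))))) (XT.nd (nat_lit 1092) (nat_lit 5548) (nat_lit 0) (XT.nd (nat_lit 546) (nat_lit 4636) (nat_lit 0) (XT.nd (nat_lit 234) (nat_lit 912) (nat_lit 0) (XT.nd (nat_lit 78) (nat_lit 0) (nat_lit 76) (XT.lf (nat_lit 0) (nat_lit 1900267935) (nat_lit 988) (nat_lit 1698314737) (nat_lit 1064) (nat_lit 5171612799) (nat_lit 237) (nat_lit 5) (nat_lit 250) (nat_lit 5) (nat_lit 251) (nat_lit 5) (nat_lit 276) (nat_lit 272) (nat_lit 232)) (XT.nd (nat_lit 78) (nat_lit 0) (nat_lit 0) (XT.lf (nat_lit 0) (nat_lit 3889934727) (nat_lit 988) (nat_lit 3431517517) (nat_lit 1064) (nat_lit 1629411410) (nat_lit 238) (nat_lit 5) (nat_lit 251) (nat_lit 5) (nat_lit 252) (nat_lit 5) (nat_lit 277) (nat_lit 272) (nat_lit 231)) (XT.lf (nat_lit 76) (nat_lit 3968193828) (nat_lit 0) (nat_lit 2005210383) (nat_lit 1064) (nat_lit 3167442193) (nat_lit 239) (nat_lit 5) (nat_lit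 238) (nat_lit 5) (nat_lit 252) (nat_lit 5) (nat_lit 278) (nat_lit 272) (nat_lit 230)))) (XT.nd (nat_lit 156) (nat_lit 0) (nat_lit 76) (XT.nd (nat_lit 78) (nat_lit 1064) (nat_lit 0) (XT.lf (nat_lit 76) (nat_lit 2415337352) (nat_lit 0) (nat_lit 5745506538) (nat_lit 1064) (nat_lit 1179595962) (nat_lit 240) (nat_lit 5) (nat_lit 239) (nat_lit 5) (nat_lit 253) (nat_lit 5) (nat_lit 279) (nat_lit 272) (nat_lit 229)) (XT.lf (nat_lit 76) (nat_lit 862378991) (nat_lit 0) (nat_lit 19214039) (nat_lit 1140) (nat_lit 8668505860) (nat_lit 226) (nat_lit 5) (nat_lit 225) (nat_lit 5) (nat_lit 240) (nat_lit 5) (nat_lit 280) (nat_lit 272) (nat_lit 228))) (XT.nd (nat_lit 78) (nat_lit 0) (nat_lit 76) (XT.lf (nat_lit 0) (nat_lit 3064530352) (nat_lit 1064) (nat_lit 722717314) (nat_lit 1140) (nat_lit 5981443167) (nat_lit 226) (nat_lit 5) (nat_lit 240) (nat_lit 5) (nat_lit 241) (nat_lit 5) (nat_lit 281) (nat_lit 272)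 (nat_lit 227)) (XT.lf (nat_lit 0) (nat_lit 5371313244) (nat_lit 1064) (nat_lit 2295381834) (nat_lit 76) (nat_lit 2331164784) (nat_lit 227) (nat_lit 5) (nat_lit 241) (nat_lit 5) (nat_lit 228) (nat_lit 5) (nat_lit 282) (nat_lit 272) (nat_lit 226))))) (XT.nd (nat_lit 234) (nat_lit 1748) (nat_lit 0) (XT.nd (nat_lit 78) (nat_lit 1976) (nat_lit 0) (XT.lf (nat_lit 0) (nat_lit 6345457662) (nat_lit 1064) (nat_lit 1475576959) (nat_lit 1140) (nat_lit 2416708979) (nat_lit 213) (nat_lit 5) (nat_lit 227) (nat_lit 5) (nat_lit 228) (nat_lit 5) (nat_lit 283) (nat_lit 272) (nat_lit 225)) (XT.nd (nat_lit 78) (nat_lit 836) (nat_lit 0) (XT.lf (nat_lit 0) (nat_lit 4959201229) (nat_lit 1140) (nat_lit 5478012136) (nat_lit 1216) (nat_lit 51169248) (nat_lit 198) (nat_lit 5) (nat_lit 213) (nat_lit 5) (nat_lit 214) (nat_lit 5) (nat_lit 284) (nat_lit 272) (nat_lit 224)) (XT.lf (nat_lit 0) (nat_lit 2412010810) (nat_lit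 836) (nat_lit 7212723839) (nat_lit 76) (nat_lit 1125386593) (nat_lit 187) (nat_lit 5) (nat_lit 198) (nat_lit 5) (nat_lit 188) (nat_lit 5) (nat_lit 285) (nat_lit 272) (nat_lit 223)))) (XT.nd (nat_lit 156) (nat_lit 608) (nat_lit 0) (XT.nd (nat_lit 78) (nat_lit 532) (nat_lit 0) (XT.lf (nat_lit 0) (nat_lit 2067150309) (nat_lit 608) (nat_lit 2992078476) (nat_lit 684) (nat_lit 5963915352) (nat_lit 179) (nat_lit 5) (nat_lit 187) (nat_lit 5) (nat_lit 188) (nat_lit 5) (nat_lit 286) (nat_lit 272) (nat_lit 222)) (XT.lf (nat_lit 0) (nat_lit 559490157) (nat_lit 532) (nat_lit 7329927207) (nat_lit 608) (nat_lit 3418949806) (nat_lit 172) (nat_lit 5) (nat_lit 179) (nat_lit 5) (nat_lit 180) (nat_lit 5) (nat_lit 287) (nat_lit 272) (nat_lit 221))) (XT.nd (nat_lit 78) (nat_lit 608) (nat_lit 0) (XT.lf (nat_lit 0) (nat_lit 10642351075) (nat_lit 532) (nat_lit 275539115) (nat_lit 608) (nat_lit 688321999) (nat_lit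 172) (nat_lit 5) (nat_lit 179) (nat_lit 5) (nat_lit 180) (nat_lit 5) (nat_lit 288) (nat_lit 272) (nat_lit 220)) (XT.lf (nat_lit 0) (nat_lit 2233542943) (nat_lit 608) (nat_lit 2577099971) (nat_lit 76) (nat_lit 7104820785) (nat_lit 164) (nat_lit 5) (nat_lit 172) (nat_lit 5) (nat_lit 165) (nat_lit 5) (nat_lit 289) (nat_lit 272) (nat_lit 219)))))) (XT.nd (nat_lit 546) (nat_lit 2584) (nat_lit 0) (XT.nd (nat_lit 234) (nat_lit 1444) (nat_lit 0) (XT.nd (nat_lit 78) (nat_lit 988) (nat_lit 0) (XT.lf (nat_lit 0) (nat_lit 5342781267) (nat_lit 608) (nat_lit 4245535545) (nat_lit 76) (nat_lit 2650047481) (nat_lit 157) (nat_lit 5) (nat_lit 165) (nat_lit 5) (nat_lit 158) (nat_lit 5) (nat_lit 290) (nat_lit 272) (nat_lit 218)) (XT.nd (nat_lit 78) (nat_lit 456) (nat_lit 0) (XT.lf (nat_lit 0) (nat_lit 6585176125) (nat_lit 532) (nat_lit 2102727268) (nat_lit 608) (nat_lit 3887147608) (nat_lit 150) (nat_lit 5) (nat_lit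 157) (nat_lit 5) (nat_lit 158) (nat_lit 5) (nat_lit 291) (nat_lit 272) (nat_lit 217)) (XT.lf (nat_lit 0) (nat_lit 5099744786) (nat_lit 456) (nat_lit 7192946024) (nat_lit 532) (nat_lit 633160143) (nat_lit 144) (nat_lit 5) (nat_lit 150) (nat_lit 5) (nat_lit 151) (nat_lit 5) (nat_lit 292) (nat_lit 272) (nat_lit 216)))) (XT.nd (nat_lit 156) (nat_lit 532) (nat_lit 0) (XT.nd (nat_lit 78) (nat_lit 380) (nat_lit 0) (XT.lf (nat_lit 0) (nat_lit 2799234170) (nat_lit 532) (nat_lit 9763835585) (nat_lit 76) (nat_lit 728265041) (nat_lit 137) (nat_lit 5) (nat_lit 144) (nat_lit 5) (nat_lit 138) (nat_lit 5) (nat_lit 293) (nat_lit 272) (nat_lit 215)) (XT.lf (nat_lit 0) (nat_lit 1833672373) (nat_lit 380) (nat_lit 4675543767) (nat_lit 456) (nat_lit 7162161817) (nat_lit 132) (nat_lit 5) (nat_lit 137) (nat_lit 5) (nat_lit 138) (nat_lit 5) (nat_lit 294) (nat_lit 272) (nat_lit 214))) (XT.nd (nat_lit 78) (nat_lit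 76) (nat_lit 0) (XT.lf (nat_lit 0) (nat_lit 51354455) (nat_lit 456) (nat_lit 10439199262) (nat_lit 532) (nat_lit 3577336790) (nat_lit 126) (nat_lit 5) (nat_lit 132) (nat_lit 5) (nat_lit 133) (nat_lit 5) (nat_lit 295) (nat_lit 272) (nat_lit 213)) (XT.lf (nat_lit 0) (nat_lit 303852258) (nat_lit 532) (nat_lit 1809451162) (nat_lit 76) (nat_lit 12367288111) (nat_lit 125) (nat_lit 5) (nat_lit 132) (nat_lit 5) (nat_lit 126) (nat_lit 5) (nat_lit 296) (nat_lit 272) (nat_lit 212))))) (XT.nd (nat_lit 312) (nat_lit 988) (nat_lit 0) (XT.nd (nat_lit 156) (nat_lit 836) (nat_lit 0) (XT.nd (nat_lit 78) (nat_lit 380) (nat_lit 0) (XT.lf (nat_lit 0) (nat_lit 4430701954) (nat_lit 456) (nat_lit 3845056021) (nat_lit 76) (nat_lit 6633377277) (nat_lit 120) (nat_lit 5) (nat_lit 126) (nat_lit 5) (nat_lit 121) (nat_lit 5) (nat_lit 297) (nat_lit 272) (nat_lit 211)) (XT.lf (nat_lit 0) (nat_lit 8853469253) (nat_lit 456)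 (nat_lit 5997451268) (nat_lit 76) (nat_lit 505534385) (nat_lit 115) (nat_lit 5) (nat_lit 121) (nat_lit 5) (nat_lit 116) (nat_lit 5) (nat_lit 298) (nat_lit 272) (nat_lit 210))) (XT.nd (nat_lit 78) (nat_lit 456) (nat_lit 0) (XT.lf (nat_lit 0) (nat_lit 7483535218) (nat_lit 380) (nat_lit 6165256511) (nat_lit 456) (nat_lit 2172840597) (nat_lit 110) (nat_lit 5) (nat_lit 115) (nat_lit 5) (nat_lit 116) (nat_lit 5) (nat_lit 299) (nat_lit 272) (nat_lit 209)) (XT.lf (nat_lit 0) (nat_lit 2429267737) (nat_lit 456) (nat_lit 10854129185) (nat_lit 76) (nat_lit 3022965514) (nat_lit 104) (nat_lit 5) (nat_lit 110) (nat_lit 5) (nat_lit 105) (nat_lit 5) (nat_lit 300) (nat_lit 272) (nat_lit 208)))) (XT.nd (nat_lit 156) (nat_lit 380) (nat_lit 0) (XT.nd (nat_lit 78) (nat_lit 304) (nat_lit 0) (XT.lf (nat_lit 0) (nat_lit 3215294979) (nat_lit 304) (nat_lit 4139958530) (nat_lit 380) (nat_lit 9455299045) (nat_lit 100)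 (nat_lit 5) (nat_lit 104) (nat_lit 5) (nat_lit 105) (nat_lit 5) (nat_lit 301) (nat_lit 272) (nat_lit 207)) (XT.lf (nat_lit 0) (nat_lit 784628830) (nat_lit 304) (nat_lit 11875573871) (nat_lit 380) (nat_lit 4675798310) (nat_lit 96) (nat_lit 5) (nat_lit 100) (nat_lit 5) (nat_lit 101) (nat_lit 5) (nat_lit 302) (nat_lit 272) (nat_lit 206))) (XT.nd (nat_lit 78) (nat_lit 304) (nat_lit 0) (XT.lf (nat_lit 0) (nat_lit 479889184) (nat_lit 380) (nat_lit 1817088939) (nat_lit 76) (nat_lit 15586354577) (nat_lit 95) (nat_lit 5) (nat_lit 100) (nat_lit 5) (nat_lit 96) (nat_lit 5) (nat_lit 303) (nat_lit 272) (nat_lit 205)) (XT.lf (nat_lit 0) (nat_lit 5969329924) (nat_lit 380) (nat_lit 4705642532) (nat_lit 76) (nat_lit 7776514842) (nat_lit 91) (nat_lit 5) (nat_lit 96) (nat_lit 5) (nat_lit 92) (nat_lit 5) (nat_lit 304) (nat_lit 272) (nat_lit 204))))))))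
noncomputable def xc71 : XT := (XT.nd (nat_lit 2184) (nat_lit 1444) (nat_lit 0) (XT.nd (nat_lit 1092) (nat_lit 1824) (nat_lit 0) (XT.nd (nat_lit 546) (nat_lit 1216) (nat_lit 0) (XT.nd (nat_lit 234) (nat_lit 760) (nat_lit 0) (XT.nd (nat_lit 78) (nat_lit 608) (nat_lit 0) (XT.lf (nat_lit 0) (nat_lit 11221431832) (nat_lit 304) (nat_lit 625549078) (nat_lit 380) (nat_lit 7197680686) (nat_lit 87) (nat_lit 5) (nat_lit 91) (nat_lit 5) (nat_lit 92) (nat_lit 5) (nat_lit 305) (nat_lit 272) (nat_lit 203)) (XT.nd (nat_lit 78) (nat_lit 380) (nat_lit 0) (XT.lf (nat_lit 0) (nat_lit 8394026712) (nat_lit 228) (nat_lit 9814407732) (nat_lit 304) (nat_lit 1453385535) (nat_lit 84) (nat_lit 5) (nat_lit 87) (nat_lit 5) (nat_lit 88) (nat_lit 5) (nat_lit 306) (nat_lit 272) (nat_lit 202)) (XT.lf (nat_lit 0) (nat_lit 4599520935) (nat_lit 380) (nat_lit 15032164885) (nat_lit 76) (nat_lit 673529499) (nat_lit 79) (nat_lit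 5) (nat_lit 84) (nat_lit 5) (nat_lit 80) (nat_lit 5) (nat_lit 307) (nat_lit 272) (nat_lit 201)))) (XT.nd (nat_lit 156) (nat_lit 532) (nat_lit 0) (XT.nd (nat_lit 78) (nat_lit 0) (nat_lit 0) (XT.lf (nat_lit 0) (nat_lit 1769055126) (nat_lit 228) (nat_lit 9356186463) (nat_lit 304) (nat_lit 9849120549) (nat_lit 76) (nat_lit 5) (nat_lit 79) (nat_lit 5) (nat_lit 80) (nat_lit 5) (nat_lit 308) (nat_lit 272) (nat_lit 200)) (XT.lf (nat_lit 0) (nat_lit 18115006524) (nat_lit 304) (nat_lit 2012259646) (nat_lit 76) (nat_lit 1545586646) (nat_lit 76) (nat_lit 5) (nat_lit 80) (nat_lit 5) (nat_lit 77) (nat_lit 5) (nat_lit 309) (nat_lit 272) (nat_lit 199))) (XT.nd (nat_lit 78) (nat_lit 228) (nat_lit 0) (XT.lf (nat_lit 0) (nat_lit 3210224756) (nat_lit 304) (nat_lit 6215494682) (nat_lit 76) (nat_lit 12973036114) (nat_lit 72) (nat_lit 5) (nat_lit 76) (nat_lit 5) (nat_lit 73) (nat_lit 5) (nat_lit 310) (nat_lit 272)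 (nat_lit 198)) (XT.lf (nat_lit 0) (nat_lit 10372183916) (nat_lit 304) (nat_lit 10846892064) (nat_lit 76) (nat_lit 1936965633) (nat_lit 69) (nat_lit 5) (nat_lit 73) (nat_lit 5) (nat_lit 70) (nat_lit 5) (nat_lit 311) (nat_lit 272) (nat_lit 197))))) (XT.nd (nat_lit 234) (nat_lit 684) (nat_lit 0) (XT.nd (nat_lit 78) (nat_lit 304) (nat_lit 0) (XT.lf (nat_lit 0) (nat_lit 7954647242) (nat_lit 228) (nat_lit 10144623086) (nat_lit 304) (nat_lit 5845726927) (nat_lit 66) (nat_lit 5) (nat_lit 69) (nat_lit 5) (nat_lit 70) (nat_lit 5) (nat_lit 312) (nat_lit 272) (nat_lit 196)) (XT.nd (nat_lit 78) (nat_lit 0) (nat_lit 0) (XT.lf (nat_lit 0) (nat_lit 1541456149) (nat_lit 304) (nat_lit 21630447239) (nat_lit 76) (nat_lit 1597190206) (nat_lit 62) (nat_lit 5) (nat_lit 66) (nat_lit 5) (nat_lit 63) (nat_lit 5) (nat_lit 313) (nat_lit 272) (nat_lit 195)) (XT.lf (nat_lit 0) (nat_lit 9419122738) (nat_lit 304) (nat_lit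 2278369778) (nat_lit 76) (nat_lit 13927919417) (nat_lit 62) (nat_lit 5) (nat_lit 66) (nat_lit 5) (nat_lit 63) (nat_lit 5) (nat_lit 314) (nat_lit 272) (nat_lit 194)))) (XT.nd (nat_lit 156) (nat_lit 304) (nat_lit 0) (XT.nd (nat_lit 78) (nat_lit 152) (nat_lit 0) (XT.lf (nat_lit 0) (nat_lit 17845694835) (nat_lit 304) (nat_lit 8167524369) (nat_lit 76) (nat_lit 506689869) (nat_lit 59) (nat_lit 5) (nat_lit 63) (nat_lit 5) (nat_lit 60) (nat_lit 5) (nat_lit 315) (nat_lit 272) (nat_lit 193)) (XT.lf (nat_lit 0) (nat_lit 12691766172) (nat_lit 152) (nat_lit 14239891345) (nat_lit 228) (nat_lit 520344597) (nat_lit 57) (nat_lit 5) (nat_lit 59) (nat_lit 5) (nat_lit 60) (nat_lit 5) (nat_lit 316) (nat_lit 272) (nat_lit 192))) (XT.nd (nat_lit 78) (nat_lit 0) (nat_lit 0) (XT.lf (nat_lit 0) (nat_lit 6341351995) (nat_lit 228) (nat_lit 1663707695) (nat_lit 304) (nat_lit 20419710507) (nat_lit 53) (nat_lit 5) (nat_lit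 56) (nat_lit 5) (nat_lit 57) (nat_lit 5) (nat_lit 317) (nat_lit 272) (nat_lit 191)) (XT.lf (nat_lit 0) (nat_lit 17186017866) (nat_lit 304) (nat_lit 793057888) (nat_lit 76) (nat_lit 11459756378) (nat_lit 53) (nat_lit 5) (nat_lit 57) (nat_lit 5) (nat_lit 54) (nat_lit 5) (nat_lit 318) (nat_lit 272) (nat_lit 190)))))) (XT.nd (nat_lit 546) (nat_lit 836) (nat_lit 0) (XT.nd (nat_lit 234) (nat_lit 380) (nat_lit 0) (XT.nd (nat_lit 78) (nat_lit 456) (nat_lit 0) (XT.lf (nat_lit 0) (nat_lit 21934762931) (nat_lit 152) (nat_lit 5095622888) (nat_lit 228) (nat_lit 3467091313) (nat_lit 51) (nat_lit 5) (nat_lit 53) (nat_lit 5) (nat_lit 54) (nat_lit 5) (nat_lit 319) (nat_lit 272) (nat_lit 189)) (XT.nd (nat_lit 78) (nat_lit 152) (nat_lit 0) (XT.lf (nat_lit 0) (nat_lit 5852321097) (nat_lit 304) (nat_lit 17292057588) (nat_lit 76) (nat_lit 8456822414) (nat_lit 47) (nat_lit 5) (nat_lit 51) (nat_lit 5) (nat_lit 48)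 (nat_lit 5) (nat_lit 320) (nat_lit 272) (nat_lit 188)) (XT.lf (nat_lit 0) (nat_lit 5733538336) (nat_lit 152) (nat_lit 10006521241) (nat_lit 228) (nat_lit 17013809582) (nat_lit 45) (nat_lit 5) (nat_lit 47) (nat_lit 5) (nat_lit 48) (nat_lit 5) (nat_lit 321) (nat_lit 272) (nat_lit 187)))) (XT.nd (nat_lit 156) (nat_lit 152) (nat_lit 0) (XT.nd (nat_lit 78) (nat_lit 228) (nat_lit 0) (XT.lf (nat_lit 0) (nat_lit 26316767443) (nat_lit 228) (nat_lit 3761797594) (nat_lit 76) (nat_lit 3879777187) (nat_lit 45) (nat_lit 5) (nat_lit 48) (nat_lit 5) (nat_lit 46) (nat_lit 5) (nat_lit 322) (nat_lit 272) (nat_lit 186)) (XT.lf (nat_lit 0) (nat_lit 2440775921) (nat_lit 228) (nat_lit 14306215040) (nat_lit 76) (nat_lit 18466889555) (nat_lit 42) (nat_lit 5) (nat_lit 45) (nat_lit 5) (nat_lit 43) (nat_lit 5) (nat_lit 323) (nat_lit 272) (nat_lit 185))) (XT.nd (nat_lit 78) (nat_lit 0) (nat_lit 0) (XT.lf (nat_lit 0)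 (nat_lit 10450363963) (nat_lit 152) (nat_lit 2539749591) (nat_lit 228) (nat_lit 23536193121) (nat_lit 40) (nat_lit 5) (nat_lit 42) (nat_lit 5) (nat_lit 43) (nat_lit 5) (nat_lit 324) (nat_lit 272) (nat_lit 184)) (XT.lf (nat_lit 0) (nat_lit 24315012631) (nat_lit 228) (nat_lit 1310353518) (nat_lit 76) (nat_lit 12271552767) (nat_lit 40) (nat_lit 5) (nat_lit 43) (nat_lit 5) (nat_lit 41) (nat_lit 5) (nat_lit 325) (nat_lit 272) (nat_lit 183))))) (XT.nd (nat_lit 234) (nat_lit 456) (nat_lit 0) (XT.nd (nat_lit 78) (nat_lit 228) (nat_lit 0) (XT.lf (nat_lit 0) (nat_lit 25126080602) (nat_lit 152) (nat_lit 11328554845) (nat_lit 228) (nat_lit 2873979208) (nat_lit 38) (nat_lit 5) (nat_lit 40) (nat_lit 5) (nat_lit 41) (nat_lit 5) (nat_lit 326) (nat_lit 272) (nat_lit 182)) (XT.nd (nat_lit 78) (nat_lit 0) (nat_lit 0) (XT.lf (nat_lit 0) (nat_lit 8356075895) (nat_lit 228) (nat_lit 28657196497) (nat_lit 76) (nat_lit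 3811714524) (nat_lit 35) (nat_lit 5) (nat_lit 38) (nat_lit 5) (nat_lit 36) (nat_lit 5) (nat_lit 327) (nat_lit 272) (nat_lit 181)) (XT.lf (nat_lit 0) (nat_lit 20332912588) (nat_lit 228) (nat_lit 2414226113) (nat_lit 76) (nat_lit 19640850302) (nat_lit 35) (nat_lit 5) (nat_lit 38) (nat_lit 5) (nat_lit 36) (nat_lit 5) (nat_lit 328) (nat_lit 272) (nat_lit 180)))) (XT.nd (nat_lit 156) (nat_lit 152) (nat_lit 0) (XT.nd (nat_lit 78) (nat_lit 152) (nat_lit 0) (XT.lf (nat_lit 0) (nat_lit 25611076628) (nat_lit 152) (nat_lit 7526725391) (nat_lit 228) (nat_lit 10884468927) (nat_lit 33) (nat_lit 5) (nat_lit 35) (nat_lit 5) (nat_lit 36) (nat_lit 5) (nat_lit 329) (nat_lit 272) (nat_lit 179)) (XT.lf (nat_lit 0) (nat_lit 1010360450) (nat_lit 152) (nat_lit 36318931749) (nat_lit 76) (nat_lit 8403271605) (nat_lit 31) (nat_lit 5) (nat_lit 33) (nat_lit 5) (nat_lit 32) (nat_lit 5) (nat_lit 330) (nat_lit 272) (nat_lit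 178))) (XT.nd (nat_lit 78) (nat_lit 152) (nat_lit 0) (XT.lf (nat_lit 0) (nat_lit 13528077324) (nat_lit 152) (nat_lit 8724558208) (nat_lit 76) (nat_lit 25264910511) (nat_lit 31) (nat_lit 5) (nat_lit 33) (nat_lit 5) (nat_lit 32) (nat_lit 5) (nat_lit 331) (nat_lit 272) (nat_lit 177)) (XT.lf (nat_lit 0) (nat_lit 20624752336) (nat_lit 152) (nat_lit 6229745832) (nat_lit 228) (nat_lit 22531799779) (nat_lit 29) (nat_lit 5) (nat_lit 31) (nat_lit 5) (nat_lit 32) (nat_lit 5) (nat_lit 332) (nat_lit 272) (nat_lit 176))))))) (XT.nd (nat_lit 1092) (nat_lit 532) (nat_lit 0) (XT.nd (nat_lit 546) (nat_lit 304) (nat_lit 0) (XT.nd (nat_lit 234) (nat_lit 304) (nat_lit 0) (XT.nd (nat_lit 78) (nat_lit 228) (nat_lit 0) (XT.lf (nat_lit 0) (nat_lit 151473774) (nat_lit 76) (nat_lit 40874692602) (nat_lit 152) (nat_lit 10316958138) (nat_lit 28) (nat_lit 5) (nat_lit 29) (nat_lit 5) (nat_lit 30) (nat_lit 4) (nat_lit 333)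 (nat_lit 272) (nat_lit 175)) (XT.nd (nat_lit 78) (nat_lit 152) (nat_lit 0) (XT.lf (nat_lit 0) (nat_lit 2806806575) (nat_lit 152) (nat_lit 22393995127) (nat_lit 76) (nat_lit 28185857766) (nat_lit 27) (nat_lit 5) (nat_lit 29) (nat_lit 5) (nat_lit 28) (nat_lit 5) (nat_lit 334) (nat_lit 272) (nat_lit 174)) (XT.lf (nat_lit 0) (nat_lit 7867859521) (nat_lit 152) (nat_lit 8569094864) (nat_lit 228) (nat_lit 39090449655) (nat_lit 25) (nat_lit 5) (nat_lit 27) (nat_lit 5) (nat_lit 28) (nat_lit 5) (nat_lit 335) (nat_lit 272) (nat_lit 173)))) (XT.nd (nat_lit 156) (nat_lit 228) (nat_lit 0) (XT.nd (nat_lit 78) (nat_lit 76) (nat_lit 0) (XT.lf (nat_lit 0) (nat_lit 31053197622) (nat_lit 228) (nat_lit 17769946060) (nat_lit 76) (nat_lit 8942908592) (nat_lit 25) (nat_lit 5) (nat_lit 28) (nat_lit 5) (nat_lit 26) (nat_lit 4) (nat_lit 336) (nat_lit 272) (nat_lit 172)) (XT.lf (nat_lit 0) (nat_lit 13772903572) (nat_lit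 76) (nat_lit 32833168885) (nat_lit 152) (nat_lit 13504389758) (nat_lit 24) (nat_lit 5) (nat_lit 25) (nat_lit 5) (nat_lit 26) (nat_lit 4) (nat_lit 337) (nat_lit 272) (nat_lit 171))) (XT.nd (nat_lit 78) (nat_lit 152) (nat_lit 0) (XT.lf (nat_lit 0) (nat_lit 529332396) (nat_lit 152) (nat_lit 15330766846) (nat_lit 76) (nat_lit 46706733485) (nat_lit 23) (nat_lit 5) (nat_lit 25) (nat_lit 5) (nat_lit 24) (nat_lit 5) (nat_lit 338) (nat_lit 272) (nat_lit 170)) (XT.lf (nat_lit 0) (nat_lit 15164966621) (nat_lit 228) (nat_lit 47751283408) (nat_lit 76) (nat_lit 2220378421) (nat_lit 21) (nat_lit 5) (nat_lit 24) (nat_lit 5) (nat_lit 22) (nat_lit 4) (nat_lit 339) (nat_lit 272) (nat_lit 169))))) (XT.nd (nat_lit 234) (nat_lit 228) (nat_lit 0) (XT.nd (nat_lit 78) (nat_lit 76) (nat_lit 0) (XT.lf (nat_lit 0) (nat_lit 30839943373) (nat_lit 228) (nat_lit 15955810078) (nat_lit 76) (nat_lit 21029936938) (nat_lit 21)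 (nat_lit 5) (nat_lit 24) (nat_lit 5) (nat_lit 22) (nat_lit 4) (nat_lit 340) (nat_lit 272) (nat_lit 168)) (XT.nd (nat_lit 78) (nat_lit 0) (nat_lit 0) (XT.lf (nat_lit 0) (nat_lit 17755317869) (nat_lit 76) (nat_lit 29702694384) (nat_lit 152) (nat_lit 23186415970) (nat_lit 20) (nat_lit 5) (nat_lit 21) (nat_lit 5) (nat_lit 22) (nat_lit 4) (nat_lit 341) (nat_lit 272) (nat_lit 167)) (XT.lf (nat_lit 0) (nat_lit 53465432652) (nat_lit 76) (nat_lit 11594818590) (nat_lit 152) (nat_lit 8539256660) (nat_lit 20) (nat_lit 5) (nat_lit 21) (nat_lit 5) (nat_lit 22) (nat_lit 4) (nat_lit 342) (nat_lit 272) (nat_lit 166)))) (XT.nd (nat_lit 156) (nat_lit 76) (nat_lit 0) (XT.nd (nat_lit 78) (nat_lit 0) (nat_lit 0) (XT.lf (nat_lit 0) (nat_lit 6908426705) (nat_lit 152) (nat_lit 62313990507) (nat_lit 76) (nat_lit 7471905171) (nat_lit 18) (nat_lit 5) (nat_lit 20) (nat_lit 5) (nat_lit 19) (nat_lit 4) (nat_lit 343) (nat_lit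 272) (nat_lit 165)) (XT.lf (nat_lit 0) (nat_lit 23269549400) (nat_lit 152) (nat_lit 29120663865) (nat_lit 76) (nat_lit 27541600706) (nat_lit 18) (nat_lit 5) (nat_lit 20) (nat_lit 5) (nat_lit 19) (nat_lit 4) (nat_lit 344) (nat_lit 272) (nat_lit 164))) (XT.nd (nat_lit 78) (nat_lit 0) (nat_lit 0) (XT.lf (nat_lit 0) (nat_lit 5828020238) (nat_lit 76) (nat_lit 34666896620) (nat_lit 152) (nat_lit 42834880097) (nat_lit 17) (nat_lit 5) (nat_lit 18) (nat_lit 5) (nat_lit 19) (nat_lit 4) (nat_lit 345) (nat_lit 272) (nat_lit 163)) (XT.lf (nat_lit 0) (nat_lit 43115157191) (nat_lit 76) (nat_lit 15756633059) (nat_lit 152) (nat_lit 28017184066) (nat_lit 17) (nat_lit 5) (nat_lit 18) (nat_lit 5) (nat_lit 19) (nat_lit 4) (nat_lit 346) (nat_lit 272) (nat_lit 162)))))) (XT.nd (nat_lit 546) (nat_lit 228) (nat_lit 0) (XT.nd (nat_lit 234) (nat_lit 152) (nat_lit 0) (XT.nd (nat_lit 78) (nat_lit 152) (nat_lit 0) (XT.lf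 (nat_lit 0) (nat_lit 78197757723) (nat_lit 152) (nat_lit 8415747997) (nat_lit 0) (nat_lit 4011699560) (nat_lit 17) (nat_lit 5) (nat_lit 19) (nat_lit 4) (nat_lit 17) (nat_lit 4) (nat_lit 347) (nat_lit 272) (nat_lit 161)) (XT.nd (nat_lit 78) (nat_lit 0) (nat_lit 0) (XT.lf (nat_lit 0) (nat_lit 4299187870) (nat_lit 152) (nat_lit 65474483846) (nat_lit 76) (nat_lit 24760411518) (nat_lit 15) (nat_lit 5) (nat_lit 17) (nat_lit 5) (nat_lit 16) (nat_lit 4) (nat_lit 348) (nat_lit 272) (nat_lit 160)) (XT.lf (nat_lit 0) (nat_lit 21686478109) (nat_lit 152) (nat_lit 30193310431) (nat_lit 76) (nat_lit 46752486948) (nat_lit 15) (nat_lit 5) (nat_lit 17) (nat_lit 5) (nat_lit 16) (nat_lit 4) (nat_lit 349) (nat_lit 272) (nat_lit 159)))) (XT.nd (nat_lit 156) (nat_lit 76) (nat_lit 0) (XT.nd (nat_lit 78) (nat_lit 0) (nat_lit 0) (XT.lf (nat_lit 0) (nat_lit 6972949139) (nat_lit 76) (nat_lit 33029080610) (nat_lit 152)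 (nat_lit 62931582584) (nat_lit 14) (nat_lit 5) (nat_lit 15) (nat_lit 5) (nat_lit 16) (nat_lit 4) (nat_lit 350) (nat_lit 272) (nat_lit 158)) (XT.lf (nat_lit 0) (nat_lit 46613864319) (nat_lit 76) (nat_lit 12922423556) (nat_lit 152) (nat_lit 47904642069) (nat_lit 14) (nat_lit 5) (nat_lit 15) (nat_lit 5) (nat_lit 16) (nat_lit 4) (nat_lit 351) (nat_lit 272) (nat_lit 157))) (XT.nd (nat_lit 78) (nat_lit 76) (nat_lit 0) (XT.lf (nat_lit 0) (nat_lit 80118411343) (nat_lit 152) (nat_lit 24029589822) (nat_lit 0) (nat_lit 8023479406) (nat_lit 14) (nat_lit 5) (nat_lit 16) (nat_lit 4) (nat_lit 14) (nat_lit 4) (nat_lit 352) (nat_lit 272) (nat_lit 156)) (XT.lf (nat_lit 0) (nat_lit 14751782922) (nat_lit 76) (nat_lit 87242880198) (nat_lit 76) (nat_lit 15135946573) (nat_lit 13) (nat_lit 4) (nat_lit 14) (nat_lit 5) (nat_lit 14) (nat_lit 4) (nat_lit 353) (nat_lit 272) (nat_lit 155))))) (XT.nd (nat_lit 312) (nat_lit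 76) (nat_lit 0) (XT.nd (nat_lit 156) (nat_lit 76) (nat_lit 0) (XT.nd (nat_lit 78) (nat_lit 0) (nat_lit 0) (XT.lf (nat_lit 0) (nat_lit 2818519146) (nat_lit 152) (nat_lit 66396769936) (nat_lit 76) (nat_lit 53114367618) (nat_lit 12) (nat_lit 5) (nat_lit 14) (nat_lit 5) (nat_lit 13) (nat_lit 4) (nat_lit 354) (nat_lit 272) (nat_lit 154)) (XT.lf (nat_lit 0) (nat_lit 21353857023) (nat_lit 152) (nat_lit 28780919931) (nat_lit 76) (nat_lit 77649499206) (nat_lit 12) (nat_lit 5) (nat_lit 14) (nat_lit 5) (nat_lit 13) (nat_lit 4) (nat_lit 355) (nat_lit 272) (nat_lit 153))) (XT.nd (nat_lit 78) (nat_lit 0) (nat_lit 0) (XT.lf (nat_lit 0) (nat_lit 10916806992) (nat_lit 76) (nat_lit 29997687683) (nat_lit 152) (nat_lit 92594177296) (nat_lit 11) (nat_lit 5) (nat_lit 12) (nat_lit 5) (nat_lit 13) (nat_lit 4) (nat_lit 356) (nat_lit 272) (nat_lit 152)) (XT.lf (nat_lit 0) (nat_lit 53189257343) (nat_lit 76) (nat_lit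 8553968450) (nat_lit 152) (nat_lit 77767361231) (nat_lit 11) (nat_lit 5) (nat_lit 12) (nat_lit 5) (nat_lit 13) (nat_lit 4) (nat_lit 357) (nat_lit 272) (nat_lit 151)))) (XT.nd (nat_lit 156) (nat_lit 76) (nat_lit 0) (XT.nd (nat_lit 78) (nat_lit 0) (nat_lit 0) (XT.lf (nat_lit 0) (nat_lit 83741638073) (nat_lit 152) (nat_lit 48382654858) (nat_lit 0) (nat_lit 13684458796) (nat_lit 11) (nat_lit 5) (nat_lit 13) (nat_lit 4) (nat_lit 11) (nat_lit 4) (nat_lit 358) (nat_lit 272) (nat_lit 150)) (XT.lf (nat_lit 0) (nat_lit 106920626271) (nat_lit 152) (nat_lit 8644027916) (nat_lit 0) (nat_lit 36854751999) (nat_lit 11) (nat_lit 5) (nat_lit 13) (nat_lit 4) (nat_lit 11) (nat_lit 4) (nat_lit 359) (nat_lit 272) (nat_lit 149))) (XT.nd (nat_lit 78) (nat_lit 0) (nat_lit 0) (XT.lf (nat_lit 0) (nat_lit 33729578465) (nat_lit 76) (nat_lit 97847803353) (nat_lit 76) (nat_lit 27773648134) (nat_lit 10) (nat_lit 4) (nat_lit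 11) (nat_lit 5) (nat_lit 11) (nat_lit 4) (nat_lit 360) (nat_lit 272) (nat_lit 148)) (XT.lf (nat_lit 0) (nat_lit 78392653043) (nat_lit 76) (nat_lit 79158056369) (nat_lit 76) (nat_lit 9076014534) (nat_lit 10) (nat_lit 4) (nat_lit 11) (nat_lit 5) (nat_lit 11) (nat_lit 4) (nat_lit 361) (nat_lit 272) (nat_lit 147))))))))
noncomputable def xc72 : XT := (XT.nd (nat_lit 35724) (nat_lit 0) (nat_lit 2356) (XT.nd (nat_lit 34632) (nat_lit 0) (nat_lit 8436) (XT.nd (nat_lit 34086) (nat_lit 0) (nat_lit 15504) (XT.nd (nat_lit 33774) (nat_lit 0) (nat_lit 17252) (XT.nd (nat_lit 78) (nat_lit 0) (nat_lit 0) (XT.lf (nat_lit 0) (nat_lit 10345456457) (nat_lit 152) (nat_lit 49088276290) (nat_lit 76) (nat_lit 114829578083) (nat_lit 9) (nat_lit 5) (nat_lit 11) (nat_lit 5) (nat_lit 10) (nat_lit 4) (nat_lit 362) (nat_lit 272) (nat_lit 146)) (XT.nd (nat_lit 33618) (nat_lit 0) (nat_lit 18164) (XT.lf (nat_lit 0) (nat_lit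 30547231467) (nat_lit 152) (nat_lit 8085826413) (nat_lit 76) (nat_lit 143646066182) (nat_lit 9) (nat_lit 5) (nat_lit 11) (nat_lit 5) (nat_lit 10) (nat_lit 4) (nat_lit 363) (nat_lit 272) (nat_lit 145)) (XT.lf (nat_lit 0) (nat_lit 3179933682) (nat_lit 988) (nat_lit 517783644) (nat_lit 988) (nat_lit 517783644) (nat_lit 248) (nat_lit 3) (nat_lit 261) (nat_lit 3) (nat_lit 261) (nat_lit 5) (nat_lit 273) (nat_lit 273) (nat_lit 234)))) (XT.nd (nat_lit 156) (nat_lit 0) (nat_lit 0) (XT.nd (nat_lit 78) (nat_lit 912) (nat_lit 0) (XT.lf (nat_lit 76) (nat_lit 5566543516) (nat_lit 0) (nat_lit 2654619649) (nat_lit 988) (nat_lit 367580400) (nat_lit 249) (nat_lit 5) (nat_lit 248) (nat_lit 3) (nat_lit 261) (nat_lit 5) (nat_lit 274) (nat_lit 273) (nat_lit 233)) (XT.lf (nat_lit 0) (nat_lit 1356567661) (nat_lit 988) (nat_lit 5010942747) (nat_lit 1064) (nat_lit 2387679683) (nat_lit 236) (nat_lit 5) (nat_lit 249)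 (nat_lit 5) (nat_lit 250) (nat_lit 5) (nat_lit 275) (nat_lit 273) (nat_lit 232))) (XT.nd (nat_lit 78) (nat_lit 0) (nat_lit 76) (XT.lf (nat_lit 76) (nat_lit 1930254880) (nat_lit 0) (nat_lit 1203669617) (nat_lit 1064) (nat_lit 5796803431) (nat_lit 237) (nat_lit 5) (nat_lit 236) (nat_lit 5) (nat_lit 250) (nat_lit 5) (nat_lit 276) (nat_lit 273) (nat_lit 231)) (XT.lf (nat_lit 76) (nat_lit 109339175) (nat_lit 0) (nat_lit 4886963806) (nat_lit 1064) (nat_lit 4118965800) (nat_lit 238) (nat_lit 5) (nat_lit 237) (nat_lit 5) (nat_lit 251) (nat_lit 5) (nat_lit 277) (nat_lit 273) (nat_lit 230))))) (XT.nd (nat_lit 234) (nat_lit 912) (nat_lit 0) (XT.nd (nat_lit 78) (nat_lit 988) (nat_lit 0) (XT.lf (nat_lit 0) (nat_lit 6949214585) (nat_lit 988) (nat_lit 1667376822) (nat_lit 1064) (nat_lit 692628303) (nat_lit 238) (nat_lit 5) (nat_lit 251) (nat_lit 5) (nat_lit 252) (nat_lit 5) (nat_lit 278) (nat_lit 273) (nat_lit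 229)) (XT.nd (nat_lit 78) (nat_lit 988) (nat_lit 0) (XT.lf (nat_lit 76) (nat_lit 6046833163) (nat_lit 0) (nat_lit 2971680054) (nat_lit 1064) (nat_lit 493893169) (nat_lit 239) (nat_lit 5) (nat_lit 238) (nat_lit 5) (nat_lit 252) (nat_lit 5) (nat_lit 279) (nat_lit 273) (nat_lit 228)) (XT.lf (nat_lit 0) (nat_lit 1440637231) (nat_lit 1064) (nat_lit 5286301623) (nat_lit 1140) (nat_lit 2998372473) (nat_lit 225) (nat_lit 5) (nat_lit 239) (nat_lit 5) (nat_lit 240) (nat_lit 5) (nat_lit 280) (nat_lit 273) (nat_lit 227)))) (XT.nd (nat_lit 156) (nat_lit 912) (nat_lit 0) (XT.nd (nat_lit 78) (nat_lit 0) (nat_lit 76) (XT.lf (nat_lit 76) (nat_lit 2822088045) (nat_lit 0) (nat_lit 650621328) (nat_lit 1140) (nat_lit 6475762998) (nat_lit 226) (nat_lit 5) (nat_lit 225) (nat_lit 5) (nat_lit 240) (nat_lit 5) (nat_lit 281) (nat_lit 273) (nat_lit 226)) (XT.lf (nat_lit 76) (nat_lit 1170445285) (nat_lit 0) (nat_lit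 4478540195) (nat_lit 1140) (nat_lit 4532612216) (nat_lit 227) (nat_lit 5) (nat_lit 226) (nat_lit 5) (nat_lit 241) (nat_lit 5) (nat_lit 282) (nat_lit 273) (nat_lit 225))) (XT.nd (nat_lit 78) (nat_lit 1064) (nat_lit 0) (XT.lf (nat_lit 0) (nat_lit 7957895239) (nat_lit 1064) (nat_lit 481671687) (nat_lit 76) (nat_lit 1986177992) (nat_lit 227) (nat_lit 5) (nat_lit 241) (nat_lit 5) (nat_lit 228) (nat_lit 5) (nat_lit 283) (nat_lit 273) (nat_lit 224)) (XT.lf (nat_lit 0) (nat_lit 8535930314) (nat_lit 1064) (nat_lit 1901796983) (nat_lit 1140) (nat_lit 242784304) (nat_lit 213) (nat_lit 5) (nat_lit 227) (nat_lit 5) (nat_lit 228) (nat_lit 5) (nat_lit 284) (nat_lit 273) (nat_lit 223)))))) (XT.nd (nat_lit 546) (nat_lit 2812) (nat_lit 0) (XT.nd (nat_lit 234) (nat_lit 1672) (nat_lit 0) (XT.nd (nat_lit 78) (nat_lit 1368) (nat_lit 0) (XT.lf (nat_lit 0) (nat_lit 2105248413) (nat_lit 1216) (nat_lit 3870070604)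 (nat_lit 76) (nat_lit 4970587527) (nat_lit 197) (nat_lit 5) (nat_lit 213) (nat_lit 5) (nat_lit 198) (nat_lit 5) (nat_lit 285) (nat_lit 273) (nat_lit 222)) (XT.nd (nat_lit 78) (nat_lit 608) (nat_lit 0) (XT.lf (nat_lit 0) (nat_lit 4603986821) (nat_lit 836) (nat_lit 5627646564) (nat_lit 76) (nat_lit 991783264) (nat_lit 187) (nat_lit 5) (nat_lit 198) (nat_lit 5) (nat_lit 188) (nat_lit 5) (nat_lit 286) (nat_lit 273) (nat_lit 221)) (XT.lf (nat_lit 0) (nat_lit 4060447806) (nat_lit 608) (nat_lit 3242648221) (nat_lit 684) (nat_lit 4209507293) (nat_lit 179) (nat_lit 5) (nat_lit 187) (nat_lit 5) (nat_lit 188) (nat_lit 5) (nat_lit 287) (nat_lit 273) (nat_lit 220)))) (XT.nd (nat_lit 156) (nat_lit 532) (nat_lit 0) (XT.nd (nat_lit 78) (nat_lit 608) (nat_lit 0) (XT.lf (nat_lit 0) (nat_lit 2484102083) (nat_lit 532) (nat_lit 7713194223) (nat_lit 608) (nat_lit 1617209980) (nat_lit 172) (nat_lit 5) (nat_lit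 179) (nat_lit 5) (nat_lit 180) (nat_lit 5) (nat_lit 288) (nat_lit 273) (nat_lit 219)) (XT.lf (nat_lit 0) (nat_lit 856321221) (nat_lit 532) (nat_lit 285364035) (nat_lit 608) (nat_lit 10987800808) (nat_lit 164) (nat_lit 5) (nat_lit 171) (nat_lit 5) (nat_lit 172) (nat_lit 5) (nat_lit 289) (nat_lit 273) (nat_lit 218))) (XT.nd (nat_lit 78) (nat_lit 532) (nat_lit 0) (XT.lf (nat_lit 0) (nat_lit 4117009100) (nat_lit 608) (nat_lit 859509234) (nat_lit 76) (nat_lit 7479911973) (nat_lit 164) (nat_lit 5) (nat_lit 172) (nat_lit 5) (nat_lit 165) (nat_lit 5) (nat_lit 290) (nat_lit 273) (nat_lit 217)) (XT.lf (nat_lit 0) (nat_lit 7315432994) (nat_lit 608) (nat_lit 2612434800) (nat_lit 76) (nat_lit 2869675136) (nat_lit 157) (nat_lit 5) (nat_lit 165) (nat_lit 5) (nat_lit 158) (nat_lit 5) (nat_lit 291) (nat_lit 273) (nat_lit 216))))) (XT.nd (nat_lit 234) (nat_lit 1292) (nat_lit 0) (XT.nd (nat_lit 78) (nat_lit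 988) (nat_lit 0) (XT.lf (nat_lit 0) (nat_lit 8706915077) (nat_lit 532) (nat_lit 2056911676) (nat_lit 608) (nat_lit 2389231716) (nat_lit 150) (nat_lit 5) (nat_lit 157) (nat_lit 5) (nat_lit 158) (nat_lit 5) (nat_lit 292) (nat_lit 273) (nat_lit 215)) (XT.nd (nat_lit 78) (nat_lit 456) (nat_lit 0) (XT.lf (nat_lit 0) (nat_lit 947156486) (nat_lit 532) (nat_lit 6388831216) (nat_lit 76) (nat_lit 6186991213) (nat_lit 143) (nat_lit 5) (nat_lit 150) (nat_lit 5) (nat_lit 144) (nat_lit 5) (nat_lit 293) (nat_lit 273) (nat_lit 214)) (XT.lf (nat_lit 0) (nat_lit 4481280203) (nat_lit 532) (nat_lit 8436765733) (nat_lit 76) (nat_lit 990272827) (nat_lit 137) (nat_lit 5) (nat_lit 144) (nat_lit 5) (nat_lit 138) (nat_lit 5) (nat_lit 294) (nat_lit 273) (nat_lit 213)))) (XT.nd (nat_lit 156) (nat_lit 456) (nat_lit 0) (XT.nd (nat_lit 78) (nat_lit 456) (nat_lit 0) (XT.lf (nat_lit 0) (nat_lit 3688583513) (nat_lit 380)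 (nat_lit 4631694394) (nat_lit 456) (nat_lit 5988843545) (nat_lit 132) (nat_lit 5) (nat_lit 137) (nat_lit 5) (nat_lit 138) (nat_lit 5) (nat_lit 295) (nat_lit 273) (nat_lit 212)) (XT.lf (nat_lit 0) (nat_lit 1808526746) (nat_lit 456) (nat_lit 10640820681) (nat_lit 532) (nat_lit 2277712126) (nat_lit 126) (nat_lit 5) (nat_lit 132) (nat_lit 5) (nat_lit 133) (nat_lit 5) (nat_lit 296) (nat_lit 273) (nat_lit 211))) (XT.nd (nat_lit 78) (nat_lit 380) (nat_lit 0) (XT.lf (nat_lit 0) (nat_lit 1699655166) (nat_lit 532) (nat_lit 200287640) (nat_lit 76) (nat_lit 13262152734) (nat_lit 125) (nat_lit 5) (nat_lit 132) (nat_lit 5) (nat_lit 126) (nat_lit 5) (nat_lit 297) (nat_lit 273) (nat_lit 210)) (XT.lf (nat_lit 0) (nat_lit 5986051381) (nat_lit 456) (nat_lit 2348493605) (nat_lit 76) (nat_lit 7278978067) (nat_lit 120) (nat_lit 5) (nat_lit 126) (nat_lit 5) (nat_lit 121) (nat_lit 5) (nat_lit 298) (nat_lit 273)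 (nat_lit 209))))))) (XT.nd (nat_lit 1092) (nat_lit 2204) (nat_lit 0) (XT.nd (nat_lit 546) (nat_lit 1672) (nat_lit 0) (XT.nd (nat_lit 234) (nat_lit 988) (nat_lit 0) (XT.nd (nat_lit 78) (nat_lit 836) (nat_lit 0) (XT.lf (nat_lit 0) (nat_lit 10585616771) (nat_lit 456) (nat_lit 4620737921) (nat_lit 76) (nat_lit 878234423) (nat_lit 115) (nat_lit 5) (nat_lit 121) (nat_lit 5) (nat_lit 116) (nat_lit 5) (nat_lit 299) (nat_lit 273) (nat_lit 208)) (XT.nd (nat_lit 78) (nat_lit 456) (nat_lit 0) (XT.lf (nat_lit 0) (nat_lit 9486238891) (nat_lit 380) (nat_lit 6088717350) (nat_lit 456) (nat_lit 999489462) (nat_lit 110) (nat_lit 5) (nat_lit 115) (nat_lit 5) (nat_lit 116) (nat_lit 5) (nat_lit 300) (nat_lit 273) (nat_lit 207)) (XT.lf (nat_lit 0) (nat_lit 3767091823) (nat_lit 456) (nat_lit 9756319389) (nat_lit 76) (nat_lit 3560894112) (nat_lit 104) (nat_lit 5) (nat_lit 110) (nat_lit 5) (nat_lit 105) (nat_lit 5)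 (nat_lit 301) (nat_lit 273) (nat_lit 206)))) (XT.nd (nat_lit 156) (nat_lit 380) (nat_lit 0) (XT.nd (nat_lit 78) (nat_lit 304) (nat_lit 0) (XT.lf (nat_lit 0) (nat_lit 4969550914) (nat_lit 304) (nat_lit 3927221644) (nat_lit 380) (nat_lit 8718252635) (nat_lit 100) (nat_lit 5) (nat_lit 104) (nat_lit 5) (nat_lit 105) (nat_lit 5) (nat_lit 302) (nat_lit 273) (nat_lit 205)) (XT.lf (nat_lit 0) (nat_lit 2402776739) (nat_lit 304) (nat_lit 12027319438) (nat_lit 380) (nat_lit 3737796197) (nat_lit 96) (nat_lit 5) (nat_lit 100) (nat_lit 5) (nat_lit 101) (nat_lit 5) (nat_lit 303) (nat_lit 273) (nat_lit 204))) (XT.nd (nat_lit 78) (nat_lit 304) (nat_lit 0) (XT.lf (nat_lit 0) (nat_lit 1598099020) (nat_lit 380) (nat_lit 381694649) (nat_lit 76) (nat_lit 16764137468) (nat_lit 95) (nat_lit 5) (nat_lit 100) (nat_lit 5) (nat_lit 96) (nat_lit 5) (nat_lit 304) (nat_lit 273) (nat_lit 203)) (XT.lf (nat_lit 0) (nat_lit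 7328253296) (nat_lit 380) (nat_lit 3430124608) (nat_lit 76) (nat_lit 8583163638) (nat_lit 91) (nat_lit 5) (nat_lit 96) (nat_lit 5) (nat_lit 92) (nat_lit 5) (nat_lit 305) (nat_lit 273) (nat_lit 202))))) (XT.nd (nat_lit 234) (nat_lit 760) (nat_lit 0) (XT.nd (nat_lit 78) (nat_lit 608) (nat_lit 0) (XT.lf (nat_lit 0) (nat_lit 13249996695) (nat_lit 304) (nat_lit 213398633) (nat_lit 380) (nat_lit 6502104611) (nat_lit 87) (nat_lit 5) (nat_lit 91) (nat_lit 5) (nat_lit 92) (nat_lit 5) (nat_lit 306) (nat_lit 273) (nat_lit 201)) (XT.nd (nat_lit 78) (nat_lit 380) (nat_lit 0) (XT.lf (nat_lit 0) (nat_lit 10265510416) (nat_lit 228) (nat_lit 9846661049) (nat_lit 304) (nat_lit 502299315) (nat_lit 84) (nat_lit 5) (nat_lit 87) (nat_lit 5) (nat_lit 88) (nat_lit 5) (nat_lit 307) (nat_lit 273) (nat_lit 200)) (XT.lf (nat_lit 0) (nat_lit 5803650197) (nat_lit 380) (nat_lit 14328338900) (nat_lit 76) (nat_lit 1158669936)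 (nat_lit 79) (nat_lit 5) (nat_lit 84) (nat_lit 5) (nat_lit 80) (nat_lit 5) (nat_lit 308) (nat_lit 273) (nat_lit 199)))) (XT.nd (nat_lit 156) (nat_lit 532) (nat_lit 0) (XT.nd (nat_lit 78) (nat_lit 0) (nat_lit 0) (XT.lf (nat_lit 0) (nat_lit 3271222381) (nat_lit 228) (nat_lit 9351635744) (nat_lit 304) (nat_lit 9371417245) (nat_lit 76) (nat_lit 5) (nat_lit 79) (nat_lit 5) (nat_lit 80) (nat_lit 5) (nat_lit 309) (nat_lit 273) (nat_lit 198)) (XT.lf (nat_lit 0) (nat_lit 19921609297) (nat_lit 304) (nat_lit 743369046) (nat_lit 76) (nat_lit 2063954166) (nat_lit 76) (nat_lit 5) (nat_lit 80) (nat_lit 5) (nat_lit 77) (nat_lit 5) (nat_lit 310) (nat_lit 273) (nat_lit 197))) (XT.nd (nat_lit 78) (nat_lit 228) (nat_lit 0) (XT.lf (nat_lit 0) (nat_lit 4250600858) (nat_lit 304) (nat_lit 5178014465) (nat_lit 76) (nat_lit 14063185183) (nat_lit 72) (nat_lit 5) (nat_lit 76) (nat_lit 5) (nat_lit 73) (nat_lit 5) (nat_lit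 311) (nat_lit 273) (nat_lit 196)) (XT.lf (nat_lit 0) (nat_lit 11745761089) (nat_lit 304) (nat_lit 10058051989) (nat_lit 76) (nat_lit 2483908361) (nat_lit 69) (nat_lit 5) (nat_lit 73) (nat_lit 5) (nat_lit 70) (nat_lit 5) (nat_lit 312) (nat_lit 273) (nat_lit 195)))))) (XT.nd (nat_lit 546) (nat_lit 836) (nat_lit 0) (XT.nd (nat_lit 234) (nat_lit 836) (nat_lit 0) (XT.nd (nat_lit 78) (nat_lit 304) (nat_lit 0) (XT.lf (nat_lit 0) (nat_lit 9645406141) (nat_lit 228) (nat_lit 10185512282) (nat_lit 304) (nat_lit 5286077475) (nat_lit 66) (nat_lit 5) (nat_lit 69) (nat_lit 5) (nat_lit 70) (nat_lit 5) (nat_lit 313) (nat_lit 273) (nat_lit 194)) (XT.nd (nat_lit 78) (nat_lit 0) (nat_lit 0) (XT.lf (nat_lit 0) (nat_lit 2430763701) (nat_lit 304) (nat_lit 21419252493) (nat_lit 76) (nat_lit 2132748317) (nat_lit 62) (nat_lit 5) (nat_lit 66) (nat_lit 5) (nat_lit 63) (nat_lit 5) (nat_lit 314) (nat_lit 273) (nat_lit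 193)) (XT.lf (nat_lit 0) (nat_lit 10663635774) (nat_lit 304) (nat_lit 1161129117) (nat_lit 76) (nat_lit 15058314055) (nat_lit 62) (nat_lit 5) (nat_lit 66) (nat_lit 5) (nat_lit 63) (nat_lit 5) (nat_lit 315) (nat_lit 273) (nat_lit 192)))) (XT.nd (nat_lit 156) (nat_lit 380) (nat_lit 0) (XT.nd (nat_lit 78) (nat_lit 228) (nat_lit 0) (XT.lf (nat_lit 0) (nat_lit 19490498955) (nat_lit 304) (nat_lit 7361511005) (nat_lit 76) (nat_lit 970941008) (nat_lit 59) (nat_lit 5) (nat_lit 63) (nat_lit 5) (nat_lit 60) (nat_lit 5) (nat_lit 316) (nat_lit 273) (nat_lit 191)) (XT.lf (nat_lit 0) (nat_lit 199884731) (nat_lit 228) (nat_lit 14298427348) (nat_lit 76) (nat_lit 14304030653) (nat_lit 56) (nat_lit 5) (nat_lit 59) (nat_lit 5) (nat_lit 57) (nat_lit 5) (nat_lit 317) (nat_lit 273) (nat_lit 190))) (XT.nd (nat_lit 78) (nat_lit 152) (nat_lit 0) (XT.lf (nat_lit 0) (nat_lit 7818745958) (nat_lit 228) (nat_lit 1298277695)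 (nat_lit 304) (nat_lit 20707300873) (nat_lit 53) (nat_lit 5) (nat_lit 56) (nat_lit 5) (nat_lit 57) (nat_lit 5) (nat_lit 318) (nat_lit 273) (nat_lit 189)) (XT.lf (nat_lit 0) (nat_lit 294656335) (nat_lit 152) (nat_lit 18435421835) (nat_lit 228) (nat_lit 12159835786) (nat_lit 51) (nat_lit 5) (nat_lit 53) (nat_lit 5) (nat_lit 54) (nat_lit 5) (nat_lit 319) (nat_lit 273) (nat_lit 188))))) (XT.nd (nat_lit 234) (nat_lit 380) (nat_lit 0) (XT.nd (nat_lit 78) (nat_lit 456) (nat_lit 0) (XT.lf (nat_lit 0) (nat_lit 24120967456) (nat_lit 152) (nat_lit 4920864553) (nat_lit 228) (nat_lit 2960419268) (nat_lit 51) (nat_lit 5) (nat_lit 53) (nat_lit 5) (nat_lit 54) (nat_lit 5) (nat_lit 320) (nat_lit 273) (nat_lit 187)) (XT.nd (nat_lit 78) (nat_lit 152) (nat_lit 0) (XT.lf (nat_lit 0) (nat_lit 6794338715) (nat_lit 304) (nat_lit 17069706987) (nat_lit 76) (nat_lit 9297454251) (nat_lit 47) (nat_lit 5) (nat_lit 51)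 (nat_lit 5) (nat_lit 48) (nat_lit 5) (nat_lit 321) (nat_lit 273) (nat_lit 186)) (XT.lf (nat_lit 0) (nat_lit 7076011430) (nat_lit 152) (nat_lit 10079677763) (nat_lit 228) (nat_lit 17216748763) (nat_lit 45) (nat_lit 5) (nat_lit 47) (nat_lit 5) (nat_lit 48) (nat_lit 5) (nat_lit 322) (nat_lit 273) (nat_lit 185)))) (XT.nd (nat_lit 156) (nat_lit 152) (nat_lit 0) (XT.nd (nat_lit 78) (nat_lit 228) (nat_lit 0) (XT.lf (nat_lit 0) (nat_lit 28235208532) (nat_lit 228) (nat_lit 2930064023) (nat_lit 76) (nat_lit 4472655497) (nat_lit 45) (nat_lit 5) (nat_lit 48) (nat_lit 5) (nat_lit 46) (nat_lit 5) (nat_lit 323) (nat_lit 273) (nat_lit 184)) (XT.lf (nat_lit 0) (nat_lit 3152257196) (nat_lit 228) (nat_lit 14018970193) (nat_lit 76) (nat_lit 19785429758) (nat_lit 42) (nat_lit 5) (nat_lit 45) (nat_lit 5) (nat_lit 43) (nat_lit 5) (nat_lit 324) (nat_lit 273) (nat_lit 183))) (XT.nd (nat_lit 78) (nat_lit 0) (nat_lit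 0) (XT.lf (nat_lit 0) (nat_lit 11946699704) (nat_lit 152) (nat_lit 2263654246) (nat_lit 228) (nat_lit 24124923044) (nat_lit 40) (nat_lit 5) (nat_lit 42) (nat_lit 5) (nat_lit 43) (nat_lit 5) (nat_lit 325) (nat_lit 273) (nat_lit 182)) (XT.lf (nat_lit 0) (nat_lit 26078010308) (nat_lit 228) (nat_lit 435597024) (nat_lit 76) (nat_lit 13261527763) (nat_lit 40) (nat_lit 5) (nat_lit 43) (nat_lit 5) (nat_lit 41) (nat_lit 5) (nat_lit 326) (nat_lit 273) (nat_lit 181))))))))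
noncomputable def xc73 : XT := (XT.nd (nat_lit 2184) (nat_lit 304) (nat_lit 0) (XT.nd (nat_lit 1092) (nat_lit 608) (nat_lit 0) (XT.nd (nat_lit 546) (nat_lit 608) (nat_lit 0) (XT.nd (nat_lit 234) (nat_lit 456) (nat_lit 0) (XT.nd (nat_lit 78) (nat_lit 228) (nat_lit 0) (XT.lf (nat_lit 0) (nat_lit 27295706032) (nat_lit 152) (nat_lit 11511628255) (nat_lit 228) (nat_lit 2471609848) (nat_lit 38) (nat_lit 5) (nat_lit 40) (nat_lit 5) (nat_lit 41) (nat_lit 5) (nat_lit 327) (nat_lit 273) (nat_lit 180)) (XT.nd (nat_lit 78) (nat_lit 0) (nat_lit 0) (XT.lf (nat_lit 0) (nat_lit 9296069978) (nat_lit 228) (nat_lit 29180275175) (nat_lit 76) (nat_lit 4374038399) (nat_lit 35) (nat_lit 5) (nat_lit 38) (nat_lit 5) (nat_lit 36) (nat_lit 5) (nat_lit 328) (nat_lit 273) (nat_lit 179)) (XT.lf (nat_lit 0) (nat_lit 21846882301) (nat_lit 228) (nat_lit 1668479183) (nat_lit 76) (nat_lit 20976929149) (nat_lit 35) (nat_lit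 5) (nat_lit 38) (nat_lit 5) (nat_lit 36) (nat_lit 5) (nat_lit 329) (nat_lit 273) (nat_lit 178)))) (XT.nd (nat_lit 156) (nat_lit 152) (nat_lit 0) (XT.nd (nat_lit 78) (nat_lit 152) (nat_lit 0) (XT.lf (nat_lit 0) (nat_lit 27733251844) (nat_lit 152) (nat_lit 7543172441) (nat_lit 228) (nat_lit 10932338629) (nat_lit 33) (nat_lit 5) (nat_lit 35) (nat_lit 5) (nat_lit 36) (nat_lit 5) (nat_lit 330) (nat_lit 273) (nat_lit 177)) (XT.lf (nat_lit 0) (nat_lit 1535740590) (nat_lit 152) (nat_lit 37296932193) (nat_lit 76) (nat_lit 9172116513) (nat_lit 31) (nat_lit 5) (nat_lit 33) (nat_lit 5) (nat_lit 32) (nat_lit 5) (nat_lit 331) (nat_lit 273) (nat_lit 176))) (XT.nd (nat_lit 78) (nat_lit 152) (nat_lit 0) (XT.lf (nat_lit 0) (nat_lit 14656730826) (nat_lit 152) (nat_lit 8362742172) (nat_lit 76) (nat_lit 26860233491) (nat_lit 31) (nat_lit 5) (nat_lit 33) (nat_lit 5) (nat_lit 32) (nat_lit 5) (nat_lit 332) (nat_lit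 273) (nat_lit 175)) (XT.lf (nat_lit 0) (nat_lit 22431158130) (nat_lit 152) (nat_lit 6204230277) (nat_lit 228) (nat_lit 23206937225) (nat_lit 29) (nat_lit 5) (nat_lit 31) (nat_lit 5) (nat_lit 32) (nat_lit 5) (nat_lit 333) (nat_lit 273) (nat_lit 174))))) (XT.nd (nat_lit 234) (nat_lit 304) (nat_lit 0) (XT.nd (nat_lit 78) (nat_lit 228) (nat_lit 0) (XT.lf (nat_lit 0) (nat_lit 921755318) (nat_lit 76) (nat_lit 42583436522) (nat_lit 152) (nat_lit 10392121906) (nat_lit 28) (nat_lit 5) (nat_lit 29) (nat_lit 5) (nat_lit 30) (nat_lit 4) (nat_lit 334) (nat_lit 273) (nat_lit 173)) (XT.nd (nat_lit 78) (nat_lit 152) (nat_lit 0) (XT.lf (nat_lit 0) (nat_lit 3358656241) (nat_lit 152) (nat_lit 22778991337) (nat_lit 76) (nat_lit 29905874313) (nat_lit 27) (nat_lit 5) (nat_lit 29) (nat_lit 5) (nat_lit 28) (nat_lit 5) (nat_lit 335) (nat_lit 273) (nat_lit 172)) (XT.lf (nat_lit 0) (nat_lit 8974895914) (nat_lit 152)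 (nat_lit 8682679823) (nat_lit 228) (nat_lit 40634115992) (nat_lit 25) (nat_lit 5) (nat_lit 27) (nat_lit 5) (nat_lit 28) (nat_lit 5) (nat_lit 336) (nat_lit 273) (nat_lit 171)))) (XT.nd (nat_lit 156) (nat_lit 228) (nat_lit 0) (XT.nd (nat_lit 78) (nat_lit 76) (nat_lit 0) (XT.lf (nat_lit 0) (nat_lit 32988524506) (nat_lit 228) (nat_lit 17970158402) (nat_lit 76) (nat_lit 9684078346) (nat_lit 25) (nat_lit 5) (nat_lit 28) (nat_lit 5) (nat_lit 26) (nat_lit 4) (nat_lit 337) (nat_lit 273) (nat_lit 170)) (XT.lf (nat_lit 0) (nat_lit 15130104162) (nat_lit 76) (nat_lit 34177143246) (nat_lit 152) (nat_lit 13797503566) (nat_lit 24) (nat_lit 5) (nat_lit 25) (nat_lit 5) (nat_lit 26) (nat_lit 4) (nat_lit 338) (nat_lit 273) (nat_lit 169))) (XT.nd (nat_lit 78) (nat_lit 152) (nat_lit 0) (XT.lf (nat_lit 0) (nat_lit 912607990) (nat_lit 152) (nat_lit 15453384493) (nat_lit 76) (nat_lit 49318377553) (nat_lit 23) (nat_lit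 5) (nat_lit 25) (nat_lit 5) (nat_lit 24) (nat_lit 5) (nat_lit 339) (nat_lit 273) (nat_lit 168)) (XT.lf (nat_lit 0) (nat_lit 16271733352) (nat_lit 228) (nat_lit 49505602534) (nat_lit 76) (nat_lit 2605573142) (nat_lit 21) (nat_lit 5) (nat_lit 24) (nat_lit 5) (nat_lit 22) (nat_lit 4) (nat_lit 340) (nat_lit 273) (nat_lit 167)))))) (XT.nd (nat_lit 546) (nat_lit 304) (nat_lit 0) (XT.nd (nat_lit 234) (nat_lit 228) (nat_lit 0) (XT.nd (nat_lit 78) (nat_lit 76) (nat_lit 0) (XT.lf (nat_lit 0) (nat_lit 32713862827) (nat_lit 228) (nat_lit 16150510063) (nat_lit 76) (nat_lit 22342553595) (nat_lit 21) (nat_lit 5) (nat_lit 24) (nat_lit 5) (nat_lit 22) (nat_lit 4) (nat_lit 341) (nat_lit 273) (nat_lit 166)) (XT.nd (nat_lit 78) (nat_lit 0) (nat_lit 0) (XT.lf (nat_lit 0) (nat_lit 19228886813) (nat_lit 76) (nat_lit 30923773613) (nat_lit 152) (nat_lit 24014250349) (nat_lit 20) (nat_lit 5) (nat_lit 21) (nat_lit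 5) (nat_lit 22) (nat_lit 4) (nat_lit 342) (nat_lit 273) (nat_lit 165)) (XT.lf (nat_lit 0) (nat_lit 56696611951) (nat_lit 76) (nat_lit 11923078100) (nat_lit 152) (nat_lit 8650518141) (nat_lit 20) (nat_lit 5) (nat_lit 21) (nat_lit 5) (nat_lit 22) (nat_lit 4) (nat_lit 343) (nat_lit 273) (nat_lit 164)))) (XT.nd (nat_lit 156) (nat_lit 76) (nat_lit 0) (XT.nd (nat_lit 78) (nat_lit 0) (nat_lit 0) (XT.lf (nat_lit 0) (nat_lit 7556299418) (nat_lit 152) (nat_lit 64875018050) (nat_lit 76) (nat_lit 8088571379) (nat_lit 18) (nat_lit 5) (nat_lit 20) (nat_lit 5) (nat_lit 19) (nat_lit 4) (nat_lit 344) (nat_lit 273) (nat_lit 163)) (XT.lf (nat_lit 0) (nat_lit 24721075801) (nat_lit 152) (nat_lit 30048438027) (nat_lit 76) (nat_lit 29150176884) (nat_lit 18) (nat_lit 5) (nat_lit 20) (nat_lit 5) (nat_lit 19) (nat_lit 4) (nat_lit 345) (nat_lit 273) (nat_lit 162))) (XT.nd (nat_lit 78) (nat_lit 0) (nat_lit 0) (XT.lf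 (nat_lit 0) (nat_lit 6632537842) (nat_lit 76) (nat_lit 36166389564) (nat_lit 152) (nat_lit 44688912417) (nat_lit 17) (nat_lit 5) (nat_lit 18) (nat_lit 5) (nat_lit 19) (nat_lit 4) (nat_lit 346) (nat_lit 273) (nat_lit 161)) (XT.lf (nat_lit 0) (nat_lit 45759597520) (nat_lit 76) (nat_lit 16321748630) (nat_lit 152) (nat_lit 29144032141) (nat_lit 17) (nat_lit 5) (nat_lit 18) (nat_lit 5) (nat_lit 19) (nat_lit 4) (nat_lit 347) (nat_lit 273) (nat_lit 160))))) (XT.nd (nat_lit 234) (nat_lit 152) (nat_lit 0) (XT.nd (nat_lit 78) (nat_lit 152) (nat_lit 0) (XT.lf (nat_lit 0) (nat_lit 82362985866) (nat_lit 152) (nat_lit 8365500799) (nat_lit 0) (nat_lit 4420256051) (nat_lit 17) (nat_lit 5) (nat_lit 19) (nat_lit 4) (nat_lit 17) (nat_lit 4) (nat_lit 348) (nat_lit 273) (nat_lit 159)) (XT.nd (nat_lit 78) (nat_lit 0) (nat_lit 0) (XT.lf (nat_lit 0) (nat_lit 4764236296) (nat_lit 152) (nat_lit 68285640389) (nat_lit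 76) (nat_lit 26203350137) (nat_lit 15) (nat_lit 5) (nat_lit 17) (nat_lit 5) (nat_lit 16) (nat_lit 4) (nat_lit 349) (nat_lit 273) (nat_lit 158)) (XT.lf (nat_lit 0) (nat_lit 23008982046) (nat_lit 152) (nat_lit 31262435335) (nat_lit 76) (nat_lit 49285271338) (nat_lit 15) (nat_lit 5) (nat_lit 17) (nat_lit 5) (nat_lit 16) (nat_lit 4) (nat_lit 350) (nat_lit 273) (nat_lit 157)))) (XT.nd (nat_lit 156) (nat_lit 76) (nat_lit 0) (XT.nd (nat_lit 78) (nat_lit 0) (nat_lit 0) (XT.lf (nat_lit 0) (nat_lit 7749509205) (nat_lit 76) (nat_lit 34483573514) (nat_lit 152) (nat_lit 65840229168) (nat_lit 14) (nat_lit 5) (nat_lit 15) (nat_lit 5) (nat_lit 16) (nat_lit 4) (nat_lit 351) (nat_lit 273) (nat_lit 156)) (XT.lf (nat_lit 0) (nat_lit 49352093353) (nat_lit 76) (nat_lit 13380962709) (nat_lit 152) (nat_lit 50073271749) (nat_lit 14) (nat_lit 5) (nat_lit 15) (nat_lit 5) (nat_lit 16) (nat_lit 4) (nat_lit 352) (nat_lit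 273) (nat_lit 155))) (XT.nd (nat_lit 78) (nat_lit 76) (nat_lit 0) (XT.lf (nat_lit 0) (nat_lit 84335529002) (nat_lit 152) (nat_lit 24838325222) (nat_lit 0) (nat_lit 8599816828) (nat_lit 14) (nat_lit 5) (nat_lit 16) (nat_lit 4) (nat_lit 14) (nat_lit 4) (nat_lit 353) (nat_lit 273) (nat_lit 154)) (XT.lf (nat_lit 0) (nat_lit 15870858228) (nat_lit 76) (nat_lit 91428345213) (nat_lit 76) (nat_lit 15681747154) (nat_lit 13) (nat_lit 4) (nat_lit 14) (nat_lit 5) (nat_lit 14) (nat_lit 4) (nat_lit 354) (nat_lit 273) (nat_lit 153))))))) (XT.nd (nat_lit 34710) (nat_lit 0) (nat_lit 10716) (XT.nd (nat_lit 546) (nat_lit 76) (nat_lit 0) (XT.nd (nat_lit 234) (nat_lit 76) (nat_lit 0) (XT.nd (nat_lit 78) (nat_lit 76) (nat_lit 0) (XT.lf (nat_lit 0) (nat_lit 3156473143) (nat_lit 152) (nat_lit 69349325087) (nat_lit 76) (nat_lit 55934388516) (nat_lit 12) (nat_lit 5) (nat_lit 14) (nat_lit 5) (nat_lit 13) (nat_lit 4)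 (nat_lit 355) (nat_lit 273) (nat_lit 152)) (XT.nd (nat_lit 78) (nat_lit 76) (nat_lit 0) (XT.lf (nat_lit 0) (nat_lit 22609195626) (nat_lit 152) (nat_lit 29870172265) (nat_lit 76) (nat_lit 81688452754) (nat_lit 12) (nat_lit 5) (nat_lit 14) (nat_lit 5) (nat_lit 13) (nat_lit 4) (nat_lit 356) (nat_lit 273) (nat_lit 151)) (XT.lf (nat_lit 0) (nat_lit 11802414239) (nat_lit 76) (nat_lit 31339781457) (nat_lit 152) (nat_lit 97036412538) (nat_lit 11) (nat_lit 5) (nat_lit 12) (nat_lit 5) (nat_lit 13) (nat_lit 4) (nat_lit 357) (nat_lit 273) (nat_lit 150)))) (XT.nd (nat_lit 156) (nat_lit 76) (nat_lit 0) (XT.nd (nat_lit 78) (nat_lit 0) (nat_lit 0) (XT.lf (nat_lit 0) (nat_lit 56172307731) (nat_lit 76) (nat_lit 8831390101) (nat_lit 152) (nat_lit 81477182984) (nat_lit 11) (nat_lit 5) (nat_lit 12) (nat_lit 5) (nat_lit 13) (nat_lit 4) (nat_lit 358) (nat_lit 273) (nat_lit 149)) (XT.lf (nat_lit 0) (nat_lit 88095153597)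 (nat_lit 152) (nat_lit 50489998528) (nat_lit 0) (nat_lit 14509009670) (nat_lit 11) (nat_lit 5) (nat_lit 13) (nat_lit 4) (nat_lit 11) (nat_lit 4) (nat_lit 359) (nat_lit 273) (nat_lit 148))) (XT.nd (nat_lit 78) (nat_lit 76) (nat_lit 0) (XT.lf (nat_lit 0) (nat_lit 112425165794) (nat_lit 152) (nat_lit 8779287337) (nat_lit 0) (nat_lit 38831135251) (nat_lit 11) (nat_lit 5) (nat_lit 13) (nat_lit 4) (nat_lit 11) (nat_lit 4) (nat_lit 360) (nat_lit 273) (nat_lit 147)) (XT.lf (nat_lit 0) (nat_lit 35704487581) (nat_lit 76) (nat_lit 102605496095) (nat_lit 76) (nat_lit 29003954488) (nat_lit 10) (nat_lit 4) (nat_lit 11) (nat_lit 5) (nat_lit 11) (nat_lit 4) (nat_lit 361) (nat_lit 273) (nat_lit 146))))) (XT.nd (nat_lit 33852) (nat_lit 0) (nat_lit 17176) (XT.nd (nat_lit 78) (nat_lit 76) (nat_lit 0) (XT.lf (nat_lit 0) (nat_lit 82586981117) (nat_lit 76) (nat_lit 82987675925) (nat_lit 76) (nat_lit 9378980925)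 (nat_lit 10) (nat_lit 4) (nat_lit 11) (nat_lit 5) (nat_lit 11) (nat_lit 4) (nat_lit 362) (nat_lit 273) (nat_lit 145)) (XT.nd (nat_lit 33696) (nat_lit 0) (nat_lit 17176) (XT.lf (nat_lit 0) (nat_lit 11003577865) (nat_lit 152) (nat_lit 51278244689) (nat_lit 76) (nat_lit 120690400794) (nat_lit 9) (nat_lit 5) (nat_lit 11) (nat_lit 5) (nat_lit 10) (nat_lit 4) (nat_lit 363) (nat_lit 273) (nat_lit 144)) (XT.lf (nat_lit 0) (nat_lit 290289557) (nat_lit 0) (nat_lit 290289557) (nat_lit 988) (nat_lit 3794731813) (nat_lit 235) (nat_lit 5) (nat_lit 235) (nat_lit 3) (nat_lit 248) (nat_lit 3) (nat_lit 274) (nat_lit 274) (nat_lit 232)))) (XT.nd (nat_lit 156) (nat_lit 0) (nat_lit 76) (XT.nd (nat_lit 78) (nat_lit 0) (nat_lit 76) (XT.lf (nat_lit 0) (nat_lit 2763094316) (nat_lit 988) (nat_lit 1477803842) (nat_lit 1064) (nat_lit 4679572114) (nat_lit 235) (nat_lit 5) (nat_lit 248) (nat_lit 3) (nat_lit 249) (nat_lit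 5) (nat_lit 275) (nat_lit 274) (nat_lit 231)) (XT.lf (nat_lit 0) (nat_lit 4419002788) (nat_lit 988) (nat_lit 3511435610) (nat_lit 1064) (nat_lit 1169267180) (nat_lit 236) (nat_lit 5) (nat_lit 249) (nat_lit 5) (nat_lit 250) (nat_lit 5) (nat_lit 276) (nat_lit 274) (nat_lit 230))) (XT.nd (nat_lit 78) (nat_lit 0) (nat_lit 76) (XT.lf (nat_lit 76) (nat_lit 3726656943) (nat_lit 0) (nat_lit 2432310578) (nat_lit 1064) (nat_lit 3129002767) (nat_lit 237) (nat_lit 5) (nat_lit 236) (nat_lit 5) (nat_lit 250) (nat_lit 5) (nat_lit 277) (nat_lit 274) (nat_lit 229)) (XT.lf (nat_lit 76) (nat_lit 1863612874) (nat_lit 0) (nat_lit 6120377636) (nat_lit 1064) (nat_lit 1501816362) (nat_lit 238) (nat_lit 5) (nat_lit 237) (nat_lit 5) (nat_lit 251) (nat_lit 5) (nat_lit 278) (nat_lit 274) (nat_lit 228)))))) (XT.nd (nat_lit 546) (nat_lit 4712) (nat_lit 0) (XT.nd (nat_lit 234) (nat_lit 836) (nat_lit 0) (XT.nd (nat_lit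 78) (nat_lit 0) (nat_lit 76) (XT.lf (nat_lit 76) (nat_lit 1149601) (nat_lit 0) (nat_lit 198209259) (nat_lit 1140) (nat_lit 9494309778) (nat_lit 224) (nat_lit 5) (nat_lit 223) (nat_lit 5) (nat_lit 238) (nat_lit 5) (nat_lit 279) (nat_lit 274) (nat_lit 227)) (XT.nd (nat_lit 78) (nat_lit 0) (nat_lit 76) (XT.lf (nat_lit 0) (nat_lit 2010044297) (nat_lit 1064) (nat_lit 1875599488) (nat_lit 1140) (nat_lit 6024256730) (nat_lit 224) (nat_lit 5) (nat_lit 238) (nat_lit 5) (nat_lit 239) (nat_lit 5) (nat_lit 280) (nat_lit 274) (nat_lit 226)) (XT.lf (nat_lit 0) (nat_lit 3920872193) (nat_lit 1064) (nat_lit 3760911439) (nat_lit 1140) (nat_lit 2454956348) (nat_lit 225) (nat_lit 5) (nat_lit 239) (nat_lit 5) (nat_lit 240) (nat_lit 5) (nat_lit 281) (nat_lit 274) (nat_lit 225)))) (XT.nd (nat_lit 156) (nat_lit 988) (nat_lit 0) (XT.nd (nat_lit 78) (nat_lit 0) (nat_lit 76) (XT.lf (nat_lit 76) (nat_lit 4701596171)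 (nat_lit 0) (nat_lit 1254986034) (nat_lit 1140) (nat_lit 4417539217) (nat_lit 226) (nat_lit 5) (nat_lit 225) (nat_lit 5) (nat_lit 240) (nat_lit 5) (nat_lit 282) (nat_lit 274) (nat_lit 224)) (XT.lf (nat_lit 76) (nat_lit 2992596693) (nat_lit 0) (nat_lit 5150782141) (nat_lit 1140) (nat_lit 2478590474) (nat_lit 227) (nat_lit 5) (nat_lit 226) (nat_lit 5) (nat_lit 241) (nat_lit 5) (nat_lit 283) (nat_lit 274) (nat_lit 223))) (XT.nd (nat_lit 78) (nat_lit 76) (nat_lit 0) (XT.lf (nat_lit 0) (nat_lit 1268178986) (nat_lit 1064) (nat_lit 9202310672) (nat_lit 1140) (nat_lit 410863468) (nat_lit 213) (nat_lit 5) (nat_lit 227) (nat_lit 5) (nat_lit 228) (nat_lit 5) (nat_lit 284) (nat_lit 274) (nat_lit 222)) (XT.lf (nat_lit 0) (nat_lit 1790850128) (nat_lit 1140) (nat_lit 507627165) (nat_lit 76) (nat_lit 8852840036) (nat_lit 212) (nat_lit 5) (nat_lit 227) (nat_lit 5) (nat_lit 213) (nat_lit 5) (nat_lit 285) (nat_lit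 274) (nat_lit 221))))) (XT.nd (nat_lit 312) (nat_lit 1596) (nat_lit 0) (XT.nd (nat_lit 156) (nat_lit 1216) (nat_lit 0) (XT.nd (nat_lit 78) (nat_lit 760) (nat_lit 0) (XT.lf (nat_lit 0) (nat_lit 4167814873) (nat_lit 1216) (nat_lit 2308423671) (nat_lit 76) (nat_lit 4956273357) (nat_lit 197) (nat_lit 5) (nat_lit 213) (nat_lit 5) (nat_lit 198) (nat_lit 5) (nat_lit 286) (nat_lit 274) (nat_lit 220)) (XT.lf (nat_lit 0) (nat_lit 6712984774) (nat_lit 836) (nat_lit 4144209420) (nat_lit 76) (nat_lit 869152328) (nat_lit 187) (nat_lit 5) (nat_lit 198) (nat_lit 5) (nat_lit 188) (nat_lit 5) (nat_lit 287) (nat_lit 274) (nat_lit 219))) (XT.nd (nat_lit 78) (nat_lit 608) (nat_lit 0) (XT.lf (nat_lit 0) (nat_lit 5977701472) (nat_lit 608) (nat_lit 3496359607) (nat_lit 684) (nat_lit 2558210480) (nat_lit 179) (nat_lit 5) (nat_lit 187) (nat_lit 5) (nat_lit 188) (nat_lit 5) (nat_lit 288) (nat_lit 274) (nat_lit 218))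 (XT.lf (nat_lit 0) (nat_lit 89435134) (nat_lit 608) (nat_lit 8023727159) (nat_lit 76) (nat_lit 4238274983) (nat_lit 171) (nat_lit 5) (nat_lit 179) (nat_lit 5) (nat_lit 172) (nat_lit 5) (nat_lit 289) (nat_lit 274) (nat_lit 217)))) (XT.nd (nat_lit 156) (nat_lit 532) (nat_lit 0) (XT.nd (nat_lit 78) (nat_lit 532) (nat_lit 0) (XT.lf (nat_lit 0) (nat_lit 2605651192) (nat_lit 532) (nat_lit 280351088) (nat_lit 608) (nat_lit 9797766906) (nat_lit 164) (nat_lit 5) (nat_lit 171) (nat_lit 5) (nat_lit 172) (nat_lit 5) (nat_lit 290) (nat_lit 274) (nat_lit 216)) (XT.lf (nat_lit 0) (nat_lit 787666221) (nat_lit 532) (nat_lit 5149829724) (nat_lit 608) (nat_lit 7091817550) (nat_lit 157) (nat_lit 5) (nat_lit 164) (nat_lit 5) (nat_lit 165) (nat_lit 5) (nat_lit 291) (nat_lit 274) (nat_lit 215))) (XT.nd (nat_lit 78) (nat_lit 532) (nat_lit 0) (XT.lf (nat_lit 0) (nat_lit 9228154905) (nat_lit 608) (nat_lit 1069244729)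 (nat_lit 76) (nat_lit 3092184092) (nat_lit 157) (nat_lit 5) (nat_lit 165) (nat_lit 5) (nat_lit 158) (nat_lit 5) (nat_lit 292) (nat_lit 274) (nat_lit 214)) (XT.lf (nat_lit 0) (nat_lit 10768093163) (nat_lit 532) (nat_lit 2022839387) (nat_lit 608) (nat_lit 973751559) (nat_lit 150) (nat_lit 5) (nat_lit 157) (nat_lit 5) (nat_lit 158) (nat_lit 5) (nat_lit 293) (nat_lit 274) (nat_lit 213))))))))
noncomputable def xc74 : XT := (XT.nd (nat_lit 2184) (nat_lit 2736) (nat_lit 0) (XT.nd (nat_lit 1092) (nat_lit 2736) (nat_lit 0) (XT.nd (nat_lit 546) (nat_lit 2128) (nat_lit 0) (XT.nd (nat_lit 234) (nat_lit 1292) (nat_lit 0) (XT.nd (nat_lit 78) (nat_lit 836) (nat_lit 0) (XT.lf (nat_lit 0) (nat_lit 2444855934) (nat_lit 532) (nat_lit 5055493075) (nat_lit 76) (nat_lit 6654011228) (nat_lit 143) (nat_lit 5) (nat_lit 150) (nat_lit 5) (nat_lit 144) (nat_lit 5) (nat_lit 294) (nat_lit 274) (nat_lit 212)) (XT.nd (nat_lit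 78) (nat_lit 380) (nat_lit 0) (XT.lf (nat_lit 0) (nat_lit 6104060154) (nat_lit 532) (nat_lit 7212108208) (nat_lit 76) (nat_lit 1244407361) (nat_lit 137) (nat_lit 5) (nat_lit 144) (nat_lit 5) (nat_lit 138) (nat_lit 5) (nat_lit 295) (nat_lit 274) (nat_lit 211)) (XT.lf (nat_lit 0) (nat_lit 5472312028) (nat_lit 380) (nat_lit 4611463638) (nat_lit 456) (nat_lit 4899236867) (nat_lit 132) (nat_lit 5) (nat_lit 137) (nat_lit 5) (nat_lit 138) (nat_lit 5) (nat_lit 296) (nat_lit 274) (nat_lit 210)))) (XT.nd (nat_lit 156) (nat_lit 380) (nat_lit 0) (XT.nd (nat_lit 78) (nat_lit 456) (nat_lit 0) (XT.lf (nat_lit 0) (nat_lit 3490431149) (nat_lit 456) (nat_lit 10882305212) (nat_lit 532) (nat_lit 1050562354) (nat_lit 126) (nat_lit 5) (nat_lit 132) (nat_lit 5) (nat_lit 133) (nat_lit 5) (nat_lit 297) (nat_lit 274) (nat_lit 209)) (XT.lf (nat_lit 0) (nat_lit 1357813842) (nat_lit 380) (nat_lit 1692130454) (nat_lit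 456) (nat_lit 12831292514) (nat_lit 120) (nat_lit 5) (nat_lit 125) (nat_lit 5) (nat_lit 126) (nat_lit 5) (nat_lit 298) (nat_lit 274) (nat_lit 208))) (XT.nd (nat_lit 78) (nat_lit 380) (nat_lit 0) (XT.lf (nat_lit 0) (nat_lit 7495162865) (nat_lit 456) (nat_lit 934113100) (nat_lit 76) (nat_lit 7927672482) (nat_lit 120) (nat_lit 5) (nat_lit 126) (nat_lit 5) (nat_lit 121) (nat_lit 5) (nat_lit 299) (nat_lit 274) (nat_lit 207)) (XT.lf (nat_lit 0) (nat_lit 12284488589) (nat_lit 456) (nat_lit 3331061972) (nat_lit 76) (nat_lit 1237269335) (nat_lit 115) (nat_lit 5) (nat_lit 121) (nat_lit 5) (nat_lit 116) (nat_lit 5) (nat_lit 300) (nat_lit 274) (nat_lit 206))))) (XT.nd (nat_lit 234) (nat_lit 988) (nat_lit 0) (XT.nd (nat_lit 78) (nat_lit 684) (nat_lit 0) (XT.lf (nat_lit 0) (nat_lit 111129951) (nat_lit 456) (nat_lit 5931874326) (nat_lit 76) (nat_lit 11325420606) (nat_lit 109) (nat_lit 5) (nat_lit 115) (nat_lit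 5) (nat_lit 110) (nat_lit 5) (nat_lit 301) (nat_lit 274) (nat_lit 205)) (XT.nd (nat_lit 78) (nat_lit 304) (nat_lit 0) (XT.lf (nat_lit 0) (nat_lit 5058721425) (nat_lit 456) (nat_lit 8756138755) (nat_lit 76) (nat_lit 4089759972) (nat_lit 104) (nat_lit 5) (nat_lit 110) (nat_lit 5) (nat_lit 105) (nat_lit 5) (nat_lit 302) (nat_lit 274) (nat_lit 204)) (XT.lf (nat_lit 0) (nat_lit 6663371939) (nat_lit 304) (nat_lit 3742870878) (nat_lit 380) (nat_lit 8056830699) (nat_lit 100) (nat_lit 5) (nat_lit 104) (nat_lit 5) (nat_lit 105) (nat_lit 5) (nat_lit 303) (nat_lit 274) (nat_lit 203)))) (XT.nd (nat_lit 156) (nat_lit 304) (nat_lit 0) (XT.nd (nat_lit 78) (nat_lit 380) (nat_lit 0) (XT.lf (nat_lit 0) (nat_lit 3955039356) (nat_lit 304) (nat_lit 12227748333) (nat_lit 380) (nat_lit 2861836094) (nat_lit 96) (nat_lit 5) (nat_lit 100) (nat_lit 5) (nat_lit 101) (nat_lit 5) (nat_lit 304) (nat_lit 274) (nat_lit 202))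 (XT.lf (nat_lit 0) (nat_lit 1003148249) (nat_lit 304) (nat_lit 1676984199) (nat_lit 380) (nat_lit 16970258616) (nat_lit 91) (nat_lit 5) (nat_lit 95) (nat_lit 5) (nat_lit 96) (nat_lit 5) (nat_lit 305) (nat_lit 274) (nat_lit 201))) (XT.nd (nat_lit 78) (nat_lit 304) (nat_lit 0) (XT.lf (nat_lit 0) (nat_lit 8656531607) (nat_lit 380) (nat_lit 2231290656) (nat_lit 76) (nat_lit 9391299646) (nat_lit 91) (nat_lit 5) (nat_lit 96) (nat_lit 5) (nat_lit 92) (nat_lit 5) (nat_lit 306) (nat_lit 274) (nat_lit 200)) (XT.lf (nat_lit 0) (nat_lit 15067134905) (nat_lit 380) (nat_lit 5693455128) (nat_lit 76) (nat_lit 174657581) (nat_lit 87) (nat_lit 5) (nat_lit 92) (nat_lit 5) (nat_lit 88) (nat_lit 5) (nat_lit 307) (nat_lit 274) (nat_lit 199)))))) (XT.nd (nat_lit 546) (nat_lit 1140) (nat_lit 0) (XT.nd (nat_lit 234) (nat_lit 760) (nat_lit 0) (XT.nd (nat_lit 78) (nat_lit 532) (nat_lit 0) (XT.lf (nat_lit 0) (nat_lit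 393334015) (nat_lit 304) (nat_lit 9525845037) (nat_lit 76) (nat_lit 11698289423) (nat_lit 83) (nat_lit 5) (nat_lit 87) (nat_lit 5) (nat_lit 84) (nat_lit 5) (nat_lit 308) (nat_lit 274) (nat_lit 198)) (XT.nd (nat_lit 78) (nat_lit 228) (nat_lit 0) (XT.lf (nat_lit 0) (nat_lit 6977418391) (nat_lit 380) (nat_lit 13724634095) (nat_lit 76) (nat_lit 1626094555) (nat_lit 79) (nat_lit 5) (nat_lit 84) (nat_lit 5) (nat_lit 80) (nat_lit 5) (nat_lit 309) (nat_lit 274) (nat_lit 197)) (XT.lf (nat_lit 0) (nat_lit 4717064225) (nat_lit 228) (nat_lit 9390773047) (nat_lit 304) (nat_lit 8960024994) (nat_lit 76) (nat_lit 5) (nat_lit 79) (nat_lit 5) (nat_lit 80) (nat_lit 5) (nat_lit 310) (nat_lit 274) (nat_lit 196)))) (XT.nd (nat_lit 156) (nat_lit 456) (nat_lit 0) (XT.nd (nat_lit 78) (nat_lit 76) (nat_lit 0) (XT.lf (nat_lit 0) (nat_lit 470830214) (nat_lit 228) (nat_lit 21268485182) (nat_lit 304) (nat_lit 2100927557)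 (nat_lit 73) (nat_lit 5) (nat_lit 76) (nat_lit 5) (nat_lit 77) (nat_lit 5) (nat_lit 311) (nat_lit 274) (nat_lit 195)) (XT.lf (nat_lit 0) (nat_lit 5261194270) (nat_lit 304) (nat_lit 4214008203) (nat_lit 76) (nat_lit 15166795474) (nat_lit 72) (nat_lit 5) (nat_lit 76) (nat_lit 5) (nat_lit 73) (nat_lit 5) (nat_lit 312) (nat_lit 274) (nat_lit 194))) (XT.nd (nat_lit 78) (nat_lit 228) (nat_lit 0) (XT.lf (nat_lit 0) (nat_lit 13108530301) (nat_lit 304) (nat_lit 9353530843) (nat_lit 76) (nat_lit 3016352709) (nat_lit 69) (nat_lit 5) (nat_lit 73) (nat_lit 5) (nat_lit 70) (nat_lit 5) (nat_lit 313) (nat_lit 274) (nat_lit 193)) (XT.lf (nat_lit 0) (nat_lit 11300489634) (nat_lit 228) (nat_lit 10271801992) (nat_lit 304) (nat_lit 4777650466) (nat_lit 66) (nat_lit 5) (nat_lit 69) (nat_lit 5) (nat_lit 70) (nat_lit 5) (nat_lit 314) (nat_lit 274) (nat_lit 192))))) (XT.nd (nat_lit 234) (nat_lit 608) (nat_lit 0)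 (XT.nd (nat_lit 78) (nat_lit 228) (nat_lit 0) (XT.lf (nat_lit 0) (nat_lit 3289022743) (nat_lit 304) (nat_lit 21317682594) (nat_lit 76) (nat_lit 2652717797) (nat_lit 62) (nat_lit 5) (nat_lit 66) (nat_lit 5) (nat_lit 63) (nat_lit 5) (nat_lit 315) (nat_lit 274) (nat_lit 191)) (XT.nd (nat_lit 78) (nat_lit 228) (nat_lit 0) (XT.lf (nat_lit 0) (nat_lit 11898456474) (nat_lit 304) (nat_lit 102487931) (nat_lit 76) (nat_lit 16204879343) (nat_lit 62) (nat_lit 5) (nat_lit 66) (nat_lit 5) (nat_lit 63) (nat_lit 5) (nat_lit 316) (nat_lit 274) (nat_lit 190)) (XT.lf (nat_lit 0) (nat_lit 21147581161) (nat_lit 304) (nat_lit 6628099407) (nat_lit 76) (nat_lit 1417598394) (nat_lit 59) (nat_lit 5) (nat_lit 63) (nat_lit 5) (nat_lit 60) (nat_lit 5) (nat_lit 317) (nat_lit 274) (nat_lit 189)))) (XT.nd (nat_lit 156) (nat_lit 152) (nat_lit 0) (XT.nd (nat_lit 78) (nat_lit 228) (nat_lit 0) (XT.lf (nat_lit 0) (nat_lit 877076312)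 (nat_lit 228) (nat_lit 13929839938) (nat_lit 76) (nat_lit 15415210698) (nat_lit 56) (nat_lit 5) (nat_lit 59) (nat_lit 5) (nat_lit 57) (nat_lit 5) (nat_lit 318) (nat_lit 274) (nat_lit 188)) (XT.lf (nat_lit 0) (nat_lit 9262133472) (nat_lit 228) (nat_lit 956284202) (nat_lit 304) (nat_lit 21077454888) (nat_lit 53) (nat_lit 5) (nat_lit 56) (nat_lit 5) (nat_lit 57) (nat_lit 5) (nat_lit 319) (nat_lit 274) (nat_lit 187))) (XT.nd (nat_lit 78) (nat_lit 0) (nat_lit 0) (XT.lf (nat_lit 0) (nat_lit 1346976178) (nat_lit 152) (nat_lit 18948107708) (nat_lit 228) (nat_lit 12120183185) (nat_lit 51) (nat_lit 5) (nat_lit 53) (nat_lit 5) (nat_lit 54) (nat_lit 5) (nat_lit 320) (nat_lit 274) (nat_lit 186)) (XT.lf (nat_lit 0) (nat_lit 26315193949) (nat_lit 152) (nat_lit 4777302810) (nat_lit 228) (nat_lit 2491636050) (nat_lit 51) (nat_lit 5) (nat_lit 53) (nat_lit 5) (nat_lit 54) (nat_lit 5) (nat_lit 321) (nat_lit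 274) (nat_lit 185))))))) (XT.nd (nat_lit 1092) (nat_lit 988) (nat_lit 0) (XT.nd (nat_lit 546) (nat_lit 760) (nat_lit 0) (XT.nd (nat_lit 234) (nat_lit 532) (nat_lit 0) (XT.nd (nat_lit 78) (nat_lit 152) (nat_lit 0) (XT.lf (nat_lit 0) (nat_lit 7723082012) (nat_lit 304) (nat_lit 16937293487) (nat_lit 76) (nat_lit 10141275459) (nat_lit 47) (nat_lit 5) (nat_lit 51) (nat_lit 5) (nat_lit 48) (nat_lit 5) (nat_lit 322) (nat_lit 274) (nat_lit 184)) (XT.nd (nat_lit 78) (nat_lit 0) (nat_lit 0) (XT.lf (nat_lit 0) (nat_lit 8387450258) (nat_lit 152) (nat_lit 10196206286) (nat_lit 228) (nat_lit 17490056679) (nat_lit 45) (nat_lit 5) (nat_lit 47) (nat_lit 5) (nat_lit 48) (nat_lit 5) (nat_lit 323) (nat_lit 274) (nat_lit 183)) (XT.lf (nat_lit 0) (nat_lit 30193547386) (nat_lit 228) (nat_lit 2151557291) (nat_lit 76) (nat_lit 5058092763) (nat_lit 45) (nat_lit 5) (nat_lit 48) (nat_lit 5) (nat_lit 46) (nat_lit 5)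 (nat_lit 324) (nat_lit 274) (nat_lit 182)))) (XT.nd (nat_lit 156) (nat_lit 152) (nat_lit 0) (XT.nd (nat_lit 78) (nat_lit 152) (nat_lit 0) (XT.lf (nat_lit 0) (nat_lit 3844511760) (nat_lit 228) (nat_lit 13810571221) (nat_lit 76) (nat_lit 21133155417) (nat_lit 42) (nat_lit 5) (nat_lit 45) (nat_lit 5) (nat_lit 43) (nat_lit 5) (nat_lit 325) (nat_lit 274) (nat_lit 181)) (XT.lf (nat_lit 0) (nat_lit 13427315908) (nat_lit 152) (nat_lit 2011228955) (nat_lit 228) (nat_lit 24797763542) (nat_lit 40) (nat_lit 5) (nat_lit 42) (nat_lit 5) (nat_lit 43) (nat_lit 5) (nat_lit 326) (nat_lit 274) (nat_lit 180))) (XT.nd (nat_lit 78) (nat_lit 0) (nat_lit 0) (XT.lf (nat_lit 0) (nat_lit 403350332) (nat_lit 152) (nat_lit 27478806944) (nat_lit 228) (nat_lit 13866534569) (nat_lit 38) (nat_lit 5) (nat_lit 40) (nat_lit 5) (nat_lit 41) (nat_lit 5) (nat_lit 327) (nat_lit 274) (nat_lit 179)) (XT.lf (nat_lit 0) (nat_lit 29488900766)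 (nat_lit 152) (nat_lit 11739495987) (nat_lit 228) (nat_lit 2099890275) (nat_lit 38) (nat_lit 5) (nat_lit 40) (nat_lit 5) (nat_lit 41) (nat_lit 5) (nat_lit 328) (nat_lit 274) (nat_lit 178))))) (XT.nd (nat_lit 234) (nat_lit 380) (nat_lit 0) (XT.nd (nat_lit 78) (nat_lit 152) (nat_lit 0) (XT.lf (nat_lit 0) (nat_lit 10234515461) (nat_lit 228) (nat_lit 29814090614) (nat_lit 76) (nat_lit 4929917778) (nat_lit 35) (nat_lit 5) (nat_lit 38) (nat_lit 5) (nat_lit 36) (nat_lit 5) (nat_lit 329) (nat_lit 274) (nat_lit 177)) (XT.nd (nat_lit 78) (nat_lit 152) (nat_lit 0) (XT.lf (nat_lit 0) (nat_lit 23390314020) (nat_lit 228) (nat_lit 965999981) (nat_lit 76) (nat_lit 22346896997) (nat_lit 35) (nat_lit 5) (nat_lit 38) (nat_lit 5) (nat_lit 36) (nat_lit 5) (nat_lit 330) (nat_lit 274) (nat_lit 176)) (XT.lf (nat_lit 0) (nat_lit 29883289841) (nat_lit 152) (nat_lit 7593900931) (nat_lit 228) (nat_lit 11028748082) (nat_lit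 33) (nat_lit 5) (nat_lit 35) (nat_lit 5) (nat_lit 36) (nat_lit 5) (nat_lit 331) (nat_lit 274) (nat_lit 175)))) (XT.nd (nat_lit 156) (nat_lit 228) (nat_lit 0) (XT.nd (nat_lit 78) (nat_lit 0) (nat_lit 0) (XT.lf (nat_lit 0) (nat_lit 2043241559) (nat_lit 152) (nat_lit 38401736949) (nat_lit 76) (nat_lit 9946986582) (nat_lit 31) (nat_lit 5) (nat_lit 33) (nat_lit 5) (nat_lit 32) (nat_lit 5) (nat_lit 332) (nat_lit 274) (nat_lit 174)) (XT.lf (nat_lit 0) (nat_lit 15799771119) (nat_lit 152) (nat_lit 8057029896) (nat_lit 76) (nat_lit 28504449206) (nat_lit 31) (nat_lit 5) (nat_lit 33) (nat_lit 5) (nat_lit 32) (nat_lit 5) (nat_lit 333) (nat_lit 274) (nat_lit 173))) (XT.nd (nat_lit 78) (nat_lit 76) (nat_lit 0) (XT.lf (nat_lit 0) (nat_lit 24255816423) (nat_lit 152) (nat_lit 6208770275) (nat_lit 228) (nat_lit 23957803321) (nat_lit 29) (nat_lit 5) (nat_lit 31) (nat_lit 5) (nat_lit 32) (nat_lit 5) (nat_lit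 334) (nat_lit 274) (nat_lit 172)) (XT.lf (nat_lit 0) (nat_lit 1659641593) (nat_lit 76) (nat_lit 44408761899) (nat_lit 152) (nat_lit 10512014496) (nat_lit 28) (nat_lit 5) (nat_lit 29) (nat_lit 5) (nat_lit 30) (nat_lit 4) (nat_lit 335) (nat_lit 274) (nat_lit 171)))))) (XT.nd (nat_lit 546) (nat_lit 456) (nat_lit 0) (XT.nd (nat_lit 234) (nat_lit 304) (nat_lit 0) (XT.nd (nat_lit 78) (nat_lit 152) (nat_lit 0) (XT.lf (nat_lit 0) (nat_lit 3899840153) (nat_lit 152) (nat_lit 23251543129) (nat_lit 76) (nat_lit 31683003547) (nat_lit 27) (nat_lit 5) (nat_lit 29) (nat_lit 5) (nat_lit 28) (nat_lit 5) (nat_lit 336) (nat_lit 274) (nat_lit 170)) (XT.nd (nat_lit 78) (nat_lit 0) (nat_lit 0) (XT.lf (nat_lit 0) (nat_lit 10070936326) (nat_lit 152) (nat_lit 8831217637) (nat_lit 228) (nat_lit 42293163157) (nat_lit 25) (nat_lit 5) (nat_lit 27) (nat_lit 5) (nat_lit 28) (nat_lit 5) (nat_lit 337) (nat_lit 274) (nat_lit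 169)) (XT.lf (nat_lit 0) (nat_lit 34985040983) (nat_lit 228) (nat_lit 18244371573) (nat_lit 76) (nat_lit 10434970994) (nat_lit 25) (nat_lit 5) (nat_lit 28) (nat_lit 5) (nat_lit 26) (nat_lit 4) (nat_lit 338) (nat_lit 274) (nat_lit 168)))) (XT.nd (nat_lit 156) (nat_lit 152) (nat_lit 0) (XT.nd (nat_lit 78) (nat_lit 76) (nat_lit 0) (XT.lf (nat_lit 0) (nat_lit 16493008836) (nat_lit 76) (nat_lit 35615992170) (nat_lit 152) (nat_lit 14140797628) (nat_lit 24) (nat_lit 5) (nat_lit 25) (nat_lit 5) (nat_lit 26) (nat_lit 4) (nat_lit 339) (nat_lit 274) (nat_lit 167)) (XT.lf (nat_lit 0) (nat_lit 1281874646) (nat_lit 152) (nat_lit 15641998665) (nat_lit 76) (nat_lit 52034915383) (nat_lit 23) (nat_lit 5) (nat_lit 25) (nat_lit 5) (nat_lit 24) (nat_lit 5) (nat_lit 340) (nat_lit 274) (nat_lit 166))) (XT.nd (nat_lit 78) (nat_lit 0) (nat_lit 0) (XT.lf (nat_lit 0) (nat_lit 17401436482) (nat_lit 228) (nat_lit 51406510738)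 (nat_lit 76) (nat_lit 2984537332) (nat_lit 21) (nat_lit 5) (nat_lit 24) (nat_lit 5) (nat_lit 22) (nat_lit 4) (nat_lit 341) (nat_lit 274) (nat_lit 165)) (XT.lf (nat_lit 0) (nat_lit 34650619265) (nat_lit 228) (nat_lit 16411014687) (nat_lit 76) (nat_lit 23696524639) (nat_lit 21) (nat_lit 5) (nat_lit 24) (nat_lit 5) (nat_lit 22) (nat_lit 4) (nat_lit 342) (nat_lit 274) (nat_lit 164))))) (XT.nd (nat_lit 312) (nat_lit 228) (nat_lit 0) (XT.nd (nat_lit 156) (nat_lit 152) (nat_lit 0) (XT.nd (nat_lit 78) (nat_lit 0) (nat_lit 0) (XT.lf (nat_lit 0) (nat_lit 20721671789) (nat_lit 76) (nat_lit 32230456180) (nat_lit 152) (nat_lit 24914294911) (nat_lit 20) (nat_lit 5) (nat_lit 21) (nat_lit 5) (nat_lit 22) (nat_lit 4) (nat_lit 343) (nat_lit 274) (nat_lit 163)) (XT.lf (nat_lit 0) (nat_lit 60037481249) (nat_lit 76) (nat_lit 12291130944) (nat_lit 152) (nat_lit 8796693615) (nat_lit 20) (nat_lit 5) (nat_lit 21)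 (nat_lit 5) (nat_lit 22) (nat_lit 4) (nat_lit 344) (nat_lit 274) (nat_lit 162))) (XT.nd (nat_lit 78) (nat_lit 0) (nat_lit 0) (XT.lf (nat_lit 0) (nat_lit 8208446704) (nat_lit 152) (nat_lit 67615665113) (nat_lit 76) (nat_lit 8713472464) (nat_lit 18) (nat_lit 5) (nat_lit 20) (nat_lit 5) (nat_lit 19) (nat_lit 4) (nat_lit 345) (nat_lit 274) (nat_lit 161)) (XT.lf (nat_lit 0) (nat_lit 26218398462) (nat_lit 152) (nat_lit 31071713415) (nat_lit 76) (nat_lit 30817659553) (nat_lit 18) (nat_lit 5) (nat_lit 20) (nat_lit 5) (nat_lit 19) (nat_lit 4) (nat_lit 346) (nat_lit 274) (nat_lit 160)))) (XT.nd (nat_lit 156) (nat_lit 152) (nat_lit 0) (XT.nd (nat_lit 78) (nat_lit 0) (nat_lit 0) (XT.lf (nat_lit 0) (nat_lit 7429576609) (nat_lit 76) (nat_lit 37762598488) (nat_lit 152) (nat_lit 46662395058) (nat_lit 17) (nat_lit 5) (nat_lit 18) (nat_lit 5) (nat_lit 19) (nat_lit 4) (nat_lit 347) (nat_lit 274) (nat_lit 159))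 (XT.lf (nat_lit 0) (nat_lit 48490826800) (nat_lit 76) (nat_lit 16935826009) (nat_lit 152) (nat_lit 30352697577) (nat_lit 17) (nat_lit 5) (nat_lit 18) (nat_lit 5) (nat_lit 19) (nat_lit 4) (nat_lit 348) (nat_lit 274) (nat_lit 158))) (XT.nd (nat_lit 78) (nat_lit 152) (nat_lit 0) (XT.lf (nat_lit 0) (nat_lit 86712736299) (nat_lit 152) (nat_lit 8356533573) (nat_lit 0) (nat_lit 4829905148) (nat_lit 17) (nat_lit 5) (nat_lit 19) (nat_lit 4) (nat_lit 17) (nat_lit 4) (nat_lit 349) (nat_lit 274) (nat_lit 157)) (XT.lf (nat_lit 0) (nat_lit 5229286237) (nat_lit 152) (nat_lit 71280359916) (nat_lit 76) (nat_lit 27699384350) (nat_lit 15) (nat_lit 5) (nat_lit 17) (nat_lit 5) (nat_lit 16) (nat_lit 4) (nat_lit 350) (nat_lit 274) (nat_lit 156))))))))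
noncomputable def xc75 : XT := (XT.nd (nat_lit 35880) (nat_lit 0) (nat_lit 3724) (XT.nd (nat_lit 34788) (nat_lit 0) (nat_lit 12844) (XT.nd (nat_lit 546) (nat_lit 152) (nat_lit 0) (XT.nd (nat_lit 234) (nat_lit 152) (nat_lit 0) (XT.nd (nat_lit 78) (nat_lit 76) (nat_lit 0) (XT.lf (nat_lit 0) (nat_lit 24375467458) (nat_lit 152) (nat_lit 32425973775) (nat_lit 76) (nat_lit 51926550815) (nat_lit 15) (nat_lit 5) (nat_lit 17) (nat_lit 5) (nat_lit 16) (nat_lit 4) (nat_lit 351) (nat_lit 274) (nat_lit 155)) (XT.nd (nat_lit 78) (nat_lit 0) (nat_lit 0) (XT.lf (nat_lit 0) (nat_lit 8525114016) (nat_lit 76) (nat_lit 36029102642) (nat_lit 152) (nat_lit 68916428794) (nat_lit 14) (nat_lit 5) (nat_lit 15) (nat_lit 5) (nat_lit 16) (nat_lit 4) (nat_lit 352) (nat_lit 274) (nat_lit 154)) (XT.lf (nat_lit 0) (nat_lit 52189345022) (nat_lit 76) (nat_lit 13879868418) (nat_lit 152) (nat_lit 52371400258) (nat_lit 14) (nat_lit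 5) (nat_lit 15) (nat_lit 5) (nat_lit 16) (nat_lit 4) (nat_lit 353) (nat_lit 274) (nat_lit 153)))) (XT.nd (nat_lit 156) (nat_lit 76) (nat_lit 0) (XT.nd (nat_lit 78) (nat_lit 76) (nat_lit 0) (XT.lf (nat_lit 0) (nat_lit 88743867441) (nat_lit 152) (nat_lit 25724011015) (nat_lit 0) (nat_lit 9188686084) (nat_lit 14) (nat_lit 5) (nat_lit 16) (nat_lit 4) (nat_lit 14) (nat_lit 4) (nat_lit 354) (nat_lit 274) (nat_lit 152)) (XT.lf (nat_lit 0) (nat_lit 17010420333) (nat_lit 76) (nat_lit 95839509417) (nat_lit 76) (nat_lit 16274454242) (nat_lit 13) (nat_lit 4) (nat_lit 14) (nat_lit 5) (nat_lit 14) (nat_lit 4) (nat_lit 355) (nat_lit 274) (nat_lit 151))) (XT.nd (nat_lit 78) (nat_lit 0) (nat_lit 0) (XT.lf (nat_lit 0) (nat_lit 3493007040) (nat_lit 152) (nat_lit 72483654520) (nat_lit 76) (nat_lit 58880135168) (nat_lit 12) (nat_lit 5) (nat_lit 14) (nat_lit 5) (nat_lit 13) (nat_lit 4) (nat_lit 356) (nat_lit 274)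 (nat_lit 150)) (XT.lf (nat_lit 0) (nat_lit 23909855635) (nat_lit 152) (nat_lit 31046407716) (nat_lit 76) (nat_lit 85914806083) (nat_lit 12) (nat_lit 5) (nat_lit 14) (nat_lit 5) (nat_lit 13) (nat_lit 4) (nat_lit 357) (nat_lit 274) (nat_lit 149))))) (XT.nd (nat_lit 234) (nat_lit 76) (nat_lit 0) (XT.nd (nat_lit 78) (nat_lit 0) (nat_lit 0) (XT.lf (nat_lit 0) (nat_lit 12700713542) (nat_lit 76) (nat_lit 32763649795) (nat_lit 152) (nat_lit 101718189061) (nat_lit 11) (nat_lit 5) (nat_lit 12) (nat_lit 5) (nat_lit 13) (nat_lit 4) (nat_lit 358) (nat_lit 274) (nat_lit 148)) (XT.nd (nat_lit 78) (nat_lit 0) (nat_lit 0) (XT.lf (nat_lit 0) (nat_lit 59274426538) (nat_lit 76) (nat_lit 9136654144) (nat_lit 152) (nat_lit 85389095369) (nat_lit 11) (nat_lit 5) (nat_lit 12) (nat_lit 5) (nat_lit 13) (nat_lit 4) (nat_lit 359) (nat_lit 274) (nat_lit 147)) (XT.lf (nat_lit 0) (nat_lit 92650871477) (nat_lit 152) (nat_lit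 52731696573) (nat_lit 0) (nat_lit 15361741726) (nat_lit 11) (nat_lit 5) (nat_lit 13) (nat_lit 4) (nat_lit 11) (nat_lit 4) (nat_lit 360) (nat_lit 274) (nat_lit 146)))) (XT.nd (nat_lit 156) (nat_lit 0) (nat_lit 0) (XT.nd (nat_lit 78) (nat_lit 76) (nat_lit 0) (XT.lf (nat_lit 0) (nat_lit 118190195703) (nat_lit 152) (nat_lit 8948916579) (nat_lit 0) (nat_lit 40893912559) (nat_lit 11) (nat_lit 5) (nat_lit 13) (nat_lit 4) (nat_lit 11) (nat_lit 4) (nat_lit 361) (nat_lit 274) (nat_lit 145)) (XT.lf (nat_lit 0) (nat_lit 37751326648) (nat_lit 76) (nat_lit 107613596364) (nat_lit 76) (nat_lit 30310500464) (nat_lit 10) (nat_lit 4) (nat_lit 11) (nat_lit 5) (nat_lit 11) (nat_lit 4) (nat_lit 362) (nat_lit 274) (nat_lit 144))) (XT.nd (nat_lit 33774) (nat_lit 0) (nat_lit 17100) (XT.lf (nat_lit 0) (nat_lit 86965487018) (nat_lit 76) (nat_lit 87020703021) (nat_lit 76) (nat_lit 9711118782) (nat_lit 10) (nat_lit 4)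 (nat_lit 11) (nat_lit 5) (nat_lit 11) (nat_lit 4) (nat_lit 363) (nat_lit 274) (nat_lit 143)) (XT.lf (nat_lit 0) (nat_lit 1056397920) (nat_lit 0) (nat_lit 1056397920) (nat_lit 988) (nat_lit 2434482093) (nat_lit 235) (nat_lit 5) (nat_lit 235) (nat_lit 3) (nat_lit 248) (nat_lit 3) (nat_lit 275) (nat_lit 275) (nat_lit 230)))))) (XT.nd (nat_lit 546) (nat_lit 3344) (nat_lit 0) (XT.nd (nat_lit 234) (nat_lit 912) (nat_lit 0) (XT.nd (nat_lit 78) (nat_lit 0) (nat_lit 76) (XT.lf (nat_lit 0) (nat_lit 5750702346) (nat_lit 988) (nat_lit 17185071) (nat_lit 1064) (nat_lit 3509879136) (nat_lit 235) (nat_lit 5) (nat_lit 248) (nat_lit 3) (nat_lit 249) (nat_lit 5) (nat_lit 276) (nat_lit 275) (nat_lit 229)) (XT.nd (nat_lit 78) (nat_lit 0) (nat_lit 0) (XT.lf (nat_lit 0) (nat_lit 7356149521) (nat_lit 988) (nat_lit 2099656576) (nat_lit 1064) (nat_lit 14309689) (nat_lit 236) (nat_lit 5) (nat_lit 249) (nat_lit 5)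 (nat_lit 250) (nat_lit 5) (nat_lit 277) (nat_lit 275) (nat_lit 228)) (XT.lf (nat_lit 76) (nat_lit 5454839513) (nat_lit 0) (nat_lit 3613751485) (nat_lit 1064) (nat_lit 602785481) (nat_lit 237) (nat_lit 5) (nat_lit 236) (nat_lit 5) (nat_lit 250) (nat_lit 5) (nat_lit 278) (nat_lit 275) (nat_lit 227)))) (XT.nd (nat_lit 156) (nat_lit 0) (nat_lit 76) (XT.nd (nat_lit 78) (nat_lit 0) (nat_lit 0) (XT.lf (nat_lit 0) (nat_lit 964529647) (nat_lit 1064) (nat_lit 6349238705) (nat_lit 1140) (nat_lit 2568743279) (nat_lit 223) (nat_lit 5) (nat_lit 237) (nat_lit 5) (nat_lit 238) (nat_lit 5) (nat_lit 279) (nat_lit 275) (nat_lit 226)) (XT.lf (nat_lit 76) (nat_lit 1593134944) (nat_lit 0) (nat_lit 1022604623) (nat_lit 1140) (nat_lit 7487829299) (nat_lit 224) (nat_lit 5) (nat_lit 223) (nat_lit 5) (nat_lit 238) (nat_lit 5) (nat_lit 280) (nat_lit 275) (nat_lit 225))) (XT.nd (nat_lit 78) (nat_lit 0) (nat_lit 76) (XT.lf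 (nat_lit 0) (nat_lit 4394911690) (nat_lit 1064) (nat_lit 374579088) (nat_lit 1140) (nat_lit 5564906360) (nat_lit 224) (nat_lit 5) (nat_lit 238) (nat_lit 5) (nat_lit 239) (nat_lit 5) (nat_lit 281) (nat_lit 275) (nat_lit 224)) (XT.lf (nat_lit 0) (nat_lit 6301227005) (nat_lit 1064) (nat_lit 2325641577) (nat_lit 1140) (nat_lit 1948829110) (nat_lit 225) (nat_lit 5) (nat_lit 239) (nat_lit 5) (nat_lit 240) (nat_lit 5) (nat_lit 282) (nat_lit 275) (nat_lit 223))))) (XT.nd (nat_lit 234) (nat_lit 2508) (nat_lit 0) (XT.nd (nat_lit 78) (nat_lit 988) (nat_lit 0) (XT.lf (nat_lit 76) (nat_lit 6513459402) (nat_lit 0) (nat_lit 1836405303) (nat_lit 1140) (nat_lit 2477861138) (nat_lit 226) (nat_lit 5) (nat_lit 225) (nat_lit 5) (nat_lit 240) (nat_lit 5) (nat_lit 283) (nat_lit 275) (nat_lit 222)) (XT.nd (nat_lit 78) (nat_lit 1064) (nat_lit 0) (XT.lf (nat_lit 76) (nat_lit 4741890151) (nat_lit 0) (nat_lit 5814956111)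 (nat_lit 1140) (nat_lit 533901084) (nat_lit 227) (nat_lit 5) (nat_lit 226) (nat_lit 5) (nat_lit 241) (nat_lit 5) (nat_lit 284) (nat_lit 275) (nat_lit 221)) (XT.lf (nat_lit 0) (nat_lit 1520629914) (nat_lit 1140) (nat_lit 8430892849) (nat_lit 76) (nat_lit 1413743029) (nat_lit 212) (nat_lit 5) (nat_lit 227) (nat_lit 5) (nat_lit 213) (nat_lit 5) (nat_lit 285) (nat_lit 275) (nat_lit 220)))) (XT.nd (nat_lit 156) (nat_lit 1368) (nat_lit 0) (XT.nd (nat_lit 78) (nat_lit 0) (nat_lit 0) (XT.lf (nat_lit 0) (nat_lit 1067627645) (nat_lit 1140) (nat_lit 2674092689) (nat_lit 1216) (nat_lit 7909446031) (nat_lit 197) (nat_lit 5) (nat_lit 212) (nat_lit 5) (nat_lit 213) (nat_lit 5) (nat_lit 286) (nat_lit 275) (nat_lit 219)) (XT.lf (nat_lit 0) (nat_lit 6151538079) (nat_lit 1216) (nat_lit 831871644) (nat_lit 76) (nat_lit 4965680180) (nat_lit 197) (nat_lit 5) (nat_lit 213) (nat_lit 5) (nat_lit 198) (nat_lit 5)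 (nat_lit 287) (nat_lit 275) (nat_lit 218))) (XT.nd (nat_lit 78) (nat_lit 608) (nat_lit 0) (XT.lf (nat_lit 0) (nat_lit 8752759738) (nat_lit 836) (nat_lit 2750676606) (nat_lit 76) (nat_lit 756401238) (nat_lit 187) (nat_lit 5) (nat_lit 198) (nat_lit 5) (nat_lit 188) (nat_lit 5) (nat_lit 288) (nat_lit 275) (nat_lit 217)) (XT.lf (nat_lit 0) (nat_lit 7831444846) (nat_lit 608) (nat_lit 3754242418) (nat_lit 684) (nat_lit 997438757) (nat_lit 179) (nat_lit 5) (nat_lit 187) (nat_lit 5) (nat_lit 188) (nat_lit 5) (nat_lit 289) (nat_lit 275) (nat_lit 216))))))) (XT.nd (nat_lit 1092) (nat_lit 3420) (nat_lit 0) (XT.nd (nat_lit 546) (nat_lit 2508) (nat_lit 0) (XT.nd (nat_lit 234) (nat_lit 1520) (nat_lit 0) (XT.nd (nat_lit 78) (nat_lit 1064) (nat_lit 0) (XT.lf (nat_lit 0) (nat_lit 1685172325) (nat_lit 608) (nat_lit 6831376682) (nat_lit 76) (nat_lit 4403222934) (nat_lit 171) (nat_lit 5) (nat_lit 179) (nat_lit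 5) (nat_lit 172) (nat_lit 5) (nat_lit 290) (nat_lit 275) (nat_lit 215)) (XT.nd (nat_lit 78) (nat_lit 532) (nat_lit 0) (XT.lf (nat_lit 0) (nat_lit 4283792174) (nat_lit 532) (nat_lit 276880073) (nat_lit 608) (nat_lit 8709946461) (nat_lit 164) (nat_lit 5) (nat_lit 171) (nat_lit 5) (nat_lit 172) (nat_lit 5) (nat_lit 291) (nat_lit 275) (nat_lit 214)) (XT.lf (nat_lit 0) (nat_lit 2376357589) (nat_lit 532) (nat_lit 5330561254) (nat_lit 608) (nat_lit 5928324034) (nat_lit 157) (nat_lit 5) (nat_lit 164) (nat_lit 5) (nat_lit 165) (nat_lit 5) (nat_lit 292) (nat_lit 275) (nat_lit 213)))) (XT.nd (nat_lit 156) (nat_lit 912) (nat_lit 0) (XT.nd (nat_lit 78) (nat_lit 76) (nat_lit 0) (XT.lf (nat_lit 0) (nat_lit 403360708) (nat_lit 532) (nat_lit 10693208781) (nat_lit 608) (nat_lit 2918988122) (nat_lit 150) (nat_lit 5) (nat_lit 157) (nat_lit 5) (nat_lit 158) (nat_lit 5) (nat_lit 293) (nat_lit 275) (nat_lit 212))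 (XT.lf (nat_lit 0) (nat_lit 362582174) (nat_lit 608) (nat_lit 1633549265) (nat_lit 76) (nat_lit 12414932130) (nat_lit 149) (nat_lit 5) (nat_lit 157) (nat_lit 5) (nat_lit 150) (nat_lit 5) (nat_lit 294) (nat_lit 275) (nat_lit 211))) (XT.nd (nat_lit 78) (nat_lit 456) (nat_lit 0) (XT.lf (nat_lit 0) (nat_lit 3882601337) (nat_lit 532) (nat_lit 3809147819) (nat_lit 76) (nat_lit 7129723539) (nat_lit 143) (nat_lit 5) (nat_lit 150) (nat_lit 5) (nat_lit 144) (nat_lit 5) (nat_lit 295) (nat_lit 275) (nat_lit 210)) (XT.lf (nat_lit 0) (nat_lit 7677939752) (nat_lit 532) (nat_lit 6079293382) (nat_lit 76) (nat_lit 1492224911) (nat_lit 137) (nat_lit 5) (nat_lit 144) (nat_lit 5) (nat_lit 138) (nat_lit 5) (nat_lit 296) (nat_lit 275) (nat_lit 209))))) (XT.nd (nat_lit 234) (nat_lit 1216) (nat_lit 0) (XT.nd (nat_lit 78) (nat_lit 912) (nat_lit 0) (XT.lf (nat_lit 0) (nat_lit 7196539275) (nat_lit 380) (nat_lit 4613632760)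 (nat_lit 456) (nat_lit 3884290452) (nat_lit 132) (nat_lit 5) (nat_lit 137) (nat_lit 5) (nat_lit 138) (nat_lit 5) (nat_lit 297) (nat_lit 275) (nat_lit 208)) (XT.nd (nat_lit 78) (nat_lit 380) (nat_lit 0) (XT.lf (nat_lit 0) (nat_lit 111057877) (nat_lit 532) (nat_lit 11050697815) (nat_lit 76) (nat_lit 4996290882) (nat_lit 125) (nat_lit 5) (nat_lit 132) (nat_lit 5) (nat_lit 126) (nat_lit 5) (nat_lit 298) (nat_lit 275) (nat_lit 207)) (XT.lf (nat_lit 0) (nat_lit 2851828151) (nat_lit 380) (nat_lit 1500153639) (nat_lit 456) (nat_lit 12287919709) (nat_lit 120) (nat_lit 5) (nat_lit 125) (nat_lit 5) (nat_lit 126) (nat_lit 5) (nat_lit 299) (nat_lit 275) (nat_lit 206)))) (XT.nd (nat_lit 156) (nat_lit 836) (nat_lit 0) (XT.nd (nat_lit 78) (nat_lit 0) (nat_lit 0) (XT.lf (nat_lit 0) (nat_lit 416705121) (nat_lit 380) (nat_lit 8554553862) (nat_lit 456) (nat_lit 8169629182) (nat_lit 115) (nat_lit 5) (nat_lit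 120) (nat_lit 5) (nat_lit 121) (nat_lit 5) (nat_lit 300) (nat_lit 275) (nat_lit 205)) (XT.lf (nat_lit 0) (nat_lit 13959566515) (nat_lit 456) (nat_lit 2118283693) (nat_lit 76) (nat_lit 1584958826) (nat_lit 115) (nat_lit 5) (nat_lit 121) (nat_lit 5) (nat_lit 116) (nat_lit 5) (nat_lit 301) (nat_lit 275) (nat_lit 204))) (XT.nd (nat_lit 78) (nat_lit 380) (nat_lit 0) (XT.lf (nat_lit 0) (nat_lit 1150804422) (nat_lit 456) (nat_lit 4867329958) (nat_lit 76) (nat_lit 12186924220) (nat_lit 109) (nat_lit 5) (nat_lit 115) (nat_lit 5) (nat_lit 110) (nat_lit 5) (nat_lit 302) (nat_lit 275) (nat_lit 203)) (XT.lf (nat_lit 0) (nat_lit 6312360455) (nat_lit 456) (nat_lit 7844288910) (nat_lit 76) (nat_lit 4612453100) (nat_lit 104) (nat_lit 5) (nat_lit 110) (nat_lit 5) (nat_lit 105) (nat_lit 5) (nat_lit 303) (nat_lit 275) (nat_lit 202)))))) (XT.nd (nat_lit 546) (nat_lit 1520) (nat_lit 0) (XT.nd (nat_lit 234) (nat_lit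 912) (nat_lit 0) (XT.nd (nat_lit 78) (nat_lit 684) (nat_lit 0) (XT.lf (nat_lit 0) (nat_lit 8307509678) (nat_lit 304) (nat_lit 3584697554) (nat_lit 380) (nat_lit 7464357432) (nat_lit 100) (nat_lit 5) (nat_lit 104) (nat_lit 5) (nat_lit 105) (nat_lit 5) (nat_lit 304) (nat_lit 275) (nat_lit 201)) (XT.nd (nat_lit 78) (nat_lit 380) (nat_lit 0) (XT.lf (nat_lit 0) (nat_lit 5451769809) (nat_lit 304) (nat_lit 12475474003) (nat_lit 380) (nat_lit 2040891697) (nat_lit 96) (nat_lit 5) (nat_lit 100) (nat_lit 5) (nat_lit 101) (nat_lit 5) (nat_lit 305) (nat_lit 275) (nat_lit 200)) (XT.lf (nat_lit 0) (nat_lit 2333944143) (nat_lit 304) (nat_lit 1392718905) (nat_lit 380) (nat_lit 16878261620) (nat_lit 91) (nat_lit 5) (nat_lit 95) (nat_lit 5) (nat_lit 96) (nat_lit 5) (nat_lit 306) (nat_lit 275) (nat_lit 199)))) (XT.nd (nat_lit 156) (nat_lit 608) (nat_lit 0) (XT.nd (nat_lit 78) (nat_lit 304) (nat_lit 0) (XT.lf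 (nat_lit 0) (nat_lit 9961798684) (nat_lit 380) (nat_lit 1099916248) (nat_lit 76) (nat_lit 10204608689) (nat_lit 91) (nat_lit 5) (nat_lit 96) (nat_lit 5) (nat_lit 92) (nat_lit 5) (nat_lit 307) (nat_lit 275) (nat_lit 198)) (XT.lf (nat_lit 0) (nat_lit 16666499535) (nat_lit 380) (nat_lit 4748495780) (nat_lit 76) (nat_lit 541080948) (nat_lit 87) (nat_lit 5) (nat_lit 92) (nat_lit 5) (nat_lit 88) (nat_lit 5) (nat_lit 308) (nat_lit 275) (nat_lit 197))) (XT.nd (nat_lit 78) (nat_lit 304) (nat_lit 0) (XT.lf (nat_lit 0) (nat_lit 1238811640) (nat_lit 304) (nat_lit 8790805301) (nat_lit 76) (nat_lit 12643438845) (nat_lit 83) (nat_lit 5) (nat_lit 87) (nat_lit 5) (nat_lit 84) (nat_lit 5) (nat_lit 309) (nat_lit 275) (nat_lit 196)) (XT.lf (nat_lit 0) (nat_lit 8127727572) (nat_lit 380) (nat_lit 13213476458) (nat_lit 76) (nat_lit 2078819802) (nat_lit 79) (nat_lit 5) (nat_lit 84) (nat_lit 5) (nat_lit 80) (nat_lit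 5) (nat_lit 310) (nat_lit 275) (nat_lit 195))))) (XT.nd (nat_lit 312) (nat_lit 760) (nat_lit 0) (XT.nd (nat_lit 156) (nat_lit 304) (nat_lit 0) (XT.nd (nat_lit 78) (nat_lit 228) (nat_lit 0) (XT.lf (nat_lit 0) (nat_lit 6115983854) (nat_lit 228) (nat_lit 9471699924) (nat_lit 304) (nat_lit 8609873760) (nat_lit 76) (nat_lit 5) (nat_lit 79) (nat_lit 5) (nat_lit 80) (nat_lit 5) (nat_lit 311) (nat_lit 275) (nat_lit 194)) (XT.lf (nat_lit 0) (nat_lit 1643489130) (nat_lit 228) (nat_lit 21934971593) (nat_lit 304) (nat_lit 1430786892) (nat_lit 73) (nat_lit 5) (nat_lit 76) (nat_lit 5) (nat_lit 77) (nat_lit 5) (nat_lit 312) (nat_lit 275) (nat_lit 193))) (XT.nd (nat_lit 78) (nat_lit 228) (nat_lit 0) (XT.lf (nat_lit 0) (nat_lit 6248120985) (nat_lit 304) (nat_lit 3315495928) (nat_lit 76) (nat_lit 16288356138) (nat_lit 72) (nat_lit 5) (nat_lit 76) (nat_lit 5) (nat_lit 73) (nat_lit 5) (nat_lit 313) (nat_lit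 275) (nat_lit 192)) (XT.lf (nat_lit 0) (nat_lit 14467341086) (nat_lit 304) (nat_lit 8726038456) (nat_lit 76) (nat_lit 3537464159) (nat_lit 69) (nat_lit 5) (nat_lit 73) (nat_lit 5) (nat_lit 70) (nat_lit 5) (nat_lit 314) (nat_lit 275) (nat_lit 191)))) (XT.nd (nat_lit 156) (nat_lit 228) (nat_lit 0) (XT.nd (nat_lit 78) (nat_lit 304) (nat_lit 0) (XT.lf (nat_lit 0) (nat_lit 12929290248) (nat_lit 228) (nat_lit 10401731407) (nat_lit 304) (nat_lit 4315643300) (nat_lit 66) (nat_lit 5) (nat_lit 69) (nat_lit 5) (nat_lit 70) (nat_lit 5) (nat_lit 315) (nat_lit 275) (nat_lit 190)) (XT.lf (nat_lit 0) (nat_lit 4121701414) (nat_lit 304) (nat_lit 21320045160) (nat_lit 76) (nat_lit 3160258054) (nat_lit 62) (nat_lit 5) (nat_lit 66) (nat_lit 5) (nat_lit 63) (nat_lit 5) (nat_lit 316) (nat_lit 275) (nat_lit 189))) (XT.nd (nat_lit 78) (nat_lit 0) (nat_lit 0) (XT.lf (nat_lit 0) (nat_lit 923281907) (nat_lit 228) (nat_lit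 12215379716) (nat_lit 304) (nat_lit 16457768331) (nat_lit 59) (nat_lit 5) (nat_lit 62) (nat_lit 5) (nat_lit 63) (nat_lit 5) (nat_lit 317) (nat_lit 275) (nat_lit 188)) (XT.lf (nat_lit 0) (nat_lit 22824059774) (nat_lit 304) (nat_lit 5960423063) (nat_lit 76) (nat_lit 1849576124) (nat_lit 59) (nat_lit 5) (nat_lit 63) (nat_lit 5) (nat_lit 60) (nat_lit 5) (nat_lit 318) (nat_lit 275) (nat_lit 187))))))))
noncomputable def xc76 : XT := (XT.nd (nat_lit 2184) (nat_lit 608) (nat_lit 0) (XT.nd (nat_lit 1092) (nat_lit 1140) (nat_lit 0) (XT.nd (nat_lit 546) (nat_lit 912) (nat_lit 0) (XT.nd (nat_lit 234) (nat_lit 456) (nat_lit 0) (XT.nd (nat_lit 78) (nat_lit 380) (nat_lit 0) (XT.lf (nat_lit 0) (nat_lit 1526097787) (nat_lit 228) (nat_lit 13643557533) (nat_lit 76) (nat_lit 16545135416) (nat_lit 56) (nat_lit 5) (nat_lit 59) (nat_lit 5) (nat_lit 57) (nat_lit 5) (nat_lit 319) (nat_lit 275) (nat_lit 186)) (XT.nd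 (nat_lit 78) (nat_lit 152) (nat_lit 0) (XT.lf (nat_lit 0) (nat_lit 10679843516) (nat_lit 228) (nat_lit 635021424) (nat_lit 304) (nat_lit 21527961620) (nat_lit 53) (nat_lit 5) (nat_lit 56) (nat_lit 5) (nat_lit 57) (nat_lit 5) (nat_lit 320) (nat_lit 275) (nat_lit 185)) (XT.lf (nat_lit 0) (nat_lit 2355447007) (nat_lit 152) (nat_lit 19524460740) (nat_lit 228) (nat_lit 12138759790) (nat_lit 51) (nat_lit 5) (nat_lit 53) (nat_lit 5) (nat_lit 54) (nat_lit 5) (nat_lit 321) (nat_lit 275) (nat_lit 184)))) (XT.nd (nat_lit 156) (nat_lit 152) (nat_lit 0) (XT.nd (nat_lit 78) (nat_lit 304) (nat_lit 0) (XT.lf (nat_lit 0) (nat_lit 28527260331) (nat_lit 152) (nat_lit 4662784757) (nat_lit 228) (nat_lit 2056758277) (nat_lit 51) (nat_lit 5) (nat_lit 53) (nat_lit 5) (nat_lit 54) (nat_lit 5) (nat_lit 322) (nat_lit 275) (nat_lit 183)) (XT.lf (nat_lit 0) (nat_lit 8643500385) (nat_lit 304) (nat_lit 16889918842) (nat_lit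 76) (nat_lit 10992056689) (nat_lit 47) (nat_lit 5) (nat_lit 51) (nat_lit 5) (nat_lit 48) (nat_lit 5) (nat_lit 323) (nat_lit 275) (nat_lit 182))) (XT.nd (nat_lit 78) (nat_lit 0) (nat_lit 0) (XT.lf (nat_lit 0) (nat_lit 9675428899) (nat_lit 152) (nat_lit 10354583162) (nat_lit 228) (nat_lit 17831652916) (nat_lit 45) (nat_lit 5) (nat_lit 47) (nat_lit 5) (nat_lit 48) (nat_lit 5) (nat_lit 324) (nat_lit 275) (nat_lit 181)) (XT.lf (nat_lit 0) (nat_lit 32198987502) (nat_lit 228) (nat_lit 1420123879) (nat_lit 76) (nat_lit 5639164740) (nat_lit 45) (nat_lit 5) (nat_lit 48) (nat_lit 5) (nat_lit 46) (nat_lit 5) (nat_lit 325) (nat_lit 275) (nat_lit 180))))) (XT.nd (nat_lit 234) (nat_lit 380) (nat_lit 0) (XT.nd (nat_lit 78) (nat_lit 304) (nat_lit 0) (XT.lf (nat_lit 0) (nat_lit 4521673134) (nat_lit 228) (nat_lit 13676294810) (nat_lit 76) (nat_lit 22514941689) (nat_lit 42) (nat_lit 5) (nat_lit 45) (nat_lit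 5) (nat_lit 43) (nat_lit 5) (nat_lit 326) (nat_lit 275) (nat_lit 179)) (XT.nd (nat_lit 78) (nat_lit 152) (nat_lit 0) (XT.lf (nat_lit 0) (nat_lit 14899843807) (nat_lit 152) (nat_lit 1780173166) (nat_lit 228) (nat_lit 25553837068) (nat_lit 40) (nat_lit 5) (nat_lit 42) (nat_lit 5) (nat_lit 43) (nat_lit 5) (nat_lit 327) (nat_lit 275) (nat_lit 178)) (XT.lf (nat_lit 0) (nat_lit 1212479213) (nat_lit 152) (nat_lit 28521591405) (nat_lit 228) (nat_lit 14088146951) (nat_lit 38) (nat_lit 5) (nat_lit 40) (nat_lit 5) (nat_lit 41) (nat_lit 5) (nat_lit 328) (nat_lit 275) (nat_lit 177)))) (XT.nd (nat_lit 156) (nat_lit 152) (nat_lit 0) (XT.nd (nat_lit 78) (nat_lit 228) (nat_lit 0) (XT.lf (nat_lit 0) (nat_lit 31714737581) (nat_lit 152) (nat_lit 12011084227) (nat_lit 228) (nat_lit 1755633030) (nat_lit 38) (nat_lit 5) (nat_lit 40) (nat_lit 5) (nat_lit 41) (nat_lit 5) (nat_lit 329) (nat_lit 275) (nat_lit 176))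 (XT.lf (nat_lit 0) (nat_lit 11175848476) (nat_lit 228) (nat_lit 30556315944) (nat_lit 76) (nat_lit 5482243562) (nat_lit 35) (nat_lit 5) (nat_lit 38) (nat_lit 5) (nat_lit 36) (nat_lit 5) (nat_lit 330) (nat_lit 275) (nat_lit 175))) (XT.nd (nat_lit 78) (nat_lit 152) (nat_lit 0) (XT.lf (nat_lit 0) (nat_lit 24968979476) (nat_lit 228) (nat_lit 301462646) (nat_lit 76) (nat_lit 23755508414) (nat_lit 35) (nat_lit 5) (nat_lit 38) (nat_lit 5) (nat_lit 36) (nat_lit 5) (nat_lit 331) (nat_lit 275) (nat_lit 174)) (XT.lf (nat_lit 0) (nat_lit 32069858329) (nat_lit 152) (nat_lit 7677514226) (nat_lit 228) (nat_lit 11171834032) (nat_lit 33) (nat_lit 5) (nat_lit 35) (nat_lit 5) (nat_lit 36) (nat_lit 5) (nat_lit 332) (nat_lit 275) (nat_lit 173)))))) (XT.nd (nat_lit 546) (nat_lit 532) (nat_lit 0) (XT.nd (nat_lit 234) (nat_lit 304) (nat_lit 0) (XT.nd (nat_lit 78) (nat_lit 152) (nat_lit 0) (XT.lf (nat_lit 0) (nat_lit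 2536073877) (nat_lit 152) (nat_lit 39632443431) (nat_lit 76) (nat_lit 10731196902) (nat_lit 31) (nat_lit 5) (nat_lit 33) (nat_lit 5) (nat_lit 32) (nat_lit 5) (nat_lit 333) (nat_lit 275) (nat_lit 172)) (XT.nd (nat_lit 78) (nat_lit 152) (nat_lit 0) (XT.lf (nat_lit 0) (nat_lit 16961826570) (nat_lit 152) (nat_lit 7803328662) (nat_lit 76) (nat_lit 30202872611) (nat_lit 31) (nat_lit 5) (nat_lit 33) (nat_lit 5) (nat_lit 32) (nat_lit 5) (nat_lit 334) (nat_lit 275) (nat_lit 171)) (XT.lf (nat_lit 0) (nat_lit 26106340022) (nat_lit 152) (nat_lit 6241955713) (nat_lit 228) (nat_lit 24784282363) (nat_lit 29) (nat_lit 5) (nat_lit 31) (nat_lit 5) (nat_lit 32) (nat_lit 5) (nat_lit 335) (nat_lit 275) (nat_lit 170)))) (XT.nd (nat_lit 156) (nat_lit 152) (nat_lit 0) (XT.nd (nat_lit 78) (nat_lit 76) (nat_lit 0) (XT.lf (nat_lit 0) (nat_lit 2370105313) (nat_lit 76) (nat_lit 46353602308) (nat_lit 152) (nat_lit 10675063289)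 (nat_lit 28) (nat_lit 5) (nat_lit 29) (nat_lit 5) (nat_lit 30) (nat_lit 4) (nat_lit 336) (nat_lit 275) (nat_lit 169)) (XT.lf (nat_lit 0) (nat_lit 4433381910) (nat_lit 152) (nat_lit 23809677860) (nat_lit 76) (nat_lit 33522786848) (nat_lit 27) (nat_lit 5) (nat_lit 29) (nat_lit 5) (nat_lit 28) (nat_lit 5) (nat_lit 337) (nat_lit 275) (nat_lit 168))) (XT.nd (nat_lit 78) (nat_lit 0) (nat_lit 0) (XT.lf (nat_lit 0) (nat_lit 11161599347) (nat_lit 152) (nat_lit 9013734368) (nat_lit 228) (nat_lit 44069808947) (nat_lit 25) (nat_lit 5) (nat_lit 27) (nat_lit 5) (nat_lit 28) (nat_lit 5) (nat_lit 338) (nat_lit 275) (nat_lit 167)) (XT.lf (nat_lit 0) (nat_lit 37049114122) (nat_lit 228) (nat_lit 18590336411) (nat_lit 76) (nat_lit 11198614084) (nat_lit 25) (nat_lit 5) (nat_lit 28) (nat_lit 5) (nat_lit 26) (nat_lit 4) (nat_lit 339) (nat_lit 275) (nat_lit 166))))) (XT.nd (nat_lit 234) (nat_lit 228) (nat_lit 0)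 (XT.nd (nat_lit 78) (nat_lit 228) (nat_lit 0) (XT.lf (nat_lit 0) (nat_lit 17867681469) (nat_lit 76) (nat_lit 37151886347) (nat_lit 152) (nat_lit 14533478220) (nat_lit 24) (nat_lit 5) (nat_lit 25) (nat_lit 5) (nat_lit 26) (nat_lit 4) (nat_lit 340) (nat_lit 275) (nat_lit 165)) (XT.nd (nat_lit 78) (nat_lit 152) (nat_lit 0) (XT.lf (nat_lit 0) (nat_lit 1639516004) (nat_lit 152) (nat_lit 15894343449) (nat_lit 76) (nat_lit 54863979929) (nat_lit 23) (nat_lit 5) (nat_lit 25) (nat_lit 5) (nat_lit 24) (nat_lit 5) (nat_lit 341) (nat_lit 275) (nat_lit 164)) (XT.lf (nat_lit 0) (nat_lit 18558235256) (nat_lit 228) (nat_lit 53455864009) (nat_lit 76) (nat_lit 3359329308) (nat_lit 21) (nat_lit 5) (nat_lit 24) (nat_lit 5) (nat_lit 22) (nat_lit 4) (nat_lit 342) (nat_lit 275) (nat_lit 163)))) (XT.nd (nat_lit 156) (nat_lit 152) (nat_lit 0) (XT.nd (nat_lit 78) (nat_lit 76) (nat_lit 0) (XT.lf (nat_lit 0) (nat_lit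 36656223514) (nat_lit 228) (nat_lit 16735401359) (nat_lit 76) (nat_lit 25096174785) (nat_lit 21) (nat_lit 5) (nat_lit 24) (nat_lit 5) (nat_lit 22) (nat_lit 4) (nat_lit 343) (nat_lit 275) (nat_lit 162)) (XT.lf (nat_lit 0) (nat_lit 22239696998) (nat_lit 76) (nat_lit 33624739883) (nat_lit 152) (nat_lit 25887294959) (nat_lit 20) (nat_lit 5) (nat_lit 21) (nat_lit 5) (nat_lit 22) (nat_lit 4) (nat_lit 344) (nat_lit 275) (nat_lit 161))) (XT.nd (nat_lit 78) (nat_lit 152) (nat_lit 0) (XT.lf (nat_lit 0) (nat_lit 63498347330) (nat_lit 76) (nat_lit 12698793105) (nat_lit 152) (nat_lit 8976800012) (nat_lit 20) (nat_lit 5) (nat_lit 21) (nat_lit 5) (nat_lit 22) (nat_lit 4) (nat_lit 345) (nat_lit 275) (nat_lit 160)) (XT.lf (nat_lit 0) (nat_lit 8867696536) (nat_lit 152) (nat_lit 70540118355) (nat_lit 76) (nat_lit 9349121159) (nat_lit 18) (nat_lit 5) (nat_lit 20) (nat_lit 5) (nat_lit 19) (nat_lit 4) (nat_lit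 346) (nat_lit 275) (nat_lit 159))))))) (XT.nd (nat_lit 1092) (nat_lit 76) (nat_lit 0) (XT.nd (nat_lit 546) (nat_lit 228) (nat_lit 0) (XT.nd (nat_lit 234) (nat_lit 228) (nat_lit 0) (XT.nd (nat_lit 78) (nat_lit 76) (nat_lit 0) (XT.lf (nat_lit 0) (nat_lit 27766296954) (nat_lit 152) (nat_lit 32190699073) (nat_lit 76) (nat_lit 32548994980) (nat_lit 18) (nat_lit 5) (nat_lit 20) (nat_lit 5) (nat_lit 19) (nat_lit 4) (nat_lit 347) (nat_lit 275) (nat_lit 158)) (XT.nd (nat_lit 78) (nat_lit 0) (nat_lit 0) (XT.lf (nat_lit 0) (nat_lit 8223197730) (nat_lit 76) (nat_lit 39458337886) (nat_lit 152) (nat_lit 48758813695) (nat_lit 17) (nat_lit 5) (nat_lit 18) (nat_lit 5) (nat_lit 19) (nat_lit 4) (nat_lit 348) (nat_lit 275) (nat_lit 157)) (XT.lf (nat_lit 0) (nat_lit 51317408417) (nat_lit 76) (nat_lit 17599388237) (nat_lit 152) (nat_lit 31644902822) (nat_lit 17) (nat_lit 5) (nat_lit 18) (nat_lit 5) (nat_lit 19)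 (nat_lit 4) (nat_lit 349) (nat_lit 275) (nat_lit 156)))) (XT.nd (nat_lit 156) (nat_lit 76) (nat_lit 0) (XT.nd (nat_lit 78) (nat_lit 152) (nat_lit 0) (XT.lf (nat_lit 0) (nat_lit 91258442175) (nat_lit 152) (nat_lit 8386838922) (nat_lit 0) (nat_lit 5242499084) (nat_lit 17) (nat_lit 5) (nat_lit 19) (nat_lit 4) (nat_lit 17) (nat_lit 4) (nat_lit 350) (nat_lit 275) (nat_lit 155)) (XT.lf (nat_lit 0) (nat_lit 5696499415) (nat_lit 152) (nat_lit 74463822362) (nat_lit 76) (nat_lit 29252940150) (nat_lit 15) (nat_lit 5) (nat_lit 17) (nat_lit 5) (nat_lit 16) (nat_lit 4) (nat_lit 351) (nat_lit 275) (nat_lit 154))) (XT.nd (nat_lit 78) (nat_lit 76) (nat_lit 0) (XT.lf (nat_lit 0) (nat_lit 25790192133) (nat_lit 152) (nat_lit 33684838607) (nat_lit 76) (nat_lit 54683437005) (nat_lit 15) (nat_lit 5) (nat_lit 17) (nat_lit 5) (nat_lit 16) (nat_lit 4) (nat_lit 352) (nat_lit 275) (nat_lit 153)) (XT.lf (nat_lit 0) (nat_lit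 9303414480) (nat_lit 76) (nat_lit 37668517368) (nat_lit 152) (nat_lit 72166502540) (nat_lit 14) (nat_lit 5) (nat_lit 15) (nat_lit 5) (nat_lit 16) (nat_lit 4) (nat_lit 353) (nat_lit 275) (nat_lit 152))))) (XT.nd (nat_lit 234) (nat_lit 152) (nat_lit 0) (XT.nd (nat_lit 78) (nat_lit 76) (nat_lit 0) (XT.lf (nat_lit 0) (nat_lit 55134092999) (nat_lit 76) (nat_lit 14419537643) (nat_lit 152) (nat_lit 54803543896) (nat_lit 14) (nat_lit 5) (nat_lit 15) (nat_lit 5) (nat_lit 16) (nat_lit 4) (nat_lit 354) (nat_lit 275) (nat_lit 151)) (XT.nd (nat_lit 78) (nat_lit 76) (nat_lit 0) (XT.lf (nat_lit 0) (nat_lit 93354813183) (nat_lit 152) (nat_lit 26687100030) (nat_lit 0) (nat_lit 9792227793) (nat_lit 14) (nat_lit 5) (nat_lit 16) (nat_lit 4) (nat_lit 14) (nat_lit 4) (nat_lit 355) (nat_lit 275) (nat_lit 150)) (XT.lf (nat_lit 0) (nat_lit 18174790959) (nat_lit 76) (nat_lit 100486130642) (nat_lit 76) (nat_lit 16914589407)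 (nat_lit 13) (nat_lit 4) (nat_lit 14) (nat_lit 5) (nat_lit 14) (nat_lit 4) (nat_lit 356) (nat_lit 275) (nat_lit 149)))) (XT.nd (nat_lit 156) (nat_lit 76) (nat_lit 0) (XT.nd (nat_lit 78) (nat_lit 0) (nat_lit 0) (XT.lf (nat_lit 0) (nat_lit 3829752847) (nat_lit 152) (nat_lit 75805672329) (nat_lit 76) (nat_lit 61959314014) (nat_lit 12) (nat_lit 5) (nat_lit 14) (nat_lit 5) (nat_lit 13) (nat_lit 4) (nat_lit 357) (nat_lit 275) (nat_lit 148)) (XT.lf (nat_lit 0) (nat_lit 25259725041) (nat_lit 152) (nat_lit 32310951990) (nat_lit 76) (nat_lit 90339281709) (nat_lit 12) (nat_lit 5) (nat_lit 14) (nat_lit 5) (nat_lit 13) (nat_lit 4) (nat_lit 358) (nat_lit 275) (nat_lit 147))) (XT.nd (nat_lit 78) (nat_lit 0) (nat_lit 0) (XT.lf (nat_lit 0) (nat_lit 13615276287) (nat_lit 76) (nat_lit 34272017559) (nat_lit 152) (nat_lit 106649863501) (nat_lit 11) (nat_lit 5) (nat_lit 12) (nat_lit 5) (nat_lit 13) (nat_lit 4)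 (nat_lit 359) (nat_lit 275) (nat_lit 146)) (XT.lf (nat_lit 0) (nat_lit 62504364119) (nat_lit 76) (nat_lit 9469853779) (nat_lit 152) (nat_lit 89511659648) (nat_lit 11) (nat_lit 5) (nat_lit 12) (nat_lit 5) (nat_lit 13) (nat_lit 4) (nat_lit 360) (nat_lit 275) (nat_lit 145)))))) (XT.nd (nat_lit 34320) (nat_lit 0) (nat_lit 15276) (XT.nd (nat_lit 34008) (nat_lit 0) (nat_lit 16036) (XT.nd (nat_lit 78) (nat_lit 76) (nat_lit 0) (XT.lf (nat_lit 0) (nat_lit 97420340403) (nat_lit 152) (nat_lit 55111771759) (nat_lit 0) (nat_lit 16245276951) (nat_lit 11) (nat_lit 5) (nat_lit 13) (nat_lit 4) (nat_lit 11) (nat_lit 4) (nat_lit 361) (nat_lit 275) (nat_lit 144)) (XT.nd (nat_lit 78) (nat_lit 76) (nat_lit 0) (XT.lf (nat_lit 0) (nat_lit 124230110585) (nat_lit 152) (nat_lit 9152067510) (nat_lit 0) (nat_lit 43048558795) (nat_lit 11) (nat_lit 5) (nat_lit 13) (nat_lit 4) (nat_lit 11) (nat_lit 4) (nat_lit 362) (nat_lit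 275) (nat_lit 143)) (XT.lf (nat_lit 0) (nat_lit 39876185214) (nat_lit 76) (nat_lit 112883460277) (nat_lit 76) (nat_lit 31695729116) (nat_lit 10) (nat_lit 4) (nat_lit 11) (nat_lit 5) (nat_lit 11) (nat_lit 4) (nat_lit 363) (nat_lit 275) (nat_lit 142)))) (XT.nd (nat_lit 156) (nat_lit 1064) (nat_lit 0) (XT.nd (nat_lit 78) (nat_lit 0) (nat_lit 0) (XT.lf (nat_lit 0) (nat_lit 1790935626) (nat_lit 0) (nat_lit 1790935626) (nat_lit 988) (nat_lit 1150322923) (nat_lit 235) (nat_lit 5) (nat_lit 235) (nat_lit 3) (nat_lit 248) (nat_lit 3) (nat_lit 276) (nat_lit 276) (nat_lit 228)) (XT.lf (nat_lit 76) (nat_lit 1401141863) (nat_lit 0) (nat_lit 7235102386) (nat_lit 1064) (nat_lit 1024528359) (nat_lit 236) (nat_lit 5) (nat_lit 235) (nat_lit 5) (nat_lit 249) (nat_lit 5) (nat_lit 277) (nat_lit 276) (nat_lit 227))) (XT.nd (nat_lit 78) (nat_lit 0) (nat_lit 76) (XT.lf (nat_lit 0) (nat_lit 325207871) (nat_lit 1064)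 (nat_lit 778696709) (nat_lit 1140) (nat_lit 8762589973) (nat_lit 221) (nat_lit 5) (nat_lit 235) (nat_lit 5) (nat_lit 236) (nat_lit 5) (nat_lit 278) (nat_lit 276) (nat_lit 226)) (XT.lf (nat_lit 0) (nat_lit 1765202684) (nat_lit 1064) (nat_lit 2972704149) (nat_lit 1140) (nat_lit 5343056868) (nat_lit 222) (nat_lit 5) (nat_lit 236) (nat_lit 5) (nat_lit 237) (nat_lit 5) (nat_lit 279) (nat_lit 276) (nat_lit 225))))) (XT.nd (nat_lit 234) (nat_lit 912) (nat_lit 0) (XT.nd (nat_lit 78) (nat_lit 0) (nat_lit 0) (XT.lf (nat_lit 0) (nat_lit 3290003919) (nat_lit 1064) (nat_lit 5180163863) (nat_lit 1140) (nat_lit 1835684549) (nat_lit 223) (nat_lit 5) (nat_lit 237) (nat_lit 5) (nat_lit 238) (nat_lit 5) (nat_lit 280) (nat_lit 276) (nat_lit 224)) (XT.nd (nat_lit 78) (nat_lit 0) (nat_lit 76) (XT.lf (nat_lit 76) (nat_lit 3116717191) (nat_lit 0) (nat_lit 1812496669) (nat_lit 1140) (nat_lit 5611702880) (nat_lit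 224) (nat_lit 5) (nat_lit 223) (nat_lit 5) (nat_lit 238) (nat_lit 5) (nat_lit 281) (nat_lit 276) (nat_lit 223)) (XT.lf (nat_lit 76) (nat_lit 1074184110) (nat_lit 0) (nat_lit 5622785436) (nat_lit 1140) (nat_lit 4089440034) (nat_lit 225) (nat_lit 5) (nat_lit 224) (nat_lit 5) (nat_lit 239) (nat_lit 5) (nat_lit 282) (nat_lit 276) (nat_lit 222)))) (XT.nd (nat_lit 156) (nat_lit 1064) (nat_lit 0) (XT.nd (nat_lit 78) (nat_lit 0) (nat_lit 0) (XT.lf (nat_lit 0) (nat_lit 8597523006) (nat_lit 1064) (nat_lit 969528705) (nat_lit 1140) (nat_lit 1475862352) (nat_lit 225) (nat_lit 5) (nat_lit 239) (nat_lit 5) (nat_lit 240) (nat_lit 5) (nat_lit 283) (nat_lit 276) (nat_lit 221)) (XT.lf (nat_lit 76) (nat_lit 8269321417) (nat_lit 0) (nat_lit 2398674519) (nat_lit 1140) (nat_lit 642067085) (nat_lit 226) (nat_lit 5) (nat_lit 225) (nat_lit 5) (nat_lit 240) (nat_lit 5) (nat_lit 284) (nat_lit 276) (nat_lit 220))) (XT.nd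 (nat_lit 78) (nat_lit 0) (nat_lit 76) (XT.lf (nat_lit 0) (nat_lit 1290028107) (nat_lit 1140) (nat_lit 5171478862) (nat_lit 1216) (nat_lit 5126871858) (nat_lit 211) (nat_lit 5) (nat_lit 226) (nat_lit 5) (nat_lit 227) (nat_lit 5) (nat_lit 285) (nat_lit 276) (nat_lit 219)) (XT.lf (nat_lit 0) (nat_lit 3359580467) (nat_lit 1140) (nat_lit 7347863293) (nat_lit 76) (nat_lit 1171410132) (nat_lit 212) (nat_lit 5) (nat_lit 227) (nat_lit 5) (nat_lit 213) (nat_lit 5) (nat_lit 286) (nat_lit 276) (nat_lit 218))))))))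
noncomputable def xc77 : XT := (XT.nd (nat_lit 2184) (nat_lit 3876) (nat_lit 0) (XT.nd (nat_lit 1092) (nat_lit 3648) (nat_lit 0) (XT.nd (nat_lit 546) (nat_lit 2812) (nat_lit 0) (XT.nd (nat_lit 234) (nat_lit 2280) (nat_lit 0) (XT.nd (nat_lit 78) (nat_lit 760) (nat_lit 0) (XT.lf (nat_lit 0) (nat_lit 2582454909) (nat_lit 1140) (nat_lit 3039370284) (nat_lit 1216) (nat_lit 6559406431) (nat_lit 197) (nat_lit 5) (nat_lit 212) (nat_lit 5) (nat_lit 213) (nat_lit 5) (nat_lit 287) (nat_lit 276) (nat_lit 217)) (XT.nd (nat_lit 78) (nat_lit 0) (nat_lit 0) (XT.lf (nat_lit 0) (nat_lit 581855499) (nat_lit 760) (nat_lit 7493131511) (nat_lit 836) (nat_lit 4421459804) (nat_lit 187) (nat_lit 5) (nat_lit 197) (nat_lit 5) (nat_lit 198) (nat_lit 5) (nat_lit 288) (nat_lit 276) (nat_lit 216)) (XT.lf (nat_lit 0) (nat_lit 10736089993) (nat_lit 836) (nat_lit 1436289089) (nat_lit 76) (nat_lit 652535399) (nat_lit 187)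 (nat_lit 5) (nat_lit 198) (nat_lit 5) (nat_lit 188) (nat_lit 5) (nat_lit 289) (nat_lit 276) (nat_lit 215)))) (XT.nd (nat_lit 156) (nat_lit 1064) (nat_lit 0) (XT.nd (nat_lit 78) (nat_lit 532) (nat_lit 0) (XT.lf (nat_lit 0) (nat_lit 474922003) (nat_lit 684) (nat_lit 3537579004) (nat_lit 76) (nat_lit 9153601616) (nat_lit 178) (nat_lit 5) (nat_lit 187) (nat_lit 5) (nat_lit 179) (nat_lit 5) (nat_lit 290) (nat_lit 276) (nat_lit 214)) (XT.lf (nat_lit 0) (nat_lit 3212755599) (nat_lit 608) (nat_lit 5727560631) (nat_lit 76) (nat_lit 4580784718) (nat_lit 171) (nat_lit 5) (nat_lit 179) (nat_lit 5) (nat_lit 172) (nat_lit 5) (nat_lit 291) (nat_lit 276) (nat_lit 213))) (XT.nd (nat_lit 78) (nat_lit 532) (nat_lit 0) (XT.lf (nat_lit 0) (nat_lit 5901935001) (nat_lit 532) (nat_lit 274861428) (nat_lit 608) (nat_lit 7714415402) (nat_lit 164) (nat_lit 5) (nat_lit 171) (nat_lit 5) (nat_lit 172) (nat_lit 5) (nat_lit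 292) (nat_lit 276) (nat_lit 212)) (XT.lf (nat_lit 0) (nat_lit 3900443548) (nat_lit 532) (nat_lit 5527465772) (nat_lit 608) (nat_lit 4847792940) (nat_lit 157) (nat_lit 5) (nat_lit 164) (nat_lit 5) (nat_lit 165) (nat_lit 5) (nat_lit 293) (nat_lit 276) (nat_lit 211))))) (XT.nd (nat_lit 234) (nat_lit 1748) (nat_lit 0) (XT.nd (nat_lit 78) (nat_lit 532) (nat_lit 0) (XT.lf (nat_lit 0) (nat_lit 1827983841) (nat_lit 532) (nat_lit 11109594413) (nat_lit 608) (nat_lit 1738997139) (nat_lit 150) (nat_lit 5) (nat_lit 157) (nat_lit 5) (nat_lit 158) (nat_lit 5) (nat_lit 294) (nat_lit 276) (nat_lit 210)) (XT.nd (nat_lit 78) (nat_lit 456) (nat_lit 0) (XT.lf (nat_lit 0) (nat_lit 1618869870) (nat_lit 608) (nat_lit 351922494) (nat_lit 76) (nat_lit 13122593458) (nat_lit 149) (nat_lit 5) (nat_lit 157) (nat_lit 5) (nat_lit 150) (nat_lit 5) (nat_lit 295) (nat_lit 276) (nat_lit 209)) (XT.lf (nat_lit 0) (nat_lit 5269931047)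 (nat_lit 532) (nat_lit 2639859259) (nat_lit 76) (nat_lit 7615925589) (nat_lit 143) (nat_lit 5) (nat_lit 150) (nat_lit 5) (nat_lit 144) (nat_lit 5) (nat_lit 296) (nat_lit 276) (nat_lit 208)))) (XT.nd (nat_lit 156) (nat_lit 912) (nat_lit 0) (XT.nd (nat_lit 78) (nat_lit 380) (nat_lit 0) (XT.lf (nat_lit 0) (nat_lit 9212563805) (nat_lit 532) (nat_lit 5028681873) (nat_lit 76) (nat_lit 1735178271) (nat_lit 137) (nat_lit 5) (nat_lit 144) (nat_lit 5) (nat_lit 138) (nat_lit 5) (nat_lit 297) (nat_lit 276) (nat_lit 207)) (XT.lf (nat_lit 0) (nat_lit 8872113763) (nat_lit 380) (nat_lit 4637145183) (nat_lit 456) (nat_lit 2935731043) (nat_lit 132) (nat_lit 5) (nat_lit 137) (nat_lit 5) (nat_lit 138) (nat_lit 5) (nat_lit 298) (nat_lit 276) (nat_lit 206))) (XT.nd (nat_lit 78) (nat_lit 380) (nat_lit 0) (XT.lf (nat_lit 0) (nat_lit 1198355063) (nat_lit 532) (nat_lit 10271523364) (nat_lit 76) (nat_lit 5462750582)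 (nat_lit 125) (nat_lit 5) (nat_lit 132) (nat_lit 5) (nat_lit 126) (nat_lit 5) (nat_lit 299) (nat_lit 276) (nat_lit 205)) (XT.lf (nat_lit 0) (nat_lit 4287955720) (nat_lit 380) (nat_lit 1324292080) (nat_lit 456) (nat_lit 11827542514) (nat_lit 120) (nat_lit 5) (nat_lit 125) (nat_lit 5) (nat_lit 126) (nat_lit 5) (nat_lit 300) (nat_lit 276) (nat_lit 204)))))) (XT.nd (nat_lit 546) (nat_lit 1444) (nat_lit 0) (XT.nd (nat_lit 234) (nat_lit 1368) (nat_lit 0) (XT.nd (nat_lit 78) (nat_lit 456) (nat_lit 0) (XT.lf (nat_lit 0) (nat_lit 1722841141) (nat_lit 380) (nat_lit 8704648677) (nat_lit 456) (nat_lit 7539425811) (nat_lit 115) (nat_lit 5) (nat_lit 120) (nat_lit 5) (nat_lit 121) (nat_lit 5) (nat_lit 301) (nat_lit 276) (nat_lit 203)) (XT.nd (nat_lit 78) (nat_lit 456) (nat_lit 0) (XT.lf (nat_lit 0) (nat_lit 15619770234) (nat_lit 456) (nat_lit 973103657) (nat_lit 76) (nat_lit 1923459397) (nat_lit 115) (nat_lit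 5) (nat_lit 121) (nat_lit 5) (nat_lit 116) (nat_lit 5) (nat_lit 302) (nat_lit 276) (nat_lit 202)) (XT.lf (nat_lit 0) (nat_lit 2146320129) (nat_lit 456) (nat_lit 3876104089) (nat_lit 76) (nat_lit 13064055087) (nat_lit 109) (nat_lit 5) (nat_lit 115) (nat_lit 5) (nat_lit 110) (nat_lit 5) (nat_lit 303) (nat_lit 276) (nat_lit 201)))) (XT.nd (nat_lit 156) (nat_lit 684) (nat_lit 0) (XT.nd (nat_lit 78) (nat_lit 304) (nat_lit 0) (XT.lf (nat_lit 0) (nat_lit 7535645559) (nat_lit 456) (nat_lit 7012324867) (nat_lit 76) (nat_lit 5131697187) (nat_lit 104) (nat_lit 5) (nat_lit 110) (nat_lit 5) (nat_lit 105) (nat_lit 5) (nat_lit 304) (nat_lit 276) (nat_lit 200)) (XT.lf (nat_lit 0) (nat_lit 9911972820) (nat_lit 304) (nat_lit 3450719852) (nat_lit 380) (nat_lit 6934795439) (nat_lit 100) (nat_lit 5) (nat_lit 104) (nat_lit 5) (nat_lit 105) (nat_lit 5) (nat_lit 305) (nat_lit 276) (nat_lit 199))) (XT.nd (nat_lit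 78) (nat_lit 380) (nat_lit 0) (XT.lf (nat_lit 0) (nat_lit 6902570077) (nat_lit 304) (nat_lit 12769395778) (nat_lit 380) (nat_lit 1268527028) (nat_lit 96) (nat_lit 5) (nat_lit 100) (nat_lit 5) (nat_lit 101) (nat_lit 5) (nat_lit 306) (nat_lit 276) (nat_lit 198)) (XT.lf (nat_lit 0) (nat_lit 3612218205) (nat_lit 304) (nat_lit 1128464145) (nat_lit 380) (nat_lit 16869104474) (nat_lit 91) (nat_lit 5) (nat_lit 95) (nat_lit 5) (nat_lit 96) (nat_lit 5) (nat_lit 307) (nat_lit 276) (nat_lit 197))))) (XT.nd (nat_lit 234) (nat_lit 836) (nat_lit 0) (XT.nd (nat_lit 78) (nat_lit 608) (nat_lit 0) (XT.lf (nat_lit 0) (nat_lit 11251217866) (nat_lit 380) (nat_lit 27529801) (nat_lit 76) (nat_lit 11026625119) (nat_lit 91) (nat_lit 5) (nat_lit 96) (nat_lit 5) (nat_lit 92) (nat_lit 5) (nat_lit 308) (nat_lit 276) (nat_lit 196)) (XT.nd (nat_lit 78) (nat_lit 304) (nat_lit 0) (XT.lf (nat_lit 0) (nat_lit 18267178603) (nat_lit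 380) (nat_lit 3870608003) (nat_lit 76) (nat_lit 892570811) (nat_lit 87) (nat_lit 5) (nat_lit 92) (nat_lit 5) (nat_lit 88) (nat_lit 5) (nat_lit 309) (nat_lit 276) (nat_lit 195)) (XT.lf (nat_lit 0) (nat_lit 2049787074) (nat_lit 304) (nat_lit 8131631745) (nat_lit 76) (nat_lit 13602354508) (nat_lit 83) (nat_lit 5) (nat_lit 87) (nat_lit 5) (nat_lit 84) (nat_lit 5) (nat_lit 310) (nat_lit 276) (nat_lit 194)))) (XT.nd (nat_lit 156) (nat_lit 304) (nat_lit 0) (XT.nd (nat_lit 78) (nat_lit 228) (nat_lit 0) (XT.lf (nat_lit 0) (nat_lit 9261042079) (nat_lit 380) (nat_lit 12788082850) (nat_lit 76) (nat_lit 2519650152) (nat_lit 79) (nat_lit 5) (nat_lit 84) (nat_lit 5) (nat_lit 80) (nat_lit 5) (nat_lit 311) (nat_lit 276) (nat_lit 193)) (XT.lf (nat_lit 0) (nat_lit 7476718572) (nat_lit 228) (nat_lit 9592802583) (nat_lit 304) (nat_lit 8316419617) (nat_lit 76) (nat_lit 5) (nat_lit 79) (nat_lit 5) (nat_lit 80)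 (nat_lit 5) (nat_lit 312) (nat_lit 276) (nat_lit 192))) (XT.nd (nat_lit 78) (nat_lit 76) (nat_lit 0) (XT.lf (nat_lit 0) (nat_lit 2767946948) (nat_lit 228) (nat_lit 22671685843) (nat_lit 304) (nat_lit 799208738) (nat_lit 73) (nat_lit 5) (nat_lit 76) (nat_lit 5) (nat_lit 77) (nat_lit 5) (nat_lit 313) (nat_lit 276) (nat_lit 191)) (XT.lf (nat_lit 0) (nat_lit 7217095743) (nat_lit 304) (nat_lit 2475182122) (nat_lit 76) (nat_lit 17432226000) (nat_lit 72) (nat_lit 5) (nat_lit 76) (nat_lit 5) (nat_lit 73) (nat_lit 5) (nat_lit 314) (nat_lit 276) (nat_lit 190))))))) (XT.nd (nat_lit 1092) (nat_lit 1444) (nat_lit 0) (XT.nd (nat_lit 546) (nat_lit 988) (nat_lit 0) (XT.nd (nat_lit 234) (nat_lit 684) (nat_lit 0) (XT.nd (nat_lit 78) (nat_lit 532) (nat_lit 0) (XT.lf (nat_lit 0) (nat_lit 15828698408) (nat_lit 304) (nat_lit 8168989876) (nat_lit 76) (nat_lit 4050204772) (nat_lit 69) (nat_lit 5) (nat_lit 73) (nat_lit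 5) (nat_lit 70) (nat_lit 5) (nat_lit 315) (nat_lit 276) (nat_lit 189)) (XT.nd (nat_lit 78) (nat_lit 304) (nat_lit 0) (XT.lf (nat_lit 0) (nat_lit 14540631070) (nat_lit 228) (nat_lit 10573826428) (nat_lit 304) (nat_lit 3895697855) (nat_lit 66) (nat_lit 5) (nat_lit 69) (nat_lit 5) (nat_lit 70) (nat_lit 5) (nat_lit 316) (nat_lit 276) (nat_lit 188)) (XT.lf (nat_lit 0) (nat_lit 4933888556) (nat_lit 304) (nat_lit 21421402008) (nat_lit 76) (nat_lit 3658320269) (nat_lit 62) (nat_lit 5) (nat_lit 66) (nat_lit 5) (nat_lit 63) (nat_lit 5) (nat_lit 317) (nat_lit 276) (nat_lit 187)))) (XT.nd (nat_lit 156) (nat_lit 456) (nat_lit 0) (XT.nd (nat_lit 78) (nat_lit 0) (nat_lit 0) (XT.lf (nat_lit 0) (nat_lit 1906440045) (nat_lit 228) (nat_lit 12475401688) (nat_lit 304) (nat_lit 16676526153) (nat_lit 59) (nat_lit 5) (nat_lit 62) (nat_lit 5) (nat_lit 63) (nat_lit 5) (nat_lit 318) (nat_lit 276) (nat_lit 186)) (XT.lf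 (nat_lit 0) (nat_lit 24526804308) (nat_lit 304) (nat_lit 5352248012) (nat_lit 76) (nat_lit 2269581288) (nat_lit 59) (nat_lit 5) (nat_lit 63) (nat_lit 5) (nat_lit 60) (nat_lit 5) (nat_lit 319) (nat_lit 276) (nat_lit 185))) (XT.nd (nat_lit 78) (nat_lit 228) (nat_lit 0) (XT.lf (nat_lit 0) (nat_lit 2151307583) (nat_lit 228) (nat_lit 13434330057) (nat_lit 76) (nat_lit 17698164688) (nat_lit 56) (nat_lit 5) (nat_lit 59) (nat_lit 5) (nat_lit 57) (nat_lit 5) (nat_lit 320) (nat_lit 276) (nat_lit 184)) (XT.lf (nat_lit 0) (nat_lit 12079689089) (nat_lit 228) (nat_lit 332008788) (nat_lit 304) (nat_lit 22057088942) (nat_lit 53) (nat_lit 5) (nat_lit 56) (nat_lit 5) (nat_lit 57) (nat_lit 5) (nat_lit 321) (nat_lit 276) (nat_lit 183))))) (XT.nd (nat_lit 234) (nat_lit 532) (nat_lit 0) (XT.nd (nat_lit 78) (nat_lit 304) (nat_lit 0) (XT.lf (nat_lit 0) (nat_lit 3326844771) (nat_lit 152) (nat_lit 20164128355) (nat_lit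 228) (nat_lit 12212879136) (nat_lit 51) (nat_lit 5) (nat_lit 53) (nat_lit 5) (nat_lit 54) (nat_lit 5) (nat_lit 322) (nat_lit 276) (nat_lit 182)) (XT.nd (nat_lit 78) (nat_lit 304) (nat_lit 0) (XT.lf (nat_lit 0) (nat_lit 30766599933) (nat_lit 152) (nat_lit 4575395021) (nat_lit 228) (nat_lit 1652149864) (nat_lit 51) (nat_lit 5) (nat_lit 53) (nat_lit 5) (nat_lit 54) (nat_lit 5) (nat_lit 323) (nat_lit 276) (nat_lit 181)) (XT.lf (nat_lit 0) (nat_lit 9560268849) (nat_lit 304) (nat_lit 16923313362) (nat_lit 76) (nat_lit 11853421388) (nat_lit 47) (nat_lit 5) (nat_lit 51) (nat_lit 5) (nat_lit 48) (nat_lit 5) (nat_lit 324) (nat_lit 276) (nat_lit 180)))) (XT.nd (nat_lit 156) (nat_lit 380) (nat_lit 0) (XT.nd (nat_lit 78) (nat_lit 0) (nat_lit 0) (XT.lf (nat_lit 0) (nat_lit 10947051708) (nat_lit 152) (nat_lit 10553551832) (nat_lit 228) (nat_lit 18239873570) (nat_lit 45) (nat_lit 5) (nat_lit 47) (nat_lit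 5) (nat_lit 48) (nat_lit 5) (nat_lit 325) (nat_lit 276) (nat_lit 179)) (XT.lf (nat_lit 0) (nat_lit 34258608302) (nat_lit 228) (nat_lit 730122112) (nat_lit 76) (nat_lit 6218780427) (nat_lit 45) (nat_lit 5) (nat_lit 48) (nat_lit 5) (nat_lit 46) (nat_lit 5) (nat_lit 326) (nat_lit 276) (nat_lit 178))) (XT.nd (nat_lit 78) (nat_lit 152) (nat_lit 0) (XT.lf (nat_lit 0) (nat_lit 5187607844) (nat_lit 228) (nat_lit 13611987127) (nat_lit 76) (nat_lit 23935589907) (nat_lit 42) (nat_lit 5) (nat_lit 45) (nat_lit 5) (nat_lit 43) (nat_lit 5) (nat_lit 327) (nat_lit 276) (nat_lit 177)) (XT.lf (nat_lit 0) (nat_lit 16371513641) (nat_lit 152) (nat_lit 1568395215) (nat_lit 228) (nat_lit 26392694770) (nat_lit 40) (nat_lit 5) (nat_lit 42) (nat_lit 5) (nat_lit 43) (nat_lit 5) (nat_lit 328) (nat_lit 276) (nat_lit 176)))))) (XT.nd (nat_lit 546) (nat_lit 760) (nat_lit 0) (XT.nd (nat_lit 234) (nat_lit 304) (nat_lit 0)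 (XT.nd (nat_lit 78) (nat_lit 228) (nat_lit 0) (XT.lf (nat_lit 0) (nat_lit 1988714389) (nat_lit 152) (nat_lit 29647302824) (nat_lit 228) (nat_lit 14364695480) (nat_lit 38) (nat_lit 5) (nat_lit 40) (nat_lit 5) (nat_lit 41) (nat_lit 5) (nat_lit 329) (nat_lit 276) (nat_lit 175)) (XT.nd (nat_lit 78) (nat_lit 228) (nat_lit 0) (XT.lf (nat_lit 0) (nat_lit 33982008950) (nat_lit 152) (nat_lit 12325573533) (nat_lit 228) (nat_lit 1435930093) (nat_lit 38) (nat_lit 5) (nat_lit 40) (nat_lit 5) (nat_lit 41) (nat_lit 5) (nat_lit 330) (nat_lit 276) (nat_lit 174)) (XT.lf (nat_lit 0) (nat_lit 12124307333) (nat_lit 228) (nat_lit 31405239041) (nat_lit 76) (nat_lit 6033752471) (nat_lit 35) (nat_lit 5) (nat_lit 38) (nat_lit 5) (nat_lit 36) (nat_lit 5) (nat_lit 331) (nat_lit 276) (nat_lit 173)))) (XT.nd (nat_lit 156) (nat_lit 152) (nat_lit 0) (XT.nd (nat_lit 78) (nat_lit 0) (nat_lit 0) (XT.lf (nat_lit 0) (nat_lit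 336596915) (nat_lit 152) (nat_lit 26255177998) (nat_lit 228) (nat_lit 24874109856) (nat_lit 33) (nat_lit 5) (nat_lit 35) (nat_lit 5) (nat_lit 36) (nat_lit 5) (nat_lit 332) (nat_lit 276) (nat_lit 172)) (XT.lf (nat_lit 0) (nat_lit 34301382080) (nat_lit 152) (nat_lit 7792835060) (nat_lit 228) (nat_lit 11360038927) (nat_lit 33) (nat_lit 5) (nat_lit 35) (nat_lit 5) (nat_lit 36) (nat_lit 5) (nat_lit 333) (nat_lit 276) (nat_lit 171))) (XT.nd (nat_lit 78) (nat_lit 0) (nat_lit 0) (XT.lf (nat_lit 0) (nat_lit 3017226995) (nat_lit 152) (nat_lit 40988777289) (nat_lit 76) (nat_lit 11527948122) (nat_lit 31) (nat_lit 5) (nat_lit 33) (nat_lit 5) (nat_lit 32) (nat_lit 5) (nat_lit 334) (nat_lit 276) (nat_lit 170)) (XT.lf (nat_lit 0) (nat_lit 18147393540) (nat_lit 152) (nat_lit 7597982415) (nat_lit 76) (nat_lit 31960817551) (nat_lit 31) (nat_lit 5) (nat_lit 33) (nat_lit 5) (nat_lit 32) (nat_lit 5) (nat_lit 335)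 (nat_lit 276) (nat_lit 169))))) (XT.nd (nat_lit 312) (nat_lit 304) (nat_lit 0) (XT.nd (nat_lit 156) (nat_lit 228) (nat_lit 0) (XT.nd (nat_lit 78) (nat_lit 76) (nat_lit 0) (XT.lf (nat_lit 0) (nat_lit 27990099451) (nat_lit 152) (nat_lit 6302576785) (nat_lit 228) (nat_lit 25686615643) (nat_lit 29) (nat_lit 5) (nat_lit 31) (nat_lit 5) (nat_lit 32) (nat_lit 5) (nat_lit 336) (nat_lit 276) (nat_lit 168)) (XT.lf (nat_lit 0) (nat_lit 3057754923) (nat_lit 76) (nat_lit 48421307198) (nat_lit 152) (nat_lit 10879971164) (nat_lit 28) (nat_lit 5) (nat_lit 29) (nat_lit 5) (nat_lit 30) (nat_lit 4) (nat_lit 337) (nat_lit 276) (nat_lit 167))) (XT.nd (nat_lit 78) (nat_lit 152) (nat_lit 0) (XT.lf (nat_lit 0) (nat_lit 4962125609) (nat_lit 152) (nat_lit 24451914655) (nat_lit 76) (nat_lit 35430792969) (nat_lit 27) (nat_lit 5) (nat_lit 29) (nat_lit 5) (nat_lit 28) (nat_lit 5) (nat_lit 338) (nat_lit 276) (nat_lit 166))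 (XT.lf (nat_lit 0) (nat_lit 12252211020) (nat_lit 152) (nat_lit 9229460404) (nat_lit 228) (nat_lit 45966712214) (nat_lit 25) (nat_lit 5) (nat_lit 27) (nat_lit 5) (nat_lit 28) (nat_lit 5) (nat_lit 339) (nat_lit 276) (nat_lit 165)))) (XT.nd (nat_lit 156) (nat_lit 228) (nat_lit 0) (XT.nd (nat_lit 78) (nat_lit 76) (nat_lit 0) (XT.lf (nat_lit 0) (nat_lit 39187121837) (nat_lit 228) (nat_lit 19006244397) (nat_lit 76) (nat_lit 11977950266) (nat_lit 25) (nat_lit 5) (nat_lit 28) (nat_lit 5) (nat_lit 26) (nat_lit 4) (nat_lit 340) (nat_lit 276) (nat_lit 164)) (XT.lf (nat_lit 0) (nat_lit 19259951883) (nat_lit 76) (nat_lit 38787344219) (nat_lit 152) (nat_lit 14975018989) (nat_lit 24) (nat_lit 5) (nat_lit 25) (nat_lit 5) (nat_lit 26) (nat_lit 4) (nat_lit 341) (nat_lit 276) (nat_lit 163))) (XT.nd (nat_lit 78) (nat_lit 152) (nat_lit 0) (XT.lf (nat_lit 0) (nat_lit 1987748155) (nat_lit 152) (nat_lit 16208557085)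 (nat_lit 76) (nat_lit 57813363757) (nat_lit 23) (nat_lit 5) (nat_lit 25) (nat_lit 5) (nat_lit 24) (nat_lit 5) (nat_lit 342) (nat_lit 276) (nat_lit 162)) (XT.lf (nat_lit 0) (nat_lit 19746216814) (nat_lit 228) (nat_lit 55656120007) (nat_lit 76) (nat_lit 3731889977) (nat_lit 21) (nat_lit 5) (nat_lit 24) (nat_lit 5) (nat_lit 22) (nat_lit 4) (nat_lit 343) (nat_lit 276) (nat_lit 161))))))))
noncomputable def xc78 : XT := (XT.nd (nat_lit 36114) (nat_lit 0) (nat_lit 4712) (XT.nd (nat_lit 1092) (nat_lit 152) (nat_lit 0) (XT.nd (nat_lit 546) (nat_lit 304) (nat_lit 0) (XT.nd (nat_lit 234) (nat_lit 228) (nat_lit 0) (XT.nd (nat_lit 78) (nat_lit 76) (nat_lit 0) (XT.lf (nat_lit 0) (nat_lit 38736720210) (nat_lit 228) (nat_lit 17122135996) (nat_lit 76) (nat_lit 26545835146) (nat_lit 21) (nat_lit 5) (nat_lit 24) (nat_lit 5) (nat_lit 22) (nat_lit 4) (nat_lit 344) (nat_lit 276) (nat_lit 160)) (XT.nd (nat_lit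 78) (nat_lit 0) (nat_lit 0) (XT.lf (nat_lit 0) (nat_lit 23788817103) (nat_lit 76) (nat_lit 35108934604) (nat_lit 152) (nat_lit 26934299436) (nat_lit 20) (nat_lit 5) (nat_lit 21) (nat_lit 5) (nat_lit 22) (nat_lit 4) (nat_lit 345) (nat_lit 276) (nat_lit 159)) (XT.lf (nat_lit 0) (nat_lit 67089583987) (nat_lit 76) (nat_lit 13146073453) (nat_lit 152) (nat_lit 9190058802) (nat_lit 20) (nat_lit 5) (nat_lit 21) (nat_lit 5) (nat_lit 22) (nat_lit 4) (nat_lit 346) (nat_lit 276) (nat_lit 158)))) (XT.nd (nat_lit 156) (nat_lit 76) (nat_lit 0) (XT.nd (nat_lit 78) (nat_lit 0) (nat_lit 0) (XT.lf (nat_lit 0) (nat_lit 9536775237) (nat_lit 152) (nat_lit 73653219499) (nat_lit 76) (nat_lit 9997960502) (nat_lit 18) (nat_lit 5) (nat_lit 20) (nat_lit 5) (nat_lit 19) (nat_lit 4) (nat_lit 347) (nat_lit 276) (nat_lit 157)) (XT.lf (nat_lit 0) (nat_lit 29369558349) (nat_lit 152) (nat_lit 33406039004) (nat_lit 76) (nat_lit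 34349190715) (nat_lit 18) (nat_lit 5) (nat_lit 20) (nat_lit 5) (nat_lit 19) (nat_lit 4) (nat_lit 348) (nat_lit 276) (nat_lit 156))) (XT.nd (nat_lit 78) (nat_lit 0) (nat_lit 0) (XT.lf (nat_lit 0) (nat_lit 9017253117) (nat_lit 76) (nat_lit 41256750902) (nat_lit 152) (nat_lit 50982059491) (nat_lit 17) (nat_lit 5) (nat_lit 18) (nat_lit 5) (nat_lit 19) (nat_lit 4) (nat_lit 349) (nat_lit 276) (nat_lit 155)) (XT.lf (nat_lit 0) (nat_lit 54247941220) (nat_lit 76) (nat_lit 18313163480) (nat_lit 152) (nat_lit 33022676640) (nat_lit 17) (nat_lit 5) (nat_lit 18) (nat_lit 5) (nat_lit 19) (nat_lit 4) (nat_lit 350) (nat_lit 276) (nat_lit 154))))) (XT.nd (nat_lit 234) (nat_lit 152) (nat_lit 0) (XT.nd (nat_lit 78) (nat_lit 152) (nat_lit 0) (XT.lf (nat_lit 0) (nat_lit 96011903115) (nat_lit 152) (nat_lit 8454687599) (nat_lit 0) (nat_lit 5659815584) (nat_lit 17) (nat_lit 5) (nat_lit 19) (nat_lit 4) (nat_lit 17)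 (nat_lit 4) (nat_lit 351) (nat_lit 276) (nat_lit 153)) (XT.nd (nat_lit 78) (nat_lit 0) (nat_lit 0) (XT.lf (nat_lit 0) (nat_lit 6167944673) (nat_lit 152) (nat_lit 77841838379) (nat_lit 76) (nat_lit 30868500156) (nat_lit 15) (nat_lit 5) (nat_lit 17) (nat_lit 5) (nat_lit 16) (nat_lit 4) (nat_lit 352) (nat_lit 276) (nat_lit 152)) (XT.lf (nat_lit 0) (nat_lit 27257435346) (nat_lit 152) (nat_lit 35040342346) (nat_lit 76) (nat_lit 57563240283) (nat_lit 15) (nat_lit 5) (nat_lit 17) (nat_lit 5) (nat_lit 16) (nat_lit 4) (nat_lit 353) (nat_lit 276) (nat_lit 151)))) (XT.nd (nat_lit 156) (nat_lit 76) (nat_lit 0) (XT.nd (nat_lit 78) (nat_lit 0) (nat_lit 0) (XT.lf (nat_lit 0) (nat_lit 10087900181) (nat_lit 76) (nat_lit 39404967811) (nat_lit 152) (nat_lit 75597278739) (nat_lit 14) (nat_lit 5) (nat_lit 15) (nat_lit 5) (nat_lit 16) (nat_lit 4) (nat_lit 354) (nat_lit 276) (nat_lit 150)) (XT.lf (nat_lit 0) (nat_lit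 58194907152) (nat_lit 76) (nat_lit 15000537930) (nat_lit 152) (nat_lit 57374626873) (nat_lit 14) (nat_lit 5) (nat_lit 15) (nat_lit 5) (nat_lit 16) (nat_lit 4) (nat_lit 355) (nat_lit 276) (nat_lit 149))) (XT.nd (nat_lit 78) (nat_lit 76) (nat_lit 0) (XT.lf (nat_lit 0) (nat_lit 98180152364) (nat_lit 152) (nat_lit 27728383344) (nat_lit 0) (nat_lit 10412548847) (nat_lit 14) (nat_lit 5) (nat_lit 16) (nat_lit 4) (nat_lit 14) (nat_lit 4) (nat_lit 356) (nat_lit 276) (nat_lit 148)) (XT.lf (nat_lit 0) (nat_lit 19368201353) (nat_lit 76) (nat_lit 105378596588) (nat_lit 76) (nat_lit 17602869856) (nat_lit 13) (nat_lit 4) (nat_lit 14) (nat_lit 5) (nat_lit 14) (nat_lit 4) (nat_lit 357) (nat_lit 276) (nat_lit 147)))))) (XT.nd (nat_lit 34476) (nat_lit 0) (nat_lit 15124) (XT.nd (nat_lit 234) (nat_lit 0) (nat_lit 0) (XT.nd (nat_lit 78) (nat_lit 76) (nat_lit 0) (XT.lf (nat_lit 0) (nat_lit 4168265846) (nat_lit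 152) (nat_lit 79321883458) (nat_lit 76) (nat_lit 65179884782) (nat_lit 12) (nat_lit 5) (nat_lit 14) (nat_lit 5) (nat_lit 13) (nat_lit 4) (nat_lit 358) (nat_lit 276) (nat_lit 146)) (XT.nd (nat_lit 78) (nat_lit 76) (nat_lit 0) (XT.lf (nat_lit 0) (nat_lit 26662735443) (nat_lit 152) (nat_lit 33665478173) (nat_lit 76) (nat_lit 94973012526) (nat_lit 12) (nat_lit 5) (nat_lit 14) (nat_lit 5) (nat_lit 13) (nat_lit 4) (nat_lit 359) (nat_lit 276) (nat_lit 145)) (XT.lf (nat_lit 0) (nat_lit 14549579391) (nat_lit 76) (nat_lit 35867872654) (nat_lit 152) (nat_lit 111842460971) (nat_lit 11) (nat_lit 5) (nat_lit 12) (nat_lit 5) (nat_lit 13) (nat_lit 4) (nat_lit 360) (nat_lit 276) (nat_lit 144)))) (XT.nd (nat_lit 34086) (nat_lit 0) (nat_lit 15884) (XT.nd (nat_lit 78) (nat_lit 0) (nat_lit 0) (XT.lf (nat_lit 0) (nat_lit 65871048316) (nat_lit 76) (nat_lit 9831207627) (nat_lit 152) (nat_lit 93854008626) (nat_lit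 11) (nat_lit 5) (nat_lit 12) (nat_lit 5) (nat_lit 13) (nat_lit 4) (nat_lit 361) (nat_lit 276) (nat_lit 143)) (XT.lf (nat_lit 0) (nat_lit 102415552753) (nat_lit 152) (nat_lit 57634698539) (nat_lit 0) (nat_lit 17162255664) (nat_lit 11) (nat_lit 5) (nat_lit 13) (nat_lit 4) (nat_lit 11) (nat_lit 4) (nat_lit 362) (nat_lit 276) (nat_lit 142))) (XT.nd (nat_lit 78) (nat_lit 0) (nat_lit 76) (XT.lf (nat_lit 0) (nat_lit 66024487) (nat_lit 1140) (nat_lit 2432129351) (nat_lit 1140) (nat_lit 2432129351) (nat_lit 220) (nat_lit 3) (nat_lit 235) (nat_lit 3) (nat_lit 235) (nat_lit 5) (nat_lit 277) (nat_lit 277) (nat_lit 226)) (XT.lf (nat_lit 0) (nat_lit 1327815705) (nat_lit 1064) (nat_lit 7324693224) (nat_lit 1140) (nat_lit 1417544354) (nat_lit 221) (nat_lit 5) (nat_lit 235) (nat_lit 5) (nat_lit 236) (nat_lit 5) (nat_lit 278) (nat_lit 277) (nat_lit 225))))) (XT.nd (nat_lit 234) (nat_lit 836) (nat_lit 0) (XT.nd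 (nat_lit 78) (nat_lit 0) (nat_lit 76) (XT.lf (nat_lit 76) (nat_lit 465332817) (nat_lit 0) (nat_lit 2149731018) (nat_lit 1140) (nat_lit 7674080131) (nat_lit 222) (nat_lit 5) (nat_lit 221) (nat_lit 5) (nat_lit 236) (nat_lit 5) (nat_lit 279) (nat_lit 277) (nat_lit 224)) (XT.nd (nat_lit 78) (nat_lit 0) (nat_lit 76) (XT.lf (nat_lit 0) (nat_lit 4017432704) (nat_lit 1064) (nat_lit 1807438580) (nat_lit 1140) (nat_lit 4692871555) (nat_lit 222) (nat_lit 5) (nat_lit 236) (nat_lit 5) (nat_lit 237) (nat_lit 5) (nat_lit 280) (nat_lit 277) (nat_lit 223)) (XT.lf (nat_lit 0) (nat_lit 5520034991) (nat_lit 1064) (nat_lit 4090839377) (nat_lit 1140) (nat_lit 1146066605) (nat_lit 223) (nat_lit 5) (nat_lit 237) (nat_lit 5) (nat_lit 238) (nat_lit 5) (nat_lit 281) (nat_lit 277) (nat_lit 222)))) (XT.nd (nat_lit 156) (nat_lit 988) (nat_lit 0) (XT.nd (nat_lit 78) (nat_lit 0) (nat_lit 76) (XT.lf (nat_lit 76) (nat_lit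 4582236043) (nat_lit 0) (nat_lit 2573200247) (nat_lit 1140) (nat_lit 3851001961) (nat_lit 224) (nat_lit 5) (nat_lit 223) (nat_lit 5) (nat_lit 238) (nat_lit 5) (nat_lit 282) (nat_lit 277) (nat_lit 221)) (XT.lf (nat_lit 76) (nat_lit 2466051822) (nat_lit 0) (nat_lit 6457982284) (nat_lit 1140) (nat_lit 2342899494) (nat_lit 225) (nat_lit 5) (nat_lit 224) (nat_lit 5) (nat_lit 239) (nat_lit 5) (nat_lit 283) (nat_lit 277) (nat_lit 220))) (XT.nd (nat_lit 78) (nat_lit 1140) (nat_lit 0) (XT.lf (nat_lit 76) (nat_lit 323819365) (nat_lit 0) (nat_lit 10503730773) (nat_lit 1140) (nat_lit 711571790) (nat_lit 226) (nat_lit 5) (nat_lit 225) (nat_lit 5) (nat_lit 240) (nat_lit 5) (nat_lit 284) (nat_lit 277) (nat_lit 219)) (XT.lf (nat_lit 0) (nat_lit 1081793722) (nat_lit 1140) (nat_lit 1852601593) (nat_lit 1216) (nat_lit 8887293394) (nat_lit 210) (nat_lit 5) (nat_lit 225) (nat_lit 5) (nat_lit 226) (nat_lit 5)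 (nat_lit 285) (nat_lit 277) (nat_lit 218))))))) (XT.nd (nat_lit 1092) (nat_lit 4484) (nat_lit 0) (XT.nd (nat_lit 546) (nat_lit 2964) (nat_lit 0) (XT.nd (nat_lit 234) (nat_lit 1976) (nat_lit 0) (XT.nd (nat_lit 78) (nat_lit 1064) (nat_lit 0) (XT.lf (nat_lit 0) (nat_lit 3023178035) (nat_lit 1140) (nat_lit 4079093712) (nat_lit 1216) (nat_lit 5013764071) (nat_lit 211) (nat_lit 5) (nat_lit 226) (nat_lit 5) (nat_lit 227) (nat_lit 5) (nat_lit 286) (nat_lit 277) (nat_lit 217)) (XT.nd (nat_lit 78) (nat_lit 1140) (nat_lit 0) (XT.lf (nat_lit 0) (nat_lit 5126579042) (nat_lit 1140) (nat_lit 6350563307) (nat_lit 76) (nat_lit 946062228) (nat_lit 212) (nat_lit 5) (nat_lit 227) (nat_lit 5) (nat_lit 213) (nat_lit 5) (nat_lit 287) (nat_lit 277) (nat_lit 216)) (XT.lf (nat_lit 0) (nat_lit 4037152150) (nat_lit 1140) (nat_lit 3401382299) (nat_lit 1216) (nat_lit 5304146003) (nat_lit 197) (nat_lit 5) (nat_lit 212)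 (nat_lit 5) (nat_lit 213) (nat_lit 5) (nat_lit 288) (nat_lit 277) (nat_lit 215)))) (XT.nd (nat_lit 156) (nat_lit 1216) (nat_lit 0) (XT.nd (nat_lit 78) (nat_lit 0) (nat_lit 0) (XT.lf (nat_lit 0) (nat_lit 1946734576) (nat_lit 760) (nat_lit 8005412590) (nat_lit 836) (nat_lit 3123448987) (nat_lit 187) (nat_lit 5) (nat_lit 197) (nat_lit 5) (nat_lit 198) (nat_lit 5) (nat_lit 289) (nat_lit 277) (nat_lit 214)) (XT.lf (nat_lit 0) (nat_lit 12674882944) (nat_lit 836) (nat_lit 191168082) (nat_lit 76) (nat_lit 556648879) (nat_lit 187) (nat_lit 5) (nat_lit 198) (nat_lit 5) (nat_lit 188) (nat_lit 5) (nat_lit 290) (nat_lit 277) (nat_lit 213))) (XT.nd (nat_lit 78) (nat_lit 532) (nat_lit 0) (XT.lf (nat_lit 0) (nat_lit 1860841251) (nat_lit 684) (nat_lit 2406867170) (nat_lit 76) (nat_lit 9514539043) (nat_lit 178) (nat_lit 5) (nat_lit 187) (nat_lit 5) (nat_lit 179) (nat_lit 5) (nat_lit 291) (nat_lit 277) (nat_lit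 212)) (XT.lf (nat_lit 0) (nat_lit 4682531390) (nat_lit 608) (nat_lit 4702931964) (nat_lit 76) (nat_lit 4771185076) (nat_lit 171) (nat_lit 5) (nat_lit 179) (nat_lit 5) (nat_lit 172) (nat_lit 5) (nat_lit 292) (nat_lit 277) (nat_lit 211))))) (XT.nd (nat_lit 234) (nat_lit 1368) (nat_lit 0) (XT.nd (nat_lit 78) (nat_lit 1064) (nat_lit 0) (XT.lf (nat_lit 0) (nat_lit 7470458705) (nat_lit 532) (nat_lit 274216610) (nat_lit 608) (nat_lit 6802151245) (nat_lit 164) (nat_lit 5) (nat_lit 171) (nat_lit 5) (nat_lit 172) (nat_lit 5) (nat_lit 293) (nat_lit 277) (nat_lit 210)) (XT.nd (nat_lit 78) (nat_lit 532) (nat_lit 0) (XT.lf (nat_lit 0) (nat_lit 5370085298) (nat_lit 532) (nat_lit 5740688454) (nat_lit 608) (nat_lit 3841250799) (nat_lit 157) (nat_lit 5) (nat_lit 164) (nat_lit 5) (nat_lit 165) (nat_lit 5) (nat_lit 294) (nat_lit 277) (nat_lit 209)) (XT.lf (nat_lit 0) (nat_lit 3193265207) (nat_lit 532) (nat_lit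 11557795397) (nat_lit 608) (nat_lit 623279976) (nat_lit 150) (nat_lit 5) (nat_lit 157) (nat_lit 5) (nat_lit 158) (nat_lit 5) (nat_lit 295) (nat_lit 277) (nat_lit 208)))) (XT.nd (nat_lit 156) (nat_lit 836) (nat_lit 0) (XT.nd (nat_lit 78) (nat_lit 0) (nat_lit 0) (XT.lf (nat_lit 0) (nat_lit 884294275) (nat_lit 456) (nat_lit 1947065803) (nat_lit 532) (nat_lit 12981763448) (nat_lit 143) (nat_lit 5) (nat_lit 149) (nat_lit 5) (nat_lit 150) (nat_lit 5) (nat_lit 296) (nat_lit 277) (nat_lit 207)) (XT.lf (nat_lit 0) (nat_lit 6615694850) (nat_lit 532) (nat_lit 1538522562) (nat_lit 76) (nat_lit 8114377989) (nat_lit 143) (nat_lit 5) (nat_lit 150) (nat_lit 5) (nat_lit 144) (nat_lit 5) (nat_lit 297) (nat_lit 277) (nat_lit 206))) (XT.nd (nat_lit 78) (nat_lit 380) (nat_lit 0) (XT.lf (nat_lit 0) (nat_lit 10716935366) (nat_lit 532) (nat_lit 4051475442) (nat_lit 76) (nat_lit 1974628445) (nat_lit 137) (nat_lit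 5) (nat_lit 144) (nat_lit 5) (nat_lit 138) (nat_lit 5) (nat_lit 298) (nat_lit 277) (nat_lit 205)) (XT.lf (nat_lit 0) (nat_lit 10509141242) (nat_lit 380) (nat_lit 4681093857) (nat_lit 456) (nat_lit 2045987953) (nat_lit 132) (nat_lit 5) (nat_lit 137) (nat_lit 5) (nat_lit 138) (nat_lit 5) (nat_lit 299) (nat_lit 277) (nat_lit 204)))))) (XT.nd (nat_lit 546) (nat_lit 2052) (nat_lit 0) (XT.nd (nat_lit 234) (nat_lit 1140) (nat_lit 0) (XT.nd (nat_lit 78) (nat_lit 760) (nat_lit 0) (XT.lf (nat_lit 0) (nat_lit 2239446776) (nat_lit 532) (nat_lit 9577199903) (nat_lit 76) (nat_lit 5932391654) (nat_lit 125) (nat_lit 5) (nat_lit 132) (nat_lit 5) (nat_lit 126) (nat_lit 5) (nat_lit 300) (nat_lit 277) (nat_lit 203)) (XT.nd (nat_lit 78) (nat_lit 380) (nat_lit 0) (XT.lf (nat_lit 0) (nat_lit 5675628935) (nat_lit 380) (nat_lit 1162960887) (nat_lit 456) (nat_lit 11444068682) (nat_lit 120) (nat_lit 5) (nat_lit 125)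 (nat_lit 5) (nat_lit 126) (nat_lit 5) (nat_lit 301) (nat_lit 277) (nat_lit 202)) (XT.lf (nat_lit 0) (nat_lit 2974788880) (nat_lit 380) (nat_lit 8888059906) (nat_lit 456) (nat_lit 6974279342) (nat_lit 115) (nat_lit 5) (nat_lit 120) (nat_lit 5) (nat_lit 121) (nat_lit 5) (nat_lit 302) (nat_lit 277) (nat_lit 201)))) (XT.nd (nat_lit 156) (nat_lit 684) (nat_lit 0) (XT.nd (nat_lit 78) (nat_lit 76) (nat_lit 0) (XT.lf (nat_lit 0) (nat_lit 115269827) (nat_lit 380) (nat_lit 17159363759) (nat_lit 456) (nat_lit 2140620360) (nat_lit 110) (nat_lit 5) (nat_lit 115) (nat_lit 5) (nat_lit 116) (nat_lit 5) (nat_lit 303) (nat_lit 277) (nat_lit 200)) (XT.lf (nat_lit 0) (nat_lit 3104407552) (nat_lit 456) (nat_lit 2950097623) (nat_lit 76) (nat_lit 13960146418) (nat_lit 109) (nat_lit 5) (nat_lit 115) (nat_lit 5) (nat_lit 110) (nat_lit 5) (nat_lit 304) (nat_lit 277) (nat_lit 199))) (XT.nd (nat_lit 78) (nat_lit 304)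 (nat_lit 0) (XT.lf (nat_lit 0) (nat_lit 8735708637) (nat_lit 456) (nat_lit 6252575135) (nat_lit 76) (nat_lit 5650070193) (nat_lit 104) (nat_lit 5) (nat_lit 110) (nat_lit 5) (nat_lit 105) (nat_lit 5) (nat_lit 305) (nat_lit 277) (nat_lit 198)) (XT.lf (nat_lit 0) (nat_lit 11486109018) (nat_lit 304) (nat_lit 3339162802) (nat_lit 380) (nat_lit 6462687261) (nat_lit 100) (nat_lit 5) (nat_lit 104) (nat_lit 5) (nat_lit 105) (nat_lit 5) (nat_lit 306) (nat_lit 277) (nat_lit 197))))) (XT.nd (nat_lit 312) (nat_lit 1064) (nat_lit 0) (XT.nd (nat_lit 156) (nat_lit 304) (nat_lit 0) (XT.nd (nat_lit 78) (nat_lit 380) (nat_lit 0) (XT.lf (nat_lit 0) (nat_lit 8316371396) (nat_lit 304) (nat_lit 13108680148) (nat_lit 380) (nat_lit 538838411) (nat_lit 96) (nat_lit 5) (nat_lit 100) (nat_lit 5) (nat_lit 101) (nat_lit 5) (nat_lit 307) (nat_lit 277) (nat_lit 196)) (XT.lf (nat_lit 0) (nat_lit 4846413564) (nat_lit 304)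 (nat_lit 882038639) (nat_lit 380) (nat_lit 16938799853) (nat_lit 91) (nat_lit 5) (nat_lit 95) (nat_lit 5) (nat_lit 96) (nat_lit 5) (nat_lit 308) (nat_lit 277) (nat_lit 195))) (XT.nd (nat_lit 78) (nat_lit 0) (nat_lit 0) (XT.lf (nat_lit 0) (nat_lit 1013438485) (nat_lit 304) (nat_lit 11527841019) (nat_lit 380) (nat_lit 10857058769) (nat_lit 87) (nat_lit 5) (nat_lit 91) (nat_lit 5) (nat_lit 92) (nat_lit 5) (nat_lit 309) (nat_lit 277) (nat_lit 194)) (XT.lf (nat_lit 0) (nat_lit 19876550314) (nat_lit 380) (nat_lit 3052517028) (nat_lit 76) (nat_lit 1231472201) (nat_lit 87) (nat_lit 5) (nat_lit 92) (nat_lit 5) (nat_lit 88) (nat_lit 5) (nat_lit 310) (nat_lit 277) (nat_lit 193)))) (XT.nd (nat_lit 156) (nat_lit 456) (nat_lit 0) (XT.nd (nat_lit 78) (nat_lit 304) (nat_lit 0) (XT.lf (nat_lit 0) (nat_lit 2831673119) (nat_lit 304) (nat_lit 7541647508) (nat_lit 76) (nat_lit 14578838419) (nat_lit 83) (nat_lit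 5) (nat_lit 87) (nat_lit 5) (nat_lit 84) (nat_lit 5) (nat_lit 311) (nat_lit 277) (nat_lit 192)) (XT.lf (nat_lit 0) (nat_lit 10383439424) (nat_lit 380) (nat_lit 12442391818) (nat_lit 76) (nat_lit 2951201239) (nat_lit 79) (nat_lit 5) (nat_lit 84) (nat_lit 5) (nat_lit 80) (nat_lit 5) (nat_lit 312) (nat_lit 277) (nat_lit 191))) (XT.nd (nat_lit 78) (nat_lit 228) (nat_lit 0) (XT.lf (nat_lit 0) (nat_lit 8807412120) (nat_lit 228) (nat_lit 9752730842) (nat_lit 304) (nat_lit 8075598575) (nat_lit 76) (nat_lit 5) (nat_lit 79) (nat_lit 5) (nat_lit 80) (nat_lit 5) (nat_lit 313) (nat_lit 277) (nat_lit 190)) (XT.lf (nat_lit 0) (nat_lit 3851726029) (nat_lit 228) (nat_lit 23478708385) (nat_lit 304) (nat_lit 201420876) (nat_lit 73) (nat_lit 5) (nat_lit 76) (nat_lit 5) (nat_lit 77) (nat_lit 5) (nat_lit 314) (nat_lit 277) (nat_lit 189))))))))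
noncomputable def xc79 : XT := (XT.nd (nat_lit 2184) (nat_lit 988) (nat_lit 0) (XT.nd (nat_lit 1092) (nat_lit 1368) (nat_lit 0) (XT.nd (nat_lit 546) (nat_lit 1064) (nat_lit 0) (XT.nd (nat_lit 234) (nat_lit 760) (nat_lit 0) (XT.nd (nat_lit 78) (nat_lit 456) (nat_lit 0) (XT.lf (nat_lit 0) (nat_lit 8173477704) (nat_lit 304) (nat_lit 1686389207) (nat_lit 76) (nat_lit 18602660026) (nat_lit 72) (nat_lit 5) (nat_lit 76) (nat_lit 5) (nat_lit 73) (nat_lit 5) (nat_lit 315) (nat_lit 277) (nat_lit 188)) (XT.nd (nat_lit 78) (nat_lit 228) (nat_lit 0) (XT.lf (nat_lit 0) (nat_lit 17198809308) (nat_lit 304) (nat_lit 7676441181) (nat_lit 76) (nat_lit 4557356648) (nat_lit 69) (nat_lit 5) (nat_lit 73) (nat_lit 5) (nat_lit 70) (nat_lit 5) (nat_lit 316) (nat_lit 277) (nat_lit 187)) (XT.lf (nat_lit 0) (nat_lit 16142833880) (nat_lit 228) (nat_lit 10786879155) (nat_lit 304) (nat_lit 3513859066) (nat_lit 66) (nat_lit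 5) (nat_lit 69) (nat_lit 5) (nat_lit 70) (nat_lit 5) (nat_lit 317) (nat_lit 277) (nat_lit 186)))) (XT.nd (nat_lit 156) (nat_lit 228) (nat_lit 0) (XT.nd (nat_lit 78) (nat_lit 228) (nat_lit 0) (XT.lf (nat_lit 0) (nat_lit 5730335430) (nat_lit 304) (nat_lit 21617510286) (nat_lit 76) (nat_lit 4149671033) (nat_lit 62) (nat_lit 5) (nat_lit 66) (nat_lit 5) (nat_lit 63) (nat_lit 5) (nat_lit 318) (nat_lit 277) (nat_lit 185)) (XT.lf (nat_lit 0) (nat_lit 2851643264) (nat_lit 228) (nat_lit 12781033891) (nat_lit 304) (nat_lit 16962388203) (nat_lit 59) (nat_lit 5) (nat_lit 62) (nat_lit 5) (nat_lit 63) (nat_lit 5) (nat_lit 319) (nat_lit 277) (nat_lit 184))) (XT.nd (nat_lit 78) (nat_lit 228) (nat_lit 0) (XT.lf (nat_lit 0) (nat_lit 26262479259) (nat_lit 304) (nat_lit 4797913743) (nat_lit 76) (nat_lit 2680136415) (nat_lit 59) (nat_lit 5) (nat_lit 63) (nat_lit 5) (nat_lit 60) (nat_lit 5) (nat_lit 320) (nat_lit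 277) (nat_lit 183)) (XT.lf (nat_lit 0) (nat_lit 2756745893) (nat_lit 228) (nat_lit 13297515628) (nat_lit 76) (nat_lit 18878558185) (nat_lit 56) (nat_lit 5) (nat_lit 59) (nat_lit 5) (nat_lit 57) (nat_lit 5) (nat_lit 321) (nat_lit 277) (nat_lit 182))))) (XT.nd (nat_lit 234) (nat_lit 684) (nat_lit 0) (XT.nd (nat_lit 78) (nat_lit 152) (nat_lit 0) (XT.lf (nat_lit 0) (nat_lit 13469028099) (nat_lit 228) (nat_lit 44968677) (nat_lit 304) (nat_lit 22663552678) (nat_lit 53) (nat_lit 5) (nat_lit 56) (nat_lit 5) (nat_lit 57) (nat_lit 5) (nat_lit 322) (nat_lit 277) (nat_lit 181)) (XT.nd (nat_lit 78) (nat_lit 0) (nat_lit 0) (XT.lf (nat_lit 0) (nat_lit 4267450424) (nat_lit 152) (nat_lit 20867069084) (nat_lit 228) (nat_lit 12340240877) (nat_lit 51) (nat_lit 5) (nat_lit 53) (nat_lit 5) (nat_lit 54) (nat_lit 5) (nat_lit 323) (nat_lit 277) (nat_lit 180)) (XT.lf (nat_lit 0) (nat_lit 33042323657) (nat_lit 152)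 (nat_lit 4513435545) (nat_lit 228) (nat_lit 1274488581) (nat_lit 51) (nat_lit 5) (nat_lit 53) (nat_lit 5) (nat_lit 54) (nat_lit 5) (nat_lit 324) (nat_lit 277) (nat_lit 179)))) (XT.nd (nat_lit 156) (nat_lit 228) (nat_lit 0) (XT.nd (nat_lit 78) (nat_lit 152) (nat_lit 0) (XT.lf (nat_lit 0) (nat_lit 10477822831) (nat_lit 304) (nat_lit 17033786129) (nat_lit 76) (nat_lit 12728869660) (nat_lit 47) (nat_lit 5) (nat_lit 51) (nat_lit 5) (nat_lit 48) (nat_lit 5) (nat_lit 325) (nat_lit 277) (nat_lit 178)) (XT.lf (nat_lit 0) (nat_lit 12209008705) (nat_lit 152) (nat_lit 10792104265) (nat_lit 228) (nat_lit 18713443673) (nat_lit 45) (nat_lit 5) (nat_lit 47) (nat_lit 5) (nat_lit 48) (nat_lit 5) (nat_lit 326) (nat_lit 277) (nat_lit 177))) (XT.nd (nat_lit 78) (nat_lit 228) (nat_lit 0) (XT.lf (nat_lit 0) (nat_lit 36379403956) (nat_lit 228) (nat_lit 76371563) (nat_lit 76) (nat_lit 6799703530) (nat_lit 45) (nat_lit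 5) (nat_lit 48) (nat_lit 5) (nat_lit 46) (nat_lit 5) (nat_lit 327) (nat_lit 277) (nat_lit 176)) (XT.lf (nat_lit 0) (nat_lit 5845946108) (nat_lit 228) (nat_lit 13614017392) (nat_lit 76) (nat_lit 25399853425) (nat_lit 42) (nat_lit 5) (nat_lit 45) (nat_lit 5) (nat_lit 43) (nat_lit 5) (nat_lit 328) (nat_lit 277) (nat_lit 175)))))) (XT.nd (nat_lit 546) (nat_lit 532) (nat_lit 0) (XT.nd (nat_lit 234) (nat_lit 532) (nat_lit 0) (XT.nd (nat_lit 78) (nat_lit 152) (nat_lit 0) (XT.lf (nat_lit 0) (nat_lit 17849207368) (nat_lit 152) (nat_lit 1373992654) (nat_lit 228) (nat_lit 27314293997) (nat_lit 40) (nat_lit 5) (nat_lit 42) (nat_lit 5) (nat_lit 43) (nat_lit 5) (nat_lit 329) (nat_lit 277) (nat_lit 174)) (XT.nd (nat_lit 78) (nat_lit 0) (nat_lit 0) (XT.lf (nat_lit 0) (nat_lit 2737230576) (nat_lit 152) (nat_lit 30857225198) (nat_lit 228) (nat_lit 14694849693) (nat_lit 38) (nat_lit 5) (nat_lit 40) (nat_lit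 5) (nat_lit 41) (nat_lit 5) (nat_lit 330) (nat_lit 277) (nat_lit 173)) (XT.lf (nat_lit 0) (nat_lit 36299281271) (nat_lit 152) (nat_lit 12682382908) (nat_lit 228) (nat_lit 1138126063) (nat_lit 38) (nat_lit 5) (nat_lit 40) (nat_lit 5) (nat_lit 41) (nat_lit 5) (nat_lit 331) (nat_lit 277) (nat_lit 172)))) (XT.nd (nat_lit 156) (nat_lit 152) (nat_lit 0) (XT.nd (nat_lit 78) (nat_lit 152) (nat_lit 0) (XT.lf (nat_lit 0) (nat_lit 13083961641) (nat_lit 228) (nat_lit 32359725302) (nat_lit 76) (nat_lit 6587047106) (nat_lit 35) (nat_lit 5) (nat_lit 38) (nat_lit 5) (nat_lit 36) (nat_lit 5) (nat_lit 332) (nat_lit 277) (nat_lit 171)) (XT.lf (nat_lit 0) (nat_lit 951551365) (nat_lit 152) (nat_lit 27312170348) (nat_lit 228) (nat_lit 25765066010) (nat_lit 33) (nat_lit 5) (nat_lit 35) (nat_lit 5) (nat_lit 36) (nat_lit 5) (nat_lit 333) (nat_lit 277) (nat_lit 170))) (XT.nd (nat_lit 78) (nat_lit 152) (nat_lit 0)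 (XT.lf (nat_lit 0) (nat_lit 36586093665) (nat_lit 152) (nat_lit 7938889623) (nat_lit 228) (nat_lit 11592089121) (nat_lit 33) (nat_lit 5) (nat_lit 35) (nat_lit 5) (nat_lit 36) (nat_lit 5) (nat_lit 334) (nat_lit 277) (nat_lit 169)) (XT.lf (nat_lit 0) (nat_lit 3489493718) (nat_lit 152) (nat_lit 42471061220) (nat_lit 76) (nat_lit 12340346776) (nat_lit 31) (nat_lit 5) (nat_lit 33) (nat_lit 5) (nat_lit 32) (nat_lit 5) (nat_lit 335) (nat_lit 277) (nat_lit 168))))) (XT.nd (nat_lit 234) (nat_lit 304) (nat_lit 0) (XT.nd (nat_lit 78) (nat_lit 228) (nat_lit 0) (XT.lf (nat_lit 0) (nat_lit 19360863573) (nat_lit 152) (nat_lit 7437733981) (nat_lit 76) (nat_lit 33783621521) (nat_lit 31) (nat_lit 5) (nat_lit 33) (nat_lit 5) (nat_lit 32) (nat_lit 5) (nat_lit 336) (nat_lit 277) (nat_lit 167)) (XT.nd (nat_lit 78) (nat_lit 76) (nat_lit 0) (XT.lf (nat_lit 0) (nat_lit 29914268758) (nat_lit 152) (nat_lit 6389608833)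 (nat_lit 228) (nat_lit 26665385573) (nat_lit 29) (nat_lit 5) (nat_lit 31) (nat_lit 5) (nat_lit 32) (nat_lit 5) (nat_lit 337) (nat_lit 277) (nat_lit 166)) (XT.lf (nat_lit 0) (nat_lit 3726873368) (nat_lit 76) (nat_lit 50615637659) (nat_lit 152) (nat_lit 11125697351) (nat_lit 28) (nat_lit 5) (nat_lit 29) (nat_lit 5) (nat_lit 30) (nat_lit 4) (nat_lit 338) (nat_lit 277) (nat_lit 165)))) (XT.nd (nat_lit 156) (nat_lit 76) (nat_lit 0) (XT.nd (nat_lit 78) (nat_lit 152) (nat_lit 0) (XT.lf (nat_lit 0) (nat_lit 5488757607) (nat_lit 152) (nat_lit 25177234108) (nat_lit 76) (nat_lit 37412642621) (nat_lit 27) (nat_lit 5) (nat_lit 29) (nat_lit 5) (nat_lit 28) (nat_lit 5) (nat_lit 339) (nat_lit 277) (nat_lit 164)) (XT.lf (nat_lit 0) (nat_lit 13347843526) (nat_lit 152) (nat_lit 9477817160) (nat_lit 228) (nat_lit 47986964213) (nat_lit 25) (nat_lit 5) (nat_lit 27) (nat_lit 5) (nat_lit 28) (nat_lit 5) (nat_lit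 340) (nat_lit 277) (nat_lit 163))) (XT.nd (nat_lit 78) (nat_lit 76) (nat_lit 0) (XT.lf (nat_lit 0) (nat_lit 41405482019) (nat_lit 228) (nat_lit 19490698262) (nat_lit 76) (nat_lit 12775855016) (nat_lit 25) (nat_lit 5) (nat_lit 28) (nat_lit 5) (nat_lit 26) (nat_lit 4) (nat_lit 341) (nat_lit 277) (nat_lit 162)) (XT.lf (nat_lit 0) (nat_lit 20675454095) (nat_lit 76) (nat_lit 40525227125) (nat_lit 152) (nat_lit 15465145774) (nat_lit 24) (nat_lit 5) (nat_lit 25) (nat_lit 5) (nat_lit 26) (nat_lit 4) (nat_lit 342) (nat_lit 277) (nat_lit 161))))))) (XT.nd (nat_lit 1092) (nat_lit 228) (nat_lit 0) (XT.nd (nat_lit 546) (nat_lit 304) (nat_lit 0) (XT.nd (nat_lit 234) (nat_lit 228) (nat_lit 0) (XT.nd (nat_lit 78) (nat_lit 152) (nat_lit 0) (XT.lf (nat_lit 0) (nat_lit 2328637920) (nat_lit 152) (nat_lit 16583154067) (nat_lit 76) (nat_lit 60891047665) (nat_lit 23) (nat_lit 5) (nat_lit 25) (nat_lit 5) (nat_lit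 24) (nat_lit 5) (nat_lit 343) (nat_lit 277) (nat_lit 160)) (XT.nd (nat_lit 78) (nat_lit 0) (nat_lit 0) (XT.lf (nat_lit 0) (nat_lit 20969418626) (nat_lit 228) (nat_lit 58010320835) (nat_lit 76) (nat_lit 4104057449) (nat_lit 21) (nat_lit 5) (nat_lit 24) (nat_lit 5) (nat_lit 22) (nat_lit 4) (nat_lit 344) (nat_lit 277) (nat_lit 159)) (XT.lf (nat_lit 0) (nat_lit 40898214288) (nat_lit 228) (nat_lit 17570047394) (nat_lit 76) (nat_lit 28049863069) (nat_lit 21) (nat_lit 5) (nat_lit 24) (nat_lit 5) (nat_lit 22) (nat_lit 4) (nat_lit 345) (nat_lit 277) (nat_lit 158)))) (XT.nd (nat_lit 156) (nat_lit 152) (nat_lit 0) (XT.nd (nat_lit 78) (nat_lit 0) (nat_lit 0) (XT.lf (nat_lit 0) (nat_lit 25374752521) (nat_lit 76) (nat_lit 36685658185) (nat_lit 152) (nat_lit 28056651351) (nat_lit 20) (nat_lit 5) (nat_lit 21) (nat_lit 5) (nat_lit 22) (nat_lit 4) (nat_lit 346) (nat_lit 277) (nat_lit 157)) (XT.lf (nat_lit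 0) (nat_lit 70821677056) (nat_lit 76) (nat_lit 13633164602) (nat_lit 152) (nat_lit 9435882640) (nat_lit 20) (nat_lit 5) (nat_lit 21) (nat_lit 5) (nat_lit 22) (nat_lit 4) (nat_lit 347) (nat_lit 277) (nat_lit 156))) (XT.nd (nat_lit 78) (nat_lit 0) (nat_lit 0) (XT.lf (nat_lit 0) (nat_lit 10218324996) (nat_lit 152) (nat_lit 76960456643) (nat_lit 76) (nat_lit 10662378514) (nat_lit 18) (nat_lit 5) (nat_lit 20) (nat_lit 5) (nat_lit 19) (nat_lit 4) (nat_lit 348) (nat_lit 277) (nat_lit 155)) (XT.lf (nat_lit 0) (nat_lit 31032999121) (nat_lit 152) (nat_lit 34718794449) (nat_lit 76) (nat_lit 36223335952) (nat_lit 18) (nat_lit 5) (nat_lit 20) (nat_lit 5) (nat_lit 19) (nat_lit 4) (nat_lit 349) (nat_lit 277) (nat_lit 154))))) (XT.nd (nat_lit 234) (nat_lit 228) (nat_lit 0) (XT.nd (nat_lit 78) (nat_lit 0) (nat_lit 0) (XT.lf (nat_lit 0) (nat_lit 9815413280) (nat_lit 76) (nat_lit 43161308286) (nat_lit 152)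 (nat_lit 53336427872) (nat_lit 17) (nat_lit 5) (nat_lit 18) (nat_lit 5) (nat_lit 19) (nat_lit 4) (nat_lit 350) (nat_lit 277) (nat_lit 153)) (XT.nd (nat_lit 78) (nat_lit 0) (nat_lit 0) (XT.lf (nat_lit 0) (nat_lit 57291097811) (nat_lit 76) (nat_lit 19078078642) (nat_lit 152) (nat_lit 34488348955) (nat_lit 17) (nat_lit 5) (nat_lit 18) (nat_lit 5) (nat_lit 19) (nat_lit 4) (nat_lit 351) (nat_lit 277) (nat_lit 152)) (XT.lf (nat_lit 0) (nat_lit 100985322607) (nat_lit 152) (nat_lit 8558607222) (nat_lit 0) (nat_lit 6083569670) (nat_lit 17) (nat_lit 5) (nat_lit 19) (nat_lit 4) (nat_lit 17) (nat_lit 4) (nat_lit 352) (nat_lit 277) (nat_lit 151)))) (XT.nd (nat_lit 156) (nat_lit 76) (nat_lit 0) (XT.nd (nat_lit 78) (nat_lit 0) (nat_lit 0) (XT.lf (nat_lit 0) (nat_lit 6645612008) (nat_lit 152) (nat_lit 81420846306) (nat_lit 76) (nat_lit 32550621762) (nat_lit 15) (nat_lit 5) (nat_lit 17) (nat_lit 5) (nat_lit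 16) (nat_lit 4) (nat_lit 353) (nat_lit 277) (nat_lit 150)) (XT.lf (nat_lit 0) (nat_lit 28781516734) (nat_lit 152) (nat_lit 36494184232) (nat_lit 76) (nat_lit 60573494296) (nat_lit 15) (nat_lit 5) (nat_lit 17) (nat_lit 5) (nat_lit 16) (nat_lit 4) (nat_lit 354) (nat_lit 277) (nat_lit 149))) (XT.nd (nat_lit 78) (nat_lit 0) (nat_lit 0) (XT.lf (nat_lit 0) (nat_lit 10881923288) (nat_lit 76) (nat_lit 41241905159) (nat_lit 152) (nat_lit 79216100563) (nat_lit 14) (nat_lit 5) (nat_lit 15) (nat_lit 5) (nat_lit 16) (nat_lit 4) (nat_lit 355) (nat_lit 277) (nat_lit 148)) (XT.lf (nat_lit 0) (nat_lit 61380488793) (nat_lit 76) (nat_lit 15623601928) (nat_lit 152) (nat_lit 60089984777) (nat_lit 14) (nat_lit 5) (nat_lit 15) (nat_lit 5) (nat_lit 16) (nat_lit 4) (nat_lit 356) (nat_lit 277) (nat_lit 147)))))) (XT.nd (nat_lit 34554) (nat_lit 0) (nat_lit 15124) (XT.nd (nat_lit 234) (nat_lit 76) (nat_lit 0) (XT.nd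 (nat_lit 78) (nat_lit 152) (nat_lit 0) (XT.lf (nat_lit 0) (nat_lit 103232106487) (nat_lit 152) (nat_lit 28848977851) (nat_lit 0) (nat_lit 11051733808) (nat_lit 14) (nat_lit 5) (nat_lit 16) (nat_lit 4) (nat_lit 14) (nat_lit 4) (nat_lit 357) (nat_lit 277) (nat_lit 146)) (XT.nd (nat_lit 78) (nat_lit 76) (nat_lit 0) (XT.lf (nat_lit 0) (nat_lit 20594816271) (nat_lit 76) (nat_lit 110527943119) (nat_lit 76) (nat_lit 18340202445) (nat_lit 13) (nat_lit 4) (nat_lit 14) (nat_lit 5) (nat_lit 14) (nat_lit 4) (nat_lit 358) (nat_lit 277) (nat_lit 145)) (XT.lf (nat_lit 0) (nat_lit 4510035471) (nat_lit 152) (nat_lit 83039385806) (nat_lit 76) (nat_lit 68550085432) (nat_lit 12) (nat_lit 5) (nat_lit 14) (nat_lit 5) (nat_lit 13) (nat_lit 4) (nat_lit 359) (nat_lit 277) (nat_lit 144)))) (XT.nd (nat_lit 156) (nat_lit 0) (nat_lit 0) (XT.nd (nat_lit 78) (nat_lit 76) (nat_lit 0) (XT.lf (nat_lit 0) (nat_lit 28122878245)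 (nat_lit 152) (nat_lit 35111997962) (nat_lit 76) (nat_lit 99827574020) (nat_lit 12) (nat_lit 5) (nat_lit 14) (nat_lit 5) (nat_lit 13) (nat_lit 4) (nat_lit 360) (nat_lit 277) (nat_lit 143)) (XT.lf (nat_lit 0) (nat_lit 15507025970) (nat_lit 76) (nat_lit 37554467391) (nat_lit 152) (nat_lit 117307694492) (nat_lit 11) (nat_lit 5) (nat_lit 12) (nat_lit 5) (nat_lit 13) (nat_lit 4) (nat_lit 361) (nat_lit 277) (nat_lit 142))) (XT.nd (nat_lit 34086) (nat_lit 0) (nat_lit 15884) (XT.lf (nat_lit 0) (nat_lit 69383617503) (nat_lit 76) (nat_lit 10221054775) (nat_lit 152) (nat_lit 98425861888) (nat_lit 11) (nat_lit 5) (nat_lit 12) (nat_lit 5) (nat_lit 13) (nat_lit 4) (nat_lit 362) (nat_lit 277) (nat_lit 141)) (XT.lf (nat_lit 0) (nat_lit 1203379467) (nat_lit 1140) (nat_lit 1969081273) (nat_lit 1140) (nat_lit 1969081273) (nat_lit 220) (nat_lit 3) (nat_lit 235) (nat_lit 3) (nat_lit 235) (nat_lit 5) (nat_lit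 278) (nat_lit 278) (nat_lit 224))))) (XT.nd (nat_lit 312) (nat_lit 836) (nat_lit 0) (XT.nd (nat_lit 156) (nat_lit 0) (nat_lit 76) (XT.nd (nat_lit 78) (nat_lit 0) (nat_lit 0) (XT.lf (nat_lit 0) (nat_lit 3555275545) (nat_lit 1064) (nat_lit 6477704987) (nat_lit 1140) (nat_lit 473393394) (nat_lit 221) (nat_lit 5) (nat_lit 235) (nat_lit 5) (nat_lit 236) (nat_lit 5) (nat_lit 279) (nat_lit 278) (nat_lit 223)) (XT.lf (nat_lit 76) (nat_lit 1667045565) (nat_lit 0) (nat_lit 3148260411) (nat_lit 1140) (nat_lit 5923972472) (nat_lit 222) (nat_lit 5) (nat_lit 221) (nat_lit 5) (nat_lit 236) (nat_lit 5) (nat_lit 280) (nat_lit 278) (nat_lit 222))) (XT.nd (nat_lit 78) (nat_lit 0) (nat_lit 76) (XT.lf (nat_lit 0) (nat_lit 6181088816) (nat_lit 1064) (nat_lit 706063773) (nat_lit 1140) (nat_lit 4095462384) (nat_lit 222) (nat_lit 5) (nat_lit 236) (nat_lit 5) (nat_lit 237) (nat_lit 5) (nat_lit 281) (nat_lit 278) (nat_lit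 221)) (XT.lf (nat_lit 0) (nat_lit 7669534134) (nat_lit 1064) (nat_lit 3072403860) (nat_lit 1140) (nat_lit 494615131) (nat_lit 223) (nat_lit 5) (nat_lit 237) (nat_lit 5) (nat_lit 238) (nat_lit 5) (nat_lit 282) (nat_lit 278) (nat_lit 220)))) (XT.nd (nat_lit 156) (nat_lit 988) (nat_lit 0) (XT.nd (nat_lit 78) (nat_lit 0) (nat_lit 76) (XT.lf (nat_lit 76) (nat_lit 5999268927) (nat_lit 0) (nat_lit 3309641433) (nat_lit 1140) (nat_lit 2192045426) (nat_lit 224) (nat_lit 5) (nat_lit 223) (nat_lit 5) (nat_lit 238) (nat_lit 5) (nat_lit 283) (nat_lit 278) (nat_lit 219)) (XT.lf (nat_lit 76) (nat_lit 3803103627) (nat_lit 0) (nat_lit 7283427953) (nat_lit 1140) (nat_lit 690418581) (nat_lit 225) (nat_lit 5) (nat_lit 224) (nat_lit 5) (nat_lit 239) (nat_lit 5) (nat_lit 284) (nat_lit 278) (nat_lit 218))) (XT.nd (nat_lit 78) (nat_lit 0) (nat_lit 0) (XT.lf (nat_lit 0) (nat_lit 927246994) (nat_lit 1140) (nat_lit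 10498698431) (nat_lit 1216) (nat_lit 638851033) (nat_lit 210) (nat_lit 5) (nat_lit 225) (nat_lit 5) (nat_lit 226) (nat_lit 5) (nat_lit 285) (nat_lit 278) (nat_lit 217)) (XT.lf (nat_lit 0) (nat_lit 2716662245) (nat_lit 1140) (nat_lit 735529584) (nat_lit 1216) (nat_lit 8911536527) (nat_lit 210) (nat_lit 5) (nat_lit 225) (nat_lit 5) (nat_lit 226) (nat_lit 5) (nat_lit 286) (nat_lit 278) (nat_lit 216))))))))
noncomputable def xc80 : XT := (XT.nd (nat_lit 2184) (nat_lit 3876) (nat_lit 0) (XT.nd (nat_lit 1092) (nat_lit 4256) (nat_lit 0) (XT.nd (nat_lit 546) (nat_lit 2964) (nat_lit 0) (XT.nd (nat_lit 234) (nat_lit 1976) (nat_lit 0) (XT.nd (nat_lit 78) (nat_lit 1064) (nat_lit 0) (XT.lf (nat_lit 0) (nat_lit 4687850336) (nat_lit 1140) (nat_lit 3057688676) (nat_lit 1216) (nat_lit 4929348983) (nat_lit 211) (nat_lit 5) (nat_lit 226) (nat_lit 5) (nat_lit 227) (nat_lit 5) (nat_lit 287) (nat_lit 278) (nat_lit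 215)) (XT.nd (nat_lit 78) (nat_lit 1140) (nat_lit 0) (XT.lf (nat_lit 0) (nat_lit 6833265865) (nat_lit 1140) (nat_lit 5430274556) (nat_lit 76) (nat_lit 735842971) (nat_lit 212) (nat_lit 5) (nat_lit 227) (nat_lit 5) (nat_lit 213) (nat_lit 5) (nat_lit 288) (nat_lit 278) (nat_lit 214)) (XT.lf (nat_lit 0) (nat_lit 5441344900) (nat_lit 1140) (nat_lit 3761967062) (nat_lit 1216) (nat_lit 4133316343) (nat_lit 197) (nat_lit 5) (nat_lit 212) (nat_lit 5) (nat_lit 213) (nat_lit 5) (nat_lit 289) (nat_lit 278) (nat_lit 213)))) (XT.nd (nat_lit 156) (nat_lit 532) (nat_lit 0) (XT.nd (nat_lit 78) (nat_lit 684) (nat_lit 0) (XT.lf (nat_lit 0) (nat_lit 3255668857) (nat_lit 760) (nat_lit 8530512701) (nat_lit 836) (nat_lit 1901767642) (nat_lit 187) (nat_lit 5) (nat_lit 197) (nat_lit 5) (nat_lit 198) (nat_lit 5) (nat_lit 290) (nat_lit 278) (nat_lit 212)) (XT.lf (nat_lit 0) (nat_lit 525434790) (nat_lit 684) (nat_lit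 13045723338) (nat_lit 76) (nat_lit 482810174) (nat_lit 178) (nat_lit 5) (nat_lit 187) (nat_lit 5) (nat_lit 179) (nat_lit 5) (nat_lit 291) (nat_lit 278) (nat_lit 211))) (XT.nd (nat_lit 78) (nat_lit 532) (nat_lit 0) (XT.lf (nat_lit 0) (nat_lit 3189414513) (nat_lit 684) (nat_lit 1341187142) (nat_lit 76) (nat_lit 9902517556) (nat_lit 178) (nat_lit 5) (nat_lit 187) (nat_lit 5) (nat_lit 179) (nat_lit 5) (nat_lit 292) (nat_lit 278) (nat_lit 210)) (XT.lf (nat_lit 0) (nat_lit 6104084727) (nat_lit 608) (nat_lit 3748956840) (nat_lit 76) (nat_lit 4974697729) (nat_lit 171) (nat_lit 5) (nat_lit 179) (nat_lit 5) (nat_lit 172) (nat_lit 5) (nat_lit 293) (nat_lit 278) (nat_lit 209))))) (XT.nd (nat_lit 234) (nat_lit 1292) (nat_lit 0) (XT.nd (nat_lit 78) (nat_lit 1140) (nat_lit 0) (XT.lf (nat_lit 0) (nat_lit 8999017427) (nat_lit 532) (nat_lit 274877200) (nat_lit 608) (nat_lit 5964948215) (nat_lit 164) (nat_lit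 5) (nat_lit 171) (nat_lit 5) (nat_lit 172) (nat_lit 5) (nat_lit 294) (nat_lit 278) (nat_lit 208)) (XT.nd (nat_lit 78) (nat_lit 608) (nat_lit 0) (XT.lf (nat_lit 0) (nat_lit 6794707089) (nat_lit 532) (nat_lit 5970443415) (nat_lit 608) (nat_lit 2900495391) (nat_lit 157) (nat_lit 5) (nat_lit 164) (nat_lit 5) (nat_lit 165) (nat_lit 5) (nat_lit 295) (nat_lit 278) (nat_lit 207)) (XT.lf (nat_lit 0) (nat_lit 427894523) (nat_lit 608) (nat_lit 11606164771) (nat_lit 76) (nat_lit 4076161732) (nat_lit 149) (nat_lit 5) (nat_lit 157) (nat_lit 5) (nat_lit 150) (nat_lit 5) (nat_lit 296) (nat_lit 278) (nat_lit 206)))) (XT.nd (nat_lit 156) (nat_lit 836) (nat_lit 0) (XT.nd (nat_lit 78) (nat_lit 0) (nat_lit 0) (XT.lf (nat_lit 0) (nat_lit 2072424671) (nat_lit 456) (nat_lit 1930135562) (nat_lit 532) (nat_lit 12569436913) (nat_lit 143) (nat_lit 5) (nat_lit 149) (nat_lit 5) (nat_lit 150) (nat_lit 5) (nat_lit 297)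 (nat_lit 278) (nat_lit 205)) (XT.lf (nat_lit 0) (nat_lit 7928127891) (nat_lit 532) (nat_lit 496782331) (nat_lit 76) (nat_lit 8626814458) (nat_lit 143) (nat_lit 5) (nat_lit 150) (nat_lit 5) (nat_lit 144) (nat_lit 5) (nat_lit 298) (nat_lit 278) (nat_lit 204))) (XT.nd (nat_lit 78) (nat_lit 380) (nat_lit 0) (XT.lf (nat_lit 0) (nat_lit 12199488139) (nat_lit 532) (nat_lit 3139636040) (nat_lit 76) (nat_lit 2211855341) (nat_lit 137) (nat_lit 5) (nat_lit 144) (nat_lit 5) (nat_lit 138) (nat_lit 5) (nat_lit 299) (nat_lit 278) (nat_lit 203)) (XT.lf (nat_lit 0) (nat_lit 12117067048) (nat_lit 380) (nat_lit 4744709924) (nat_lit 456) (nat_lit 1208124410) (nat_lit 132) (nat_lit 5) (nat_lit 137) (nat_lit 5) (nat_lit 138) (nat_lit 5) (nat_lit 300) (nat_lit 278) (nat_lit 202)))))) (XT.nd (nat_lit 546) (nat_lit 1824) (nat_lit 0) (XT.nd (nat_lit 234) (nat_lit 1140) (nat_lit 0) (XT.nd (nat_lit 78) (nat_lit 760)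 (nat_lit 0) (XT.lf (nat_lit 0) (nat_lit 3241372821) (nat_lit 532) (nat_lit 8960459327) (nat_lit 76) (nat_lit 6407245742) (nat_lit 125) (nat_lit 5) (nat_lit 132) (nat_lit 5) (nat_lit 126) (nat_lit 5) (nat_lit 301) (nat_lit 278) (nat_lit 201)) (XT.nd (nat_lit 78) (nat_lit 380) (nat_lit 0) (XT.lf (nat_lit 0) (nat_lit 7023605782) (nat_lit 380) (nat_lit 1014718185) (nat_lit 456) (nat_lit 11132053561) (nat_lit 120) (nat_lit 5) (nat_lit 125) (nat_lit 5) (nat_lit 126) (nat_lit 5) (nat_lit 302) (nat_lit 278) (nat_lit 200)) (XT.lf (nat_lit 0) (nat_lit 4180948444) (nat_lit 380) (nat_lit 9104053645) (nat_lit 456) (nat_lit 6468464728) (nat_lit 115) (nat_lit 5) (nat_lit 120) (nat_lit 5) (nat_lit 121) (nat_lit 5) (nat_lit 303) (nat_lit 278) (nat_lit 199)))) (XT.nd (nat_lit 156) (nat_lit 684) (nat_lit 0) (XT.nd (nat_lit 78) (nat_lit 76) (nat_lit 0) (XT.lf (nat_lit 0) (nat_lit 1170796286) (nat_lit 380) (nat_lit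 17769285155) (nat_lit 456) (nat_lit 1421267154) (nat_lit 110) (nat_lit 5) (nat_lit 115) (nat_lit 5) (nat_lit 116) (nat_lit 5) (nat_lit 304) (nat_lit 278) (nat_lit 198)) (XT.lf (nat_lit 0) (nat_lit 4031302684) (nat_lit 456) (nat_lit 2081900309) (nat_lit 76) (nat_lit 14878460838) (nat_lit 109) (nat_lit 5) (nat_lit 115) (nat_lit 5) (nat_lit 110) (nat_lit 5) (nat_lit 305) (nat_lit 278) (nat_lit 197))) (XT.nd (nat_lit 78) (nat_lit 304) (nat_lit 0) (XT.lf (nat_lit 0) (nat_lit 9919234024) (nat_lit 456) (nat_lit 5558069220) (nat_lit 76) (nat_lit 6170023269) (nat_lit 104) (nat_lit 5) (nat_lit 110) (nat_lit 5) (nat_lit 105) (nat_lit 5) (nat_lit 306) (nat_lit 278) (nat_lit 196)) (XT.lf (nat_lit 0) (nat_lit 13038679828) (nat_lit 304) (nat_lit 3248440178) (nat_lit 380) (nat_lit 6043102394) (nat_lit 100) (nat_lit 5) (nat_lit 104) (nat_lit 5) (nat_lit 105) (nat_lit 5) (nat_lit 307) (nat_lit 278) (nat_lit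 195))))) (XT.nd (nat_lit 234) (nat_lit 836) (nat_lit 0) (XT.nd (nat_lit 78) (nat_lit 608) (nat_lit 0) (XT.lf (nat_lit 0) (nat_lit 150601068) (nat_lit 380) (nat_lit 13340622316) (nat_lit 76) (nat_lit 9549385867) (nat_lit 95) (nat_lit 5) (nat_lit 100) (nat_lit 5) (nat_lit 96) (nat_lit 5) (nat_lit 308) (nat_lit 278) (nat_lit 194)) (XT.nd (nat_lit 78) (nat_lit 304) (nat_lit 0) (XT.lf (nat_lit 0) (nat_lit 6044366395) (nat_lit 304) (nat_lit 651447861) (nat_lit 380) (nat_lit 17083916858) (nat_lit 91) (nat_lit 5) (nat_lit 95) (nat_lit 5) (nat_lit 96) (nat_lit 5) (nat_lit 309) (nat_lit 278) (nat_lit 193)) (XT.lf (nat_lit 0) (nat_lit 2010069656) (nat_lit 304) (nat_lit 11818395493) (nat_lit 380) (nat_lit 10719552710) (nat_lit 87) (nat_lit 5) (nat_lit 91) (nat_lit 5) (nat_lit 92) (nat_lit 5) (nat_lit 310) (nat_lit 278) (nat_lit 192)))) (XT.nd (nat_lit 156) (nat_lit 532) (nat_lit 0) (XT.nd (nat_lit 78)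 (nat_lit 304) (nat_lit 0) (XT.lf (nat_lit 0) (nat_lit 21501681940) (nat_lit 380) (nat_lit 2287572471) (nat_lit 76) (nat_lit 1559959960) (nat_lit 87) (nat_lit 5) (nat_lit 92) (nat_lit 5) (nat_lit 88) (nat_lit 5) (nat_lit 311) (nat_lit 278) (nat_lit 191)) (XT.lf (nat_lit 0) (nat_lit 3589489601) (nat_lit 304) (nat_lit 7014815304) (nat_lit 76) (nat_lit 15576593207) (nat_lit 83) (nat_lit 5) (nat_lit 87) (nat_lit 5) (nat_lit 84) (nat_lit 5) (nat_lit 312) (nat_lit 278) (nat_lit 190))) (XT.nd (nat_lit 78) (nat_lit 228) (nat_lit 0) (XT.lf (nat_lit 0) (nat_lit 11500656965) (nat_lit 380) (nat_lit 12171001046) (nat_lit 76) (nat_lit 3375921011) (nat_lit 79) (nat_lit 5) (nat_lit 84) (nat_lit 5) (nat_lit 80) (nat_lit 5) (nat_lit 313) (nat_lit 278) (nat_lit 189)) (XT.lf (nat_lit 0) (nat_lit 10115680794) (nat_lit 228) (nat_lit 9950379293) (nat_lit 304) (nat_lit 7883784832) (nat_lit 76) (nat_lit 5) (nat_lit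 79) (nat_lit 5) (nat_lit 80) (nat_lit 5) (nat_lit 314) (nat_lit 278) (nat_lit 188))))))) (XT.nd (nat_lit 1092) (nat_lit 1368) (nat_lit 0) (XT.nd (nat_lit 546) (nat_lit 1216) (nat_lit 0) (XT.nd (nat_lit 234) (nat_lit 760) (nat_lit 0) (XT.nd (nat_lit 78) (nat_lit 228) (nat_lit 0) (XT.lf (nat_lit 0) (nat_lit 359803785) (nat_lit 304) (nat_lit 23993005572) (nat_lit 76) (nat_lit 4538364333) (nat_lit 72) (nat_lit 5) (nat_lit 76) (nat_lit 5) (nat_lit 73) (nat_lit 5) (nat_lit 315) (nat_lit 278) (nat_lit 187)) (XT.nd (nat_lit 78) (nat_lit 228) (nat_lit 0) (XT.lf (nat_lit 0) (nat_lit 9122312290) (nat_lit 304) (nat_lit 942997084) (nat_lit 76) (nat_lit 19803834048) (nat_lit 72) (nat_lit 5) (nat_lit 76) (nat_lit 5) (nat_lit 73) (nat_lit 5) (nat_lit 316) (nat_lit 278) (nat_lit 186)) (XT.lf (nat_lit 0) (nat_lit 18583625946) (nat_lit 304) (nat_lit 7243031323) (nat_lit 76) (nat_lit 5061543426) (nat_lit 69)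 (nat_lit 5) (nat_lit 73) (nat_lit 5) (nat_lit 70) (nat_lit 5) (nat_lit 317) (nat_lit 278) (nat_lit 185)))) (XT.nd (nat_lit 156) (nat_lit 228) (nat_lit 0) (XT.nd (nat_lit 78) (nat_lit 304) (nat_lit 0) (XT.lf (nat_lit 0) (nat_lit 17743781702) (nat_lit 228) (nat_lit 11039929603) (nat_lit 304) (nat_lit 3166537342) (nat_lit 66) (nat_lit 5) (nat_lit 69) (nat_lit 5) (nat_lit 70) (nat_lit 5) (nat_lit 318) (nat_lit 278) (nat_lit 184)) (XT.lf (nat_lit 0) (nat_lit 6515493876) (nat_lit 304) (nat_lit 21904769635) (nat_lit 76) (nat_lit 4636913995) (nat_lit 62) (nat_lit 5) (nat_lit 66) (nat_lit 5) (nat_lit 63) (nat_lit 5) (nat_lit 319) (nat_lit 278) (nat_lit 183))) (XT.nd (nat_lit 78) (nat_lit 0) (nat_lit 0) (XT.lf (nat_lit 0) (nat_lit 3765092745) (nat_lit 228) (nat_lit 13131525149) (nat_lit 304) (nat_lit 17313487878) (nat_lit 59) (nat_lit 5) (nat_lit 62) (nat_lit 5) (nat_lit 63) (nat_lit 5) (nat_lit 320)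 (nat_lit 278) (nat_lit 182)) (XT.lf (nat_lit 0) (nat_lit 28037584842) (nat_lit 304) (nat_lit 4292279571) (nat_lit 76) (nat_lit 3083599981) (nat_lit 59) (nat_lit 5) (nat_lit 63) (nat_lit 5) (nat_lit 60) (nat_lit 5) (nat_lit 321) (nat_lit 278) (nat_lit 181))))) (XT.nd (nat_lit 234) (nat_lit 608) (nat_lit 0) (XT.nd (nat_lit 78) (nat_lit 380) (nat_lit 0) (XT.lf (nat_lit 0) (nat_lit 3346168613) (nat_lit 228) (nat_lit 13229030019) (nat_lit 76) (nat_lit 20090499937) (nat_lit 56) (nat_lit 5) (nat_lit 59) (nat_lit 5) (nat_lit 57) (nat_lit 5) (nat_lit 322) (nat_lit 278) (nat_lit 180)) (XT.nd (nat_lit 78) (nat_lit 152) (nat_lit 0) (XT.lf (nat_lit 0) (nat_lit 14628818956) (nat_lit 304) (nat_lit 23120489023) (nat_lit 76) (nat_lit 223740935) (nat_lit 53) (nat_lit 5) (nat_lit 57) (nat_lit 5) (nat_lit 54) (nat_lit 5) (nat_lit 323) (nat_lit 278) (nat_lit 179)) (XT.lf (nat_lit 0) (nat_lit 5183102686) (nat_lit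 152) (nat_lit 21633537559) (nat_lit 228) (nat_lit 12518901705) (nat_lit 51) (nat_lit 5) (nat_lit 53) (nat_lit 5) (nat_lit 54) (nat_lit 5) (nat_lit 324) (nat_lit 278) (nat_lit 178)))) (XT.nd (nat_lit 156) (nat_lit 304) (nat_lit 0) (XT.nd (nat_lit 78) (nat_lit 304) (nat_lit 0) (XT.lf (nat_lit 0) (nat_lit 35363277689) (nat_lit 152) (nat_lit 4475407342) (nat_lit 228) (nat_lit 920735661) (nat_lit 51) (nat_lit 5) (nat_lit 53) (nat_lit 5) (nat_lit 54) (nat_lit 5) (nat_lit 325) (nat_lit 278) (nat_lit 177)) (XT.lf (nat_lit 0) (nat_lit 11400390199) (nat_lit 304) (nat_lit 17218180287) (nat_lit 76) (nat_lit 13621800401) (nat_lit 47) (nat_lit 5) (nat_lit 51) (nat_lit 5) (nat_lit 48) (nat_lit 5) (nat_lit 326) (nat_lit 278) (nat_lit 176))) (XT.nd (nat_lit 78) (nat_lit 152) (nat_lit 0) (XT.lf (nat_lit 0) (nat_lit 13467626407) (nat_lit 152) (nat_lit 11069464436) (nat_lit 228) (nat_lit 19251452750) (nat_lit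 45) (nat_lit 5) (nat_lit 47) (nat_lit 5) (nat_lit 48) (nat_lit 5) (nat_lit 327) (nat_lit 278) (nat_lit 175)) (XT.lf (nat_lit 0) (nat_lit 556757331) (nat_lit 152) (nat_lit 38016914508) (nat_lit 228) (nat_lit 6833166788) (nat_lit 43) (nat_lit 5) (nat_lit 45) (nat_lit 5) (nat_lit 46) (nat_lit 5) (nat_lit 328) (nat_lit 278) (nat_lit 174)))))) (XT.nd (nat_lit 546) (nat_lit 608) (nat_lit 0) (XT.nd (nat_lit 234) (nat_lit 380) (nat_lit 0) (XT.nd (nat_lit 78) (nat_lit 304) (nat_lit 0) (XT.lf (nat_lit 0) (nat_lit 6500109963) (nat_lit 228) (nat_lit 13679236092) (nat_lit 76) (nat_lit 26912461989) (nat_lit 42) (nat_lit 5) (nat_lit 45) (nat_lit 5) (nat_lit 43) (nat_lit 5) (nat_lit 329) (nat_lit 278) (nat_lit 173)) (XT.nd (nat_lit 78) (nat_lit 152) (nat_lit 0) (XT.lf (nat_lit 0) (nat_lit 19339507233) (nat_lit 152) (nat_lit 1195234399) (nat_lit 228) (nat_lit 28318978754) (nat_lit 40) (nat_lit 5) (nat_lit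 42) (nat_lit 5) (nat_lit 43) (nat_lit 5) (nat_lit 330) (nat_lit 278) (nat_lit 172)) (XT.lf (nat_lit 0) (nat_lit 3462827222) (nat_lit 152) (nat_lit 32152972837) (nat_lit 228) (nat_lit 15077591669) (nat_lit 38) (nat_lit 5) (nat_lit 40) (nat_lit 5) (nat_lit 41) (nat_lit 5) (nat_lit 331) (nat_lit 278) (nat_lit 171)))) (XT.nd (nat_lit 156) (nat_lit 152) (nat_lit 0) (XT.nd (nat_lit 78) (nat_lit 228) (nat_lit 0) (XT.lf (nat_lit 0) (nat_lit 38674945447) (nat_lit 152) (nat_lit 13081155747) (nat_lit 228) (nat_lit 859793787) (nat_lit 38) (nat_lit 5) (nat_lit 40) (nat_lit 5) (nat_lit 41) (nat_lit 5) (nat_lit 332) (nat_lit 278) (nat_lit 170)) (XT.lf (nat_lit 0) (nat_lit 14058739261) (nat_lit 228) (nat_lit 33419184863) (nat_lit 76) (nat_lit 7144614438) (nat_lit 35) (nat_lit 5) (nat_lit 38) (nat_lit 5) (nat_lit 36) (nat_lit 5) (nat_lit 333) (nat_lit 278) (nat_lit 169))) (XT.nd (nat_lit 78) (nat_lit 0) (nat_lit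 0) (XT.lf (nat_lit 0) (nat_lit 1541645582) (nat_lit 152) (nat_lit 28445791065) (nat_lit 228) (nat_lit 26733365261) (nat_lit 33) (nat_lit 5) (nat_lit 35) (nat_lit 5) (nat_lit 36) (nat_lit 5) (nat_lit 334) (nat_lit 278) (nat_lit 168)) (XT.lf (nat_lit 0) (nat_lit 38932080870) (nat_lit 152) (nat_lit 8114893342) (nat_lit 228) (nat_lit 11866975434) (nat_lit 33) (nat_lit 5) (nat_lit 35) (nat_lit 5) (nat_lit 36) (nat_lit 5) (nat_lit 335) (nat_lit 278) (nat_lit 167))))) (XT.nd (nat_lit 234) (nat_lit 304) (nat_lit 0) (XT.nd (nat_lit 78) (nat_lit 152) (nat_lit 0) (XT.lf (nat_lit 0) (nat_lit 3955492552) (nat_lit 152) (nat_lit 44080188038) (nat_lit 76) (nat_lit 13171424203) (nat_lit 31) (nat_lit 5) (nat_lit 33) (nat_lit 5) (nat_lit 32) (nat_lit 5) (nat_lit 336) (nat_lit 278) (nat_lit 166)) (XT.nd (nat_lit 78) (nat_lit 152) (nat_lit 0) (XT.lf (nat_lit 0) (nat_lit 20606548797) (nat_lit 152) (nat_lit 7319690924)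 (nat_lit 76) (nat_lit 35676669348) (nat_lit 31) (nat_lit 5) (nat_lit 33) (nat_lit 5) (nat_lit 32) (nat_lit 5) (nat_lit 337) (nat_lit 278) (nat_lit 165)) (XT.lf (nat_lit 0) (nat_lit 31885868213) (nat_lit 152) (nat_lit 6502198761) (nat_lit 228) (nat_lit 27721502153) (nat_lit 29) (nat_lit 5) (nat_lit 31) (nat_lit 5) (nat_lit 32) (nat_lit 5) (nat_lit 338) (nat_lit 278) (nat_lit 164)))) (XT.nd (nat_lit 156) (nat_lit 152) (nat_lit 0) (XT.nd (nat_lit 78) (nat_lit 76) (nat_lit 0) (XT.lf (nat_lit 0) (nat_lit 4381453498) (nat_lit 76) (nat_lit 52940764305) (nat_lit 152) (nat_lit 11411440385) (nat_lit 28) (nat_lit 5) (nat_lit 29) (nat_lit 5) (nat_lit 30) (nat_lit 4) (nat_lit 339) (nat_lit 278) (nat_lit 163)) (XT.lf (nat_lit 0) (nat_lit 6015826524) (nat_lit 152) (nat_lit 25985051569) (nat_lit 76) (nat_lit 39474032124) (nat_lit 27) (nat_lit 5) (nat_lit 29) (nat_lit 5) (nat_lit 28) (nat_lit 5) (nat_lit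 340) (nat_lit 278) (nat_lit 162))) (XT.nd (nat_lit 78) (nat_lit 0) (nat_lit 0) (XT.lf (nat_lit 0) (nat_lit 14453350854) (nat_lit 152) (nat_lit 9758405284) (nat_lit 228) (nat_lit 50134082391) (nat_lit 25) (nat_lit 5) (nat_lit 27) (nat_lit 5) (nat_lit 28) (nat_lit 5) (nat_lit 341) (nat_lit 278) (nat_lit 161)) (XT.lf (nat_lit 0) (nat_lit 43710680465) (nat_lit 228) (nat_lit 20042685916) (nat_lit 76) (nat_lit 13595153197) (nat_lit 25) (nat_lit 5) (nat_lit 28) (nat_lit 5) (nat_lit 26) (nat_lit 4) (nat_lit 342) (nat_lit 278) (nat_lit 160))))))))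
noncomputable def xc81 : XT := (XT.nd (nat_lit 36270) (nat_lit 0) (nat_lit 4940) (XT.nd (nat_lit 1092) (nat_lit 228) (nat_lit 0) (XT.nd (nat_lit 546) (nat_lit 304) (nat_lit 0) (XT.nd (nat_lit 234) (nat_lit 228) (nat_lit 0) (XT.nd (nat_lit 78) (nat_lit 228) (nat_lit 0) (XT.lf (nat_lit 0) (nat_lit 22119661827) (nat_lit 76) (nat_lit 42368736277) (nat_lit 152) (nat_lit 16003823321) (nat_lit 24) (nat_lit 5) (nat_lit 25) (nat_lit 5) (nat_lit 26) (nat_lit 4) (nat_lit 343) (nat_lit 278) (nat_lit 159)) (XT.nd (nat_lit 78) (nat_lit 152) (nat_lit 0) (XT.lf (nat_lit 0) (nat_lit 2664119574) (nat_lit 152) (nat_lit 17017000321) (nat_lit 76) (nat_lit 64105228820) (nat_lit 23) (nat_lit 5) (nat_lit 25) (nat_lit 5) (nat_lit 24) (nat_lit 5) (nat_lit 344) (nat_lit 278) (nat_lit 158)) (XT.lf (nat_lit 0) (nat_lit 22231849622) (nat_lit 228) (nat_lit 60522079351) (nat_lit 76) (nat_lit 4477580479) (nat_lit 21) (nat_lit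 5) (nat_lit 24) (nat_lit 5) (nat_lit 22) (nat_lit 4) (nat_lit 345) (nat_lit 278) (nat_lit 157)))) (XT.nd (nat_lit 156) (nat_lit 152) (nat_lit 0) (XT.nd (nat_lit 78) (nat_lit 76) (nat_lit 0) (XT.lf (nat_lit 0) (nat_lit 43146896493) (nat_lit 228) (nat_lit 18078304501) (nat_lit 76) (nat_lit 29612661134) (nat_lit 21) (nat_lit 5) (nat_lit 24) (nat_lit 5) (nat_lit 22) (nat_lit 4) (nat_lit 346) (nat_lit 278) (nat_lit 156)) (XT.lf (nat_lit 0) (nat_lit 27003122404) (nat_lit 76) (nat_lit 38357833928) (nat_lit 152) (nat_lit 29255980012) (nat_lit 20) (nat_lit 5) (nat_lit 21) (nat_lit 5) (nat_lit 22) (nat_lit 4) (nat_lit 347) (nat_lit 278) (nat_lit 155))) (XT.nd (nat_lit 78) (nat_lit 152) (nat_lit 0) (XT.lf (nat_lit 0) (nat_lit 74705267820) (nat_lit 76) (nat_lit 14160435055) (nat_lit 152) (nat_lit 9713863528) (nat_lit 20) (nat_lit 5) (nat_lit 21) (nat_lit 5) (nat_lit 22) (nat_lit 4) (nat_lit 348) (nat_lit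 278) (nat_lit 154)) (XT.lf (nat_lit 0) (nat_lit 10914920155) (nat_lit 152) (nat_lit 80467958994) (nat_lit 76) (nat_lit 11344721917) (nat_lit 18) (nat_lit 5) (nat_lit 20) (nat_lit 5) (nat_lit 19) (nat_lit 4) (nat_lit 349) (nat_lit 278) (nat_lit 153))))) (XT.nd (nat_lit 234) (nat_lit 228) (nat_lit 0) (XT.nd (nat_lit 78) (nat_lit 76) (nat_lit 0) (XT.lf (nat_lit 0) (nat_lit 32761486133) (nat_lit 152) (nat_lit 36130428951) (nat_lit 76) (nat_lit 38176621300) (nat_lit 18) (nat_lit 5) (nat_lit 20) (nat_lit 5) (nat_lit 19) (nat_lit 4) (nat_lit 350) (nat_lit 278) (nat_lit 152)) (XT.nd (nat_lit 78) (nat_lit 0) (nat_lit 0) (XT.lf (nat_lit 0) (nat_lit 10621193021) (nat_lit 76) (nat_lit 45175808928) (nat_lit 152) (nat_lit 55826619249) (nat_lit 17) (nat_lit 5) (nat_lit 18) (nat_lit 5) (nat_lit 19) (nat_lit 4) (nat_lit 351) (nat_lit 278) (nat_lit 151)) (XT.lf (nat_lit 0) (nat_lit 60455661346) (nat_lit 76)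 (nat_lit 19895254220) (nat_lit 152) (nat_lit 36044547339) (nat_lit 17) (nat_lit 5) (nat_lit 18) (nat_lit 5) (nat_lit 19) (nat_lit 4) (nat_lit 352) (nat_lit 278) (nat_lit 150)))) (XT.nd (nat_lit 156) (nat_lit 76) (nat_lit 0) (XT.nd (nat_lit 78) (nat_lit 152) (nat_lit 0) (XT.lf (nat_lit 0) (nat_lit 106191345506) (nat_lit 152) (nat_lit 8697363201) (nat_lit 0) (nat_lit 6515424622) (nat_lit 17) (nat_lit 5) (nat_lit 19) (nat_lit 4) (nat_lit 17) (nat_lit 4) (nat_lit 353) (nat_lit 278) (nat_lit 149)) (XT.lf (nat_lit 0) (nat_lit 7131425580) (nat_lit 152) (nat_lit 85207912211) (nat_lit 76) (nat_lit 34303954753) (nat_lit 15) (nat_lit 5) (nat_lit 17) (nat_lit 5) (nat_lit 16) (nat_lit 4) (nat_lit 354) (nat_lit 278) (nat_lit 148))) (XT.nd (nat_lit 78) (nat_lit 76) (nat_lit 0) (XT.lf (nat_lit 0) (nat_lit 30366814449) (nat_lit 152) (nat_lit 38048439720) (nat_lit 76) (nat_lit 63721980347) (nat_lit 15) (nat_lit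 5) (nat_lit 17) (nat_lit 5) (nat_lit 16) (nat_lit 4) (nat_lit 355) (nat_lit 278) (nat_lit 147)) (XT.lf (nat_lit 0) (nat_lit 11688720674) (nat_lit 76) (nat_lit 43183083371) (nat_lit 152) (nat_lit 83030835649) (nat_lit 14) (nat_lit 5) (nat_lit 15) (nat_lit 5) (nat_lit 16) (nat_lit 4) (nat_lit 356) (nat_lit 278) (nat_lit 146)))))) (XT.nd (nat_lit 34632) (nat_lit 0) (nat_lit 15048) (XT.nd (nat_lit 234) (nat_lit 152) (nat_lit 0) (XT.nd (nat_lit 78) (nat_lit 76) (nat_lit 0) (XT.lf (nat_lit 0) (nat_lit 64699704872) (nat_lit 76) (nat_lit 16289622933) (nat_lit 152) (nat_lit 62955369784) (nat_lit 14) (nat_lit 5) (nat_lit 15) (nat_lit 5) (nat_lit 16) (nat_lit 4) (nat_lit 357) (nat_lit 278) (nat_lit 145)) (XT.nd (nat_lit 78) (nat_lit 76) (nat_lit 0) (XT.lf (nat_lit 0) (nat_lit 108523368505) (nat_lit 152) (nat_lit 30050315940) (nat_lit 0) (nat_lit 11711855663) (nat_lit 14) (nat_lit 5) (nat_lit 16) (nat_lit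 4) (nat_lit 14) (nat_lit 4) (nat_lit 358) (nat_lit 278) (nat_lit 144)) (XT.lf (nat_lit 0) (nat_lit 21858756494) (nat_lit 76) (nat_lit 115945874699) (nat_lit 76) (nat_lit 19127678867) (nat_lit 13) (nat_lit 4) (nat_lit 14) (nat_lit 5) (nat_lit 14) (nat_lit 4) (nat_lit 359) (nat_lit 278) (nat_lit 143)))) (XT.nd (nat_lit 156) (nat_lit 76) (nat_lit 0) (XT.nd (nat_lit 78) (nat_lit 0) (nat_lit 0) (XT.lf (nat_lit 0) (nat_lit 4856495369) (nat_lit 152) (nat_lit 86965874983) (nat_lit 76) (nat_lit 72078457197) (nat_lit 12) (nat_lit 5) (nat_lit 14) (nat_lit 5) (nat_lit 13) (nat_lit 4) (nat_lit 360) (nat_lit 278) (nat_lit 142)) (XT.lf (nat_lit 0) (nat_lit 29644220372) (nat_lit 152) (nat_lit 36652854895) (nat_lit 76) (nat_lit 104915017000) (nat_lit 12) (nat_lit 5) (nat_lit 14) (nat_lit 5) (nat_lit 13) (nat_lit 4) (nat_lit 361) (nat_lit 278) (nat_lit 141))) (XT.nd (nat_lit 34164) (nat_lit 0) (nat_lit 15884)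 (XT.lf (nat_lit 0) (nat_lit 16490964670) (nat_lit 76) (nat_lit 39335321013) (nat_lit 152) (nat_lit 123057986675) (nat_lit 11) (nat_lit 5) (nat_lit 12) (nat_lit 5) (nat_lit 13) (nat_lit 4) (nat_lit 362) (nat_lit 278) (nat_lit 140)) (XT.lf (nat_lit 0) (nat_lit 2292168627) (nat_lit 1140) (nat_lit 1537236428) (nat_lit 1140) (nat_lit 1537236428) (nat_lit 220) (nat_lit 3) (nat_lit 235) (nat_lit 3) (nat_lit 235) (nat_lit 5) (nat_lit 279) (nat_lit 279) (nat_lit 222))))) (XT.nd (nat_lit 234) (nat_lit 836) (nat_lit 0) (XT.nd (nat_lit 78) (nat_lit 0) (nat_lit 76) (XT.lf (nat_lit 76) (nat_lit 5265317742) (nat_lit 0) (nat_lit 432027834) (nat_lit 1140) (nat_lit 5273286385) (nat_lit 221) (nat_lit 5) (nat_lit 220) (nat_lit 3) (nat_lit 235) (nat_lit 5) (nat_lit 280) (nat_lit 279) (nat_lit 221)) (XT.nd (nat_lit 78) (nat_lit 0) (nat_lit 76) (XT.lf (nat_lit 76) (nat_lit 2819283202) (nat_lit 0) (nat_lit 4113875555)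 (nat_lit 1140) (nat_lit 4284741014) (nat_lit 222) (nat_lit 5) (nat_lit 221) (nat_lit 5) (nat_lit 236) (nat_lit 5) (nat_lit 281) (nat_lit 279) (nat_lit 220)) (XT.lf (nat_lit 76) (nat_lit 346340815) (nat_lit 0) (nat_lit 7927435061) (nat_lit 1140) (nat_lit 3202527557) (nat_lit 223) (nat_lit 5) (nat_lit 222) (nat_lit 5) (nat_lit 237) (nat_lit 5) (nat_lit 282) (nat_lit 279) (nat_lit 219)))) (XT.nd (nat_lit 156) (nat_lit 988) (nat_lit 0) (XT.nd (nat_lit 78) (nat_lit 0) (nat_lit 76) (XT.lf (nat_lit 76) (nat_lit 9627565326) (nat_lit 0) (nat_lit 125973814) (nat_lit 1140) (nat_lit 1991984544) (nat_lit 223) (nat_lit 5) (nat_lit 222) (nat_lit 5) (nat_lit 237) (nat_lit 5) (nat_lit 283) (nat_lit 279) (nat_lit 218)) (XT.lf (nat_lit 76) (nat_lit 7376711813) (nat_lit 0) (nat_lit 4026398945) (nat_lit 1140) (nat_lit 622276601) (nat_lit 224) (nat_lit 5) (nat_lit 223) (nat_lit 5) (nat_lit 238) (nat_lit 5) (nat_lit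 284) (nat_lit 279) (nat_lit 217))) (XT.nd (nat_lit 78) (nat_lit 0) (nat_lit 76) (XT.lf (nat_lit 0) (nat_lit 862988179) (nat_lit 1140) (nat_lit 7231721222) (nat_lit 1216) (nat_lit 4222462456) (nat_lit 209) (nat_lit 5) (nat_lit 224) (nat_lit 5) (nat_lit 225) (nat_lit 5) (nat_lit 285) (nat_lit 279) (nat_lit 216)) (XT.lf (nat_lit 0) (nat_lit 2479112999) (nat_lit 1140) (nat_lit 9871536126) (nat_lit 1216) (nat_lit 270677835) (nat_lit 210) (nat_lit 5) (nat_lit 225) (nat_lit 5) (nat_lit 226) (nat_lit 5) (nat_lit 286) (nat_lit 279) (nat_lit 215))))))) (XT.nd (nat_lit 1092) (nat_lit 4636) (nat_lit 0) (XT.nd (nat_lit 546) (nat_lit 3116) (nat_lit 0) (XT.nd (nat_lit 234) (nat_lit 2432) (nat_lit 0) (XT.nd (nat_lit 78) (nat_lit 0) (nat_lit 76) (XT.lf (nat_lit 76) (nat_lit 331396122) (nat_lit 0) (nat_lit 3958097822) (nat_lit 1216) (nat_lit 8647840194) (nat_lit 211) (nat_lit 5) (nat_lit 210) (nat_lit 5) (nat_lit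 226) (nat_lit 5) (nat_lit 287) (nat_lit 279) (nat_lit 214)) (XT.nd (nat_lit 78) (nat_lit 0) (nat_lit 76) (XT.lf (nat_lit 0) (nat_lit 6295044122) (nat_lit 1140) (nat_lit 2099135720) (nat_lit 1216) (nat_lit 4871867868) (nat_lit 211) (nat_lit 5) (nat_lit 226) (nat_lit 5) (nat_lit 227) (nat_lit 5) (nat_lit 288) (nat_lit 279) (nat_lit 213)) (XT.lf (nat_lit 0) (nat_lit 8490446502) (nat_lit 1140) (nat_lit 4579051851) (nat_lit 76) (nat_lit 539054739) (nat_lit 212) (nat_lit 5) (nat_lit 227) (nat_lit 5) (nat_lit 213) (nat_lit 5) (nat_lit 289) (nat_lit 279) (nat_lit 212)))) (XT.nd (nat_lit 156) (nat_lit 684) (nat_lit 0) (XT.nd (nat_lit 78) (nat_lit 760) (nat_lit 0) (XT.lf (nat_lit 0) (nat_lit 6803965563) (nat_lit 1140) (nat_lit 4122868724) (nat_lit 1216) (nat_lit 3037454304) (nat_lit 197) (nat_lit 5) (nat_lit 212) (nat_lit 5) (nat_lit 213) (nat_lit 5) (nat_lit 290) (nat_lit 279) (nat_lit 211)) (XT.lf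 (nat_lit 0) (nat_lit 4517406996) (nat_lit 760) (nat_lit 9070262356) (nat_lit 836) (nat_lit 747102016) (nat_lit 187) (nat_lit 5) (nat_lit 197) (nat_lit 5) (nat_lit 198) (nat_lit 5) (nat_lit 291) (nat_lit 279) (nat_lit 210))) (XT.nd (nat_lit 78) (nat_lit 0) (nat_lit 0) (XT.lf (nat_lit 0) (nat_lit 1728402911) (nat_lit 684) (nat_lit 12568463422) (nat_lit 76) (nat_lit 423380740) (nat_lit 178) (nat_lit 5) (nat_lit 187) (nat_lit 5) (nat_lit 179) (nat_lit 5) (nat_lit 292) (nat_lit 279) (nat_lit 209)) (XT.lf (nat_lit 0) (nat_lit 4469548459) (nat_lit 684) (nat_lit 332488325) (nat_lit 76) (nat_lit 10318053013) (nat_lit 178) (nat_lit 5) (nat_lit 187) (nat_lit 5) (nat_lit 179) (nat_lit 5) (nat_lit 293) (nat_lit 279) (nat_lit 208))))) (XT.nd (nat_lit 234) (nat_lit 1520) (nat_lit 0) (XT.nd (nat_lit 78) (nat_lit 1064) (nat_lit 0) (XT.lf (nat_lit 0) (nat_lit 7486320046) (nat_lit 608) (nat_lit 2857836227)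 (nat_lit 76) (nat_lit 5191644315) (nat_lit 171) (nat_lit 5) (nat_lit 179) (nat_lit 5) (nat_lit 172) (nat_lit 5) (nat_lit 294) (nat_lit 279) (nat_lit 207)) (XT.nd (nat_lit 78) (nat_lit 532) (nat_lit 0) (XT.lf (nat_lit 0) (nat_lit 10496619806) (nat_lit 532) (nat_lit 276784108) (nat_lit 608) (nat_lit 5195340215) (nat_lit 164) (nat_lit 5) (nat_lit 171) (nat_lit 5) (nat_lit 172) (nat_lit 5) (nat_lit 295) (nat_lit 279) (nat_lit 206)) (XT.lf (nat_lit 0) (nat_lit 8183075121) (nat_lit 532) (nat_lit 6217011426) (nat_lit 608) (nat_lit 2018020888) (nat_lit 157) (nat_lit 5) (nat_lit 164) (nat_lit 5) (nat_lit 165) (nat_lit 5) (nat_lit 296) (nat_lit 279) (nat_lit 205)))) (XT.nd (nat_lit 156) (nat_lit 456) (nat_lit 0) (XT.nd (nat_lit 78) (nat_lit 456) (nat_lit 0) (XT.lf (nat_lit 0) (nat_lit 1419418901) (nat_lit 608) (nat_lit 11118288469) (nat_lit 76) (nat_lit 4348069778) (nat_lit 149) (nat_lit 5) (nat_lit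 157) (nat_lit 5) (nat_lit 150) (nat_lit 5) (nat_lit 297) (nat_lit 279) (nat_lit 204)) (XT.lf (nat_lit 0) (nat_lit 3213611149) (nat_lit 456) (nat_lit 1922983808) (nat_lit 532) (nat_lit 12235174329) (nat_lit 143) (nat_lit 5) (nat_lit 149) (nat_lit 5) (nat_lit 150) (nat_lit 5) (nat_lit 298) (nat_lit 279) (nat_lit 203))) (XT.nd (nat_lit 78) (nat_lit 0) (nat_lit 0) (XT.lf (nat_lit 0) (nat_lit 502854416) (nat_lit 456) (nat_lit 8716897559) (nat_lit 532) (nat_lit 8656930491) (nat_lit 137) (nat_lit 5) (nat_lit 143) (nat_lit 5) (nat_lit 144) (nat_lit 5) (nat_lit 299) (nat_lit 279) (nat_lit 202)) (XT.lf (nat_lit 0) (nat_lit 13668152800) (nat_lit 532) (nat_lit 2285812241) (nat_lit 76) (nat_lit 2448067586) (nat_lit 137) (nat_lit 5) (nat_lit 144) (nat_lit 5) (nat_lit 138) (nat_lit 5) (nat_lit 300) (nat_lit 279) (nat_lit 201)))))) (XT.nd (nat_lit 546) (nat_lit 2128) (nat_lit 0) (XT.nd (nat_lit 234) (nat_lit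 1216) (nat_lit 0) (XT.nd (nat_lit 78) (nat_lit 912) (nat_lit 0) (XT.lf (nat_lit 0) (nat_lit 13704751461) (nat_lit 380) (nat_lit 4827352562) (nat_lit 456) (nat_lit 415775129) (nat_lit 132) (nat_lit 5) (nat_lit 137) (nat_lit 5) (nat_lit 138) (nat_lit 5) (nat_lit 301) (nat_lit 279) (nat_lit 200)) (XT.nd (nat_lit 78) (nat_lit 380) (nat_lit 0) (XT.lf (nat_lit 0) (nat_lit 4210655708) (nat_lit 532) (nat_lit 8414740279) (nat_lit 76) (nat_lit 6889271980) (nat_lit 125) (nat_lit 5) (nat_lit 132) (nat_lit 5) (nat_lit 126) (nat_lit 5) (nat_lit 302) (nat_lit 279) (nat_lit 199)) (XT.lf (nat_lit 0) (nat_lit 8340042671) (nat_lit 380) (nat_lit 878251604) (nat_lit 456) (nat_lit 10886643944) (nat_lit 120) (nat_lit 5) (nat_lit 125) (nat_lit 5) (nat_lit 126) (nat_lit 5) (nat_lit 303) (nat_lit 279) (nat_lit 198)))) (XT.nd (nat_lit 156) (nat_lit 456) (nat_lit 0) (XT.nd (nat_lit 78) (nat_lit 380) (nat_lit 0) (XT.lf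 (nat_lit 0) (nat_lit 5349107085) (nat_lit 380) (nat_lit 9352082399) (nat_lit 456) (nat_lit 6016805352) (nat_lit 115) (nat_lit 5) (nat_lit 120) (nat_lit 5) (nat_lit 121) (nat_lit 5) (nat_lit 304) (nat_lit 279) (nat_lit 197)) (XT.lf (nat_lit 0) (nat_lit 2181502058) (nat_lit 380) (nat_lit 18432763661) (nat_lit 456) (nat_lit 742775660) (nat_lit 110) (nat_lit 5) (nat_lit 115) (nat_lit 5) (nat_lit 116) (nat_lit 5) (nat_lit 305) (nat_lit 279) (nat_lit 196))) (XT.nd (nat_lit 78) (nat_lit 380) (nat_lit 0) (XT.lf (nat_lit 0) (nat_lit 4932799567) (nat_lit 456) (nat_lit 1264723492) (nat_lit 76) (nat_lit 15822208914) (nat_lit 109) (nat_lit 5) (nat_lit 115) (nat_lit 5) (nat_lit 110) (nat_lit 5) (nat_lit 306) (nat_lit 279) (nat_lit 195)) (XT.lf (nat_lit 0) (nat_lit 11092510877) (nat_lit 456) (nat_lit 4922471845) (nat_lit 76) (nat_lit 6693898189) (nat_lit 104) (nat_lit 5) (nat_lit 110) (nat_lit 5) (nat_lit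 105) (nat_lit 5) (nat_lit 307) (nat_lit 279) (nat_lit 194))))) (XT.nd (nat_lit 312) (nat_lit 836) (nat_lit 0) (XT.nd (nat_lit 156) (nat_lit 608) (nat_lit 0) (XT.nd (nat_lit 78) (nat_lit 380) (nat_lit 0) (XT.lf (nat_lit 0) (nat_lit 14577929337) (nat_lit 304) (nat_lit 3177138137) (nat_lit 380) (nat_lit 5671589279) (nat_lit 100) (nat_lit 5) (nat_lit 104) (nat_lit 5) (nat_lit 105) (nat_lit 5) (nat_lit 308) (nat_lit 279) (nat_lit 193)) (XT.lf (nat_lit 0) (nat_lit 797896190) (nat_lit 380) (nat_lit 13115287406) (nat_lit 76) (nat_lit 10259829488) (nat_lit 95) (nat_lit 5) (nat_lit 100) (nat_lit 5) (nat_lit 96) (nat_lit 5) (nat_lit 309) (nat_lit 279) (nat_lit 192))) (XT.nd (nat_lit 78) (nat_lit 304) (nat_lit 0) (XT.lf (nat_lit 0) (nat_lit 7213371248) (nat_lit 304) (nat_lit 434865869) (nat_lit 380) (nat_lit 17301538563) (nat_lit 91) (nat_lit 5) (nat_lit 95) (nat_lit 5) (nat_lit 96) (nat_lit 5) (nat_lit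 310) (nat_lit 279) (nat_lit 191)) (XT.lf (nat_lit 0) (nat_lit 2968586061) (nat_lit 304) (nat_lit 12150052160) (nat_lit 380) (nat_lit 10638424679) (nat_lit 87) (nat_lit 5) (nat_lit 91) (nat_lit 5) (nat_lit 92) (nat_lit 5) (nat_lit 311) (nat_lit 279) (nat_lit 190)))) (XT.nd (nat_lit 156) (nat_lit 532) (nat_lit 0) (XT.nd (nat_lit 78) (nat_lit 304) (nat_lit 0) (XT.lf (nat_lit 0) (nat_lit 23149377474) (nat_lit 380) (nat_lit 1569687686) (nat_lit 76) (nat_lit 1880056959) (nat_lit 87) (nat_lit 5) (nat_lit 92) (nat_lit 5) (nat_lit 88) (nat_lit 5) (nat_lit 312) (nat_lit 279) (nat_lit 189)) (XT.lf (nat_lit 0) (nat_lit 4327905421) (nat_lit 304) (nat_lit 6545678899) (nat_lit 76) (nat_lit 16599244062) (nat_lit 83) (nat_lit 5) (nat_lit 87) (nat_lit 5) (nat_lit 84) (nat_lit 5) (nat_lit 313) (nat_lit 279) (nat_lit 188))) (XT.nd (nat_lit 78) (nat_lit 228) (nat_lit 0) (XT.lf (nat_lit 0) (nat_lit 12618134775)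 (nat_lit 380) (nat_lit 11969110860) (nat_lit 76) (nat_lit 3796109089) (nat_lit 79) (nat_lit 5) (nat_lit 84) (nat_lit 5) (nat_lit 80) (nat_lit 5) (nat_lit 314) (nat_lit 279) (nat_lit 187)) (XT.lf (nat_lit 0) (nat_lit 11408673965) (nat_lit 228) (nat_lit 10184870511) (nat_lit 304) (nat_lit 7737753055) (nat_lit 76) (nat_lit 5) (nat_lit 79) (nat_lit 5) (nat_lit 80) (nat_lit 5) (nat_lit 315) (nat_lit 279) (nat_lit 186))))))))
noncomputable def xc82 : XT := (XT.nd (nat_lit 2184) (nat_lit 988) (nat_lit 0) (XT.nd (nat_lit 1092) (nat_lit 1368) (nat_lit 0) (XT.nd (nat_lit 546) (nat_lit 1216) (nat_lit 0) (XT.nd (nat_lit 234) (nat_lit 760) (nat_lit 0) (XT.nd (nat_lit 78) (nat_lit 228) (nat_lit 0) (XT.lf (nat_lit 0) (nat_lit 892232738) (nat_lit 304) (nat_lit 24404359104) (nat_lit 76) (nat_lit 5023416855) (nat_lit 72) (nat_lit 5) (nat_lit 76) (nat_lit 5) (nat_lit 73) (nat_lit 5) (nat_lit 316) (nat_lit 279)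 (nat_lit 185)) (XT.nd (nat_lit 78) (nat_lit 228) (nat_lit 0) (XT.lf (nat_lit 0) (nat_lit 10068369584) (nat_lit 304) (nat_lit 239388132) (nat_lit 76) (nat_lit 21039867946) (nat_lit 72) (nat_lit 5) (nat_lit 76) (nat_lit 5) (nat_lit 73) (nat_lit 5) (nat_lit 317) (nat_lit 279) (nat_lit 184)) (XT.lf (nat_lit 0) (nat_lit 19988885404) (nat_lit 304) (nat_lit 6863929450) (nat_lit 76) (nat_lit 5565250027) (nat_lit 69) (nat_lit 5) (nat_lit 73) (nat_lit 5) (nat_lit 70) (nat_lit 5) (nat_lit 318) (nat_lit 279) (nat_lit 183)))) (XT.nd (nat_lit 156) (nat_lit 228) (nat_lit 0) (XT.nd (nat_lit 78) (nat_lit 304) (nat_lit 0) (XT.lf (nat_lit 0) (nat_lit 19350976346) (nat_lit 228) (nat_lit 11332249431) (nat_lit 304) (nat_lit 2850474479) (nat_lit 66) (nat_lit 5) (nat_lit 69) (nat_lit 5) (nat_lit 70) (nat_lit 5) (nat_lit 319) (nat_lit 279) (nat_lit 182)) (XT.lf (nat_lit 0) (nat_lit 7293551268) (nat_lit 304) (nat_lit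 22280174860) (nat_lit 76) (nat_lit 5122509727) (nat_lit 62) (nat_lit 5) (nat_lit 66) (nat_lit 5) (nat_lit 63) (nat_lit 5) (nat_lit 320) (nat_lit 279) (nat_lit 181))) (XT.nd (nat_lit 78) (nat_lit 0) (nat_lit 0) (XT.lf (nat_lit 0) (nat_lit 4652546763) (nat_lit 228) (nat_lit 13526368585) (nat_lit 304) (nat_lit 17728350720) (nat_lit 59) (nat_lit 5) (nat_lit 62) (nat_lit 5) (nat_lit 63) (nat_lit 5) (nat_lit 321) (nat_lit 279) (nat_lit 180)) (XT.lf (nat_lit 0) (nat_lit 29858495031) (nat_lit 304) (nat_lit 3830675990) (nat_lit 76) (nat_lit 3482185192) (nat_lit 59) (nat_lit 5) (nat_lit 63) (nat_lit 5) (nat_lit 60) (nat_lit 5) (nat_lit 322) (nat_lit 279) (nat_lit 179))))) (XT.nd (nat_lit 234) (nat_lit 608) (nat_lit 0) (XT.nd (nat_lit 78) (nat_lit 380) (nat_lit 0) (XT.lf (nat_lit 0) (nat_lit 3923078336) (nat_lit 228) (nat_lit 13225301122) (nat_lit 76) (nat_lit 21338121391) (nat_lit 56) (nat_lit 5) (nat_lit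 59) (nat_lit 5) (nat_lit 57) (nat_lit 5) (nat_lit 323) (nat_lit 279) (nat_lit 178)) (XT.nd (nat_lit 78) (nat_lit 152) (nat_lit 0) (XT.lf (nat_lit 0) (nat_lit 15758968494) (nat_lit 304) (nat_lit 23620727061) (nat_lit 76) (nat_lit 479859203) (nat_lit 53) (nat_lit 5) (nat_lit 57) (nat_lit 5) (nat_lit 54) (nat_lit 5) (nat_lit 324) (nat_lit 279) (nat_lit 177)) (XT.lf (nat_lit 0) (nat_lit 6079246248) (nat_lit 152) (nat_lit 22464071599) (nat_lit 228) (nat_lit 12747249315) (nat_lit 51) (nat_lit 5) (nat_lit 53) (nat_lit 5) (nat_lit 54) (nat_lit 5) (nat_lit 325) (nat_lit 279) (nat_lit 176)))) (XT.nd (nat_lit 156) (nat_lit 304) (nat_lit 0) (XT.nd (nat_lit 78) (nat_lit 304) (nat_lit 0) (XT.lf (nat_lit 0) (nat_lit 37738097218) (nat_lit 152) (nat_lit 4459994054) (nat_lit 228) (nat_lit 588108182) (nat_lit 51) (nat_lit 5) (nat_lit 53) (nat_lit 5) (nat_lit 54) (nat_lit 5) (nat_lit 326) (nat_lit 279) (nat_lit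 175)) (XT.lf (nat_lit 0) (nat_lit 12332020798) (nat_lit 304) (nat_lit 17473832932) (nat_lit 76) (nat_lit 14535531925) (nat_lit 47) (nat_lit 5) (nat_lit 51) (nat_lit 5) (nat_lit 48) (nat_lit 5) (nat_lit 327) (nat_lit 279) (nat_lit 174))) (XT.nd (nat_lit 78) (nat_lit 152) (nat_lit 0) (XT.lf (nat_lit 0) (nat_lit 14728914545) (nat_lit 152) (nat_lit 11385073674) (nat_lit 228) (nat_lit 19853333227) (nat_lit 45) (nat_lit 5) (nat_lit 47) (nat_lit 5) (nat_lit 48) (nat_lit 5) (nat_lit 328) (nat_lit 279) (nat_lit 173)) (XT.lf (nat_lit 0) (nat_lit 1163772898) (nat_lit 152) (nat_lit 39679701685) (nat_lit 228) (nat_lit 6823331409) (nat_lit 43) (nat_lit 5) (nat_lit 45) (nat_lit 5) (nat_lit 46) (nat_lit 5) (nat_lit 329) (nat_lit 279) (nat_lit 172)))))) (XT.nd (nat_lit 546) (nat_lit 608) (nat_lit 0) (XT.nd (nat_lit 234) (nat_lit 380) (nat_lit 0) (XT.nd (nat_lit 78) (nat_lit 304) (nat_lit 0) (XT.lf (nat_lit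 0) (nat_lit 7153339090) (nat_lit 228) (nat_lit 13804937426) (nat_lit 76) (nat_lit 28478144855) (nat_lit 42) (nat_lit 5) (nat_lit 45) (nat_lit 5) (nat_lit 43) (nat_lit 5) (nat_lit 330) (nat_lit 279) (nat_lit 171)) (XT.nd (nat_lit 78) (nat_lit 152) (nat_lit 0) (XT.lf (nat_lit 0) (nat_lit 20848740642) (nat_lit 152) (nat_lit 1030544519) (nat_lit 228) (nat_lit 29407462892) (nat_lit 40) (nat_lit 5) (nat_lit 42) (nat_lit 5) (nat_lit 43) (nat_lit 5) (nat_lit 331) (nat_lit 279) (nat_lit 170)) (XT.lf (nat_lit 0) (nat_lit 4169968690) (nat_lit 152) (nat_lit 33536482140) (nat_lit 228) (nat_lit 15512196415) (nat_lit 38) (nat_lit 5) (nat_lit 40) (nat_lit 5) (nat_lit 41) (nat_lit 5) (nat_lit 332) (nat_lit 279) (nat_lit 169)))) (XT.nd (nat_lit 156) (nat_lit 152) (nat_lit 0) (XT.nd (nat_lit 78) (nat_lit 228) (nat_lit 0) (XT.lf (nat_lit 0) (nat_lit 41117264250) (nat_lit 152) (nat_lit 13521747497) (nat_lit 228)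 (nat_lit 598712202) (nat_lit 38) (nat_lit 5) (nat_lit 40) (nat_lit 5) (nat_lit 41) (nat_lit 5) (nat_lit 333) (nat_lit 279) (nat_lit 168)) (XT.lf (nat_lit 0) (nat_lit 15052451316) (nat_lit 228) (nat_lit 34583543921) (nat_lit 76) (nat_lit 7708842871) (nat_lit 35) (nat_lit 5) (nat_lit 38) (nat_lit 5) (nat_lit 36) (nat_lit 5) (nat_lit 334) (nat_lit 279) (nat_lit 167))) (XT.nd (nat_lit 78) (nat_lit 0) (nat_lit 0) (XT.lf (nat_lit 0) (nat_lit 2110806453) (nat_lit 152) (nat_lit 29657660845) (nat_lit 228) (nat_lit 27779825769) (nat_lit 33) (nat_lit 5) (nat_lit 35) (nat_lit 5) (nat_lit 36) (nat_lit 5) (nat_lit 335) (nat_lit 279) (nat_lit 166)) (XT.lf (nat_lit 0) (nat_lit 41347331192) (nat_lit 152) (nat_lit 8320238225) (nat_lit 228) (nat_lit 12183935868) (nat_lit 33) (nat_lit 5) (nat_lit 35) (nat_lit 5) (nat_lit 36) (nat_lit 5) (nat_lit 336) (nat_lit 279) (nat_lit 165))))) (XT.nd (nat_lit 234) (nat_lit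 304) (nat_lit 0) (XT.nd (nat_lit 78) (nat_lit 152) (nat_lit 0) (XT.lf (nat_lit 0) (nat_lit 4417688175) (nat_lit 152) (nat_lit 45817597673) (nat_lit 76) (nat_lit 14024154224) (nat_lit 31) (nat_lit 5) (nat_lit 33) (nat_lit 5) (nat_lit 32) (nat_lit 5) (nat_lit 337) (nat_lit 279) (nat_lit 164)) (XT.nd (nat_lit 78) (nat_lit 152) (nat_lit 0) (XT.lf (nat_lit 0) (nat_lit 21888705757) (nat_lit 152) (nat_lit 7241294740) (nat_lit 76) (nat_lit 37645415968) (nat_lit 31) (nat_lit 5) (nat_lit 33) (nat_lit 5) (nat_lit 32) (nat_lit 5) (nat_lit 338) (nat_lit 279) (nat_lit 163)) (XT.lf (nat_lit 0) (nat_lit 33911804270) (nat_lit 152) (nat_lit 6639652904) (nat_lit 228) (nat_lit 28856191592) (nat_lit 29) (nat_lit 5) (nat_lit 31) (nat_lit 5) (nat_lit 32) (nat_lit 5) (nat_lit 339) (nat_lit 279) (nat_lit 162)))) (XT.nd (nat_lit 156) (nat_lit 152) (nat_lit 0) (XT.nd (nat_lit 78) (nat_lit 76) (nat_lit 0) (XT.lf (nat_lit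 0) (nat_lit 5025230446) (nat_lit 76) (nat_lit 55401267159) (nat_lit 152) (nat_lit 11736622986) (nat_lit 28) (nat_lit 5) (nat_lit 29) (nat_lit 5) (nat_lit 30) (nat_lit 4) (nat_lit 340) (nat_lit 279) (nat_lit 161)) (XT.lf (nat_lit 0) (nat_lit 6545761647) (nat_lit 152) (nat_lit 26875193722) (nat_lit 76) (nat_lit 41620756291) (nat_lit 27) (nat_lit 5) (nat_lit 29) (nat_lit 5) (nat_lit 28) (nat_lit 5) (nat_lit 341) (nat_lit 279) (nat_lit 160))) (XT.nd (nat_lit 78) (nat_lit 0) (nat_lit 0) (XT.lf (nat_lit 0) (nat_lit 15573401754) (nat_lit 152) (nat_lit 10070994270) (nat_lit 228) (nat_lit 52412006435) (nat_lit 25) (nat_lit 5) (nat_lit 27) (nat_lit 5) (nat_lit 28) (nat_lit 5) (nat_lit 342) (nat_lit 279) (nat_lit 159)) (XT.lf (nat_lit 0) (nat_lit 46109297794) (nat_lit 228) (nat_lit 20661557391) (nat_lit 76) (nat_lit 14438634603) (nat_lit 25) (nat_lit 5) (nat_lit 28) (nat_lit 5) (nat_lit 26) (nat_lit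 4) (nat_lit 343) (nat_lit 279) (nat_lit 158))))))) (XT.nd (nat_lit 1092) (nat_lit 152) (nat_lit 0) (XT.nd (nat_lit 546) (nat_lit 304) (nat_lit 0) (XT.nd (nat_lit 234) (nat_lit 228) (nat_lit 0) (XT.nd (nat_lit 78) (nat_lit 228) (nat_lit 0) (XT.lf (nat_lit 0) (nat_lit 23597921587) (nat_lit 76) (nat_lit 44321411455) (nat_lit 152) (nat_lit 16591243746) (nat_lit 24) (nat_lit 5) (nat_lit 25) (nat_lit 5) (nat_lit 26) (nat_lit 4) (nat_lit 344) (nat_lit 279) (nat_lit 157)) (XT.nd (nat_lit 78) (nat_lit 152) (nat_lit 0) (XT.lf (nat_lit 0) (nat_lit 2996010141) (nat_lit 152) (nat_lit 17509291200) (nat_lit 76) (nat_lit 67464348557) (nat_lit 23) (nat_lit 5) (nat_lit 25) (nat_lit 5) (nat_lit 24) (nat_lit 5) (nat_lit 345) (nat_lit 279) (nat_lit 156)) (XT.lf (nat_lit 0) (nat_lit 23537510189) (nat_lit 228) (nat_lit 63195568783) (nat_lit 76) (nat_lit 4854130847) (nat_lit 21) (nat_lit 5) (nat_lit 24) (nat_lit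 5) (nat_lit 22) (nat_lit 4) (nat_lit 346) (nat_lit 279) (nat_lit 155)))) (XT.nd (nat_lit 156) (nat_lit 152) (nat_lit 0) (XT.nd (nat_lit 78) (nat_lit 76) (nat_lit 0) (XT.lf (nat_lit 0) (nat_lit 45489068066) (nat_lit 228) (nat_lit 18646396359) (nat_lit 76) (nat_lit 31238695471) (nat_lit 21) (nat_lit 5) (nat_lit 24) (nat_lit 5) (nat_lit 22) (nat_lit 4) (nat_lit 347) (nat_lit 279) (nat_lit 154)) (XT.lf (nat_lit 0) (nat_lit 28679475582) (nat_lit 76) (nat_lit 40128689647) (nat_lit 152) (nat_lit 30534194970) (nat_lit 20) (nat_lit 5) (nat_lit 21) (nat_lit 5) (nat_lit 22) (nat_lit 4) (nat_lit 348) (nat_lit 279) (nat_lit 153))) (XT.nd (nat_lit 78) (nat_lit 152) (nat_lit 0) (XT.lf (nat_lit 0) (nat_lit 78751195076) (nat_lit 76) (nat_lit 14728422543) (nat_lit 152) (nat_lit 10023762378) (nat_lit 20) (nat_lit 5) (nat_lit 21) (nat_lit 5) (nat_lit 22) (nat_lit 4) (nat_lit 349) (nat_lit 279) (nat_lit 152))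 (XT.lf (nat_lit 0) (nat_lit 11629082407) (nat_lit 152) (nat_lit 84182494829) (nat_lit 76) (nat_lit 12047309013) (nat_lit 18) (nat_lit 5) (nat_lit 20) (nat_lit 5) (nat_lit 19) (nat_lit 4) (nat_lit 350) (nat_lit 279) (nat_lit 151))))) (XT.nd (nat_lit 234) (nat_lit 228) (nat_lit 0) (XT.nd (nat_lit 78) (nat_lit 76) (nat_lit 0) (XT.lf (nat_lit 0) (nat_lit 34559956863) (nat_lit 152) (nat_lit 37642796003) (nat_lit 76) (nat_lit 40214358079) (nat_lit 18) (nat_lit 5) (nat_lit 20) (nat_lit 5) (nat_lit 19) (nat_lit 4) (nat_lit 351) (nat_lit 279) (nat_lit 150)) (XT.nd (nat_lit 78) (nat_lit 0) (nat_lit 0) (XT.lf (nat_lit 0) (nat_lit 11437975190) (nat_lit 76) (nat_lit 47304381893) (nat_lit 152) (nat_lit 58457741580) (nat_lit 17) (nat_lit 5) (nat_lit 18) (nat_lit 5) (nat_lit 19) (nat_lit 4) (nat_lit 352) (nat_lit 279) (nat_lit 149)) (XT.lf (nat_lit 0) (nat_lit 63750561098) (nat_lit 76) (nat_lit 20766000283)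 (nat_lit 152) (nat_lit 37694195056) (nat_lit 17) (nat_lit 5) (nat_lit 18) (nat_lit 5) (nat_lit 19) (nat_lit 4) (nat_lit 353) (nat_lit 279) (nat_lit 148)))) (XT.nd (nat_lit 156) (nat_lit 76) (nat_lit 0) (XT.nd (nat_lit 78) (nat_lit 152) (nat_lit 0) (XT.lf (nat_lit 0) (nat_lit 111643095790) (nat_lit 152) (nat_lit 8869941672) (nat_lit 0) (nat_lit 6957002174) (nat_lit 17) (nat_lit 5) (nat_lit 19) (nat_lit 4) (nat_lit 17) (nat_lit 4) (nat_lit 354) (nat_lit 279) (nat_lit 147)) (XT.lf (nat_lit 0) (nat_lit 7627255791) (nat_lit 152) (nat_lit 89210732847) (nat_lit 76) (nat_lit 36133258525) (nat_lit 15) (nat_lit 5) (nat_lit 17) (nat_lit 5) (nat_lit 16) (nat_lit 4) (nat_lit 355) (nat_lit 279) (nat_lit 146))) (XT.nd (nat_lit 78) (nat_lit 76) (nat_lit 0) (XT.lf (nat_lit 0) (nat_lit 32017782725) (nat_lit 152) (nat_lit 39705552206) (nat_lit 76) (nat_lit 67016751778) (nat_lit 15) (nat_lit 5) (nat_lit 17)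 (nat_lit 5) (nat_lit 16) (nat_lit 4) (nat_lit 356) (nat_lit 279) (nat_lit 145)) (XT.lf (nat_lit 0) (nat_lit 12511434461) (nat_lit 76) (nat_lit 45232562215) (nat_lit 152) (nat_lit 87049887687) (nat_lit 14) (nat_lit 5) (nat_lit 15) (nat_lit 5) (nat_lit 16) (nat_lit 4) (nat_lit 357) (nat_lit 279) (nat_lit 144)))))) (XT.nd (nat_lit 34710) (nat_lit 0) (nat_lit 14896) (XT.nd (nat_lit 234) (nat_lit 76) (nat_lit 0) (XT.nd (nat_lit 78) (nat_lit 76) (nat_lit 0) (XT.lf (nat_lit 0) (nat_lit 68161621309) (nat_lit 76) (nat_lit 16999651390) (nat_lit 152) (nat_lit 65976957565) (nat_lit 14) (nat_lit 5) (nat_lit 15) (nat_lit 5) (nat_lit 16) (nat_lit 4) (nat_lit 358) (nat_lit 279) (nat_lit 143)) (XT.nd (nat_lit 78) (nat_lit 76) (nat_lit 0) (XT.lf (nat_lit 0) (nat_lit 114067139374) (nat_lit 152) (nat_lit 31334137131) (nat_lit 0) (nat_lit 12394986010) (nat_lit 14) (nat_lit 5) (nat_lit 16) (nat_lit 4) (nat_lit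 14) (nat_lit 4) (nat_lit 359) (nat_lit 279) (nat_lit 142)) (XT.lf (nat_lit 0) (nat_lit 23164120088) (nat_lit 76) (nat_lit 121644786958) (nat_lit 76) (nat_lit 19966571926) (nat_lit 13) (nat_lit 4) (nat_lit 14) (nat_lit 5) (nat_lit 14) (nat_lit 4) (nat_lit 360) (nat_lit 279) (nat_lit 141)))) (XT.nd (nat_lit 34320) (nat_lit 0) (nat_lit 15808) (XT.nd (nat_lit 78) (nat_lit 0) (nat_lit 0) (XT.lf (nat_lit 0) (nat_lit 5209032722) (nat_lit 152) (nat_lit 91109651622) (nat_lit 76) (nat_lit 75773869846) (nat_lit 12) (nat_lit 5) (nat_lit 14) (nat_lit 5) (nat_lit 13) (nat_lit 4) (nat_lit 361) (nat_lit 279) (nat_lit 140)) (XT.lf (nat_lit 0) (nat_lit 31230919566) (nat_lit 152) (nat_lit 38290719440) (nat_lit 76) (nat_lit 110247900982) (nat_lit 12) (nat_lit 5) (nat_lit 14) (nat_lit 5) (nat_lit 13) (nat_lit 4) (nat_lit 362) (nat_lit 279) (nat_lit 139))) (XT.nd (nat_lit 78) (nat_lit 0) (nat_lit 0) (XT.lf (nat_lit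 0) (nat_lit 3339765890) (nat_lit 1140) (nat_lit 1133101507) (nat_lit 1140) (nat_lit 1133101507) (nat_lit 220) (nat_lit 3) (nat_lit 235) (nat_lit 3) (nat_lit 235) (nat_lit 5) (nat_lit 280) (nat_lit 280) (nat_lit 220)) (XT.lf (nat_lit 76) (nat_lit 6463001763) (nat_lit 0) (nat_lit 1305314874) (nat_lit 1140) (nat_lit 3695330498) (nat_lit 221) (nat_lit 5) (nat_lit 220) (nat_lit 3) (nat_lit 235) (nat_lit 5) (nat_lit 281) (nat_lit 280) (nat_lit 219))))) (XT.nd (nat_lit 312) (nat_lit 0) (nat_lit 76) (XT.nd (nat_lit 156) (nat_lit 988) (nat_lit 0) (XT.nd (nat_lit 78) (nat_lit 0) (nat_lit 76) (XT.lf (nat_lit 76) (nat_lit 3929757891) (nat_lit 0) (nat_lit 5052632484) (nat_lit 1140) (nat_lit 2743485926) (nat_lit 222) (nat_lit 5) (nat_lit 221) (nat_lit 5) (nat_lit 236) (nat_lit 5) (nat_lit 282) (nat_lit 280) (nat_lit 218)) (XT.lf (nat_lit 76) (nat_lit 1363623782) (nat_lit 0) (nat_lit 8948240819) (nat_lit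 1140) (nat_lit 1687768437) (nat_lit 223) (nat_lit 5) (nat_lit 222) (nat_lit 5) (nat_lit 237) (nat_lit 5) (nat_lit 283) (nat_lit 280) (nat_lit 217))) (XT.nd (nat_lit 78) (nat_lit 1064) (nat_lit 0) (XT.lf (nat_lit 76) (nat_lit 11061292094) (nat_lit 0) (nat_lit 726971557) (nat_lit 1140) (nat_lit 496454727) (nat_lit 223) (nat_lit 5) (nat_lit 222) (nat_lit 5) (nat_lit 237) (nat_lit 5) (nat_lit 284) (nat_lit 280) (nat_lit 216)) (XT.lf (nat_lit 0) (nat_lit 852874777) (nat_lit 1140) (nat_lit 3866254829) (nat_lit 1216) (nat_lit 7861365878) (nat_lit 208) (nat_lit 5) (nat_lit 223) (nat_lit 5) (nat_lit 224) (nat_lit 5) (nat_lit 285) (nat_lit 280) (nat_lit 215)))) (XT.nd (nat_lit 156) (nat_lit 0) (nat_lit 76) (XT.nd (nat_lit 78) (nat_lit 0) (nat_lit 0) (XT.lf (nat_lit 0) (nat_lit 2333603809) (nat_lit 1140) (nat_lit 6564872746) (nat_lit 1216) (nat_lit 3990259229) (nat_lit 209) (nat_lit 5) (nat_lit 224)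 (nat_lit 5) (nat_lit 225) (nat_lit 5) (nat_lit 286) (nat_lit 280) (nat_lit 214)) (XT.lf (nat_lit 76) (nat_lit 3889105024) (nat_lit 0) (nat_lit 80271437) (nat_lit 1216) (nat_lit 9240626966) (nat_lit 210) (nat_lit 5) (nat_lit 209) (nat_lit 5) (nat_lit 225) (nat_lit 5) (nat_lit 287) (nat_lit 280) (nat_lit 213))) (XT.nd (nat_lit 78) (nat_lit 0) (nat_lit 76) (XT.lf (nat_lit 76) (nat_lit 1362997757) (nat_lit 0) (nat_lit 4451238652) (nat_lit 1216) (nat_lit 7729322453) (nat_lit 211) (nat_lit 5) (nat_lit 210) (nat_lit 5) (nat_lit 226) (nat_lit 5) (nat_lit 288) (nat_lit 280) (nat_lit 212)) (XT.lf (nat_lit 0) (nat_lit 7854967547) (nat_lit 1140) (nat_lit 1195986031) (nat_lit 1216) (nat_lit 4839770954) (nat_lit 211) (nat_lit 5) (nat_lit 226) (nat_lit 5) (nat_lit 227) (nat_lit 5) (nat_lit 289) (nat_lit 280) (nat_lit 211))))))))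
noncomputable def xc83 : XT := (XT.nd (nat_lit 2184) (nat_lit 3724) (nat_lit 0) (XT.nd (nat_lit 1092) (nat_lit 4028) (nat_lit 0) (XT.nd (nat_lit 546) (nat_lit 2964) (nat_lit 0) (XT.nd (nat_lit 234) (nat_lit 1672) (nat_lit 0) (XT.nd (nat_lit 78) (nat_lit 1976) (nat_lit 0) (XT.lf (nat_lit 0) (nat_lit 10108181836) (nat_lit 1140) (nat_lit 3789649403) (nat_lit 76) (nat_lit 354143187) (nat_lit 212) (nat_lit 5) (nat_lit 227) (nat_lit 5) (nat_lit 213) (nat_lit 5) (nat_lit 290) (nat_lit 280) (nat_lit 210)) (XT.nd (nat_lit 78) (nat_lit 836) (nat_lit 0) (XT.lf (nat_lit 0) (nat_lit 8133327940) (nat_lit 1140) (nat_lit 4485749855) (nat_lit 1216) (nat_lit 2007895857) (nat_lit 197) (nat_lit 5) (nat_lit 212) (nat_lit 5) (nat_lit 213) (nat_lit 5) (nat_lit 291) (nat_lit 280) (nat_lit 209)) (XT.lf (nat_lit 0) (nat_lit 342294281) (nat_lit 836) (nat_lit 9280722215) (nat_lit 76) (nat_lit 5394310869) (nat_lit 186)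 (nat_lit 5) (nat_lit 197) (nat_lit 5) (nat_lit 187) (nat_lit 5) (nat_lit 292) (nat_lit 280) (nat_lit 208)))) (XT.nd (nat_lit 156) (nat_lit 532) (nat_lit 0) (XT.nd (nat_lit 78) (nat_lit 532) (nat_lit 0) (XT.lf (nat_lit 0) (nat_lit 2882121360) (nat_lit 684) (nat_lit 12172354999) (nat_lit 76) (nat_lit 368749377) (nat_lit 178) (nat_lit 5) (nat_lit 187) (nat_lit 5) (nat_lit 179) (nat_lit 5) (nat_lit 293) (nat_lit 280) (nat_lit 207)) (XT.lf (nat_lit 0) (nat_lit 639102831) (nat_lit 532) (nat_lit 5076541073) (nat_lit 608) (nat_lit 10128805421) (nat_lit 171) (nat_lit 5) (nat_lit 178) (nat_lit 5) (nat_lit 179) (nat_lit 5) (nat_lit 294) (nat_lit 280) (nat_lit 206))) (XT.nd (nat_lit 78) (nat_lit 532) (nat_lit 0) (XT.lf (nat_lit 0) (nat_lit 8837534988) (nat_lit 608) (nat_lit 2022434655) (nat_lit 76) (nat_lit 5422393605) (nat_lit 171) (nat_lit 5) (nat_lit 179) (nat_lit 5) (nat_lit 172) (nat_lit 5) (nat_lit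 295) (nat_lit 280) (nat_lit 205)) (XT.lf (nat_lit 0) (nat_lit 11971701596) (nat_lit 532) (nat_lit 279886848) (nat_lit 608) (nat_lit 4486530888) (nat_lit 164) (nat_lit 5) (nat_lit 171) (nat_lit 5) (nat_lit 172) (nat_lit 5) (nat_lit 296) (nat_lit 280) (nat_lit 204))))) (XT.nd (nat_lit 234) (nat_lit 1368) (nat_lit 0) (XT.nd (nat_lit 78) (nat_lit 1064) (nat_lit 0) (XT.lf (nat_lit 0) (nat_lit 9543369627) (nat_lit 532) (nat_lit 6480738042) (nat_lit 608) (nat_lit 1186949804) (nat_lit 157) (nat_lit 5) (nat_lit 164) (nat_lit 5) (nat_lit 165) (nat_lit 5) (nat_lit 297) (nat_lit 280) (nat_lit 203)) (XT.nd (nat_lit 78) (nat_lit 456) (nat_lit 0) (XT.lf (nat_lit 0) (nat_lit 2370326037) (nat_lit 608) (nat_lit 10705328026) (nat_lit 76) (nat_lit 4627241937) (nat_lit 149) (nat_lit 5) (nat_lit 157) (nat_lit 5) (nat_lit 150) (nat_lit 5) (nat_lit 298) (nat_lit 280) (nat_lit 202)) (XT.lf (nat_lit 0) (nat_lit 4315393970)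 (nat_lit 456) (nat_lit 1925111654) (nat_lit 532) (nat_lit 11973704538) (nat_lit 143) (nat_lit 5) (nat_lit 149) (nat_lit 5) (nat_lit 150) (nat_lit 5) (nat_lit 299) (nat_lit 280) (nat_lit 201)))) (XT.nd (nat_lit 156) (nat_lit 912) (nat_lit 0) (XT.nd (nat_lit 78) (nat_lit 0) (nat_lit 0) (XT.lf (nat_lit 0) (nat_lit 1466643081) (nat_lit 456) (nat_lit 9030723816) (nat_lit 532) (nat_lit 8247950718) (nat_lit 137) (nat_lit 5) (nat_lit 143) (nat_lit 5) (nat_lit 144) (nat_lit 5) (nat_lit 300) (nat_lit 280) (nat_lit 200)) (XT.lf (nat_lit 0) (nat_lit 15130417813) (nat_lit 532) (nat_lit 1483272377) (nat_lit 76) (nat_lit 2684411535) (nat_lit 137) (nat_lit 5) (nat_lit 144) (nat_lit 5) (nat_lit 138) (nat_lit 5) (nat_lit 301) (nat_lit 280) (nat_lit 199))) (XT.nd (nat_lit 78) (nat_lit 456) (nat_lit 0) (XT.lf (nat_lit 0) (nat_lit 330336155) (nat_lit 456) (nat_lit 4594828008) (nat_lit 76) (nat_lit 14946866846)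 (nat_lit 131) (nat_lit 5) (nat_lit 137) (nat_lit 5) (nat_lit 132) (nat_lit 5) (nat_lit 302) (nat_lit 280) (nat_lit 198)) (XT.lf (nat_lit 0) (nat_lit 5153355609) (nat_lit 532) (nat_lit 7934123992) (nat_lit 76) (nat_lit 7380369548) (nat_lit 125) (nat_lit 5) (nat_lit 132) (nat_lit 5) (nat_lit 126) (nat_lit 5) (nat_lit 303) (nat_lit 280) (nat_lit 197)))))) (XT.nd (nat_lit 546) (nat_lit 1748) (nat_lit 0) (XT.nd (nat_lit 234) (nat_lit 1140) (nat_lit 0) (XT.nd (nat_lit 78) (nat_lit 760) (nat_lit 0) (XT.lf (nat_lit 0) (nat_lit 9632560994) (nat_lit 380) (nat_lit 752366008) (nat_lit 456) (nat_lit 10703527348) (nat_lit 120) (nat_lit 5) (nat_lit 125) (nat_lit 5) (nat_lit 126) (nat_lit 5) (nat_lit 304) (nat_lit 280) (nat_lit 196)) (XT.nd (nat_lit 78) (nat_lit 380) (nat_lit 0) (XT.lf (nat_lit 0) (nat_lit 6486504589) (nat_lit 380) (nat_lit 9631773658) (nat_lit 456) (nat_lit 5614622842) (nat_lit 115) (nat_lit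 5) (nat_lit 120) (nat_lit 5) (nat_lit 121) (nat_lit 5) (nat_lit 305) (nat_lit 280) (nat_lit 195)) (XT.lf (nat_lit 0) (nat_lit 3154219752) (nat_lit 380) (nat_lit 19150333135) (nat_lit 456) (nat_lit 100046096) (nat_lit 110) (nat_lit 5) (nat_lit 115) (nat_lit 5) (nat_lit 116) (nat_lit 5) (nat_lit 306) (nat_lit 280) (nat_lit 194)))) (XT.nd (nat_lit 156) (nat_lit 684) (nat_lit 0) (XT.nd (nat_lit 78) (nat_lit 380) (nat_lit 0) (XT.lf (nat_lit 0) (nat_lit 5814298276) (nat_lit 456) (nat_lit 492338956) (nat_lit 76) (nat_lit 16794566555) (nat_lit 109) (nat_lit 5) (nat_lit 115) (nat_lit 5) (nat_lit 110) (nat_lit 5) (nat_lit 307) (nat_lit 280) (nat_lit 193)) (XT.lf (nat_lit 0) (nat_lit 12261481229) (nat_lit 456) (nat_lit 4340023251) (nat_lit 76) (nat_lit 7223943444) (nat_lit 104) (nat_lit 5) (nat_lit 110) (nat_lit 5) (nat_lit 105) (nat_lit 5) (nat_lit 308) (nat_lit 280) (nat_lit 192))) (XT.nd (nat_lit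 78) (nat_lit 380) (nat_lit 0) (XT.lf (nat_lit 0) (nat_lit 16111647135) (nat_lit 304) (nat_lit 3124000442) (nat_lit 380) (nat_lit 5344131795) (nat_lit 100) (nat_lit 5) (nat_lit 104) (nat_lit 5) (nat_lit 105) (nat_lit 5) (nat_lit 309) (nat_lit 280) (nat_lit 191)) (XT.lf (nat_lit 0) (nat_lit 1418076776) (nat_lit 380) (nat_lit 12961649485) (nat_lit 76) (nat_lit 10984135546) (nat_lit 95) (nat_lit 5) (nat_lit 100) (nat_lit 5) (nat_lit 96) (nat_lit 5) (nat_lit 310) (nat_lit 280) (nat_lit 190))))) (XT.nd (nat_lit 234) (nat_lit 1140) (nat_lit 0) (XT.nd (nat_lit 78) (nat_lit 304) (nat_lit 0) (XT.lf (nat_lit 0) (nat_lit 8360240747) (nat_lit 304) (nat_lit 230618790) (nat_lit 380) (nat_lit 17589223982) (nat_lit 91) (nat_lit 5) (nat_lit 95) (nat_lit 5) (nat_lit 96) (nat_lit 5) (nat_lit 311) (nat_lit 280) (nat_lit 189)) (XT.nd (nat_lit 78) (nat_lit 0) (nat_lit 0) (XT.lf (nat_lit 0) (nat_lit 3895258378)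 (nat_lit 304) (nat_lit 12522395485) (nat_lit 380) (nat_lit 10610612883) (nat_lit 87) (nat_lit 5) (nat_lit 91) (nat_lit 5) (nat_lit 92) (nat_lit 5) (nat_lit 312) (nat_lit 280) (nat_lit 188)) (XT.lf (nat_lit 0) (nat_lit 24826221802) (nat_lit 380) (nat_lit 893284624) (nat_lit 76) (nat_lit 2193650738) (nat_lit 87) (nat_lit 5) (nat_lit 92) (nat_lit 5) (nat_lit 88) (nat_lit 5) (nat_lit 313) (nat_lit 280) (nat_lit 187)))) (XT.nd (nat_lit 156) (nat_lit 532) (nat_lit 0) (XT.nd (nat_lit 78) (nat_lit 304) (nat_lit 0) (XT.lf (nat_lit 0) (nat_lit 5051276963) (nat_lit 304) (nat_lit 6129310083) (nat_lit 76) (nat_lit 17650359277) (nat_lit 83) (nat_lit 5) (nat_lit 87) (nat_lit 5) (nat_lit 84) (nat_lit 5) (nat_lit 314) (nat_lit 280) (nat_lit 186)) (XT.lf (nat_lit 0) (nat_lit 13741055085) (nat_lit 380) (nat_lit 11832473216) (nat_lit 76) (nat_lit 4213934523) (nat_lit 79) (nat_lit 5) (nat_lit 84) (nat_lit 5)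 (nat_lit 80) (nat_lit 5) (nat_lit 315) (nat_lit 280) (nat_lit 185))) (XT.nd (nat_lit 78) (nat_lit 304) (nat_lit 0) (XT.lf (nat_lit 0) (nat_lit 12693129552) (nat_lit 228) (nat_lit 10455540117) (nat_lit 304) (nat_lit 7634644320) (nat_lit 76) (nat_lit 5) (nat_lit 79) (nat_lit 5) (nat_lit 80) (nat_lit 5) (nat_lit 316) (nat_lit 280) (nat_lit 184)) (XT.lf (nat_lit 0) (nat_lit 1403455498) (nat_lit 304) (nat_lit 24909568672) (nat_lit 76) (nat_lit 5508723123) (nat_lit 72) (nat_lit 5) (nat_lit 76) (nat_lit 5) (nat_lit 73) (nat_lit 5) (nat_lit 317) (nat_lit 280) (nat_lit 183))))))) (XT.nd (nat_lit 1092) (nat_lit 1444) (nat_lit 0) (XT.nd (nat_lit 546) (nat_lit 1064) (nat_lit 0) (XT.nd (nat_lit 234) (nat_lit 760) (nat_lit 0) (XT.nd (nat_lit 78) (nat_lit 228) (nat_lit 0) (XT.lf (nat_lit 0) (nat_lit 438152767) (nat_lit 228) (nat_lit 10582238634) (nat_lit 304) (nat_lit 21880906487) (nat_lit 69) (nat_lit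 5) (nat_lit 72) (nat_lit 5) (nat_lit 73) (nat_lit 5) (nat_lit 318) (nat_lit 280) (nat_lit 182)) (XT.nd (nat_lit 78) (nat_lit 228) (nat_lit 0) (XT.lf (nat_lit 0) (nat_lit 21420146600) (nat_lit 304) (nat_lit 6534787201) (nat_lit 76) (nat_lit 6070840808) (nat_lit 69) (nat_lit 5) (nat_lit 73) (nat_lit 5) (nat_lit 70) (nat_lit 5) (nat_lit 319) (nat_lit 280) (nat_lit 181)) (XT.lf (nat_lit 0) (nat_lit 20971591430) (nat_lit 228) (nat_lit 11663327524) (nat_lit 304) (nat_lit 2562712733) (nat_lit 66) (nat_lit 5) (nat_lit 69) (nat_lit 5) (nat_lit 70) (nat_lit 5) (nat_lit 320) (nat_lit 280) (nat_lit 180)))) (XT.nd (nat_lit 156) (nat_lit 228) (nat_lit 0) (XT.nd (nat_lit 78) (nat_lit 228) (nat_lit 0) (XT.lf (nat_lit 0) (nat_lit 8068462571) (nat_lit 304) (nat_lit 22741273620) (nat_lit 76) (nat_lit 5608793973) (nat_lit 62) (nat_lit 5) (nat_lit 66) (nat_lit 5) (nat_lit 63) (nat_lit 5) (nat_lit 321) (nat_lit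 280) (nat_lit 179)) (XT.lf (nat_lit 0) (nat_lit 5519368551) (nat_lit 228) (nat_lit 13965287629) (nat_lit 304) (nat_lit 18205868890) (nat_lit 59) (nat_lit 5) (nat_lit 62) (nat_lit 5) (nat_lit 63) (nat_lit 5) (nat_lit 322) (nat_lit 280) (nat_lit 178))) (XT.nd (nat_lit 78) (nat_lit 228) (nat_lit 0) (XT.lf (nat_lit 0) (nat_lit 31731493204) (nat_lit 304) (nat_lit 3408860529) (nat_lit 76) (nat_lit 3877977183) (nat_lit 59) (nat_lit 5) (nat_lit 63) (nat_lit 5) (nat_lit 60) (nat_lit 5) (nat_lit 323) (nat_lit 280) (nat_lit 177)) (XT.lf (nat_lit 0) (nat_lit 4490752699) (nat_lit 228) (nat_lit 13283227947) (nat_lit 76) (nat_lit 22625523113) (nat_lit 56) (nat_lit 5) (nat_lit 59) (nat_lit 5) (nat_lit 57) (nat_lit 5) (nat_lit 324) (nat_lit 280) (nat_lit 176))))) (XT.nd (nat_lit 234) (nat_lit 684) (nat_lit 0) (XT.nd (nat_lit 78) (nat_lit 152) (nat_lit 0) (XT.lf (nat_lit 0) (nat_lit 16908557363) (nat_lit 304)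 (nat_lit 24206945806) (nat_lit 76) (nat_lit 726012001) (nat_lit 53) (nat_lit 5) (nat_lit 57) (nat_lit 5) (nat_lit 54) (nat_lit 5) (nat_lit 325) (nat_lit 280) (nat_lit 175)) (XT.nd (nat_lit 78) (nat_lit 0) (nat_lit 0) (XT.lf (nat_lit 0) (nat_lit 6960975841) (nat_lit 152) (nat_lit 23359481222) (nat_lit 228) (nat_lit 13023979150) (nat_lit 51) (nat_lit 5) (nat_lit 53) (nat_lit 5) (nat_lit 54) (nat_lit 5) (nat_lit 326) (nat_lit 280) (nat_lit 174)) (XT.lf (nat_lit 0) (nat_lit 40175256632) (nat_lit 152) (nat_lit 4466047131) (nat_lit 228) (nat_lit 274053943) (nat_lit 51) (nat_lit 5) (nat_lit 53) (nat_lit 5) (nat_lit 54) (nat_lit 5) (nat_lit 327) (nat_lit 280) (nat_lit 173)))) (XT.nd (nat_lit 156) (nat_lit 228) (nat_lit 0) (XT.nd (nat_lit 78) (nat_lit 152) (nat_lit 0) (XT.lf (nat_lit 0) (nat_lit 13276613756) (nat_lit 304) (nat_lit 17798539209) (nat_lit 76) (nat_lit 15473321223) (nat_lit 47) (nat_lit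 5) (nat_lit 51) (nat_lit 5) (nat_lit 48) (nat_lit 5) (nat_lit 328) (nat_lit 280) (nat_lit 172)) (XT.lf (nat_lit 0) (nat_lit 15998609086) (nat_lit 152) (nat_lit 11738577713) (nat_lit 228) (nat_lit 20518841466) (nat_lit 45) (nat_lit 5) (nat_lit 47) (nat_lit 5) (nat_lit 48) (nat_lit 5) (nat_lit 329) (nat_lit 280) (nat_lit 171))) (XT.nd (nat_lit 78) (nat_lit 76) (nat_lit 0) (XT.lf (nat_lit 0) (nat_lit 1747292791) (nat_lit 152) (nat_lit 41447760647) (nat_lit 228) (nat_lit 6845682816) (nat_lit 43) (nat_lit 5) (nat_lit 45) (nat_lit 5) (nat_lit 46) (nat_lit 5) (nat_lit 330) (nat_lit 280) (nat_lit 170)) (XT.lf (nat_lit 0) (nat_lit 7808714550) (nat_lit 228) (nat_lit 13988825593) (nat_lit 76) (nat_lit 30101652793) (nat_lit 42) (nat_lit 5) (nat_lit 45) (nat_lit 5) (nat_lit 43) (nat_lit 5) (nat_lit 331) (nat_lit 280) (nat_lit 169)))))) (XT.nd (nat_lit 546) (nat_lit 608) (nat_lit 0) (XT.nd (nat_lit 234)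 (nat_lit 532) (nat_lit 0) (XT.nd (nat_lit 78) (nat_lit 152) (nat_lit 0) (XT.lf (nat_lit 0) (nat_lit 22383021707) (nat_lit 152) (nat_lit 878487529) (nat_lit 228) (nat_lit 30580815809) (nat_lit 40) (nat_lit 5) (nat_lit 42) (nat_lit 5) (nat_lit 43) (nat_lit 5) (nat_lit 332) (nat_lit 280) (nat_lit 168)) (XT.nd (nat_lit 78) (nat_lit 0) (nat_lit 0) (XT.lf (nat_lit 0) (nat_lit 4862820963) (nat_lit 152) (nat_lit 35010005259) (nat_lit 228) (nat_lit 15998214546) (nat_lit 38) (nat_lit 5) (nat_lit 40) (nat_lit 5) (nat_lit 41) (nat_lit 5) (nat_lit 333) (nat_lit 280) (nat_lit 167)) (XT.lf (nat_lit 0) (nat_lit 43634416832) (nat_lit 152) (nat_lit 14004214884) (nat_lit 228) (nat_lit 352846203) (nat_lit 38) (nat_lit 5) (nat_lit 40) (nat_lit 5) (nat_lit 41) (nat_lit 5) (nat_lit 334) (nat_lit 280) (nat_lit 166)))) (XT.nd (nat_lit 156) (nat_lit 152) (nat_lit 0) (XT.nd (nat_lit 78) (nat_lit 152) (nat_lit 0) (XT.lf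 (nat_lit 0) (nat_lit 16068815462) (nat_lit 228) (nat_lit 35853219816) (nat_lit 76) (nat_lit 8282038041) (nat_lit 35) (nat_lit 5) (nat_lit 38) (nat_lit 5) (nat_lit 36) (nat_lit 5) (nat_lit 335) (nat_lit 280) (nat_lit 165)) (XT.lf (nat_lit 0) (nat_lit 2662676565) (nat_lit 152) (nat_lit 30949686950) (nat_lit 228) (nat_lit 28905590069) (nat_lit 33) (nat_lit 5) (nat_lit 35) (nat_lit 5) (nat_lit 36) (nat_lit 5) (nat_lit 336) (nat_lit 280) (nat_lit 164))) (XT.nd (nat_lit 78) (nat_lit 152) (nat_lit 0) (XT.lf (nat_lit 0) (nat_lit 43839773741) (nat_lit 152) (nat_lit 8554481625) (nat_lit 228) (nat_lit 12542440292) (nat_lit 33) (nat_lit 5) (nat_lit 35) (nat_lit 5) (nat_lit 36) (nat_lit 5) (nat_lit 337) (nat_lit 280) (nat_lit 163)) (XT.lf (nat_lit 0) (nat_lit 4878410222) (nat_lit 152) (nat_lit 47685257813) (nat_lit 76) (nat_lit 14901469699) (nat_lit 31) (nat_lit 5) (nat_lit 33) (nat_lit 5) (nat_lit 32)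 (nat_lit 5) (nat_lit 338) (nat_lit 280) (nat_lit 162))))) (XT.nd (nat_lit 312) (nat_lit 304) (nat_lit 0) (XT.nd (nat_lit 156) (nat_lit 152) (nat_lit 0) (XT.nd (nat_lit 78) (nat_lit 152) (nat_lit 0) (XT.lf (nat_lit 0) (nat_lit 23211557843) (nat_lit 152) (nat_lit 7200293055) (nat_lit 76) (nat_lit 39695408447) (nat_lit 31) (nat_lit 5) (nat_lit 33) (nat_lit 5) (nat_lit 32) (nat_lit 5) (nat_lit 339) (nat_lit 280) (nat_lit 161)) (XT.lf (nat_lit 0) (nat_lit 35998907088) (nat_lit 152) (nat_lit 6801426211) (nat_lit 228) (nat_lit 30070986959) (nat_lit 29) (nat_lit 5) (nat_lit 31) (nat_lit 5) (nat_lit 32) (nat_lit 5) (nat_lit 340) (nat_lit 280) (nat_lit 160))) (XT.nd (nat_lit 78) (nat_lit 76) (nat_lit 0) (XT.lf (nat_lit 0) (nat_lit 5661711263) (nat_lit 76) (nat_lit 58002137444) (nat_lit 152) (nat_lit 12100878699) (nat_lit 28) (nat_lit 5) (nat_lit 29) (nat_lit 5) (nat_lit 30) (nat_lit 4) (nat_lit 341)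 (nat_lit 280) (nat_lit 159)) (XT.lf (nat_lit 0) (nat_lit 7080889908) (nat_lit 152) (nat_lit 27847878191) (nat_lit 76) (nat_lit 43858730668) (nat_lit 27) (nat_lit 5) (nat_lit 29) (nat_lit 5) (nat_lit 28) (nat_lit 5) (nat_lit 342) (nat_lit 280) (nat_lit 158)))) (XT.nd (nat_lit 156) (nat_lit 152) (nat_lit 0) (XT.nd (nat_lit 78) (nat_lit 0) (nat_lit 0) (XT.lf (nat_lit 0) (nat_lit 16712510262) (nat_lit 152) (nat_lit 10415513346) (nat_lit 228) (nat_lit 54825096485) (nat_lit 25) (nat_lit 5) (nat_lit 27) (nat_lit 5) (nat_lit 28) (nat_lit 5) (nat_lit 343) (nat_lit 280) (nat_lit 157)) (XT.lf (nat_lit 0) (nat_lit 48608035523) (nat_lit 228) (nat_lit 21347004584) (nat_lit 76) (nat_lit 15309068597) (nat_lit 25) (nat_lit 5) (nat_lit 28) (nat_lit 5) (nat_lit 26) (nat_lit 4) (nat_lit 344) (nat_lit 280) (nat_lit 156))) (XT.nd (nat_lit 78) (nat_lit 76) (nat_lit 0) (XT.lf (nat_lit 0) (nat_lit 25115483580) (nat_lit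 76) (nat_lit 46387131338) (nat_lit 152) (nat_lit 17227816600) (nat_lit 24) (nat_lit 5) (nat_lit 25) (nat_lit 5) (nat_lit 26) (nat_lit 4) (nat_lit 345) (nat_lit 280) (nat_lit 155)) (XT.lf (nat_lit 0) (nat_lit 3326023426) (nat_lit 152) (nat_lit 18059532053) (nat_lit 76) (nat_lit 70977119995) (nat_lit 23) (nat_lit 5) (nat_lit 25) (nat_lit 5) (nat_lit 24) (nat_lit 5) (nat_lit 346) (nat_lit 280) (nat_lit 154))))))))
noncomputable def xc84 : XT := (XT.nd (nat_lit 36426) (nat_lit 0) (nat_lit 4332) (XT.nd (nat_lit 1092) (nat_lit 152) (nat_lit 0) (XT.nd (nat_lit 546) (nat_lit 228) (nat_lit 0) (XT.nd (nat_lit 234) (nat_lit 228) (nat_lit 0) (XT.nd (nat_lit 78) (nat_lit 76) (nat_lit 0) (XT.lf (nat_lit 0) (nat_lit 24890411173) (nat_lit 228) (nat_lit 66035515444) (nat_lit 76) (nat_lit 5235314800) (nat_lit 21) (nat_lit 5) (nat_lit 24) (nat_lit 5) (nat_lit 22) (nat_lit 4) (nat_lit 347) (nat_lit 280) (nat_lit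 153)) (XT.nd (nat_lit 78) (nat_lit 76) (nat_lit 0) (XT.lf (nat_lit 0) (nat_lit 47931164779) (nat_lit 228) (nat_lit 19274114483) (nat_lit 76) (nat_lit 32932513493) (nat_lit 21) (nat_lit 5) (nat_lit 24) (nat_lit 5) (nat_lit 22) (nat_lit 4) (nat_lit 348) (nat_lit 280) (nat_lit 152)) (XT.lf (nat_lit 0) (nat_lit 30409319709) (nat_lit 76) (nat_lit 42001758163) (nat_lit 152) (nat_lit 31893481551) (nat_lit 20) (nat_lit 5) (nat_lit 21) (nat_lit 5) (nat_lit 22) (nat_lit 4) (nat_lit 349) (nat_lit 280) (nat_lit 151)))) (XT.nd (nat_lit 156) (nat_lit 76) (nat_lit 0) (XT.nd (nat_lit 78) (nat_lit 152) (nat_lit 0) (XT.lf (nat_lit 0) (nat_lit 82970536113) (nat_lit 76) (nat_lit 15337828465) (nat_lit 152) (nat_lit 10365499861) (nat_lit 20) (nat_lit 5) (nat_lit 21) (nat_lit 5) (nat_lit 22) (nat_lit 4) (nat_lit 350) (nat_lit 280) (nat_lit 150)) (XT.lf (nat_lit 0) (nat_lit 12363295026) (nat_lit 152) (nat_lit 88111472527)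 (nat_lit 76) (nat_lit 12772441811) (nat_lit 18) (nat_lit 5) (nat_lit 20) (nat_lit 5) (nat_lit 19) (nat_lit 4) (nat_lit 351) (nat_lit 280) (nat_lit 149))) (XT.nd (nat_lit 78) (nat_lit 76) (nat_lit 0) (XT.lf (nat_lit 0) (nat_lit 36433438990) (nat_lit 152) (nat_lit 39258129096) (nat_lit 76) (nat_lit 42341997266) (nat_lit 18) (nat_lit 5) (nat_lit 20) (nat_lit 5) (nat_lit 19) (nat_lit 4) (nat_lit 352) (nat_lit 280) (nat_lit 148)) (XT.lf (nat_lit 0) (nat_lit 12269032697) (nat_lit 76) (nat_lit 49551489895) (nat_lit 152) (nat_lit 61235314707) (nat_lit 17) (nat_lit 5) (nat_lit 18) (nat_lit 5) (nat_lit 19) (nat_lit 4) (nat_lit 353) (nat_lit 280) (nat_lit 147))))) (XT.nd (nat_lit 234) (nat_lit 76) (nat_lit 0) (XT.nd (nat_lit 78) (nat_lit 152) (nat_lit 0) (XT.lf (nat_lit 0) (nat_lit 67184907007) (nat_lit 76) (nat_lit 21691813541) (nat_lit 152) (nat_lit 39440510569) (nat_lit 17) (nat_lit 5) (nat_lit 18)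 (nat_lit 5) (nat_lit 19) (nat_lit 4) (nat_lit 354) (nat_lit 280) (nat_lit 146)) (XT.nd (nat_lit 78) (nat_lit 152) (nat_lit 0) (XT.lf (nat_lit 0) (nat_lit 117354214761) (nat_lit 152) (nat_lit 9075534275) (nat_lit 0) (nat_lit 7409892029) (nat_lit 17) (nat_lit 5) (nat_lit 19) (nat_lit 4) (nat_lit 17) (nat_lit 4) (nat_lit 355) (nat_lit 280) (nat_lit 145)) (XT.lf (nat_lit 0) (nat_lit 8134930536) (nat_lit 152) (nat_lit 93437641394) (nat_lit 76) (nat_lit 38043418989) (nat_lit 15) (nat_lit 5) (nat_lit 17) (nat_lit 5) (nat_lit 16) (nat_lit 4) (nat_lit 356) (nat_lit 280) (nat_lit 144)))) (XT.nd (nat_lit 156) (nat_lit 0) (nat_lit 0) (XT.nd (nat_lit 78) (nat_lit 76) (nat_lit 0) (XT.lf (nat_lit 0) (nat_lit 33738968962) (nat_lit 152) (nat_lit 41468326868) (nat_lit 76) (nat_lit 70466158449) (nat_lit 15) (nat_lit 5) (nat_lit 17) (nat_lit 5) (nat_lit 16) (nat_lit 4) (nat_lit 357) (nat_lit 280) (nat_lit 143))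 (XT.lf (nat_lit 0) (nat_lit 13353131129) (nat_lit 76) (nat_lit 47394711572) (nat_lit 152) (nat_lit 91282209968) (nat_lit 14) (nat_lit 5) (nat_lit 15) (nat_lit 5) (nat_lit 16) (nat_lit 4) (nat_lit 358) (nat_lit 280) (nat_lit 142))) (XT.nd (nat_lit 78) (nat_lit 0) (nat_lit 0) (XT.lf (nat_lit 0) (nat_lit 71775535656) (nat_lit 76) (nat_lit 17754892290) (nat_lit 152) (nat_lit 69161355820) (nat_lit 14) (nat_lit 5) (nat_lit 15) (nat_lit 5) (nat_lit 16) (nat_lit 4) (nat_lit 359) (nat_lit 280) (nat_lit 141)) (XT.lf (nat_lit 0) (nat_lit 119877165226) (nat_lit 152) (nat_lit 32702481534) (nat_lit 0) (nat_lit 13103204757) (nat_lit 14) (nat_lit 5) (nat_lit 16) (nat_lit 4) (nat_lit 14) (nat_lit 4) (nat_lit 360) (nat_lit 280) (nat_lit 140)))))) (XT.nd (nat_lit 34788) (nat_lit 0) (nat_lit 14060) (XT.nd (nat_lit 34476) (nat_lit 0) (nat_lit 14820) (XT.nd (nat_lit 78) (nat_lit 76) (nat_lit 0) (XT.lf (nat_lit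 0) (nat_lit 24515002527) (nat_lit 76) (nat_lit 127637791408) (nat_lit 76) (nat_lit 20858332827) (nat_lit 13) (nat_lit 4) (nat_lit 14) (nat_lit 5) (nat_lit 14) (nat_lit 4) (nat_lit 361) (nat_lit 280) (nat_lit 139)) (XT.nd (nat_lit 34320) (nat_lit 0) (nat_lit 15808) (XT.lf (nat_lit 0) (nat_lit 5568996906) (nat_lit 152) (nat_lit 95479631156) (nat_lit 76) (nat_lit 79645547275) (nat_lit 12) (nat_lit 5) (nat_lit 14) (nat_lit 5) (nat_lit 13) (nat_lit 4) (nat_lit 362) (nat_lit 280) (nat_lit 138)) (XT.lf (nat_lit 0) (nat_lit 4353002558) (nat_lit 1140) (nat_lit 753478359) (nat_lit 1140) (nat_lit 753478359) (nat_lit 220) (nat_lit 3) (nat_lit 235) (nat_lit 3) (nat_lit 235) (nat_lit 5) (nat_lit 281) (nat_lit 281) (nat_lit 218)))) (XT.nd (nat_lit 156) (nat_lit 988) (nat_lit 0) (XT.nd (nat_lit 78) (nat_lit 0) (nat_lit 76) (XT.lf (nat_lit 76) (nat_lit 7633696644) (nat_lit 0) (nat_lit 2143084607) (nat_lit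 1140) (nat_lit 2209693208) (nat_lit 221) (nat_lit 5) (nat_lit 220) (nat_lit 3) (nat_lit 235) (nat_lit 5) (nat_lit 282) (nat_lit 281) (nat_lit 217)) (XT.lf (nat_lit 76) (nat_lit 5005620415) (nat_lit 0) (nat_lit 5970173995) (nat_lit 1140) (nat_lit 1288377105) (nat_lit 222) (nat_lit 5) (nat_lit 221) (nat_lit 5) (nat_lit 236) (nat_lit 5) (nat_lit 283) (nat_lit 281) (nat_lit 216))) (XT.nd (nat_lit 78) (nat_lit 1140) (nat_lit 0) (XT.lf (nat_lit 76) (nat_lit 2338803543) (nat_lit 0) (nat_lit 9962032909) (nat_lit 1140) (nat_lit 252986340) (nat_lit 223) (nat_lit 5) (nat_lit 222) (nat_lit 5) (nat_lit 237) (nat_lit 5) (nat_lit 284) (nat_lit 281) (nat_lit 215)) (XT.lf (nat_lit 0) (nat_lit 907490757) (nat_lit 1140) (nat_lit 386075071) (nat_lit 1216) (nat_lit 11561510228) (nat_lit 207) (nat_lit 5) (nat_lit 222) (nat_lit 5) (nat_lit 223) (nat_lit 5) (nat_lit 285) (nat_lit 281) (nat_lit 214))))) (XT.nd (nat_lit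 234) (nat_lit 836) (nat_lit 0) (XT.nd (nat_lit 78) (nat_lit 0) (nat_lit 76) (XT.lf (nat_lit 0) (nat_lit 2250180836) (nat_lit 1140) (nat_lit 3144761486) (nat_lit 1216) (nat_lit 7772537419) (nat_lit 208) (nat_lit 5) (nat_lit 223) (nat_lit 5) (nat_lit 224) (nat_lit 5) (nat_lit 286) (nat_lit 281) (nat_lit 213)) (XT.nd (nat_lit 78) (nat_lit 0) (nat_lit 0) (XT.lf (nat_lit 0) (nat_lit 3745037941) (nat_lit 1140) (nat_lit 5960295942) (nat_lit 1216) (nat_lit 3787662123) (nat_lit 209) (nat_lit 5) (nat_lit 224) (nat_lit 5) (nat_lit 225) (nat_lit 5) (nat_lit 287) (nat_lit 281) (nat_lit 212)) (XT.lf (nat_lit 76) (nat_lit 4989641606) (nat_lit 0) (nat_lit 420012479) (nat_lit 1216) (nat_lit 8422324822) (nat_lit 210) (nat_lit 5) (nat_lit 209) (nat_lit 5) (nat_lit 225) (nat_lit 5) (nat_lit 288) (nat_lit 281) (nat_lit 211)))) (XT.nd (nat_lit 156) (nat_lit 988) (nat_lit 0) (XT.nd (nat_lit 78) (nat_lit 0) (nat_lit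 76) (XT.lf (nat_lit 76) (nat_lit 2351811436) (nat_lit 0) (nat_lit 4941588285) (nat_lit 1216) (nat_lit 6890473610) (nat_lit 211) (nat_lit 5) (nat_lit 210) (nat_lit 5) (nat_lit 226) (nat_lit 5) (nat_lit 289) (nat_lit 281) (nat_lit 210)) (XT.lf (nat_lit 0) (nat_lit 9377122926) (nat_lit 1140) (nat_lit 341403042) (nat_lit 1216) (nat_lit 4831700266) (nat_lit 211) (nat_lit 5) (nat_lit 226) (nat_lit 5) (nat_lit 227) (nat_lit 5) (nat_lit 290) (nat_lit 281) (nat_lit 209))) (XT.nd (nat_lit 78) (nat_lit 1140) (nat_lit 0) (XT.lf (nat_lit 0) (nat_lit 11695870302) (nat_lit 1140) (nat_lit 3055453832) (nat_lit 76) (nat_lit 179683189) (nat_lit 212) (nat_lit 5) (nat_lit 227) (nat_lit 5) (nat_lit 213) (nat_lit 5) (nat_lit 291) (nat_lit 281) (nat_lit 208)) (XT.lf (nat_lit 0) (nat_lit 9437195332) (nat_lit 1140) (nat_lit 4852203057) (nat_lit 1216) (nat_lit 1036697760) (nat_lit 197) (nat_lit 5) (nat_lit 212) (nat_lit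 5) (nat_lit 213) (nat_lit 5) (nat_lit 292) (nat_lit 281) (nat_lit 207))))))) (XT.nd (nat_lit 1092) (nat_lit 3496) (nat_lit 0) (XT.nd (nat_lit 546) (nat_lit 2584) (nat_lit 0) (XT.nd (nat_lit 234) (nat_lit 1672) (nat_lit 0) (XT.nd (nat_lit 78) (nat_lit 1140) (nat_lit 0) (XT.lf (nat_lit 0) (nat_lit 1367521298) (nat_lit 836) (nat_lit 8819615745) (nat_lit 76) (nat_lit 5549846899) (nat_lit 186) (nat_lit 5) (nat_lit 197) (nat_lit 5) (nat_lit 187) (nat_lit 5) (nat_lit 293) (nat_lit 281) (nat_lit 206)) (XT.nd (nat_lit 78) (nat_lit 532) (nat_lit 0) (XT.lf (nat_lit 0) (nat_lit 3994298453) (nat_lit 684) (nat_lit 11851692392) (nat_lit 76) (nat_lit 318433647) (nat_lit 178) (nat_lit 5) (nat_lit 187) (nat_lit 5) (nat_lit 179) (nat_lit 5) (nat_lit 294) (nat_lit 281) (nat_lit 205)) (XT.lf (nat_lit 0) (nat_lit 1573700696) (nat_lit 532) (nat_lit 5358374562) (nat_lit 608) (nat_lit 9675800488) (nat_lit 171) (nat_lit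 5) (nat_lit 178) (nat_lit 5) (nat_lit 179) (nat_lit 5) (nat_lit 295) (nat_lit 281) (nat_lit 204)))) (XT.nd (nat_lit 156) (nat_lit 1140) (nat_lit 0) (XT.nd (nat_lit 78) (nat_lit 532) (nat_lit 0) (XT.lf (nat_lit 0) (nat_lit 10165487874) (nat_lit 608) (nat_lit 1236215450) (nat_lit 76) (nat_lit 5667360972) (nat_lit 171) (nat_lit 5) (nat_lit 179) (nat_lit 5) (nat_lit 172) (nat_lit 5) (nat_lit 296) (nat_lit 281) (nat_lit 203)) (XT.lf (nat_lit 0) (nat_lit 13432192163) (nat_lit 532) (nat_lit 284142901) (nat_lit 608) (nat_lit 3832330143) (nat_lit 164) (nat_lit 5) (nat_lit 171) (nat_lit 5) (nat_lit 172) (nat_lit 5) (nat_lit 297) (nat_lit 281) (nat_lit 202))) (XT.nd (nat_lit 78) (nat_lit 608) (nat_lit 0) (XT.lf (nat_lit 0) (nat_lit 10883250806) (nat_lit 532) (nat_lit 6762032128) (nat_lit 608) (nat_lit 400971099) (nat_lit 157) (nat_lit 5) (nat_lit 164) (nat_lit 5) (nat_lit 165) (nat_lit 5) (nat_lit 298)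 (nat_lit 281) (nat_lit 201)) (XT.lf (nat_lit 0) (nat_lit 3286970404) (nat_lit 608) (nat_lit 10361796363) (nat_lit 76) (nat_lit 4914630039) (nat_lit 149) (nat_lit 5) (nat_lit 157) (nat_lit 5) (nat_lit 150) (nat_lit 5) (nat_lit 299) (nat_lit 281) (nat_lit 200))))) (XT.nd (nat_lit 234) (nat_lit 1672) (nat_lit 0) (XT.nd (nat_lit 78) (nat_lit 456) (nat_lit 0) (XT.lf (nat_lit 0) (nat_lit 5384771163) (nat_lit 456) (nat_lit 1936087106) (nat_lit 532) (nat_lit 11780345768) (nat_lit 143) (nat_lit 5) (nat_lit 149) (nat_lit 5) (nat_lit 150) (nat_lit 5) (nat_lit 300) (nat_lit 281) (nat_lit 199)) (XT.nd (nat_lit 78) (nat_lit 0) (nat_lit 0) (XT.lf (nat_lit 0) (nat_lit 2391354777) (nat_lit 456) (nat_lit 9371585521) (nat_lit 532) (nat_lit 7896786987) (nat_lit 137) (nat_lit 5) (nat_lit 143) (nat_lit 5) (nat_lit 144) (nat_lit 5) (nat_lit 301) (nat_lit 281) (nat_lit 198)) (XT.lf (nat_lit 0) (nat_lit 16593385301)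 (nat_lit 532) (nat_lit 725843727) (nat_lit 76) (nat_lit 2921979567) (nat_lit 137) (nat_lit 5) (nat_lit 144) (nat_lit 5) (nat_lit 138) (nat_lit 5) (nat_lit 302) (nat_lit 281) (nat_lit 197)))) (XT.nd (nat_lit 156) (nat_lit 760) (nat_lit 0) (XT.nd (nat_lit 78) (nat_lit 456) (nat_lit 0) (XT.lf (nat_lit 0) (nat_lit 1034726983) (nat_lit 456) (nat_lit 4002565282) (nat_lit 76) (nat_lit 15807144833) (nat_lit 131) (nat_lit 5) (nat_lit 137) (nat_lit 5) (nat_lit 132) (nat_lit 5) (nat_lit 303) (nat_lit 281) (nat_lit 196)) (XT.lf (nat_lit 0) (nat_lit 6075120547) (nat_lit 532) (nat_lit 7513276176) (nat_lit 76) (nat_lit 7882389358) (nat_lit 125) (nat_lit 5) (nat_lit 132) (nat_lit 5) (nat_lit 126) (nat_lit 5) (nat_lit 304) (nat_lit 281) (nat_lit 195))) (XT.nd (nat_lit 78) (nat_lit 380) (nat_lit 0) (XT.lf (nat_lit 0) (nat_lit 10908308037) (nat_lit 380) (nat_lit 635972356) (nat_lit 456) (nat_lit 10578886216)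 (nat_lit 120) (nat_lit 5) (nat_lit 125) (nat_lit 5) (nat_lit 126) (nat_lit 5) (nat_lit 305) (nat_lit 281) (nat_lit 194)) (XT.lf (nat_lit 0) (nat_lit 7599892992) (nat_lit 380) (nat_lit 9942919838) (nat_lit 456) (nat_lit 5257691601) (nat_lit 115) (nat_lit 5) (nat_lit 120) (nat_lit 5) (nat_lit 121) (nat_lit 5) (nat_lit 306) (nat_lit 281) (nat_lit 193)))))) (XT.nd (nat_lit 546) (nat_lit 1368) (nat_lit 0) (XT.nd (nat_lit 234) (nat_lit 1292) (nat_lit 0) (XT.nd (nat_lit 78) (nat_lit 380) (nat_lit 0) (XT.lf (nat_lit 0) (nat_lit 501628832) (nat_lit 456) (nat_lit 19416059156) (nat_lit 76) (nat_lit 3588585729) (nat_lit 109) (nat_lit 5) (nat_lit 115) (nat_lit 5) (nat_lit 110) (nat_lit 5) (nat_lit 307) (nat_lit 281) (nat_lit 192)) (XT.nd (nat_lit 78) (nat_lit 0) (nat_lit 0) (XT.lf (nat_lit 0) (nat_lit 245772621) (nat_lit 380) (nat_lit 6437438668) (nat_lit 456) (nat_lit 17555281328) (nat_lit 104) (nat_lit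 5) (nat_lit 109) (nat_lit 5) (nat_lit 110) (nat_lit 5) (nat_lit 308) (nat_lit 281) (nat_lit 191)) (XT.lf (nat_lit 0) (nat_lit 13431784142) (nat_lit 456) (nat_lit 3805485015) (nat_lit 76) (nat_lit 7762329139) (nat_lit 104) (nat_lit 5) (nat_lit 110) (nat_lit 5) (nat_lit 105) (nat_lit 5) (nat_lit 309) (nat_lit 281) (nat_lit 190)))) (XT.nd (nat_lit 156) (nat_lit 608) (nat_lit 0) (XT.nd (nat_lit 78) (nat_lit 380) (nat_lit 0) (XT.lf (nat_lit 0) (nat_lit 17647226164) (nat_lit 304) (nat_lit 3087915110) (nat_lit 380) (nat_lit 5057109861) (nat_lit 100) (nat_lit 5) (nat_lit 104) (nat_lit 5) (nat_lit 105) (nat_lit 5) (nat_lit 310) (nat_lit 281) (nat_lit 189)) (XT.lf (nat_lit 0) (nat_lit 2015316920) (nat_lit 380) (nat_lit 12875580221) (nat_lit 76) (nat_lit 11725010880) (nat_lit 95) (nat_lit 5) (nat_lit 100) (nat_lit 5) (nat_lit 96) (nat_lit 5) (nat_lit 311) (nat_lit 281) (nat_lit 188))) (XT.nd (nat_lit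 78) (nat_lit 304) (nat_lit 0) (XT.lf (nat_lit 0) (nat_lit 9491360211) (nat_lit 304) (nat_lit 37169800) (nat_lit 380) (nat_lit 17944974062) (nat_lit 91) (nat_lit 5) (nat_lit 95) (nat_lit 5) (nat_lit 96) (nat_lit 5) (nat_lit 312) (nat_lit 281) (nat_lit 187)) (XT.lf (nat_lit 0) (nat_lit 4795910651) (nat_lit 304) (nat_lit 12935218859) (nat_lit 380) (nat_lit 10633449168) (nat_lit 87) (nat_lit 5) (nat_lit 91) (nat_lit 5) (nat_lit 92) (nat_lit 5) (nat_lit 313) (nat_lit 281) (nat_lit 186))))) (XT.nd (nat_lit 234) (nat_lit 760) (nat_lit 0) (XT.nd (nat_lit 78) (nat_lit 608) (nat_lit 0) (XT.lf (nat_lit 0) (nat_lit 26538621738) (nat_lit 380) (nat_lit 253243689) (nat_lit 76) (nat_lit 2502508723) (nat_lit 87) (nat_lit 5) (nat_lit 92) (nat_lit 5) (nat_lit 88) (nat_lit 5) (nat_lit 314) (nat_lit 281) (nat_lit 185)) (XT.nd (nat_lit 78) (nat_lit 304) (nat_lit 0) (XT.lf (nat_lit 0) (nat_lit 5763683234) (nat_lit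 304) (nat_lit 5761260610) (nat_lit 76) (nat_lit 18733469541) (nat_lit 83) (nat_lit 5) (nat_lit 87) (nat_lit 5) (nat_lit 84) (nat_lit 5) (nat_lit 315) (nat_lit 281) (nat_lit 184)) (XT.lf (nat_lit 0) (nat_lit 14874378652) (nat_lit 380) (nat_lit 11757345687) (nat_lit 76) (nat_lit 4631452092) (nat_lit 79) (nat_lit 5) (nat_lit 84) (nat_lit 5) (nat_lit 80) (nat_lit 5) (nat_lit 316) (nat_lit 281) (nat_lit 183)))) (XT.nd (nat_lit 156) (nat_lit 228) (nat_lit 0) (XT.nd (nat_lit 78) (nat_lit 304) (nat_lit 0) (XT.lf (nat_lit 0) (nat_lit 13975424930) (nat_lit 228) (nat_lit 10761923545) (nat_lit 304) (nat_lit 7571935368) (nat_lit 76) (nat_lit 5) (nat_lit 79) (nat_lit 5) (nat_lit 80) (nat_lit 5) (nat_lit 317) (nat_lit 281) (nat_lit 182)) (XT.lf (nat_lit 0) (nat_lit 1896858317) (nat_lit 304) (nat_lit 25506513422) (nat_lit 76) (nat_lit 5996527011) (nat_lit 72) (nat_lit 5) (nat_lit 76) (nat_lit 5) (nat_lit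 73) (nat_lit 5) (nat_lit 318) (nat_lit 281) (nat_lit 181))) (XT.nd (nat_lit 78) (nat_lit 0) (nat_lit 0) (XT.lf (nat_lit 0) (nat_lit 1090004002) (nat_lit 228) (nat_lit 10890538605) (nat_lit 304) (nat_lit 22553318602) (nat_lit 69) (nat_lit 5) (nat_lit 72) (nat_lit 5) (nat_lit 73) (nat_lit 5) (nat_lit 319) (nat_lit 281) (nat_lit 180)) (XT.lf (nat_lit 0) (nat_lit 22882824611) (nat_lit 304) (nat_lit 6251695522) (nat_lit 76) (nat_lit 6580576300) (nat_lit 69) (nat_lit 5) (nat_lit 73) (nat_lit 5) (nat_lit 70) (nat_lit 5) (nat_lit 320) (nat_lit 281) (nat_lit 179))))))))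
noncomputable def xc85 : XT := (XT.nd (nat_lit 2184) (nat_lit 608) (nat_lit 0) (XT.nd (nat_lit 1092) (nat_lit 1292) (nat_lit 0) (XT.nd (nat_lit 546) (nat_lit 988) (nat_lit 0) (XT.nd (nat_lit 234) (nat_lit 608) (nat_lit 0) (XT.nd (nat_lit 78) (nat_lit 532) (nat_lit 0) (XT.lf (nat_lit 0) (nat_lit 22612521356) (nat_lit 228) (nat_lit 12032857275) (nat_lit 304) (nat_lit 2300566764) (nat_lit 66) (nat_lit 5) (nat_lit 69) (nat_lit 5) (nat_lit 70) (nat_lit 5) (nat_lit 321) (nat_lit 281) (nat_lit 178)) (XT.nd (nat_lit 78) (nat_lit 228) (nat_lit 0) (XT.lf (nat_lit 0) (nat_lit 8843979795) (nat_lit 304) (nat_lit 23286128699) (nat_lit 76) (nat_lit 6097994452) (nat_lit 62) (nat_lit 5) (nat_lit 66) (nat_lit 5) (nat_lit 63) (nat_lit 5) (nat_lit 322) (nat_lit 281) (nat_lit 177)) (XT.lf (nat_lit 0) (nat_lit 6370570040) (nat_lit 228) (nat_lit 14448223770) (nat_lit 304) (nat_lit 18745278556) (nat_lit 59) (nat_lit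 5) (nat_lit 62) (nat_lit 5) (nat_lit 63) (nat_lit 5) (nat_lit 323) (nat_lit 281) (nat_lit 176)))) (XT.nd (nat_lit 156) (nat_lit 380) (nat_lit 0) (XT.nd (nat_lit 78) (nat_lit 228) (nat_lit 0) (XT.lf (nat_lit 0) (nat_lit 33662805662) (nat_lit 304) (nat_lit 3022977696) (nat_lit 76) (nat_lit 4272948815) (nat_lit 59) (nat_lit 5) (nat_lit 63) (nat_lit 5) (nat_lit 60) (nat_lit 5) (nat_lit 324) (nat_lit 281) (nat_lit 175)) (XT.lf (nat_lit 0) (nat_lit 5052270331) (nat_lit 228) (nat_lit 13400143784) (nat_lit 76) (nat_lit 23956795325) (nat_lit 56) (nat_lit 5) (nat_lit 59) (nat_lit 5) (nat_lit 57) (nat_lit 5) (nat_lit 325) (nat_lit 281) (nat_lit 174))) (XT.nd (nat_lit 78) (nat_lit 152) (nat_lit 0) (XT.lf (nat_lit 0) (nat_lit 18082003775) (nat_lit 304) (nat_lit 24877775991) (nat_lit 76) (nat_lit 963818123) (nat_lit 53) (nat_lit 5) (nat_lit 57) (nat_lit 5) (nat_lit 54) (nat_lit 5) (nat_lit 326) (nat_lit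 281) (nat_lit 173)) (XT.lf (nat_lit 0) (nat_lit 7833076589) (nat_lit 152) (nat_lit 24320839449) (nat_lit 228) (nat_lit 13348073681) (nat_lit 51) (nat_lit 5) (nat_lit 53) (nat_lit 5) (nat_lit 54) (nat_lit 5) (nat_lit 327) (nat_lit 281) (nat_lit 172))))) (XT.nd (nat_lit 234) (nat_lit 532) (nat_lit 0) (XT.nd (nat_lit 78) (nat_lit 380) (nat_lit 0) (XT.lf (nat_lit 0) (nat_lit 23307519) (nat_lit 228) (nat_lit 4469029623) (nat_lit 76) (nat_lit 42659573685) (nat_lit 50) (nat_lit 5) (nat_lit 53) (nat_lit 5) (nat_lit 51) (nat_lit 5) (nat_lit 328) (nat_lit 281) (nat_lit 171)) (XT.nd (nat_lit 78) (nat_lit 152) (nat_lit 0) (XT.lf (nat_lit 0) (nat_lit 14237942783) (nat_lit 304) (nat_lit 18190520256) (nat_lit 76) (nat_lit 16438382026) (nat_lit 47) (nat_lit 5) (nat_lit 51) (nat_lit 5) (nat_lit 48) (nat_lit 5) (nat_lit 329) (nat_lit 281) (nat_lit 170)) (XT.lf (nat_lit 0) (nat_lit 17282211934) (nat_lit 152)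 (nat_lit 12129815310) (nat_lit 228) (nat_lit 21248041206) (nat_lit 45) (nat_lit 5) (nat_lit 47) (nat_lit 5) (nat_lit 48) (nat_lit 5) (nat_lit 330) (nat_lit 281) (nat_lit 169)))) (XT.nd (nat_lit 156) (nat_lit 304) (nat_lit 0) (XT.nd (nat_lit 78) (nat_lit 76) (nat_lit 0) (XT.lf (nat_lit 0) (nat_lit 2311148358) (nat_lit 152) (nat_lit 43324297322) (nat_lit 228) (nat_lit 6898792205) (nat_lit 43) (nat_lit 5) (nat_lit 45) (nat_lit 5) (nat_lit 46) (nat_lit 5) (nat_lit 331) (nat_lit 281) (nat_lit 168)) (XT.lf (nat_lit 0) (nat_lit 8469180669) (nat_lit 228) (nat_lit 14228984602) (nat_lit 76) (nat_lit 31787779148) (nat_lit 42) (nat_lit 5) (nat_lit 45) (nat_lit 5) (nat_lit 43) (nat_lit 5) (nat_lit 332) (nat_lit 281) (nat_lit 167))) (XT.nd (nat_lit 78) (nat_lit 152) (nat_lit 0) (XT.lf (nat_lit 0) (nat_lit 23948289829) (nat_lit 152) (nat_lit 737755019) (nat_lit 228) (nat_lit 31840450498) (nat_lit 40) (nat_lit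 5) (nat_lit 42) (nat_lit 5) (nat_lit 43) (nat_lit 5) (nat_lit 333) (nat_lit 281) (nat_lit 166)) (XT.lf (nat_lit 0) (nat_lit 5545285220) (nat_lit 152) (nat_lit 36576105534) (nat_lit 228) (nat_lit 16535457075) (nat_lit 38) (nat_lit 5) (nat_lit 40) (nat_lit 5) (nat_lit 41) (nat_lit 5) (nat_lit 334) (nat_lit 281) (nat_lit 165)))))) (XT.nd (nat_lit 546) (nat_lit 608) (nat_lit 0) (XT.nd (nat_lit 234) (nat_lit 304) (nat_lit 0) (XT.nd (nat_lit 78) (nat_lit 380) (nat_lit 0) (XT.lf (nat_lit 0) (nat_lit 46234540730) (nat_lit 152) (nat_lit 14528806591) (nat_lit 228) (nat_lit 120328324) (nat_lit 38) (nat_lit 5) (nat_lit 40) (nat_lit 5) (nat_lit 41) (nat_lit 5) (nat_lit 335) (nat_lit 281) (nat_lit 164)) (XT.nd (nat_lit 78) (nat_lit 152) (nat_lit 0) (XT.lf (nat_lit 0) (nat_lit 17111477622) (nat_lit 228) (nat_lit 37229099581) (nat_lit 76) (nat_lit 8866437472) (nat_lit 35) (nat_lit 5) (nat_lit 38) (nat_lit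 5) (nat_lit 36) (nat_lit 5) (nat_lit 336) (nat_lit 281) (nat_lit 163)) (XT.lf (nat_lit 0) (nat_lit 3200644669) (nat_lit 152) (nat_lit 32324058429) (nat_lit 228) (nat_lit 30112114934) (nat_lit 33) (nat_lit 5) (nat_lit 35) (nat_lit 5) (nat_lit 36) (nat_lit 5) (nat_lit 337) (nat_lit 281) (nat_lit 162)))) (XT.nd (nat_lit 156) (nat_lit 152) (nat_lit 0) (XT.nd (nat_lit 78) (nat_lit 152) (nat_lit 0) (XT.lf (nat_lit 0) (nat_lit 46417318881) (nat_lit 152) (nat_lit 8817336308) (nat_lit 228) (nat_lit 12942176937) (nat_lit 33) (nat_lit 5) (nat_lit 35) (nat_lit 5) (nat_lit 36) (nat_lit 5) (nat_lit 338) (nat_lit 281) (nat_lit 161)) (XT.lf (nat_lit 0) (nat_lit 5339870541) (nat_lit 152) (nat_lit 49685647920) (nat_lit 76) (nat_lit 15806278118) (nat_lit 31) (nat_lit 5) (nat_lit 33) (nat_lit 5) (nat_lit 32) (nat_lit 5) (nat_lit 339) (nat_lit 281) (nat_lit 160))) (XT.nd (nat_lit 78) (nat_lit 152) (nat_lit 0)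 (XT.lf (nat_lit 0) (nat_lit 24579316504) (nat_lit 152) (nat_lit 7194714581) (nat_lit 76) (nat_lit 41832307378) (nat_lit 31) (nat_lit 5) (nat_lit 33) (nat_lit 5) (nat_lit 32) (nat_lit 5) (nat_lit 340) (nat_lit 281) (nat_lit 159)) (XT.lf (nat_lit 0) (nat_lit 38153965915) (nat_lit 152) (nat_lit 6987112635) (nat_lit 228) (nat_lit 31367720696) (nat_lit 29) (nat_lit 5) (nat_lit 31) (nat_lit 5) (nat_lit 32) (nat_lit 5) (nat_lit 341) (nat_lit 281) (nat_lit 158))))) (XT.nd (nat_lit 234) (nat_lit 304) (nat_lit 0) (XT.nd (nat_lit 78) (nat_lit 228) (nat_lit 0) (XT.lf (nat_lit 0) (nat_lit 6294202083) (nat_lit 76) (nat_lit 60748781213) (nat_lit 152) (nat_lit 12504040152) (nat_lit 28) (nat_lit 5) (nat_lit 29) (nat_lit 5) (nat_lit 30) (nat_lit 4) (nat_lit 342) (nat_lit 281) (nat_lit 157)) (XT.nd (nat_lit 78) (nat_lit 152) (nat_lit 0) (XT.lf (nat_lit 0) (nat_lit 7623451572) (nat_lit 152) (nat_lit 28903695941)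 (nat_lit 76) (nat_lit 46194013290) (nat_lit 27) (nat_lit 5) (nat_lit 29) (nat_lit 5) (nat_lit 28) (nat_lit 5) (nat_lit 343) (nat_lit 281) (nat_lit 156)) (XT.lf (nat_lit 0) (nat_lit 17875064046) (nat_lit 152) (nat_lit 10792043537) (nat_lit 228) (nat_lit 57378133375) (nat_lit 25) (nat_lit 5) (nat_lit 27) (nat_lit 5) (nat_lit 28) (nat_lit 5) (nat_lit 344) (nat_lit 281) (nat_lit 155)))) (XT.nd (nat_lit 156) (nat_lit 228) (nat_lit 0) (XT.nd (nat_lit 78) (nat_lit 76) (nat_lit 0) (XT.lf (nat_lit 0) (nat_lit 51213741462) (nat_lit 228) (nat_lit 22099043542) (nat_lit 76) (nat_lit 16209217958) (nat_lit 25) (nat_lit 5) (nat_lit 28) (nat_lit 5) (nat_lit 26) (nat_lit 4) (nat_lit 345) (nat_lit 281) (nat_lit 154)) (XT.lf (nat_lit 0) (nat_lit 26677530695) (nat_lit 76) (nat_lit 48570115396) (nat_lit 152) (nat_lit 17914160415) (nat_lit 24) (nat_lit 5) (nat_lit 25) (nat_lit 5) (nat_lit 26) (nat_lit 4) (nat_lit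 346) (nat_lit 281) (nat_lit 153))) (XT.nd (nat_lit 78) (nat_lit 152) (nat_lit 0) (XT.lf (nat_lit 0) (nat_lit 3655782899) (nat_lit 152) (nat_lit 18667521166) (nat_lit 76) (nat_lit 74652555595) (nat_lit 23) (nat_lit 5) (nat_lit 25) (nat_lit 5) (nat_lit 24) (nat_lit 5) (nat_lit 347) (nat_lit 281) (nat_lit 152)) (XT.lf (nat_lit 0) (nat_lit 26294592027) (nat_lit 228) (nat_lit 69047194365) (nat_lit 76) (nat_lit 5622683633) (nat_lit 21) (nat_lit 5) (nat_lit 24) (nat_lit 5) (nat_lit 22) (nat_lit 4) (nat_lit 348) (nat_lit 281) (nat_lit 151))))))) (XT.nd (nat_lit 35412) (nat_lit 0) (nat_lit 12008) (XT.nd (nat_lit 546) (nat_lit 304) (nat_lit 0) (XT.nd (nat_lit 234) (nat_lit 228) (nat_lit 0) (XT.nd (nat_lit 78) (nat_lit 76) (nat_lit 0) (XT.lf (nat_lit 0) (nat_lit 50479780441) (nat_lit 228) (nat_lit 19961537491) (nat_lit 76) (nat_lit 34698761161) (nat_lit 21) (nat_lit 5) (nat_lit 24) (nat_lit 5) (nat_lit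 22) (nat_lit 4) (nat_lit 349) (nat_lit 281) (nat_lit 150)) (XT.nd (nat_lit 78) (nat_lit 0) (nat_lit 0) (XT.lf (nat_lit 0) (nat_lit 32198148821) (nat_lit 76) (nat_lit 43980879209) (nat_lit 152) (nat_lit 33336297880) (nat_lit 20) (nat_lit 5) (nat_lit 21) (nat_lit 5) (nat_lit 22) (nat_lit 4) (nat_lit 350) (nat_lit 281) (nat_lit 149)) (XT.lf (nat_lit 0) (nat_lit 87374646849) (nat_lit 76) (nat_lit 15989513352) (nat_lit 152) (nat_lit 10739148427) (nat_lit 20) (nat_lit 5) (nat_lit 21) (nat_lit 5) (nat_lit 22) (nat_lit 4) (nat_lit 351) (nat_lit 281) (nat_lit 148)))) (XT.nd (nat_lit 156) (nat_lit 76) (nat_lit 0) (XT.nd (nat_lit 78) (nat_lit 0) (nat_lit 0) (XT.lf (nat_lit 0) (nat_lit 13120016238) (nat_lit 152) (nat_lit 92262944528) (nat_lit 76) (nat_lit 13522417504) (nat_lit 18) (nat_lit 5) (nat_lit 20) (nat_lit 5) (nat_lit 19) (nat_lit 4) (nat_lit 352) (nat_lit 281) (nat_lit 147)) (XT.lf (nat_lit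 0) (nat_lit 38387069473) (nat_lit 152) (nat_lit 40979034002) (nat_lit 76) (nat_lit 44565148179) (nat_lit 18) (nat_lit 5) (nat_lit 20) (nat_lit 5) (nat_lit 19) (nat_lit 4) (nat_lit 353) (nat_lit 281) (nat_lit 146))) (XT.nd (nat_lit 78) (nat_lit 0) (nat_lit 0) (XT.lf (nat_lit 0) (nat_lit 13117548955) (nat_lit 76) (nat_lit 51921934146) (nat_lit 152) (nat_lit 64165276405) (nat_lit 17) (nat_lit 5) (nat_lit 18) (nat_lit 5) (nat_lit 19) (nat_lit 4) (nat_lit 354) (nat_lit 281) (nat_lit 145)) (XT.lf (nat_lit 0) (nat_lit 70768023427) (nat_lit 76) (nat_lit 22674375414) (nat_lit 152) (nat_lit 41287008443) (nat_lit 17) (nat_lit 5) (nat_lit 18) (nat_lit 5) (nat_lit 19) (nat_lit 4) (nat_lit 355) (nat_lit 281) (nat_lit 144))))) (XT.nd (nat_lit 234) (nat_lit 152) (nat_lit 0) (XT.nd (nat_lit 78) (nat_lit 152) (nat_lit 0) (XT.lf (nat_lit 0) (nat_lit 123338899812) (nat_lit 152) (nat_lit 9313524613) (nat_lit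 0) (nat_lit 7875660777) (nat_lit 17) (nat_lit 5) (nat_lit 19) (nat_lit 4) (nat_lit 17) (nat_lit 4) (nat_lit 356) (nat_lit 281) (nat_lit 143)) (XT.nd (nat_lit 78) (nat_lit 0) (nat_lit 0) (XT.lf (nat_lit 0) (nat_lit 8656245731) (nat_lit 152) (nat_lit 97897615894) (nat_lit 76) (nat_lit 40039465255) (nat_lit 15) (nat_lit 5) (nat_lit 17) (nat_lit 5) (nat_lit 16) (nat_lit 4) (nat_lit 357) (nat_lit 281) (nat_lit 142)) (XT.lf (nat_lit 0) (nat_lit 35535030427) (nat_lit 152) (nat_lit 43339926479) (nat_lit 76) (nat_lit 74078871436) (nat_lit 15) (nat_lit 5) (nat_lit 17) (nat_lit 5) (nat_lit 16) (nat_lit 4) (nat_lit 358) (nat_lit 281) (nat_lit 141)))) (XT.nd (nat_lit 156) (nat_lit 76) (nat_lit 0) (XT.nd (nat_lit 78) (nat_lit 0) (nat_lit 0) (XT.lf (nat_lit 0) (nat_lit 14216819383) (nat_lit 76) (nat_lit 49674216990) (nat_lit 152) (nat_lit 95737320826) (nat_lit 14) (nat_lit 5) (nat_lit 15) (nat_lit 5) (nat_lit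 16) (nat_lit 4) (nat_lit 359) (nat_lit 281) (nat_lit 140)) (XT.lf (nat_lit 0) (nat_lit 75551009293) (nat_lit 76) (nat_lit 18556703417) (nat_lit 152) (nat_lit 72515614430) (nat_lit 14) (nat_lit 5) (nat_lit 15) (nat_lit 5) (nat_lit 16) (nat_lit 4) (nat_lit 360) (nat_lit 281) (nat_lit 139))) (XT.nd (nat_lit 78) (nat_lit 76) (nat_lit 0) (XT.lf (nat_lit 0) (nat_lit 125967775308) (nat_lit 152) (nat_lit 34157685017) (nat_lit 0) (nat_lit 13838609390) (nat_lit 14) (nat_lit 5) (nat_lit 16) (nat_lit 4) (nat_lit 14) (nat_lit 4) (nat_lit 361) (nat_lit 281) (nat_lit 138)) (XT.lf (nat_lit 0) (nat_lit 25915515859) (nat_lit 76) (nat_lit 133938742295) (nat_lit 76) (nat_lit 21804589427) (nat_lit 13) (nat_lit 4) (nat_lit 14) (nat_lit 5) (nat_lit 14) (nat_lit 4) (nat_lit 362) (nat_lit 281) (nat_lit 137)))))) (XT.nd (nat_lit 546) (nat_lit 2660) (nat_lit 0) (XT.nd (nat_lit 234) (nat_lit 0) (nat_lit 76) (XT.nd (nat_lit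 78) (nat_lit 1064) (nat_lit 0) (XT.lf (nat_lit 0) (nat_lit 5338224907) (nat_lit 1140) (nat_lit 395435067) (nat_lit 1140) (nat_lit 395435067) (nat_lit 220) (nat_lit 3) (nat_lit 235) (nat_lit 3) (nat_lit 235) (nat_lit 5) (nat_lit 282) (nat_lit 282) (nat_lit 216)) (XT.nd (nat_lit 78) (nat_lit 1064) (nat_lit 0) (XT.lf (nat_lit 76) (nat_lit 8784129588) (nat_lit 0) (nat_lit 2950922729) (nat_lit 1140) (nat_lit 805072367) (nat_lit 221) (nat_lit 5) (nat_lit 220) (nat_lit 3) (nat_lit 235) (nat_lit 5) (nat_lit 283) (nat_lit 282) (nat_lit 215)) (XT.lf (nat_lit 0) (nat_lit 89667212) (nat_lit 1140) (nat_lit 6781202888) (nat_lit 1216) (nat_lit 5962947472) (nat_lit 206) (nat_lit 5) (nat_lit 221) (nat_lit 5) (nat_lit 222) (nat_lit 5) (nat_lit 284) (nat_lit 282) (nat_lit 214)))) (XT.nd (nat_lit 156) (nat_lit 0) (nat_lit 76) (XT.nd (nat_lit 78) (nat_lit 0) (nat_lit 0) (XT.lf (nat_lit 0) (nat_lit 1090591869)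 (nat_lit 1140) (nat_lit 9872253246) (nat_lit 1216) (nat_lit 2176813453) (nat_lit 207) (nat_lit 5) (nat_lit 222) (nat_lit 5) (nat_lit 223) (nat_lit 5) (nat_lit 285) (nat_lit 282) (nat_lit 213)) (XT.lf (nat_lit 76) (nat_lit 413124155) (nat_lit 0) (nat_lit 1830420930) (nat_lit 1216) (nat_lit 11214230431) (nat_lit 208) (nat_lit 5) (nat_lit 207) (nat_lit 5) (nat_lit 223) (nat_lit 5) (nat_lit 286) (nat_lit 282) (nat_lit 212))) (XT.nd (nat_lit 78) (nat_lit 0) (nat_lit 76) (XT.lf (nat_lit 0) (nat_lit 3591408535) (nat_lit 1140) (nat_lit 2472243475) (nat_lit 1216) (nat_lit 7724069731) (nat_lit 208) (nat_lit 5) (nat_lit 223) (nat_lit 5) (nat_lit 224) (nat_lit 5) (nat_lit 287) (nat_lit 282) (nat_lit 211)) (XT.lf (nat_lit 0) (nat_lit 5106669831) (nat_lit 1140) (nat_lit 5412215101) (nat_lit 1216) (nat_lit 3612319544) (nat_lit 209) (nat_lit 5) (nat_lit 224) (nat_lit 5) (nat_lit 225) (nat_lit 5) (nat_lit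 288) (nat_lit 282) (nat_lit 210))))) (XT.nd (nat_lit 312) (nat_lit 2888) (nat_lit 0) (XT.nd (nat_lit 156) (nat_lit 0) (nat_lit 152) (XT.nd (nat_lit 78) (nat_lit 0) (nat_lit 76) (XT.lf (nat_lit 76) (nat_lit 6060966163) (nat_lit 0) (nat_lit 745527814) (nat_lit 1216) (nat_lit 7682140844) (nat_lit 210) (nat_lit 5) (nat_lit 209) (nat_lit 5) (nat_lit 225) (nat_lit 5) (nat_lit 289) (nat_lit 282) (nat_lit 209)) (XT.lf (nat_lit 76) (nat_lit 3304471205) (nat_lit 0) (nat_lit 5431559038) (nat_lit 1216) (nat_lit 6123600495) (nat_lit 211) (nat_lit 5) (nat_lit 210) (nat_lit 5) (nat_lit 226) (nat_lit 5) (nat_lit 290) (nat_lit 282) (nat_lit 208))) (XT.nd (nat_lit 78) (nat_lit 0) (nat_lit 76) (XT.lf (nat_lit 76) (nat_lit 480270301) (nat_lit 0) (nat_lit 10394730867) (nat_lit 1216) (nat_lit 4370820531) (nat_lit 212) (nat_lit 5) (nat_lit 211) (nat_lit 5) (nat_lit 227) (nat_lit 5) (nat_lit 291) (nat_lit 282) (nat_lit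 207)) (XT.lf (nat_lit 0) (nat_lit 13262323113) (nat_lit 1140) (nat_lit 2370423311) (nat_lit 76) (nat_lit 14366073) (nat_lit 212) (nat_lit 5) (nat_lit 227) (nat_lit 5) (nat_lit 213) (nat_lit 5) (nat_lit 292) (nat_lit 282) (nat_lit 206)))) (XT.nd (nat_lit 156) (nat_lit 1140) (nat_lit 0) (XT.nd (nat_lit 78) (nat_lit 836) (nat_lit 0) (XT.lf (nat_lit 0) (nat_lit 10722842850) (nat_lit 1140) (nat_lit 5223761700) (nat_lit 1216) (nat_lit 116566307) (nat_lit 197) (nat_lit 5) (nat_lit 212) (nat_lit 5) (nat_lit 213) (nat_lit 5) (nat_lit 293) (nat_lit 282) (nat_lit 205)) (XT.lf (nat_lit 0) (nat_lit 2350284941) (nat_lit 836) (nat_lit 8421464941) (nat_lit 76) (nat_lit 5723775060) (nat_lit 186) (nat_lit 5) (nat_lit 197) (nat_lit 5) (nat_lit 187) (nat_lit 5) (nat_lit 294) (nat_lit 282) (nat_lit 204))) (XT.nd (nat_lit 78) (nat_lit 532) (nat_lit 0) (XT.lf (nat_lit 0) (nat_lit 5072082332) (nat_lit 684) (nat_lit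 11601392333) (nat_lit 76) (nat_lit 271994152) (nat_lit 178) (nat_lit 5) (nat_lit 187) (nat_lit 5) (nat_lit 179) (nat_lit 5) (nat_lit 295) (nat_lit 282) (nat_lit 203)) (XT.lf (nat_lit 0) (nat_lit 2471109289) (nat_lit 532) (nat_lit 5651695953) (nat_lit 608) (nat_lit 9289345428) (nat_lit 171) (nat_lit 5) (nat_lit 178) (nat_lit 5) (nat_lit 179) (nat_lit 5) (nat_lit 296) (nat_lit 282) (nat_lit 202))))))))
noncomputable def xc86 : XT := (XT.nd (nat_lit 2184) (nat_lit 3116) (nat_lit 0) (XT.nd (nat_lit 1092) (nat_lit 3420) (nat_lit 0) (XT.nd (nat_lit 546) (nat_lit 2508) (nat_lit 0) (XT.nd (nat_lit 234) (nat_lit 1444) (nat_lit 0) (XT.nd (nat_lit 78) (nat_lit 1140) (nat_lit 0) (XT.lf (nat_lit 0) (nat_lit 11477459444) (nat_lit 608) (nat_lit 493181835) (nat_lit 76) (nat_lit 5927008101) (nat_lit 171) (nat_lit 5) (nat_lit 179) (nat_lit 5) (nat_lit 172) (nat_lit 5) (nat_lit 297) (nat_lit 282) (nat_lit 201))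 (XT.nd (nat_lit 78) (nat_lit 608) (nat_lit 0) (XT.lf (nat_lit 0) (nat_lit 14885575456) (nat_lit 532) (nat_lit 289517130) (nat_lit 608) (nat_lit 3227096500) (nat_lit 164) (nat_lit 5) (nat_lit 171) (nat_lit 5) (nat_lit 172) (nat_lit 5) (nat_lit 298) (nat_lit 282) (nat_lit 200)) (XT.lf (nat_lit 0) (nat_lit 338969955) (nat_lit 608) (nat_lit 6718971852) (nat_lit 76) (nat_lit 11867526308) (nat_lit 156) (nat_lit 5) (nat_lit 164) (nat_lit 5) (nat_lit 157) (nat_lit 5) (nat_lit 299) (nat_lit 282) (nat_lit 199)))) (XT.nd (nat_lit 156) (nat_lit 456) (nat_lit 0) (XT.nd (nat_lit 78) (nat_lit 456) (nat_lit 0) (XT.lf (nat_lit 0) (nat_lit 4175244607) (nat_lit 608) (nat_lit 10082790431) (nat_lit 76) (nat_lit 5211178778) (nat_lit 149) (nat_lit 5) (nat_lit 157) (nat_lit 5) (nat_lit 150) (nat_lit 5) (nat_lit 300) (nat_lit 282) (nat_lit 198)) (XT.lf (nat_lit 0) (nat_lit 6428256882) (nat_lit 456) (nat_lit 1955539869)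 (nat_lit 532) (nat_lit 11650955802) (nat_lit 143) (nat_lit 5) (nat_lit 149) (nat_lit 5) (nat_lit 150) (nat_lit 5) (nat_lit 301) (nat_lit 282) (nat_lit 197))) (XT.nd (nat_lit 78) (nat_lit 0) (nat_lit 0) (XT.lf (nat_lit 0) (nat_lit 3283148858) (nat_lit 456) (nat_lit 9739779776) (nat_lit 532) (nat_lit 7599053758) (nat_lit 137) (nat_lit 5) (nat_lit 143) (nat_lit 5) (nat_lit 144) (nat_lit 5) (nat_lit 302) (nat_lit 282) (nat_lit 196)) (XT.lf (nat_lit 0) (nat_lit 18063822455) (nat_lit 532) (nat_lit 7857211) (nat_lit 76) (nat_lit 3161817734) (nat_lit 137) (nat_lit 5) (nat_lit 144) (nat_lit 5) (nat_lit 138) (nat_lit 5) (nat_lit 303) (nat_lit 282) (nat_lit 195))))) (XT.nd (nat_lit 234) (nat_lit 1216) (nat_lit 0) (XT.nd (nat_lit 78) (nat_lit 836) (nat_lit 0) (XT.lf (nat_lit 0) (nat_lit 1710385346) (nat_lit 456) (nat_lit 3457111573) (nat_lit 76) (nat_lit 16699937127) (nat_lit 131) (nat_lit 5) (nat_lit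 137) (nat_lit 5) (nat_lit 132) (nat_lit 5) (nat_lit 304) (nat_lit 282) (nat_lit 194)) (XT.nd (nat_lit 78) (nat_lit 380) (nat_lit 0) (XT.lf (nat_lit 0) (nat_lit 6981232273) (nat_lit 532) (nat_lit 7147394394) (nat_lit 76) (nat_lit 8397144955) (nat_lit 125) (nat_lit 5) (nat_lit 132) (nat_lit 5) (nat_lit 126) (nat_lit 5) (nat_lit 305) (nat_lit 282) (nat_lit 193)) (XT.lf (nat_lit 0) (nat_lit 12174012775) (nat_lit 380) (nat_lit 528077593) (nat_lit 456) (nat_lit 10509356604) (nat_lit 120) (nat_lit 5) (nat_lit 125) (nat_lit 5) (nat_lit 126) (nat_lit 5) (nat_lit 306) (nat_lit 282) (nat_lit 192)))) (XT.nd (nat_lit 156) (nat_lit 380) (nat_lit 0) (XT.nd (nat_lit 78) (nat_lit 456) (nat_lit 0) (XT.lf (nat_lit 0) (nat_lit 8695591201) (nat_lit 380) (nat_lit 10285469455) (nat_lit 456) (nat_lit 4942197601) (nat_lit 115) (nat_lit 5) (nat_lit 120) (nat_lit 5) (nat_lit 121) (nat_lit 5) (nat_lit 307) (nat_lit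 282) (nat_lit 191)) (XT.lf (nat_lit 0) (nat_lit 1075125114) (nat_lit 456) (nat_lit 19665021527) (nat_lit 76) (nat_lit 3924583158) (nat_lit 109) (nat_lit 5) (nat_lit 115) (nat_lit 5) (nat_lit 110) (nat_lit 5) (nat_lit 308) (nat_lit 282) (nat_lit 190))) (XT.nd (nat_lit 78) (nat_lit 0) (nat_lit 0) (XT.lf (nat_lit 0) (nat_lit 959210423) (nat_lit 380) (nat_lit 6587201152) (nat_lit 456) (nat_lit 17887748614) (nat_lit 104) (nat_lit 5) (nat_lit 109) (nat_lit 5) (nat_lit 110) (nat_lit 5) (nat_lit 309) (nat_lit 282) (nat_lit 189)) (XT.lf (nat_lit 0) (nat_lit 14608796344) (nat_lit 456) (nat_lit 3314090877) (nat_lit 76) (nat_lit 8311160809) (nat_lit 104) (nat_lit 5) (nat_lit 110) (nat_lit 5) (nat_lit 105) (nat_lit 5) (nat_lit 310) (nat_lit 282) (nat_lit 188)))))) (XT.nd (nat_lit 546) (nat_lit 1520) (nat_lit 0) (XT.nd (nat_lit 234) (nat_lit 912) (nat_lit 0) (XT.nd (nat_lit 78) (nat_lit 684) (nat_lit 0)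 (XT.lf (nat_lit 0) (nat_lit 19191715974) (nat_lit 304) (nat_lit 3067902382) (nat_lit 380) (nat_lit 4807263744) (nat_lit 100) (nat_lit 5) (nat_lit 104) (nat_lit 5) (nat_lit 105) (nat_lit 5) (nat_lit 311) (nat_lit 282) (nat_lit 187)) (XT.nd (nat_lit 78) (nat_lit 304) (nat_lit 0) (XT.lf (nat_lit 0) (nat_lit 2593485310) (nat_lit 380) (nat_lit 12853461963) (nat_lit 76) (nat_lit 12485110454) (nat_lit 95) (nat_lit 5) (nat_lit 100) (nat_lit 5) (nat_lit 96) (nat_lit 5) (nat_lit 312) (nat_lit 282) (nat_lit 186)) (XT.lf (nat_lit 0) (nat_lit 10467255170) (nat_lit 380) (nat_lit 18221718834) (nat_lit 76) (nat_lit 144028106) (nat_lit 91) (nat_lit 5) (nat_lit 96) (nat_lit 5) (nat_lit 92) (nat_lit 5) (nat_lit 313) (nat_lit 282) (nat_lit 185)))) (XT.nd (nat_lit 156) (nat_lit 380) (nat_lit 0) (XT.nd (nat_lit 78) (nat_lit 228) (nat_lit 0) (XT.lf (nat_lit 0) (nat_lit 5675968637) (nat_lit 304) (nat_lit 13388513678)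 (nat_lit 380) (nat_lit 10704627876) (nat_lit 87) (nat_lit 5) (nat_lit 91) (nat_lit 5) (nat_lit 92) (nat_lit 5) (nat_lit 314) (nat_lit 282) (nat_lit 184)) (XT.lf (nat_lit 0) (nat_lit 362209915) (nat_lit 228) (nat_lit 27934116164) (nat_lit 304) (nat_lit 2449564029) (nat_lit 84) (nat_lit 5) (nat_lit 87) (nat_lit 5) (nat_lit 88) (nat_lit 5) (nat_lit 315) (nat_lit 282) (nat_lit 183))) (XT.nd (nat_lit 78) (nat_lit 304) (nat_lit 0) (XT.lf (nat_lit 0) (nat_lit 6468958029) (nat_lit 304) (nat_lit 5437518673) (nat_lit 76) (nat_lit 19852086147) (nat_lit 83) (nat_lit 5) (nat_lit 87) (nat_lit 5) (nat_lit 84) (nat_lit 5) (nat_lit 316) (nat_lit 282) (nat_lit 182)) (XT.lf (nat_lit 0) (nat_lit 16022878366) (nat_lit 380) (nat_lit 11740449987) (nat_lit 76) (nat_lit 5050617298) (nat_lit 79) (nat_lit 5) (nat_lit 84) (nat_lit 5) (nat_lit 80) (nat_lit 5) (nat_lit 317) (nat_lit 282) (nat_lit 181))))) (XT.nd (nat_lit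 234) (nat_lit 760) (nat_lit 0) (XT.nd (nat_lit 78) (nat_lit 532) (nat_lit 0) (XT.lf (nat_lit 0) (nat_lit 15261623751) (nat_lit 228) (nat_lit 11103744368) (nat_lit 304) (nat_lit 7547410896) (nat_lit 76) (nat_lit 5) (nat_lit 79) (nat_lit 5) (nat_lit 80) (nat_lit 5) (nat_lit 318) (nat_lit 282) (nat_lit 180)) (XT.nd (nat_lit 78) (nat_lit 228) (nat_lit 0) (XT.lf (nat_lit 0) (nat_lit 2375583358) (nat_lit 304) (nat_lit 26193599924) (nat_lit 76) (nat_lit 6488977155) (nat_lit 72) (nat_lit 5) (nat_lit 76) (nat_lit 5) (nat_lit 73) (nat_lit 5) (nat_lit 319) (nat_lit 282) (nat_lit 179)) (XT.lf (nat_lit 0) (nat_lit 1715881613) (nat_lit 228) (nat_lit 11234782578) (nat_lit 304) (nat_lit 23298550781) (nat_lit 69) (nat_lit 5) (nat_lit 72) (nat_lit 5) (nat_lit 73) (nat_lit 5) (nat_lit 320) (nat_lit 282) (nat_lit 178)))) (XT.nd (nat_lit 156) (nat_lit 532) (nat_lit 0) (XT.nd (nat_lit 78) (nat_lit 228) (nat_lit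 0) (XT.lf (nat_lit 0) (nat_lit 24382222695) (nat_lit 304) (nat_lit 6011145569) (nat_lit 76) (nat_lit 7096628654) (nat_lit 69) (nat_lit 5) (nat_lit 73) (nat_lit 5) (nat_lit 70) (nat_lit 5) (nat_lit 321) (nat_lit 282) (nat_lit 177)) (XT.lf (nat_lit 0) (nat_lit 24280426657) (nat_lit 228) (nat_lit 12440725423) (nat_lit 304) (nat_lit 2061598182) (nat_lit 66) (nat_lit 5) (nat_lit 69) (nat_lit 5) (nat_lit 70) (nat_lit 5) (nat_lit 322) (nat_lit 282) (nat_lit 176))) (XT.nd (nat_lit 78) (nat_lit 228) (nat_lit 0) (XT.lf (nat_lit 0) (nat_lit 9623679097) (nat_lit 304) (nat_lit 23913284475) (nat_lit 76) (nat_lit 6592246355) (nat_lit 62) (nat_lit 5) (nat_lit 66) (nat_lit 5) (nat_lit 63) (nat_lit 5) (nat_lit 323) (nat_lit 282) (nat_lit 175)) (XT.lf (nat_lit 0) (nat_lit 7210851885) (nat_lit 228) (nat_lit 14975325897) (nat_lit 304) (nat_lit 19346139963) (nat_lit 59) (nat_lit 5) (nat_lit 62) (nat_lit 5) (nat_lit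 63) (nat_lit 5) (nat_lit 324) (nat_lit 282) (nat_lit 174))))))) (XT.nd (nat_lit 1092) (nat_lit 1140) (nat_lit 0) (XT.nd (nat_lit 546) (nat_lit 912) (nat_lit 0) (XT.nd (nat_lit 234) (nat_lit 608) (nat_lit 0) (XT.nd (nat_lit 78) (nat_lit 456) (nat_lit 0) (XT.lf (nat_lit 0) (nat_lit 35658633290) (nat_lit 304) (nat_lit 2669522627) (nat_lit 76) (nat_lit 4668975187) (nat_lit 59) (nat_lit 5) (nat_lit 63) (nat_lit 5) (nat_lit 60) (nat_lit 5) (nat_lit 325) (nat_lit 282) (nat_lit 173)) (XT.nd (nat_lit 78) (nat_lit 228) (nat_lit 0) (XT.lf (nat_lit 0) (nat_lit 5610534638) (nat_lit 228) (nat_lit 13573783118) (nat_lit 76) (nat_lit 25336037410) (nat_lit 56) (nat_lit 5) (nat_lit 59) (nat_lit 5) (nat_lit 57) (nat_lit 5) (nat_lit 326) (nat_lit 282) (nat_lit 172)) (XT.lf (nat_lit 0) (nat_lit 19283626453) (nat_lit 304) (nat_lit 25632306872) (nat_lit 76) (nat_lit 1194780478) (nat_lit 53) (nat_lit 5) (nat_lit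 57) (nat_lit 5) (nat_lit 54) (nat_lit 5) (nat_lit 327) (nat_lit 282) (nat_lit 171)))) (XT.nd (nat_lit 156) (nat_lit 380) (nat_lit 0) (XT.nd (nat_lit 78) (nat_lit 76) (nat_lit 0) (XT.lf (nat_lit 0) (nat_lit 8700060990) (nat_lit 152) (nat_lit 25349474769) (nat_lit 228) (nat_lit 13718784008) (nat_lit 51) (nat_lit 5) (nat_lit 53) (nat_lit 5) (nat_lit 54) (nat_lit 5) (nat_lit 328) (nat_lit 282) (nat_lit 170)) (XT.lf (nat_lit 0) (nat_lit 301524135) (nat_lit 228) (nat_lit 4234149664) (nat_lit 76) (nat_lit 44965399238) (nat_lit 50) (nat_lit 5) (nat_lit 53) (nat_lit 5) (nat_lit 51) (nat_lit 5) (nat_lit 329) (nat_lit 282) (nat_lit 169))) (XT.nd (nat_lit 78) (nat_lit 152) (nat_lit 0) (XT.lf (nat_lit 0) (nat_lit 15219679684) (nat_lit 304) (nat_lit 18648394646) (nat_lit 76) (nat_lit 17433901799) (nat_lit 47) (nat_lit 5) (nat_lit 51) (nat_lit 5) (nat_lit 48) (nat_lit 5) (nat_lit 330) (nat_lit 282) (nat_lit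 168)) (XT.lf (nat_lit 0) (nat_lit 18585027650) (nat_lit 152) (nat_lit 12558808309) (nat_lit 228) (nat_lit 22041289222) (nat_lit 45) (nat_lit 5) (nat_lit 47) (nat_lit 5) (nat_lit 48) (nat_lit 5) (nat_lit 331) (nat_lit 282) (nat_lit 167))))) (XT.nd (nat_lit 234) (nat_lit 532) (nat_lit 0) (XT.nd (nat_lit 78) (nat_lit 228) (nat_lit 0) (XT.lf (nat_lit 0) (nat_lit 2858897094) (nat_lit 152) (nat_lit 45312869233) (nat_lit 228) (nat_lit 6981441791) (nat_lit 43) (nat_lit 5) (nat_lit 45) (nat_lit 5) (nat_lit 46) (nat_lit 5) (nat_lit 332) (nat_lit 282) (nat_lit 166)) (XT.nd (nat_lit 78) (nat_lit 152) (nat_lit 0) (XT.lf (nat_lit 0) (nat_lit 9137565227) (nat_lit 228) (nat_lit 14523851273) (nat_lit 76) (nat_lit 33541380091) (nat_lit 42) (nat_lit 5) (nat_lit 45) (nat_lit 5) (nat_lit 43) (nat_lit 5) (nat_lit 333) (nat_lit 282) (nat_lit 165)) (XT.lf (nat_lit 0) (nat_lit 25550345624) (nat_lit 152) (nat_lit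 607153531) (nat_lit 228) (nat_lit 33188113747) (nat_lit 40) (nat_lit 5) (nat_lit 42) (nat_lit 5) (nat_lit 43) (nat_lit 5) (nat_lit 334) (nat_lit 282) (nat_lit 164)))) (XT.nd (nat_lit 156) (nat_lit 304) (nat_lit 0) (XT.nd (nat_lit 78) (nat_lit 76) (nat_lit 0) (XT.lf (nat_lit 0) (nat_lit 6221028583) (nat_lit 152) (nat_lit 38237654585) (nat_lit 228) (nat_lit 17123982129) (nat_lit 38) (nat_lit 5) (nat_lit 40) (nat_lit 5) (nat_lit 41) (nat_lit 5) (nat_lit 335) (nat_lit 282) (nat_lit 163)) (XT.lf (nat_lit 0) (nat_lit 98595678) (nat_lit 228) (nat_lit 14996363976) (nat_lit 76) (nat_lit 48826180371) (nat_lit 37) (nat_lit 5) (nat_lit 40) (nat_lit 5) (nat_lit 38) (nat_lit 5) (nat_lit 336) (nat_lit 282) (nat_lit 162))) (XT.nd (nat_lit 78) (nat_lit 152) (nat_lit 0) (XT.lf (nat_lit 0) (nat_lit 18184032354) (nat_lit 228) (nat_lit 38712521702) (nat_lit 76) (nat_lit 9464224225) (nat_lit 35) (nat_lit 5) (nat_lit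 38) (nat_lit 5) (nat_lit 36) (nat_lit 5) (nat_lit 337) (nat_lit 282) (nat_lit 161)) (XT.lf (nat_lit 0) (nat_lit 3727873525) (nat_lit 152) (nat_lit 33783242876) (nat_lit 228) (nat_lit 31401163186) (nat_lit 33) (nat_lit 5) (nat_lit 35) (nat_lit 5) (nat_lit 36) (nat_lit 5) (nat_lit 338) (nat_lit 282) (nat_lit 160)))))) (XT.nd (nat_lit 546) (nat_lit 532) (nat_lit 0) (XT.nd (nat_lit 234) (nat_lit 456) (nat_lit 0) (XT.nd (nat_lit 78) (nat_lit 152) (nat_lit 0) (XT.lf (nat_lit 0) (nat_lit 49087895894) (nat_lit 152) (nat_lit 9108661719) (nat_lit 228) (nat_lit 13383040551) (nat_lit 33) (nat_lit 5) (nat_lit 35) (nat_lit 5) (nat_lit 36) (nat_lit 5) (nat_lit 339) (nat_lit 282) (nat_lit 159)) (XT.nd (nat_lit 78) (nat_lit 0) (nat_lit 0) (XT.lf (nat_lit 0) (nat_lit 5804179086) (nat_lit 152) (nat_lit 51821746386) (nat_lit 76) (nat_lit 16741476317) (nat_lit 31) (nat_lit 5) (nat_lit 33) (nat_lit 5) (nat_lit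 32) (nat_lit 5) (nat_lit 340) (nat_lit 282) (nat_lit 158)) (XT.lf (nat_lit 0) (nat_lit 25996201394) (nat_lit 152) (nat_lit 7222846567) (nat_lit 76) (nat_lit 44061907788) (nat_lit 31) (nat_lit 5) (nat_lit 33) (nat_lit 5) (nat_lit 32) (nat_lit 5) (nat_lit 341) (nat_lit 282) (nat_lit 157)))) (XT.nd (nat_lit 156) (nat_lit 228) (nat_lit 0) (XT.nd (nat_lit 78) (nat_lit 76) (nat_lit 0) (XT.lf (nat_lit 0) (nat_lit 40383762599) (nat_lit 152) (nat_lit 7196436623) (nat_lit 228) (nat_lit 32748518874) (nat_lit 29) (nat_lit 5) (nat_lit 31) (nat_lit 5) (nat_lit 32) (nat_lit 5) (nat_lit 342) (nat_lit 282) (nat_lit 156)) (XT.lf (nat_lit 0) (nat_lit 6925833055) (nat_lit 76) (nat_lit 63647024714) (nat_lit 152) (nat_lit 12946128798) (nat_lit 28) (nat_lit 5) (nat_lit 29) (nat_lit 5) (nat_lit 30) (nat_lit 4) (nat_lit 343) (nat_lit 282) (nat_lit 155))) (XT.nd (nat_lit 78) (nat_lit 152) (nat_lit 0) (XT.lf (nat_lit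 0) (nat_lit 8175614780) (nat_lit 152) (nat_lit 30043596240) (nat_lit 76) (nat_lit 48632826053) (nat_lit 27) (nat_lit 5) (nat_lit 29) (nat_lit 5) (nat_lit 28) (nat_lit 5) (nat_lit 344) (nat_lit 282) (nat_lit 154)) (XT.lf (nat_lit 0) (nat_lit 19065350829) (nat_lit 152) (nat_lit 11200810815) (nat_lit 228) (nat_lit 60076320830) (nat_lit 25) (nat_lit 5) (nat_lit 27) (nat_lit 5) (nat_lit 28) (nat_lit 5) (nat_lit 345) (nat_lit 282) (nat_lit 153))))) (XT.nd (nat_lit 312) (nat_lit 228) (nat_lit 0) (XT.nd (nat_lit 156) (nat_lit 228) (nat_lit 0) (XT.nd (nat_lit 78) (nat_lit 76) (nat_lit 0) (XT.lf (nat_lit 0) (nat_lit 53933434579) (nat_lit 228) (nat_lit 22917999102) (nat_lit 76) (nat_lit 17141852036) (nat_lit 25) (nat_lit 5) (nat_lit 28) (nat_lit 5) (nat_lit 26) (nat_lit 4) (nat_lit 346) (nat_lit 282) (nat_lit 152)) (XT.lf (nat_lit 0) (nat_lit 28289205812) (nat_lit 76) (nat_lit 50874927281) (nat_lit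 152) (nat_lit 18651095633) (nat_lit 24) (nat_lit 5) (nat_lit 25) (nat_lit 5) (nat_lit 26) (nat_lit 4) (nat_lit 347) (nat_lit 282) (nat_lit 151))) (XT.nd (nat_lit 78) (nat_lit 152) (nat_lit 0) (XT.lf (nat_lit 0) (nat_lit 3986833543) (nat_lit 152) (nat_lit 19333334875) (nat_lit 76) (nat_lit 78499994805) (nat_lit 23) (nat_lit 5) (nat_lit 25) (nat_lit 5) (nat_lit 24) (nat_lit 5) (nat_lit 348) (nat_lit 282) (nat_lit 150)) (XT.lf (nat_lit 0) (nat_lit 27754138222) (nat_lit 228) (nat_lit 72236427687) (nat_lit 76) (nat_lit 6017743522) (nat_lit 21) (nat_lit 5) (nat_lit 24) (nat_lit 5) (nat_lit 22) (nat_lit 4) (nat_lit 349) (nat_lit 282) (nat_lit 149)))) (XT.nd (nat_lit 156) (nat_lit 152) (nat_lit 0) (XT.nd (nat_lit 78) (nat_lit 76) (nat_lit 0) (XT.lf (nat_lit 0) (nat_lit 53141690028) (nat_lit 228) (nat_lit 20709017799) (nat_lit 76) (nat_lit 36542199893) (nat_lit 21) (nat_lit 5) (nat_lit 24) (nat_lit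 5) (nat_lit 22) (nat_lit 4) (nat_lit 350) (nat_lit 282) (nat_lit 148)) (XT.lf (nat_lit 0) (nat_lit 34051469529) (nat_lit 76) (nat_lit 46070202659) (nat_lit 152) (nat_lit 34865373320) (nat_lit 20) (nat_lit 5) (nat_lit 21) (nat_lit 5) (nat_lit 22) (nat_lit 4) (nat_lit 351) (nat_lit 282) (nat_lit 147))) (XT.nd (nat_lit 78) (nat_lit 152) (nat_lit 0) (XT.lf (nat_lit 0) (nat_lit 91975201350) (nat_lit 76) (nat_lit 16684493295) (nat_lit 152) (nat_lit 11144925416) (nat_lit 20) (nat_lit 5) (nat_lit 21) (nat_lit 5) (nat_lit 22) (nat_lit 4) (nat_lit 352) (nat_lit 282) (nat_lit 146)) (XT.lf (nat_lit 0) (nat_lit 13901691844) (nat_lit 152) (nat_lit 96645614088) (nat_lit 76) (nat_lit 14299539379) (nat_lit 18) (nat_lit 5) (nat_lit 20) (nat_lit 5) (nat_lit 19) (nat_lit 4) (nat_lit 353) (nat_lit 282) (nat_lit 145))))))))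
noncomputable def xc87 : XT := (XT.nd (nat_lit 36738) (nat_lit 0) (nat_lit 2356) (XT.nd (nat_lit 35646) (nat_lit 0) (nat_lit 9348) (XT.nd (nat_lit 35100) (nat_lit 0) (nat_lit 14516) (XT.nd (nat_lit 234) (nat_lit 228) (nat_lit 0) (XT.nd (nat_lit 78) (nat_lit 76) (nat_lit 0) (XT.lf (nat_lit 0) (nat_lit 40426113227) (nat_lit 152) (nat_lit 42808483163) (nat_lit 76) (nat_lit 46889597017) (nat_lit 18) (nat_lit 5) (nat_lit 20) (nat_lit 5) (nat_lit 19) (nat_lit 4) (nat_lit 354) (nat_lit 282) (nat_lit 144)) (XT.nd (nat_lit 78) (nat_lit 0) (nat_lit 0) (XT.lf (nat_lit 0) (nat_lit 13986636945) (nat_lit 76) (nat_lit 54420860564) (nat_lit 152) (nat_lit 67253990077) (nat_lit 17) (nat_lit 5) (nat_lit 18) (nat_lit 5) (nat_lit 19) (nat_lit 4) (nat_lit 355) (nat_lit 282) (nat_lit 143)) (XT.lf (nat_lit 0) (nat_lit 74509482258) (nat_lit 76) (nat_lit 23715551053) (nat_lit 152) (nat_lit 43237501581) (nat_lit 17)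 (nat_lit 5) (nat_lit 18) (nat_lit 5) (nat_lit 19) (nat_lit 4) (nat_lit 356) (nat_lit 282) (nat_lit 142)))) (XT.nd (nat_lit 156) (nat_lit 76) (nat_lit 0) (XT.nd (nat_lit 78) (nat_lit 152) (nat_lit 0) (XT.lf (nat_lit 0) (nat_lit 129611943954) (nat_lit 152) (nat_lit 9583476239) (nat_lit 0) (nat_lit 8355860276) (nat_lit 17) (nat_lit 5) (nat_lit 19) (nat_lit 4) (nat_lit 17) (nat_lit 4) (nat_lit 357) (nat_lit 282) (nat_lit 141)) (XT.lf (nat_lit 0) (nat_lit 9192975176) (nat_lit 152) (nat_lit 102600290276) (nat_lit 76) (nat_lit 42126586198) (nat_lit 15) (nat_lit 5) (nat_lit 17) (nat_lit 5) (nat_lit 16) (nat_lit 4) (nat_lit 358) (nat_lit 282) (nat_lit 140))) (XT.nd (nat_lit 156) (nat_lit 76) (nat_lit 0) (XT.lf (nat_lit 0) (nat_lit 37410750671) (nat_lit 152) (nat_lit 45323869077) (nat_lit 76) (nat_lit 77863908036) (nat_lit 15) (nat_lit 5) (nat_lit 17) (nat_lit 5) (nat_lit 16) (nat_lit 4) (nat_lit 359)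 (nat_lit 282) (nat_lit 139)) (XT.lf (nat_lit 0) (nat_lit 79497899308) (nat_lit 76) (nat_lit 19406594382) (nat_lit 152) (nat_lit 76047237164) (nat_lit 14) (nat_lit 5) (nat_lit 15) (nat_lit 5) (nat_lit 16) (nat_lit 4) (nat_lit 361) (nat_lit 282) (nat_lit 137))))) (XT.nd (nat_lit 234) (nat_lit 0) (nat_lit 152) (XT.nd (nat_lit 78) (nat_lit 1140) (nat_lit 0) (XT.lf (nat_lit 0) (nat_lit 6301346783) (nat_lit 1140) (nat_lit 56279645) (nat_lit 1140) (nat_lit 56279645) (nat_lit 220) (nat_lit 3) (nat_lit 235) (nat_lit 3) (nat_lit 235) (nat_lit 5) (nat_lit 283) (nat_lit 283) (nat_lit 214)) (XT.nd (nat_lit 78) (nat_lit 0) (nat_lit 76) (XT.lf (nat_lit 0) (nat_lit 518598244) (nat_lit 1140) (nat_lit 3210174739) (nat_lit 1216) (nat_lit 9396778196) (nat_lit 205) (nat_lit 5) (nat_lit 220) (nat_lit 3) (nat_lit 221) (nat_lit 5) (nat_lit 284) (nat_lit 283) (nat_lit 213)) (XT.lf (nat_lit 0) (nat_lit 1378563499)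 (nat_lit 1140) (nat_lit 6369903064) (nat_lit 1216) (nat_lit 5687175551) (nat_lit 206) (nat_lit 5) (nat_lit 221) (nat_lit 5) (nat_lit 222) (nat_lit 5) (nat_lit 285) (nat_lit 283) (nat_lit 212)))) (XT.nd (nat_lit 156) (nat_lit 0) (nat_lit 76) (XT.nd (nat_lit 78) (nat_lit 0) (nat_lit 0) (XT.lf (nat_lit 0) (nat_lit 2370558214) (nat_lit 1140) (nat_lit 9594016917) (nat_lit 1216) (nat_lit 1794032836) (nat_lit 207) (nat_lit 5) (nat_lit 222) (nat_lit 5) (nat_lit 223) (nat_lit 5) (nat_lit 286) (nat_lit 283) (nat_lit 211)) (XT.lf (nat_lit 76) (nat_lit 1183504459) (nat_lit 0) (nat_lit 2346507308) (nat_lit 1216) (nat_lit 10564213912) (nat_lit 208) (nat_lit 5) (nat_lit 207) (nat_lit 5) (nat_lit 223) (nat_lit 5) (nat_lit 287) (nat_lit 283) (nat_lit 210))) (XT.nd (nat_lit 78) (nat_lit 0) (nat_lit 76) (XT.lf (nat_lit 0) (nat_lit 4885463005) (nat_lit 1140) (nat_lit 1843242420) (nat_lit 1216) (nat_lit 7713815567)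 (nat_lit 208) (nat_lit 5) (nat_lit 223) (nat_lit 5) (nat_lit 224) (nat_lit 5) (nat_lit 288) (nat_lit 283) (nat_lit 209)) (XT.lf (nat_lit 0) (nat_lit 6427200595) (nat_lit 1140) (nat_lit 4915392170) (nat_lit 1216) (nat_lit 3462118574) (nat_lit 209) (nat_lit 5) (nat_lit 224) (nat_lit 5) (nat_lit 225) (nat_lit 5) (nat_lit 289) (nat_lit 283) (nat_lit 208)))))) (XT.nd (nat_lit 546) (nat_lit 3116) (nat_lit 0) (XT.nd (nat_lit 234) (nat_lit 2356) (nat_lit 0) (XT.nd (nat_lit 78) (nat_lit 0) (nat_lit 76) (XT.lf (nat_lit 76) (nat_lit 7109449824) (nat_lit 0) (nat_lit 1059008025) (nat_lit 1216) (nat_lit 7012914354) (nat_lit 210) (nat_lit 5) (nat_lit 209) (nat_lit 5) (nat_lit 225) (nat_lit 5) (nat_lit 290) (nat_lit 283) (nat_lit 207)) (XT.nd (nat_lit 78) (nat_lit 0) (nat_lit 76) (XT.lf (nat_lit 76) (nat_lit 4227127144) (nat_lit 0) (nat_lit 5923446593) (nat_lit 1216) (nat_lit 5421710865) (nat_lit 211) (nat_lit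 5) (nat_lit 210) (nat_lit 5) (nat_lit 226) (nat_lit 5) (nat_lit 291) (nat_lit 283) (nat_lit 206)) (XT.lf (nat_lit 76) (nat_lit 1271519929) (nat_lit 0) (nat_lit 11083772374) (nat_lit 1216) (nat_lit 3623776235) (nat_lit 212) (nat_lit 5) (nat_lit 211) (nat_lit 5) (nat_lit 227) (nat_lit 5) (nat_lit 292) (nat_lit 283) (nat_lit 205)))) (XT.nd (nat_lit 156) (nat_lit 1368) (nat_lit 0) (XT.nd (nat_lit 78) (nat_lit 1140) (nat_lit 0) (XT.lf (nat_lit 76) (nat_lit 14671377029) (nat_lit 0) (nat_lit 145858237) (nat_lit 1216) (nat_lit 1584576108) (nat_lit 212) (nat_lit 5) (nat_lit 211) (nat_lit 5) (nat_lit 227) (nat_lit 5) (nat_lit 293) (nat_lit 283) (nat_lit 204)) (XT.lf (nat_lit 0) (nat_lit 744392626) (nat_lit 1216) (nat_lit 4850000333) (nat_lit 76) (nat_lit 11245204940) (nat_lit 196) (nat_lit 5) (nat_lit 212) (nat_lit 5) (nat_lit 197) (nat_lit 5) (nat_lit 294) (nat_lit 283) (nat_lit 203))) (XT.nd (nat_lit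 78) (nat_lit 608) (nat_lit 0) (XT.lf (nat_lit 0) (nat_lit 3297175675) (nat_lit 836) (nat_lit 8081421097) (nat_lit 76) (nat_lit 5916028045) (nat_lit 186) (nat_lit 5) (nat_lit 197) (nat_lit 5) (nat_lit 187) (nat_lit 5) (nat_lit 295) (nat_lit 283) (nat_lit 202)) (XT.lf (nat_lit 0) (nat_lit 6122120876) (nat_lit 684) (nat_lit 11416940700) (nat_lit 76) (nat_lit 229030434) (nat_lit 178) (nat_lit 5) (nat_lit 187) (nat_lit 5) (nat_lit 179) (nat_lit 5) (nat_lit 296) (nat_lit 283) (nat_lit 201))))) (XT.nd (nat_lit 234) (nat_lit 2052) (nat_lit 0) (XT.nd (nat_lit 78) (nat_lit 532) (nat_lit 0) (XT.lf (nat_lit 0) (nat_lit 3337271155) (nat_lit 532) (nat_lit 5957321714) (nat_lit 608) (nat_lit 8964474755) (nat_lit 171) (nat_lit 5) (nat_lit 178) (nat_lit 5) (nat_lit 179) (nat_lit 5) (nat_lit 297) (nat_lit 283) (nat_lit 200)) (XT.nd (nat_lit 78) (nat_lit 0) (nat_lit 0) (XT.lf (nat_lit 0) (nat_lit 216399389)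 (nat_lit 532) (nat_lit 12565990220) (nat_lit 608) (nat_lit 5987523707) (nat_lit 164) (nat_lit 5) (nat_lit 171) (nat_lit 5) (nat_lit 172) (nat_lit 5) (nat_lit 298) (nat_lit 283) (nat_lit 199)) (XT.lf (nat_lit 0) (nat_lit 16338946007) (nat_lit 532) (nat_lit 295981271) (nat_lit 608) (nat_lit 2665684750) (nat_lit 164) (nat_lit 5) (nat_lit 171) (nat_lit 5) (nat_lit 172) (nat_lit 5) (nat_lit 299) (nat_lit 283) (nat_lit 198)))) (XT.nd (nat_lit 156) (nat_lit 912) (nat_lit 0) (XT.nd (nat_lit 78) (nat_lit 532) (nat_lit 0) (XT.lf (nat_lit 0) (nat_lit 1037799632) (nat_lit 608) (nat_lit 6330988982) (nat_lit 76) (nat_lit 12481891653) (nat_lit 156) (nat_lit 5) (nat_lit 164) (nat_lit 5) (nat_lit 157) (nat_lit 5) (nat_lit 300) (nat_lit 283) (nat_lit 197)) (XT.lf (nat_lit 0) (nat_lit 5040628771) (nat_lit 608) (nat_lit 9863940609) (nat_lit 76) (nat_lit 5517830450) (nat_lit 149) (nat_lit 5) (nat_lit 157) (nat_lit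 5) (nat_lit 150) (nat_lit 5) (nat_lit 301) (nat_lit 283) (nat_lit 196))) (XT.nd (nat_lit 78) (nat_lit 456) (nat_lit 0) (XT.lf (nat_lit 0) (nat_lit 7451934725) (nat_lit 456) (nat_lit 1983156688) (nat_lit 532) (nat_lit 11581887035) (nat_lit 143) (nat_lit 5) (nat_lit 149) (nat_lit 5) (nat_lit 150) (nat_lit 5) (nat_lit 302) (nat_lit 283) (nat_lit 195)) (XT.lf (nat_lit 0) (nat_lit 4147738357) (nat_lit 456) (nat_lit 10135716591) (nat_lit 532) (nat_lit 7350822702) (nat_lit 137) (nat_lit 5) (nat_lit 143) (nat_lit 5) (nat_lit 144) (nat_lit 5) (nat_lit 303) (nat_lit 283) (nat_lit 194))))))) (XT.nd (nat_lit 1092) (nat_lit 2888) (nat_lit 0) (XT.nd (nat_lit 546) (nat_lit 1596) (nat_lit 0) (XT.nd (nat_lit 234) (nat_lit 1596) (nat_lit 0) (XT.nd (nat_lit 78) (nat_lit 532) (nat_lit 0) (XT.lf (nat_lit 0) (nat_lit 689354739) (nat_lit 380) (nat_lit 18865480701) (nat_lit 456) (nat_lit 2722204588) (nat_lit 132)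 (nat_lit 5) (nat_lit 137) (nat_lit 5) (nat_lit 138) (nat_lit 5) (nat_lit 304) (nat_lit 283) (nat_lit 193)) (XT.nd (nat_lit 78) (nat_lit 456) (nat_lit 0) (XT.lf (nat_lit 0) (nat_lit 2361820272) (nat_lit 456) (nat_lit 2953702323) (nat_lit 76) (nat_lit 17627845594) (nat_lit 131) (nat_lit 5) (nat_lit 137) (nat_lit 5) (nat_lit 132) (nat_lit 5) (nat_lit 305) (nat_lit 283) (nat_lit 192)) (XT.lf (nat_lit 0) (nat_lit 7876648262) (nat_lit 532) (nat_lit 6832160402) (nat_lit 76) (nat_lit 8926422728) (nat_lit 125) (nat_lit 5) (nat_lit 132) (nat_lit 5) (nat_lit 126) (nat_lit 5) (nat_lit 306) (nat_lit 283) (nat_lit 191)))) (XT.nd (nat_lit 156) (nat_lit 836) (nat_lit 0) (XT.nd (nat_lit 78) (nat_lit 380) (nat_lit 0) (XT.lf (nat_lit 0) (nat_lit 13436037074) (nat_lit 380) (nat_lit 427775459) (nat_lit 456) (nat_lit 10491990944) (nat_lit 120) (nat_lit 5) (nat_lit 125) (nat_lit 5) (nat_lit 126) (nat_lit 5) (nat_lit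 307) (nat_lit 283) (nat_lit 190)) (XT.lf (nat_lit 0) (nat_lit 9779534987) (nat_lit 380) (nat_lit 10659519458) (nat_lit 456) (nat_lit 4664701061) (nat_lit 115) (nat_lit 5) (nat_lit 120) (nat_lit 5) (nat_lit 121) (nat_lit 5) (nat_lit 308) (nat_lit 283) (nat_lit 189))) (XT.nd (nat_lit 78) (nat_lit 380) (nat_lit 0) (XT.lf (nat_lit 0) (nat_lit 1626309797) (nat_lit 456) (nat_lit 19993541912) (nat_lit 76) (nat_lit 4262824237) (nat_lit 109) (nat_lit 5) (nat_lit 115) (nat_lit 5) (nat_lit 110) (nat_lit 5) (nat_lit 309) (nat_lit 283) (nat_lit 188)) (XT.lf (nat_lit 0) (nat_lit 1643133912) (nat_lit 380) (nat_lit 6760452866) (nat_lit 456) (nat_lit 18287535791) (nat_lit 104) (nat_lit 5) (nat_lit 109) (nat_lit 5) (nat_lit 110) (nat_lit 5) (nat_lit 310) (nat_lit 283) (nat_lit 187))))) (XT.nd (nat_lit 234) (nat_lit 912) (nat_lit 0) (XT.nd (nat_lit 78) (nat_lit 684) (nat_lit 0) (XT.lf (nat_lit 0) (nat_lit 15797669716)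 (nat_lit 456) (nat_lit 2861502098) (nat_lit 76) (nat_lit 8872492285) (nat_lit 104) (nat_lit 5) (nat_lit 110) (nat_lit 5) (nat_lit 105) (nat_lit 5) (nat_lit 311) (nat_lit 283) (nat_lit 186)) (XT.nd (nat_lit 78) (nat_lit 380) (nat_lit 0) (XT.lf (nat_lit 0) (nat_lit 20751871842) (nat_lit 304) (nat_lit 3063103865) (nat_lit 380) (nat_lit 4591661753) (nat_lit 100) (nat_lit 5) (nat_lit 104) (nat_lit 5) (nat_lit 105) (nat_lit 5) (nat_lit 312) (nat_lit 283) (nat_lit 185)) (XT.lf (nat_lit 0) (nat_lit 3156177757) (nat_lit 380) (nat_lit 12892146610) (nat_lit 76) (nat_lit 13267052172) (nat_lit 95) (nat_lit 5) (nat_lit 100) (nat_lit 5) (nat_lit 96) (nat_lit 5) (nat_lit 313) (nat_lit 283) (nat_lit 184)))) (XT.nd (nat_lit 156) (nat_lit 304) (nat_lit 0) (XT.nd (nat_lit 78) (nat_lit 304) (nat_lit 0) (XT.lf (nat_lit 0) (nat_lit 11410276724) (nat_lit 380) (nat_lit 18534929893) (nat_lit 76) (nat_lit 316576282)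 (nat_lit 91) (nat_lit 5) (nat_lit 96) (nat_lit 5) (nat_lit 92) (nat_lit 5) (nat_lit 314) (nat_lit 283) (nat_lit 183)) (XT.lf (nat_lit 0) (nat_lit 6540503987) (nat_lit 304) (nat_lit 13882459885) (nat_lit 380) (nat_lit 10822177864) (nat_lit 87) (nat_lit 5) (nat_lit 91) (nat_lit 5) (nat_lit 92) (nat_lit 5) (nat_lit 315) (nat_lit 283) (nat_lit 182))) (XT.nd (nat_lit 78) (nat_lit 76) (nat_lit 0) (XT.lf (nat_lit 0) (nat_lit 954839992) (nat_lit 228) (nat_lit 29149390985) (nat_lit 304) (nat_lit 2166907417) (nat_lit 84) (nat_lit 5) (nat_lit 87) (nat_lit 5) (nat_lit 88) (nat_lit 5) (nat_lit 316) (nat_lit 283) (nat_lit 181)) (XT.lf (nat_lit 0) (nat_lit 7170719430) (nat_lit 304) (nat_lit 5154469466) (nat_lit 76) (nat_lit 21009718236) (nat_lit 83) (nat_lit 5) (nat_lit 87) (nat_lit 5) (nat_lit 84) (nat_lit 5) (nat_lit 317) (nat_lit 283) (nat_lit 180)))))) (XT.nd (nat_lit 546) (nat_lit 1292) (nat_lit 0)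 (XT.nd (nat_lit 234) (nat_lit 760) (nat_lit 0) (XT.nd (nat_lit 78) (nat_lit 532) (nat_lit 0) (XT.lf (nat_lit 0) (nat_lit 17191170387) (nat_lit 380) (nat_lit 11778934633) (nat_lit 76) (nat_lit 5473300182) (nat_lit 79) (nat_lit 5) (nat_lit 84) (nat_lit 5) (nat_lit 80) (nat_lit 5) (nat_lit 318) (nat_lit 283) (nat_lit 179)) (XT.nd (nat_lit 78) (nat_lit 304) (nat_lit 0) (XT.lf (nat_lit 0) (nat_lit 16557519065) (nat_lit 228) (nat_lit 11480904054) (nat_lit 304) (nat_lit 7559138591) (nat_lit 76) (nat_lit 5) (nat_lit 79) (nat_lit 5) (nat_lit 80) (nat_lit 5) (nat_lit 319) (nat_lit 283) (nat_lit 178)) (XT.lf (nat_lit 0) (nat_lit 2842554931) (nat_lit 304) (nat_lit 26969729653) (nat_lit 76) (nat_lit 6988141472) (nat_lit 72) (nat_lit 5) (nat_lit 76) (nat_lit 5) (nat_lit 73) (nat_lit 5) (nat_lit 320) (nat_lit 283) (nat_lit 177)))) (XT.nd (nat_lit 156) (nat_lit 532) (nat_lit 0) (XT.nd (nat_lit 78) (nat_lit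 0) (nat_lit 0) (XT.lf (nat_lit 0) (nat_lit 2319931850) (nat_lit 228) (nat_lit 11614859160) (nat_lit 304) (nat_lit 24116599635) (nat_lit 69) (nat_lit 5) (nat_lit 72) (nat_lit 5) (nat_lit 73) (nat_lit 5) (nat_lit 321) (nat_lit 283) (nat_lit 176)) (XT.lf (nat_lit 0) (nat_lit 25923562268) (nat_lit 304) (nat_lit 5809993343) (nat_lit 76) (nat_lit 7621095950) (nat_lit 69) (nat_lit 5) (nat_lit 73) (nat_lit 5) (nat_lit 70) (nat_lit 5) (nat_lit 322) (nat_lit 283) (nat_lit 175))) (XT.nd (nat_lit 78) (nat_lit 304) (nat_lit 0) (XT.lf (nat_lit 0) (nat_lit 25981776093) (nat_lit 228) (nat_lit 12887002314) (nat_lit 304) (nat_lit 1843592449) (nat_lit 66) (nat_lit 5) (nat_lit 69) (nat_lit 5) (nat_lit 70) (nat_lit 5) (nat_lit 323) (nat_lit 283) (nat_lit 174)) (XT.lf (nat_lit 0) (nat_lit 10410985785) (nat_lit 304) (nat_lit 24621737216) (nat_lit 76) (nat_lit 7093606683) (nat_lit 62) (nat_lit 5) (nat_lit 66) (nat_lit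 5) (nat_lit 63) (nat_lit 5) (nat_lit 324) (nat_lit 283) (nat_lit 173))))) (XT.nd (nat_lit 312) (nat_lit 608) (nat_lit 0) (XT.nd (nat_lit 156) (nat_lit 456) (nat_lit 0) (XT.nd (nat_lit 78) (nat_lit 0) (nat_lit 0) (XT.lf (nat_lit 0) (nat_lit 8044640143) (nat_lit 228) (nat_lit 15546941115) (nat_lit 304) (nat_lit 20008319959) (nat_lit 59) (nat_lit 5) (nat_lit 62) (nat_lit 5) (nat_lit 63) (nat_lit 5) (nat_lit 325) (nat_lit 283) (nat_lit 172)) (XT.lf (nat_lit 0) (nat_lit 37725181593) (nat_lit 304) (nat_lit 2345308097) (nat_lit 76) (nat_lit 5067847014) (nat_lit 59) (nat_lit 5) (nat_lit 63) (nat_lit 5) (nat_lit 60) (nat_lit 5) (nat_lit 326) (nat_lit 283) (nat_lit 171))) (XT.nd (nat_lit 78) (nat_lit 228) (nat_lit 0) (XT.lf (nat_lit 0) (nat_lit 6168295648) (nat_lit 228) (nat_lit 13802251997) (nat_lit 76) (nat_lit 26767376531) (nat_lit 56) (nat_lit 5) (nat_lit 59) (nat_lit 5) (nat_lit 57) (nat_lit 5)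 (nat_lit 327) (nat_lit 283) (nat_lit 170)) (XT.lf (nat_lit 0) (nat_lit 20517669443) (nat_lit 304) (nat_lit 26470060159) (nat_lit 76) (nat_lit 1420298593) (nat_lit 53) (nat_lit 5) (nat_lit 57) (nat_lit 5) (nat_lit 54) (nat_lit 5) (nat_lit 328) (nat_lit 283) (nat_lit 169)))) (XT.nd (nat_lit 156) (nat_lit 380) (nat_lit 0) (XT.nd (nat_lit 78) (nat_lit 76) (nat_lit 0) (XT.lf (nat_lit 0) (nat_lit 9566202880) (nat_lit 152) (nat_lit 26446965149) (nat_lit 228) (nat_lit 14135613587) (nat_lit 51) (nat_lit 5) (nat_lit 53) (nat_lit 5) (nat_lit 54) (nat_lit 5) (nat_lit 329) (nat_lit 283) (nat_lit 168)) (XT.lf (nat_lit 0) (nat_lit 567893983) (nat_lit 228) (nat_lit 4030137020) (nat_lit 76) (nat_lit 47370446405) (nat_lit 50) (nat_lit 5) (nat_lit 53) (nat_lit 5) (nat_lit 51) (nat_lit 5) (nat_lit 330) (nat_lit 283) (nat_lit 167))) (XT.nd (nat_lit 78) (nat_lit 152) (nat_lit 0) (XT.lf (nat_lit 0) (nat_lit 16225416288)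 (nat_lit 304) (nat_lit 19171153043) (nat_lit 76) (nat_lit 18463057816) (nat_lit 47) (nat_lit 5) (nat_lit 51) (nat_lit 5) (nat_lit 48) (nat_lit 5) (nat_lit 331) (nat_lit 283) (nat_lit 166)) (XT.lf (nat_lit 0) (nat_lit 19912197508) (nat_lit 152) (nat_lit 13025753017) (nat_lit 228) (nat_lit 22899223032) (nat_lit 45) (nat_lit 5) (nat_lit 47) (nat_lit 5) (nat_lit 48) (nat_lit 5) (nat_lit 332) (nat_lit 283) (nat_lit 165))))))))
noncomputable def xc88 : XT := (XT.nd (nat_lit 36816) (nat_lit 0) (nat_lit 6840) (XT.nd (nat_lit 1092) (nat_lit 836) (nat_lit 0) (XT.nd (nat_lit 546) (nat_lit 608) (nat_lit 0) (XT.nd (nat_lit 234) (nat_lit 532) (nat_lit 0) (XT.nd (nat_lit 78) (nat_lit 228) (nat_lit 0) (XT.lf (nat_lit 0) (nat_lit 3393852214) (nat_lit 152) (nat_lit 47417385298) (nat_lit 228) (nat_lit 7092609097) (nat_lit 43) (nat_lit 5) (nat_lit 45) (nat_lit 5) (nat_lit 46) (nat_lit 5) (nat_lit 333) (nat_lit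 283) (nat_lit 164)) (XT.nd (nat_lit 78) (nat_lit 152) (nat_lit 0) (XT.lf (nat_lit 0) (nat_lit 9816598160) (nat_lit 228) (nat_lit 14872191176) (nat_lit 76) (nat_lit 35367394208) (nat_lit 42) (nat_lit 5) (nat_lit 45) (nat_lit 5) (nat_lit 43) (nat_lit 5) (nat_lit 334) (nat_lit 283) (nat_lit 163)) (XT.lf (nat_lit 0) (nat_lit 27194884496) (nat_lit 152) (nat_lit 485593530) (nat_lit 228) (nat_lit 34625878368) (nat_lit 40) (nat_lit 5) (nat_lit 42) (nat_lit 5) (nat_lit 43) (nat_lit 5) (nat_lit 335) (nat_lit 283) (nat_lit 162)))) (XT.nd (nat_lit 156) (nat_lit 304) (nat_lit 0) (XT.nd (nat_lit 78) (nat_lit 76) (nat_lit 0) (XT.lf (nat_lit 0) (nat_lit 6893512303) (nat_lit 152) (nat_lit 39997830987) (nat_lit 228) (nat_lit 17764083458) (nat_lit 38) (nat_lit 5) (nat_lit 40) (nat_lit 5) (nat_lit 41) (nat_lit 5) (nat_lit 336) (nat_lit 283) (nat_lit 161)) (XT.lf (nat_lit 0) (nat_lit 305316825) (nat_lit 228)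 (nat_lit 15397870898) (nat_lit 76) (nat_lit 51407881559) (nat_lit 37) (nat_lit 5) (nat_lit 40) (nat_lit 5) (nat_lit 38) (nat_lit 5) (nat_lit 337) (nat_lit 283) (nat_lit 160))) (XT.nd (nat_lit 78) (nat_lit 152) (nat_lit 0) (XT.lf (nat_lit 0) (nat_lit 19290041999) (nat_lit 228) (nat_lit 40305260841) (nat_lit 76) (nat_lit 10077539635) (nat_lit 35) (nat_lit 5) (nat_lit 38) (nat_lit 5) (nat_lit 36) (nat_lit 5) (nat_lit 338) (nat_lit 283) (nat_lit 159)) (XT.lf (nat_lit 0) (nat_lit 4247325362) (nat_lit 152) (nat_lit 35329984635) (nat_lit 228) (nat_lit 32774797314) (nat_lit 33) (nat_lit 5) (nat_lit 35) (nat_lit 5) (nat_lit 36) (nat_lit 5) (nat_lit 339) (nat_lit 283) (nat_lit 158))))) (XT.nd (nat_lit 234) (nat_lit 456) (nat_lit 0) (XT.nd (nat_lit 78) (nat_lit 152) (nat_lit 0) (XT.lf (nat_lit 0) (nat_lit 51859488937) (nat_lit 152) (nat_lit 9428456342) (nat_lit 228) (nat_lit 13865122072) (nat_lit 33)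 (nat_lit 5) (nat_lit 35) (nat_lit 5) (nat_lit 36) (nat_lit 5) (nat_lit 340) (nat_lit 283) (nat_lit 157)) (XT.nd (nat_lit 78) (nat_lit 0) (nat_lit 0) (XT.lf (nat_lit 0) (nat_lit 6273358578) (nat_lit 152) (nat_lit 54097020617) (nat_lit 76) (nat_lit 17709964459) (nat_lit 31) (nat_lit 5) (nat_lit 33) (nat_lit 5) (nat_lit 32) (nat_lit 5) (nat_lit 341) (nat_lit 283) (nat_lit 156)) (XT.lf (nat_lit 0) (nat_lit 27466459596) (nat_lit 152) (nat_lit 7283214525) (nat_lit 76) (nat_lit 46390159678) (nat_lit 31) (nat_lit 5) (nat_lit 33) (nat_lit 5) (nat_lit 32) (nat_lit 5) (nat_lit 342) (nat_lit 283) (nat_lit 155)))) (XT.nd (nat_lit 156) (nat_lit 228) (nat_lit 0) (XT.nd (nat_lit 78) (nat_lit 76) (nat_lit 0) (XT.lf (nat_lit 0) (nat_lit 42695103463) (nat_lit 152) (nat_lit 7429245626) (nat_lit 228) (nat_lit 34215797103) (nat_lit 29) (nat_lit 5) (nat_lit 31) (nat_lit 5) (nat_lit 32) (nat_lit 5) (nat_lit 343)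 (nat_lit 283) (nat_lit 154)) (XT.lf (nat_lit 0) (nat_lit 7559581277) (nat_lit 76) (nat_lit 66703121474) (nat_lit 152) (nat_lit 13427346021) (nat_lit 28) (nat_lit 5) (nat_lit 29) (nat_lit 5) (nat_lit 30) (nat_lit 4) (nat_lit 344) (nat_lit 283) (nat_lit 153))) (XT.nd (nat_lit 78) (nat_lit 152) (nat_lit 0) (XT.lf (nat_lit 0) (nat_lit 8739489061) (nat_lit 152) (nat_lit 31268874012) (nat_lit 76) (nat_lit 51181575834) (nat_lit 27) (nat_lit 5) (nat_lit 29) (nat_lit 5) (nat_lit 28) (nat_lit 5) (nat_lit 345) (nat_lit 283) (nat_lit 152)) (XT.lf (nat_lit 0) (nat_lit 20287583068) (nat_lit 152) (nat_lit 11642180245) (nat_lit 228) (nat_lit 62925289511) (nat_lit 25) (nat_lit 5) (nat_lit 27) (nat_lit 5) (nat_lit 28) (nat_lit 5) (nat_lit 346) (nat_lit 283) (nat_lit 151)))))) (XT.nd (nat_lit 546) (nat_lit 456) (nat_lit 0) (XT.nd (nat_lit 234) (nat_lit 228) (nat_lit 0) (XT.nd (nat_lit 78) (nat_lit 152) (nat_lit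 0) (XT.lf (nat_lit 0) (nat_lit 56774329477) (nat_lit 228) (nat_lit 23804491694) (nat_lit 76) (nat_lit 18109759314) (nat_lit 25) (nat_lit 5) (nat_lit 28) (nat_lit 5) (nat_lit 26) (nat_lit 4) (nat_lit 347) (nat_lit 283) (nat_lit 150)) (XT.nd (nat_lit 78) (nat_lit 76) (nat_lit 0) (XT.lf (nat_lit 0) (nat_lit 29955637606) (nat_lit 76) (nat_lit 53306479645) (nat_lit 152) (nat_lit 19439638803) (nat_lit 24) (nat_lit 5) (nat_lit 25) (nat_lit 5) (nat_lit 26) (nat_lit 4) (nat_lit 348) (nat_lit 283) (nat_lit 149)) (XT.lf (nat_lit 0) (nat_lit 4320652769) (nat_lit 152) (nat_lit 20057314681) (nat_lit 76) (nat_lit 82529131896) (nat_lit 23) (nat_lit 5) (nat_lit 25) (nat_lit 5) (nat_lit 24) (nat_lit 5) (nat_lit 349) (nat_lit 283) (nat_lit 148)))) (XT.nd (nat_lit 156) (nat_lit 76) (nat_lit 0) (XT.nd (nat_lit 78) (nat_lit 0) (nat_lit 0) (XT.lf (nat_lit 0) (nat_lit 29273198052) (nat_lit 228) (nat_lit 75609585674)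 (nat_lit 76) (nat_lit 6421964674) (nat_lit 21) (nat_lit 5) (nat_lit 24) (nat_lit 5) (nat_lit 22) (nat_lit 4) (nat_lit 350) (nat_lit 283) (nat_lit 147)) (XT.lf (nat_lit 0) (nat_lit 55923872548) (nat_lit 228) (nat_lit 21517170215) (nat_lit 76) (nat_lit 38467723197) (nat_lit 21) (nat_lit 5) (nat_lit 24) (nat_lit 5) (nat_lit 22) (nat_lit 4) (nat_lit 351) (nat_lit 283) (nat_lit 146))) (XT.nd (nat_lit 78) (nat_lit 0) (nat_lit 0) (XT.lf (nat_lit 0) (nat_lit 35974826014) (nat_lit 76) (nat_lit 48274193054) (nat_lit 152) (nat_lit 36483708240) (nat_lit 20) (nat_lit 5) (nat_lit 21) (nat_lit 5) (nat_lit 22) (nat_lit 4) (nat_lit 352) (nat_lit 283) (nat_lit 145)) (XT.lf (nat_lit 0) (nat_lit 96784230950) (nat_lit 76) (nat_lit 17423937258) (nat_lit 152) (nat_lit 11583187167) (nat_lit 20) (nat_lit 5) (nat_lit 21) (nat_lit 5) (nat_lit 22) (nat_lit 4) (nat_lit 353) (nat_lit 283) (nat_lit 144))))) (XT.nd (nat_lit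 234) (nat_lit 228) (nat_lit 0) (XT.nd (nat_lit 78) (nat_lit 76) (nat_lit 0) (XT.lf (nat_lit 0) (nat_lit 14710767180) (nat_lit 152) (nat_lit 101268844756) (nat_lit 76) (nat_lit 15106127233) (nat_lit 18) (nat_lit 5) (nat_lit 20) (nat_lit 5) (nat_lit 19) (nat_lit 4) (nat_lit 354) (nat_lit 283) (nat_lit 143)) (XT.nd (nat_lit 78) (nat_lit 76) (nat_lit 0) (XT.lf (nat_lit 0) (nat_lit 42555981501) (nat_lit 152) (nat_lit 44749812048) (nat_lit 76) (nat_lit 49321325329) (nat_lit 18) (nat_lit 5) (nat_lit 20) (nat_lit 5) (nat_lit 19) (nat_lit 4) (nat_lit 355) (nat_lit 283) (nat_lit 142)) (XT.lf (nat_lit 0) (nat_lit 14879357039) (nat_lit 76) (nat_lit 57053767276) (nat_lit 152) (nat_lit 70508254073) (nat_lit 17) (nat_lit 5) (nat_lit 18) (nat_lit 5) (nat_lit 19) (nat_lit 4) (nat_lit 356) (nat_lit 283) (nat_lit 141)))) (XT.nd (nat_lit 156) (nat_lit 228) (nat_lit 0) (XT.nd (nat_lit 78) (nat_lit 0) (nat_lit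 0) (XT.lf (nat_lit 0) (nat_lit 78419135654) (nat_lit 76) (nat_lit 24817389256) (nat_lit 152) (nat_lit 45296104748) (nat_lit 17) (nat_lit 5) (nat_lit 18) (nat_lit 5) (nat_lit 19) (nat_lit 4) (nat_lit 357) (nat_lit 283) (nat_lit 140)) (XT.lf (nat_lit 0) (nat_lit 136188776209) (nat_lit 152) (nat_lit 9885122065) (nat_lit 0) (nat_lit 8852035566) (nat_lit 17) (nat_lit 5) (nat_lit 19) (nat_lit 4) (nat_lit 17) (nat_lit 4) (nat_lit 358) (nat_lit 283) (nat_lit 139))) (XT.nd (nat_lit 156) (nat_lit 76) (nat_lit 0) (XT.lf (nat_lit 0) (nat_lit 9746879861) (nat_lit 152) (nat_lit 107555967908) (nat_lit 76) (nat_lit 44310146963) (nat_lit 15) (nat_lit 5) (nat_lit 17) (nat_lit 5) (nat_lit 16) (nat_lit 4) (nat_lit 359) (nat_lit 283) (nat_lit 138)) (XT.lf (nat_lit 0) (nat_lit 16022015986) (nat_lit 76) (nat_lit 54605658167) (nat_lit 152) (nat_lit 105356912755) (nat_lit 14) (nat_lit 5) (nat_lit 15) (nat_lit 5)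 (nat_lit 16) (nat_lit 4) (nat_lit 361) (nat_lit 283) (nat_lit 136))))))) (XT.nd (nat_lit 1092) (nat_lit 5624) (nat_lit 0) (XT.nd (nat_lit 546) (nat_lit 2052) (nat_lit 0) (XT.nd (nat_lit 234) (nat_lit 0) (nat_lit 152) (XT.nd (nat_lit 78) (nat_lit 0) (nat_lit 0) (XT.lf (nat_lit 0) (nat_lit 263851508) (nat_lit 0) (nat_lit 263851508) (nat_lit 1140) (nat_lit 6186957948) (nat_lit 205) (nat_lit 5) (nat_lit 205) (nat_lit 3) (nat_lit 220) (nat_lit 3) (nat_lit 284) (nat_lit 284) (nat_lit 212)) (XT.nd (nat_lit 78) (nat_lit 0) (nat_lit 76) (XT.lf (nat_lit 0) (nat_lit 1766685867) (nat_lit 1140) (nat_lit 2712638740) (nat_lit 1216) (nat_lit 9264568972) (nat_lit 205) (nat_lit 5) (nat_lit 220) (nat_lit 3) (nat_lit 221) (nat_lit 5) (nat_lit 285) (nat_lit 284) (nat_lit 211)) (XT.lf (nat_lit 0) (nat_lit 2612492061) (nat_lit 1140) (nat_lit 6007799606) (nat_lit 1216) (nat_lit 5450972611) (nat_lit 206) (nat_lit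 5) (nat_lit 221) (nat_lit 5) (nat_lit 222) (nat_lit 5) (nat_lit 286) (nat_lit 284) (nat_lit 210)))) (XT.nd (nat_lit 156) (nat_lit 0) (nat_lit 76) (XT.nd (nat_lit 78) (nat_lit 0) (nat_lit 0) (XT.lf (nat_lit 0) (nat_lit 3600593383) (nat_lit 1140) (nat_lit 9373627974) (nat_lit 1216) (nat_lit 1437819476) (nat_lit 207) (nat_lit 5) (nat_lit 222) (nat_lit 5) (nat_lit 223) (nat_lit 5) (nat_lit 287) (nat_lit 284) (nat_lit 209)) (XT.lf (nat_lit 76) (nat_lit 1922701537) (nat_lit 0) (nat_lit 2848925945) (nat_lit 1216) (nat_lit 9994258584) (nat_lit 208) (nat_lit 5) (nat_lit 207) (nat_lit 5) (nat_lit 223) (nat_lit 5) (nat_lit 288) (nat_lit 284) (nat_lit 208))) (XT.nd (nat_lit 78) (nat_lit 0) (nat_lit 76) (XT.lf (nat_lit 0) (nat_lit 6140606036) (nat_lit 1140) (nat_lit 1252762156) (nat_lit 1216) (nat_lit 7739907569) (nat_lit 208) (nat_lit 5) (nat_lit 223) (nat_lit 5) (nat_lit 224) (nat_lit 5) (nat_lit 289)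 (nat_lit 284) (nat_lit 207)) (XT.lf (nat_lit 0) (nat_lit 7714725951) (nat_lit 1140) (nat_lit 4465076803) (nat_lit 1216) (nat_lit 3335163779) (nat_lit 209) (nat_lit 5) (nat_lit 224) (nat_lit 5) (nat_lit 225) (nat_lit 5) (nat_lit 290) (nat_lit 284) (nat_lit 206))))) (XT.nd (nat_lit 234) (nat_lit 2356) (nat_lit 0) (XT.nd (nat_lit 78) (nat_lit 0) (nat_lit 76) (XT.lf (nat_lit 76) (nat_lit 8141054155) (nat_lit 0) (nat_lit 1362483433) (nat_lit 1216) (nat_lit 6408155508) (nat_lit 210) (nat_lit 5) (nat_lit 209) (nat_lit 5) (nat_lit 225) (nat_lit 5) (nat_lit 291) (nat_lit 284) (nat_lit 205)) (XT.nd (nat_lit 78) (nat_lit 0) (nat_lit 76) (XT.lf (nat_lit 76) (nat_lit 5125496997) (nat_lit 0) (nat_lit 6419446228) (nat_lit 1216) (nat_lit 4778447515) (nat_lit 211) (nat_lit 5) (nat_lit 210) (nat_lit 5) (nat_lit 226) (nat_lit 5) (nat_lit 292) (nat_lit 284) (nat_lit 204)) (XT.lf (nat_lit 76) (nat_lit 2031001697)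 (nat_lit 0) (nat_lit 11791525587) (nat_lit 1216) (nat_lit 2929150695) (nat_lit 212) (nat_lit 5) (nat_lit 211) (nat_lit 5) (nat_lit 227) (nat_lit 5) (nat_lit 293) (nat_lit 284) (nat_lit 203)))) (XT.nd (nat_lit 156) (nat_lit 1368) (nat_lit 0) (XT.nd (nat_lit 78) (nat_lit 1140) (nat_lit 0) (XT.lf (nat_lit 76) (nat_lit 16067713282) (nat_lit 0) (nat_lit 299403142) (nat_lit 1216) (nat_lit 829696006) (nat_lit 212) (nat_lit 5) (nat_lit 211) (nat_lit 5) (nat_lit 227) (nat_lit 5) (nat_lit 294) (nat_lit 284) (nat_lit 202)) (XT.lf (nat_lit 0) (nat_lit 1565647532) (nat_lit 1216) (nat_lit 4406634098) (nat_lit 76) (nat_lit 11685017890) (nat_lit 196) (nat_lit 5) (nat_lit 212) (nat_lit 5) (nat_lit 197) (nat_lit 5) (nat_lit 295) (nat_lit 284) (nat_lit 201))) (XT.nd (nat_lit 78) (nat_lit 608) (nat_lit 0) (XT.lf (nat_lit 0) (nat_lit 4214303381) (nat_lit 836) (nat_lit 7795136515) (nat_lit 76) (nat_lit 6126626936)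 (nat_lit 186) (nat_lit 5) (nat_lit 197) (nat_lit 5) (nat_lit 187) (nat_lit 5) (nat_lit 296) (nat_lit 284) (nat_lit 200)) (XT.lf (nat_lit 0) (nat_lit 7150616423) (nat_lit 684) (nat_lit 11294344424) (nat_lit 76) (nat_lit 189177261) (nat_lit 178) (nat_lit 5) (nat_lit 187) (nat_lit 5) (nat_lit 179) (nat_lit 5) (nat_lit 297) (nat_lit 284) (nat_lit 199)))))) (XT.nd (nat_lit 546) (nat_lit 2508) (nat_lit 0) (XT.nd (nat_lit 234) (nat_lit 2052) (nat_lit 0) (XT.nd (nat_lit 78) (nat_lit 532) (nat_lit 0) (XT.lf (nat_lit 0) (nat_lit 4177700610) (nat_lit 532) (nat_lit 6276086633) (nat_lit 608) (nat_lit 8696745709) (nat_lit 171) (nat_lit 5) (nat_lit 178) (nat_lit 5) (nat_lit 179) (nat_lit 5) (nat_lit 298) (nat_lit 284) (nat_lit 198)) (XT.nd (nat_lit 78) (nat_lit 0) (nat_lit 0) (XT.lf (nat_lit 0) (nat_lit 902544861) (nat_lit 532) (nat_lit 13186659526) (nat_lit 608) (nat_lit 5598550773) (nat_lit 164) (nat_lit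 5) (nat_lit 171) (nat_lit 5) (nat_lit 172) (nat_lit 5) (nat_lit 299) (nat_lit 284) (nat_lit 197)) (XT.lf (nat_lit 0) (nat_lit 17799060453) (nat_lit 532) (nat_lit 303513472) (nat_lit 608) (nat_lit 2143398397) (nat_lit 164) (nat_lit 5) (nat_lit 171) (nat_lit 5) (nat_lit 172) (nat_lit 5) (nat_lit 300) (nat_lit 284) (nat_lit 196)))) (XT.nd (nat_lit 156) (nat_lit 912) (nat_lit 0) (XT.nd (nat_lit 78) (nat_lit 532) (nat_lit 0) (XT.lf (nat_lit 0) (nat_lit 1708175945) (nat_lit 608) (nat_lit 5990911253) (nat_lit 76) (nat_lit 13125023904) (nat_lit 156) (nat_lit 5) (nat_lit 164) (nat_lit 5) (nat_lit 157) (nat_lit 5) (nat_lit 301) (nat_lit 284) (nat_lit 195)) (XT.lf (nat_lit 0) (nat_lit 5888235660) (nat_lit 608) (nat_lit 9701364993) (nat_lit 76) (nat_lit 5835529440) (nat_lit 149) (nat_lit 5) (nat_lit 157) (nat_lit 5) (nat_lit 150) (nat_lit 5) (nat_lit 302) (nat_lit 284) (nat_lit 194))) (XT.nd (nat_lit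 78) (nat_lit 456) (nat_lit 0) (XT.lf (nat_lit 0) (nat_lit 8461506516) (nat_lit 456) (nat_lit 2018677176) (nat_lit 532) (nat_lit 11569945961) (nat_lit 143) (nat_lit 5) (nat_lit 149) (nat_lit 5) (nat_lit 150) (nat_lit 5) (nat_lit 303) (nat_lit 284) (nat_lit 193)) (XT.lf (nat_lit 0) (nat_lit 4990437798) (nat_lit 456) (nat_lit 10559915416) (nat_lit 532) (nat_lit 7148582663) (nat_lit 137) (nat_lit 5) (nat_lit 143) (nat_lit 5) (nat_lit 144) (nat_lit 5) (nat_lit 304) (nat_lit 284) (nat_lit 192))))) (XT.nd (nat_lit 234) (nat_lit 1596) (nat_lit 0) (XT.nd (nat_lit 78) (nat_lit 532) (nat_lit 0) (XT.lf (nat_lit 0) (nat_lit 1356719532) (nat_lit 380) (nat_lit 19709102802) (nat_lit 456) (nat_lit 2308621017) (nat_lit 132) (nat_lit 5) (nat_lit 137) (nat_lit 5) (nat_lit 138) (nat_lit 5) (nat_lit 305) (nat_lit 284) (nat_lit 191)) (XT.nd (nat_lit 78) (nat_lit 456) (nat_lit 0) (XT.lf (nat_lit 0) (nat_lit 2993213470)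 (nat_lit 456) (nat_lit 2487995304) (nat_lit 76) (nat_lit 18593511445) (nat_lit 131) (nat_lit 5) (nat_lit 137) (nat_lit 5) (nat_lit 132) (nat_lit 5) (nat_lit 306) (nat_lit 284) (nat_lit 190)) (XT.lf (nat_lit 0) (nat_lit 8766040199) (nat_lit 532) (nat_lit 6563697029) (nat_lit 76) (nat_lit 9471991506) (nat_lit 125) (nat_lit 5) (nat_lit 132) (nat_lit 5) (nat_lit 126) (nat_lit 5) (nat_lit 307) (nat_lit 284) (nat_lit 189)))) (XT.nd (nat_lit 156) (nat_lit 836) (nat_lit 0) (XT.nd (nat_lit 78) (nat_lit 380) (nat_lit 0) (XT.lf (nat_lit 0) (nat_lit 14700422747) (nat_lit 380) (nat_lit 334238142) (nat_lit 456) (nat_lit 10524224514) (nat_lit 120) (nat_lit 5) (nat_lit 125) (nat_lit 5) (nat_lit 126) (nat_lit 5) (nat_lit 308) (nat_lit 284) (nat_lit 188)) (XT.lf (nat_lit 0) (nat_lit 10857322826) (nat_lit 380) (nat_lit 11065308610) (nat_lit 456) (nat_lit 4422102625) (nat_lit 115) (nat_lit 5) (nat_lit 120) (nat_lit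 5) (nat_lit 121) (nat_lit 5) (nat_lit 309) (nat_lit 284) (nat_lit 187))) (XT.nd (nat_lit 78) (nat_lit 380) (nat_lit 0) (XT.lf (nat_lit 0) (nat_lit 2158807533) (nat_lit 456) (nat_lit 20399358970) (nat_lit 76) (nat_lit 4604774447) (nat_lit 109) (nat_lit 5) (nat_lit 115) (nat_lit 5) (nat_lit 110) (nat_lit 5) (nat_lit 310) (nat_lit 284) (nat_lit 186)) (XT.lf (nat_lit 0) (nat_lit 2302127767) (nat_lit 380) (nat_lit 6956880640) (nat_lit 456) (nat_lit 18753295570) (nat_lit 104) (nat_lit 5) (nat_lit 109) (nat_lit 5) (nat_lit 110) (nat_lit 5) (nat_lit 311) (nat_lit 284) (nat_lit 185))))))))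
noncomputable def xc89 : XT := (XT.nd (nat_lit 2184) (nat_lit 1520) (nat_lit 0) (XT.nd (nat_lit 1092) (nat_lit 2052) (nat_lit 0) (XT.nd (nat_lit 546) (nat_lit 1596) (nat_lit 0) (XT.nd (nat_lit 234) (nat_lit 912) (nat_lit 0) (XT.nd (nat_lit 78) (nat_lit 684) (nat_lit 0) (XT.lf (nat_lit 0) (nat_lit 17003365950) (nat_lit 456) (nat_lit 2443766933) (nat_lit 76) (nat_lit 9448337703) (nat_lit 104) (nat_lit 5) (nat_lit 110) (nat_lit 5) (nat_lit 105) (nat_lit 5) (nat_lit 312) (nat_lit 284) (nat_lit 184)) (XT.nd (nat_lit 78) (nat_lit 380) (nat_lit 0) (XT.lf (nat_lit 0) (nat_lit 22334200190) (nat_lit 304) (nat_lit 3072772766) (nat_lit 380) (nat_lit 4407670983) (nat_lit 100) (nat_lit 5) (nat_lit 104) (nat_lit 5) (nat_lit 105) (nat_lit 5) (nat_lit 313) (nat_lit 284) (nat_lit 183)) (XT.lf (nat_lit 0) (nat_lit 3706746900) (nat_lit 380) (nat_lit 12988918610) (nat_lit 76) (nat_lit 14073430809) (nat_lit 95)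 (nat_lit 5) (nat_lit 100) (nat_lit 5) (nat_lit 96) (nat_lit 5) (nat_lit 314) (nat_lit 284) (nat_lit 182)))) (XT.nd (nat_lit 156) (nat_lit 304) (nat_lit 0) (XT.nd (nat_lit 78) (nat_lit 304) (nat_lit 0) (XT.lf (nat_lit 0) (nat_lit 12361433459) (nat_lit 380) (nat_lit 18919386245) (nat_lit 76) (nat_lit 482379491) (nat_lit 91) (nat_lit 5) (nat_lit 96) (nat_lit 5) (nat_lit 92) (nat_lit 5) (nat_lit 315) (nat_lit 284) (nat_lit 181)) (XT.lf (nat_lit 0) (nat_lit 7394274691) (nat_lit 304) (nat_lit 14417417821) (nat_lit 380) (nat_lit 10984437410) (nat_lit 87) (nat_lit 5) (nat_lit 91) (nat_lit 5) (nat_lit 92) (nat_lit 5) (nat_lit 316) (nat_lit 284) (nat_lit 180))) (XT.nd (nat_lit 78) (nat_lit 76) (nat_lit 0) (XT.lf (nat_lit 0) (nat_lit 1523688188) (nat_lit 228) (nat_lit 30442297280) (nat_lit 304) (nat_lit 1907783569) (nat_lit 84) (nat_lit 5) (nat_lit 87) (nat_lit 5) (nat_lit 88) (nat_lit 5) (nat_lit 317)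 (nat_lit 284) (nat_lit 179)) (XT.lf (nat_lit 0) (nat_lit 7872396898) (nat_lit 304) (nat_lit 4908859479) (nat_lit 76) (nat_lit 22209889211) (nat_lit 83) (nat_lit 5) (nat_lit 87) (nat_lit 5) (nat_lit 84) (nat_lit 5) (nat_lit 318) (nat_lit 284) (nat_lit 178))))) (XT.nd (nat_lit 234) (nat_lit 760) (nat_lit 0) (XT.nd (nat_lit 78) (nat_lit 532) (nat_lit 0) (XT.lf (nat_lit 0) (nat_lit 18383743057) (nat_lit 380) (nat_lit 11870341361) (nat_lit 76) (nat_lit 5901298088) (nat_lit 79) (nat_lit 5) (nat_lit 84) (nat_lit 5) (nat_lit 80) (nat_lit 5) (nat_lit 319) (nat_lit 284) (nat_lit 177)) (XT.nd (nat_lit 78) (nat_lit 304) (nat_lit 0) (XT.lf (nat_lit 0) (nat_lit 17868673138) (nat_lit 228) (nat_lit 11893473037) (nat_lit 304) (nat_lit 7605446678) (nat_lit 76) (nat_lit 5) (nat_lit 79) (nat_lit 5) (nat_lit 80) (nat_lit 5) (nat_lit 320) (nat_lit 284) (nat_lit 176)) (XT.lf (nat_lit 0) (nat_lit 3300503452) (nat_lit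 304) (nat_lit 27834270316) (nat_lit 76) (nat_lit 7496020617) (nat_lit 72) (nat_lit 5) (nat_lit 76) (nat_lit 5) (nat_lit 73) (nat_lit 5) (nat_lit 321) (nat_lit 284) (nat_lit 175)))) (XT.nd (nat_lit 156) (nat_lit 532) (nat_lit 0) (XT.nd (nat_lit 78) (nat_lit 0) (nat_lit 0) (XT.lf (nat_lit 0) (nat_lit 2906002053) (nat_lit 228) (nat_lit 12030828833) (nat_lit 304) (nat_lit 25007800424) (nat_lit 69) (nat_lit 5) (nat_lit 72) (nat_lit 5) (nat_lit 73) (nat_lit 5) (nat_lit 322) (nat_lit 284) (nat_lit 174)) (XT.lf (nat_lit 0) (nat_lit 27512011074) (nat_lit 304) (nat_lit 5645427699) (nat_lit 76) (nat_lit 8156015475) (nat_lit 69) (nat_lit 5) (nat_lit 73) (nat_lit 5) (nat_lit 70) (nat_lit 5) (nat_lit 323) (nat_lit 284) (nat_lit 173))) (XT.nd (nat_lit 78) (nat_lit 304) (nat_lit 0) (XT.lf (nat_lit 0) (nat_lit 27722885853) (nat_lit 228) (nat_lit 13371933491) (nat_lit 304) (nat_lit 1644537928) (nat_lit 66)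 (nat_lit 5) (nat_lit 69) (nat_lit 5) (nat_lit 70) (nat_lit 5) (nat_lit 324) (nat_lit 284) (nat_lit 172)) (XT.lf (nat_lit 0) (nat_lit 11209197417) (nat_lit 304) (nat_lit 25410908900) (nat_lit 76) (nat_lit 7604067525) (nat_lit 62) (nat_lit 5) (nat_lit 66) (nat_lit 5) (nat_lit 63) (nat_lit 5) (nat_lit 325) (nat_lit 284) (nat_lit 171)))))) (XT.nd (nat_lit 546) (nat_lit 912) (nat_lit 0) (XT.nd (nat_lit 234) (nat_lit 684) (nat_lit 0) (XT.nd (nat_lit 78) (nat_lit 228) (nat_lit 0) (XT.lf (nat_lit 0) (nat_lit 8876119916) (nat_lit 228) (nat_lit 16163606922) (nat_lit 304) (nat_lit 20731976771) (nat_lit 59) (nat_lit 5) (nat_lit 62) (nat_lit 5) (nat_lit 63) (nat_lit 5) (nat_lit 326) (nat_lit 284) (nat_lit 170)) (XT.nd (nat_lit 78) (nat_lit 228) (nat_lit 0) (XT.lf (nat_lit 0) (nat_lit 39868689325) (nat_lit 304) (nat_lit 2047434580) (nat_lit 76) (nat_lit 5471282964) (nat_lit 59) (nat_lit 5) (nat_lit 63)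 (nat_lit 5) (nat_lit 60) (nat_lit 5) (nat_lit 327) (nat_lit 284) (nat_lit 169)) (XT.lf (nat_lit 0) (nat_lit 6728170092) (nat_lit 228) (nat_lit 14084001534) (nat_lit 76) (nat_lit 28254985494) (nat_lit 56) (nat_lit 5) (nat_lit 59) (nat_lit 5) (nat_lit 57) (nat_lit 5) (nat_lit 328) (nat_lit 284) (nat_lit 168)))) (XT.nd (nat_lit 156) (nat_lit 304) (nat_lit 0) (XT.nd (nat_lit 78) (nat_lit 152) (nat_lit 0) (XT.lf (nat_lit 0) (nat_lit 21788325403) (nat_lit 304) (nat_lit 27390967196) (nat_lit 76) (nat_lit 1641680045) (nat_lit 53) (nat_lit 5) (nat_lit 57) (nat_lit 5) (nat_lit 54) (nat_lit 5) (nat_lit 329) (nat_lit 284) (nat_lit 167)) (XT.lf (nat_lit 0) (nat_lit 10435568662) (nat_lit 152) (nat_lit 27615133490) (nat_lit 228) (nat_lit 14598303906) (nat_lit 51) (nat_lit 5) (nat_lit 53) (nat_lit 5) (nat_lit 54) (nat_lit 5) (nat_lit 330) (nat_lit 284) (nat_lit 166))) (XT.nd (nat_lit 78) (nat_lit 228) (nat_lit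 0) (XT.lf (nat_lit 0) (nat_lit 824219422) (nat_lit 228) (nat_lit 3854573461) (nat_lit 76) (nat_lit 49881170272) (nat_lit 50) (nat_lit 5) (nat_lit 53) (nat_lit 5) (nat_lit 51) (nat_lit 5) (nat_lit 331) (nat_lit 284) (nat_lit 165)) (XT.lf (nat_lit 0) (nat_lit 17258684943) (nat_lit 304) (nat_lit 19758135788) (nat_lit 76) (nat_lit 19529032410) (nat_lit 47) (nat_lit 5) (nat_lit 51) (nat_lit 5) (nat_lit 48) (nat_lit 5) (nat_lit 332) (nat_lit 284) (nat_lit 164))))) (XT.nd (nat_lit 234) (nat_lit 532) (nat_lit 0) (XT.nd (nat_lit 78) (nat_lit 228) (nat_lit 0) (XT.lf (nat_lit 0) (nat_lit 21268731171) (nat_lit 152) (nat_lit 13531012816) (nat_lit 228) (nat_lit 23822750485) (nat_lit 45) (nat_lit 5) (nat_lit 47) (nat_lit 5) (nat_lit 48) (nat_lit 5) (nat_lit 333) (nat_lit 284) (nat_lit 163)) (XT.nd (nat_lit 78) (nat_lit 76) (nat_lit 0) (XT.lf (nat_lit 0) (nat_lit 3919109691) (nat_lit 152) (nat_lit 49642107265)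 (nat_lit 228) (nat_lit 7231452900) (nat_lit 43) (nat_lit 5) (nat_lit 45) (nat_lit 5) (nat_lit 46) (nat_lit 5) (nat_lit 334) (nat_lit 284) (nat_lit 162)) (XT.lf (nat_lit 0) (nat_lit 10508928903) (nat_lit 228) (nat_lit 15273077233) (nat_lit 76) (nat_lit 37270861526) (nat_lit 42) (nat_lit 5) (nat_lit 45) (nat_lit 5) (nat_lit 43) (nat_lit 5) (nat_lit 335) (nat_lit 284) (nat_lit 161)))) (XT.nd (nat_lit 156) (nat_lit 228) (nat_lit 0) (XT.nd (nat_lit 78) (nat_lit 152) (nat_lit 0) (XT.lf (nat_lit 0) (nat_lit 28887528123) (nat_lit 152) (nat_lit 372079395) (nat_lit 228) (nat_lit 36156137305) (nat_lit 40) (nat_lit 5) (nat_lit 42) (nat_lit 5) (nat_lit 43) (nat_lit 5) (nat_lit 336) (nat_lit 284) (nat_lit 160)) (XT.lf (nat_lit 0) (nat_lit 7566017661) (nat_lit 152) (nat_lit 41860120425) (nat_lit 228) (nat_lit 18456280576) (nat_lit 38) (nat_lit 5) (nat_lit 40) (nat_lit 5) (nat_lit 41) (nat_lit 5) (nat_lit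 337) (nat_lit 284) (nat_lit 159))) (XT.nd (nat_lit 78) (nat_lit 152) (nat_lit 0) (XT.lf (nat_lit 0) (nat_lit 503613382) (nat_lit 228) (nat_lit 15851835847) (nat_lit 76) (nat_lit 54105615474) (nat_lit 37) (nat_lit 5) (nat_lit 40) (nat_lit 5) (nat_lit 38) (nat_lit 5) (nat_lit 338) (nat_lit 284) (nat_lit 158)) (XT.lf (nat_lit 0) (nat_lit 20433054781) (nat_lit 228) (nat_lit 42009515315) (nat_lit 76) (nat_lit 10708495255) (nat_lit 35) (nat_lit 5) (nat_lit 38) (nat_lit 5) (nat_lit 36) (nat_lit 5) (nat_lit 339) (nat_lit 284) (nat_lit 157))))))) (XT.nd (nat_lit 1092) (nat_lit 380) (nat_lit 0) (XT.nd (nat_lit 546) (nat_lit 532) (nat_lit 0) (XT.nd (nat_lit 234) (nat_lit 304) (nat_lit 0) (XT.nd (nat_lit 78) (nat_lit 152) (nat_lit 0) (XT.lf (nat_lit 0) (nat_lit 4761785200) (nat_lit 152) (nat_lit 36967304379) (nat_lit 228) (nat_lit 34235374793) (nat_lit 33) (nat_lit 5) (nat_lit 35) (nat_lit 5) (nat_lit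 36) (nat_lit 5) (nat_lit 340) (nat_lit 284) (nat_lit 156)) (XT.nd (nat_lit 78) (nat_lit 152) (nat_lit 0) (XT.lf (nat_lit 0) (nat_lit 54740171546) (nat_lit 152) (nat_lit 9776851076) (nat_lit 228) (nat_lit 14388699712) (nat_lit 33) (nat_lit 5) (nat_lit 35) (nat_lit 5) (nat_lit 36) (nat_lit 5) (nat_lit 341) (nat_lit 284) (nat_lit 155)) (XT.lf (nat_lit 0) (nat_lit 6749358061) (nat_lit 152) (nat_lit 56515419867) (nat_lit 76) (nat_lit 18714659348) (nat_lit 31) (nat_lit 5) (nat_lit 33) (nat_lit 5) (nat_lit 32) (nat_lit 5) (nat_lit 342) (nat_lit 284) (nat_lit 154)))) (XT.nd (nat_lit 156) (nat_lit 152) (nat_lit 0) (XT.nd (nat_lit 78) (nat_lit 152) (nat_lit 0) (XT.lf (nat_lit 0) (nat_lit 28994384055) (nat_lit 152) (nat_lit 7374564031) (nat_lit 76) (nat_lit 48823188297) (nat_lit 31) (nat_lit 5) (nat_lit 33) (nat_lit 5) (nat_lit 32) (nat_lit 5) (nat_lit 343) (nat_lit 284) (nat_lit 153)) (XT.lf (nat_lit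 0) (nat_lit 45094849777) (nat_lit 152) (nat_lit 7685503527) (nat_lit 228) (nat_lit 35772257964) (nat_lit 29) (nat_lit 5) (nat_lit 31) (nat_lit 5) (nat_lit 32) (nat_lit 5) (nat_lit 344) (nat_lit 284) (nat_lit 152))) (XT.nd (nat_lit 78) (nat_lit 76) (nat_lit 0) (XT.lf (nat_lit 0) (nat_lit 8198291923) (nat_lit 76) (nat_lit 69923761017) (nat_lit 152) (nat_lit 13948065506) (nat_lit 28) (nat_lit 5) (nat_lit 29) (nat_lit 5) (nat_lit 30) (nat_lit 4) (nat_lit 345) (nat_lit 284) (nat_lit 151)) (XT.lf (nat_lit 0) (nat_lit 9317137928) (nat_lit 152) (nat_lit 32581159400) (nat_lit 76) (nat_lit 53846875469) (nat_lit 27) (nat_lit 5) (nat_lit 29) (nat_lit 5) (nat_lit 28) (nat_lit 5) (nat_lit 346) (nat_lit 284) (nat_lit 150))))) (XT.nd (nat_lit 234) (nat_lit 304) (nat_lit 0) (XT.nd (nat_lit 78) (nat_lit 76) (nat_lit 0) (XT.lf (nat_lit 0) (nat_lit 21545921132) (nat_lit 152) (nat_lit 12116651062) (nat_lit 228)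 (nat_lit 65931102866) (nat_lit 25) (nat_lit 5) (nat_lit 27) (nat_lit 5) (nat_lit 28) (nat_lit 5) (nat_lit 347) (nat_lit 284) (nat_lit 149)) (XT.nd (nat_lit 78) (nat_lit 76) (nat_lit 0) (XT.lf (nat_lit 0) (nat_lit 59743860616) (nat_lit 228) (nat_lit 24759426153) (nat_lit 76) (nat_lit 19115759457) (nat_lit 25) (nat_lit 5) (nat_lit 28) (nat_lit 5) (nat_lit 26) (nat_lit 4) (nat_lit 348) (nat_lit 284) (nat_lit 148)) (XT.lf (nat_lit 0) (nat_lit 31681965067) (nat_lit 76) (nat_lit 55870040362) (nat_lit 152) (nat_lit 20280997965) (nat_lit 24) (nat_lit 5) (nat_lit 25) (nat_lit 5) (nat_lit 26) (nat_lit 4) (nat_lit 349) (nat_lit 284) (nat_lit 147)))) (XT.nd (nat_lit 156) (nat_lit 76) (nat_lit 0) (XT.nd (nat_lit 78) (nat_lit 152) (nat_lit 0) (XT.lf (nat_lit 0) (nat_lit 4658660510) (nat_lit 152) (nat_lit 20840056208) (nat_lit 76) (nat_lit 86750044138) (nat_lit 23) (nat_lit 5) (nat_lit 25) (nat_lit 5) (nat_lit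 24) (nat_lit 5) (nat_lit 350) (nat_lit 284) (nat_lit 146)) (XT.lf (nat_lit 0) (nat_lit 30855998925) (nat_lit 228) (nat_lit 79173590221) (nat_lit 76) (nat_lit 6836789870) (nat_lit 21) (nat_lit 5) (nat_lit 24) (nat_lit 5) (nat_lit 22) (nat_lit 4) (nat_lit 351) (nat_lit 284) (nat_lit 145))) (XT.nd (nat_lit 78) (nat_lit 76) (nat_lit 0) (XT.lf (nat_lit 0) (nat_lit 58833533766) (nat_lit 228) (nat_lit 22386862309) (nat_lit 76) (nat_lit 40480373131) (nat_lit 21) (nat_lit 5) (nat_lit 24) (nat_lit 5) (nat_lit 22) (nat_lit 4) (nat_lit 352) (nat_lit 284) (nat_lit 144)) (XT.lf (nat_lit 0) (nat_lit 37973824012) (nat_lit 76) (nat_lit 50597635372) (nat_lit 152) (nat_lit 38194575062) (nat_lit 20) (nat_lit 5) (nat_lit 21) (nat_lit 5) (nat_lit 22) (nat_lit 4) (nat_lit 353) (nat_lit 284) (nat_lit 143)))))) (XT.nd (nat_lit 35256) (nat_lit 0) (nat_lit 14440) (XT.nd (nat_lit 234) (nat_lit 228) (nat_lit 0) (XT.nd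 (nat_lit 78) (nat_lit 152) (nat_lit 0) (XT.lf (nat_lit 0) (nat_lit 101814163162) (nat_lit 76) (nat_lit 18209165230) (nat_lit 152) (nat_lit 12054424059) (nat_lit 20) (nat_lit 5) (nat_lit 21) (nat_lit 5) (nat_lit 22) (nat_lit 4) (nat_lit 354) (nat_lit 284) (nat_lit 142)) (XT.nd (nat_lit 78) (nat_lit 0) (nat_lit 0) (XT.lf (nat_lit 0) (nat_lit 15549698503) (nat_lit 152) (nat_lit 106142672448) (nat_lit 76) (nat_lit 15944527367) (nat_lit 18) (nat_lit 5) (nat_lit 20) (nat_lit 5) (nat_lit 19) (nat_lit 4) (nat_lit 355) (nat_lit 284) (nat_lit 141)) (XT.lf (nat_lit 0) (nat_lit 44782250066) (nat_lit 152) (nat_lit 46806717369) (nat_lit 76) (nat_lit 51866528522) (nat_lit 18) (nat_lit 5) (nat_lit 20) (nat_lit 5) (nat_lit 19) (nat_lit 4) (nat_lit 356) (nat_lit 284) (nat_lit 140)))) (XT.nd (nat_lit 156) (nat_lit 152) (nat_lit 0) (XT.nd (nat_lit 78) (nat_lit 0) (nat_lit 0) (XT.lf (nat_lit 0) (nat_lit 15798733732)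 (nat_lit 76) (nat_lit 59826513402) (nat_lit 152) (nat_lit 73935312574) (nat_lit 17) (nat_lit 5) (nat_lit 18) (nat_lit 5) (nat_lit 19) (nat_lit 4) (nat_lit 357) (nat_lit 284) (nat_lit 139)) (XT.lf (nat_lit 0) (nat_lit 82507148475) (nat_lit 76) (nat_lit 25982123255) (nat_lit 152) (nat_lit 47467239316) (nat_lit 17) (nat_lit 5) (nat_lit 18) (nat_lit 5) (nat_lit 19) (nat_lit 4) (nat_lit 358) (nat_lit 284) (nat_lit 138))) (XT.nd (nat_lit 156) (nat_lit 152) (nat_lit 0) (XT.lf (nat_lit 0) (nat_lit 143085503053) (nat_lit 152) (nat_lit 10218355051) (nat_lit 0) (nat_lit 9365732379) (nat_lit 17) (nat_lit 5) (nat_lit 19) (nat_lit 4) (nat_lit 17) (nat_lit 4) (nat_lit 359) (nat_lit 284) (nat_lit 137)) (XT.lf (nat_lit 0) (nat_lit 41421030354) (nat_lit 152) (nat_lit 49644630022) (nat_lit 76) (nat_lit 85988905500) (nat_lit 15) (nat_lit 5) (nat_lit 17) (nat_lit 5) (nat_lit 16) (nat_lit 4) (nat_lit 361) (nat_lit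 284) (nat_lit 135))))) (XT.nd (nat_lit 312) (nat_lit 0) (nat_lit 152) (XT.nd (nat_lit 156) (nat_lit 0) (nat_lit 76) (XT.nd (nat_lit 78) (nat_lit 0) (nat_lit 0) (XT.lf (nat_lit 0) (nat_lit 569439356) (nat_lit 0) (nat_lit 569439356) (nat_lit 1140) (nat_lit 5893366619) (nat_lit 205) (nat_lit 5) (nat_lit 205) (nat_lit 3) (nat_lit 220) (nat_lit 3) (nat_lit 285) (nat_lit 285) (nat_lit 210)) (XT.lf (nat_lit 0) (nat_lit 2963553231) (nat_lit 1140) (nat_lit 2251404704) (nat_lit 1216) (nat_lit 9181722017) (nat_lit 205) (nat_lit 5) (nat_lit 220) (nat_lit 3) (nat_lit 221) (nat_lit 5) (nat_lit 286) (nat_lit 285) (nat_lit 209))) (XT.nd (nat_lit 78) (nat_lit 0) (nat_lit 76) (XT.lf (nat_lit 0) (nat_lit 3799806357) (nat_lit 1140) (nat_lit 5690866583) (nat_lit 1216) (nat_lit 5251356417) (nat_lit 206) (nat_lit 5) (nat_lit 221) (nat_lit 5) (nat_lit 222) (nat_lit 5) (nat_lit 287) (nat_lit 285) (nat_lit 208)) (XT.lf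 (nat_lit 0) (nat_lit 4788792900) (nat_lit 1140) (nat_lit 9207307297) (nat_lit 1216) (nat_lit 1105252397) (nat_lit 207) (nat_lit 5) (nat_lit 222) (nat_lit 5) (nat_lit 223) (nat_lit 5) (nat_lit 288) (nat_lit 285) (nat_lit 207)))) (XT.nd (nat_lit 156) (nat_lit 0) (nat_lit 152) (XT.nd (nat_lit 78) (nat_lit 0) (nat_lit 76) (XT.lf (nat_lit 76) (nat_lit 2635636482) (nat_lit 0) (nat_lit 3340663192) (nat_lit 1216) (nat_lit 9497902558) (nat_lit 208) (nat_lit 5) (nat_lit 207) (nat_lit 5) (nat_lit 223) (nat_lit 5) (nat_lit 289) (nat_lit 285) (nat_lit 206)) (XT.lf (nat_lit 0) (nat_lit 7364525119) (nat_lit 1140) (nat_lit 696223498) (nat_lit 1216) (nat_lit 7800736257) (nat_lit 208) (nat_lit 5) (nat_lit 223) (nat_lit 5) (nat_lit 224) (nat_lit 5) (nat_lit 290) (nat_lit 285) (nat_lit 205))) (XT.nd (nat_lit 78) (nat_lit 0) (nat_lit 0) (XT.lf (nat_lit 0) (nat_lit 8976802681) (nat_lit 1140) (nat_lit 4056961051)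 (nat_lit 1216) (nat_lit 3229758047) (nat_lit 209) (nat_lit 5) (nat_lit 224) (nat_lit 5) (nat_lit 225) (nat_lit 5) (nat_lit 291) (nat_lit 285) (nat_lit 204)) (XT.lf (nat_lit 76) (nat_lit 9161378373) (nat_lit 0) (nat_lit 1657841171) (nat_lit 1216) (nat_lit 5861983179) (nat_lit 210) (nat_lit 5) (nat_lit 209) (nat_lit 5) (nat_lit 225) (nat_lit 5) (nat_lit 292) (nat_lit 285) (nat_lit 203))))))))
noncomputable def xc90 : XT := (XT.nd (nat_lit 2184) (nat_lit 4104) (nat_lit 0) (XT.nd (nat_lit 1092) (nat_lit 4028) (nat_lit 0) (XT.nd (nat_lit 546) (nat_lit 2964) (nat_lit 0) (XT.nd (nat_lit 234) (nat_lit 2964) (nat_lit 0) (XT.nd (nat_lit 78) (nat_lit 0) (nat_lit 76) (XT.lf (nat_lit 76) (nat_lit 6004913339) (nat_lit 0) (nat_lit 6921667796) (nat_lit 1216) (nat_lit 4188028490) (nat_lit 211) (nat_lit 5) (nat_lit 210) (nat_lit 5) (nat_lit 226) (nat_lit 5) (nat_lit 293) (nat_lit 285) (nat_lit 202)) (XT.nd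 (nat_lit 78) (nat_lit 0) (nat_lit 0) (XT.lf (nat_lit 76) (nat_lit 2763758832) (nat_lit 0) (nat_lit 12520389480) (nat_lit 1216) (nat_lit 2281218795) (nat_lit 212) (nat_lit 5) (nat_lit 211) (nat_lit 5) (nat_lit 227) (nat_lit 5) (nat_lit 294) (nat_lit 285) (nat_lit 201)) (XT.lf (nat_lit 76) (nat_lit 17472248517) (nat_lit 0) (nat_lit 447028169) (nat_lit 1216) (nat_lit 114619440) (nat_lit 212) (nat_lit 5) (nat_lit 211) (nat_lit 5) (nat_lit 227) (nat_lit 5) (nat_lit 295) (nat_lit 285) (nat_lit 200)))) (XT.nd (nat_lit 156) (nat_lit 1140) (nat_lit 0) (XT.nd (nat_lit 78) (nat_lit 760) (nat_lit 0) (XT.lf (nat_lit 0) (nat_lit 2355073015) (nat_lit 1216) (nat_lit 4004864894) (nat_lit 76) (nat_lit 12158205478) (nat_lit 196) (nat_lit 5) (nat_lit 212) (nat_lit 5) (nat_lit 197) (nat_lit 5) (nat_lit 296) (nat_lit 285) (nat_lit 199)) (XT.lf (nat_lit 0) (nat_lit 5107348639) (nat_lit 836) (nat_lit 7558720427)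 (nat_lit 76) (nat_lit 6355677094) (nat_lit 186) (nat_lit 5) (nat_lit 197) (nat_lit 5) (nat_lit 187) (nat_lit 5) (nat_lit 297) (nat_lit 285) (nat_lit 198))) (XT.nd (nat_lit 78) (nat_lit 532) (nat_lit 0) (XT.lf (nat_lit 0) (nat_lit 8163375819) (nat_lit 684) (nat_lit 11230088121) (nat_lit 76) (nat_lit 152101253) (nat_lit 178) (nat_lit 5) (nat_lit 187) (nat_lit 5) (nat_lit 179) (nat_lit 5) (nat_lit 298) (nat_lit 285) (nat_lit 197)) (XT.lf (nat_lit 0) (nat_lit 4997529765) (nat_lit 532) (nat_lit 6608846823) (nat_lit 608) (nat_lit 8482192714) (nat_lit 171) (nat_lit 5) (nat_lit 178) (nat_lit 5) (nat_lit 179) (nat_lit 5) (nat_lit 299) (nat_lit 285) (nat_lit 196))))) (XT.nd (nat_lit 234) (nat_lit 1824) (nat_lit 0) (XT.nd (nat_lit 78) (nat_lit 608) (nat_lit 0) (XT.lf (nat_lit 0) (nat_lit 1560212243) (nat_lit 532) (nat_lit 13839071681) (nat_lit 608) (nat_lit 5254125368) (nat_lit 164) (nat_lit 5) (nat_lit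 171) (nat_lit 5) (nat_lit 172) (nat_lit 5) (nat_lit 300) (nat_lit 285) (nat_lit 195)) (XT.nd (nat_lit 78) (nat_lit 608) (nat_lit 0) (XT.lf (nat_lit 0) (nat_lit 19272385036) (nat_lit 532) (nat_lit 312097888) (nat_lit 608) (nat_lit 1655946466) (nat_lit 164) (nat_lit 5) (nat_lit 171) (nat_lit 5) (nat_lit 172) (nat_lit 5) (nat_lit 301) (nat_lit 285) (nat_lit 194)) (XT.lf (nat_lit 0) (nat_lit 2354570076) (nat_lit 608) (nat_lit 5694876610) (nat_lit 76) (nat_lit 13798542826) (nat_lit 156) (nat_lit 5) (nat_lit 164) (nat_lit 5) (nat_lit 157) (nat_lit 5) (nat_lit 302) (nat_lit 285) (nat_lit 193)))) (XT.nd (nat_lit 156) (nat_lit 836) (nat_lit 0) (XT.nd (nat_lit 78) (nat_lit 456) (nat_lit 0) (XT.lf (nat_lit 0) (nat_lit 6722851934) (nat_lit 608) (nat_lit 9591628121) (nat_lit 76) (nat_lit 6165226517) (nat_lit 149) (nat_lit 5) (nat_lit 157) (nat_lit 5) (nat_lit 150) (nat_lit 5) (nat_lit 303) (nat_lit 285)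 (nat_lit 192)) (XT.lf (nat_lit 0) (nat_lit 9462336994) (nat_lit 456) (nat_lit 2061890085) (nat_lit 532) (nat_lit 11612356706) (nat_lit 143) (nat_lit 5) (nat_lit 149) (nat_lit 5) (nat_lit 150) (nat_lit 5) (nat_lit 304) (nat_lit 285) (nat_lit 191))) (XT.nd (nat_lit 78) (nat_lit 380) (nat_lit 0) (XT.lf (nat_lit 0) (nat_lit 5816206873) (nat_lit 456) (nat_lit 11013002338) (nat_lit 532) (nat_lit 6989203475) (nat_lit 137) (nat_lit 5) (nat_lit 143) (nat_lit 5) (nat_lit 144) (nat_lit 5) (nat_lit 305) (nat_lit 285) (nat_lit 190)) (XT.lf (nat_lit 0) (nat_lit 1998611795) (nat_lit 380) (nat_lit 20604170699) (nat_lit 456) (nat_lit 1925463588) (nat_lit 132) (nat_lit 5) (nat_lit 137) (nat_lit 5) (nat_lit 138) (nat_lit 5) (nat_lit 306) (nat_lit 285) (nat_lit 189)))))) (XT.nd (nat_lit 546) (nat_lit 1900) (nat_lit 0) (XT.nd (nat_lit 234) (nat_lit 1216) (nat_lit 0) (XT.nd (nat_lit 78) (nat_lit 836) (nat_lit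 0) (XT.lf (nat_lit 0) (nat_lit 3608454356) (nat_lit 456) (nat_lit 2056030321) (nat_lit 76) (nat_lit 19599625630) (nat_lit 131) (nat_lit 5) (nat_lit 137) (nat_lit 5) (nat_lit 132) (nat_lit 5) (nat_lit 307) (nat_lit 285) (nat_lit 188)) (XT.nd (nat_lit 78) (nat_lit 380) (nat_lit 0) (XT.lf (nat_lit 0) (nat_lit 9653829305) (nat_lit 532) (nat_lit 6338529143) (nat_lit 76) (nat_lit 10035611618) (nat_lit 125) (nat_lit 5) (nat_lit 132) (nat_lit 5) (nat_lit 126) (nat_lit 5) (nat_lit 308) (nat_lit 285) (nat_lit 187)) (XT.lf (nat_lit 0) (nat_lit 15972934877) (nat_lit 380) (nat_lit 246708698) (nat_lit 456) (nat_lit 10603845284) (nat_lit 120) (nat_lit 5) (nat_lit 125) (nat_lit 5) (nat_lit 126) (nat_lit 5) (nat_lit 309) (nat_lit 285) (nat_lit 186)))) (XT.nd (nat_lit 156) (nat_lit 380) (nat_lit 0) (XT.nd (nat_lit 78) (nat_lit 456) (nat_lit 0) (XT.lf (nat_lit 0) (nat_lit 11934257983) (nat_lit 380) (nat_lit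 11503211845) (nat_lit 456) (nat_lit 4211612756) (nat_lit 115) (nat_lit 5) (nat_lit 120) (nat_lit 5) (nat_lit 121) (nat_lit 5) (nat_lit 310) (nat_lit 285) (nat_lit 185)) (XT.lf (nat_lit 0) (nat_lit 2675983508) (nat_lit 456) (nat_lit 20880678358) (nat_lit 76) (nat_lit 4951846728) (nat_lit 109) (nat_lit 5) (nat_lit 115) (nat_lit 5) (nat_lit 110) (nat_lit 5) (nat_lit 311) (nat_lit 285) (nat_lit 184))) (XT.nd (nat_lit 78) (nat_lit 0) (nat_lit 0) (XT.lf (nat_lit 0) (nat_lit 2940442462) (nat_lit 380) (nat_lit 7176293951) (nat_lit 456) (nat_lit 19284051495) (nat_lit 104) (nat_lit 5) (nat_lit 109) (nat_lit 5) (nat_lit 110) (nat_lit 5) (nat_lit 312) (nat_lit 285) (nat_lit 183)) (XT.lf (nat_lit 0) (nat_lit 18230688668) (nat_lit 456) (nat_lit 2057283832) (nat_lit 76) (nat_lit 10040682754) (nat_lit 104) (nat_lit 5) (nat_lit 110) (nat_lit 5) (nat_lit 105) (nat_lit 5) (nat_lit 313) (nat_lit 285) (nat_lit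 182))))) (XT.nd (nat_lit 234) (nat_lit 912) (nat_lit 0) (XT.nd (nat_lit 78) (nat_lit 684) (nat_lit 0) (XT.lf (nat_lit 0) (nat_lit 23945000682) (nat_lit 304) (nat_lit 3096265109) (nat_lit 380) (nat_lit 4252930851) (nat_lit 100) (nat_lit 5) (nat_lit 104) (nat_lit 5) (nat_lit 105) (nat_lit 5) (nat_lit 314) (nat_lit 285) (nat_lit 181)) (XT.nd (nat_lit 78) (nat_lit 304) (nat_lit 0) (XT.lf (nat_lit 0) (nat_lit 4248329374) (nat_lit 380) (nat_lit 13141461746) (nat_lit 76) (nat_lit 14906831172) (nat_lit 95) (nat_lit 5) (nat_lit 100) (nat_lit 5) (nat_lit 96) (nat_lit 5) (nat_lit 315) (nat_lit 285) (nat_lit 180)) (XT.lf (nat_lit 0) (nat_lit 13324759462) (nat_lit 380) (nat_lit 19373482412) (nat_lit 76) (nat_lit 642529663) (nat_lit 91) (nat_lit 5) (nat_lit 96) (nat_lit 5) (nat_lit 92) (nat_lit 5) (nat_lit 316) (nat_lit 285) (nat_lit 179)))) (XT.nd (nat_lit 156) (nat_lit 380) (nat_lit 0) (XT.nd (nat_lit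 78) (nat_lit 228) (nat_lit 0) (XT.lf (nat_lit 0) (nat_lit 8241762126) (nat_lit 304) (nat_lit 14993921313) (nat_lit 380) (nat_lit 11190031755) (nat_lit 87) (nat_lit 5) (nat_lit 91) (nat_lit 5) (nat_lit 92) (nat_lit 5) (nat_lit 317) (nat_lit 285) (nat_lit 178)) (XT.lf (nat_lit 0) (nat_lit 2072531278) (nat_lit 228) (nat_lit 31815148422) (nat_lit 304) (nat_lit 1669867333) (nat_lit 84) (nat_lit 5) (nat_lit 87) (nat_lit 5) (nat_lit 88) (nat_lit 5) (nat_lit 318) (nat_lit 285) (nat_lit 177))) (XT.nd (nat_lit 78) (nat_lit 304) (nat_lit 0) (XT.lf (nat_lit 0) (nat_lit 8577256195) (nat_lit 304) (nat_lit 4697764166) (nat_lit 76) (nat_lit 23456152436) (nat_lit 83) (nat_lit 5) (nat_lit 87) (nat_lit 5) (nat_lit 84) (nat_lit 5) (nat_lit 319) (nat_lit 285) (nat_lit 176)) (XT.lf (nat_lit 0) (nat_lit 19604983862) (nat_lit 380) (nat_lit 12012574979) (nat_lit 76) (nat_lit 6336347480) (nat_lit 79) (nat_lit 5) (nat_lit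 84) (nat_lit 5) (nat_lit 80) (nat_lit 5) (nat_lit 320) (nat_lit 285) (nat_lit 175))))))) (XT.nd (nat_lit 1092) (nat_lit 1520) (nat_lit 0) (XT.nd (nat_lit 546) (nat_lit 1064) (nat_lit 0) (XT.nd (nat_lit 234) (nat_lit 760) (nat_lit 0) (XT.nd (nat_lit 78) (nat_lit 532) (nat_lit 0) (XT.lf (nat_lit 0) (nat_lit 19200454295) (nat_lit 228) (nat_lit 12341682997) (nat_lit 304) (nat_lit 7684903735) (nat_lit 76) (nat_lit 5) (nat_lit 79) (nat_lit 5) (nat_lit 80) (nat_lit 5) (nat_lit 321) (nat_lit 285) (nat_lit 174)) (XT.nd (nat_lit 78) (nat_lit 228) (nat_lit 0) (XT.lf (nat_lit 0) (nat_lit 3751987378) (nat_lit 304) (nat_lit 28787030707) (nat_lit 76) (nat_lit 8014560488) (nat_lit 72) (nat_lit 5) (nat_lit 76) (nat_lit 5) (nat_lit 73) (nat_lit 5) (nat_lit 322) (nat_lit 285) (nat_lit 173)) (XT.lf (nat_lit 0) (nat_lit 3477672777) (nat_lit 228) (nat_lit 12482916048) (nat_lit 304) (nat_lit 25972812492) (nat_lit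 69) (nat_lit 5) (nat_lit 72) (nat_lit 5) (nat_lit 73) (nat_lit 5) (nat_lit 323) (nat_lit 285) (nat_lit 172)))) (XT.nd (nat_lit 156) (nat_lit 532) (nat_lit 0) (XT.nd (nat_lit 78) (nat_lit 228) (nat_lit 0) (XT.lf (nat_lit 0) (nat_lit 29152709762) (nat_lit 304) (nat_lit 5514941432) (nat_lit 76) (nat_lit 8703376093) (nat_lit 69) (nat_lit 5) (nat_lit 73) (nat_lit 5) (nat_lit 70) (nat_lit 5) (nat_lit 324) (nat_lit 285) (nat_lit 171)) (XT.lf (nat_lit 0) (nat_lit 29509956181) (nat_lit 228) (nat_lit 13895932489) (nat_lit 304) (nat_lit 1462606872) (nat_lit 66) (nat_lit 5) (nat_lit 69) (nat_lit 5) (nat_lit 70) (nat_lit 5) (nat_lit 325) (nat_lit 285) (nat_lit 170))) (XT.nd (nat_lit 78) (nat_lit 228) (nat_lit 0) (XT.lf (nat_lit 0) (nat_lit 12021505217) (nat_lit 304) (nat_lit 26280624253) (nat_lit 76) (nat_lit 8125568415) (nat_lit 62) (nat_lit 5) (nat_lit 66) (nat_lit 5) (nat_lit 63) (nat_lit 5) (nat_lit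 326) (nat_lit 285) (nat_lit 169)) (XT.lf (nat_lit 0) (nat_lit 9709266290) (nat_lit 228) (nat_lit 16826044640) (nat_lit 304) (nat_lit 21517546869) (nat_lit 59) (nat_lit 5) (nat_lit 62) (nat_lit 5) (nat_lit 63) (nat_lit 5) (nat_lit 327) (nat_lit 285) (nat_lit 168))))) (XT.nd (nat_lit 234) (nat_lit 608) (nat_lit 0) (XT.nd (nat_lit 78) (nat_lit 456) (nat_lit 0) (XT.lf (nat_lit 0) (nat_lit 42095455903) (nat_lit 304) (nat_lit 1773263069) (nat_lit 76) (nat_lit 5880941079) (nat_lit 59) (nat_lit 5) (nat_lit 63) (nat_lit 5) (nat_lit 60) (nat_lit 5) (nat_lit 328) (nat_lit 285) (nat_lit 167)) (XT.nd (nat_lit 78) (nat_lit 228) (nat_lit 0) (XT.lf (nat_lit 0) (nat_lit 7292659923) (nat_lit 228) (nat_lit 14417804275) (nat_lit 76) (nat_lit 29803099972) (nat_lit 56) (nat_lit 5) (nat_lit 59) (nat_lit 5) (nat_lit 57) (nat_lit 5) (nat_lit 329) (nat_lit 285) (nat_lit 166)) (XT.lf (nat_lit 0) (nat_lit 23099757535)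 (nat_lit 304) (nat_lit 28395349143) (nat_lit 76) (nat_lit 1860150916) (nat_lit 53) (nat_lit 5) (nat_lit 57) (nat_lit 5) (nat_lit 54) (nat_lit 5) (nat_lit 330) (nat_lit 285) (nat_lit 165)))) (XT.nd (nat_lit 156) (nat_lit 380) (nat_lit 0) (XT.nd (nat_lit 78) (nat_lit 76) (nat_lit 0) (XT.lf (nat_lit 0) (nat_lit 11312046086) (nat_lit 152) (nat_lit 28856044435) (nat_lit 228) (nat_lit 15106821950) (nat_lit 51) (nat_lit 5) (nat_lit 53) (nat_lit 5) (nat_lit 54) (nat_lit 5) (nat_lit 331) (nat_lit 285) (nat_lit 164)) (XT.lf (nat_lit 0) (nat_lit 1072170294) (nat_lit 228) (nat_lit 3705288157) (nat_lit 76) (nat_lit 52504209780) (nat_lit 50) (nat_lit 5) (nat_lit 53) (nat_lit 5) (nat_lit 51) (nat_lit 5) (nat_lit 332) (nat_lit 285) (nat_lit 163))) (XT.nd (nat_lit 78) (nat_lit 152) (nat_lit 0) (XT.lf (nat_lit 0) (nat_lit 18322977775) (nat_lit 304) (nat_lit 20409013183) (nat_lit 76) (nat_lit 20635027525) (nat_lit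 47) (nat_lit 5) (nat_lit 51) (nat_lit 5) (nat_lit 48) (nat_lit 5) (nat_lit 333) (nat_lit 285) (nat_lit 162)) (XT.lf (nat_lit 0) (nat_lit 22659536244) (nat_lit 152) (nat_lit 14075111890) (nat_lit 228) (nat_lit 24813041118) (nat_lit 45) (nat_lit 5) (nat_lit 47) (nat_lit 5) (nat_lit 48) (nat_lit 5) (nat_lit 334) (nat_lit 285) (nat_lit 161)))))) (XT.nd (nat_lit 546) (nat_lit 608) (nat_lit 0) (XT.nd (nat_lit 234) (nat_lit 532) (nat_lit 0) (XT.nd (nat_lit 78) (nat_lit 228) (nat_lit 0) (XT.lf (nat_lit 0) (nat_lit 4437572991) (nat_lit 152) (nat_lit 51991652720) (nat_lit 228) (nat_lit 7397300690) (nat_lit 43) (nat_lit 5) (nat_lit 45) (nat_lit 5) (nat_lit 46) (nat_lit 5) (nat_lit 335) (nat_lit 285) (nat_lit 160)) (XT.nd (nat_lit 78) (nat_lit 152) (nat_lit 0) (XT.lf (nat_lit 0) (nat_lit 11217142546) (nat_lit 228) (nat_lit 15725870775) (nat_lit 76) (nat_lit 39256942115) (nat_lit 42) (nat_lit 5) (nat_lit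 45) (nat_lit 5) (nat_lit 43) (nat_lit 5) (nat_lit 336) (nat_lit 285) (nat_lit 159)) (XT.lf (nat_lit 0) (nat_lit 30633854099) (nat_lit 152) (nat_lit 265700316) (nat_lit 228) (nat_lit 37781599517) (nat_lit 40) (nat_lit 5) (nat_lit 42) (nat_lit 5) (nat_lit 43) (nat_lit 5) (nat_lit 337) (nat_lit 285) (nat_lit 158)))) (XT.nd (nat_lit 156) (nat_lit 304) (nat_lit 0) (XT.nd (nat_lit 78) (nat_lit 76) (nat_lit 0) (XT.lf (nat_lit 0) (nat_lit 8241669785) (nat_lit 152) (nat_lit 43828317276) (nat_lit 228) (nat_lit 19201310429) (nat_lit 38) (nat_lit 5) (nat_lit 40) (nat_lit 5) (nat_lit 41) (nat_lit 5) (nat_lit 338) (nat_lit 285) (nat_lit 157)) (XT.lf (nat_lit 0) (nat_lit 694808305) (nat_lit 228) (nat_lit 16357871090) (nat_lit 76) (nat_lit 56926397233) (nat_lit 37) (nat_lit 5) (nat_lit 40) (nat_lit 5) (nat_lit 38) (nat_lit 5) (nat_lit 339) (nat_lit 285) (nat_lit 156))) (XT.nd (nat_lit 78) (nat_lit 152) (nat_lit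 0) (XT.lf (nat_lit 0) (nat_lit 21616621972) (nat_lit 228) (nat_lit 43827897142) (nat_lit 76) (nat_lit 11359184089) (nat_lit 35) (nat_lit 5) (nat_lit 38) (nat_lit 5) (nat_lit 36) (nat_lit 5) (nat_lit 340) (nat_lit 285) (nat_lit 155)) (XT.lf (nat_lit 0) (nat_lit 5273882233) (nat_lit 152) (nat_lit 38698499995) (nat_lit 228) (nat_lit 35785544996) (nat_lit 33) (nat_lit 5) (nat_lit 35) (nat_lit 5) (nat_lit 36) (nat_lit 5) (nat_lit 341) (nat_lit 285) (nat_lit 154))))) (XT.nd (nat_lit 312) (nat_lit 304) (nat_lit 0) (XT.nd (nat_lit 156) (nat_lit 152) (nat_lit 0) (XT.nd (nat_lit 78) (nat_lit 152) (nat_lit 0) (XT.lf (nat_lit 0) (nat_lit 57738139907) (nat_lit 152) (nat_lit 10154103532) (nat_lit 228) (nat_lit 14954231329) (nat_lit 33) (nat_lit 5) (nat_lit 35) (nat_lit 5) (nat_lit 36) (nat_lit 5) (nat_lit 342) (nat_lit 285) (nat_lit 153)) (XT.lf (nat_lit 0) (nat_lit 7234065469) (nat_lit 152) (nat_lit 59081370650)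 (nat_lit 76) (nat_lit 19758507206) (nat_lit 31) (nat_lit 5) (nat_lit 33) (nat_lit 5) (nat_lit 32) (nat_lit 5) (nat_lit 343) (nat_lit 285) (nat_lit 152))) (XT.nd (nat_lit 78) (nat_lit 152) (nat_lit 0) (XT.lf (nat_lit 0) (nat_lit 30584331358) (nat_lit 152) (nat_lit 7495844414) (nat_lit 76) (nat_lit 51367314274) (nat_lit 31) (nat_lit 5) (nat_lit 33) (nat_lit 5) (nat_lit 32) (nat_lit 5) (nat_lit 344) (nat_lit 285) (nat_lit 151)) (XT.lf (nat_lit 0) (nat_lit 47589947042) (nat_lit 152) (nat_lit 7965284935) (nat_lit 228) (nat_lit 37420889916) (nat_lit 29) (nat_lit 5) (nat_lit 31) (nat_lit 5) (nat_lit 32) (nat_lit 5) (nat_lit 345) (nat_lit 285) (nat_lit 150)))) (XT.nd (nat_lit 156) (nat_lit 152) (nat_lit 0) (XT.nd (nat_lit 78) (nat_lit 76) (nat_lit 0) (XT.lf (nat_lit 0) (nat_lit 8844697750) (nat_lit 76) (nat_lit 73316079198) (nat_lit 152) (nat_lit 14508826771) (nat_lit 28) (nat_lit 5) (nat_lit 29)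 (nat_lit 5) (nat_lit 30) (nat_lit 4) (nat_lit 346) (nat_lit 285) (nat_lit 149)) (XT.lf (nat_lit 0) (nat_lit 9910590664) (nat_lit 152) (nat_lit 33982409377) (nat_lit 76) (nat_lit 56635564678) (nat_lit 27) (nat_lit 5) (nat_lit 29) (nat_lit 5) (nat_lit 28) (nat_lit 5) (nat_lit 347) (nat_lit 285) (nat_lit 148))) (XT.nd (nat_lit 78) (nat_lit 0) (nat_lit 0) (XT.lf (nat_lit 0) (nat_lit 22844495111) (nat_lit 152) (nat_lit 12624852599) (nat_lit 228) (nat_lit 69100264703) (nat_lit 25) (nat_lit 5) (nat_lit 27) (nat_lit 5) (nat_lit 28) (nat_lit 5) (nat_lit 348) (nat_lit 285) (nat_lit 147)) (XT.lf (nat_lit 0) (nat_lit 62849706405) (nat_lit 228) (nat_lit 25783982381) (nat_lit 76) (nat_lit 20162714938) (nat_lit 25) (nat_lit 5) (nat_lit 28) (nat_lit 5) (nat_lit 26) (nat_lit 4) (nat_lit 349) (nat_lit 285) (nat_lit 146))))))))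
noncomputable def xc91 : XT := (XT.nd (nat_lit 36972) (nat_lit 0) (nat_lit 2888) (XT.nd (nat_lit 35880) (nat_lit 0) (nat_lit 11324) (XT.nd (nat_lit 546) (nat_lit 228) (nat_lit 0) (XT.nd (nat_lit 234) (nat_lit 228) (nat_lit 0) (XT.nd (nat_lit 78) (nat_lit 228) (nat_lit 0) (XT.lf (nat_lit 0) (nat_lit 33473360900) (nat_lit 76) (nat_lit 58571240099) (nat_lit 152) (nat_lit 21176569154) (nat_lit 24) (nat_lit 5) (nat_lit 25) (nat_lit 5) (nat_lit 26) (nat_lit 4) (nat_lit 350) (nat_lit 285) (nat_lit 145)) (XT.nd (nat_lit 78) (nat_lit 152) (nat_lit 0) (XT.lf (nat_lit 0) (nat_lit 5002228548) (nat_lit 152) (nat_lit 21682399875) (nat_lit 76) (nat_lit 91173220401) (nat_lit 23) (nat_lit 5) (nat_lit 25) (nat_lit 5) (nat_lit 24) (nat_lit 5) (nat_lit 351) (nat_lit 285) (nat_lit 144)) (XT.lf (nat_lit 0) (nat_lit 32506863243) (nat_lit 228) (nat_lit 82935920764) (nat_lit 76) (nat_lit 7263642480) (nat_lit 21)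 (nat_lit 5) (nat_lit 24) (nat_lit 5) (nat_lit 22) (nat_lit 4) (nat_lit 352) (nat_lit 285) (nat_lit 143)))) (XT.nd (nat_lit 156) (nat_lit 152) (nat_lit 0) (XT.nd (nat_lit 78) (nat_lit 76) (nat_lit 0) (XT.lf (nat_lit 0) (nat_lit 61878128904) (nat_lit 228) (nat_lit 23319206408) (nat_lit 76) (nat_lit 42585356661) (nat_lit 21) (nat_lit 5) (nat_lit 24) (nat_lit 5) (nat_lit 22) (nat_lit 4) (nat_lit 353) (nat_lit 285) (nat_lit 142)) (XT.lf (nat_lit 0) (nat_lit 40054153941) (nat_lit 76) (nat_lit 53045642006) (nat_lit 152) (nat_lit 40001520514) (nat_lit 20) (nat_lit 5) (nat_lit 21) (nat_lit 5) (nat_lit 22) (nat_lit 4) (nat_lit 354) (nat_lit 285) (nat_lit 141))) (XT.nd (nat_lit 78) (nat_lit 152) (nat_lit 0) (XT.lf (nat_lit 0) (nat_lit 107077860584) (nat_lit 76) (nat_lit 19041647173) (nat_lit 152) (nat_lit 12559256403) (nat_lit 20) (nat_lit 5) (nat_lit 21) (nat_lit 5) (nat_lit 22) (nat_lit 4) (nat_lit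 355) (nat_lit 285) (nat_lit 140)) (XT.lf (nat_lit 0) (nat_lit 16420963895) (nat_lit 152) (nat_lit 111277820088) (nat_lit 76) (nat_lit 16817122237) (nat_lit 18) (nat_lit 5) (nat_lit 20) (nat_lit 5) (nat_lit 19) (nat_lit 4) (nat_lit 356) (nat_lit 285) (nat_lit 139))))) (XT.nd (nat_lit 312) (nat_lit 152) (nat_lit 0) (XT.nd (nat_lit 78) (nat_lit 76) (nat_lit 0) (XT.lf (nat_lit 0) (nat_lit 47110677300) (nat_lit 152) (nat_lit 48983257063) (nat_lit 76) (nat_lit 54531634473) (nat_lit 18) (nat_lit 5) (nat_lit 20) (nat_lit 5) (nat_lit 19) (nat_lit 4) (nat_lit 357) (nat_lit 285) (nat_lit 138)) (XT.nd (nat_lit 78) (nat_lit 0) (nat_lit 0) (XT.lf (nat_lit 0) (nat_lit 16747771408) (nat_lit 76) (nat_lit 62745329106) (nat_lit 152) (nat_lit 77542868042) (nat_lit 17) (nat_lit 5) (nat_lit 18) (nat_lit 5) (nat_lit 19) (nat_lit 4) (nat_lit 358) (nat_lit 285) (nat_lit 137)) (XT.lf (nat_lit 0) (nat_lit 86784030651)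 (nat_lit 76) (nat_lit 27212172308) (nat_lit 152) (nat_lit 49755639224) (nat_lit 17) (nat_lit 5) (nat_lit 18) (nat_lit 5) (nat_lit 19) (nat_lit 4) (nat_lit 359) (nat_lit 285) (nat_lit 136)))) (XT.nd (nat_lit 34866) (nat_lit 0) (nat_lit 14440) (XT.nd (nat_lit 34788) (nat_lit 0) (nat_lit 14440) (XT.lf (nat_lit 0) (nat_lit 10913247180) (nat_lit 152) (nat_lit 118270992109) (nat_lit 76) (nat_lit 48989029303) (nat_lit 15) (nat_lit 5) (nat_lit 17) (nat_lit 5) (nat_lit 16) (nat_lit 4) (nat_lit 361) (nat_lit 285) (nat_lit 134)) (XT.lf (nat_lit 0) (nat_lit 863122455) (nat_lit 0) (nat_lit 863122455) (nat_lit 1140) (nat_lit 5641151299) (nat_lit 205) (nat_lit 5) (nat_lit 205) (nat_lit 3) (nat_lit 220) (nat_lit 3) (nat_lit 286) (nat_lit 286) (nat_lit 208))) (XT.nd (nat_lit 78) (nat_lit 0) (nat_lit 76) (XT.lf (nat_lit 0) (nat_lit 4117203066) (nat_lit 1140) (nat_lit 1822599906) (nat_lit 1216) (nat_lit 9145501628)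 (nat_lit 205) (nat_lit 5) (nat_lit 220) (nat_lit 3) (nat_lit 221) (nat_lit 5) (nat_lit 287) (nat_lit 286) (nat_lit 207)) (XT.lf (nat_lit 0) (nat_lit 4948245376) (nat_lit 1140) (nat_lit 5415479751) (nat_lit 1216) (nat_lit 5085656824) (nat_lit 206) (nat_lit 5) (nat_lit 221) (nat_lit 5) (nat_lit 222) (nat_lit 5) (nat_lit 288) (nat_lit 286) (nat_lit 206)))))) (XT.nd (nat_lit 546) (nat_lit 3268) (nat_lit 0) (XT.nd (nat_lit 234) (nat_lit 0) (nat_lit 152) (XT.nd (nat_lit 78) (nat_lit 0) (nat_lit 0) (XT.lf (nat_lit 0) (nat_lit 5942672317) (nat_lit 1140) (nat_lit 9091707061) (nat_lit 1216) (nat_lit 793659641) (nat_lit 207) (nat_lit 5) (nat_lit 222) (nat_lit 5) (nat_lit 223) (nat_lit 5) (nat_lit 289) (nat_lit 286) (nat_lit 205)) (XT.nd (nat_lit 78) (nat_lit 0) (nat_lit 76) (XT.lf (nat_lit 76) (nat_lit 3326873969) (nat_lit 0) (nat_lit 3824513539) (nat_lit 1216) (nat_lit 9069333780) (nat_lit 208) (nat_lit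 5) (nat_lit 207) (nat_lit 5) (nat_lit 223) (nat_lit 5) (nat_lit 290) (nat_lit 286) (nat_lit 204)) (XT.lf (nat_lit 0) (nat_lit 8564396527) (nat_lit 1140) (nat_lit 169423093) (nat_lit 1216) (nat_lit 7894930267) (nat_lit 208) (nat_lit 5) (nat_lit 223) (nat_lit 5) (nat_lit 224) (nat_lit 5) (nat_lit 291) (nat_lit 286) (nat_lit 203)))) (XT.nd (nat_lit 156) (nat_lit 0) (nat_lit 76) (XT.nd (nat_lit 78) (nat_lit 0) (nat_lit 0) (XT.lf (nat_lit 0) (nat_lit 10220509420) (nat_lit 1140) (nat_lit 3687138272) (nat_lit 1216) (nat_lit 3144385249) (nat_lit 209) (nat_lit 5) (nat_lit 224) (nat_lit 5) (nat_lit 225) (nat_lit 5) (nat_lit 292) (nat_lit 286) (nat_lit 202)) (XT.lf (nat_lit 76) (nat_lit 10175702629) (nat_lit 0) (nat_lit 1946840773) (nat_lit 1216) (nat_lit 5369068639) (nat_lit 210) (nat_lit 5) (nat_lit 209) (nat_lit 5) (nat_lit 225) (nat_lit 5) (nat_lit 293) (nat_lit 286) (nat_lit 201))) (XT.nd (nat_lit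 78) (nat_lit 0) (nat_lit 76) (XT.lf (nat_lit 76) (nat_lit 6870366709) (nat_lit 0) (nat_lit 7432149604) (nat_lit 1216) (nat_lit 3645192817) (nat_lit 211) (nat_lit 5) (nat_lit 210) (nat_lit 5) (nat_lit 226) (nat_lit 5) (nat_lit 294) (nat_lit 286) (nat_lit 200)) (XT.lf (nat_lit 76) (nat_lit 3474470174) (nat_lit 0) (nat_lit 13272746925) (nat_lit 1216) (nat_lit 1674745100) (nat_lit 212) (nat_lit 5) (nat_lit 211) (nat_lit 5) (nat_lit 227) (nat_lit 5) (nat_lit 295) (nat_lit 286) (nat_lit 199))))) (XT.nd (nat_lit 234) (nat_lit 1672) (nat_lit 0) (XT.nd (nat_lit 78) (nat_lit 684) (nat_lit 0) (XT.lf (nat_lit 0) (nat_lit 554830827) (nat_lit 1216) (nat_lit 29267925) (nat_lit 1292) (nat_lit 18330687794) (nat_lit 195) (nat_lit 5) (nat_lit 211) (nat_lit 5) (nat_lit 212) (nat_lit 5) (nat_lit 296) (nat_lit 286) (nat_lit 198)) (XT.nd (nat_lit 78) (nat_lit 760) (nat_lit 0) (XT.lf (nat_lit 0) (nat_lit 3117854426)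 (nat_lit 1216) (nat_lit 3640844276) (nat_lit 76) (nat_lit 12665378058) (nat_lit 196) (nat_lit 5) (nat_lit 212) (nat_lit 5) (nat_lit 197) (nat_lit 5) (nat_lit 297) (nat_lit 286) (nat_lit 197)) (XT.lf (nat_lit 0) (nat_lit 5981609575) (nat_lit 836) (nat_lit 7368699157) (nat_lit 76) (nat_lit 6603364632) (nat_lit 186) (nat_lit 5) (nat_lit 197) (nat_lit 5) (nat_lit 187) (nat_lit 5) (nat_lit 298) (nat_lit 286) (nat_lit 196)))) (XT.nd (nat_lit 156) (nat_lit 532) (nat_lit 0) (XT.nd (nat_lit 78) (nat_lit 532) (nat_lit 0) (XT.lf (nat_lit 0) (nat_lit 9165856242) (nat_lit 684) (nat_lit 11221094999) (nat_lit 76) (nat_lit 117497816) (nat_lit 178) (nat_lit 5) (nat_lit 187) (nat_lit 5) (nat_lit 179) (nat_lit 5) (nat_lit 299) (nat_lit 286) (nat_lit 195)) (XT.lf (nat_lit 0) (nat_lit 5801550584) (nat_lit 532) (nat_lit 6956482686) (nat_lit 608) (nat_lit 8317286223) (nat_lit 171) (nat_lit 5) (nat_lit 178) (nat_lit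 5) (nat_lit 179) (nat_lit 5) (nat_lit 300) (nat_lit 286) (nat_lit 194))) (XT.nd (nat_lit 78) (nat_lit 0) (nat_lit 0) (XT.lf (nat_lit 0) (nat_lit 2193814817) (nat_lit 532) (nat_lit 14524747876) (nat_lit 608) (nat_lit 4950525113) (nat_lit 164) (nat_lit 5) (nat_lit 171) (nat_lit 5) (nat_lit 172) (nat_lit 5) (nat_lit 301) (nat_lit 286) (nat_lit 193)) (XT.lf (nat_lit 0) (nat_lit 20765139490) (nat_lit 532) (nat_lit 321724317) (nat_lit 608) (nat_lit 1199404243) (nat_lit 164) (nat_lit 5) (nat_lit 171) (nat_lit 5) (nat_lit 172) (nat_lit 5) (nat_lit 302) (nat_lit 286) (nat_lit 192))))))) (XT.nd (nat_lit 1092) (nat_lit 3192) (nat_lit 0) (XT.nd (nat_lit 546) (nat_lit 2280) (nat_lit 0) (XT.nd (nat_lit 234) (nat_lit 1368) (nat_lit 0) (XT.nd (nat_lit 78) (nat_lit 988) (nat_lit 0) (XT.lf (nat_lit 0) (nat_lit 2981128815) (nat_lit 608) (nat_lit 5439411636) (nat_lit 76) (nat_lit 14504132305) (nat_lit 156) (nat_lit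 5) (nat_lit 164) (nat_lit 5) (nat_lit 157) (nat_lit 5) (nat_lit 303) (nat_lit 286) (nat_lit 191)) (XT.nd (nat_lit 78) (nat_lit 456) (nat_lit 0) (XT.lf (nat_lit 0) (nat_lit 7548975927) (nat_lit 608) (nat_lit 9531703748) (nat_lit 76) (nat_lit 6507882950) (nat_lit 149) (nat_lit 5) (nat_lit 157) (nat_lit 5) (nat_lit 150) (nat_lit 5) (nat_lit 304) (nat_lit 286) (nat_lit 190)) (XT.lf (nat_lit 0) (nat_lit 10459494798) (nat_lit 456) (nat_lit 2112629987) (nat_lit 532) (nat_lit 11706728233) (nat_lit 143) (nat_lit 5) (nat_lit 149) (nat_lit 5) (nat_lit 150) (nat_lit 5) (nat_lit 305) (nat_lit 286) (nat_lit 189)))) (XT.nd (nat_lit 156) (nat_lit 532) (nat_lit 0) (XT.nd (nat_lit 78) (nat_lit 380) (nat_lit 0) (XT.lf (nat_lit 0) (nat_lit 6629690402) (nat_lit 456) (nat_lit 11495707921) (nat_lit 532) (nat_lit 6869903267) (nat_lit 137) (nat_lit 5) (nat_lit 143) (nat_lit 5) (nat_lit 144) (nat_lit 5) (nat_lit 306)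 (nat_lit 286) (nat_lit 188)) (XT.lf (nat_lit 0) (nat_lit 2619228359) (nat_lit 380) (nat_lit 21552395341) (nat_lit 456) (nat_lit 1569502317) (nat_lit 132) (nat_lit 5) (nat_lit 137) (nat_lit 5) (nat_lit 138) (nat_lit 5) (nat_lit 307) (nat_lit 286) (nat_lit 187))) (XT.nd (nat_lit 78) (nat_lit 456) (nat_lit 0) (XT.lf (nat_lit 0) (nat_lit 4211172052) (nat_lit 456) (nat_lit 1654192610) (nat_lit 76) (nat_lit 20648938986) (nat_lit 131) (nat_lit 5) (nat_lit 137) (nat_lit 5) (nat_lit 132) (nat_lit 5) (nat_lit 308) (nat_lit 286) (nat_lit 186)) (XT.lf (nat_lit 0) (nat_lit 10544218817) (nat_lit 532) (nat_lit 6153548355) (nat_lit 76) (nat_lit 10619043480) (nat_lit 125) (nat_lit 5) (nat_lit 132) (nat_lit 5) (nat_lit 126) (nat_lit 5) (nat_lit 309) (nat_lit 286) (nat_lit 185))))) (XT.nd (nat_lit 234) (nat_lit 1064) (nat_lit 0) (XT.nd (nat_lit 78) (nat_lit 836) (nat_lit 0) (XT.lf (nat_lit 0) (nat_lit 17259101796)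 (nat_lit 380) (nat_lit 164494154) (nat_lit 456) (nat_lit 10728966840) (nat_lit 120) (nat_lit 5) (nat_lit 125) (nat_lit 5) (nat_lit 126) (nat_lit 5) (nat_lit 310) (nat_lit 286) (nat_lit 184)) (XT.nd (nat_lit 78) (nat_lit 456) (nat_lit 0) (XT.lf (nat_lit 0) (nat_lit 13015387222) (nat_lit 380) (nat_lit 11973735526) (nat_lit 456) (nat_lit 4030724005) (nat_lit 115) (nat_lit 5) (nat_lit 120) (nat_lit 5) (nat_lit 121) (nat_lit 5) (nat_lit 311) (nat_lit 286) (nat_lit 183)) (XT.lf (nat_lit 0) (nat_lit 3180971434) (nat_lit 456) (nat_lit 21436142153) (nat_lit 76) (nat_lit 5305410546) (nat_lit 109) (nat_lit 5) (nat_lit 115) (nat_lit 5) (nat_lit 110) (nat_lit 5) (nat_lit 312) (nat_lit 286) (nat_lit 182)))) (XT.nd (nat_lit 156) (nat_lit 684) (nat_lit 0) (XT.nd (nat_lit 78) (nat_lit 0) (nat_lit 0) (XT.lf (nat_lit 0) (nat_lit 3562029944) (nat_lit 380) (nat_lit 7418618199) (nat_lit 456) (nat_lit 19879175745)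 (nat_lit 104) (nat_lit 5) (nat_lit 109) (nat_lit 5) (nat_lit 110) (nat_lit 5) (nat_lit 313) (nat_lit 286) (nat_lit 181)) (XT.lf (nat_lit 0) (nat_lit 19484313278) (nat_lit 456) (nat_lit 1698768027) (nat_lit 76) (nat_lit 10651495274) (nat_lit 104) (nat_lit 5) (nat_lit 110) (nat_lit 5) (nat_lit 105) (nat_lit 5) (nat_lit 314) (nat_lit 286) (nat_lit 180))) (XT.nd (nat_lit 78) (nat_lit 380) (nat_lit 0) (XT.lf (nat_lit 0) (nat_lit 25590405348) (nat_lit 304) (nat_lit 3133031837) (nat_lit 380) (nat_lit 4125329157) (nat_lit 100) (nat_lit 5) (nat_lit 104) (nat_lit 5) (nat_lit 105) (nat_lit 5) (nat_lit 315) (nat_lit 286) (nat_lit 179)) (XT.lf (nat_lit 0) (nat_lit 4783870676) (nat_lit 380) (nat_lit 13347829351) (nat_lit 76) (nat_lit 15769840598) (nat_lit 95) (nat_lit 5) (nat_lit 100) (nat_lit 5) (nat_lit 96) (nat_lit 5) (nat_lit 316) (nat_lit 286) (nat_lit 178)))))) (XT.nd (nat_lit 546) (nat_lit 1444)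 (nat_lit 0) (XT.nd (nat_lit 234) (nat_lit 912) (nat_lit 0) (XT.nd (nat_lit 78) (nat_lit 532) (nat_lit 0) (XT.lf (nat_lit 0) (nat_lit 14304153289) (nat_lit 380) (nat_lit 19896013091) (nat_lit 76) (nat_lit 798040452) (nat_lit 91) (nat_lit 5) (nat_lit 96) (nat_lit 5) (nat_lit 92) (nat_lit 5) (nat_lit 317) (nat_lit 286) (nat_lit 177)) (XT.nd (nat_lit 78) (nat_lit 228) (nat_lit 0) (XT.lf (nat_lit 0) (nat_lit 9087205063) (nat_lit 304) (nat_lit 15612671891) (nat_lit 380) (nat_lit 11437853047) (nat_lit 87) (nat_lit 5) (nat_lit 91) (nat_lit 5) (nat_lit 92) (nat_lit 5) (nat_lit 318) (nat_lit 286) (nat_lit 176)) (XT.lf (nat_lit 0) (nat_lit 2604873199) (nat_lit 228) (nat_lit 33270519247) (nat_lit 304) (nat_lit 1451042864) (nat_lit 84) (nat_lit 5) (nat_lit 87) (nat_lit 5) (nat_lit 88) (nat_lit 5) (nat_lit 319) (nat_lit 286) (nat_lit 175)))) (XT.nd (nat_lit 156) (nat_lit 532) (nat_lit 0) (XT.nd (nat_lit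 78) (nat_lit 304) (nat_lit 0) (XT.lf (nat_lit 0) (nat_lit 9288422363) (nat_lit 304) (nat_lit 4518558691) (nat_lit 76) (nat_lit 24752106330) (nat_lit 83) (nat_lit 5) (nat_lit 87) (nat_lit 5) (nat_lit 84) (nat_lit 5) (nat_lit 320) (nat_lit 286) (nat_lit 174)) (XT.lf (nat_lit 0) (nat_lit 20859204622) (nat_lit 380) (nat_lit 12203876336) (nat_lit 76) (nat_lit 6780134911) (nat_lit 79) (nat_lit 5) (nat_lit 84) (nat_lit 5) (nat_lit 80) (nat_lit 5) (nat_lit 321) (nat_lit 286) (nat_lit 173))) (XT.nd (nat_lit 78) (nat_lit 304) (nat_lit 0) (XT.lf (nat_lit 0) (nat_lit 20558071115) (nat_lit 228) (nat_lit 12825920262) (nat_lit 304) (nat_lit 7796300599) (nat_lit 76) (nat_lit 5) (nat_lit 79) (nat_lit 5) (nat_lit 80) (nat_lit 5) (nat_lit 322) (nat_lit 286) (nat_lit 172)) (XT.lf (nat_lit 0) (nat_lit 4199413280) (nat_lit 304) (nat_lit 29828238818) (nat_lit 76) (nat_lit 8545663878) (nat_lit 72) (nat_lit 5) (nat_lit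 76) (nat_lit 5) (nat_lit 73) (nat_lit 5) (nat_lit 323) (nat_lit 286) (nat_lit 171))))) (XT.nd (nat_lit 312) (nat_lit 684) (nat_lit 0) (XT.nd (nat_lit 156) (nat_lit 532) (nat_lit 0) (XT.nd (nat_lit 78) (nat_lit 0) (nat_lit 0) (XT.lf (nat_lit 0) (nat_lit 4038287139) (nat_lit 228) (nat_lit 12971502461) (nat_lit 304) (nat_lit 27012606901) (nat_lit 69) (nat_lit 5) (nat_lit 72) (nat_lit 5) (nat_lit 73) (nat_lit 5) (nat_lit 324) (nat_lit 286) (nat_lit 170)) (XT.lf (nat_lit 0) (nat_lit 30850797072) (nat_lit 304) (nat_lit 5416305147) (nat_lit 76) (nat_lit 9265129791) (nat_lit 69) (nat_lit 5) (nat_lit 73) (nat_lit 5) (nat_lit 70) (nat_lit 5) (nat_lit 325) (nat_lit 286) (nat_lit 169))) (XT.nd (nat_lit 78) (nat_lit 304) (nat_lit 0) (XT.lf (nat_lit 0) (nat_lit 31349105724) (nat_lit 228) (nat_lit 14459574758) (nat_lit 304) (nat_lit 1296138166) (nat_lit 66) (nat_lit 5) (nat_lit 69) (nat_lit 5) (nat_lit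 70) (nat_lit 5) (nat_lit 326) (nat_lit 286) (nat_lit 168)) (XT.lf (nat_lit 0) (nat_lit 12851013975) (nat_lit 304) (nat_lit 27231090756) (nat_lit 76) (nat_lit 8660007845) (nat_lit 62) (nat_lit 5) (nat_lit 66) (nat_lit 5) (nat_lit 63) (nat_lit 5) (nat_lit 327) (nat_lit 286) (nat_lit 167)))) (XT.nd (nat_lit 156) (nat_lit 456) (nat_lit 0) (XT.nd (nat_lit 78) (nat_lit 0) (nat_lit 0) (XT.lf (nat_lit 0) (nat_lit 10547872805) (nat_lit 228) (nat_lit 17535154011) (nat_lit 304) (nat_lit 22365733745) (nat_lit 59) (nat_lit 5) (nat_lit 62) (nat_lit 5) (nat_lit 63) (nat_lit 5) (nat_lit 328) (nat_lit 286) (nat_lit 166)) (XT.lf (nat_lit 0) (nat_lit 44411867801) (nat_lit 304) (nat_lit 1520390404) (nat_lit 76) (nat_lit 6298429373) (nat_lit 59) (nat_lit 5) (nat_lit 63) (nat_lit 5) (nat_lit 60) (nat_lit 5) (nat_lit 329) (nat_lit 286) (nat_lit 165))) (XT.nd (nat_lit 78) (nat_lit 228) (nat_lit 0) (XT.lf (nat_lit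 0) (nat_lit 7864169405) (nat_lit 228) (nat_lit 14802733187) (nat_lit 76) (nat_lit 31416035200) (nat_lit 56) (nat_lit 5) (nat_lit 59) (nat_lit 5) (nat_lit 57) (nat_lit 5) (nat_lit 330) (nat_lit 286) (nat_lit 164)) (XT.lf (nat_lit 0) (nat_lit 24456120343) (nat_lit 304) (nat_lit 29483899899) (nat_lit 76) (nat_lit 2076865373) (nat_lit 53) (nat_lit 5) (nat_lit 57) (nat_lit 5) (nat_lit 54) (nat_lit 5) (nat_lit 331) (nat_lit 286) (nat_lit 163))))))))
noncomputable def xc92 : XT := (XT.nd (nat_lit 2262) (nat_lit 0) (nat_lit 0) (XT.nd (nat_lit 1092) (nat_lit 1064) (nat_lit 0) (XT.nd (nat_lit 546) (nat_lit 684) (nat_lit 0) (XT.nd (nat_lit 234) (nat_lit 532) (nat_lit 0) (XT.nd (nat_lit 78) (nat_lit 304) (nat_lit 0) (XT.lf (nat_lit 0) (nat_lit 12199370831) (nat_lit 152) (nat_lit 30172002458) (nat_lit 228) (nat_lit 15661349305) (nat_lit 51) (nat_lit 5) (nat_lit 53) (nat_lit 5) (nat_lit 54) (nat_lit 5)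 (nat_lit 332) (nat_lit 286) (nat_lit 162)) (XT.nd (nat_lit 78) (nat_lit 228) (nat_lit 0) (XT.lf (nat_lit 0) (nat_lit 1313297993) (nat_lit 228) (nat_lit 3580335806) (nat_lit 76) (nat_lit 55246409834) (nat_lit 50) (nat_lit 5) (nat_lit 53) (nat_lit 5) (nat_lit 51) (nat_lit 5) (nat_lit 333) (nat_lit 286) (nat_lit 161)) (XT.lf (nat_lit 0) (nat_lit 19421764837) (nat_lit 304) (nat_lit 21123768246) (nat_lit 76) (nat_lit 21784278669) (nat_lit 47) (nat_lit 5) (nat_lit 51) (nat_lit 5) (nat_lit 48) (nat_lit 5) (nat_lit 334) (nat_lit 286) (nat_lit 160)))) (XT.nd (nat_lit 156) (nat_lit 228) (nat_lit 0) (XT.nd (nat_lit 78) (nat_lit 152) (nat_lit 0) (XT.lf (nat_lit 0) (nat_lit 24089445949) (nat_lit 152) (nat_lit 14658730009) (nat_lit 228) (nat_lit 25871519123) (nat_lit 45) (nat_lit 5) (nat_lit 47) (nat_lit 5) (nat_lit 48) (nat_lit 5) (nat_lit 335) (nat_lit 286) (nat_lit 159)) (XT.lf (nat_lit 0) (nat_lit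 4951975736) (nat_lit 152) (nat_lit 54470999612) (nat_lit 228) (nat_lit 7589637512) (nat_lit 43) (nat_lit 5) (nat_lit 45) (nat_lit 5) (nat_lit 46) (nat_lit 5) (nat_lit 336) (nat_lit 286) (nat_lit 158))) (XT.nd (nat_lit 78) (nat_lit 152) (nat_lit 0) (XT.lf (nat_lit 0) (nat_lit 11943774910) (nat_lit 228) (nat_lit 16230204840) (nat_lit 76) (nat_lit 41330934357) (nat_lit 42) (nat_lit 5) (nat_lit 45) (nat_lit 5) (nat_lit 43) (nat_lit 5) (nat_lit 337) (nat_lit 286) (nat_lit 157)) (XT.lf (nat_lit 0) (nat_lit 32439423966) (nat_lit 152) (nat_lit 165622022) (nat_lit 228) (nat_lit 39505287516) (nat_lit 40) (nat_lit 5) (nat_lit 42) (nat_lit 5) (nat_lit 43) (nat_lit 5) (nat_lit 338) (nat_lit 286) (nat_lit 156))))) (XT.nd (nat_lit 234) (nat_lit 304) (nat_lit 0) (XT.nd (nat_lit 78) (nat_lit 228) (nat_lit 0) (XT.lf (nat_lit 0) (nat_lit 8923459615) (nat_lit 152) (nat_lit 45906527542) (nat_lit 228) (nat_lit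 20000120461) (nat_lit 38) (nat_lit 5) (nat_lit 40) (nat_lit 5) (nat_lit 41) (nat_lit 5) (nat_lit 339) (nat_lit 286) (nat_lit 155)) (XT.nd (nat_lit 78) (nat_lit 152) (nat_lit 0) (XT.lf (nat_lit 0) (nat_lit 880128542) (nat_lit 228) (nat_lit 16915849407) (nat_lit 76) (nat_lit 59877479893) (nat_lit 37) (nat_lit 5) (nat_lit 40) (nat_lit 5) (nat_lit 38) (nat_lit 5) (nat_lit 340) (nat_lit 286) (nat_lit 154)) (XT.lf (nat_lit 0) (nat_lit 22844314251) (nat_lit 228) (nat_lit 45763424480) (nat_lit 76) (nat_lit 12031691203) (nat_lit 35) (nat_lit 5) (nat_lit 38) (nat_lit 5) (nat_lit 36) (nat_lit 5) (nat_lit 341) (nat_lit 286) (nat_lit 153)))) (XT.nd (nat_lit 156) (nat_lit 152) (nat_lit 0) (XT.nd (nat_lit 78) (nat_lit 0) (nat_lit 0) (XT.lf (nat_lit 0) (nat_lit 5786109472) (nat_lit 152) (nat_lit 40527148710) (nat_lit 228) (nat_lit 37428247609) (nat_lit 33) (nat_lit 5) (nat_lit 35) (nat_lit 5) (nat_lit 36)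 (nat_lit 5) (nat_lit 342) (nat_lit 286) (nat_lit 152)) (XT.lf (nat_lit 0) (nat_lit 60861745119) (nat_lit 152) (nat_lit 10560593199) (nat_lit 228) (nat_lit 15562348004) (nat_lit 33) (nat_lit 5) (nat_lit 35) (nat_lit 5) (nat_lit 36) (nat_lit 5) (nat_lit 343) (nat_lit 286) (nat_lit 151))) (XT.nd (nat_lit 78) (nat_lit 0) (nat_lit 0) (XT.lf (nat_lit 0) (nat_lit 7729319313) (nat_lit 152) (nat_lit 61799774594) (nat_lit 76) (nat_lit 20844495960) (nat_lit 31) (nat_lit 5) (nat_lit 33) (nat_lit 5) (nat_lit 32) (nat_lit 5) (nat_lit 344) (nat_lit 286) (nat_lit 150)) (XT.lf (nat_lit 0) (nat_lit 32240738946) (nat_lit 152) (nat_lit 7646194169) (nat_lit 76) (nat_lit 54029073696) (nat_lit 31) (nat_lit 5) (nat_lit 33) (nat_lit 5) (nat_lit 32) (nat_lit 5) (nat_lit 345) (nat_lit 286) (nat_lit 149)))))) (XT.nd (nat_lit 546) (nat_lit 456) (nat_lit 0) (XT.nd (nat_lit 234) (nat_lit 304) (nat_lit 0) (XT.nd (nat_lit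 78) (nat_lit 152) (nat_lit 0) (XT.lf (nat_lit 0) (nat_lit 50187453262) (nat_lit 152) (nat_lit 8268770254) (nat_lit 228) (nat_lit 39164967566) (nat_lit 29) (nat_lit 5) (nat_lit 31) (nat_lit 5) (nat_lit 32) (nat_lit 5) (nat_lit 346) (nat_lit 286) (nat_lit 148)) (XT.nd (nat_lit 78) (nat_lit 76) (nat_lit 0) (XT.lf (nat_lit 0) (nat_lit 9501437156) (nat_lit 76) (nat_lit 76887670125) (nat_lit 152) (nat_lit 15110329778) (nat_lit 28) (nat_lit 5) (nat_lit 29) (nat_lit 5) (nat_lit 30) (nat_lit 4) (nat_lit 347) (nat_lit 286) (nat_lit 147)) (XT.lf (nat_lit 0) (nat_lit 10521853386) (nat_lit 152) (nat_lit 35474901280) (nat_lit 76) (nat_lit 59554731062) (nat_lit 27) (nat_lit 5) (nat_lit 29) (nat_lit 5) (nat_lit 28) (nat_lit 5) (nat_lit 348) (nat_lit 286) (nat_lit 146)))) (XT.nd (nat_lit 156) (nat_lit 152) (nat_lit 0) (XT.nd (nat_lit 78) (nat_lit 0) (nat_lit 0) (XT.lf (nat_lit 0) (nat_lit 24187425466) (nat_lit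 152) (nat_lit 13167541019) (nat_lit 228) (nat_lit 72439728454) (nat_lit 25) (nat_lit 5) (nat_lit 27) (nat_lit 5) (nat_lit 28) (nat_lit 5) (nat_lit 349) (nat_lit 286) (nat_lit 145)) (XT.lf (nat_lit 0) (nat_lit 66099813274) (nat_lit 228) (nat_lit 26879607732) (nat_lit 76) (nat_lit 21253542302) (nat_lit 25) (nat_lit 5) (nat_lit 28) (nat_lit 5) (nat_lit 26) (nat_lit 4) (nat_lit 350) (nat_lit 286) (nat_lit 144))) (XT.nd (nat_lit 78) (nat_lit 76) (nat_lit 0) (XT.lf (nat_lit 0) (nat_lit 35335053960) (nat_lit 76) (nat_lit 61416081213) (nat_lit 152) (nat_lit 22127933929) (nat_lit 24) (nat_lit 5) (nat_lit 25) (nat_lit 5) (nat_lit 26) (nat_lit 4) (nat_lit 351) (nat_lit 286) (nat_lit 143)) (XT.lf (nat_lit 0) (nat_lit 5352689193) (nat_lit 152) (nat_lit 22585423139) (nat_lit 76) (nat_lit 95809590316) (nat_lit 23) (nat_lit 5) (nat_lit 25) (nat_lit 5) (nat_lit 24) (nat_lit 5) (nat_lit 352) (nat_lit 286)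 (nat_lit 142))))) (XT.nd (nat_lit 234) (nat_lit 228) (nat_lit 0) (XT.nd (nat_lit 78) (nat_lit 76) (nat_lit 0) (XT.lf (nat_lit 0) (nat_lit 34230223976) (nat_lit 228) (nat_lit 86904622500) (nat_lit 76) (nat_lit 7703934008) (nat_lit 21) (nat_lit 5) (nat_lit 24) (nat_lit 5) (nat_lit 22) (nat_lit 4) (nat_lit 353) (nat_lit 286) (nat_lit 141)) (XT.nd (nat_lit 78) (nat_lit 76) (nat_lit 0) (XT.lf (nat_lit 0) (nat_lit 65065385417) (nat_lit 228) (nat_lit 24315553108) (nat_lit 76) (nat_lit 44788062021) (nat_lit 21) (nat_lit 5) (nat_lit 24) (nat_lit 5) (nat_lit 22) (nat_lit 4) (nat_lit 354) (nat_lit 286) (nat_lit 140)) (XT.lf (nat_lit 0) (nat_lit 42221613318) (nat_lit 76) (nat_lit 55623660946) (nat_lit 152) (nat_lit 41908369055) (nat_lit 20) (nat_lit 5) (nat_lit 21) (nat_lit 5) (nat_lit 22) (nat_lit 4) (nat_lit 355) (nat_lit 286) (nat_lit 139)))) (XT.nd (nat_lit 156) (nat_lit 76) (nat_lit 0) (XT.nd (nat_lit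 78) (nat_lit 152) (nat_lit 0) (XT.lf (nat_lit 0) (nat_lit 112588659976) (nat_lit 76) (nat_lit 19923002713) (nat_lit 152) (nat_lit 13098431143) (nat_lit 20) (nat_lit 5) (nat_lit 21) (nat_lit 5) (nat_lit 22) (nat_lit 4) (nat_lit 356) (nat_lit 286) (nat_lit 138)) (XT.lf (nat_lit 0) (nat_lit 17327073737) (nat_lit 152) (nat_lit 116685714736) (nat_lit 76) (nat_lit 17726339801) (nat_lit 18) (nat_lit 5) (nat_lit 20) (nat_lit 5) (nat_lit 19) (nat_lit 4) (nat_lit 357) (nat_lit 286) (nat_lit 137))) (XT.nd (nat_lit 78) (nat_lit 76) (nat_lit 0) (XT.lf (nat_lit 0) (nat_lit 49547222258) (nat_lit 152) (nat_lit 51283851958) (nat_lit 76) (nat_lit 57323322342) (nat_lit 18) (nat_lit 5) (nat_lit 20) (nat_lit 5) (nat_lit 19) (nat_lit 4) (nat_lit 358) (nat_lit 286) (nat_lit 136)) (XT.lf (nat_lit 0) (nat_lit 17729469266) (nat_lit 76) (nat_lit 65816826885) (nat_lit 152) (nat_lit 81339095198) (nat_lit 17) (nat_lit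 5) (nat_lit 18) (nat_lit 5) (nat_lit 19) (nat_lit 4) (nat_lit 359) (nat_lit 286) (nat_lit 135))))))) (XT.nd (nat_lit 35880) (nat_lit 0) (nat_lit 6992) (XT.nd (nat_lit 35334) (nat_lit 0) (nat_lit 12844) (XT.nd (nat_lit 35022) (nat_lit 0) (nat_lit 14364) (XT.nd (nat_lit 34866) (nat_lit 0) (nat_lit 14288) (XT.lf (nat_lit 0) (nat_lit 157906710658) (nat_lit 152) (nat_lit 10979906978) (nat_lit 0) (nat_lit 10451919567) (nat_lit 17) (nat_lit 5) (nat_lit 19) (nat_lit 4) (nat_lit 17) (nat_lit 4) (nat_lit 361) (nat_lit 286) (nat_lit 133)) (XT.nd (nat_lit 78) (nat_lit 0) (nat_lit 0) (XT.lf (nat_lit 0) (nat_lit 1146832892) (nat_lit 0) (nat_lit 1146832892) (nat_lit 1140) (nat_lit 5427169270) (nat_lit 205) (nat_lit 5) (nat_lit 205) (nat_lit 3) (nat_lit 220) (nat_lit 3) (nat_lit 287) (nat_lit 287) (nat_lit 206)) (XT.lf (nat_lit 0) (nat_lit 5235056120) (nat_lit 1140) (nat_lit 1422686788) (nat_lit 1216) (nat_lit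 9153519123) (nat_lit 205) (nat_lit 5) (nat_lit 220) (nat_lit 3) (nat_lit 221) (nat_lit 5) (nat_lit 288) (nat_lit 287) (nat_lit 205)))) (XT.nd (nat_lit 156) (nat_lit 0) (nat_lit 76) (XT.nd (nat_lit 78) (nat_lit 0) (nat_lit 76) (XT.lf (nat_lit 0) (nat_lit 6064998871) (nat_lit 1140) (nat_lit 5178380576) (nat_lit 1216) (nat_lit 4951488497) (nat_lit 206) (nat_lit 5) (nat_lit 221) (nat_lit 5) (nat_lit 222) (nat_lit 5) (nat_lit 289) (nat_lit 287) (nat_lit 204)) (XT.lf (nat_lit 0) (nat_lit 7069229762) (nat_lit 1140) (nat_lit 9023874635) (nat_lit 1216) (nat_lit 500593983) (nat_lit 207) (nat_lit 5) (nat_lit 222) (nat_lit 5) (nat_lit 223) (nat_lit 5) (nat_lit 290) (nat_lit 287) (nat_lit 203))) (XT.nd (nat_lit 78) (nat_lit 0) (nat_lit 76) (XT.lf (nat_lit 76) (nat_lit 4000660446) (nat_lit 0) (nat_lit 4303101745) (nat_lit 1216) (nat_lit 8703332074) (nat_lit 208) (nat_lit 5) (nat_lit 207) (nat_lit 5) (nat_lit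 223) (nat_lit 5) (nat_lit 291) (nat_lit 287) (nat_lit 202)) (XT.lf (nat_lit 76) (nat_lit 338101589) (nat_lit 0) (nat_lit 9412091473) (nat_lit 1216) (nat_lit 7686487087) (nat_lit 209) (nat_lit 5) (nat_lit 208) (nat_lit 5) (nat_lit 224) (nat_lit 5) (nat_lit 292) (nat_lit 287) (nat_lit 201))))) (XT.nd (nat_lit 234) (nat_lit 1748) (nat_lit 0) (XT.nd (nat_lit 78) (nat_lit 0) (nat_lit 0) (XT.lf (nat_lit 0) (nat_lit 11452502333) (nat_lit 1140) (nat_lit 3352065859) (nat_lit 1216) (nat_lit 3077694580) (nat_lit 209) (nat_lit 5) (nat_lit 224) (nat_lit 5) (nat_lit 225) (nat_lit 5) (nat_lit 293) (nat_lit 287) (nat_lit 200)) (XT.nd (nat_lit 78) (nat_lit 0) (nat_lit 76) (XT.lf (nat_lit 76) (nat_lit 11189027749) (nat_lit 0) (nat_lit 2231128429) (nat_lit 1216) (nat_lit 4924584475) (nat_lit 210) (nat_lit 5) (nat_lit 209) (nat_lit 5) (nat_lit 225) (nat_lit 5) (nat_lit 294) (nat_lit 287) (nat_lit 199)) (XT.lf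 (nat_lit 76) (nat_lit 7726545093) (nat_lit 0) (nat_lit 7952871296) (nat_lit 1216) (nat_lit 3145151236) (nat_lit 211) (nat_lit 5) (nat_lit 210) (nat_lit 5) (nat_lit 226) (nat_lit 5) (nat_lit 295) (nat_lit 287) (nat_lit 198)))) (XT.nd (nat_lit 156) (nat_lit 684) (nat_lit 0) (XT.nd (nat_lit 78) (nat_lit 1216) (nat_lit 0) (XT.lf (nat_lit 76) (nat_lit 4167489284) (nat_lit 0) (nat_lit 14050976535) (nat_lit 1216) (nat_lit 1104936201) (nat_lit 212) (nat_lit 5) (nat_lit 211) (nat_lit 5) (nat_lit 227) (nat_lit 5) (nat_lit 296) (nat_lit 287) (nat_lit 197)) (XT.lf (nat_lit 76) (nat_lit 486059744) (nat_lit 0) (nat_lit 711464084) (nat_lit 1292) (nat_lit 18643960203) (nat_lit 196) (nat_lit 5) (nat_lit 195) (nat_lit 5) (nat_lit 212) (nat_lit 5) (nat_lit 297) (nat_lit 287) (nat_lit 196))) (XT.nd (nat_lit 78) (nat_lit 760) (nat_lit 0) (XT.lf (nat_lit 0) (nat_lit 3858806341) (nat_lit 1216) (nat_lit 3311082532)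 (nat_lit 76) (nat_lit 13207274903) (nat_lit 196) (nat_lit 5) (nat_lit 212) (nat_lit 5) (nat_lit 197) (nat_lit 5) (nat_lit 298) (nat_lit 287) (nat_lit 195)) (XT.lf (nat_lit 0) (nat_lit 6842044706) (nat_lit 836) (nat_lit 7221980109) (nat_lit 76) (nat_lit 6869953439) (nat_lit 186) (nat_lit 5) (nat_lit 197) (nat_lit 5) (nat_lit 187) (nat_lit 5) (nat_lit 299) (nat_lit 287) (nat_lit 194)))))) (XT.nd (nat_lit 546) (nat_lit 2584) (nat_lit 0) (XT.nd (nat_lit 234) (nat_lit 1596) (nat_lit 0) (XT.nd (nat_lit 78) (nat_lit 1064) (nat_lit 0) (XT.lf (nat_lit 0) (nat_lit 10163207224) (nat_lit 684) (nat_lit 11264691674) (nat_lit 76) (nat_lit 85088354) (nat_lit 178) (nat_lit 5) (nat_lit 187) (nat_lit 5) (nat_lit 179) (nat_lit 5) (nat_lit 300) (nat_lit 287) (nat_lit 193)) (XT.nd (nat_lit 78) (nat_lit 532) (nat_lit 0) (XT.lf (nat_lit 0) (nat_lit 6594253356) (nat_lit 532) (nat_lit 7319901851) (nat_lit 608) (nat_lit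 8198895543) (nat_lit 171) (nat_lit 5) (nat_lit 178) (nat_lit 5) (nat_lit 179) (nat_lit 5) (nat_lit 301) (nat_lit 287) (nat_lit 192)) (XT.lf (nat_lit 0) (nat_lit 2807443846) (nat_lit 532) (nat_lit 15245291494) (nat_lit 608) (nat_lit 4684394657) (nat_lit 164) (nat_lit 5) (nat_lit 171) (nat_lit 5) (nat_lit 172) (nat_lit 5) (nat_lit 302) (nat_lit 287) (nat_lit 191)))) (XT.nd (nat_lit 156) (nat_lit 988) (nat_lit 0) (XT.nd (nat_lit 78) (nat_lit 608) (nat_lit 0) (XT.lf (nat_lit 0) (nat_lit 22283337690) (nat_lit 532) (nat_lit 332387889) (nat_lit 608) (nat_lit 770177587) (nat_lit 164) (nat_lit 5) (nat_lit 171) (nat_lit 5) (nat_lit 172) (nat_lit 5) (nat_lit 303) (nat_lit 287) (nat_lit 190)) (XT.lf (nat_lit 0) (nat_lit 3591709278) (nat_lit 608) (nat_lit 5221396908) (nat_lit 76) (nat_lit 15243545121) (nat_lit 156) (nat_lit 5) (nat_lit 164) (nat_lit 5) (nat_lit 157) (nat_lit 5) (nat_lit 304) (nat_lit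 287) (nat_lit 189))) (XT.nd (nat_lit 78) (nat_lit 456) (nat_lit 0) (XT.lf (nat_lit 0) (nat_lit 8370852295) (nat_lit 608) (nat_lit 9518941290) (nat_lit 76) (nat_lit 6864474474) (nat_lit 149) (nat_lit 5) (nat_lit 157) (nat_lit 5) (nat_lit 150) (nat_lit 5) (nat_lit 305) (nat_lit 287) (nat_lit 188)) (XT.lf (nat_lit 0) (nat_lit 11457790131) (nat_lit 456) (nat_lit 2170774319) (nat_lit 532) (nat_lit 11851024910) (nat_lit 143) (nat_lit 5) (nat_lit 149) (nat_lit 5) (nat_lit 150) (nat_lit 5) (nat_lit 306) (nat_lit 287) (nat_lit 187))))) (XT.nd (nat_lit 234) (nat_lit 1672) (nat_lit 0) (XT.nd (nat_lit 78) (nat_lit 456) (nat_lit 0) (XT.lf (nat_lit 0) (nat_lit 7435254908) (nat_lit 456) (nat_lit 12008865622) (nat_lit 532) (nat_lit 6788218945) (nat_lit 137) (nat_lit 5) (nat_lit 143) (nat_lit 5) (nat_lit 144) (nat_lit 5) (nat_lit 307) (nat_lit 287) (nat_lit 186)) (XT.nd (nat_lit 78) (nat_lit 76) (nat_lit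 0) (XT.lf (nat_lit 0) (nat_lit 3222467304) (nat_lit 380) (nat_lit 22555653300) (nat_lit 456) (nat_lit 1237787456) (nat_lit 132) (nat_lit 5) (nat_lit 137) (nat_lit 5) (nat_lit 138) (nat_lit 5) (nat_lit 308) (nat_lit 287) (nat_lit 185)) (XT.lf (nat_lit 0) (nat_lit 4804764648) (nat_lit 456) (nat_lit 1279179586) (nat_lit 76) (nat_lit 21744272171) (nat_lit 131) (nat_lit 5) (nat_lit 137) (nat_lit 5) (nat_lit 132) (nat_lit 5) (nat_lit 309) (nat_lit 287) (nat_lit 184)))) (XT.nd (nat_lit 156) (nat_lit 836) (nat_lit 0) (XT.nd (nat_lit 78) (nat_lit 380) (nat_lit 0) (XT.lf (nat_lit 0) (nat_lit 11441223905) (nat_lit 532) (nat_lit 6005981106) (nat_lit 76) (nat_lit 11224055772) (nat_lit 125) (nat_lit 5) (nat_lit 132) (nat_lit 5) (nat_lit 126) (nat_lit 5) (nat_lit 310) (nat_lit 287) (nat_lit 183)) (XT.lf (nat_lit 0) (nat_lit 18564252055) (nat_lit 380) (nat_lit 86959244) (nat_lit 456) (nat_lit 10898004109)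 (nat_lit 120) (nat_lit 5) (nat_lit 125) (nat_lit 5) (nat_lit 126) (nat_lit 5) (nat_lit 311) (nat_lit 287) (nat_lit 182))) (XT.nd (nat_lit 78) (nat_lit 456) (nat_lit 0) (XT.lf (nat_lit 0) (nat_lit 14105536484) (nat_lit 380) (nat_lit 12477513538) (nat_lit 456) (nat_lit 3877185930) (nat_lit 115) (nat_lit 5) (nat_lit 120) (nat_lit 5) (nat_lit 121) (nat_lit 5) (nat_lit 312) (nat_lit 287) (nat_lit 181)) (XT.lf (nat_lit 0) (nat_lit 3676699144) (nat_lit 456) (nat_lit 22064801758) (nat_lit 76) (nat_lit 5666800331) (nat_lit 109) (nat_lit 5) (nat_lit 115) (nat_lit 5) (nat_lit 110) (nat_lit 5) (nat_lit 313) (nat_lit 287) (nat_lit 180))))))))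
noncomputable def xc93 : XT := (XT.nd (nat_lit 2184) (nat_lit 1520) (nat_lit 0) (XT.nd (nat_lit 1092) (nat_lit 2204) (nat_lit 0) (XT.nd (nat_lit 546) (nat_lit 1368) (nat_lit 0) (XT.nd (nat_lit 234) (nat_lit 1216) (nat_lit 0) (XT.nd (nat_lit 78) (nat_lit 304) (nat_lit 0) (XT.lf (nat_lit 0) (nat_lit 4170576210) (nat_lit 380) (nat_lit 7683888837) (nat_lit 456) (nat_lit 20538369611) (nat_lit 104) (nat_lit 5) (nat_lit 109) (nat_lit 5) (nat_lit 110) (nat_lit 5) (nat_lit 314) (nat_lit 287) (nat_lit 179)) (XT.nd (nat_lit 78) (nat_lit 304) (nat_lit 0) (XT.lf (nat_lit 0) (nat_lit 20768814817) (nat_lit 456) (nat_lit 1365221170) (nat_lit 76) (nat_lit 11282735237) (nat_lit 104) (nat_lit 5) (nat_lit 110) (nat_lit 5) (nat_lit 105) (nat_lit 5) (nat_lit 315) (nat_lit 287) (nat_lit 178)) (XT.lf (nat_lit 0) (nat_lit 27276415078) (nat_lit 304) (nat_lit 3182611749) (nat_lit 380) (nat_lit 4022980435) (nat_lit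 100) (nat_lit 5) (nat_lit 104) (nat_lit 5) (nat_lit 105) (nat_lit 5) (nat_lit 316) (nat_lit 287) (nat_lit 177)))) (XT.nd (nat_lit 156) (nat_lit 532) (nat_lit 0) (XT.nd (nat_lit 78) (nat_lit 304) (nat_lit 0) (XT.lf (nat_lit 0) (nat_lit 5316147959) (nat_lit 380) (nat_lit 13606417660) (nat_lit 76) (nat_lit 16665060852) (nat_lit 95) (nat_lit 5) (nat_lit 100) (nat_lit 5) (nat_lit 96) (nat_lit 5) (nat_lit 317) (nat_lit 287) (nat_lit 176)) (XT.lf (nat_lit 0) (nat_lit 15303402545) (nat_lit 380) (nat_lit 20486148491) (nat_lit 76) (nat_lit 949855677) (nat_lit 91) (nat_lit 5) (nat_lit 96) (nat_lit 5) (nat_lit 92) (nat_lit 5) (nat_lit 318) (nat_lit 287) (nat_lit 175))) (XT.nd (nat_lit 78) (nat_lit 228) (nat_lit 0) (XT.lf (nat_lit 0) (nat_lit 9934630922) (nat_lit 304) (nat_lit 16274534068) (nat_lit 380) (nat_lit 11727042483) (nat_lit 87) (nat_lit 5) (nat_lit 91) (nat_lit 5) (nat_lit 92) (nat_lit 5) (nat_lit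 319) (nat_lit 287) (nat_lit 174)) (XT.lf (nat_lit 0) (nat_lit 3123974326) (nat_lit 228) (nat_lit 34811245575) (nat_lit 304) (nat_lit 1249383818) (nat_lit 84) (nat_lit 5) (nat_lit 87) (nat_lit 5) (nat_lit 88) (nat_lit 5) (nat_lit 320) (nat_lit 287) (nat_lit 173))))) (XT.nd (nat_lit 234) (nat_lit 760) (nat_lit 0) (XT.nd (nat_lit 78) (nat_lit 532) (nat_lit 0) (XT.lf (nat_lit 0) (nat_lit 10008900949) (nat_lit 304) (nat_lit 4368891447) (nat_lit 76) (nat_lit 26101408945) (nat_lit 83) (nat_lit 5) (nat_lit 87) (nat_lit 5) (nat_lit 84) (nat_lit 5) (nat_lit 321) (nat_lit 287) (nat_lit 172)) (XT.nd (nat_lit 78) (nat_lit 228) (nat_lit 0) (XT.lf (nat_lit 0) (nat_lit 22150665140) (nat_lit 380) (nat_lit 12442798141) (nat_lit 76) (nat_lit 7234307240) (nat_lit 79) (nat_lit 5) (nat_lit 84) (nat_lit 5) (nat_lit 80) (nat_lit 5) (nat_lit 322) (nat_lit 287) (nat_lit 171)) (XT.lf (nat_lit 0) (nat_lit 21946604244)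 (nat_lit 228) (nat_lit 13346720233) (nat_lit 304) (nat_lit 7938634156) (nat_lit 76) (nat_lit 5) (nat_lit 79) (nat_lit 5) (nat_lit 80) (nat_lit 5) (nat_lit 323) (nat_lit 287) (nat_lit 170)))) (XT.nd (nat_lit 156) (nat_lit 228) (nat_lit 0) (XT.nd (nat_lit 78) (nat_lit 228) (nat_lit 0) (XT.lf (nat_lit 0) (nat_lit 4645054268) (nat_lit 304) (nat_lit 30958522937) (nat_lit 76) (nat_lit 9091201371) (nat_lit 72) (nat_lit 5) (nat_lit 76) (nat_lit 5) (nat_lit 73) (nat_lit 5) (nat_lit 324) (nat_lit 287) (nat_lit 169)) (XT.lf (nat_lit 0) (nat_lit 4590977661) (nat_lit 228) (nat_lit 13497121222) (nat_lit 304) (nat_lit 28128456098) (nat_lit 69) (nat_lit 5) (nat_lit 72) (nat_lit 5) (nat_lit 73) (nat_lit 5) (nat_lit 325) (nat_lit 287) (nat_lit 168))) (XT.nd (nat_lit 78) (nat_lit 228) (nat_lit 0) (XT.lf (nat_lit 0) (nat_lit 32611433816) (nat_lit 304) (nat_lit 5347543663) (nat_lit 76) (nat_lit 9843202509) (nat_lit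 69) (nat_lit 5) (nat_lit 73) (nat_lit 5) (nat_lit 70) (nat_lit 5) (nat_lit 326) (nat_lit 287) (nat_lit 167)) (XT.lf (nat_lit 0) (nat_lit 33246403853) (nat_lit 228) (nat_lit 15063592629) (nat_lit 304) (nat_lit 1143621673) (nat_lit 66) (nat_lit 5) (nat_lit 69) (nat_lit 5) (nat_lit 70) (nat_lit 5) (nat_lit 327) (nat_lit 287) (nat_lit 166)))))) (XT.nd (nat_lit 546) (nat_lit 988) (nat_lit 0) (XT.nd (nat_lit 234) (nat_lit 684) (nat_lit 0) (XT.nd (nat_lit 78) (nat_lit 228) (nat_lit 0) (XT.lf (nat_lit 0) (nat_lit 13700760588) (nat_lit 304) (nat_lit 28262881385) (nat_lit 76) (nat_lit 9209254051) (nat_lit 62) (nat_lit 5) (nat_lit 66) (nat_lit 5) (nat_lit 63) (nat_lit 5) (nat_lit 328) (nat_lit 287) (nat_lit 165)) (XT.nd (nat_lit 78) (nat_lit 0) (nat_lit 0) (XT.lf (nat_lit 0) (nat_lit 11395577738) (nat_lit 228) (nat_lit 18292008890) (nat_lit 304) (nat_lit 23277498466) (nat_lit 59) (nat_lit 5) (nat_lit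 62) (nat_lit 5) (nat_lit 63) (nat_lit 5) (nat_lit 329) (nat_lit 287) (nat_lit 164)) (XT.lf (nat_lit 0) (nat_lit 46824424096) (nat_lit 304) (nat_lit 1286626869) (nat_lit 76) (nat_lit 6725315685) (nat_lit 59) (nat_lit 5) (nat_lit 63) (nat_lit 5) (nat_lit 60) (nat_lit 5) (nat_lit 330) (nat_lit 287) (nat_lit 163)))) (XT.nd (nat_lit 156) (nat_lit 228) (nat_lit 0) (XT.nd (nat_lit 78) (nat_lit 228) (nat_lit 0) (XT.lf (nat_lit 0) (nat_lit 8445020947) (nat_lit 228) (nat_lit 15238143041) (nat_lit 76) (nat_lit 33098202247) (nat_lit 56) (nat_lit 5) (nat_lit 59) (nat_lit 5) (nat_lit 57) (nat_lit 5) (nat_lit 331) (nat_lit 287) (nat_lit 162)) (XT.lf (nat_lit 0) (nat_lit 25861579360) (nat_lit 304) (nat_lit 30657671582) (nat_lit 76) (nat_lit 2292914456) (nat_lit 53) (nat_lit 5) (nat_lit 57) (nat_lit 5) (nat_lit 54) (nat_lit 5) (nat_lit 332) (nat_lit 287) (nat_lit 161))) (XT.nd (nat_lit 78) (nat_lit 76) (nat_lit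 0) (XT.lf (nat_lit 0) (nat_lit 13101151111) (nat_lit 152) (nat_lit 31565551153) (nat_lit 228) (nat_lit 16262272786) (nat_lit 51) (nat_lit 5) (nat_lit 53) (nat_lit 5) (nat_lit 54) (nat_lit 5) (nat_lit 333) (nat_lit 287) (nat_lit 160)) (XT.lf (nat_lit 0) (nat_lit 1549048320) (nat_lit 228) (nat_lit 3477976851) (nat_lit 76) (nat_lit 58114843309) (nat_lit 50) (nat_lit 5) (nat_lit 53) (nat_lit 5) (nat_lit 51) (nat_lit 5) (nat_lit 334) (nat_lit 287) (nat_lit 159))))) (XT.nd (nat_lit 234) (nat_lit 456) (nat_lit 0) (XT.nd (nat_lit 78) (nat_lit 304) (nat_lit 0) (XT.lf (nat_lit 0) (nat_lit 20558511285) (nat_lit 304) (nat_lit 21902681742) (nat_lit 76) (nat_lit 22980068356) (nat_lit 47) (nat_lit 5) (nat_lit 51) (nat_lit 5) (nat_lit 48) (nat_lit 5) (nat_lit 335) (nat_lit 287) (nat_lit 158)) (XT.nd (nat_lit 78) (nat_lit 152) (nat_lit 0) (XT.lf (nat_lit 0) (nat_lit 25563245134) (nat_lit 152) (nat_lit 15282698278)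 (nat_lit 228) (nat_lit 26999857844) (nat_lit 45) (nat_lit 5) (nat_lit 47) (nat_lit 5) (nat_lit 48) (nat_lit 5) (nat_lit 336) (nat_lit 287) (nat_lit 157)) (XT.lf (nat_lit 0) (nat_lit 5464902501) (nat_lit 152) (nat_lit 57085492228) (nat_lit 228) (nat_lit 7808096066) (nat_lit 43) (nat_lit 5) (nat_lit 45) (nat_lit 5) (nat_lit 46) (nat_lit 5) (nat_lit 337) (nat_lit 287) (nat_lit 156)))) (XT.nd (nat_lit 156) (nat_lit 228) (nat_lit 0) (XT.nd (nat_lit 78) (nat_lit 152) (nat_lit 0) (XT.lf (nat_lit 0) (nat_lit 12691326681) (nat_lit 228) (nat_lit 16785969528) (nat_lit 76) (nat_lit 43498292989) (nat_lit 42) (nat_lit 5) (nat_lit 45) (nat_lit 5) (nat_lit 43) (nat_lit 5) (nat_lit 338) (nat_lit 287) (nat_lit 155)) (XT.lf (nat_lit 0) (nat_lit 34309809824) (nat_lit 152) (nat_lit 71079260) (nat_lit 228) (nat_lit 41330536494) (nat_lit 40) (nat_lit 5) (nat_lit 42) (nat_lit 5) (nat_lit 43) (nat_lit 5) (nat_lit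 339) (nat_lit 287) (nat_lit 154))) (XT.nd (nat_lit 78) (nat_lit 76) (nat_lit 0) (XT.lf (nat_lit 0) (nat_lit 9614264198) (nat_lit 152) (nat_lit 48099173106) (nat_lit 228) (nat_lit 20853863002) (nat_lit 38) (nat_lit 5) (nat_lit 40) (nat_lit 5) (nat_lit 41) (nat_lit 5) (nat_lit 340) (nat_lit 287) (nat_lit 153)) (XT.lf (nat_lit 0) (nat_lit 1060715307) (nat_lit 228) (nat_lit 17525891095) (nat_lit 76) (nat_lit 62966376834) (nat_lit 37) (nat_lit 5) (nat_lit 40) (nat_lit 5) (nat_lit 38) (nat_lit 5) (nat_lit 341) (nat_lit 287) (nat_lit 152))))))) (XT.nd (nat_lit 1092) (nat_lit 304) (nat_lit 0) (XT.nd (nat_lit 546) (nat_lit 532) (nat_lit 0) (XT.nd (nat_lit 234) (nat_lit 380) (nat_lit 0) (XT.nd (nat_lit 78) (nat_lit 152) (nat_lit 0) (XT.lf (nat_lit 0) (nat_lit 24119737383) (nat_lit 228) (nat_lit 47819516322) (nat_lit 76) (nat_lit 12728103800) (nat_lit 35) (nat_lit 5) (nat_lit 38) (nat_lit 5) (nat_lit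 36) (nat_lit 5) (nat_lit 342) (nat_lit 287) (nat_lit 151)) (XT.nd (nat_lit 78) (nat_lit 0) (nat_lit 0) (XT.lf (nat_lit 0) (nat_lit 6300841818) (nat_lit 152) (nat_lit 42457110423) (nat_lit 228) (nat_lit 39166712473) (nat_lit 33) (nat_lit 5) (nat_lit 35) (nat_lit 5) (nat_lit 36) (nat_lit 5) (nat_lit 343) (nat_lit 287) (nat_lit 150)) (XT.lf (nat_lit 0) (nat_lit 64119524635) (nat_lit 152) (nat_lit 10996817409) (nat_lit 228) (nat_lit 16213848722) (nat_lit 33) (nat_lit 5) (nat_lit 35) (nat_lit 5) (nat_lit 36) (nat_lit 5) (nat_lit 344) (nat_lit 287) (nat_lit 149)))) (XT.nd (nat_lit 156) (nat_lit 228) (nat_lit 0) (XT.nd (nat_lit 78) (nat_lit 0) (nat_lit 0) (XT.lf (nat_lit 0) (nat_lit 8236919584) (nat_lit 152) (nat_lit 64676008594) (nat_lit 76) (nat_lit 21975667146) (nat_lit 31) (nat_lit 5) (nat_lit 33) (nat_lit 5) (nat_lit 32) (nat_lit 5) (nat_lit 345) (nat_lit 287) (nat_lit 148)) (XT.lf (nat_lit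 0) (nat_lit 33968141898) (nat_lit 152) (nat_lit 7824927944) (nat_lit 76) (nat_lit 56815238226) (nat_lit 31) (nat_lit 5) (nat_lit 33) (nat_lit 5) (nat_lit 32) (nat_lit 5) (nat_lit 346) (nat_lit 287) (nat_lit 147))) (XT.nd (nat_lit 78) (nat_lit 76) (nat_lit 0) (XT.lf (nat_lit 0) (nat_lit 52894566395) (nat_lit 152) (nat_lit 8596241485) (nat_lit 228) (nat_lit 41008053274) (nat_lit 29) (nat_lit 5) (nat_lit 31) (nat_lit 5) (nat_lit 32) (nat_lit 5) (nat_lit 347) (nat_lit 287) (nat_lit 146)) (XT.lf (nat_lit 0) (nat_lit 10171070935) (nat_lit 76) (nat_lit 80646599632) (nat_lit 152) (nat_lit 15753430547) (nat_lit 28) (nat_lit 5) (nat_lit 29) (nat_lit 5) (nat_lit 30) (nat_lit 4) (nat_lit 348) (nat_lit 287) (nat_lit 145))))) (XT.nd (nat_lit 234) (nat_lit 304) (nat_lit 0) (XT.nd (nat_lit 78) (nat_lit 152) (nat_lit 0) (XT.lf (nat_lit 0) (nat_lit 11152919469) (nat_lit 152) (nat_lit 37061228144) (nat_lit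 76) (nat_lit 62611731244) (nat_lit 27) (nat_lit 5) (nat_lit 29) (nat_lit 5) (nat_lit 28) (nat_lit 5) (nat_lit 349) (nat_lit 287) (nat_lit 144)) (XT.nd (nat_lit 78) (nat_lit 0) (nat_lit 0) (XT.lf (nat_lit 0) (nat_lit 25578842634) (nat_lit 152) (nat_lit 13745596791) (nat_lit 228) (nat_lit 75956908089) (nat_lit 25) (nat_lit 5) (nat_lit 27) (nat_lit 5) (nat_lit 28) (nat_lit 5) (nat_lit 350) (nat_lit 287) (nat_lit 143)) (XT.lf (nat_lit 0) (nat_lit 69502419855) (nat_lit 228) (nat_lit 28048011005) (nat_lit 76) (nat_lit 22391223152) (nat_lit 25) (nat_lit 5) (nat_lit 28) (nat_lit 5) (nat_lit 26) (nat_lit 4) (nat_lit 351) (nat_lit 287) (nat_lit 142)))) (XT.nd (nat_lit 156) (nat_lit 152) (nat_lit 0) (XT.nd (nat_lit 78) (nat_lit 76) (nat_lit 0) (XT.lf (nat_lit 0) (nat_lit 37272350889) (nat_lit 76) (nat_lit 64410947959) (nat_lit 152) (nat_lit 23136857897) (nat_lit 24) (nat_lit 5) (nat_lit 25) (nat_lit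 5) (nat_lit 26) (nat_lit 4) (nat_lit 352) (nat_lit 287) (nat_lit 141)) (XT.lf (nat_lit 0) (nat_lit 5711343352) (nat_lit 152) (nat_lit 23550434224) (nat_lit 76) (nat_lit 100670554090) (nat_lit 23) (nat_lit 5) (nat_lit 25) (nat_lit 5) (nat_lit 24) (nat_lit 5) (nat_lit 353) (nat_lit 287) (nat_lit 140))) (XT.nd (nat_lit 78) (nat_lit 0) (nat_lit 0) (XT.lf (nat_lit 0) (nat_lit 36030640001) (nat_lit 228) (nat_lit 91088316844) (nat_lit 76) (nat_lit 8159071210) (nat_lit 21) (nat_lit 5) (nat_lit 24) (nat_lit 5) (nat_lit 22) (nat_lit 4) (nat_lit 354) (nat_lit 287) (nat_lit 139)) (XT.lf (nat_lit 0) (nat_lit 68403325951) (nat_lit 228) (nat_lit 25377486209) (nat_lit 76) (nat_lit 47094075124) (nat_lit 21) (nat_lit 5) (nat_lit 24) (nat_lit 5) (nat_lit 22) (nat_lit 4) (nat_lit 355) (nat_lit 287) (nat_lit 138)))))) (XT.nd (nat_lit 35568) (nat_lit 0) (nat_lit 13528) (XT.nd (nat_lit 390) (nat_lit 76) (nat_lit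 0) (XT.nd (nat_lit 78) (nat_lit 152) (nat_lit 0) (XT.lf (nat_lit 0) (nat_lit 44482128615) (nat_lit 76) (nat_lit 58337485118) (nat_lit 152) (nat_lit 43919227431) (nat_lit 20) (nat_lit 5) (nat_lit 21) (nat_lit 5) (nat_lit 22) (nat_lit 4) (nat_lit 356) (nat_lit 287) (nat_lit 137)) (XT.nd (nat_lit 78) (nat_lit 152) (nat_lit 0) (XT.lf (nat_lit 0) (nat_lit 118360411670) (nat_lit 76) (nat_lit 20855001538) (nat_lit 152) (nat_lit 13672819294) (nat_lit 20) (nat_lit 5) (nat_lit 21) (nat_lit 5) (nat_lit 22) (nat_lit 4) (nat_lit 357) (nat_lit 287) (nat_lit 136)) (XT.lf (nat_lit 0) (nat_lit 18270580846) (nat_lit 152) (nat_lit 122378507179) (nat_lit 76) (nat_lit 18674662644) (nat_lit 18) (nat_lit 5) (nat_lit 20) (nat_lit 5) (nat_lit 19) (nat_lit 4) (nat_lit 358) (nat_lit 287) (nat_lit 135)))) (XT.nd (nat_lit 35022) (nat_lit 0) (nat_lit 14288) (XT.nd (nat_lit 34944) (nat_lit 0) (nat_lit 14288) (XT.lf (nat_lit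 0) (nat_lit 95948362869) (nat_lit 76) (nat_lit 29878837837) (nat_lit 152) (nat_lit 54704777503) (nat_lit 17) (nat_lit 5) (nat_lit 18) (nat_lit 5) (nat_lit 19) (nat_lit 4) (nat_lit 361) (nat_lit 287) (nat_lit 132)) (XT.lf (nat_lit 0) (nat_lit 1422364391) (nat_lit 0) (nat_lit 1422364391) (nat_lit 1140) (nat_lit 5248605200) (nat_lit 205) (nat_lit 5) (nat_lit 205) (nat_lit 3) (nat_lit 220) (nat_lit 3) (nat_lit 288) (nat_lit 288) (nat_lit 204))) (XT.nd (nat_lit 78) (nat_lit 0) (nat_lit 76) (XT.lf (nat_lit 0) (nat_lit 6324013371) (nat_lit 1140) (nat_lit 1048430548) (nat_lit 1216) (nat_lit 9203705205) (nat_lit 205) (nat_lit 5) (nat_lit 220) (nat_lit 3) (nat_lit 221) (nat_lit 5) (nat_lit 289) (nat_lit 288) (nat_lit 203)) (XT.lf (nat_lit 0) (nat_lit 7156766933) (nat_lit 1140) (nat_lit 4976643676) (nat_lit 1216) (nat_lit 4846726260) (nat_lit 206) (nat_lit 5) (nat_lit 221) (nat_lit 5) (nat_lit 222)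 (nat_lit 5) (nat_lit 290) (nat_lit 288) (nat_lit 202))))) (XT.nd (nat_lit 312) (nat_lit 912) (nat_lit 0) (XT.nd (nat_lit 156) (nat_lit 0) (nat_lit 76) (XT.nd (nat_lit 78) (nat_lit 0) (nat_lit 0) (XT.lf (nat_lit 0) (nat_lit 8175003113) (nat_lit 1140) (nat_lit 9001220041) (nat_lit 1216) (nat_lit 223810857) (nat_lit 207) (nat_lit 5) (nat_lit 222) (nat_lit 5) (nat_lit 223) (nat_lit 5) (nat_lit 291) (nat_lit 288) (nat_lit 201)) (XT.lf (nat_lit 76) (nat_lit 4660959027) (nat_lit 0) (nat_lit 4778903116) (nat_lit 1216) (nat_lit 8395216687) (nat_lit 208) (nat_lit 5) (nat_lit 207) (nat_lit 5) (nat_lit 223) (nat_lit 5) (nat_lit 292) (nat_lit 288) (nat_lit 200))) (XT.nd (nat_lit 78) (nat_lit 0) (nat_lit 76) (XT.lf (nat_lit 76) (nat_lit 826241391) (nat_lit 0) (nat_lit 10100187645) (nat_lit 1216) (nat_lit 7360715909) (nat_lit 209) (nat_lit 5) (nat_lit 208) (nat_lit 5) (nat_lit 224) (nat_lit 5) (nat_lit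 293) (nat_lit 288) (nat_lit 199)) (XT.lf (nat_lit 0) (nat_lit 12679066173) (nat_lit 1140) (nat_lit 3048531441) (nat_lit 1216) (nat_lit 3028486400) (nat_lit 209) (nat_lit 5) (nat_lit 224) (nat_lit 5) (nat_lit 225) (nat_lit 5) (nat_lit 294) (nat_lit 288) (nat_lit 198)))) (XT.nd (nat_lit 156) (nat_lit 1064) (nat_lit 0) (XT.nd (nat_lit 78) (nat_lit 0) (nat_lit 76) (XT.lf (nat_lit 76) (nat_lit 12206111780) (nat_lit 0) (nat_lit 2512250036) (nat_lit 1216) (nat_lit 4524158283) (nat_lit 210) (nat_lit 5) (nat_lit 209) (nat_lit 5) (nat_lit 225) (nat_lit 5) (nat_lit 295) (nat_lit 288) (nat_lit 197)) (XT.lf (nat_lit 76) (nat_lit 8577870124) (nat_lit 0) (nat_lit 8485765846) (nat_lit 1216) (nat_lit 2683541476) (nat_lit 211) (nat_lit 5) (nat_lit 210) (nat_lit 5) (nat_lit 226) (nat_lit 5) (nat_lit 296) (nat_lit 288) (nat_lit 196))) (XT.nd (nat_lit 78) (nat_lit 1216) (nat_lit 0) (XT.lf (nat_lit 76) (nat_lit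 4846880167) (nat_lit 0) (nat_lit 14857463924) (nat_lit 1216) (nat_lit 567397384) (nat_lit 212) (nat_lit 5) (nat_lit 211) (nat_lit 5) (nat_lit 227) (nat_lit 5) (nat_lit 297) (nat_lit 288) (nat_lit 195)) (XT.lf (nat_lit 76) (nat_lit 979662214) (nat_lit 0) (nat_lit 835790184) (nat_lit 1292) (nat_lit 19000826123) (nat_lit 196) (nat_lit 5) (nat_lit 195) (nat_lit 5) (nat_lit 212) (nat_lit 5) (nat_lit 298) (nat_lit 288) (nat_lit 194))))))))
noncomputable def xc94 : XT := (XT.nd (nat_lit 2184) (nat_lit 3648) (nat_lit 0) (XT.nd (nat_lit 1092) (nat_lit 3876) (nat_lit 0) (XT.nd (nat_lit 546) (nat_lit 2736) (nat_lit 0) (XT.nd (nat_lit 234) (nat_lit 1672) (nat_lit 0) (XT.nd (nat_lit 78) (nat_lit 1368) (nat_lit 0) (XT.lf (nat_lit 0) (nat_lit 4582412593) (nat_lit 1216) (nat_lit 3012415382) (nat_lit 76) (nat_lit 13784761498) (nat_lit 196) (nat_lit 5) (nat_lit 212) (nat_lit 5) (nat_lit 197) (nat_lit 5) (nat_lit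 299) (nat_lit 288) (nat_lit 193)) (XT.nd (nat_lit 78) (nat_lit 608) (nat_lit 0) (XT.lf (nat_lit 0) (nat_lit 7693312159) (nat_lit 836) (nat_lit 7115819245) (nat_lit 76) (nat_lit 7155782697) (nat_lit 186) (nat_lit 5) (nat_lit 197) (nat_lit 5) (nat_lit 187) (nat_lit 5) (nat_lit 300) (nat_lit 288) (nat_lit 192)) (XT.lf (nat_lit 0) (nat_lit 11160309236) (nat_lit 684) (nat_lit 11358576530) (nat_lit 76) (nat_lit 54617735) (nat_lit 178) (nat_lit 5) (nat_lit 187) (nat_lit 5) (nat_lit 179) (nat_lit 5) (nat_lit 301) (nat_lit 288) (nat_lit 191)))) (XT.nd (nat_lit 156) (nat_lit 608) (nat_lit 0) (XT.nd (nat_lit 78) (nat_lit 532) (nat_lit 0) (XT.lf (nat_lit 0) (nat_lit 7379861936) (nat_lit 532) (nat_lit 7700042097) (nat_lit 608) (nat_lit 8124255295) (nat_lit 171) (nat_lit 5) (nat_lit 178) (nat_lit 5) (nat_lit 179) (nat_lit 5) (nat_lit 302) (nat_lit 288) (nat_lit 190)) (XT.lf (nat_lit 0) (nat_lit 3404902920)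 (nat_lit 532) (nat_lit 16002391645) (nat_lit 608) (nat_lit 4452712611) (nat_lit 164) (nat_lit 5) (nat_lit 171) (nat_lit 5) (nat_lit 172) (nat_lit 5) (nat_lit 303) (nat_lit 288) (nat_lit 189))) (XT.nd (nat_lit 78) (nat_lit 608) (nat_lit 0) (XT.lf (nat_lit 0) (nat_lit 23832825415) (nat_lit 532) (nat_lit 344088785) (nat_lit 608) (nat_lit 364970487) (nat_lit 164) (nat_lit 5) (nat_lit 171) (nat_lit 5) (nat_lit 172) (nat_lit 5) (nat_lit 304) (nat_lit 288) (nat_lit 188)) (XT.lf (nat_lit 0) (nat_lit 4189910635) (nat_lit 608) (nat_lit 5038035634) (nat_lit 76) (nat_lit 16018607821) (nat_lit 156) (nat_lit 5) (nat_lit 164) (nat_lit 5) (nat_lit 157) (nat_lit 5) (nat_lit 305) (nat_lit 288) (nat_lit 187))))) (XT.nd (nat_lit 234) (nat_lit 1292) (nat_lit 0) (XT.nd (nat_lit 78) (nat_lit 912) (nat_lit 0) (XT.lf (nat_lit 0) (nat_lit 9192503818) (nat_lit 608) (nat_lit 9551035615) (nat_lit 76) (nat_lit 7235995137)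 (nat_lit 149) (nat_lit 5) (nat_lit 157) (nat_lit 5) (nat_lit 150) (nat_lit 5) (nat_lit 306) (nat_lit 288) (nat_lit 186)) (XT.nd (nat_lit 78) (nat_lit 456) (nat_lit 0) (XT.lf (nat_lit 0) (nat_lit 12461809428) (nat_lit 456) (nat_lit 2236240774) (nat_lit 532) (nat_lit 12043540115) (nat_lit 143) (nat_lit 5) (nat_lit 149) (nat_lit 5) (nat_lit 150) (nat_lit 5) (nat_lit 307) (nat_lit 288) (nat_lit 185)) (XT.lf (nat_lit 0) (nat_lit 8237022176) (nat_lit 456) (nat_lit 12553410768) (nat_lit 532) (nat_lit 6741979566) (nat_lit 137) (nat_lit 5) (nat_lit 143) (nat_lit 5) (nat_lit 144) (nat_lit 5) (nat_lit 308) (nat_lit 288) (nat_lit 184)))) (XT.nd (nat_lit 156) (nat_lit 836) (nat_lit 0) (XT.nd (nat_lit 78) (nat_lit 76) (nat_lit 0) (XT.lf (nat_lit 0) (nat_lit 3811960309) (nat_lit 380) (nat_lit 23615987614) (nat_lit 456) (nat_lit 927622428) (nat_lit 132) (nat_lit 5) (nat_lit 137) (nat_lit 5) (nat_lit 138)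 (nat_lit 5) (nat_lit 309) (nat_lit 288) (nat_lit 183)) (XT.lf (nat_lit 0) (nat_lit 5392426004) (nat_lit 456) (nat_lit 927970624) (nat_lit 76) (nat_lit 22888525450) (nat_lit 131) (nat_lit 5) (nat_lit 137) (nat_lit 5) (nat_lit 132) (nat_lit 5) (nat_lit 310) (nat_lit 288) (nat_lit 182))) (XT.nd (nat_lit 78) (nat_lit 380) (nat_lit 0) (XT.lf (nat_lit 0) (nat_lit 12348699292) (nat_lit 532) (nat_lit 5893359828) (nat_lit 76) (nat_lit 11852433272) (nat_lit 125) (nat_lit 5) (nat_lit 132) (nat_lit 5) (nat_lit 126) (nat_lit 5) (nat_lit 311) (nat_lit 288) (nat_lit 181)) (XT.lf (nat_lit 0) (nat_lit 19893548712) (nat_lit 380) (nat_lit 13520705) (nat_lit 456) (nat_lit 11109651640) (nat_lit 120) (nat_lit 5) (nat_lit 125) (nat_lit 5) (nat_lit 126) (nat_lit 5) (nat_lit 312) (nat_lit 288) (nat_lit 180)))))) (XT.nd (nat_lit 546) (nat_lit 1672) (nat_lit 0) (XT.nd (nat_lit 234) (nat_lit 988) (nat_lit 0) (XT.nd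 (nat_lit 78) (nat_lit 836) (nat_lit 0) (XT.lf (nat_lit 0) (nat_lit 15209343830) (nat_lit 380) (nat_lit 13015304169) (nat_lit 456) (nat_lit 3748982392) (nat_lit 115) (nat_lit 5) (nat_lit 120) (nat_lit 5) (nat_lit 121) (nat_lit 5) (nat_lit 313) (nat_lit 288) (nat_lit 179)) (XT.nd (nat_lit 78) (nat_lit 380) (nat_lit 0) (XT.lf (nat_lit 0) (nat_lit 4165912006) (nat_lit 456) (nat_lit 22766093996) (nat_lit 76) (nat_lit 6037323348) (nat_lit 109) (nat_lit 5) (nat_lit 115) (nat_lit 5) (nat_lit 110) (nat_lit 5) (nat_lit 314) (nat_lit 288) (nat_lit 178)) (XT.lf (nat_lit 0) (nat_lit 4769531115) (nat_lit 380) (nat_lit 7972246298) (nat_lit 456) (nat_lit 21261646440) (nat_lit 104) (nat_lit 5) (nat_lit 109) (nat_lit 5) (nat_lit 110) (nat_lit 5) (nat_lit 315) (nat_lit 288) (nat_lit 177)))) (XT.nd (nat_lit 156) (nat_lit 684) (nat_lit 0) (XT.nd (nat_lit 78) (nat_lit 304) (nat_lit 0) (XT.lf (nat_lit 0) (nat_lit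 22088693994) (nat_lit 456) (nat_lit 1053903763) (nat_lit 76) (nat_lit 11936364244) (nat_lit 104) (nat_lit 5) (nat_lit 110) (nat_lit 5) (nat_lit 105) (nat_lit 5) (nat_lit 316) (nat_lit 288) (nat_lit 176)) (XT.lf (nat_lit 0) (nat_lit 29008933757) (nat_lit 304) (nat_lit 3244625166) (nat_lit 380) (nat_lit 3944206390) (nat_lit 100) (nat_lit 5) (nat_lit 104) (nat_lit 5) (nat_lit 105) (nat_lit 5) (nat_lit 317) (nat_lit 288) (nat_lit 175))) (XT.nd (nat_lit 78) (nat_lit 304) (nat_lit 0) (XT.lf (nat_lit 0) (nat_lit 5847790957) (nat_lit 380) (nat_lit 13915942028) (nat_lit 76) (nat_lit 17595119540) (nat_lit 95) (nat_lit 5) (nat_lit 100) (nat_lit 5) (nat_lit 96) (nat_lit 5) (nat_lit 318) (nat_lit 288) (nat_lit 174)) (XT.lf (nat_lit 0) (nat_lit 16326206769) (nat_lit 380) (nat_lit 21143412601) (nat_lit 76) (nat_lit 1098857035) (nat_lit 91) (nat_lit 5) (nat_lit 96) (nat_lit 5) (nat_lit 92) (nat_lit 5) (nat_lit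 319) (nat_lit 288) (nat_lit 173))))) (XT.nd (nat_lit 234) (nat_lit 1064) (nat_lit 0) (XT.nd (nat_lit 78) (nat_lit 304) (nat_lit 0) (XT.lf (nat_lit 0) (nat_lit 10787884559) (nat_lit 304) (nat_lit 16980531595) (nat_lit 380) (nat_lit 12056974456) (nat_lit 87) (nat_lit 5) (nat_lit 91) (nat_lit 5) (nat_lit 92) (nat_lit 5) (nat_lit 320) (nat_lit 288) (nat_lit 172)) (XT.nd (nat_lit 78) (nat_lit 76) (nat_lit 0) (XT.lf (nat_lit 0) (nat_lit 3632878228) (nat_lit 228) (nat_lit 36440424966) (nat_lit 304) (nat_lit 1063135377) (nat_lit 84) (nat_lit 5) (nat_lit 87) (nat_lit 5) (nat_lit 88) (nat_lit 5) (nat_lit 321) (nat_lit 288) (nat_lit 171)) (XT.lf (nat_lit 0) (nat_lit 10741597667) (nat_lit 304) (nat_lit 4246660121) (nat_lit 76) (nat_lit 27507792135) (nat_lit 83) (nat_lit 5) (nat_lit 87) (nat_lit 5) (nat_lit 84) (nat_lit 5) (nat_lit 322) (nat_lit 288) (nat_lit 170)))) (XT.nd (nat_lit 156) (nat_lit 532)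 (nat_lit 0) (XT.nd (nat_lit 78) (nat_lit 228) (nat_lit 0) (XT.lf (nat_lit 0) (nat_lit 23483595482) (nat_lit 380) (nat_lit 12728183390) (nat_lit 76) (nat_lit 7700481182) (nat_lit 79) (nat_lit 5) (nat_lit 84) (nat_lit 5) (nat_lit 80) (nat_lit 5) (nat_lit 323) (nat_lit 288) (nat_lit 169)) (XT.lf (nat_lit 0) (nat_lit 23371036110) (nat_lit 228) (nat_lit 13904762783) (nat_lit 304) (nat_lit 8111092873) (nat_lit 76) (nat_lit 5) (nat_lit 79) (nat_lit 5) (nat_lit 80) (nat_lit 5) (nat_lit 324) (nat_lit 288) (nat_lit 168))) (XT.nd (nat_lit 78) (nat_lit 228) (nat_lit 0) (XT.lf (nat_lit 0) (nat_lit 5091066914) (nat_lit 304) (nat_lit 32178895504) (nat_lit 76) (nat_lit 9653021576) (nat_lit 72) (nat_lit 5) (nat_lit 76) (nat_lit 5) (nat_lit 73) (nat_lit 5) (nat_lit 325) (nat_lit 288) (nat_lit 167)) (XT.lf (nat_lit 0) (nat_lit 5138690867) (nat_lit 228) (nat_lit 14060452238) (nat_lit 304) (nat_lit 29321925481)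 (nat_lit 69) (nat_lit 5) (nat_lit 72) (nat_lit 5) (nat_lit 73) (nat_lit 5) (nat_lit 326) (nat_lit 288) (nat_lit 166))))))) (XT.nd (nat_lit 1092) (nat_lit 1444) (nat_lit 0) (XT.nd (nat_lit 546) (nat_lit 988) (nat_lit 0) (XT.nd (nat_lit 234) (nat_lit 684) (nat_lit 0) (XT.nd (nat_lit 78) (nat_lit 532) (nat_lit 0) (XT.lf (nat_lit 0) (nat_lit 34439825816) (nat_lit 304) (nat_lit 5306914731) (nat_lit 76) (nat_lit 10439504339) (nat_lit 69) (nat_lit 5) (nat_lit 73) (nat_lit 5) (nat_lit 70) (nat_lit 5) (nat_lit 327) (nat_lit 288) (nat_lit 165)) (XT.nd (nat_lit 78) (nat_lit 304) (nat_lit 0) (XT.lf (nat_lit 0) (nat_lit 35207901226) (nat_lit 228) (nat_lit 15708871248) (nat_lit 304) (nat_lit 1003684025) (nat_lit 66) (nat_lit 5) (nat_lit 69) (nat_lit 5) (nat_lit 70) (nat_lit 5) (nat_lit 328) (nat_lit 288) (nat_lit 164)) (XT.lf (nat_lit 0) (nat_lit 14573731421) (nat_lit 304) (nat_lit 29376919868) (nat_lit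 76) (nat_lit 9775155133) (nat_lit 62) (nat_lit 5) (nat_lit 66) (nat_lit 5) (nat_lit 63) (nat_lit 5) (nat_lit 329) (nat_lit 288) (nat_lit 163)))) (XT.nd (nat_lit 156) (nat_lit 456) (nat_lit 0) (XT.nd (nat_lit 78) (nat_lit 0) (nat_lit 0) (XT.lf (nat_lit 0) (nat_lit 12255888409) (nat_lit 228) (nat_lit 19097853941) (nat_lit 304) (nat_lit 24254051879) (nat_lit 59) (nat_lit 5) (nat_lit 62) (nat_lit 5) (nat_lit 63) (nat_lit 5) (nat_lit 330) (nat_lit 288) (nat_lit 162)) (XT.lf (nat_lit 0) (nat_lit 49339761314) (nat_lit 304) (nat_lit 1069975849) (nat_lit 76) (nat_lit 7163136882) (nat_lit 59) (nat_lit 5) (nat_lit 63) (nat_lit 5) (nat_lit 60) (nat_lit 5) (nat_lit 331) (nat_lit 288) (nat_lit 161))) (XT.nd (nat_lit 78) (nat_lit 228) (nat_lit 0) (XT.lf (nat_lit 0) (nat_lit 9037469792) (nat_lit 228) (nat_lit 15723653998) (nat_lit 76) (nat_lit 34854123959) (nat_lit 56) (nat_lit 5) (nat_lit 59) (nat_lit 5)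 (nat_lit 57) (nat_lit 5) (nat_lit 332) (nat_lit 288) (nat_lit 160)) (XT.lf (nat_lit 0) (nat_lit 27320329982) (nat_lit 304) (nat_lit 31918062361) (nat_lit 76) (nat_lit 2509334160) (nat_lit 53) (nat_lit 5) (nat_lit 57) (nat_lit 5) (nat_lit 54) (nat_lit 5) (nat_lit 333) (nat_lit 288) (nat_lit 159))))) (XT.nd (nat_lit 234) (nat_lit 532) (nat_lit 0) (XT.nd (nat_lit 78) (nat_lit 304) (nat_lit 0) (XT.lf (nat_lit 0) (nat_lit 14020890515) (nat_lit 152) (nat_lit 33039473674) (nat_lit 228) (nat_lit 16910176462) (nat_lit 51) (nat_lit 5) (nat_lit 53) (nat_lit 5) (nat_lit 54) (nat_lit 5) (nat_lit 334) (nat_lit 288) (nat_lit 158)) (XT.nd (nat_lit 78) (nat_lit 228) (nat_lit 0) (XT.lf (nat_lit 0) (nat_lit 1780773233) (nat_lit 228) (nat_lit 3396659598) (nat_lit 76) (nat_lit 61116833079) (nat_lit 50) (nat_lit 5) (nat_lit 53) (nat_lit 5) (nat_lit 51) (nat_lit 5) (nat_lit 335) (nat_lit 288) (nat_lit 157)) (XT.lf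 (nat_lit 0) (nat_lit 21736693726) (nat_lit 304) (nat_lit 22746319306) (nat_lit 76) (nat_lit 24225739124) (nat_lit 47) (nat_lit 5) (nat_lit 51) (nat_lit 5) (nat_lit 48) (nat_lit 5) (nat_lit 336) (nat_lit 288) (nat_lit 156)))) (XT.nd (nat_lit 156) (nat_lit 228) (nat_lit 0) (XT.nd (nat_lit 78) (nat_lit 152) (nat_lit 0) (XT.lf (nat_lit 0) (nat_lit 27085694816) (nat_lit 152) (nat_lit 15947995793) (nat_lit 228) (nat_lit 28199975694) (nat_lit 45) (nat_lit 5) (nat_lit 47) (nat_lit 5) (nat_lit 48) (nat_lit 5) (nat_lit 337) (nat_lit 288) (nat_lit 155)) (XT.lf (nat_lit 0) (nat_lit 5978807923) (nat_lit 152) (nat_lit 59840848595) (nat_lit 228) (nat_lit 8052447969) (nat_lit 43) (nat_lit 5) (nat_lit 45) (nat_lit 5) (nat_lit 46) (nat_lit 5) (nat_lit 338) (nat_lit 288) (nat_lit 154))) (XT.nd (nat_lit 78) (nat_lit 152) (nat_lit 0) (XT.lf (nat_lit 0) (nat_lit 13462276712) (nat_lit 228) (nat_lit 17393299248)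 (nat_lit 76) (nat_lit 45764647017) (nat_lit 42) (nat_lit 5) (nat_lit 45) (nat_lit 5) (nat_lit 43) (nat_lit 5) (nat_lit 339) (nat_lit 288) (nat_lit 153)) (XT.lf (nat_lit 0) (nat_lit 36232167775) (nat_lit 228) (nat_lit 43242542972) (nat_lit 76) (nat_lit 18267493) (nat_lit 40) (nat_lit 5) (nat_lit 43) (nat_lit 5) (nat_lit 41) (nat_lit 5) (nat_lit 340) (nat_lit 288) (nat_lit 152)))))) (XT.nd (nat_lit 546) (nat_lit 760) (nat_lit 0) (XT.nd (nat_lit 234) (nat_lit 304) (nat_lit 0) (XT.nd (nat_lit 78) (nat_lit 228) (nat_lit 0) (XT.lf (nat_lit 0) (nat_lit 10316865482) (nat_lit 152) (nat_lit 50410997236) (nat_lit 228) (nat_lit 21763890863) (nat_lit 38) (nat_lit 5) (nat_lit 40) (nat_lit 5) (nat_lit 41) (nat_lit 5) (nat_lit 341) (nat_lit 288) (nat_lit 151)) (XT.nd (nat_lit 78) (nat_lit 152) (nat_lit 0) (XT.lf (nat_lit 0) (nat_lit 1237633465) (nat_lit 228) (nat_lit 18188352741) (nat_lit 76) (nat_lit 66200884290)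 (nat_lit 37) (nat_lit 5) (nat_lit 40) (nat_lit 5) (nat_lit 38) (nat_lit 5) (nat_lit 342) (nat_lit 288) (nat_lit 150)) (XT.lf (nat_lit 0) (nat_lit 25446547309) (nat_lit 228) (nat_lit 49999989298) (nat_lit 76) (nat_lit 13450520815) (nat_lit 35) (nat_lit 5) (nat_lit 38) (nat_lit 5) (nat_lit 36) (nat_lit 5) (nat_lit 343) (nat_lit 288) (nat_lit 149)))) (XT.nd (nat_lit 156) (nat_lit 152) (nat_lit 0) (XT.nd (nat_lit 78) (nat_lit 0) (nat_lit 0) (XT.lf (nat_lit 0) (nat_lit 6820352728) (nat_lit 152) (nat_lit 44492532183) (nat_lit 228) (nat_lit 41004460781) (nat_lit 33) (nat_lit 5) (nat_lit 35) (nat_lit 5) (nat_lit 36) (nat_lit 5) (nat_lit 344) (nat_lit 288) (nat_lit 148)) (XT.lf (nat_lit 0) (nat_lit 67520233075) (nat_lit 152) (nat_lit 11463388030) (nat_lit 228) (nat_lit 16909696095) (nat_lit 33) (nat_lit 5) (nat_lit 35) (nat_lit 5) (nat_lit 36) (nat_lit 5) (nat_lit 345) (nat_lit 288) (nat_lit 147)))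 (XT.nd (nat_lit 78) (nat_lit 0) (nat_lit 0) (XT.lf (nat_lit 0) (nat_lit 8758637949) (nat_lit 152) (nat_lit 67715927183) (nat_lit 76) (nat_lit 23155127499) (nat_lit 31) (nat_lit 5) (nat_lit 33) (nat_lit 5) (nat_lit 32) (nat_lit 5) (nat_lit 346) (nat_lit 288) (nat_lit 146)) (XT.lf (nat_lit 0) (nat_lit 35771189360) (nat_lit 152) (nat_lit 8031524969) (nat_lit 76) (nat_lit 59732835372) (nat_lit 31) (nat_lit 5) (nat_lit 33) (nat_lit 5) (nat_lit 32) (nat_lit 5) (nat_lit 347) (nat_lit 288) (nat_lit 145))))) (XT.nd (nat_lit 312) (nat_lit 304) (nat_lit 0) (XT.nd (nat_lit 156) (nat_lit 228) (nat_lit 0) (XT.nd (nat_lit 78) (nat_lit 76) (nat_lit 0) (XT.lf (nat_lit 0) (nat_lit 55718651150) (nat_lit 152) (nat_lit 8948078700) (nat_lit 228) (nat_lit 42954000000) (nat_lit 29) (nat_lit 5) (nat_lit 31) (nat_lit 5) (nat_lit 32) (nat_lit 5) (nat_lit 348) (nat_lit 288) (nat_lit 144)) (XT.lf (nat_lit 0) (nat_lit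 10856097879) (nat_lit 76) (nat_lit 84601420318) (nat_lit 152) (nat_lit 16439137703) (nat_lit 28) (nat_lit 5) (nat_lit 29) (nat_lit 5) (nat_lit 30) (nat_lit 4) (nat_lit 349) (nat_lit 288) (nat_lit 143))) (XT.nd (nat_lit 78) (nat_lit 152) (nat_lit 0) (XT.lf (nat_lit 0) (nat_lit 11805779423) (nat_lit 152) (nat_lit 38744295720) (nat_lit 76) (nat_lit 65814212254) (nat_lit 27) (nat_lit 5) (nat_lit 29) (nat_lit 5) (nat_lit 28) (nat_lit 5) (nat_lit 350) (nat_lit 288) (nat_lit 142)) (XT.lf (nat_lit 0) (nat_lit 27022905759) (nat_lit 152) (nat_lit 14360022864) (nat_lit 228) (nat_lit 79659690646) (nat_lit 25) (nat_lit 5) (nat_lit 27) (nat_lit 5) (nat_lit 28) (nat_lit 5) (nat_lit 351) (nat_lit 288) (nat_lit 141)))) (XT.nd (nat_lit 156) (nat_lit 228) (nat_lit 0) (XT.nd (nat_lit 78) (nat_lit 76) (nat_lit 0) (XT.lf (nat_lit 0) (nat_lit 73066081363) (nat_lit 228) (nat_lit 29291157937) (nat_lit 76) (nat_lit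 23578814907) (nat_lit 25) (nat_lit 5) (nat_lit 28) (nat_lit 5) (nat_lit 26) (nat_lit 4) (nat_lit 352) (nat_lit 288) (nat_lit 140)) (XT.lf (nat_lit 0) (nat_lit 39290657079) (nat_lit 76) (nat_lit 67562617973) (nat_lit 152) (nat_lit 24205290155) (nat_lit 24) (nat_lit 5) (nat_lit 25) (nat_lit 5) (nat_lit 26) (nat_lit 4) (nat_lit 353) (nat_lit 288) (nat_lit 139))) (XT.nd (nat_lit 78) (nat_lit 152) (nat_lit 0) (XT.lf (nat_lit 0) (nat_lit 6079468069) (nat_lit 152) (nat_lit 24578967207) (nat_lit 76) (nat_lit 105768013094) (nat_lit 23) (nat_lit 5) (nat_lit 25) (nat_lit 5) (nat_lit 24) (nat_lit 5) (nat_lit 354) (nat_lit 288) (nat_lit 138)) (XT.lf (nat_lit 0) (nat_lit 37912811299) (nat_lit 228) (nat_lit 95496214063) (nat_lit 76) (nat_lit 8630462868) (nat_lit 21) (nat_lit 5) (nat_lit 24) (nat_lit 5) (nat_lit 22) (nat_lit 4) (nat_lit 355) (nat_lit 288) (nat_lit 137))))))))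
noncomputable def xc95 : XT := (XT.nd (nat_lit 37362) (nat_lit 0) (nat_lit 1368) (XT.nd (nat_lit 36270) (nat_lit 0) (nat_lit 7600) (XT.nd (nat_lit 35724) (nat_lit 0) (nat_lit 13300) (XT.nd (nat_lit 35412) (nat_lit 0) (nat_lit 14060) (XT.nd (nat_lit 78) (nat_lit 76) (nat_lit 0) (XT.lf (nat_lit 0) (nat_lit 71900291580) (nat_lit 228) (nat_lit 26506818974) (nat_lit 76) (nat_lit 49509196116) (nat_lit 21) (nat_lit 5) (nat_lit 24) (nat_lit 5) (nat_lit 22) (nat_lit 4) (nat_lit 356) (nat_lit 288) (nat_lit 136)) (XT.nd (nat_lit 78) (nat_lit 0) (nat_lit 0) (XT.lf (nat_lit 0) (nat_lit 46841776661) (nat_lit 76) (nat_lit 61193262888) (nat_lit 152) (nat_lit 46038490321) (nat_lit 20) (nat_lit 5) (nat_lit 21) (nat_lit 5) (nat_lit 22) (nat_lit 4) (nat_lit 357) (nat_lit 288) (nat_lit 135)) (XT.lf (nat_lit 0) (nat_lit 124407519507) (nat_lit 76) (nat_lit 21839564486) (nat_lit 152) (nat_lit 14283414085) (nat_lit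 20) (nat_lit 5) (nat_lit 21) (nat_lit 5) (nat_lit 22) (nat_lit 4) (nat_lit 358) (nat_lit 288) (nat_lit 134)))) (XT.nd (nat_lit 156) (nat_lit 0) (nat_lit 76) (XT.nd (nat_lit 78) (nat_lit 0) (nat_lit 0) (XT.lf (nat_lit 0) (nat_lit 1691387240) (nat_lit 0) (nat_lit 1691387240) (nat_lit 1140) (nat_lit 5102942459) (nat_lit 205) (nat_lit 5) (nat_lit 205) (nat_lit 3) (nat_lit 220) (nat_lit 3) (nat_lit 289) (nat_lit 289) (nat_lit 202)) (XT.lf (nat_lit 0) (nat_lit 7390512856) (nat_lit 1140) (nat_lit 696869690) (nat_lit 1216) (nat_lit 9294285137) (nat_lit 205) (nat_lit 5) (nat_lit 220) (nat_lit 3) (nat_lit 221) (nat_lit 5) (nat_lit 290) (nat_lit 289) (nat_lit 201))) (XT.nd (nat_lit 78) (nat_lit 0) (nat_lit 0) (XT.lf (nat_lit 0) (nat_lit 8229814457) (nat_lit 1140) (nat_lit 4807647352) (nat_lit 1216) (nat_lit 4769482835) (nat_lit 206) (nat_lit 5) (nat_lit 221) (nat_lit 5) (nat_lit 222) (nat_lit 5) (nat_lit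 291) (nat_lit 289) (nat_lit 200)) (XT.lf (nat_lit 76) (nat_lit 9226979260) (nat_lit 0) (nat_lit 39522964) (nat_lit 1216) (nat_lit 8982343597) (nat_lit 207) (nat_lit 5) (nat_lit 206) (nat_lit 5) (nat_lit 222) (nat_lit 5) (nat_lit 292) (nat_lit 289) (nat_lit 199))))) (XT.nd (nat_lit 234) (nat_lit 912) (nat_lit 0) (XT.nd (nat_lit 78) (nat_lit 0) (nat_lit 76) (XT.lf (nat_lit 76) (nat_lit 5311481408) (nat_lit 0) (nat_lit 5254262135) (nat_lit 1216) (nat_lit 8140798845) (nat_lit 208) (nat_lit 5) (nat_lit 207) (nat_lit 5) (nat_lit 223) (nat_lit 5) (nat_lit 293) (nat_lit 289) (nat_lit 198)) (XT.nd (nat_lit 78) (nat_lit 0) (nat_lit 76) (XT.lf (nat_lit 76) (nat_lit 1294977246) (nat_lit 0) (nat_lit 10802468318) (nat_lit 1216) (nat_lit 7084674124) (nat_lit 209) (nat_lit 5) (nat_lit 208) (nat_lit 5) (nat_lit 224) (nat_lit 5) (nat_lit 294) (nat_lit 289) (nat_lit 197)) (XT.lf (nat_lit 0) (nat_lit 13906161180)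 (nat_lit 1140) (nat_lit 2773622221) (nat_lit 1216) (nat_lit 2995699465) (nat_lit 209) (nat_lit 5) (nat_lit 224) (nat_lit 5) (nat_lit 225) (nat_lit 5) (nat_lit 295) (nat_lit 289) (nat_lit 196)))) (XT.nd (nat_lit 156) (nat_lit 1064) (nat_lit 0) (XT.nd (nat_lit 78) (nat_lit 0) (nat_lit 76) (XT.lf (nat_lit 76) (nat_lit 13231503666) (nat_lit 0) (nat_lit 2791663160) (nat_lit 1216) (nat_lit 4163830672) (nat_lit 210) (nat_lit 5) (nat_lit 209) (nat_lit 5) (nat_lit 225) (nat_lit 5) (nat_lit 296) (nat_lit 289) (nat_lit 195)) (XT.lf (nat_lit 76) (nat_lit 9428530320) (nat_lit 0) (nat_lit 9032730770) (nat_lit 1216) (nat_lit 2256387646) (nat_lit 211) (nat_lit 5) (nat_lit 210) (nat_lit 5) (nat_lit 226) (nat_lit 5) (nat_lit 297) (nat_lit 289) (nat_lit 194))) (XT.nd (nat_lit 78) (nat_lit 1216) (nat_lit 0) (XT.lf (nat_lit 76) (nat_lit 5516449952) (nat_lit 0) (nat_lit 15694612459) (nat_lit 1216) (nat_lit 58093215)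 (nat_lit 212) (nat_lit 5) (nat_lit 211) (nat_lit 5) (nat_lit 227) (nat_lit 5) (nat_lit 298) (nat_lit 289) (nat_lit 193)) (XT.lf (nat_lit 76) (nat_lit 1454313790) (nat_lit 0) (nat_lit 958081186) (nat_lit 1292) (nat_lit 19429024265) (nat_lit 196) (nat_lit 5) (nat_lit 195) (nat_lit 5) (nat_lit 212) (nat_lit 5) (nat_lit 299) (nat_lit 289) (nat_lit 192)))))) (XT.nd (nat_lit 546) (nat_lit 2736) (nat_lit 0) (XT.nd (nat_lit 234) (nat_lit 1672) (nat_lit 0) (XT.nd (nat_lit 78) (nat_lit 1368) (nat_lit 0) (XT.lf (nat_lit 0) (nat_lit 5292862869) (nat_lit 1216) (nat_lit 2741973769) (nat_lit 76) (nat_lit 14398827555) (nat_lit 196) (nat_lit 5) (nat_lit 212) (nat_lit 5) (nat_lit 197) (nat_lit 5) (nat_lit 300) (nat_lit 289) (nat_lit 191)) (XT.nd (nat_lit 78) (nat_lit 608) (nat_lit 0) (XT.lf (nat_lit 0) (nat_lit 8539805629) (nat_lit 836) (nat_lit 7047791732) (nat_lit 76) (nat_lit 7461264882) (nat_lit 186) (nat_lit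 5) (nat_lit 197) (nat_lit 5) (nat_lit 187) (nat_lit 5) (nat_lit 301) (nat_lit 289) (nat_lit 190)) (XT.lf (nat_lit 0) (nat_lit 12161809188) (nat_lit 684) (nat_lit 11500791318) (nat_lit 76) (nat_lit 25851989) (nat_lit 178) (nat_lit 5) (nat_lit 187) (nat_lit 5) (nat_lit 179) (nat_lit 5) (nat_lit 302) (nat_lit 289) (nat_lit 189)))) (XT.nd (nat_lit 156) (nat_lit 608) (nat_lit 0) (XT.nd (nat_lit 78) (nat_lit 532) (nat_lit 0) (XT.lf (nat_lit 0) (nat_lit 8162366065) (nat_lit 532) (nat_lit 8097874273) (nat_lit 608) (nat_lit 8090935156) (nat_lit 171) (nat_lit 5) (nat_lit 178) (nat_lit 5) (nat_lit 179) (nat_lit 5) (nat_lit 303) (nat_lit 289) (nat_lit 188)) (XT.lf (nat_lit 0) (nat_lit 3989739343) (nat_lit 532) (nat_lit 16797826944) (nat_lit 608) (nat_lit 4252761594) (nat_lit 164) (nat_lit 5) (nat_lit 171) (nat_lit 5) (nat_lit 172) (nat_lit 5) (nat_lit 304) (nat_lit 289) (nat_lit 187))) (XT.nd (nat_lit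 78) (nat_lit 532) (nat_lit 0) (XT.lf (nat_lit 0) (nat_lit 18868933) (nat_lit 608) (nat_lit 337772528) (nat_lit 76) (nat_lit 25400256048) (nat_lit 163) (nat_lit 5) (nat_lit 171) (nat_lit 5) (nat_lit 164) (nat_lit 5) (nat_lit 305) (nat_lit 289) (nat_lit 186)) (XT.lf (nat_lit 0) (nat_lit 4779103123) (nat_lit 608) (nat_lit 4886825289) (nat_lit 76) (nat_lit 16831225689) (nat_lit 156) (nat_lit 5) (nat_lit 164) (nat_lit 5) (nat_lit 157) (nat_lit 5) (nat_lit 306) (nat_lit 289) (nat_lit 185))))) (XT.nd (nat_lit 234) (nat_lit 1292) (nat_lit 0) (XT.nd (nat_lit 78) (nat_lit 912) (nat_lit 0) (XT.lf (nat_lit 0) (nat_lit 10017760671) (nat_lit 608) (nat_lit 9625999877) (nat_lit 76) (nat_lit 7623461052) (nat_lit 149) (nat_lit 5) (nat_lit 157) (nat_lit 5) (nat_lit 150) (nat_lit 5) (nat_lit 307) (nat_lit 289) (nat_lit 184)) (XT.nd (nat_lit 78) (nat_lit 456) (nat_lit 0) (XT.lf (nat_lit 0) (nat_lit 13475947328)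 (nat_lit 456) (nat_lit 2308985002) (nat_lit 532) (nat_lit 12282872640) (nat_lit 143) (nat_lit 5) (nat_lit 149) (nat_lit 5) (nat_lit 150) (nat_lit 5) (nat_lit 308) (nat_lit 289) (nat_lit 183)) (XT.lf (nat_lit 0) (nat_lit 9038900062) (nat_lit 456) (nat_lit 13130380049) (nat_lit 532) (nat_lit 6729282331) (nat_lit 137) (nat_lit 5) (nat_lit 143) (nat_lit 5) (nat_lit 144) (nat_lit 5) (nat_lit 309) (nat_lit 289) (nat_lit 182)))) (XT.nd (nat_lit 156) (nat_lit 836) (nat_lit 0) (XT.nd (nat_lit 78) (nat_lit 76) (nat_lit 0) (XT.lf (nat_lit 0) (nat_lit 4391102215) (nat_lit 380) (nat_lit 24735609351) (nat_lit 456) (nat_lit 636539241) (nat_lit 132) (nat_lit 5) (nat_lit 137) (nat_lit 5) (nat_lit 138) (nat_lit 5) (nat_lit 310) (nat_lit 289) (nat_lit 181)) (XT.lf (nat_lit 0) (nat_lit 5977170318) (nat_lit 456) (nat_lit 597799594) (nat_lit 76) (nat_lit 24084688384) (nat_lit 131) (nat_lit 5) (nat_lit 137) (nat_lit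 5) (nat_lit 132) (nat_lit 5) (nat_lit 311) (nat_lit 289) (nat_lit 180))) (XT.nd (nat_lit 78) (nat_lit 380) (nat_lit 0) (XT.lf (nat_lit 0) (nat_lit 13270364816) (nat_lit 532) (nat_lit 5813496906) (nat_lit 76) (nat_lit 12505984378) (nat_lit 125) (nat_lit 5) (nat_lit 132) (nat_lit 5) (nat_lit 126) (nat_lit 5) (nat_lit 312) (nat_lit 289) (nat_lit 179)) (XT.lf (nat_lit 0) (nat_lit 21196205046) (nat_lit 456) (nat_lit 11307048060) (nat_lit 76) (nat_lit 55258163) (nat_lit 120) (nat_lit 5) (nat_lit 126) (nat_lit 5) (nat_lit 121) (nat_lit 5) (nat_lit 313) (nat_lit 289) (nat_lit 178))))))) (XT.nd (nat_lit 1092) (nat_lit 2356) (nat_lit 0) (XT.nd (nat_lit 546) (nat_lit 1672) (nat_lit 0) (XT.nd (nat_lit 234) (nat_lit 988) (nat_lit 0) (XT.nd (nat_lit 78) (nat_lit 836) (nat_lit 0) (XT.lf (nat_lit 0) (nat_lit 16331289953) (nat_lit 380) (nat_lit 13587987703) (nat_lit 456) (nat_lit 3644311026) (nat_lit 115)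 (nat_lit 5) (nat_lit 120) (nat_lit 5) (nat_lit 121) (nat_lit 5) (nat_lit 314) (nat_lit 289) (nat_lit 177)) (XT.nd (nat_lit 78) (nat_lit 380) (nat_lit 0) (XT.lf (nat_lit 0) (nat_lit 4651194367) (nat_lit 456) (nat_lit 23539820148) (nat_lit 76) (nat_lit 6418267066) (nat_lit 109) (nat_lit 5) (nat_lit 115) (nat_lit 5) (nat_lit 110) (nat_lit 5) (nat_lit 315) (nat_lit 289) (nat_lit 176)) (XT.lf (nat_lit 0) (nat_lit 5362135648) (nat_lit 380) (nat_lit 8283931646) (nat_lit 456) (nat_lit 22049316834) (nat_lit 104) (nat_lit 5) (nat_lit 109) (nat_lit 5) (nat_lit 110) (nat_lit 5) (nat_lit 316) (nat_lit 289) (nat_lit 175)))) (XT.nd (nat_lit 156) (nat_lit 684) (nat_lit 0) (XT.nd (nat_lit 78) (nat_lit 304) (nat_lit 0) (XT.lf (nat_lit 0) (nat_lit 23448401650) (nat_lit 456) (nat_lit 762310093) (nat_lit 76) (nat_lit 12614354559) (nat_lit 104) (nat_lit 5) (nat_lit 110) (nat_lit 5) (nat_lit 105) (nat_lit 5) (nat_lit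 317) (nat_lit 289) (nat_lit 174)) (XT.lf (nat_lit 0) (nat_lit 30793800332) (nat_lit 304) (nat_lit 3318768289) (nat_lit 380) (nat_lit 3887518237) (nat_lit 100) (nat_lit 5) (nat_lit 104) (nat_lit 5) (nat_lit 105) (nat_lit 5) (nat_lit 318) (nat_lit 289) (nat_lit 173))) (XT.nd (nat_lit 78) (nat_lit 304) (nat_lit 0) (XT.lf (nat_lit 0) (nat_lit 6381301231) (nat_lit 380) (nat_lit 14275415759) (nat_lit 76) (nat_lit 18562681091) (nat_lit 95) (nat_lit 5) (nat_lit 100) (nat_lit 5) (nat_lit 96) (nat_lit 5) (nat_lit 319) (nat_lit 289) (nat_lit 172)) (XT.lf (nat_lit 0) (nat_lit 17376198828) (nat_lit 380) (nat_lit 21867664126) (nat_lit 76) (nat_lit 1245871155) (nat_lit 91) (nat_lit 5) (nat_lit 96) (nat_lit 5) (nat_lit 92) (nat_lit 5) (nat_lit 320) (nat_lit 289) (nat_lit 171))))) (XT.nd (nat_lit 234) (nat_lit 1064) (nat_lit 0) (XT.nd (nat_lit 78) (nat_lit 304) (nat_lit 0) (XT.lf (nat_lit 0) (nat_lit 11650654834)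 (nat_lit 304) (nat_lit 17731844636) (nat_lit 380) (nat_lit 12427242544) (nat_lit 87) (nat_lit 5) (nat_lit 91) (nat_lit 5) (nat_lit 92) (nat_lit 5) (nat_lit 321) (nat_lit 289) (nat_lit 170)) (XT.nd (nat_lit 78) (nat_lit 76) (nat_lit 0) (XT.lf (nat_lit 0) (nat_lit 4134436139) (nat_lit 228) (nat_lit 38161418652) (nat_lit 304) (nat_lit 890697922) (nat_lit 84) (nat_lit 5) (nat_lit 87) (nat_lit 5) (nat_lit 88) (nat_lit 5) (nat_lit 322) (nat_lit 289) (nat_lit 169)) (XT.lf (nat_lit 0) (nat_lit 11489336663) (nat_lit 304) (nat_lit 4149990044) (nat_lit 76) (nat_lit 28975075385) (nat_lit 83) (nat_lit 5) (nat_lit 87) (nat_lit 5) (nat_lit 84) (nat_lit 5) (nat_lit 323) (nat_lit 289) (nat_lit 168)))) (XT.nd (nat_lit 156) (nat_lit 532) (nat_lit 0) (XT.nd (nat_lit 78) (nat_lit 228) (nat_lit 0) (XT.lf (nat_lit 0) (nat_lit 24862217058) (nat_lit 380) (nat_lit 13059146157) (nat_lit 76) (nat_lit 8180252252) (nat_lit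 79) (nat_lit 5) (nat_lit 84) (nat_lit 5) (nat_lit 80) (nat_lit 5) (nat_lit 324) (nat_lit 289) (nat_lit 167)) (XT.lf (nat_lit 0) (nat_lit 24836278758) (nat_lit 228) (nat_lit 14500868531) (nat_lit 304) (nat_lit 8313043896) (nat_lit 76) (nat_lit 5) (nat_lit 79) (nat_lit 5) (nat_lit 80) (nat_lit 5) (nat_lit 325) (nat_lit 289) (nat_lit 166))) (XT.nd (nat_lit 78) (nat_lit 228) (nat_lit 0) (XT.lf (nat_lit 0) (nat_lit 5539506819) (nat_lit 304) (nat_lit 33490739526) (nat_lit 76) (nat_lit 10232960759) (nat_lit 72) (nat_lit 5) (nat_lit 76) (nat_lit 5) (nat_lit 73) (nat_lit 5) (nat_lit 326) (nat_lit 289) (nat_lit 165)) (XT.lf (nat_lit 0) (nat_lit 5684209830) (nat_lit 228) (nat_lit 14662318347) (nat_lit 304) (nat_lit 30594866723) (nat_lit 69) (nat_lit 5) (nat_lit 72) (nat_lit 5) (nat_lit 73) (nat_lit 5) (nat_lit 327) (nat_lit 289) (nat_lit 164)))))) (XT.nd (nat_lit 546) (nat_lit 1140) (nat_lit 0) (XT.nd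 (nat_lit 234) (nat_lit 684) (nat_lit 0) (XT.nd (nat_lit 78) (nat_lit 532) (nat_lit 0) (XT.lf (nat_lit 0) (nat_lit 36341245959) (nat_lit 304) (nat_lit 5292889842) (nat_lit 76) (nat_lit 11055939152) (nat_lit 69) (nat_lit 5) (nat_lit 73) (nat_lit 5) (nat_lit 70) (nat_lit 5) (nat_lit 328) (nat_lit 289) (nat_lit 163)) (XT.nd (nat_lit 78) (nat_lit 304) (nat_lit 0) (XT.lf (nat_lit 0) (nat_lit 37239658810) (nat_lit 228) (nat_lit 16396445411) (nat_lit 304) (nat_lit 875075726) (nat_lit 66) (nat_lit 5) (nat_lit 69) (nat_lit 5) (nat_lit 70) (nat_lit 5) (nat_lit 329) (nat_lit 289) (nat_lit 162)) (XT.lf (nat_lit 0) (nat_lit 15472878584) (nat_lit 304) (nat_lit 30574468278) (nat_lit 76) (nat_lit 10359548608) (nat_lit 62) (nat_lit 5) (nat_lit 66) (nat_lit 5) (nat_lit 63) (nat_lit 5) (nat_lit 330) (nat_lit 289) (nat_lit 161)))) (XT.nd (nat_lit 156) (nat_lit 456) (nat_lit 0) (XT.nd (nat_lit 78) (nat_lit 0)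 (nat_lit 0) (XT.lf (nat_lit 0) (nat_lit 13132203723) (nat_lit 228) (nat_lit 19954102290) (nat_lit 304) (nat_lit 25296848340) (nat_lit 59) (nat_lit 5) (nat_lit 62) (nat_lit 5) (nat_lit 63) (nat_lit 5) (nat_lit 331) (nat_lit 289) (nat_lit 160)) (XT.lf (nat_lit 0) (nat_lit 51964677737) (nat_lit 304) (nat_lit 868615355) (nat_lit 76) (nat_lit 7613407480) (nat_lit 59) (nat_lit 5) (nat_lit 63) (nat_lit 5) (nat_lit 60) (nat_lit 5) (nat_lit 332) (nat_lit 289) (nat_lit 159))) (XT.nd (nat_lit 78) (nat_lit 228) (nat_lit 0) (XT.lf (nat_lit 0) (nat_lit 9643717701) (nat_lit 228) (nat_lit 16259137201) (nat_lit 76) (nat_lit 36688450654) (nat_lit 56) (nat_lit 5) (nat_lit 59) (nat_lit 5) (nat_lit 57) (nat_lit 5) (nat_lit 333) (nat_lit 289) (nat_lit 158)) (XT.lf (nat_lit 0) (nat_lit 28836615556) (nat_lit 304) (nat_lit 33266806477) (nat_lit 76) (nat_lit 2727112869) (nat_lit 53) (nat_lit 5) (nat_lit 57) (nat_lit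 5) (nat_lit 54) (nat_lit 5) (nat_lit 334) (nat_lit 289) (nat_lit 157))))) (XT.nd (nat_lit 312) (nat_lit 532) (nat_lit 0) (XT.nd (nat_lit 156) (nat_lit 380) (nat_lit 0) (XT.nd (nat_lit 78) (nat_lit 76) (nat_lit 0) (XT.lf (nat_lit 0) (nat_lit 14962009279) (nat_lit 152) (nat_lit 34596794264) (nat_lit 228) (nat_lit 17605834978) (nat_lit 51) (nat_lit 5) (nat_lit 53) (nat_lit 5) (nat_lit 54) (nat_lit 5) (nat_lit 335) (nat_lit 289) (nat_lit 156)) (XT.lf (nat_lit 0) (nat_lit 2009741598) (nat_lit 228) (nat_lit 3335004055) (nat_lit 76) (nat_lit 64259974147) (nat_lit 50) (nat_lit 5) (nat_lit 53) (nat_lit 5) (nat_lit 51) (nat_lit 5) (nat_lit 336) (nat_lit 289) (nat_lit 155))) (XT.nd (nat_lit 78) (nat_lit 152) (nat_lit 0) (XT.lf (nat_lit 0) (nat_lit 22959815829) (nat_lit 304) (nat_lit 23655520511) (nat_lit 76) (nat_lit 25524706216) (nat_lit 47) (nat_lit 5) (nat_lit 51) (nat_lit 5) (nat_lit 48) (nat_lit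 5) (nat_lit 337) (nat_lit 289) (nat_lit 154)) (XT.lf (nat_lit 0) (nat_lit 28661555454) (nat_lit 152) (nat_lit 16655747149) (nat_lit 228) (nat_lit 29474033396) (nat_lit 45) (nat_lit 5) (nat_lit 47) (nat_lit 5) (nat_lit 48) (nat_lit 5) (nat_lit 338) (nat_lit 289) (nat_lit 153)))) (XT.nd (nat_lit 156) (nat_lit 304) (nat_lit 0) (XT.nd (nat_lit 78) (nat_lit 76) (nat_lit 0) (XT.lf (nat_lit 0) (nat_lit 6496034303) (nat_lit 152) (nat_lit 62743169262) (nat_lit 228) (nat_lit 8322596082) (nat_lit 43) (nat_lit 5) (nat_lit 45) (nat_lit 5) (nat_lit 46) (nat_lit 5) (nat_lit 339) (nat_lit 289) (nat_lit 152)) (XT.lf (nat_lit 0) (nat_lit 14259094581) (nat_lit 228) (nat_lit 18052561710) (nat_lit 76) (nat_lit 48135817580) (nat_lit 42) (nat_lit 5) (nat_lit 45) (nat_lit 5) (nat_lit 43) (nat_lit 5) (nat_lit 340) (nat_lit 289) (nat_lit 151))) (XT.nd (nat_lit 78) (nat_lit 152) (nat_lit 0) (XT.lf (nat_lit 0) (nat_lit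 38164367235) (nat_lit 228) (nat_lit 45197471798) (nat_lit 76) (nat_lit 102123591) (nat_lit 40) (nat_lit 5) (nat_lit 43) (nat_lit 5) (nat_lit 41) (nat_lit 5) (nat_lit 341) (nat_lit 289) (nat_lit 150)) (XT.lf (nat_lit 0) (nat_lit 11033967780) (nat_lit 152) (nat_lit 52847071338) (nat_lit 228) (nat_lit 22731754078) (nat_lit 38) (nat_lit 5) (nat_lit 40) (nat_lit 5) (nat_lit 41) (nat_lit 5) (nat_lit 342) (nat_lit 289) (nat_lit 149))))))))
noncomputable def xc96 : XT := (XT.nd (nat_lit 37440) (nat_lit 0) (nat_lit 3724) (XT.nd (nat_lit 1092) (nat_lit 76) (nat_lit 0) (XT.nd (nat_lit 546) (nat_lit 608) (nat_lit 0) (XT.nd (nat_lit 234) (nat_lit 304) (nat_lit 0) (XT.nd (nat_lit 78) (nat_lit 304) (nat_lit 0) (XT.lf (nat_lit 0) (nat_lit 1411880120) (nat_lit 228) (nat_lit 18903817626) (nat_lit 76) (nat_lit 69589104118) (nat_lit 37) (nat_lit 5) (nat_lit 40) (nat_lit 5) (nat_lit 38) (nat_lit 5) (nat_lit 343)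 (nat_lit 289) (nat_lit 148)) (XT.nd (nat_lit 78) (nat_lit 152) (nat_lit 0) (XT.lf (nat_lit 0) (nat_lit 26828464748) (nat_lit 228) (nat_lit 52309056481) (nat_lit 76) (nat_lit 14201062116) (nat_lit 35) (nat_lit 5) (nat_lit 38) (nat_lit 5) (nat_lit 36) (nat_lit 5) (nat_lit 344) (nat_lit 289) (nat_lit 147)) (XT.lf (nat_lit 0) (nat_lit 7346829611) (nat_lit 152) (nat_lit 46637853792) (nat_lit 228) (nat_lit 42945307569) (nat_lit 33) (nat_lit 5) (nat_lit 35) (nat_lit 5) (nat_lit 36) (nat_lit 5) (nat_lit 345) (nat_lit 289) (nat_lit 146)))) (XT.nd (nat_lit 156) (nat_lit 152) (nat_lit 0) (XT.nd (nat_lit 78) (nat_lit 152) (nat_lit 0) (XT.lf (nat_lit 0) (nat_lit 71072872582) (nat_lit 152) (nat_lit 11961028861) (nat_lit 228) (nat_lit 17651013042) (nat_lit 33) (nat_lit 5) (nat_lit 35) (nat_lit 5) (nat_lit 36) (nat_lit 5) (nat_lit 346) (nat_lit 289) (nat_lit 145)) (XT.lf (nat_lit 0) (nat_lit 9296227338)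 (nat_lit 152) (nat_lit 70925866997) (nat_lit 76) (nat_lit 24386060288) (nat_lit 31) (nat_lit 5) (nat_lit 33) (nat_lit 5) (nat_lit 32) (nat_lit 5) (nat_lit 347) (nat_lit 289) (nat_lit 144))) (XT.nd (nat_lit 78) (nat_lit 152) (nat_lit 0) (XT.lf (nat_lit 0) (nat_lit 37654660725) (nat_lit 152) (nat_lit 8265618794) (nat_lit 76) (nat_lit 62789168963) (nat_lit 31) (nat_lit 5) (nat_lit 33) (nat_lit 5) (nat_lit 32) (nat_lit 5) (nat_lit 348) (nat_lit 289) (nat_lit 143)) (XT.lf (nat_lit 0) (nat_lit 58667265281) (nat_lit 152) (nat_lit 9324757140) (nat_lit 228) (nat_lit 45006955385) (nat_lit 29) (nat_lit 5) (nat_lit 31) (nat_lit 5) (nat_lit 32) (nat_lit 5) (nat_lit 349) (nat_lit 289) (nat_lit 142))))) (XT.nd (nat_lit 234) (nat_lit 304) (nat_lit 0) (XT.nd (nat_lit 78) (nat_lit 228) (nat_lit 0) (XT.lf (nat_lit 0) (nat_lit 11558969347) (nat_lit 76) (nat_lit 88761188118) (nat_lit 152) (nat_lit 17168609897)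 (nat_lit 28) (nat_lit 5) (nat_lit 29) (nat_lit 5) (nat_lit 30) (nat_lit 4) (nat_lit 350) (nat_lit 289) (nat_lit 141)) (XT.nd (nat_lit 78) (nat_lit 152) (nat_lit 0) (XT.lf (nat_lit 0) (nat_lit 12482430282) (nat_lit 152) (nat_lit 40527321089) (nat_lit 76) (nat_lit 69170133249) (nat_lit 27) (nat_lit 5) (nat_lit 29) (nat_lit 5) (nat_lit 28) (nat_lit 5) (nat_lit 351) (nat_lit 289) (nat_lit 140)) (XT.lf (nat_lit 0) (nat_lit 28523820655) (nat_lit 152) (nat_lit 15011943492) (nat_lit 228) (nat_lit 83556450374) (nat_lit 25) (nat_lit 5) (nat_lit 27) (nat_lit 5) (nat_lit 28) (nat_lit 5) (nat_lit 352) (nat_lit 289) (nat_lit 139)))) (XT.nd (nat_lit 156) (nat_lit 228) (nat_lit 0) (XT.nd (nat_lit 78) (nat_lit 76) (nat_lit 0) (XT.lf (nat_lit 0) (nat_lit 76799694288) (nat_lit 228) (nat_lit 30611268107) (nat_lit 76) (nat_lit 24819461411) (nat_lit 25) (nat_lit 5) (nat_lit 28) (nat_lit 5) (nat_lit 26) (nat_lit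 4) (nat_lit 353) (nat_lit 289) (nat_lit 138)) (XT.lf (nat_lit 0) (nat_lit 41395497094) (nat_lit 76) (nat_lit 70878275054) (nat_lit 152) (nat_lit 25335363608) (nat_lit 24) (nat_lit 5) (nat_lit 25) (nat_lit 5) (nat_lit 26) (nat_lit 4) (nat_lit 354) (nat_lit 289) (nat_lit 137))) (XT.nd (nat_lit 78) (nat_lit 152) (nat_lit 0) (XT.lf (nat_lit 0) (nat_lit 6458323604) (nat_lit 152) (nat_lit 25672778400) (nat_lit 76) (nat_lit 111114401322) (nat_lit 23) (nat_lit 5) (nat_lit 25) (nat_lit 5) (nat_lit 24) (nat_lit 5) (nat_lit 355) (nat_lit 289) (nat_lit 136)) (XT.lf (nat_lit 0) (nat_lit 39881594085) (nat_lit 228) (nat_lit 100138128056) (nat_lit 76) (nat_lit 9119526236) (nat_lit 21) (nat_lit 5) (nat_lit 24) (nat_lit 5) (nat_lit 22) (nat_lit 4) (nat_lit 356) (nat_lit 289) (nat_lit 135)))))) (XT.nd (nat_lit 35802) (nat_lit 0) (nat_lit 13300) (XT.nd (nat_lit 35490) (nat_lit 0) (nat_lit 14060) (XT.nd (nat_lit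 78) (nat_lit 76) (nat_lit 0) (XT.lf (nat_lit 0) (nat_lit 75564965416) (nat_lit 228) (nat_lit 27705591627) (nat_lit 76) (nat_lit 52039456135) (nat_lit 21) (nat_lit 5) (nat_lit 24) (nat_lit 5) (nat_lit 22) (nat_lit 4) (nat_lit 357) (nat_lit 289) (nat_lit 134)) (XT.nd (nat_lit 35334) (nat_lit 0) (nat_lit 14060) (XT.lf (nat_lit 0) (nat_lit 49306805734) (nat_lit 76) (nat_lit 64197509719) (nat_lit 152) (nat_lit 48270847052) (nat_lit 20) (nat_lit 5) (nat_lit 21) (nat_lit 5) (nat_lit 22) (nat_lit 4) (nat_lit 358) (nat_lit 289) (nat_lit 133)) (XT.lf (nat_lit 0) (nat_lit 1955461935) (nat_lit 0) (nat_lit 1955461935) (nat_lit 1140) (nat_lit 4987937199) (nat_lit 205) (nat_lit 5) (nat_lit 205) (nat_lit 3) (nat_lit 220) (nat_lit 3) (nat_lit 290) (nat_lit 290) (nat_lit 200)))) (XT.nd (nat_lit 156) (nat_lit 0) (nat_lit 76) (XT.nd (nat_lit 78) (nat_lit 0) (nat_lit 76) (XT.lf (nat_lit 0) (nat_lit 8440581643)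 (nat_lit 1140) (nat_lit 365289243) (nat_lit 1216) (nat_lit 9423756465) (nat_lit 205) (nat_lit 5) (nat_lit 220) (nat_lit 3) (nat_lit 221) (nat_lit 5) (nat_lit 291) (nat_lit 290) (nat_lit 199)) (XT.lf (nat_lit 0) (nat_lit 9290020988) (nat_lit 1140) (nat_lit 4669046946) (nat_lit 1216) (nat_lit 4718088734) (nat_lit 206) (nat_lit 5) (nat_lit 221) (nat_lit 5) (nat_lit 222) (nat_lit 5) (nat_lit 292) (nat_lit 290) (nat_lit 198))) (XT.nd (nat_lit 78) (nat_lit 0) (nat_lit 76) (XT.lf (nat_lit 76) (nat_lit 10056447531) (nat_lit 0) (nat_lit 294742971) (nat_lit 1216) (nat_lit 8790815063) (nat_lit 207) (nat_lit 5) (nat_lit 206) (nat_lit 5) (nat_lit 222) (nat_lit 5) (nat_lit 293) (nat_lit 290) (nat_lit 197)) (XT.lf (nat_lit 76) (nat_lit 5955717092) (nat_lit 0) (nat_lit 5731409585) (nat_lit 1216) (nat_lit 7936338854) (nat_lit 208) (nat_lit 5) (nat_lit 207) (nat_lit 5) (nat_lit 223) (nat_lit 5) (nat_lit 294)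 (nat_lit 290) (nat_lit 196))))) (XT.nd (nat_lit 234) (nat_lit 988) (nat_lit 0) (XT.nd (nat_lit 78) (nat_lit 0) (nat_lit 76) (XT.lf (nat_lit 76) (nat_lit 1747412081) (nat_lit 0) (nat_lit 11521522611) (nat_lit 1216) (nat_lit 6854710478) (nat_lit 209) (nat_lit 5) (nat_lit 208) (nat_lit 5) (nat_lit 224) (nat_lit 5) (nat_lit 295) (nat_lit 290) (nat_lit 195)) (XT.nd (nat_lit 78) (nat_lit 0) (nat_lit 0) (XT.lf (nat_lit 0) (nat_lit 15139466245) (nat_lit 1140) (nat_lit 2524697171) (nat_lit 1216) (nat_lit 2978399400) (nat_lit 209) (nat_lit 5) (nat_lit 224) (nat_lit 5) (nat_lit 225) (nat_lit 5) (nat_lit 296) (nat_lit 290) (nat_lit 194)) (XT.lf (nat_lit 76) (nat_lit 14269574358) (nat_lit 0) (nat_lit 3070748016) (nat_lit 1216) (nat_lit 3840017195) (nat_lit 210) (nat_lit 5) (nat_lit 209) (nat_lit 5) (nat_lit 225) (nat_lit 5) (nat_lit 297) (nat_lit 290) (nat_lit 193)))) (XT.nd (nat_lit 156) (nat_lit 0)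 (nat_lit 0) (XT.nd (nat_lit 78) (nat_lit 1140) (nat_lit 0) (XT.lf (nat_lit 76) (nat_lit 10282511657) (nat_lit 0) (nat_lit 9595638629) (nat_lit 1216) (nat_lit 1860063351) (nat_lit 211) (nat_lit 5) (nat_lit 210) (nat_lit 5) (nat_lit 226) (nat_lit 5) (nat_lit 298) (nat_lit 290) (nat_lit 192)) (XT.lf (nat_lit 0) (nat_lit 418362099) (nat_lit 1216) (nat_lit 16142266858) (nat_lit 1292) (nat_lit 5757192086) (nat_lit 195) (nat_lit 5) (nat_lit 211) (nat_lit 5) (nat_lit 212) (nat_lit 5) (nat_lit 299) (nat_lit 290) (nat_lit 191))) (XT.nd (nat_lit 78) (nat_lit 0) (nat_lit 76) (XT.lf (nat_lit 76) (nat_lit 1913123325) (nat_lit 0) (nat_lit 1079002473) (nat_lit 1292) (nat_lit 19927148344) (nat_lit 196) (nat_lit 5) (nat_lit 195) (nat_lit 5) (nat_lit 212) (nat_lit 5) (nat_lit 300) (nat_lit 290) (nat_lit 190)) (XT.lf (nat_lit 0) (nat_lit 5994086191) (nat_lit 1216) (nat_lit 2497156465) (nat_lit 76) (nat_lit 15050585696)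 (nat_lit 196) (nat_lit 5) (nat_lit 212) (nat_lit 5) (nat_lit 197) (nat_lit 5) (nat_lit 301) (nat_lit 290) (nat_lit 189))))))) (XT.nd (nat_lit 1092) (nat_lit 3496) (nat_lit 0) (XT.nd (nat_lit 546) (nat_lit 2584) (nat_lit 0) (XT.nd (nat_lit 234) (nat_lit 1672) (nat_lit 0) (XT.nd (nat_lit 78) (nat_lit 1140) (nat_lit 0) (XT.lf (nat_lit 0) (nat_lit 9385687395) (nat_lit 836) (nat_lit 7015765468) (nat_lit 76) (nat_lit 7786884180) (nat_lit 186) (nat_lit 5) (nat_lit 197) (nat_lit 5) (nat_lit 187) (nat_lit 5) (nat_lit 302) (nat_lit 290) (nat_lit 188)) (XT.nd (nat_lit 78) (nat_lit 532) (nat_lit 0) (XT.lf (nat_lit 0) (nat_lit 13170714992) (nat_lit 608) (nat_lit 1452120) (nat_lit 684) (nat_lit 11688257539) (nat_lit 178) (nat_lit 5) (nat_lit 186) (nat_lit 5) (nat_lit 187) (nat_lit 5) (nat_lit 303) (nat_lit 290) (nat_lit 187)) (XT.lf (nat_lit 0) (nat_lit 8945551063) (nat_lit 532) (nat_lit 8514405239) (nat_lit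 608) (nat_lit 8096812614) (nat_lit 171) (nat_lit 5) (nat_lit 178) (nat_lit 5) (nat_lit 179) (nat_lit 5) (nat_lit 304) (nat_lit 290) (nat_lit 186)))) (XT.nd (nat_lit 156) (nat_lit 532) (nat_lit 0) (XT.nd (nat_lit 78) (nat_lit 608) (nat_lit 0) (XT.lf (nat_lit 0) (nat_lit 4565272819) (nat_lit 532) (nat_lit 17633469507) (nat_lit 608) (nat_lit 4082101127) (nat_lit 164) (nat_lit 5) (nat_lit 171) (nat_lit 5) (nat_lit 172) (nat_lit 5) (nat_lit 305) (nat_lit 290) (nat_lit 185)) (XT.lf (nat_lit 0) (nat_lit 11139871) (nat_lit 532) (nat_lit 366702459) (nat_lit 608) (nat_lit 26655838407) (nat_lit 156) (nat_lit 5) (nat_lit 163) (nat_lit 5) (nat_lit 164) (nat_lit 5) (nat_lit 306) (nat_lit 290) (nat_lit 184))) (XT.nd (nat_lit 78) (nat_lit 532) (nat_lit 0) (XT.lf (nat_lit 0) (nat_lit 5362454610) (nat_lit 608) (nat_lit 4765531971) (nat_lit 76) (nat_lit 17683387860) (nat_lit 156) (nat_lit 5) (nat_lit 164) (nat_lit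 5) (nat_lit 157) (nat_lit 5) (nat_lit 307) (nat_lit 290) (nat_lit 183)) (XT.lf (nat_lit 0) (nat_lit 10850287401) (nat_lit 608) (nat_lit 9742141123) (nat_lit 76) (nat_lit 8027914067) (nat_lit 149) (nat_lit 5) (nat_lit 157) (nat_lit 5) (nat_lit 150) (nat_lit 5) (nat_lit 308) (nat_lit 290) (nat_lit 182))))) (XT.nd (nat_lit 234) (nat_lit 1292) (nat_lit 0) (XT.nd (nat_lit 78) (nat_lit 836) (nat_lit 0) (XT.lf (nat_lit 0) (nat_lit 14504436240) (nat_lit 456) (nat_lit 2388998596) (nat_lit 532) (nat_lit 12567905632) (nat_lit 143) (nat_lit 5) (nat_lit 149) (nat_lit 5) (nat_lit 150) (nat_lit 5) (nat_lit 309) (nat_lit 290) (nat_lit 181)) (XT.nd (nat_lit 78) (nat_lit 380) (nat_lit 0) (XT.lf (nat_lit 0) (nat_lit 9844610850) (nat_lit 456) (nat_lit 13740911516) (nat_lit 532) (nat_lit 6748470969) (nat_lit 137) (nat_lit 5) (nat_lit 143) (nat_lit 5) (nat_lit 144) (nat_lit 5) (nat_lit 310) (nat_lit 290) (nat_lit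 180)) (XT.lf (nat_lit 0) (nat_lit 4963078089) (nat_lit 380) (nat_lit 25916899892) (nat_lit 456) (nat_lit 362276126) (nat_lit 132) (nat_lit 5) (nat_lit 137) (nat_lit 5) (nat_lit 138) (nat_lit 5) (nat_lit 311) (nat_lit 290) (nat_lit 179)))) (XT.nd (nat_lit 156) (nat_lit 760) (nat_lit 0) (XT.nd (nat_lit 78) (nat_lit 456) (nat_lit 0) (XT.lf (nat_lit 0) (nat_lit 6561854697) (nat_lit 456) (nat_lit 286129881) (nat_lit 76) (nat_lit 25335849481) (nat_lit 131) (nat_lit 5) (nat_lit 137) (nat_lit 5) (nat_lit 132) (nat_lit 5) (nat_lit 312) (nat_lit 290) (nat_lit 178)) (XT.lf (nat_lit 0) (nat_lit 14209829143) (nat_lit 532) (nat_lit 5764461172) (nat_lit 76) (nat_lit 13186548398) (nat_lit 125) (nat_lit 5) (nat_lit 132) (nat_lit 5) (nat_lit 126) (nat_lit 5) (nat_lit 313) (nat_lit 290) (nat_lit 177))) (XT.nd (nat_lit 78) (nat_lit 380) (nat_lit 0) (XT.lf (nat_lit 0) (nat_lit 22522608156) (nat_lit 456) (nat_lit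 11534852677) (nat_lit 76) (nat_lit 120767442) (nat_lit 120) (nat_lit 5) (nat_lit 126) (nat_lit 5) (nat_lit 121) (nat_lit 5) (nat_lit 314) (nat_lit 290) (nat_lit 176)) (XT.lf (nat_lit 0) (nat_lit 17475726498) (nat_lit 380) (nat_lit 14196564707) (nat_lit 456) (nat_lit 3561564686) (nat_lit 115) (nat_lit 5) (nat_lit 120) (nat_lit 5) (nat_lit 121) (nat_lit 5) (nat_lit 315) (nat_lit 290) (nat_lit 175)))))) (XT.nd (nat_lit 546) (nat_lit 1368) (nat_lit 0) (XT.nd (nat_lit 234) (nat_lit 1292) (nat_lit 0) (XT.nd (nat_lit 78) (nat_lit 380) (nat_lit 0) (XT.lf (nat_lit 0) (nat_lit 5134989242) (nat_lit 456) (nat_lit 24386127666) (nat_lit 76) (nat_lit 6810906090) (nat_lit 109) (nat_lit 5) (nat_lit 115) (nat_lit 5) (nat_lit 110) (nat_lit 5) (nat_lit 316) (nat_lit 290) (nat_lit 174)) (XT.nd (nat_lit 78) (nat_lit 0) (nat_lit 0) (XT.lf (nat_lit 0) (nat_lit 5951446945) (nat_lit 380) (nat_lit 8619282907) (nat_lit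 456) (nat_lit 22901975937) (nat_lit 104) (nat_lit 5) (nat_lit 109) (nat_lit 5) (nat_lit 110) (nat_lit 5) (nat_lit 317) (nat_lit 290) (nat_lit 173)) (XT.lf (nat_lit 0) (nat_lit 24852361830) (nat_lit 456) (nat_lit 488145455) (nat_lit 76) (nat_lit 13318697778) (nat_lit 104) (nat_lit 5) (nat_lit 110) (nat_lit 5) (nat_lit 105) (nat_lit 5) (nat_lit 318) (nat_lit 290) (nat_lit 172)))) (XT.nd (nat_lit 156) (nat_lit 608) (nat_lit 0) (XT.nd (nat_lit 78) (nat_lit 380) (nat_lit 0) (XT.lf (nat_lit 0) (nat_lit 32636819044) (nat_lit 304) (nat_lit 3404808167) (nat_lit 380) (nat_lit 3851600750) (nat_lit 100) (nat_lit 5) (nat_lit 104) (nat_lit 5) (nat_lit 105) (nat_lit 5) (nat_lit 319) (nat_lit 290) (nat_lit 171)) (XT.lf (nat_lit 0) (nat_lit 6919069899) (nat_lit 380) (nat_lit 14684131336) (nat_lit 76) (nat_lit 19570457389) (nat_lit 95) (nat_lit 5) (nat_lit 100) (nat_lit 5) (nat_lit 96) (nat_lit 5) (nat_lit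 320) (nat_lit 290) (nat_lit 170))) (XT.nd (nat_lit 78) (nat_lit 304) (nat_lit 0) (XT.lf (nat_lit 0) (nat_lit 18456964978) (nat_lit 380) (nat_lit 22659079889) (nat_lit 76) (nat_lit 1391676068) (nat_lit 91) (nat_lit 5) (nat_lit 96) (nat_lit 5) (nat_lit 92) (nat_lit 5) (nat_lit 321) (nat_lit 290) (nat_lit 169)) (XT.lf (nat_lit 0) (nat_lit 12526499182) (nat_lit 304) (nat_lit 18529807807) (nat_lit 380) (nat_lit 12837647178) (nat_lit 87) (nat_lit 5) (nat_lit 91) (nat_lit 5) (nat_lit 92) (nat_lit 5) (nat_lit 322) (nat_lit 290) (nat_lit 168))))) (XT.nd (nat_lit 234) (nat_lit 760) (nat_lit 0) (XT.nd (nat_lit 78) (nat_lit 380) (nat_lit 0) (XT.lf (nat_lit 0) (nat_lit 4631329375) (nat_lit 228) (nat_lit 39977854607) (nat_lit 304) (nat_lit 730612208) (nat_lit 84) (nat_lit 5) (nat_lit 87) (nat_lit 5) (nat_lit 88) (nat_lit 5) (nat_lit 323) (nat_lit 290) (nat_lit 167)) (XT.nd (nat_lit 78) (nat_lit 304) (nat_lit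 0) (XT.lf (nat_lit 0) (nat_lit 12254877521) (nat_lit 304) (nat_lit 4077214642) (nat_lit 76) (nat_lit 30507179399) (nat_lit 83) (nat_lit 5) (nat_lit 87) (nat_lit 5) (nat_lit 84) (nat_lit 5) (nat_lit 324) (nat_lit 290) (nat_lit 166)) (XT.lf (nat_lit 0) (nat_lit 26290762651) (nat_lit 380) (nat_lit 13435054574) (nat_lit 76) (nat_lit 8675203197) (nat_lit 79) (nat_lit 5) (nat_lit 84) (nat_lit 5) (nat_lit 80) (nat_lit 5) (nat_lit 325) (nat_lit 290) (nat_lit 165)))) (XT.nd (nat_lit 156) (nat_lit 228) (nat_lit 0) (XT.nd (nat_lit 78) (nat_lit 304) (nat_lit 0) (XT.lf (nat_lit 0) (nat_lit 26347200036) (nat_lit 228) (nat_lit 15135995956) (nat_lit 304) (nat_lit 8544021606) (nat_lit 76) (nat_lit 5) (nat_lit 79) (nat_lit 5) (nat_lit 80) (nat_lit 5) (nat_lit 326) (nat_lit 290) (nat_lit 164)) (XT.lf (nat_lit 0) (nat_lit 5992342985) (nat_lit 304) (nat_lit 34895797361) (nat_lit 76) (nat_lit 10832851977) (nat_lit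 72) (nat_lit 5) (nat_lit 76) (nat_lit 5) (nat_lit 73) (nat_lit 5) (nat_lit 327) (nat_lit 290) (nat_lit 163))) (XT.nd (nat_lit 78) (nat_lit 0) (nat_lit 0) (XT.lf (nat_lit 0) (nat_lit 6230174897) (nat_lit 228) (nat_lit 15303682334) (nat_lit 304) (nat_lit 31949412752) (nat_lit 69) (nat_lit 5) (nat_lit 72) (nat_lit 5) (nat_lit 73) (nat_lit 5) (nat_lit 328) (nat_lit 290) (nat_lit 162)) (XT.lf (nat_lit 0) (nat_lit 38321055515) (nat_lit 304) (nat_lit 5304136942) (nat_lit 76) (nat_lit 11694413748) (nat_lit 69) (nat_lit 5) (nat_lit 73) (nat_lit 5) (nat_lit 70) (nat_lit 5) (nat_lit 329) (nat_lit 290) (nat_lit 161))))))))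
noncomputable def xc97 : XT := (XT.nd (nat_lit 2184) (nat_lit 0) (nat_lit 0) (XT.nd (nat_lit 1092) (nat_lit 1292) (nat_lit 0) (XT.nd (nat_lit 546) (nat_lit 988) (nat_lit 0) (XT.nd (nat_lit 234) (nat_lit 608) (nat_lit 0) (XT.nd (nat_lit 78) (nat_lit 532) (nat_lit 0) (XT.lf (nat_lit 0) (nat_lit 39347775558) (nat_lit 228) (nat_lit 17127497252) (nat_lit 304) (nat_lit 756659444) (nat_lit 66) (nat_lit 5) (nat_lit 69) (nat_lit 5) (nat_lit 70) (nat_lit 5) (nat_lit 330) (nat_lit 290) (nat_lit 160)) (XT.nd (nat_lit 78) (nat_lit 228) (nat_lit 0) (XT.lf (nat_lit 0) (nat_lit 16401135295) (nat_lit 304) (nat_lit 31857116786) (nat_lit 76) (nat_lit 10964270454) (nat_lit 62) (nat_lit 5) (nat_lit 66) (nat_lit 5) (nat_lit 63) (nat_lit 5) (nat_lit 331) (nat_lit 290) (nat_lit 159)) (XT.lf (nat_lit 0) (nat_lit 14027835127) (nat_lit 228) (nat_lit 20862334073) (nat_lit 304) (nat_lit 26407580887) (nat_lit 59) (nat_lit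 5) (nat_lit 62) (nat_lit 5) (nat_lit 63) (nat_lit 5) (nat_lit 332) (nat_lit 290) (nat_lit 158)))) (XT.nd (nat_lit 156) (nat_lit 380) (nat_lit 0) (XT.nd (nat_lit 78) (nat_lit 228) (nat_lit 0) (XT.lf (nat_lit 0) (nat_lit 54706157299) (nat_lit 304) (nat_lit 680881237) (nat_lit 76) (nat_lit 8077627744) (nat_lit 59) (nat_lit 5) (nat_lit 63) (nat_lit 5) (nat_lit 60) (nat_lit 5) (nat_lit 333) (nat_lit 290) (nat_lit 157)) (XT.lf (nat_lit 0) (nat_lit 10265925735) (nat_lit 228) (nat_lit 16844702228) (nat_lit 76) (nat_lit 38605975679) (nat_lit 56) (nat_lit 5) (nat_lit 59) (nat_lit 5) (nat_lit 57) (nat_lit 5) (nat_lit 334) (nat_lit 290) (nat_lit 156))) (XT.nd (nat_lit 78) (nat_lit 152) (nat_lit 0) (XT.lf (nat_lit 0) (nat_lit 30414744814) (nat_lit 304) (nat_lit 34705966301) (nat_lit 76) (nat_lit 2947198219) (nat_lit 53) (nat_lit 5) (nat_lit 57) (nat_lit 5) (nat_lit 54) (nat_lit 5) (nat_lit 335) (nat_lit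 290) (nat_lit 155)) (XT.lf (nat_lit 0) (nat_lit 15927864155) (nat_lit 152) (nat_lit 36240780830) (nat_lit 228) (nat_lit 18350208082) (nat_lit 51) (nat_lit 5) (nat_lit 53) (nat_lit 5) (nat_lit 54) (nat_lit 5) (nat_lit 336) (nat_lit 290) (nat_lit 154))))) (XT.nd (nat_lit 234) (nat_lit 532) (nat_lit 0) (XT.nd (nat_lit 78) (nat_lit 380) (nat_lit 0) (XT.lf (nat_lit 0) (nat_lit 2237149042) (nat_lit 228) (nat_lit 3291787345) (nat_lit 76) (nat_lit 67552155997) (nat_lit 50) (nat_lit 5) (nat_lit 53) (nat_lit 5) (nat_lit 51) (nat_lit 5) (nat_lit 337) (nat_lit 290) (nat_lit 153)) (XT.nd (nat_lit 78) (nat_lit 152) (nat_lit 0) (XT.lf (nat_lit 0) (nat_lit 24231423325) (nat_lit 304) (nat_lit 24631389724) (nat_lit 76) (nat_lit 26880469995) (nat_lit 47) (nat_lit 5) (nat_lit 51) (nat_lit 5) (nat_lit 48) (nat_lit 5) (nat_lit 338) (nat_lit 290) (nat_lit 152)) (XT.lf (nat_lit 0) (nat_lit 30295609096) (nat_lit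 152) (nat_lit 17407220734) (nat_lit 228) (nat_lit 30824432498) (nat_lit 45) (nat_lit 5) (nat_lit 47) (nat_lit 5) (nat_lit 48) (nat_lit 5) (nat_lit 339) (nat_lit 290) (nat_lit 151)))) (XT.nd (nat_lit 156) (nat_lit 304) (nat_lit 0) (XT.nd (nat_lit 78) (nat_lit 76) (nat_lit 0) (XT.lf (nat_lit 0) (nat_lit 7018827841) (nat_lit 152) (nat_lit 65798947440) (nat_lit 228) (nat_lit 8618567804) (nat_lit 43) (nat_lit 5) (nat_lit 45) (nat_lit 5) (nat_lit 46) (nat_lit 5) (nat_lit 340) (nat_lit 290) (nat_lit 150)) (XT.lf (nat_lit 0) (nat_lit 15084252515) (nat_lit 228) (nat_lit 18764348526) (nat_lit 76) (nat_lit 50617835862) (nat_lit 42) (nat_lit 5) (nat_lit 45) (nat_lit 5) (nat_lit 43) (nat_lit 5) (nat_lit 341) (nat_lit 290) (nat_lit 149))) (XT.nd (nat_lit 78) (nat_lit 152) (nat_lit 0) (XT.lf (nat_lit 0) (nat_lit 40181965254) (nat_lit 228) (nat_lit 47269410401) (nat_lit 76) (nat_lit 182461267) (nat_lit 40)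 (nat_lit 5) (nat_lit 43) (nat_lit 5) (nat_lit 41) (nat_lit 5) (nat_lit 342) (nat_lit 290) (nat_lit 148)) (XT.lf (nat_lit 0) (nat_lit 11768214037) (nat_lit 152) (nat_lit 55412802901) (nat_lit 228) (nat_lit 23759197719) (nat_lit 38) (nat_lit 5) (nat_lit 40) (nat_lit 5) (nat_lit 41) (nat_lit 5) (nat_lit 343) (nat_lit 290) (nat_lit 147)))))) (XT.nd (nat_lit 546) (nat_lit 608) (nat_lit 0) (XT.nd (nat_lit 234) (nat_lit 304) (nat_lit 0) (XT.nd (nat_lit 78) (nat_lit 304) (nat_lit 0) (XT.lf (nat_lit 0) (nat_lit 1584392476) (nat_lit 228) (nat_lit 19673087643) (nat_lit 76) (nat_lit 73139466909) (nat_lit 37) (nat_lit 5) (nat_lit 40) (nat_lit 5) (nat_lit 38) (nat_lit 5) (nat_lit 344) (nat_lit 290) (nat_lit 146)) (XT.nd (nat_lit 78) (nat_lit 152) (nat_lit 0) (XT.lf (nat_lit 0) (nat_lit 28269289413) (nat_lit 228) (nat_lit 54751328097) (nat_lit 76) (nat_lit 14981877362) (nat_lit 35) (nat_lit 5) (nat_lit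 38) (nat_lit 5) (nat_lit 36) (nat_lit 5) (nat_lit 345) (nat_lit 290) (nat_lit 145)) (XT.lf (nat_lit 0) (nat_lit 7882388095) (nat_lit 152) (nat_lit 48897814509) (nat_lit 228) (nat_lit 44993365464) (nat_lit 33) (nat_lit 5) (nat_lit 35) (nat_lit 5) (nat_lit 36) (nat_lit 5) (nat_lit 346) (nat_lit 290) (nat_lit 144)))) (XT.nd (nat_lit 156) (nat_lit 152) (nat_lit 0) (XT.nd (nat_lit 78) (nat_lit 152) (nat_lit 0) (XT.lf (nat_lit 0) (nat_lit 74786722881) (nat_lit 152) (nat_lit 12490573664) (nat_lit 228) (nat_lit 18439080376) (nat_lit 33) (nat_lit 5) (nat_lit 35) (nat_lit 5) (nat_lit 36) (nat_lit 5) (nat_lit 347) (nat_lit 290) (nat_lit 143)) (XT.lf (nat_lit 0) (nat_lit 9851430989) (nat_lit 152) (nat_lit 74312653277) (nat_lit 76) (nat_lit 25671736466) (nat_lit 31) (nat_lit 5) (nat_lit 33) (nat_lit 5) (nat_lit 32) (nat_lit 5) (nat_lit 348) (nat_lit 290) (nat_lit 142))) (XT.nd (nat_lit 78) (nat_lit 152)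 (nat_lit 0) (XT.lf (nat_lit 0) (nat_lit 39623481650) (nat_lit 152) (nat_lit 8526988238) (nat_lit 76) (nat_lit 65991839949) (nat_lit 31) (nat_lit 5) (nat_lit 33) (nat_lit 5) (nat_lit 32) (nat_lit 5) (nat_lit 349) (nat_lit 290) (nat_lit 141)) (XT.lf (nat_lit 0) (nat_lit 61748185528) (nat_lit 152) (nat_lit 9726844887) (nat_lit 228) (nat_lit 47171366996) (nat_lit 29) (nat_lit 5) (nat_lit 31) (nat_lit 5) (nat_lit 32) (nat_lit 5) (nat_lit 350) (nat_lit 290) (nat_lit 140))))) (XT.nd (nat_lit 234) (nat_lit 304) (nat_lit 0) (XT.nd (nat_lit 78) (nat_lit 228) (nat_lit 0) (XT.lf (nat_lit 0) (nat_lit 12282102915) (nat_lit 76) (nat_lit 93135480434) (nat_lit 152) (nat_lit 17943154051) (nat_lit 28) (nat_lit 5) (nat_lit 29) (nat_lit 5) (nat_lit 30) (nat_lit 4) (nat_lit 351) (nat_lit 290) (nat_lit 139)) (XT.nd (nat_lit 78) (nat_lit 152) (nat_lit 0) (XT.lf (nat_lit 0) (nat_lit 13184884573) (nat_lit 152) (nat_lit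 42413832797) (nat_lit 76) (nat_lit 72687787652) (nat_lit 27) (nat_lit 5) (nat_lit 29) (nat_lit 5) (nat_lit 28) (nat_lit 5) (nat_lit 352) (nat_lit 290) (nat_lit 138)) (XT.lf (nat_lit 0) (nat_lit 30085857137) (nat_lit 152) (nat_lit 15702603692) (nat_lit 228) (nat_lit 87656064454) (nat_lit 25) (nat_lit 5) (nat_lit 27) (nat_lit 5) (nat_lit 28) (nat_lit 5) (nat_lit 353) (nat_lit 290) (nat_lit 137)))) (XT.nd (nat_lit 156) (nat_lit 228) (nat_lit 0) (XT.nd (nat_lit 78) (nat_lit 76) (nat_lit 0) (XT.lf (nat_lit 0) (nat_lit 80712521503) (nat_lit 228) (nat_lit 32010813167) (nat_lit 76) (nat_lit 26116403423) (nat_lit 25) (nat_lit 5) (nat_lit 28) (nat_lit 5) (nat_lit 26) (nat_lit 4) (nat_lit 354) (nat_lit 290) (nat_lit 136)) (XT.lf (nat_lit 0) (nat_lit 43592534680) (nat_lit 76) (nat_lit 74365523213) (nat_lit 152) (nat_lit 26529396138) (nat_lit 24) (nat_lit 5) (nat_lit 25) (nat_lit 5) (nat_lit 26) (nat_lit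 4) (nat_lit 355) (nat_lit 290) (nat_lit 135))) (XT.nd (nat_lit 78) (nat_lit 152) (nat_lit 0) (XT.lf (nat_lit 0) (nat_lit 6849160085) (nat_lit 152) (nat_lit 26833843925) (nat_lit 76) (nat_lit 116722717827) (nat_lit 23) (nat_lit 5) (nat_lit 25) (nat_lit 5) (nat_lit 24) (nat_lit 5) (nat_lit 356) (nat_lit 290) (nat_lit 134)) (XT.lf (nat_lit 0) (nat_lit 41942015939) (nat_lit 228) (nat_lit 105024493225) (nat_lit 76) (nat_lit 9627693227) (nat_lit 21) (nat_lit 5) (nat_lit 24) (nat_lit 5) (nat_lit 22) (nat_lit 4) (nat_lit 357) (nat_lit 290) (nat_lit 133))))))) (XT.nd (nat_lit 36426) (nat_lit 0) (nat_lit 6308) (XT.nd (nat_lit 35880) (nat_lit 0) (nat_lit 12540) (XT.nd (nat_lit 35568) (nat_lit 0) (nat_lit 14060) (XT.nd (nat_lit 35412) (nat_lit 0) (nat_lit 13984) (XT.lf (nat_lit 0) (nat_lit 79406396687) (nat_lit 228) (nat_lit 28976070034) (nat_lit 76) (nat_lit 54691134351) (nat_lit 21) (nat_lit 5) (nat_lit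 24) (nat_lit 5) (nat_lit 22) (nat_lit 4) (nat_lit 358) (nat_lit 290) (nat_lit 132)) (XT.nd (nat_lit 78) (nat_lit 0) (nat_lit 0) (XT.lf (nat_lit 0) (nat_lit 2216051660) (nat_lit 0) (nat_lit 2216051660) (nat_lit 1140) (nat_lit 4901594937) (nat_lit 205) (nat_lit 5) (nat_lit 205) (nat_lit 3) (nat_lit 220) (nat_lit 3) (nat_lit 291) (nat_lit 291) (nat_lit 198)) (XT.lf (nat_lit 0) (nat_lit 9479883418) (nat_lit 1140) (nat_lit 51196397) (nat_lit 1216) (nat_lit 9590869070) (nat_lit 205) (nat_lit 5) (nat_lit 220) (nat_lit 3) (nat_lit 221) (nat_lit 5) (nat_lit 292) (nat_lit 291) (nat_lit 197)))) (XT.nd (nat_lit 156) (nat_lit 0) (nat_lit 76) (XT.nd (nat_lit 78) (nat_lit 0) (nat_lit 0) (XT.lf (nat_lit 0) (nat_lit 10342926397) (nat_lit 1140) (nat_lit 4558750746) (nat_lit 1216) (nat_lit 4691074129) (nat_lit 206) (nat_lit 5) (nat_lit 221) (nat_lit 5) (nat_lit 222) (nat_lit 5) (nat_lit 293) (nat_lit 291) (nat_lit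 196)) (XT.lf (nat_lit 76) (nat_lit 10893164972) (nat_lit 0) (nat_lit 539179764) (nat_lit 1216) (nat_lit 8649271269) (nat_lit 207) (nat_lit 5) (nat_lit 206) (nat_lit 5) (nat_lit 222) (nat_lit 5) (nat_lit 294) (nat_lit 291) (nat_lit 195))) (XT.nd (nat_lit 78) (nat_lit 0) (nat_lit 76) (XT.lf (nat_lit 76) (nat_lit 6596960193) (nat_lit 0) (nat_lit 6212478335) (nat_lit 1216) (nat_lit 7778507332) (nat_lit 208) (nat_lit 5) (nat_lit 207) (nat_lit 5) (nat_lit 223) (nat_lit 5) (nat_lit 295) (nat_lit 291) (nat_lit 194)) (XT.lf (nat_lit 76) (nat_lit 2186425290) (nat_lit 0) (nat_lit 12259894321) (nat_lit 1216) (nat_lit 6667561782) (nat_lit 209) (nat_lit 5) (nat_lit 208) (nat_lit 5) (nat_lit 224) (nat_lit 5) (nat_lit 296) (nat_lit 291) (nat_lit 193))))) (XT.nd (nat_lit 234) (nat_lit 1748) (nat_lit 0) (XT.nd (nat_lit 78) (nat_lit 0) (nat_lit 0) (XT.lf (nat_lit 0) (nat_lit 16384418701) (nat_lit 1140) (nat_lit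 2299361816) (nat_lit 1216) (nat_lit 2975768314) (nat_lit 209) (nat_lit 5) (nat_lit 224) (nat_lit 5) (nat_lit 225) (nat_lit 5) (nat_lit 297) (nat_lit 291) (nat_lit 192)) (XT.nd (nat_lit 78) (nat_lit 0) (nat_lit 76) (XT.lf (nat_lit 76) (nat_lit 15324545600) (nat_lit 0) (nat_lit 3350817570) (nat_lit 1216) (nat_lit 3549473827) (nat_lit 210) (nat_lit 5) (nat_lit 209) (nat_lit 5) (nat_lit 225) (nat_lit 5) (nat_lit 298) (nat_lit 291) (nat_lit 191)) (XT.lf (nat_lit 76) (nat_lit 11143625740) (nat_lit 0) (nat_lit 10176346928) (nat_lit 1216) (nat_lit 1491258194) (nat_lit 211) (nat_lit 5) (nat_lit 210) (nat_lit 5) (nat_lit 226) (nat_lit 5) (nat_lit 299) (nat_lit 291) (nat_lit 190)))) (XT.nd (nat_lit 156) (nat_lit 684) (nat_lit 0) (XT.nd (nat_lit 78) (nat_lit 0) (nat_lit 0) (XT.lf (nat_lit 0) (nat_lit 872994207) (nat_lit 1216) (nat_lit 16588847092) (nat_lit 1292) (nat_lit 5958437731) (nat_lit 195) (nat_lit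 5) (nat_lit 211) (nat_lit 5) (nat_lit 212) (nat_lit 5) (nat_lit 300) (nat_lit 291) (nat_lit 189)) (XT.lf (nat_lit 76) (nat_lit 2358977991) (nat_lit 0) (nat_lit 1199181374) (nat_lit 1292) (nat_lit 20494184098) (nat_lit 196) (nat_lit 5) (nat_lit 195) (nat_lit 5) (nat_lit 212) (nat_lit 5) (nat_lit 301) (nat_lit 291) (nat_lit 188))) (XT.nd (nat_lit 78) (nat_lit 760) (nat_lit 0) (XT.lf (nat_lit 0) (nat_lit 6689781591) (nat_lit 1216) (nat_lit 2275605224) (nat_lit 76) (nat_lit 15741270775) (nat_lit 196) (nat_lit 5) (nat_lit 212) (nat_lit 5) (nat_lit 197) (nat_lit 5) (nat_lit 302) (nat_lit 291) (nat_lit 187)) (XT.lf (nat_lit 0) (nat_lit 10234918690) (nat_lit 836) (nat_lit 7017877233) (nat_lit 76) (nat_lit 8133195331) (nat_lit 186) (nat_lit 5) (nat_lit 197) (nat_lit 5) (nat_lit 187) (nat_lit 5) (nat_lit 303) (nat_lit 291) (nat_lit 186)))))) (XT.nd (nat_lit 546) (nat_lit 2964) (nat_lit 0) (XT.nd (nat_lit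 234) (nat_lit 1596) (nat_lit 0) (XT.nd (nat_lit 78) (nat_lit 1064) (nat_lit 0) (XT.lf (nat_lit 0) (nat_lit 14167932508) (nat_lit 608) (nat_lit 27952790) (nat_lit 684) (nat_lit 11896260401) (nat_lit 178) (nat_lit 5) (nat_lit 186) (nat_lit 5) (nat_lit 187) (nat_lit 5) (nat_lit 304) (nat_lit 291) (nat_lit 185)) (XT.nd (nat_lit 78) (nat_lit 532) (nat_lit 0) (XT.lf (nat_lit 0) (nat_lit 9733025165) (nat_lit 532) (nat_lit 8950680832) (nat_lit 608) (nat_lit 8140048438) (nat_lit 171) (nat_lit 5) (nat_lit 178) (nat_lit 5) (nat_lit 179) (nat_lit 5) (nat_lit 305) (nat_lit 291) (nat_lit 184)) (XT.lf (nat_lit 0) (nat_lit 5134621729) (nat_lit 532) (nat_lit 18511289210) (nat_lit 608) (nat_lit 3938543103) (nat_lit 164) (nat_lit 5) (nat_lit 171) (nat_lit 5) (nat_lit 172) (nat_lit 5) (nat_lit 306) (nat_lit 291) (nat_lit 183)))) (XT.nd (nat_lit 156) (nat_lit 988) (nat_lit 0) (XT.nd (nat_lit 78) (nat_lit 0) (nat_lit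 0) (XT.lf (nat_lit 0) (nat_lit 349891404) (nat_lit 532) (nat_lit 374740568) (nat_lit 608) (nat_lit 27650604949) (nat_lit 156) (nat_lit 5) (nat_lit 163) (nat_lit 5) (nat_lit 164) (nat_lit 5) (nat_lit 307) (nat_lit 291) (nat_lit 182)) (XT.lf (nat_lit 0) (nat_lit 5942954966) (nat_lit 608) (nat_lit 4672167225) (nat_lit 76) (nat_lit 18577172569) (nat_lit 156) (nat_lit 5) (nat_lit 164) (nat_lit 5) (nat_lit 157) (nat_lit 5) (nat_lit 308) (nat_lit 291) (nat_lit 181))) (XT.nd (nat_lit 78) (nat_lit 456) (nat_lit 0) (XT.lf (nat_lit 0) (nat_lit 11693607844) (nat_lit 608) (nat_lit 9898038431) (nat_lit 76) (nat_lit 8450425382) (nat_lit 149) (nat_lit 5) (nat_lit 157) (nat_lit 5) (nat_lit 150) (nat_lit 5) (nat_lit 309) (nat_lit 291) (nat_lit 180)) (XT.lf (nat_lit 0) (nat_lit 15551373739) (nat_lit 456) (nat_lit 2476307342) (nat_lit 532) (nat_lit 12897787861) (nat_lit 143) (nat_lit 5) (nat_lit 149) (nat_lit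 5) (nat_lit 150) (nat_lit 5) (nat_lit 310) (nat_lit 291) (nat_lit 179))))) (XT.nd (nat_lit 312) (nat_lit 1596) (nat_lit 0) (XT.nd (nat_lit 156) (nat_lit 532) (nat_lit 0) (XT.nd (nat_lit 78) (nat_lit 380) (nat_lit 0) (XT.lf (nat_lit 0) (nat_lit 10657717388) (nat_lit 456) (nat_lit 14386245042) (nat_lit 532) (nat_lit 6798116307) (nat_lit 137) (nat_lit 5) (nat_lit 143) (nat_lit 5) (nat_lit 144) (nat_lit 5) (nat_lit 311) (nat_lit 291) (nat_lit 178)) (XT.lf (nat_lit 0) (nat_lit 5530888014) (nat_lit 380) (nat_lit 27162413888) (nat_lit 456) (nat_lit 102757210) (nat_lit 132) (nat_lit 5) (nat_lit 137) (nat_lit 5) (nat_lit 138) (nat_lit 5) (nat_lit 312) (nat_lit 291) (nat_lit 177))) (XT.nd (nat_lit 78) (nat_lit 0) (nat_lit 0) (XT.lf (nat_lit 0) (nat_lit 9554782) (nat_lit 456) (nat_lit 7139736980) (nat_lit 532) (nat_lit 26635742898) (nat_lit 125) (nat_lit 5) (nat_lit 131) (nat_lit 5) (nat_lit 132) (nat_lit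 5) (nat_lit 313) (nat_lit 291) (nat_lit 176)) (XT.lf (nat_lit 0) (nat_lit 15170611834) (nat_lit 532) (nat_lit 5744556720) (nat_lit 76) (nat_lit 13896002621) (nat_lit 125) (nat_lit 5) (nat_lit 132) (nat_lit 5) (nat_lit 126) (nat_lit 5) (nat_lit 314) (nat_lit 291) (nat_lit 175)))) (XT.nd (nat_lit 156) (nat_lit 836) (nat_lit 0) (XT.nd (nat_lit 78) (nat_lit 380) (nat_lit 0) (XT.lf (nat_lit 0) (nat_lit 23890546144) (nat_lit 456) (nat_lit 11805429518) (nat_lit 76) (nat_lit 183718623) (nat_lit 120) (nat_lit 5) (nat_lit 126) (nat_lit 5) (nat_lit 121) (nat_lit 5) (nat_lit 315) (nat_lit 291) (nat_lit 174)) (XT.lf (nat_lit 0) (nat_lit 18646902434) (nat_lit 380) (nat_lit 14842154955) (nat_lit 456) (nat_lit 3499314675) (nat_lit 115) (nat_lit 5) (nat_lit 120) (nat_lit 5) (nat_lit 121) (nat_lit 5) (nat_lit 316) (nat_lit 291) (nat_lit 173))) (XT.nd (nat_lit 78) (nat_lit 380) (nat_lit 0) (XT.lf (nat_lit 0)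 (nat_lit 5619616398) (nat_lit 456) (nat_lit 25305494376) (nat_lit 76) (nat_lit 7216508691) (nat_lit 109) (nat_lit 5) (nat_lit 115) (nat_lit 5) (nat_lit 110) (nat_lit 5) (nat_lit 317) (nat_lit 291) (nat_lit 172)) (XT.lf (nat_lit 0) (nat_lit 6540361255) (nat_lit 380) (nat_lit 8978732021) (nat_lit 456) (nat_lit 23820492659) (nat_lit 104) (nat_lit 5) (nat_lit 109) (nat_lit 5) (nat_lit 110) (nat_lit 5) (nat_lit 318) (nat_lit 291) (nat_lit 171))))))))
noncomputable def xc98 : XT := (XT.nd (nat_lit 2184) (nat_lit 1140) (nat_lit 0) (XT.nd (nat_lit 1092) (nat_lit 2052) (nat_lit 0) (XT.nd (nat_lit 546) (nat_lit 1596) (nat_lit 0) (XT.nd (nat_lit 234) (nat_lit 912) (nat_lit 0) (XT.nd (nat_lit 78) (nat_lit 684) (nat_lit 0) (XT.lf (nat_lit 0) (nat_lit 26304993615) (nat_lit 456) (nat_lit 229305432) (nat_lit 76) (nat_lit 14051413158) (nat_lit 104) (nat_lit 5) (nat_lit 110) (nat_lit 5) (nat_lit 105) (nat_lit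 5) (nat_lit 319) (nat_lit 291) (nat_lit 170)) (XT.nd (nat_lit 78) (nat_lit 380) (nat_lit 0) (XT.lf (nat_lit 0) (nat_lit 34543788064) (nat_lit 304) (nat_lit 3502578248) (nat_lit 380) (nat_lit 3835297885) (nat_lit 100) (nat_lit 5) (nat_lit 104) (nat_lit 5) (nat_lit 105) (nat_lit 5) (nat_lit 320) (nat_lit 291) (nat_lit 169)) (XT.lf (nat_lit 0) (nat_lit 7463394011) (nat_lit 380) (nat_lit 15141643834) (nat_lit 76) (nat_lit 20621218122) (nat_lit 95) (nat_lit 5) (nat_lit 100) (nat_lit 5) (nat_lit 96) (nat_lit 5) (nat_lit 321) (nat_lit 291) (nat_lit 168)))) (XT.nd (nat_lit 156) (nat_lit 304) (nat_lit 0) (XT.nd (nat_lit 78) (nat_lit 304) (nat_lit 0) (XT.lf (nat_lit 0) (nat_lit 19572063757) (nat_lit 380) (nat_lit 23518140511) (nat_lit 76) (nat_lit 1537007132) (nat_lit 91) (nat_lit 5) (nat_lit 96) (nat_lit 5) (nat_lit 92) (nat_lit 5) (nat_lit 322) (nat_lit 291) (nat_lit 167)) (XT.lf (nat_lit 0) (nat_lit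 13418866415) (nat_lit 304) (nat_lit 19375909027) (nat_lit 380) (nat_lit 13288184873) (nat_lit 87) (nat_lit 5) (nat_lit 91) (nat_lit 5) (nat_lit 92) (nat_lit 5) (nat_lit 323) (nat_lit 291) (nat_lit 166))) (XT.nd (nat_lit 78) (nat_lit 76) (nat_lit 0) (XT.lf (nat_lit 0) (nat_lit 5126089884) (nat_lit 228) (nat_lit 41893631712) (nat_lit 304) (nat_lit 581545892) (nat_lit 84) (nat_lit 5) (nat_lit 87) (nat_lit 5) (nat_lit 88) (nat_lit 5) (nat_lit 324) (nat_lit 291) (nat_lit 165)) (XT.lf (nat_lit 0) (nat_lit 13040931170) (nat_lit 304) (nat_lit 4026857773) (nat_lit 76) (nat_lit 32108139497) (nat_lit 83) (nat_lit 5) (nat_lit 87) (nat_lit 5) (nat_lit 84) (nat_lit 5) (nat_lit 325) (nat_lit 291) (nat_lit 164))))) (XT.nd (nat_lit 234) (nat_lit 760) (nat_lit 0) (XT.nd (nat_lit 78) (nat_lit 532) (nat_lit 0) (XT.lf (nat_lit 0) (nat_lit 27773495559) (nat_lit 380) (nat_lit 13855515792) (nat_lit 76) (nat_lit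 9186911957) (nat_lit 79) (nat_lit 5) (nat_lit 84) (nat_lit 5) (nat_lit 80) (nat_lit 5) (nat_lit 326) (nat_lit 291) (nat_lit 163)) (XT.nd (nat_lit 78) (nat_lit 304) (nat_lit 0) (XT.lf (nat_lit 0) (nat_lit 27908648328) (nat_lit 228) (nat_lit 15811239290) (nat_lit 304) (nat_lit 8803717484) (nat_lit 76) (nat_lit 5) (nat_lit 79) (nat_lit 5) (nat_lit 80) (nat_lit 5) (nat_lit 327) (nat_lit 291) (nat_lit 162)) (XT.lf (nat_lit 0) (nat_lit 6451471086) (nat_lit 304) (nat_lit 36396161704) (nat_lit 76) (nat_lit 11454533740) (nat_lit 72) (nat_lit 5) (nat_lit 76) (nat_lit 5) (nat_lit 73) (nat_lit 5) (nat_lit 328) (nat_lit 291) (nat_lit 161)))) (XT.nd (nat_lit 156) (nat_lit 532) (nat_lit 0) (XT.nd (nat_lit 78) (nat_lit 0) (nat_lit 0) (XT.lf (nat_lit 0) (nat_lit 6779102758) (nat_lit 228) (nat_lit 15985644745) (nat_lit 304) (nat_lit 33387974267) (nat_lit 69) (nat_lit 5) (nat_lit 72) (nat_lit 5) (nat_lit 73)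 (nat_lit 5) (nat_lit 329) (nat_lit 291) (nat_lit 160)) (XT.lf (nat_lit 0) (nat_lit 40384724851) (nat_lit 304) (nat_lit 5339504884) (nat_lit 76) (nat_lit 12356846579) (nat_lit 69) (nat_lit 5) (nat_lit 73) (nat_lit 5) (nat_lit 70) (nat_lit 5) (nat_lit 330) (nat_lit 291) (nat_lit 159))) (XT.nd (nat_lit 78) (nat_lit 304) (nat_lit 0) (XT.lf (nat_lit 0) (nat_lit 41538414955) (nat_lit 228) (nat_lit 17903354717) (nat_lit 304) (nat_lit 647399384) (nat_lit 66) (nat_lit 5) (nat_lit 69) (nat_lit 5) (nat_lit 70) (nat_lit 5) (nat_lit 331) (nat_lit 291) (nat_lit 158)) (XT.lf (nat_lit 0) (nat_lit 17361430411) (nat_lit 304) (nat_lit 33226775432) (nat_lit 76) (nat_lit 11591163719) (nat_lit 62) (nat_lit 5) (nat_lit 66) (nat_lit 5) (nat_lit 63) (nat_lit 5) (nat_lit 332) (nat_lit 291) (nat_lit 157)))))) (XT.nd (nat_lit 546) (nat_lit 912) (nat_lit 0) (XT.nd (nat_lit 234) (nat_lit 684) (nat_lit 0) (XT.nd (nat_lit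 78) (nat_lit 228) (nat_lit 0) (XT.lf (nat_lit 0) (nat_lit 14946026175) (nat_lit 228) (nat_lit 21824295827) (nat_lit 304) (nat_lit 27588177735) (nat_lit 59) (nat_lit 5) (nat_lit 62) (nat_lit 5) (nat_lit 63) (nat_lit 5) (nat_lit 333) (nat_lit 291) (nat_lit 156)) (XT.nd (nat_lit 78) (nat_lit 228) (nat_lit 0) (XT.lf (nat_lit 0) (nat_lit 57571393214) (nat_lit 304) (nat_lit 505251934) (nat_lit 76) (nat_lit 8557291345) (nat_lit 59) (nat_lit 5) (nat_lit 63) (nat_lit 5) (nat_lit 60) (nat_lit 5) (nat_lit 334) (nat_lit 291) (nat_lit 155)) (XT.lf (nat_lit 0) (nat_lit 10906226238) (nat_lit 228) (nat_lit 17480686243) (nat_lit 76) (nat_lit 40611650874) (nat_lit 56) (nat_lit 5) (nat_lit 59) (nat_lit 5) (nat_lit 57) (nat_lit 5) (nat_lit 335) (nat_lit 291) (nat_lit 154)))) (XT.nd (nat_lit 156) (nat_lit 304) (nat_lit 0) (XT.nd (nat_lit 78) (nat_lit 152) (nat_lit 0) (XT.lf (nat_lit 0) (nat_lit 32059108794) (nat_lit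 304) (nat_lit 36237926293) (nat_lit 76) (nat_lit 3170503442) (nat_lit 53) (nat_lit 5) (nat_lit 57) (nat_lit 5) (nat_lit 54) (nat_lit 5) (nat_lit 336) (nat_lit 291) (nat_lit 153)) (XT.lf (nat_lit 0) (nat_lit 16921767033) (nat_lit 152) (nat_lit 37974948537) (nat_lit 228) (nat_lit 19144436268) (nat_lit 51) (nat_lit 5) (nat_lit 53) (nat_lit 5) (nat_lit 54) (nat_lit 5) (nat_lit 337) (nat_lit 291) (nat_lit 152))) (XT.nd (nat_lit 78) (nat_lit 228) (nat_lit 0) (XT.lf (nat_lit 0) (nat_lit 2464127007) (nat_lit 228) (nat_lit 3265930532) (nat_lit 76) (nat_lit 71001585241) (nat_lit 50) (nat_lit 5) (nat_lit 53) (nat_lit 5) (nat_lit 51) (nat_lit 5) (nat_lit 338) (nat_lit 291) (nat_lit 151)) (XT.lf (nat_lit 0) (nat_lit 25555118486) (nat_lit 304) (nat_lit 25675288632) (nat_lit 76) (nat_lit 28296628160) (nat_lit 47) (nat_lit 5) (nat_lit 51) (nat_lit 5) (nat_lit 48) (nat_lit 5) (nat_lit 339) (nat_lit 291) (nat_lit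 150))))) (XT.nd (nat_lit 234) (nat_lit 532) (nat_lit 0) (XT.nd (nat_lit 78) (nat_lit 228) (nat_lit 0) (XT.lf (nat_lit 0) (nat_lit 31992680590) (nat_lit 152) (nat_lit 18203827783) (nat_lit 228) (nat_lit 32253815058) (nat_lit 45) (nat_lit 5) (nat_lit 47) (nat_lit 5) (nat_lit 48) (nat_lit 5) (nat_lit 340) (nat_lit 291) (nat_lit 149)) (XT.nd (nat_lit 78) (nat_lit 76) (nat_lit 0) (XT.lf (nat_lit 0) (nat_lit 7549353652) (nat_lit 152) (nat_lit 69015080496) (nat_lit 228) (nat_lit 8940509271) (nat_lit 43) (nat_lit 5) (nat_lit 45) (nat_lit 5) (nat_lit 46) (nat_lit 5) (nat_lit 341) (nat_lit 291) (nat_lit 148)) (XT.lf (nat_lit 0) (nat_lit 15940236755) (nat_lit 228) (nat_lit 19529467295) (nat_lit 76) (nat_lit 53216961127) (nat_lit 42) (nat_lit 5) (nat_lit 45) (nat_lit 5) (nat_lit 43) (nat_lit 5) (nat_lit 342) (nat_lit 291) (nat_lit 147)))) (XT.nd (nat_lit 156) (nat_lit 228) (nat_lit 0) (XT.nd (nat_lit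 78) (nat_lit 152) (nat_lit 0) (XT.lf (nat_lit 0) (nat_lit 42290274089) (nat_lit 228) (nat_lit 49462418349) (nat_lit 76) (nat_lit 259821515) (nat_lit 40) (nat_lit 5) (nat_lit 43) (nat_lit 5) (nat_lit 41) (nat_lit 5) (nat_lit 343) (nat_lit 291) (nat_lit 146)) (XT.lf (nat_lit 0) (nat_lit 12522201036) (nat_lit 152) (nat_lit 58113944630) (nat_lit 228) (nat_lit 24848160724) (nat_lit 38) (nat_lit 5) (nat_lit 40) (nat_lit 5) (nat_lit 41) (nat_lit 5) (nat_lit 344) (nat_lit 291) (nat_lit 145))) (XT.nd (nat_lit 78) (nat_lit 152) (nat_lit 0) (XT.lf (nat_lit 0) (nat_lit 1756055049) (nat_lit 228) (nat_lit 20497176616) (nat_lit 76) (nat_lit 76860755525) (nat_lit 37) (nat_lit 5) (nat_lit 40) (nat_lit 5) (nat_lit 38) (nat_lit 5) (nat_lit 345) (nat_lit 291) (nat_lit 144)) (XT.lf (nat_lit 0) (nat_lit 29772913909) (nat_lit 228) (nat_lit 57331814041) (nat_lit 76) (nat_lit 15795154578) (nat_lit 35) (nat_lit 5)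 (nat_lit 38) (nat_lit 5) (nat_lit 36) (nat_lit 5) (nat_lit 346) (nat_lit 291) (nat_lit 143))))))) (XT.nd (nat_lit 36426) (nat_lit 0) (nat_lit 10944) (XT.nd (nat_lit 546) (nat_lit 532) (nat_lit 0) (XT.nd (nat_lit 234) (nat_lit 304) (nat_lit 0) (XT.nd (nat_lit 78) (nat_lit 152) (nat_lit 0) (XT.lf (nat_lit 0) (nat_lit 8429085280) (nat_lit 152) (nat_lit 51277460816) (nat_lit 228) (nat_lit 47153049625) (nat_lit 33) (nat_lit 5) (nat_lit 35) (nat_lit 5) (nat_lit 36) (nat_lit 5) (nat_lit 347) (nat_lit 291) (nat_lit 142)) (XT.nd (nat_lit 78) (nat_lit 152) (nat_lit 0) (XT.lf (nat_lit 0) (nat_lit 78671371198) (nat_lit 152) (nat_lit 13052964804) (nat_lit 228) (nat_lit 19275335241) (nat_lit 33) (nat_lit 5) (nat_lit 35) (nat_lit 5) (nat_lit 36) (nat_lit 5) (nat_lit 348) (nat_lit 291) (nat_lit 141)) (XT.lf (nat_lit 0) (nat_lit 10425991004) (nat_lit 152) (nat_lit 77883608326) (nat_lit 76) (nat_lit 27015525706)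 (nat_lit 31) (nat_lit 5) (nat_lit 33) (nat_lit 5) (nat_lit 32) (nat_lit 5) (nat_lit 349) (nat_lit 291) (nat_lit 140)))) (XT.nd (nat_lit 156) (nat_lit 152) (nat_lit 0) (XT.nd (nat_lit 78) (nat_lit 152) (nat_lit 0) (XT.lf (nat_lit 0) (nat_lit 41682739986) (nat_lit 152) (nat_lit 8815549446) (nat_lit 76) (nat_lit 69348767581) (nat_lit 31) (nat_lit 5) (nat_lit 33) (nat_lit 5) (nat_lit 32) (nat_lit 5) (nat_lit 350) (nat_lit 291) (nat_lit 139)) (XT.lf (nat_lit 0) (nat_lit 64969433338) (nat_lit 152) (nat_lit 10155001091) (nat_lit 228) (nat_lit 49451988717) (nat_lit 29) (nat_lit 5) (nat_lit 31) (nat_lit 5) (nat_lit 32) (nat_lit 5) (nat_lit 351) (nat_lit 291) (nat_lit 138))) (XT.nd (nat_lit 78) (nat_lit 76) (nat_lit 0) (XT.lf (nat_lit 0) (nat_lit 13027895228) (nat_lit 76) (nat_lit 97734415826) (nat_lit 152) (nat_lit 18764224369) (nat_lit 28) (nat_lit 5) (nat_lit 29) (nat_lit 5) (nat_lit 30) (nat_lit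 4) (nat_lit 352) (nat_lit 291) (nat_lit 137)) (XT.lf (nat_lit 0) (nat_lit 13915178940) (nat_lit 152) (nat_lit 44407672422) (nat_lit 76) (nat_lit 76375825778) (nat_lit 27) (nat_lit 5) (nat_lit 29) (nat_lit 5) (nat_lit 28) (nat_lit 5) (nat_lit 353) (nat_lit 291) (nat_lit 136))))) (XT.nd (nat_lit 234) (nat_lit 304) (nat_lit 0) (XT.nd (nat_lit 78) (nat_lit 76) (nat_lit 0) (XT.lf (nat_lit 0) (nat_lit 31713365821) (nat_lit 152) (nat_lit 16433369273) (nat_lit 228) (nat_lit 91967930317) (nat_lit 25) (nat_lit 5) (nat_lit 27) (nat_lit 5) (nat_lit 28) (nat_lit 5) (nat_lit 354) (nat_lit 291) (nat_lit 135)) (XT.nd (nat_lit 78) (nat_lit 76) (nat_lit 0) (XT.lf (nat_lit 0) (nat_lit 84814217874) (nat_lit 228) (nat_lit 33492516323) (nat_lit 76) (nat_lit 27472989074) (nat_lit 25) (nat_lit 5) (nat_lit 28) (nat_lit 5) (nat_lit 26) (nat_lit 4) (nat_lit 355) (nat_lit 291) (nat_lit 134)) (XT.lf (nat_lit 0) (nat_lit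 45887592463) (nat_lit 76) (nat_lit 78032402010) (nat_lit 152) (nat_lit 27789892567) (nat_lit 24) (nat_lit 5) (nat_lit 25) (nat_lit 5) (nat_lit 26) (nat_lit 4) (nat_lit 356) (nat_lit 291) (nat_lit 133)))) (XT.nd (nat_lit 234) (nat_lit 76) (nat_lit 0) (XT.nd (nat_lit 78) (nat_lit 152) (nat_lit 0) (XT.lf (nat_lit 0) (nat_lit 7253223805) (nat_lit 152) (nat_lit 28064358439) (nat_lit 76) (nat_lit 122606560239) (nat_lit 23) (nat_lit 5) (nat_lit 25) (nat_lit 5) (nat_lit 24) (nat_lit 5) (nat_lit 357) (nat_lit 291) (nat_lit 132)) (XT.lf (nat_lit 0) (nat_lit 44099291022) (nat_lit 228) (nat_lit 110166383434) (nat_lit 76) (nat_lit 10156416373) (nat_lit 21) (nat_lit 5) (nat_lit 24) (nat_lit 5) (nat_lit 22) (nat_lit 4) (nat_lit 358) (nat_lit 291) (nat_lit 131))) (XT.nd (nat_lit 35334) (nat_lit 0) (nat_lit 14060) (XT.lf (nat_lit 0) (nat_lit 54578982506) (nat_lit 76) (nat_lit 70679385885) (nat_lit 152) (nat_lit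 53095120254) (nat_lit 20) (nat_lit 5) (nat_lit 21) (nat_lit 5) (nat_lit 22) (nat_lit 4) (nat_lit 360) (nat_lit 291) (nat_lit 129)) (XT.lf (nat_lit 0) (nat_lit 2474533725) (nat_lit 0) (nat_lit 2474533725) (nat_lit 1140) (nat_lit 4842149404) (nat_lit 205) (nat_lit 5) (nat_lit 205) (nat_lit 3) (nat_lit 220) (nat_lit 3) (nat_lit 292) (nat_lit 292) (nat_lit 196)))))) (XT.nd (nat_lit 546) (nat_lit 3116) (nat_lit 0) (XT.nd (nat_lit 234) (nat_lit 0) (nat_lit 152) (XT.nd (nat_lit 78) (nat_lit 0) (nat_lit 76) (XT.lf (nat_lit 76) (nat_lit 252631406) (nat_lit 0) (nat_lit 10263559159) (nat_lit 1216) (nat_lit 9544404378) (nat_lit 206) (nat_lit 5) (nat_lit 205) (nat_lit 5) (nat_lit 221) (nat_lit 5) (nat_lit 293) (nat_lit 292) (nat_lit 195)) (XT.nd (nat_lit 78) (nat_lit 0) (nat_lit 0) (XT.lf (nat_lit 0) (nat_lit 11393772818) (nat_lit 1140) (nat_lit 4474898218) (nat_lit 1216) (nat_lit 4687152514) (nat_lit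 206) (nat_lit 5) (nat_lit 221) (nat_lit 5) (nat_lit 222) (nat_lit 5) (nat_lit 294) (nat_lit 292) (nat_lit 194)) (XT.lf (nat_lit 76) (nat_lit 11740675886) (nat_lit 0) (nat_lit 774483102) (nat_lit 1216) (nat_lit 8554674018) (nat_lit 207) (nat_lit 5) (nat_lit 206) (nat_lit 5) (nat_lit 222) (nat_lit 5) (nat_lit 295) (nat_lit 292) (nat_lit 193)))) (XT.nd (nat_lit 156) (nat_lit 0) (nat_lit 152) (XT.nd (nat_lit 78) (nat_lit 0) (nat_lit 76) (XT.lf (nat_lit 76) (nat_lit 7238334050) (nat_lit 0) (nat_lit 6699517917) (nat_lit 1216) (nat_lit 7664350190) (nat_lit 208) (nat_lit 5) (nat_lit 207) (nat_lit 5) (nat_lit 223) (nat_lit 5) (nat_lit 296) (nat_lit 292) (nat_lit 192)) (XT.lf (nat_lit 76) (nat_lit 2614696764) (nat_lit 0) (nat_lit 13020095912) (nat_lit 1216) (nat_lit 6520319264) (nat_lit 209) (nat_lit 5) (nat_lit 208) (nat_lit 5) (nat_lit 224) (nat_lit 5) (nat_lit 297) (nat_lit 292) (nat_lit 191)))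 (XT.nd (nat_lit 78) (nat_lit 0) (nat_lit 0) (XT.lf (nat_lit 0) (nat_lit 17646251104) (nat_lit 1140) (nat_lit 2095445359) (nat_lit 1216) (nat_lit 2987095455) (nat_lit 209) (nat_lit 5) (nat_lit 224) (nat_lit 5) (nat_lit 225) (nat_lit 5) (nat_lit 298) (nat_lit 292) (nat_lit 190)) (XT.lf (nat_lit 76) (nat_lit 16400516666) (nat_lit 0) (nat_lit 3633126840) (nat_lit 1216) (nat_lit 3289265679) (nat_lit 210) (nat_lit 5) (nat_lit 209) (nat_lit 5) (nat_lit 225) (nat_lit 5) (nat_lit 299) (nat_lit 292) (nat_lit 189))))) (XT.nd (nat_lit 312) (nat_lit 2356) (nat_lit 0) (XT.nd (nat_lit 156) (nat_lit 0) (nat_lit 0) (XT.nd (nat_lit 78) (nat_lit 1140) (nat_lit 0) (XT.lf (nat_lit 76) (nat_lit 12015535825) (nat_lit 0) (nat_lit 10776707465) (nat_lit 1216) (nat_lit 1146947341) (nat_lit 211) (nat_lit 5) (nat_lit 210) (nat_lit 5) (nat_lit 226) (nat_lit 5) (nat_lit 300) (nat_lit 292) (nat_lit 188)) (XT.lf (nat_lit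 0) (nat_lit 1310035303) (nat_lit 1216) (nat_lit 17091275289) (nat_lit 1292) (nat_lit 6177798202) (nat_lit 195) (nat_lit 5) (nat_lit 211) (nat_lit 5) (nat_lit 212) (nat_lit 5) (nat_lit 301) (nat_lit 292) (nat_lit 187))) (XT.nd (nat_lit 78) (nat_lit 0) (nat_lit 76) (XT.lf (nat_lit 76) (nat_lit 2794567253) (nat_lit 0) (nat_lit 1319211897) (nat_lit 1292) (nat_lit 21129485899) (nat_lit 196) (nat_lit 5) (nat_lit 195) (nat_lit 5) (nat_lit 212) (nat_lit 5) (nat_lit 302) (nat_lit 292) (nat_lit 186)) (XT.lf (nat_lit 0) (nat_lit 7383446264) (nat_lit 1216) (nat_lit 2075182253) (nat_lit 76) (nat_lit 16472239797) (nat_lit 196) (nat_lit 5) (nat_lit 212) (nat_lit 5) (nat_lit 197) (nat_lit 5) (nat_lit 303) (nat_lit 292) (nat_lit 185)))) (XT.nd (nat_lit 156) (nat_lit 1064) (nat_lit 0) (XT.nd (nat_lit 78) (nat_lit 608) (nat_lit 0) (XT.lf (nat_lit 0) (nat_lit 11091287686) (nat_lit 836) (nat_lit 7052511222) (nat_lit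 76) (nat_lit 8500822846) (nat_lit 186) (nat_lit 5) (nat_lit 197) (nat_lit 5) (nat_lit 187) (nat_lit 5) (nat_lit 304) (nat_lit 292) (nat_lit 184)) (XT.lf (nat_lit 0) (nat_lit 15183523479) (nat_lit 608) (nat_lit 53321463) (nat_lit 684) (nat_lit 12149658442) (nat_lit 178) (nat_lit 5) (nat_lit 186) (nat_lit 5) (nat_lit 187) (nat_lit 5) (nat_lit 305) (nat_lit 292) (nat_lit 183))) (XT.nd (nat_lit 78) (nat_lit 532) (nat_lit 0) (XT.lf (nat_lit 0) (nat_lit 10528244722) (nat_lit 532) (nat_lit 9407788870) (nat_lit 608) (nat_lit 8219064640) (nat_lit 171) (nat_lit 5) (nat_lit 178) (nat_lit 5) (nat_lit 179) (nat_lit 5) (nat_lit 306) (nat_lit 292) (nat_lit 182)) (XT.lf (nat_lit 0) (nat_lit 5700727210) (nat_lit 532) (nat_lit 19433358186) (nat_lit 608) (nat_lit 3820129595) (nat_lit 164) (nat_lit 5) (nat_lit 171) (nat_lit 5) (nat_lit 172) (nat_lit 5) (nat_lit 307) (nat_lit 292) (nat_lit 181))))))))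
noncomputable def xc99 : XT := (XT.nd (nat_lit 2184) (nat_lit 2888) (nat_lit 0) (XT.nd (nat_lit 1092) (nat_lit 3116) (nat_lit 0) (XT.nd (nat_lit 546) (nat_lit 1900) (nat_lit 0) (XT.nd (nat_lit 234) (nat_lit 1824) (nat_lit 0) (XT.nd (nat_lit 78) (nat_lit 532) (nat_lit 0) (XT.lf (nat_lit 0) (nat_lit 674138390) (nat_lit 532) (nat_lit 384137902) (nat_lit 608) (nat_lit 28726536213) (nat_lit 156) (nat_lit 5) (nat_lit 163) (nat_lit 5) (nat_lit 164) (nat_lit 5) (nat_lit 308) (nat_lit 292) (nat_lit 180)) (XT.nd (nat_lit 78) (nat_lit 532) (nat_lit 0) (XT.lf (nat_lit 0) (nat_lit 6523438428) (nat_lit 608) (nat_lit 4604967111) (nat_lit 76) (nat_lit 19514752573) (nat_lit 156) (nat_lit 5) (nat_lit 164) (nat_lit 5) (nat_lit 157) (nat_lit 5) (nat_lit 309) (nat_lit 292) (nat_lit 179)) (XT.lf (nat_lit 0) (nat_lit 12551128213) (nat_lit 608) (nat_lit 10092523348) (nat_lit 76) (nat_lit 8892099134) (nat_lit 149)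 (nat_lit 5) (nat_lit 157) (nat_lit 5) (nat_lit 150) (nat_lit 5) (nat_lit 310) (nat_lit 292) (nat_lit 178)))) (XT.nd (nat_lit 156) (nat_lit 912) (nat_lit 0) (XT.nd (nat_lit 78) (nat_lit 456) (nat_lit 0) (XT.lf (nat_lit 0) (nat_lit 16620748038) (nat_lit 456) (nat_lit 2570969707) (nat_lit 532) (nat_lit 13271917115) (nat_lit 143) (nat_lit 5) (nat_lit 149) (nat_lit 5) (nat_lit 150) (nat_lit 5) (nat_lit 311) (nat_lit 292) (nat_lit 177)) (XT.lf (nat_lit 0) (nat_lit 11481647244) (nat_lit 456) (nat_lit 15067723236) (nat_lit 532) (nat_lit 6876998801) (nat_lit 137) (nat_lit 5) (nat_lit 143) (nat_lit 5) (nat_lit 144) (nat_lit 5) (nat_lit 312) (nat_lit 292) (nat_lit 176))) (XT.nd (nat_lit 78) (nat_lit 456) (nat_lit 0) (XT.lf (nat_lit 0) (nat_lit 141117477) (nat_lit 456) (nat_lit 28332340396) (nat_lit 76) (nat_lit 5954827361) (nat_lit 131) (nat_lit 5) (nat_lit 137) (nat_lit 5) (nat_lit 132) (nat_lit 5)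 (nat_lit 313) (nat_lit 292) (nat_lit 175)) (XT.lf (nat_lit 0) (nat_lit 296627017) (nat_lit 456) (nat_lit 7448033900) (nat_lit 532) (nat_lit 27722297163) (nat_lit 125) (nat_lit 5) (nat_lit 131) (nat_lit 5) (nat_lit 132) (nat_lit 5) (nat_lit 314) (nat_lit 292) (nat_lit 174))))) (XT.nd (nat_lit 234) (nat_lit 1140) (nat_lit 0) (XT.nd (nat_lit 78) (nat_lit 760) (nat_lit 0) (XT.lf (nat_lit 0) (nat_lit 16156163954) (nat_lit 532) (nat_lit 5752303822) (nat_lit 76) (nat_lit 14636269240) (nat_lit 125) (nat_lit 5) (nat_lit 132) (nat_lit 5) (nat_lit 126) (nat_lit 5) (nat_lit 315) (nat_lit 292) (nat_lit 173)) (XT.nd (nat_lit 78) (nat_lit 380) (nat_lit 0) (XT.lf (nat_lit 0) (nat_lit 25304400055) (nat_lit 456) (nat_lit 12117999595) (nat_lit 76) (nat_lit 244526149) (nat_lit 120) (nat_lit 5) (nat_lit 126) (nat_lit 5) (nat_lit 121) (nat_lit 5) (nat_lit 316) (nat_lit 292) (nat_lit 172)) (XT.lf (nat_lit 0) (nat_lit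 19848988700) (nat_lit 380) (nat_lit 15525996955) (nat_lit 456) (nat_lit 3456295605) (nat_lit 115) (nat_lit 5) (nat_lit 120) (nat_lit 5) (nat_lit 121) (nat_lit 5) (nat_lit 317) (nat_lit 292) (nat_lit 171)))) (XT.nd (nat_lit 156) (nat_lit 304) (nat_lit 0) (XT.nd (nat_lit 78) (nat_lit 380) (nat_lit 0) (XT.lf (nat_lit 0) (nat_lit 6107289004) (nat_lit 456) (nat_lit 26298714969) (nat_lit 76) (nat_lit 7636343012) (nat_lit 109) (nat_lit 5) (nat_lit 115) (nat_lit 5) (nat_lit 110) (nat_lit 5) (nat_lit 318) (nat_lit 292) (nat_lit 170)) (XT.lf (nat_lit 0) (nat_lit 7131635067) (nat_lit 380) (nat_lit 9362802381) (nat_lit 456) (nat_lit 24806000670) (nat_lit 104) (nat_lit 5) (nat_lit 109) (nat_lit 5) (nat_lit 110) (nat_lit 5) (nat_lit 319) (nat_lit 292) (nat_lit 169))) (XT.nd (nat_lit 78) (nat_lit 0) (nat_lit 0) (XT.lf (nat_lit 0) (nat_lit 16464218) (nat_lit 304) (nat_lit 27794425953) (nat_lit 380) (nat_lit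 14798249735) (nat_lit 100) (nat_lit 5) (nat_lit 104) (nat_lit 5) (nat_lit 105) (nat_lit 5) (nat_lit 320) (nat_lit 292) (nat_lit 168)) (XT.lf (nat_lit 0) (nat_lit 36520526736) (nat_lit 304) (nat_lit 3611974437) (nat_lit 380) (nat_lit 3837599830) (nat_lit 100) (nat_lit 5) (nat_lit 104) (nat_lit 5) (nat_lit 105) (nat_lit 5) (nat_lit 321) (nat_lit 292) (nat_lit 167)))))) (XT.nd (nat_lit 546) (nat_lit 1292) (nat_lit 0) (XT.nd (nat_lit 234) (nat_lit 836) (nat_lit 0) (XT.nd (nat_lit 78) (nat_lit 608) (nat_lit 0) (XT.lf (nat_lit 0) (nat_lit 8016491710) (nat_lit 380) (nat_lit 15647756349) (nat_lit 76) (nat_lit 21717800899) (nat_lit 95) (nat_lit 5) (nat_lit 100) (nat_lit 5) (nat_lit 96) (nat_lit 5) (nat_lit 322) (nat_lit 292) (nat_lit 166)) (XT.nd (nat_lit 78) (nat_lit 304) (nat_lit 0) (XT.lf (nat_lit 0) (nat_lit 20725043842) (nat_lit 380) (nat_lit 24445618174) (nat_lit 76) (nat_lit 1682562487) (nat_lit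 91) (nat_lit 5) (nat_lit 96) (nat_lit 5) (nat_lit 92) (nat_lit 5) (nat_lit 323) (nat_lit 292) (nat_lit 165)) (XT.lf (nat_lit 0) (nat_lit 14331117921) (nat_lit 304) (nat_lit 20271789132) (nat_lit 380) (nat_lit 13779038865) (nat_lit 87) (nat_lit 5) (nat_lit 91) (nat_lit 5) (nat_lit 92) (nat_lit 5) (nat_lit 324) (nat_lit 292) (nat_lit 164)))) (XT.nd (nat_lit 156) (nat_lit 532) (nat_lit 0) (XT.nd (nat_lit 78) (nat_lit 76) (nat_lit 0) (XT.lf (nat_lit 0) (nat_lit 5621119130) (nat_lit 228) (nat_lit 43912924975) (nat_lit 304) (nat_lit 442281303) (nat_lit 84) (nat_lit 5) (nat_lit 87) (nat_lit 5) (nat_lit 88) (nat_lit 5) (nat_lit 325) (nat_lit 292) (nat_lit 163)) (XT.lf (nat_lit 0) (nat_lit 13850174801) (nat_lit 304) (nat_lit 3997617804) (nat_lit 76) (nat_lit 33782118924) (nat_lit 83) (nat_lit 5) (nat_lit 87) (nat_lit 5) (nat_lit 84) (nat_lit 5) (nat_lit 326) (nat_lit 292) (nat_lit 162))) (XT.nd (nat_lit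 78) (nat_lit 228) (nat_lit 0) (XT.lf (nat_lit 0) (nat_lit 29314727957) (nat_lit 380) (nat_lit 14320362773) (nat_lit 76) (nat_lit 9716959234) (nat_lit 79) (nat_lit 5) (nat_lit 84) (nat_lit 5) (nat_lit 80) (nat_lit 5) (nat_lit 327) (nat_lit 292) (nat_lit 161)) (XT.lf (nat_lit 0) (nat_lit 29525476020) (nat_lit 228) (nat_lit 16527827138) (nat_lit 304) (nat_lit 9091971202) (nat_lit 76) (nat_lit 5) (nat_lit 79) (nat_lit 5) (nat_lit 80) (nat_lit 5) (nat_lit 328) (nat_lit 292) (nat_lit 160))))) (XT.nd (nat_lit 234) (nat_lit 760) (nat_lit 0) (XT.nd (nat_lit 78) (nat_lit 228) (nat_lit 0) (XT.lf (nat_lit 0) (nat_lit 6918725777) (nat_lit 304) (nat_lit 37994268633) (nat_lit 76) (nat_lit 12099858309) (nat_lit 72) (nat_lit 5) (nat_lit 76) (nat_lit 5) (nat_lit 73) (nat_lit 5) (nat_lit 329) (nat_lit 292) (nat_lit 159)) (XT.nd (nat_lit 78) (nat_lit 0) (nat_lit 0) (XT.lf (nat_lit 0) (nat_lit 7333404033) (nat_lit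 228) (nat_lit 16709442442) (nat_lit 304) (nat_lit 34913237722) (nat_lit 69) (nat_lit 5) (nat_lit 72) (nat_lit 5) (nat_lit 73) (nat_lit 5) (nat_lit 330) (nat_lit 292) (nat_lit 158)) (XT.lf (nat_lit 0) (nat_lit 42537853665) (nat_lit 304) (nat_lit 5398009466) (nat_lit 76) (nat_lit 13045176113) (nat_lit 69) (nat_lit 5) (nat_lit 73) (nat_lit 5) (nat_lit 70) (nat_lit 5) (nat_lit 331) (nat_lit 292) (nat_lit 157)))) (XT.nd (nat_lit 156) (nat_lit 228) (nat_lit 0) (XT.nd (nat_lit 78) (nat_lit 304) (nat_lit 0) (XT.lf (nat_lit 0) (nat_lit 43817830595) (nat_lit 228) (nat_lit 18725490800) (nat_lit 304) (nat_lit 546351637) (nat_lit 66) (nat_lit 5) (nat_lit 69) (nat_lit 5) (nat_lit 70) (nat_lit 5) (nat_lit 332) (nat_lit 292) (nat_lit 156)) (XT.lf (nat_lit 0) (nat_lit 18356702250) (nat_lit 304) (nat_lit 34685667769) (nat_lit 76) (nat_lit 12242086751) (nat_lit 62) (nat_lit 5) (nat_lit 66) (nat_lit 5) (nat_lit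 63) (nat_lit 5) (nat_lit 333) (nat_lit 292) (nat_lit 155))) (XT.nd (nat_lit 78) (nat_lit 0) (nat_lit 0) (XT.lf (nat_lit 0) (nat_lit 15889970831) (nat_lit 228) (nat_lit 22841900688) (nat_lit 304) (nat_lit 28840800050) (nat_lit 59) (nat_lit 5) (nat_lit 62) (nat_lit 5) (nat_lit 63) (nat_lit 5) (nat_lit 334) (nat_lit 292) (nat_lit 154)) (XT.lf (nat_lit 0) (nat_lit 60567811447) (nat_lit 304) (nat_lit 340334607) (nat_lit 76) (nat_lit 9053892613) (nat_lit 59) (nat_lit 5) (nat_lit 63) (nat_lit 5) (nat_lit 60) (nat_lit 5) (nat_lit 335) (nat_lit 292) (nat_lit 153))))))) (XT.nd (nat_lit 1092) (nat_lit 912) (nat_lit 0) (XT.nd (nat_lit 546) (nat_lit 760) (nat_lit 0) (XT.nd (nat_lit 234) (nat_lit 608) (nat_lit 0) (XT.nd (nat_lit 78) (nat_lit 380) (nat_lit 0) (XT.lf (nat_lit 0) (nat_lit 11566734119) (nat_lit 228) (nat_lit 18167644731) (nat_lit 76) (nat_lit 42710602044) (nat_lit 56) (nat_lit 5) (nat_lit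 59) (nat_lit 5) (nat_lit 57) (nat_lit 5) (nat_lit 336) (nat_lit 292) (nat_lit 152)) (XT.nd (nat_lit 78) (nat_lit 152) (nat_lit 0) (XT.lf (nat_lit 0) (nat_lit 33774197330) (nat_lit 304) (nat_lit 37865388755) (nat_lit 76) (nat_lit 3397913251) (nat_lit 53) (nat_lit 5) (nat_lit 57) (nat_lit 5) (nat_lit 54) (nat_lit 5) (nat_lit 337) (nat_lit 292) (nat_lit 151)) (XT.lf (nat_lit 0) (nat_lit 17947002478) (nat_lit 152) (nat_lit 39803064367) (nat_lit 228) (nat_lit 19989837475) (nat_lit 51) (nat_lit 5) (nat_lit 53) (nat_lit 5) (nat_lit 54) (nat_lit 5) (nat_lit 338) (nat_lit 292) (nat_lit 150)))) (XT.nd (nat_lit 156) (nat_lit 304) (nat_lit 0) (XT.nd (nat_lit 78) (nat_lit 228) (nat_lit 0) (XT.lf (nat_lit 0) (nat_lit 2691751056) (nat_lit 228) (nat_lit 3256486759) (nat_lit 76) (nat_lit 74616808670) (nat_lit 50) (nat_lit 5) (nat_lit 53) (nat_lit 5) (nat_lit 51) (nat_lit 5) (nat_lit 339) (nat_lit 292) (nat_lit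 149)) (XT.lf (nat_lit 0) (nat_lit 26934574179) (nat_lit 304) (nat_lit 26788830318) (nat_lit 76) (nat_lit 29776887835) (nat_lit 47) (nat_lit 5) (nat_lit 51) (nat_lit 5) (nat_lit 48) (nat_lit 5) (nat_lit 340) (nat_lit 292) (nat_lit 148))) (XT.nd (nat_lit 78) (nat_lit 152) (nat_lit 0) (XT.lf (nat_lit 0) (nat_lit 33757657965) (nat_lit 152) (nat_lit 19047122130) (nat_lit 228) (nat_lit 33765064483) (nat_lit 45) (nat_lit 5) (nat_lit 47) (nat_lit 5) (nat_lit 48) (nat_lit 5) (nat_lit 341) (nat_lit 292) (nat_lit 147)) (XT.lf (nat_lit 0) (nat_lit 8089709697) (nat_lit 152) (nat_lit 72398882759) (nat_lit 228) (nat_lit 9288680384) (nat_lit 43) (nat_lit 5) (nat_lit 45) (nat_lit 5) (nat_lit 46) (nat_lit 5) (nat_lit 342) (nat_lit 292) (nat_lit 146))))) (XT.nd (nat_lit 234) (nat_lit 380) (nat_lit 0) (XT.nd (nat_lit 78) (nat_lit 304) (nat_lit 0) (XT.lf (nat_lit 0) (nat_lit 16829558447) (nat_lit 228) (nat_lit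 20348935074) (nat_lit 76) (nat_lit 55939698954) (nat_lit 42) (nat_lit 5) (nat_lit 45) (nat_lit 5) (nat_lit 43) (nat_lit 5) (nat_lit 343) (nat_lit 292) (nat_lit 145)) (XT.nd (nat_lit 78) (nat_lit 152) (nat_lit 0) (XT.lf (nat_lit 0) (nat_lit 44494774708) (nat_lit 228) (nat_lit 51780924688) (nat_lit 76) (nat_lit 334705729) (nat_lit 40) (nat_lit 5) (nat_lit 43) (nat_lit 5) (nat_lit 41) (nat_lit 5) (nat_lit 344) (nat_lit 292) (nat_lit 144)) (XT.lf (nat_lit 0) (nat_lit 13298493670) (nat_lit 152) (nat_lit 60956604749) (nat_lit 228) (nat_lit 26000775670) (nat_lit 38) (nat_lit 5) (nat_lit 40) (nat_lit 5) (nat_lit 41) (nat_lit 5) (nat_lit 345) (nat_lit 292) (nat_lit 143)))) (XT.nd (nat_lit 156) (nat_lit 152) (nat_lit 0) (XT.nd (nat_lit 78) (nat_lit 152) (nat_lit 0) (XT.lf (nat_lit 0) (nat_lit 1927706281) (nat_lit 228) (nat_lit 21377304917) (nat_lit 76) (nat_lit 80762129148) (nat_lit 37) (nat_lit 5)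 (nat_lit 40) (nat_lit 5) (nat_lit 38) (nat_lit 5) (nat_lit 346) (nat_lit 292) (nat_lit 142)) (XT.lf (nat_lit 0) (nat_lit 31343337405) (nat_lit 228) (nat_lit 60055928135) (nat_lit 76) (nat_lit 16643128496) (nat_lit 35) (nat_lit 5) (nat_lit 38) (nat_lit 5) (nat_lit 36) (nat_lit 5) (nat_lit 347) (nat_lit 292) (nat_lit 141))) (XT.nd (nat_lit 78) (nat_lit 0) (nat_lit 0) (XT.lf (nat_lit 0) (nat_lit 8988932089) (nat_lit 152) (nat_lit 53782155245) (nat_lit 228) (nat_lit 49429083864) (nat_lit 33) (nat_lit 5) (nat_lit 35) (nat_lit 5) (nat_lit 36) (nat_lit 5) (nat_lit 348) (nat_lit 292) (nat_lit 140)) (XT.lf (nat_lit 0) (nat_lit 82736742181) (nat_lit 152) (nat_lit 13649252462) (nat_lit 228) (nat_lit 20161370343) (nat_lit 33) (nat_lit 5) (nat_lit 35) (nat_lit 5) (nat_lit 36) (nat_lit 5) (nat_lit 349) (nat_lit 292) (nat_lit 139)))))) (XT.nd (nat_lit 546) (nat_lit 304) (nat_lit 0) (XT.nd (nat_lit 234)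 (nat_lit 304) (nat_lit 0) (XT.nd (nat_lit 78) (nat_lit 152) (nat_lit 0) (XT.lf (nat_lit 0) (nat_lit 11021656509) (nat_lit 152) (nat_lit 81646561881) (nat_lit 76) (nat_lit 28420907358) (nat_lit 31) (nat_lit 5) (nat_lit 33) (nat_lit 5) (nat_lit 32) (nat_lit 5) (nat_lit 350) (nat_lit 292) (nat_lit 138)) (XT.nd (nat_lit 78) (nat_lit 152) (nat_lit 0) (XT.lf (nat_lit 0) (nat_lit 43837701705) (nat_lit 152) (nat_lit 9131348955) (nat_lit 76) (nat_lit 72868211071) (nat_lit 31) (nat_lit 5) (nat_lit 33) (nat_lit 5) (nat_lit 32) (nat_lit 5) (nat_lit 351) (nat_lit 292) (nat_lit 137)) (XT.lf (nat_lit 0) (nat_lit 68339300500) (nat_lit 152) (nat_lit 10609974692) (nat_lit 228) (nat_lit 51853888262) (nat_lit 29) (nat_lit 5) (nat_lit 31) (nat_lit 5) (nat_lit 32) (nat_lit 5) (nat_lit 352) (nat_lit 292) (nat_lit 136)))) (XT.nd (nat_lit 156) (nat_lit 152) (nat_lit 0) (XT.nd (nat_lit 78) (nat_lit 76) (nat_lit 0)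 (XT.lf (nat_lit 0) (nat_lit 13798734131) (nat_lit 76) (nat_lit 102568675275) (nat_lit 152) (nat_lit 19633422088) (nat_lit 28) (nat_lit 5) (nat_lit 29) (nat_lit 5) (nat_lit 30) (nat_lit 4) (nat_lit 353) (nat_lit 292) (nat_lit 135)) (XT.lf (nat_lit 0) (nat_lit 14675382457) (nat_lit 152) (nat_lit 46512997526) (nat_lit 76) (nat_lit 80243278059) (nat_lit 27) (nat_lit 5) (nat_lit 29) (nat_lit 5) (nat_lit 28) (nat_lit 5) (nat_lit 354) (nat_lit 292) (nat_lit 134))) (XT.nd (nat_lit 78) (nat_lit 0) (nat_lit 0) (XT.lf (nat_lit 0) (nat_lit 33410794500) (nat_lit 152) (nat_lit 17205727440) (nat_lit 228) (nat_lit 96501984556) (nat_lit 25) (nat_lit 5) (nat_lit 27) (nat_lit 5) (nat_lit 28) (nat_lit 5) (nat_lit 355) (nat_lit 292) (nat_lit 133)) (XT.lf (nat_lit 0) (nat_lit 89114856473) (nat_lit 228) (nat_lit 35059353022) (nat_lit 76) (nat_lit 28892684314) (nat_lit 25) (nat_lit 5) (nat_lit 28) (nat_lit 5) (nat_lit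 26) (nat_lit 4) (nat_lit 356) (nat_lit 292) (nat_lit 132))))) (XT.nd (nat_lit 35802) (nat_lit 0) (nat_lit 14060) (XT.nd (nat_lit 35646) (nat_lit 0) (nat_lit 13984) (XT.nd (nat_lit 234) (nat_lit 228) (nat_lit 0) (XT.lf (nat_lit 0) (nat_lit 48286671450) (nat_lit 76) (nat_lit 81887403186) (nat_lit 152) (nat_lit 29119547395) (nat_lit 24) (nat_lit 5) (nat_lit 25) (nat_lit 5) (nat_lit 26) (nat_lit 4) (nat_lit 357) (nat_lit 292) (nat_lit 131)) (XT.lf (nat_lit 0) (nat_lit 87657707444) (nat_lit 228) (nat_lit 31742335549) (nat_lit 76) (nat_lit 60385206869) (nat_lit 21) (nat_lit 5) (nat_lit 24) (nat_lit 5) (nat_lit 22) (nat_lit 4) (nat_lit 360) (nat_lit 292) (nat_lit 128))) (XT.nd (nat_lit 78) (nat_lit 0) (nat_lit 0) (XT.lf (nat_lit 0) (nat_lit 2732210054) (nat_lit 0) (nat_lit 2732210054) (nat_lit 1140) (nat_lit 4808043467) (nat_lit 205) (nat_lit 5) (nat_lit 205) (nat_lit 3) (nat_lit 220) (nat_lit 3)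 (nat_lit 293) (nat_lit 293) (nat_lit 194)) (XT.lf (nat_lit 76) (nat_lit 544135973) (nat_lit 0) (nat_lit 11008376591) (nat_lit 1216) (nat_lit 9495268864) (nat_lit 206) (nat_lit 5) (nat_lit 205) (nat_lit 5) (nat_lit 221) (nat_lit 5) (nat_lit 294) (nat_lit 293) (nat_lit 193)))) (XT.nd (nat_lit 156) (nat_lit 0) (nat_lit 76) (XT.nd (nat_lit 78) (nat_lit 0) (nat_lit 0) (XT.lf (nat_lit 0) (nat_lit 12447543182) (nat_lit 1140) (nat_lit 4415840348) (nat_lit 1216) (nat_lit 4705205994) (nat_lit 206) (nat_lit 5) (nat_lit 221) (nat_lit 5) (nat_lit 222) (nat_lit 5) (nat_lit 295) (nat_lit 293) (nat_lit 192)) (XT.lf (nat_lit 76) (nat_lit 12602405976) (nat_lit 0) (nat_lit 1002181723) (nat_lit 1216) (nat_lit 8504348024) (nat_lit 207) (nat_lit 5) (nat_lit 206) (nat_lit 5) (nat_lit 222) (nat_lit 5) (nat_lit 296) (nat_lit 293) (nat_lit 191))) (XT.nd (nat_lit 78) (nat_lit 0) (nat_lit 76) (XT.lf (nat_lit 76) (nat_lit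 7882813879) (nat_lit 0) (nat_lit 7194508021) (nat_lit 1216) (nat_lit 7591257034) (nat_lit 208) (nat_lit 5) (nat_lit 207) (nat_lit 5) (nat_lit 223) (nat_lit 5) (nat_lit 297) (nat_lit 293) (nat_lit 190)) (XT.lf (nat_lit 76) (nat_lit 3034728844) (nat_lit 0) (nat_lit 13804621682) (nat_lit 1216) (nat_lit 6410398168) (nat_lit 209) (nat_lit 5) (nat_lit 208) (nat_lit 5) (nat_lit 224) (nat_lit 5) (nat_lit 298) (nat_lit 293) (nat_lit 189))))))))
noncomputable def xc100 : XT := (XT.nd (nat_lit 2184) (nat_lit 4256) (nat_lit 0) (XT.nd (nat_lit 1092) (nat_lit 4484) (nat_lit 0) (XT.nd (nat_lit 546) (nat_lit 3268) (nat_lit 0) (XT.nd (nat_lit 234) (nat_lit 1748) (nat_lit 0) (XT.nd (nat_lit 78) (nat_lit 0) (nat_lit 0) (XT.lf (nat_lit 0) (nat_lit 18930025308) (nat_lit 1140) (nat_lit 1910979942) (nat_lit 1216) (nat_lit 3011768800) (nat_lit 209) (nat_lit 5) (nat_lit 224) (nat_lit 5) (nat_lit 225) (nat_lit 5)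 (nat_lit 299) (nat_lit 293) (nat_lit 188)) (XT.nd (nat_lit 78) (nat_lit 0) (nat_lit 76) (XT.lf (nat_lit 76) (nat_lit 17501489244) (nat_lit 0) (nat_lit 3918881497) (nat_lit 1216) (nat_lit 3056738633) (nat_lit 210) (nat_lit 5) (nat_lit 209) (nat_lit 5) (nat_lit 225) (nat_lit 5) (nat_lit 300) (nat_lit 293) (nat_lit 187)) (XT.lf (nat_lit 76) (nat_lit 12901780914) (nat_lit 0) (nat_lit 11398575211) (nat_lit 1216) (nat_lit 824363857) (nat_lit 211) (nat_lit 5) (nat_lit 210) (nat_lit 5) (nat_lit 226) (nat_lit 5) (nat_lit 301) (nat_lit 293) (nat_lit 186)))) (XT.nd (nat_lit 156) (nat_lit 684) (nat_lit 0) (XT.nd (nat_lit 78) (nat_lit 0) (nat_lit 0) (XT.lf (nat_lit 0) (nat_lit 1732354652) (nat_lit 1216) (nat_lit 17649227572) (nat_lit 1292) (nat_lit 6415430593) (nat_lit 195) (nat_lit 5) (nat_lit 211) (nat_lit 5) (nat_lit 212) (nat_lit 5) (nat_lit 302) (nat_lit 293) (nat_lit 185)) (XT.lf (nat_lit 76) (nat_lit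 3222404788) (nat_lit 0) (nat_lit 1439659071) (nat_lit 1292) (nat_lit 21832756199) (nat_lit 196) (nat_lit 5) (nat_lit 195) (nat_lit 5) (nat_lit 212) (nat_lit 5) (nat_lit 303) (nat_lit 293) (nat_lit 184))) (XT.nd (nat_lit 78) (nat_lit 760) (nat_lit 0) (XT.lf (nat_lit 0) (nat_lit 8078401428) (nat_lit 1216) (nat_lit 1893949771) (nat_lit 76) (nat_lit 17244972406) (nat_lit 196) (nat_lit 5) (nat_lit 212) (nat_lit 5) (nat_lit 197) (nat_lit 5) (nat_lit 304) (nat_lit 293) (nat_lit 183)) (XT.lf (nat_lit 0) (nat_lit 11958435345) (nat_lit 836) (nat_lit 7118279757) (nat_lit 76) (nat_lit 8890460585) (nat_lit 186) (nat_lit 5) (nat_lit 197) (nat_lit 5) (nat_lit 187) (nat_lit 5) (nat_lit 305) (nat_lit 293) (nat_lit 182))))) (XT.nd (nat_lit 234) (nat_lit 1596) (nat_lit 0) (XT.nd (nat_lit 78) (nat_lit 1064) (nat_lit 0) (XT.lf (nat_lit 0) (nat_lit 16221333981) (nat_lit 608) (nat_lit 77729970) (nat_lit 684) (nat_lit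 12447467913) (nat_lit 178) (nat_lit 5) (nat_lit 186) (nat_lit 5) (nat_lit 187) (nat_lit 5) (nat_lit 306) (nat_lit 293) (nat_lit 181)) (XT.nd (nat_lit 78) (nat_lit 532) (nat_lit 0) (XT.lf (nat_lit 0) (nat_lit 11334537501) (nat_lit 532) (nat_lit 9886862210) (nat_lit 608) (nat_lit 8332524703) (nat_lit 171) (nat_lit 5) (nat_lit 178) (nat_lit 5) (nat_lit 179) (nat_lit 5) (nat_lit 307) (nat_lit 293) (nat_lit 180)) (XT.lf (nat_lit 0) (nat_lit 6266375265) (nat_lit 532) (nat_lit 20401855587) (nat_lit 608) (nat_lit 3725112798) (nat_lit 164) (nat_lit 5) (nat_lit 171) (nat_lit 5) (nat_lit 172) (nat_lit 5) (nat_lit 308) (nat_lit 293) (nat_lit 179)))) (XT.nd (nat_lit 156) (nat_lit 988) (nat_lit 0) (XT.nd (nat_lit 78) (nat_lit 0) (nat_lit 0) (XT.lf (nat_lit 0) (nat_lit 986078794) (nat_lit 532) (nat_lit 394873418) (nat_lit 608) (nat_lit 29884768708) (nat_lit 156) (nat_lit 5) (nat_lit 163) (nat_lit 5) (nat_lit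 164) (nat_lit 5) (nat_lit 309) (nat_lit 293) (nat_lit 178)) (XT.lf (nat_lit 0) (nat_lit 7106604195) (nat_lit 608) (nat_lit 4562373311) (nat_lit 76) (nat_lit 20498400746) (nat_lit 156) (nat_lit 5) (nat_lit 164) (nat_lit 5) (nat_lit 157) (nat_lit 5) (nat_lit 310) (nat_lit 293) (nat_lit 177))) (XT.nd (nat_lit 78) (nat_lit 456) (nat_lit 0) (XT.lf (nat_lit 0) (nat_lit 13426158525) (nat_lit 608) (nat_lit 10324662436) (nat_lit 76) (nat_lit 9354075957) (nat_lit 149) (nat_lit 5) (nat_lit 157) (nat_lit 5) (nat_lit 150) (nat_lit 5) (nat_lit 311) (nat_lit 293) (nat_lit 176)) (XT.lf (nat_lit 0) (nat_lit 17716461732) (nat_lit 456) (nat_lit 2673075560) (nat_lit 532) (nat_lit 13689925544) (nat_lit 143) (nat_lit 5) (nat_lit 149) (nat_lit 5) (nat_lit 150) (nat_lit 5) (nat_lit 312) (nat_lit 293) (nat_lit 175)))))) (XT.nd (nat_lit 546) (nat_lit 1900) (nat_lit 0) (XT.nd (nat_lit 234) (nat_lit 1216) (nat_lit 0)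 (XT.nd (nat_lit 78) (nat_lit 912) (nat_lit 0) (XT.lf (nat_lit 0) (nat_lit 12319715082) (nat_lit 456) (nat_lit 15786792791) (nat_lit 532) (nat_lit 6984092895) (nat_lit 137) (nat_lit 5) (nat_lit 143) (nat_lit 5) (nat_lit 144) (nat_lit 5) (nat_lit 313) (nat_lit 293) (nat_lit 174)) (XT.nd (nat_lit 78) (nat_lit 456) (nat_lit 0) (XT.lf (nat_lit 0) (nat_lit 372125394) (nat_lit 456) (nat_lit 29481336459) (nat_lit 76) (nat_lit 6289337008) (nat_lit 131) (nat_lit 5) (nat_lit 137) (nat_lit 5) (nat_lit 132) (nat_lit 5) (nat_lit 314) (nat_lit 293) (nat_lit 173)) (XT.lf (nat_lit 0) (nat_lit 571408023) (nat_lit 456) (nat_lit 7776272395) (nat_lit 532) (nat_lit 28885978570) (nat_lit 125) (nat_lit 5) (nat_lit 131) (nat_lit 5) (nat_lit 132) (nat_lit 5) (nat_lit 315) (nat_lit 293) (nat_lit 172)))) (XT.nd (nat_lit 156) (nat_lit 836) (nat_lit 0) (XT.nd (nat_lit 78) (nat_lit 380) (nat_lit 0) (XT.lf (nat_lit 0) (nat_lit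 17169887369) (nat_lit 532) (nat_lit 5786421748) (nat_lit 76) (nat_lit 15409322148) (nat_lit 125) (nat_lit 5) (nat_lit 132) (nat_lit 5) (nat_lit 126) (nat_lit 5) (nat_lit 316) (nat_lit 293) (nat_lit 171)) (XT.lf (nat_lit 0) (nat_lit 26768555752) (nat_lit 456) (nat_lit 12472016220) (nat_lit 76) (nat_lit 303574765) (nat_lit 120) (nat_lit 5) (nat_lit 126) (nat_lit 5) (nat_lit 121) (nat_lit 5) (nat_lit 317) (nat_lit 293) (nat_lit 170))) (XT.nd (nat_lit 78) (nat_lit 456) (nat_lit 0) (XT.lf (nat_lit 0) (nat_lit 21086101305) (nat_lit 380) (nat_lit 16249448052) (nat_lit 456) (nat_lit 3431391742) (nat_lit 115) (nat_lit 5) (nat_lit 120) (nat_lit 5) (nat_lit 121) (nat_lit 5) (nat_lit 318) (nat_lit 293) (nat_lit 169)) (XT.lf (nat_lit 0) (nat_lit 6600128997) (nat_lit 456) (nat_lit 27366889605) (nat_lit 76) (nat_lit 8071682962) (nat_lit 109) (nat_lit 5) (nat_lit 115) (nat_lit 5) (nat_lit 110) (nat_lit 5)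 (nat_lit 319) (nat_lit 293) (nat_lit 168))))) (XT.nd (nat_lit 234) (nat_lit 1216) (nat_lit 0) (XT.nd (nat_lit 78) (nat_lit 304) (nat_lit 0) (XT.lf (nat_lit 0) (nat_lit 7727904574) (nat_lit 380) (nat_lit 9772106907) (nat_lit 456) (nat_lit 25859891070) (nat_lit 104) (nat_lit 5) (nat_lit 109) (nat_lit 5) (nat_lit 110) (nat_lit 5) (nat_lit 320) (nat_lit 293) (nat_lit 167)) (XT.nd (nat_lit 78) (nat_lit 0) (nat_lit 0) (XT.lf (nat_lit 0) (nat_lit 254953399) (nat_lit 304) (nat_lit 29121544657) (nat_lit 380) (nat_lit 15357721317) (nat_lit 100) (nat_lit 5) (nat_lit 104) (nat_lit 5) (nat_lit 105) (nat_lit 5) (nat_lit 321) (nat_lit 293) (nat_lit 166)) (XT.lf (nat_lit 0) (nat_lit 38572901615) (nat_lit 304) (nat_lit 3732951641) (nat_lit 380) (nat_lit 3857631341) (nat_lit 100) (nat_lit 5) (nat_lit 104) (nat_lit 5) (nat_lit 105) (nat_lit 5) (nat_lit 322) (nat_lit 293) (nat_lit 165)))) (XT.nd (nat_lit 156)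 (nat_lit 532) (nat_lit 0) (XT.nd (nat_lit 78) (nat_lit 304) (nat_lit 0) (XT.lf (nat_lit 0) (nat_lit 8580516294) (nat_lit 380) (nat_lit 16202507271) (nat_lit 76) (nat_lit 22863121213) (nat_lit 95) (nat_lit 5) (nat_lit 100) (nat_lit 5) (nat_lit 96) (nat_lit 5) (nat_lit 323) (nat_lit 293) (nat_lit 164)) (XT.lf (nat_lit 0) (nat_lit 21919461021) (nat_lit 380) (nat_lit 25442566328) (nat_lit 76) (nat_lit 1829008070) (nat_lit 91) (nat_lit 5) (nat_lit 96) (nat_lit 5) (nat_lit 92) (nat_lit 5) (nat_lit 324) (nat_lit 293) (nat_lit 163))) (XT.nd (nat_lit 78) (nat_lit 228) (nat_lit 0) (XT.lf (nat_lit 0) (nat_lit 15266547454) (nat_lit 304) (nat_lit 21219242219) (nat_lit 380) (nat_lit 14310571079) (nat_lit 87) (nat_lit 5) (nat_lit 91) (nat_lit 5) (nat_lit 92) (nat_lit 5) (nat_lit 325) (nat_lit 293) (nat_lit 162)) (XT.lf (nat_lit 0) (nat_lit 6118705475) (nat_lit 228) (nat_lit 46040191793) (nat_lit 304) (nat_lit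 311704318) (nat_lit 84) (nat_lit 5) (nat_lit 87) (nat_lit 5) (nat_lit 88) (nat_lit 5) (nat_lit 326) (nat_lit 293) (nat_lit 161))))))) (XT.nd (nat_lit 1092) (nat_lit 1672) (nat_lit 0) (XT.nd (nat_lit 546) (nat_lit 1216) (nat_lit 0) (XT.nd (nat_lit 234) (nat_lit 760) (nat_lit 0) (XT.nd (nat_lit 78) (nat_lit 532) (nat_lit 0) (XT.lf (nat_lit 0) (nat_lit 14685265921) (nat_lit 304) (nat_lit 3988353245) (nat_lit 76) (nat_lit 35533422105) (nat_lit 83) (nat_lit 5) (nat_lit 87) (nat_lit 5) (nat_lit 84) (nat_lit 5) (nat_lit 327) (nat_lit 293) (nat_lit 160)) (XT.nd (nat_lit 78) (nat_lit 228) (nat_lit 0) (XT.lf (nat_lit 0) (nat_lit 30918838613) (nat_lit 380) (nat_lit 14829642763) (nat_lit 76) (nat_lit 10266935702) (nat_lit 79) (nat_lit 5) (nat_lit 84) (nat_lit 5) (nat_lit 80) (nat_lit 5) (nat_lit 328) (nat_lit 293) (nat_lit 159)) (XT.lf (nat_lit 0) (nat_lit 31202561861) (nat_lit 228) (nat_lit 17287121791)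 (nat_lit 304) (nat_lit 9408762818) (nat_lit 76) (nat_lit 5) (nat_lit 79) (nat_lit 5) (nat_lit 80) (nat_lit 5) (nat_lit 329) (nat_lit 293) (nat_lit 158)))) (XT.nd (nat_lit 156) (nat_lit 228) (nat_lit 0) (XT.nd (nat_lit 78) (nat_lit 228) (nat_lit 0) (XT.lf (nat_lit 0) (nat_lit 7395892121) (nat_lit 304) (nat_lit 39692892581) (nat_lit 76) (nat_lit 12770699643) (nat_lit 72) (nat_lit 5) (nat_lit 76) (nat_lit 5) (nat_lit 73) (nat_lit 5) (nat_lit 330) (nat_lit 293) (nat_lit 157)) (XT.lf (nat_lit 0) (nat_lit 7895399529) (nat_lit 228) (nat_lit 17476447860) (nat_lit 304) (nat_lit 36528164680) (nat_lit 69) (nat_lit 5) (nat_lit 72) (nat_lit 5) (nat_lit 73) (nat_lit 5) (nat_lit 331) (nat_lit 293) (nat_lit 156))) (XT.nd (nat_lit 78) (nat_lit 228) (nat_lit 0) (XT.lf (nat_lit 0) (nat_lit 44786190858) (nat_lit 304) (nat_lit 5478820903) (nat_lit 76) (nat_lit 13761368891) (nat_lit 69) (nat_lit 5) (nat_lit 73)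 (nat_lit 5) (nat_lit 70) (nat_lit 5) (nat_lit 332) (nat_lit 293) (nat_lit 155)) (XT.lf (nat_lit 0) (nat_lit 46192390962) (nat_lit 228) (nat_lit 19595523479) (nat_lit 304) (nat_lit 452655417) (nat_lit 66) (nat_lit 5) (nat_lit 69) (nat_lit 5) (nat_lit 70) (nat_lit 5) (nat_lit 333) (nat_lit 293) (nat_lit 154))))) (XT.nd (nat_lit 234) (nat_lit 684) (nat_lit 0) (XT.nd (nat_lit 78) (nat_lit 228) (nat_lit 0) (XT.lf (nat_lit 0) (nat_lit 19389911801) (nat_lit 304) (nat_lit 36236326274) (nat_lit 76) (nat_lit 12918921107) (nat_lit 62) (nat_lit 5) (nat_lit 66) (nat_lit 5) (nat_lit 63) (nat_lit 5) (nat_lit 334) (nat_lit 293) (nat_lit 153)) (XT.nd (nat_lit 78) (nat_lit 0) (nat_lit 0) (XT.lf (nat_lit 0) (nat_lit 16862830686) (nat_lit 228) (nat_lit 23917229344) (nat_lit 304) (nat_lit 30167840895) (nat_lit 59) (nat_lit 5) (nat_lit 62) (nat_lit 5) (nat_lit 63) (nat_lit 5) (nat_lit 335) (nat_lit 293) (nat_lit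 152)) (XT.lf (nat_lit 0) (nat_lit 63703094148) (nat_lit 304) (nat_lit 184852541) (nat_lit 76) (nat_lit 9568933459) (nat_lit 59) (nat_lit 5) (nat_lit 63) (nat_lit 5) (nat_lit 60) (nat_lit 5) (nat_lit 336) (nat_lit 293) (nat_lit 151)))) (XT.nd (nat_lit 156) (nat_lit 228) (nat_lit 0) (XT.nd (nat_lit 78) (nat_lit 228) (nat_lit 0) (XT.lf (nat_lit 0) (nat_lit 12249557508) (nat_lit 228) (nat_lit 18906343680) (nat_lit 76) (nat_lit 44908144505) (nat_lit 56) (nat_lit 5) (nat_lit 59) (nat_lit 5) (nat_lit 57) (nat_lit 5) (nat_lit 337) (nat_lit 293) (nat_lit 150)) (XT.lf (nat_lit 0) (nat_lit 35564615221) (nat_lit 304) (nat_lit 39591371251) (nat_lit 76) (nat_lit 3630289310) (nat_lit 53) (nat_lit 5) (nat_lit 57) (nat_lit 5) (nat_lit 54) (nat_lit 5) (nat_lit 338) (nat_lit 293) (nat_lit 149))) (XT.nd (nat_lit 78) (nat_lit 76) (nat_lit 0) (XT.lf (nat_lit 0) (nat_lit 19006844297) (nat_lit 152) (nat_lit 41729152646)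 (nat_lit 228) (nat_lit 20887904763) (nat_lit 51) (nat_lit 5) (nat_lit 53) (nat_lit 5) (nat_lit 54) (nat_lit 5) (nat_lit 339) (nat_lit 293) (nat_lit 148)) (XT.lf (nat_lit 0) (nat_lit 2921048539) (nat_lit 228) (nat_lit 3262630553) (nat_lit 76) (nat_lit 78406736783) (nat_lit 50) (nat_lit 5) (nat_lit 53) (nat_lit 5) (nat_lit 51) (nat_lit 5) (nat_lit 340) (nat_lit 293) (nat_lit 147)))))) (XT.nd (nat_lit 546) (nat_lit 684) (nat_lit 0) (XT.nd (nat_lit 234) (nat_lit 456) (nat_lit 0) (XT.nd (nat_lit 78) (nat_lit 304) (nat_lit 0) (XT.lf (nat_lit 0) (nat_lit 28373547576) (nat_lit 304) (nat_lit 27973874785) (nat_lit 76) (nat_lit 31325077595) (nat_lit 47) (nat_lit 5) (nat_lit 51) (nat_lit 5) (nat_lit 48) (nat_lit 5) (nat_lit 341) (nat_lit 293) (nat_lit 146)) (XT.nd (nat_lit 78) (nat_lit 152) (nat_lit 0) (XT.lf (nat_lit 0) (nat_lit 35595512151) (nat_lit 152) (nat_lit 19938800648) (nat_lit 228) (nat_lit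 35361307432) (nat_lit 45) (nat_lit 5) (nat_lit 47) (nat_lit 5) (nat_lit 48) (nat_lit 5) (nat_lit 342) (nat_lit 293) (nat_lit 145)) (XT.lf (nat_lit 0) (nat_lit 8641939728) (nat_lit 152) (nat_lit 75958099676) (nat_lit 228) (nat_lit 9663450592) (nat_lit 43) (nat_lit 5) (nat_lit 45) (nat_lit 5) (nat_lit 46) (nat_lit 5) (nat_lit 343) (nat_lit 293) (nat_lit 144)))) (XT.nd (nat_lit 156) (nat_lit 228) (nat_lit 0) (XT.nd (nat_lit 78) (nat_lit 152) (nat_lit 0) (XT.lf (nat_lit 0) (nat_lit 17754764129) (nat_lit 228) (nat_lit 21223973134) (nat_lit 76) (nat_lit 58792819748) (nat_lit 42) (nat_lit 5) (nat_lit 45) (nat_lit 5) (nat_lit 43) (nat_lit 5) (nat_lit 344) (nat_lit 293) (nat_lit 143)) (XT.lf (nat_lit 0) (nat_lit 46801134228) (nat_lit 228) (nat_lit 54229730942) (nat_lit 76) (nat_lit 407579916) (nat_lit 40) (nat_lit 5) (nat_lit 43) (nat_lit 5) (nat_lit 41) (nat_lit 5) (nat_lit 345) (nat_lit 293) (nat_lit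 142))) (XT.nd (nat_lit 78) (nat_lit 76) (nat_lit 0) (XT.lf (nat_lit 0) (nat_lit 14099638383) (nat_lit 152) (nat_lit 63947258467) (nat_lit 228) (nat_lit 27219369474) (nat_lit 38) (nat_lit 5) (nat_lit 40) (nat_lit 5) (nat_lit 41) (nat_lit 5) (nat_lit 346) (nat_lit 293) (nat_lit 141)) (XT.lf (nat_lit 0) (nat_lit 2100144637) (nat_lit 228) (nat_lit 22314895306) (nat_lit 76) (nat_lit 84853147937) (nat_lit 37) (nat_lit 5) (nat_lit 40) (nat_lit 5) (nat_lit 38) (nat_lit 5) (nat_lit 347) (nat_lit 293) (nat_lit 140))))) (XT.nd (nat_lit 234) (nat_lit 380) (nat_lit 0) (XT.nd (nat_lit 78) (nat_lit 152) (nat_lit 0) (XT.lf (nat_lit 0) (nat_lit 32984679151) (nat_lit 228) (nat_lit 62929494058) (nat_lit 76) (nat_lit 17528088719) (nat_lit 35) (nat_lit 5) (nat_lit 38) (nat_lit 5) (nat_lit 36) (nat_lit 5) (nat_lit 348) (nat_lit 293) (nat_lit 139)) (XT.nd (nat_lit 78) (nat_lit 0) (nat_lit 0) (XT.lf (nat_lit 0)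 (nat_lit 9563904812) (nat_lit 152) (nat_lit 56417586262) (nat_lit 228) (nat_lit 51826507906) (nat_lit 33) (nat_lit 5) (nat_lit 35) (nat_lit 5) (nat_lit 36) (nat_lit 5) (nat_lit 349) (nat_lit 293) (nat_lit 138)) (XT.lf (nat_lit 0) (nat_lit 86993127974) (nat_lit 152) (nat_lit 14280594375) (nat_lit 228) (nat_lit 21098933954) (nat_lit 33) (nat_lit 5) (nat_lit 35) (nat_lit 5) (nat_lit 36) (nat_lit 5) (nat_lit 350) (nat_lit 293) (nat_lit 137)))) (XT.nd (nat_lit 156) (nat_lit 228) (nat_lit 0) (XT.nd (nat_lit 78) (nat_lit 0) (nat_lit 0) (XT.lf (nat_lit 0) (nat_lit 11640191448) (nat_lit 152) (nat_lit 85609863343) (nat_lit 76) (nat_lit 29891481403) (nat_lit 31) (nat_lit 5) (nat_lit 33) (nat_lit 5) (nat_lit 32) (nat_lit 5) (nat_lit 351) (nat_lit 293) (nat_lit 136)) (XT.lf (nat_lit 0) (nat_lit 46093826898) (nat_lit 152) (nat_lit 9474557706) (nat_lit 76) (nat_lit 76558791793) (nat_lit 31) (nat_lit 5)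 (nat_lit 33) (nat_lit 5) (nat_lit 32) (nat_lit 5) (nat_lit 352) (nat_lit 293) (nat_lit 135))) (XT.nd (nat_lit 78) (nat_lit 76) (nat_lit 0) (XT.lf (nat_lit 0) (nat_lit 71866374817) (nat_lit 152) (nat_lit 11092603628) (nat_lit 228) (nat_lit 54382455791) (nat_lit 29) (nat_lit 5) (nat_lit 31) (nat_lit 5) (nat_lit 32) (nat_lit 5) (nat_lit 353) (nat_lit 293) (nat_lit 134)) (XT.lf (nat_lit 0) (nat_lit 14597010195) (nat_lit 76) (nat_lit 107649525055) (nat_lit 152) (nat_lit 20552495913) (nat_lit 28) (nat_lit 5) (nat_lit 29) (nat_lit 5) (nat_lit 30) (nat_lit 4) (nat_lit 354) (nat_lit 293) (nat_lit 133))))))))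
noncomputable def xc101 : XT := (XT.nd (nat_lit 37830) (nat_lit 0) (nat_lit 988) (XT.nd (nat_lit 36738) (nat_lit 0) (nat_lit 7220) (XT.nd (nat_lit 36192) (nat_lit 0) (nat_lit 12920) (XT.nd (nat_lit 35880) (nat_lit 0) (nat_lit 13680) (XT.nd (nat_lit 78) (nat_lit 152) (nat_lit 0) (XT.lf (nat_lit 0) (nat_lit 15467604704) (nat_lit 152) (nat_lit 48734285936) (nat_lit 76) (nat_lit 84299578916) (nat_lit 27) (nat_lit 5) (nat_lit 29) (nat_lit 5) (nat_lit 28) (nat_lit 5) (nat_lit 355) (nat_lit 293) (nat_lit 132)) (XT.nd (nat_lit 78) (nat_lit 0) (nat_lit 0) (XT.lf (nat_lit 0) (nat_lit 35182704191) (nat_lit 152) (nat_lit 18021287918) (nat_lit 228) (nat_lit 101268723443) (nat_lit 25) (nat_lit 5) (nat_lit 27) (nat_lit 5) (nat_lit 28) (nat_lit 5) (nat_lit 356) (nat_lit 293) (nat_lit 131)) (XT.lf (nat_lit 0) (nat_lit 93624955492) (nat_lit 228) (nat_lit 36714552766) (nat_lit 76) (nat_lit 30379083416) (nat_lit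 25) (nat_lit 5) (nat_lit 28) (nat_lit 5) (nat_lit 26) (nat_lit 4) (nat_lit 357) (nat_lit 293) (nat_lit 130)))) (XT.nd (nat_lit 156) (nat_lit 0) (nat_lit 76) (XT.nd (nat_lit 78) (nat_lit 0) (nat_lit 0) (XT.lf (nat_lit 0) (nat_lit 2990316832) (nat_lit 0) (nat_lit 2990316832) (nat_lit 1140) (nat_lit 4797911939) (nat_lit 205) (nat_lit 5) (nat_lit 205) (nat_lit 3) (nat_lit 220) (nat_lit 3) (nat_lit 294) (nat_lit 294) (nat_lit 192)) (XT.lf (nat_lit 76) (nat_lit 824288800) (nat_lit 0) (nat_lit 11768899252) (nat_lit 1216) (nat_lit 9492612141) (nat_lit 206) (nat_lit 5) (nat_lit 205) (nat_lit 5) (nat_lit 221) (nat_lit 5) (nat_lit 295) (nat_lit 294) (nat_lit 191))) (XT.nd (nat_lit 78) (nat_lit 0) (nat_lit 0) (XT.lf (nat_lit 0) (nat_lit 13508996735) (nat_lit 1140) (nat_lit 4380121907) (nat_lit 1216) (nat_lit 4744272057) (nat_lit 206) (nat_lit 5) (nat_lit 221) (nat_lit 5) (nat_lit 222) (nat_lit 5) (nat_lit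 296) (nat_lit 294) (nat_lit 190)) (XT.lf (nat_lit 76) (nat_lit 13481683912) (nat_lit 0) (nat_lit 1223696221) (nat_lit 1216) (nat_lit 8495951189) (nat_lit 207) (nat_lit 5) (nat_lit 206) (nat_lit 5) (nat_lit 222) (nat_lit 5) (nat_lit 297) (nat_lit 294) (nat_lit 189))))) (XT.nd (nat_lit 234) (nat_lit 912) (nat_lit 0) (XT.nd (nat_lit 78) (nat_lit 0) (nat_lit 76) (XT.lf (nat_lit 76) (nat_lit 8533247659) (nat_lit 0) (nat_lit 7699371026) (nat_lit 1216) (nat_lit 7556932661) (nat_lit 208) (nat_lit 5) (nat_lit 207) (nat_lit 5) (nat_lit 223) (nat_lit 5) (nat_lit 298) (nat_lit 294) (nat_lit 188)) (XT.nd (nat_lit 78) (nat_lit 0) (nat_lit 76) (XT.lf (nat_lit 76) (nat_lit 3448866413) (nat_lit 0) (nat_lit 14615960227) (nat_lit 1216) (nat_lit 6335510314) (nat_lit 209) (nat_lit 5) (nat_lit 208) (nat_lit 5) (nat_lit 224) (nat_lit 5) (nat_lit 299) (nat_lit 294) (nat_lit 187)) (XT.lf (nat_lit 0) (nat_lit 20240664124)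 (nat_lit 1140) (nat_lit 1744181833) (nat_lit 1216) (nat_lit 3049267509) (nat_lit 209) (nat_lit 5) (nat_lit 224) (nat_lit 5) (nat_lit 225) (nat_lit 5) (nat_lit 300) (nat_lit 294) (nat_lit 186)))) (XT.nd (nat_lit 156) (nat_lit 1064) (nat_lit 0) (XT.nd (nat_lit 78) (nat_lit 0) (nat_lit 76) (XT.lf (nat_lit 76) (nat_lit 18631390686) (nat_lit 0) (nat_lit 4209245813) (nat_lit 1216) (nat_lit 2849493633) (nat_lit 210) (nat_lit 5) (nat_lit 209) (nat_lit 5) (nat_lit 225) (nat_lit 5) (nat_lit 301) (nat_lit 294) (nat_lit 185)) (XT.lf (nat_lit 76) (nat_lit 13805798121) (nat_lit 0) (nat_lit 12043816782) (nat_lit 1216) (nat_lit 520973568) (nat_lit 211) (nat_lit 5) (nat_lit 210) (nat_lit 5) (nat_lit 226) (nat_lit 5) (nat_lit 302) (nat_lit 294) (nat_lit 184))) (XT.nd (nat_lit 78) (nat_lit 0) (nat_lit 0) (XT.lf (nat_lit 0) (nat_lit 2142616451) (nat_lit 1216) (nat_lit 18262653594) (nat_lit 1292) (nat_lit 6671569452)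 (nat_lit 195) (nat_lit 5) (nat_lit 211) (nat_lit 5) (nat_lit 212) (nat_lit 5) (nat_lit 303) (nat_lit 294) (nat_lit 183)) (XT.lf (nat_lit 76) (nat_lit 3644848540) (nat_lit 0) (nat_lit 1561062958) (nat_lit 1292) (nat_lit 22604027574) (nat_lit 196) (nat_lit 5) (nat_lit 195) (nat_lit 5) (nat_lit 212) (nat_lit 5) (nat_lit 304) (nat_lit 294) (nat_lit 182)))))) (XT.nd (nat_lit 546) (nat_lit 2736) (nat_lit 0) (XT.nd (nat_lit 234) (nat_lit 1672) (nat_lit 0) (XT.nd (nat_lit 78) (nat_lit 1368) (nat_lit 0) (XT.lf (nat_lit 0) (nat_lit 8777816148) (nat_lit 1216) (nat_lit 1730151483) (nat_lit 76) (nat_lit 18061071928) (nat_lit 196) (nat_lit 5) (nat_lit 212) (nat_lit 5) (nat_lit 197) (nat_lit 5) (nat_lit 305) (nat_lit 294) (nat_lit 181)) (XT.nd (nat_lit 78) (nat_lit 608) (nat_lit 0) (XT.lf (nat_lit 0) (nat_lit 12839879358) (nat_lit 836) (nat_lit 7214005966) (nat_lit 76) (nat_lit 9302871684) (nat_lit 186)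 (nat_lit 5) (nat_lit 197) (nat_lit 5) (nat_lit 187) (nat_lit 5) (nat_lit 306) (nat_lit 294) (nat_lit 180)) (XT.lf (nat_lit 0) (nat_lit 17285130228) (nat_lit 608) (nat_lit 101337496) (nat_lit 684) (nat_lit 12788958361) (nat_lit 178) (nat_lit 5) (nat_lit 186) (nat_lit 5) (nat_lit 187) (nat_lit 5) (nat_lit 307) (nat_lit 294) (nat_lit 179)))) (XT.nd (nat_lit 156) (nat_lit 608) (nat_lit 0) (XT.nd (nat_lit 78) (nat_lit 532) (nat_lit 0) (XT.lf (nat_lit 0) (nat_lit 12155124279) (nat_lit 532) (nat_lit 10389081871) (nat_lit 608) (nat_lit 8479315863) (nat_lit 171) (nat_lit 5) (nat_lit 178) (nat_lit 5) (nat_lit 179) (nat_lit 5) (nat_lit 308) (nat_lit 294) (nat_lit 178)) (XT.lf (nat_lit 0) (nat_lit 6834217108) (nat_lit 532) (nat_lit 21419072623) (nat_lit 608) (nat_lit 3651936894) (nat_lit 164) (nat_lit 5) (nat_lit 171) (nat_lit 5) (nat_lit 172) (nat_lit 5) (nat_lit 309) (nat_lit 294) (nat_lit 177))) (XT.nd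 (nat_lit 78) (nat_lit 0) (nat_lit 0) (XT.lf (nat_lit 0) (nat_lit 1287748706) (nat_lit 532) (nat_lit 406933299) (nat_lit 608) (nat_lit 31126767401) (nat_lit 156) (nat_lit 5) (nat_lit 163) (nat_lit 5) (nat_lit 164) (nat_lit 5) (nat_lit 310) (nat_lit 294) (nat_lit 176)) (XT.lf (nat_lit 0) (nat_lit 7695035398) (nat_lit 608) (nat_lit 4543016100) (nat_lit 76) (nat_lit 21530495880) (nat_lit 156) (nat_lit 5) (nat_lit 164) (nat_lit 5) (nat_lit 157) (nat_lit 5) (nat_lit 311) (nat_lit 294) (nat_lit 175))))) (XT.nd (nat_lit 234) (nat_lit 1292) (nat_lit 0) (XT.nd (nat_lit 78) (nat_lit 912) (nat_lit 0) (XT.lf (nat_lit 0) (nat_lit 14321932574) (nat_lit 608) (nat_lit 10593741744) (nat_lit 76) (nat_lit 9837536549) (nat_lit 149) (nat_lit 5) (nat_lit 157) (nat_lit 5) (nat_lit 150) (nat_lit 5) (nat_lit 312) (nat_lit 294) (nat_lit 174)) (XT.nd (nat_lit 78) (nat_lit 456) (nat_lit 0) (XT.lf (nat_lit 0) (nat_lit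 18842354018) (nat_lit 456) (nat_lit 2782745092) (nat_lit 532) (nat_lit 14151666785) (nat_lit 143) (nat_lit 5) (nat_lit 149) (nat_lit 5) (nat_lit 150) (nat_lit 5) (nat_lit 313) (nat_lit 294) (nat_lit 173)) (XT.lf (nat_lit 0) (nat_lit 13175143444) (nat_lit 456) (nat_lit 16545006257) (nat_lit 532) (nat_lit 7118553007) (nat_lit 137) (nat_lit 5) (nat_lit 143) (nat_lit 5) (nat_lit 144) (nat_lit 5) (nat_lit 314) (nat_lit 294) (nat_lit 172)))) (XT.nd (nat_lit 156) (nat_lit 380) (nat_lit 0) (XT.nd (nat_lit 78) (nat_lit 456) (nat_lit 0) (XT.lf (nat_lit 0) (nat_lit 593862768) (nat_lit 456) (nat_lit 30712663186) (nat_lit 76) (nat_lit 6637153772) (nat_lit 131) (nat_lit 5) (nat_lit 137) (nat_lit 5) (nat_lit 132) (nat_lit 5) (nat_lit 315) (nat_lit 294) (nat_lit 171)) (XT.lf (nat_lit 0) (nat_lit 835760425) (nat_lit 456) (nat_lit 8125028690) (nat_lit 532) (nat_lit 30128523801) (nat_lit 125) (nat_lit 5) (nat_lit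 131) (nat_lit 5) (nat_lit 132) (nat_lit 5) (nat_lit 316) (nat_lit 294) (nat_lit 170))) (XT.nd (nat_lit 78) (nat_lit 380) (nat_lit 0) (XT.lf (nat_lit 0) (nat_lit 18215152910) (nat_lit 532) (nat_lit 5845813344) (nat_lit 76) (nat_lit 16217193647) (nat_lit 125) (nat_lit 5) (nat_lit 132) (nat_lit 5) (nat_lit 126) (nat_lit 5) (nat_lit 317) (nat_lit 294) (nat_lit 169)) (XT.lf (nat_lit 0) (nat_lit 28287424079) (nat_lit 456) (nat_lit 12867151402) (nat_lit 76) (nat_lit 361222717) (nat_lit 120) (nat_lit 5) (nat_lit 126) (nat_lit 5) (nat_lit 121) (nat_lit 5) (nat_lit 318) (nat_lit 294) (nat_lit 168))))))) (XT.nd (nat_lit 1092) (nat_lit 2356) (nat_lit 0) (XT.nd (nat_lit 546) (nat_lit 1672) (nat_lit 0) (XT.nd (nat_lit 234) (nat_lit 988) (nat_lit 0) (XT.nd (nat_lit 78) (nat_lit 836) (nat_lit 0) (XT.lf (nat_lit 0) (nat_lit 22362323077) (nat_lit 380) (nat_lit 17013985080) (nat_lit 456) (nat_lit 3423624692)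 (nat_lit 115) (nat_lit 5) (nat_lit 120) (nat_lit 5) (nat_lit 121) (nat_lit 5) (nat_lit 319) (nat_lit 294) (nat_lit 167)) (XT.nd (nat_lit 78) (nat_lit 380) (nat_lit 0) (XT.lf (nat_lit 0) (nat_lit 7100181290) (nat_lit 456) (nat_lit 28511414483) (nat_lit 76) (nat_lit 8523813867) (nat_lit 109) (nat_lit 5) (nat_lit 115) (nat_lit 5) (nat_lit 110) (nat_lit 5) (nat_lit 320) (nat_lit 294) (nat_lit 166)) (XT.lf (nat_lit 0) (nat_lit 8331703661) (nat_lit 380) (nat_lit 10207346635) (nat_lit 456) (nat_lit 26983806590) (nat_lit 104) (nat_lit 5) (nat_lit 109) (nat_lit 5) (nat_lit 110) (nat_lit 5) (nat_lit 321) (nat_lit 294) (nat_lit 165)))) (XT.nd (nat_lit 156) (nat_lit 684) (nat_lit 0) (XT.nd (nat_lit 78) (nat_lit 0) (nat_lit 0) (XT.lf (nat_lit 0) (nat_lit 483271109) (nat_lit 304) (nat_lit 30520839492) (nat_lit 380) (nat_lit 15961942164) (nat_lit 100) (nat_lit 5) (nat_lit 104) (nat_lit 5) (nat_lit 105)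 (nat_lit 5) (nat_lit 322) (nat_lit 294) (nat_lit 164)) (XT.lf (nat_lit 0) (nat_lit 40706851497) (nat_lit 304) (nat_lit 3865520749) (nat_lit 380) (nat_lit 3894641271) (nat_lit 100) (nat_lit 5) (nat_lit 104) (nat_lit 5) (nat_lit 105) (nat_lit 5) (nat_lit 323) (nat_lit 294) (nat_lit 163))) (XT.nd (nat_lit 78) (nat_lit 304) (nat_lit 0) (XT.lf (nat_lit 0) (nat_lit 9157569318) (nat_lit 380) (nat_lit 16806159260) (nat_lit 76) (nat_lit 24060182279) (nat_lit 95) (nat_lit 5) (nat_lit 100) (nat_lit 5) (nat_lit 96) (nat_lit 5) (nat_lit 324) (nat_lit 294) (nat_lit 162)) (XT.lf (nat_lit 0) (nat_lit 23158894377) (nat_lit 380) (nat_lit 26510311193) (nat_lit 76) (nat_lit 1976982246) (nat_lit 91) (nat_lit 5) (nat_lit 96) (nat_lit 5) (nat_lit 92) (nat_lit 5) (nat_lit 325) (nat_lit 294) (nat_lit 161))))) (XT.nd (nat_lit 234) (nat_lit 1064) (nat_lit 0) (XT.nd (nat_lit 78) (nat_lit 304) (nat_lit 0) (XT.lf (nat_lit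 0) (nat_lit 16228399667) (nat_lit 304) (nat_lit 22220216693) (nat_lit 380) (nat_lit 14883315299) (nat_lit 87) (nat_lit 5) (nat_lit 91) (nat_lit 5) (nat_lit 92) (nat_lit 5) (nat_lit 326) (nat_lit 294) (nat_lit 160)) (XT.nd (nat_lit 78) (nat_lit 76) (nat_lit 0) (XT.lf (nat_lit 0) (nat_lit 6621040193) (nat_lit 228) (nat_lit 48280179223) (nat_lit 304) (nat_lit 188794250) (nat_lit 84) (nat_lit 5) (nat_lit 87) (nat_lit 5) (nat_lit 88) (nat_lit 5) (nat_lit 327) (nat_lit 294) (nat_lit 159)) (XT.lf (nat_lit 0) (nat_lit 15548855638) (nat_lit 304) (nat_lit 3998069819) (nat_lit 76) (nat_lit 37366507937) (nat_lit 83) (nat_lit 5) (nat_lit 87) (nat_lit 5) (nat_lit 84) (nat_lit 5) (nat_lit 328) (nat_lit 294) (nat_lit 158)))) (XT.nd (nat_lit 156) (nat_lit 532) (nat_lit 0) (XT.nd (nat_lit 78) (nat_lit 228) (nat_lit 0) (XT.lf (nat_lit 0) (nat_lit 32590290075) (nat_lit 380) (nat_lit 15383607307) (nat_lit 76)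 (nat_lit 10838448933) (nat_lit 79) (nat_lit 5) (nat_lit 84) (nat_lit 5) (nat_lit 80) (nat_lit 5) (nat_lit 329) (nat_lit 294) (nat_lit 157)) (XT.lf (nat_lit 0) (nat_lit 32944832395) (nat_lit 228) (nat_lit 18090619191) (nat_lit 304) (nat_lit 9754205999) (nat_lit 76) (nat_lit 5) (nat_lit 79) (nat_lit 5) (nat_lit 80) (nat_lit 5) (nat_lit 330) (nat_lit 294) (nat_lit 156))) (XT.nd (nat_lit 78) (nat_lit 228) (nat_lit 0) (XT.lf (nat_lit 0) (nat_lit 7884716255) (nat_lit 304) (nat_lit 41495143120) (nat_lit 76) (nat_lit 13468961083) (nat_lit 72) (nat_lit 5) (nat_lit 76) (nat_lit 5) (nat_lit 73) (nat_lit 5) (nat_lit 331) (nat_lit 294) (nat_lit 155)) (XT.lf (nat_lit 0) (nat_lit 8467335306) (nat_lit 228) (nat_lit 18288168935) (nat_lit 304) (nat_lit 38235992480) (nat_lit 69) (nat_lit 5) (nat_lit 72) (nat_lit 5) (nat_lit 73) (nat_lit 5) (nat_lit 332) (nat_lit 294) (nat_lit 154)))))) (XT.nd (nat_lit 546)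 (nat_lit 1140) (nat_lit 0) (XT.nd (nat_lit 234) (nat_lit 684) (nat_lit 0) (XT.nd (nat_lit 78) (nat_lit 532) (nat_lit 0) (XT.lf (nat_lit 0) (nat_lit 47135654151) (nat_lit 304) (nat_lit 5581252619) (nat_lit 76) (nat_lit 14507427333) (nat_lit 69) (nat_lit 5) (nat_lit 73) (nat_lit 5) (nat_lit 70) (nat_lit 5) (nat_lit 333) (nat_lit 294) (nat_lit 153)) (XT.nd (nat_lit 78) (nat_lit 304) (nat_lit 0) (XT.lf (nat_lit 0) (nat_lit 48668603559) (nat_lit 228) (nat_lit 20515216331) (nat_lit 304) (nat_lit 365525103) (nat_lit 66) (nat_lit 5) (nat_lit 69) (nat_lit 5) (nat_lit 70) (nat_lit 5) (nat_lit 334) (nat_lit 294) (nat_lit 152)) (XT.lf (nat_lit 0) (nat_lit 20464055408) (nat_lit 304) (nat_lit 37881589405) (nat_lit 76) (nat_lit 13623579198) (nat_lit 62) (nat_lit 5) (nat_lit 66) (nat_lit 5) (nat_lit 63) (nat_lit 5) (nat_lit 335) (nat_lit 294) (nat_lit 151)))) (XT.nd (nat_lit 156) (nat_lit 456) (nat_lit 0)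 (XT.nd (nat_lit 78) (nat_lit 0) (nat_lit 0) (XT.lf (nat_lit 0) (nat_lit 17867751189) (nat_lit 228) (nat_lit 25052531739) (nat_lit 304) (nat_lit 31571925313) (nat_lit 59) (nat_lit 5) (nat_lit 62) (nat_lit 5) (nat_lit 63) (nat_lit 5) (nat_lit 336) (nat_lit 294) (nat_lit 150)) (XT.lf (nat_lit 0) (nat_lit 66985203166) (nat_lit 304) (nat_lit 37633674) (nat_lit 76) (nat_lit 10103929986) (nat_lit 59) (nat_lit 5) (nat_lit 63) (nat_lit 5) (nat_lit 60) (nat_lit 5) (nat_lit 337) (nat_lit 294) (nat_lit 149))) (XT.nd (nat_lit 78) (nat_lit 228) (nat_lit 0) (XT.lf (nat_lit 0) (nat_lit 12956807886) (nat_lit 228) (nat_lit 19697753121) (nat_lit 76) (nat_lit 47209798768) (nat_lit 56) (nat_lit 5) (nat_lit 59) (nat_lit 5) (nat_lit 57) (nat_lit 5) (nat_lit 338) (nat_lit 294) (nat_lit 148)) (XT.lf (nat_lit 0) (nat_lit 37435098159) (nat_lit 304) (nat_lit 41419205627) (nat_lit 76) (nat_lit 3868475336) (nat_lit 53)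 (nat_lit 5) (nat_lit 57) (nat_lit 5) (nat_lit 54) (nat_lit 5) (nat_lit 339) (nat_lit 294) (nat_lit 147))))) (XT.nd (nat_lit 312) (nat_lit 532) (nat_lit 0) (XT.nd (nat_lit 156) (nat_lit 380) (nat_lit 0) (XT.nd (nat_lit 78) (nat_lit 76) (nat_lit 0) (XT.lf (nat_lit 0) (nat_lit 20104571269) (nat_lit 152) (nat_lit 43757501489) (nat_lit 228) (nat_lit 21840304911) (nat_lit 51) (nat_lit 5) (nat_lit 53) (nat_lit 5) (nat_lit 54) (nat_lit 5) (nat_lit 340) (nat_lit 294) (nat_lit 146)) (XT.lf (nat_lit 0) (nat_lit 3153005665) (nat_lit 228) (nat_lit 3283648209) (nat_lit 76) (nat_lit 82380667890) (nat_lit 50) (nat_lit 5) (nat_lit 53) (nat_lit 5) (nat_lit 51) (nat_lit 5) (nat_lit 341) (nat_lit 294) (nat_lit 145))) (XT.nd (nat_lit 78) (nat_lit 152) (nat_lit 0) (XT.lf (nat_lit 0) (nat_lit 29875893607) (nat_lit 304) (nat_lit 29232525849) (nat_lit 76) (nat_lit 32945159472) (nat_lit 47) (nat_lit 5) (nat_lit 51)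 (nat_lit 5) (nat_lit 48) (nat_lit 5) (nat_lit 342) (nat_lit 294) (nat_lit 144)) (XT.lf (nat_lit 0) (nat_lit 37511316138) (nat_lit 152) (nat_lit 20880704319) (nat_lit 228) (nat_lit 37045916771) (nat_lit 45) (nat_lit 5) (nat_lit 47) (nat_lit 5) (nat_lit 48) (nat_lit 5) (nat_lit 343) (nat_lit 294) (nat_lit 143)))) (XT.nd (nat_lit 156) (nat_lit 304) (nat_lit 0) (XT.nd (nat_lit 78) (nat_lit 76) (nat_lit 0) (XT.lf (nat_lit 0) (nat_lit 9208045373) (nat_lit 152) (nat_lit 79700923280) (nat_lit 228) (nat_lit 10065295402) (nat_lit 43) (nat_lit 5) (nat_lit 45) (nat_lit 5) (nat_lit 46) (nat_lit 5) (nat_lit 344) (nat_lit 294) (nat_lit 142)) (XT.lf (nat_lit 0) (nat_lit 18718445881) (nat_lit 228) (nat_lit 22156002907) (nat_lit 76) (nat_lit 61783377603) (nat_lit 42) (nat_lit 5) (nat_lit 45) (nat_lit 5) (nat_lit 43) (nat_lit 5) (nat_lit 345) (nat_lit 294) (nat_lit 141))) (XT.nd (nat_lit 78) (nat_lit 152) (nat_lit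 0) (XT.lf (nat_lit 0) (nat_lit 49215223396) (nat_lit 228) (nat_lit 56814015693) (nat_lit 76) (nat_lit 478878549) (nat_lit 40) (nat_lit 5) (nat_lit 43) (nat_lit 5) (nat_lit 41) (nat_lit 5) (nat_lit 346) (nat_lit 294) (nat_lit 140)) (XT.lf (nat_lit 0) (nat_lit 14928175884) (nat_lit 152) (nat_lit 67092760602) (nat_lit 228) (nat_lit 28506464950) (nat_lit 38) (nat_lit 5) (nat_lit 40) (nat_lit 5) (nat_lit 41) (nat_lit 5) (nat_lit 347) (nat_lit 294) (nat_lit 139))))))))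
noncomputable def xc102 : XT := (XT.nd (nat_lit 37908) (nat_lit 0) (nat_lit 1976) (XT.nd (nat_lit 36816) (nat_lit 0) (nat_lit 9956) (XT.nd (nat_lit 546) (nat_lit 304) (nat_lit 0) (XT.nd (nat_lit 234) (nat_lit 304) (nat_lit 0) (XT.nd (nat_lit 78) (nat_lit 304) (nat_lit 0) (XT.lf (nat_lit 0) (nat_lit 2274134221) (nat_lit 228) (nat_lit 23311569907) (nat_lit 76) (nat_lit 89143798379) (nat_lit 37) (nat_lit 5) (nat_lit 40) (nat_lit 5) (nat_lit 38) (nat_lit 5) (nat_lit 348) (nat_lit 294) (nat_lit 138)) (XT.nd (nat_lit 78) (nat_lit 152) (nat_lit 0) (XT.lf (nat_lit 0) (nat_lit 34701191907) (nat_lit 228) (nat_lit 65958752903) (nat_lit 76) (nat_lit 18452387758) (nat_lit 35) (nat_lit 5) (nat_lit 38) (nat_lit 5) (nat_lit 36) (nat_lit 5) (nat_lit 349) (nat_lit 294) (nat_lit 137)) (XT.lf (nat_lit 0) (nat_lit 10155955942) (nat_lit 152) (nat_lit 59189779184) (nat_lit 228) (nat_lit 54350685771) (nat_lit 33)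 (nat_lit 5) (nat_lit 35) (nat_lit 5) (nat_lit 36) (nat_lit 5) (nat_lit 350) (nat_lit 294) (nat_lit 136)))) (XT.nd (nat_lit 156) (nat_lit 152) (nat_lit 0) (XT.nd (nat_lit 78) (nat_lit 152) (nat_lit 0) (XT.lf (nat_lit 0) (nat_lit 91451218553) (nat_lit 152) (nat_lit 14948256103) (nat_lit 228) (nat_lit 22089930624) (nat_lit 33) (nat_lit 5) (nat_lit 35) (nat_lit 5) (nat_lit 36) (nat_lit 5) (nat_lit 351) (nat_lit 294) (nat_lit 135)) (XT.lf (nat_lit 0) (nat_lit 12283382076) (nat_lit 152) (nat_lit 89782395847) (nat_lit 76) (nat_lit 31430979443) (nat_lit 31) (nat_lit 5) (nat_lit 33) (nat_lit 5) (nat_lit 32) (nat_lit 5) (nat_lit 352) (nat_lit 294) (nat_lit 134))) (XT.nd (nat_lit 78) (nat_lit 152) (nat_lit 0) (XT.lf (nat_lit 0) (nat_lit 48456785915) (nat_lit 152) (nat_lit 9845465911) (nat_lit 76) (nat_lit 80429516116) (nat_lit 31) (nat_lit 5) (nat_lit 33) (nat_lit 5) (nat_lit 32) (nat_lit 5) (nat_lit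 353) (nat_lit 294) (nat_lit 133)) (XT.lf (nat_lit 0) (nat_lit 75559565932) (nat_lit 152) (nat_lit 11603814490) (nat_lit 228) (nat_lit 57043413606) (nat_lit 29) (nat_lit 5) (nat_lit 31) (nat_lit 5) (nat_lit 32) (nat_lit 5) (nat_lit 354) (nat_lit 294) (nat_lit 132))))) (XT.nd (nat_lit 35958) (nat_lit 0) (nat_lit 13680) (XT.nd (nat_lit 78) (nat_lit 228) (nat_lit 0) (XT.lf (nat_lit 0) (nat_lit 15425127696) (nat_lit 76) (nat_lit 112988841231) (nat_lit 152) (nat_lit 21523343131) (nat_lit 28) (nat_lit 5) (nat_lit 29) (nat_lit 5) (nat_lit 30) (nat_lit 4) (nat_lit 355) (nat_lit 294) (nat_lit 131)) (XT.nd (nat_lit 78) (nat_lit 152) (nat_lit 0) (XT.lf (nat_lit 0) (nat_lit 16294003647) (nat_lit 152) (nat_lit 51076341306) (nat_lit 76) (nat_lit 88554591380) (nat_lit 27) (nat_lit 5) (nat_lit 29) (nat_lit 5) (nat_lit 28) (nat_lit 5) (nat_lit 356) (nat_lit 294) (nat_lit 130)) (XT.lf (nat_lit 0) (nat_lit 37033784948)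 (nat_lit 152) (nat_lit 18881784610) (nat_lit 228) (nat_lit 106279225065) (nat_lit 25) (nat_lit 5) (nat_lit 27) (nat_lit 5) (nat_lit 28) (nat_lit 5) (nat_lit 357) (nat_lit 294) (nat_lit 129)))) (XT.nd (nat_lit 156) (nat_lit 0) (nat_lit 76) (XT.nd (nat_lit 78) (nat_lit 0) (nat_lit 0) (XT.lf (nat_lit 0) (nat_lit 3250033376) (nat_lit 0) (nat_lit 3250033376) (nat_lit 1140) (nat_lit 4810566082) (nat_lit 205) (nat_lit 5) (nat_lit 205) (nat_lit 3) (nat_lit 220) (nat_lit 3) (nat_lit 295) (nat_lit 295) (nat_lit 190)) (XT.lf (nat_lit 76) (nat_lit 1094932744) (nat_lit 0) (nat_lit 12547914583) (nat_lit 1216) (nat_lit 9534208584) (nat_lit 206) (nat_lit 5) (nat_lit 205) (nat_lit 5) (nat_lit 221) (nat_lit 5) (nat_lit 296) (nat_lit 295) (nat_lit 189))) (XT.nd (nat_lit 78) (nat_lit 0) (nat_lit 0) (XT.lf (nat_lit 0) (nat_lit 14582701803) (nat_lit 1140) (nat_lit 4366465455) (nat_lit 1216) (nat_lit 4803531703)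 (nat_lit 206) (nat_lit 5) (nat_lit 221) (nat_lit 5) (nat_lit 222) (nat_lit 5) (nat_lit 297) (nat_lit 295) (nat_lit 188)) (XT.lf (nat_lit 76) (nat_lit 14381761430) (nat_lit 0) (nat_lit 1440350793) (nat_lit 1216) (nat_lit 8527447854) (nat_lit 207) (nat_lit 5) (nat_lit 206) (nat_lit 5) (nat_lit 222) (nat_lit 5) (nat_lit 298) (nat_lit 295) (nat_lit 187)))))) (XT.nd (nat_lit 546) (nat_lit 2964) (nat_lit 0) (XT.nd (nat_lit 234) (nat_lit 912) (nat_lit 0) (XT.nd (nat_lit 78) (nat_lit 0) (nat_lit 76) (XT.lf (nat_lit 76) (nat_lit 9192375425) (nat_lit 0) (nat_lit 8215983662) (nat_lit 1216) (nat_lit 7559371381) (nat_lit 208) (nat_lit 5) (nat_lit 207) (nat_lit 5) (nat_lit 223) (nat_lit 5) (nat_lit 299) (nat_lit 295) (nat_lit 186)) (XT.nd (nat_lit 78) (nat_lit 0) (nat_lit 76) (XT.lf (nat_lit 76) (nat_lit 3859315291) (nat_lit 0) (nat_lit 15456606274) (nat_lit 1216) (nat_lit 6293639332) (nat_lit 209) (nat_lit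 5) (nat_lit 208) (nat_lit 5) (nat_lit 224) (nat_lit 5) (nat_lit 300) (nat_lit 295) (nat_lit 185)) (XT.lf (nat_lit 0) (nat_lit 21582980823) (nat_lit 1140) (nat_lit 1593434365) (nat_lit 1216) (nat_lit 3099155165) (nat_lit 209) (nat_lit 5) (nat_lit 224) (nat_lit 5) (nat_lit 225) (nat_lit 5) (nat_lit 301) (nat_lit 295) (nat_lit 184)))) (XT.nd (nat_lit 156) (nat_lit 1064) (nat_lit 0) (XT.nd (nat_lit 78) (nat_lit 0) (nat_lit 76) (XT.lf (nat_lit 76) (nat_lit 19794095802) (nat_lit 0) (nat_lit 4505350044) (nat_lit 1216) (nat_lit 2665363387) (nat_lit 210) (nat_lit 5) (nat_lit 209) (nat_lit 5) (nat_lit 225) (nat_lit 5) (nat_lit 302) (nat_lit 295) (nat_lit 183)) (XT.lf (nat_lit 76) (nat_lit 14730943502) (nat_lit 0) (nat_lit 12714318559) (nat_lit 1216) (nat_lit 234452195) (nat_lit 211) (nat_lit 5) (nat_lit 210) (nat_lit 5) (nat_lit 226) (nat_lit 5) (nat_lit 303) (nat_lit 295) (nat_lit 182))) (XT.nd (nat_lit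 78) (nat_lit 0) (nat_lit 0) (XT.lf (nat_lit 0) (nat_lit 2543301982) (nat_lit 1216) (nat_lit 18931763275) (nat_lit 1292) (nat_lit 6946524187) (nat_lit 195) (nat_lit 5) (nat_lit 211) (nat_lit 5) (nat_lit 212) (nat_lit 5) (nat_lit 304) (nat_lit 295) (nat_lit 181)) (XT.lf (nat_lit 76) (nat_lit 4064119096) (nat_lit 0) (nat_lit 1683942350) (nat_lit 1292) (nat_lit 23443647152) (nat_lit 196) (nat_lit 5) (nat_lit 195) (nat_lit 5) (nat_lit 212) (nat_lit 5) (nat_lit 305) (nat_lit 295) (nat_lit 180))))) (XT.nd (nat_lit 234) (nat_lit 1672) (nat_lit 0) (XT.nd (nat_lit 78) (nat_lit 1368) (nat_lit 0) (XT.lf (nat_lit 0) (nat_lit 9484729313) (nat_lit 1216) (nat_lit 1582195767) (nat_lit 76) (nat_lit 18922266932) (nat_lit 196) (nat_lit 5) (nat_lit 212) (nat_lit 5) (nat_lit 197) (nat_lit 5) (nat_lit 306) (nat_lit 295) (nat_lit 179)) (XT.nd (nat_lit 78) (nat_lit 608) (nat_lit 0) (XT.lf (nat_lit 0) (nat_lit 13739036360)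 (nat_lit 836) (nat_lit 7338708278) (nat_lit 76) (nat_lit 9738888801) (nat_lit 186) (nat_lit 5) (nat_lit 197) (nat_lit 5) (nat_lit 187) (nat_lit 5) (nat_lit 307) (nat_lit 295) (nat_lit 178)) (XT.lf (nat_lit 0) (nat_lit 18378619891) (nat_lit 608) (nat_lit 124291925) (nat_lit 684) (nat_lit 13173637165) (nat_lit 178) (nat_lit 5) (nat_lit 186) (nat_lit 5) (nat_lit 187) (nat_lit 5) (nat_lit 308) (nat_lit 295) (nat_lit 177)))) (XT.nd (nat_lit 156) (nat_lit 608) (nat_lit 0) (XT.nd (nat_lit 78) (nat_lit 532) (nat_lit 0) (XT.lf (nat_lit 0) (nat_lit 12993138908) (nat_lit 532) (nat_lit 10915680229) (nat_lit 608) (nat_lit 8658533290) (nat_lit 171) (nat_lit 5) (nat_lit 178) (nat_lit 5) (nat_lit 179) (nat_lit 5) (nat_lit 309) (nat_lit 295) (nat_lit 176)) (XT.lf (nat_lit 0) (nat_lit 7406787899) (nat_lit 532) (nat_lit 22487417869) (nat_lit 608) (nat_lit 3599221681) (nat_lit 164) (nat_lit 5) (nat_lit 171)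 (nat_lit 5) (nat_lit 172) (nat_lit 5) (nat_lit 310) (nat_lit 295) (nat_lit 175))) (XT.nd (nat_lit 78) (nat_lit 0) (nat_lit 0) (XT.lf (nat_lit 0) (nat_lit 1581039517) (nat_lit 532) (nat_lit 420310539) (nat_lit 608) (nat_lit 32454316889) (nat_lit 156) (nat_lit 5) (nat_lit 163) (nat_lit 5) (nat_lit 164) (nat_lit 5) (nat_lit 311) (nat_lit 295) (nat_lit 174)) (XT.lf (nat_lit 0) (nat_lit 8291216640) (nat_lit 608) (nat_lit 4545698989) (nat_lit 76) (nat_lit 22613528699) (nat_lit 156) (nat_lit 5) (nat_lit 164) (nat_lit 5) (nat_lit 157) (nat_lit 5) (nat_lit 312) (nat_lit 295) (nat_lit 173))))))) (XT.nd (nat_lit 1092) (nat_lit 3040) (nat_lit 0) (XT.nd (nat_lit 546) (nat_lit 2204) (nat_lit 0) (XT.nd (nat_lit 234) (nat_lit 1292) (nat_lit 0) (XT.nd (nat_lit 78) (nat_lit 912) (nat_lit 0) (XT.lf (nat_lit 0) (nat_lit 15241626594) (nat_lit 608) (nat_lit 10899253036) (nat_lit 76) (nat_lit 10343705254) (nat_lit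 149) (nat_lit 5) (nat_lit 157) (nat_lit 5) (nat_lit 150) (nat_lit 5) (nat_lit 313) (nat_lit 295) (nat_lit 172)) (XT.nd (nat_lit 78) (nat_lit 456) (nat_lit 0) (XT.lf (nat_lit 0) (nat_lit 20002221559) (nat_lit 456) (nat_lit 2900127928) (nat_lit 532) (nat_lit 14657204740) (nat_lit 143) (nat_lit 5) (nat_lit 149) (nat_lit 5) (nat_lit 150) (nat_lit 5) (nat_lit 314) (nat_lit 295) (nat_lit 171)) (XT.lf (nat_lit 0) (nat_lit 14051082120) (nat_lit 456) (nat_lit 17344024213) (nat_lit 532) (nat_lit 7279701037) (nat_lit 137) (nat_lit 5) (nat_lit 143) (nat_lit 5) (nat_lit 144) (nat_lit 5) (nat_lit 315) (nat_lit 295) (nat_lit 170)))) (XT.nd (nat_lit 156) (nat_lit 380) (nat_lit 0) (XT.nd (nat_lit 78) (nat_lit 456) (nat_lit 0) (XT.lf (nat_lit 0) (nat_lit 807801806) (nat_lit 456) (nat_lit 32028123922) (nat_lit 76) (nat_lit 6999260816) (nat_lit 131) (nat_lit 5) (nat_lit 137) (nat_lit 5) (nat_lit 132) (nat_lit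 5) (nat_lit 316) (nat_lit 295) (nat_lit 169)) (XT.lf (nat_lit 0) (nat_lit 1091409671) (nat_lit 456) (nat_lit 8494946950) (nat_lit 532) (nat_lit 31451953441) (nat_lit 125) (nat_lit 5) (nat_lit 131) (nat_lit 5) (nat_lit 132) (nat_lit 5) (nat_lit 317) (nat_lit 295) (nat_lit 168))) (XT.nd (nat_lit 78) (nat_lit 380) (nat_lit 0) (XT.lf (nat_lit 0) (nat_lit 19295317515) (nat_lit 532) (nat_lit 5929551184) (nat_lit 76) (nat_lit 17061981123) (nat_lit 125) (nat_lit 5) (nat_lit 132) (nat_lit 5) (nat_lit 126) (nat_lit 5) (nat_lit 318) (nat_lit 295) (nat_lit 167)) (XT.lf (nat_lit 0) (nat_lit 29865460172) (nat_lit 456) (nat_lit 13303283913) (nat_lit 76) (nat_lit 417804682) (nat_lit 120) (nat_lit 5) (nat_lit 126) (nat_lit 5) (nat_lit 121) (nat_lit 5) (nat_lit 319) (nat_lit 295) (nat_lit 166))))) (XT.nd (nat_lit 234) (nat_lit 988) (nat_lit 0) (XT.nd (nat_lit 78) (nat_lit 836) (nat_lit 0) (XT.lf (nat_lit 0)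 (nat_lit 23681724226) (nat_lit 380) (nat_lit 17821205536) (nat_lit 456) (nat_lit 3432142310) (nat_lit 115) (nat_lit 5) (nat_lit 120) (nat_lit 5) (nat_lit 121) (nat_lit 5) (nat_lit 320) (nat_lit 295) (nat_lit 165)) (XT.nd (nat_lit 78) (nat_lit 380) (nat_lit 0) (XT.lf (nat_lit 0) (nat_lit 7609426947) (nat_lit 456) (nat_lit 29733974230) (nat_lit 76) (nat_lit 8994037900) (nat_lit 109) (nat_lit 5) (nat_lit 115) (nat_lit 5) (nat_lit 110) (nat_lit 5) (nat_lit 321) (nat_lit 295) (nat_lit 164)) (XT.lf (nat_lit 0) (nat_lit 8945480553) (nat_lit 380) (nat_lit 10669309779) (nat_lit 456) (nat_lit 28179637252) (nat_lit 104) (nat_lit 5) (nat_lit 109) (nat_lit 5) (nat_lit 110) (nat_lit 5) (nat_lit 322) (nat_lit 295) (nat_lit 163)))) (XT.nd (nat_lit 156) (nat_lit 684) (nat_lit 0) (XT.nd (nat_lit 78) (nat_lit 0) (nat_lit 0) (XT.lf (nat_lit 0) (nat_lit 702963046) (nat_lit 304) (nat_lit 31995378158) (nat_lit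 380) (nat_lit 16611590094) (nat_lit 100) (nat_lit 5) (nat_lit 104) (nat_lit 5) (nat_lit 105) (nat_lit 5) (nat_lit 323) (nat_lit 295) (nat_lit 162)) (XT.lf (nat_lit 0) (nat_lit 42928411578) (nat_lit 304) (nat_lit 4009746016) (nat_lit 380) (nat_lit 3947993164) (nat_lit 100) (nat_lit 5) (nat_lit 104) (nat_lit 5) (nat_lit 105) (nat_lit 5) (nat_lit 324) (nat_lit 295) (nat_lit 161))) (XT.nd (nat_lit 78) (nat_lit 304) (nat_lit 0) (XT.lf (nat_lit 0) (nat_lit 9749712826) (nat_lit 380) (nat_lit 17459189786) (nat_lit 76) (nat_lit 25312084822) (nat_lit 95) (nat_lit 5) (nat_lit 100) (nat_lit 5) (nat_lit 96) (nat_lit 5) (nat_lit 325) (nat_lit 295) (nat_lit 160)) (XT.lf (nat_lit 0) (nat_lit 24446961821) (nat_lit 380) (nat_lit 27650444937) (nat_lit 76) (nat_lit 2127100085) (nat_lit 91) (nat_lit 5) (nat_lit 96) (nat_lit 5) (nat_lit 92) (nat_lit 5) (nat_lit 326) (nat_lit 295) (nat_lit 159)))))) (XT.nd (nat_lit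 546) (nat_lit 1368) (nat_lit 0) (XT.nd (nat_lit 234) (nat_lit 1064) (nat_lit 0) (XT.nd (nat_lit 78) (nat_lit 304) (nat_lit 0) (XT.lf (nat_lit 0) (nat_lit 17219887534) (nat_lit 304) (nat_lit 23276816973) (nat_lit 380) (nat_lit 15497971463) (nat_lit 87) (nat_lit 5) (nat_lit 91) (nat_lit 5) (nat_lit 92) (nat_lit 5) (nat_lit 327) (nat_lit 295) (nat_lit 158)) (XT.nd (nat_lit 78) (nat_lit 76) (nat_lit 0) (XT.lf (nat_lit 0) (nat_lit 7130232289) (nat_lit 228) (nat_lit 50637932257) (nat_lit 304) (nat_lit 72614657) (nat_lit 84) (nat_lit 5) (nat_lit 87) (nat_lit 5) (nat_lit 88) (nat_lit 5) (nat_lit 328) (nat_lit 295) (nat_lit 157)) (XT.lf (nat_lit 0) (nat_lit 16443601296) (nat_lit 304) (nat_lit 4025908832) (nat_lit 76) (nat_lit 39286003153) (nat_lit 83) (nat_lit 5) (nat_lit 87) (nat_lit 5) (nat_lit 84) (nat_lit 5) (nat_lit 329) (nat_lit 295) (nat_lit 156)))) (XT.nd (nat_lit 156) (nat_lit 532) (nat_lit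 0) (XT.nd (nat_lit 78) (nat_lit 228) (nat_lit 0) (XT.lf (nat_lit 0) (nat_lit 34333645423) (nat_lit 380) (nat_lit 15982703686) (nat_lit 76) (nat_lit 11433130061) (nat_lit 79) (nat_lit 5) (nat_lit 84) (nat_lit 5) (nat_lit 80) (nat_lit 5) (nat_lit 330) (nat_lit 295) (nat_lit 155)) (XT.lf (nat_lit 0) (nat_lit 34757282577) (nat_lit 228) (nat_lit 18939949526) (nat_lit 304) (nat_lit 10128542184) (nat_lit 76) (nat_lit 5) (nat_lit 79) (nat_lit 5) (nat_lit 80) (nat_lit 5) (nat_lit 331) (nat_lit 295) (nat_lit 154))) (XT.nd (nat_lit 78) (nat_lit 228) (nat_lit 0) (XT.lf (nat_lit 0) (nat_lit 8386915359) (nat_lit 304) (nat_lit 43404463460) (nat_lit 76) (nat_lit 14196582794) (nat_lit 72) (nat_lit 5) (nat_lit 76) (nat_lit 5) (nat_lit 73) (nat_lit 5) (nat_lit 332) (nat_lit 295) (nat_lit 153)) (XT.lf (nat_lit 0) (nat_lit 9051396674) (nat_lit 228) (nat_lit 19146249656) (nat_lit 304) (nat_lit 40040236155) (nat_lit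 69) (nat_lit 5) (nat_lit 72) (nat_lit 5) (nat_lit 73) (nat_lit 5) (nat_lit 333) (nat_lit 295) (nat_lit 152))))) (XT.nd (nat_lit 312) (nat_lit 608) (nat_lit 0) (XT.nd (nat_lit 156) (nat_lit 532) (nat_lit 0) (XT.nd (nat_lit 78) (nat_lit 228) (nat_lit 0) (XT.lf (nat_lit 0) (nat_lit 49592349557) (nat_lit 304) (nat_lit 5704751232) (nat_lit 76) (nat_lit 15285397337) (nat_lit 69) (nat_lit 5) (nat_lit 73) (nat_lit 5) (nat_lit 70) (nat_lit 5) (nat_lit 334) (nat_lit 295) (nat_lit 151)) (XT.lf (nat_lit 0) (nat_lit 51253138544) (nat_lit 228) (nat_lit 21486479804) (nat_lit 304) (nat_lit 284243004) (nat_lit 66) (nat_lit 5) (nat_lit 69) (nat_lit 5) (nat_lit 70) (nat_lit 5) (nat_lit 335) (nat_lit 295) (nat_lit 150))) (XT.nd (nat_lit 78) (nat_lit 228) (nat_lit 0) (XT.lf (nat_lit 0) (nat_lit 21582177014) (nat_lit 304) (nat_lit 39624600229) (nat_lit 76) (nat_lit 14358011704) (nat_lit 62) (nat_lit 5) (nat_lit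 66) (nat_lit 5) (nat_lit 63) (nat_lit 5) (nat_lit 336) (nat_lit 295) (nat_lit 149)) (XT.lf (nat_lit 0) (nat_lit 18907877042) (nat_lit 228) (nat_lit 26250229462) (nat_lit 304) (nat_lit 33055911486) (nat_lit 59) (nat_lit 5) (nat_lit 62) (nat_lit 5) (nat_lit 63) (nat_lit 5) (nat_lit 337) (nat_lit 295) (nat_lit 148)))) (XT.nd (nat_lit 156) (nat_lit 380) (nat_lit 0) (XT.nd (nat_lit 78) (nat_lit 76) (nat_lit 0) (XT.lf (nat_lit 0) (nat_lit 104437785) (nat_lit 152) (nat_lit 70318969877) (nat_lit 228) (nat_lit 10556985004) (nat_lit 57) (nat_lit 5) (nat_lit 59) (nat_lit 5) (nat_lit 60) (nat_lit 5) (nat_lit 338) (nat_lit 295) (nat_lit 147)) (XT.lf (nat_lit 0) (nat_lit 13690609733) (nat_lit 228) (nat_lit 20543041916) (nat_lit 76) (nat_lit 49621306428) (nat_lit 56) (nat_lit 5) (nat_lit 59) (nat_lit 5) (nat_lit 57) (nat_lit 5) (nat_lit 339) (nat_lit 295) (nat_lit 146))) (XT.nd (nat_lit 78) (nat_lit 152)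 (nat_lit 0) (XT.lf (nat_lit 0) (nat_lit 39390528510) (nat_lit 304) (nat_lit 43352538528) (nat_lit 76) (nat_lit 4113301879) (nat_lit 53) (nat_lit 5) (nat_lit 57) (nat_lit 5) (nat_lit 54) (nat_lit 5) (nat_lit 340) (nat_lit 295) (nat_lit 145)) (XT.lf (nat_lit 0) (nat_lit 21243482152) (nat_lit 152) (nat_lit 45892670179) (nat_lit 228) (nat_lit 22848877899) (nat_lit 51) (nat_lit 5) (nat_lit 53) (nat_lit 5) (nat_lit 54) (nat_lit 5) (nat_lit 341) (nat_lit 295) (nat_lit 144))))))))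
noncomputable def xc103 : XT := (XT.nd (nat_lit 37986) (nat_lit 0) (nat_lit 2964) (XT.nd (nat_lit 1092) (nat_lit 152) (nat_lit 0) (XT.nd (nat_lit 546) (nat_lit 684) (nat_lit 0) (XT.nd (nat_lit 234) (nat_lit 532) (nat_lit 0) (XT.nd (nat_lit 78) (nat_lit 380) (nat_lit 0) (XT.lf (nat_lit 0) (nat_lit 3388574043) (nat_lit 228) (nat_lit 3318929149) (nat_lit 76) (nat_lit 86548312864) (nat_lit 50) (nat_lit 5) (nat_lit 53) (nat_lit 5) (nat_lit 51) (nat_lit 5) (nat_lit 342) (nat_lit 295) (nat_lit 143)) (XT.nd (nat_lit 78) (nat_lit 152) (nat_lit 0) (XT.lf (nat_lit 0) (nat_lit 31445578220) (nat_lit 304) (nat_lit 30567129308) (nat_lit 76) (nat_lit 34641241026) (nat_lit 47) (nat_lit 5) (nat_lit 51) (nat_lit 5) (nat_lit 48) (nat_lit 5) (nat_lit 343) (nat_lit 295) (nat_lit 142)) (XT.lf (nat_lit 0) (nat_lit 39510263696) (nat_lit 152) (nat_lit 21874819932) (nat_lit 228) (nat_lit 38822515529) (nat_lit 45) (nat_lit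 5) (nat_lit 47) (nat_lit 5) (nat_lit 48) (nat_lit 5) (nat_lit 344) (nat_lit 295) (nat_lit 141)))) (XT.nd (nat_lit 156) (nat_lit 304) (nat_lit 0) (XT.nd (nat_lit 78) (nat_lit 76) (nat_lit 0) (XT.lf (nat_lit 0) (nat_lit 9789997446) (nat_lit 152) (nat_lit 83636009009) (nat_lit 228) (nat_lit 10494793533) (nat_lit 43) (nat_lit 5) (nat_lit 45) (nat_lit 5) (nat_lit 46) (nat_lit 5) (nat_lit 345) (nat_lit 295) (nat_lit 140)) (XT.lf (nat_lit 0) (nat_lit 19723251210) (nat_lit 228) (nat_lit 23146643068) (nat_lit 76) (nat_lit 64918729582) (nat_lit 42) (nat_lit 5) (nat_lit 45) (nat_lit 5) (nat_lit 43) (nat_lit 5) (nat_lit 346) (nat_lit 295) (nat_lit 139))) (XT.nd (nat_lit 78) (nat_lit 152) (nat_lit 0) (XT.lf (nat_lit 0) (nat_lit 51743134187) (nat_lit 228) (nat_lit 59539340699) (nat_lit 76) (nat_lit 549008089) (nat_lit 40) (nat_lit 5) (nat_lit 43) (nat_lit 5) (nat_lit 41) (nat_lit 5) (nat_lit 347) (nat_lit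 295) (nat_lit 138)) (XT.lf (nat_lit 0) (nat_lit 15786653234) (nat_lit 152) (nat_lit 70400359369) (nat_lit 228) (nat_lit 29864783211) (nat_lit 38) (nat_lit 5) (nat_lit 40) (nat_lit 5) (nat_lit 41) (nat_lit 5) (nat_lit 348) (nat_lit 295) (nat_lit 137))))) (XT.nd (nat_lit 234) (nat_lit 304) (nat_lit 0) (XT.nd (nat_lit 78) (nat_lit 304) (nat_lit 0) (XT.lf (nat_lit 0) (nat_lit 2450409958) (nat_lit 228) (nat_lit 24369148252) (nat_lit 76) (nat_lit 93644519405) (nat_lit 37) (nat_lit 5) (nat_lit 40) (nat_lit 5) (nat_lit 38) (nat_lit 5) (nat_lit 349) (nat_lit 295) (nat_lit 136)) (XT.nd (nat_lit 78) (nat_lit 152) (nat_lit 0) (XT.lf (nat_lit 0) (nat_lit 36497275356) (nat_lit 228) (nat_lit 69150372309) (nat_lit 76) (nat_lit 19418448962) (nat_lit 35) (nat_lit 5) (nat_lit 38) (nat_lit 5) (nat_lit 36) (nat_lit 5) (nat_lit 350) (nat_lit 295) (nat_lit 135)) (XT.lf (nat_lit 0) (nat_lit 10767024387) (nat_lit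 152) (nat_lit 62105108152) (nat_lit 228) (nat_lit 57007315271) (nat_lit 33) (nat_lit 5) (nat_lit 35) (nat_lit 5) (nat_lit 36) (nat_lit 5) (nat_lit 351) (nat_lit 295) (nat_lit 134)))) (XT.nd (nat_lit 156) (nat_lit 152) (nat_lit 0) (XT.nd (nat_lit 78) (nat_lit 152) (nat_lit 0) (XT.lf (nat_lit 0) (nat_lit 96122132479) (nat_lit 152) (nat_lit 15653611774) (nat_lit 228) (nat_lit 23136422594) (nat_lit 33) (nat_lit 5) (nat_lit 35) (nat_lit 5) (nat_lit 36) (nat_lit 5) (nat_lit 352) (nat_lit 295) (nat_lit 133)) (XT.lf (nat_lit 0) (nat_lit 12953044201) (nat_lit 152) (nat_lit 94173592135) (nat_lit 76) (nat_lit 33043275781) (nat_lit 31) (nat_lit 5) (nat_lit 33) (nat_lit 5) (nat_lit 32) (nat_lit 5) (nat_lit 353) (nat_lit 295) (nat_lit 132))) (XT.nd (nat_lit 78) (nat_lit 152) (nat_lit 0) (XT.lf (nat_lit 0) (nat_lit 50932475706) (nat_lit 152) (nat_lit 10244478726) (nat_lit 76) (nat_lit 84489798937) (nat_lit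 31) (nat_lit 5) (nat_lit 33) (nat_lit 5) (nat_lit 32) (nat_lit 5) (nat_lit 354) (nat_lit 295) (nat_lit 131)) (XT.lf (nat_lit 0) (nat_lit 79428131416) (nat_lit 152) (nat_lit 12144622612) (nat_lit 228) (nat_lit 59842826940) (nat_lit 29) (nat_lit 5) (nat_lit 31) (nat_lit 5) (nat_lit 32) (nat_lit 5) (nat_lit 355) (nat_lit 295) (nat_lit 130)))))) (XT.nd (nat_lit 36348) (nat_lit 0) (nat_lit 12692) (XT.nd (nat_lit 36036) (nat_lit 0) (nat_lit 13528) (XT.nd (nat_lit 78) (nat_lit 76) (nat_lit 0) (XT.lf (nat_lit 0) (nat_lit 16285515139) (nat_lit 76) (nat_lit 118599135832) (nat_lit 152) (nat_lit 22548011351) (nat_lit 28) (nat_lit 5) (nat_lit 29) (nat_lit 5) (nat_lit 30) (nat_lit 4) (nat_lit 356) (nat_lit 295) (nat_lit 129)) (XT.nd (nat_lit 35880) (nat_lit 0) (nat_lit 13528) (XT.lf (nat_lit 0) (nat_lit 17156793359) (nat_lit 152) (nat_lit 53544299935) (nat_lit 76) (nat_lit 93018632531) (nat_lit 27) (nat_lit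 5) (nat_lit 29) (nat_lit 5) (nat_lit 28) (nat_lit 5) (nat_lit 357) (nat_lit 295) (nat_lit 128)) (XT.lf (nat_lit 0) (nat_lit 3512490331) (nat_lit 0) (nat_lit 3512490331) (nat_lit 1140) (nat_lit 4844979690) (nat_lit 205) (nat_lit 5) (nat_lit 205) (nat_lit 3) (nat_lit 220) (nat_lit 3) (nat_lit 296) (nat_lit 296) (nat_lit 188)))) (XT.nd (nat_lit 156) (nat_lit 0) (nat_lit 76) (XT.nd (nat_lit 78) (nat_lit 0) (nat_lit 76) (XT.lf (nat_lit 76) (nat_lit 1357778705) (nat_lit 0) (nat_lit 13348163254) (nat_lit 1216) (nat_lit 9618144262) (nat_lit 206) (nat_lit 5) (nat_lit 205) (nat_lit 5) (nat_lit 221) (nat_lit 5) (nat_lit 297) (nat_lit 296) (nat_lit 187)) (XT.lf (nat_lit 0) (nat_lit 15673066129) (nat_lit 1140) (nat_lit 4373756939) (nat_lit 1216) (nat_lit 4882298804) (nat_lit 206) (nat_lit 5) (nat_lit 221) (nat_lit 5) (nat_lit 222) (nat_lit 5) (nat_lit 298) (nat_lit 296) (nat_lit 186))) (XT.nd (nat_lit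 78) (nat_lit 0) (nat_lit 76) (XT.lf (nat_lit 76) (nat_lit 15305832107) (nat_lit 0) (nat_lit 1653383989) (nat_lit 1216) (nat_lit 8597084742) (nat_lit 207) (nat_lit 5) (nat_lit 206) (nat_lit 5) (nat_lit 222) (nat_lit 5) (nat_lit 299) (nat_lit 296) (nat_lit 185)) (XT.lf (nat_lit 76) (nat_lit 9862847152) (nat_lit 0) (nat_lit 8746187912) (nat_lit 1216) (nat_lit 7596833906) (nat_lit 208) (nat_lit 5) (nat_lit 207) (nat_lit 5) (nat_lit 223) (nat_lit 5) (nat_lit 300) (nat_lit 296) (nat_lit 184))))) (XT.nd (nat_lit 234) (nat_lit 1064) (nat_lit 0) (XT.nd (nat_lit 78) (nat_lit 0) (nat_lit 76) (XT.lf (nat_lit 76) (nat_lit 4268159111) (nat_lit 0) (nat_lit 16329071995) (nat_lit 1216) (nat_lit 6283018354) (nat_lit 209) (nat_lit 5) (nat_lit 208) (nat_lit 5) (nat_lit 224) (nat_lit 5) (nat_lit 301) (nat_lit 296) (nat_lit 183)) (XT.nd (nat_lit 78) (nat_lit 0) (nat_lit 0) (XT.lf (nat_lit 0) (nat_lit 22961706727)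 (nat_lit 1140) (nat_lit 1457272470) (nat_lit 1216) (nat_lit 3161073722) (nat_lit 209) (nat_lit 5) (nat_lit 224) (nat_lit 5) (nat_lit 225) (nat_lit 5) (nat_lit 302) (nat_lit 296) (nat_lit 182)) (XT.lf (nat_lit 76) (nat_lit 20993447379) (nat_lit 0) (nat_lit 4808297312) (nat_lit 1216) (nat_lit 2502391260) (nat_lit 210) (nat_lit 5) (nat_lit 209) (nat_lit 5) (nat_lit 225) (nat_lit 5) (nat_lit 303) (nat_lit 296) (nat_lit 181)))) (XT.nd (nat_lit 156) (nat_lit 0) (nat_lit 76) (XT.nd (nat_lit 78) (nat_lit 0) (nat_lit 76) (XT.lf (nat_lit 0) (nat_lit 36606896) (nat_lit 1216) (nat_lit 13375017968) (nat_lit 1292) (nat_lit 15643534961) (nat_lit 194) (nat_lit 5) (nat_lit 210) (nat_lit 5) (nat_lit 211) (nat_lit 5) (nat_lit 304) (nat_lit 296) (nat_lit 180)) (XT.lf (nat_lit 0) (nat_lit 2936729856) (nat_lit 1216) (nat_lit 19657015385) (nat_lit 1292) (nat_lit 7240676938) (nat_lit 195) (nat_lit 5) (nat_lit 211)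 (nat_lit 5) (nat_lit 212) (nat_lit 5) (nat_lit 305) (nat_lit 296) (nat_lit 179))) (XT.nd (nat_lit 78) (nat_lit 0) (nat_lit 76) (XT.lf (nat_lit 76) (nat_lit 4482316551) (nat_lit 0) (nat_lit 1808798192) (nat_lit 1292) (nat_lit 24352263250) (nat_lit 196) (nat_lit 5) (nat_lit 195) (nat_lit 5) (nat_lit 212) (nat_lit 5) (nat_lit 306) (nat_lit 296) (nat_lit 178)) (XT.lf (nat_lit 0) (nat_lit 10202069958) (nat_lit 1216) (nat_lit 1448640440) (nat_lit 76) (nat_lit 19830413301) (nat_lit 196) (nat_lit 5) (nat_lit 212) (nat_lit 5) (nat_lit 197) (nat_lit 5) (nat_lit 307) (nat_lit 296) (nat_lit 177))))))) (XT.nd (nat_lit 1092) (nat_lit 3724) (nat_lit 0) (XT.nd (nat_lit 546) (nat_lit 2584) (nat_lit 0) (XT.nd (nat_lit 234) (nat_lit 1672) (nat_lit 0) (XT.nd (nat_lit 78) (nat_lit 1140) (nat_lit 0) (XT.lf (nat_lit 0) (nat_lit 14659242631) (nat_lit 836) (nat_lit 7491586562) (nat_lit 76) (nat_lit 10199414677) (nat_lit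 186) (nat_lit 5) (nat_lit 197) (nat_lit 5) (nat_lit 187) (nat_lit 5) (nat_lit 308) (nat_lit 296) (nat_lit 176)) (XT.nd (nat_lit 78) (nat_lit 532) (nat_lit 0) (XT.lf (nat_lit 0) (nat_lit 19505472110) (nat_lit 608) (nat_lit 146731060) (nat_lit 684) (nat_lit 13601235926) (nat_lit 178) (nat_lit 5) (nat_lit 186) (nat_lit 5) (nat_lit 187) (nat_lit 5) (nat_lit 309) (nat_lit 296) (nat_lit 175)) (XT.lf (nat_lit 0) (nat_lit 13851647023) (nat_lit 532) (nat_lit 11467944298) (nat_lit 608) (nat_lit 8869465971) (nat_lit 171) (nat_lit 5) (nat_lit 178) (nat_lit 5) (nat_lit 179) (nat_lit 5) (nat_lit 310) (nat_lit 296) (nat_lit 174)))) (XT.nd (nat_lit 156) (nat_lit 532) (nat_lit 0) (XT.nd (nat_lit 78) (nat_lit 608) (nat_lit 0) (XT.lf (nat_lit 0) (nat_lit 7986524062) (nat_lit 532) (nat_lit 23609422881) (nat_lit 608) (nat_lit 3565747792) (nat_lit 164) (nat_lit 5) (nat_lit 171) (nat_lit 5) (nat_lit 172) (nat_lit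 5) (nat_lit 311) (nat_lit 296) (nat_lit 173)) (XT.lf (nat_lit 0) (nat_lit 1867713603) (nat_lit 532) (nat_lit 435004593) (nat_lit 608) (nat_lit 33869514474) (nat_lit 156) (nat_lit 5) (nat_lit 163) (nat_lit 5) (nat_lit 164) (nat_lit 5) (nat_lit 312) (nat_lit 296) (nat_lit 172))) (XT.nd (nat_lit 78) (nat_lit 532) (nat_lit 0) (XT.lf (nat_lit 0) (nat_lit 8897550237) (nat_lit 608) (nat_lit 4569384921) (nat_lit 76) (nat_lit 23750108104) (nat_lit 156) (nat_lit 5) (nat_lit 164) (nat_lit 5) (nat_lit 157) (nat_lit 5) (nat_lit 313) (nat_lit 296) (nat_lit 171)) (XT.lf (nat_lit 0) (nat_lit 16188376759) (nat_lit 608) (nat_lit 11240881634) (nat_lit 76) (nat_lit 10873853671) (nat_lit 149) (nat_lit 5) (nat_lit 157) (nat_lit 5) (nat_lit 150) (nat_lit 5) (nat_lit 314) (nat_lit 296) (nat_lit 170))))) (XT.nd (nat_lit 234) (nat_lit 1216) (nat_lit 0) (XT.nd (nat_lit 78) (nat_lit 912) (nat_lit 0) (XT.lf (nat_lit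 0) (nat_lit 21199838162) (nat_lit 456) (nat_lit 3025402425) (nat_lit 532) (nat_lit 15206803858) (nat_lit 143) (nat_lit 5) (nat_lit 149) (nat_lit 5) (nat_lit 150) (nat_lit 5) (nat_lit 315) (nat_lit 296) (nat_lit 169)) (XT.nd (nat_lit 78) (nat_lit 456) (nat_lit 0) (XT.lf (nat_lit 0) (nat_lit 14950626252) (nat_lit 456) (nat_lit 18185617843) (nat_lit 532) (nat_lit 7467015231) (nat_lit 137) (nat_lit 5) (nat_lit 143) (nat_lit 5) (nat_lit 144) (nat_lit 5) (nat_lit 316) (nat_lit 296) (nat_lit 168)) (XT.lf (nat_lit 0) (nat_lit 1015308359) (nat_lit 456) (nat_lit 33429827239) (nat_lit 76) (nat_lit 7376660913) (nat_lit 131) (nat_lit 5) (nat_lit 137) (nat_lit 5) (nat_lit 132) (nat_lit 5) (nat_lit 317) (nat_lit 296) (nat_lit 167)))) (XT.nd (nat_lit 156) (nat_lit 760) (nat_lit 0) (XT.nd (nat_lit 78) (nat_lit 0) (nat_lit 0) (XT.lf (nat_lit 0) (nat_lit 1339958590) (nat_lit 456) (nat_lit 8886739037) (nat_lit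 532) (nat_lit 32858567847) (nat_lit 125) (nat_lit 5) (nat_lit 131) (nat_lit 5) (nat_lit 132) (nat_lit 5) (nat_lit 318) (nat_lit 296) (nat_lit 166)) (XT.lf (nat_lit 0) (nat_lit 20413740497) (nat_lit 532) (nat_lit 6036865181) (nat_lit 76) (nat_lit 17945853689) (nat_lit 125) (nat_lit 5) (nat_lit 132) (nat_lit 5) (nat_lit 126) (nat_lit 5) (nat_lit 319) (nat_lit 296) (nat_lit 165))) (XT.nd (nat_lit 78) (nat_lit 380) (nat_lit 0) (XT.lf (nat_lit 0) (nat_lit 31507182059) (nat_lit 456) (nat_lit 13780488871) (nat_lit 76) (nat_lit 473634444) (nat_lit 120) (nat_lit 5) (nat_lit 126) (nat_lit 5) (nat_lit 121) (nat_lit 5) (nat_lit 320) (nat_lit 296) (nat_lit 164)) (XT.lf (nat_lit 0) (nat_lit 25048381861) (nat_lit 380) (nat_lit 18672829261) (nat_lit 456) (nat_lit 3456208730) (nat_lit 115) (nat_lit 5) (nat_lit 120) (nat_lit 5) (nat_lit 121) (nat_lit 5) (nat_lit 321) (nat_lit 296) (nat_lit 163)))))) (XT.nd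 (nat_lit 546) (nat_lit 1596) (nat_lit 0) (XT.nd (nat_lit 234) (nat_lit 988) (nat_lit 0) (XT.nd (nat_lit 78) (nat_lit 684) (nat_lit 0) (XT.lf (nat_lit 0) (nat_lit 8129795431) (nat_lit 456) (nat_lit 31036536001) (nat_lit 76) (nat_lit 9483679332) (nat_lit 109) (nat_lit 5) (nat_lit 115) (nat_lit 5) (nat_lit 110) (nat_lit 5) (nat_lit 322) (nat_lit 296) (nat_lit 162)) (XT.nd (nat_lit 78) (nat_lit 304) (nat_lit 0) (XT.lf (nat_lit 0) (nat_lit 9571613273) (nat_lit 380) (nat_lit 11158871243) (nat_lit 456) (nat_lit 29449517376) (nat_lit 104) (nat_lit 5) (nat_lit 109) (nat_lit 5) (nat_lit 110) (nat_lit 5) (nat_lit 323) (nat_lit 296) (nat_lit 161)) (XT.lf (nat_lit 0) (nat_lit 915461205) (nat_lit 304) (nat_lit 33548432047) (nat_lit 380) (nat_lit 17307521817) (nat_lit 100) (nat_lit 5) (nat_lit 104) (nat_lit 5) (nat_lit 105) (nat_lit 5) (nat_lit 324) (nat_lit 296) (nat_lit 160)))) (XT.nd (nat_lit 156) (nat_lit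 608) (nat_lit 0) (XT.nd (nat_lit 78) (nat_lit 380) (nat_lit 0) (XT.lf (nat_lit 0) (nat_lit 45243736924) (nat_lit 304) (nat_lit 4165742822) (nat_lit 380) (nat_lit 4017156841) (nat_lit 100) (nat_lit 5) (nat_lit 104) (nat_lit 5) (nat_lit 105) (nat_lit 5) (nat_lit 325) (nat_lit 296) (nat_lit 159)) (XT.lf (nat_lit 0) (nat_lit 10358980819) (nat_lit 380) (nat_lit 18162283119) (nat_lit 76) (nat_lit 26622036845) (nat_lit 95) (nat_lit 5) (nat_lit 100) (nat_lit 5) (nat_lit 96) (nat_lit 5) (nat_lit 326) (nat_lit 296) (nat_lit 158))) (XT.nd (nat_lit 78) (nat_lit 304) (nat_lit 0) (XT.lf (nat_lit 0) (nat_lit 25787335061) (nat_lit 380) (nat_lit 28864820412) (nat_lit 76) (nat_lit 2279957337) (nat_lit 91) (nat_lit 5) (nat_lit 96) (nat_lit 5) (nat_lit 92) (nat_lit 5) (nat_lit 327) (nat_lit 296) (nat_lit 157)) (XT.lf (nat_lit 0) (nat_lit 18244208788) (nat_lit 304) (nat_lit 24391305845) (nat_lit 380) (nat_lit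 16155401011) (nat_lit 87) (nat_lit 5) (nat_lit 91) (nat_lit 5) (nat_lit 92) (nat_lit 5) (nat_lit 328) (nat_lit 296) (nat_lit 156))))) (XT.nd (nat_lit 312) (nat_lit 760) (nat_lit 0) (XT.nd (nat_lit 156) (nat_lit 532) (nat_lit 0) (XT.nd (nat_lit 78) (nat_lit 0) (nat_lit 0) (XT.lf (nat_lit 0) (nat_lit 36959456) (nat_lit 304) (nat_lit 53081470411) (nat_lit 76) (nat_lit 7610989538) (nat_lit 83) (nat_lit 5) (nat_lit 87) (nat_lit 5) (nat_lit 84) (nat_lit 5) (nat_lit 329) (nat_lit 296) (nat_lit 155)) (XT.lf (nat_lit 0) (nat_lit 17372178527) (nat_lit 304) (nat_lit 4071136719) (nat_lit 76) (nat_lit 41296715845) (nat_lit 83) (nat_lit 5) (nat_lit 87) (nat_lit 5) (nat_lit 84) (nat_lit 5) (nat_lit 330) (nat_lit 296) (nat_lit 154))) (XT.nd (nat_lit 78) (nat_lit 228) (nat_lit 0) (XT.lf (nat_lit 0) (nat_lit 36153584696) (nat_lit 380) (nat_lit 16627567681) (nat_lit 76) (nat_lit 12052640243) (nat_lit 79) (nat_lit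 5) (nat_lit 84) (nat_lit 5) (nat_lit 80) (nat_lit 5) (nat_lit 331) (nat_lit 296) (nat_lit 153)) (XT.lf (nat_lit 0) (nat_lit 36644995743) (nat_lit 228) (nat_lit 19836878408) (nat_lit 304) (nat_lit 10532135630) (nat_lit 76) (nat_lit 5) (nat_lit 79) (nat_lit 5) (nat_lit 80) (nat_lit 5) (nat_lit 332) (nat_lit 296) (nat_lit 152)))) (XT.nd (nat_lit 156) (nat_lit 228) (nat_lit 0) (XT.nd (nat_lit 78) (nat_lit 228) (nat_lit 0) (XT.lf (nat_lit 0) (nat_lit 8904187015) (nat_lit 304) (nat_lit 45424630563) (nat_lit 76) (nat_lit 14955549038) (nat_lit 72) (nat_lit 5) (nat_lit 76) (nat_lit 5) (nat_lit 73) (nat_lit 5) (nat_lit 333) (nat_lit 296) (nat_lit 151)) (XT.lf (nat_lit 0) (nat_lit 9649721250) (nat_lit 228) (nat_lit 20052471231) (nat_lit 304) (nat_lit 41944691546) (nat_lit 69) (nat_lit 5) (nat_lit 72) (nat_lit 5) (nat_lit 73) (nat_lit 5) (nat_lit 334) (nat_lit 296) (nat_lit 150))) (XT.nd (nat_lit 78)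 (nat_lit 228) (nat_lit 0) (XT.lf (nat_lit 0) (nat_lit 52162590798) (nat_lit 304) (nat_lit 5848887644) (nat_lit 76) (nat_lit 16097375719) (nat_lit 69) (nat_lit 5) (nat_lit 73) (nat_lit 5) (nat_lit 70) (nat_lit 5) (nat_lit 335) (nat_lit 296) (nat_lit 149)) (XT.lf (nat_lit 0) (nat_lit 53952851985) (nat_lit 228) (nat_lit 22511373097) (nat_lit 304) (nat_lit 208152792) (nat_lit 66) (nat_lit 5) (nat_lit 69) (nat_lit 5) (nat_lit 70) (nat_lit 5) (nat_lit 336) (nat_lit 296) (nat_lit 148))))))))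
noncomputable def xc104 : XT := (XT.nd (nat_lit 38142) (nat_lit 0) (nat_lit 3800) (XT.nd (nat_lit 1092) (nat_lit 608) (nat_lit 0) (XT.nd (nat_lit 546) (nat_lit 988) (nat_lit 0) (XT.nd (nat_lit 234) (nat_lit 532) (nat_lit 0) (XT.nd (nat_lit 78) (nat_lit 380) (nat_lit 0) (XT.lf (nat_lit 0) (nat_lit 22747380047) (nat_lit 304) (nat_lit 41468806525) (nat_lit 76) (nat_lit 15124214826) (nat_lit 62) (nat_lit 5) (nat_lit 66) (nat_lit 5) (nat_lit 63) (nat_lit 5) (nat_lit 337) (nat_lit 296) (nat_lit 147)) (XT.nd (nat_lit 78) (nat_lit 152) (nat_lit 0) (XT.lf (nat_lit 0) (nat_lit 19986366853) (nat_lit 228) (nat_lit 27512918836) (nat_lit 304) (nat_lit 34622892918) (nat_lit 59) (nat_lit 5) (nat_lit 62) (nat_lit 5) (nat_lit 63) (nat_lit 5) (nat_lit 338) (nat_lit 296) (nat_lit 146)) (XT.lf (nat_lit 0) (nat_lit 240942738) (nat_lit 152) (nat_lit 73784661833) (nat_lit 228) (nat_lit 11001336869) (nat_lit 57)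 (nat_lit 5) (nat_lit 59) (nat_lit 5) (nat_lit 60) (nat_lit 5) (nat_lit 339) (nat_lit 296) (nat_lit 145)))) (XT.nd (nat_lit 156) (nat_lit 228) (nat_lit 0) (XT.nd (nat_lit 78) (nat_lit 228) (nat_lit 0) (XT.lf (nat_lit 0) (nat_lit 14453109792) (nat_lit 228) (nat_lit 21443573731) (nat_lit 76) (nat_lit 52148646327) (nat_lit 56) (nat_lit 5) (nat_lit 59) (nat_lit 5) (nat_lit 57) (nat_lit 5) (nat_lit 340) (nat_lit 296) (nat_lit 144)) (XT.lf (nat_lit 0) (nat_lit 41435951029) (nat_lit 304) (nat_lit 45395333363) (nat_lit 76) (nat_lit 4365590807) (nat_lit 53) (nat_lit 5) (nat_lit 57) (nat_lit 5) (nat_lit 54) (nat_lit 5) (nat_lit 341) (nat_lit 296) (nat_lit 143))) (XT.nd (nat_lit 78) (nat_lit 76) (nat_lit 0) (XT.lf (nat_lit 0) (nat_lit 22426910064) (nat_lit 152) (nat_lit 48139497443) (nat_lit 228) (nat_lit 23915637206) (nat_lit 51) (nat_lit 5) (nat_lit 53) (nat_lit 5) (nat_lit 54) (nat_lit 5) (nat_lit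 342) (nat_lit 296) (nat_lit 142)) (XT.lf (nat_lit 0) (nat_lit 3628676753) (nat_lit 228) (nat_lit 3367958172) (nat_lit 76) (nat_lit 90919820644) (nat_lit 50) (nat_lit 5) (nat_lit 53) (nat_lit 5) (nat_lit 51) (nat_lit 5) (nat_lit 343) (nat_lit 296) (nat_lit 141))))) (XT.nd (nat_lit 234) (nat_lit 456) (nat_lit 0) (XT.nd (nat_lit 78) (nat_lit 304) (nat_lit 0) (XT.lf (nat_lit 0) (nat_lit 33086691538) (nat_lit 304) (nat_lit 31980272318) (nat_lit 76) (nat_lit 36417587505) (nat_lit 47) (nat_lit 5) (nat_lit 51) (nat_lit 5) (nat_lit 48) (nat_lit 5) (nat_lit 344) (nat_lit 296) (nat_lit 140)) (XT.nd (nat_lit 78) (nat_lit 152) (nat_lit 0) (XT.lf (nat_lit 0) (nat_lit 41597687765) (nat_lit 152) (nat_lit 22923282378) (nat_lit 228) (nat_lit 40694981821) (nat_lit 45) (nat_lit 5) (nat_lit 47) (nat_lit 5) (nat_lit 48) (nat_lit 5) (nat_lit 345) (nat_lit 296) (nat_lit 139)) (XT.lf (nat_lit 0) (nat_lit 10389746573)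 (nat_lit 152) (nat_lit 87772493872) (nat_lit 228) (nat_lit 10952624693) (nat_lit 43) (nat_lit 5) (nat_lit 45) (nat_lit 5) (nat_lit 46) (nat_lit 5) (nat_lit 346) (nat_lit 296) (nat_lit 138)))) (XT.nd (nat_lit 156) (nat_lit 228) (nat_lit 0) (XT.nd (nat_lit 78) (nat_lit 152) (nat_lit 0) (XT.lf (nat_lit 0) (nat_lit 20771892713) (nat_lit 228) (nat_lit 24197707661) (nat_lit 76) (nat_lit 68206555494) (nat_lit 42) (nat_lit 5) (nat_lit 45) (nat_lit 5) (nat_lit 43) (nat_lit 5) (nat_lit 347) (nat_lit 296) (nat_lit 137)) (XT.lf (nat_lit 0) (nat_lit 54391197582) (nat_lit 228) (nat_lit 62411658501) (nat_lit 76) (nat_lit 618350205) (nat_lit 40) (nat_lit 5) (nat_lit 43) (nat_lit 5) (nat_lit 41) (nat_lit 5) (nat_lit 348) (nat_lit 296) (nat_lit 136))) (XT.nd (nat_lit 78) (nat_lit 76) (nat_lit 0) (XT.lf (nat_lit 0) (nat_lit 16677635379) (nat_lit 152) (nat_lit 73877711338) (nat_lit 228) (nat_lit 31297246874)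 (nat_lit 38) (nat_lit 5) (nat_lit 40) (nat_lit 5) (nat_lit 41) (nat_lit 5) (nat_lit 349) (nat_lit 296) (nat_lit 135)) (XT.lf (nat_lit 0) (nat_lit 2629682408) (nat_lit 228) (nat_lit 25489646345) (nat_lit 76) (nat_lit 98366229372) (nat_lit 37) (nat_lit 5) (nat_lit 40) (nat_lit 5) (nat_lit 38) (nat_lit 5) (nat_lit 350) (nat_lit 296) (nat_lit 134)))))) (XT.nd (nat_lit 36504) (nat_lit 0) (nat_lit 13376) (XT.nd (nat_lit 234) (nat_lit 304) (nat_lit 0) (XT.nd (nat_lit 78) (nat_lit 152) (nat_lit 0) (XT.lf (nat_lit 0) (nat_lit 38377489558) (nat_lit 228) (nat_lit 72511457148) (nat_lit 76) (nat_lit 20428774418) (nat_lit 35) (nat_lit 5) (nat_lit 38) (nat_lit 5) (nat_lit 36) (nat_lit 5) (nat_lit 351) (nat_lit 296) (nat_lit 133)) (XT.nd (nat_lit 78) (nat_lit 0) (nat_lit 0) (XT.lf (nat_lit 0) (nat_lit 11399045128) (nat_lit 152) (nat_lit 65170309146) (nat_lit 228) (nat_lit 59802438595) (nat_lit 33) (nat_lit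 5) (nat_lit 35) (nat_lit 5) (nat_lit 36) (nat_lit 5) (nat_lit 352) (nat_lit 296) (nat_lit 132)) (XT.lf (nat_lit 0) (nat_lit 101017448171) (nat_lit 152) (nat_lit 16398145302) (nat_lit 228) (nat_lit 24240631877) (nat_lit 33) (nat_lit 5) (nat_lit 35) (nat_lit 5) (nat_lit 36) (nat_lit 5) (nat_lit 353) (nat_lit 296) (nat_lit 131)))) (XT.nd (nat_lit 156) (nat_lit 152) (nat_lit 0) (XT.nd (nat_lit 78) (nat_lit 0) (nat_lit 0) (XT.lf (nat_lit 0) (nat_lit 13651030216) (nat_lit 152) (nat_lit 98793452236) (nat_lit 76) (nat_lit 34732398631) (nat_lit 31) (nat_lit 5) (nat_lit 33) (nat_lit 5) (nat_lit 32) (nat_lit 5) (nat_lit 354) (nat_lit 296) (nat_lit 130)) (XT.lf (nat_lit 0) (nat_lit 53527036450) (nat_lit 152) (nat_lit 10672112658) (nat_lit 76) (nat_lit 88749487990) (nat_lit 31) (nat_lit 5) (nat_lit 33) (nat_lit 5) (nat_lit 32) (nat_lit 5) (nat_lit 355) (nat_lit 296) (nat_lit 129))) (XT.nd (nat_lit 36036)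 (nat_lit 0) (nat_lit 13376) (XT.lf (nat_lit 0) (nat_lit 83481703237) (nat_lit 152) (nat_lit 12716132562) (nat_lit 228) (nat_lit 62787115818) (nat_lit 29) (nat_lit 5) (nat_lit 31) (nat_lit 5) (nat_lit 32) (nat_lit 5) (nat_lit 356) (nat_lit 296) (nat_lit 128)) (XT.lf (nat_lit 0) (nat_lit 3778777239) (nat_lit 0) (nat_lit 3778777239) (nat_lit 1140) (nat_lit 4900276568) (nat_lit 205) (nat_lit 5) (nat_lit 205) (nat_lit 3) (nat_lit 220) (nat_lit 3) (nat_lit 297) (nat_lit 297) (nat_lit 186))))) (XT.nd (nat_lit 234) (nat_lit 0) (nat_lit 152) (XT.nd (nat_lit 78) (nat_lit 0) (nat_lit 76) (XT.lf (nat_lit 76) (nat_lit 1614419861) (nat_lit 0) (nat_lit 14172354130) (nat_lit 1216) (nat_lit 9742793196) (nat_lit 206) (nat_lit 5) (nat_lit 205) (nat_lit 5) (nat_lit 221) (nat_lit 5) (nat_lit 298) (nat_lit 297) (nat_lit 185)) (XT.nd (nat_lit 78) (nat_lit 0) (nat_lit 0) (XT.lf (nat_lit 0) (nat_lit 16784365000)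 (nat_lit 1140) (nat_lit 4401032733) (nat_lit 1216) (nat_lit 4980010584) (nat_lit 206) (nat_lit 5) (nat_lit 221) (nat_lit 5) (nat_lit 222) (nat_lit 5) (nat_lit 299) (nat_lit 297) (nat_lit 184)) (XT.lf (nat_lit 76) (nat_lit 16257048978) (nat_lit 0) (nat_lit 1863958545) (nat_lit 1216) (nat_lit 8703369359) (nat_lit 207) (nat_lit 5) (nat_lit 206) (nat_lit 5) (nat_lit 222) (nat_lit 5) (nat_lit 300) (nat_lit 297) (nat_lit 183)))) (XT.nd (nat_lit 156) (nat_lit 0) (nat_lit 152) (XT.nd (nat_lit 78) (nat_lit 0) (nat_lit 76) (XT.lf (nat_lit 76) (nat_lit 10547239356) (nat_lit 0) (nat_lit 9291801222) (nat_lit 1216) (nat_lit 7667826581) (nat_lit 208) (nat_lit 5) (nat_lit 207) (nat_lit 5) (nat_lit 223) (nat_lit 5) (nat_lit 301) (nat_lit 297) (nat_lit 182)) (XT.lf (nat_lit 76) (nat_lit 4677374828) (nat_lit 0) (nat_lit 17235897847) (nat_lit 1216) (nat_lit 6302109911) (nat_lit 209) (nat_lit 5) (nat_lit 208)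 (nat_lit 5) (nat_lit 224) (nat_lit 5) (nat_lit 302) (nat_lit 297) (nat_lit 181))) (XT.nd (nat_lit 78) (nat_lit 0) (nat_lit 0) (XT.lf (nat_lit 0) (nat_lit 24381517110) (nat_lit 1140) (nat_lit 1334368643) (nat_lit 1216) (nat_lit 3234738109) (nat_lit 209) (nat_lit 5) (nat_lit 224) (nat_lit 5) (nat_lit 225) (nat_lit 5) (nat_lit 303) (nat_lit 297) (nat_lit 180)) (XT.lf (nat_lit 76) (nat_lit 22233275563) (nat_lit 0) (nat_lit 5119170015) (nat_lit 1216) (nat_lit 2358812141) (nat_lit 210) (nat_lit 5) (nat_lit 209) (nat_lit 5) (nat_lit 225) (nat_lit 5) (nat_lit 304) (nat_lit 297) (nat_lit 179))))))) (XT.nd (nat_lit 1092) (nat_lit 3952) (nat_lit 0) (XT.nd (nat_lit 546) (nat_lit 3040) (nat_lit 0) (XT.nd (nat_lit 234) (nat_lit 1748) (nat_lit 0) (XT.nd (nat_lit 78) (nat_lit 0) (nat_lit 76) (XT.lf (nat_lit 0) (nat_lit 290571431) (nat_lit 1216) (nat_lit 13845288193) (nat_lit 1292) (nat_lit 16364247639) (nat_lit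 194) (nat_lit 5) (nat_lit 210) (nat_lit 5) (nat_lit 211) (nat_lit 5) (nat_lit 305) (nat_lit 297) (nat_lit 178)) (XT.nd (nat_lit 78) (nat_lit 0) (nat_lit 0) (XT.lf (nat_lit 0) (nat_lit 3325074534) (nat_lit 1216) (nat_lit 20439107828) (nat_lit 1292) (nat_lit 7554480891) (nat_lit 195) (nat_lit 5) (nat_lit 211) (nat_lit 5) (nat_lit 212) (nat_lit 5) (nat_lit 306) (nat_lit 297) (nat_lit 177)) (XT.lf (nat_lit 76) (nat_lit 4901436007) (nat_lit 0) (nat_lit 1936116763) (nat_lit 1292) (nat_lit 25330814046) (nat_lit 196) (nat_lit 5) (nat_lit 195) (nat_lit 5) (nat_lit 212) (nat_lit 5) (nat_lit 307) (nat_lit 297) (nat_lit 176)))) (XT.nd (nat_lit 156) (nat_lit 1140) (nat_lit 0) (XT.nd (nat_lit 78) (nat_lit 760) (nat_lit 0) (XT.lf (nat_lit 0) (nat_lit 10932676113) (nat_lit 1216) (nat_lit 1328178933) (nat_lit 76) (nat_lit 20787496799) (nat_lit 196) (nat_lit 5) (nat_lit 212) (nat_lit 5) (nat_lit 197) (nat_lit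 5) (nat_lit 308) (nat_lit 297) (nat_lit 175)) (XT.lf (nat_lit 0) (nat_lit 15603773427) (nat_lit 836) (nat_lit 7672009764) (nat_lit 76) (nat_lit 10685422994) (nat_lit 186) (nat_lit 5) (nat_lit 197) (nat_lit 5) (nat_lit 187) (nat_lit 5) (nat_lit 309) (nat_lit 297) (nat_lit 174))) (XT.nd (nat_lit 78) (nat_lit 532) (nat_lit 0) (XT.lf (nat_lit 0) (nat_lit 20669336396) (nat_lit 608) (nat_lit 168783748) (nat_lit 684) (nat_lit 14071698542) (nat_lit 178) (nat_lit 5) (nat_lit 186) (nat_lit 5) (nat_lit 187) (nat_lit 5) (nat_lit 310) (nat_lit 297) (nat_lit 173)) (XT.lf (nat_lit 0) (nat_lit 14733663543) (nat_lit 532) (nat_lit 12047219116) (nat_lit 608) (nat_lit 9111584182) (nat_lit 171) (nat_lit 5) (nat_lit 178) (nat_lit 5) (nat_lit 179) (nat_lit 5) (nat_lit 311) (nat_lit 297) (nat_lit 172))))) (XT.nd (nat_lit 234) (nat_lit 1900) (nat_lit 0) (XT.nd (nat_lit 78) (nat_lit 608) (nat_lit 0) (XT.lf (nat_lit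 0) (nat_lit 8575779306) (nat_lit 532) (nat_lit 24787748101) (nat_lit 608) (nat_lit 3550443369) (nat_lit 164) (nat_lit 5) (nat_lit 171) (nat_lit 5) (nat_lit 172) (nat_lit 5) (nat_lit 312) (nat_lit 297) (nat_lit 171)) (XT.nd (nat_lit 78) (nat_lit 0) (nat_lit 0) (XT.lf (nat_lit 0) (nat_lit 2149418657) (nat_lit 532) (nat_lit 451021060) (nat_lit 608) (nat_lit 35374765018) (nat_lit 156) (nat_lit 5) (nat_lit 163) (nat_lit 5) (nat_lit 164) (nat_lit 5) (nat_lit 313) (nat_lit 297) (nat_lit 170)) (XT.lf (nat_lit 0) (nat_lit 9516371299) (nat_lit 608) (nat_lit 4613183857) (nat_lit 76) (nat_lit 24942967677) (nat_lit 156) (nat_lit 5) (nat_lit 164) (nat_lit 5) (nat_lit 157) (nat_lit 5) (nat_lit 314) (nat_lit 297) (nat_lit 169)))) (XT.nd (nat_lit 156) (nat_lit 912) (nat_lit 0) (XT.nd (nat_lit 78) (nat_lit 456) (nat_lit 0) (XT.lf (nat_lit 0) (nat_lit 17165295675) (nat_lit 608) (nat_lit 11618495735) (nat_lit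 76) (nat_lit 11429304317) (nat_lit 149) (nat_lit 5) (nat_lit 157) (nat_lit 5) (nat_lit 150) (nat_lit 5) (nat_lit 315) (nat_lit 297) (nat_lit 168)) (XT.lf (nat_lit 0) (nat_lit 22438973402) (nat_lit 456) (nat_lit 3158775132) (nat_lit 532) (nat_lit 15800920813) (nat_lit 143) (nat_lit 5) (nat_lit 149) (nat_lit 5) (nat_lit 150) (nat_lit 5) (nat_lit 316) (nat_lit 297) (nat_lit 167))) (XT.nd (nat_lit 78) (nat_lit 456) (nat_lit 0) (XT.lf (nat_lit 0) (nat_lit 15876833325) (nat_lit 456) (nat_lit 19071671905) (nat_lit 532) (nat_lit 7680120316) (nat_lit 137) (nat_lit 5) (nat_lit 143) (nat_lit 5) (nat_lit 144) (nat_lit 5) (nat_lit 317) (nat_lit 297) (nat_lit 166)) (XT.lf (nat_lit 0) (nat_lit 1217653335) (nat_lit 456) (nat_lit 34920182204) (nat_lit 76) (nat_lit 7770380178) (nat_lit 131) (nat_lit 5) (nat_lit 137) (nat_lit 5) (nat_lit 132) (nat_lit 5) (nat_lit 318) (nat_lit 297) (nat_lit 165)))))) (XT.nd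 (nat_lit 546) (nat_lit 1596) (nat_lit 0) (XT.nd (nat_lit 234) (nat_lit 1520) (nat_lit 0) (XT.nd (nat_lit 78) (nat_lit 380) (nat_lit 0) (XT.lf (nat_lit 0) (nat_lit 1582900679) (nat_lit 456) (nat_lit 9301184596) (nat_lit 532) (nat_lit 34350944524) (nat_lit 125) (nat_lit 5) (nat_lit 131) (nat_lit 5) (nat_lit 132) (nat_lit 5) (nat_lit 319) (nat_lit 297) (nat_lit 164)) (XT.nd (nat_lit 78) (nat_lit 380) (nat_lit 0) (XT.lf (nat_lit 0) (nat_lit 21573799047) (nat_lit 532) (nat_lit 6167131513) (nat_lit 76) (nat_lit 18871058853) (nat_lit 125) (nat_lit 5) (nat_lit 132) (nat_lit 5) (nat_lit 126) (nat_lit 5) (nat_lit 320) (nat_lit 297) (nat_lit 163)) (XT.lf (nat_lit 0) (nat_lit 33217188670) (nat_lit 456) (nat_lit 14299028745) (nat_lit 76) (nat_lit 529007347) (nat_lit 120) (nat_lit 5) (nat_lit 126) (nat_lit 5) (nat_lit 121) (nat_lit 5) (nat_lit 321) (nat_lit 297) (nat_lit 162)))) (XT.nd (nat_lit 156) (nat_lit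 684) (nat_lit 0) (XT.nd (nat_lit 78) (nat_lit 456) (nat_lit 0) (XT.lf (nat_lit 0) (nat_lit 26466398618) (nat_lit 380) (nat_lit 19570700609) (nat_lit 456) (nat_lit 3495195407) (nat_lit 115) (nat_lit 5) (nat_lit 120) (nat_lit 5) (nat_lit 121) (nat_lit 5) (nat_lit 322) (nat_lit 297) (nat_lit 161)) (XT.lf (nat_lit 0) (nat_lit 8663176029) (nat_lit 456) (nat_lit 32421345167) (nat_lit 76) (nat_lit 9994089635) (nat_lit 109) (nat_lit 5) (nat_lit 115) (nat_lit 5) (nat_lit 110) (nat_lit 5) (nat_lit 323) (nat_lit 297) (nat_lit 160))) (XT.nd (nat_lit 78) (nat_lit 304) (nat_lit 0) (XT.lf (nat_lit 0) (nat_lit 10212424043) (nat_lit 380) (nat_lit 11676992560) (nat_lit 456) (nat_lit 30795823867) (nat_lit 104) (nat_lit 5) (nat_lit 109) (nat_lit 5) (nat_lit 110) (nat_lit 5) (nat_lit 324) (nat_lit 297) (nat_lit 159)) (XT.lf (nat_lit 0) (nat_lit 1122095948) (nat_lit 304) (nat_lit 35183481749) (nat_lit 380) (nat_lit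 18050768402) (nat_lit 100) (nat_lit 5) (nat_lit 104) (nat_lit 5) (nat_lit 105) (nat_lit 5) (nat_lit 325) (nat_lit 297) (nat_lit 158))))) (XT.nd (nat_lit 234) (nat_lit 912) (nat_lit 0) (XT.nd (nat_lit 78) (nat_lit 684) (nat_lit 0) (XT.lf (nat_lit 0) (nat_lit 47659125374) (nat_lit 304) (nat_lit 4333675774) (nat_lit 380) (nat_lit 4101700867) (nat_lit 100) (nat_lit 5) (nat_lit 104) (nat_lit 5) (nat_lit 105) (nat_lit 5) (nat_lit 326) (nat_lit 297) (nat_lit 157)) (XT.nd (nat_lit 78) (nat_lit 304) (nat_lit 0) (XT.lf (nat_lit 0) (nat_lit 10987390043) (nat_lit 380) (nat_lit 18916323664) (nat_lit 76) (nat_lit 27993363433) (nat_lit 95) (nat_lit 5) (nat_lit 100) (nat_lit 5) (nat_lit 96) (nat_lit 5) (nat_lit 327) (nat_lit 297) (nat_lit 156)) (XT.lf (nat_lit 0) (nat_lit 27183754102) (nat_lit 380) (nat_lit 30155547355) (nat_lit 76) (nat_lit 2436134113) (nat_lit 91) (nat_lit 5) (nat_lit 96) (nat_lit 5) (nat_lit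 92) (nat_lit 5) (nat_lit 328) (nat_lit 297) (nat_lit 155)))) (XT.nd (nat_lit 156) (nat_lit 304) (nat_lit 0) (XT.nd (nat_lit 78) (nat_lit 304) (nat_lit 0) (XT.lf (nat_lit 0) (nat_lit 19304561521) (nat_lit 304) (nat_lit 25566107439) (nat_lit 380) (nat_lit 16856623192) (nat_lit 87) (nat_lit 5) (nat_lit 91) (nat_lit 5) (nat_lit 92) (nat_lit 5) (nat_lit 329) (nat_lit 297) (nat_lit 154)) (XT.lf (nat_lit 0) (nat_lit 140138064) (nat_lit 304) (nat_lit 55586908165) (nat_lit 76) (nat_lit 8035741429) (nat_lit 83) (nat_lit 5) (nat_lit 87) (nat_lit 5) (nat_lit 84) (nat_lit 5) (nat_lit 330) (nat_lit 297) (nat_lit 153))) (XT.nd (nat_lit 78) (nat_lit 304) (nat_lit 0) (XT.lf (nat_lit 0) (nat_lit 18337292820) (nat_lit 304) (nat_lit 4133135682) (nat_lit 76) (nat_lit 43403649175) (nat_lit 83) (nat_lit 5) (nat_lit 87) (nat_lit 5) (nat_lit 84) (nat_lit 5) (nat_lit 331) (nat_lit 297) (nat_lit 152)) (XT.lf (nat_lit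 0) (nat_lit 38054921076) (nat_lit 380) (nat_lit 17319017549) (nat_lit 76) (nat_lit 12698676952) (nat_lit 79) (nat_lit 5) (nat_lit 84) (nat_lit 5) (nat_lit 80) (nat_lit 5) (nat_lit 332) (nat_lit 297) (nat_lit 151))))))))
noncomputable def xc105 : XT := (XT.nd (nat_lit 38220) (nat_lit 0) (nat_lit 4256) (XT.nd (nat_lit 1092) (nat_lit 1064) (nat_lit 0) (XT.nd (nat_lit 546) (nat_lit 1064) (nat_lit 0) (XT.nd (nat_lit 234) (nat_lit 760) (nat_lit 0) (XT.nd (nat_lit 78) (nat_lit 532) (nat_lit 0) (XT.lf (nat_lit 0) (nat_lit 38613163023) (nat_lit 228) (nat_lit 20783308638) (nat_lit 304) (nat_lit 10965469247) (nat_lit 76) (nat_lit 5) (nat_lit 79) (nat_lit 5) (nat_lit 80) (nat_lit 5) (nat_lit 333) (nat_lit 297) (nat_lit 150)) (XT.nd (nat_lit 78) (nat_lit 228) (nat_lit 0) (XT.lf (nat_lit 0) (nat_lit 9438218033) (nat_lit 304) (nat_lit 47559756813) (nat_lit 76) (nat_lit 15747895292) (nat_lit 72) (nat_lit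 5) (nat_lit 76) (nat_lit 5) (nat_lit 73) (nat_lit 5) (nat_lit 334) (nat_lit 297) (nat_lit 149)) (XT.lf (nat_lit 0) (nat_lit 10264411160) (nat_lit 228) (nat_lit 21008753833) (nat_lit 304) (nat_lit 43953439578) (nat_lit 69) (nat_lit 5) (nat_lit 72) (nat_lit 5) (nat_lit 73) (nat_lit 5) (nat_lit 335) (nat_lit 297) (nat_lit 148)))) (XT.nd (nat_lit 156) (nat_lit 532) (nat_lit 0) (XT.nd (nat_lit 78) (nat_lit 228) (nat_lit 0) (XT.lf (nat_lit 0) (nat_lit 54852918762) (nat_lit 304) (nat_lit 6013349123) (nat_lit 76) (nat_lit 16945517534) (nat_lit 69) (nat_lit 5) (nat_lit 73) (nat_lit 5) (nat_lit 70) (nat_lit 5) (nat_lit 336) (nat_lit 297) (nat_lit 147)) (XT.lf (nat_lit 0) (nat_lit 56774808882) (nat_lit 228) (nat_lit 23592106653) (nat_lit 304) (nat_lit 136653527) (nat_lit 66) (nat_lit 5) (nat_lit 69) (nat_lit 5) (nat_lit 70) (nat_lit 5) (nat_lit 337) (nat_lit 297) (nat_lit 146))) (XT.nd (nat_lit 78)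 (nat_lit 228) (nat_lit 0) (XT.lf (nat_lit 0) (nat_lit 23962839011) (nat_lit 304) (nat_lit 43417962303) (nat_lit 76) (nat_lit 15924237392) (nat_lit 62) (nat_lit 5) (nat_lit 66) (nat_lit 5) (nat_lit 63) (nat_lit 5) (nat_lit 338) (nat_lit 297) (nat_lit 145)) (XT.lf (nat_lit 0) (nat_lit 21106407153) (nat_lit 228) (nat_lit 28843374666) (nat_lit 304) (nat_lit 36276201607) (nat_lit 59) (nat_lit 5) (nat_lit 62) (nat_lit 5) (nat_lit 63) (nat_lit 5) (nat_lit 339) (nat_lit 297) (nat_lit 144))))) (XT.nd (nat_lit 234) (nat_lit 608) (nat_lit 0) (XT.nd (nat_lit 78) (nat_lit 304) (nat_lit 0) (XT.lf (nat_lit 0) (nat_lit 372067484) (nat_lit 152) (nat_lit 77428310763) (nat_lit 228) (nat_lit 11475669122) (nat_lit 57) (nat_lit 5) (nat_lit 59) (nat_lit 5) (nat_lit 60) (nat_lit 5) (nat_lit 340) (nat_lit 297) (nat_lit 143)) (XT.nd (nat_lit 78) (nat_lit 228) (nat_lit 0) (XT.lf (nat_lit 0) (nat_lit 15246485981) (nat_lit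 228) (nat_lit 22400904089) (nat_lit 76) (nat_lit 54798051049) (nat_lit 56) (nat_lit 5) (nat_lit 59) (nat_lit 5) (nat_lit 57) (nat_lit 5) (nat_lit 341) (nat_lit 297) (nat_lit 142)) (XT.lf (nat_lit 0) (nat_lit 43576588575) (nat_lit 304) (nat_lit 47551873644) (nat_lit 76) (nat_lit 4626159539) (nat_lit 53) (nat_lit 5) (nat_lit 57) (nat_lit 5) (nat_lit 54) (nat_lit 5) (nat_lit 342) (nat_lit 297) (nat_lit 141)))) (XT.nd (nat_lit 156) (nat_lit 380) (nat_lit 0) (XT.nd (nat_lit 78) (nat_lit 76) (nat_lit 0) (XT.lf (nat_lit 0) (nat_lit 23658236342) (nat_lit 152) (nat_lit 50503110642) (nat_lit 228) (nat_lit 25042770914) (nat_lit 51) (nat_lit 5) (nat_lit 53) (nat_lit 5) (nat_lit 54) (nat_lit 5) (nat_lit 343) (nat_lit 297) (nat_lit 140)) (XT.lf (nat_lit 0) (nat_lit 3874214000) (nat_lit 228) (nat_lit 3430308522) (nat_lit 76) (nat_lit 95505804544) (nat_lit 50) (nat_lit 5) (nat_lit 53) (nat_lit 5) (nat_lit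 51) (nat_lit 5) (nat_lit 344) (nat_lit 297) (nat_lit 139))) (XT.nd (nat_lit 78) (nat_lit 152) (nat_lit 0) (XT.lf (nat_lit 0) (nat_lit 34803460950) (nat_lit 304) (nat_lit 33474783934) (nat_lit 76) (nat_lit 38278634160) (nat_lit 47) (nat_lit 5) (nat_lit 51) (nat_lit 5) (nat_lit 48) (nat_lit 5) (nat_lit 345) (nat_lit 297) (nat_lit 138)) (XT.lf (nat_lit 0) (nat_lit 43779078624) (nat_lit 152) (nat_lit 24028377516) (nat_lit 228) (nat_lit 42667454737) (nat_lit 45) (nat_lit 5) (nat_lit 47) (nat_lit 5) (nat_lit 48) (nat_lit 5) (nat_lit 346) (nat_lit 297) (nat_lit 137)))))) (XT.nd (nat_lit 546) (nat_lit 152) (nat_lit 0) (XT.nd (nat_lit 234) (nat_lit 532) (nat_lit 0) (XT.nd (nat_lit 78) (nat_lit 228) (nat_lit 0) (XT.lf (nat_lit 0) (nat_lit 11009233226) (nat_lit 152) (nat_lit 92120015992) (nat_lit 228) (nat_lit 11439567931) (nat_lit 43) (nat_lit 5) (nat_lit 45) (nat_lit 5) (nat_lit 46) (nat_lit 5) (nat_lit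 347) (nat_lit 297) (nat_lit 136)) (XT.nd (nat_lit 78) (nat_lit 152) (nat_lit 0) (XT.lf (nat_lit 0) (nat_lit 21867157592) (nat_lit 228) (nat_lit 25311205234) (nat_lit 76) (nat_lit 71654878219) (nat_lit 42) (nat_lit 5) (nat_lit 45) (nat_lit 5) (nat_lit 43) (nat_lit 5) (nat_lit 348) (nat_lit 297) (nat_lit 135)) (XT.lf (nat_lit 0) (nat_lit 57166001621) (nat_lit 228) (nat_lit 65437321488) (nat_lit 76) (nat_lit 687264733) (nat_lit 40) (nat_lit 5) (nat_lit 43) (nat_lit 5) (nat_lit 41) (nat_lit 5) (nat_lit 349) (nat_lit 297) (nat_lit 134)))) (XT.nd (nat_lit 156) (nat_lit 304) (nat_lit 0) (XT.nd (nat_lit 78) (nat_lit 76) (nat_lit 0) (XT.lf (nat_lit 0) (nat_lit 17603716226) (nat_lit 152) (nat_lit 77532897586) (nat_lit 228) (nat_lit 32806984050) (nat_lit 38) (nat_lit 5) (nat_lit 40) (nat_lit 5) (nat_lit 41) (nat_lit 5) (nat_lit 350) (nat_lit 297) (nat_lit 133)) (XT.lf (nat_lit 0) (nat_lit 2812642221)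 (nat_lit 228) (nat_lit 26675276672) (nat_lit 76) (nat_lit 103320353990) (nat_lit 37) (nat_lit 5) (nat_lit 40) (nat_lit 5) (nat_lit 38) (nat_lit 5) (nat_lit 351) (nat_lit 297) (nat_lit 132))) (XT.nd (nat_lit 78) (nat_lit 152) (nat_lit 0) (XT.lf (nat_lit 0) (nat_lit 40346568512) (nat_lit 228) (nat_lit 76049561727) (nat_lit 76) (nat_lit 21485952828) (nat_lit 35) (nat_lit 5) (nat_lit 38) (nat_lit 5) (nat_lit 36) (nat_lit 5) (nat_lit 352) (nat_lit 297) (nat_lit 131)) (XT.lf (nat_lit 0) (nat_lit 12053958402) (nat_lit 152) (nat_lit 68392494070) (nat_lit 228) (nat_lit 62742454005) (nat_lit 33) (nat_lit 5) (nat_lit 35) (nat_lit 5) (nat_lit 36) (nat_lit 5) (nat_lit 353) (nat_lit 297) (nat_lit 130))))) (XT.nd (nat_lit 36270) (nat_lit 0) (nat_lit 13224) (XT.nd (nat_lit 78) (nat_lit 152) (nat_lit 0) (XT.lf (nat_lit 0) (nat_lit 106149235834) (nat_lit 152) (nat_lit 17183452059) (nat_lit 228) (nat_lit 25404942975)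 (nat_lit 33) (nat_lit 5) (nat_lit 35) (nat_lit 5) (nat_lit 36) (nat_lit 5) (nat_lit 354) (nat_lit 297) (nat_lit 129)) (XT.nd (nat_lit 78) (nat_lit 0) (nat_lit 0) (XT.lf (nat_lit 0) (nat_lit 14379235973) (nat_lit 152) (nat_lit 103652562939) (nat_lit 76) (nat_lit 36502541521) (nat_lit 31) (nat_lit 5) (nat_lit 33) (nat_lit 5) (nat_lit 32) (nat_lit 5) (nat_lit 355) (nat_lit 297) (nat_lit 128)) (XT.lf (nat_lit 0) (nat_lit 56246868506) (nat_lit 152) (nat_lit 11128992663) (nat_lit 76) (nat_lit 93218889016) (nat_lit 31) (nat_lit 5) (nat_lit 33) (nat_lit 5) (nat_lit 32) (nat_lit 5) (nat_lit 356) (nat_lit 297) (nat_lit 127)))) (XT.nd (nat_lit 156) (nat_lit 0) (nat_lit 76) (XT.nd (nat_lit 78) (nat_lit 0) (nat_lit 0) (XT.lf (nat_lit 0) (nat_lit 4049949562) (nat_lit 0) (nat_lit 4049949562) (nat_lit 1140) (nat_lit 4975719326) (nat_lit 205) (nat_lit 5) (nat_lit 205) (nat_lit 3) (nat_lit 220) (nat_lit 3)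 (nat_lit 298) (nat_lit 298) (nat_lit 184)) (XT.lf (nat_lit 76) (nat_lit 1866344682) (nat_lit 0) (nat_lit 15023178380) (nat_lit 1216) (nat_lit 9906796095) (nat_lit 206) (nat_lit 5) (nat_lit 205) (nat_lit 5) (nat_lit 221) (nat_lit 5) (nat_lit 299) (nat_lit 298) (nat_lit 183))) (XT.nd (nat_lit 78) (nat_lit 0) (nat_lit 0) (XT.lf (nat_lit 0) (nat_lit 17920767436) (nat_lit 1140) (nat_lit 4447467994) (nat_lit 1216) (nat_lit 5096219132) (nat_lit 206) (nat_lit 5) (nat_lit 221) (nat_lit 5) (nat_lit 222) (nat_lit 5) (nat_lit 300) (nat_lit 298) (nat_lit 182)) (XT.lf (nat_lit 76) (nat_lit 17238541123) (nat_lit 0) (nat_lit 2073170402) (nat_lit 1216) (nat_lit 8845050644) (nat_lit 207) (nat_lit 5) (nat_lit 206) (nat_lit 5) (nat_lit 222) (nat_lit 5) (nat_lit 301) (nat_lit 298) (nat_lit 181))))))) (XT.nd (nat_lit 1092) (nat_lit 5244) (nat_lit 0) (XT.nd (nat_lit 546) (nat_lit 2888) (nat_lit 0) (XT.nd (nat_lit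 234) (nat_lit 988) (nat_lit 0) (XT.nd (nat_lit 78) (nat_lit 0) (nat_lit 76) (XT.lf (nat_lit 76) (nat_lit 11248070572) (nat_lit 0) (nat_lit 9854626126) (nat_lit 1216) (nat_lit 7771082745) (nat_lit 208) (nat_lit 5) (nat_lit 207) (nat_lit 5) (nat_lit 223) (nat_lit 5) (nat_lit 302) (nat_lit 298) (nat_lit 180)) (XT.nd (nat_lit 78) (nat_lit 0) (nat_lit 76) (XT.lf (nat_lit 76) (nat_lit 5088846980) (nat_lit 0) (nat_lit 18179663035) (nat_lit 1216) (nat_lit 6349587868) (nat_lit 209) (nat_lit 5) (nat_lit 208) (nat_lit 5) (nat_lit 224) (nat_lit 5) (nat_lit 303) (nat_lit 298) (nat_lit 179)) (XT.lf (nat_lit 0) (nat_lit 25847055593) (nat_lit 1140) (nat_lit 1223520227) (nat_lit 1216) (nat_lit 3319931433) (nat_lit 209) (nat_lit 5) (nat_lit 224) (nat_lit 5) (nat_lit 225) (nat_lit 5) (nat_lit 304) (nat_lit 298) (nat_lit 178)))) (XT.nd (nat_lit 156) (nat_lit 0) (nat_lit 76) (XT.nd (nat_lit 78) (nat_lit 1140)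 (nat_lit 0) (XT.lf (nat_lit 76) (nat_lit 23517416272) (nat_lit 0) (nat_lit 5439035851) (nat_lit 1216) (nat_lit 2233035123) (nat_lit 210) (nat_lit 5) (nat_lit 209) (nat_lit 5) (nat_lit 225) (nat_lit 5) (nat_lit 305) (nat_lit 298) (nat_lit 177)) (XT.lf (nat_lit 0) (nat_lit 533793145) (nat_lit 1216) (nat_lit 14357524782) (nat_lit 1292) (nat_lit 17126710297) (nat_lit 194) (nat_lit 5) (nat_lit 210) (nat_lit 5) (nat_lit 211) (nat_lit 5) (nat_lit 306) (nat_lit 298) (nat_lit 176))) (XT.nd (nat_lit 78) (nat_lit 0) (nat_lit 0) (XT.lf (nat_lit 0) (nat_lit 3710383305) (nat_lit 1216) (nat_lit 21278969501) (nat_lit 1292) (nat_lit 7888459000) (nat_lit 195) (nat_lit 5) (nat_lit 211) (nat_lit 5) (nat_lit 212) (nat_lit 5) (nat_lit 307) (nat_lit 298) (nat_lit 175)) (XT.lf (nat_lit 76) (nat_lit 5323381847) (nat_lit 0) (nat_lit 2066372634) (nat_lit 1292) (nat_lit 26380518135) (nat_lit 196) (nat_lit 5) (nat_lit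 195) (nat_lit 5) (nat_lit 212) (nat_lit 5) (nat_lit 308) (nat_lit 298) (nat_lit 174))))) (XT.nd (nat_lit 234) (nat_lit 1672) (nat_lit 0) (XT.nd (nat_lit 78) (nat_lit 1368) (nat_lit 0) (XT.lf (nat_lit 0) (nat_lit 11679312328) (nat_lit 1216) (nat_lit 1219627763) (nat_lit 76) (nat_lit 21795636112) (nat_lit 196) (nat_lit 5) (nat_lit 212) (nat_lit 5) (nat_lit 197) (nat_lit 5) (nat_lit 309) (nat_lit 298) (nat_lit 173)) (XT.nd (nat_lit 78) (nat_lit 608) (nat_lit 0) (XT.lf (nat_lit 0) (nat_lit 16575861114) (nat_lit 836) (nat_lit 7879504921) (nat_lit 76) (nat_lit 11197959525) (nat_lit 186) (nat_lit 5) (nat_lit 197) (nat_lit 5) (nat_lit 187) (nat_lit 5) (nat_lit 310) (nat_lit 298) (nat_lit 172)) (XT.lf (nat_lit 0) (nat_lit 21873860523) (nat_lit 608) (nat_lit 190570904) (nat_lit 684) (nat_lit 14585170833) (nat_lit 178) (nat_lit 5) (nat_lit 186) (nat_lit 5) (nat_lit 187) (nat_lit 5) (nat_lit 311) (nat_lit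 298) (nat_lit 171)))) (XT.nd (nat_lit 156) (nat_lit 608) (nat_lit 0) (XT.nd (nat_lit 78) (nat_lit 532) (nat_lit 0) (XT.lf (nat_lit 0) (nat_lit 15642169094) (nat_lit 532) (nat_lit 12654911231) (nat_lit 608) (nat_lit 9384528391) (nat_lit 171) (nat_lit 5) (nat_lit 178) (nat_lit 5) (nat_lit 179) (nat_lit 5) (nat_lit 312) (nat_lit 298) (nat_lit 170)) (XT.lf (nat_lit 0) (nat_lit 9176839510) (nat_lit 532) (nat_lit 26025189089) (nat_lit 608) (nat_lit 3552372057) (nat_lit 164) (nat_lit 5) (nat_lit 171) (nat_lit 5) (nat_lit 172) (nat_lit 5) (nat_lit 313) (nat_lit 298) (nat_lit 169))) (XT.nd (nat_lit 78) (nat_lit 0) (nat_lit 0) (XT.lf (nat_lit 0) (nat_lit 2427700813) (nat_lit 532) (nat_lit 468371421) (nat_lit 608) (nat_lit 36972777483) (nat_lit 156) (nat_lit 5) (nat_lit 163) (nat_lit 5) (nat_lit 164) (nat_lit 5) (nat_lit 314) (nat_lit 298) (nat_lit 168)) (XT.lf (nat_lit 0) (nat_lit 10149961791) (nat_lit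 608) (nat_lit 4676341635) (nat_lit 76) (nat_lit 26194972449) (nat_lit 156) (nat_lit 5) (nat_lit 164) (nat_lit 5) (nat_lit 157) (nat_lit 5) (nat_lit 315) (nat_lit 298) (nat_lit 167)))))) (XT.nd (nat_lit 546) (nat_lit 2508) (nat_lit 0) (XT.nd (nat_lit 234) (nat_lit 1292) (nat_lit 0) (XT.nd (nat_lit 78) (nat_lit 912) (nat_lit 0) (XT.lf (nat_lit 0) (nat_lit 18175487966) (nat_lit 608) (nat_lit 12032137092) (nat_lit 76) (nat_lit 12011434352) (nat_lit 149) (nat_lit 5) (nat_lit 157) (nat_lit 5) (nat_lit 150) (nat_lit 5) (nat_lit 316) (nat_lit 298) (nat_lit 166)) (XT.nd (nat_lit 78) (nat_lit 456) (nat_lit 0) (XT.lf (nat_lit 0) (nat_lit 23723410356) (nat_lit 456) (nat_lit 3300480407) (nat_lit 532) (nat_lit 16440197477) (nat_lit 143) (nat_lit 5) (nat_lit 149) (nat_lit 5) (nat_lit 150) (nat_lit 5) (nat_lit 317) (nat_lit 298) (nat_lit 165)) (XT.lf (nat_lit 0) (nat_lit 16832739174) (nat_lit 456) (nat_lit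 20004188081) (nat_lit 532) (nat_lit 7918778780) (nat_lit 137) (nat_lit 5) (nat_lit 143) (nat_lit 5) (nat_lit 144) (nat_lit 5) (nat_lit 318) (nat_lit 298) (nat_lit 164)))) (XT.nd (nat_lit 156) (nat_lit 380) (nat_lit 0) (XT.nd (nat_lit 78) (nat_lit 456) (nat_lit 0) (XT.lf (nat_lit 0) (nat_lit 1416023129) (nat_lit 456) (nat_lit 36501895262) (nat_lit 76) (nat_lit 8181471721) (nat_lit 131) (nat_lit 5) (nat_lit 137) (nat_lit 5) (nat_lit 132) (nat_lit 5) (nat_lit 319) (nat_lit 298) (nat_lit 163)) (XT.lf (nat_lit 0) (nat_lit 1821632252) (nat_lit 456) (nat_lit 9739131452) (nat_lit 532) (nat_lit 35931936906) (nat_lit 125) (nat_lit 5) (nat_lit 131) (nat_lit 5) (nat_lit 132) (nat_lit 5) (nat_lit 320) (nat_lit 298) (nat_lit 162))) (XT.nd (nat_lit 78) (nat_lit 380) (nat_lit 0) (XT.lf (nat_lit 0) (nat_lit 22778903080) (nat_lit 532) (nat_lit 6319862758) (nat_lit 76) (nat_lit 19839929237) (nat_lit 125) (nat_lit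 5) (nat_lit 132) (nat_lit 5) (nat_lit 126) (nat_lit 5) (nat_lit 321) (nat_lit 298) (nat_lit 161)) (XT.lf (nat_lit 0) (nat_lit 35000177364) (nat_lit 456) (nat_lit 14859345652) (nat_lit 76) (nat_lit 584202550) (nat_lit 120) (nat_lit 5) (nat_lit 126) (nat_lit 5) (nat_lit 121) (nat_lit 5) (nat_lit 322) (nat_lit 298) (nat_lit 160))))) (XT.nd (nat_lit 312) (nat_lit 988) (nat_lit 0) (XT.nd (nat_lit 156) (nat_lit 684) (nat_lit 0) (XT.nd (nat_lit 78) (nat_lit 456) (nat_lit 0) (XT.lf (nat_lit 0) (nat_lit 27939920511) (nat_lit 380) (nat_lit 20516791091) (nat_lit 456) (nat_lit 3548573082) (nat_lit 115) (nat_lit 5) (nat_lit 120) (nat_lit 5) (nat_lit 121) (nat_lit 5) (nat_lit 323) (nat_lit 298) (nat_lit 159)) (XT.lf (nat_lit 0) (nat_lit 9211428551) (nat_lit 456) (nat_lit 33890922509) (nat_lit 76) (nat_lit 10526652473) (nat_lit 109) (nat_lit 5) (nat_lit 115) (nat_lit 5) (nat_lit 110) (nat_lit 5) (nat_lit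 324) (nat_lit 298) (nat_lit 158))) (XT.nd (nat_lit 78) (nat_lit 304) (nat_lit 0) (XT.lf (nat_lit 0) (nat_lit 10870192734) (nat_lit 380) (nat_lit 12224722238) (nat_lit 456) (nat_lit 32221175715) (nat_lit 104) (nat_lit 5) (nat_lit 109) (nat_lit 5) (nat_lit 110) (nat_lit 5) (nat_lit 325) (nat_lit 298) (nat_lit 157)) (XT.lf (nat_lit 0) (nat_lit 1324107035) (nat_lit 304) (nat_lit 36904223275) (nat_lit 380) (nat_lit 18842531759) (nat_lit 100) (nat_lit 5) (nat_lit 104) (nat_lit 5) (nat_lit 105) (nat_lit 5) (nat_lit 326) (nat_lit 298) (nat_lit 156)))) (XT.nd (nat_lit 156) (nat_lit 608) (nat_lit 0) (XT.nd (nat_lit 78) (nat_lit 380) (nat_lit 0) (XT.lf (nat_lit 0) (nat_lit 50181040013) (nat_lit 304) (nat_lit 4513757122) (nat_lit 380) (nat_lit 4201285850) (nat_lit 100) (nat_lit 5) (nat_lit 104) (nat_lit 5) (nat_lit 105) (nat_lit 5) (nat_lit 327) (nat_lit 298) (nat_lit 155)) (XT.lf (nat_lit 0) (nat_lit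 11636950187) (nat_lit 380) (nat_lit 19722390540) (nat_lit 76) (nat_lit 29429516634) (nat_lit 95) (nat_lit 5) (nat_lit 100) (nat_lit 5) (nat_lit 96) (nat_lit 5) (nat_lit 328) (nat_lit 298) (nat_lit 154))) (XT.nd (nat_lit 78) (nat_lit 304) (nat_lit 0) (XT.lf (nat_lit 0) (nat_lit 28640041389) (nat_lit 380) (nat_lit 31524989958) (nat_lit 76) (nat_lit 2596198332) (nat_lit 91) (nat_lit 5) (nat_lit 96) (nat_lit 5) (nat_lit 92) (nat_lit 5) (nat_lit 329) (nat_lit 298) (nat_lit 153)) (XT.lf (nat_lit 0) (nat_lit 20404159023) (nat_lit 304) (nat_lit 26803810818) (nat_lit 380) (nat_lit 17602812294) (nat_lit 87) (nat_lit 5) (nat_lit 91) (nat_lit 5) (nat_lit 92) (nat_lit 5) (nat_lit 330) (nat_lit 298) (nat_lit 152))))))))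
noncomputable def xc106 : XT := (XT.nd (nat_lit 38298) (nat_lit 0) (nat_lit 4864) (XT.nd (nat_lit 1092) (nat_lit 1520) (nat_lit 0) (XT.nd (nat_lit 546) (nat_lit 1368) (nat_lit 0) (XT.nd (nat_lit 234) (nat_lit 760) (nat_lit 0) (XT.nd (nat_lit 78) (nat_lit 304) (nat_lit 0) (XT.lf (nat_lit 0) (nat_lit 239054840) (nat_lit 304) (nat_lit 58231436552) (nat_lit 76) (nat_lit 8477621393) (nat_lit 83) (nat_lit 5) (nat_lit 87) (nat_lit 5) (nat_lit 84) (nat_lit 5) (nat_lit 331) (nat_lit 298) (nat_lit 151)) (XT.nd (nat_lit 78) (nat_lit 304) (nat_lit 0) (XT.lf (nat_lit 0) (nat_lit 19341690674) (nat_lit 304) (nat_lit 4211395303) (nat_lit 76) (nat_lit 45612015341) (nat_lit 83) (nat_lit 5) (nat_lit 87) (nat_lit 5) (nat_lit 84) (nat_lit 5) (nat_lit 332) (nat_lit 298) (nat_lit 150)) (XT.lf (nat_lit 0) (nat_lit 40042616921) (nat_lit 380) (nat_lit 18058049138) (nat_lit 76) (nat_lit 13372980140) (nat_lit 79) (nat_lit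 5) (nat_lit 84) (nat_lit 5) (nat_lit 80) (nat_lit 5) (nat_lit 333) (nat_lit 298) (nat_lit 149)))) (XT.nd (nat_lit 156) (nat_lit 228) (nat_lit 0) (XT.nd (nat_lit 78) (nat_lit 304) (nat_lit 0) (XT.lf (nat_lit 0) (nat_lit 40667102348) (nat_lit 228) (nat_lit 21781282513) (nat_lit 304) (nat_lit 11429141200) (nat_lit 76) (nat_lit 5) (nat_lit 79) (nat_lit 5) (nat_lit 80) (nat_lit 5) (nat_lit 334) (nat_lit 298) (nat_lit 148)) (XT.lf (nat_lit 0) (nat_lit 9990692805) (nat_lit 304) (nat_lit 49814293155) (nat_lit 76) (nat_lit 16575715273) (nat_lit 72) (nat_lit 5) (nat_lit 76) (nat_lit 5) (nat_lit 73) (nat_lit 5) (nat_lit 335) (nat_lit 298) (nat_lit 147))) (XT.nd (nat_lit 78) (nat_lit 0) (nat_lit 0) (XT.lf (nat_lit 0) (nat_lit 10897544505) (nat_lit 228) (nat_lit 22017158908) (nat_lit 304) (nat_lit 46070851652) (nat_lit 69) (nat_lit 5) (nat_lit 72) (nat_lit 5) (nat_lit 73) (nat_lit 5) (nat_lit 336) (nat_lit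 298) (nat_lit 146)) (XT.lf (nat_lit 0) (nat_lit 57670121095) (nat_lit 304) (nat_lit 6197932314) (nat_lit 76) (nat_lit 17832043324) (nat_lit 69) (nat_lit 5) (nat_lit 73) (nat_lit 5) (nat_lit 70) (nat_lit 5) (nat_lit 337) (nat_lit 298) (nat_lit 145))))) (XT.nd (nat_lit 234) (nat_lit 608) (nat_lit 0) (XT.nd (nat_lit 78) (nat_lit 532) (nat_lit 0) (XT.lf (nat_lit 0) (nat_lit 59726306059) (nat_lit 228) (nat_lit 24731045228) (nat_lit 304) (nat_lit 69194227) (nat_lit 66) (nat_lit 5) (nat_lit 69) (nat_lit 5) (nat_lit 70) (nat_lit 5) (nat_lit 338) (nat_lit 298) (nat_lit 144)) (XT.nd (nat_lit 78) (nat_lit 228) (nat_lit 0) (XT.lf (nat_lit 0) (nat_lit 25231810858) (nat_lit 304) (nat_lit 45476130668) (nat_lit 76) (nat_lit 16760187878) (nat_lit 62) (nat_lit 5) (nat_lit 66) (nat_lit 5) (nat_lit 63) (nat_lit 5) (nat_lit 339) (nat_lit 298) (nat_lit 143)) (XT.lf (nat_lit 0) (nat_lit 22271225884) (nat_lit 228)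 (nat_lit 30244554635) (nat_lit 304) (nat_lit 38019412180) (nat_lit 59) (nat_lit 5) (nat_lit 62) (nat_lit 5) (nat_lit 63) (nat_lit 5) (nat_lit 340) (nat_lit 298) (nat_lit 142)))) (XT.nd (nat_lit 156) (nat_lit 380) (nat_lit 0) (XT.nd (nat_lit 78) (nat_lit 76) (nat_lit 0) (XT.lf (nat_lit 0) (nat_lit 498677759) (nat_lit 152) (nat_lit 81258380123) (nat_lit 228) (nat_lit 11980759073) (nat_lit 57) (nat_lit 5) (nat_lit 59) (nat_lit 5) (nat_lit 60) (nat_lit 5) (nat_lit 341) (nat_lit 298) (nat_lit 141)) (XT.lf (nat_lit 0) (nat_lit 16072956040) (nat_lit 228) (nat_lit 23416778475) (nat_lit 76) (nat_lit 57576023810) (nat_lit 56) (nat_lit 5) (nat_lit 59) (nat_lit 5) (nat_lit 57) (nat_lit 5) (nat_lit 342) (nat_lit 298) (nat_lit 140))) (XT.nd (nat_lit 78) (nat_lit 152) (nat_lit 0) (XT.lf (nat_lit 0) (nat_lit 45817857908) (nat_lit 304) (nat_lit 49826767656) (nat_lit 76) (nat_lit 4895825059) (nat_lit 53) (nat_lit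 5) (nat_lit 57) (nat_lit 5) (nat_lit 54) (nat_lit 5) (nat_lit 343) (nat_lit 298) (nat_lit 139)) (XT.lf (nat_lit 0) (nat_lit 24940903964) (nat_lit 152) (nat_lit 52988935859) (nat_lit 228) (nat_lit 26232643563) (nat_lit 51) (nat_lit 5) (nat_lit 53) (nat_lit 5) (nat_lit 54) (nat_lit 5) (nat_lit 344) (nat_lit 298) (nat_lit 138)))))) (XT.nd (nat_lit 546) (nat_lit 532) (nat_lit 0) (XT.nd (nat_lit 234) (nat_lit 532) (nat_lit 0) (XT.nd (nat_lit 78) (nat_lit 380) (nat_lit 0) (XT.lf (nat_lit 0) (nat_lit 4126068381) (nat_lit 228) (nat_lit 3505635686) (nat_lit 76) (nat_lit 100317369481) (nat_lit 50) (nat_lit 5) (nat_lit 53) (nat_lit 5) (nat_lit 51) (nat_lit 5) (nat_lit 345) (nat_lit 298) (nat_lit 137)) (XT.nd (nat_lit 78) (nat_lit 152) (nat_lit 0) (XT.lf (nat_lit 0) (nat_lit 36600264234) (nat_lit 304) (nat_lit 35053736736) (nat_lit 76) (nat_lit 40228998776) (nat_lit 47) (nat_lit 5) (nat_lit 51) (nat_lit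 5) (nat_lit 48) (nat_lit 5) (nat_lit 346) (nat_lit 298) (nat_lit 136)) (XT.lf (nat_lit 0) (nat_lit 46060101917) (nat_lit 152) (nat_lit 25192545616) (nat_lit 228) (nat_lit 44744341146) (nat_lit 45) (nat_lit 5) (nat_lit 47) (nat_lit 5) (nat_lit 48) (nat_lit 5) (nat_lit 347) (nat_lit 298) (nat_lit 135)))) (XT.nd (nat_lit 156) (nat_lit 304) (nat_lit 0) (XT.nd (nat_lit 78) (nat_lit 76) (nat_lit 0) (XT.lf (nat_lit 0) (nat_lit 11650397223) (nat_lit 152) (nat_lit 96688735545) (nat_lit 228) (nat_lit 11956500526) (nat_lit 43) (nat_lit 5) (nat_lit 45) (nat_lit 5) (nat_lit 46) (nat_lit 5) (nat_lit 348) (nat_lit 298) (nat_lit 134)) (XT.lf (nat_lit 0) (nat_lit 23011917053) (nat_lit 228) (nat_lit 26489338911) (nat_lit 76) (nat_lit 75272084671) (nat_lit 42) (nat_lit 5) (nat_lit 45) (nat_lit 5) (nat_lit 43) (nat_lit 5) (nat_lit 349) (nat_lit 298) (nat_lit 133))) (XT.nd (nat_lit 78) (nat_lit 152) (nat_lit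 0) (XT.lf (nat_lit 0) (nat_lit 60074409783) (nat_lit 228) (nat_lit 68623092379) (nat_lit 76) (nat_lit 756092385) (nat_lit 40) (nat_lit 5) (nat_lit 43) (nat_lit 5) (nat_lit 41) (nat_lit 5) (nat_lit 350) (nat_lit 298) (nat_lit 132)) (XT.lf (nat_lit 0) (nat_lit 18567529319) (nat_lit 152) (nat_lit 81374441043) (nat_lit 228) (nat_lit 34397333100) (nat_lit 38) (nat_lit 5) (nat_lit 40) (nat_lit 5) (nat_lit 41) (nat_lit 5) (nat_lit 351) (nat_lit 298) (nat_lit 131))))) (XT.nd (nat_lit 234) (nat_lit 152) (nat_lit 0) (XT.nd (nat_lit 78) (nat_lit 304) (nat_lit 0) (XT.lf (nat_lit 0) (nat_lit 2999964303) (nat_lit 228) (nat_lit 27928449131) (nat_lit 76) (nat_lit 108518855272) (nat_lit 37) (nat_lit 5) (nat_lit 40) (nat_lit 5) (nat_lit 38) (nat_lit 5) (nat_lit 352) (nat_lit 298) (nat_lit 130)) (XT.nd (nat_lit 78) (nat_lit 152) (nat_lit 0) (XT.lf (nat_lit 0) (nat_lit 42409433877) (nat_lit 228) (nat_lit 79772703507)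 (nat_lit 76) (nat_lit 22592667422) (nat_lit 35) (nat_lit 5) (nat_lit 38) (nat_lit 5) (nat_lit 36) (nat_lit 5) (nat_lit 353) (nat_lit 298) (nat_lit 129)) (XT.lf (nat_lit 0) (nat_lit 12733718470) (nat_lit 152) (nat_lit 71779165908) (nat_lit 228) (nat_lit 65834128614) (nat_lit 33) (nat_lit 5) (nat_lit 35) (nat_lit 5) (nat_lit 36) (nat_lit 5) (nat_lit 354) (nat_lit 298) (nat_lit 128)))) (XT.nd (nat_lit 36270) (nat_lit 0) (nat_lit 13224) (XT.nd (nat_lit 78) (nat_lit 152) (nat_lit 0) (XT.lf (nat_lit 0) (nat_lit 111530090148) (nat_lit 152) (nat_lit 18011240980) (nat_lit 228) (nat_lit 26631906227) (nat_lit 33) (nat_lit 5) (nat_lit 35) (nat_lit 5) (nat_lit 36) (nat_lit 5) (nat_lit 355) (nat_lit 298) (nat_lit 127)) (XT.lf (nat_lit 0) (nat_lit 15139607518) (nat_lit 152) (nat_lit 108762119059) (nat_lit 76) (nat_lit 38358074908) (nat_lit 31) (nat_lit 5) (nat_lit 33) (nat_lit 5) (nat_lit 32) (nat_lit 5)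 (nat_lit 356) (nat_lit 298) (nat_lit 126))) (XT.nd (nat_lit 78) (nat_lit 0) (nat_lit 0) (XT.lf (nat_lit 0) (nat_lit 4327035214) (nat_lit 0) (nat_lit 4327035214) (nat_lit 1140) (nat_lit 5070699332) (nat_lit 205) (nat_lit 5) (nat_lit 205) (nat_lit 3) (nat_lit 220) (nat_lit 3) (nat_lit 299) (nat_lit 299) (nat_lit 182)) (XT.lf (nat_lit 76) (nat_lit 2114948836) (nat_lit 0) (nat_lit 15903322825) (nat_lit 1216) (nat_lit 10109041333) (nat_lit 206) (nat_lit 5) (nat_lit 205) (nat_lit 5) (nat_lit 221) (nat_lit 5) (nat_lit 300) (nat_lit 299) (nat_lit 181))))))) (XT.nd (nat_lit 1092) (nat_lit 5244) (nat_lit 0) (XT.nd (nat_lit 546) (nat_lit 2280) (nat_lit 0) (XT.nd (nat_lit 234) (nat_lit 912) (nat_lit 0) (XT.nd (nat_lit 78) (nat_lit 0) (nat_lit 0) (XT.lf (nat_lit 0) (nat_lit 19086360625) (nat_lit 1140) (nat_lit 4512366224) (nat_lit 1216) (nat_lit 5230583846) (nat_lit 206) (nat_lit 5) (nat_lit 221) (nat_lit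 5) (nat_lit 222) (nat_lit 5) (nat_lit 301) (nat_lit 299) (nat_lit 180)) (XT.nd (nat_lit 78) (nat_lit 0) (nat_lit 76) (XT.lf (nat_lit 76) (nat_lit 18253429355) (nat_lit 0) (nat_lit 2282056976) (nat_lit 1216) (nat_lit 9021101650) (nat_lit 207) (nat_lit 5) (nat_lit 206) (nat_lit 5) (nat_lit 222) (nat_lit 5) (nat_lit 302) (nat_lit 299) (nat_lit 179)) (XT.lf (nat_lit 76) (nat_lit 11967815822) (nat_lit 0) (nat_lit 10436459331) (nat_lit 1216) (nat_lit 7905546030) (nat_lit 208) (nat_lit 5) (nat_lit 207) (nat_lit 5) (nat_lit 223) (nat_lit 5) (nat_lit 303) (nat_lit 299) (nat_lit 178)))) (XT.nd (nat_lit 156) (nat_lit 1064) (nat_lit 0) (XT.nd (nat_lit 78) (nat_lit 0) (nat_lit 76) (XT.lf (nat_lit 76) (nat_lit 5504380858) (nat_lit 0) (nat_lit 19162995662) (nat_lit 1216) (nat_lit 6424321195) (nat_lit 209) (nat_lit 5) (nat_lit 208) (nat_lit 5) (nat_lit 224) (nat_lit 5) (nat_lit 304) (nat_lit 299) (nat_lit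 177)) (XT.lf (nat_lit 0) (nat_lit 27362957241) (nat_lit 1140) (nat_lit 1123637873) (nat_lit 1216) (nat_lit 3416500720) (nat_lit 209) (nat_lit 5) (nat_lit 224) (nat_lit 5) (nat_lit 225) (nat_lit 5) (nat_lit 305) (nat_lit 299) (nat_lit 176))) (XT.nd (nat_lit 78) (nat_lit 1140) (nat_lit 0) (XT.lf (nat_lit 76) (nat_lit 24849728745) (nat_lit 0) (nat_lit 5768953480) (nat_lit 1216) (nat_lit 2123627808) (nat_lit 210) (nat_lit 5) (nat_lit 209) (nat_lit 5) (nat_lit 225) (nat_lit 5) (nat_lit 306) (nat_lit 299) (nat_lit 175)) (XT.lf (nat_lit 0) (nat_lit 767914225) (nat_lit 1216) (nat_lit 14912110480) (nat_lit 1292) (nat_lit 17932479168) (nat_lit 194) (nat_lit 5) (nat_lit 210) (nat_lit 5) (nat_lit 211) (nat_lit 5) (nat_lit 307) (nat_lit 299) (nat_lit 174))))) (XT.nd (nat_lit 234) (nat_lit 2356) (nat_lit 0) (XT.nd (nat_lit 78) (nat_lit 0) (nat_lit 0) (XT.lf (nat_lit 0) (nat_lit 4094591852) (nat_lit 1216)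 (nat_lit 22177753604) (nat_lit 1292) (nat_lit 8243203097) (nat_lit 195) (nat_lit 5) (nat_lit 211) (nat_lit 5) (nat_lit 212) (nat_lit 5) (nat_lit 308) (nat_lit 299) (nat_lit 173)) (XT.nd (nat_lit 78) (nat_lit 0) (nat_lit 76) (XT.lf (nat_lit 76) (nat_lit 5749980907) (nat_lit 0) (nat_lit 2200031432) (nat_lit 1292) (nat_lit 27502866841) (nat_lit 196) (nat_lit 5) (nat_lit 195) (nat_lit 5) (nat_lit 212) (nat_lit 5) (nat_lit 309) (nat_lit 299) (nat_lit 172)) (XT.lf (nat_lit 0) (nat_lit 12444686026) (nat_lit 1216) (nat_lit 1121915168) (nat_lit 76) (nat_lit 22857086375) (nat_lit 196) (nat_lit 5) (nat_lit 212) (nat_lit 5) (nat_lit 197) (nat_lit 5) (nat_lit 310) (nat_lit 299) (nat_lit 171)))) (XT.nd (nat_lit 156) (nat_lit 1064) (nat_lit 0) (XT.nd (nat_lit 78) (nat_lit 608) (nat_lit 0) (XT.lf (nat_lit 0) (nat_lit 17578712234) (nat_lit 836) (nat_lit 8113747441) (nat_lit 76) (nat_lit 11738143562) (nat_lit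 186) (nat_lit 5) (nat_lit 197) (nat_lit 5) (nat_lit 187) (nat_lit 5) (nat_lit 311) (nat_lit 299) (nat_lit 170)) (XT.lf (nat_lit 0) (nat_lit 23122707568) (nat_lit 608) (nat_lit 212206450) (nat_lit 684) (nat_lit 15141991610) (nat_lit 178) (nat_lit 5) (nat_lit 186) (nat_lit 5) (nat_lit 187) (nat_lit 5) (nat_lit 312) (nat_lit 299) (nat_lit 169))) (XT.nd (nat_lit 78) (nat_lit 532) (nat_lit 0) (XT.lf (nat_lit 0) (nat_lit 16580125508) (nat_lit 532) (nat_lit 13292492311) (nat_lit 608) (nat_lit 9688099482) (nat_lit 171) (nat_lit 5) (nat_lit 178) (nat_lit 5) (nat_lit 179) (nat_lit 5) (nat_lit 313) (nat_lit 299) (nat_lit 168)) (XT.lf (nat_lit 0) (nat_lit 9791936577) (nat_lit 532) (nat_lit 27324683086) (nat_lit 608) (nat_lit 3570722197) (nat_lit 164) (nat_lit 5) (nat_lit 171) (nat_lit 5) (nat_lit 172) (nat_lit 5) (nat_lit 314) (nat_lit 299) (nat_lit 167)))))) (XT.nd (nat_lit 546) (nat_lit 2280) (nat_lit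 0) (XT.nd (nat_lit 234) (nat_lit 1824) (nat_lit 0) (XT.nd (nat_lit 78) (nat_lit 532) (nat_lit 0) (XT.lf (nat_lit 0) (nat_lit 2704016669) (nat_lit 532) (nat_lit 487072812) (nat_lit 608) (nat_lit 38666563036) (nat_lit 156) (nat_lit 5) (nat_lit 163) (nat_lit 5) (nat_lit 164) (nat_lit 5) (nat_lit 315) (nat_lit 299) (nat_lit 166)) (XT.nd (nat_lit 78) (nat_lit 532) (nat_lit 0) (XT.lf (nat_lit 0) (nat_lit 10800563670) (nat_lit 608) (nat_lit 4758229996) (nat_lit 76) (nat_lit 27509125958) (nat_lit 156) (nat_lit 5) (nat_lit 164) (nat_lit 5) (nat_lit 157) (nat_lit 5) (nat_lit 316) (nat_lit 299) (nat_lit 165)) (XT.lf (nat_lit 0) (nat_lit 19222065093) (nat_lit 608) (nat_lit 12482012945) (nat_lit 76) (nat_lit 12621679375) (nat_lit 149) (nat_lit 5) (nat_lit 157) (nat_lit 5) (nat_lit 150) (nat_lit 5) (nat_lit 317) (nat_lit 299) (nat_lit 164)))) (XT.nd (nat_lit 156) (nat_lit 912) (nat_lit 0) (XT.nd (nat_lit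 78) (nat_lit 456) (nat_lit 0) (XT.lf (nat_lit 0) (nat_lit 25056962537) (nat_lit 456) (nat_lit 3450780180) (nat_lit 532) (nat_lit 17125455082) (nat_lit 143) (nat_lit 5) (nat_lit 149) (nat_lit 5) (nat_lit 150) (nat_lit 5) (nat_lit 318) (nat_lit 299) (nat_lit 163)) (XT.lf (nat_lit 0) (nat_lit 17821373123) (nat_lit 456) (nat_lit 20985288714) (nat_lit 532) (nat_lit 8182883205) (nat_lit 137) (nat_lit 5) (nat_lit 143) (nat_lit 5) (nat_lit 144) (nat_lit 5) (nat_lit 319) (nat_lit 299) (nat_lit 162))) (XT.nd (nat_lit 78) (nat_lit 456) (nat_lit 0) (XT.lf (nat_lit 0) (nat_lit 1611529163) (nat_lit 456) (nat_lit 38177968663) (nat_lit 76) (nat_lit 8611019261) (nat_lit 131) (nat_lit 5) (nat_lit 137) (nat_lit 5) (nat_lit 132) (nat_lit 5) (nat_lit 320) (nat_lit 299) (nat_lit 161)) (XT.lf (nat_lit 0) (nat_lit 2057463559) (nat_lit 456) (nat_lit 10201496302) (nat_lit 532) (nat_lit 37604674483) (nat_lit 125) (nat_lit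 5) (nat_lit 131) (nat_lit 5) (nat_lit 132) (nat_lit 5) (nat_lit 321) (nat_lit 299) (nat_lit 160))))) (XT.nd (nat_lit 312) (nat_lit 1064) (nat_lit 0) (XT.nd (nat_lit 156) (nat_lit 836) (nat_lit 0) (XT.nd (nat_lit 78) (nat_lit 380) (nat_lit 0) (XT.lf (nat_lit 0) (nat_lit 24032509533) (nat_lit 532) (nat_lit 6494699133) (nat_lit 76) (nat_lit 20854889365) (nat_lit 125) (nat_lit 5) (nat_lit 132) (nat_lit 5) (nat_lit 126) (nat_lit 5) (nat_lit 322) (nat_lit 299) (nat_lit 159)) (XT.lf (nat_lit 0) (nat_lit 36860961071) (nat_lit 456) (nat_lit 15462054857) (nat_lit 76) (nat_lit 639485091) (nat_lit 120) (nat_lit 5) (nat_lit 126) (nat_lit 5) (nat_lit 121) (nat_lit 5) (nat_lit 323) (nat_lit 299) (nat_lit 158))) (XT.nd (nat_lit 78) (nat_lit 456) (nat_lit 0) (XT.lf (nat_lit 0) (nat_lit 29473154144) (nat_lit 380) (nat_lit 21513202483) (nat_lit 456) (nat_lit 3615904597) (nat_lit 115) (nat_lit 5) (nat_lit 120)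 (nat_lit 5) (nat_lit 121) (nat_lit 5) (nat_lit 324) (nat_lit 299) (nat_lit 157)) (XT.lf (nat_lit 0) (nat_lit 9776393376) (nat_lit 456) (nat_lit 35448062814) (nat_lit 76) (nat_lit 11082788594) (nat_lit 109) (nat_lit 5) (nat_lit 115) (nat_lit 5) (nat_lit 110) (nat_lit 5) (nat_lit 325) (nat_lit 299) (nat_lit 156)))) (XT.nd (nat_lit 156) (nat_lit 380) (nat_lit 0) (XT.nd (nat_lit 78) (nat_lit 304) (nat_lit 0) (XT.lf (nat_lit 0) (nat_lit 11547169481) (nat_lit 380) (nat_lit 12803196490) (nat_lit 456) (nat_lit 33728434642) (nat_lit 104) (nat_lit 5) (nat_lit 109) (nat_lit 5) (nat_lit 110) (nat_lit 5) (nat_lit 326) (nat_lit 299) (nat_lit 155)) (XT.lf (nat_lit 0) (nat_lit 1522653691) (nat_lit 304) (nat_lit 38714574972) (nat_lit 380) (nat_lit 19684182100) (nat_lit 100) (nat_lit 5) (nat_lit 104) (nat_lit 5) (nat_lit 105) (nat_lit 5) (nat_lit 327) (nat_lit 299) (nat_lit 154))) (XT.nd (nat_lit 78) (nat_lit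 380) (nat_lit 0) (XT.lf (nat_lit 0) (nat_lit 52816131352) (nat_lit 304) (nat_lit 4706245486) (nat_lit 380) (nat_lit 4315658479) (nat_lit 100) (nat_lit 5) (nat_lit 104) (nat_lit 5) (nat_lit 105) (nat_lit 5) (nat_lit 328) (nat_lit 299) (nat_lit 153)) (XT.lf (nat_lit 0) (nat_lit 12309673562) (nat_lit 380) (nat_lit 20581753326) (nat_lit 76) (nat_lit 30934085463) (nat_lit 95) (nat_lit 5) (nat_lit 100) (nat_lit 5) (nat_lit 96) (nat_lit 5) (nat_lit 329) (nat_lit 299) (nat_lit 152))))))))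
noncomputable def xc107 : XT := (XT.nd (nat_lit 38376) (nat_lit 0) (nat_lit 5092) (XT.nd (nat_lit 1092) (nat_lit 1748) (nat_lit 0) (XT.nd (nat_lit 546) (nat_lit 1216) (nat_lit 0) (XT.nd (nat_lit 234) (nat_lit 836) (nat_lit 0) (XT.nd (nat_lit 78) (nat_lit 608) (nat_lit 0) (XT.lf (nat_lit 0) (nat_lit 30160115641) (nat_lit 380) (nat_lit 32975765746) (nat_lit 76) (nat_lit 2760708942) (nat_lit 91) (nat_lit 5) (nat_lit 96) (nat_lit 5) (nat_lit 92) (nat_lit 5) (nat_lit 330) (nat_lit 299) (nat_lit 151)) (XT.nd (nat_lit 78) (nat_lit 304) (nat_lit 0) (XT.lf (nat_lit 0) (nat_lit 21546244005) (nat_lit 304) (nat_lit 28107174153) (nat_lit 380) (nat_lit 18395295713) (nat_lit 87) (nat_lit 5) (nat_lit 91) (nat_lit 5) (nat_lit 92) (nat_lit 5) (nat_lit 331) (nat_lit 299) (nat_lit 150)) (XT.lf (nat_lit 0) (nat_lit 334372546) (nat_lit 304) (nat_lit 61020725367) (nat_lit 76) (nat_lit 8937867898) (nat_lit 83) (nat_lit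 5) (nat_lit 87) (nat_lit 5) (nat_lit 84) (nat_lit 5) (nat_lit 332) (nat_lit 299) (nat_lit 149)))) (XT.nd (nat_lit 156) (nat_lit 532) (nat_lit 0) (XT.nd (nat_lit 78) (nat_lit 304) (nat_lit 0) (XT.lf (nat_lit 0) (nat_lit 20388170411) (nat_lit 304) (nat_lit 4305505057) (nat_lit 76) (nat_lit 47927249856) (nat_lit 83) (nat_lit 5) (nat_lit 87) (nat_lit 5) (nat_lit 84) (nat_lit 5) (nat_lit 333) (nat_lit 299) (nat_lit 148)) (XT.lf (nat_lit 0) (nat_lit 42121799731) (nat_lit 380) (nat_lit 18845832058) (nat_lit 76) (nat_lit 14077338299) (nat_lit 79) (nat_lit 5) (nat_lit 84) (nat_lit 5) (nat_lit 80) (nat_lit 5) (nat_lit 334) (nat_lit 299) (nat_lit 147))) (XT.nd (nat_lit 78) (nat_lit 304) (nat_lit 0) (XT.lf (nat_lit 0) (nat_lit 42812277123) (nat_lit 228) (nat_lit 22832984683) (nat_lit 304) (nat_lit 11923862197) (nat_lit 76) (nat_lit 5) (nat_lit 79) (nat_lit 5) (nat_lit 80) (nat_lit 5) (nat_lit 335) (nat_lit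 299) (nat_lit 146)) (XT.lf (nat_lit 0) (nat_lit 10563301250) (nat_lit 304) (nat_lit 52193033663) (nat_lit 76) (nat_lit 17441167900) (nat_lit 72) (nat_lit 5) (nat_lit 76) (nat_lit 5) (nat_lit 73) (nat_lit 5) (nat_lit 336) (nat_lit 299) (nat_lit 145))))) (XT.nd (nat_lit 234) (nat_lit 760) (nat_lit 0) (XT.nd (nat_lit 78) (nat_lit 228) (nat_lit 0) (XT.lf (nat_lit 0) (nat_lit 11551186163) (nat_lit 228) (nat_lit 23079892031) (nat_lit 304) (nat_lit 48301596134) (nat_lit 69) (nat_lit 5) (nat_lit 72) (nat_lit 5) (nat_lit 73) (nat_lit 5) (nat_lit 337) (nat_lit 299) (nat_lit 144)) (XT.nd (nat_lit 78) (nat_lit 228) (nat_lit 0) (XT.lf (nat_lit 0) (nat_lit 60621251997) (nat_lit 304) (nat_lit 6402537079) (nat_lit 76) (nat_lit 18759246319) (nat_lit 69) (nat_lit 5) (nat_lit 73) (nat_lit 5) (nat_lit 70) (nat_lit 5) (nat_lit 338) (nat_lit 299) (nat_lit 143)) (XT.lf (nat_lit 0) (nat_lit 62814895043) (nat_lit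 228) (nat_lit 25930711543) (nat_lit 304) (nat_lit 5268925) (nat_lit 66) (nat_lit 5) (nat_lit 69) (nat_lit 5) (nat_lit 70) (nat_lit 5) (nat_lit 339) (nat_lit 299) (nat_lit 142)))) (XT.nd (nat_lit 156) (nat_lit 228) (nat_lit 0) (XT.nd (nat_lit 78) (nat_lit 228) (nat_lit 0) (XT.lf (nat_lit 0) (nat_lit 26557646205) (nat_lit 304) (nat_lit 47647687995) (nat_lit 76) (nat_lit 17634241368) (nat_lit 62) (nat_lit 5) (nat_lit 66) (nat_lit 5) (nat_lit 63) (nat_lit 5) (nat_lit 340) (nat_lit 299) (nat_lit 141)) (XT.lf (nat_lit 0) (nat_lit 23484105432) (nat_lit 228) (nat_lit 31719604349) (nat_lit 304) (nat_lit 39856346955) (nat_lit 59) (nat_lit 5) (nat_lit 62) (nat_lit 5) (nat_lit 63) (nat_lit 5) (nat_lit 341) (nat_lit 299) (nat_lit 140))) (XT.nd (nat_lit 78) (nat_lit 76) (nat_lit 0) (XT.lf (nat_lit 0) (nat_lit 621577090) (nat_lit 152) (nat_lit 85283796926) (nat_lit 228) (nat_lit 12517489992) (nat_lit 57)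 (nat_lit 5) (nat_lit 59) (nat_lit 5) (nat_lit 60) (nat_lit 5) (nat_lit 342) (nat_lit 299) (nat_lit 139)) (XT.lf (nat_lit 0) (nat_lit 16934785937) (nat_lit 228) (nat_lit 24493131395) (nat_lit 76) (nat_lit 60489355803) (nat_lit 56) (nat_lit 5) (nat_lit 59) (nat_lit 5) (nat_lit 57) (nat_lit 5) (nat_lit 343) (nat_lit 299) (nat_lit 138)))))) (XT.nd (nat_lit 546) (nat_lit 684) (nat_lit 0) (XT.nd (nat_lit 234) (nat_lit 608) (nat_lit 0) (XT.nd (nat_lit 78) (nat_lit 228) (nat_lit 0) (XT.lf (nat_lit 0) (nat_lit 48165385637) (nat_lit 304) (nat_lit 52224954410) (nat_lit 76) (nat_lit 5175407734) (nat_lit 53) (nat_lit 5) (nat_lit 57) (nat_lit 5) (nat_lit 54) (nat_lit 5) (nat_lit 344) (nat_lit 299) (nat_lit 137)) (XT.nd (nat_lit 78) (nat_lit 76) (nat_lit 0) (XT.lf (nat_lit 0) (nat_lit 26278430618) (nat_lit 152) (nat_lit 55602708896) (nat_lit 228) (nat_lit 27487798736) (nat_lit 51) (nat_lit 5) (nat_lit 53)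 (nat_lit 5) (nat_lit 54) (nat_lit 5) (nat_lit 345) (nat_lit 299) (nat_lit 136)) (XT.lf (nat_lit 0) (nat_lit 4385109834) (nat_lit 228) (nat_lit 3593671880) (nat_lit 76) (nat_lit 105366140186) (nat_lit 50) (nat_lit 5) (nat_lit 53) (nat_lit 5) (nat_lit 51) (nat_lit 5) (nat_lit 346) (nat_lit 299) (nat_lit 135)))) (XT.nd (nat_lit 156) (nat_lit 228) (nat_lit 0) (XT.nd (nat_lit 78) (nat_lit 152) (nat_lit 0) (XT.lf (nat_lit 0) (nat_lit 38481642740) (nat_lit 304) (nat_lit 36720449519) (nat_lit 76) (nat_lit 42273494436) (nat_lit 47) (nat_lit 5) (nat_lit 51) (nat_lit 5) (nat_lit 48) (nat_lit 5) (nat_lit 347) (nat_lit 299) (nat_lit 134)) (XT.lf (nat_lit 0) (nat_lit 48446616638) (nat_lit 152) (nat_lit 26418385345) (nat_lit 228) (nat_lit 46930323439) (nat_lit 45) (nat_lit 5) (nat_lit 47) (nat_lit 5) (nat_lit 48) (nat_lit 5) (nat_lit 348) (nat_lit 299) (nat_lit 133))) (XT.nd (nat_lit 78) (nat_lit 76) (nat_lit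 0) (XT.lf (nat_lit 0) (nat_lit 12315186775) (nat_lit 152) (nat_lit 101489357134) (nat_lit 228) (nat_lit 12504397387) (nat_lit 43) (nat_lit 5) (nat_lit 45) (nat_lit 5) (nat_lit 46) (nat_lit 5) (nat_lit 349) (nat_lit 299) (nat_lit 132)) (XT.lf (nat_lit 0) (nat_lit 24209135654) (nat_lit 228) (nat_lit 27734507367) (nat_lit 76) (nat_lit 79066947444) (nat_lit 42) (nat_lit 5) (nat_lit 45) (nat_lit 5) (nat_lit 43) (nat_lit 5) (nat_lit 350) (nat_lit 299) (nat_lit 131))))) (XT.nd (nat_lit 234) (nat_lit 304) (nat_lit 0) (XT.nd (nat_lit 78) (nat_lit 228) (nat_lit 0) (XT.lf (nat_lit 0) (nat_lit 63123579779) (nat_lit 228) (nat_lit 71976156130) (nat_lit 76) (nat_lit 825157245) (nat_lit 40) (nat_lit 5) (nat_lit 43) (nat_lit 5) (nat_lit 41) (nat_lit 5) (nat_lit 351) (nat_lit 299) (nat_lit 130)) (XT.nd (nat_lit 78) (nat_lit 76) (nat_lit 0) (XT.lf (nat_lit 0) (nat_lit 19571758194) (nat_lit 152) (nat_lit 85411325070)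 (nat_lit 228) (nat_lit 36071848143) (nat_lit 38) (nat_lit 5) (nat_lit 40) (nat_lit 5) (nat_lit 41) (nat_lit 5) (nat_lit 352) (nat_lit 299) (nat_lit 129)) (XT.lf (nat_lit 0) (nat_lit 3192311698) (nat_lit 228) (nat_lit 29251772835) (nat_lit 76) (nat_lit 113974261602) (nat_lit 37) (nat_lit 5) (nat_lit 40) (nat_lit 5) (nat_lit 38) (nat_lit 5) (nat_lit 353) (nat_lit 299) (nat_lit 128)))) (XT.nd (nat_lit 156) (nat_lit 0) (nat_lit 0) (XT.nd (nat_lit 78) (nat_lit 152) (nat_lit 0) (XT.lf (nat_lit 0) (nat_lit 44571208917) (nat_lit 228) (nat_lit 83689378313) (nat_lit 76) (nat_lit 23751703924) (nat_lit 35) (nat_lit 5) (nat_lit 38) (nat_lit 5) (nat_lit 36) (nat_lit 5) (nat_lit 354) (nat_lit 299) (nat_lit 127)) (XT.lf (nat_lit 0) (nat_lit 13440302032) (nat_lit 152) (nat_lit 75338234983) (nat_lit 228) (nat_lit 69084612286) (nat_lit 33) (nat_lit 5) (nat_lit 35) (nat_lit 5) (nat_lit 36) (nat_lit 5) (nat_lit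 355) (nat_lit 299) (nat_lit 126))) (XT.nd (nat_lit 36270) (nat_lit 0) (nat_lit 13072) (XT.lf (nat_lit 0) (nat_lit 117173163835) (nat_lit 152) (nat_lit 18883337105) (nat_lit 228) (nat_lit 27924241769) (nat_lit 33) (nat_lit 5) (nat_lit 35) (nat_lit 5) (nat_lit 36) (nat_lit 5) (nat_lit 356) (nat_lit 299) (nat_lit 125)) (XT.lf (nat_lit 0) (nat_lit 4611040646) (nat_lit 0) (nat_lit 4611040646) (nat_lit 1140) (nat_lit 5184727759) (nat_lit 205) (nat_lit 5) (nat_lit 205) (nat_lit 3) (nat_lit 220) (nat_lit 3) (nat_lit 300) (nat_lit 300) (nat_lit 180))))))) (XT.nd (nat_lit 1092) (nat_lit 5396) (nat_lit 0) (XT.nd (nat_lit 546) (nat_lit 2584) (nat_lit 0) (XT.nd (nat_lit 234) (nat_lit 0) (nat_lit 152) (XT.nd (nat_lit 78) (nat_lit 0) (nat_lit 76) (XT.lf (nat_lit 76) (nat_lit 2361546091) (nat_lit 0) (nat_lit 16815482642) (nat_lit 1216) (nat_lit 10348647987) (nat_lit 206) (nat_lit 5) (nat_lit 205) (nat_lit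 5) (nat_lit 221) (nat_lit 5) (nat_lit 301) (nat_lit 300) (nat_lit 179)) (XT.nd (nat_lit 78) (nat_lit 0) (nat_lit 0) (XT.lf (nat_lit 0) (nat_lit 20285172822) (nat_lit 1140) (nat_lit 4595149914) (nat_lit 1216) (nat_lit 5382864746) (nat_lit 206) (nat_lit 5) (nat_lit 221) (nat_lit 5) (nat_lit 222) (nat_lit 5) (nat_lit 302) (nat_lit 300) (nat_lit 178)) (XT.lf (nat_lit 76) (nat_lit 19304841119) (nat_lit 0) (nat_lit 2491604772) (nat_lit 1216) (nat_lit 9230704101) (nat_lit 207) (nat_lit 5) (nat_lit 206) (nat_lit 5) (nat_lit 222) (nat_lit 5) (nat_lit 303) (nat_lit 300) (nat_lit 177)))) (XT.nd (nat_lit 156) (nat_lit 0) (nat_lit 152) (XT.nd (nat_lit 78) (nat_lit 0) (nat_lit 76) (XT.lf (nat_lit 76) (nat_lit 12708920194) (nat_lit 0) (nat_lit 11039100347) (nat_lit 1216) (nat_lit 8070355438) (nat_lit 208) (nat_lit 5) (nat_lit 207) (nat_lit 5) (nat_lit 223) (nat_lit 5) (nat_lit 304) (nat_lit 300) (nat_lit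 176)) (XT.lf (nat_lit 76) (nat_lit 5925714667) (nat_lit 0) (nat_lit 20188582610) (nat_lit 1216) (nat_lit 6525359417) (nat_lit 209) (nat_lit 5) (nat_lit 208) (nat_lit 5) (nat_lit 224) (nat_lit 5) (nat_lit 305) (nat_lit 300) (nat_lit 175))) (XT.nd (nat_lit 78) (nat_lit 0) (nat_lit 0) (XT.lf (nat_lit 0) (nat_lit 28933870516) (nat_lit 1140) (nat_lit 1033735081) (nat_lit 1216) (nat_lit 3524353163) (nat_lit 209) (nat_lit 5) (nat_lit 224) (nat_lit 5) (nat_lit 225) (nat_lit 5) (nat_lit 306) (nat_lit 300) (nat_lit 174)) (XT.lf (nat_lit 76) (nat_lit 26234112380) (nat_lit 0) (nat_lit 6109977877) (nat_lit 1216) (nat_lit 2029302105) (nat_lit 210) (nat_lit 5) (nat_lit 209) (nat_lit 5) (nat_lit 225) (nat_lit 5) (nat_lit 307) (nat_lit 300) (nat_lit 173))))) (XT.nd (nat_lit 234) (nat_lit 1748) (nat_lit 0) (XT.nd (nat_lit 78) (nat_lit 0) (nat_lit 76) (XT.lf (nat_lit 0) (nat_lit 994456351) (nat_lit 1216) (nat_lit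 15509606670) (nat_lit 1292) (nat_lit 18783237691) (nat_lit 194) (nat_lit 5) (nat_lit 210) (nat_lit 5) (nat_lit 211) (nat_lit 5) (nat_lit 308) (nat_lit 300) (nat_lit 172)) (XT.nd (nat_lit 78) (nat_lit 0) (nat_lit 0) (XT.lf (nat_lit 0) (nat_lit 4479538571) (nat_lit 1216) (nat_lit 23136832331) (nat_lit 1292) (nat_lit 8619373363) (nat_lit 195) (nat_lit 5) (nat_lit 211) (nat_lit 5) (nat_lit 212) (nat_lit 5) (nat_lit 309) (nat_lit 300) (nat_lit 171)) (XT.lf (nat_lit 76) (nat_lit 6182994662) (nat_lit 0) (nat_lit 2337552429) (nat_lit 1292) (nat_lit 28699618165) (nat_lit 196) (nat_lit 5) (nat_lit 195) (nat_lit 5) (nat_lit 212) (nat_lit 5) (nat_lit 310) (nat_lit 300) (nat_lit 170)))) (XT.nd (nat_lit 156) (nat_lit 1140) (nat_lit 0) (XT.nd (nat_lit 78) (nat_lit 760) (nat_lit 0) (XT.lf (nat_lit 0) (nat_lit 13231462805) (nat_lit 1216) (nat_lit 1034070805) (nat_lit 76) (nat_lit 23974243149) (nat_lit 196)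 (nat_lit 5) (nat_lit 212) (nat_lit 5) (nat_lit 197) (nat_lit 5) (nat_lit 311) (nat_lit 300) (nat_lit 169)) (XT.lf (nat_lit 0) (nat_lit 18615523641) (nat_lit 836) (nat_lit 8374552522) (nat_lit 76) (nat_lit 12307169616) (nat_lit 186) (nat_lit 5) (nat_lit 197) (nat_lit 5) (nat_lit 187) (nat_lit 5) (nat_lit 312) (nat_lit 300) (nat_lit 168))) (XT.nd (nat_lit 78) (nat_lit 532) (nat_lit 0) (XT.lf (nat_lit 0) (nat_lit 24419572216) (nat_lit 608) (nat_lit 233798179) (nat_lit 684) (nat_lit 15742685055) (nat_lit 178) (nat_lit 5) (nat_lit 186) (nat_lit 5) (nat_lit 187) (nat_lit 5) (nat_lit 313) (nat_lit 300) (nat_lit 167)) (XT.lf (nat_lit 0) (nat_lit 17550490476) (nat_lit 532) (nat_lit 13961502885) (nat_lit 608) (nat_lit 10022250190) (nat_lit 171) (nat_lit 5) (nat_lit 178) (nat_lit 5) (nat_lit 179) (nat_lit 5) (nat_lit 314) (nat_lit 300) (nat_lit 166)))))) (XT.nd (nat_lit 546) (nat_lit 2356) (nat_lit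 0) (XT.nd (nat_lit 234) (nat_lit 1900) (nat_lit 0) (XT.nd (nat_lit 78) (nat_lit 608) (nat_lit 0) (XT.lf (nat_lit 0) (nat_lit 10423261380) (nat_lit 532) (nat_lit 28689315918) (nat_lit 608) (nat_lit 3604797116) (nat_lit 164) (nat_lit 5) (nat_lit 171) (nat_lit 5) (nat_lit 172) (nat_lit 5) (nat_lit 315) (nat_lit 300) (nat_lit 165)) (XT.nd (nat_lit 78) (nat_lit 0) (nat_lit 0) (XT.lf (nat_lit 0) (nat_lit 2979744319) (nat_lit 532) (nat_lit 507147830) (nat_lit 608) (nat_lit 40459434661) (nat_lit 156) (nat_lit 5) (nat_lit 163) (nat_lit 5) (nat_lit 164) (nat_lit 5) (nat_lit 316) (nat_lit 300) (nat_lit 164)) (XT.lf (nat_lit 0) (nat_lit 11470391209) (nat_lit 608) (nat_lit 4858337667) (nat_lit 76) (nat_lit 28888577619) (nat_lit 156) (nat_lit 5) (nat_lit 164) (nat_lit 5) (nat_lit 157) (nat_lit 5) (nat_lit 317) (nat_lit 300) (nat_lit 163)))) (XT.nd (nat_lit 156) (nat_lit 912) (nat_lit 0) (XT.nd (nat_lit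 78) (nat_lit 456) (nat_lit 0) (XT.lf (nat_lit 0) (nat_lit 20308159484) (nat_lit 608) (nat_lit 12968489101) (nat_lit 76) (nat_lit 13261537317) (nat_lit 149) (nat_lit 5) (nat_lit 157) (nat_lit 5) (nat_lit 150) (nat_lit 5) (nat_lit 318) (nat_lit 300) (nat_lit 162)) (XT.lf (nat_lit 0) (nat_lit 26443490177) (nat_lit 456) (nat_lit 3609963863) (nat_lit 532) (nat_lit 17857689498) (nat_lit 143) (nat_lit 5) (nat_lit 149) (nat_lit 5) (nat_lit 150) (nat_lit 5) (nat_lit 319) (nat_lit 300) (nat_lit 161))) (XT.nd (nat_lit 78) (nat_lit 456) (nat_lit 0) (XT.lf (nat_lit 0) (nat_lit 18845772383) (nat_lit 456) (nat_lit 22017220932) (nat_lit 532) (nat_lit 8472449574) (nat_lit 137) (nat_lit 5) (nat_lit 143) (nat_lit 5) (nat_lit 144) (nat_lit 5) (nat_lit 320) (nat_lit 300) (nat_lit 160)) (XT.lf (nat_lit 0) (nat_lit 1805216621) (nat_lit 456) (nat_lit 39951700327) (nat_lit 76) (nat_lit 9060140704) (nat_lit 131) (nat_lit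 5) (nat_lit 137) (nat_lit 5) (nat_lit 132) (nat_lit 5) (nat_lit 321) (nat_lit 300) (nat_lit 159))))) (XT.nd (nat_lit 312) (nat_lit 1140) (nat_lit 0) (XT.nd (nat_lit 156) (nat_lit 760) (nat_lit 0) (XT.nd (nat_lit 78) (nat_lit 0) (nat_lit 0) (XT.lf (nat_lit 0) (nat_lit 2291628978) (nat_lit 456) (nat_lit 10689265700) (nat_lit 532) (nat_lit 39372564199) (nat_lit 125) (nat_lit 5) (nat_lit 131) (nat_lit 5) (nat_lit 132) (nat_lit 5) (nat_lit 322) (nat_lit 300) (nat_lit 158)) (XT.lf (nat_lit 0) (nat_lit 25338136187) (nat_lit 532) (nat_lit 6691400745) (nat_lit 76) (nat_lit 21918462556) (nat_lit 125) (nat_lit 5) (nat_lit 132) (nat_lit 5) (nat_lit 126) (nat_lit 5) (nat_lit 323) (nat_lit 300) (nat_lit 157))) (XT.nd (nat_lit 78) (nat_lit 380) (nat_lit 0) (XT.lf (nat_lit 0) (nat_lit 38804485168) (nat_lit 456) (nat_lit 16107939390) (nat_lit 76) (nat_lit 695107793) (nat_lit 120) (nat_lit 5) (nat_lit 126)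 (nat_lit 5) (nat_lit 121) (nat_lit 5) (nat_lit 324) (nat_lit 300) (nat_lit 156)) (XT.lf (nat_lit 0) (nat_lit 31070383378) (nat_lit 380) (nat_lit 22562170397) (nat_lit 456) (nat_lit 3696838477) (nat_lit 115) (nat_lit 5) (nat_lit 120) (nat_lit 5) (nat_lit 121) (nat_lit 5) (nat_lit 325) (nat_lit 300) (nat_lit 155)))) (XT.nd (nat_lit 156) (nat_lit 304) (nat_lit 0) (XT.nd (nat_lit 78) (nat_lit 380) (nat_lit 0) (XT.lf (nat_lit 0) (nat_lit 10359900933) (nat_lit 456) (nat_lit 37095834825) (nat_lit 76) (nat_lit 11663960675) (nat_lit 109) (nat_lit 5) (nat_lit 115) (nat_lit 5) (nat_lit 110) (nat_lit 5) (nat_lit 326) (nat_lit 300) (nat_lit 154)) (XT.lf (nat_lit 0) (nat_lit 12245586558) (nat_lit 380) (nat_lit 13413640342) (nat_lit 456) (nat_lit 35320706842) (nat_lit 104) (nat_lit 5) (nat_lit 109) (nat_lit 5) (nat_lit 110) (nat_lit 5) (nat_lit 327) (nat_lit 300) (nat_lit 153))) (XT.nd (nat_lit 78) (nat_lit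 0) (nat_lit 0) (XT.lf (nat_lit 0) (nat_lit 1718823841) (nat_lit 304) (nat_lit 40618685157) (nat_lit 380) (nat_lit 20577256287) (nat_lit 100) (nat_lit 5) (nat_lit 104) (nat_lit 5) (nat_lit 105) (nat_lit 5) (nat_lit 328) (nat_lit 300) (nat_lit 152)) (XT.lf (nat_lit 0) (nat_lit 55571259315) (nat_lit 304) (nat_lit 4911444843) (nat_lit 380) (nat_lit 4444646243) (nat_lit 100) (nat_lit 5) (nat_lit 104) (nat_lit 5) (nat_lit 105) (nat_lit 5) (nat_lit 329) (nat_lit 300) (nat_lit 151))))))))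
noncomputable def xc108 : XT := (XT.nd (nat_lit 38532) (nat_lit 0) (nat_lit 4940) (XT.nd (nat_lit 1092) (nat_lit 1672) (nat_lit 0) (XT.nd (nat_lit 546) (nat_lit 1444) (nat_lit 0) (XT.nd (nat_lit 234) (nat_lit 836) (nat_lit 0) (XT.nd (nat_lit 78) (nat_lit 608) (nat_lit 0) (XT.lf (nat_lit 0) (nat_lit 13007584329) (nat_lit 380) (nat_lit 21495868892) (nat_lit 76) (nat_lit 32510806060) (nat_lit 95) (nat_lit 5) (nat_lit 100) (nat_lit 5) (nat_lit 96) (nat_lit 5) (nat_lit 330) (nat_lit 300) (nat_lit 150)) (XT.nd (nat_lit 78) (nat_lit 304) (nat_lit 0) (XT.lf (nat_lit 0) (nat_lit 31748005489) (nat_lit 380) (nat_lit 34510745680) (nat_lit 76) (nat_lit 2930218940) (nat_lit 91) (nat_lit 5) (nat_lit 96) (nat_lit 5) (nat_lit 92) (nat_lit 5) (nat_lit 331) (nat_lit 300) (nat_lit 149)) (XT.lf (nat_lit 0) (nat_lit 22734102266) (nat_lit 304) (nat_lit 29479129500) (nat_lit 380) (nat_lit 19235552839) (nat_lit 87)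 (nat_lit 5) (nat_lit 91) (nat_lit 5) (nat_lit 92) (nat_lit 5) (nat_lit 332) (nat_lit 300) (nat_lit 148)))) (XT.nd (nat_lit 156) (nat_lit 532) (nat_lit 0) (XT.nd (nat_lit 78) (nat_lit 0) (nat_lit 0) (XT.lf (nat_lit 0) (nat_lit 426705653) (nat_lit 304) (nat_lit 63960847338) (nat_lit 76) (nat_lit 9417745815) (nat_lit 83) (nat_lit 5) (nat_lit 87) (nat_lit 5) (nat_lit 84) (nat_lit 5) (nat_lit 333) (nat_lit 300) (nat_lit 147)) (XT.lf (nat_lit 0) (nat_lit 21479592722) (nat_lit 304) (nat_lit 4415147646) (nat_lit 76) (nat_lit 50355026179) (nat_lit 83) (nat_lit 5) (nat_lit 87) (nat_lit 5) (nat_lit 84) (nat_lit 5) (nat_lit 334) (nat_lit 300) (nat_lit 146))) (XT.nd (nat_lit 78) (nat_lit 228) (nat_lit 0) (XT.lf (nat_lit 0) (nat_lit 44297778121) (nat_lit 380) (nat_lit 19683706847) (nat_lit 76) (nat_lit 14813594468) (nat_lit 79) (nat_lit 5) (nat_lit 84) (nat_lit 5) (nat_lit 80) (nat_lit 5) (nat_lit 335)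 (nat_lit 300) (nat_lit 145)) (XT.lf (nat_lit 0) (nat_lit 45054314706) (nat_lit 228) (nat_lit 23940745522) (nat_lit 304) (nat_lit 12450453436) (nat_lit 76) (nat_lit 5) (nat_lit 79) (nat_lit 5) (nat_lit 80) (nat_lit 5) (nat_lit 336) (nat_lit 300) (nat_lit 144))))) (XT.nd (nat_lit 234) (nat_lit 912) (nat_lit 0) (XT.nd (nat_lit 78) (nat_lit 228) (nat_lit 0) (XT.lf (nat_lit 0) (nat_lit 11157746408) (nat_lit 304) (nat_lit 54701121492) (nat_lit 76) (nat_lit 18346484222) (nat_lit 72) (nat_lit 5) (nat_lit 76) (nat_lit 5) (nat_lit 73) (nat_lit 5) (nat_lit 337) (nat_lit 300) (nat_lit 143)) (XT.nd (nat_lit 78) (nat_lit 0) (nat_lit 0) (XT.lf (nat_lit 0) (nat_lit 12227398018) (nat_lit 228) (nat_lit 24199306295) (nat_lit 304) (nat_lit 50650645918) (nat_lit 69) (nat_lit 5) (nat_lit 72) (nat_lit 5) (nat_lit 73) (nat_lit 5) (nat_lit 338) (nat_lit 300) (nat_lit 142)) (XT.lf (nat_lit 0) (nat_lit 63713652326)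 (nat_lit 304) (nat_lit 6627161121) (nat_lit 76) (nat_lit 19729499635) (nat_lit 69) (nat_lit 5) (nat_lit 73) (nat_lit 5) (nat_lit 70) (nat_lit 5) (nat_lit 339) (nat_lit 300) (nat_lit 141)))) (XT.nd (nat_lit 156) (nat_lit 380) (nat_lit 0) (XT.nd (nat_lit 78) (nat_lit 228) (nat_lit 0) (XT.lf (nat_lit 0) (nat_lit 54503102) (nat_lit 304) (nat_lit 27138737001) (nat_lit 76) (nat_lit 65993351562) (nat_lit 65) (nat_lit 5) (nat_lit 69) (nat_lit 5) (nat_lit 66) (nat_lit 5) (nat_lit 340) (nat_lit 300) (nat_lit 140)) (XT.lf (nat_lit 0) (nat_lit 27943800447) (nat_lit 304) (nat_lit 49937329351) (nat_lit 76) (nat_lit 18548646495) (nat_lit 62) (nat_lit 5) (nat_lit 66) (nat_lit 5) (nat_lit 63) (nat_lit 5) (nat_lit 341) (nat_lit 300) (nat_lit 139))) (XT.nd (nat_lit 78) (nat_lit 152) (nat_lit 0) (XT.lf (nat_lit 0) (nat_lit 24748395287) (nat_lit 228) (nat_lit 33271863009) (nat_lit 304) (nat_lit 41791081913) (nat_lit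 59) (nat_lit 5) (nat_lit 62) (nat_lit 5) (nat_lit 63) (nat_lit 5) (nat_lit 342) (nat_lit 300) (nat_lit 138)) (XT.lf (nat_lit 0) (nat_lit 741513490) (nat_lit 152) (nat_lit 89513971169) (nat_lit 228) (nat_lit 13086850175) (nat_lit 57) (nat_lit 5) (nat_lit 59) (nat_lit 5) (nat_lit 60) (nat_lit 5) (nat_lit 343) (nat_lit 300) (nat_lit 137)))))) (XT.nd (nat_lit 546) (nat_lit 608) (nat_lit 0) (XT.nd (nat_lit 234) (nat_lit 608) (nat_lit 0) (XT.nd (nat_lit 78) (nat_lit 380) (nat_lit 0) (XT.lf (nat_lit 0) (nat_lit 17834298110) (nat_lit 228) (nat_lit 25632086374) (nat_lit 76) (nat_lit 63545144049) (nat_lit 56) (nat_lit 5) (nat_lit 59) (nat_lit 5) (nat_lit 57) (nat_lit 5) (nat_lit 344) (nat_lit 300) (nat_lit 136)) (XT.nd (nat_lit 78) (nat_lit 152) (nat_lit 0) (XT.lf (nat_lit 0) (nat_lit 50625024383) (nat_lit 304) (nat_lit 54751710858) (nat_lit 76) (nat_lit 5465734967) (nat_lit 53) (nat_lit 5) (nat_lit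 57) (nat_lit 5) (nat_lit 54) (nat_lit 5) (nat_lit 345) (nat_lit 300) (nat_lit 135)) (XT.lf (nat_lit 0) (nat_lit 27674421497) (nat_lit 152) (nat_lit 58350487193) (nat_lit 228) (nat_lit 28810962365) (nat_lit 51) (nat_lit 5) (nat_lit 53) (nat_lit 5) (nat_lit 54) (nat_lit 5) (nat_lit 346) (nat_lit 300) (nat_lit 134)))) (XT.nd (nat_lit 156) (nat_lit 304) (nat_lit 0) (XT.nd (nat_lit 78) (nat_lit 228) (nat_lit 0) (XT.lf (nat_lit 0) (nat_lit 4652200276) (nat_lit 228) (nat_lit 3694221153) (nat_lit 76) (nat_lit 110664290489) (nat_lit 50) (nat_lit 5) (nat_lit 53) (nat_lit 5) (nat_lit 51) (nat_lit 5) (nat_lit 347) (nat_lit 300) (nat_lit 133)) (XT.lf (nat_lit 0) (nat_lit 40452314713) (nat_lit 304) (nat_lit 38478490993) (nat_lit 76) (nat_lit 44417142601) (nat_lit 47) (nat_lit 5) (nat_lit 51) (nat_lit 5) (nat_lit 48) (nat_lit 5) (nat_lit 348) (nat_lit 300) (nat_lit 132))) (XT.nd (nat_lit 78) (nat_lit 152)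 (nat_lit 0) (XT.lf (nat_lit 0) (nat_lit 50944693162) (nat_lit 152) (nat_lit 27708658307) (nat_lit 228) (nat_lit 49230368170) (nat_lit 45) (nat_lit 5) (nat_lit 47) (nat_lit 5) (nat_lit 48) (nat_lit 5) (nat_lit 349) (nat_lit 300) (nat_lit 131)) (XT.lf (nat_lit 0) (nat_lit 13005567150) (nat_lit 152) (nat_lit 106533153617) (nat_lit 228) (nat_lit 13084330939) (nat_lit 43) (nat_lit 5) (nat_lit 45) (nat_lit 5) (nat_lit 46) (nat_lit 5) (nat_lit 350) (nat_lit 300) (nat_lit 130))))) (XT.nd (nat_lit 234) (nat_lit 228) (nat_lit 0) (XT.nd (nat_lit 78) (nat_lit 304) (nat_lit 0) (XT.lf (nat_lit 0) (nat_lit 25461880645) (nat_lit 228) (nat_lit 29049306668) (nat_lit 76) (nat_lit 83048647233) (nat_lit 42) (nat_lit 5) (nat_lit 45) (nat_lit 5) (nat_lit 43) (nat_lit 5) (nat_lit 351) (nat_lit 300) (nat_lit 129)) (XT.nd (nat_lit 78) (nat_lit 152) (nat_lit 0) (XT.lf (nat_lit 0) (nat_lit 66320982810) (nat_lit 228)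 (nat_lit 75504133216) (nat_lit 76) (nat_lit 894769067) (nat_lit 40) (nat_lit 5) (nat_lit 43) (nat_lit 5) (nat_lit 41) (nat_lit 5) (nat_lit 352) (nat_lit 300) (nat_lit 128)) (XT.lf (nat_lit 0) (nat_lit 20619146475) (nat_lit 152) (nat_lit 89653013296) (nat_lit 228) (nat_lit 37834305301) (nat_lit 38) (nat_lit 5) (nat_lit 40) (nat_lit 5) (nat_lit 41) (nat_lit 5) (nat_lit 353) (nat_lit 300) (nat_lit 127)))) (XT.nd (nat_lit 36504) (nat_lit 0) (nat_lit 12920) (XT.nd (nat_lit 78) (nat_lit 152) (nat_lit 0) (XT.lf (nat_lit 0) (nat_lit 3390339237) (nat_lit 228) (nat_lit 30648058754) (nat_lit 76) (nat_lit 119699699005) (nat_lit 37) (nat_lit 5) (nat_lit 40) (nat_lit 5) (nat_lit 38) (nat_lit 5) (nat_lit 354) (nat_lit 300) (nat_lit 126)) (XT.lf (nat_lit 0) (nat_lit 46837232715) (nat_lit 228) (nat_lit 87808577053) (nat_lit 76) (nat_lit 24965958627) (nat_lit 35) (nat_lit 5) (nat_lit 38) (nat_lit 5) (nat_lit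 36) (nat_lit 5) (nat_lit 355) (nat_lit 300) (nat_lit 125))) (XT.nd (nat_lit 78) (nat_lit 0) (nat_lit 0) (XT.lf (nat_lit 0) (nat_lit 4902956554) (nat_lit 0) (nat_lit 4902956554) (nat_lit 1140) (nat_lit 5317427602) (nat_lit 205) (nat_lit 5) (nat_lit 205) (nat_lit 3) (nat_lit 220) (nat_lit 3) (nat_lit 301) (nat_lit 301) (nat_lit 178)) (XT.lf (nat_lit 76) (nat_lit 2607378328) (nat_lit 0) (nat_lit 17762373486) (nat_lit 1216) (nat_lit 10624950760) (nat_lit 206) (nat_lit 5) (nat_lit 205) (nat_lit 5) (nat_lit 221) (nat_lit 5) (nat_lit 302) (nat_lit 301) (nat_lit 177))))))) (XT.nd (nat_lit 1092) (nat_lit 4864) (nat_lit 0) (XT.nd (nat_lit 546) (nat_lit 2280) (nat_lit 0) (XT.nd (nat_lit 234) (nat_lit 912) (nat_lit 0) (XT.nd (nat_lit 78) (nat_lit 0) (nat_lit 0) (XT.lf (nat_lit 0) (nat_lit 21521194878) (nat_lit 1140) (nat_lit 4695352197) (nat_lit 1216) (nat_lit 5552916562) (nat_lit 206) (nat_lit 5) (nat_lit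 221) (nat_lit 5) (nat_lit 222) (nat_lit 5) (nat_lit 303) (nat_lit 301) (nat_lit 176)) (XT.nd (nat_lit 78) (nat_lit 0) (nat_lit 76) (XT.lf (nat_lit 76) (nat_lit 20395924713) (nat_lit 0) (nat_lit 2702756391) (nat_lit 1216) (nat_lit 9473234651) (nat_lit 207) (nat_lit 5) (nat_lit 206) (nat_lit 5) (nat_lit 222) (nat_lit 5) (nat_lit 304) (nat_lit 301) (nat_lit 175)) (XT.lf (nat_lit 76) (nat_lit 13473811627) (nat_lit 0) (nat_lit 11664359717) (nat_lit 1216) (nat_lit 8264832036) (nat_lit 208) (nat_lit 5) (nat_lit 207) (nat_lit 5) (nat_lit 223) (nat_lit 5) (nat_lit 305) (nat_lit 301) (nat_lit 174)))) (XT.nd (nat_lit 156) (nat_lit 1064) (nat_lit 0) (XT.nd (nat_lit 78) (nat_lit 0) (nat_lit 76) (XT.lf (nat_lit 76) (nat_lit 6354530800) (nat_lit 0) (nat_lit 21259179238) (nat_lit 1216) (nat_lit 6651919599) (nat_lit 209) (nat_lit 5) (nat_lit 208) (nat_lit 5) (nat_lit 224) (nat_lit 5) (nat_lit 306) (nat_lit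 301) (nat_lit 173)) (XT.lf (nat_lit 0) (nat_lit 30564478249) (nat_lit 1140) (nat_lit 952918719) (nat_lit 1216) (nat_lit 3643452822) (nat_lit 209) (nat_lit 5) (nat_lit 224) (nat_lit 5) (nat_lit 225) (nat_lit 5) (nat_lit 307) (nat_lit 301) (nat_lit 172))) (XT.nd (nat_lit 78) (nat_lit 1140) (nat_lit 0) (XT.lf (nat_lit 76) (nat_lit 27674522940) (nat_lit 0) (nat_lit 6463165409) (nat_lit 1216) (nat_lit 1948901366) (nat_lit 210) (nat_lit 5) (nat_lit 209) (nat_lit 5) (nat_lit 225) (nat_lit 5) (nat_lit 308) (nat_lit 301) (nat_lit 171)) (XT.lf (nat_lit 0) (nat_lit 1214833513) (nat_lit 1216) (nat_lit 16150747471) (nat_lit 1292) (nat_lit 19680798273) (nat_lit 194) (nat_lit 5) (nat_lit 210) (nat_lit 5) (nat_lit 211) (nat_lit 5) (nat_lit 309) (nat_lit 301) (nat_lit 170))))) (XT.nd (nat_lit 234) (nat_lit 2356) (nat_lit 0) (XT.nd (nat_lit 78) (nat_lit 0) (nat_lit 0) (XT.lf (nat_lit 0) (nat_lit 4866977746)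 (nat_lit 1216) (nat_lit 24157792811) (nat_lit 1292) (nat_lit 9017698140) (nat_lit 195) (nat_lit 5) (nat_lit 211) (nat_lit 5) (nat_lit 212) (nat_lit 5) (nat_lit 310) (nat_lit 301) (nat_lit 169)) (XT.nd (nat_lit 78) (nat_lit 0) (nat_lit 76) (XT.lf (nat_lit 76) (nat_lit 6624130527) (nat_lit 0) (nat_lit 2479390980) (nat_lit 1292) (nat_lit 29972792253) (nat_lit 196) (nat_lit 5) (nat_lit 195) (nat_lit 5) (nat_lit 212) (nat_lit 5) (nat_lit 311) (nat_lit 301) (nat_lit 168)) (XT.lf (nat_lit 0) (nat_lit 14042280823) (nat_lit 1216) (nat_lit 955216412) (nat_lit 76) (nat_lit 25149646876) (nat_lit 196) (nat_lit 5) (nat_lit 212) (nat_lit 5) (nat_lit 197) (nat_lit 5) (nat_lit 312) (nat_lit 301) (nat_lit 167)))) (XT.nd (nat_lit 156) (nat_lit 1064) (nat_lit 0) (XT.nd (nat_lit 78) (nat_lit 608) (nat_lit 0) (XT.lf (nat_lit 0) (nat_lit 19689497823) (nat_lit 836) (nat_lit 8661867639) (nat_lit 76) (nat_lit 12906309390)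 (nat_lit 186) (nat_lit 5) (nat_lit 197) (nat_lit 5) (nat_lit 187) (nat_lit 5) (nat_lit 313) (nat_lit 301) (nat_lit 166)) (XT.lf (nat_lit 0) (nat_lit 25768196423) (nat_lit 608) (nat_lit 255448547) (nat_lit 684) (nat_lit 16387954332) (nat_lit 178) (nat_lit 5) (nat_lit 186) (nat_lit 5) (nat_lit 187) (nat_lit 5) (nat_lit 314) (nat_lit 301) (nat_lit 165))) (XT.nd (nat_lit 78) (nat_lit 532) (nat_lit 0) (XT.lf (nat_lit 0) (nat_lit 18556231501) (nat_lit 532) (nat_lit 14663556222) (nat_lit 608) (nat_lit 10387077651) (nat_lit 171) (nat_lit 5) (nat_lit 178) (nat_lit 5) (nat_lit 179) (nat_lit 5) (nat_lit 315) (nat_lit 301) (nat_lit 164)) (XT.lf (nat_lit 0) (nat_lit 11072975900) (nat_lit 532) (nat_lit 30122329268) (nat_lit 608) (nat_lit 3654006413) (nat_lit 164) (nat_lit 5) (nat_lit 171) (nat_lit 5) (nat_lit 172) (nat_lit 5) (nat_lit 316) (nat_lit 301) (nat_lit 163)))))) (XT.nd (nat_lit 546) (nat_lit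 1900) (nat_lit 0) (XT.nd (nat_lit 234) (nat_lit 1824) (nat_lit 0) (XT.nd (nat_lit 78) (nat_lit 532) (nat_lit 0) (XT.lf (nat_lit 0) (nat_lit 3256193499) (nat_lit 532) (nat_lit 528624386) (nat_lit 608) (nat_lit 42355008184) (nat_lit 156) (nat_lit 5) (nat_lit 163) (nat_lit 5) (nat_lit 164) (nat_lit 5) (nat_lit 317) (nat_lit 301) (nat_lit 162)) (XT.nd (nat_lit 78) (nat_lit 532) (nat_lit 0) (XT.lf (nat_lit 0) (nat_lit 12161642611) (nat_lit 608) (nat_lit 4976262416) (nat_lit 76) (nat_lit 30336630411) (nat_lit 156) (nat_lit 5) (nat_lit 164) (nat_lit 5) (nat_lit 157) (nat_lit 5) (nat_lit 318) (nat_lit 301) (nat_lit 161)) (XT.lf (nat_lit 0) (nat_lit 21436938104) (nat_lit 608) (nat_lit 13492084085) (nat_lit 76) (nat_lit 13932572435) (nat_lit 149) (nat_lit 5) (nat_lit 157) (nat_lit 5) (nat_lit 150) (nat_lit 5) (nat_lit 319) (nat_lit 301) (nat_lit 160)))) (XT.nd (nat_lit 156) (nat_lit 912) (nat_lit 0)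 (XT.nd (nat_lit 78) (nat_lit 456) (nat_lit 0) (XT.lf (nat_lit 0) (nat_lit 27886915945) (nat_lit 456) (nat_lit 3778348382) (nat_lit 532) (nat_lit 18638067542) (nat_lit 143) (nat_lit 5) (nat_lit 149) (nat_lit 5) (nat_lit 150) (nat_lit 5) (nat_lit 320) (nat_lit 301) (nat_lit 159)) (XT.lf (nat_lit 0) (nat_lit 19908995790) (nat_lit 456) (nat_lit 23102361146) (nat_lit 532) (nat_lit 8787611472) (nat_lit 137) (nat_lit 5) (nat_lit 143) (nat_lit 5) (nat_lit 144) (nat_lit 5) (nat_lit 321) (nat_lit 301) (nat_lit 158))) (XT.nd (nat_lit 78) (nat_lit 456) (nat_lit 0) (XT.lf (nat_lit 0) (nat_lit 1998072464) (nat_lit 456) (nat_lit 41826685100) (nat_lit 76) (nat_lit 9529991711) (nat_lit 131) (nat_lit 5) (nat_lit 137) (nat_lit 5) (nat_lit 132) (nat_lit 5) (nat_lit 322) (nat_lit 301) (nat_lit 157)) (XT.lf (nat_lit 0) (nat_lit 2525296359) (nat_lit 456) (nat_lit 11203497314) (nat_lit 532) (nat_lit 41239293082)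 (nat_lit 125) (nat_lit 5) (nat_lit 131) (nat_lit 5) (nat_lit 132) (nat_lit 5) (nat_lit 323) (nat_lit 301) (nat_lit 156))))) (XT.nd (nat_lit 234) (nat_lit 1140) (nat_lit 0) (XT.nd (nat_lit 78) (nat_lit 760) (nat_lit 0) (XT.lf (nat_lit 0) (nat_lit 26699375130) (nat_lit 532) (nat_lit 6909840765) (nat_lit 76) (nat_lit 23033277949) (nat_lit 125) (nat_lit 5) (nat_lit 132) (nat_lit 5) (nat_lit 126) (nat_lit 5) (nat_lit 324) (nat_lit 301) (nat_lit 155)) (XT.nd (nat_lit 78) (nat_lit 380) (nat_lit 0) (XT.lf (nat_lit 0) (nat_lit 40835844161) (nat_lit 456) (nat_lit 16797945692) (nat_lit 76) (nat_lit 751313022) (nat_lit 120) (nat_lit 5) (nat_lit 126) (nat_lit 5) (nat_lit 121) (nat_lit 5) (nat_lit 325) (nat_lit 301) (nat_lit 154)) (XT.lf (nat_lit 0) (nat_lit 32735985564) (nat_lit 380) (nat_lit 23666068295) (nat_lit 456) (nat_lit 3791103213) (nat_lit 115) (nat_lit 5) (nat_lit 120) (nat_lit 5) (nat_lit 121)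 (nat_lit 5) (nat_lit 326) (nat_lit 301) (nat_lit 153)))) (XT.nd (nat_lit 156) (nat_lit 304) (nat_lit 0) (XT.nd (nat_lit 78) (nat_lit 380) (nat_lit 0) (XT.lf (nat_lit 0) (nat_lit 10963780686) (nat_lit 456) (nat_lit 38837582458) (nat_lit 76) (nat_lit 12271678119) (nat_lit 109) (nat_lit 5) (nat_lit 115) (nat_lit 5) (nat_lit 110) (nat_lit 5) (nat_lit 327) (nat_lit 301) (nat_lit 152)) (XT.lf (nat_lit 0) (nat_lit 12967669608) (nat_lit 380) (nat_lit 14057369096) (nat_lit 456) (nat_lit 37001345783) (nat_lit 104) (nat_lit 5) (nat_lit 109) (nat_lit 5) (nat_lit 110) (nat_lit 5) (nat_lit 328) (nat_lit 301) (nat_lit 151))) (XT.nd (nat_lit 78) (nat_lit 0) (nat_lit 0) (XT.lf (nat_lit 0) (nat_lit 1913642552) (nat_lit 304) (nat_lit 42620940445) (nat_lit 380) (nat_lit 21523457044) (nat_lit 100) (nat_lit 5) (nat_lit 104) (nat_lit 5) (nat_lit 105) (nat_lit 5) (nat_lit 329) (nat_lit 301) (nat_lit 150)) (XT.lf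 (nat_lit 0) (nat_lit 58453515156) (nat_lit 304) (nat_lit 5129703781) (nat_lit 380) (nat_lit 4588152786) (nat_lit 100) (nat_lit 5) (nat_lit 104) (nat_lit 5) (nat_lit 105) (nat_lit 5) (nat_lit 330) (nat_lit 301) (nat_lit 149))))))))
noncomputable def xc109 : XT := (XT.nd (nat_lit 38610) (nat_lit 0) (nat_lit 4104) (XT.nd (nat_lit 1092) (nat_lit 1520) (nat_lit 0) (XT.nd (nat_lit 546) (nat_lit 1444) (nat_lit 0) (XT.nd (nat_lit 234) (nat_lit 836) (nat_lit 0) (XT.nd (nat_lit 78) (nat_lit 608) (nat_lit 0) (XT.lf (nat_lit 0) (nat_lit 13732727345) (nat_lit 380) (nat_lit 22466379252) (nat_lit 76) (nat_lit 34163572054) (nat_lit 95) (nat_lit 5) (nat_lit 100) (nat_lit 5) (nat_lit 96) (nat_lit 5) (nat_lit 331) (nat_lit 301) (nat_lit 148)) (XT.nd (nat_lit 78) (nat_lit 304) (nat_lit 0) (XT.lf (nat_lit 0) (nat_lit 33407862966) (nat_lit 380) (nat_lit 36133055432) (nat_lit 76) (nat_lit 3105278233) (nat_lit 91)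 (nat_lit 5) (nat_lit 96) (nat_lit 5) (nat_lit 92) (nat_lit 5) (nat_lit 332) (nat_lit 301) (nat_lit 147)) (XT.lf (nat_lit 0) (nat_lit 23971075914) (nat_lit 304) (nat_lit 30922788143) (nat_lit 380) (nat_lit 20125214689) (nat_lit 87) (nat_lit 5) (nat_lit 91) (nat_lit 5) (nat_lit 92) (nat_lit 5) (nat_lit 333) (nat_lit 301) (nat_lit 146)))) (XT.nd (nat_lit 156) (nat_lit 532) (nat_lit 0) (XT.nd (nat_lit 78) (nat_lit 0) (nat_lit 0) (XT.lf (nat_lit 0) (nat_lit 516625498) (nat_lit 304) (nat_lit 67058287168) (nat_lit 76) (nat_lit 9918551039) (nat_lit 83) (nat_lit 5) (nat_lit 87) (nat_lit 5) (nat_lit 84) (nat_lit 5) (nat_lit 334) (nat_lit 301) (nat_lit 145)) (XT.lf (nat_lit 0) (nat_lit 22618890989) (nat_lit 304) (nat_lit 4540093088) (nat_lit 76) (nat_lit 52901270758) (nat_lit 83) (nat_lit 5) (nat_lit 87) (nat_lit 5) (nat_lit 84) (nat_lit 5) (nat_lit 335) (nat_lit 301) (nat_lit 144))) (XT.nd (nat_lit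 78) (nat_lit 228) (nat_lit 0) (XT.lf (nat_lit 0) (nat_lit 46576057870) (nat_lit 380) (nat_lit 20573183062) (nat_lit 76) (nat_lit 15583652199) (nat_lit 79) (nat_lit 5) (nat_lit 84) (nat_lit 5) (nat_lit 80) (nat_lit 5) (nat_lit 336) (nat_lit 301) (nat_lit 143)) (XT.lf (nat_lit 0) (nat_lit 47399024751) (nat_lit 228) (nat_lit 25107045025) (nat_lit 304) (nat_lit 13009845159) (nat_lit 76) (nat_lit 5) (nat_lit 79) (nat_lit 5) (nat_lit 80) (nat_lit 5) (nat_lit 337) (nat_lit 301) (nat_lit 142))))) (XT.nd (nat_lit 234) (nat_lit 912) (nat_lit 0) (XT.nd (nat_lit 78) (nat_lit 228) (nat_lit 0) (XT.lf (nat_lit 0) (nat_lit 11775751729) (nat_lit 304) (nat_lit 57344056157) (nat_lit 76) (nat_lit 19293974352) (nat_lit 72) (nat_lit 5) (nat_lit 76) (nat_lit 5) (nat_lit 73) (nat_lit 5) (nat_lit 338) (nat_lit 301) (nat_lit 141)) (XT.nd (nat_lit 78) (nat_lit 0) (nat_lit 0) (XT.lf (nat_lit 0) (nat_lit 12928248687)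 (nat_lit 228) (nat_lit 25377906224) (nat_lit 304) (nat_lit 53123287037) (nat_lit 69) (nat_lit 5) (nat_lit 72) (nat_lit 5) (nat_lit 73) (nat_lit 5) (nat_lit 339) (nat_lit 301) (nat_lit 140)) (XT.lf (nat_lit 0) (nat_lit 66954970072) (nat_lit 304) (nat_lit 6871895311) (nat_lit 76) (nat_lit 20745263507) (nat_lit 69) (nat_lit 5) (nat_lit 73) (nat_lit 5) (nat_lit 70) (nat_lit 5) (nat_lit 340) (nat_lit 301) (nat_lit 139)))) (XT.nd (nat_lit 156) (nat_lit 380) (nat_lit 0) (XT.nd (nat_lit 78) (nat_lit 228) (nat_lit 0) (XT.lf (nat_lit 0) (nat_lit 111584283) (nat_lit 304) (nat_lit 28410422776) (nat_lit 76) (nat_lit 69322255035) (nat_lit 65) (nat_lit 5) (nat_lit 69) (nat_lit 5) (nat_lit 66) (nat_lit 5) (nat_lit 341) (nat_lit 301) (nat_lit 138)) (XT.lf (nat_lit 0) (nat_lit 29393844829) (nat_lit 304) (nat_lit 52350075144) (nat_lit 76) (nat_lit 19505732387) (nat_lit 62) (nat_lit 5) (nat_lit 66) (nat_lit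 5) (nat_lit 63) (nat_lit 5) (nat_lit 342) (nat_lit 301) (nat_lit 137))) (XT.nd (nat_lit 78) (nat_lit 152) (nat_lit 0) (XT.lf (nat_lit 0) (nat_lit 26067524424) (nat_lit 228) (nat_lit 34904869713) (nat_lit 304) (nat_lit 43827953569) (nat_lit 59) (nat_lit 5) (nat_lit 62) (nat_lit 5) (nat_lit 63) (nat_lit 5) (nat_lit 343) (nat_lit 301) (nat_lit 136)) (XT.lf (nat_lit 0) (nat_lit 859185577) (nat_lit 152) (nat_lit 93958816573) (nat_lit 228) (nat_lit 13689932532) (nat_lit 57) (nat_lit 5) (nat_lit 59) (nat_lit 5) (nat_lit 60) (nat_lit 5) (nat_lit 344) (nat_lit 301) (nat_lit 135)))))) (XT.nd (nat_lit 546) (nat_lit 456) (nat_lit 0) (XT.nd (nat_lit 234) (nat_lit 608) (nat_lit 0) (XT.nd (nat_lit 78) (nat_lit 380) (nat_lit 0) (XT.lf (nat_lit 0) (nat_lit 18773879569) (nat_lit 228) (nat_lit 26835956824) (nat_lit 76) (nat_lit 66750809827) (nat_lit 56) (nat_lit 5) (nat_lit 59) (nat_lit 5) (nat_lit 57) (nat_lit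 5) (nat_lit 345) (nat_lit 301) (nat_lit 134)) (XT.nd (nat_lit 78) (nat_lit 152) (nat_lit 0) (XT.lf (nat_lit 0) (nat_lit 53202869220) (nat_lit 304) (nat_lit 57412660326) (nat_lit 76) (nat_lit 5767644704) (nat_lit 53) (nat_lit 5) (nat_lit 57) (nat_lit 5) (nat_lit 54) (nat_lit 5) (nat_lit 346) (nat_lit 301) (nat_lit 133)) (XT.lf (nat_lit 0) (nat_lit 29132581889) (nat_lit 152) (nat_lit 61238662665) (nat_lit 228) (nat_lit 30205046712) (nat_lit 51) (nat_lit 5) (nat_lit 53) (nat_lit 5) (nat_lit 54) (nat_lit 5) (nat_lit 347) (nat_lit 301) (nat_lit 132)))) (XT.nd (nat_lit 156) (nat_lit 304) (nat_lit 0) (XT.nd (nat_lit 78) (nat_lit 228) (nat_lit 0) (XT.lf (nat_lit 0) (nat_lit 4928198000) (nat_lit 228) (nat_lit 3807155048) (nat_lit 76) (nat_lit 116224573760) (nat_lit 50) (nat_lit 5) (nat_lit 53) (nat_lit 5) (nat_lit 51) (nat_lit 5) (nat_lit 348) (nat_lit 301) (nat_lit 131)) (XT.lf (nat_lit 0) (nat_lit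 42517188803) (nat_lit 304) (nat_lit 40331684476) (nat_lit 76) (nat_lit 46665186528) (nat_lit 47) (nat_lit 5) (nat_lit 51) (nat_lit 5) (nat_lit 48) (nat_lit 5) (nat_lit 349) (nat_lit 301) (nat_lit 130))) (XT.nd (nat_lit 78) (nat_lit 152) (nat_lit 0) (XT.lf (nat_lit 0) (nat_lit 53560631395) (nat_lit 152) (nat_lit 29066294120) (nat_lit 228) (nat_lit 51649735611) (nat_lit 45) (nat_lit 5) (nat_lit 47) (nat_lit 5) (nat_lit 48) (nat_lit 5) (nat_lit 350) (nat_lit 301) (nat_lit 129)) (XT.lf (nat_lit 0) (nat_lit 13723528986) (nat_lit 152) (nat_lit 111831991458) (nat_lit 228) (nat_lit 13697471461) (nat_lit 43) (nat_lit 5) (nat_lit 45) (nat_lit 5) (nat_lit 46) (nat_lit 5) (nat_lit 351) (nat_lit 301) (nat_lit 128))))) (XT.nd (nat_lit 234) (nat_lit 76) (nat_lit 0) (XT.nd (nat_lit 78) (nat_lit 304) (nat_lit 0) (XT.lf (nat_lit 0) (nat_lit 26773331328) (nat_lit 228) (nat_lit 30436532938) (nat_lit 76) (nat_lit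 87226796073) (nat_lit 42) (nat_lit 5) (nat_lit 45) (nat_lit 5) (nat_lit 43) (nat_lit 5) (nat_lit 352) (nat_lit 301) (nat_lit 127)) (XT.nd (nat_lit 78) (nat_lit 152) (nat_lit 0) (XT.lf (nat_lit 0) (nat_lit 69674423372) (nat_lit 228) (nat_lit 79215094326) (nat_lit 76) (nat_lit 965225397) (nat_lit 40) (nat_lit 5) (nat_lit 43) (nat_lit 5) (nat_lit 41) (nat_lit 5) (nat_lit 353) (nat_lit 301) (nat_lit 126)) (XT.lf (nat_lit 0) (nat_lit 21712507764) (nat_lit 152) (nat_lit 94109470738) (nat_lit 228) (nat_lit 39688709682) (nat_lit 38) (nat_lit 5) (nat_lit 40) (nat_lit 5) (nat_lit 41) (nat_lit 5) (nat_lit 354) (nat_lit 301) (nat_lit 125)))) (XT.nd (nat_lit 36582) (nat_lit 0) (nat_lit 12768) (XT.nd (nat_lit 36504) (nat_lit 0) (nat_lit 12768) (XT.lf (nat_lit 0) (nat_lit 3594696974) (nat_lit 228) (nat_lit 32120323167) (nat_lit 76) (nat_lit 125708923704) (nat_lit 37) (nat_lit 5) (nat_lit 40) (nat_lit 5)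 (nat_lit 38) (nat_lit 5) (nat_lit 355) (nat_lit 301) (nat_lit 124)) (XT.lf (nat_lit 0) (nat_lit 5203763225) (nat_lit 0) (nat_lit 5203763225) (nat_lit 1140) (nat_lit 5468526607) (nat_lit 205) (nat_lit 5) (nat_lit 205) (nat_lit 3) (nat_lit 220) (nat_lit 3) (nat_lit 302) (nat_lit 302) (nat_lit 176))) (XT.nd (nat_lit 78) (nat_lit 0) (nat_lit 76) (XT.lf (nat_lit 76) (nat_lit 2853624734) (nat_lit 0) (nat_lit 18746743146) (nat_lit 1216) (nat_lit 10937486619) (nat_lit 206) (nat_lit 5) (nat_lit 205) (nat_lit 5) (nat_lit 221) (nat_lit 5) (nat_lit 303) (nat_lit 302) (nat_lit 175)) (XT.lf (nat_lit 0) (nat_lit 22798400577) (nat_lit 1140) (nat_lit 4812609410) (nat_lit 1216) (nat_lit 5740683549) (nat_lit 206) (nat_lit 5) (nat_lit 221) (nat_lit 5) (nat_lit 222) (nat_lit 5) (nat_lit 304) (nat_lit 302) (nat_lit 174))))))) (XT.nd (nat_lit 1092) (nat_lit 4940) (nat_lit 0) (XT.nd (nat_lit 546) (nat_lit 2888)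 (nat_lit 0) (XT.nd (nat_lit 234) (nat_lit 912) (nat_lit 0) (XT.nd (nat_lit 78) (nat_lit 0) (nat_lit 76) (XT.lf (nat_lit 76) (nat_lit 21529862933) (nat_lit 0) (nat_lit 2916417004) (nat_lit 1216) (nat_lit 9748252706) (nat_lit 207) (nat_lit 5) (nat_lit 206) (nat_lit 5) (nat_lit 222) (nat_lit 5) (nat_lit 305) (nat_lit 302) (nat_lit 173)) (XT.nd (nat_lit 78) (nat_lit 0) (nat_lit 76) (XT.lf (nat_lit 76) (nat_lit 14264913024) (nat_lit 0) (nat_lit 12314066911) (nat_lit 1216) (nat_lit 8488467132) (nat_lit 208) (nat_lit 5) (nat_lit 207) (nat_lit 5) (nat_lit 223) (nat_lit 5) (nat_lit 306) (nat_lit 302) (nat_lit 172)) (XT.lf (nat_lit 76) (nat_lit 6792466320) (nat_lit 0) (nat_lit 22377618923) (nat_lit 1216) (nat_lit 6803374726) (nat_lit 209) (nat_lit 5) (nat_lit 208) (nat_lit 5) (nat_lit 224) (nat_lit 5) (nat_lit 307) (nat_lit 302) (nat_lit 171)))) (XT.nd (nat_lit 156) (nat_lit 1140) (nat_lit 0) (XT.nd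 (nat_lit 78) (nat_lit 0) (nat_lit 0) (XT.lf (nat_lit 0) (nat_lit 32259517769) (nat_lit 1140) (nat_lit 880380423) (nat_lit 1216) (nat_lit 3773817754) (nat_lit 209) (nat_lit 5) (nat_lit 224) (nat_lit 5) (nat_lit 225) (nat_lit 5) (nat_lit 308) (nat_lit 302) (nat_lit 170)) (XT.lf (nat_lit 76) (nat_lit 29174988262) (nat_lit 0) (nat_lit 6829578679) (nat_lit 1216) (nat_lit 1881388752) (nat_lit 210) (nat_lit 5) (nat_lit 209) (nat_lit 5) (nat_lit 225) (nat_lit 5) (nat_lit 309) (nat_lit 302) (nat_lit 169))) (XT.nd (nat_lit 78) (nat_lit 0) (nat_lit 76) (XT.lf (nat_lit 0) (nat_lit 1430363709) (nat_lit 1216) (nat_lit 16836434929) (nat_lit 1292) (nat_lit 20627104579) (nat_lit 194) (nat_lit 5) (nat_lit 210) (nat_lit 5) (nat_lit 211) (nat_lit 5) (nat_lit 310) (nat_lit 302) (nat_lit 168)) (XT.lf (nat_lit 0) (nat_lit 5258591709) (nat_lit 1216) (nat_lit 25242434255) (nat_lit 1292) (nat_lit 9438974076) (nat_lit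 195) (nat_lit 5) (nat_lit 211) (nat_lit 5) (nat_lit 212) (nat_lit 5) (nat_lit 311) (nat_lit 302) (nat_lit 167))))) (XT.nd (nat_lit 234) (nat_lit 2280) (nat_lit 0) (XT.nd (nat_lit 78) (nat_lit 684) (nat_lit 0) (XT.lf (nat_lit 76) (nat_lit 7075052365) (nat_lit 0) (nat_lit 2626000828) (nat_lit 1292) (nat_lit 31324668311) (nat_lit 196) (nat_lit 5) (nat_lit 195) (nat_lit 5) (nat_lit 212) (nat_lit 5) (nat_lit 312) (nat_lit 302) (nat_lit 166)) (XT.nd (nat_lit 78) (nat_lit 760) (nat_lit 0) (XT.lf (nat_lit 0) (nat_lit 14879764368) (nat_lit 1216) (nat_lit 884557339) (nat_lit 76) (nat_lit 26385987786) (nat_lit 196) (nat_lit 5) (nat_lit 212) (nat_lit 5) (nat_lit 197) (nat_lit 5) (nat_lit 313) (nat_lit 302) (nat_lit 165)) (XT.lf (nat_lit 0) (nat_lit 20803857521) (nat_lit 836) (nat_lit 8975766002) (nat_lit 76) (nat_lit 13536914014) (nat_lit 186) (nat_lit 5) (nat_lit 197) (nat_lit 5) (nat_lit 187) (nat_lit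 5) (nat_lit 314) (nat_lit 302) (nat_lit 164)))) (XT.nd (nat_lit 156) (nat_lit 1140) (nat_lit 0) (XT.nd (nat_lit 78) (nat_lit 532) (nat_lit 0) (XT.lf (nat_lit 0) (nat_lit 27172384562) (nat_lit 608) (nat_lit 277255404) (nat_lit 684) (nat_lit 17078676334) (nat_lit 178) (nat_lit 5) (nat_lit 186) (nat_lit 5) (nat_lit 187) (nat_lit 5) (nat_lit 315) (nat_lit 302) (nat_lit 163)) (XT.lf (nat_lit 0) (nat_lit 19600339223) (nat_lit 532) (nat_lit 15400342372) (nat_lit 608) (nat_lit 10782816977) (nat_lit 171) (nat_lit 5) (nat_lit 178) (nat_lit 5) (nat_lit 179) (nat_lit 5) (nat_lit 316) (nat_lit 302) (nat_lit 162))) (XT.nd (nat_lit 78) (nat_lit 608) (nat_lit 0) (XT.lf (nat_lit 0) (nat_lit 11743224650) (nat_lit 532) (nat_lit 31627128320) (nat_lit 608) (nat_lit 3717858154) (nat_lit 164) (nat_lit 5) (nat_lit 171) (nat_lit 5) (nat_lit 172) (nat_lit 5) (nat_lit 317) (nat_lit 302) (nat_lit 161)) (XT.lf (nat_lit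 0) (nat_lit 3534614934) (nat_lit 532) (nat_lit 551535572) (nat_lit 608) (nat_lit 44357204661) (nat_lit 156) (nat_lit 5) (nat_lit 163) (nat_lit 5) (nat_lit 164) (nat_lit 5) (nat_lit 318) (nat_lit 302) (nat_lit 160)))))) (XT.nd (nat_lit 546) (nat_lit 2584) (nat_lit 0) (XT.nd (nat_lit 234) (nat_lit 1368) (nat_lit 0) (XT.nd (nat_lit 78) (nat_lit 988) (nat_lit 0) (XT.lf (nat_lit 0) (nat_lit 12876510992) (nat_lit 608) (nat_lit 5111703986) (nat_lit 76) (nat_lit 31856748927) (nat_lit 156) (nat_lit 5) (nat_lit 164) (nat_lit 5) (nat_lit 157) (nat_lit 5) (nat_lit 319) (nat_lit 302) (nat_lit 159)) (XT.nd (nat_lit 78) (nat_lit 456) (nat_lit 0) (XT.lf (nat_lit 0) (nat_lit 22611615527) (nat_lit 608) (nat_lit 14053464279) (nat_lit 76) (nat_lit 14636419426) (nat_lit 149) (nat_lit 5) (nat_lit 157) (nat_lit 5) (nat_lit 150) (nat_lit 5) (nat_lit 320) (nat_lit 302) (nat_lit 158)) (XT.lf (nat_lit 0) (nat_lit 29391240208)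 (nat_lit 456) (nat_lit 3956278341) (nat_lit 532) (nat_lit 19467924271) (nat_lit 143) (nat_lit 5) (nat_lit 149) (nat_lit 5) (nat_lit 150) (nat_lit 5) (nat_lit 321) (nat_lit 302) (nat_lit 157)))) (XT.nd (nat_lit 156) (nat_lit 456) (nat_lit 0) (XT.nd (nat_lit 78) (nat_lit 456) (nat_lit 0) (XT.lf (nat_lit 0) (nat_lit 21014136997) (nat_lit 456) (nat_lit 24243219944) (nat_lit 532) (nat_lit 9128615101) (nat_lit 137) (nat_lit 5) (nat_lit 143) (nat_lit 5) (nat_lit 144) (nat_lit 5) (nat_lit 322) (nat_lit 302) (nat_lit 156)) (XT.lf (nat_lit 0) (nat_lit 2191032786) (nat_lit 456) (nat_lit 43806817319) (nat_lit 76) (nat_lit 10021769277) (nat_lit 131) (nat_lit 5) (nat_lit 137) (nat_lit 5) (nat_lit 132) (nat_lit 5) (nat_lit 323) (nat_lit 302) (nat_lit 155))) (XT.nd (nat_lit 78) (nat_lit 0) (nat_lit 0) (XT.lf (nat_lit 0) (nat_lit 2759575628) (nat_lit 456) (nat_lit 11745321458) (nat_lit 532) (nat_lit 43208832043)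 (nat_lit 125) (nat_lit 5) (nat_lit 131) (nat_lit 5) (nat_lit 132) (nat_lit 5) (nat_lit 324) (nat_lit 302) (nat_lit 154)) (XT.lf (nat_lit 0) (nat_lit 28119905913) (nat_lit 532) (nat_lit 7149999454) (nat_lit 76) (nat_lit 24202077687) (nat_lit 125) (nat_lit 5) (nat_lit 132) (nat_lit 5) (nat_lit 126) (nat_lit 5) (nat_lit 325) (nat_lit 302) (nat_lit 153))))) (XT.nd (nat_lit 312) (nat_lit 988) (nat_lit 0) (XT.nd (nat_lit 156) (nat_lit 836) (nat_lit 0) (XT.nd (nat_lit 78) (nat_lit 380) (nat_lit 0) (XT.lf (nat_lit 0) (nat_lit 42960298259) (nat_lit 456) (nat_lit 17533180240) (nat_lit 76) (nat_lit 808334309) (nat_lit 120) (nat_lit 5) (nat_lit 126) (nat_lit 5) (nat_lit 121) (nat_lit 5) (nat_lit 326) (nat_lit 302) (nat_lit 152)) (XT.lf (nat_lit 0) (nat_lit 34474447442) (nat_lit 380) (nat_lit 24827411962) (nat_lit 456) (nat_lit 3898502193) (nat_lit 115) (nat_lit 5) (nat_lit 120) (nat_lit 5) (nat_lit 121)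 (nat_lit 5) (nat_lit 327) (nat_lit 302) (nat_lit 151))) (XT.nd (nat_lit 78) (nat_lit 380) (nat_lit 0) (XT.lf (nat_lit 0) (nat_lit 11589869680) (nat_lit 456) (nat_lit 40676927242) (nat_lit 76) (nat_lit 12907501854) (nat_lit 109) (nat_lit 5) (nat_lit 115) (nat_lit 5) (nat_lit 110) (nat_lit 5) (nat_lit 328) (nat_lit 302) (nat_lit 150)) (XT.lf (nat_lit 0) (nat_lit 13715648301) (nat_lit 380) (nat_lit 14735790147) (nat_lit 456) (nat_lit 38773956019) (nat_lit 104) (nat_lit 5) (nat_lit 109) (nat_lit 5) (nat_lit 110) (nat_lit 5) (nat_lit 329) (nat_lit 302) (nat_lit 149)))) (XT.nd (nat_lit 156) (nat_lit 684) (nat_lit 0) (XT.nd (nat_lit 78) (nat_lit 0) (nat_lit 0) (XT.lf (nat_lit 0) (nat_lit 2108079799) (nat_lit 304) (nat_lit 44725974797) (nat_lit 380) (nat_lit 22524652973) (nat_lit 100) (nat_lit 5) (nat_lit 104) (nat_lit 5) (nat_lit 105) (nat_lit 5) (nat_lit 330) (nat_lit 302) (nat_lit 148)) (XT.lf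 (nat_lit 0) (nat_lit 61470243408) (nat_lit 304) (nat_lit 5361414998) (nat_lit 380) (nat_lit 4746153832) (nat_lit 100) (nat_lit 5) (nat_lit 104) (nat_lit 5) (nat_lit 105) (nat_lit 5) (nat_lit 331) (nat_lit 302) (nat_lit 147))) (XT.nd (nat_lit 78) (nat_lit 304) (nat_lit 0) (XT.lf (nat_lit 0) (nat_lit 14487176682) (nat_lit 380) (nat_lit 23495110383) (nat_lit 76) (nat_lit 35896445161) (nat_lit 95) (nat_lit 5) (nat_lit 100) (nat_lit 5) (nat_lit 96) (nat_lit 5) (nat_lit 332) (nat_lit 302) (nat_lit 146)) (XT.lf (nat_lit 0) (nat_lit 35143976933) (nat_lit 380) (nat_lit 37846077790) (nat_lit 76) (nat_lit 3286436336) (nat_lit 91) (nat_lit 5) (nat_lit 96) (nat_lit 5) (nat_lit 92) (nat_lit 5) (nat_lit 333) (nat_lit 302) (nat_lit 145))))))))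
noncomputable def xc110 : XT := (XT.nd (nat_lit 38688) (nat_lit 0) (nat_lit 3420) (XT.nd (nat_lit 1092) (nat_lit 1140) (nat_lit 0) (XT.nd (nat_lit 546) (nat_lit 1216) (nat_lit 0) (XT.nd (nat_lit 234) (nat_lit 1064) (nat_lit 0) (XT.nd (nat_lit 78) (nat_lit 304) (nat_lit 0) (XT.lf (nat_lit 0) (nat_lit 25260576227) (nat_lit 304) (nat_lit 32441446522) (nat_lit 380) (nat_lit 21066064275) (nat_lit 87) (nat_lit 5) (nat_lit 91) (nat_lit 5) (nat_lit 92) (nat_lit 5) (nat_lit 334) (nat_lit 302) (nat_lit 144)) (XT.nd (nat_lit 78) (nat_lit 0) (nat_lit 0) (XT.lf (nat_lit 0) (nat_lit 604664993) (nat_lit 304) (nat_lit 70319952060) (nat_lit 76) (nat_lit 10441615039) (nat_lit 83) (nat_lit 5) (nat_lit 87) (nat_lit 5) (nat_lit 84) (nat_lit 5) (nat_lit 335) (nat_lit 302) (nat_lit 143)) (XT.lf (nat_lit 0) (nat_lit 23809081462) (nat_lit 304) (nat_lit 4680193488) (nat_lit 76) (nat_lit 55572178532) (nat_lit 83) (nat_lit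 5) (nat_lit 87) (nat_lit 5) (nat_lit 84) (nat_lit 5) (nat_lit 336) (nat_lit 302) (nat_lit 142)))) (XT.nd (nat_lit 156) (nat_lit 532) (nat_lit 0) (XT.nd (nat_lit 78) (nat_lit 228) (nat_lit 0) (XT.lf (nat_lit 0) (nat_lit 48962358125) (nat_lit 380) (nat_lit 21515938245) (nat_lit 76) (nat_lit 16389481528) (nat_lit 79) (nat_lit 5) (nat_lit 84) (nat_lit 5) (nat_lit 80) (nat_lit 5) (nat_lit 337) (nat_lit 302) (nat_lit 141)) (XT.lf (nat_lit 0) (nat_lit 49852417539) (nat_lit 228) (nat_lit 26334517210) (nat_lit 304) (nat_lit 13603075785) (nat_lit 76) (nat_lit 5) (nat_lit 79) (nat_lit 5) (nat_lit 80) (nat_lit 5) (nat_lit 338) (nat_lit 302) (nat_lit 140))) (XT.nd (nat_lit 78) (nat_lit 228) (nat_lit 0) (XT.lf (nat_lit 0) (nat_lit 12419068114) (nat_lit 304) (nat_lit 60127702131) (nat_lit 76) (nat_lit 20286034448) (nat_lit 72) (nat_lit 5) (nat_lit 76) (nat_lit 5) (nat_lit 73) (nat_lit 5) (nat_lit 339) (nat_lit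 302) (nat_lit 139)) (XT.lf (nat_lit 0) (nat_lit 13655822815) (nat_lit 228) (nat_lit 26618352206) (nat_lit 304) (nat_lit 55725128326) (nat_lit 69) (nat_lit 5) (nat_lit 72) (nat_lit 5) (nat_lit 73) (nat_lit 5) (nat_lit 340) (nat_lit 302) (nat_lit 138))))) (XT.nd (nat_lit 234) (nat_lit 684) (nat_lit 0) (XT.nd (nat_lit 78) (nat_lit 532) (nat_lit 0) (XT.lf (nat_lit 0) (nat_lit 70353181277) (nat_lit 304) (nat_lit 7136919677) (nat_lit 76) (nat_lit 21809092568) (nat_lit 69) (nat_lit 5) (nat_lit 73) (nat_lit 5) (nat_lit 70) (nat_lit 5) (nat_lit 341) (nat_lit 302) (nat_lit 137)) (XT.nd (nat_lit 78) (nat_lit 228) (nat_lit 0) (XT.lf (nat_lit 0) (nat_lit 166466014) (nat_lit 304) (nat_lit 29753618677) (nat_lit 76) (nat_lit 72814885606) (nat_lit 65) (nat_lit 5) (nat_lit 69) (nat_lit 5) (nat_lit 66) (nat_lit 5) (nat_lit 342) (nat_lit 302) (nat_lit 136)) (XT.lf (nat_lit 0) (nat_lit 30911477533) (nat_lit 304)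 (nat_lit 54891278969) (nat_lit 76) (nat_lit 20507915666) (nat_lit 62) (nat_lit 5) (nat_lit 66) (nat_lit 5) (nat_lit 63) (nat_lit 5) (nat_lit 343) (nat_lit 302) (nat_lit 135)))) (XT.nd (nat_lit 156) (nat_lit 304) (nat_lit 0) (XT.nd (nat_lit 78) (nat_lit 152) (nat_lit 0) (XT.lf (nat_lit 0) (nat_lit 27445013455) (nat_lit 228) (nat_lit 36622370389) (nat_lit 304) (nat_lit 45971566722) (nat_lit 59) (nat_lit 5) (nat_lit 62) (nat_lit 5) (nat_lit 63) (nat_lit 5) (nat_lit 344) (nat_lit 302) (nat_lit 134)) (XT.lf (nat_lit 0) (nat_lit 975248178) (nat_lit 152) (nat_lit 98628772680) (nat_lit 228) (nat_lit 14327934690) (nat_lit 57) (nat_lit 5) (nat_lit 59) (nat_lit 5) (nat_lit 60) (nat_lit 5) (nat_lit 345) (nat_lit 302) (nat_lit 133))) (XT.nd (nat_lit 78) (nat_lit 228) (nat_lit 0) (XT.lf (nat_lit 0) (nat_lit 19755989922) (nat_lit 228) (nat_lit 28107247754) (nat_lit 76) (nat_lit 70114117735) (nat_lit 56)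 (nat_lit 5) (nat_lit 59) (nat_lit 5) (nat_lit 57) (nat_lit 5) (nat_lit 346) (nat_lit 302) (nat_lit 132)) (XT.lf (nat_lit 0) (nat_lit 55905274466) (nat_lit 304) (nat_lit 60213782163) (nat_lit 76) (nat_lit 6081988835) (nat_lit 53) (nat_lit 5) (nat_lit 57) (nat_lit 5) (nat_lit 54) (nat_lit 5) (nat_lit 347) (nat_lit 302) (nat_lit 131)))))) (XT.nd (nat_lit 546) (nat_lit 152) (nat_lit 0) (XT.nd (nat_lit 234) (nat_lit 532) (nat_lit 0) (XT.nd (nat_lit 78) (nat_lit 304) (nat_lit 0) (XT.lf (nat_lit 0) (nat_lit 30656729639) (nat_lit 152) (nat_lit 64273975493) (nat_lit 228) (nat_lit 31673155037) (nat_lit 51) (nat_lit 5) (nat_lit 53) (nat_lit 5) (nat_lit 54) (nat_lit 5) (nat_lit 348) (nat_lit 302) (nat_lit 130)) (XT.nd (nat_lit 78) (nat_lit 228) (nat_lit 0) (XT.lf (nat_lit 0) (nat_lit 5213961833) (nat_lit 228) (nat_lit 3932408799) (nat_lit 76) (nat_lit 122060354600) (nat_lit 50) (nat_lit 5) (nat_lit 53)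 (nat_lit 5) (nat_lit 51) (nat_lit 5) (nat_lit 349) (nat_lit 302) (nat_lit 129)) (XT.lf (nat_lit 0) (nat_lit 44681377816) (nat_lit 304) (nat_lit 42284113537) (nat_lit 76) (nat_lit 49023105080) (nat_lit 47) (nat_lit 5) (nat_lit 51) (nat_lit 5) (nat_lit 48) (nat_lit 5) (nat_lit 350) (nat_lit 302) (nat_lit 128)))) (XT.nd (nat_lit 156) (nat_lit 228) (nat_lit 0) (XT.nd (nat_lit 78) (nat_lit 152) (nat_lit 0) (XT.lf (nat_lit 0) (nat_lit 56300979133) (nat_lit 152) (nat_lit 30494396034) (nat_lit 228) (nat_lit 54193990222) (nat_lit 45) (nat_lit 5) (nat_lit 47) (nat_lit 5) (nat_lit 48) (nat_lit 5) (nat_lit 351) (nat_lit 302) (nat_lit 127)) (XT.lf (nat_lit 0) (nat_lit 14471096346) (nat_lit 152) (nat_lit 117398357616) (nat_lit 228) (nat_lit 14345087869) (nat_lit 43) (nat_lit 5) (nat_lit 45) (nat_lit 5) (nat_lit 46) (nat_lit 5) (nat_lit 352) (nat_lit 302) (nat_lit 126))) (XT.nd (nat_lit 78) (nat_lit 152)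 (nat_lit 0) (XT.lf (nat_lit 0) (nat_lit 28146788508) (nat_lit 228) (nat_lit 31899185831) (nat_lit 76) (nat_lit 91611461480) (nat_lit 42) (nat_lit 5) (nat_lit 45) (nat_lit 5) (nat_lit 43) (nat_lit 5) (nat_lit 353) (nat_lit 302) (nat_lit 125)) (XT.lf (nat_lit 0) (nat_lit 73192059662) (nat_lit 228) (nat_lit 83117576434) (nat_lit 76) (nat_lit 1036813540) (nat_lit 40) (nat_lit 5) (nat_lit 43) (nat_lit 5) (nat_lit 41) (nat_lit 5) (nat_lit 354) (nat_lit 302) (nat_lit 124))))) (XT.nd (nat_lit 36738) (nat_lit 0) (nat_lit 12768) (XT.nd (nat_lit 36582) (nat_lit 0) (nat_lit 12692) (XT.lf (nat_lit 0) (nat_lit 22854735388) (nat_lit 152) (nat_lit 98791186250) (nat_lit 228) (nat_lit 41639303095) (nat_lit 38) (nat_lit 5) (nat_lit 40) (nat_lit 5) (nat_lit 41) (nat_lit 5) (nat_lit 355) (nat_lit 302) (nat_lit 123)) (XT.nd (nat_lit 78) (nat_lit 0) (nat_lit 0) (XT.lf (nat_lit 0) (nat_lit 5514435598) (nat_lit 0)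 (nat_lit 5514435598) (nat_lit 1140) (nat_lit 5637851009) (nat_lit 205) (nat_lit 5) (nat_lit 205) (nat_lit 3) (nat_lit 220) (nat_lit 3) (nat_lit 303) (nat_lit 303) (nat_lit 174)) (XT.lf (nat_lit 76) (nat_lit 3101410271) (nat_lit 0) (nat_lit 19771382785) (nat_lit 1216) (nat_lit 11285983010) (nat_lit 206) (nat_lit 5) (nat_lit 205) (nat_lit 5) (nat_lit 221) (nat_lit 5) (nat_lit 304) (nat_lit 303) (nat_lit 173)))) (XT.nd (nat_lit 156) (nat_lit 0) (nat_lit 76) (XT.nd (nat_lit 78) (nat_lit 0) (nat_lit 0) (XT.lf (nat_lit 0) (nat_lit 24120765916) (nat_lit 1140) (nat_lit 4946654487) (nat_lit 1216) (nat_lit 5946194969) (nat_lit 206) (nat_lit 5) (nat_lit 221) (nat_lit 5) (nat_lit 222) (nat_lit 5) (nat_lit 305) (nat_lit 303) (nat_lit 172)) (XT.lf (nat_lit 76) (nat_lit 22709886225) (nat_lit 0) (nat_lit 3133460343) (nat_lit 1216) (nat_lit 10055489670) (nat_lit 207) (nat_lit 5) (nat_lit 206) (nat_lit 5)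 (nat_lit 222) (nat_lit 5) (nat_lit 306) (nat_lit 303) (nat_lit 171))) (XT.nd (nat_lit 78) (nat_lit 0) (nat_lit 76) (XT.lf (nat_lit 76) (nat_lit 15084653746) (nat_lit 0) (nat_lit 12990077929) (nat_lit 1216) (nat_lit 8740911798) (nat_lit 208) (nat_lit 5) (nat_lit 207) (nat_lit 5) (nat_lit 223) (nat_lit 5) (nat_lit 307) (nat_lit 303) (nat_lit 170)) (XT.lf (nat_lit 76) (nat_lit 7241122724) (nat_lit 0) (nat_lit 23546822520) (nat_lit 1216) (nat_lit 6979243370) (nat_lit 209) (nat_lit 5) (nat_lit 208) (nat_lit 5) (nat_lit 224) (nat_lit 5) (nat_lit 308) (nat_lit 303) (nat_lit 169))))))) (XT.nd (nat_lit 1092) (nat_lit 4560) (nat_lit 0) (XT.nd (nat_lit 546) (nat_lit 3268) (nat_lit 0) (XT.nd (nat_lit 234) (nat_lit 608) (nat_lit 0) (XT.nd (nat_lit 78) (nat_lit 1140) (nat_lit 0) (XT.lf (nat_lit 0) (nat_lit 34023800331) (nat_lit 1140) (nat_lit 815388803) (nat_lit 1216) (nat_lit 3915517523) (nat_lit 209)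 (nat_lit 5) (nat_lit 224) (nat_lit 5) (nat_lit 225) (nat_lit 5) (nat_lit 309) (nat_lit 303) (nat_lit 168)) (XT.nd (nat_lit 78) (nat_lit 1140) (nat_lit 0) (XT.lf (nat_lit 76) (nat_lit 30739623548) (nat_lit 0) (nat_lit 7210291173) (nat_lit 1216) (nat_lit 1825836710) (nat_lit 210) (nat_lit 5) (nat_lit 209) (nat_lit 5) (nat_lit 225) (nat_lit 5) (nat_lit 310) (nat_lit 303) (nat_lit 167)) (XT.lf (nat_lit 0) (nat_lit 1642279646) (nat_lit 1216) (nat_lit 17567735210) (nat_lit 1292) (nat_lit 21624234314) (nat_lit 194) (nat_lit 5) (nat_lit 210) (nat_lit 5) (nat_lit 211) (nat_lit 5) (nat_lit 311) (nat_lit 303) (nat_lit 166)))) (XT.nd (nat_lit 156) (nat_lit 684) (nat_lit 0) (XT.nd (nat_lit 78) (nat_lit 0) (nat_lit 0) (XT.lf (nat_lit 0) (nat_lit 5656002089) (nat_lit 1216) (nat_lit 26392766220) (nat_lit 1292) (nat_lit 9884066570) (nat_lit 195) (nat_lit 5) (nat_lit 211) (nat_lit 5) (nat_lit 212) (nat_lit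 5) (nat_lit 312) (nat_lit 303) (nat_lit 165)) (XT.lf (nat_lit 76) (nat_lit 7537390300) (nat_lit 0) (nat_lit 2777836288) (nat_lit 1292) (nat_lit 32757782855) (nat_lit 196) (nat_lit 5) (nat_lit 195) (nat_lit 5) (nat_lit 212) (nat_lit 5) (nat_lit 313) (nat_lit 303) (nat_lit 164))) (XT.nd (nat_lit 78) (nat_lit 760) (nat_lit 0) (XT.lf (nat_lit 0) (nat_lit 15746536716) (nat_lit 1216) (nat_lit 821374871) (nat_lit 76) (nat_lit 27686111272) (nat_lit 196) (nat_lit 5) (nat_lit 212) (nat_lit 5) (nat_lit 197) (nat_lit 5) (nat_lit 314) (nat_lit 303) (nat_lit 163)) (XT.lf (nat_lit 0) (nat_lit 21961859746) (nat_lit 836) (nat_lit 9316440906) (nat_lit 76) (nat_lit 14200416544) (nat_lit 186) (nat_lit 5) (nat_lit 197) (nat_lit 5) (nat_lit 187) (nat_lit 5) (nat_lit 315) (nat_lit 303) (nat_lit 162))))) (XT.nd (nat_lit 234) (nat_lit 1596) (nat_lit 0) (XT.nd (nat_lit 78) (nat_lit 1064) (nat_lit 0) (XT.lf (nat_lit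 0) (nat_lit 28636018138) (nat_lit 608) (nat_lit 299312669) (nat_lit 684) (nat_lit 17815897484) (nat_lit 178) (nat_lit 5) (nat_lit 186) (nat_lit 5) (nat_lit 187) (nat_lit 5) (nat_lit 316) (nat_lit 303) (nat_lit 161)) (XT.nd (nat_lit 78) (nat_lit 532) (nat_lit 0) (XT.lf (nat_lit 0) (nat_lit 20685840217) (nat_lit 532) (nat_lit 16173632360) (nat_lit 608) (nat_lit 11209835779) (nat_lit 171) (nat_lit 5) (nat_lit 178) (nat_lit 5) (nat_lit 179) (nat_lit 5) (nat_lit 317) (nat_lit 303) (nat_lit 160)) (XT.lf (nat_lit 0) (nat_lit 12436145479) (nat_lit 532) (nat_lit 33207289805) (nat_lit 608) (nat_lit 3795951897) (nat_lit 164) (nat_lit 5) (nat_lit 171) (nat_lit 5) (nat_lit 172) (nat_lit 5) (nat_lit 318) (nat_lit 303) (nat_lit 159)))) (XT.nd (nat_lit 156) (nat_lit 988) (nat_lit 0) (XT.nd (nat_lit 78) (nat_lit 0) (nat_lit 0) (XT.lf (nat_lit 0) (nat_lit 3816208955) (nat_lit 532) (nat_lit 575919577) (nat_lit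 608) (nat_lit 46470254071) (nat_lit 156) (nat_lit 5) (nat_lit 163) (nat_lit 5) (nat_lit 164) (nat_lit 5) (nat_lit 319) (nat_lit 303) (nat_lit 158)) (XT.lf (nat_lit 0) (nat_lit 13617194819) (nat_lit 608) (nat_lit 5264457847) (nat_lit 76) (nat_lit 33452567774) (nat_lit 156) (nat_lit 5) (nat_lit 164) (nat_lit 5) (nat_lit 157) (nat_lit 5) (nat_lit 320) (nat_lit 303) (nat_lit 157))) (XT.nd (nat_lit 78) (nat_lit 456) (nat_lit 0) (XT.lf (nat_lit 0) (nat_lit 23835466614) (nat_lit 608) (nat_lit 14653439979) (nat_lit 76) (nat_lit 15374787671) (nat_lit 149) (nat_lit 5) (nat_lit 157) (nat_lit 5) (nat_lit 150) (nat_lit 5) (nat_lit 321) (nat_lit 303) (nat_lit 156)) (XT.lf (nat_lit 0) (nat_lit 30960555930) (nat_lit 456) (nat_lit 4144126308) (nat_lit 532) (nat_lit 20348761166) (nat_lit 143) (nat_lit 5) (nat_lit 149) (nat_lit 5) (nat_lit 150) (nat_lit 5) (nat_lit 322) (nat_lit 303) (nat_lit 155)))))) (XT.nd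 (nat_lit 546) (nat_lit 1976) (nat_lit 0) (XT.nd (nat_lit 234) (nat_lit 1216) (nat_lit 0) (XT.nd (nat_lit 78) (nat_lit 912) (nat_lit 0) (XT.lf (nat_lit 0) (nat_lit 22164337196) (nat_lit 456) (nat_lit 25442447373) (nat_lit 532) (nat_lit 9495815068) (nat_lit 137) (nat_lit 5) (nat_lit 143) (nat_lit 5) (nat_lit 144) (nat_lit 5) (nat_lit 323) (nat_lit 303) (nat_lit 154)) (XT.nd (nat_lit 78) (nat_lit 456) (nat_lit 0) (XT.lf (nat_lit 0) (nat_lit 2384989595) (nat_lit 456) (nat_lit 45896294662) (nat_lit 76) (nat_lit 10536715318) (nat_lit 131) (nat_lit 5) (nat_lit 137) (nat_lit 5) (nat_lit 132) (nat_lit 5) (nat_lit 324) (nat_lit 303) (nat_lit 153)) (XT.lf (nat_lit 0) (nat_lit 2995526701) (nat_lit 456) (nat_lit 12315942885) (nat_lit 532) (nat_lit 45285440817) (nat_lit 125) (nat_lit 5) (nat_lit 131) (nat_lit 5) (nat_lit 132) (nat_lit 5) (nat_lit 325) (nat_lit 303) (nat_lit 152)))) (XT.nd (nat_lit 156)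 (nat_lit 836) (nat_lit 0) (XT.nd (nat_lit 78) (nat_lit 380) (nat_lit 0) (XT.lf (nat_lit 0) (nat_lit 29603508489) (nat_lit 532) (nat_lit 7411958973) (nat_lit 76) (nat_lit 25427724285) (nat_lit 125) (nat_lit 5) (nat_lit 132) (nat_lit 5) (nat_lit 126) (nat_lit 5) (nat_lit 326) (nat_lit 303) (nat_lit 151)) (XT.lf (nat_lit 0) (nat_lit 45183289943) (nat_lit 456) (nat_lit 18314907064) (nat_lit 76) (nat_lit 866397860) (nat_lit 120) (nat_lit 5) (nat_lit 126) (nat_lit 5) (nat_lit 121) (nat_lit 5) (nat_lit 327) (nat_lit 303) (nat_lit 150))) (XT.nd (nat_lit 78) (nat_lit 456) (nat_lit 0) (XT.lf (nat_lit 0) (nat_lit 36290380790) (nat_lit 380) (nat_lit 26048864422) (nat_lit 456) (nat_lit 4018909226) (nat_lit 115) (nat_lit 5) (nat_lit 120) (nat_lit 5) (nat_lit 121) (nat_lit 5) (nat_lit 328) (nat_lit 303) (nat_lit 149)) (XT.lf (nat_lit 0) (nat_lit 12240020725) (nat_lit 456) (nat_lit 42617771937) (nat_lit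 76) (nat_lit 13573049127) (nat_lit 109) (nat_lit 5) (nat_lit 115) (nat_lit 5) (nat_lit 110) (nat_lit 5) (nat_lit 329) (nat_lit 303) (nat_lit 148))))) (XT.nd (nat_lit 312) (nat_lit 912) (nat_lit 0) (XT.nd (nat_lit 156) (nat_lit 380) (nat_lit 0) (XT.nd (nat_lit 78) (nat_lit 304) (nat_lit 0) (XT.lf (nat_lit 0) (nat_lit 14491766510) (nat_lit 380) (nat_lit 15450405138) (nat_lit 456) (nat_lit 40642397989) (nat_lit 104) (nat_lit 5) (nat_lit 109) (nat_lit 5) (nat_lit 110) (nat_lit 5) (nat_lit 330) (nat_lit 303) (nat_lit 147)) (XT.lf (nat_lit 0) (nat_lit 2303057594) (nat_lit 304) (nat_lit 46938679278) (nat_lit 380) (nat_lit 23582879343) (nat_lit 100) (nat_lit 5) (nat_lit 104) (nat_lit 5) (nat_lit 105) (nat_lit 5) (nat_lit 331) (nat_lit 303) (nat_lit 146))) (XT.nd (nat_lit 78) (nat_lit 380) (nat_lit 0) (XT.lf (nat_lit 0) (nat_lit 64629063964) (nat_lit 304) (nat_lit 5607015025) (nat_lit 380) (nat_lit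 4918693639) (nat_lit 100) (nat_lit 5) (nat_lit 104) (nat_lit 5) (nat_lit 105) (nat_lit 5) (nat_lit 332) (nat_lit 303) (nat_lit 145)) (XT.lf (nat_lit 0) (nat_lit 15273043880) (nat_lit 380) (nat_lit 24584071950) (nat_lit 76) (nat_lit 37713666062) (nat_lit 95) (nat_lit 5) (nat_lit 100) (nat_lit 5) (nat_lit 96) (nat_lit 5) (nat_lit 333) (nat_lit 303) (nat_lit 144)))) (XT.nd (nat_lit 156) (nat_lit 304) (nat_lit 0) (XT.nd (nat_lit 78) (nat_lit 304) (nat_lit 0) (XT.lf (nat_lit 0) (nat_lit 36960786500) (nat_lit 380) (nat_lit 39653456134) (nat_lit 76) (nat_lit 3474244948) (nat_lit 91) (nat_lit 5) (nat_lit 96) (nat_lit 5) (nat_lit 92) (nat_lit 5) (nat_lit 334) (nat_lit 303) (nat_lit 143)) (XT.lf (nat_lit 0) (nat_lit 26606096210) (nat_lit 304) (nat_lit 34038592746) (nat_lit 380) (nat_lit 22060037648) (nat_lit 87) (nat_lit 5) (nat_lit 91) (nat_lit 5) (nat_lit 92) (nat_lit 5) (nat_lit 335) (nat_lit 303)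 (nat_lit 142))) (XT.nd (nat_lit 78) (nat_lit 0) (nat_lit 0) (XT.lf (nat_lit 0) (nat_lit 691322931) (nat_lit 304) (nat_lit 73753183707) (nat_lit 76) (nat_lit 10988309349) (nat_lit 83) (nat_lit 5) (nat_lit 87) (nat_lit 5) (nat_lit 84) (nat_lit 5) (nat_lit 336) (nat_lit 303) (nat_lit 141)) (XT.lf (nat_lit 0) (nat_lit 25053273334) (nat_lit 304) (nat_lit 4835378442) (nat_lit 76) (nat_lit 58374228942) (nat_lit 83) (nat_lit 5) (nat_lit 87) (nat_lit 5) (nat_lit 84) (nat_lit 5) (nat_lit 337) (nat_lit 303) (nat_lit 140))))))))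
noncomputable def xc111 : XT := (XT.nd (nat_lit 38766) (nat_lit 0) (nat_lit 2204) (XT.nd (nat_lit 1092) (nat_lit 532) (nat_lit 0) (XT.nd (nat_lit 546) (nat_lit 1140) (nat_lit 0) (XT.nd (nat_lit 234) (nat_lit 760) (nat_lit 0) (XT.nd (nat_lit 78) (nat_lit 532) (nat_lit 0) (XT.lf (nat_lit 0) (nat_lit 51462627834) (nat_lit 380) (nat_lit 22513817723) (nat_lit 76) (nat_lit 17233124964) (nat_lit 79) (nat_lit 5) (nat_lit 84) (nat_lit 5) (nat_lit 80) (nat_lit 5) (nat_lit 338) (nat_lit 303) (nat_lit 139)) (XT.nd (nat_lit 78) (nat_lit 304) (nat_lit 0) (XT.lf (nat_lit 0) (nat_lit 52420722362) (nat_lit 228) (nat_lit 27625955028) (nat_lit 304) (nat_lit 14231291586) (nat_lit 76) (nat_lit 5) (nat_lit 79) (nat_lit 5) (nat_lit 80) (nat_lit 5) (nat_lit 339) (nat_lit 303) (nat_lit 138)) (XT.lf (nat_lit 0) (nat_lit 13089480747) (nat_lit 304) (nat_lit 63058298726) (nat_lit 76) (nat_lit 21325153747) (nat_lit 72)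 (nat_lit 5) (nat_lit 76) (nat_lit 5) (nat_lit 73) (nat_lit 5) (nat_lit 340) (nat_lit 303) (nat_lit 137)))) (XT.nd (nat_lit 156) (nat_lit 532) (nat_lit 0) (XT.nd (nat_lit 78) (nat_lit 0) (nat_lit 0) (XT.lf (nat_lit 0) (nat_lit 14412230005) (nat_lit 228) (nat_lit 27923465436) (nat_lit 304) (nat_lit 58462112123) (nat_lit 69) (nat_lit 5) (nat_lit 72) (nat_lit 5) (nat_lit 73) (nat_lit 5) (nat_lit 341) (nat_lit 303) (nat_lit 136)) (XT.lf (nat_lit 0) (nat_lit 73916611500) (nat_lit 304) (nat_lit 7422499992) (nat_lit 76) (nat_lit 22923643238) (nat_lit 69) (nat_lit 5) (nat_lit 73) (nat_lit 5) (nat_lit 70) (nat_lit 5) (nat_lit 342) (nat_lit 303) (nat_lit 135))) (XT.nd (nat_lit 78) (nat_lit 228) (nat_lit 0) (XT.lf (nat_lit 0) (nat_lit 219508152) (nat_lit 304) (nat_lit 31171163341) (nat_lit 76) (nat_lit 76479682330) (nat_lit 65) (nat_lit 5) (nat_lit 69) (nat_lit 5) (nat_lit 66) (nat_lit 5) (nat_lit 343)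 (nat_lit 303) (nat_lit 134)) (XT.lf (nat_lit 0) (nat_lit 32500534822) (nat_lit 304) (nat_lit 57566636630) (nat_lit 76) (nat_lit 21557707512) (nat_lit 62) (nat_lit 5) (nat_lit 66) (nat_lit 5) (nat_lit 63) (nat_lit 5) (nat_lit 344) (nat_lit 303) (nat_lit 133))))) (XT.nd (nat_lit 234) (nat_lit 684) (nat_lit 0) (XT.nd (nat_lit 78) (nat_lit 228) (nat_lit 0) (XT.lf (nat_lit 0) (nat_lit 28884486630) (nat_lit 228) (nat_lit 38428325363) (nat_lit 304) (nat_lit 48226803085) (nat_lit 59) (nat_lit 5) (nat_lit 62) (nat_lit 5) (nat_lit 63) (nat_lit 5) (nat_lit 345) (nat_lit 303) (nat_lit 132)) (XT.nd (nat_lit 78) (nat_lit 76) (nat_lit 0) (XT.lf (nat_lit 0) (nat_lit 1090317455) (nat_lit 152) (nat_lit 103534828347) (nat_lit 228) (nat_lit 15002159572) (nat_lit 57) (nat_lit 5) (nat_lit 59) (nat_lit 5) (nat_lit 60) (nat_lit 5) (nat_lit 346) (nat_lit 303) (nat_lit 131)) (XT.lf (nat_lit 0) (nat_lit 20783169351)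 (nat_lit 228) (nat_lit 29448658296) (nat_lit 76) (nat_lit 73643195428) (nat_lit 56) (nat_lit 5) (nat_lit 59) (nat_lit 5) (nat_lit 57) (nat_lit 5) (nat_lit 347) (nat_lit 303) (nat_lit 130)))) (XT.nd (nat_lit 156) (nat_lit 304) (nat_lit 0) (XT.nd (nat_lit 78) (nat_lit 152) (nat_lit 0) (XT.lf (nat_lit 0) (nat_lit 58738870874) (nat_lit 304) (nat_lit 63161422582) (nat_lit 76) (nat_lit 6409636481) (nat_lit 53) (nat_lit 5) (nat_lit 57) (nat_lit 5) (nat_lit 54) (nat_lit 5) (nat_lit 348) (nat_lit 303) (nat_lit 129)) (XT.lf (nat_lit 0) (nat_lit 32250807532) (nat_lit 152) (nat_lit 67463528865) (nat_lit 228) (nat_lit 33218586929) (nat_lit 51) (nat_lit 5) (nat_lit 53) (nat_lit 5) (nat_lit 54) (nat_lit 5) (nat_lit 349) (nat_lit 303) (nat_lit 128))) (XT.nd (nat_lit 78) (nat_lit 228) (nat_lit 0) (XT.lf (nat_lit 0) (nat_lit 5510355101) (nat_lit 228) (nat_lit 4069977990) (nat_lit 76) (nat_lit 128185641855)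 (nat_lit 50) (nat_lit 5) (nat_lit 53) (nat_lit 5) (nat_lit 51) (nat_lit 5) (nat_lit 350) (nat_lit 303) (nat_lit 127)) (XT.lf (nat_lit 0) (nat_lit 46950212760) (nat_lit 304) (nat_lit 44340128590) (nat_lit 76) (nat_lit 51496626979) (nat_lit 47) (nat_lit 5) (nat_lit 51) (nat_lit 5) (nat_lit 48) (nat_lit 5) (nat_lit 351) (nat_lit 303) (nat_lit 126)))))) (XT.nd (nat_lit 37128) (nat_lit 0) (nat_lit 11704) (XT.nd (nat_lit 234) (nat_lit 152) (nat_lit 0) (XT.nd (nat_lit 78) (nat_lit 228) (nat_lit 0) (XT.lf (nat_lit 0) (nat_lit 59172550691) (nat_lit 152) (nat_lit 31996247091) (nat_lit 228) (nat_lit 56869012028) (nat_lit 45) (nat_lit 5) (nat_lit 47) (nat_lit 5) (nat_lit 48) (nat_lit 5) (nat_lit 352) (nat_lit 303) (nat_lit 125)) (XT.nd (nat_lit 78) (nat_lit 76) (nat_lit 0) (XT.lf (nat_lit 0) (nat_lit 15250334529) (nat_lit 152) (nat_lit 123245388046) (nat_lit 228) (nat_lit 15028548915) (nat_lit 43) (nat_lit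 5) (nat_lit 45) (nat_lit 5) (nat_lit 46) (nat_lit 5) (nat_lit 353) (nat_lit 303) (nat_lit 124)) (XT.lf (nat_lit 0) (nat_lit 29585684045) (nat_lit 228) (nat_lit 33440472784) (nat_lit 76) (nat_lit 96213191564) (nat_lit 42) (nat_lit 5) (nat_lit 45) (nat_lit 5) (nat_lit 43) (nat_lit 5) (nat_lit 354) (nat_lit 303) (nat_lit 123)))) (XT.nd (nat_lit 36738) (nat_lit 0) (nat_lit 12540) (XT.nd (nat_lit 36660) (nat_lit 0) (nat_lit 12540) (XT.lf (nat_lit 0) (nat_lit 76882424660) (nat_lit 228) (nat_lit 87220600282) (nat_lit 76) (nat_lit 1109812378) (nat_lit 40) (nat_lit 5) (nat_lit 43) (nat_lit 5) (nat_lit 41) (nat_lit 5) (nat_lit 355) (nat_lit 303) (nat_lit 122)) (XT.lf (nat_lit 0) (nat_lit 5835948046) (nat_lit 0) (nat_lit 5835948046) (nat_lit 1140) (nat_lit 5825320042) (nat_lit 205) (nat_lit 5) (nat_lit 205) (nat_lit 3) (nat_lit 220) (nat_lit 3) (nat_lit 304) (nat_lit 304) (nat_lit 172))) (XT.nd (nat_lit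 78) (nat_lit 0) (nat_lit 76) (XT.lf (nat_lit 76) (nat_lit 3351813482) (nat_lit 0) (nat_lit 20839137848) (nat_lit 1216) (nat_lit 11670347521) (nat_lit 206) (nat_lit 5) (nat_lit 205) (nat_lit 5) (nat_lit 221) (nat_lit 5) (nat_lit 305) (nat_lit 304) (nat_lit 171)) (XT.lf (nat_lit 0) (nat_lit 25492287487) (nat_lit 1140) (nat_lit 5097311118) (nat_lit 1216) (nat_lit 6169561173) (nat_lit 206) (nat_lit 5) (nat_lit 221) (nat_lit 5) (nat_lit 222) (nat_lit 5) (nat_lit 306) (nat_lit 304) (nat_lit 170))))) (XT.nd (nat_lit 234) (nat_lit 912) (nat_lit 0) (XT.nd (nat_lit 78) (nat_lit 0) (nat_lit 76) (XT.lf (nat_lit 76) (nat_lit 23939285429) (nat_lit 0) (nat_lit 3354734257) (nat_lit 1216) (nat_lit 10394839509) (nat_lit 207) (nat_lit 5) (nat_lit 206) (nat_lit 5) (nat_lit 222) (nat_lit 5) (nat_lit 307) (nat_lit 304) (nat_lit 169)) (XT.nd (nat_lit 78) (nat_lit 0) (nat_lit 76) (XT.lf (nat_lit 76) (nat_lit 15935480602)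 (nat_lit 0) (nat_lit 13694282662) (nat_lit 1216) (nat_lit 9021967646) (nat_lit 208) (nat_lit 5) (nat_lit 207) (nat_lit 5) (nat_lit 223) (nat_lit 5) (nat_lit 308) (nat_lit 304) (nat_lit 168)) (XT.lf (nat_lit 76) (nat_lit 7702075085) (nat_lit 0) (nat_lit 24769807774) (nat_lit 1216) (nat_lit 7179180511) (nat_lit 209) (nat_lit 5) (nat_lit 208) (nat_lit 5) (nat_lit 224) (nat_lit 5) (nat_lit 309) (nat_lit 304) (nat_lit 167)))) (XT.nd (nat_lit 156) (nat_lit 1140) (nat_lit 0) (XT.nd (nat_lit 78) (nat_lit 0) (nat_lit 0) (XT.lf (nat_lit 0) (nat_lit 35862229960) (nat_lit 1140) (nat_lit 757282377) (nat_lit 1216) (nat_lit 4068671069) (nat_lit 209) (nat_lit 5) (nat_lit 224) (nat_lit 5) (nat_lit 225) (nat_lit 5) (nat_lit 310) (nat_lit 304) (nat_lit 166)) (XT.lf (nat_lit 76) (nat_lit 32372646334) (nat_lit 0) (nat_lit 7606391727) (nat_lit 1216) (nat_lit 1781417452) (nat_lit 210) (nat_lit 5) (nat_lit 209)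 (nat_lit 5) (nat_lit 225) (nat_lit 5) (nat_lit 311) (nat_lit 304) (nat_lit 165))) (XT.nd (nat_lit 78) (nat_lit 0) (nat_lit 76) (XT.lf (nat_lit 0) (nat_lit 1851738528) (nat_lit 1216) (nat_lit 18345875744) (nat_lit 1292) (nat_lit 22674402497) (nat_lit 194) (nat_lit 5) (nat_lit 210) (nat_lit 5) (nat_lit 211) (nat_lit 5) (nat_lit 312) (nat_lit 304) (nat_lit 164)) (XT.lf (nat_lit 0) (nat_lit 6060780238) (nat_lit 1216) (nat_lit 27611007934) (nat_lit 1292) (nat_lit 10353910525) (nat_lit 195) (nat_lit 5) (nat_lit 211) (nat_lit 5) (nat_lit 212) (nat_lit 5) (nat_lit 313) (nat_lit 304) (nat_lit 163))))))) (XT.nd (nat_lit 1092) (nat_lit 4256) (nat_lit 0) (XT.nd (nat_lit 546) (nat_lit 2356) (nat_lit 0) (XT.nd (nat_lit 234) (nat_lit 2280) (nat_lit 0) (XT.nd (nat_lit 78) (nat_lit 684) (nat_lit 0) (XT.lf (nat_lit 76) (nat_lit 8012749899) (nat_lit 0) (nat_lit 2935354332) (nat_lit 1292) (nat_lit 34274929258)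 (nat_lit 196) (nat_lit 5) (nat_lit 195) (nat_lit 5) (nat_lit 212) (nat_lit 5) (nat_lit 314) (nat_lit 304) (nat_lit 162)) (XT.nd (nat_lit 78) (nat_lit 760) (nat_lit 0) (XT.lf (nat_lit 0) (nat_lit 16645232377) (nat_lit 1216) (nat_lit 765019275) (nat_lit 76) (nat_lit 29053023726) (nat_lit 196) (nat_lit 5) (nat_lit 212) (nat_lit 5) (nat_lit 197) (nat_lit 5) (nat_lit 315) (nat_lit 304) (nat_lit 161)) (XT.lf (nat_lit 0) (nat_lit 23166809286) (nat_lit 836) (nat_lit 9684200913) (nat_lit 76) (nat_lit 14898334723) (nat_lit 186) (nat_lit 5) (nat_lit 197) (nat_lit 5) (nat_lit 187) (nat_lit 5) (nat_lit 316) (nat_lit 304) (nat_lit 160)))) (XT.nd (nat_lit 156) (nat_lit 1140) (nat_lit 0) (XT.nd (nat_lit 78) (nat_lit 532) (nat_lit 0) (XT.lf (nat_lit 0) (nat_lit 30163070154) (nat_lit 608) (nat_lit 321710951) (nat_lit 684) (nat_lit 18600830529) (nat_lit 178) (nat_lit 5) (nat_lit 186) (nat_lit 5) (nat_lit 187)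 (nat_lit 5) (nat_lit 317) (nat_lit 304) (nat_lit 159)) (XT.lf (nat_lit 0) (nat_lit 21815809355) (nat_lit 532) (nat_lit 16985282567) (nat_lit 608) (nat_lit 11668629566) (nat_lit 171) (nat_lit 5) (nat_lit 178) (nat_lit 5) (nat_lit 179) (nat_lit 5) (nat_lit 318) (nat_lit 304) (nat_lit 158))) (XT.nd (nat_lit 78) (nat_lit 608) (nat_lit 0) (XT.lf (nat_lit 0) (nat_lit 13153879825) (nat_lit 532) (nat_lit 34866570458) (nat_lit 608) (nat_lit 3887972472) (nat_lit 164) (nat_lit 5) (nat_lit 171) (nat_lit 5) (nat_lit 172) (nat_lit 5) (nat_lit 319) (nat_lit 304) (nat_lit 157)) (XT.lf (nat_lit 0) (nat_lit 4102133483) (nat_lit 532) (nat_lit 601819616) (nat_lit 608) (nat_lit 48698700269) (nat_lit 156) (nat_lit 5) (nat_lit 163) (nat_lit 5) (nat_lit 164) (nat_lit 5) (nat_lit 320) (nat_lit 304) (nat_lit 156))))) (XT.nd (nat_lit 234) (nat_lit 1368) (nat_lit 0) (XT.nd (nat_lit 78) (nat_lit 988) (nat_lit 0) (XT.lf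 (nat_lit 0) (nat_lit 14385907873) (nat_lit 608) (nat_lit 5434409683) (nat_lit 76) (nat_lit 35127900381) (nat_lit 156) (nat_lit 5) (nat_lit 164) (nat_lit 5) (nat_lit 157) (nat_lit 5) (nat_lit 321) (nat_lit 304) (nat_lit 155)) (XT.nd (nat_lit 78) (nat_lit 456) (nat_lit 0) (XT.lf (nat_lit 0) (nat_lit 25111838866) (nat_lit 608) (nat_lit 15292962305) (nat_lit 76) (nat_lit 16149465624) (nat_lit 149) (nat_lit 5) (nat_lit 157) (nat_lit 5) (nat_lit 150) (nat_lit 5) (nat_lit 322) (nat_lit 304) (nat_lit 154)) (XT.lf (nat_lit 0) (nat_lit 32599063283) (nat_lit 456) (nat_lit 4342293214) (nat_lit 532) (nat_lit 21282245194) (nat_lit 143) (nat_lit 5) (nat_lit 149) (nat_lit 5) (nat_lit 150) (nat_lit 5) (nat_lit 323) (nat_lit 304) (nat_lit 153)))) (XT.nd (nat_lit 156) (nat_lit 456) (nat_lit 0) (XT.nd (nat_lit 78) (nat_lit 456) (nat_lit 0) (XT.lf (nat_lit 0) (nat_lit 23362797457) (nat_lit 456) (nat_lit 26702838614)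 (nat_lit 532) (nat_lit 9889670866) (nat_lit 137) (nat_lit 5) (nat_lit 143) (nat_lit 5) (nat_lit 144) (nat_lit 5) (nat_lit 324) (nat_lit 304) (nat_lit 152)) (XT.lf (nat_lit 0) (nat_lit 2580797052) (nat_lit 456) (nat_lit 48099623205) (nat_lit 76) (nat_lit 11076120316) (nat_lit 131) (nat_lit 5) (nat_lit 137) (nat_lit 5) (nat_lit 132) (nat_lit 5) (nat_lit 325) (nat_lit 304) (nat_lit 151))) (XT.nd (nat_lit 78) (nat_lit 0) (nat_lit 0) (XT.lf (nat_lit 0) (nat_lit 3234166792) (nat_lit 456) (nat_lit 12916642845) (nat_lit 532) (nat_lit 47473674011) (nat_lit 125) (nat_lit 5) (nat_lit 131) (nat_lit 5) (nat_lit 132) (nat_lit 5) (nat_lit 326) (nat_lit 304) (nat_lit 150)) (XT.lf (nat_lit 0) (nat_lit 31154076004) (nat_lit 532) (nat_lit 7695898915) (nat_lit 76) (nat_lit 26713208198) (nat_lit 125) (nat_lit 5) (nat_lit 132) (nat_lit 5) (nat_lit 126) (nat_lit 5) (nat_lit 327) (nat_lit 304) (nat_lit 149))))))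 (XT.nd (nat_lit 546) (nat_lit 1976) (nat_lit 0) (XT.nd (nat_lit 234) (nat_lit 1064) (nat_lit 0) (XT.nd (nat_lit 78) (nat_lit 836) (nat_lit 0) (XT.lf (nat_lit 0) (nat_lit 47510460582) (nat_lit 456) (nat_lit 19144546125) (nat_lit 76) (nat_lit 925723954) (nat_lit 120) (nat_lit 5) (nat_lit 126) (nat_lit 5) (nat_lit 121) (nat_lit 5) (nat_lit 328) (nat_lit 304) (nat_lit 148)) (XT.nd (nat_lit 78) (nat_lit 456) (nat_lit 0) (XT.lf (nat_lit 0) (nat_lit 38188537902) (nat_lit 380) (nat_lit 27333241305) (nat_lit 456) (nat_lit 4152264595) (nat_lit 115) (nat_lit 5) (nat_lit 120) (nat_lit 5) (nat_lit 121) (nat_lit 5) (nat_lit 329) (nat_lit 304) (nat_lit 147)) (XT.lf (nat_lit 0) (nat_lit 12916110251) (nat_lit 456) (nat_lit 44664305279) (nat_lit 76) (nat_lit 14269998345) (nat_lit 109) (nat_lit 5) (nat_lit 115) (nat_lit 5) (nat_lit 110) (nat_lit 5) (nat_lit 330) (nat_lit 304) (nat_lit 146)))) (XT.nd (nat_lit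 156) (nat_lit 380) (nat_lit 0) (XT.nd (nat_lit 78) (nat_lit 304) (nat_lit 0) (XT.lf (nat_lit 0) (nat_lit 15298292063) (nat_lit 380) (nat_lit 16202812455) (nat_lit 456) (nat_lit 42610793779) (nat_lit 104) (nat_lit 5) (nat_lit 109) (nat_lit 5) (nat_lit 110) (nat_lit 5) (nat_lit 331) (nat_lit 304) (nat_lit 145)) (XT.lf (nat_lit 0) (nat_lit 2499456555) (nat_lit 304) (nat_lit 49264212553) (nat_lit 380) (nat_lit 24700339610) (nat_lit 100) (nat_lit 5) (nat_lit 104) (nat_lit 5) (nat_lit 105) (nat_lit 5) (nat_lit 332) (nat_lit 304) (nat_lit 144))) (XT.nd (nat_lit 78) (nat_lit 380) (nat_lit 0) (XT.lf (nat_lit 0) (nat_lit 67937894382) (nat_lit 304) (nat_lit 5866984168) (nat_lit 380) (nat_lit 5105881940) (nat_lit 100) (nat_lit 5) (nat_lit 104) (nat_lit 5) (nat_lit 105) (nat_lit 5) (nat_lit 333) (nat_lit 304) (nat_lit 143)) (XT.lf (nat_lit 0) (nat_lit 16092485972) (nat_lit 380) (nat_lit 25735457904) (nat_lit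 76) (nat_lit 39619665595) (nat_lit 95) (nat_lit 5) (nat_lit 100) (nat_lit 5) (nat_lit 96) (nat_lit 5) (nat_lit 334) (nat_lit 304) (nat_lit 142))))) (XT.nd (nat_lit 312) (nat_lit 1064) (nat_lit 0) (XT.nd (nat_lit 156) (nat_lit 304) (nat_lit 0) (XT.nd (nat_lit 78) (nat_lit 304) (nat_lit 0) (XT.lf (nat_lit 0) (nat_lit 38862894505) (nat_lit 380) (nat_lit 41559098967) (nat_lit 76) (nat_lit 3669260411) (nat_lit 91) (nat_lit 5) (nat_lit 96) (nat_lit 5) (nat_lit 92) (nat_lit 5) (nat_lit 335) (nat_lit 304) (nat_lit 141)) (XT.lf (nat_lit 0) (nat_lit 28011222945) (nat_lit 304) (nat_lit 35717913674) (nat_lit 380) (nat_lit 23109225616) (nat_lit 87) (nat_lit 5) (nat_lit 91) (nat_lit 5) (nat_lit 92) (nat_lit 5) (nat_lit 336) (nat_lit 304) (nat_lit 140))) (XT.nd (nat_lit 78) (nat_lit 0) (nat_lit 0) (XT.lf (nat_lit 0) (nat_lit 777067934) (nat_lit 304) (nat_lit 77365771730) (nat_lit 76) (nat_lit 11560050039)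 (nat_lit 83) (nat_lit 5) (nat_lit 87) (nat_lit 5) (nat_lit 84) (nat_lit 5) (nat_lit 337) (nat_lit 304) (nat_lit 139)) (XT.lf (nat_lit 0) (nat_lit 26354678769) (nat_lit 304) (nat_lit 5005651020) (nat_lit 76) (nat_lit 61314202506) (nat_lit 83) (nat_lit 5) (nat_lit 87) (nat_lit 5) (nat_lit 84) (nat_lit 5) (nat_lit 338) (nat_lit 304) (nat_lit 138)))) (XT.nd (nat_lit 156) (nat_lit 532) (nat_lit 0) (XT.nd (nat_lit 78) (nat_lit 228) (nat_lit 0) (XT.lf (nat_lit 0) (nat_lit 54083062448) (nat_lit 380) (nat_lit 23568835200) (nat_lit 76) (nat_lit 18116703534) (nat_lit 79) (nat_lit 5) (nat_lit 84) (nat_lit 5) (nat_lit 80) (nat_lit 5) (nat_lit 339) (nat_lit 304) (nat_lit 137)) (XT.lf (nat_lit 0) (nat_lit 55110406050) (nat_lit 228) (nat_lit 28984315780) (nat_lit 304) (nat_lit 14895746879) (nat_lit 76) (nat_lit 5) (nat_lit 79) (nat_lit 5) (nat_lit 80) (nat_lit 5) (nat_lit 340) (nat_lit 304) (nat_lit 136)))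 (XT.nd (nat_lit 78) (nat_lit 228) (nat_lit 0) (XT.lf (nat_lit 0) (nat_lit 13788815762) (nat_lit 304) (nat_lit 66142471248) (nat_lit 76) (nat_lit 22413921708) (nat_lit 72) (nat_lit 5) (nat_lit 76) (nat_lit 5) (nat_lit 73) (nat_lit 5) (nat_lit 341) (nat_lit 304) (nat_lit 135)) (XT.lf (nat_lit 0) (nat_lit 15199613432) (nat_lit 228) (nat_lit 29296233374) (nat_lit 304) (nat_lit 61340526011) (nat_lit 69) (nat_lit 5) (nat_lit 72) (nat_lit 5) (nat_lit 73) (nat_lit 5) (nat_lit 342) (nat_lit 304) (nat_lit 134))))))))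
noncomputable def xc112 : XT := (XT.nd (nat_lit 38922) (nat_lit 0) (nat_lit 1064) (XT.nd (nat_lit 37830) (nat_lit 0) (nat_lit 9196) (XT.nd (nat_lit 546) (nat_lit 760) (nat_lit 0) (XT.nd (nat_lit 234) (nat_lit 684) (nat_lit 0) (XT.nd (nat_lit 78) (nat_lit 532) (nat_lit 0) (XT.lf (nat_lit 0) (nat_lit 77653957865) (nat_lit 304) (nat_lit 7728984929) (nat_lit 76) (nat_lit 24091681221) (nat_lit 69) (nat_lit 5) (nat_lit 73) (nat_lit 5) (nat_lit 70) (nat_lit 5) (nat_lit 343) (nat_lit 304) (nat_lit 133)) (XT.nd (nat_lit 78) (nat_lit 228) (nat_lit 0) (XT.lf (nat_lit 0) (nat_lit 271044862) (nat_lit 304) (nat_lit 32666105843) (nat_lit 76) (nat_lit 80325482722) (nat_lit 65) (nat_lit 5) (nat_lit 69) (nat_lit 5) (nat_lit 66) (nat_lit 5) (nat_lit 344) (nat_lit 304) (nat_lit 132)) (XT.lf (nat_lit 0) (nat_lit 34165002300) (nat_lit 304) (nat_lit 60382196319) (nat_lit 76) (nat_lit 22657720837) (nat_lit 62) (nat_lit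 5) (nat_lit 66) (nat_lit 5) (nat_lit 63) (nat_lit 5) (nat_lit 345) (nat_lit 304) (nat_lit 131)))) (XT.nd (nat_lit 156) (nat_lit 304) (nat_lit 0) (XT.nd (nat_lit 78) (nat_lit 152) (nat_lit 0) (XT.lf (nat_lit 0) (nat_lit 30389683754) (nat_lit 228) (nat_lit 40326917554) (nat_lit 304) (nat_lit 50598830792) (nat_lit 59) (nat_lit 5) (nat_lit 62) (nat_lit 5) (nat_lit 63) (nat_lit 5) (nat_lit 346) (nat_lit 304) (nat_lit 130)) (XT.lf (nat_lit 0) (nat_lit 1204975612) (nat_lit 152) (nat_lit 108688546665) (nat_lit 228) (nat_lit 15714016436) (nat_lit 57) (nat_lit 5) (nat_lit 59) (nat_lit 5) (nat_lit 60) (nat_lit 5) (nat_lit 347) (nat_lit 304) (nat_lit 129))) (XT.nd (nat_lit 78) (nat_lit 228) (nat_lit 0) (XT.lf (nat_lit 0) (nat_lit 21858046577) (nat_lit 228) (nat_lit 30863085001) (nat_lit 76) (nat_lit 77346554116) (nat_lit 56) (nat_lit 5) (nat_lit 59) (nat_lit 5) (nat_lit 57) (nat_lit 5) (nat_lit 348)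 (nat_lit 304) (nat_lit 128)) (XT.lf (nat_lit 0) (nat_lit 61710583293) (nat_lit 304) (nat_lit 66262306692) (nat_lit 76) (nat_lit 6751477220) (nat_lit 53) (nat_lit 5) (nat_lit 57) (nat_lit 5) (nat_lit 54) (nat_lit 5) (nat_lit 349) (nat_lit 304) (nat_lit 127))))) (XT.nd (nat_lit 234) (nat_lit 304) (nat_lit 0) (XT.nd (nat_lit 78) (nat_lit 304) (nat_lit 0) (XT.lf (nat_lit 0) (nat_lit 33918895673) (nat_lit 152) (nat_lit 70814804717) (nat_lit 228) (nat_lit 34844844294) (nat_lit 51) (nat_lit 5) (nat_lit 53) (nat_lit 5) (nat_lit 54) (nat_lit 5) (nat_lit 350) (nat_lit 304) (nat_lit 126)) (XT.nd (nat_lit 78) (nat_lit 228) (nat_lit 0) (XT.lf (nat_lit 0) (nat_lit 5818249434) (nat_lit 228) (nat_lit 4219915665) (nat_lit 76) (nat_lit 134615123063) (nat_lit 50) (nat_lit 5) (nat_lit 53) (nat_lit 5) (nat_lit 51) (nat_lit 5) (nat_lit 351) (nat_lit 304) (nat_lit 125)) (XT.lf (nat_lit 0) (nat_lit 49329257233)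 (nat_lit 304) (nat_lit 46504354408) (nat_lit 76) (nat_lit 54091745534) (nat_lit 47) (nat_lit 5) (nat_lit 51) (nat_lit 5) (nat_lit 48) (nat_lit 5) (nat_lit 352) (nat_lit 304) (nat_lit 124)))) (XT.nd (nat_lit 36894) (nat_lit 0) (nat_lit 12312) (XT.nd (nat_lit 78) (nat_lit 152) (nat_lit 0) (XT.lf (nat_lit 0) (nat_lit 62182445891) (nat_lit 152) (nat_lit 33575316820) (nat_lit 228) (nat_lit 59681008929) (nat_lit 45) (nat_lit 5) (nat_lit 47) (nat_lit 5) (nat_lit 48) (nat_lit 5) (nat_lit 353) (nat_lit 304) (nat_lit 123)) (XT.lf (nat_lit 0) (nat_lit 16063357709) (nat_lit 152) (nat_lit 129386897856) (nat_lit 228) (nat_lit 15749324798) (nat_lit 43) (nat_lit 5) (nat_lit 45) (nat_lit 5) (nat_lit 46) (nat_lit 5) (nat_lit 354) (nat_lit 304) (nat_lit 122))) (XT.nd (nat_lit 78) (nat_lit 0) (nat_lit 0) (XT.lf (nat_lit 0) (nat_lit 6169278934) (nat_lit 0) (nat_lit 6169278934) (nat_lit 1140) (nat_lit 6030941131)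 (nat_lit 205) (nat_lit 5) (nat_lit 205) (nat_lit 3) (nat_lit 220) (nat_lit 3) (nat_lit 305) (nat_lit 305) (nat_lit 170)) (XT.lf (nat_lit 76) (nat_lit 3605873723) (nat_lit 0) (nat_lit 21952918708) (nat_lit 1216) (nat_lit 12090658875) (nat_lit 206) (nat_lit 5) (nat_lit 205) (nat_lit 5) (nat_lit 221) (nat_lit 5) (nat_lit 306) (nat_lit 305) (nat_lit 169)))))) (XT.nd (nat_lit 546) (nat_lit 2280) (nat_lit 0) (XT.nd (nat_lit 234) (nat_lit 912) (nat_lit 0) (XT.nd (nat_lit 78) (nat_lit 0) (nat_lit 0) (XT.lf (nat_lit 0) (nat_lit 26917000070) (nat_lit 1140) (nat_lit 5264488606) (nat_lit 1216) (nat_lit 6410970257) (nat_lit 206) (nat_lit 5) (nat_lit 221) (nat_lit 5) (nat_lit 222) (nat_lit 5) (nat_lit 307) (nat_lit 305) (nat_lit 168)) (XT.nd (nat_lit 78) (nat_lit 0) (nat_lit 76) (XT.lf (nat_lit 76) (nat_lit 25221424207) (nat_lit 0) (nat_lit 3581065888) (nat_lit 1216) (nat_lit 10766350513) (nat_lit 207)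 (nat_lit 5) (nat_lit 206) (nat_lit 5) (nat_lit 222) (nat_lit 5) (nat_lit 308) (nat_lit 305) (nat_lit 167)) (XT.lf (nat_lit 76) (nat_lit 16819868390) (nat_lit 0) (nat_lit 14428612066) (nat_lit 1216) (nat_lit 9331578733) (nat_lit 208) (nat_lit 5) (nat_lit 207) (nat_lit 5) (nat_lit 223) (nat_lit 5) (nat_lit 309) (nat_lit 305) (nat_lit 166)))) (XT.nd (nat_lit 156) (nat_lit 1064) (nat_lit 0) (XT.nd (nat_lit 78) (nat_lit 0) (nat_lit 76) (XT.lf (nat_lit 76) (nat_lit 8176880630) (nat_lit 0) (nat_lit 26049698733) (nat_lit 1216) (nat_lit 7402969444) (nat_lit 209) (nat_lit 5) (nat_lit 208) (nat_lit 5) (nat_lit 224) (nat_lit 5) (nat_lit 310) (nat_lit 305) (nat_lit 165)) (XT.lf (nat_lit 0) (nat_lit 37779821833) (nat_lit 1140) (nat_lit 705463172) (nat_lit 1216) (nat_lit 4233444913) (nat_lit 209) (nat_lit 5) (nat_lit 224) (nat_lit 5) (nat_lit 225) (nat_lit 5) (nat_lit 311) (nat_lit 305) (nat_lit 164)))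 (XT.nd (nat_lit 78) (nat_lit 1140) (nat_lit 0) (XT.lf (nat_lit 76) (nat_lit 34078391221) (nat_lit 0) (nat_lit 8018988861) (nat_lit 1216) (nat_lit 1747394363) (nat_lit 210) (nat_lit 5) (nat_lit 209) (nat_lit 5) (nat_lit 225) (nat_lit 5) (nat_lit 312) (nat_lit 305) (nat_lit 163)) (XT.lf (nat_lit 0) (nat_lit 2059831032) (nat_lit 1216) (nat_lit 19172243248) (nat_lit 1292) (nat_lit 23779965223) (nat_lit 194) (nat_lit 5) (nat_lit 210) (nat_lit 5) (nat_lit 211) (nat_lit 5) (nat_lit 313) (nat_lit 305) (nat_lit 162))))) (XT.nd (nat_lit 234) (nat_lit 2356) (nat_lit 0) (XT.nd (nat_lit 78) (nat_lit 0) (nat_lit 0) (XT.lf (nat_lit 0) (nat_lit 6474456933) (nat_lit 1216) (nat_lit 28899588629) (nat_lit 1292) (nat_lit 10849511381) (nat_lit 195) (nat_lit 5) (nat_lit 211) (nat_lit 5) (nat_lit 212) (nat_lit 5) (nat_lit 314) (nat_lit 305) (nat_lit 161)) (XT.nd (nat_lit 78) (nat_lit 0) (nat_lit 76) (XT.lf (nat_lit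 76) (nat_lit 8502720802) (nat_lit 0) (nat_lit 3099016589) (nat_lit 1292) (nat_lit 35879158496) (nat_lit 196) (nat_lit 5) (nat_lit 195) (nat_lit 5) (nat_lit 212) (nat_lit 5) (nat_lit 315) (nat_lit 305) (nat_lit 160)) (XT.lf (nat_lit 0) (nat_lit 17578508804) (nat_lit 1216) (nat_lit 714903491) (nat_lit 76) (nat_lit 30489898849) (nat_lit 196) (nat_lit 5) (nat_lit 212) (nat_lit 5) (nat_lit 197) (nat_lit 5) (nat_lit 316) (nat_lit 305) (nat_lit 159)))) (XT.nd (nat_lit 156) (nat_lit 1064) (nat_lit 0) (XT.nd (nat_lit 78) (nat_lit 608) (nat_lit 0) (XT.lf (nat_lit 0) (nat_lit 24422071793) (nat_lit 836) (nat_lit 10079465800) (nat_lit 76) (nat_lit 15632274000) (nat_lit 186) (nat_lit 5) (nat_lit 197) (nat_lit 5) (nat_lit 187) (nat_lit 5) (nat_lit 317) (nat_lit 305) (nat_lit 158)) (XT.lf (nat_lit 0) (nat_lit 31757619225) (nat_lit 608) (nat_lit 344538129) (nat_lit 684) (nat_lit 19434852256) (nat_lit 178)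 (nat_lit 5) (nat_lit 186) (nat_lit 5) (nat_lit 187) (nat_lit 5) (nat_lit 318) (nat_lit 305) (nat_lit 157))) (XT.nd (nat_lit 78) (nat_lit 532) (nat_lit 0) (XT.lf (nat_lit 0) (nat_lit 22993381798) (nat_lit 532) (nat_lit 17837239293) (nat_lit 608) (nat_lit 12159817959) (nat_lit 171) (nat_lit 5) (nat_lit 178) (nat_lit 5) (nat_lit 179) (nat_lit 5) (nat_lit 319) (nat_lit 305) (nat_lit 156)) (XT.lf (nat_lit 0) (nat_lit 13898582498) (nat_lit 532) (nat_lit 36608915908) (nat_lit 608) (nat_lit 3993684455) (nat_lit 164) (nat_lit 5) (nat_lit 171) (nat_lit 5) (nat_lit 172) (nat_lit 5) (nat_lit 320) (nat_lit 305) (nat_lit 155))))))) (XT.nd (nat_lit 1092) (nat_lit 3268) (nat_lit 0) (XT.nd (nat_lit 546) (nat_lit 1900) (nat_lit 0) (XT.nd (nat_lit 234) (nat_lit 1824) (nat_lit 0) (XT.nd (nat_lit 78) (nat_lit 532) (nat_lit 0) (XT.lf (nat_lit 0) (nat_lit 4393511432) (nat_lit 532) (nat_lit 629283894) (nat_lit 608)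 (nat_lit 51047407159) (nat_lit 156) (nat_lit 5) (nat_lit 163) (nat_lit 5) (nat_lit 164) (nat_lit 5) (nat_lit 321) (nat_lit 305) (nat_lit 154)) (XT.nd (nat_lit 78) (nat_lit 532) (nat_lit 0) (XT.lf (nat_lit 0) (nat_lit 15184888811) (nat_lit 608) (nat_lit 5621530571) (nat_lit 76) (nat_lit 36886748206) (nat_lit 156) (nat_lit 5) (nat_lit 164) (nat_lit 5) (nat_lit 157) (nat_lit 5) (nat_lit 322) (nat_lit 305) (nat_lit 153)) (XT.lf (nat_lit 0) (nat_lit 26444164524) (nat_lit 608) (nat_lit 15973120921) (nat_lit 76) (nat_lit 16962325364) (nat_lit 149) (nat_lit 5) (nat_lit 157) (nat_lit 5) (nat_lit 150) (nat_lit 5) (nat_lit 323) (nat_lit 305) (nat_lit 152)))) (XT.nd (nat_lit 156) (nat_lit 912) (nat_lit 0) (XT.nd (nat_lit 78) (nat_lit 456) (nat_lit 0) (XT.lf (nat_lit 0) (nat_lit 34311084071) (nat_lit 456) (nat_lit 4551208863) (nat_lit 532) (nat_lit 22270208674) (nat_lit 143) (nat_lit 5) (nat_lit 149)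 (nat_lit 5) (nat_lit 150) (nat_lit 5) (nat_lit 324) (nat_lit 305) (nat_lit 151)) (XT.lf (nat_lit 0) (nat_lit 24612790755) (nat_lit 456) (nat_lit 28027340067) (nat_lit 532) (nat_lit 10310744018) (nat_lit 137) (nat_lit 5) (nat_lit 143) (nat_lit 5) (nat_lit 144) (nat_lit 5) (nat_lit 325) (nat_lit 305) (nat_lit 150))) (XT.nd (nat_lit 78) (nat_lit 456) (nat_lit 0) (XT.lf (nat_lit 0) (nat_lit 2779277247) (nat_lit 456) (nat_lit 50421623695) (nat_lit 76) (nat_lit 11641326995) (nat_lit 131) (nat_lit 5) (nat_lit 137) (nat_lit 5) (nat_lit 132) (nat_lit 5) (nat_lit 326) (nat_lit 305) (nat_lit 149)) (XT.lf (nat_lit 0) (nat_lit 3476477178) (nat_lit 456) (nat_lit 13548781396) (nat_lit 532) (nat_lit 49778388236) (nat_lit 125) (nat_lit 5) (nat_lit 131) (nat_lit 5) (nat_lit 132) (nat_lit 5) (nat_lit 327) (nat_lit 305) (nat_lit 148))))) (XT.nd (nat_lit 234) (nat_lit 1140) (nat_lit 0) (XT.nd (nat_lit 78) (nat_lit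 760) (nat_lit 0) (XT.lf (nat_lit 0) (nat_lit 32775627505) (nat_lit 532) (nat_lit 8002092493) (nat_lit 76) (nat_lit 28061655637) (nat_lit 125) (nat_lit 5) (nat_lit 132) (nat_lit 5) (nat_lit 126) (nat_lit 5) (nat_lit 328) (nat_lit 305) (nat_lit 147)) (XT.nd (nat_lit 78) (nat_lit 380) (nat_lit 0) (XT.lf (nat_lit 0) (nat_lit 49947667186) (nat_lit 456) (nat_lit 20023672486) (nat_lit 76) (nat_lit 986528247) (nat_lit 120) (nat_lit 5) (nat_lit 126) (nat_lit 5) (nat_lit 121) (nat_lit 5) (nat_lit 329) (nat_lit 305) (nat_lit 146)) (XT.lf (nat_lit 0) (nat_lit 40173826995) (nat_lit 380) (nat_lit 28683516668) (nat_lit 456) (nat_lit 4298571618) (nat_lit 115) (nat_lit 5) (nat_lit 120) (nat_lit 5) (nat_lit 121) (nat_lit 5) (nat_lit 330) (nat_lit 305) (nat_lit 145)))) (XT.nd (nat_lit 156) (nat_lit 304) (nat_lit 0) (XT.nd (nat_lit 78) (nat_lit 380) (nat_lit 0) (XT.lf (nat_lit 0) (nat_lit 13620045913) (nat_lit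 456) (nat_lit 46821007841) (nat_lit 76) (nat_lit 15000093965) (nat_lit 109) (nat_lit 5) (nat_lit 115) (nat_lit 5) (nat_lit 110) (nat_lit 5) (nat_lit 331) (nat_lit 305) (nat_lit 144)) (XT.lf (nat_lit 0) (nat_lit 16137526147) (nat_lit 380) (nat_lit 16994710049) (nat_lit 456) (nat_lit 44683533822) (nat_lit 104) (nat_lit 5) (nat_lit 109) (nat_lit 5) (nat_lit 110) (nat_lit 5) (nat_lit 332) (nat_lit 305) (nat_lit 143))) (XT.nd (nat_lit 78) (nat_lit 0) (nat_lit 0) (XT.lf (nat_lit 0) (nat_lit 2698121973) (nat_lit 304) (nat_lit 51708012125) (nat_lit 380) (nat_lit 25879407656) (nat_lit 100) (nat_lit 5) (nat_lit 104) (nat_lit 5) (nat_lit 105) (nat_lit 5) (nat_lit 333) (nat_lit 305) (nat_lit 142)) (XT.lf (nat_lit 0) (nat_lit 71404972521) (nat_lit 304) (nat_lit 6141846657) (nat_lit 380) (nat_lit 5307891338) (nat_lit 100) (nat_lit 5) (nat_lit 104) (nat_lit 5) (nat_lit 105) (nat_lit 5) (nat_lit 334) (nat_lit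 305) (nat_lit 141)))))) (XT.nd (nat_lit 546) (nat_lit 1444) (nat_lit 0) (XT.nd (nat_lit 234) (nat_lit 836) (nat_lit 0) (XT.nd (nat_lit 78) (nat_lit 608) (nat_lit 0) (XT.lf (nat_lit 0) (nat_lit 16947713353) (nat_lit 380) (nat_lit 26951647903) (nat_lit 76) (nat_lit 41619076294) (nat_lit 95) (nat_lit 5) (nat_lit 100) (nat_lit 5) (nat_lit 96) (nat_lit 5) (nat_lit 335) (nat_lit 305) (nat_lit 140)) (XT.nd (nat_lit 78) (nat_lit 304) (nat_lit 0) (XT.lf (nat_lit 0) (nat_lit 40855081117) (nat_lit 380) (nat_lit 43567185459) (nat_lit 76) (nat_lit 3872046075) (nat_lit 91) (nat_lit 5) (nat_lit 96) (nat_lit 5) (nat_lit 92) (nat_lit 5) (nat_lit 336) (nat_lit 305) (nat_lit 139)) (XT.lf (nat_lit 0) (nat_lit 29479649783) (nat_lit 304) (nat_lit 37483302592) (nat_lit 380) (nat_lit 24215876091) (nat_lit 87) (nat_lit 5) (nat_lit 91) (nat_lit 5) (nat_lit 92) (nat_lit 5) (nat_lit 337) (nat_lit 305) (nat_lit 138))))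 (XT.nd (nat_lit 156) (nat_lit 532) (nat_lit 0) (XT.nd (nat_lit 78) (nat_lit 0) (nat_lit 0) (XT.lf (nat_lit 0) (nat_lit 862342062) (nat_lit 304) (nat_lit 81165968559) (nat_lit 76) (nat_lit 12158302176) (nat_lit 83) (nat_lit 5) (nat_lit 87) (nat_lit 5) (nat_lit 84) (nat_lit 5) (nat_lit 338) (nat_lit 305) (nat_lit 137)) (XT.lf (nat_lit 0) (nat_lit 27716622928) (nat_lit 304) (nat_lit 5191084278) (nat_lit 76) (nat_lit 64399197998) (nat_lit 83) (nat_lit 5) (nat_lit 87) (nat_lit 5) (nat_lit 84) (nat_lit 5) (nat_lit 339) (nat_lit 305) (nat_lit 136))) (XT.nd (nat_lit 78) (nat_lit 228) (nat_lit 0) (XT.lf (nat_lit 0) (nat_lit 56830120988) (nat_lit 380) (nat_lit 24683174094) (nat_lit 76) (nat_lit 19042422902) (nat_lit 79) (nat_lit 5) (nat_lit 84) (nat_lit 5) (nat_lit 80) (nat_lit 5) (nat_lit 340) (nat_lit 305) (nat_lit 135)) (XT.lf (nat_lit 0) (nat_lit 57928191723) (nat_lit 228) (nat_lit 30412727034)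 (nat_lit 304) (nat_lit 15597804712) (nat_lit 76) (nat_lit 5) (nat_lit 79) (nat_lit 5) (nat_lit 80) (nat_lit 5) (nat_lit 341) (nat_lit 305) (nat_lit 134))))) (XT.nd (nat_lit 234) (nat_lit 912) (nat_lit 0) (XT.nd (nat_lit 78) (nat_lit 228) (nat_lit 0) (XT.lf (nat_lit 0) (nat_lit 14518946779) (nat_lit 304) (nat_lit 69387243414) (nat_lit 76) (nat_lit 23555035275) (nat_lit 72) (nat_lit 5) (nat_lit 76) (nat_lit 5) (nat_lit 73) (nat_lit 5) (nat_lit 342) (nat_lit 305) (nat_lit 133)) (XT.nd (nat_lit 78) (nat_lit 0) (nat_lit 0) (XT.lf (nat_lit 0) (nat_lit 16020158210) (nat_lit 228) (nat_lit 30739815715) (nat_lit 304) (nat_lit 64367015605) (nat_lit 69) (nat_lit 5) (nat_lit 72) (nat_lit 5) (nat_lit 73) (nat_lit 5) (nat_lit 343) (nat_lit 305) (nat_lit 132)) (XT.lf (nat_lit 0) (nat_lit 81574311803) (nat_lit 304) (nat_lit 8056803733) (nat_lit 76) (nat_lit 25316089155) (nat_lit 69) (nat_lit 5) (nat_lit 73)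 (nat_lit 5) (nat_lit 70) (nat_lit 5) (nat_lit 344) (nat_lit 305) (nat_lit 131)))) (XT.nd (nat_lit 156) (nat_lit 380) (nat_lit 0) (XT.nd (nat_lit 78) (nat_lit 228) (nat_lit 0) (XT.lf (nat_lit 0) (nat_lit 321387403) (nat_lit 304) (nat_lit 34241709853) (nat_lit 76) (nat_lit 84361544863) (nat_lit 65) (nat_lit 5) (nat_lit 69) (nat_lit 5) (nat_lit 66) (nat_lit 5) (nat_lit 345) (nat_lit 305) (nat_lit 130)) (XT.lf (nat_lit 0) (nat_lit 35909026326) (nat_lit 304) (nat_lit 63344369951) (nat_lit 76) (nat_lit 23810677580) (nat_lit 62) (nat_lit 5) (nat_lit 66) (nat_lit 5) (nat_lit 63) (nat_lit 5) (nat_lit 346) (nat_lit 305) (nat_lit 129))) (XT.nd (nat_lit 78) (nat_lit 152) (nat_lit 0) (XT.lf (nat_lit 0) (nat_lit 31964472061) (nat_lit 228) (nat_lit 42322561321) (nat_lit 304) (nat_lit 53093114783) (nat_lit 59) (nat_lit 5) (nat_lit 62) (nat_lit 5) (nat_lit 63) (nat_lit 5) (nat_lit 347) (nat_lit 305) (nat_lit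 128)) (XT.lf (nat_lit 0) (nat_lit 1319775217) (nat_lit 152) (nat_lit 114102091369) (nat_lit 228) (nat_lit 16465022369) (nat_lit 57) (nat_lit 5) (nat_lit 59) (nat_lit 5) (nat_lit 60) (nat_lit 5) (nat_lit 348) (nat_lit 305) (nat_lit 127))))))))
noncomputable def xc113 : XT := (XT.nd (nat_lit 39000) (nat_lit 0) (nat_lit 152) (XT.nd (nat_lit 37908) (nat_lit 0) (nat_lit 6536) (XT.nd (nat_lit 37362) (nat_lit 0) (nat_lit 12160) (XT.nd (nat_lit 234) (nat_lit 456) (nat_lit 0) (XT.nd (nat_lit 78) (nat_lit 380) (nat_lit 0) (XT.lf (nat_lit 0) (nat_lit 22983346874) (nat_lit 228) (nat_lit 32353625908) (nat_lit 76) (nat_lit 81233109865) (nat_lit 56) (nat_lit 5) (nat_lit 59) (nat_lit 5) (nat_lit 57) (nat_lit 5) (nat_lit 349) (nat_lit 305) (nat_lit 126)) (XT.nd (nat_lit 78) (nat_lit 152) (nat_lit 0) (XT.lf (nat_lit 0) (nat_lit 64827648852) (nat_lit 304) (nat_lit 69523551714) (nat_lit 76) (nat_lit 7108424247)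 (nat_lit 53) (nat_lit 5) (nat_lit 57) (nat_lit 5) (nat_lit 54) (nat_lit 5) (nat_lit 350) (nat_lit 305) (nat_lit 125)) (XT.lf (nat_lit 0) (nat_lit 35665223917) (nat_lit 152) (nat_lit 74335680471) (nat_lit 228) (nat_lit 36555637999) (nat_lit 51) (nat_lit 5) (nat_lit 53) (nat_lit 5) (nat_lit 54) (nat_lit 5) (nat_lit 351) (nat_lit 305) (nat_lit 124)))) (XT.nd (nat_lit 156) (nat_lit 152) (nat_lit 0) (XT.nd (nat_lit 78) (nat_lit 228) (nat_lit 0) (XT.lf (nat_lit 0) (nat_lit 6138528416) (nat_lit 228) (nat_lit 4382329840) (nat_lit 76) (nat_lit 141364200410) (nat_lit 50) (nat_lit 5) (nat_lit 53) (nat_lit 5) (nat_lit 51) (nat_lit 5) (nat_lit 352) (nat_lit 305) (nat_lit 123)) (XT.lf (nat_lit 0) (nat_lit 51824322212) (nat_lit 304) (nat_lit 48781698558) (nat_lit 76) (nat_lit 56814733905) (nat_lit 47) (nat_lit 5) (nat_lit 51) (nat_lit 5) (nat_lit 48) (nat_lit 5) (nat_lit 353) (nat_lit 305) (nat_lit 122)))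 (XT.nd (nat_lit 36894) (nat_lit 0) (nat_lit 12160) (XT.lf (nat_lit 0) (nat_lit 65338069469) (nat_lit 152) (nat_lit 35235268487) (nat_lit 228) (nat_lit 62636529942) (nat_lit 45) (nat_lit 5) (nat_lit 47) (nat_lit 5) (nat_lit 48) (nat_lit 5) (nat_lit 354) (nat_lit 305) (nat_lit 121)) (XT.lf (nat_lit 0) (nat_lit 6515414977) (nat_lit 0) (nat_lit 6515414977) (nat_lit 1140) (nat_lit 6254805726) (nat_lit 205) (nat_lit 5) (nat_lit 205) (nat_lit 3) (nat_lit 220) (nat_lit 3) (nat_lit 306) (nat_lit 306) (nat_lit 168))))) (XT.nd (nat_lit 234) (nat_lit 0) (nat_lit 152) (XT.nd (nat_lit 78) (nat_lit 0) (nat_lit 76) (XT.lf (nat_lit 76) (nat_lit 3864597856) (nat_lit 0) (nat_lit 23115711099) (nat_lit 1216) (nat_lit 12547159146) (nat_lit 206) (nat_lit 5) (nat_lit 205) (nat_lit 5) (nat_lit 221) (nat_lit 5) (nat_lit 307) (nat_lit 306) (nat_lit 167)) (XT.nd (nat_lit 78) (nat_lit 0) (nat_lit 0) (XT.lf (nat_lit 0)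 (nat_lit 28398993573) (nat_lit 1140) (nat_lit 5448177375) (nat_lit 1216) (nat_lit 6670685233) (nat_lit 206) (nat_lit 5) (nat_lit 221) (nat_lit 5) (nat_lit 222) (nat_lit 5) (nat_lit 308) (nat_lit 306) (nat_lit 166)) (XT.lf (nat_lit 76) (nat_lit 26559751205) (nat_lit 0) (nat_lit 3813266500) (nat_lit 1216) (nat_lit 11170218179) (nat_lit 207) (nat_lit 5) (nat_lit 206) (nat_lit 5) (nat_lit 222) (nat_lit 5) (nat_lit 309) (nat_lit 306) (nat_lit 165)))) (XT.nd (nat_lit 156) (nat_lit 0) (nat_lit 152) (XT.nd (nat_lit 78) (nat_lit 0) (nat_lit 76) (XT.lf (nat_lit 76) (nat_lit 17740330071) (nat_lit 0) (nat_lit 15195045183) (nat_lit 1216) (nat_lit 9669824523) (nat_lit 208) (nat_lit 5) (nat_lit 207) (nat_lit 5) (nat_lit 223) (nat_lit 5) (nat_lit 310) (nat_lit 306) (nat_lit 164)) (XT.lf (nat_lit 76) (nat_lit 8667086831) (nat_lit 0) (nat_lit 27389735207) (nat_lit 1216) (nat_lit 7650514658) (nat_lit 209) (nat_lit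 5) (nat_lit 208) (nat_lit 5) (nat_lit 224) (nat_lit 5) (nat_lit 311) (nat_lit 306) (nat_lit 163))) (XT.nd (nat_lit 78) (nat_lit 0) (nat_lit 0) (XT.lf (nat_lit 0) (nat_lit 39781720294) (nat_lit 1140) (nat_lit 659390911) (nat_lit 1216) (nat_lit 4410051662) (nat_lit 209) (nat_lit 5) (nat_lit 224) (nat_lit 5) (nat_lit 225) (nat_lit 5) (nat_lit 312) (nat_lit 306) (nat_lit 162)) (XT.lf (nat_lit 76) (nat_lit 35861324451) (nat_lit 0) (nat_lit 8449214990) (nat_lit 1216) (nat_lit 1723114228) (nat_lit 210) (nat_lit 5) (nat_lit 209) (nat_lit 5) (nat_lit 225) (nat_lit 5) (nat_lit 313) (nat_lit 306) (nat_lit 161)))))) (XT.nd (nat_lit 546) (nat_lit 3040) (nat_lit 0) (XT.nd (nat_lit 234) (nat_lit 1748) (nat_lit 0) (XT.nd (nat_lit 78) (nat_lit 0) (nat_lit 76) (XT.lf (nat_lit 0) (nat_lit 2267589547) (nat_lit 1216) (nat_lit 20048382591) (nat_lit 1292) (nat_lit 24943423894) (nat_lit 194) (nat_lit 5) (nat_lit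 210) (nat_lit 5) (nat_lit 211) (nat_lit 5) (nat_lit 314) (nat_lit 306) (nat_lit 160)) (XT.nd (nat_lit 78) (nat_lit 0) (nat_lit 0) (XT.lf (nat_lit 0) (nat_lit 6898531419) (nat_lit 1216) (nat_lit 30261148830) (nat_lit 1292) (nat_lit 11371946433) (nat_lit 195) (nat_lit 5) (nat_lit 211) (nat_lit 5) (nat_lit 212) (nat_lit 5) (nat_lit 315) (nat_lit 306) (nat_lit 159)) (XT.lf (nat_lit 76) (nat_lit 9008884878) (nat_lit 0) (nat_lit 3269291264) (nat_lit 1292) (nat_lit 37573781070) (nat_lit 196) (nat_lit 5) (nat_lit 195) (nat_lit 5) (nat_lit 212) (nat_lit 5) (nat_lit 316) (nat_lit 306) (nat_lit 158)))) (XT.nd (nat_lit 156) (nat_lit 1140) (nat_lit 0) (XT.nd (nat_lit 78) (nat_lit 760) (nat_lit 0) (XT.lf (nat_lit 0) (nat_lit 18549057653) (nat_lit 1216) (nat_lit 670497420) (nat_lit 76) (nat_lit 32000084437) (nat_lit 196) (nat_lit 5) (nat_lit 212) (nat_lit 5) (nat_lit 197) (nat_lit 5) (nat_lit 317) (nat_lit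 306) (nat_lit 157)) (XT.lf (nat_lit 0) (nat_lit 25731086533) (nat_lit 836) (nat_lit 10502763209) (nat_lit 76) (nat_lit 16403930821) (nat_lit 186) (nat_lit 5) (nat_lit 197) (nat_lit 5) (nat_lit 187) (nat_lit 5) (nat_lit 318) (nat_lit 306) (nat_lit 156))) (XT.nd (nat_lit 78) (nat_lit 532) (nat_lit 0) (XT.lf (nat_lit 0) (nat_lit 33423863510) (nat_lit 608) (nat_lit 367879894) (nat_lit 684) (nat_lit 20319502079) (nat_lit 178) (nat_lit 5) (nat_lit 186) (nat_lit 5) (nat_lit 187) (nat_lit 5) (nat_lit 319) (nat_lit 306) (nat_lit 155)) (XT.lf (nat_lit 0) (nat_lit 24221764698) (nat_lit 532) (nat_lit 18731543524) (nat_lit 608) (nat_lit 12684141659) (nat_lit 171) (nat_lit 5) (nat_lit 178) (nat_lit 5) (nat_lit 179) (nat_lit 5) (nat_lit 320) (nat_lit 306) (nat_lit 154))))) (XT.nd (nat_lit 234) (nat_lit 1900) (nat_lit 0) (XT.nd (nat_lit 78) (nat_lit 608) (nat_lit 0) (XT.lf (nat_lit 0) (nat_lit 14672431063)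 (nat_lit 532) (nat_lit 38438470027) (nat_lit 608) (nat_lit 4112927281) (nat_lit 164) (nat_lit 5) (nat_lit 171) (nat_lit 5) (nat_lit 172) (nat_lit 5) (nat_lit 321) (nat_lit 306) (nat_lit 153)) (XT.nd (nat_lit 78) (nat_lit 0) (nat_lit 0) (XT.lf (nat_lit 0) (nat_lit 4691437594) (nat_lit 532) (nat_lit 658365592) (nat_lit 608) (nat_lit 53521566067) (nat_lit 156) (nat_lit 5) (nat_lit 163) (nat_lit 5) (nat_lit 164) (nat_lit 5) (nat_lit 322) (nat_lit 306) (nat_lit 152)) (XT.lf (nat_lit 0) (nat_lit 16016410390) (nat_lit 608) (nat_lit 5825872771) (nat_lit 76) (nat_lit 38733310384) (nat_lit 156) (nat_lit 5) (nat_lit 164) (nat_lit 5) (nat_lit 157) (nat_lit 5) (nat_lit 323) (nat_lit 306) (nat_lit 151)))) (XT.nd (nat_lit 156) (nat_lit 912) (nat_lit 0) (XT.nd (nat_lit 78) (nat_lit 456) (nat_lit 0) (XT.lf (nat_lit 0) (nat_lit 27835972492) (nat_lit 608) (nat_lit 16695142500) (nat_lit 76) (nat_lit 17815327309)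 (nat_lit 149) (nat_lit 5) (nat_lit 157) (nat_lit 5) (nat_lit 150) (nat_lit 5) (nat_lit 324) (nat_lit 306) (nat_lit 150)) (XT.lf (nat_lit 0) (nat_lit 36101076030) (nat_lit 456) (nat_lit 4771332561) (nat_lit 532) (nat_lit 23314649919) (nat_lit 143) (nat_lit 5) (nat_lit 149) (nat_lit 5) (nat_lit 150) (nat_lit 5) (nat_lit 325) (nat_lit 306) (nat_lit 149))) (XT.nd (nat_lit 78) (nat_lit 456) (nat_lit 0) (XT.lf (nat_lit 0) (nat_lit 25917673761) (nat_lit 456) (nat_lit 29419055842) (nat_lit 532) (nat_lit 10759695831) (nat_lit 137) (nat_lit 5) (nat_lit 143) (nat_lit 5) (nat_lit 144) (nat_lit 5) (nat_lit 326) (nat_lit 306) (nat_lit 148)) (XT.lf (nat_lit 0) (nat_lit 2981225546) (nat_lit 456) (nat_lit 52867438965) (nat_lit 76) (nat_lit 12233734083) (nat_lit 131) (nat_lit 5) (nat_lit 137) (nat_lit 5) (nat_lit 132) (nat_lit 5) (nat_lit 327) (nat_lit 306) (nat_lit 147))))))) (XT.nd (nat_lit 1092) (nat_lit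 2432) (nat_lit 0) (XT.nd (nat_lit 546) (nat_lit 1596) (nat_lit 0) (XT.nd (nat_lit 234) (nat_lit 1520) (nat_lit 0) (XT.nd (nat_lit 78) (nat_lit 380) (nat_lit 0) (XT.lf (nat_lit 0) (nat_lit 3723409469) (nat_lit 456) (nat_lit 14213799974) (nat_lit 532) (nat_lit 52204750300) (nat_lit 125) (nat_lit 5) (nat_lit 131) (nat_lit 5) (nat_lit 132) (nat_lit 5) (nat_lit 328) (nat_lit 306) (nat_lit 146)) (XT.nd (nat_lit 78) (nat_lit 380) (nat_lit 0) (XT.lf (nat_lit 0) (nat_lit 34472320628) (nat_lit 532) (nat_lit 8330903361) (nat_lit 76) (nat_lit 29476336631) (nat_lit 125) (nat_lit 5) (nat_lit 132) (nat_lit 5) (nat_lit 126) (nat_lit 5) (nat_lit 329) (nat_lit 306) (nat_lit 145)) (XT.lf (nat_lit 0) (nat_lit 52500999366) (nat_lit 456) (nat_lit 20954016250) (nat_lit 76) (nat_lit 1049022999) (nat_lit 120) (nat_lit 5) (nat_lit 126) (nat_lit 5) (nat_lit 121) (nat_lit 5) (nat_lit 330) (nat_lit 306) (nat_lit 144))))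 (XT.nd (nat_lit 156) (nat_lit 684) (nat_lit 0) (XT.nd (nat_lit 78) (nat_lit 456) (nat_lit 0) (XT.lf (nat_lit 0) (nat_lit 42251327594) (nat_lit 380) (nat_lit 30102829280) (nat_lit 456) (nat_lit 4457893663) (nat_lit 115) (nat_lit 5) (nat_lit 120) (nat_lit 5) (nat_lit 121) (nat_lit 5) (nat_lit 331) (nat_lit 306) (nat_lit 143)) (XT.lf (nat_lit 0) (nat_lit 14353773968) (nat_lit 456) (nat_lit 49092658957) (nat_lit 76) (nat_lit 15765151455) (nat_lit 109) (nat_lit 5) (nat_lit 115) (nat_lit 5) (nat_lit 110) (nat_lit 5) (nat_lit 332) (nat_lit 306) (nat_lit 142))) (XT.nd (nat_lit 78) (nat_lit 304) (nat_lit 0) (XT.lf (nat_lit 0) (nat_lit 17011812414) (nat_lit 380) (nat_lit 17827898586) (nat_lit 456) (nat_lit 46865284531) (nat_lit 104) (nat_lit 5) (nat_lit 109) (nat_lit 5) (nat_lit 110) (nat_lit 5) (nat_lit 333) (nat_lit 306) (nat_lit 141)) (XT.lf (nat_lit 0) (nat_lit 2899869424) (nat_lit 304) (nat_lit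 54275806332) (nat_lit 380) (nat_lit 27122630707) (nat_lit 100) (nat_lit 5) (nat_lit 104) (nat_lit 5) (nat_lit 105) (nat_lit 5) (nat_lit 334) (nat_lit 306) (nat_lit 140))))) (XT.nd (nat_lit 234) (nat_lit 912) (nat_lit 0) (XT.nd (nat_lit 78) (nat_lit 684) (nat_lit 0) (XT.lf (nat_lit 0) (nat_lit 75038879578) (nat_lit 304) (nat_lit 6432170990) (nat_lit 380) (nat_lit 5524955112) (nat_lit 100) (nat_lit 5) (nat_lit 104) (nat_lit 5) (nat_lit 105) (nat_lit 5) (nat_lit 335) (nat_lit 306) (nat_lit 139)) (XT.nd (nat_lit 78) (nat_lit 304) (nat_lit 0) (XT.lf (nat_lit 0) (nat_lit 17840997508) (nat_lit 380) (nat_lit 28235209530) (nat_lit 76) (nat_lit 43716744321) (nat_lit 95) (nat_lit 5) (nat_lit 100) (nat_lit 5) (nat_lit 96) (nat_lit 5) (nat_lit 336) (nat_lit 306) (nat_lit 138)) (XT.lf (nat_lit 0) (nat_lit 42942317610) (nat_lit 380) (nat_lit 45682171982) (nat_lit 76) (nat_lit 4083174587) (nat_lit 91) (nat_lit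 5) (nat_lit 96) (nat_lit 5) (nat_lit 92) (nat_lit 5) (nat_lit 337) (nat_lit 306) (nat_lit 137)))) (XT.nd (nat_lit 156) (nat_lit 304) (nat_lit 0) (XT.nd (nat_lit 78) (nat_lit 304) (nat_lit 0) (XT.lf (nat_lit 0) (nat_lit 31015188455) (nat_lit 304) (nat_lit 39338867481) (nat_lit 380) (nat_lit 25382397055) (nat_lit 87) (nat_lit 5) (nat_lit 91) (nat_lit 5) (nat_lit 92) (nat_lit 5) (nat_lit 338) (nat_lit 306) (nat_lit 136)) (XT.lf (nat_lit 0) (nat_lit 947564137) (nat_lit 304) (nat_lit 85162505757) (nat_lit 76) (nat_lit 12784584301) (nat_lit 83) (nat_lit 5) (nat_lit 87) (nat_lit 5) (nat_lit 84) (nat_lit 5) (nat_lit 339) (nat_lit 306) (nat_lit 135))) (XT.nd (nat_lit 78) (nat_lit 304) (nat_lit 0) (XT.lf (nat_lit 0) (nat_lit 29142554047) (nat_lit 304) (nat_lit 5391818272) (nat_lit 76) (nat_lit 67636650295) (nat_lit 83) (nat_lit 5) (nat_lit 87) (nat_lit 5) (nat_lit 84) (nat_lit 5) (nat_lit 340) (nat_lit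 306) (nat_lit 134)) (XT.lf (nat_lit 0) (nat_lit 59710543515) (nat_lit 380) (nat_lit 25859189611) (nat_lit 76) (nat_lit 20012579596) (nat_lit 79) (nat_lit 5) (nat_lit 84) (nat_lit 5) (nat_lit 80) (nat_lit 5) (nat_lit 341) (nat_lit 306) (nat_lit 133)))))) (XT.nd (nat_lit 546) (nat_lit 912) (nat_lit 0) (XT.nd (nat_lit 234) (nat_lit 760) (nat_lit 0) (XT.nd (nat_lit 78) (nat_lit 532) (nat_lit 0) (XT.lf (nat_lit 0) (nat_lit 60881077835) (nat_lit 228) (nat_lit 31914493059) (nat_lit 304) (nat_lit 16338938021) (nat_lit 76) (nat_lit 5) (nat_lit 79) (nat_lit 5) (nat_lit 80) (nat_lit 5) (nat_lit 342) (nat_lit 306) (nat_lit 132)) (XT.nd (nat_lit 78) (nat_lit 228) (nat_lit 0) (XT.lf (nat_lit 0) (nat_lit 15281801355) (nat_lit 304) (nat_lit 72800051031) (nat_lit 76) (nat_lit 24751306296) (nat_lit 72) (nat_lit 5) (nat_lit 76) (nat_lit 5) (nat_lit 73) (nat_lit 5) (nat_lit 343) (nat_lit 306) (nat_lit 131))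 (XT.lf (nat_lit 0) (nat_lit 16876099550) (nat_lit 228) (nat_lit 32257550875) (nat_lit 304) (nat_lit 67548598398) (nat_lit 69) (nat_lit 5) (nat_lit 72) (nat_lit 5) (nat_lit 73) (nat_lit 5) (nat_lit 344) (nat_lit 306) (nat_lit 130)))) (XT.nd (nat_lit 156) (nat_lit 456) (nat_lit 0) (XT.nd (nat_lit 78) (nat_lit 304) (nat_lit 0) (XT.lf (nat_lit 0) (nat_lit 85687182537) (nat_lit 304) (nat_lit 8406464380) (nat_lit 76) (nat_lit 26599874450) (nat_lit 69) (nat_lit 5) (nat_lit 73) (nat_lit 5) (nat_lit 70) (nat_lit 5) (nat_lit 345) (nat_lit 306) (nat_lit 129)) (XT.lf (nat_lit 0) (nat_lit 370826658) (nat_lit 304) (nat_lit 35901458580) (nat_lit 76) (nat_lit 88597570410) (nat_lit 65) (nat_lit 5) (nat_lit 69) (nat_lit 5) (nat_lit 66) (nat_lit 5) (nat_lit 346) (nat_lit 306) (nat_lit 128))) (XT.nd (nat_lit 78) (nat_lit 228) (nat_lit 0) (XT.lf (nat_lit 0) (nat_lit 37736925634) (nat_lit 304) (nat_lit 66459945651)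 (nat_lit 76) (nat_lit 25019416177) (nat_lit 62) (nat_lit 5) (nat_lit 66) (nat_lit 5) (nat_lit 63) (nat_lit 5) (nat_lit 347) (nat_lit 306) (nat_lit 127)) (XT.lf (nat_lit 0) (nat_lit 33612858131) (nat_lit 228) (nat_lit 44419911962) (nat_lit 304) (nat_lit 55715428074) (nat_lit 59) (nat_lit 5) (nat_lit 62) (nat_lit 5) (nat_lit 63) (nat_lit 5) (nat_lit 348) (nat_lit 306) (nat_lit 126))))) (XT.nd (nat_lit 312) (nat_lit 304) (nat_lit 0) (XT.nd (nat_lit 156) (nat_lit 380) (nat_lit 0) (XT.nd (nat_lit 78) (nat_lit 76) (nat_lit 0) (XT.lf (nat_lit 0) (nat_lit 1435243184) (nat_lit 152) (nat_lit 119788254777) (nat_lit 228) (nat_lit 17256804202) (nat_lit 57) (nat_lit 5) (nat_lit 59) (nat_lit 5) (nat_lit 60) (nat_lit 5) (nat_lit 349) (nat_lit 306) (nat_lit 125)) (XT.lf (nat_lit 0) (nat_lit 24161900129) (nat_lit 228) (nat_lit 33923585351) (nat_lit 76) (nat_lit 85312205759) (nat_lit 56) (nat_lit 5) (nat_lit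 59) (nat_lit 5) (nat_lit 57) (nat_lit 5) (nat_lit 350) (nat_lit 306) (nat_lit 124))) (XT.nd (nat_lit 78) (nat_lit 152) (nat_lit 0) (XT.lf (nat_lit 0) (nat_lit 68097635734) (nat_lit 304) (nat_lit 72952681397) (nat_lit 76) (nat_lit 7481417492) (nat_lit 53) (nat_lit 5) (nat_lit 57) (nat_lit 5) (nat_lit 54) (nat_lit 5) (nat_lit 351) (nat_lit 306) (nat_lit 123)) (XT.lf (nat_lit 0) (nat_lit 37494184397) (nat_lit 152) (nat_lit 78034446824) (nat_lit 228) (nat_lit 38354895174) (nat_lit 51) (nat_lit 5) (nat_lit 53) (nat_lit 5) (nat_lit 54) (nat_lit 5) (nat_lit 352) (nat_lit 306) (nat_lit 122)))) (XT.nd (nat_lit 37050) (nat_lit 0) (nat_lit 12008) (XT.nd (nat_lit 78) (nat_lit 228) (nat_lit 0) (XT.lf (nat_lit 0) (nat_lit 6472091127) (nat_lit 228) (nat_lit 4557381381) (nat_lit 76) (nat_lit 148449028293) (nat_lit 50) (nat_lit 5) (nat_lit 53) (nat_lit 5) (nat_lit 51) (nat_lit 5) (nat_lit 353) (nat_lit 306)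 (nat_lit 121)) (XT.lf (nat_lit 0) (nat_lit 54441481287) (nat_lit 304) (nat_lit 51177360747) (nat_lit 76) (nat_lit 59672160935) (nat_lit 47) (nat_lit 5) (nat_lit 51) (nat_lit 5) (nat_lit 48) (nat_lit 5) (nat_lit 354) (nat_lit 306) (nat_lit 120))) (XT.nd (nat_lit 78) (nat_lit 0) (nat_lit 0) (XT.lf (nat_lit 0) (nat_lit 6875355428) (nat_lit 0) (nat_lit 6875355428) (nat_lit 1140) (nat_lit 6497085730) (nat_lit 205) (nat_lit 5) (nat_lit 205) (nat_lit 3) (nat_lit 220) (nat_lit 3) (nat_lit 307) (nat_lit 307) (nat_lit 166)) (XT.lf (nat_lit 76) (nat_lit 4128966476) (nat_lit 0) (nat_lit 24330586410) (nat_lit 1216) (nat_lit 13040247105) (nat_lit 206) (nat_lit 5) (nat_lit 205) (nat_lit 5) (nat_lit 221) (nat_lit 5) (nat_lit 308) (nat_lit 307) (nat_lit 165))))))))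
noncomputable def xc114 : XT := (XT.nd (nat_lit 2184) (nat_lit 3724) (nat_lit 0) (XT.nd (nat_lit 1092) (nat_lit 4864) (nat_lit 0) (XT.nd (nat_lit 546) (nat_lit 2280) (nat_lit 0) (XT.nd (nat_lit 234) (nat_lit 912) (nat_lit 0) (XT.nd (nat_lit 78) (nat_lit 0) (nat_lit 0) (XT.lf (nat_lit 0) (nat_lit 29942429419) (nat_lit 1140) (nat_lit 5648445054) (nat_lit 1216) (nat_lit 6949041684) (nat_lit 206) (nat_lit 5) (nat_lit 221) (nat_lit 5) (nat_lit 222) (nat_lit 5) (nat_lit 309) (nat_lit 307) (nat_lit 164)) (XT.nd (nat_lit 78) (nat_lit 0) (nat_lit 76) (XT.lf (nat_lit 76) (nat_lit 27957812043) (nat_lit 0) (nat_lit 4052136009) (nat_lit 1216) (nat_lit 11606779101) (nat_lit 207) (nat_lit 5) (nat_lit 206) (nat_lit 5) (nat_lit 222) (nat_lit 5) (nat_lit 310) (nat_lit 307) (nat_lit 163)) (XT.lf (nat_lit 76) (nat_lit 18699426630) (nat_lit 0) (nat_lit 15995616049) (nat_lit 1216) (nat_lit 10036913802) (nat_lit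 208) (nat_lit 5) (nat_lit 207) (nat_lit 5) (nat_lit 223) (nat_lit 5) (nat_lit 311) (nat_lit 307) (nat_lit 162)))) (XT.nd (nat_lit 156) (nat_lit 1064) (nat_lit 0) (XT.nd (nat_lit 78) (nat_lit 0) (nat_lit 76) (XT.lf (nat_lit 76) (nat_lit 9174239058) (nat_lit 0) (nat_lit 28793282318) (nat_lit 1216) (nat_lit 7921835621) (nat_lit 209) (nat_lit 5) (nat_lit 208) (nat_lit 5) (nat_lit 224) (nat_lit 5) (nat_lit 312) (nat_lit 307) (nat_lit 161)) (XT.lf (nat_lit 0) (nat_lit 41873216621) (nat_lit 1140) (nat_lit 618577764) (nat_lit 1216) (nat_lit 4598748806) (nat_lit 209) (nat_lit 5) (nat_lit 224) (nat_lit 5) (nat_lit 225) (nat_lit 5) (nat_lit 313) (nat_lit 307) (nat_lit 160))) (XT.nd (nat_lit 78) (nat_lit 1140) (nat_lit 0) (XT.lf (nat_lit 76) (nat_lit 37726058401) (nat_lit 0) (nat_lit 8898230558) (nat_lit 1216) (nat_lit 1708000233) (nat_lit 210) (nat_lit 5) (nat_lit 209) (nat_lit 5) (nat_lit 225) (nat_lit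 5) (nat_lit 314) (nat_lit 307) (nat_lit 159)) (XT.lf (nat_lit 0) (nat_lit 2475995749) (nat_lit 1216) (nat_lit 20975996442) (nat_lit 1292) (nat_lit 26167429927) (nat_lit 194) (nat_lit 5) (nat_lit 210) (nat_lit 5) (nat_lit 211) (nat_lit 5) (nat_lit 315) (nat_lit 307) (nat_lit 158))))) (XT.nd (nat_lit 234) (nat_lit 2356) (nat_lit 0) (XT.nd (nat_lit 78) (nat_lit 0) (nat_lit 0) (XT.lf (nat_lit 0) (nat_lit 7334479885) (nat_lit 1216) (nat_lit 31698542570) (nat_lit 1292) (nat_lit 11922366415) (nat_lit 195) (nat_lit 5) (nat_lit 211) (nat_lit 5) (nat_lit 212) (nat_lit 5) (nat_lit 316) (nat_lit 307) (nat_lit 157)) (XT.nd (nat_lit 78) (nat_lit 0) (nat_lit 76) (XT.lf (nat_lit 76) (nat_lit 9532823939) (nat_lit 0) (nat_lit 3446655007) (nat_lit 1292) (nat_lit 39362370032) (nat_lit 196) (nat_lit 5) (nat_lit 195) (nat_lit 5) (nat_lit 212) (nat_lit 5) (nat_lit 317) (nat_lit 307) (nat_lit 156)) (XT.lf (nat_lit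 0) (nat_lit 19559615668) (nat_lit 1216) (nat_lit 631322749) (nat_lit 76) (nat_lit 33587109652) (nat_lit 196) (nat_lit 5) (nat_lit 212) (nat_lit 5) (nat_lit 197) (nat_lit 5) (nat_lit 318) (nat_lit 307) (nat_lit 155)))) (XT.nd (nat_lit 156) (nat_lit 1064) (nat_lit 0) (XT.nd (nat_lit 78) (nat_lit 608) (nat_lit 0) (XT.lf (nat_lit 0) (nat_lit 27097378864) (nat_lit 836) (nat_lit 10954725968) (nat_lit 76) (nat_lit 17215096179) (nat_lit 186) (nat_lit 5) (nat_lit 197) (nat_lit 5) (nat_lit 187) (nat_lit 5) (nat_lit 319) (nat_lit 307) (nat_lit 154)) (XT.lf (nat_lit 0) (nat_lit 35166134529) (nat_lit 608) (nat_lit 391820245) (nat_lit 684) (nat_lit 21256481457) (nat_lit 178) (nat_lit 5) (nat_lit 186) (nat_lit 5) (nat_lit 187) (nat_lit 5) (nat_lit 320) (nat_lit 307) (nat_lit 153))) (XT.nd (nat_lit 78) (nat_lit 532) (nat_lit 0) (XT.lf (nat_lit 0) (nat_lit 25504248678) (nat_lit 532) (nat_lit 19670335907)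 (nat_lit 608) (nat_lit 13242460128) (nat_lit 171) (nat_lit 5) (nat_lit 178) (nat_lit 5) (nat_lit 179) (nat_lit 5) (nat_lit 321) (nat_lit 307) (nat_lit 152)) (XT.lf (nat_lit 0) (nat_lit 15477634874) (nat_lit 532) (nat_lit 40359584752) (nat_lit 608) (nat_lit 4245610928) (nat_lit 164) (nat_lit 5) (nat_lit 171) (nat_lit 5) (nat_lit 172) (nat_lit 5) (nat_lit 322) (nat_lit 307) (nat_lit 151)))))) (XT.nd (nat_lit 546) (nat_lit 1900) (nat_lit 0) (XT.nd (nat_lit 234) (nat_lit 1824) (nat_lit 0) (XT.nd (nat_lit 78) (nat_lit 532) (nat_lit 0) (XT.lf (nat_lit 0) (nat_lit 4996985065) (nat_lit 532) (nat_lit 689122877) (nat_lit 608) (nat_lit 56126704280) (nat_lit 156) (nat_lit 5) (nat_lit 163) (nat_lit 5) (nat_lit 164) (nat_lit 5) (nat_lit 323) (nat_lit 307) (nat_lit 150)) (XT.nd (nat_lit 78) (nat_lit 532) (nat_lit 0) (XT.lf (nat_lit 0) (nat_lit 16882788404) (nat_lit 608) (nat_lit 6047566112) (nat_lit 76)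 (nat_lit 40671993833) (nat_lit 156) (nat_lit 5) (nat_lit 164) (nat_lit 5) (nat_lit 157) (nat_lit 5) (nat_lit 324) (nat_lit 307) (nat_lit 149)) (XT.lf (nat_lit 0) (nat_lit 29290900135) (nat_lit 608) (nat_lit 17460389905) (nat_lit 76) (nat_lit 18710525127) (nat_lit 149) (nat_lit 5) (nat_lit 157) (nat_lit 5) (nat_lit 150) (nat_lit 5) (nat_lit 325) (nat_lit 307) (nat_lit 148)))) (XT.nd (nat_lit 156) (nat_lit 912) (nat_lit 0) (XT.nd (nat_lit 78) (nat_lit 456) (nat_lit 0) (XT.lf (nat_lit 0) (nat_lit 37973647070) (nat_lit 456) (nat_lit 5003153841) (nat_lit 532) (nat_lit 24417734625) (nat_lit 143) (nat_lit 5) (nat_lit 149) (nat_lit 5) (nat_lit 150) (nat_lit 5) (nat_lit 326) (nat_lit 307) (nat_lit 147)) (XT.lf (nat_lit 0) (nat_lit 27280898465) (nat_lit 456) (nat_lit 30881254687) (nat_lit 532) (nat_lit 11237285712) (nat_lit 137) (nat_lit 5) (nat_lit 143) (nat_lit 5) (nat_lit 144) (nat_lit 5) (nat_lit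 327) (nat_lit 307) (nat_lit 146))) (XT.nd (nat_lit 78) (nat_lit 456) (nat_lit 0) (XT.lf (nat_lit 0) (nat_lit 3187415565) (nat_lit 456) (nat_lit 55442542510) (nat_lit 76) (nat_lit 12854800142) (nat_lit 131) (nat_lit 5) (nat_lit 137) (nat_lit 5) (nat_lit 132) (nat_lit 5) (nat_lit 328) (nat_lit 307) (nat_lit 145)) (XT.lf (nat_lit 0) (nat_lit 3975891446) (nat_lit 456) (nat_lit 14913224222) (nat_lit 532) (nat_lit 54758246457) (nat_lit 125) (nat_lit 5) (nat_lit 131) (nat_lit 5) (nat_lit 132) (nat_lit 5) (nat_lit 329) (nat_lit 307) (nat_lit 144))))) (XT.nd (nat_lit 234) (nat_lit 1140) (nat_lit 0) (XT.nd (nat_lit 78) (nat_lit 760) (nat_lit 0) (XT.lf (nat_lit 0) (nat_lit 36248464321) (nat_lit 532) (nat_lit 8682782989) (nat_lit 76) (nat_lit 30960673382) (nat_lit 125) (nat_lit 5) (nat_lit 132) (nat_lit 5) (nat_lit 126) (nat_lit 5) (nat_lit 330) (nat_lit 307) (nat_lit 143)) (XT.nd (nat_lit 78) (nat_lit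 380) (nat_lit 0) (XT.lf (nat_lit 0) (nat_lit 55176796565) (nat_lit 456) (nat_lit 21937463221) (nat_lit 76) (nat_lit 1113418222) (nat_lit 120) (nat_lit 5) (nat_lit 126) (nat_lit 5) (nat_lit 121) (nat_lit 5) (nat_lit 331) (nat_lit 307) (nat_lit 142)) (XT.lf (nat_lit 0) (nat_lit 44426305992) (nat_lit 380) (nat_lit 31594489364) (nat_lit 456) (nat_lit 4630351578) (nat_lit 115) (nat_lit 5) (nat_lit 120) (nat_lit 5) (nat_lit 121) (nat_lit 5) (nat_lit 332) (nat_lit 307) (nat_lit 141)))) (XT.nd (nat_lit 156) (nat_lit 304) (nat_lit 0) (XT.nd (nat_lit 78) (nat_lit 380) (nat_lit 0) (XT.lf (nat_lit 0) (nat_lit 15119286485) (nat_lit 456) (nat_lit 51484344715) (nat_lit 76) (nat_lit 16567062353) (nat_lit 109) (nat_lit 5) (nat_lit 115) (nat_lit 5) (nat_lit 110) (nat_lit 5) (nat_lit 333) (nat_lit 307) (nat_lit 140)) (XT.lf (nat_lit 0) (nat_lit 17923545856) (nat_lit 380) (nat_lit 18704284930) (nat_lit 456)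 (nat_lit 49160996846) (nat_lit 104) (nat_lit 5) (nat_lit 109) (nat_lit 5) (nat_lit 110) (nat_lit 5) (nat_lit 334) (nat_lit 307) (nat_lit 139))) (XT.nd (nat_lit 78) (nat_lit 0) (nat_lit 0) (XT.lf (nat_lit 0) (nat_lit 3105489972) (nat_lit 304) (nat_lit 56973627125) (nat_lit 380) (nat_lit 28432732915) (nat_lit 100) (nat_lit 5) (nat_lit 104) (nat_lit 5) (nat_lit 105) (nat_lit 5) (nat_lit 335) (nat_lit 307) (nat_lit 138)) (XT.lf (nat_lit 0) (nat_lit 78848563630) (nat_lit 304) (nat_lit 6738570470) (nat_lit 380) (nat_lit 5757365414) (nat_lit 100) (nat_lit 5) (nat_lit 104) (nat_lit 5) (nat_lit 105) (nat_lit 5) (nat_lit 336) (nat_lit 307) (nat_lit 137))))))) (XT.nd (nat_lit 1092) (nat_lit 456) (nat_lit 0) (XT.nd (nat_lit 546) (nat_lit 1444) (nat_lit 0) (XT.nd (nat_lit 234) (nat_lit 836) (nat_lit 0) (XT.nd (nat_lit 78) (nat_lit 608) (nat_lit 0) (XT.lf (nat_lit 0) (nat_lit 18774678665) (nat_lit 380)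 (nat_lit 29588901283) (nat_lit 76) (nat_lit 45917741821) (nat_lit 95) (nat_lit 5) (nat_lit 100) (nat_lit 5) (nat_lit 96) (nat_lit 5) (nat_lit 337) (nat_lit 307) (nat_lit 136)) (XT.nd (nat_lit 78) (nat_lit 304) (nat_lit 0) (XT.lf (nat_lit 0) (nat_lit 45129780372) (nat_lit 380) (nat_lit 47908799629) (nat_lit 76) (nat_lit 4303230104) (nat_lit 91) (nat_lit 5) (nat_lit 96) (nat_lit 5) (nat_lit 92) (nat_lit 5) (nat_lit 338) (nat_lit 307) (nat_lit 135)) (XT.lf (nat_lit 0) (nat_lit 32621781150) (nat_lit 304) (nat_lit 41288939888) (nat_lit 380) (nat_lit 26611360137) (nat_lit 87) (nat_lit 5) (nat_lit 91) (nat_lit 5) (nat_lit 92) (nat_lit 5) (nat_lit 339) (nat_lit 307) (nat_lit 134)))) (XT.nd (nat_lit 156) (nat_lit 532) (nat_lit 0) (XT.nd (nat_lit 78) (nat_lit 0) (nat_lit 0) (XT.lf (nat_lit 0) (nat_lit 1033132795) (nat_lit 304) (nat_lit 89364611787) (nat_lit 76) (nat_lit 13440472941) (nat_lit 83) (nat_lit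 5) (nat_lit 87) (nat_lit 5) (nat_lit 84) (nat_lit 5) (nat_lit 340) (nat_lit 307) (nat_lit 133)) (XT.lf (nat_lit 0) (nat_lit 30636053608) (nat_lit 304) (nat_lit 5608057513) (nat_lit 76) (nat_lit 71034348928) (nat_lit 83) (nat_lit 5) (nat_lit 87) (nat_lit 5) (nat_lit 84) (nat_lit 5) (nat_lit 341) (nat_lit 307) (nat_lit 132))) (XT.nd (nat_lit 78) (nat_lit 228) (nat_lit 0) (XT.lf (nat_lit 0) (nat_lit 62731369084) (nat_lit 380) (nat_lit 27099411505) (nat_lit 76) (nat_lit 21029567350) (nat_lit 79) (nat_lit 5) (nat_lit 84) (nat_lit 5) (nat_lit 80) (nat_lit 5) (nat_lit 342) (nat_lit 307) (nat_lit 131)) (XT.lf (nat_lit 0) (nat_lit 63976357600) (nat_lit 228) (nat_lit 33493101769) (nat_lit 304) (nat_lit 17120731248) (nat_lit 76) (nat_lit 5) (nat_lit 79) (nat_lit 5) (nat_lit 80) (nat_lit 5) (nat_lit 343) (nat_lit 307) (nat_lit 130))))) (XT.nd (nat_lit 234) (nat_lit 912) (nat_lit 0) (XT.nd (nat_lit 78)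 (nat_lit 228) (nat_lit 0) (XT.lf (nat_lit 0) (nat_lit 16079367375) (nat_lit 304) (nat_lit 76388756934) (nat_lit 76) (nat_lit 26005669124) (nat_lit 72) (nat_lit 5) (nat_lit 76) (nat_lit 5) (nat_lit 73) (nat_lit 5) (nat_lit 344) (nat_lit 307) (nat_lit 129)) (XT.nd (nat_lit 78) (nat_lit 0) (nat_lit 0) (XT.lf (nat_lit 0) (nat_lit 17769730767) (nat_lit 228) (nat_lit 33852962998) (nat_lit 304) (nat_lit 70892678670) (nat_lit 69) (nat_lit 5) (nat_lit 72) (nat_lit 5) (nat_lit 73) (nat_lit 5) (nat_lit 345) (nat_lit 307) (nat_lit 128)) (XT.lf (nat_lit 0) (nat_lit 90002521385) (nat_lit 304) (nat_lit 8778552189) (nat_lit 76) (nat_lit 27946177322) (nat_lit 69) (nat_lit 5) (nat_lit 73) (nat_lit 5) (nat_lit 70) (nat_lit 5) (nat_lit 346) (nat_lit 307) (nat_lit 127)))) (XT.nd (nat_lit 156) (nat_lit 380) (nat_lit 0) (XT.nd (nat_lit 78) (nat_lit 228) (nat_lit 0) (XT.lf (nat_lit 0) (nat_lit 419635459) (nat_lit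 304) (nat_lit 37649060521) (nat_lit 76) (nat_lit 93043728572) (nat_lit 65) (nat_lit 5) (nat_lit 69) (nat_lit 5) (nat_lit 66) (nat_lit 5) (nat_lit 347) (nat_lit 307) (nat_lit 126)) (XT.lf (nat_lit 0) (nat_lit 39653203201) (nat_lit 304) (nat_lit 69736101395) (nat_lit 76) (nat_lit 26286899202) (nat_lit 62) (nat_lit 5) (nat_lit 66) (nat_lit 5) (nat_lit 63) (nat_lit 5) (nat_lit 348) (nat_lit 307) (nat_lit 125))) (XT.nd (nat_lit 78) (nat_lit 152) (nat_lit 0) (XT.lf (nat_lit 0) (nat_lit 35338999874) (nat_lit 228) (nat_lit 46623875882) (nat_lit 304) (nat_lit 58471863924) (nat_lit 59) (nat_lit 5) (nat_lit 62) (nat_lit 5) (nat_lit 63) (nat_lit 5) (nat_lit 349) (nat_lit 307) (nat_lit 124)) (XT.lf (nat_lit 0) (nat_lit 1551884441) (nat_lit 152) (nat_lit 125760487324) (nat_lit 228) (nat_lit 18091100841) (nat_lit 57) (nat_lit 5) (nat_lit 59) (nat_lit 5) (nat_lit 60) (nat_lit 5) (nat_lit 350) (nat_lit 307)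 (nat_lit 123)))))) (XT.nd (nat_lit 37596) (nat_lit 0) (nat_lit 10868) (XT.nd (nat_lit 37284) (nat_lit 0) (nat_lit 11704) (XT.nd (nat_lit 78) (nat_lit 380) (nat_lit 0) (XT.lf (nat_lit 0) (nat_lit 25396649024) (nat_lit 228) (nat_lit 35576479492) (nat_lit 76) (nat_lit 89593635006) (nat_lit 56) (nat_lit 5) (nat_lit 59) (nat_lit 5) (nat_lit 57) (nat_lit 5) (nat_lit 351) (nat_lit 307) (nat_lit 122)) (XT.nd (nat_lit 78) (nat_lit 152) (nat_lit 0) (XT.lf (nat_lit 0) (nat_lit 71528462591) (nat_lit 304) (nat_lit 76557641633) (nat_lit 76) (nat_lit 7871426718) (nat_lit 53) (nat_lit 5) (nat_lit 57) (nat_lit 5) (nat_lit 54) (nat_lit 5) (nat_lit 352) (nat_lit 307) (nat_lit 121)) (XT.lf (nat_lit 0) (nat_lit 39410344214) (nat_lit 152) (nat_lit 81919826606) (nat_lit 228) (nat_lit 40246767166) (nat_lit 51) (nat_lit 5) (nat_lit 53) (nat_lit 5) (nat_lit 54) (nat_lit 5) (nat_lit 353) (nat_lit 307) (nat_lit 120))))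 (XT.nd (nat_lit 156) (nat_lit 0) (nat_lit 76) (XT.nd (nat_lit 78) (nat_lit 0) (nat_lit 0) (XT.lf (nat_lit 0) (nat_lit 7250116126) (nat_lit 0) (nat_lit 7250116126) (nat_lit 1140) (nat_lit 6758030463) (nat_lit 205) (nat_lit 5) (nat_lit 205) (nat_lit 3) (nat_lit 220) (nat_lit 3) (nat_lit 308) (nat_lit 308) (nat_lit 164)) (XT.lf (nat_lit 76) (nat_lit 4399939722) (nat_lit 0) (nat_lit 25600711881) (nat_lit 1216) (nat_lit 13570472613) (nat_lit 206) (nat_lit 5) (nat_lit 205) (nat_lit 5) (nat_lit 221) (nat_lit 5) (nat_lit 309) (nat_lit 308) (nat_lit 163))) (XT.nd (nat_lit 78) (nat_lit 0) (nat_lit 0) (XT.lf (nat_lit 0) (nat_lit 31551556484) (nat_lit 1140) (nat_lit 5865433121) (nat_lit 1216) (nat_lit 7246445866) (nat_lit 206) (nat_lit 5) (nat_lit 221) (nat_lit 5) (nat_lit 222) (nat_lit 5) (nat_lit 310) (nat_lit 308) (nat_lit 162)) (XT.lf (nat_lit 76) (nat_lit 29419261173) (nat_lit 0) (nat_lit 4298467240)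 (nat_lit 1216) (nat_lit 12076505824) (nat_lit 207) (nat_lit 5) (nat_lit 206) (nat_lit 5) (nat_lit 222) (nat_lit 5) (nat_lit 311) (nat_lit 308) (nat_lit 161))))) (XT.nd (nat_lit 312) (nat_lit 988) (nat_lit 0) (XT.nd (nat_lit 156) (nat_lit 0) (nat_lit 152) (XT.nd (nat_lit 78) (nat_lit 0) (nat_lit 76) (XT.lf (nat_lit 76) (nat_lit 19699776697) (nat_lit 0) (nat_lit 16832420531) (nat_lit 1216) (nat_lit 10433179495) (nat_lit 208) (nat_lit 5) (nat_lit 207) (nat_lit 5) (nat_lit 223) (nat_lit 5) (nat_lit 312) (nat_lit 308) (nat_lit 160)) (XT.lf (nat_lit 76) (nat_lit 9699887869) (nat_lit 0) (nat_lit 30263840176) (nat_lit 1216) (nat_lit 8217061397) (nat_lit 209) (nat_lit 5) (nat_lit 208) (nat_lit 5) (nat_lit 224) (nat_lit 5) (nat_lit 313) (nat_lit 308) (nat_lit 159))) (XT.nd (nat_lit 78) (nat_lit 0) (nat_lit 0) (XT.lf (nat_lit 0) (nat_lit 44059766624) (nat_lit 1140) (nat_lit 582583575) (nat_lit 1216)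 (nat_lit 4799837775) (nat_lit 209) (nat_lit 5) (nat_lit 224) (nat_lit 5) (nat_lit 225) (nat_lit 5) (nat_lit 314) (nat_lit 308) (nat_lit 158)) (XT.lf (nat_lit 76) (nat_lit 39677366062) (nat_lit 0) (nat_lit 9367228088) (nat_lit 1216) (nat_lit 1701545635) (nat_lit 210) (nat_lit 5) (nat_lit 209) (nat_lit 5) (nat_lit 225) (nat_lit 5) (nat_lit 315) (nat_lit 308) (nat_lit 157)))) (XT.nd (nat_lit 156) (nat_lit 0) (nat_lit 76) (XT.nd (nat_lit 78) (nat_lit 0) (nat_lit 76) (XT.lf (nat_lit 0) (nat_lit 2685987577) (nat_lit 1216) (nat_lit 21956945672) (nat_lit 1292) (nat_lit 27454789938) (nat_lit 194) (nat_lit 5) (nat_lit 210) (nat_lit 5) (nat_lit 211) (nat_lit 5) (nat_lit 316) (nat_lit 308) (nat_lit 156)) (XT.lf (nat_lit 0) (nat_lit 7783763421) (nat_lit 1216) (nat_lit 33214840490) (nat_lit 1292) (nat_lit 12501997353) (nat_lit 195) (nat_lit 5) (nat_lit 211) (nat_lit 5) (nat_lit 212) (nat_lit 5) (nat_lit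 317) (nat_lit 308) (nat_lit 155))) (XT.nd (nat_lit 78) (nat_lit 0) (nat_lit 76) (XT.lf (nat_lit 76) (nat_lit 10076127101) (nat_lit 0) (nat_lit 3631594723) (nat_lit 1292) (nat_lit 41248765095) (nat_lit 196) (nat_lit 5) (nat_lit 195) (nat_lit 5) (nat_lit 212) (nat_lit 5) (nat_lit 318) (nat_lit 308) (nat_lit 154)) (XT.lf (nat_lit 0) (nat_lit 20612975256) (nat_lit 1216) (nat_lit 596948258) (nat_lit 76) (nat_lit 35254692794) (nat_lit 196) (nat_lit 5) (nat_lit 212) (nat_lit 5) (nat_lit 197) (nat_lit 5) (nat_lit 319) (nat_lit 308) (nat_lit 153))))))))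
noncomputable def xc115 : XT := (XT.nd (nat_lit 2184) (nat_lit 1216) (nat_lit 0) (XT.nd (nat_lit 1092) (nat_lit 3496) (nat_lit 0) (XT.nd (nat_lit 546) (nat_lit 2584) (nat_lit 0) (XT.nd (nat_lit 234) (nat_lit 1672) (nat_lit 0) (XT.nd (nat_lit 78) (nat_lit 1140) (nat_lit 0) (XT.lf (nat_lit 0) (nat_lit 28524572528) (nat_lit 836) (nat_lit 11436090019) (nat_lit 76) (nat_lit 18067659439) (nat_lit 186) (nat_lit 5) (nat_lit 197) (nat_lit 5) (nat_lit 187) (nat_lit 5) (nat_lit 320) (nat_lit 308) (nat_lit 152)) (XT.nd (nat_lit 78) (nat_lit 532) (nat_lit 0) (XT.lf (nat_lit 0) (nat_lit 36988910955) (nat_lit 608) (nat_lit 416441966) (nat_lit 684) (nat_lit 22247654077) (nat_lit 178) (nat_lit 5) (nat_lit 186) (nat_lit 5) (nat_lit 187) (nat_lit 5) (nat_lit 321) (nat_lit 308) (nat_lit 151)) (XT.lf (nat_lit 0) (nat_lit 26844219158) (nat_lit 532) (nat_lit 20655861960) (nat_lit 608) (nat_lit 13835749924) (nat_lit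 171) (nat_lit 5) (nat_lit 178) (nat_lit 5) (nat_lit 179) (nat_lit 5) (nat_lit 322) (nat_lit 308) (nat_lit 150)))) (XT.nd (nat_lit 156) (nat_lit 532) (nat_lit 0) (XT.nd (nat_lit 78) (nat_lit 608) (nat_lit 0) (XT.lf (nat_lit 0) (nat_lit 16316443835) (nat_lit 532) (nat_lit 42376830406) (nat_lit 608) (nat_lit 4391712138) (nat_lit 164) (nat_lit 5) (nat_lit 171) (nat_lit 5) (nat_lit 172) (nat_lit 5) (nat_lit 323) (nat_lit 308) (nat_lit 149)) (XT.lf (nat_lit 0) (nat_lit 5311211272) (nat_lit 532) (nat_lit 721618935) (nat_lit 608) (nat_lit 58868694741) (nat_lit 156) (nat_lit 5) (nat_lit 163) (nat_lit 5) (nat_lit 164) (nat_lit 5) (nat_lit 324) (nat_lit 308) (nat_lit 148))) (XT.nd (nat_lit 78) (nat_lit 532) (nat_lit 0) (XT.lf (nat_lit 0) (nat_lit 17786390404) (nat_lit 608) (nat_lit 6286814896) (nat_lit 76) (nat_lit 42707423846) (nat_lit 156) (nat_lit 5) (nat_lit 164) (nat_lit 5) (nat_lit 157) (nat_lit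 5) (nat_lit 325) (nat_lit 308) (nat_lit 147)) (XT.lf (nat_lit 0) (nat_lit 30812705021) (nat_lit 608) (nat_lit 18270362035) (nat_lit 76) (nat_lit 19650070841) (nat_lit 149) (nat_lit 5) (nat_lit 157) (nat_lit 5) (nat_lit 150) (nat_lit 5) (nat_lit 326) (nat_lit 308) (nat_lit 146))))) (XT.nd (nat_lit 234) (nat_lit 1216) (nat_lit 0) (XT.nd (nat_lit 78) (nat_lit 912) (nat_lit 0) (XT.lf (nat_lit 0) (nat_lit 39933569548) (nat_lit 456) (nat_lit 5247193305) (nat_lit 532) (nat_lit 25581797964) (nat_lit 143) (nat_lit 5) (nat_lit 149) (nat_lit 5) (nat_lit 150) (nat_lit 5) (nat_lit 327) (nat_lit 308) (nat_lit 145)) (XT.nd (nat_lit 78) (nat_lit 456) (nat_lit 0) (XT.lf (nat_lit 0) (nat_lit 28706023674) (nat_lit 456) (nat_lit 32417377332) (nat_lit 532) (nat_lit 11744370034) (nat_lit 137) (nat_lit 5) (nat_lit 143) (nat_lit 5) (nat_lit 144) (nat_lit 5) (nat_lit 328) (nat_lit 308) (nat_lit 144)) (XT.lf (nat_lit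 0) (nat_lit 3398603795) (nat_lit 456) (nat_lit 58152748181) (nat_lit 76) (nat_lit 13506047499) (nat_lit 131) (nat_lit 5) (nat_lit 137) (nat_lit 5) (nat_lit 132) (nat_lit 5) (nat_lit 329) (nat_lit 308) (nat_lit 143)))) (XT.nd (nat_lit 156) (nat_lit 760) (nat_lit 0) (XT.nd (nat_lit 78) (nat_lit 0) (nat_lit 0) (XT.lf (nat_lit 0) (nat_lit 4234832506) (nat_lit 456) (nat_lit 15648667064) (nat_lit 532) (nat_lit 57444692696) (nat_lit 125) (nat_lit 5) (nat_lit 131) (nat_lit 5) (nat_lit 132) (nat_lit 5) (nat_lit 330) (nat_lit 308) (nat_lit 142)) (XT.lf (nat_lit 0) (nat_lit 38108531675) (nat_lit 532) (nat_lit 9058268589) (nat_lit 76) (nat_lit 32518248929) (nat_lit 125) (nat_lit 5) (nat_lit 132) (nat_lit 5) (nat_lit 126) (nat_lit 5) (nat_lit 331) (nat_lit 308) (nat_lit 141))) (XT.nd (nat_lit 78) (nat_lit 380) (nat_lit 0) (XT.lf (nat_lit 0) (nat_lit 57981665626) (nat_lit 456) (nat_lit 22976056254) (nat_lit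 76) (nat_lit 1179922760) (nat_lit 120) (nat_lit 5) (nat_lit 126) (nat_lit 5) (nat_lit 121) (nat_lit 5) (nat_lit 332) (nat_lit 308) (nat_lit 140)) (XT.lf (nat_lit 0) (nat_lit 46704230831) (nat_lit 380) (nat_lit 33161985823) (nat_lit 456) (nat_lit 4816121522) (nat_lit 115) (nat_lit 5) (nat_lit 120) (nat_lit 5) (nat_lit 121) (nat_lit 5) (nat_lit 333) (nat_lit 308) (nat_lit 139)))))) (XT.nd (nat_lit 546) (nat_lit 1368) (nat_lit 0) (XT.nd (nat_lit 234) (nat_lit 988) (nat_lit 0) (XT.nd (nat_lit 78) (nat_lit 684) (nat_lit 0) (XT.lf (nat_lit 0) (nat_lit 15918628422) (nat_lit 456) (nat_lit 54001466994) (nat_lit 76) (nat_lit 17407799440) (nat_lit 109) (nat_lit 5) (nat_lit 115) (nat_lit 5) (nat_lit 110) (nat_lit 5) (nat_lit 334) (nat_lit 308) (nat_lit 138)) (XT.nd (nat_lit 78) (nat_lit 304) (nat_lit 0) (XT.lf (nat_lit 0) (nat_lit 18875181490) (nat_lit 380) (nat_lit 19625885947) (nat_lit 456) (nat_lit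 51575915703) (nat_lit 104) (nat_lit 5) (nat_lit 109) (nat_lit 5) (nat_lit 110) (nat_lit 5) (nat_lit 335) (nat_lit 308) (nat_lit 137)) (XT.lf (nat_lit 0) (nat_lit 3315755016) (nat_lit 304) (nat_lit 59807823653) (nat_lit 380) (nat_lit 29812619605) (nat_lit 100) (nat_lit 5) (nat_lit 104) (nat_lit 5) (nat_lit 105) (nat_lit 5) (nat_lit 336) (nat_lit 308) (nat_lit 136)))) (XT.nd (nat_lit 156) (nat_lit 608) (nat_lit 0) (XT.nd (nat_lit 78) (nat_lit 380) (nat_lit 0) (XT.lf (nat_lit 0) (nat_lit 82843363760) (nat_lit 304) (nat_lit 7061703918) (nat_lit 380) (nat_lit 6005471821) (nat_lit 100) (nat_lit 5) (nat_lit 104) (nat_lit 5) (nat_lit 105) (nat_lit 5) (nat_lit 337) (nat_lit 308) (nat_lit 135)) (XT.lf (nat_lit 0) (nat_lit 19751173397) (nat_lit 380) (nat_lit 31015676304) (nat_lit 76) (nat_lit 48227379736) (nat_lit 95) (nat_lit 5) (nat_lit 100) (nat_lit 5) (nat_lit 96) (nat_lit 5) (nat_lit 338) (nat_lit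 308) (nat_lit 134))) (XT.nd (nat_lit 78) (nat_lit 304) (nat_lit 0) (XT.lf (nat_lit 0) (nat_lit 47422865202) (nat_lit 380) (nat_lit 50252102693) (nat_lit 76) (nat_lit 4532810464) (nat_lit 91) (nat_lit 5) (nat_lit 96) (nat_lit 5) (nat_lit 92) (nat_lit 5) (nat_lit 339) (nat_lit 308) (nat_lit 133)) (XT.lf (nat_lit 0) (nat_lit 34303512631) (nat_lit 304) (nat_lit 43338084418) (nat_lit 380) (nat_lit 27905504768) (nat_lit 87) (nat_lit 5) (nat_lit 91) (nat_lit 5) (nat_lit 92) (nat_lit 5) (nat_lit 340) (nat_lit 308) (nat_lit 132))))) (XT.nd (nat_lit 234) (nat_lit 760) (nat_lit 0) (XT.nd (nat_lit 78) (nat_lit 304) (nat_lit 0) (XT.lf (nat_lit 0) (nat_lit 1119429299) (nat_lit 304) (nat_lit 93782031259) (nat_lit 76) (nat_lit 14127607178) (nat_lit 83) (nat_lit 5) (nat_lit 87) (nat_lit 5) (nat_lit 84) (nat_lit 5) (nat_lit 341) (nat_lit 308) (nat_lit 131)) (XT.nd (nat_lit 78) (nat_lit 304) (nat_lit 0) (XT.lf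 (nat_lit 0) (nat_lit 32200846635) (nat_lit 304) (nat_lit 5840068848) (nat_lit 76) (nat_lit 74600457412) (nat_lit 83) (nat_lit 5) (nat_lit 87) (nat_lit 5) (nat_lit 84) (nat_lit 5) (nat_lit 342) (nat_lit 308) (nat_lit 130)) (XT.lf (nat_lit 0) (nat_lit 65899954221) (nat_lit 380) (nat_lit 28406547535) (nat_lit 76) (nat_lit 22095883607) (nat_lit 79) (nat_lit 5) (nat_lit 84) (nat_lit 5) (nat_lit 80) (nat_lit 5) (nat_lit 343) (nat_lit 308) (nat_lit 129)))) (XT.nd (nat_lit 156) (nat_lit 228) (nat_lit 0) (XT.nd (nat_lit 78) (nat_lit 304) (nat_lit 0) (XT.lf (nat_lit 0) (nat_lit 67221638858) (nat_lit 228) (nat_lit 35152232193) (nat_lit 304) (nat_lit 17944882391) (nat_lit 76) (nat_lit 5) (nat_lit 79) (nat_lit 5) (nat_lit 80) (nat_lit 5) (nat_lit 344) (nat_lit 308) (nat_lit 128)) (XT.lf (nat_lit 0) (nat_lit 16913699419) (nat_lit 304) (nat_lit 80161667209) (nat_lit 76) (nat_lit 27321188419) (nat_lit 72)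 (nat_lit 5) (nat_lit 76) (nat_lit 5) (nat_lit 73) (nat_lit 5) (nat_lit 345) (nat_lit 308) (nat_lit 127))) (XT.nd (nat_lit 78) (nat_lit 0) (nat_lit 0) (XT.lf (nat_lit 0) (nat_lit 18703411174) (nat_lit 228) (nat_lit 35529769497) (nat_lit 304) (nat_lit 74407063489) (nat_lit 69) (nat_lit 5) (nat_lit 72) (nat_lit 5) (nat_lit 73) (nat_lit 5) (nat_lit 346) (nat_lit 308) (nat_lit 126)) (XT.lf (nat_lit 0) (nat_lit 94530746975) (nat_lit 304) (nat_lit 9173728860) (nat_lit 76) (nat_lit 29358279068) (nat_lit 69) (nat_lit 5) (nat_lit 73) (nat_lit 5) (nat_lit 70) (nat_lit 5) (nat_lit 347) (nat_lit 308) (nat_lit 125))))))) (XT.nd (nat_lit 38220) (nat_lit 0) (nat_lit 5472) (XT.nd (nat_lit 37674) (nat_lit 0) (nat_lit 11552) (XT.nd (nat_lit 234) (nat_lit 456) (nat_lit 0) (XT.nd (nat_lit 78) (nat_lit 456) (nat_lit 0) (XT.lf (nat_lit 0) (nat_lit 468070719) (nat_lit 304) (nat_lit 39488455961) (nat_lit 76) (nat_lit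 97710681114) (nat_lit 65) (nat_lit 5) (nat_lit 69) (nat_lit 5) (nat_lit 66) (nat_lit 5) (nat_lit 348) (nat_lit 308) (nat_lit 124)) (XT.nd (nat_lit 78) (nat_lit 228) (nat_lit 0) (XT.lf (nat_lit 0) (nat_lit 41662558404) (nat_lit 304) (nat_lit 73180419807) (nat_lit 76) (nat_lit 27616221229) (nat_lit 62) (nat_lit 5) (nat_lit 66) (nat_lit 5) (nat_lit 63) (nat_lit 5) (nat_lit 349) (nat_lit 308) (nat_lit 123)) (XT.lf (nat_lit 0) (nat_lit 37147218653) (nat_lit 228) (nat_lit 48939621442) (nat_lit 304) (nat_lit 61368848909) (nat_lit 59) (nat_lit 5) (nat_lit 62) (nat_lit 5) (nat_lit 63) (nat_lit 5) (nat_lit 350) (nat_lit 308) (nat_lit 122)))) (XT.nd (nat_lit 156) (nat_lit 228) (nat_lit 0) (XT.nd (nat_lit 78) (nat_lit 76) (nat_lit 0) (XT.lf (nat_lit 0) (nat_lit 1670185328) (nat_lit 152) (nat_lit 132032928751) (nat_lit 228) (nat_lit 18969766024) (nat_lit 57) (nat_lit 5) (nat_lit 59) (nat_lit 5) (nat_lit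 60) (nat_lit 5) (nat_lit 351) (nat_lit 308) (nat_lit 121)) (XT.lf (nat_lit 0) (nat_lit 26690657337) (nat_lit 228) (nat_lit 37316042581) (nat_lit 76) (nat_lit 94087665017) (nat_lit 56) (nat_lit 5) (nat_lit 59) (nat_lit 5) (nat_lit 57) (nat_lit 5) (nat_lit 352) (nat_lit 308) (nat_lit 120))) (XT.nd (nat_lit 37206) (nat_lit 0) (nat_lit 11552) (XT.lf (nat_lit 0) (nat_lit 75128418663) (nat_lit 304) (nat_lit 80346817289) (nat_lit 76) (nat_lit 8279454608) (nat_lit 53) (nat_lit 5) (nat_lit 57) (nat_lit 5) (nat_lit 54) (nat_lit 5) (nat_lit 353) (nat_lit 308) (nat_lit 119)) (XT.lf (nat_lit 0) (nat_lit 7640733430) (nat_lit 0) (nat_lit 7640733430) (nat_lit 1140) (nat_lit 7037964137) (nat_lit 205) (nat_lit 5) (nat_lit 205) (nat_lit 3) (nat_lit 220) (nat_lit 3) (nat_lit 309) (nat_lit 309) (nat_lit 162))))) (XT.nd (nat_lit 234) (nat_lit 0) (nat_lit 152) (XT.nd (nat_lit 78) (nat_lit 0) (nat_lit 76) (XT.lf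 (nat_lit 76) (nat_lit 4678462715) (nat_lit 0) (nat_lit 26929360764) (nat_lit 1216) (nat_lit 14138531984) (nat_lit 206) (nat_lit 5) (nat_lit 205) (nat_lit 5) (nat_lit 221) (nat_lit 5) (nat_lit 310) (nat_lit 309) (nat_lit 161)) (XT.nd (nat_lit 78) (nat_lit 0) (nat_lit 0) (XT.lf (nat_lit 0) (nat_lit 33230726684) (nat_lit 1140) (nat_lit 6099354041) (nat_lit 1216) (nat_lit 7563373238) (nat_lit 206) (nat_lit 5) (nat_lit 221) (nat_lit 5) (nat_lit 222) (nat_lit 5) (nat_lit 311) (nat_lit 309) (nat_lit 160)) (XT.lf (nat_lit 76) (nat_lit 30947873690) (nat_lit 0) (nat_lit 4553049948) (nat_lit 1216) (nat_lit 12580002559) (nat_lit 207) (nat_lit 5) (nat_lit 206) (nat_lit 5) (nat_lit 222) (nat_lit 5) (nat_lit 312) (nat_lit 309) (nat_lit 159)))) (XT.nd (nat_lit 156) (nat_lit 0) (nat_lit 152) (XT.nd (nat_lit 78) (nat_lit 0) (nat_lit 76) (XT.lf (nat_lit 76) (nat_lit 20744065972) (nat_lit 0) (nat_lit 17707623126)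 (nat_lit 1216) (nat_lit 10859074299) (nat_lit 208) (nat_lit 5) (nat_lit 207) (nat_lit 5) (nat_lit 223) (nat_lit 5) (nat_lit 313) (nat_lit 309) (nat_lit 158)) (XT.lf (nat_lit 76) (nat_lit 10245595965) (nat_lit 0) (nat_lit 31805053720) (nat_lit 1216) (nat_lit 8536426028) (nat_lit 209) (nat_lit 5) (nat_lit 208) (nat_lit 5) (nat_lit 224) (nat_lit 5) (nat_lit 314) (nat_lit 309) (nat_lit 157))) (XT.nd (nat_lit 78) (nat_lit 0) (nat_lit 0) (XT.lf (nat_lit 0) (nat_lit 46347008172) (nat_lit 1140) (nat_lit 551011549) (nat_lit 1216) (nat_lit 5013663251) (nat_lit 209) (nat_lit 5) (nat_lit 224) (nat_lit 5) (nat_lit 225) (nat_lit 5) (nat_lit 315) (nat_lit 309) (nat_lit 156)) (XT.lf (nat_lit 76) (nat_lit 41720195581) (nat_lit 0) (nat_lit 9857436207) (nat_lit 1216) (nat_lit 1703308078) (nat_lit 210) (nat_lit 5) (nat_lit 209) (nat_lit 5) (nat_lit 225) (nat_lit 5) (nat_lit 316) (nat_lit 309) (nat_lit 155))))))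 (XT.nd (nat_lit 546) (nat_lit 3496) (nat_lit 0) (XT.nd (nat_lit 234) (nat_lit 1748) (nat_lit 0) (XT.nd (nat_lit 78) (nat_lit 0) (nat_lit 76) (XT.lf (nat_lit 0) (nat_lit 2898465677) (nat_lit 1216) (nat_lit 22993250468) (nat_lit 1292) (nat_lit 28808471399) (nat_lit 194) (nat_lit 5) (nat_lit 210) (nat_lit 5) (nat_lit 211) (nat_lit 5) (nat_lit 317) (nat_lit 309) (nat_lit 154)) (XT.nd (nat_lit 78) (nat_lit 0) (nat_lit 0) (XT.lf (nat_lit 0) (nat_lit 8247835531) (nat_lit 1216) (nat_lit 34813333800) (nat_lit 1292) (nat_lit 13112142678) (nat_lit 195) (nat_lit 5) (nat_lit 211) (nat_lit 5) (nat_lit 212) (nat_lit 5) (nat_lit 318) (nat_lit 309) (nat_lit 153)) (XT.lf (nat_lit 76) (nat_lit 10640397823) (nat_lit 0) (nat_lit 3824609349) (nat_lit 1292) (nat_lit 43237077781) (nat_lit 196) (nat_lit 5) (nat_lit 195) (nat_lit 5) (nat_lit 212) (nat_lit 5) (nat_lit 319) (nat_lit 309) (nat_lit 152)))) (XT.nd (nat_lit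 156) (nat_lit 1140) (nat_lit 0) (XT.nd (nat_lit 78) (nat_lit 760) (nat_lit 0) (XT.lf (nat_lit 0) (nat_lit 21711994817) (nat_lit 1216) (nat_lit 566985578) (nat_lit 76) (nat_lit 37006749573) (nat_lit 196) (nat_lit 5) (nat_lit 212) (nat_lit 5) (nat_lit 197) (nat_lit 5) (nat_lit 320) (nat_lit 309) (nat_lit 151)) (XT.lf (nat_lit 0) (nat_lit 30016401809) (nat_lit 836) (nat_lit 11947692936) (nat_lit 76) (nat_lit 18963612434) (nat_lit 186) (nat_lit 5) (nat_lit 197) (nat_lit 5) (nat_lit 187) (nat_lit 5) (nat_lit 321) (nat_lit 309) (nat_lit 150))) (XT.nd (nat_lit 78) (nat_lit 532) (nat_lit 0) (XT.lf (nat_lit 0) (nat_lit 38896832421) (nat_lit 608) (nat_lit 441827066) (nat_lit 684) (nat_lit 23295046800) (nat_lit 178) (nat_lit 5) (nat_lit 186) (nat_lit 5) (nat_lit 187) (nat_lit 5) (nat_lit 322) (nat_lit 309) (nat_lit 149)) (XT.lf (nat_lit 0) (nat_lit 28245167573) (nat_lit 532) (nat_lit 21690477514) (nat_lit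 608) (nat_lit 14465103669) (nat_lit 171) (nat_lit 5) (nat_lit 178) (nat_lit 5) (nat_lit 179) (nat_lit 5) (nat_lit 323) (nat_lit 309) (nat_lit 148))))) (XT.nd (nat_lit 312) (nat_lit 1824) (nat_lit 0) (XT.nd (nat_lit 156) (nat_lit 532) (nat_lit 0) (XT.nd (nat_lit 78) (nat_lit 608) (nat_lit 0) (XT.lf (nat_lit 0) (nat_lit 17191156928) (nat_lit 532) (nat_lit 44495006544) (nat_lit 608) (nat_lit 4551271136) (nat_lit 164) (nat_lit 5) (nat_lit 171) (nat_lit 5) (nat_lit 172) (nat_lit 5) (nat_lit 324) (nat_lit 309) (nat_lit 147)) (XT.lf (nat_lit 0) (nat_lit 5635163630) (nat_lit 532) (nat_lit 755922026) (nat_lit 608) (nat_lit 61753766890) (nat_lit 156) (nat_lit 5) (nat_lit 163) (nat_lit 5) (nat_lit 164) (nat_lit 5) (nat_lit 325) (nat_lit 309) (nat_lit 146))) (XT.nd (nat_lit 78) (nat_lit 532) (nat_lit 0) (XT.lf (nat_lit 0) (nat_lit 18729644238) (nat_lit 608) (nat_lit 6543895304) (nat_lit 76) (nat_lit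 44844455194) (nat_lit 156) (nat_lit 5) (nat_lit 164) (nat_lit 5) (nat_lit 157) (nat_lit 5) (nat_lit 326) (nat_lit 309) (nat_lit 145)) (XT.lf (nat_lit 0) (nat_lit 32405276671) (nat_lit 608) (nat_lit 19126694318) (nat_lit 76) (nat_lit 20636220150) (nat_lit 149) (nat_lit 5) (nat_lit 157) (nat_lit 5) (nat_lit 150) (nat_lit 5) (nat_lit 327) (nat_lit 309) (nat_lit 144)))) (XT.nd (nat_lit 156) (nat_lit 912) (nat_lit 0) (XT.nd (nat_lit 78) (nat_lit 456) (nat_lit 0) (XT.lf (nat_lit 0) (nat_lit 41985794624) (nat_lit 456) (nat_lit 5504003556) (nat_lit 532) (nat_lit 26809347370) (nat_lit 143) (nat_lit 5) (nat_lit 149) (nat_lit 5) (nat_lit 150) (nat_lit 5) (nat_lit 328) (nat_lit 309) (nat_lit 143)) (XT.lf (nat_lit 0) (nat_lit 30196726477) (nat_lit 456) (nat_lit 34031044304) (nat_lit 532) (nat_lit 12281901494) (nat_lit 137) (nat_lit 5) (nat_lit 143) (nat_lit 5) (nat_lit 144) (nat_lit 5) (nat_lit 329) (nat_lit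 309) (nat_lit 142))) (XT.nd (nat_lit 78) (nat_lit 456) (nat_lit 0) (XT.lf (nat_lit 0) (nat_lit 3615533942) (nat_lit 456) (nat_lit 61004221006) (nat_lit 76) (nat_lit 14189066292) (nat_lit 131) (nat_lit 5) (nat_lit 137) (nat_lit 5) (nat_lit 132) (nat_lit 5) (nat_lit 330) (nat_lit 309) (nat_lit 141)) (XT.lf (nat_lit 0) (nat_lit 4501128769) (nat_lit 456) (nat_lit 16421832056) (nat_lit 532) (nat_lit 60270246075) (nat_lit 125) (nat_lit 5) (nat_lit 131) (nat_lit 5) (nat_lit 132) (nat_lit 5) (nat_lit 331) (nat_lit 309) (nat_lit 140))))))))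
noncomputable def xc116 : XT := (XT.nd (nat_lit 39390) (nat_lit 0) (nat_lit 2052) (XT.nd (nat_lit 1092) (nat_lit 1520) (nat_lit 0) (XT.nd (nat_lit 546) (nat_lit 1824) (nat_lit 0) (XT.nd (nat_lit 234) (nat_lit 1140) (nat_lit 0) (XT.nd (nat_lit 78) (nat_lit 760) (nat_lit 0) (XT.lf (nat_lit 0) (nat_lit 40057172896) (nat_lit 532) (nat_lit 9457981519) (nat_lit 76) (nat_lit 34152816140) (nat_lit 125) (nat_lit 5) (nat_lit 132) (nat_lit 5) (nat_lit 126) (nat_lit 5) (nat_lit 332) (nat_lit 309) (nat_lit 139)) (XT.nd (nat_lit 78) (nat_lit 380) (nat_lit 0) (XT.lf (nat_lit 0) (nat_lit 60922498779) (nat_lit 456) (nat_lit 24071997273) (nat_lit 76) (nat_lit 1248745316) (nat_lit 120) (nat_lit 5) (nat_lit 126) (nat_lit 5) (nat_lit 121) (nat_lit 5) (nat_lit 333) (nat_lit 309) (nat_lit 138)) (XT.lf (nat_lit 0) (nat_lit 49090788894) (nat_lit 380) (nat_lit 34808993949) (nat_lit 456) (nat_lit 5015433145) (nat_lit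 115) (nat_lit 5) (nat_lit 120) (nat_lit 5) (nat_lit 121) (nat_lit 5) (nat_lit 334) (nat_lit 309) (nat_lit 137)))) (XT.nd (nat_lit 156) (nat_lit 304) (nat_lit 0) (XT.nd (nat_lit 78) (nat_lit 380) (nat_lit 0) (XT.lf (nat_lit 0) (nat_lit 16753904616) (nat_lit 456) (nat_lit 56649753535) (nat_lit 76) (nat_lit 18289422036) (nat_lit 109) (nat_lit 5) (nat_lit 115) (nat_lit 5) (nat_lit 110) (nat_lit 5) (nat_lit 335) (nat_lit 309) (nat_lit 136)) (XT.lf (nat_lit 0) (nat_lit 19869242915) (nat_lit 380) (nat_lit 20594832644) (nat_lit 456) (nat_lit 54115590412) (nat_lit 104) (nat_lit 5) (nat_lit 109) (nat_lit 5) (nat_lit 110) (nat_lit 5) (nat_lit 336) (nat_lit 309) (nat_lit 135))) (XT.nd (nat_lit 78) (nat_lit 0) (nat_lit 0) (XT.lf (nat_lit 0) (nat_lit 3531420813) (nat_lit 304) (nat_lit 62785076669) (nat_lit 380) (nat_lit 31265382144) (nat_lit 100) (nat_lit 5) (nat_lit 104) (nat_lit 5) (nat_lit 105) (nat_lit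 5) (nat_lit 337) (nat_lit 309) (nat_lit 134)) (XT.lf (nat_lit 0) (nat_lit 87033034849) (nat_lit 304) (nat_lit 7402276575) (nat_lit 380) (nat_lit 6269680231) (nat_lit 100) (nat_lit 5) (nat_lit 104) (nat_lit 5) (nat_lit 105) (nat_lit 5) (nat_lit 338) (nat_lit 309) (nat_lit 133))))) (XT.nd (nat_lit 234) (nat_lit 836) (nat_lit 0) (XT.nd (nat_lit 78) (nat_lit 608) (nat_lit 0) (XT.lf (nat_lit 0) (nat_lit 20772982225) (nat_lit 380) (nat_lit 32518686836) (nat_lit 76) (nat_lit 50651221125) (nat_lit 95) (nat_lit 5) (nat_lit 100) (nat_lit 5) (nat_lit 96) (nat_lit 5) (nat_lit 339) (nat_lit 309) (nat_lit 132)) (XT.nd (nat_lit 78) (nat_lit 304) (nat_lit 0) (XT.lf (nat_lit 0) (nat_lit 49827201941) (nat_lit 380) (nat_lit 52717418106) (nat_lit 76) (nat_lit 4772529313) (nat_lit 91) (nat_lit 5) (nat_lit 96) (nat_lit 5) (nat_lit 92) (nat_lit 5) (nat_lit 340) (nat_lit 309) (nat_lit 131)) (XT.lf (nat_lit 0) (nat_lit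 36064622434) (nat_lit 304) (nat_lit 45491108853) (nat_lit 380) (nat_lit 29267742932) (nat_lit 87) (nat_lit 5) (nat_lit 91) (nat_lit 5) (nat_lit 92) (nat_lit 5) (nat_lit 341) (nat_lit 309) (nat_lit 130)))) (XT.nd (nat_lit 156) (nat_lit 532) (nat_lit 0) (XT.nd (nat_lit 78) (nat_lit 0) (nat_lit 0) (XT.lf (nat_lit 0) (nat_lit 1206820142) (nat_lit 304) (nat_lit 98425045641) (nat_lit 76) (nat_lit 14847693287) (nat_lit 83) (nat_lit 5) (nat_lit 87) (nat_lit 5) (nat_lit 84) (nat_lit 5) (nat_lit 342) (nat_lit 309) (nat_lit 129)) (XT.lf (nat_lit 0) (nat_lit 33840812184) (nat_lit 304) (nat_lit 6088179736) (nat_lit 76) (nat_lit 78343533378) (nat_lit 83) (nat_lit 5) (nat_lit 87) (nat_lit 5) (nat_lit 84) (nat_lit 5) (nat_lit 343) (nat_lit 309) (nat_lit 128))) (XT.nd (nat_lit 78) (nat_lit 228) (nat_lit 0) (XT.lf (nat_lit 0) (nat_lit 69223992007) (nat_lit 380) (nat_lit 29783487569) (nat_lit 76) (nat_lit 23214136192)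 (nat_lit 79) (nat_lit 5) (nat_lit 84) (nat_lit 5) (nat_lit 80) (nat_lit 5) (nat_lit 344) (nat_lit 309) (nat_lit 127)) (XT.lf (nat_lit 0) (nat_lit 70624864454) (nat_lit 228) (nat_lit 36895762475) (nat_lit 304) (nat_lit 18813205496) (nat_lit 76) (nat_lit 5) (nat_lit 79) (nat_lit 5) (nat_lit 80) (nat_lit 5) (nat_lit 345) (nat_lit 309) (nat_lit 126)))))) (XT.nd (nat_lit 546) (nat_lit 76) (nat_lit 0) (XT.nd (nat_lit 234) (nat_lit 912) (nat_lit 0) (XT.nd (nat_lit 78) (nat_lit 228) (nat_lit 0) (XT.lf (nat_lit 0) (nat_lit 17786925139) (nat_lit 304) (nat_lit 84127548691) (nat_lit 76) (nat_lit 28701067196) (nat_lit 72) (nat_lit 5) (nat_lit 76) (nat_lit 5) (nat_lit 73) (nat_lit 5) (nat_lit 346) (nat_lit 309) (nat_lit 125)) (XT.nd (nat_lit 78) (nat_lit 0) (nat_lit 0) (XT.lf (nat_lit 0) (nat_lit 19679573903) (nat_lit 228) (nat_lit 37291889127) (nat_lit 304) (nat_lit 78099979825) (nat_lit 69) (nat_lit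 5) (nat_lit 72) (nat_lit 5) (nat_lit 73) (nat_lit 5) (nat_lit 347) (nat_lit 309) (nat_lit 124)) (XT.lf (nat_lit 0) (nat_lit 99282771418) (nat_lit 304) (nat_lit 9592731912) (nat_lit 76) (nat_lit 30839610599) (nat_lit 69) (nat_lit 5) (nat_lit 73) (nat_lit 5) (nat_lit 70) (nat_lit 5) (nat_lit 348) (nat_lit 309) (nat_lit 123)))) (XT.nd (nat_lit 156) (nat_lit 380) (nat_lit 0) (XT.nd (nat_lit 78) (nat_lit 228) (nat_lit 0) (XT.lf (nat_lit 0) (nat_lit 516375376) (nat_lit 304) (nat_lit 41423824260) (nat_lit 76) (nat_lit 102609608471) (nat_lit 65) (nat_lit 5) (nat_lit 69) (nat_lit 5) (nat_lit 66) (nat_lit 5) (nat_lit 349) (nat_lit 309) (nat_lit 122)) (XT.lf (nat_lit 0) (nat_lit 43769899516) (nat_lit 304) (nat_lit 76800904147) (nat_lit 76) (nat_lit 29010616931) (nat_lit 62) (nat_lit 5) (nat_lit 66) (nat_lit 5) (nat_lit 63) (nat_lit 5) (nat_lit 350) (nat_lit 309) (nat_lit 121))) (XT.nd (nat_lit 78) (nat_lit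 152) (nat_lit 0) (XT.lf (nat_lit 0) (nat_lit 39042011591) (nat_lit 228) (nat_lit 51372590510) (nat_lit 304) (nat_lit 64413156922) (nat_lit 59) (nat_lit 5) (nat_lit 62) (nat_lit 5) (nat_lit 63) (nat_lit 5) (nat_lit 351) (nat_lit 309) (nat_lit 120)) (XT.lf (nat_lit 0) (nat_lit 1790616740) (nat_lit 152) (nat_lit 138620441003) (nat_lit 228) (nat_lit 19894771459) (nat_lit 57) (nat_lit 5) (nat_lit 59) (nat_lit 5) (nat_lit 60) (nat_lit 5) (nat_lit 352) (nat_lit 309) (nat_lit 119))))) (XT.nd (nat_lit 37440) (nat_lit 0) (nat_lit 11400) (XT.nd (nat_lit 37284) (nat_lit 0) (nat_lit 11324) (XT.lf (nat_lit 0) (nat_lit 28047118424) (nat_lit 228) (nat_lit 39146233929) (nat_lit 76) (nat_lit 98805062564) (nat_lit 56) (nat_lit 5) (nat_lit 59) (nat_lit 5) (nat_lit 57) (nat_lit 5) (nat_lit 353) (nat_lit 309) (nat_lit 118)) (XT.nd (nat_lit 78) (nat_lit 0) (nat_lit 0) (XT.lf (nat_lit 0) (nat_lit 8048268059) (nat_lit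 0) (nat_lit 8048268059) (nat_lit 1140) (nat_lit 7337283797) (nat_lit 205) (nat_lit 5) (nat_lit 205) (nat_lit 3) (nat_lit 220) (nat_lit 3) (nat_lit 310) (nat_lit 310) (nat_lit 160)) (XT.lf (nat_lit 76) (nat_lit 4965470664) (nat_lit 0) (nat_lit 28319922488) (nat_lit 1216) (nat_lit 14745264243) (nat_lit 206) (nat_lit 5) (nat_lit 205) (nat_lit 5) (nat_lit 221) (nat_lit 5) (nat_lit 311) (nat_lit 310) (nat_lit 159)))) (XT.nd (nat_lit 156) (nat_lit 0) (nat_lit 76) (XT.nd (nat_lit 78) (nat_lit 0) (nat_lit 0) (XT.lf (nat_lit 0) (nat_lit 34984410298) (nat_lit 1140) (nat_lit 6350488877) (nat_lit 1216) (nat_lit 7900367367) (nat_lit 206) (nat_lit 5) (nat_lit 221) (nat_lit 5) (nat_lit 222) (nat_lit 5) (nat_lit 312) (nat_lit 310) (nat_lit 158)) (XT.lf (nat_lit 76) (nat_lit 32547557133) (nat_lit 0) (nat_lit 4816674642) (nat_lit 1216) (nat_lit 13118001730) (nat_lit 207) (nat_lit 5) (nat_lit 206) (nat_lit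 5) (nat_lit 222) (nat_lit 5) (nat_lit 313) (nat_lit 310) (nat_lit 157))) (XT.nd (nat_lit 78) (nat_lit 0) (nat_lit 76) (XT.lf (nat_lit 76) (nat_lit 21835056518) (nat_lit 0) (nat_lit 18623463755) (nat_lit 1216) (nat_lit 11315167089) (nat_lit 208) (nat_lit 5) (nat_lit 207) (nat_lit 5) (nat_lit 223) (nat_lit 5) (nat_lit 314) (nat_lit 310) (nat_lit 156)) (XT.lf (nat_lit 76) (nat_lit 10812944882) (nat_lit 0) (nat_lit 33420722765) (nat_lit 1216) (nat_lit 8880264618) (nat_lit 209) (nat_lit 5) (nat_lit 208) (nat_lit 5) (nat_lit 224) (nat_lit 5) (nat_lit 315) (nat_lit 310) (nat_lit 155))))))) (XT.nd (nat_lit 1092) (nat_lit 4560) (nat_lit 0) (XT.nd (nat_lit 546) (nat_lit 3268) (nat_lit 0) (XT.nd (nat_lit 234) (nat_lit 608) (nat_lit 0) (XT.nd (nat_lit 78) (nat_lit 1140) (nat_lit 0) (XT.lf (nat_lit 0) (nat_lit 48740778733) (nat_lit 1140) (nat_lit 523504345) (nat_lit 1216) (nat_lit 5240612705) (nat_lit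 209) (nat_lit 5) (nat_lit 224) (nat_lit 5) (nat_lit 225) (nat_lit 5) (nat_lit 316) (nat_lit 310) (nat_lit 154)) (XT.nd (nat_lit 78) (nat_lit 1140) (nat_lit 0) (XT.lf (nat_lit 76) (nat_lit 43859684922) (nat_lit 0) (nat_lit 10370123631) (nat_lit 1216) (nat_lit 1712904467) (nat_lit 210) (nat_lit 5) (nat_lit 209) (nat_lit 5) (nat_lit 225) (nat_lit 5) (nat_lit 317) (nat_lit 310) (nat_lit 153)) (XT.lf (nat_lit 0) (nat_lit 3114299366) (nat_lit 1216) (nat_lit 24087092141) (nat_lit 1292) (nat_lit 30231608769) (nat_lit 194) (nat_lit 5) (nat_lit 210) (nat_lit 5) (nat_lit 211) (nat_lit 5) (nat_lit 318) (nat_lit 310) (nat_lit 152)))) (XT.nd (nat_lit 156) (nat_lit 684) (nat_lit 0) (XT.nd (nat_lit 78) (nat_lit 0) (nat_lit 0) (XT.lf (nat_lit 0) (nat_lit 8728149247) (nat_lit 1216) (nat_lit 36497539072) (nat_lit 1292) (nat_lit 13754185601) (nat_lit 195) (nat_lit 5) (nat_lit 211) (nat_lit 5) (nat_lit 212) (nat_lit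 5) (nat_lit 319) (nat_lit 310) (nat_lit 151)) (XT.lf (nat_lit 76) (nat_lit 11227260678) (nat_lit 0) (nat_lit 4026211598) (nat_lit 1292) (nat_lit 45331697594) (nat_lit 196) (nat_lit 5) (nat_lit 195) (nat_lit 5) (nat_lit 212) (nat_lit 5) (nat_lit 320) (nat_lit 310) (nat_lit 150))) (XT.nd (nat_lit 78) (nat_lit 760) (nat_lit 0) (XT.lf (nat_lit 0) (nat_lit 22859608887) (nat_lit 1216) (nat_lit 541085339) (nat_lit 76) (nat_lit 38847401917) (nat_lit 196) (nat_lit 5) (nat_lit 212) (nat_lit 5) (nat_lit 197) (nat_lit 5) (nat_lit 321) (nat_lit 310) (nat_lit 149)) (XT.lf (nat_lit 0) (nat_lit 31576723626) (nat_lit 836) (nat_lit 12490472971) (nat_lit 76) (nat_lit 19905053849) (nat_lit 186) (nat_lit 5) (nat_lit 197) (nat_lit 5) (nat_lit 187) (nat_lit 5) (nat_lit 322) (nat_lit 310) (nat_lit 148))))) (XT.nd (nat_lit 234) (nat_lit 1596) (nat_lit 0) (XT.nd (nat_lit 78) (nat_lit 1064) (nat_lit 0) (XT.lf (nat_lit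 0) (nat_lit 40894713424) (nat_lit 608) (nat_lit 468057196) (nat_lit 684) (nat_lit 24400851313) (nat_lit 178) (nat_lit 5) (nat_lit 186) (nat_lit 5) (nat_lit 187) (nat_lit 5) (nat_lit 323) (nat_lit 310) (nat_lit 147)) (XT.nd (nat_lit 78) (nat_lit 532) (nat_lit 0) (XT.lf (nat_lit 0) (nat_lit 29710702556) (nat_lit 532) (nat_lit 22776654411) (nat_lit 608) (nat_lit 15131729599) (nat_lit 171) (nat_lit 5) (nat_lit 178) (nat_lit 5) (nat_lit 179) (nat_lit 5) (nat_lit 324) (nat_lit 310) (nat_lit 146)) (XT.lf (nat_lit 0) (nat_lit 18104130557) (nat_lit 532) (nat_lit 46719153350) (nat_lit 608) (nat_lit 4724388789) (nat_lit 164) (nat_lit 5) (nat_lit 171) (nat_lit 5) (nat_lit 172) (nat_lit 5) (nat_lit 325) (nat_lit 310) (nat_lit 145)))) (XT.nd (nat_lit 156) (nat_lit 988) (nat_lit 0) (XT.nd (nat_lit 78) (nat_lit 0) (nat_lit 0) (XT.lf (nat_lit 0) (nat_lit 5969884891) (nat_lit 532) (nat_lit 792105559) (nat_lit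 608) (nat_lit 64788518647) (nat_lit 156) (nat_lit 5) (nat_lit 163) (nat_lit 5) (nat_lit 164) (nat_lit 5) (nat_lit 326) (nat_lit 310) (nat_lit 144)) (XT.lf (nat_lit 0) (nat_lit 19715046462) (nat_lit 608) (nat_lit 6819153255) (nat_lit 76) (nat_lit 47088183764) (nat_lit 156) (nat_lit 5) (nat_lit 164) (nat_lit 5) (nat_lit 157) (nat_lit 5) (nat_lit 327) (nat_lit 310) (nat_lit 143))) (XT.nd (nat_lit 78) (nat_lit 456) (nat_lit 0) (XT.lf (nat_lit 0) (nat_lit 34072648350) (nat_lit 608) (nat_lit 20031159811) (nat_lit 76) (nat_lit 21671337976) (nat_lit 149) (nat_lit 5) (nat_lit 157) (nat_lit 5) (nat_lit 150) (nat_lit 5) (nat_lit 328) (nat_lit 310) (nat_lit 142)) (XT.lf (nat_lit 0) (nat_lit 44135466758) (nat_lit 456) (nat_lit 5774170252) (nat_lit 532) (nat_lit 28103065993) (nat_lit 143) (nat_lit 5) (nat_lit 149) (nat_lit 5) (nat_lit 150) (nat_lit 5) (nat_lit 329) (nat_lit 310) (nat_lit 141)))))) (XT.nd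 (nat_lit 546) (nat_lit 1976) (nat_lit 0) (XT.nd (nat_lit 234) (nat_lit 1216) (nat_lit 0) (XT.nd (nat_lit 78) (nat_lit 912) (nat_lit 0) (XT.lf (nat_lit 0) (nat_lit 31756813703) (nat_lit 456) (nat_lit 35726064189) (nat_lit 532) (nat_lit 12850928957) (nat_lit 137) (nat_lit 5) (nat_lit 143) (nat_lit 5) (nat_lit 144) (nat_lit 5) (nat_lit 330) (nat_lit 310) (nat_lit 140)) (XT.nd (nat_lit 78) (nat_lit 456) (nat_lit 0) (XT.lf (nat_lit 0) (nat_lit 3838940985) (nat_lit 456) (nat_lit 64003489123) (nat_lit 76) (nat_lit 14905518625) (nat_lit 131) (nat_lit 5) (nat_lit 137) (nat_lit 5) (nat_lit 132) (nat_lit 5) (nat_lit 331) (nat_lit 310) (nat_lit 139)) (XT.lf (nat_lit 0) (nat_lit 4775667873) (nat_lit 456) (nat_lit 17234516981) (nat_lit 532) (nat_lit 63241417104) (nat_lit 125) (nat_lit 5) (nat_lit 131) (nat_lit 5) (nat_lit 132) (nat_lit 5) (nat_lit 332) (nat_lit 310) (nat_lit 138)))) (XT.nd (nat_lit 156)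 (nat_lit 836) (nat_lit 0) (XT.nd (nat_lit 78) (nat_lit 380) (nat_lit 0) (XT.lf (nat_lit 0) (nat_lit 42099228491) (nat_lit 532) (nat_lit 9882626174) (nat_lit 76) (nat_lit 35868307073) (nat_lit 125) (nat_lit 5) (nat_lit 132) (nat_lit 5) (nat_lit 126) (nat_lit 5) (nat_lit 333) (nat_lit 310) (nat_lit 137)) (XT.lf (nat_lit 0) (nat_lit 64006492083) (nat_lit 456) (nat_lit 25227649931) (nat_lit 76) (nat_lit 1320095433) (nat_lit 120) (nat_lit 5) (nat_lit 126) (nat_lit 5) (nat_lit 121) (nat_lit 5) (nat_lit 334) (nat_lit 310) (nat_lit 136))) (XT.nd (nat_lit 78) (nat_lit 456) (nat_lit 0) (XT.lf (nat_lit 0) (nat_lit 51591901148) (nat_lit 380) (nat_lit 36539383634) (nat_lit 456) (nat_lit 5228568109) (nat_lit 115) (nat_lit 5) (nat_lit 120) (nat_lit 5) (nat_lit 121) (nat_lit 5) (nat_lit 335) (nat_lit 310) (nat_lit 135)) (XT.lf (nat_lit 0) (nat_lit 17627286717) (nat_lit 456) (nat_lit 59435269050) (nat_lit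 76) (nat_lit 19214081460) (nat_lit 109) (nat_lit 5) (nat_lit 115) (nat_lit 5) (nat_lit 110) (nat_lit 5) (nat_lit 336) (nat_lit 310) (nat_lit 134))))) (XT.nd (nat_lit 234) (nat_lit 1292) (nat_lit 0) (XT.nd (nat_lit 78) (nat_lit 304) (nat_lit 0) (XT.lf (nat_lit 0) (nat_lit 20908330775) (nat_lit 380) (nat_lit 21613374638) (nat_lit 456) (nat_lit 56785885965) (nat_lit 104) (nat_lit 5) (nat_lit 109) (nat_lit 5) (nat_lit 110) (nat_lit 5) (nat_lit 337) (nat_lit 310) (nat_lit 133)) (XT.nd (nat_lit 78) (nat_lit 0) (nat_lit 0) (XT.lf (nat_lit 0) (nat_lit 3753232712) (nat_lit 304) (nat_lit 65912413799) (nat_lit 380) (nat_lit 32794303459) (nat_lit 100) (nat_lit 5) (nat_lit 104) (nat_lit 5) (nat_lit 105) (nat_lit 5) (nat_lit 338) (nat_lit 310) (nat_lit 132)) (XT.lf (nat_lit 0) (nat_lit 91427773122) (nat_lit 304) (nat_lit 7761041162) (nat_lit 380) (nat_lit 6550452059) (nat_lit 100) (nat_lit 5) (nat_lit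 104) (nat_lit 5) (nat_lit 105) (nat_lit 5) (nat_lit 339) (nat_lit 310) (nat_lit 131)))) (XT.nd (nat_lit 156) (nat_lit 608) (nat_lit 0) (XT.nd (nat_lit 78) (nat_lit 304) (nat_lit 0) (XT.lf (nat_lit 0) (nat_lit 21842697239) (nat_lit 380) (nat_lit 34101289402) (nat_lit 76) (nat_lit 53195095018) (nat_lit 95) (nat_lit 5) (nat_lit 100) (nat_lit 5) (nat_lit 96) (nat_lit 5) (nat_lit 340) (nat_lit 310) (nat_lit 130)) (XT.lf (nat_lit 0) (nat_lit 52348669503) (nat_lit 380) (nat_lit 55310395840) (nat_lit 76) (nat_lit 5023018206) (nat_lit 91) (nat_lit 5) (nat_lit 96) (nat_lit 5) (nat_lit 92) (nat_lit 5) (nat_lit 341) (nat_lit 310) (nat_lit 129))) (XT.nd (nat_lit 78) (nat_lit 304) (nat_lit 0) (XT.lf (nat_lit 0) (nat_lit 37909517203) (nat_lit 304) (nat_lit 47753074920) (nat_lit 380) (nat_lit 30701164477) (nat_lit 87) (nat_lit 5) (nat_lit 91) (nat_lit 5) (nat_lit 92) (nat_lit 5) (nat_lit 342) (nat_lit 310)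 (nat_lit 128)) (XT.lf (nat_lit 0) (nat_lit 1295659452) (nat_lit 304) (nat_lit 103304495491) (nat_lit 76) (nat_lit 15602509470) (nat_lit 83) (nat_lit 5) (nat_lit 87) (nat_lit 5) (nat_lit 84) (nat_lit 5) (nat_lit 343) (nat_lit 310) (nat_lit 127))))))))
noncomputable def xc117 : XT := (XT.nd (nat_lit 39546) (nat_lit 0) (nat_lit 228) (XT.nd (nat_lit 38454) (nat_lit 0) (nat_lit 6840) (XT.nd (nat_lit 546) (nat_lit 456) (nat_lit 0) (XT.nd (nat_lit 234) (nat_lit 836) (nat_lit 0) (XT.nd (nat_lit 78) (nat_lit 532) (nat_lit 0) (XT.lf (nat_lit 0) (nat_lit 35559994034) (nat_lit 304) (nat_lit 6352776883) (nat_lit 76) (nat_lit 82272549590) (nat_lit 83) (nat_lit 5) (nat_lit 87) (nat_lit 5) (nat_lit 84) (nat_lit 5) (nat_lit 344) (nat_lit 310) (nat_lit 126)) (XT.nd (nat_lit 78) (nat_lit 228) (nat_lit 0) (XT.lf (nat_lit 0) (nat_lit 72711531812) (nat_lit 380) (nat_lit 31233308349) (nat_lit 76) (nat_lit 24387050170)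 (nat_lit 79) (nat_lit 5) (nat_lit 84) (nat_lit 5) (nat_lit 80) (nat_lit 5) (nat_lit 345) (nat_lit 310) (nat_lit 125)) (XT.lf (nat_lit 0) (nat_lit 74194333212) (nat_lit 228) (nat_lit 38727778419) (nat_lit 304) (nat_lit 19727633557) (nat_lit 76) (nat_lit 5) (nat_lit 79) (nat_lit 5) (nat_lit 80) (nat_lit 5) (nat_lit 346) (nat_lit 310) (nat_lit 124)))) (XT.nd (nat_lit 156) (nat_lit 304) (nat_lit 0) (XT.nd (nat_lit 78) (nat_lit 228) (nat_lit 0) (XT.lf (nat_lit 0) (nat_lit 18701251667) (nat_lit 304) (nat_lit 88295647777) (nat_lit 76) (nat_lit 30148655118) (nat_lit 72) (nat_lit 5) (nat_lit 76) (nat_lit 5) (nat_lit 73) (nat_lit 5) (nat_lit 347) (nat_lit 310) (nat_lit 123)) (XT.lf (nat_lit 0) (nat_lit 20700733706) (nat_lit 228) (nat_lit 39143450618) (nat_lit 304) (nat_lit 81980092796) (nat_lit 69) (nat_lit 5) (nat_lit 72) (nat_lit 5) (nat_lit 73) (nat_lit 5) (nat_lit 348) (nat_lit 310) (nat_lit 122)))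 (XT.nd (nat_lit 78) (nat_lit 304) (nat_lit 0) (XT.lf (nat_lit 0) (nat_lit 104270027534) (nat_lit 304) (nat_lit 10036374502) (nat_lit 76) (nat_lit 32393761268) (nat_lit 69) (nat_lit 5) (nat_lit 73) (nat_lit 5) (nat_lit 70) (nat_lit 5) (nat_lit 349) (nat_lit 310) (nat_lit 121)) (XT.lf (nat_lit 0) (nat_lit 564780196) (nat_lit 304) (nat_lit 43459591890) (nat_lit 76) (nat_lit 107752237013) (nat_lit 65) (nat_lit 5) (nat_lit 69) (nat_lit 5) (nat_lit 66) (nat_lit 5) (nat_lit 350) (nat_lit 310) (nat_lit 120))))) (XT.nd (nat_lit 37596) (nat_lit 0) (nat_lit 11096) (XT.nd (nat_lit 78) (nat_lit 228) (nat_lit 0) (XT.lf (nat_lit 0) (nat_lit 45980356570) (nat_lit 304) (nat_lit 80605995477) (nat_lit 76) (nat_lit 30473469447) (nat_lit 62) (nat_lit 5) (nat_lit 66) (nat_lit 5) (nat_lit 63) (nat_lit 5) (nat_lit 351) (nat_lit 310) (nat_lit 119)) (XT.nd (nat_lit 37440) (nat_lit 0) (nat_lit 11096) (XT.lf (nat_lit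 0) (nat_lit 41028064103) (nat_lit 228) (nat_lit 53928510735) (nat_lit 304) (nat_lit 67611924126) (nat_lit 59) (nat_lit 5) (nat_lit 62) (nat_lit 5) (nat_lit 63) (nat_lit 5) (nat_lit 352) (nat_lit 310) (nat_lit 118)) (XT.lf (nat_lit 0) (nat_lit 8473808861) (nat_lit 0) (nat_lit 8473808861) (nat_lit 1140) (nat_lit 7656457694) (nat_lit 205) (nat_lit 5) (nat_lit 205) (nat_lit 3) (nat_lit 220) (nat_lit 3) (nat_lit 311) (nat_lit 311) (nat_lit 158)))) (XT.nd (nat_lit 156) (nat_lit 0) (nat_lit 76) (XT.nd (nat_lit 78) (nat_lit 0) (nat_lit 76) (XT.lf (nat_lit 76) (nat_lit 5261893687) (nat_lit 0) (nat_lit 29775912885) (nat_lit 1216) (nat_lit 15391648235) (nat_lit 206) (nat_lit 5) (nat_lit 205) (nat_lit 5) (nat_lit 221) (nat_lit 5) (nat_lit 312) (nat_lit 311) (nat_lit 157)) (XT.lf (nat_lit 0) (nat_lit 36817211112) (nat_lit 1140) (nat_lit 6619185324) (nat_lit 1216) (nat_lit 8258039221) (nat_lit 206) (nat_lit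 5) (nat_lit 221) (nat_lit 5) (nat_lit 222) (nat_lit 5) (nat_lit 313) (nat_lit 311) (nat_lit 156))) (XT.nd (nat_lit 78) (nat_lit 0) (nat_lit 76) (XT.lf (nat_lit 76) (nat_lit 34222363342) (nat_lit 0) (nat_lit 5090136217) (nat_lit 1216) (nat_lit 13691361265) (nat_lit 207) (nat_lit 5) (nat_lit 206) (nat_lit 5) (nat_lit 222) (nat_lit 5) (nat_lit 314) (nat_lit 311) (nat_lit 155)) (XT.lf (nat_lit 76) (nat_lit 22975595963) (nat_lit 0) (nat_lit 19582264582) (nat_lit 1216) (nat_lit 11802140024) (nat_lit 208) (nat_lit 5) (nat_lit 207) (nat_lit 5) (nat_lit 223) (nat_lit 5) (nat_lit 315) (nat_lit 311) (nat_lit 154)))))) (XT.nd (nat_lit 546) (nat_lit 3420) (nat_lit 0) (XT.nd (nat_lit 234) (nat_lit 1064) (nat_lit 0) (XT.nd (nat_lit 78) (nat_lit 0) (nat_lit 76) (XT.lf (nat_lit 76) (nat_lit 11403541440) (nat_lit 0) (nat_lit 35114812290) (nat_lit 1216) (nat_lit 9249010083) (nat_lit 209) (nat_lit 5) (nat_lit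 208) (nat_lit 5) (nat_lit 224) (nat_lit 5) (nat_lit 316) (nat_lit 311) (nat_lit 153)) (XT.nd (nat_lit 78) (nat_lit 0) (nat_lit 0) (XT.lf (nat_lit 0) (nat_lit 51247133000) (nat_lit 1140) (nat_lit 499740531) (nat_lit 1216) (nat_lit 5481116167) (nat_lit 209) (nat_lit 5) (nat_lit 224) (nat_lit 5) (nat_lit 225) (nat_lit 5) (nat_lit 317) (nat_lit 311) (nat_lit 152)) (XT.lf (nat_lit 76) (nat_lit 46101176706) (nat_lit 0) (nat_lit 10906603158) (nat_lit 1216) (nat_lit 1730006366) (nat_lit 210) (nat_lit 5) (nat_lit 209) (nat_lit 5) (nat_lit 225) (nat_lit 5) (nat_lit 318) (nat_lit 311) (nat_lit 151)))) (XT.nd (nat_lit 156) (nat_lit 0) (nat_lit 76) (XT.nd (nat_lit 78) (nat_lit 0) (nat_lit 76) (XT.lf (nat_lit 0) (nat_lit 3334332162) (nat_lit 1216) (nat_lit 25240815592) (nat_lit 1292) (nat_lit 31727510114) (nat_lit 194) (nat_lit 5) (nat_lit 210) (nat_lit 5) (nat_lit 211) (nat_lit 5) (nat_lit 319) (nat_lit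 311) (nat_lit 150)) (XT.lf (nat_lit 0) (nat_lit 9226163911) (nat_lit 1216) (nat_lit 38271203854) (nat_lit 1292) (nat_lit 14429591742) (nat_lit 195) (nat_lit 5) (nat_lit 211) (nat_lit 5) (nat_lit 212) (nat_lit 5) (nat_lit 320) (nat_lit 311) (nat_lit 149))) (XT.nd (nat_lit 78) (nat_lit 0) (nat_lit 76) (XT.lf (nat_lit 76) (nat_lit 11838367897) (nat_lit 0) (nat_lit 4236929690) (nat_lit 1292) (nat_lit 47537299185) (nat_lit 196) (nat_lit 5) (nat_lit 195) (nat_lit 5) (nat_lit 212) (nat_lit 5) (nat_lit 321) (nat_lit 311) (nat_lit 148)) (XT.lf (nat_lit 0) (nat_lit 24058838156) (nat_lit 1216) (nat_lit 518933694) (nat_lit 76) (nat_lit 40780987311) (nat_lit 196) (nat_lit 5) (nat_lit 212) (nat_lit 5) (nat_lit 197) (nat_lit 5) (nat_lit 322) (nat_lit 311) (nat_lit 147))))) (XT.nd (nat_lit 234) (nat_lit 1672) (nat_lit 0) (XT.nd (nat_lit 78) (nat_lit 1140) (nat_lit 0) (XT.lf (nat_lit 0) (nat_lit 33209529627)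 (nat_lit 836) (nat_lit 13065468627) (nat_lit 76) (nat_lit 20894193881) (nat_lit 186) (nat_lit 5) (nat_lit 197) (nat_lit 5) (nat_lit 187) (nat_lit 5) (nat_lit 323) (nat_lit 311) (nat_lit 146)) (XT.nd (nat_lit 78) (nat_lit 532) (nat_lit 0) (XT.lf (nat_lit 0) (nat_lit 42987557378) (nat_lit 608) (nat_lit 495214048) (nat_lit 684) (nat_lit 25567426461) (nat_lit 178) (nat_lit 5) (nat_lit 186) (nat_lit 5) (nat_lit 187) (nat_lit 5) (nat_lit 324) (nat_lit 311) (nat_lit 145)) (XT.lf (nat_lit 0) (nat_lit 31244561135) (nat_lit 532) (nat_lit 23916986471) (nat_lit 608) (nat_lit 15836951678) (nat_lit 171) (nat_lit 5) (nat_lit 178) (nat_lit 5) (nat_lit 179) (nat_lit 5) (nat_lit 325) (nat_lit 311) (nat_lit 144)))) (XT.nd (nat_lit 156) (nat_lit 532) (nat_lit 0) (XT.nd (nat_lit 78) (nat_lit 608) (nat_lit 0) (XT.lf (nat_lit 0) (nat_lit 19057786775) (nat_lit 532) (nat_lit 49054563606) (nat_lit 608) (nat_lit 4911224189)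 (nat_lit 164) (nat_lit 5) (nat_lit 171) (nat_lit 5) (nat_lit 172) (nat_lit 5) (nat_lit 326) (nat_lit 311) (nat_lit 143)) (XT.lf (nat_lit 0) (nat_lit 6316418209) (nat_lit 532) (nat_lit 830248191) (nat_lit 608) (nat_lit 67979929533) (nat_lit 156) (nat_lit 5) (nat_lit 163) (nat_lit 5) (nat_lit 164) (nat_lit 5) (nat_lit 327) (nat_lit 311) (nat_lit 142))) (XT.nd (nat_lit 78) (nat_lit 532) (nat_lit 0) (XT.lf (nat_lit 0) (nat_lit 20745170678) (nat_lit 608) (nat_lit 7113002697) (nat_lit 76) (nat_lit 49443958766) (nat_lit 156) (nat_lit 5) (nat_lit 164) (nat_lit 5) (nat_lit 157) (nat_lit 5) (nat_lit 328) (nat_lit 311) (nat_lit 141)) (XT.lf (nat_lit 0) (nat_lit 35819008971) (nat_lit 608) (nat_lit 20985670887) (nat_lit 76) (nat_lit 22757904256) (nat_lit 149) (nat_lit 5) (nat_lit 157) (nat_lit 5) (nat_lit 150) (nat_lit 5) (nat_lit 329) (nat_lit 311) (nat_lit 140))))))) (XT.nd (nat_lit 1092) (nat_lit 1900)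 (nat_lit 0) (XT.nd (nat_lit 546) (nat_lit 2128) (nat_lit 0) (XT.nd (nat_lit 234) (nat_lit 1216) (nat_lit 0) (XT.nd (nat_lit 78) (nat_lit 912) (nat_lit 0) (XT.lf (nat_lit 0) (nat_lit 46387938421) (nat_lit 456) (nat_lit 6058313248) (nat_lit 532) (nat_lit 29465816802) (nat_lit 143) (nat_lit 5) (nat_lit 149) (nat_lit 5) (nat_lit 150) (nat_lit 5) (nat_lit 330) (nat_lit 311) (nat_lit 139)) (XT.nd (nat_lit 78) (nat_lit 456) (nat_lit 0) (XT.lf (nat_lit 0) (nat_lit 33390233438) (nat_lit 456) (nat_lit 37506442381) (nat_lit 532) (nat_lit 13452597753) (nat_lit 137) (nat_lit 5) (nat_lit 143) (nat_lit 5) (nat_lit 144) (nat_lit 5) (nat_lit 331) (nat_lit 311) (nat_lit 138)) (XT.lf (nat_lit 0) (nat_lit 4069555015) (nat_lit 456) (nat_lit 67157456837) (nat_lit 76) (nat_lit 15657142873) (nat_lit 131) (nat_lit 5) (nat_lit 137) (nat_lit 5) (nat_lit 132) (nat_lit 5) (nat_lit 332) (nat_lit 311) (nat_lit 137))))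 (XT.nd (nat_lit 156) (nat_lit 760) (nat_lit 0) (XT.nd (nat_lit 78) (nat_lit 0) (nat_lit 0) (XT.lf (nat_lit 0) (nat_lit 5059333502) (nat_lit 456) (nat_lit 18088617726) (nat_lit 532) (nat_lit 66365083174) (nat_lit 125) (nat_lit 5) (nat_lit 131) (nat_lit 5) (nat_lit 132) (nat_lit 5) (nat_lit 333) (nat_lit 311) (nat_lit 136)) (XT.lf (nat_lit 0) (nat_lit 44239742704) (nat_lit 532) (nat_lit 10332989300) (nat_lit 76) (nat_lit 37668842723) (nat_lit 125) (nat_lit 5) (nat_lit 132) (nat_lit 5) (nat_lit 126) (nat_lit 5) (nat_lit 334) (nat_lit 311) (nat_lit 135))) (XT.nd (nat_lit 78) (nat_lit 380) (nat_lit 0) (XT.lf (nat_lit 0) (nat_lit 67241164410) (nat_lit 456) (nat_lit 26445542899) (nat_lit 76) (nat_lit 1394184423) (nat_lit 120) (nat_lit 5) (nat_lit 126) (nat_lit 5) (nat_lit 121) (nat_lit 5) (nat_lit 335) (nat_lit 311) (nat_lit 134)) (XT.lf (nat_lit 0) (nat_lit 54213739115) (nat_lit 380) (nat_lit 38357228087)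 (nat_lit 456) (nat_lit 5455858925) (nat_lit 115) (nat_lit 5) (nat_lit 120) (nat_lit 5) (nat_lit 121) (nat_lit 5) (nat_lit 336) (nat_lit 311) (nat_lit 133))))) (XT.nd (nat_lit 234) (nat_lit 988) (nat_lit 0) (XT.nd (nat_lit 78) (nat_lit 684) (nat_lit 0) (XT.lf (nat_lit 0) (nat_lit 18541020095) (nat_lit 456) (nat_lit 62364427367) (nat_lit 76) (nat_lit 20184026641) (nat_lit 109) (nat_lit 5) (nat_lit 115) (nat_lit 5) (nat_lit 110) (nat_lit 5) (nat_lit 337) (nat_lit 311) (nat_lit 132)) (XT.nd (nat_lit 78) (nat_lit 304) (nat_lit 0) (XT.lf (nat_lit 0) (nat_lit 21995131181) (nat_lit 380) (nat_lit 22683884969) (nat_lit 456) (nat_lit 59592995257) (nat_lit 104) (nat_lit 5) (nat_lit 109) (nat_lit 5) (nat_lit 110) (nat_lit 5) (nat_lit 338) (nat_lit 311) (nat_lit 131)) (XT.lf (nat_lit 0) (nat_lit 3981929139) (nat_lit 304) (nat_lit 69197225687) (nat_lit 380) (nat_lit 34402864172) (nat_lit 100) (nat_lit 5)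 (nat_lit 104) (nat_lit 5) (nat_lit 105) (nat_lit 5) (nat_lit 339) (nat_lit 311) (nat_lit 130)))) (XT.nd (nat_lit 156) (nat_lit 608) (nat_lit 0) (XT.nd (nat_lit 78) (nat_lit 380) (nat_lit 0) (XT.lf (nat_lit 0) (nat_lit 96038242533) (nat_lit 304) (nat_lit 8138799123) (nat_lit 380) (nat_lit 6848303748) (nat_lit 100) (nat_lit 5) (nat_lit 104) (nat_lit 5) (nat_lit 105) (nat_lit 5) (nat_lit 340) (nat_lit 311) (nat_lit 129)) (XT.lf (nat_lit 0) (nat_lit 22963009791) (nat_lit 380) (nat_lit 35767050675) (nat_lit 76) (nat_lit 55865110846) (nat_lit 95) (nat_lit 5) (nat_lit 100) (nat_lit 5) (nat_lit 96) (nat_lit 5) (nat_lit 341) (nat_lit 311) (nat_lit 128))) (XT.nd (nat_lit 78) (nat_lit 304) (nat_lit 0) (XT.lf (nat_lit 0) (nat_lit 54993411336) (nat_lit 380) (nat_lit 58037010261) (nat_lit 76) (nat_lit 5284928688) (nat_lit 91) (nat_lit 5) (nat_lit 96) (nat_lit 5) (nat_lit 92) (nat_lit 5) (nat_lit 342) (nat_lit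 311) (nat_lit 127)) (XT.lf (nat_lit 0) (nat_lit 39842783220) (nat_lit 304) (nat_lit 50129309731) (nat_lit 380) (nat_lit 32209043018) (nat_lit 87) (nat_lit 5) (nat_lit 91) (nat_lit 5) (nat_lit 92) (nat_lit 5) (nat_lit 343) (nat_lit 311) (nat_lit 126)))))) (XT.nd (nat_lit 546) (nat_lit 532) (nat_lit 0) (XT.nd (nat_lit 234) (nat_lit 760) (nat_lit 0) (XT.nd (nat_lit 78) (nat_lit 304) (nat_lit 0) (XT.lf (nat_lit 0) (nat_lit 1386291224) (nat_lit 304) (nat_lit 108431804227) (nat_lit 76) (nat_lit 16393910699) (nat_lit 83) (nat_lit 5) (nat_lit 87) (nat_lit 5) (nat_lit 84) (nat_lit 5) (nat_lit 344) (nat_lit 311) (nat_lit 125)) (XT.nd (nat_lit 78) (nat_lit 304) (nat_lit 0) (XT.lf (nat_lit 0) (nat_lit 37362611640) (nat_lit 304) (nat_lit 6634305215) (nat_lit 76) (nat_lit 86396915883) (nat_lit 83) (nat_lit 5) (nat_lit 87) (nat_lit 5) (nat_lit 84) (nat_lit 5) (nat_lit 345) (nat_lit 311) (nat_lit 124)) (XT.lf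 (nat_lit 0) (nat_lit 76370999744) (nat_lit 380) (nat_lit 32759278892) (nat_lit 76) (nat_lit 25617474941) (nat_lit 79) (nat_lit 5) (nat_lit 84) (nat_lit 5) (nat_lit 80) (nat_lit 5) (nat_lit 346) (nat_lit 311) (nat_lit 123)))) (XT.nd (nat_lit 156) (nat_lit 228) (nat_lit 0) (XT.nd (nat_lit 78) (nat_lit 304) (nat_lit 0) (XT.lf (nat_lit 0) (nat_lit 77938721561) (nat_lit 228) (nat_lit 40652582596) (nat_lit 304) (nat_lit 20690221844) (nat_lit 76) (nat_lit 5) (nat_lit 79) (nat_lit 5) (nat_lit 80) (nat_lit 5) (nat_lit 347) (nat_lit 311) (nat_lit 122)) (XT.lf (nat_lit 0) (nat_lit 19658972092) (nat_lit 304) (nat_lit 92675710575) (nat_lit 76) (nat_lit 31667457092) (nat_lit 72) (nat_lit 5) (nat_lit 76) (nat_lit 5) (nat_lit 73) (nat_lit 5) (nat_lit 348) (nat_lit 311) (nat_lit 121))) (XT.nd (nat_lit 78) (nat_lit 0) (nat_lit 0) (XT.lf (nat_lit 0) (nat_lit 21769494751) (nat_lit 228) (nat_lit 41088801865)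 (nat_lit 304) (nat_lit 86056525081) (nat_lit 69) (nat_lit 5) (nat_lit 72) (nat_lit 5) (nat_lit 73) (nat_lit 5) (nat_lit 349) (nat_lit 311) (nat_lit 120)) (XT.lf (nat_lit 0) (nat_lit 109504497206) (nat_lit 304) (nat_lit 10505545603) (nat_lit 76) (nat_lit 34024488006) (nat_lit 69) (nat_lit 5) (nat_lit 73) (nat_lit 5) (nat_lit 70) (nat_lit 5) (nat_lit 350) (nat_lit 311) (nat_lit 119))))) (XT.nd (nat_lit 37752) (nat_lit 0) (nat_lit 10944) (XT.nd (nat_lit 37596) (nat_lit 0) (nat_lit 10868) (XT.nd (nat_lit 78) (nat_lit 228) (nat_lit 0) (XT.lf (nat_lit 0) (nat_lit 613505421) (nat_lit 304) (nat_lit 45600441251) (nat_lit 76) (nat_lit 113150867565) (nat_lit 65) (nat_lit 5) (nat_lit 69) (nat_lit 5) (nat_lit 66) (nat_lit 5) (nat_lit 351) (nat_lit 311) (nat_lit 118)) (XT.lf (nat_lit 0) (nat_lit 48299294650) (nat_lit 304) (nat_lit 84604591053) (nat_lit 76) (nat_lit 32008319037) (nat_lit 62) (nat_lit 5)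 (nat_lit 66) (nat_lit 5) (nat_lit 63) (nat_lit 5) (nat_lit 352) (nat_lit 311) (nat_lit 117))) (XT.nd (nat_lit 78) (nat_lit 0) (nat_lit 0) (XT.lf (nat_lit 0) (nat_lit 8918476537) (nat_lit 0) (nat_lit 8918476537) (nat_lit 1140) (nat_lit 7996024077) (nat_lit 205) (nat_lit 5) (nat_lit 205) (nat_lit 3) (nat_lit 220) (nat_lit 3) (nat_lit 312) (nat_lit 312) (nat_lit 156)) (XT.lf (nat_lit 76) (nat_lit 5568661379) (nat_lit 0) (nat_lit 31300984513) (nat_lit 1216) (nat_lit 16078800516) (nat_lit 206) (nat_lit 5) (nat_lit 205) (nat_lit 5) (nat_lit 221) (nat_lit 5) (nat_lit 313) (nat_lit 312) (nat_lit 155)))) (XT.nd (nat_lit 156) (nat_lit 0) (nat_lit 76) (XT.nd (nat_lit 78) (nat_lit 0) (nat_lit 0) (XT.lf (nat_lit 0) (nat_lit 38733881462) (nat_lit 1140) (nat_lit 6905856157) (nat_lit 1216) (nat_lit 8637066792) (nat_lit 206) (nat_lit 5) (nat_lit 221) (nat_lit 5) (nat_lit 222) (nat_lit 5) (nat_lit 314) (nat_lit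 312) (nat_lit 154)) (XT.lf (nat_lit 76) (nat_lit 35976500423) (nat_lit 0) (nat_lit 5374237443) (nat_lit 1216) (nat_lit 14301062616) (nat_lit 207) (nat_lit 5) (nat_lit 206) (nat_lit 5) (nat_lit 222) (nat_lit 5) (nat_lit 315) (nat_lit 312) (nat_lit 153))) (XT.nd (nat_lit 78) (nat_lit 0) (nat_lit 76) (XT.lf (nat_lit 76) (nat_lit 24168626662) (nat_lit 0) (nat_lit 20586436894) (nat_lit 1216) (nat_lit 12320786327) (nat_lit 208) (nat_lit 5) (nat_lit 207) (nat_lit 5) (nat_lit 223) (nat_lit 5) (nat_lit 316) (nat_lit 312) (nat_lit 152)) (XT.lf (nat_lit 76) (nat_lit 12019024012) (nat_lit 0) (nat_lit 36891463005) (nat_lit 1216) (nat_lit 9643190505) (nat_lit 209) (nat_lit 5) (nat_lit 208) (nat_lit 5) (nat_lit 224) (nat_lit 5) (nat_lit 317) (nat_lit 312) (nat_lit 151))))))))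
noncomputable def xc118 : XT := (XT.nd (nat_lit 2184) (nat_lit 1368) (nat_lit 0) (XT.nd (nat_lit 1092) (nat_lit 4560) (nat_lit 0) (XT.nd (nat_lit 546) (nat_lit 3268) (nat_lit 0) (XT.nd (nat_lit 234) (nat_lit 608) (nat_lit 0) (XT.nd (nat_lit 78) (nat_lit 1140) (nat_lit 0) (XT.lf (nat_lit 0) (nat_lit 53872360698) (nat_lit 1140) (nat_lit 479431385) (nat_lit 1216) (nat_lit 5735646195) (nat_lit 209) (nat_lit 5) (nat_lit 224) (nat_lit 5) (nat_lit 225) (nat_lit 5) (nat_lit 318) (nat_lit 312) (nat_lit 150)) (XT.nd (nat_lit 78) (nat_lit 1140) (nat_lit 0) (XT.lf (nat_lit 76) (nat_lit 48450233309) (nat_lit 0) (nat_lit 11468235671) (nat_lit 1216) (nat_lit 1754335869) (nat_lit 210) (nat_lit 5) (nat_lit 209) (nat_lit 5) (nat_lit 225) (nat_lit 5) (nat_lit 319) (nat_lit 312) (nat_lit 149)) (XT.lf (nat_lit 0) (nat_lit 3559386936) (nat_lit 1216) (nat_lit 26456932420) (nat_lit 1292) (nat_lit 33299664220) (nat_lit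 194) (nat_lit 5) (nat_lit 210) (nat_lit 5) (nat_lit 211) (nat_lit 5) (nat_lit 320) (nat_lit 312) (nat_lit 148)))) (XT.nd (nat_lit 156) (nat_lit 684) (nat_lit 0) (XT.nd (nat_lit 78) (nat_lit 0) (nat_lit 0) (XT.lf (nat_lit 0) (nat_lit 9743351654) (nat_lit 1216) (nat_lit 40138313097) (nat_lit 1292) (nat_lit 15139912020) (nat_lit 195) (nat_lit 5) (nat_lit 211) (nat_lit 5) (nat_lit 212) (nat_lit 5) (nat_lit 321) (nat_lit 312) (nat_lit 147)) (XT.lf (nat_lit 76) (nat_lit 12475405734) (nat_lit 0) (nat_lit 4457309065) (nat_lit 1292) (nat_lit 49858850504) (nat_lit 196) (nat_lit 5) (nat_lit 195) (nat_lit 5) (nat_lit 212) (nat_lit 5) (nat_lit 322) (nat_lit 312) (nat_lit 146))) (XT.nd (nat_lit 78) (nat_lit 760) (nat_lit 0) (XT.lf (nat_lit 0) (nat_lit 25312799406) (nat_lit 1216) (nat_lit 500249166) (nat_lit 76) (nat_lit 42812068692) (nat_lit 196) (nat_lit 5) (nat_lit 212) (nat_lit 5) (nat_lit 197) (nat_lit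 5) (nat_lit 323) (nat_lit 312) (nat_lit 145)) (XT.lf (nat_lit 0) (nat_lit 34918958327) (nat_lit 836) (nat_lit 13673818709) (nat_lit 76) (nat_lit 21933359212) (nat_lit 186) (nat_lit 5) (nat_lit 197) (nat_lit 5) (nat_lit 187) (nat_lit 5) (nat_lit 324) (nat_lit 312) (nat_lit 144))))) (XT.nd (nat_lit 234) (nat_lit 1596) (nat_lit 0) (XT.nd (nat_lit 78) (nat_lit 1064) (nat_lit 0) (XT.lf (nat_lit 0) (nat_lit 45180570877) (nat_lit 608) (nat_lit 523379732) (nat_lit 684) (nat_lit 26797301261) (nat_lit 178) (nat_lit 5) (nat_lit 186) (nat_lit 5) (nat_lit 187) (nat_lit 5) (nat_lit 325) (nat_lit 312) (nat_lit 143)) (XT.nd (nat_lit 78) (nat_lit 532) (nat_lit 0) (XT.lf (nat_lit 0) (nat_lit 32850619986) (nat_lit 532) (nat_lit 25114195740) (nat_lit 608) (nat_lit 16582210235) (nat_lit 171) (nat_lit 5) (nat_lit 178) (nat_lit 5) (nat_lit 179) (nat_lit 5) (nat_lit 326) (nat_lit 312) (nat_lit 142)) (XT.lf (nat_lit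 0) (nat_lit 20054621411) (nat_lit 532) (nat_lit 51506795267) (nat_lit 608) (nat_lit 5111992619) (nat_lit 164) (nat_lit 5) (nat_lit 171) (nat_lit 5) (nat_lit 172) (nat_lit 5) (nat_lit 327) (nat_lit 312) (nat_lit 141)))) (XT.nd (nat_lit 156) (nat_lit 988) (nat_lit 0) (XT.nd (nat_lit 78) (nat_lit 0) (nat_lit 0) (XT.lf (nat_lit 0) (nat_lit 6675811976) (nat_lit 532) (nat_lit 870433937) (nat_lit 608) (nat_lit 71335374948) (nat_lit 156) (nat_lit 5) (nat_lit 163) (nat_lit 5) (nat_lit 164) (nat_lit 5) (nat_lit 328) (nat_lit 312) (nat_lit 140)) (XT.lf (nat_lit 0) (nat_lit 21822675826) (nat_lit 608) (nat_lit 7425924287) (nat_lit 76) (nat_lit 51917395539) (nat_lit 156) (nat_lit 5) (nat_lit 164) (nat_lit 5) (nat_lit 157) (nat_lit 5) (nat_lit 329) (nat_lit 312) (nat_lit 139))) (XT.nd (nat_lit 78) (nat_lit 456) (nat_lit 0) (XT.lf (nat_lit 0) (nat_lit 37648715160) (nat_lit 608) (nat_lit 21992281493) (nat_lit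 76) (nat_lit 23898519996) (nat_lit 149) (nat_lit 5) (nat_lit 157) (nat_lit 5) (nat_lit 150) (nat_lit 5) (nat_lit 330) (nat_lit 312) (nat_lit 138)) (XT.lf (nat_lit 0) (nat_lit 48748785069) (nat_lit 456) (nat_lit 6357087853) (nat_lit 532) (nat_lit 30900647334) (nat_lit 143) (nat_lit 5) (nat_lit 149) (nat_lit 5) (nat_lit 150) (nat_lit 5) (nat_lit 331) (nat_lit 312) (nat_lit 137)))))) (XT.nd (nat_lit 546) (nat_lit 1976) (nat_lit 0) (XT.nd (nat_lit 234) (nat_lit 1216) (nat_lit 0) (XT.nd (nat_lit 78) (nat_lit 912) (nat_lit 0) (XT.lf (nat_lit 0) (nat_lit 35101086652) (nat_lit 456) (nat_lit 39376390336) (nat_lit 532) (nat_lit 14088150405) (nat_lit 137) (nat_lit 5) (nat_lit 143) (nat_lit 5) (nat_lit 144) (nat_lit 5) (nat_lit 332) (nat_lit 312) (nat_lit 136)) (XT.nd (nat_lit 78) (nat_lit 456) (nat_lit 0) (XT.lf (nat_lit 0) (nat_lit 4308104858) (nat_lit 456) (nat_lit 70473418801) (nat_lit 76) (nat_lit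 16445758126) (nat_lit 131) (nat_lit 5) (nat_lit 137) (nat_lit 5) (nat_lit 132) (nat_lit 5) (nat_lit 333) (nat_lit 312) (nat_lit 135)) (XT.lf (nat_lit 0) (nat_lit 5353009687) (nat_lit 456) (nat_lit 18986132419) (nat_lit 532) (nat_lit 69648503061) (nat_lit 125) (nat_lit 5) (nat_lit 131) (nat_lit 5) (nat_lit 132) (nat_lit 5) (nat_lit 334) (nat_lit 312) (nat_lit 134)))) (XT.nd (nat_lit 156) (nat_lit 836) (nat_lit 0) (XT.nd (nat_lit 78) (nat_lit 380) (nat_lit 0) (XT.lf (nat_lit 0) (nat_lit 46483977268) (nat_lit 532) (nat_lit 10809939733) (nat_lit 76) (nat_lit 39558743177) (nat_lit 125) (nat_lit 5) (nat_lit 132) (nat_lit 5) (nat_lit 126) (nat_lit 5) (nat_lit 335) (nat_lit 312) (nat_lit 133)) (XT.lf (nat_lit 0) (nat_lit 70634377027) (nat_lit 456) (nat_lit 27728373759) (nat_lit 76) (nat_lit 1471226269) (nat_lit 120) (nat_lit 5) (nat_lit 126) (nat_lit 5) (nat_lit 121) (nat_lit 5) (nat_lit 336) (nat_lit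 312) (nat_lit 132))) (XT.nd (nat_lit 78) (nat_lit 456) (nat_lit 0) (XT.lf (nat_lit 0) (nat_lit 56962741636) (nat_lit 380) (nat_lit 40266813093) (nat_lit 456) (nat_lit 5697688071) (nat_lit 115) (nat_lit 5) (nat_lit 120) (nat_lit 5) (nat_lit 121) (nat_lit 5) (nat_lit 337) (nat_lit 312) (nat_lit 131)) (XT.lf (nat_lit 0) (nat_lit 19497430775) (nat_lit 456) (nat_lit 65444004622) (nat_lit 76) (nat_lit 21201609931) (nat_lit 109) (nat_lit 5) (nat_lit 115) (nat_lit 5) (nat_lit 110) (nat_lit 5) (nat_lit 338) (nat_lit 312) (nat_lit 130))))) (XT.nd (nat_lit 234) (nat_lit 1292) (nat_lit 0) (XT.nd (nat_lit 78) (nat_lit 304) (nat_lit 0) (XT.lf (nat_lit 0) (nat_lit 23132424129) (nat_lit 380) (nat_lit 23808865248) (nat_lit 456) (nat_lit 62543452272) (nat_lit 104) (nat_lit 5) (nat_lit 109) (nat_lit 5) (nat_lit 110) (nat_lit 5) (nat_lit 339) (nat_lit 312) (nat_lit 129)) (XT.nd (nat_lit 78) (nat_lit 0) (nat_lit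 0) (XT.lf (nat_lit 0) (nat_lit 4218245362) (nat_lit 304) (nat_lit 72647283069) (nat_lit 380) (nat_lit 36094749367) (nat_lit 100) (nat_lit 5) (nat_lit 104) (nat_lit 5) (nat_lit 105) (nat_lit 5) (nat_lit 340) (nat_lit 312) (nat_lit 128)) (XT.lf (nat_lit 0) (nat_lit 100875602056) (nat_lit 304) (nat_lit 8536402029) (nat_lit 380) (nat_lit 7163806541) (nat_lit 100) (nat_lit 5) (nat_lit 104) (nat_lit 5) (nat_lit 105) (nat_lit 5) (nat_lit 341) (nat_lit 312) (nat_lit 127)))) (XT.nd (nat_lit 156) (nat_lit 608) (nat_lit 0) (XT.nd (nat_lit 78) (nat_lit 304) (nat_lit 0) (XT.lf (nat_lit 0) (nat_lit 24136718276) (nat_lit 380) (nat_lit 37519754049) (nat_lit 76) (nat_lit 58667673487) (nat_lit 95) (nat_lit 5) (nat_lit 100) (nat_lit 5) (nat_lit 96) (nat_lit 5) (nat_lit 342) (nat_lit 312) (nat_lit 126)) (XT.lf (nat_lit 0) (nat_lit 57767851388) (nat_lit 380) (nat_lit 60903572456) (nat_lit 76) (nat_lit 5558934370)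 (nat_lit 91) (nat_lit 5) (nat_lit 96) (nat_lit 5) (nat_lit 92) (nat_lit 5) (nat_lit 343) (nat_lit 312) (nat_lit 125))) (XT.nd (nat_lit 78) (nat_lit 304) (nat_lit 0) (XT.lf (nat_lit 0) (nat_lit 41869199166) (nat_lit 304) (nat_lit 52625417908) (nat_lit 380) (nat_lit 33794842395) (nat_lit 87) (nat_lit 5) (nat_lit 91) (nat_lit 5) (nat_lit 92) (nat_lit 5) (nat_lit 344) (nat_lit 312) (nat_lit 124)) (XT.lf (nat_lit 0) (nat_lit 1479051409) (nat_lit 304) (nat_lit 113819003474) (nat_lit 76) (nat_lit 17223833675) (nat_lit 83) (nat_lit 5) (nat_lit 87) (nat_lit 5) (nat_lit 84) (nat_lit 5) (nat_lit 345) (nat_lit 312) (nat_lit 123))))))) (XT.nd (nat_lit 38610) (nat_lit 0) (nat_lit 5016) (XT.nd (nat_lit 38064) (nat_lit 0) (nat_lit 10640) (XT.nd (nat_lit 234) (nat_lit 836) (nat_lit 0) (XT.nd (nat_lit 78) (nat_lit 532) (nat_lit 0) (XT.lf (nat_lit 0) (nat_lit 39253071388) (nat_lit 304) (nat_lit 6933267176)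 (nat_lit 76) (nat_lit 90726502098) (nat_lit 83) (nat_lit 5) (nat_lit 87) (nat_lit 5) (nat_lit 84) (nat_lit 5) (nat_lit 346) (nat_lit 312) (nat_lit 122)) (XT.nd (nat_lit 78) (nat_lit 228) (nat_lit 0) (XT.lf (nat_lit 0) (nat_lit 80211219883) (nat_lit 380) (nat_lit 34364866534) (nat_lit 76) (nat_lit 26908391556) (nat_lit 79) (nat_lit 5) (nat_lit 84) (nat_lit 5) (nat_lit 80) (nat_lit 5) (nat_lit 347) (nat_lit 312) (nat_lit 121)) (XT.lf (nat_lit 0) (nat_lit 81867105882) (nat_lit 228) (nat_lit 42674704022) (nat_lit 304) (nat_lit 21703151630) (nat_lit 76) (nat_lit 5) (nat_lit 79) (nat_lit 5) (nat_lit 80) (nat_lit 5) (nat_lit 348) (nat_lit 312) (nat_lit 120)))) (XT.nd (nat_lit 156) (nat_lit 304) (nat_lit 0) (XT.nd (nat_lit 78) (nat_lit 228) (nat_lit 0) (XT.lf (nat_lit 0) (nat_lit 20662472027) (nat_lit 304) (nat_lit 97278004412) (nat_lit 76) (nat_lit 33261142162) (nat_lit 72) (nat_lit 5) (nat_lit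 76) (nat_lit 5) (nat_lit 73) (nat_lit 5) (nat_lit 349) (nat_lit 312) (nat_lit 119)) (XT.lf (nat_lit 0) (nat_lit 22888558478) (nat_lit 228) (nat_lit 43132519705) (nat_lit 304) (nat_lit 90338877544) (nat_lit 69) (nat_lit 5) (nat_lit 72) (nat_lit 5) (nat_lit 73) (nat_lit 5) (nat_lit 350) (nat_lit 312) (nat_lit 118))) (XT.nd (nat_lit 78) (nat_lit 304) (nat_lit 0) (XT.lf (nat_lit 0) (nat_lit 114998740928) (nat_lit 304) (nat_lit 11001210526) (nat_lit 76) (nat_lit 35735724809) (nat_lit 69) (nat_lit 5) (nat_lit 73) (nat_lit 5) (nat_lit 70) (nat_lit 5) (nat_lit 351) (nat_lit 312) (nat_lit 117)) (XT.lf (nat_lit 0) (nat_lit 662762292) (nat_lit 304) (nat_lit 47851320245) (nat_lit 76) (nat_lit 118818405230) (nat_lit 65) (nat_lit 5) (nat_lit 69) (nat_lit 5) (nat_lit 66) (nat_lit 5) (nat_lit 352) (nat_lit 312) (nat_lit 116))))) (XT.nd (nat_lit 234) (nat_lit 0) (nat_lit 76) (XT.nd (nat_lit 78) (nat_lit 0)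 (nat_lit 0) (XT.lf (nat_lit 0) (nat_lit 9383427332) (nat_lit 0) (nat_lit 9383427332) (nat_lit 1140) (nat_lit 8356590359) (nat_lit 205) (nat_lit 5) (nat_lit 205) (nat_lit 3) (nat_lit 220) (nat_lit 3) (nat_lit 313) (nat_lit 313) (nat_lit 154)) (XT.nd (nat_lit 78) (nat_lit 0) (nat_lit 76) (XT.lf (nat_lit 76) (nat_lit 5886707153) (nat_lit 0) (nat_lit 32898937126) (nat_lit 1216) (nat_lit 16807973982) (nat_lit 206) (nat_lit 5) (nat_lit 205) (nat_lit 5) (nat_lit 221) (nat_lit 5) (nat_lit 314) (nat_lit 313) (nat_lit 153)) (XT.lf (nat_lit 0) (nat_lit 40739337254) (nat_lit 1140) (nat_lit 7210978051) (nat_lit 1216) (nat_lit 9038195062) (nat_lit 206) (nat_lit 5) (nat_lit 221) (nat_lit 5) (nat_lit 222) (nat_lit 5) (nat_lit 315) (nat_lit 313) (nat_lit 152)))) (XT.nd (nat_lit 156) (nat_lit 0) (nat_lit 152) (XT.nd (nat_lit 78) (nat_lit 0) (nat_lit 76) (XT.lf (nat_lit 76) (nat_lit 37814344867) (nat_lit 0)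 (nat_lit 5669792323) (nat_lit 1216) (nat_lit 14948209431) (nat_lit 207) (nat_lit 5) (nat_lit 206) (nat_lit 5) (nat_lit 222) (nat_lit 5) (nat_lit 316) (nat_lit 313) (nat_lit 151)) (XT.lf (nat_lit 76) (nat_lit 25417194868) (nat_lit 0) (nat_lit 21638488067) (nat_lit 1216) (nat_lit 12872008684) (nat_lit 208) (nat_lit 5) (nat_lit 207) (nat_lit 5) (nat_lit 223) (nat_lit 5) (nat_lit 317) (nat_lit 313) (nat_lit 150))) (XT.nd (nat_lit 78) (nat_lit 0) (nat_lit 76) (XT.lf (nat_lit 76) (nat_lit 12661068637) (nat_lit 0) (nat_lit 38755002233) (nat_lit 1216) (nat_lit 10063427053) (nat_lit 209) (nat_lit 5) (nat_lit 208) (nat_lit 5) (nat_lit 224) (nat_lit 5) (nat_lit 318) (nat_lit 313) (nat_lit 149)) (XT.lf (nat_lit 0) (nat_lit 56623004627) (nat_lit 1140) (nat_lit 462317990) (nat_lit 1216) (nat_lit 6004718046) (nat_lit 209) (nat_lit 5) (nat_lit 224) (nat_lit 5) (nat_lit 225) (nat_lit 5) (nat_lit 319) (nat_lit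 313) (nat_lit 148)))))) (XT.nd (nat_lit 546) (nat_lit 3572) (nat_lit 0) (XT.nd (nat_lit 234) (nat_lit 1216) (nat_lit 0) (XT.nd (nat_lit 78) (nat_lit 1140) (nat_lit 0) (XT.lf (nat_lit 76) (nat_lit 50912652247) (nat_lit 0) (nat_lit 12056434171) (nat_lit 1216) (nat_lit 1785661900) (nat_lit 210) (nat_lit 5) (nat_lit 209) (nat_lit 5) (nat_lit 225) (nat_lit 5) (nat_lit 320) (nat_lit 313) (nat_lit 147)) (XT.nd (nat_lit 78) (nat_lit 0) (nat_lit 76) (XT.lf (nat_lit 0) (nat_lit 3790270719) (nat_lit 1216) (nat_lit 27738124663) (nat_lit 1292) (nat_lit 34951748202) (nat_lit 194) (nat_lit 5) (nat_lit 210) (nat_lit 5) (nat_lit 211) (nat_lit 5) (nat_lit 321) (nat_lit 313) (nat_lit 146)) (XT.lf (nat_lit 0) (nat_lit 10281203634) (nat_lit 1216) (nat_lit 42103096372) (nat_lit 1292) (nat_lit 15886785798) (nat_lit 195) (nat_lit 5) (nat_lit 211) (nat_lit 5) (nat_lit 212) (nat_lit 5) (nat_lit 322) (nat_lit 313)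 (nat_lit 145)))) (XT.nd (nat_lit 156) (nat_lit 1292) (nat_lit 0) (XT.nd (nat_lit 78) (nat_lit 0) (nat_lit 76) (XT.lf (nat_lit 76) (nat_lit 13140100685) (nat_lit 0) (nat_lit 4687914101) (nat_lit 1292) (nat_lit 52301621927) (nat_lit 196) (nat_lit 5) (nat_lit 195) (nat_lit 5) (nat_lit 212) (nat_lit 5) (nat_lit 323) (nat_lit 313) (nat_lit 144)) (XT.lf (nat_lit 0) (nat_lit 26624715423) (nat_lit 1216) (nat_lit 484779799) (nat_lit 76) (nat_lit 44945444931) (nat_lit 196) (nat_lit 5) (nat_lit 212) (nat_lit 5) (nat_lit 197) (nat_lit 5) (nat_lit 324) (nat_lit 313) (nat_lit 143))) (XT.nd (nat_lit 78) (nat_lit 608) (nat_lit 0) (XT.lf (nat_lit 0) (nat_lit 36709307348) (nat_lit 836) (nat_lit 14316762842) (nat_lit 76) (nat_lit 23024998272) (nat_lit 186) (nat_lit 5) (nat_lit 197) (nat_lit 5) (nat_lit 187) (nat_lit 5) (nat_lit 325) (nat_lit 313) (nat_lit 142)) (XT.lf (nat_lit 0) (nat_lit 47479178224) (nat_lit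 608) (nat_lit 552637137) (nat_lit 684) (nat_lit 28093178547) (nat_lit 178) (nat_lit 5) (nat_lit 186) (nat_lit 5) (nat_lit 187) (nat_lit 5) (nat_lit 326) (nat_lit 313) (nat_lit 141))))) (XT.nd (nat_lit 312) (nat_lit 1900) (nat_lit 0) (XT.nd (nat_lit 156) (nat_lit 608) (nat_lit 0) (XT.nd (nat_lit 78) (nat_lit 532) (nat_lit 0) (XT.lf (nat_lit 0) (nat_lit 34532906808) (nat_lit 532) (nat_lit 26371139037) (nat_lit 608) (nat_lit 17369063127) (nat_lit 171) (nat_lit 5) (nat_lit 178) (nat_lit 5) (nat_lit 179) (nat_lit 5) (nat_lit 327) (nat_lit 313) (nat_lit 140)) (XT.lf (nat_lit 0) (nat_lit 21097212161) (nat_lit 532) (nat_lit 54081684674) (nat_lit 608) (nat_lit 5326963879) (nat_lit 164) (nat_lit 5) (nat_lit 171) (nat_lit 5) (nat_lit 172) (nat_lit 5) (nat_lit 328) (nat_lit 313) (nat_lit 139))) (XT.nd (nat_lit 78) (nat_lit 0) (nat_lit 0) (XT.lf (nat_lit 0) (nat_lit 7049124440) (nat_lit 532) (nat_lit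 912752311) (nat_lit 608) (nat_lit 74862641599) (nat_lit 156) (nat_lit 5) (nat_lit 163) (nat_lit 5) (nat_lit 164) (nat_lit 5) (nat_lit 329) (nat_lit 313) (nat_lit 138)) (XT.lf (nat_lit 0) (nat_lit 22950314484) (nat_lit 608) (nat_lit 7758464451) (nat_lit 76) (nat_lit 54514388974) (nat_lit 156) (nat_lit 5) (nat_lit 164) (nat_lit 5) (nat_lit 157) (nat_lit 5) (nat_lit 330) (nat_lit 313) (nat_lit 137)))) (XT.nd (nat_lit 156) (nat_lit 912) (nat_lit 0) (XT.nd (nat_lit 78) (nat_lit 456) (nat_lit 0) (XT.lf (nat_lit 0) (nat_lit 39566303518) (nat_lit 608) (nat_lit 23053189954) (nat_lit 76) (nat_lit 25095913595) (nat_lit 149) (nat_lit 5) (nat_lit 157) (nat_lit 5) (nat_lit 150) (nat_lit 5) (nat_lit 331) (nat_lit 313) (nat_lit 136)) (XT.lf (nat_lit 0) (nat_lit 51223820447) (nat_lit 456) (nat_lit 6671186184) (nat_lit 532) (nat_lit 32410795067) (nat_lit 143) (nat_lit 5) (nat_lit 149) (nat_lit 5) (nat_lit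 150) (nat_lit 5) (nat_lit 332) (nat_lit 313) (nat_lit 135))) (XT.nd (nat_lit 78) (nat_lit 456) (nat_lit 0) (XT.lf (nat_lit 0) (nat_lit 36893638981) (nat_lit 456) (nat_lit 41340335327) (nat_lit 532) (nat_lit 14758927779) (nat_lit 137) (nat_lit 5) (nat_lit 143) (nat_lit 5) (nat_lit 144) (nat_lit 5) (nat_lit 333) (nat_lit 313) (nat_lit 134)) (XT.lf (nat_lit 0) (nat_lit 4555321521) (nat_lit 456) (nat_lit 73959075340) (nat_lit 76) (nat_lit 17273268808) (nat_lit 131) (nat_lit 5) (nat_lit 137) (nat_lit 5) (nat_lit 132) (nat_lit 5) (nat_lit 334) (nat_lit 313) (nat_lit 133))))))))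
noncomputable def xc119 : XT := (XT.nd (nat_lit 39858) (nat_lit 0) (nat_lit 228) (XT.nd (nat_lit 1092) (nat_lit 760) (nat_lit 0) (XT.nd (nat_lit 546) (nat_lit 1596) (nat_lit 0) (XT.nd (nat_lit 234) (nat_lit 1520) (nat_lit 0) (XT.nd (nat_lit 78) (nat_lit 380) (nat_lit 0) (XT.lf (nat_lit 0) (nat_lit 5657584898) (nat_lit 456) (nat_lit 19929165848) (nat_lit 532) (nat_lit 73099332503) (nat_lit 125) (nat_lit 5) (nat_lit 131) (nat_lit 5) (nat_lit 132) (nat_lit 5) (nat_lit 335) (nat_lit 313) (nat_lit 132)) (XT.nd (nat_lit 78) (nat_lit 380) (nat_lit 0) (XT.lf (nat_lit 0) (nat_lit 48837425499) (nat_lit 532) (nat_lit 11314428528) (nat_lit 76) (nat_lit 41542538221) (nat_lit 125) (nat_lit 5) (nat_lit 132) (nat_lit 5) (nat_lit 126) (nat_lit 5) (nat_lit 336) (nat_lit 313) (nat_lit 131)) (XT.lf (nat_lit 0) (nat_lit 74194353835) (nat_lit 456) (nat_lit 29079013504) (nat_lit 76) (nat_lit 1551438490) (nat_lit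 120) (nat_lit 5) (nat_lit 126) (nat_lit 5) (nat_lit 121) (nat_lit 5) (nat_lit 337) (nat_lit 313) (nat_lit 130)))) (XT.nd (nat_lit 156) (nat_lit 684) (nat_lit 0) (XT.nd (nat_lit 78) (nat_lit 456) (nat_lit 0) (XT.lf (nat_lit 0) (nat_lit 59845632065) (nat_lit 380) (nat_lit 42272646811) (nat_lit 456) (nat_lit 5954487395) (nat_lit 115) (nat_lit 5) (nat_lit 120) (nat_lit 5) (nat_lit 121) (nat_lit 5) (nat_lit 338) (nat_lit 313) (nat_lit 129)) (XT.lf (nat_lit 0) (nat_lit 20498932406) (nat_lit 456) (nat_lit 68681153502) (nat_lit 76) (nat_lit 22269293110) (nat_lit 109) (nat_lit 5) (nat_lit 115) (nat_lit 5) (nat_lit 110) (nat_lit 5) (nat_lit 339) (nat_lit 313) (nat_lit 128))) (XT.nd (nat_lit 78) (nat_lit 304) (nat_lit 0) (XT.lf (nat_lit 0) (nat_lit 24323091946) (nat_lit 380) (nat_lit 24990951168) (nat_lit 456) (nat_lit 65644146201) (nat_lit 104) (nat_lit 5) (nat_lit 109) (nat_lit 5) (nat_lit 110) (nat_lit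 5) (nat_lit 340) (nat_lit 313) (nat_lit 127)) (XT.lf (nat_lit 0) (nat_lit 4462917055) (nat_lit 304) (nat_lit 76270754794) (nat_lit 380) (nat_lit 37873855984) (nat_lit 100) (nat_lit 5) (nat_lit 104) (nat_lit 5) (nat_lit 105) (nat_lit 5) (nat_lit 341) (nat_lit 313) (nat_lit 126))))) (XT.nd (nat_lit 234) (nat_lit 912) (nat_lit 0) (XT.nd (nat_lit 78) (nat_lit 684) (nat_lit 0) (XT.lf (nat_lit 0) (nat_lit 105951533992) (nat_lit 304) (nat_lit 8954753152) (nat_lit 380) (nat_lit 7497586534) (nat_lit 100) (nat_lit 5) (nat_lit 104) (nat_lit 5) (nat_lit 105) (nat_lit 5) (nat_lit 342) (nat_lit 313) (nat_lit 125)) (XT.nd (nat_lit 78) (nat_lit 304) (nat_lit 0) (XT.lf (nat_lit 0) (nat_lit 25366736045) (nat_lit 380) (nat_lit 39363406914) (nat_lit 76) (nat_lit 61609498975) (nat_lit 95) (nat_lit 5) (nat_lit 100) (nat_lit 5) (nat_lit 96) (nat_lit 5) (nat_lit 343) (nat_lit 313) (nat_lit 124)) (XT.lf (nat_lit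 0) (nat_lit 60678710611) (nat_lit 380) (nat_lit 63916743534) (nat_lit 76) (nat_lit 5845733015) (nat_lit 91) (nat_lit 5) (nat_lit 96) (nat_lit 5) (nat_lit 92) (nat_lit 5) (nat_lit 344) (nat_lit 313) (nat_lit 123)))) (XT.nd (nat_lit 156) (nat_lit 304) (nat_lit 0) (XT.nd (nat_lit 78) (nat_lit 304) (nat_lit 0) (XT.lf (nat_lit 0) (nat_lit 43993749180) (nat_lit 304) (nat_lit 55247294418) (nat_lit 380) (nat_lit 35462223722) (nat_lit 87) (nat_lit 5) (nat_lit 91) (nat_lit 5) (nat_lit 92) (nat_lit 5) (nat_lit 345) (nat_lit 313) (nat_lit 122)) (XT.lf (nat_lit 0) (nat_lit 1574269852) (nat_lit 304) (nat_lit 119478760030) (nat_lit 76) (nat_lit 18094301950) (nat_lit 83) (nat_lit 5) (nat_lit 87) (nat_lit 5) (nat_lit 84) (nat_lit 5) (nat_lit 346) (nat_lit 313) (nat_lit 121))) (XT.nd (nat_lit 78) (nat_lit 304) (nat_lit 0) (XT.lf (nat_lit 0) (nat_lit 41235978169) (nat_lit 304) (nat_lit 7250222327) (nat_lit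 76) (nat_lit 95271662051) (nat_lit 83) (nat_lit 5) (nat_lit 87) (nat_lit 5) (nat_lit 84) (nat_lit 5) (nat_lit 347) (nat_lit 313) (nat_lit 120)) (XT.lf (nat_lit 0) (nat_lit 84241436343) (nat_lit 380) (nat_lit 36053743599) (nat_lit 76) (nat_lit 28262920312) (nat_lit 79) (nat_lit 5) (nat_lit 84) (nat_lit 5) (nat_lit 80) (nat_lit 5) (nat_lit 348) (nat_lit 313) (nat_lit 119)))))) (XT.nd (nat_lit 38220) (nat_lit 0) (nat_lit 9500) (XT.nd (nat_lit 37908) (nat_lit 0) (nat_lit 10336) (XT.nd (nat_lit 78) (nat_lit 532) (nat_lit 0) (XT.lf (nat_lit 0) (nat_lit 85988985659) (nat_lit 228) (nat_lit 44798908426) (nat_lit 304) (nat_lit 22768734330) (nat_lit 76) (nat_lit 5) (nat_lit 79) (nat_lit 5) (nat_lit 80) (nat_lit 5) (nat_lit 349) (nat_lit 313) (nat_lit 118)) (XT.nd (nat_lit 78) (nat_lit 228) (nat_lit 0) (XT.lf (nat_lit 0) (nat_lit 21714236291) (nat_lit 304) (nat_lit 102113340740) (nat_lit 76) (nat_lit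 34933552754) (nat_lit 72) (nat_lit 5) (nat_lit 76) (nat_lit 5) (nat_lit 73) (nat_lit 5) (nat_lit 350) (nat_lit 313) (nat_lit 117)) (XT.lf (nat_lit 0) (nat_lit 24060731517) (nat_lit 228) (nat_lit 45279420291) (nat_lit 304) (nat_lit 94837251089) (nat_lit 69) (nat_lit 5) (nat_lit 72) (nat_lit 5) (nat_lit 73) (nat_lit 5) (nat_lit 351) (nat_lit 313) (nat_lit 116)))) (XT.nd (nat_lit 156) (nat_lit 0) (nat_lit 76) (XT.nd (nat_lit 78) (nat_lit 0) (nat_lit 0) (XT.lf (nat_lit 0) (nat_lit 9869856720) (nat_lit 0) (nat_lit 9869856720) (nat_lit 1140) (nat_lit 8738832647) (nat_lit 205) (nat_lit 5) (nat_lit 205) (nat_lit 3) (nat_lit 220) (nat_lit 3) (nat_lit 314) (nat_lit 314) (nat_lit 152)) (XT.lf (nat_lit 76) (nat_lit 6216972402) (nat_lit 0) (nat_lit 34573728324) (nat_lit 1216) (nat_lit 17580557208) (nat_lit 206) (nat_lit 5) (nat_lit 205) (nat_lit 5) (nat_lit 221) (nat_lit 5) (nat_lit 315) (nat_lit 314)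 (nat_lit 151))) (XT.nd (nat_lit 78) (nat_lit 0) (nat_lit 0) (XT.lf (nat_lit 0) (nat_lit 42838673022) (nat_lit 1140) (nat_lit 7535090751) (nat_lit 1216) (nat_lit 9462236271) (nat_lit 206) (nat_lit 5) (nat_lit 221) (nat_lit 5) (nat_lit 222) (nat_lit 5) (nat_lit 316) (nat_lit 314) (nat_lit 150)) (XT.lf (nat_lit 76) (nat_lit 39740453877) (nat_lit 0) (nat_lit 5977629337) (nat_lit 1216) (nat_lit 15634026873) (nat_lit 207) (nat_lit 5) (nat_lit 206) (nat_lit 5) (nat_lit 222) (nat_lit 5) (nat_lit 317) (nat_lit 314) (nat_lit 149))))) (XT.nd (nat_lit 234) (nat_lit 988) (nat_lit 0) (XT.nd (nat_lit 78) (nat_lit 0) (nat_lit 76) (XT.lf (nat_lit 76) (nat_lit 26724459937) (nat_lit 0) (nat_lit 22741028640) (nat_lit 1216) (nat_lit 13456818225) (nat_lit 208) (nat_lit 5) (nat_lit 207) (nat_lit 5) (nat_lit 223) (nat_lit 5) (nat_lit 318) (nat_lit 314) (nat_lit 148)) (XT.nd (nat_lit 78) (nat_lit 0) (nat_lit 76)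 (XT.lf (nat_lit 76) (nat_lit 13331395016) (nat_lit 0) (nat_lit 40709955137) (nat_lit 1216) (nat_lit 10510432441) (nat_lit 209) (nat_lit 5) (nat_lit 208) (nat_lit 5) (nat_lit 224) (nat_lit 5) (nat_lit 319) (nat_lit 314) (nat_lit 147)) (XT.lf (nat_lit 0) (nat_lit 59505879025) (nat_lit 1140) (nat_lit 448168616) (nat_lit 1216) (nat_lit 6288890040) (nat_lit 209) (nat_lit 5) (nat_lit 224) (nat_lit 5) (nat_lit 225) (nat_lit 5) (nat_lit 320) (nat_lit 314) (nat_lit 146)))) (XT.nd (nat_lit 156) (nat_lit 0) (nat_lit 76) (XT.nd (nat_lit 78) (nat_lit 1140) (nat_lit 0) (XT.lf (nat_lit 76) (nat_lit 53494481931) (nat_lit 0) (nat_lit 12672667867) (nat_lit 1216) (nat_lit 1823796911) (nat_lit 210) (nat_lit 5) (nat_lit 209) (nat_lit 5) (nat_lit 225) (nat_lit 5) (nat_lit 321) (nat_lit 314) (nat_lit 145)) (XT.lf (nat_lit 0) (nat_lit 4027779208) (nat_lit 1216) (nat_lit 29087249147) (nat_lit 1292) (nat_lit 36687635631)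 (nat_lit 194) (nat_lit 5) (nat_lit 210) (nat_lit 5) (nat_lit 211) (nat_lit 5) (nat_lit 322) (nat_lit 314) (nat_lit 144))) (XT.nd (nat_lit 78) (nat_lit 0) (nat_lit 0) (XT.lf (nat_lit 0) (nat_lit 10841236058) (nat_lit 1216) (nat_lit 44170035880) (nat_lit 1292) (nat_lit 16671944296) (nat_lit 195) (nat_lit 5) (nat_lit 211) (nat_lit 5) (nat_lit 212) (nat_lit 5) (nat_lit 323) (nat_lit 314) (nat_lit 143)) (XT.lf (nat_lit 76) (nat_lit 13834225596) (nat_lit 0) (nat_lit 4929329837) (nat_lit 1292) (nat_lit 54871196355) (nat_lit 196) (nat_lit 5) (nat_lit 195) (nat_lit 5) (nat_lit 212) (nat_lit 5) (nat_lit 324) (nat_lit 314) (nat_lit 142))))))) (XT.nd (nat_lit 1092) (nat_lit 3648) (nat_lit 0) (XT.nd (nat_lit 546) (nat_lit 2736) (nat_lit 0) (XT.nd (nat_lit 234) (nat_lit 1672) (nat_lit 0) (XT.nd (nat_lit 78) (nat_lit 1368) (nat_lit 0) (XT.lf (nat_lit 0) (nat_lit 27997924934) (nat_lit 1216) (nat_lit 472300580)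 (nat_lit 76) (nat_lit 47186161897) (nat_lit 196) (nat_lit 5) (nat_lit 212) (nat_lit 5) (nat_lit 197) (nat_lit 5) (nat_lit 325) (nat_lit 314) (nat_lit 141)) (XT.nd (nat_lit 78) (nat_lit 608) (nat_lit 0) (XT.lf (nat_lit 0) (nat_lit 38585045826) (nat_lit 836) (nat_lit 14995642434) (nat_lit 76) (nat_lit 24171686825) (nat_lit 186) (nat_lit 5) (nat_lit 197) (nat_lit 5) (nat_lit 187) (nat_lit 5) (nat_lit 326) (nat_lit 314) (nat_lit 140)) (XT.lf (nat_lit 0) (nat_lit 49889036277) (nat_lit 608) (nat_lit 583070281) (nat_lit 684) (nat_lit 29457939264) (nat_lit 178) (nat_lit 5) (nat_lit 186) (nat_lit 5) (nat_lit 187) (nat_lit 5) (nat_lit 327) (nat_lit 314) (nat_lit 139)))) (XT.nd (nat_lit 156) (nat_lit 608) (nat_lit 0) (XT.nd (nat_lit 78) (nat_lit 532) (nat_lit 0) (XT.lf (nat_lit 0) (nat_lit 36295611851) (nat_lit 532) (nat_lit 27690814819) (nat_lit 608) (nat_lit 18199187376) (nat_lit 171) (nat_lit 5)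 (nat_lit 178) (nat_lit 5) (nat_lit 179) (nat_lit 5) (nat_lit 328) (nat_lit 314) (nat_lit 138)) (XT.lf (nat_lit 0) (nat_lit 22188226673) (nat_lit 532) (nat_lit 56785360421) (nat_lit 608) (nat_lit 5556460942) (nat_lit 164) (nat_lit 5) (nat_lit 171) (nat_lit 5) (nat_lit 172) (nat_lit 5) (nat_lit 329) (nat_lit 314) (nat_lit 137))) (XT.nd (nat_lit 78) (nat_lit 0) (nat_lit 0) (XT.lf (nat_lit 0) (nat_lit 7437428159) (nat_lit 532) (nat_lit 957298478) (nat_lit 608) (nat_lit 78569944113) (nat_lit 156) (nat_lit 5) (nat_lit 163) (nat_lit 5) (nat_lit 164) (nat_lit 5) (nat_lit 330) (nat_lit 314) (nat_lit 136)) (XT.lf (nat_lit 0) (nat_lit 24130941198) (nat_lit 608) (nat_lit 8111234794) (nat_lit 76) (nat_lit 57241127614) (nat_lit 156) (nat_lit 5) (nat_lit 164) (nat_lit 5) (nat_lit 157) (nat_lit 5) (nat_lit 331) (nat_lit 314) (nat_lit 135))))) (XT.nd (nat_lit 234) (nat_lit 1292) (nat_lit 0) (XT.nd (nat_lit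 78) (nat_lit 912) (nat_lit 0) (XT.lf (nat_lit 0) (nat_lit 41576503137) (nat_lit 608) (nat_lit 24170742320) (nat_lit 76) (nat_lit 26352947459) (nat_lit 149) (nat_lit 5) (nat_lit 157) (nat_lit 5) (nat_lit 150) (nat_lit 5) (nat_lit 332) (nat_lit 314) (nat_lit 134)) (XT.nd (nat_lit 78) (nat_lit 456) (nat_lit 0) (XT.lf (nat_lit 0) (nat_lit 53819112262) (nat_lit 456) (nat_lit 7001338634) (nat_lit 532) (nat_lit 33999693429) (nat_lit 143) (nat_lit 5) (nat_lit 149) (nat_lit 5) (nat_lit 150) (nat_lit 5) (nat_lit 333) (nat_lit 314) (nat_lit 133)) (XT.lf (nat_lit 0) (nat_lit 38772332719) (nat_lit 456) (nat_lit 43402930755) (nat_lit 532) (nat_lit 15466370635) (nat_lit 137) (nat_lit 5) (nat_lit 143) (nat_lit 5) (nat_lit 144) (nat_lit 5) (nat_lit 334) (nat_lit 314) (nat_lit 132)))) (XT.nd (nat_lit 156) (nat_lit 380) (nat_lit 0) (XT.nd (nat_lit 78) (nat_lit 456) (nat_lit 0) (XT.lf (nat_lit 0) (nat_lit 4811941494)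 (nat_lit 456) (nat_lit 77622548924) (nat_lit 76) (nat_lit 18141669460) (nat_lit 131) (nat_lit 5) (nat_lit 137) (nat_lit 5) (nat_lit 132) (nat_lit 5) (nat_lit 335) (nat_lit 314) (nat_lit 131)) (XT.lf (nat_lit 0) (nat_lit 5973955958) (nat_lit 456) (nat_lit 20919934170) (nat_lit 532) (nat_lit 76725640886) (nat_lit 125) (nat_lit 5) (nat_lit 131) (nat_lit 5) (nat_lit 132) (nat_lit 5) (nat_lit 336) (nat_lit 314) (nat_lit 130))) (XT.nd (nat_lit 78) (nat_lit 380) (nat_lit 0) (XT.lf (nat_lit 0) (nat_lit 51305826812) (nat_lit 532) (nat_lit 11847489463) (nat_lit 76) (nat_lit 43624978407) (nat_lit 125) (nat_lit 5) (nat_lit 132) (nat_lit 5) (nat_lit 126) (nat_lit 5) (nat_lit 337) (nat_lit 314) (nat_lit 129)) (XT.lf (nat_lit 0) (nat_lit 77929702326) (nat_lit 456) (nat_lit 30500511623) (nat_lit 76) (nat_lit 1635042982) (nat_lit 120) (nat_lit 5) (nat_lit 126) (nat_lit 5) (nat_lit 121) (nat_lit 5) (nat_lit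 338) (nat_lit 314) (nat_lit 128)))))) (XT.nd (nat_lit 546) (nat_lit 1444) (nat_lit 0) (XT.nd (nat_lit 234) (nat_lit 988) (nat_lit 0) (XT.nd (nat_lit 78) (nat_lit 836) (nat_lit 0) (XT.lf (nat_lit 0) (nat_lit 62869435978) (nat_lit 380) (nat_lit 44379470138) (nat_lit 456) (nat_lit 6226737770) (nat_lit 115) (nat_lit 5) (nat_lit 120) (nat_lit 5) (nat_lit 121) (nat_lit 5) (nat_lit 339) (nat_lit 314) (nat_lit 127)) (XT.nd (nat_lit 78) (nat_lit 380) (nat_lit 0) (XT.lf (nat_lit 0) (nat_lit 21548033304) (nat_lit 456) (nat_lit 72083418569) (nat_lit 76) (nat_lit 23389653622) (nat_lit 109) (nat_lit 5) (nat_lit 115) (nat_lit 5) (nat_lit 110) (nat_lit 5) (nat_lit 340) (nat_lit 314) (nat_lit 126)) (XT.lf (nat_lit 0) (nat_lit 25570127822) (nat_lit 380) (nat_lit 26232918371) (nat_lit 456) (nat_lit 68902336565) (nat_lit 104) (nat_lit 5) (nat_lit 109) (nat_lit 5) (nat_lit 110) (nat_lit 5) (nat_lit 341) (nat_lit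 314) (nat_lit 125)))) (XT.nd (nat_lit 156) (nat_lit 684) (nat_lit 0) (XT.nd (nat_lit 78) (nat_lit 0) (nat_lit 0) (XT.lf (nat_lit 0) (nat_lit 4716683701) (nat_lit 304) (nat_lit 80076226840) (nat_lit 380) (nat_lit 39744300846) (nat_lit 100) (nat_lit 5) (nat_lit 104) (nat_lit 5) (nat_lit 105) (nat_lit 5) (nat_lit 342) (nat_lit 314) (nat_lit 124)) (XT.lf (nat_lit 0) (nat_lit 111278273352) (nat_lit 304) (nat_lit 9394809196) (nat_lit 380) (nat_lit 7850324968) (nat_lit 100) (nat_lit 5) (nat_lit 104) (nat_lit 5) (nat_lit 105) (nat_lit 5) (nat_lit 343) (nat_lit 314) (nat_lit 123))) (XT.nd (nat_lit 78) (nat_lit 304) (nat_lit 0) (XT.lf (nat_lit 0) (nat_lit 26656099473) (nat_lit 380) (nat_lit 41302248608) (nat_lit 76) (nat_lit 64697630897) (nat_lit 95) (nat_lit 5) (nat_lit 100) (nat_lit 5) (nat_lit 96) (nat_lit 5) (nat_lit 344) (nat_lit 314) (nat_lit 122)) (XT.lf (nat_lit 0) (nat_lit 63733024058) (nat_lit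 380) (nat_lit 67083548924) (nat_lit 76) (nat_lit 6146048623) (nat_lit 91) (nat_lit 5) (nat_lit 96) (nat_lit 5) (nat_lit 92) (nat_lit 5) (nat_lit 345) (nat_lit 314) (nat_lit 121))))) (XT.nd (nat_lit 312) (nat_lit 532) (nat_lit 0) (XT.nd (nat_lit 156) (nat_lit 304) (nat_lit 0) (XT.nd (nat_lit 78) (nat_lit 304) (nat_lit 0) (XT.lf (nat_lit 0) (nat_lit 46221636235) (nat_lit 304) (nat_lit 58001138154) (nat_lit 380) (nat_lit 37215053010) (nat_lit 87) (nat_lit 5) (nat_lit 91) (nat_lit 5) (nat_lit 92) (nat_lit 5) (nat_lit 346) (nat_lit 314) (nat_lit 120)) (XT.lf (nat_lit 0) (nat_lit 1672272117) (nat_lit 304) (nat_lit 125424404500) (nat_lit 76) (nat_lit 19007431189) (nat_lit 83) (nat_lit 5) (nat_lit 87) (nat_lit 5) (nat_lit 84) (nat_lit 5) (nat_lit 347) (nat_lit 314) (nat_lit 119))) (XT.nd (nat_lit 78) (nat_lit 304) (nat_lit 0) (XT.lf (nat_lit 0) (nat_lit 43316147337) (nat_lit 304) (nat_lit 7585787223)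 (nat_lit 76) (nat_lit 100043258622) (nat_lit 83) (nat_lit 5) (nat_lit 87) (nat_lit 5) (nat_lit 84) (nat_lit 5) (nat_lit 348) (nat_lit 314) (nat_lit 118)) (XT.lf (nat_lit 0) (nat_lit 88471336247) (nat_lit 380) (nat_lit 37829794714) (nat_lit 76) (nat_lit 29684328620) (nat_lit 79) (nat_lit 5) (nat_lit 84) (nat_lit 5) (nat_lit 80) (nat_lit 5) (nat_lit 349) (nat_lit 314) (nat_lit 117)))) (XT.nd (nat_lit 37908) (nat_lit 0) (nat_lit 10108) (XT.nd (nat_lit 78) (nat_lit 304) (nat_lit 0) (XT.lf (nat_lit 0) (nat_lit 90314307489) (nat_lit 228) (nat_lit 47030209134) (nat_lit 304) (nat_lit 23889416052) (nat_lit 76) (nat_lit 5) (nat_lit 79) (nat_lit 5) (nat_lit 80) (nat_lit 5) (nat_lit 350) (nat_lit 314) (nat_lit 116)) (XT.lf (nat_lit 0) (nat_lit 22816855737) (nat_lit 304) (nat_lit 107193099484) (nat_lit 76) (nat_lit 36688714277) (nat_lit 72) (nat_lit 5) (nat_lit 76) (nat_lit 5) (nat_lit 73) (nat_lit 5)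 (nat_lit 351) (nat_lit 314) (nat_lit 115))) (XT.nd (nat_lit 78) (nat_lit 0) (nat_lit 0) (XT.lf (nat_lit 0) (nat_lit 10379003090) (nat_lit 0) (nat_lit 10379003090) (nat_lit 1140) (nat_lit 9143495612) (nat_lit 205) (nat_lit 5) (nat_lit 205) (nat_lit 3) (nat_lit 220) (nat_lit 3) (nat_lit 315) (nat_lit 315) (nat_lit 150)) (XT.lf (nat_lit 76) (nat_lit 6560410493) (nat_lit 0) (nat_lit 36329484439) (nat_lit 1216) (nat_lit 18398074435) (nat_lit 206) (nat_lit 5) (nat_lit 205) (nat_lit 5) (nat_lit 221) (nat_lit 5) (nat_lit 316) (nat_lit 315) (nat_lit 149))))))))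
noncomputable def xc120 : XT := (XT.nd (nat_lit 2184) (nat_lit 1596) (nat_lit 0) (XT.nd (nat_lit 1092) (nat_lit 4864) (nat_lit 0) (XT.nd (nat_lit 546) (nat_lit 2280) (nat_lit 0) (XT.nd (nat_lit 234) (nat_lit 912) (nat_lit 0) (XT.nd (nat_lit 78) (nat_lit 0) (nat_lit 0) (XT.lf (nat_lit 0) (nat_lit 45037177110) (nat_lit 1140) (nat_lit 7878796578) (nat_lit 1216) (nat_lit 9910070493) (nat_lit 206) (nat_lit 5) (nat_lit 221) (nat_lit 5) (nat_lit 222) (nat_lit 5) (nat_lit 317) (nat_lit 315) (nat_lit 148)) (XT.nd (nat_lit 78) (nat_lit 0) (nat_lit 76) (XT.lf (nat_lit 76) (nat_lit 41759577946) (nat_lit 0) (nat_lit 6298594613) (nat_lit 1216) (nat_lit 16359861522) (nat_lit 207) (nat_lit 5) (nat_lit 206) (nat_lit 5) (nat_lit 222) (nat_lit 5) (nat_lit 318) (nat_lit 315) (nat_lit 147)) (XT.lf (nat_lit 76) (nat_lit 28093703638) (nat_lit 0) (nat_lit 23896779546) (nat_lit 1216) (nat_lit 14076334063) (nat_lit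 208) (nat_lit 5) (nat_lit 207) (nat_lit 5) (nat_lit 223) (nat_lit 5) (nat_lit 319) (nat_lit 315) (nat_lit 146)))) (XT.nd (nat_lit 156) (nat_lit 1064) (nat_lit 0) (XT.nd (nat_lit 78) (nat_lit 0) (nat_lit 76) (XT.lf (nat_lit 76) (nat_lit 14031772429) (nat_lit 0) (nat_lit 42761056333) (nat_lit 1216) (nat_lit 10985009876) (nat_lit 209) (nat_lit 5) (nat_lit 208) (nat_lit 5) (nat_lit 224) (nat_lit 5) (nat_lit 320) (nat_lit 315) (nat_lit 145)) (XT.lf (nat_lit 0) (nat_lit 62528088320) (nat_lit 1140) (nat_lit 436776345) (nat_lit 1216) (nat_lit 6588764104) (nat_lit 209) (nat_lit 5) (nat_lit 224) (nat_lit 5) (nat_lit 225) (nat_lit 5) (nat_lit 321) (nat_lit 315) (nat_lit 144))) (XT.nd (nat_lit 78) (nat_lit 1140) (nat_lit 0) (XT.lf (nat_lit 76) (nat_lit 56202037839) (nat_lit 0) (nat_lit 13318466328) (nat_lit 1216) (nat_lit 1868593937) (nat_lit 210) (nat_lit 5) (nat_lit 209) (nat_lit 5) (nat_lit 225) (nat_lit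 5) (nat_lit 322) (nat_lit 315) (nat_lit 143)) (XT.lf (nat_lit 0) (nat_lit 4272701006) (nat_lit 1216) (nat_lit 30507342445) (nat_lit 1292) (nat_lit 38511405186) (nat_lit 194) (nat_lit 5) (nat_lit 210) (nat_lit 5) (nat_lit 211) (nat_lit 5) (nat_lit 323) (nat_lit 315) (nat_lit 142))))) (XT.nd (nat_lit 234) (nat_lit 2356) (nat_lit 0) (XT.nd (nat_lit 78) (nat_lit 0) (nat_lit 0) (XT.lf (nat_lit 0) (nat_lit 11424996040) (nat_lit 1216) (nat_lit 46343875260) (nat_lit 1292) (nat_lit 17497214262) (nat_lit 195) (nat_lit 5) (nat_lit 211) (nat_lit 5) (nat_lit 212) (nat_lit 5) (nat_lit 324) (nat_lit 315) (nat_lit 141)) (XT.nd (nat_lit 78) (nat_lit 0) (nat_lit 76) (XT.lf (nat_lit 76) (nat_lit 14559605698) (nat_lit 0) (nat_lit 5182163703) (nat_lit 1292) (nat_lit 57573480282) (nat_lit 196) (nat_lit 5) (nat_lit 195) (nat_lit 5) (nat_lit 212) (nat_lit 5) (nat_lit 325) (nat_lit 315) (nat_lit 140)) (XT.lf (nat_lit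 0) (nat_lit 29435892599) (nat_lit 1216) (nat_lit 462611111) (nat_lit 76) (nat_lit 49539524159) (nat_lit 196) (nat_lit 5) (nat_lit 212) (nat_lit 5) (nat_lit 197) (nat_lit 5) (nat_lit 326) (nat_lit 315) (nat_lit 139)))) (XT.nd (nat_lit 156) (nat_lit 1064) (nat_lit 0) (XT.nd (nat_lit 78) (nat_lit 608) (nat_lit 0) (XT.lf (nat_lit 0) (nat_lit 40550827016) (nat_lit 836) (nat_lit 15711902060) (nat_lit 76) (nat_lit 25376133877) (nat_lit 186) (nat_lit 5) (nat_lit 197) (nat_lit 5) (nat_lit 187) (nat_lit 5) (nat_lit 327) (nat_lit 315) (nat_lit 138)) (XT.lf (nat_lit 0) (nat_lit 52416049670) (nat_lit 608) (nat_lit 614764645) (nat_lit 684) (nat_lit 30894647375) (nat_lit 178) (nat_lit 5) (nat_lit 186) (nat_lit 5) (nat_lit 187) (nat_lit 5) (nat_lit 328) (nat_lit 315) (nat_lit 137))) (XT.nd (nat_lit 78) (nat_lit 532) (nat_lit 0) (XT.lf (nat_lit 0) (nat_lit 38143099658) (nat_lit 532) (nat_lit 29076370371)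 (nat_lit 608) (nat_lit 19074381296) (nat_lit 171) (nat_lit 5) (nat_lit 178) (nat_lit 5) (nat_lit 179) (nat_lit 5) (nat_lit 329) (nat_lit 315) (nat_lit 136)) (XT.lf (nat_lit 0) (nat_lit 23330430664) (nat_lit 532) (nat_lit 59624257932) (nat_lit 608) (nat_lit 5800858927) (nat_lit 164) (nat_lit 5) (nat_lit 171) (nat_lit 5) (nat_lit 172) (nat_lit 5) (nat_lit 330) (nat_lit 315) (nat_lit 135)))))) (XT.nd (nat_lit 546) (nat_lit 1900) (nat_lit 0) (XT.nd (nat_lit 234) (nat_lit 1824) (nat_lit 0) (XT.nd (nat_lit 78) (nat_lit 532) (nat_lit 0) (XT.lf (nat_lit 0) (nat_lit 7841814303) (nat_lit 532) (nat_lit 1004173425) (nat_lit 608) (nat_lit 82465942845) (nat_lit 156) (nat_lit 5) (nat_lit 163) (nat_lit 5) (nat_lit 164) (nat_lit 5) (nat_lit 331) (nat_lit 315) (nat_lit 134)) (XT.nd (nat_lit 78) (nat_lit 532) (nat_lit 0) (XT.lf (nat_lit 0) (nat_lit 25367520901) (nat_lit 608) (nat_lit 8484911835) (nat_lit 76)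 (nat_lit 60104108432) (nat_lit 156) (nat_lit 5) (nat_lit 164) (nat_lit 5) (nat_lit 157) (nat_lit 5) (nat_lit 332) (nat_lit 315) (nat_lit 133)) (XT.lf (nat_lit 0) (nat_lit 43684248424) (nat_lit 608) (nat_lit 25347436232) (nat_lit 76) (nat_lit 27672624932) (nat_lit 149) (nat_lit 5) (nat_lit 157) (nat_lit 5) (nat_lit 150) (nat_lit 5) (nat_lit 333) (nat_lit 315) (nat_lit 132)))) (XT.nd (nat_lit 156) (nat_lit 912) (nat_lit 0) (XT.nd (nat_lit 78) (nat_lit 456) (nat_lit 0) (XT.lf (nat_lit 0) (nat_lit 56540998300) (nat_lit 456) (nat_lit 7348315445) (nat_lit 532) (nat_lit 35670978426) (nat_lit 143) (nat_lit 5) (nat_lit 149) (nat_lit 5) (nat_lit 150) (nat_lit 5) (nat_lit 334) (nat_lit 315) (nat_lit 131)) (XT.lf (nat_lit 0) (nat_lit 40741799050) (nat_lit 456) (nat_lit 45569067008) (nat_lit 532) (nat_lit 16212021562) (nat_lit 137) (nat_lit 5) (nat_lit 143) (nat_lit 5) (nat_lit 144) (nat_lit 5) (nat_lit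 335) (nat_lit 315) (nat_lit 130))) (XT.nd (nat_lit 78) (nat_lit 456) (nat_lit 0) (XT.lf (nat_lit 0) (nat_lit 5078709903) (nat_lit 456) (nat_lit 81472401828) (nat_lit 76) (nat_lit 19053049723) (nat_lit 131) (nat_lit 5) (nat_lit 137) (nat_lit 5) (nat_lit 132) (nat_lit 5) (nat_lit 336) (nat_lit 315) (nat_lit 129)) (XT.lf (nat_lit 0) (nat_lit 6303031820) (nat_lit 456) (nat_lit 21960769908) (nat_lit 532) (nat_lit 80535929061) (nat_lit 125) (nat_lit 5) (nat_lit 131) (nat_lit 5) (nat_lit 132) (nat_lit 5) (nat_lit 337) (nat_lit 315) (nat_lit 128))))) (XT.nd (nat_lit 234) (nat_lit 1140) (nat_lit 0) (XT.nd (nat_lit 78) (nat_lit 760) (nat_lit 0) (XT.lf (nat_lit 0) (nat_lit 53895181680) (nat_lit 532) (nat_lit 12410239908) (nat_lit 76) (nat_lit 45811046624) (nat_lit 125) (nat_lit 5) (nat_lit 132) (nat_lit 5) (nat_lit 126) (nat_lit 5) (nat_lit 338) (nat_lit 315) (nat_lit 127)) (XT.nd (nat_lit 78) (nat_lit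 380) (nat_lit 0) (XT.lf (nat_lit 0) (nat_lit 81849435333) (nat_lit 456) (nat_lit 31996101779) (nat_lit 76) (nat_lit 1722266849) (nat_lit 120) (nat_lit 5) (nat_lit 126) (nat_lit 5) (nat_lit 121) (nat_lit 5) (nat_lit 339) (nat_lit 315) (nat_lit 126)) (XT.lf (nat_lit 0) (nat_lit 66041499441) (nat_lit 380) (nat_lit 46592267670) (nat_lit 456) (nat_lit 6514968994) (nat_lit 115) (nat_lit 5) (nat_lit 120) (nat_lit 5) (nat_lit 121) (nat_lit 5) (nat_lit 340) (nat_lit 315) (nat_lit 125)))) (XT.nd (nat_lit 156) (nat_lit 304) (nat_lit 0) (XT.nd (nat_lit 78) (nat_lit 380) (nat_lit 0) (XT.lf (nat_lit 0) (nat_lit 22647343611) (nat_lit 456) (nat_lit 75658752665) (nat_lit 76) (nat_lit 24565391049) (nat_lit 109) (nat_lit 5) (nat_lit 115) (nat_lit 5) (nat_lit 110) (nat_lit 5) (nat_lit 341) (nat_lit 315) (nat_lit 124)) (XT.lf (nat_lit 0) (nat_lit 26876644444) (nat_lit 380) (nat_lit 27537688684) (nat_lit 456)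 (nat_lit 72325669315) (nat_lit 104) (nat_lit 5) (nat_lit 109) (nat_lit 5) (nat_lit 110) (nat_lit 5) (nat_lit 342) (nat_lit 315) (nat_lit 123))) (XT.nd (nat_lit 78) (nat_lit 0) (nat_lit 0) (XT.lf (nat_lit 0) (nat_lit 4980291849) (nat_lit 304) (nat_lit 84072722359) (nat_lit 380) (nat_lit 41710429323) (nat_lit 100) (nat_lit 5) (nat_lit 104) (nat_lit 5) (nat_lit 105) (nat_lit 5) (nat_lit 343) (nat_lit 315) (nat_lit 122)) (XT.lf (nat_lit 0) (nat_lit 116868638412) (nat_lit 304) (nat_lit 9857582205) (nat_lit 380) (nat_lit 8222758773) (nat_lit 100) (nat_lit 5) (nat_lit 104) (nat_lit 5) (nat_lit 105) (nat_lit 5) (nat_lit 344) (nat_lit 315) (nat_lit 121))))))) (XT.nd (nat_lit 39000) (nat_lit 0) (nat_lit 3952) (XT.nd (nat_lit 38454) (nat_lit 0) (nat_lit 9576) (XT.nd (nat_lit 234) (nat_lit 608) (nat_lit 0) (XT.nd (nat_lit 78) (nat_lit 608) (nat_lit 0) (XT.lf (nat_lit 0) (nat_lit 28007976216) (nat_lit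 380) (nat_lit 43340759087) (nat_lit 76) (nat_lit 67939457542) (nat_lit 95) (nat_lit 5) (nat_lit 100) (nat_lit 5) (nat_lit 96) (nat_lit 5) (nat_lit 345) (nat_lit 315) (nat_lit 120)) (XT.nd (nat_lit 78) (nat_lit 304) (nat_lit 0) (XT.lf (nat_lit 0) (nat_lit 66938158632) (nat_lit 380) (nat_lit 70411393683) (nat_lit 76) (nat_lit 6460633556) (nat_lit 91) (nat_lit 5) (nat_lit 96) (nat_lit 5) (nat_lit 92) (nat_lit 5) (nat_lit 346) (nat_lit 315) (nat_lit 119)) (XT.lf (nat_lit 0) (nat_lit 48558295912) (nat_lit 304) (nat_lit 60893466277) (nat_lit 380) (nat_lit 39057409380) (nat_lit 87) (nat_lit 5) (nat_lit 91) (nat_lit 5) (nat_lit 92) (nat_lit 5) (nat_lit 347) (nat_lit 315) (nat_lit 118)))) (XT.nd (nat_lit 156) (nat_lit 304) (nat_lit 0) (XT.nd (nat_lit 78) (nat_lit 0) (nat_lit 0) (XT.lf (nat_lit 0) (nat_lit 1773381208) (nat_lit 304) (nat_lit 131669961658) (nat_lit 76) (nat_lit 19965434623) (nat_lit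 83) (nat_lit 5) (nat_lit 87) (nat_lit 5) (nat_lit 84) (nat_lit 5) (nat_lit 348) (nat_lit 315) (nat_lit 117)) (XT.lf (nat_lit 0) (nat_lit 45498617071) (nat_lit 304) (nat_lit 7940635568) (nat_lit 76) (nat_lit 105052690005) (nat_lit 83) (nat_lit 5) (nat_lit 87) (nat_lit 5) (nat_lit 84) (nat_lit 5) (nat_lit 349) (nat_lit 315) (nat_lit 116))) (XT.nd (nat_lit 37986) (nat_lit 0) (nat_lit 9576) (XT.lf (nat_lit 0) (nat_lit 92911073660) (nat_lit 380) (nat_lit 39697124754) (nat_lit 76) (nat_lit 31176039193) (nat_lit 79) (nat_lit 5) (nat_lit 84) (nat_lit 5) (nat_lit 80) (nat_lit 5) (nat_lit 350) (nat_lit 315) (nat_lit 115)) (XT.lf (nat_lit 0) (nat_lit 10912151462) (nat_lit 0) (nat_lit 10912151462) (nat_lit 1140) (nat_lit 9571392690) (nat_lit 205) (nat_lit 5) (nat_lit 205) (nat_lit 3) (nat_lit 220) (nat_lit 3) (nat_lit 316) (nat_lit 316) (nat_lit 148))))) (XT.nd (nat_lit 234) (nat_lit 0) (nat_lit 152)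 (XT.nd (nat_lit 78) (nat_lit 0) (nat_lit 76) (XT.lf (nat_lit 76) (nat_lit 6917990628) (nat_lit 0) (nat_lit 38170511675) (nat_lit 1216) (nat_lit 19262186199) (nat_lit 206) (nat_lit 5) (nat_lit 205) (nat_lit 5) (nat_lit 221) (nat_lit 5) (nat_lit 317) (nat_lit 316) (nat_lit 147)) (XT.nd (nat_lit 78) (nat_lit 0) (nat_lit 0) (XT.lf (nat_lit 0) (nat_lit 47340347019) (nat_lit 1140) (nat_lit 8242760252) (nat_lit 1216) (nat_lit 10382646498) (nat_lit 206) (nat_lit 5) (nat_lit 221) (nat_lit 5) (nat_lit 222) (nat_lit 5) (nat_lit 318) (nat_lit 316) (nat_lit 146)) (XT.lf (nat_lit 76) (nat_lit 43876673737) (nat_lit 0) (nat_lit 6633555008) (nat_lit 1216) (nat_lit 17127181860) (nat_lit 207) (nat_lit 5) (nat_lit 206) (nat_lit 5) (nat_lit 222) (nat_lit 5) (nat_lit 319) (nat_lit 316) (nat_lit 145)))) (XT.nd (nat_lit 156) (nat_lit 0) (nat_lit 152) (XT.nd (nat_lit 78) (nat_lit 0) (nat_lit 76) (XT.lf (nat_lit 76)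 (nat_lit 29528339572) (nat_lit 0) (nat_lit 25108579497) (nat_lit 1216) (nat_lit 14731783352) (nat_lit 208) (nat_lit 5) (nat_lit 207) (nat_lit 5) (nat_lit 223) (nat_lit 5) (nat_lit 320) (nat_lit 316) (nat_lit 144)) (XT.lf (nat_lit 76) (nat_lit 14764025596) (nat_lit 0) (nat_lit 44913261929) (nat_lit 1216) (nat_lit 11488052491) (nat_lit 209) (nat_lit 5) (nat_lit 208) (nat_lit 5) (nat_lit 224) (nat_lit 5) (nat_lit 321) (nat_lit 316) (nat_lit 143))) (XT.nd (nat_lit 78) (nat_lit 0) (nat_lit 0) (XT.lf (nat_lit 0) (nat_lit 65697046336) (nat_lit 1140) (nat_lit 427956929) (nat_lit 1216) (nat_lit 6904986493) (nat_lit 209) (nat_lit 5) (nat_lit 224) (nat_lit 5) (nat_lit 225) (nat_lit 5) (nat_lit 322) (nat_lit 316) (nat_lit 142)) (XT.lf (nat_lit 76) (nat_lit 59041919152) (nat_lit 0) (nat_lit 13995423720) (nat_lit 1216) (nat_lit 1919943979) (nat_lit 210) (nat_lit 5) (nat_lit 209) (nat_lit 5) (nat_lit 225)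 (nat_lit 5) (nat_lit 323) (nat_lit 316) (nat_lit 141)))))) (XT.nd (nat_lit 546) (nat_lit 3040) (nat_lit 0) (XT.nd (nat_lit 234) (nat_lit 1748) (nat_lit 0) (XT.nd (nat_lit 78) (nat_lit 0) (nat_lit 76) (XT.lf (nat_lit 0) (nat_lit 4525821623) (nat_lit 1216) (nat_lit 32001626429) (nat_lit 1292) (nat_lit 40427349842) (nat_lit 194) (nat_lit 5) (nat_lit 210) (nat_lit 5) (nat_lit 211) (nat_lit 5) (nat_lit 324) (nat_lit 316) (nat_lit 140)) (XT.nd (nat_lit 78) (nat_lit 0) (nat_lit 0) (XT.lf (nat_lit 0) (nat_lit 12034067320) (nat_lit 1216) (nat_lit 48629629193) (nat_lit 1292) (nat_lit 18364521915) (nat_lit 195) (nat_lit 5) (nat_lit 211) (nat_lit 5) (nat_lit 212) (nat_lit 5) (nat_lit 325) (nat_lit 316) (nat_lit 139)) (XT.lf (nat_lit 76) (nat_lit 15318124597) (nat_lit 0) (nat_lit 5447047284) (nat_lit 1292) (nat_lit 60414715847) (nat_lit 196) (nat_lit 5) (nat_lit 195) (nat_lit 5) (nat_lit 212) (nat_lit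 5) (nat_lit 326) (nat_lit 316) (nat_lit 138)))) (XT.nd (nat_lit 156) (nat_lit 1140) (nat_lit 0) (XT.nd (nat_lit 78) (nat_lit 760) (nat_lit 0) (XT.lf (nat_lit 0) (nat_lit 30942219128) (nat_lit 1216) (nat_lit 455533506) (nat_lit 76) (nat_lit 52011107322) (nat_lit 196) (nat_lit 5) (nat_lit 212) (nat_lit 5) (nat_lit 197) (nat_lit 5) (nat_lit 327) (nat_lit 316) (nat_lit 137)) (XT.lf (nat_lit 0) (nat_lit 42611501154) (nat_lit 836) (nat_lit 16467091272) (nat_lit 76) (nat_lit 26641187928) (nat_lit 186) (nat_lit 5) (nat_lit 197) (nat_lit 5) (nat_lit 187) (nat_lit 5) (nat_lit 328) (nat_lit 316) (nat_lit 136))) (XT.nd (nat_lit 78) (nat_lit 532) (nat_lit 0) (XT.lf (nat_lit 0) (nat_lit 55066386466) (nat_lit 608) (nat_lit 647807503) (nat_lit 684) (nat_lit 32406555388) (nat_lit 178) (nat_lit 5) (nat_lit 186) (nat_lit 5) (nat_lit 187) (nat_lit 5) (nat_lit 329) (nat_lit 316) (nat_lit 135)) (XT.lf (nat_lit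 0) (nat_lit 40079921048) (nat_lit 532) (nat_lit 30531109354) (nat_lit 608) (nat_lit 19996567074) (nat_lit 171) (nat_lit 5) (nat_lit 178) (nat_lit 5) (nat_lit 179) (nat_lit 5) (nat_lit 330) (nat_lit 316) (nat_lit 134))))) (XT.nd (nat_lit 234) (nat_lit 1900) (nat_lit 0) (XT.nd (nat_lit 78) (nat_lit 608) (nat_lit 0) (XT.lf (nat_lit 0) (nat_lit 24526696104) (nat_lit 532) (nat_lit 62605134765) (nat_lit 608) (nat_lit 6060584357) (nat_lit 164) (nat_lit 5) (nat_lit 171) (nat_lit 5) (nat_lit 172) (nat_lit 5) (nat_lit 331) (nat_lit 316) (nat_lit 133)) (XT.nd (nat_lit 78) (nat_lit 0) (nat_lit 0) (XT.lf (nat_lit 0) (nat_lit 8263396842) (nat_lit 532) (nat_lit 1053484158) (nat_lit 608) (nat_lit 86559762915) (nat_lit 156) (nat_lit 5) (nat_lit 163) (nat_lit 5) (nat_lit 164) (nat_lit 5) (nat_lit 332) (nat_lit 316) (nat_lit 132)) (XT.lf (nat_lit 0) (nat_lit 26663137439) (nat_lit 608) (nat_lit 8880237066) (nat_lit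 76) (nat_lit 63110152345) (nat_lit 156) (nat_lit 5) (nat_lit 164) (nat_lit 5) (nat_lit 157) (nat_lit 5) (nat_lit 333) (nat_lit 316) (nat_lit 131)))) (XT.nd (nat_lit 156) (nat_lit 912) (nat_lit 0) (XT.nd (nat_lit 78) (nat_lit 456) (nat_lit 0) (XT.lf (nat_lit 0) (nat_lit 45894692256) (nat_lit 608) (nat_lit 26585925319) (nat_lit 76) (nat_lit 29058097538) (nat_lit 149) (nat_lit 5) (nat_lit 157) (nat_lit 5) (nat_lit 150) (nat_lit 5) (nat_lit 334) (nat_lit 316) (nat_lit 130)) (XT.lf (nat_lit 0) (nat_lit 59396103022) (nat_lit 456) (nat_lit 7712928386) (nat_lit 532) (nat_lit 37428495897) (nat_lit 143) (nat_lit 5) (nat_lit 149) (nat_lit 5) (nat_lit 150) (nat_lit 5) (nat_lit 335) (nat_lit 316) (nat_lit 129))) (XT.nd (nat_lit 78) (nat_lit 456) (nat_lit 0) (XT.lf (nat_lit 0) (nat_lit 42806870585) (nat_lit 456) (nat_lit 47843882912) (nat_lit 532) (nat_lit 16997527308) (nat_lit 137) (nat_lit 5) (nat_lit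 143) (nat_lit 5) (nat_lit 144) (nat_lit 5) (nat_lit 336) (nat_lit 316) (nat_lit 128)) (XT.lf (nat_lit 0) (nat_lit 5356383570) (nat_lit 456) (nat_lit 85517654988) (nat_lit 76) (nat_lit 20009599525) (nat_lit 131) (nat_lit 5) (nat_lit 137) (nat_lit 5) (nat_lit 132) (nat_lit 5) (nat_lit 337) (nat_lit 316) (nat_lit 127))))))))
noncomputable def xc121 : XT := (XT.nd (nat_lit 40170) (nat_lit 0) (nat_lit 0) (XT.nd (nat_lit 39078) (nat_lit 0) (nat_lit 6688) (XT.nd (nat_lit 546) (nat_lit 1292) (nat_lit 0) (XT.nd (nat_lit 234) (nat_lit 1520) (nat_lit 0) (XT.nd (nat_lit 78) (nat_lit 380) (nat_lit 0) (XT.lf (nat_lit 0) (nat_lit 6645737210) (nat_lit 456) (nat_lit 23054127251) (nat_lit 532) (nat_lit 84539148308) (nat_lit 125) (nat_lit 5) (nat_lit 131) (nat_lit 5) (nat_lit 132) (nat_lit 5) (nat_lit 338) (nat_lit 316) (nat_lit 126)) (XT.nd (nat_lit 78) (nat_lit 380) (nat_lit 0) (XT.lf (nat_lit 0) (nat_lit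 56611767092) (nat_lit 532) (nat_lit 13003882036) (nat_lit 76) (nat_lit 48105970199) (nat_lit 125) (nat_lit 5) (nat_lit 132) (nat_lit 5) (nat_lit 126) (nat_lit 5) (nat_lit 339) (nat_lit 316) (nat_lit 125)) (XT.lf (nat_lit 0) (nat_lit 85962993622) (nat_lit 456) (nat_lit 33569208070) (nat_lit 76) (nat_lit 1813343201) (nat_lit 120) (nat_lit 5) (nat_lit 126) (nat_lit 5) (nat_lit 121) (nat_lit 5) (nat_lit 340) (nat_lit 316) (nat_lit 124)))) (XT.nd (nat_lit 156) (nat_lit 684) (nat_lit 0) (XT.nd (nat_lit 78) (nat_lit 456) (nat_lit 0) (XT.lf (nat_lit 0) (nat_lit 69369507896) (nat_lit 380) (nat_lit 48916279261) (nat_lit 456) (nat_lit 6819759925) (nat_lit 115) (nat_lit 5) (nat_lit 120) (nat_lit 5) (nat_lit 121) (nat_lit 5) (nat_lit 341) (nat_lit 316) (nat_lit 123)) (XT.lf (nat_lit 0) (nat_lit 23799582576) (nat_lit 456) (nat_lit 79415534441) (nat_lit 76) (nat_lit 25799333840) (nat_lit 109) (nat_lit 5)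 (nat_lit 115) (nat_lit 5) (nat_lit 110) (nat_lit 5) (nat_lit 342) (nat_lit 316) (nat_lit 122))) (XT.nd (nat_lit 78) (nat_lit 304) (nat_lit 0) (XT.lf (nat_lit 0) (nat_lit 28245882772) (nat_lit 380) (nat_lit 28908336741) (nat_lit 456) (nat_lit 75922193979) (nat_lit 104) (nat_lit 5) (nat_lit 109) (nat_lit 5) (nat_lit 110) (nat_lit 5) (nat_lit 343) (nat_lit 316) (nat_lit 121)) (XT.lf (nat_lit 0) (nat_lit 5254498244) (nat_lit 304) (nat_lit 88269722810) (nat_lit 380) (nat_lit 43776824654) (nat_lit 100) (nat_lit 5) (nat_lit 104) (nat_lit 5) (nat_lit 105) (nat_lit 5) (nat_lit 344) (nat_lit 316) (nat_lit 120))))) (XT.nd (nat_lit 234) (nat_lit 608) (nat_lit 0) (XT.nd (nat_lit 78) (nat_lit 684) (nat_lit 0) (XT.lf (nat_lit 0) (nat_lit 122736062526) (nat_lit 304) (nat_lit 10344141633) (nat_lit 380) (nat_lit 8615681344) (nat_lit 100) (nat_lit 5) (nat_lit 104) (nat_lit 5) (nat_lit 105) (nat_lit 5) (nat_lit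 345) (nat_lit 316) (nat_lit 119)) (XT.nd (nat_lit 78) (nat_lit 304) (nat_lit 0) (XT.lf (nat_lit 0) (nat_lit 29425673684) (nat_lit 380) (nat_lit 45483668288) (nat_lit 76) (nat_lit 71342729830) (nat_lit 95) (nat_lit 5) (nat_lit 100) (nat_lit 5) (nat_lit 96) (nat_lit 5) (nat_lit 346) (nat_lit 316) (nat_lit 118)) (XT.lf (nat_lit 0) (nat_lit 70301831527) (nat_lit 380) (nat_lit 73908078845) (nat_lit 76) (nat_lit 6790270677) (nat_lit 91) (nat_lit 5) (nat_lit 96) (nat_lit 5) (nat_lit 92) (nat_lit 5) (nat_lit 347) (nat_lit 316) (nat_lit 117)))) (XT.nd (nat_lit 156) (nat_lit 0) (nat_lit 0) (XT.nd (nat_lit 78) (nat_lit 304) (nat_lit 0) (XT.lf (nat_lit 0) (nat_lit 51009410586) (nat_lit 304) (nat_lit 63931129356) (nat_lit 380) (nat_lit 40993593882) (nat_lit 87) (nat_lit 5) (nat_lit 91) (nat_lit 5) (nat_lit 92) (nat_lit 5) (nat_lit 348) (nat_lit 316) (nat_lit 116)) (XT.lf (nat_lit 0) (nat_lit 1877919190)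 (nat_lit 304) (nat_lit 138230182582) (nat_lit 76) (nat_lit 20970628690) (nat_lit 83) (nat_lit 5) (nat_lit 87) (nat_lit 5) (nat_lit 84) (nat_lit 5) (nat_lit 349) (nat_lit 316) (nat_lit 115))) (XT.nd (nat_lit 38064) (nat_lit 0) (nat_lit 9272) (XT.lf (nat_lit 0) (nat_lit 47788661182) (nat_lit 304) (nat_lit 8315498624) (nat_lit 76) (nat_lit 110311917206) (nat_lit 83) (nat_lit 5) (nat_lit 87) (nat_lit 5) (nat_lit 84) (nat_lit 5) (nat_lit 350) (nat_lit 316) (nat_lit 114)) (XT.lf (nat_lit 0) (nat_lit 11470637236) (nat_lit 0) (nat_lit 11470637236) (nat_lit 1140) (nat_lit 10023406585) (nat_lit 205) (nat_lit 5) (nat_lit 205) (nat_lit 3) (nat_lit 220) (nat_lit 3) (nat_lit 317) (nat_lit 317) (nat_lit 146)))))) (XT.nd (nat_lit 546) (nat_lit 2584) (nat_lit 0) (XT.nd (nat_lit 234) (nat_lit 0) (nat_lit 152) (XT.nd (nat_lit 78) (nat_lit 0) (nat_lit 76) (XT.lf (nat_lit 76) (nat_lit 7290701597) (nat_lit 0)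 (nat_lit 40101307566) (nat_lit 1216) (nat_lit 20174690559) (nat_lit 206) (nat_lit 5) (nat_lit 205) (nat_lit 5) (nat_lit 221) (nat_lit 5) (nat_lit 318) (nat_lit 317) (nat_lit 145)) (XT.nd (nat_lit 78) (nat_lit 0) (nat_lit 0) (XT.lf (nat_lit 0) (nat_lit 49753905007) (nat_lit 1140) (nat_lit 8627709009) (nat_lit 1216) (nat_lit 10880982886) (nat_lit 206) (nat_lit 5) (nat_lit 221) (nat_lit 5) (nat_lit 222) (nat_lit 5) (nat_lit 319) (nat_lit 317) (nat_lit 144)) (XT.lf (nat_lit 76) (nat_lit 46096917306) (nat_lit 0) (nat_lit 6983401163) (nat_lit 1216) (nat_lit 17937579286) (nat_lit 207) (nat_lit 5) (nat_lit 206) (nat_lit 5) (nat_lit 222) (nat_lit 5) (nat_lit 320) (nat_lit 317) (nat_lit 143)))) (XT.nd (nat_lit 156) (nat_lit 0) (nat_lit 152) (XT.nd (nat_lit 78) (nat_lit 0) (nat_lit 76) (XT.lf (nat_lit 76) (nat_lit 31031922765) (nat_lit 0) (nat_lit 26379392576) (nat_lit 1216) (nat_lit 15424501850) (nat_lit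 208) (nat_lit 5) (nat_lit 207) (nat_lit 5) (nat_lit 223) (nat_lit 5) (nat_lit 321) (nat_lit 317) (nat_lit 142)) (XT.lf (nat_lit 76) (nat_lit 15530040523) (nat_lit 0) (nat_lit 47171762014) (nat_lit 1216) (nat_lit 12020543208) (nat_lit 209) (nat_lit 5) (nat_lit 208) (nat_lit 5) (nat_lit 224) (nat_lit 5) (nat_lit 322) (nat_lit 317) (nat_lit 141))) (XT.nd (nat_lit 78) (nat_lit 0) (nat_lit 0) (XT.lf (nat_lit 0) (nat_lit 69020496023) (nat_lit 1140) (nat_lit 421546854) (nat_lit 1216) (nat_lit 7238248682) (nat_lit 209) (nat_lit 5) (nat_lit 224) (nat_lit 5) (nat_lit 225) (nat_lit 5) (nat_lit 323) (nat_lit 317) (nat_lit 140)) (XT.lf (nat_lit 76) (nat_lit 62021025922) (nat_lit 0) (nat_lit 14705203137) (nat_lit 1216) (nat_lit 1977773690) (nat_lit 210) (nat_lit 5) (nat_lit 209) (nat_lit 5) (nat_lit 225) (nat_lit 5) (nat_lit 324) (nat_lit 317) (nat_lit 139))))) (XT.nd (nat_lit 234) (nat_lit 1748) (nat_lit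 0) (XT.nd (nat_lit 78) (nat_lit 0) (nat_lit 76) (XT.lf (nat_lit 0) (nat_lit 4787927277) (nat_lit 1216) (nat_lit 33573514428) (nat_lit 1292) (nat_lit 42439986628) (nat_lit 194) (nat_lit 5) (nat_lit 210) (nat_lit 5) (nat_lit 211) (nat_lit 5) (nat_lit 325) (nat_lit 317) (nat_lit 138)) (XT.nd (nat_lit 78) (nat_lit 0) (nat_lit 0) (XT.lf (nat_lit 0) (nat_lit 12670075881) (nat_lit 1216) (nat_lit 51032593799) (nat_lit 1292) (nat_lit 19275897162) (nat_lit 195) (nat_lit 5) (nat_lit 211) (nat_lit 5) (nat_lit 212) (nat_lit 5) (nat_lit 326) (nat_lit 317) (nat_lit 137)) (XT.lf (nat_lit 76) (nat_lit 16111730250) (nat_lit 0) (nat_lit 5724638103) (nat_lit 1292) (nat_lit 63401493863) (nat_lit 196) (nat_lit 5) (nat_lit 195) (nat_lit 5) (nat_lit 212) (nat_lit 5) (nat_lit 327) (nat_lit 317) (nat_lit 136)))) (XT.nd (nat_lit 156) (nat_lit 1140) (nat_lit 0) (XT.nd (nat_lit 78) (nat_lit 760) (nat_lit 0) (XT.lf (nat_lit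 0) (nat_lit 32520651535) (nat_lit 1216) (nat_lit 450910488) (nat_lit 76) (nat_lit 54606771037) (nat_lit 196) (nat_lit 5) (nat_lit 212) (nat_lit 5) (nat_lit 197) (nat_lit 5) (nat_lit 328) (nat_lit 317) (nat_lit 135)) (XT.lf (nat_lit 0) (nat_lit 44772128628) (nat_lit 836) (nat_lit 17262866796) (nat_lit 76) (nat_lit 27969843567) (nat_lit 186) (nat_lit 5) (nat_lit 197) (nat_lit 5) (nat_lit 187) (nat_lit 5) (nat_lit 329) (nat_lit 317) (nat_lit 134))) (XT.nd (nat_lit 78) (nat_lit 532) (nat_lit 0) (XT.lf (nat_lit 0) (nat_lit 57846494281) (nat_lit 608) (nat_lit 682288242) (nat_lit 684) (nat_lit 33997110498) (nat_lit 178) (nat_lit 5) (nat_lit 186) (nat_lit 5) (nat_lit 187) (nat_lit 5) (nat_lit 330) (nat_lit 317) (nat_lit 133)) (XT.lf (nat_lit 0) (nat_lit 42110825406) (nat_lit 532) (nat_lit 32058499710) (nat_lit 608) (nat_lit 20967793807) (nat_lit 171) (nat_lit 5) (nat_lit 178) (nat_lit 5) (nat_lit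 179) (nat_lit 5) (nat_lit 331) (nat_lit 317) (nat_lit 132))))))) (XT.nd (nat_lit 1092) (nat_lit 1292) (nat_lit 0) (XT.nd (nat_lit 546) (nat_lit 2356) (nat_lit 0) (XT.nd (nat_lit 234) (nat_lit 1900) (nat_lit 0) (XT.nd (nat_lit 78) (nat_lit 608) (nat_lit 0) (XT.lf (nat_lit 0) (nat_lit 25780009510) (nat_lit 532) (nat_lit 65735086684) (nat_lit 608) (nat_lit 6336114694) (nat_lit 164) (nat_lit 5) (nat_lit 171) (nat_lit 5) (nat_lit 172) (nat_lit 5) (nat_lit 332) (nat_lit 317) (nat_lit 131)) (XT.nd (nat_lit 78) (nat_lit 0) (nat_lit 0) (XT.lf (nat_lit 0) (nat_lit 8703316638) (nat_lit 532) (nat_lit 1105343910) (nat_lit 608) (nat_lit 90861014487) (nat_lit 156) (nat_lit 5) (nat_lit 163) (nat_lit 5) (nat_lit 164) (nat_lit 5) (nat_lit 333) (nat_lit 317) (nat_lit 130)) (XT.lf (nat_lit 0) (nat_lit 28021002242) (nat_lit 608) (nat_lit 9298017299) (nat_lit 76) (nat_lit 66266420499) (nat_lit 156) (nat_lit 5)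 (nat_lit 164) (nat_lit 5) (nat_lit 157) (nat_lit 5) (nat_lit 334) (nat_lit 317) (nat_lit 129)))) (XT.nd (nat_lit 156) (nat_lit 912) (nat_lit 0) (XT.nd (nat_lit 78) (nat_lit 456) (nat_lit 0) (XT.lf (nat_lit 0) (nat_lit 48213219532) (nat_lit 608) (nat_lit 27889024103) (nat_lit 76) (nat_lit 30512672583) (nat_lit 149) (nat_lit 5) (nat_lit 157) (nat_lit 5) (nat_lit 150) (nat_lit 5) (nat_lit 335) (nat_lit 317) (nat_lit 128)) (XT.lf (nat_lit 0) (nat_lit 62391354710) (nat_lit 456) (nat_lit 8096032555) (nat_lit 532) (nat_lit 39276309399) (nat_lit 143) (nat_lit 5) (nat_lit 149) (nat_lit 5) (nat_lit 150) (nat_lit 5) (nat_lit 336) (nat_lit 317) (nat_lit 127))) (XT.nd (nat_lit 78) (nat_lit 456) (nat_lit 0) (XT.lf (nat_lit 0) (nat_lit 44972594235) (nat_lit 456) (nat_lit 50232777787) (nat_lit 532) (nat_lit 17824641467) (nat_lit 137) (nat_lit 5) (nat_lit 143) (nat_lit 5) (nat_lit 144) (nat_lit 5) (nat_lit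 337) (nat_lit 317) (nat_lit 126)) (XT.lf (nat_lit 0) (nat_lit 5645733970) (nat_lit 456) (nat_lit 89767808094) (nat_lit 76) (nat_lit 21013614481) (nat_lit 131) (nat_lit 5) (nat_lit 137) (nat_lit 5) (nat_lit 132) (nat_lit 5) (nat_lit 338) (nat_lit 317) (nat_lit 125))))) (XT.nd (nat_lit 234) (nat_lit 1520) (nat_lit 0) (XT.nd (nat_lit 78) (nat_lit 380) (nat_lit 0) (XT.lf (nat_lit 0) (nat_lit 7003016178) (nat_lit 456) (nat_lit 24202587670) (nat_lit 532) (nat_lit 88744720502) (nat_lit 125) (nat_lit 5) (nat_lit 131) (nat_lit 5) (nat_lit 132) (nat_lit 5) (nat_lit 339) (nat_lit 317) (nat_lit 124)) (XT.nd (nat_lit 78) (nat_lit 380) (nat_lit 0) (XT.lf (nat_lit 0) (nat_lit 59462152570) (nat_lit 532) (nat_lit 13629704376) (nat_lit 76) (nat_lit 50515233556) (nat_lit 125) (nat_lit 5) (nat_lit 132) (nat_lit 5) (nat_lit 126) (nat_lit 5) (nat_lit 340) (nat_lit 317) (nat_lit 123)) (XT.lf (nat_lit 0) (nat_lit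 90280269401) (nat_lit 456) (nat_lit 35223451876) (nat_lit 76) (nat_lit 1908511956) (nat_lit 120) (nat_lit 5) (nat_lit 126) (nat_lit 5) (nat_lit 121) (nat_lit 5) (nat_lit 341) (nat_lit 317) (nat_lit 122)))) (XT.nd (nat_lit 156) (nat_lit 684) (nat_lit 0) (XT.nd (nat_lit 78) (nat_lit 456) (nat_lit 0) (XT.lf (nat_lit 0) (nat_lit 72861505724) (nat_lit 380) (nat_lit 51357012234) (nat_lit 456) (nat_lit 7141738834) (nat_lit 115) (nat_lit 5) (nat_lit 120) (nat_lit 5) (nat_lit 121) (nat_lit 5) (nat_lit 342) (nat_lit 317) (nat_lit 121)) (XT.lf (nat_lit 0) (nat_lit 25007585999) (nat_lit 456) (nat_lit 83362587029) (nat_lit 76) (nat_lit 27094446327) (nat_lit 109) (nat_lit 5) (nat_lit 115) (nat_lit 5) (nat_lit 110) (nat_lit 5) (nat_lit 343) (nat_lit 317) (nat_lit 120))) (XT.nd (nat_lit 78) (nat_lit 304) (nat_lit 0) (XT.lf (nat_lit 0) (nat_lit 29681220996) (nat_lit 380) (nat_lit 30348097000) (nat_lit 456)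 (nat_lit 79700381863) (nat_lit 104) (nat_lit 5) (nat_lit 109) (nat_lit 5) (nat_lit 110) (nat_lit 5) (nat_lit 344) (nat_lit 317) (nat_lit 119)) (XT.lf (nat_lit 0) (nat_lit 5540072864) (nat_lit 304) (nat_lit 92677190206) (nat_lit 380) (nat_lit 45948317917) (nat_lit 100) (nat_lit 5) (nat_lit 104) (nat_lit 5) (nat_lit 105) (nat_lit 5) (nat_lit 345) (nat_lit 317) (nat_lit 118)))))) (XT.nd (nat_lit 38610) (nat_lit 0) (nat_lit 8436) (XT.nd (nat_lit 234) (nat_lit 608) (nat_lit 0) (XT.nd (nat_lit 78) (nat_lit 684) (nat_lit 0) (XT.lf (nat_lit 0) (nat_lit 128894627278) (nat_lit 304) (nat_lit 10855616576) (nat_lit 380) (nat_lit 9029943536) (nat_lit 100) (nat_lit 5) (nat_lit 104) (nat_lit 5) (nat_lit 105) (nat_lit 5) (nat_lit 346) (nat_lit 317) (nat_lit 117)) (XT.nd (nat_lit 78) (nat_lit 304) (nat_lit 0) (XT.lf (nat_lit 0) (nat_lit 30912647760) (nat_lit 380) (nat_lit 47735966211) (nat_lit 76) (nat_lit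 74915580073) (nat_lit 95) (nat_lit 5) (nat_lit 100) (nat_lit 5) (nat_lit 96) (nat_lit 5) (nat_lit 347) (nat_lit 317) (nat_lit 116)) (XT.lf (nat_lit 0) (nat_lit 73832129418) (nat_lit 380) (nat_lit 77581818821) (nat_lit 76) (nat_lit 7135775543) (nat_lit 91) (nat_lit 5) (nat_lit 96) (nat_lit 5) (nat_lit 92) (nat_lit 5) (nat_lit 348) (nat_lit 317) (nat_lit 115)))) (XT.nd (nat_lit 38220) (nat_lit 0) (nat_lit 9272) (XT.nd (nat_lit 78) (nat_lit 304) (nat_lit 0) (XT.lf (nat_lit 0) (nat_lit 53580924088) (nat_lit 304) (nat_lit 67121327333) (nat_lit 380) (nat_lit 43028138911) (nat_lit 87) (nat_lit 5) (nat_lit 91) (nat_lit 5) (nat_lit 92) (nat_lit 5) (nat_lit 349) (nat_lit 317) (nat_lit 114)) (XT.lf (nat_lit 0) (nat_lit 1986208729) (nat_lit 304) (nat_lit 145120578643) (nat_lit 76) (nat_lit 22025438886) (nat_lit 83) (nat_lit 5) (nat_lit 87) (nat_lit 5) (nat_lit 84) (nat_lit 5) (nat_lit 350) (nat_lit 317)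 (nat_lit 113))) (XT.nd (nat_lit 78) (nat_lit 0) (nat_lit 0) (XT.lf (nat_lit 0) (nat_lit 12055850006) (nat_lit 0) (nat_lit 12055850006) (nat_lit 1140) (nat_lit 10500490075) (nat_lit 205) (nat_lit 5) (nat_lit 205) (nat_lit 3) (nat_lit 220) (nat_lit 3) (nat_lit 318) (nat_lit 318) (nat_lit 144)) (XT.lf (nat_lit 76) (nat_lit 7679555442) (nat_lit 0) (nat_lit 42126572770) (nat_lit 1216) (nat_lit 21137524905) (nat_lit 206) (nat_lit 5) (nat_lit 205) (nat_lit 5) (nat_lit 221) (nat_lit 5) (nat_lit 319) (nat_lit 318) (nat_lit 143))))) (XT.nd (nat_lit 312) (nat_lit 912) (nat_lit 0) (XT.nd (nat_lit 156) (nat_lit 0) (nat_lit 76) (XT.nd (nat_lit 78) (nat_lit 0) (nat_lit 0) (XT.lf (nat_lit 0) (nat_lit 52283813988) (nat_lit 1140) (nat_lit 9034433003) (nat_lit 1216) (nat_lit 11406169503) (nat_lit 206) (nat_lit 5) (nat_lit 221) (nat_lit 5) (nat_lit 222) (nat_lit 5) (nat_lit 320) (nat_lit 318) (nat_lit 142))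 (XT.lf (nat_lit 76) (nat_lit 48425717712) (nat_lit 0) (nat_lit 7349050499) (nat_lit 1216) (nat_lit 18792769663) (nat_lit 207) (nat_lit 5) (nat_lit 206) (nat_lit 5) (nat_lit 222) (nat_lit 5) (nat_lit 321) (nat_lit 318) (nat_lit 141))) (XT.nd (nat_lit 78) (nat_lit 0) (nat_lit 76) (XT.lf (nat_lit 76) (nat_lit 32608159461) (nat_lit 0) (nat_lit 27712316040) (nat_lit 1216) (nat_lit 16155934952) (nat_lit 208) (nat_lit 5) (nat_lit 207) (nat_lit 5) (nat_lit 223) (nat_lit 5) (nat_lit 322) (nat_lit 318) (nat_lit 140)) (XT.lf (nat_lit 76) (nat_lit 16331770346) (nat_lit 0) (nat_lit 49541993641) (nat_lit 1216) (nat_lit 12583555032) (nat_lit 209) (nat_lit 5) (nat_lit 208) (nat_lit 5) (nat_lit 224) (nat_lit 5) (nat_lit 323) (nat_lit 318) (nat_lit 139)))) (XT.nd (nat_lit 156) (nat_lit 1140) (nat_lit 0) (XT.nd (nat_lit 78) (nat_lit 0) (nat_lit 0) (XT.lf (nat_lit 0) (nat_lit 72506529776) (nat_lit 1140) (nat_lit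 417401593) (nat_lit 1216) (nat_lit 7589288431) (nat_lit 209) (nat_lit 5) (nat_lit 224) (nat_lit 5) (nat_lit 225) (nat_lit 5) (nat_lit 324) (nat_lit 318) (nat_lit 138)) (XT.lf (nat_lit 76) (nat_lit 65146576822) (nat_lit 0) (nat_lit 15449541055) (nat_lit 1216) (nat_lit 2042043339) (nat_lit 210) (nat_lit 5) (nat_lit 209) (nat_lit 5) (nat_lit 225) (nat_lit 5) (nat_lit 325) (nat_lit 318) (nat_lit 137))) (XT.nd (nat_lit 78) (nat_lit 0) (nat_lit 76) (XT.lf (nat_lit 0) (nat_lit 5059808514) (nat_lit 1216) (nat_lit 35226617974) (nat_lit 1292) (nat_lit 44554066952) (nat_lit 194) (nat_lit 5) (nat_lit 210) (nat_lit 5) (nat_lit 211) (nat_lit 5) (nat_lit 326) (nat_lit 318) (nat_lit 136)) (XT.lf (nat_lit 0) (nat_lit 13334695498) (nat_lit 1216) (nat_lit 53558357862) (nat_lit 1292) (nat_lit 20233478099) (nat_lit 195) (nat_lit 5) (nat_lit 211) (nat_lit 5) (nat_lit 212) (nat_lit 5) (nat_lit 327) (nat_lit 318)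 (nat_lit 135))))))))
noncomputable def xc122 : XT := (XT.nd (nat_lit 40404) (nat_lit 0) (nat_lit 304) (XT.nd (nat_lit 1092) (nat_lit 2584) (nat_lit 0) (XT.nd (nat_lit 546) (nat_lit 2356) (nat_lit 0) (XT.nd (nat_lit 234) (nat_lit 2280) (nat_lit 0) (XT.nd (nat_lit 78) (nat_lit 684) (nat_lit 0) (XT.lf (nat_lit 76) (nat_lit 16942440956) (nat_lit 0) (nat_lit 6015621441) (nat_lit 1292) (nat_lit 66540767851) (nat_lit 196) (nat_lit 5) (nat_lit 195) (nat_lit 5) (nat_lit 212) (nat_lit 5) (nat_lit 328) (nat_lit 318) (nat_lit 134)) (XT.nd (nat_lit 78) (nat_lit 760) (nat_lit 0) (XT.lf (nat_lit 0) (nat_lit 34175093590) (nat_lit 1216) (nat_lit 448603683) (nat_lit 76) (nat_lit 57332672718) (nat_lit 196) (nat_lit 5) (nat_lit 212) (nat_lit 5) (nat_lit 197) (nat_lit 5) (nat_lit 329) (nat_lit 318) (nat_lit 133)) (XT.lf (nat_lit 0) (nat_lit 47037993486) (nat_lit 836) (nat_lit 18100995134) (nat_lit 76) (nat_lit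 29365248436) (nat_lit 186) (nat_lit 5) (nat_lit 197) (nat_lit 5) (nat_lit 187) (nat_lit 5) (nat_lit 330) (nat_lit 318) (nat_lit 132)))) (XT.nd (nat_lit 156) (nat_lit 1140) (nat_lit 0) (XT.nd (nat_lit 78) (nat_lit 532) (nat_lit 0) (XT.lf (nat_lit 0) (nat_lit 60763116947) (nat_lit 608) (nat_lit 718298675) (nat_lit 684) (nat_lit 35669961344) (nat_lit 178) (nat_lit 5) (nat_lit 186) (nat_lit 5) (nat_lit 187) (nat_lit 5) (nat_lit 331) (nat_lit 318) (nat_lit 131)) (XT.lf (nat_lit 0) (nat_lit 44240773302) (nat_lit 532) (nat_lit 33662181964) (nat_lit 608) (nat_lit 21990240984) (nat_lit 171) (nat_lit 5) (nat_lit 178) (nat_lit 5) (nat_lit 179) (nat_lit 5) (nat_lit 332) (nat_lit 318) (nat_lit 130))) (XT.nd (nat_lit 78) (nat_lit 608) (nat_lit 0) (XT.lf (nat_lit 0) (nat_lit 27093480371) (nat_lit 532) (nat_lit 69021564538) (nat_lit 608) (nat_lit 6627978133) (nat_lit 164) (nat_lit 5) (nat_lit 171) (nat_lit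 5) (nat_lit 172) (nat_lit 5) (nat_lit 333) (nat_lit 318) (nat_lit 129)) (XT.lf (nat_lit 0) (nat_lit 9162745467) (nat_lit 532) (nat_lit 1159872370) (nat_lit 608) (nat_lit 95379814350) (nat_lit 156) (nat_lit 5) (nat_lit 163) (nat_lit 5) (nat_lit 164) (nat_lit 5) (nat_lit 334) (nat_lit 318) (nat_lit 128))))) (XT.nd (nat_lit 234) (nat_lit 1368) (nat_lit 0) (XT.nd (nat_lit 78) (nat_lit 988) (nat_lit 0) (XT.lf (nat_lit 0) (nat_lit 29444463175) (nat_lit 608) (nat_lit 9739125311) (nat_lit 76) (nat_lit 69580431353) (nat_lit 156) (nat_lit 5) (nat_lit 164) (nat_lit 5) (nat_lit 157) (nat_lit 5) (nat_lit 335) (nat_lit 318) (nat_lit 127)) (XT.nd (nat_lit 78) (nat_lit 456) (nat_lit 0) (XT.lf (nat_lit 0) (nat_lit 50645461155) (nat_lit 608) (nat_lit 29259713419) (nat_lit 76) (nat_lit 32039821104) (nat_lit 149) (nat_lit 5) (nat_lit 157) (nat_lit 5) (nat_lit 150) (nat_lit 5) (nat_lit 336) (nat_lit 318) (nat_lit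 126)) (XT.lf (nat_lit 0) (nat_lit 65534003205) (nat_lit 456) (nat_lit 8498528287) (nat_lit 532) (nat_lit 41218708730) (nat_lit 143) (nat_lit 5) (nat_lit 149) (nat_lit 5) (nat_lit 150) (nat_lit 5) (nat_lit 337) (nat_lit 318) (nat_lit 125)))) (XT.nd (nat_lit 156) (nat_lit 456) (nat_lit 0) (XT.nd (nat_lit 78) (nat_lit 456) (nat_lit 0) (XT.lf (nat_lit 0) (nat_lit 47244244464) (nat_lit 456) (nat_lit 52741424140) (nat_lit 532) (nat_lit 18695227548) (nat_lit 137) (nat_lit 5) (nat_lit 143) (nat_lit 5) (nat_lit 144) (nat_lit 5) (nat_lit 338) (nat_lit 318) (nat_lit 124)) (XT.lf (nat_lit 0) (nat_lit 5947550122) (nat_lit 456) (nat_lit 94232860954) (nat_lit 76) (nat_lit 22067501536) (nat_lit 131) (nat_lit 5) (nat_lit 137) (nat_lit 5) (nat_lit 132) (nat_lit 5) (nat_lit 339) (nat_lit 318) (nat_lit 123))) (XT.nd (nat_lit 78) (nat_lit 0) (nat_lit 0) (XT.lf (nat_lit 0) (nat_lit 7375835566) (nat_lit 456) (nat_lit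 25408865858) (nat_lit 532) (nat_lit 93162559501) (nat_lit 125) (nat_lit 5) (nat_lit 131) (nat_lit 5) (nat_lit 132) (nat_lit 5) (nat_lit 340) (nat_lit 318) (nat_lit 122)) (XT.lf (nat_lit 0) (nat_lit 62453216773) (nat_lit 532) (nat_lit 14289083688) (nat_lit 76) (nat_lit 53044591467) (nat_lit 125) (nat_lit 5) (nat_lit 132) (nat_lit 5) (nat_lit 126) (nat_lit 5) (nat_lit 341) (nat_lit 318) (nat_lit 121)))))) (XT.nd (nat_lit 546) (nat_lit 304) (nat_lit 0) (XT.nd (nat_lit 234) (nat_lit 1064) (nat_lit 0) (XT.nd (nat_lit 78) (nat_lit 836) (nat_lit 0) (XT.lf (nat_lit 0) (nat_lit 94811630805) (nat_lit 456) (nat_lit 36962659303) (nat_lit 76) (nat_lit 2008020634) (nat_lit 120) (nat_lit 5) (nat_lit 126) (nat_lit 5) (nat_lit 121) (nat_lit 5) (nat_lit 342) (nat_lit 318) (nat_lit 120)) (XT.nd (nat_lit 78) (nat_lit 456) (nat_lit 0) (XT.lf (nat_lit 0) (nat_lit 76525916550) (nat_lit 380) (nat_lit 53920254238)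 (nat_lit 456) (nat_lit 7481583973) (nat_lit 115) (nat_lit 5) (nat_lit 120) (nat_lit 5) (nat_lit 121) (nat_lit 5) (nat_lit 343) (nat_lit 318) (nat_lit 119)) (XT.lf (nat_lit 0) (nat_lit 26274313865) (nat_lit 456) (nat_lit 87509197892) (nat_lit 76) (nat_lit 28453836031) (nat_lit 109) (nat_lit 5) (nat_lit 115) (nat_lit 5) (nat_lit 110) (nat_lit 5) (nat_lit 344) (nat_lit 318) (nat_lit 118)))) (XT.nd (nat_lit 156) (nat_lit 380) (nat_lit 0) (XT.nd (nat_lit 78) (nat_lit 304) (nat_lit 0) (XT.lf (nat_lit 0) (nat_lit 31186183712) (nat_lit 380) (nat_lit 31860371167) (nat_lit 456) (nat_lit 83669145341) (nat_lit 104) (nat_lit 5) (nat_lit 109) (nat_lit 5) (nat_lit 110) (nat_lit 5) (nat_lit 345) (nat_lit 318) (nat_lit 117)) (XT.lf (nat_lit 0) (nat_lit 5837801865) (nat_lit 304) (nat_lit 97305590536) (nat_lit 380) (nat_lit 48229998694) (nat_lit 100) (nat_lit 5) (nat_lit 104) (nat_lit 5) (nat_lit 105) (nat_lit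 5) (nat_lit 346) (nat_lit 318) (nat_lit 116))) (XT.nd (nat_lit 78) (nat_lit 380) (nat_lit 0) (XT.lf (nat_lit 0) (nat_lit 135359097079) (nat_lit 304) (nat_lit 11393198186) (nat_lit 380) (nat_lit 9466454885) (nat_lit 100) (nat_lit 5) (nat_lit 104) (nat_lit 5) (nat_lit 105) (nat_lit 5) (nat_lit 347) (nat_lit 318) (nat_lit 115)) (XT.lf (nat_lit 0) (nat_lit 32472511797) (nat_lit 380) (nat_lit 50102913736) (nat_lit 76) (nat_lit 78666541617) (nat_lit 95) (nat_lit 5) (nat_lit 100) (nat_lit 5) (nat_lit 96) (nat_lit 5) (nat_lit 348) (nat_lit 318) (nat_lit 114))))) (XT.nd (nat_lit 38454) (nat_lit 0) (nat_lit 8740) (XT.nd (nat_lit 38298) (nat_lit 0) (nat_lit 8664) (XT.lf (nat_lit 0) (nat_lit 77537528466) (nat_lit 380) (nat_lit 81441259906) (nat_lit 76) (nat_lit 7497998635) (nat_lit 91) (nat_lit 5) (nat_lit 96) (nat_lit 5) (nat_lit 92) (nat_lit 5) (nat_lit 349) (nat_lit 318) (nat_lit 113)) (XT.nd (nat_lit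 78) (nat_lit 0) (nat_lit 0) (XT.lf (nat_lit 0) (nat_lit 12669237434) (nat_lit 0) (nat_lit 12669237434) (nat_lit 1140) (nat_lit 11003667107) (nat_lit 205) (nat_lit 5) (nat_lit 205) (nat_lit 3) (nat_lit 220) (nat_lit 3) (nat_lit 319) (nat_lit 319) (nat_lit 142)) (XT.lf (nat_lit 76) (nat_lit 8085591050) (nat_lit 0) (nat_lit 44251223245) (nat_lit 1216) (nat_lit 22152768333) (nat_lit 206) (nat_lit 5) (nat_lit 205) (nat_lit 5) (nat_lit 221) (nat_lit 5) (nat_lit 320) (nat_lit 319) (nat_lit 141)))) (XT.nd (nat_lit 156) (nat_lit 0) (nat_lit 76) (XT.nd (nat_lit 78) (nat_lit 0) (nat_lit 0) (XT.lf (nat_lit 0) (nat_lit 54936293785) (nat_lit 1140) (nat_lit 9463785986) (nat_lit 1216) (nat_lit 11959369109) (nat_lit 206) (nat_lit 5) (nat_lit 221) (nat_lit 5) (nat_lit 222) (nat_lit 5) (nat_lit 321) (nat_lit 319) (nat_lit 140)) (XT.lf (nat_lit 76) (nat_lit 50868731072) (nat_lit 0) (nat_lit 7731450214) (nat_lit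 1216) (nat_lit 19694595369) (nat_lit 207) (nat_lit 5) (nat_lit 206) (nat_lit 5) (nat_lit 222) (nat_lit 5) (nat_lit 322) (nat_lit 319) (nat_lit 139))) (XT.nd (nat_lit 78) (nat_lit 0) (nat_lit 76) (XT.lf (nat_lit 76) (nat_lit 34260917147) (nat_lit 0) (nat_lit 29110588382) (nat_lit 1216) (nat_lit 16927639191) (nat_lit 208) (nat_lit 5) (nat_lit 207) (nat_lit 5) (nat_lit 223) (nat_lit 5) (nat_lit 323) (nat_lit 319) (nat_lit 138)) (XT.lf (nat_lit 76) (nat_lit 17171241220) (nat_lit 0) (nat_lit 52029654345) (nat_lit 1216) (nat_lit 13178251753) (nat_lit 209) (nat_lit 5) (nat_lit 208) (nat_lit 5) (nat_lit 224) (nat_lit 5) (nat_lit 324) (nat_lit 319) (nat_lit 137))))))) (XT.nd (nat_lit 1092) (nat_lit 3648) (nat_lit 0) (XT.nd (nat_lit 546) (nat_lit 3268) (nat_lit 0) (XT.nd (nat_lit 234) (nat_lit 608) (nat_lit 0) (XT.nd (nat_lit 78) (nat_lit 1140) (nat_lit 0) (XT.lf (nat_lit 0) (nat_lit 76163610416) (nat_lit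 1140) (nat_lit 415394027) (nat_lit 1216) (nat_lit 7958891006) (nat_lit 209) (nat_lit 5) (nat_lit 224) (nat_lit 5) (nat_lit 225) (nat_lit 5) (nat_lit 325) (nat_lit 319) (nat_lit 136)) (XT.nd (nat_lit 78) (nat_lit 1140) (nat_lit 0) (XT.lf (nat_lit 76) (nat_lit 68426127525) (nat_lit 0) (nat_lit 16230251905) (nat_lit 1216) (nat_lit 2112745019) (nat_lit 210) (nat_lit 5) (nat_lit 209) (nat_lit 5) (nat_lit 225) (nat_lit 5) (nat_lit 326) (nat_lit 319) (nat_lit 135)) (XT.lf (nat_lit 0) (nat_lit 5342263678) (nat_lit 1216) (nat_lit 36964754157) (nat_lit 1292) (nat_lit 46774587526) (nat_lit 194) (nat_lit 5) (nat_lit 210) (nat_lit 5) (nat_lit 211) (nat_lit 5) (nat_lit 327) (nat_lit 319) (nat_lit 134)))) (XT.nd (nat_lit 156) (nat_lit 684) (nat_lit 0) (XT.nd (nat_lit 78) (nat_lit 0) (nat_lit 0) (XT.lf (nat_lit 0) (nat_lit 14029653241) (nat_lit 1216) (nat_lit 56212814870) (nat_lit 1292) (nat_lit 21239515794)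 (nat_lit 195) (nat_lit 5) (nat_lit 211) (nat_lit 5) (nat_lit 212) (nat_lit 5) (nat_lit 328) (nat_lit 319) (nat_lit 133)) (XT.lf (nat_lit 76) (nat_lit 17812351388) (nat_lit 0) (nat_lit 6320712203) (nat_lit 1292) (nat_lit 69839869096) (nat_lit 196) (nat_lit 5) (nat_lit 195) (nat_lit 5) (nat_lit 212) (nat_lit 5) (nat_lit 329) (nat_lit 319) (nat_lit 132))) (XT.nd (nat_lit 78) (nat_lit 760) (nat_lit 0) (XT.lf (nat_lit 0) (nat_lit 35909616505) (nat_lit 1216) (nat_lit 448492072) (nat_lit 76) (nat_lit 60195281980) (nat_lit 196) (nat_lit 5) (nat_lit 212) (nat_lit 5) (nat_lit 197) (nat_lit 5) (nat_lit 330) (nat_lit 319) (nat_lit 131)) (XT.lf (nat_lit 0) (nat_lit 49414617356) (nat_lit 836) (nat_lit 18983355547) (nat_lit 76) (nat_lit 30830710578) (nat_lit 186) (nat_lit 5) (nat_lit 197) (nat_lit 5) (nat_lit 187) (nat_lit 5) (nat_lit 331) (nat_lit 319) (nat_lit 130))))) (XT.nd (nat_lit 234) (nat_lit 1596)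 (nat_lit 0) (XT.nd (nat_lit 78) (nat_lit 1064) (nat_lit 0) (XT.lf (nat_lit 0) (nat_lit 63823311753) (nat_lit 608) (nat_lit 755933356) (nat_lit 684) (nat_lit 37428965372) (nat_lit 178) (nat_lit 5) (nat_lit 186) (nat_lit 5) (nat_lit 187) (nat_lit 5) (nat_lit 332) (nat_lit 319) (nat_lit 129)) (XT.nd (nat_lit 78) (nat_lit 532) (nat_lit 0) (XT.lf (nat_lit 0) (nat_lit 46474949497) (nat_lit 532) (nat_lit 35345977926) (nat_lit 608) (nat_lit 23066222409) (nat_lit 171) (nat_lit 5) (nat_lit 178) (nat_lit 5) (nat_lit 179) (nat_lit 5) (nat_lit 333) (nat_lit 319) (nat_lit 128)) (XT.lf (nat_lit 0) (nat_lit 28470349750) (nat_lit 532) (nat_lit 72472391990) (nat_lit 608) (nat_lit 6936753642) (nat_lit 164) (nat_lit 5) (nat_lit 171) (nat_lit 5) (nat_lit 172) (nat_lit 5) (nat_lit 334) (nat_lit 319) (nat_lit 127)))) (XT.nd (nat_lit 156) (nat_lit 988) (nat_lit 0) (XT.nd (nat_lit 78) (nat_lit 0) (nat_lit 0) (XT.lf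 (nat_lit 0) (nat_lit 9642889994) (nat_lit 532) (nat_lit 1217195933) (nat_lit 608) (nat_lit 100126808822) (nat_lit 156) (nat_lit 5) (nat_lit 163) (nat_lit 5) (nat_lit 164) (nat_lit 5) (nat_lit 335) (nat_lit 319) (nat_lit 126)) (XT.lf (nat_lit 0) (nat_lit 30937013609) (nat_lit 608) (nat_lit 10204500758) (nat_lit 76) (nat_lit 73060078616) (nat_lit 156) (nat_lit 5) (nat_lit 164) (nat_lit 5) (nat_lit 157) (nat_lit 5) (nat_lit 336) (nat_lit 319) (nat_lit 125))) (XT.nd (nat_lit 78) (nat_lit 456) (nat_lit 0) (XT.lf (nat_lit 0) (nat_lit 53197308495) (nat_lit 608) (nat_lit 30701146356) (nat_lit 76) (nat_lit 33643186210) (nat_lit 149) (nat_lit 5) (nat_lit 157) (nat_lit 5) (nat_lit 150) (nat_lit 5) (nat_lit 337) (nat_lit 319) (nat_lit 124)) (XT.lf (nat_lit 0) (nat_lit 68831638294) (nat_lit 456) (nat_lit 8921363185) (nat_lit 532) (nat_lit 43260219097) (nat_lit 143) (nat_lit 5) (nat_lit 149) (nat_lit 5)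 (nat_lit 150) (nat_lit 5) (nat_lit 338) (nat_lit 319) (nat_lit 123)))))) (XT.nd (nat_lit 546) (nat_lit 1064) (nat_lit 0) (XT.nd (nat_lit 234) (nat_lit 1216) (nat_lit 0) (XT.nd (nat_lit 78) (nat_lit 912) (nat_lit 0) (XT.lf (nat_lit 0) (nat_lit 49627336975) (nat_lit 456) (nat_lit 55375781029) (nat_lit 532) (nat_lit 19611262402) (nat_lit 137) (nat_lit 5) (nat_lit 143) (nat_lit 5) (nat_lit 144) (nat_lit 5) (nat_lit 339) (nat_lit 319) (nat_lit 122)) (XT.nd (nat_lit 78) (nat_lit 456) (nat_lit 0) (XT.lf (nat_lit 0) (nat_lit 6262641417) (nat_lit 456) (nat_lit 98923336161) (nat_lit 76) (nat_lit 23173784849) (nat_lit 131) (nat_lit 5) (nat_lit 137) (nat_lit 5) (nat_lit 132) (nat_lit 5) (nat_lit 340) (nat_lit 319) (nat_lit 121)) (XT.lf (nat_lit 0) (nat_lit 7765188414) (nat_lit 456) (nat_lit 26675816003) (nat_lit 532) (nat_lit 97803093802) (nat_lit 125) (nat_lit 5) (nat_lit 131) (nat_lit 5) (nat_lit 132)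 (nat_lit 5) (nat_lit 341) (nat_lit 319) (nat_lit 120)))) (XT.nd (nat_lit 156) (nat_lit 836) (nat_lit 0) (XT.nd (nat_lit 78) (nat_lit 380) (nat_lit 0) (XT.lf (nat_lit 0) (nat_lit 65592164754) (nat_lit 532) (nat_lit 14983487164) (nat_lit 76) (nat_lit 55700082930) (nat_lit 125) (nat_lit 5) (nat_lit 132) (nat_lit 5) (nat_lit 126) (nat_lit 5) (nat_lit 342) (nat_lit 319) (nat_lit 119)) (XT.lf (nat_lit 0) (nat_lit 99567947433) (nat_lit 456) (nat_lit 38790869214) (nat_lit 76) (nat_lit 2112125139) (nat_lit 120) (nat_lit 5) (nat_lit 126) (nat_lit 5) (nat_lit 121) (nat_lit 5) (nat_lit 343) (nat_lit 319) (nat_lit 118))) (XT.nd (nat_lit 78) (nat_lit 456) (nat_lit 0) (XT.lf (nat_lit 0) (nat_lit 80371564342) (nat_lit 380) (nat_lit 56612086806) (nat_lit 456) (nat_lit 7840024349) (nat_lit 115) (nat_lit 5) (nat_lit 120) (nat_lit 5) (nat_lit 121) (nat_lit 5) (nat_lit 344) (nat_lit 319) (nat_lit 117)) (XT.lf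 (nat_lit 0) (nat_lit 27602858189) (nat_lit 456) (nat_lit 91865139883) (nat_lit 76) (nat_lit 29880761291) (nat_lit 109) (nat_lit 5) (nat_lit 115) (nat_lit 5) (nat_lit 110) (nat_lit 5) (nat_lit 345) (nat_lit 319) (nat_lit 116))))) (XT.nd (nat_lit 38610) (nat_lit 0) (nat_lit 8360) (XT.nd (nat_lit 156) (nat_lit 380) (nat_lit 0) (XT.nd (nat_lit 78) (nat_lit 304) (nat_lit 0) (XT.lf (nat_lit 0) (nat_lit 32764451324) (nat_lit 380) (nat_lit 33448736045) (nat_lit 456) (nat_lit 87837858286) (nat_lit 104) (nat_lit 5) (nat_lit 109) (nat_lit 5) (nat_lit 110) (nat_lit 5) (nat_lit 346) (nat_lit 319) (nat_lit 115)) (XT.lf (nat_lit 0) (nat_lit 6148490469) (nat_lit 304) (nat_lit 102165918426) (nat_lit 380) (nat_lit 50627226411) (nat_lit 100) (nat_lit 5) (nat_lit 104) (nat_lit 5) (nat_lit 105) (nat_lit 5) (nat_lit 347) (nat_lit 319) (nat_lit 114))) (XT.nd (nat_lit 78) (nat_lit 380) (nat_lit 0) (XT.lf (nat_lit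 0) (nat_lit 142144955276) (nat_lit 304) (nat_lit 11958142251) (nat_lit 380) (nat_lit 9926185042) (nat_lit 100) (nat_lit 5) (nat_lit 104) (nat_lit 5) (nat_lit 105) (nat_lit 5) (nat_lit 348) (nat_lit 319) (nat_lit 113)) (XT.lf (nat_lit 0) (nat_lit 34109045911) (nat_lit 380) (nat_lit 52590054175) (nat_lit 76) (nat_lit 82604569416) (nat_lit 95) (nat_lit 5) (nat_lit 100) (nat_lit 5) (nat_lit 96) (nat_lit 5) (nat_lit 349) (nat_lit 319) (nat_lit 112)))) (XT.nd (nat_lit 156) (nat_lit 0) (nat_lit 76) (XT.nd (nat_lit 78) (nat_lit 0) (nat_lit 0) (XT.lf (nat_lit 0) (nat_lit 13312309218) (nat_lit 0) (nat_lit 13312309218) (nat_lit 1140) (nat_lit 11534034160) (nat_lit 205) (nat_lit 5) (nat_lit 205) (nat_lit 3) (nat_lit 220) (nat_lit 3) (nat_lit 320) (nat_lit 320) (nat_lit 140)) (XT.lf (nat_lit 76) (nat_lit 8509877710) (nat_lit 0) (nat_lit 46480402854) (nat_lit 1216) (nat_lit 23222644557) (nat_lit 206) (nat_lit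 5) (nat_lit 205) (nat_lit 5) (nat_lit 221) (nat_lit 5) (nat_lit 321) (nat_lit 320) (nat_lit 139))) (XT.nd (nat_lit 78) (nat_lit 0) (nat_lit 0) (XT.lf (nat_lit 0) (nat_lit 57717837815) (nat_lit 1140) (nat_lit 9916686244) (nat_lit 1216) (nat_lit 12541819316) (nat_lit 206) (nat_lit 5) (nat_lit 221) (nat_lit 5) (nat_lit 222) (nat_lit 5) (nat_lit 322) (nat_lit 320) (nat_lit 138)) (XT.lf (nat_lit 76) (nat_lit 53431875085) (nat_lit 0) (nat_lit 8131580267) (nat_lit 1216) (nat_lit 20645027833) (nat_lit 207) (nat_lit 5) (nat_lit 206) (nat_lit 5) (nat_lit 222) (nat_lit 5) (nat_lit 323) (nat_lit 320) (nat_lit 137))))))))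
noncomputable def xc123 : XT := (XT.nd (nat_lit 40638) (nat_lit 0) (nat_lit 304) (XT.nd (nat_lit 1092) (nat_lit 4256) (nat_lit 0) (XT.nd (nat_lit 546) (nat_lit 2888) (nat_lit 0) (XT.nd (nat_lit 234) (nat_lit 988) (nat_lit 0) (XT.nd (nat_lit 78) (nat_lit 0) (nat_lit 76) (XT.lf (nat_lit 76) (nat_lit 35994234852) (nat_lit 0) (nat_lit 30577597656) (nat_lit 1216) (nat_lit 17741284182) (nat_lit 208) (nat_lit 5) (nat_lit 207) (nat_lit 5) (nat_lit 223) (nat_lit 5) (nat_lit 324) (nat_lit 320) (nat_lit 136)) (XT.nd (nat_lit 78) (nat_lit 0) (nat_lit 76) (XT.lf (nat_lit 76) (nat_lit 18050558253) (nat_lit 0) (nat_lit 54640716220) (nat_lit 1216) (nat_lit 13805889029) (nat_lit 209) (nat_lit 5) (nat_lit 208) (nat_lit 5) (nat_lit 224) (nat_lit 5) (nat_lit 325) (nat_lit 320) (nat_lit 135)) (XT.lf (nat_lit 0) (nat_lit 80000592888) (nat_lit 1140) (nat_lit 415413030) (nat_lit 1216) (nat_lit 8347890572) (nat_lit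 209) (nat_lit 5) (nat_lit 224) (nat_lit 5) (nat_lit 225) (nat_lit 5) (nat_lit 326) (nat_lit 320) (nat_lit 134)))) (XT.nd (nat_lit 156) (nat_lit 0) (nat_lit 76) (XT.nd (nat_lit 78) (nat_lit 1140) (nat_lit 0) (XT.lf (nat_lit 76) (nat_lit 71867589785) (nat_lit 0) (nat_lit 17049232797) (nat_lit 1216) (nat_lit 2189901103) (nat_lit 210) (nat_lit 5) (nat_lit 209) (nat_lit 5) (nat_lit 225) (nat_lit 5) (nat_lit 327) (nat_lit 320) (nat_lit 133)) (XT.lf (nat_lit 0) (nat_lit 5636102248) (nat_lit 1216) (nat_lit 38791953573) (nat_lit 1292) (nat_lit 49106801915) (nat_lit 194) (nat_lit 5) (nat_lit 210) (nat_lit 5) (nat_lit 211) (nat_lit 5) (nat_lit 328) (nat_lit 320) (nat_lit 132))) (XT.nd (nat_lit 78) (nat_lit 0) (nat_lit 0) (XT.lf (nat_lit 0) (nat_lit 14756734968) (nat_lit 1216) (nat_lit 59002175898) (nat_lit 1292) (nat_lit 22296379376) (nat_lit 195) (nat_lit 5) (nat_lit 211) (nat_lit 5) (nat_lit 212)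 (nat_lit 5) (nat_lit 329) (nat_lit 320) (nat_lit 131)) (XT.lf (nat_lit 76) (nat_lit 18723638694) (nat_lit 0) (nat_lit 6640656829) (nat_lit 1292) (nat_lit 73306522735) (nat_lit 196) (nat_lit 5) (nat_lit 195) (nat_lit 5) (nat_lit 212) (nat_lit 5) (nat_lit 330) (nat_lit 320) (nat_lit 130))))) (XT.nd (nat_lit 234) (nat_lit 1672) (nat_lit 0) (XT.nd (nat_lit 78) (nat_lit 1368) (nat_lit 0) (XT.lf (nat_lit 0) (nat_lit 37728469878) (nat_lit 1216) (nat_lit 450470603) (nat_lit 76) (nat_lit 63201395854) (nat_lit 196) (nat_lit 5) (nat_lit 212) (nat_lit 5) (nat_lit 197) (nat_lit 5) (nat_lit 331) (nat_lit 320) (nat_lit 129)) (XT.nd (nat_lit 78) (nat_lit 608) (nat_lit 0) (XT.lf (nat_lit 0) (nat_lit 51907773799) (nat_lit 836) (nat_lit 19911943421) (nat_lit 76) (nat_lit 32369706171) (nat_lit 186) (nat_lit 5) (nat_lit 197) (nat_lit 5) (nat_lit 187) (nat_lit 5) (nat_lit 332) (nat_lit 320) (nat_lit 128)) (XT.lf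 (nat_lit 0) (nat_lit 67034467326) (nat_lit 608) (nat_lit 795289885) (nat_lit 684) (nat_lit 39278196824) (nat_lit 178) (nat_lit 5) (nat_lit 186) (nat_lit 5) (nat_lit 187) (nat_lit 5) (nat_lit 333) (nat_lit 320) (nat_lit 127)))) (XT.nd (nat_lit 156) (nat_lit 608) (nat_lit 0) (XT.nd (nat_lit 78) (nat_lit 532) (nat_lit 0) (XT.lf (nat_lit 0) (nat_lit 48818776364) (nat_lit 532) (nat_lit 37113899829) (nat_lit 608) (nat_lit 24198190560) (nat_lit 171) (nat_lit 5) (nat_lit 178) (nat_lit 5) (nat_lit 179) (nat_lit 5) (nat_lit 334) (nat_lit 320) (nat_lit 126)) (XT.lf (nat_lit 0) (nat_lit 29913999085) (nat_lit 532) (nat_lit 76095784128) (nat_lit 608) (nat_lit 7263071236) (nat_lit 164) (nat_lit 5) (nat_lit 171) (nat_lit 5) (nat_lit 172) (nat_lit 5) (nat_lit 335) (nat_lit 320) (nat_lit 125))) (XT.nd (nat_lit 78) (nat_lit 0) (nat_lit 0) (XT.lf (nat_lit 0) (nat_lit 10144995721) (nat_lit 532) (nat_lit 1277447970)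 (nat_lit 608) (nat_lit 105113198020) (nat_lit 156) (nat_lit 5) (nat_lit 163) (nat_lit 5) (nat_lit 164) (nat_lit 5) (nat_lit 336) (nat_lit 320) (nat_lit 124)) (XT.lf (nat_lit 0) (nat_lit 32502301728) (nat_lit 608) (nat_lit 10695151357) (nat_lit 76) (nat_lit 76713650070) (nat_lit 156) (nat_lit 5) (nat_lit 164) (nat_lit 5) (nat_lit 157) (nat_lit 5) (nat_lit 337) (nat_lit 320) (nat_lit 123)))))) (XT.nd (nat_lit 546) (nat_lit 1520) (nat_lit 0) (XT.nd (nat_lit 234) (nat_lit 1292) (nat_lit 0) (XT.nd (nat_lit 78) (nat_lit 912) (nat_lit 0) (XT.lf (nat_lit 0) (nat_lit 55874928371) (nat_lit 608) (nat_lit 32216654709) (nat_lit 76) (nat_lit 35326591826) (nat_lit 149) (nat_lit 5) (nat_lit 157) (nat_lit 5) (nat_lit 150) (nat_lit 5) (nat_lit 338) (nat_lit 320) (nat_lit 122)) (XT.nd (nat_lit 78) (nat_lit 456) (nat_lit 0) (XT.lf (nat_lit 0) (nat_lit 72292208806) (nat_lit 456) (nat_lit 9365534278) (nat_lit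 532) (nat_lit 45405610941) (nat_lit 143) (nat_lit 5) (nat_lit 149) (nat_lit 5) (nat_lit 150) (nat_lit 5) (nat_lit 339) (nat_lit 320) (nat_lit 121)) (XT.lf (nat_lit 0) (nat_lit 52127642860) (nat_lit 456) (nat_lit 58142108114) (nat_lit 532) (nat_lit 20574840013) (nat_lit 137) (nat_lit 5) (nat_lit 143) (nat_lit 5) (nat_lit 144) (nat_lit 5) (nat_lit 340) (nat_lit 320) (nat_lit 120)))) (XT.nd (nat_lit 156) (nat_lit 380) (nat_lit 0) (XT.nd (nat_lit 78) (nat_lit 456) (nat_lit 0) (XT.lf (nat_lit 0) (nat_lit 6591840417) (nat_lit 456) (nat_lit 103850303113) (nat_lit 76) (nat_lit 24335111948) (nat_lit 131) (nat_lit 5) (nat_lit 137) (nat_lit 5) (nat_lit 132) (nat_lit 5) (nat_lit 341) (nat_lit 320) (nat_lit 119)) (XT.lf (nat_lit 0) (nat_lit 8172097330) (nat_lit 456) (nat_lit 28006438415) (nat_lit 532) (nat_lit 102677290511) (nat_lit 125) (nat_lit 5) (nat_lit 131) (nat_lit 5) (nat_lit 132) (nat_lit 5)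 (nat_lit 342) (nat_lit 320) (nat_lit 118))) (XT.nd (nat_lit 78) (nat_lit 380) (nat_lit 0) (XT.lf (nat_lit 0) (nat_lit 68886545910) (nat_lit 532) (nat_lit 15714474939) (nat_lit 76) (nat_lit 58488045707) (nat_lit 125) (nat_lit 5) (nat_lit 132) (nat_lit 5) (nat_lit 126) (nat_lit 5) (nat_lit 343) (nat_lit 320) (nat_lit 117)) (XT.lf (nat_lit 0) (nat_lit 104560616992) (nat_lit 456) (nat_lit 40712341877) (nat_lit 76) (nat_lit 2221090556) (nat_lit 120) (nat_lit 5) (nat_lit 126) (nat_lit 5) (nat_lit 121) (nat_lit 5) (nat_lit 344) (nat_lit 320) (nat_lit 116))))) (XT.nd (nat_lit 234) (nat_lit 304) (nat_lit 0) (XT.nd (nat_lit 78) (nat_lit 836) (nat_lit 0) (XT.lf (nat_lit 0) (nat_lit 84407695361) (nat_lit 380) (nat_lit 59438899633) (nat_lit 456) (nat_lit 8217840693) (nat_lit 115) (nat_lit 5) (nat_lit 120) (nat_lit 5) (nat_lit 121) (nat_lit 5) (nat_lit 345) (nat_lit 320) (nat_lit 115)) (XT.nd (nat_lit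 78) (nat_lit 380) (nat_lit 0) (XT.lf (nat_lit 0) (nat_lit 28996451104) (nat_lit 456) (nat_lit 96440693564) (nat_lit 76) (nat_lit 31378639227) (nat_lit 109) (nat_lit 5) (nat_lit 115) (nat_lit 5) (nat_lit 110) (nat_lit 5) (nat_lit 346) (nat_lit 320) (nat_lit 114)) (XT.lf (nat_lit 0) (nat_lit 34419869742) (nat_lit 380) (nat_lit 35116951822) (nat_lit 456) (nat_lit 92216377666) (nat_lit 104) (nat_lit 5) (nat_lit 109) (nat_lit 5) (nat_lit 110) (nat_lit 5) (nat_lit 347) (nat_lit 320) (nat_lit 113)))) (XT.nd (nat_lit 38610) (nat_lit 0) (nat_lit 7980) (XT.nd (nat_lit 38532) (nat_lit 0) (nat_lit 7980) (XT.lf (nat_lit 0) (nat_lit 6472965796) (nat_lit 304) (nat_lit 107269723067) (nat_lit 380) (nat_lit 53145642410) (nat_lit 100) (nat_lit 5) (nat_lit 104) (nat_lit 5) (nat_lit 105) (nat_lit 5) (nat_lit 348) (nat_lit 320) (nat_lit 112)) (XT.lf (nat_lit 0) (nat_lit 13986641153) (nat_lit 0) (nat_lit 13986641153)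 (nat_lit 1140) (nat_lit 12092761899) (nat_lit 205) (nat_lit 5) (nat_lit 205) (nat_lit 3) (nat_lit 220) (nat_lit 3) (nat_lit 321) (nat_lit 321) (nat_lit 138))) (XT.nd (nat_lit 78) (nat_lit 0) (nat_lit 76) (XT.lf (nat_lit 76) (nat_lit 8953518633) (nat_lit 0) (nat_lit 48819496417) (nat_lit 1216) (nat_lit 24349525362) (nat_lit 206) (nat_lit 5) (nat_lit 205) (nat_lit 5) (nat_lit 221) (nat_lit 5) (nat_lit 322) (nat_lit 321) (nat_lit 137)) (XT.lf (nat_lit 0) (nat_lit 60635230242) (nat_lit 1140) (nat_lit 10394117797) (nat_lit 1216) (nat_lit 13154834774) (nat_lit 206) (nat_lit 5) (nat_lit 221) (nat_lit 5) (nat_lit 222) (nat_lit 5) (nat_lit 323) (nat_lit 321) (nat_lit 136))))))) (XT.nd (nat_lit 1092) (nat_lit 3952) (nat_lit 0) (XT.nd (nat_lit 546) (nat_lit 2888) (nat_lit 0) (XT.nd (nat_lit 234) (nat_lit 912) (nat_lit 0) (XT.nd (nat_lit 78) (nat_lit 0) (nat_lit 76) (XT.lf (nat_lit 76) (nat_lit 56121344087)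 (nat_lit 0) (nat_lit 8550456372) (nat_lit 1216) (nat_lit 21646170560) (nat_lit 207) (nat_lit 5) (nat_lit 206) (nat_lit 5) (nat_lit 222) (nat_lit 5) (nat_lit 324) (nat_lit 321) (nat_lit 135)) (XT.nd (nat_lit 78) (nat_lit 0) (nat_lit 76) (XT.lf (nat_lit 76) (nat_lit 37812333758) (nat_lit 0) (nat_lit 32116890105) (nat_lit 1216) (nat_lit 18598654995) (nat_lit 208) (nat_lit 5) (nat_lit 207) (nat_lit 5) (nat_lit 223) (nat_lit 5) (nat_lit 325) (nat_lit 321) (nat_lit 134)) (XT.lf (nat_lit 76) (nat_lit 18971911536) (nat_lit 0) (nat_lit 57381440610) (nat_lit 1216) (nat_lit 14467815851) (nat_lit 209) (nat_lit 5) (nat_lit 208) (nat_lit 5) (nat_lit 224) (nat_lit 5) (nat_lit 326) (nat_lit 321) (nat_lit 133)))) (XT.nd (nat_lit 156) (nat_lit 1140) (nat_lit 0) (XT.nd (nat_lit 78) (nat_lit 0) (nat_lit 0) (XT.lf (nat_lit 0) (nat_lit 84026746752) (nat_lit 1140) (nat_lit 417362186) (nat_lit 1216) (nat_lit 8757171735)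 (nat_lit 209) (nat_lit 5) (nat_lit 224) (nat_lit 5) (nat_lit 225) (nat_lit 5) (nat_lit 327) (nat_lit 321) (nat_lit 132)) (XT.lf (nat_lit 76) (nat_lit 75479251256) (nat_lit 0) (nat_lit 17908468401) (nat_lit 1216) (nat_lit 2273562900) (nat_lit 210) (nat_lit 5) (nat_lit 209) (nat_lit 5) (nat_lit 225) (nat_lit 5) (nat_lit 328) (nat_lit 321) (nat_lit 131))) (XT.nd (nat_lit 78) (nat_lit 0) (nat_lit 76) (XT.lf (nat_lit 0) (nat_lit 5942148073) (nat_lit 1216) (nat_lit 40712468902) (nat_lit 1292) (nat_lit 51556232726) (nat_lit 194) (nat_lit 5) (nat_lit 210) (nat_lit 5) (nat_lit 211) (nat_lit 5) (nat_lit 329) (nat_lit 321) (nat_lit 130)) (XT.lf (nat_lit 0) (nat_lit 15517790823) (nat_lit 1216) (nat_lit 61932983364) (nat_lit 1292) (nat_lit 23406561421) (nat_lit 195) (nat_lit 5) (nat_lit 211) (nat_lit 5) (nat_lit 212) (nat_lit 5) (nat_lit 330) (nat_lit 321) (nat_lit 129))))) (XT.nd (nat_lit 234) (nat_lit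 2280) (nat_lit 0) (XT.nd (nat_lit 78) (nat_lit 684) (nat_lit 0) (XT.lf (nat_lit 76) (nat_lit 19678568689) (nat_lit 0) (nat_lit 6976235262) (nat_lit 1292) (nat_lit 76948864912) (nat_lit 196) (nat_lit 5) (nat_lit 195) (nat_lit 5) (nat_lit 212) (nat_lit 5) (nat_lit 331) (nat_lit 321) (nat_lit 128)) (XT.nd (nat_lit 78) (nat_lit 760) (nat_lit 0) (XT.lf (nat_lit 0) (nat_lit 39636092963) (nat_lit 1216) (nat_lit 454448943) (nat_lit 76) (nat_lit 66358154785) (nat_lit 196) (nat_lit 5) (nat_lit 212) (nat_lit 5) (nat_lit 197) (nat_lit 5) (nat_lit 332) (nat_lit 321) (nat_lit 127)) (XT.lf (nat_lit 0) (nat_lit 54523503147) (nat_lit 836) (nat_lit 20888874012) (nat_lit 76) (nat_lit 33985887682) (nat_lit 186) (nat_lit 5) (nat_lit 197) (nat_lit 5) (nat_lit 187) (nat_lit 5) (nat_lit 333) (nat_lit 321) (nat_lit 126)))) (XT.nd (nat_lit 156) (nat_lit 1140) (nat_lit 0) (XT.nd (nat_lit 78) (nat_lit 532) (nat_lit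 0) (XT.lf (nat_lit 0) (nat_lit 70404322198) (nat_lit 608) (nat_lit 836469220) (nat_lit 684) (nat_lit 41221955358) (nat_lit 178) (nat_lit 5) (nat_lit 186) (nat_lit 5) (nat_lit 187) (nat_lit 5) (nat_lit 334) (nat_lit 321) (nat_lit 125)) (XT.lf (nat_lit 0) (nat_lit 51277927783) (nat_lit 532) (nat_lit 38970159906) (nat_lit 608) (nat_lit 25388741385) (nat_lit 171) (nat_lit 5) (nat_lit 178) (nat_lit 5) (nat_lit 179) (nat_lit 5) (nat_lit 335) (nat_lit 321) (nat_lit 124))) (XT.nd (nat_lit 78) (nat_lit 608) (nat_lit 0) (XT.lf (nat_lit 0) (nat_lit 31427959218) (nat_lit 532) (nat_lit 79900367021) (nat_lit 608) (nat_lit 7607612473) (nat_lit 164) (nat_lit 5) (nat_lit 171) (nat_lit 5) (nat_lit 172) (nat_lit 5) (nat_lit 336) (nat_lit 321) (nat_lit 123)) (XT.lf (nat_lit 0) (nat_lit 10670350929) (nat_lit 532) (nat_lit 1340769112) (nat_lit 608) (nat_lit 110350761555) (nat_lit 156) (nat_lit 5) (nat_lit 163)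 (nat_lit 5) (nat_lit 164) (nat_lit 5) (nat_lit 337) (nat_lit 321) (nat_lit 122)))))) (XT.nd (nat_lit 546) (nat_lit 1596) (nat_lit 0) (XT.nd (nat_lit 234) (nat_lit 1368) (nat_lit 0) (XT.nd (nat_lit 78) (nat_lit 988) (nat_lit 0) (XT.lf (nat_lit 0) (nat_lit 34144140114) (nat_lit 608) (nat_lit 11212154332) (nat_lit 76) (nat_lit 80549847335) (nat_lit 156) (nat_lit 5) (nat_lit 164) (nat_lit 5) (nat_lit 157) (nat_lit 5) (nat_lit 338) (nat_lit 321) (nat_lit 121)) (XT.nd (nat_lit 78) (nat_lit 456) (nat_lit 0) (XT.lf (nat_lit 0) (nat_lit 58684778601) (nat_lit 608) (nat_lit 33809755957) (nat_lit 76) (nat_lit 37094051852) (nat_lit 149) (nat_lit 5) (nat_lit 157) (nat_lit 5) (nat_lit 150) (nat_lit 5) (nat_lit 339) (nat_lit 321) (nat_lit 120)) (XT.lf (nat_lit 0) (nat_lit 75924042465) (nat_lit 456) (nat_lit 9832090297) (nat_lit 532) (nat_lit 47659910436) (nat_lit 143) (nat_lit 5) (nat_lit 149) (nat_lit 5)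 (nat_lit 150) (nat_lit 5) (nat_lit 340) (nat_lit 321) (nat_lit 119)))) (XT.nd (nat_lit 156) (nat_lit 456) (nat_lit 0) (XT.nd (nat_lit 78) (nat_lit 456) (nat_lit 0) (XT.lf (nat_lit 0) (nat_lit 54751203268) (nat_lit 456) (nat_lit 61046980443) (nat_lit 532) (nat_lit 21588175657) (nat_lit 137) (nat_lit 5) (nat_lit 143) (nat_lit 5) (nat_lit 144) (nat_lit 5) (nat_lit 341) (nat_lit 321) (nat_lit 118)) (XT.lf (nat_lit 0) (nat_lit 6936005616) (nat_lit 456) (nat_lit 109025403433) (nat_lit 76) (nat_lit 25554260159) (nat_lit 131) (nat_lit 5) (nat_lit 137) (nat_lit 5) (nat_lit 132) (nat_lit 5) (nat_lit 342) (nat_lit 321) (nat_lit 117))) (XT.nd (nat_lit 78) (nat_lit 0) (nat_lit 0) (XT.lf (nat_lit 0) (nat_lit 8597617839) (nat_lit 456) (nat_lit 29403886514) (nat_lit 532) (nat_lit 107796680677) (nat_lit 125) (nat_lit 5) (nat_lit 131) (nat_lit 5) (nat_lit 132) (nat_lit 5) (nat_lit 343) (nat_lit 321) (nat_lit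 116)) (XT.lf (nat_lit 0) (nat_lit 72344272678) (nat_lit 532) (nat_lit 16483702918) (nat_lit 76) (nat_lit 61415131557) (nat_lit 125) (nat_lit 5) (nat_lit 132) (nat_lit 5) (nat_lit 126) (nat_lit 5) (nat_lit 344) (nat_lit 321) (nat_lit 115))))) (XT.nd (nat_lit 38844) (nat_lit 0) (nat_lit 7676) (XT.nd (nat_lit 156) (nat_lit 836) (nat_lit 0) (XT.nd (nat_lit 78) (nat_lit 380) (nat_lit 0) (XT.lf (nat_lit 0) (nat_lit 109801593138) (nat_lit 456) (nat_lit 42731568225) (nat_lit 76) (nat_lit 2335191941) (nat_lit 120) (nat_lit 5) (nat_lit 126) (nat_lit 5) (nat_lit 121) (nat_lit 5) (nat_lit 345) (nat_lit 321) (nat_lit 114)) (XT.lf (nat_lit 0) (nat_lit 88644001037) (nat_lit 380) (nat_lit 62407405601) (nat_lit 456) (nat_lit 8615866629) (nat_lit 115) (nat_lit 5) (nat_lit 120) (nat_lit 5) (nat_lit 121) (nat_lit 5) (nat_lit 346) (nat_lit 321) (nat_lit 113))) (XT.nd (nat_lit 78) (nat_lit 380) (nat_lit 0) (XT.lf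 (nat_lit 0) (nat_lit 30458473211) (nat_lit 456) (nat_lit 101246670814) (nat_lit 76) (nat_lit 32951054065) (nat_lit 109) (nat_lit 5) (nat_lit 115) (nat_lit 5) (nat_lit 110) (nat_lit 5) (nat_lit 347) (nat_lit 321) (nat_lit 112)) (XT.lf (nat_lit 0) (nat_lit 36156460374) (nat_lit 380) (nat_lit 36868970818) (nat_lit 456) (nat_lit 96815066359) (nat_lit 104) (nat_lit 5) (nat_lit 109) (nat_lit 5) (nat_lit 110) (nat_lit 5) (nat_lit 348) (nat_lit 321) (nat_lit 111)))) (XT.nd (nat_lit 156) (nat_lit 0) (nat_lit 76) (XT.nd (nat_lit 78) (nat_lit 0) (nat_lit 0) (XT.lf (nat_lit 0) (nat_lit 14693879309) (nat_lit 0) (nat_lit 14693879309) (nat_lit 1140) (nat_lit 12681097073) (nat_lit 205) (nat_lit 5) (nat_lit 205) (nat_lit 3) (nat_lit 220) (nat_lit 3) (nat_lit 322) (nat_lit 322) (nat_lit 136)) (XT.lf (nat_lit 76) (nat_lit 9417654461) (nat_lit 0) (nat_lit 51274143275) (nat_lit 1216) (nat_lit 25535934581) (nat_lit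 206) (nat_lit 5) (nat_lit 205) (nat_lit 5) (nat_lit 221) (nat_lit 5) (nat_lit 323) (nat_lit 322) (nat_lit 135))) (XT.nd (nat_lit 78) (nat_lit 0) (nat_lit 0) (XT.lf (nat_lit 0) (nat_lit 63695563668) (nat_lit 1140) (nat_lit 10897131843) (nat_lit 1216) (nat_lit 13799809611) (nat_lit 206) (nat_lit 5) (nat_lit 221) (nat_lit 5) (nat_lit 222) (nat_lit 5) (nat_lit 324) (nat_lit 322) (nat_lit 134)) (XT.lf (nat_lit 76) (nat_lit 58943624667) (nat_lit 0) (nat_lit 8989133014) (nat_lit 1216) (nat_lit 22700262611) (nat_lit 207) (nat_lit 5) (nat_lit 206) (nat_lit 5) (nat_lit 222) (nat_lit 5) (nat_lit 325) (nat_lit 322) (nat_lit 133))))))))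
noncomputable def xc124 : XT := (XT.nd (nat_lit 40872) (nat_lit 0) (nat_lit 380) (XT.nd (nat_lit 1092) (nat_lit 3116) (nat_lit 0) (XT.nd (nat_lit 546) (nat_lit 2888) (nat_lit 0) (XT.nd (nat_lit 234) (nat_lit 988) (nat_lit 0) (XT.nd (nat_lit 78) (nat_lit 0) (nat_lit 76) (XT.lf (nat_lit 76) (nat_lit 39719628145) (nat_lit 0) (nat_lit 33732179116) (nat_lit 1216) (nat_lit 19501654959) (nat_lit 208) (nat_lit 5) (nat_lit 207) (nat_lit 5) (nat_lit 223) (nat_lit 5) (nat_lit 326) (nat_lit 322) (nat_lit 132)) (XT.nd (nat_lit 78) (nat_lit 0) (nat_lit 76) (XT.lf (nat_lit 76) (nat_lit 19937582280) (nat_lit 0) (nat_lit 60258393438) (nat_lit 1216) (nat_lit 15165476368) (nat_lit 209) (nat_lit 5) (nat_lit 208) (nat_lit 5) (nat_lit 224) (nat_lit 5) (nat_lit 327) (nat_lit 322) (nat_lit 131)) (XT.lf (nat_lit 0) (nat_lit 88251779526) (nat_lit 1140) (nat_lit 421158644) (nat_lit 1216) (nat_lit 9187671261) (nat_lit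 209) (nat_lit 5) (nat_lit 224) (nat_lit 5) (nat_lit 225) (nat_lit 5) (nat_lit 328) (nat_lit 322) (nat_lit 130)))) (XT.nd (nat_lit 156) (nat_lit 0) (nat_lit 76) (XT.nd (nat_lit 78) (nat_lit 1140) (nat_lit 0) (XT.lf (nat_lit 76) (nat_lit 79269796114) (nat_lit 0) (nat_lit 18810036008) (nat_lit 1216) (nat_lit 2363809519) (nat_lit 210) (nat_lit 5) (nat_lit 209) (nat_lit 5) (nat_lit 225) (nat_lit 5) (nat_lit 329) (nat_lit 322) (nat_lit 129)) (XT.lf (nat_lit 0) (nat_lit 6261242518) (nat_lit 1216) (nat_lit 42730784092) (nat_lit 1292) (nat_lit 54128684466) (nat_lit 194) (nat_lit 5) (nat_lit 210) (nat_lit 5) (nat_lit 211) (nat_lit 5) (nat_lit 330) (nat_lit 322) (nat_lit 128))) (XT.nd (nat_lit 78) (nat_lit 0) (nat_lit 0) (XT.lf (nat_lit 0) (nat_lit 16314740778) (nat_lit 1216) (nat_lit 65012125658) (nat_lit 1292) (nat_lit 24572683665) (nat_lit 195) (nat_lit 5) (nat_lit 211) (nat_lit 5) (nat_lit 212)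 (nat_lit 5) (nat_lit 331) (nat_lit 322) (nat_lit 127)) (XT.lf (nat_lit 76) (nat_lit 20679502167) (nat_lit 0) (nat_lit 7328262982) (nat_lit 1292) (nat_lit 80775461028) (nat_lit 196) (nat_lit 5) (nat_lit 195) (nat_lit 5) (nat_lit 212) (nat_lit 5) (nat_lit 332) (nat_lit 322) (nat_lit 126))))) (XT.nd (nat_lit 234) (nat_lit 1672) (nat_lit 0) (XT.nd (nat_lit 78) (nat_lit 1368) (nat_lit 0) (XT.lf (nat_lit 0) (nat_lit 41637126264) (nat_lit 1216) (nat_lit 460350355) (nat_lit 76) (nat_lit 69673059475) (nat_lit 196) (nat_lit 5) (nat_lit 212) (nat_lit 5) (nat_lit 197) (nat_lit 5) (nat_lit 333) (nat_lit 322) (nat_lit 125)) (XT.nd (nat_lit 78) (nat_lit 608) (nat_lit 0) (XT.lf (nat_lit 0) (nat_lit 57268127880) (nat_lit 836) (nat_lit 21916386575) (nat_lit 76) (nat_lit 35683092454) (nat_lit 186) (nat_lit 5) (nat_lit 197) (nat_lit 5) (nat_lit 187) (nat_lit 5) (nat_lit 334) (nat_lit 322) (nat_lit 124)) (XT.lf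 (nat_lit 0) (nat_lit 73940984118) (nat_lit 608) (nat_lit 879575983) (nat_lit 684) (nat_lit 43264775296) (nat_lit 178) (nat_lit 5) (nat_lit 186) (nat_lit 5) (nat_lit 187) (nat_lit 5) (nat_lit 335) (nat_lit 322) (nat_lit 123)))) (XT.nd (nat_lit 156) (nat_lit 608) (nat_lit 0) (XT.nd (nat_lit 78) (nat_lit 532) (nat_lit 0) (XT.lf (nat_lit 0) (nat_lit 53858343537) (nat_lit 532) (nat_lit 40919180450) (nat_lit 608) (nat_lit 26640619541) (nat_lit 171) (nat_lit 5) (nat_lit 178) (nat_lit 5) (nat_lit 179) (nat_lit 5) (nat_lit 336) (nat_lit 322) (nat_lit 122)) (XT.lf (nat_lit 0) (nat_lit 33015919699) (nat_lit 532) (nat_lit 83895198240) (nat_lit 608) (nat_lit 7971111169) (nat_lit 164) (nat_lit 5) (nat_lit 171) (nat_lit 5) (nat_lit 172) (nat_lit 5) (nat_lit 337) (nat_lit 322) (nat_lit 121))) (XT.nd (nat_lit 78) (nat_lit 0) (nat_lit 0) (XT.lf (nat_lit 0) (nat_lit 11220290627) (nat_lit 532) (nat_lit 1407307563)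 (nat_lit 608) (nat_lit 115851885696) (nat_lit 156) (nat_lit 5) (nat_lit 163) (nat_lit 5) (nat_lit 164) (nat_lit 5) (nat_lit 338) (nat_lit 322) (nat_lit 120)) (XT.lf (nat_lit 0) (nat_lit 35866515645) (nat_lit 608) (nat_lit 11756658109) (nat_lit 76) (nat_lit 84577806605) (nat_lit 156) (nat_lit 5) (nat_lit 164) (nat_lit 5) (nat_lit 157) (nat_lit 5) (nat_lit 339) (nat_lit 322) (nat_lit 119)))))) (XT.nd (nat_lit 546) (nat_lit 380) (nat_lit 0) (XT.nd (nat_lit 234) (nat_lit 1292) (nat_lit 0) (XT.nd (nat_lit 78) (nat_lit 912) (nat_lit 0) (XT.lf (nat_lit 0) (nat_lit 61633624162) (nat_lit 608) (nat_lit 35484160774) (nat_lit 76) (nat_lit 38949779783) (nat_lit 149) (nat_lit 5) (nat_lit 157) (nat_lit 5) (nat_lit 150) (nat_lit 5) (nat_lit 340) (nat_lit 322) (nat_lit 118)) (XT.nd (nat_lit 78) (nat_lit 456) (nat_lit 0) (XT.lf (nat_lit 0) (nat_lit 79735866554) (nat_lit 456) (nat_lit 10322134091) (nat_lit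 532) (nat_lit 50028410672) (nat_lit 143) (nat_lit 5) (nat_lit 149) (nat_lit 5) (nat_lit 150) (nat_lit 5) (nat_lit 341) (nat_lit 322) (nat_lit 117)) (XT.lf (nat_lit 0) (nat_lit 57504344624) (nat_lit 456) (nat_lit 64097303999) (nat_lit 532) (nat_lit 22653610419) (nat_lit 137) (nat_lit 5) (nat_lit 143) (nat_lit 5) (nat_lit 144) (nat_lit 5) (nat_lit 342) (nat_lit 322) (nat_lit 116)))) (XT.nd (nat_lit 156) (nat_lit 380) (nat_lit 0) (XT.nd (nat_lit 78) (nat_lit 456) (nat_lit 0) (XT.lf (nat_lit 0) (nat_lit 7296024200) (nat_lit 456) (nat_lit 114460877836) (nat_lit 76) (nat_lit 26834143338) (nat_lit 131) (nat_lit 5) (nat_lit 137) (nat_lit 5) (nat_lit 132) (nat_lit 5) (nat_lit 343) (nat_lit 322) (nat_lit 115)) (XT.lf (nat_lit 0) (nat_lit 9042841718) (nat_lit 456) (nat_lit 30871474199) (nat_lit 532) (nat_lit 113173386040) (nat_lit 125) (nat_lit 5) (nat_lit 131) (nat_lit 5) (nat_lit 132) (nat_lit 5)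 (nat_lit 344) (nat_lit 322) (nat_lit 114))) (XT.nd (nat_lit 78) (nat_lit 380) (nat_lit 0) (XT.lf (nat_lit 0) (nat_lit 75973640029) (nat_lit 532) (nat_lit 17292925916) (nat_lit 76) (nat_lit 64488322207) (nat_lit 125) (nat_lit 5) (nat_lit 132) (nat_lit 5) (nat_lit 126) (nat_lit 5) (nat_lit 345) (nat_lit 322) (nat_lit 113)) (XT.lf (nat_lit 0) (nat_lit 115303414559) (nat_lit 456) (nat_lit 44853279746) (nat_lit 76) (nat_lit 2454715127) (nat_lit 120) (nat_lit 5) (nat_lit 126) (nat_lit 5) (nat_lit 121) (nat_lit 5) (nat_lit 346) (nat_lit 322) (nat_lit 112))))) (XT.nd (nat_lit 38922) (nat_lit 0) (nat_lit 6916) (XT.nd (nat_lit 38766) (nat_lit 0) (nat_lit 6840) (XT.lf (nat_lit 0) (nat_lit 93090641823) (nat_lit 380) (nat_lit 65524656594) (nat_lit 456) (nat_lit 9034990030) (nat_lit 115) (nat_lit 5) (nat_lit 120) (nat_lit 5) (nat_lit 121) (nat_lit 5) (nat_lit 347) (nat_lit 322) (nat_lit 111)) (XT.nd (nat_lit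 78) (nat_lit 0) (nat_lit 0) (XT.lf (nat_lit 0) (nat_lit 15435744338) (nat_lit 0) (nat_lit 15435744338) (nat_lit 1140) (nat_lit 13300364697) (nat_lit 205) (nat_lit 5) (nat_lit 205) (nat_lit 3) (nat_lit 220) (nat_lit 3) (nat_lit 323) (nat_lit 323) (nat_lit 134)) (XT.lf (nat_lit 76) (nat_lit 9903466796) (nat_lit 0) (nat_lit 53850251380) (nat_lit 1216) (nat_lit 26784552580) (nat_lit 206) (nat_lit 5) (nat_lit 205) (nat_lit 5) (nat_lit 221) (nat_lit 5) (nat_lit 324) (nat_lit 323) (nat_lit 133)))) (XT.nd (nat_lit 156) (nat_lit 0) (nat_lit 76) (XT.nd (nat_lit 78) (nat_lit 0) (nat_lit 0) (XT.lf (nat_lit 0) (nat_lit 66906257420) (nat_lit 1140) (nat_lit 11426848440) (nat_lit 1216) (nat_lit 14478220136) (nat_lit 206) (nat_lit 5) (nat_lit 221) (nat_lit 5) (nat_lit 222) (nat_lit 5) (nat_lit 325) (nat_lit 323) (nat_lit 132)) (XT.lf (nat_lit 76) (nat_lit 61905511911) (nat_lit 0) (nat_lit 9448706512) (nat_lit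 1216) (nat_lit 23809682565) (nat_lit 207) (nat_lit 5) (nat_lit 206) (nat_lit 5) (nat_lit 222) (nat_lit 5) (nat_lit 326) (nat_lit 323) (nat_lit 131))) (XT.nd (nat_lit 78) (nat_lit 0) (nat_lit 76) (XT.lf (nat_lit 76) (nat_lit 41720736718) (nat_lit 0) (nat_lit 35427354516) (nat_lit 1216) (nat_lit 20452308877) (nat_lit 208) (nat_lit 5) (nat_lit 207) (nat_lit 5) (nat_lit 223) (nat_lit 5) (nat_lit 327) (nat_lit 323) (nat_lit 130)) (XT.lf (nat_lit 76) (nat_lit 20949949073) (nat_lit 0) (nat_lit 63278461225) (nat_lit 1216) (nat_lit 15900412068) (nat_lit 209) (nat_lit 5) (nat_lit 208) (nat_lit 5) (nat_lit 224) (nat_lit 5) (nat_lit 328) (nat_lit 323) (nat_lit 129))))))) (XT.nd (nat_lit 1092) (nat_lit 1748) (nat_lit 0) (XT.nd (nat_lit 546) (nat_lit 3268) (nat_lit 0) (XT.nd (nat_lit 234) (nat_lit 608) (nat_lit 0) (XT.nd (nat_lit 78) (nat_lit 1140) (nat_lit 0) (XT.lf (nat_lit 0) (nat_lit 92685860962) (nat_lit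 1140) (nat_lit 426732085) (nat_lit 1216) (nat_lit 9640379938) (nat_lit 209) (nat_lit 5) (nat_lit 224) (nat_lit 5) (nat_lit 225) (nat_lit 5) (nat_lit 329) (nat_lit 323) (nat_lit 128)) (XT.nd (nat_lit 78) (nat_lit 1140) (nat_lit 0) (XT.lf (nat_lit 76) (nat_lit 83248326551) (nat_lit 0) (nat_lit 19756110766) (nat_lit 1216) (nat_lit 2460746910) (nat_lit 210) (nat_lit 5) (nat_lit 209) (nat_lit 5) (nat_lit 225) (nat_lit 5) (nat_lit 330) (nat_lit 323) (nat_lit 127)) (XT.lf (nat_lit 0) (nat_lit 6594247538) (nat_lit 1216) (nat_lit 44851624200) (nat_lit 1292) (nat_lit 56830257106) (nat_lit 194) (nat_lit 5) (nat_lit 210) (nat_lit 5) (nat_lit 211) (nat_lit 5) (nat_lit 331) (nat_lit 323) (nat_lit 126)))) (XT.nd (nat_lit 156) (nat_lit 684) (nat_lit 0) (XT.nd (nat_lit 78) (nat_lit 0) (nat_lit 0) (XT.lf (nat_lit 0) (nat_lit 17149580233) (nat_lit 1216) (nat_lit 68246852690) (nat_lit 1292) (nat_lit 25797503040)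 (nat_lit 195) (nat_lit 5) (nat_lit 211) (nat_lit 5) (nat_lit 212) (nat_lit 5) (nat_lit 332) (nat_lit 323) (nat_lit 125)) (XT.lf (nat_lit 76) (nat_lit 21728901350) (nat_lit 0) (nat_lit 7697593099) (nat_lit 1292) (nat_lit 84795325119) (nat_lit 196) (nat_lit 5) (nat_lit 195) (nat_lit 5) (nat_lit 212) (nat_lit 5) (nat_lit 333) (nat_lit 323) (nat_lit 124))) (XT.nd (nat_lit 78) (nat_lit 760) (nat_lit 0) (XT.lf (nat_lit 0) (nat_lit 43736423533) (nat_lit 1216) (nat_lit 468110699) (nat_lit 76) (nat_lit 73153988594) (nat_lit 196) (nat_lit 5) (nat_lit 212) (nat_lit 5) (nat_lit 197) (nat_lit 5) (nat_lit 334) (nat_lit 323) (nat_lit 123)) (XT.lf (nat_lit 0) (nat_lit 60148268584) (nat_lit 836) (nat_lit 22996848863) (nat_lit 76) (nat_lit 37465351737) (nat_lit 186) (nat_lit 5) (nat_lit 197) (nat_lit 5) (nat_lit 187) (nat_lit 5) (nat_lit 335) (nat_lit 323) (nat_lit 122))))) (XT.nd (nat_lit 234) (nat_lit 1596)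 (nat_lit 0) (XT.nd (nat_lit 78) (nat_lit 1064) (nat_lit 0) (XT.lf (nat_lit 0) (nat_lit 77652950158) (nat_lit 608) (nat_lit 924718774) (nat_lit 684) (nat_lit 45411435531) (nat_lit 178) (nat_lit 5) (nat_lit 186) (nat_lit 5) (nat_lit 187) (nat_lit 5) (nat_lit 336) (nat_lit 323) (nat_lit 121)) (XT.nd (nat_lit 78) (nat_lit 532) (nat_lit 0) (XT.lf (nat_lit 0) (nat_lit 56566244266) (nat_lit 532) (nat_lit 42965604370) (nat_lit 608) (nat_lit 27956724065) (nat_lit 171) (nat_lit 5) (nat_lit 178) (nat_lit 5) (nat_lit 179) (nat_lit 5) (nat_lit 337) (nat_lit 323) (nat_lit 120)) (XT.lf (nat_lit 0) (nat_lit 34681738378) (nat_lit 532) (nat_lit 88089788417) (nat_lit 608) (nat_lit 8354354321) (nat_lit 164) (nat_lit 5) (nat_lit 171) (nat_lit 5) (nat_lit 172) (nat_lit 5) (nat_lit 338) (nat_lit 323) (nat_lit 119)))) (XT.nd (nat_lit 156) (nat_lit 988) (nat_lit 0) (XT.nd (nat_lit 78) (nat_lit 0) (nat_lit 0) (XT.lf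 (nat_lit 0) (nat_lit 11796200533) (nat_lit 532) (nat_lit 1477219421) (nat_lit 608) (nat_lit 121629592056) (nat_lit 156) (nat_lit 5) (nat_lit 163) (nat_lit 5) (nat_lit 164) (nat_lit 5) (nat_lit 339) (nat_lit 323) (nat_lit 118)) (XT.lf (nat_lit 0) (nat_lit 37673599728) (nat_lit 608) (nat_lit 12329884267) (nat_lit 76) (nat_lit 88807120430) (nat_lit 156) (nat_lit 5) (nat_lit 164) (nat_lit 5) (nat_lit 157) (nat_lit 5) (nat_lit 340) (nat_lit 323) (nat_lit 117))) (XT.nd (nat_lit 78) (nat_lit 456) (nat_lit 0) (XT.lf (nat_lit 0) (nat_lit 64728554015) (nat_lit 608) (nat_lit 37243781074) (nat_lit 76) (nat_lit 40898198784) (nat_lit 149) (nat_lit 5) (nat_lit 157) (nat_lit 5) (nat_lit 150) (nat_lit 5) (nat_lit 341) (nat_lit 323) (nat_lit 116)) (XT.lf (nat_lit 0) (nat_lit 83736829466) (nat_lit 456) (nat_lit 10836825175) (nat_lit 532) (nat_lit 52516683554) (nat_lit 143) (nat_lit 5) (nat_lit 149) (nat_lit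 5) (nat_lit 150) (nat_lit 5) (nat_lit 342) (nat_lit 323) (nat_lit 115)))))) (XT.nd (nat_lit 39312) (nat_lit 0) (nat_lit 5624) (XT.nd (nat_lit 234) (nat_lit 380) (nat_lit 0) (XT.nd (nat_lit 78) (nat_lit 912) (nat_lit 0) (XT.lf (nat_lit 0) (nat_lit 60393694455) (nat_lit 456) (nat_lit 67300332041) (nat_lit 532) (nat_lit 23773616092) (nat_lit 137) (nat_lit 5) (nat_lit 143) (nat_lit 5) (nat_lit 144) (nat_lit 5) (nat_lit 343) (nat_lit 323) (nat_lit 114)) (XT.nd (nat_lit 78) (nat_lit 456) (nat_lit 0) (XT.lf (nat_lit 0) (nat_lit 7672814800) (nat_lit 456) (nat_lit 120169594500) (nat_lit 76) (nat_lit 28177818915) (nat_lit 131) (nat_lit 5) (nat_lit 137) (nat_lit 5) (nat_lit 132) (nat_lit 5) (nat_lit 344) (nat_lit 323) (nat_lit 113)) (XT.lf (nat_lit 0) (nat_lit 9508900345) (nat_lit 456) (nat_lit 32412683609) (nat_lit 532) (nat_lit 118820147251) (nat_lit 125) (nat_lit 5) (nat_lit 131) (nat_lit 5) (nat_lit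 132) (nat_lit 5) (nat_lit 345) (nat_lit 323) (nat_lit 112)))) (XT.nd (nat_lit 38922) (nat_lit 0) (nat_lit 6460) (XT.nd (nat_lit 78) (nat_lit 380) (nat_lit 0) (XT.lf (nat_lit 0) (nat_lit 79783345809) (nat_lit 532) (nat_lit 18144001103) (nat_lit 76) (nat_lit 67714946093) (nat_lit 125) (nat_lit 5) (nat_lit 132) (nat_lit 5) (nat_lit 126) (nat_lit 5) (nat_lit 346) (nat_lit 323) (nat_lit 111)) (XT.lf (nat_lit 0) (nat_lit 121079235414) (nat_lit 456) (nat_lit 47082459026) (nat_lit 76) (nat_lit 2579957540) (nat_lit 120) (nat_lit 5) (nat_lit 126) (nat_lit 5) (nat_lit 121) (nat_lit 5) (nat_lit 347) (nat_lit 323) (nat_lit 110))) (XT.nd (nat_lit 78) (nat_lit 0) (nat_lit 0) (XT.lf (nat_lit 0) (nat_lit 16214035922) (nat_lit 0) (nat_lit 16214035922) (nat_lit 1140) (nat_lit 13951970479) (nat_lit 205) (nat_lit 5) (nat_lit 205) (nat_lit 3) (nat_lit 220) (nat_lit 3) (nat_lit 324) (nat_lit 324) (nat_lit 132))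 (XT.lf (nat_lit 76) (nat_lit 10412181734) (nat_lit 0) (nat_lit 56554011967) (nat_lit 1216) (nat_lit 28098221270) (nat_lit 206) (nat_lit 5) (nat_lit 205) (nat_lit 5) (nat_lit 221) (nat_lit 5) (nat_lit 325) (nat_lit 324) (nat_lit 131))))) (XT.nd (nat_lit 312) (nat_lit 912) (nat_lit 0) (XT.nd (nat_lit 156) (nat_lit 0) (nat_lit 76) (XT.nd (nat_lit 78) (nat_lit 0) (nat_lit 0) (XT.lf (nat_lit 0) (nat_lit 70275076476) (nat_lit 1140) (nat_lit 11984458440) (nat_lit 1216) (nat_lit 15191627781) (nat_lit 206) (nat_lit 5) (nat_lit 221) (nat_lit 5) (nat_lit 222) (nat_lit 5) (nat_lit 326) (nat_lit 324) (nat_lit 130)) (XT.lf (nat_lit 76) (nat_lit 65014126291) (nat_lit 0) (nat_lit 9930318116) (nat_lit 1216) (nat_lit 24976952928) (nat_lit 207) (nat_lit 5) (nat_lit 206) (nat_lit 5) (nat_lit 222) (nat_lit 5) (nat_lit 327) (nat_lit 324) (nat_lit 129))) (XT.nd (nat_lit 78) (nat_lit 0) (nat_lit 76) (XT.lf (nat_lit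 76) (nat_lit 43820494338) (nat_lit 0) (nat_lit 37206492259) (nat_lit 1216) (nat_lit 21452766651) (nat_lit 208) (nat_lit 5) (nat_lit 207) (nat_lit 5) (nat_lit 223) (nat_lit 5) (nat_lit 328) (nat_lit 324) (nat_lit 128)) (XT.lf (nat_lit 76) (nat_lit 22011494308) (nat_lit 0) (nat_lit 66448867838) (nat_lit 1216) (nat_lit 16674264310) (nat_lit 209) (nat_lit 5) (nat_lit 208) (nat_lit 5) (nat_lit 224) (nat_lit 5) (nat_lit 329) (nat_lit 324) (nat_lit 127)))) (XT.nd (nat_lit 156) (nat_lit 1140) (nat_lit 0) (XT.nd (nat_lit 78) (nat_lit 0) (nat_lit 0) (XT.lf (nat_lit 0) (nat_lit 97339648305) (nat_lit 1140) (nat_lit 434023800) (nat_lit 1216) (nat_lit 10116344617) (nat_lit 209) (nat_lit 5) (nat_lit 224) (nat_lit 5) (nat_lit 225) (nat_lit 5) (nat_lit 330) (nat_lit 324) (nat_lit 126)) (XT.lf (nat_lit 76) (nat_lit 87424385175) (nat_lit 0) (nat_lit 20748971141) (nat_lit 1216) (nat_lit 2564507080) (nat_lit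 210) (nat_lit 5) (nat_lit 209) (nat_lit 5) (nat_lit 225) (nat_lit 5) (nat_lit 331) (nat_lit 324) (nat_lit 125))) (XT.nd (nat_lit 78) (nat_lit 0) (nat_lit 76) (XT.lf (nat_lit 0) (nat_lit 6942048708) (nat_lit 1216) (nat_lit 47079965866) (nat_lit 1292) (nat_lit 59667360361) (nat_lit 194) (nat_lit 5) (nat_lit 210) (nat_lit 5) (nat_lit 211) (nat_lit 5) (nat_lit 332) (nat_lit 324) (nat_lit 124)) (XT.lf (nat_lit 0) (nat_lit 18024385699) (nat_lit 1216) (nat_lit 71644792376) (nat_lit 1292) (nat_lit 27083918048) (nat_lit 195) (nat_lit 5) (nat_lit 211) (nat_lit 5) (nat_lit 212) (nat_lit 5) (nat_lit 333) (nat_lit 324) (nat_lit 123))))))))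
noncomputable def xc125 : XT := (XT.nd (nat_lit 41106) (nat_lit 0) (nat_lit 456) (XT.nd (nat_lit 40014) (nat_lit 0) (nat_lit 3496) (XT.nd (nat_lit 546) (nat_lit 2356) (nat_lit 0) (XT.nd (nat_lit 234) (nat_lit 2280) (nat_lit 0) (XT.nd (nat_lit 78) (nat_lit 684) (nat_lit 0) (XT.lf (nat_lit 76) (nat_lit 22829336509) (nat_lit 0) (nat_lit 8085118530) (nat_lit 1292) (nat_lit 89017940390) (nat_lit 196) (nat_lit 5) (nat_lit 195) (nat_lit 5) (nat_lit 212) (nat_lit 5) (nat_lit 334) (nat_lit 324) (nat_lit 122)) (XT.nd (nat_lit 78) (nat_lit 760) (nat_lit 0) (XT.lf (nat_lit 0) (nat_lit 45939064171) (nat_lit 1216) (nat_lit 477677527) (nat_lit 76) (nat_lit 76809217408) (nat_lit 196) (nat_lit 5) (nat_lit 212) (nat_lit 5) (nat_lit 197) (nat_lit 5) (nat_lit 335) (nat_lit 324) (nat_lit 121)) (XT.lf (nat_lit 0) (nat_lit 63170860525) (nat_lit 836) (nat_lit 24132762017) (nat_lit 76) (nat_lit 39336900195) (nat_lit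 186) (nat_lit 5) (nat_lit 197) (nat_lit 5) (nat_lit 187) (nat_lit 5) (nat_lit 336) (nat_lit 324) (nat_lit 120)))) (XT.nd (nat_lit 156) (nat_lit 1140) (nat_lit 0) (XT.nd (nat_lit 78) (nat_lit 532) (nat_lit 0) (XT.lf (nat_lit 0) (nat_lit 81549127675) (nat_lit 608) (nat_lit 972010489) (nat_lit 684) (nat_lit 47666970091) (nat_lit 178) (nat_lit 5) (nat_lit 186) (nat_lit 5) (nat_lit 187) (nat_lit 5) (nat_lit 337) (nat_lit 324) (nat_lit 119)) (XT.lf (nat_lit 0) (nat_lit 59408147002) (nat_lit 532) (nat_lit 45114306263) (nat_lit 608) (nat_lit 29340114506) (nat_lit 171) (nat_lit 5) (nat_lit 178) (nat_lit 5) (nat_lit 179) (nat_lit 5) (nat_lit 338) (nat_lit 324) (nat_lit 118))) (XT.nd (nat_lit 78) (nat_lit 608) (nat_lit 0) (XT.lf (nat_lit 0) (nat_lit 36429451323) (nat_lit 532) (nat_lit 92494123883) (nat_lit 608) (nat_lit 8758183234) (nat_lit 164) (nat_lit 5) (nat_lit 171) (nat_lit 5) (nat_lit 172) (nat_lit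 5) (nat_lit 339) (nat_lit 324) (nat_lit 117)) (XT.lf (nat_lit 0) (nat_lit 12399521104) (nat_lit 532) (nat_lit 1550669036) (nat_lit 608) (nat_lit 127697567872) (nat_lit 156) (nat_lit 5) (nat_lit 163) (nat_lit 5) (nat_lit 164) (nat_lit 5) (nat_lit 340) (nat_lit 324) (nat_lit 116))))) (XT.nd (nat_lit 234) (nat_lit 1368) (nat_lit 0) (XT.nd (nat_lit 78) (nat_lit 988) (nat_lit 0) (XT.lf (nat_lit 0) (nat_lit 39569758898) (nat_lit 608) (nat_lit 12933129730) (nat_lit 76) (nat_lit 93247860575) (nat_lit 156) (nat_lit 5) (nat_lit 164) (nat_lit 5) (nat_lit 157) (nat_lit 5) (nat_lit 341) (nat_lit 324) (nat_lit 115)) (XT.nd (nat_lit 78) (nat_lit 456) (nat_lit 0) (XT.lf (nat_lit 0) (nat_lit 67976998627) (nat_lit 608) (nat_lit 39092738619) (nat_lit 76) (nat_lit 42943952272) (nat_lit 149) (nat_lit 5) (nat_lit 157) (nat_lit 5) (nat_lit 150) (nat_lit 5) (nat_lit 342) (nat_lit 324) (nat_lit 114)) (XT.lf (nat_lit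 0) (nat_lit 87936523169) (nat_lit 456) (nat_lit 11377382425) (nat_lit 532) (nat_lit 55130592424) (nat_lit 143) (nat_lit 5) (nat_lit 149) (nat_lit 5) (nat_lit 150) (nat_lit 5) (nat_lit 343) (nat_lit 324) (nat_lit 113)))) (XT.nd (nat_lit 156) (nat_lit 456) (nat_lit 0) (XT.nd (nat_lit 78) (nat_lit 456) (nat_lit 0) (XT.lf (nat_lit 0) (nat_lit 63426197864) (nat_lit 456) (nat_lit 70663682288) (nat_lit 532) (nat_lit 24950800436) (nat_lit 137) (nat_lit 5) (nat_lit 143) (nat_lit 5) (nat_lit 144) (nat_lit 5) (nat_lit 344) (nat_lit 324) (nat_lit 112)) (XT.lf (nat_lit 0) (nat_lit 8067330270) (nat_lit 456) (nat_lit 126165079007) (nat_lit 76) (nat_lit 29588495265) (nat_lit 131) (nat_lit 5) (nat_lit 137) (nat_lit 5) (nat_lit 132) (nat_lit 5) (nat_lit 345) (nat_lit 324) (nat_lit 111))) (XT.nd (nat_lit 39000) (nat_lit 0) (nat_lit 6080) (XT.lf (nat_lit 0) (nat_lit 9996968075) (nat_lit 456) (nat_lit 34031173300)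 (nat_lit 532) (nat_lit 124750353623) (nat_lit 125) (nat_lit 5) (nat_lit 131) (nat_lit 5) (nat_lit 132) (nat_lit 5) (nat_lit 346) (nat_lit 324) (nat_lit 110)) (XT.lf (nat_lit 0) (nat_lit 17030637370) (nat_lit 0) (nat_lit 17030637370) (nat_lit 1140) (nat_lit 14637403513) (nat_lit 205) (nat_lit 5) (nat_lit 205) (nat_lit 3) (nat_lit 220) (nat_lit 3) (nat_lit 325) (nat_lit 325) (nat_lit 130)))))) (XT.nd (nat_lit 546) (nat_lit 2584) (nat_lit 0) (XT.nd (nat_lit 234) (nat_lit 0) (nat_lit 152) (XT.nd (nat_lit 78) (nat_lit 0) (nat_lit 76) (XT.lf (nat_lit 76) (nat_lit 10945073450) (nat_lit 0) (nat_lit 59391914850) (nat_lit 1216) (nat_lit 29479949623) (nat_lit 206) (nat_lit 5) (nat_lit 205) (nat_lit 5) (nat_lit 221) (nat_lit 5) (nat_lit 326) (nat_lit 325) (nat_lit 129)) (XT.nd (nat_lit 78) (nat_lit 0) (nat_lit 0) (XT.lf (nat_lit 0) (nat_lit 73810151102) (nat_lit 1140) (nat_lit 12571225651) (nat_lit 1216)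 (nat_lit 15941682312) (nat_lit 206) (nat_lit 5) (nat_lit 221) (nat_lit 5) (nat_lit 222) (nat_lit 5) (nat_lit 327) (nat_lit 325) (nat_lit 128)) (XT.lf (nat_lit 76) (nat_lit 68276931276) (nat_lit 0) (nat_lit 10435157177) (nat_lit 1216) (nat_lit 26204745005) (nat_lit 207) (nat_lit 5) (nat_lit 206) (nat_lit 5) (nat_lit 222) (nat_lit 5) (nat_lit 328) (nat_lit 325) (nat_lit 127)))) (XT.nd (nat_lit 156) (nat_lit 0) (nat_lit 152) (XT.nd (nat_lit 78) (nat_lit 0) (nat_lit 76) (XT.lf (nat_lit 76) (nat_lit 46023964211) (nat_lit 0) (nat_lit 39073864507) (nat_lit 1216) (nat_lit 22505307324) (nat_lit 208) (nat_lit 5) (nat_lit 207) (nat_lit 5) (nat_lit 223) (nat_lit 5) (nat_lit 329) (nat_lit 325) (nat_lit 126)) (XT.lf (nat_lit 76) (nat_lit 23124810776) (nat_lit 0) (nat_lit 69777192002) (nat_lit 1216) (nat_lit 17488777197) (nat_lit 209) (nat_lit 5) (nat_lit 208) (nat_lit 5) (nat_lit 224) (nat_lit 5) (nat_lit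 330) (nat_lit 325) (nat_lit 125))) (XT.nd (nat_lit 78) (nat_lit 0) (nat_lit 0) (XT.lf (nat_lit 0) (nat_lit 102224312620) (nat_lit 1140) (nat_lit 442985861) (nat_lit 1216) (nat_lit 10616670403) (nat_lit 209) (nat_lit 5) (nat_lit 224) (nat_lit 5) (nat_lit 225) (nat_lit 5) (nat_lit 331) (nat_lit 325) (nat_lit 124)) (XT.lf (nat_lit 76) (nat_lit 91807978398) (nat_lit 0) (nat_lit 21791004584) (nat_lit 1216) (nat_lit 2675247468) (nat_lit 210) (nat_lit 5) (nat_lit 209) (nat_lit 5) (nat_lit 225) (nat_lit 5) (nat_lit 332) (nat_lit 325) (nat_lit 123))))) (XT.nd (nat_lit 234) (nat_lit 1748) (nat_lit 0) (XT.nd (nat_lit 78) (nat_lit 0) (nat_lit 76) (XT.lf (nat_lit 0) (nat_lit 7305558212) (nat_lit 1216) (nat_lit 49421048474) (nat_lit 1292) (nat_lit 62646728742) (nat_lit 194) (nat_lit 5) (nat_lit 210) (nat_lit 5) (nat_lit 211) (nat_lit 5) (nat_lit 333) (nat_lit 325) (nat_lit 122)) (XT.nd (nat_lit 78) (nat_lit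 0) (nat_lit 0) (XT.lf (nat_lit 0) (nat_lit 18941320590) (nat_lit 1216) (nat_lit 75213968096) (nat_lit 1292) (nat_lit 28434975498) (nat_lit 195) (nat_lit 5) (nat_lit 211) (nat_lit 5) (nat_lit 212) (nat_lit 5) (nat_lit 334) (nat_lit 325) (nat_lit 121)) (XT.lf (nat_lit 76) (nat_lit 23983492760) (nat_lit 0) (nat_lit 8491774252) (nat_lit 1292) (nat_lit 93453280961) (nat_lit 196) (nat_lit 5) (nat_lit 195) (nat_lit 5) (nat_lit 212) (nat_lit 5) (nat_lit 335) (nat_lit 325) (nat_lit 120)))) (XT.nd (nat_lit 156) (nat_lit 1140) (nat_lit 0) (XT.nd (nat_lit 78) (nat_lit 760) (nat_lit 0) (XT.lf (nat_lit 0) (nat_lit 48250366097) (nat_lit 1216) (nat_lit 489009288) (nat_lit 76) (nat_lit 80647437357) (nat_lit 196) (nat_lit 5) (nat_lit 212) (nat_lit 5) (nat_lit 197) (nat_lit 5) (nat_lit 336) (nat_lit 325) (nat_lit 119)) (XT.lf (nat_lit 0) (nat_lit 66343170909) (nat_lit 836) (nat_lit 25326765842) (nat_lit 76)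 (nat_lit 41302185904) (nat_lit 186) (nat_lit 5) (nat_lit 197) (nat_lit 5) (nat_lit 187) (nat_lit 5) (nat_lit 337) (nat_lit 325) (nat_lit 118))) (XT.nd (nat_lit 78) (nat_lit 532) (nat_lit 0) (XT.lf (nat_lit 0) (nat_lit 85638856176) (nat_lit 608) (nat_lit 1021568633) (nat_lit 684) (nat_lit 50036679398) (nat_lit 178) (nat_lit 5) (nat_lit 186) (nat_lit 5) (nat_lit 187) (nat_lit 5) (nat_lit 338) (nat_lit 325) (nat_lit 117)) (XT.lf (nat_lit 0) (nat_lit 62390881357) (nat_lit 532) (nat_lit 47370404048) (nat_lit 608) (nat_lit 30794017500) (nat_lit 171) (nat_lit 5) (nat_lit 178) (nat_lit 5) (nat_lit 179) (nat_lit 5) (nat_lit 339) (nat_lit 325) (nat_lit 116))))))) (XT.nd (nat_lit 40092) (nat_lit 0) (nat_lit 912) (XT.nd (nat_lit 39546) (nat_lit 0) (nat_lit 5624) (XT.nd (nat_lit 234) (nat_lit 1900) (nat_lit 0) (XT.nd (nat_lit 78) (nat_lit 608) (nat_lit 0) (XT.lf (nat_lit 0) (nat_lit 38263283097) (nat_lit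 532) (nat_lit 97118690436) (nat_lit 608) (nat_lit 9183494841) (nat_lit 164) (nat_lit 5) (nat_lit 171) (nat_lit 5) (nat_lit 172) (nat_lit 5) (nat_lit 340) (nat_lit 325) (nat_lit 115)) (XT.nd (nat_lit 78) (nat_lit 0) (nat_lit 0) (XT.lf (nat_lit 0) (nat_lit 13031751622) (nat_lit 532) (nat_lit 1627829376) (nat_lit 608) (nat_lit 134070197933) (nat_lit 156) (nat_lit 5) (nat_lit 163) (nat_lit 5) (nat_lit 164) (nat_lit 5) (nat_lit 341) (nat_lit 325) (nat_lit 114)) (XT.lf (nat_lit 0) (nat_lit 41559565830) (nat_lit 608) (nat_lit 13567769209) (nat_lit 76) (nat_lit 97910602014) (nat_lit 156) (nat_lit 5) (nat_lit 164) (nat_lit 5) (nat_lit 157) (nat_lit 5) (nat_lit 342) (nat_lit 325) (nat_lit 113)))) (XT.nd (nat_lit 156) (nat_lit 912) (nat_lit 0) (XT.nd (nat_lit 78) (nat_lit 456) (nat_lit 0) (XT.lf (nat_lit 0) (nat_lit 71386748251) (nat_lit 608) (nat_lit 41035374181) (nat_lit 76) (nat_lit 45091915009)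 (nat_lit 149) (nat_lit 5) (nat_lit 157) (nat_lit 5) (nat_lit 150) (nat_lit 5) (nat_lit 343) (nat_lit 325) (nat_lit 112)) (XT.lf (nat_lit 0) (nat_lit 92345006680) (nat_lit 456) (nat_lit 11945086912) (nat_lit 532) (nat_lit 57876305440) (nat_lit 143) (nat_lit 5) (nat_lit 149) (nat_lit 5) (nat_lit 150) (nat_lit 5) (nat_lit 344) (nat_lit 325) (nat_lit 111))) (XT.nd (nat_lit 78) (nat_lit 456) (nat_lit 0) (XT.lf (nat_lit 0) (nat_lit 66609134682) (nat_lit 456) (nat_lit 74195354968) (nat_lit 532) (nat_lit 26187912828) (nat_lit 137) (nat_lit 5) (nat_lit 143) (nat_lit 5) (nat_lit 144) (nat_lit 5) (nat_lit 345) (nat_lit 325) (nat_lit 110)) (XT.lf (nat_lit 0) (nat_lit 8480560484) (nat_lit 456) (nat_lit 132461545911) (nat_lit 76) (nat_lit 31069539444) (nat_lit 131) (nat_lit 5) (nat_lit 137) (nat_lit 5) (nat_lit 132) (nat_lit 5) (nat_lit 346) (nat_lit 325) (nat_lit 109))))) (XT.nd (nat_lit 234) (nat_lit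 0) (nat_lit 76) (XT.nd (nat_lit 78) (nat_lit 0) (nat_lit 0) (XT.lf (nat_lit 0) (nat_lit 17887520398) (nat_lit 0) (nat_lit 17887520398) (nat_lit 1140) (nat_lit 15358239231) (nat_lit 205) (nat_lit 5) (nat_lit 205) (nat_lit 3) (nat_lit 220) (nat_lit 3) (nat_lit 326) (nat_lit 326) (nat_lit 128)) (XT.nd (nat_lit 78) (nat_lit 0) (nat_lit 76) (XT.lf (nat_lit 76) (nat_lit 11503467828) (nat_lit 0) (nat_lit 62370764365) (nat_lit 1216) (nat_lit 30932919702) (nat_lit 206) (nat_lit 5) (nat_lit 205) (nat_lit 5) (nat_lit 221) (nat_lit 5) (nat_lit 327) (nat_lit 326) (nat_lit 127)) (XT.lf (nat_lit 0) (nat_lit 77519997254) (nat_lit 1140) (nat_lit 13188489236) (nat_lit 1216) (nat_lit 16730125287) (nat_lit 206) (nat_lit 5) (nat_lit 221) (nat_lit 5) (nat_lit 222) (nat_lit 5) (nat_lit 328) (nat_lit 326) (nat_lit 126)))) (XT.nd (nat_lit 156) (nat_lit 0) (nat_lit 152) (XT.nd (nat_lit 78) (nat_lit 0) (nat_lit 76)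 (XT.lf (nat_lit 76) (nat_lit 71701751691) (nat_lit 0) (nat_lit 10964464383) (nat_lit 1216) (nat_lit 27495884233) (nat_lit 207) (nat_lit 5) (nat_lit 206) (nat_lit 5) (nat_lit 222) (nat_lit 5) (nat_lit 329) (nat_lit 326) (nat_lit 125)) (XT.lf (nat_lit 76) (nat_lit 48336450545) (nat_lit 0) (nat_lit 41033950145) (nat_lit 1216) (nat_lit 23612343521) (nat_lit 208) (nat_lit 5) (nat_lit 207) (nat_lit 5) (nat_lit 223) (nat_lit 5) (nat_lit 330) (nat_lit 326) (nat_lit 124))) (XT.nd (nat_lit 78) (nat_lit 0) (nat_lit 76) (XT.lf (nat_lit 76) (nat_lit 24292608460) (nat_lit 0) (nat_lit 73271385636) (nat_lit 1216) (nat_lit 18345800793) (nat_lit 209) (nat_lit 5) (nat_lit 208) (nat_lit 5) (nat_lit 224) (nat_lit 5) (nat_lit 331) (nat_lit 326) (nat_lit 123)) (XT.lf (nat_lit 0) (nat_lit 107351566255) (nat_lit 1140) (nat_lit 453580388) (nat_lit 1216) (nat_lit 11142523021) (nat_lit 209) (nat_lit 5) (nat_lit 224)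 (nat_lit 5) (nat_lit 225) (nat_lit 5) (nat_lit 332) (nat_lit 326) (nat_lit 122)))))) (XT.nd (nat_lit 546) (nat_lit 2660) (nat_lit 0) (XT.nd (nat_lit 234) (nat_lit 1216) (nat_lit 0) (XT.nd (nat_lit 78) (nat_lit 1140) (nat_lit 0) (XT.lf (nat_lit 76) (nat_lit 96409600868) (nat_lit 0) (nat_lit 22884713441) (nat_lit 1216) (nat_lit 2793150462) (nat_lit 210) (nat_lit 5) (nat_lit 209) (nat_lit 5) (nat_lit 225) (nat_lit 5) (nat_lit 333) (nat_lit 326) (nat_lit 121)) (XT.nd (nat_lit 78) (nat_lit 0) (nat_lit 76) (XT.lf (nat_lit 0) (nat_lit 7685717817) (nat_lit 1216) (nat_lit 51880385989) (nat_lit 1292) (nat_lit 65775437391) (nat_lit 194) (nat_lit 5) (nat_lit 210) (nat_lit 5) (nat_lit 211) (nat_lit 5) (nat_lit 334) (nat_lit 326) (nat_lit 120)) (XT.lf (nat_lit 0) (nat_lit 19902641136) (nat_lit 1216) (nat_lit 78962817159) (nat_lit 1292) (nat_lit 29853877604) (nat_lit 195) (nat_lit 5) (nat_lit 211) (nat_lit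 5) (nat_lit 212) (nat_lit 5) (nat_lit 335) (nat_lit 326) (nat_lit 119)))) (XT.nd (nat_lit 156) (nat_lit 1292) (nat_lit 0) (XT.nd (nat_lit 78) (nat_lit 0) (nat_lit 76) (XT.lf (nat_lit 76) (nat_lit 25194177080) (nat_lit 0) (nat_lit 8918539651) (nat_lit 1292) (nat_lit 98111834851) (nat_lit 196) (nat_lit 5) (nat_lit 195) (nat_lit 5) (nat_lit 212) (nat_lit 5) (nat_lit 336) (nat_lit 326) (nat_lit 118)) (XT.lf (nat_lit 0) (nat_lit 50675899111) (nat_lit 1216) (nat_lit 502074614) (nat_lit 76) (nat_lit 84677776642) (nat_lit 196) (nat_lit 5) (nat_lit 212) (nat_lit 5) (nat_lit 197) (nat_lit 5) (nat_lit 337) (nat_lit 326) (nat_lit 117))) (XT.nd (nat_lit 78) (nat_lit 608) (nat_lit 0) (XT.lf (nat_lit 0) (nat_lit 69672816853) (nat_lit 836) (nat_lit 26581644473) (nat_lit 76) (nat_lit 43365880867) (nat_lit 186) (nat_lit 5) (nat_lit 197) (nat_lit 5) (nat_lit 187) (nat_lit 5) (nat_lit 338) (nat_lit 326) (nat_lit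 116)) (XT.lf (nat_lit 0) (nat_lit 89931930156) (nat_lit 608) (nat_lit 1073515653) (nat_lit 684) (nat_lit 52526142213) (nat_lit 178) (nat_lit 5) (nat_lit 186) (nat_lit 5) (nat_lit 187) (nat_lit 5) (nat_lit 339) (nat_lit 326) (nat_lit 115))))) (XT.nd (nat_lit 312) (nat_lit 988) (nat_lit 0) (XT.nd (nat_lit 156) (nat_lit 608) (nat_lit 0) (XT.nd (nat_lit 78) (nat_lit 532) (nat_lit 0) (XT.lf (nat_lit 0) (nat_lit 65521606381) (nat_lit 532) (nat_lit 49739271164) (nat_lit 608) (nat_lit 32321833810) (nat_lit 171) (nat_lit 5) (nat_lit 178) (nat_lit 5) (nat_lit 179) (nat_lit 5) (nat_lit 340) (nat_lit 326) (nat_lit 114)) (XT.lf (nat_lit 0) (nat_lit 40187657417) (nat_lit 532) (nat_lit 101974498299) (nat_lit 608) (nat_lit 9631243230) (nat_lit 164) (nat_lit 5) (nat_lit 171) (nat_lit 5) (nat_lit 172) (nat_lit 5) (nat_lit 341) (nat_lit 326) (nat_lit 113))) (XT.nd (nat_lit 78) (nat_lit 0) (nat_lit 0) (XT.lf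 (nat_lit 0) (nat_lit 13694454361) (nat_lit 532) (nat_lit 1708882422) (nat_lit 608) (nat_lit 140762598231) (nat_lit 156) (nat_lit 5) (nat_lit 163) (nat_lit 5) (nat_lit 164) (nat_lit 5) (nat_lit 342) (nat_lit 326) (nat_lit 112)) (XT.lf (nat_lit 0) (nat_lit 43647810777) (nat_lit 608) (nat_lit 14235257889) (nat_lit 76) (nat_lit 102806448133) (nat_lit 156) (nat_lit 5) (nat_lit 164) (nat_lit 5) (nat_lit 157) (nat_lit 5) (nat_lit 343) (nat_lit 326) (nat_lit 111)))) (XT.nd (nat_lit 39312) (nat_lit 0) (nat_lit 4712) (XT.nd (nat_lit 78) (nat_lit 456) (nat_lit 0) (XT.lf (nat_lit 0) (nat_lit 74965972007) (nat_lit 608) (nat_lit 43076257295) (nat_lit 76) (nat_lit 47347204748) (nat_lit 149) (nat_lit 5) (nat_lit 157) (nat_lit 5) (nat_lit 150) (nat_lit 5) (nat_lit 344) (nat_lit 326) (nat_lit 110)) (XT.lf (nat_lit 0) (nat_lit 96972830575) (nat_lit 456) (nat_lit 12541284900) (nat_lit 532) (nat_lit 60760309732)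 (nat_lit 143) (nat_lit 5) (nat_lit 149) (nat_lit 5) (nat_lit 150) (nat_lit 5) (nat_lit 345) (nat_lit 326) (nat_lit 109))) (XT.nd (nat_lit 78) (nat_lit 0) (nat_lit 0) (XT.lf (nat_lit 0) (nat_lit 18786750076) (nat_lit 0) (nat_lit 18786750076) (nat_lit 1140) (nat_lit 16116142613) (nat_lit 205) (nat_lit 5) (nat_lit 205) (nat_lit 3) (nat_lit 220) (nat_lit 3) (nat_lit 327) (nat_lit 327) (nat_lit 126)) (XT.lf (nat_lit 76) (nat_lit 12088746169) (nat_lit 0) (nat_lit 65497696028) (nat_lit 1216) (nat_lit 32460493214) (nat_lit 206) (nat_lit 5) (nat_lit 205) (nat_lit 5) (nat_lit 221) (nat_lit 5) (nat_lit 328) (nat_lit 327) (nat_lit 125))))))))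
noncomputable def xc126 : XT := (XT.nd (nat_lit 41418) (nat_lit 0) (nat_lit 532) (XT.nd (nat_lit 1092) (nat_lit 1140) (nat_lit 0) (XT.nd (nat_lit 546) (nat_lit 2280) (nat_lit 0) (XT.nd (nat_lit 234) (nat_lit 912) (nat_lit 0) (XT.nd (nat_lit 78) (nat_lit 0) (nat_lit 0) (XT.lf (nat_lit 0) (nat_lit 81413537793) (nat_lit 1140) (nat_lit 13837666353) (nat_lit 1216) (nat_lit 17558793781) (nat_lit 206) (nat_lit 5) (nat_lit 221) (nat_lit 5) (nat_lit 222) (nat_lit 5) (nat_lit 329) (nat_lit 327) (nat_lit 124)) (XT.nd (nat_lit 78) (nat_lit 0) (nat_lit 76) (XT.lf (nat_lit 76) (nat_lit 75296792882) (nat_lit 0) (nat_lit 11519535082) (nat_lit 1216) (nat_lit 28853355976) (nat_lit 207) (nat_lit 5) (nat_lit 206) (nat_lit 5) (nat_lit 222) (nat_lit 5) (nat_lit 330) (nat_lit 327) (nat_lit 123)) (XT.lf (nat_lit 76) (nat_lit 50763511733) (nat_lit 0) (nat_lit 43091445760) (nat_lit 1216) (nat_lit 24776426303) (nat_lit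 208) (nat_lit 5) (nat_lit 207) (nat_lit 5) (nat_lit 223) (nat_lit 5) (nat_lit 331) (nat_lit 327) (nat_lit 122)))) (XT.nd (nat_lit 156) (nat_lit 1064) (nat_lit 0) (XT.nd (nat_lit 78) (nat_lit 0) (nat_lit 76) (XT.lf (nat_lit 76) (nat_lit 25517721554) (nat_lit 0) (nat_lit 76939793043) (nat_lit 1216) (nat_lit 19247294676) (nat_lit 209) (nat_lit 5) (nat_lit 208) (nat_lit 5) (nat_lit 224) (nat_lit 5) (nat_lit 332) (nat_lit 327) (nat_lit 121)) (XT.lf (nat_lit 0) (nat_lit 112733691511) (nat_lit 1140) (nat_lit 465778894) (nat_lit 1216) (nat_lit 11695131347) (nat_lit 209) (nat_lit 5) (nat_lit 224) (nat_lit 5) (nat_lit 225) (nat_lit 5) (nat_lit 333) (nat_lit 327) (nat_lit 120))) (XT.nd (nat_lit 78) (nat_lit 1140) (nat_lit 0) (XT.lf (nat_lit 76) (nat_lit 101240261003) (nat_lit 0) (nat_lit 24032721110) (nat_lit 1216) (nat_lit 2918423061) (nat_lit 210) (nat_lit 5) (nat_lit 209) (nat_lit 5) (nat_lit 225)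 (nat_lit 5) (nat_lit 334) (nat_lit 327) (nat_lit 119)) (XT.lf (nat_lit 0) (nat_lit 8083501844) (nat_lit 1216) (nat_lit 54463779522) (nat_lit 1292) (nat_lit 69060918749) (nat_lit 194) (nat_lit 5) (nat_lit 210) (nat_lit 5) (nat_lit 211) (nat_lit 5) (nat_lit 335) (nat_lit 327) (nat_lit 118))))) (XT.nd (nat_lit 234) (nat_lit 2356) (nat_lit 0) (XT.nd (nat_lit 78) (nat_lit 0) (nat_lit 0) (XT.lf (nat_lit 0) (nat_lit 20910702460) (nat_lit 1216) (nat_lit 82900210315) (nat_lit 1292) (nat_lit 31343989472) (nat_lit 195) (nat_lit 5) (nat_lit 211) (nat_lit 5) (nat_lit 212) (nat_lit 5) (nat_lit 336) (nat_lit 327) (nat_lit 117)) (XT.nd (nat_lit 78) (nat_lit 0) (nat_lit 76) (XT.lf (nat_lit 76) (nat_lit 26464325555) (nat_lit 0) (nat_lit 9366440952) (nat_lit 1292) (nat_lit 103004628265) (nat_lit 196) (nat_lit 5) (nat_lit 195) (nat_lit 5) (nat_lit 212) (nat_lit 5) (nat_lit 337) (nat_lit 327) (nat_lit 116)) (XT.lf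 (nat_lit 0) (nat_lit 53221498792) (nat_lit 1216) (nat_lit 516851689) (nat_lit 76) (nat_lit 88909821863) (nat_lit 196) (nat_lit 5) (nat_lit 212) (nat_lit 5) (nat_lit 197) (nat_lit 5) (nat_lit 338) (nat_lit 327) (nat_lit 115)))) (XT.nd (nat_lit 156) (nat_lit 1064) (nat_lit 0) (XT.nd (nat_lit 78) (nat_lit 608) (nat_lit 0) (XT.lf (nat_lit 0) (nat_lit 73167784135) (nat_lit 836) (nat_lit 27900332447) (nat_lit 76) (nat_lit 45532892070) (nat_lit 186) (nat_lit 5) (nat_lit 197) (nat_lit 5) (nat_lit 187) (nat_lit 5) (nat_lit 339) (nat_lit 327) (nat_lit 114)) (XT.lf (nat_lit 0) (nat_lit 94438622965) (nat_lit 608) (nat_lit 1127979272) (nat_lit 684) (nat_lit 55141228322) (nat_lit 178) (nat_lit 5) (nat_lit 186) (nat_lit 5) (nat_lit 187) (nat_lit 5) (nat_lit 340) (nat_lit 327) (nat_lit 113))) (XT.nd (nat_lit 78) (nat_lit 532) (nat_lit 0) (XT.lf (nat_lit 0) (nat_lit 68807828158) (nat_lit 532) (nat_lit 52226549383)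 (nat_lit 608) (nat_lit 33927145851) (nat_lit 171) (nat_lit 5) (nat_lit 178) (nat_lit 5) (nat_lit 179) (nat_lit 5) (nat_lit 341) (nat_lit 327) (nat_lit 112)) (XT.lf (nat_lit 0) (nat_lit 42207208239) (nat_lit 532) (nat_lit 107073108331) (nat_lit 608) (nat_lit 10102441353) (nat_lit 164) (nat_lit 5) (nat_lit 171) (nat_lit 5) (nat_lit 172) (nat_lit 5) (nat_lit 342) (nat_lit 327) (nat_lit 111)))))) (XT.nd (nat_lit 39780) (nat_lit 0) (nat_lit 3420) (XT.nd (nat_lit 39468) (nat_lit 0) (nat_lit 4256) (XT.nd (nat_lit 78) (nat_lit 532) (nat_lit 0) (XT.lf (nat_lit 0) (nat_lit 14389258856) (nat_lit 532) (nat_lit 1794019583) (nat_lit 608) (nat_lit 147790651409) (nat_lit 156) (nat_lit 5) (nat_lit 163) (nat_lit 5) (nat_lit 164) (nat_lit 5) (nat_lit 343) (nat_lit 327) (nat_lit 110)) (XT.nd (nat_lit 78) (nat_lit 532) (nat_lit 0) (XT.lf (nat_lit 0) (nat_lit 45839513475) (nat_lit 608) (nat_lit 14937134362) (nat_lit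 76) (nat_lit 107947057178) (nat_lit 156) (nat_lit 5) (nat_lit 164) (nat_lit 5) (nat_lit 157) (nat_lit 5) (nat_lit 344) (nat_lit 327) (nat_lit 109)) (XT.lf (nat_lit 0) (nat_lit 78723237812) (nat_lit 608) (nat_lit 45220196604) (nat_lit 76) (nat_lit 49715194454) (nat_lit 149) (nat_lit 5) (nat_lit 157) (nat_lit 5) (nat_lit 150) (nat_lit 5) (nat_lit 345) (nat_lit 327) (nat_lit 108)))) (XT.nd (nat_lit 156) (nat_lit 0) (nat_lit 76) (XT.nd (nat_lit 78) (nat_lit 0) (nat_lit 0) (XT.lf (nat_lit 0) (nat_lit 19730489991) (nat_lit 0) (nat_lit 19730489991) (nat_lit 1140) (nat_lit 16912871668) (nat_lit 205) (nat_lit 5) (nat_lit 205) (nat_lit 3) (nat_lit 220) (nat_lit 3) (nat_lit 328) (nat_lit 328) (nat_lit 124)) (XT.lf (nat_lit 76) (nat_lit 12702348964) (nat_lit 0) (nat_lit 68780193932) (nat_lit 1216) (nat_lit 34066218579) (nat_lit 206) (nat_lit 5) (nat_lit 205) (nat_lit 5) (nat_lit 221) (nat_lit 5) (nat_lit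 329) (nat_lit 328) (nat_lit 123))) (XT.nd (nat_lit 78) (nat_lit 0) (nat_lit 0) (XT.lf (nat_lit 0) (nat_lit 85500124594) (nat_lit 1140) (nat_lit 14520255028) (nat_lit 1216) (nat_lit 18429624382) (nat_lit 206) (nat_lit 5) (nat_lit 221) (nat_lit 5) (nat_lit 222) (nat_lit 5) (nat_lit 330) (nat_lit 328) (nat_lit 122)) (XT.lf (nat_lit 76) (nat_lit 79070660741) (nat_lit 0) (nat_lit 12101722703) (nat_lit 1216) (nat_lit 30280311785) (nat_lit 207) (nat_lit 5) (nat_lit 206) (nat_lit 5) (nat_lit 222) (nat_lit 5) (nat_lit 331) (nat_lit 328) (nat_lit 121))))) (XT.nd (nat_lit 234) (nat_lit 988) (nat_lit 0) (XT.nd (nat_lit 78) (nat_lit 0) (nat_lit 76) (XT.lf (nat_lit 76) (nat_lit 53310974087) (nat_lit 0) (nat_lit 45251277101) (nat_lit 1216) (nat_lit 26000250436) (nat_lit 208) (nat_lit 5) (nat_lit 207) (nat_lit 5) (nat_lit 223) (nat_lit 5) (nat_lit 332) (nat_lit 328) (nat_lit 120)) (XT.nd (nat_lit 78) (nat_lit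 0) (nat_lit 76) (XT.lf (nat_lit 76) (nat_lit 26803115723) (nat_lit 0) (nat_lit 80791171018) (nat_lit 1216) (nat_lit 20195331829) (nat_lit 209) (nat_lit 5) (nat_lit 208) (nat_lit 5) (nat_lit 224) (nat_lit 5) (nat_lit 333) (nat_lit 328) (nat_lit 119)) (XT.lf (nat_lit 0) (nat_lit 118383570592) (nat_lit 1140) (nat_lit 479561705) (nat_lit 1216) (nat_lit 12275790113) (nat_lit 209) (nat_lit 5) (nat_lit 224) (nat_lit 5) (nat_lit 225) (nat_lit 5) (nat_lit 334) (nat_lit 328) (nat_lit 118)))) (XT.nd (nat_lit 156) (nat_lit 0) (nat_lit 76) (XT.nd (nat_lit 78) (nat_lit 1140) (nat_lit 0) (XT.lf (nat_lit 76) (nat_lit 106311507696) (nat_lit 0) (nat_lit 25237778478) (nat_lit 1216) (nat_lit 3051296663) (nat_lit 210) (nat_lit 5) (nat_lit 209) (nat_lit 5) (nat_lit 225) (nat_lit 5) (nat_lit 335) (nat_lit 328) (nat_lit 117)) (XT.lf (nat_lit 0) (nat_lit 8499920144) (nat_lit 1216) (nat_lit 57177330615) (nat_lit 1292)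 (nat_lit 72510980096) (nat_lit 194) (nat_lit 5) (nat_lit 210) (nat_lit 5) (nat_lit 211) (nat_lit 5) (nat_lit 336) (nat_lit 328) (nat_lit 116))) (XT.nd (nat_lit 78) (nat_lit 0) (nat_lit 0) (XT.lf (nat_lit 0) (nat_lit 21967964810) (nat_lit 1216) (nat_lit 87035472348) (nat_lit 1292) (nat_lit 32908846984) (nat_lit 195) (nat_lit 5) (nat_lit 211) (nat_lit 5) (nat_lit 212) (nat_lit 5) (nat_lit 337) (nat_lit 328) (nat_lit 115)) (XT.lf (nat_lit 76) (nat_lit 27797010878) (nat_lit 0) (nat_lit 9836553765) (nat_lit 1292) (nat_lit 108143251216) (nat_lit 196) (nat_lit 5) (nat_lit 195) (nat_lit 5) (nat_lit 212) (nat_lit 5) (nat_lit 338) (nat_lit 328) (nat_lit 114))))))) (XT.nd (nat_lit 40482) (nat_lit 0) (nat_lit 608) (XT.nd (nat_lit 39936) (nat_lit 0) (nat_lit 3724) (XT.nd (nat_lit 234) (nat_lit 1672) (nat_lit 0) (XT.nd (nat_lit 78) (nat_lit 1368) (nat_lit 0) (XT.lf (nat_lit 0) (nat_lit 55893280965) (nat_lit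 1216) (nat_lit 533327692) (nat_lit 76) (nat_lit 93353640746) (nat_lit 196) (nat_lit 5) (nat_lit 212) (nat_lit 5) (nat_lit 197) (nat_lit 5) (nat_lit 339) (nat_lit 328) (nat_lit 113)) (XT.nd (nat_lit 78) (nat_lit 608) (nat_lit 0) (XT.lf (nat_lit 0) (nat_lit 76836446757) (nat_lit 836) (nat_lit 29285921178) (nat_lit 76) (nat_lit 47808373100) (nat_lit 186) (nat_lit 5) (nat_lit 197) (nat_lit 5) (nat_lit 187) (nat_lit 5) (nat_lit 340) (nat_lit 328) (nat_lit 112)) (XT.lf (nat_lit 0) (nat_lit 99169711756) (nat_lit 608) (nat_lit 1185092826) (nat_lit 684) (nat_lit 57888111959) (nat_lit 178) (nat_lit 5) (nat_lit 186) (nat_lit 5) (nat_lit 187) (nat_lit 5) (nat_lit 341) (nat_lit 328) (nat_lit 111)))) (XT.nd (nat_lit 156) (nat_lit 608) (nat_lit 0) (XT.nd (nat_lit 78) (nat_lit 532) (nat_lit 0) (XT.lf (nat_lit 0) (nat_lit 72257418167) (nat_lit 532) (nat_lit 54838162259) (nat_lit 608) (nat_lit 35613725683)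 (nat_lit 171) (nat_lit 5) (nat_lit 178) (nat_lit 5) (nat_lit 179) (nat_lit 5) (nat_lit 342) (nat_lit 328) (nat_lit 110)) (XT.lf (nat_lit 0) (nat_lit 44326791282) (nat_lit 532) (nat_lit 112426659545) (nat_lit 608) (nat_lit 10598162932) (nat_lit 164) (nat_lit 5) (nat_lit 171) (nat_lit 5) (nat_lit 172) (nat_lit 5) (nat_lit 343) (nat_lit 328) (nat_lit 109))) (XT.nd (nat_lit 39468) (nat_lit 0) (nat_lit 3724) (XT.lf (nat_lit 0) (nat_lit 15117866267) (nat_lit 532) (nat_lit 1883442140) (nat_lit 608) (nat_lit 155171044085) (nat_lit 156) (nat_lit 5) (nat_lit 163) (nat_lit 5) (nat_lit 164) (nat_lit 5) (nat_lit 344) (nat_lit 328) (nat_lit 108)) (XT.lf (nat_lit 0) (nat_lit 20721007608) (nat_lit 0) (nat_lit 20721007608) (nat_lit 1140) (nat_lit 17750281169) (nat_lit 205) (nat_lit 5) (nat_lit 205) (nat_lit 3) (nat_lit 220) (nat_lit 3) (nat_lit 329) (nat_lit 329) (nat_lit 122))))) (XT.nd (nat_lit 234) (nat_lit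 0) (nat_lit 152) (XT.nd (nat_lit 78) (nat_lit 0) (nat_lit 76) (XT.lf (nat_lit 76) (nat_lit 13345779779) (nat_lit 0) (nat_lit 72226108936) (nat_lit 1216) (nat_lit 35753838537) (nat_lit 206) (nat_lit 5) (nat_lit 205) (nat_lit 5) (nat_lit 221) (nat_lit 5) (nat_lit 330) (nat_lit 329) (nat_lit 121)) (XT.nd (nat_lit 78) (nat_lit 0) (nat_lit 0) (XT.lf (nat_lit 0) (nat_lit 89789561582) (nat_lit 1140) (nat_lit 15237837263) (nat_lit 1216) (nat_lit 19344657448) (nat_lit 206) (nat_lit 5) (nat_lit 221) (nat_lit 5) (nat_lit 222) (nat_lit 5) (nat_lit 331) (nat_lit 329) (nat_lit 120)) (XT.lf (nat_lit 76) (nat_lit 83032382635) (nat_lit 0) (nat_lit 12712442277) (nat_lit 1216) (nat_lit 31780076136) (nat_lit 207) (nat_lit 5) (nat_lit 206) (nat_lit 5) (nat_lit 222) (nat_lit 5) (nat_lit 332) (nat_lit 329) (nat_lit 119)))) (XT.nd (nat_lit 156) (nat_lit 0) (nat_lit 152) (XT.nd (nat_lit 78) (nat_lit 0) (nat_lit 76)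 (XT.lf (nat_lit 76) (nat_lit 55984946163) (nat_lit 0) (nat_lit 47518611073) (nat_lit 1216) (nat_lit 27286660071) (nat_lit 208) (nat_lit 5) (nat_lit 207) (nat_lit 5) (nat_lit 223) (nat_lit 5) (nat_lit 333) (nat_lit 329) (nat_lit 118)) (XT.lf (nat_lit 76) (nat_lit 28151895629) (nat_lit 0) (nat_lit 84834709907) (nat_lit 1216) (nat_lit 21192102883) (nat_lit 209) (nat_lit 5) (nat_lit 208) (nat_lit 5) (nat_lit 224) (nat_lit 5) (nat_lit 334) (nat_lit 329) (nat_lit 117))) (XT.nd (nat_lit 78) (nat_lit 0) (nat_lit 0) (XT.lf (nat_lit 0) (nat_lit 124314716928) (nat_lit 1140) (nat_lit 494917446) (nat_lit 1216) (nat_lit 12885862793) (nat_lit 209) (nat_lit 5) (nat_lit 224) (nat_lit 5) (nat_lit 225) (nat_lit 5) (nat_lit 335) (nat_lit 329) (nat_lit 116)) (XT.lf (nat_lit 76) (nat_lit 111635458267) (nat_lit 0) (nat_lit 26502770633) (nat_lit 1216) (nat_lit 3192026983) (nat_lit 210) (nat_lit 5) (nat_lit 209)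 (nat_lit 5) (nat_lit 225) (nat_lit 5) (nat_lit 336) (nat_lit 329) (nat_lit 115)))))) (XT.nd (nat_lit 546) (nat_lit 532) (nat_lit 0) (XT.nd (nat_lit 234) (nat_lit 1748) (nat_lit 0) (XT.nd (nat_lit 78) (nat_lit 0) (nat_lit 76) (XT.lf (nat_lit 0) (nat_lit 8936021101) (nat_lit 1216) (nat_lit 60027455301) (nat_lit 1292) (nat_lit 76133821989) (nat_lit 194) (nat_lit 5) (nat_lit 210) (nat_lit 5) (nat_lit 211) (nat_lit 5) (nat_lit 337) (nat_lit 329) (nat_lit 114)) (XT.nd (nat_lit 78) (nat_lit 0) (nat_lit 0) (XT.lf (nat_lit 0) (nat_lit 23076999990) (nat_lit 1216) (nat_lit 91378403804) (nat_lit 1292) (nat_lit 34552165105) (nat_lit 195) (nat_lit 5) (nat_lit 211) (nat_lit 5) (nat_lit 212) (nat_lit 5) (nat_lit 338) (nat_lit 329) (nat_lit 113)) (XT.lf (nat_lit 76) (nat_lit 29195450124) (nat_lit 0) (nat_lit 10330005730) (nat_lit 1292) (nat_lit 113539884560) (nat_lit 196) (nat_lit 5) (nat_lit 195) (nat_lit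 5) (nat_lit 212) (nat_lit 5) (nat_lit 339) (nat_lit 329) (nat_lit 112)))) (XT.nd (nat_lit 156) (nat_lit 1140) (nat_lit 0) (XT.nd (nat_lit 78) (nat_lit 760) (nat_lit 0) (XT.lf (nat_lit 0) (nat_lit 58697656790) (nat_lit 1216) (nat_lit 551498311) (nat_lit 76) (nat_lit 98019806039) (nat_lit 196) (nat_lit 5) (nat_lit 212) (nat_lit 5) (nat_lit 197) (nat_lit 5) (nat_lit 340) (nat_lit 329) (nat_lit 111)) (XT.lf (nat_lit 0) (nat_lit 80687587384) (nat_lit 836) (nat_lit 30741665862) (nat_lit 76) (nat_lit 50197736359) (nat_lit 186) (nat_lit 5) (nat_lit 197) (nat_lit 5) (nat_lit 187) (nat_lit 5) (nat_lit 341) (nat_lit 329) (nat_lit 110))) (XT.nd (nat_lit 78) (nat_lit 532) (nat_lit 0) (XT.lf (nat_lit 0) (nat_lit 104136503595) (nat_lit 608) (nat_lit 1244995622) (nat_lit 684) (nat_lit 60773286011) (nat_lit 178) (nat_lit 5) (nat_lit 186) (nat_lit 5) (nat_lit 187) (nat_lit 5) (nat_lit 342) (nat_lit 329) (nat_lit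 109)) (XT.lf (nat_lit 0) (nat_lit 75878632477) (nat_lit 532) (nat_lit 57580329244) (nat_lit 608) (nat_lit 37385543523) (nat_lit 171) (nat_lit 5) (nat_lit 178) (nat_lit 5) (nat_lit 179) (nat_lit 5) (nat_lit 343) (nat_lit 329) (nat_lit 108))))) (XT.nd (nat_lit 39780) (nat_lit 0) (nat_lit 3192) (XT.nd (nat_lit 39624) (nat_lit 0) (nat_lit 3116) (XT.nd (nat_lit 39546) (nat_lit 0) (nat_lit 3116) (XT.lf (nat_lit 0) (nat_lit 46551496044) (nat_lit 532) (nat_lit 118047898008) (nat_lit 608) (nat_lit 11119544558) (nat_lit 164) (nat_lit 5) (nat_lit 171) (nat_lit 5) (nat_lit 172) (nat_lit 5) (nat_lit 344) (nat_lit 329) (nat_lit 107)) (XT.lf (nat_lit 0) (nat_lit 21760679863) (nat_lit 0) (nat_lit 21760679863) (nat_lit 1140) (nat_lit 18630326671) (nat_lit 205) (nat_lit 5) (nat_lit 205) (nat_lit 3) (nat_lit 220) (nat_lit 3) (nat_lit 330) (nat_lit 330) (nat_lit 120))) (XT.nd (nat_lit 78) (nat_lit 0) (nat_lit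 76) (XT.lf (nat_lit 76) (nat_lit 14020609236) (nat_lit 0) (nat_lit 75843677700) (nat_lit 1216) (nat_lit 37527298290) (nat_lit 206) (nat_lit 5) (nat_lit 205) (nat_lit 5) (nat_lit 221) (nat_lit 5) (nat_lit 331) (nat_lit 330) (nat_lit 119)) (XT.lf (nat_lit 0) (nat_lit 94292128784) (nat_lit 1140) (nat_lit 15992082400) (nat_lit 1216) (nat_lit 20306041656) (nat_lit 206) (nat_lit 5) (nat_lit 221) (nat_lit 5) (nat_lit 222) (nat_lit 5) (nat_lit 332) (nat_lit 330) (nat_lit 118)))) (XT.nd (nat_lit 156) (nat_lit 0) (nat_lit 152) (XT.nd (nat_lit 78) (nat_lit 0) (nat_lit 76) (XT.lf (nat_lit 76) (nat_lit 87191429301) (nat_lit 0) (nat_lit 13353174086) (nat_lit 1216) (nat_lit 33356153650) (nat_lit 207) (nat_lit 5) (nat_lit 206) (nat_lit 5) (nat_lit 222) (nat_lit 5) (nat_lit 333) (nat_lit 330) (nat_lit 117)) (XT.lf (nat_lit 76) (nat_lit 58791833717) (nat_lit 0) (nat_lit 49898868264) (nat_lit 1216) (nat_lit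 28638654855) (nat_lit 208) (nat_lit 5) (nat_lit 207) (nat_lit 5) (nat_lit 223) (nat_lit 5) (nat_lit 334) (nat_lit 330) (nat_lit 116))) (XT.nd (nat_lit 78) (nat_lit 0) (nat_lit 76) (XT.lf (nat_lit 76) (nat_lit 29567312740) (nat_lit 0) (nat_lit 89080055687) (nat_lit 1216) (nat_lit 22239920691) (nat_lit 209) (nat_lit 5) (nat_lit 208) (nat_lit 5) (nat_lit 224) (nat_lit 5) (nat_lit 335) (nat_lit 330) (nat_lit 115)) (XT.lf (nat_lit 0) (nat_lit 130541307927) (nat_lit 1140) (nat_lit 511842599) (nat_lit 1216) (nat_lit 13526784662) (nat_lit 209) (nat_lit 5) (nat_lit 224) (nat_lit 5) (nat_lit 225) (nat_lit 5) (nat_lit 336) (nat_lit 330) (nat_lit 114))))))))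
noncomputable def xc127 : XT := (XT.nd (nat_lit 81588) (nat_lit 0) (nat_lit 1216) (XT.nd (nat_lit 40716) (nat_lit 0) (nat_lit 1216) (XT.nd (nat_lit 40170) (nat_lit 0) (nat_lit 2052) (XT.nd (nat_lit 234) (nat_lit 1216) (nat_lit 0) (XT.nd (nat_lit 78) (nat_lit 1140) (nat_lit 0) (XT.lf (nat_lit 76) (nat_lit 117224827721) (nat_lit 0) (nat_lit 27830723887) (nat_lit 1216) (nat_lit 3340894080) (nat_lit 210) (nat_lit 5) (nat_lit 209) (nat_lit 5) (nat_lit 225) (nat_lit 5) (nat_lit 337) (nat_lit 330) (nat_lit 113)) (XT.nd (nat_lit 78) (nat_lit 0) (nat_lit 76) (XT.lf (nat_lit 0) (nat_lit 9392894673) (nat_lit 1216) (nat_lit 63020898955) (nat_lit 1292) (nat_lit 79938057659) (nat_lit 194) (nat_lit 5) (nat_lit 210) (nat_lit 5) (nat_lit 211) (nat_lit 5) (nat_lit 338) (nat_lit 330) (nat_lit 112)) (XT.lf (nat_lit 0) (nat_lit 24240498008) (nat_lit 1216) (nat_lit 95939303894) (nat_lit 1292) (nat_lit 36277846623)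 (nat_lit 195) (nat_lit 5) (nat_lit 211) (nat_lit 5) (nat_lit 212) (nat_lit 5) (nat_lit 339) (nat_lit 330) (nat_lit 111)))) (XT.nd (nat_lit 156) (nat_lit 1292) (nat_lit 0) (XT.nd (nat_lit 78) (nat_lit 0) (nat_lit 76) (XT.lf (nat_lit 76) (nat_lit 30663012836) (nat_lit 0) (nat_lit 10847979283) (nat_lit 1292) (nat_lit 119207328478) (nat_lit 196) (nat_lit 5) (nat_lit 195) (nat_lit 5) (nat_lit 212) (nat_lit 5) (nat_lit 340) (nat_lit 330) (nat_lit 110)) (XT.lf (nat_lit 0) (nat_lit 61641348497) (nat_lit 1216) (nat_lit 571367317) (nat_lit 76) (nat_lit 102919420609) (nat_lit 196) (nat_lit 5) (nat_lit 212) (nat_lit 5) (nat_lit 197) (nat_lit 5) (nat_lit 341) (nat_lit 330) (nat_lit 109))) (XT.nd (nat_lit 78) (nat_lit 608) (nat_lit 0) (XT.lf (nat_lit 0) (nat_lit 84730418717) (nat_lit 836) (nat_lit 32270992806) (nat_lit 76) (nat_lit 52706665901) (nat_lit 186) (nat_lit 5) (nat_lit 197) (nat_lit 5) (nat_lit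 187) (nat_lit 5) (nat_lit 342) (nat_lit 330) (nat_lit 108)) (XT.lf (nat_lit 0) (nat_lit 109350862790) (nat_lit 608) (nat_lit 1307833299) (nat_lit 684) (nat_lit 63803577027) (nat_lit 178) (nat_lit 5) (nat_lit 186) (nat_lit 5) (nat_lit 187) (nat_lit 5) (nat_lit 343) (nat_lit 330) (nat_lit 107))))) (XT.nd (nat_lit 234) (nat_lit 0) (nat_lit 76) (XT.nd (nat_lit 78) (nat_lit 0) (nat_lit 0) (XT.lf (nat_lit 0) (nat_lit 22851999003) (nat_lit 0) (nat_lit 22851999003) (nat_lit 1140) (nat_lit 19555068805) (nat_lit 205) (nat_lit 5) (nat_lit 205) (nat_lit 3) (nat_lit 220) (nat_lit 3) (nat_lit 331) (nat_lit 331) (nat_lit 118)) (XT.nd (nat_lit 78) (nat_lit 0) (nat_lit 76) (XT.lf (nat_lit 76) (nat_lit 14728479125) (nat_lit 0) (nat_lit 79641542599) (nat_lit 1216) (nat_lit 39390754204) (nat_lit 206) (nat_lit 5) (nat_lit 205) (nat_lit 5) (nat_lit 221) (nat_lit 5) (nat_lit 332) (nat_lit 331) (nat_lit 117)) (XT.lf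 (nat_lit 0) (nat_lit 99018607444) (nat_lit 1140) (nat_lit 16784750714) (nat_lit 1216) (nat_lit 21316038828) (nat_lit 206) (nat_lit 5) (nat_lit 221) (nat_lit 5) (nat_lit 222) (nat_lit 5) (nat_lit 333) (nat_lit 331) (nat_lit 116)))) (XT.nd (nat_lit 156) (nat_lit 0) (nat_lit 152) (XT.nd (nat_lit 78) (nat_lit 0) (nat_lit 76) (XT.lf (nat_lit 76) (nat_lit 91557737759) (nat_lit 0) (nat_lit 14025467435) (nat_lit 1216) (nat_lit 35012236803) (nat_lit 207) (nat_lit 5) (nat_lit 206) (nat_lit 5) (nat_lit 222) (nat_lit 5) (nat_lit 334) (nat_lit 331) (nat_lit 115)) (XT.lf (nat_lit 76) (nat_lit 61738355332) (nat_lit 0) (nat_lit 52397736064) (nat_lit 1216) (nat_lit 30059396469) (nat_lit 208) (nat_lit 5) (nat_lit 207) (nat_lit 5) (nat_lit 223) (nat_lit 5) (nat_lit 335) (nat_lit 331) (nat_lit 114))) (XT.nd (nat_lit 78) (nat_lit 0) (nat_lit 76) (XT.lf (nat_lit 76) (nat_lit 31052773462) (nat_lit 0) (nat_lit 93537333105)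 (nat_lit 1216) (nat_lit 23341225264) (nat_lit 209) (nat_lit 5) (nat_lit 208) (nat_lit 5) (nat_lit 224) (nat_lit 5) (nat_lit 336) (nat_lit 331) (nat_lit 113)) (XT.lf (nat_lit 0) (nat_lit 137078219266) (nat_lit 1140) (nat_lit 530341105) (nat_lit 1216) (nat_lit 14200066053) (nat_lit 209) (nat_lit 5) (nat_lit 224) (nat_lit 5) (nat_lit 225) (nat_lit 5) (nat_lit 337) (nat_lit 331) (nat_lit 112)))))) (XT.nd (nat_lit 40326) (nat_lit 0) (nat_lit 0) (XT.nd (nat_lit 234) (nat_lit 0) (nat_lit 76) (XT.nd (nat_lit 78) (nat_lit 1140) (nat_lit 0) (XT.lf (nat_lit 76) (nat_lit 123092959394) (nat_lit 0) (nat_lit 29224813118) (nat_lit 1216) (nat_lit 3498202501) (nat_lit 210) (nat_lit 5) (nat_lit 209) (nat_lit 5) (nat_lit 225) (nat_lit 5) (nat_lit 338) (nat_lit 331) (nat_lit 111)) (XT.nd (nat_lit 78) (nat_lit 0) (nat_lit 76) (XT.lf (nat_lit 0) (nat_lit 9871675476) (nat_lit 1216) (nat_lit 66164751966) (nat_lit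 1292) (nat_lit 83932733394) (nat_lit 194) (nat_lit 5) (nat_lit 210) (nat_lit 5) (nat_lit 211) (nat_lit 5) (nat_lit 339) (nat_lit 331) (nat_lit 110)) (XT.lf (nat_lit 0) (nat_lit 25461273946) (nat_lit 1216) (nat_lit 100728994621) (nat_lit 1292) (nat_lit 38089991346) (nat_lit 195) (nat_lit 5) (nat_lit 211) (nat_lit 5) (nat_lit 212) (nat_lit 5) (nat_lit 340) (nat_lit 331) (nat_lit 109)))) (XT.nd (nat_lit 39936) (nat_lit 0) (nat_lit 760) (XT.nd (nat_lit 78) (nat_lit 0) (nat_lit 76) (XT.lf (nat_lit 76) (nat_lit 32203229425) (nat_lit 0) (nat_lit 11391714544) (nat_lit 1292) (nat_lit 125159032489) (nat_lit 196) (nat_lit 5) (nat_lit 195) (nat_lit 5) (nat_lit 212) (nat_lit 5) (nat_lit 341) (nat_lit 331) (nat_lit 108)) (XT.lf (nat_lit 0) (nat_lit 64731405825) (nat_lit 1216) (nat_lit 592946195) (nat_lit 76) (nat_lit 108064143811) (nat_lit 196) (nat_lit 5) (nat_lit 212) (nat_lit 5) (nat_lit 197) (nat_lit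 5) (nat_lit 342) (nat_lit 331) (nat_lit 107))) (XT.nd (nat_lit 78) (nat_lit 0) (nat_lit 0) (XT.lf (nat_lit 0) (nat_lit 23997578679) (nat_lit 0) (nat_lit 23997578679) (nat_lit 1140) (nat_lit 20526677846) (nat_lit 205) (nat_lit 5) (nat_lit 205) (nat_lit 3) (nat_lit 220) (nat_lit 3) (nat_lit 332) (nat_lit 332) (nat_lit 116)) (XT.lf (nat_lit 76) (nat_lit 15471106644) (nat_lit 0) (nat_lit 83628772576) (nat_lit 1216) (nat_lit 41348583070) (nat_lit 206) (nat_lit 5) (nat_lit 205) (nat_lit 5) (nat_lit 221) (nat_lit 5) (nat_lit 333) (nat_lit 332) (nat_lit 115))))) (XT.nd (nat_lit 234) (nat_lit 912) (nat_lit 0) (XT.nd (nat_lit 78) (nat_lit 0) (nat_lit 0) (XT.lf (nat_lit 0) (nat_lit 103980306271) (nat_lit 1140) (nat_lit 17617697269) (nat_lit 1216) (nat_lit 22377029059) (nat_lit 206) (nat_lit 5) (nat_lit 221) (nat_lit 5) (nat_lit 222) (nat_lit 5) (nat_lit 334) (nat_lit 332) (nat_lit 114)) (XT.nd (nat_lit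 78) (nat_lit 0) (nat_lit 76) (XT.lf (nat_lit 76) (nat_lit 96141735297) (nat_lit 0) (nat_lit 14730944565) (nat_lit 1216) (nat_lit 36752214150) (nat_lit 207) (nat_lit 5) (nat_lit 206) (nat_lit 5) (nat_lit 222) (nat_lit 5) (nat_lit 335) (nat_lit 332) (nat_lit 113)) (XT.lf (nat_lit 76) (nat_lit 64831558748) (nat_lit 0) (nat_lit 55021182401) (nat_lit 1216) (nat_lit 31552215609) (nat_lit 208) (nat_lit 5) (nat_lit 207) (nat_lit 5) (nat_lit 223) (nat_lit 5) (nat_lit 336) (nat_lit 332) (nat_lit 112)))) (XT.nd (nat_lit 156) (nat_lit 1064) (nat_lit 0) (XT.nd (nat_lit 78) (nat_lit 0) (nat_lit 76) (XT.lf (nat_lit 76) (nat_lit 32611847586) (nat_lit 0) (nat_lit 98217169950) (nat_lit 1216) (nat_lit 24498589057) (nat_lit 209) (nat_lit 5) (nat_lit 208) (nat_lit 5) (nat_lit 224) (nat_lit 5) (nat_lit 337) (nat_lit 332) (nat_lit 111)) (XT.lf (nat_lit 0) (nat_lit 143941060791) (nat_lit 1140) (nat_lit 550424034)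 (nat_lit 1216) (nat_lit 14907295803) (nat_lit 209) (nat_lit 5) (nat_lit 224) (nat_lit 5) (nat_lit 225) (nat_lit 5) (nat_lit 338) (nat_lit 332) (nat_lit 110))) (XT.nd (nat_lit 78) (nat_lit 1140) (nat_lit 0) (XT.lf (nat_lit 76) (nat_lit 129253857056) (nat_lit 0) (nat_lit 30688369453) (nat_lit 1216) (nat_lit 3664281530) (nat_lit 210) (nat_lit 5) (nat_lit 209) (nat_lit 5) (nat_lit 225) (nat_lit 5) (nat_lit 339) (nat_lit 332) (nat_lit 109)) (XT.lf (nat_lit 0) (nat_lit 10373545934) (nat_lit 1216) (nat_lit 69466466265) (nat_lit 1292) (nat_lit 88127349975) (nat_lit 194) (nat_lit 5) (nat_lit 210) (nat_lit 5) (nat_lit 211) (nat_lit 5) (nat_lit 340) (nat_lit 332) (nat_lit 108))))))) (XT.nd (nat_lit 80964) (nat_lit 0) (nat_lit 836) (XT.nd (nat_lit 40404) (nat_lit 76) (nat_lit 0) (XT.nd (nat_lit 40092) (nat_lit 0) (nat_lit 760) (XT.nd (nat_lit 78) (nat_lit 0) (nat_lit 0) (XT.lf (nat_lit 0) (nat_lit 26742275091)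 (nat_lit 1216) (nat_lit 105758846195) (nat_lit 1292) (nat_lit 39992905782) (nat_lit 195) (nat_lit 5) (nat_lit 211) (nat_lit 5) (nat_lit 212) (nat_lit 5) (nat_lit 341) (nat_lit 332) (nat_lit 107)) (XT.nd (nat_lit 39936) (nat_lit 0) (nat_lit 760) (XT.lf (nat_lit 76) (nat_lit 33819799918) (nat_lit 0) (nat_lit 11962512331) (nat_lit 1292) (nat_lit 131409127050) (nat_lit 196) (nat_lit 5) (nat_lit 195) (nat_lit 5) (nat_lit 212) (nat_lit 5) (nat_lit 342) (nat_lit 332) (nat_lit 106)) (XT.lf (nat_lit 0) (nat_lit 25200160312) (nat_lit 0) (nat_lit 25200160312) (nat_lit 1140) (nat_lit 21547438587) (nat_lit 205) (nat_lit 5) (nat_lit 205) (nat_lit 3) (nat_lit 220) (nat_lit 3) (nat_lit 333) (nat_lit 333) (nat_lit 114)))) (XT.nd (nat_lit 156) (nat_lit 0) (nat_lit 76) (XT.nd (nat_lit 78) (nat_lit 0) (nat_lit 76) (XT.lf (nat_lit 76) (nat_lit 16250288790) (nat_lit 0) (nat_lit 87814884989) (nat_lit 1216) (nat_lit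 43405391956) (nat_lit 206) (nat_lit 5) (nat_lit 205) (nat_lit 5) (nat_lit 221) (nat_lit 5) (nat_lit 334) (nat_lit 333) (nat_lit 113)) (XT.lf (nat_lit 0) (nat_lit 109189088889) (nat_lit 1140) (nat_lit 18492876028) (nat_lit 1216) (nat_lit 23491516148) (nat_lit 206) (nat_lit 5) (nat_lit 221) (nat_lit 5) (nat_lit 222) (nat_lit 5) (nat_lit 335) (nat_lit 333) (nat_lit 112))) (XT.nd (nat_lit 78) (nat_lit 0) (nat_lit 76) (XT.lf (nat_lit 76) (nat_lit 100954364603) (nat_lit 0) (nat_lit 15471304727) (nat_lit 1216) (nat_lit 38580179059) (nat_lit 207) (nat_lit 5) (nat_lit 206) (nat_lit 5) (nat_lit 222) (nat_lit 5) (nat_lit 336) (nat_lit 333) (nat_lit 111)) (XT.lf (nat_lit 76) (nat_lit 68078837954) (nat_lit 0) (nat_lit 57775470124) (nat_lit 1216) (nat_lit 33120619420) (nat_lit 208) (nat_lit 5) (nat_lit 207) (nat_lit 5) (nat_lit 223) (nat_lit 5) (nat_lit 337) (nat_lit 333) (nat_lit 110))))) (XT.nd (nat_lit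 234) (nat_lit 1064) (nat_lit 0) (XT.nd (nat_lit 78) (nat_lit 0) (nat_lit 76) (XT.lf (nat_lit 76) (nat_lit 34248277108) (nat_lit 0) (nat_lit 103130722497) (nat_lit 1216) (nat_lit 25714722619) (nat_lit 209) (nat_lit 5) (nat_lit 208) (nat_lit 5) (nat_lit 224) (nat_lit 5) (nat_lit 338) (nat_lit 333) (nat_lit 109)) (XT.nd (nat_lit 78) (nat_lit 0) (nat_lit 0) (XT.lf (nat_lit 0) (nat_lit 151146214112) (nat_lit 1140) (nat_lit 572109294) (nat_lit 1216) (nat_lit 15650144899) (nat_lit 209) (nat_lit 5) (nat_lit 224) (nat_lit 5) (nat_lit 225) (nat_lit 5) (nat_lit 339) (nat_lit 333) (nat_lit 108)) (XT.lf (nat_lit 76) (nat_lit 135722218565) (nat_lit 0) (nat_lit 32224888315) (nat_lit 1216) (nat_lit 3839485542) (nat_lit 210) (nat_lit 5) (nat_lit 209) (nat_lit 5) (nat_lit 225) (nat_lit 5) (nat_lit 340) (nat_lit 333) (nat_lit 107)))) (XT.nd (nat_lit 40170) (nat_lit 0) (nat_lit 836) (XT.nd (nat_lit 40092) (nat_lit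 0) (nat_lit 836) (XT.lf (nat_lit 0) (nat_lit 10899739498) (nat_lit 1216) (nat_lit 72933872753) (nat_lit 1292) (nat_lit 92531885194) (nat_lit 194) (nat_lit 5) (nat_lit 210) (nat_lit 5) (nat_lit 211) (nat_lit 5) (nat_lit 341) (nat_lit 333) (nat_lit 106)) (XT.lf (nat_lit 0) (nat_lit 26462619755) (nat_lit 0) (nat_lit 26462619755) (nat_lit 1140) (nat_lit 22619755504) (nat_lit 205) (nat_lit 5) (nat_lit 205) (nat_lit 3) (nat_lit 220) (nat_lit 3) (nat_lit 334) (nat_lit 334) (nat_lit 112))) (XT.nd (nat_lit 78) (nat_lit 0) (nat_lit 76) (XT.lf (nat_lit 76) (nat_lit 17067906915) (nat_lit 0) (nat_lit 92209868498) (nat_lit 1216) (nat_lit 45566028659) (nat_lit 206) (nat_lit 5) (nat_lit 205) (nat_lit 5) (nat_lit 221) (nat_lit 5) (nat_lit 335) (nat_lit 334) (nat_lit 111)) (XT.lf (nat_lit 0) (nat_lit 114657402568) (nat_lit 1140) (nat_lit 19412344224) (nat_lit 1216) (nat_lit 24662133349) (nat_lit 206) (nat_lit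 5) (nat_lit 221) (nat_lit 5) (nat_lit 222) (nat_lit 5) (nat_lit 336) (nat_lit 334) (nat_lit 110)))))) (XT.nd (nat_lit 40716) (nat_lit 0) (nat_lit 0) (XT.nd (nat_lit 234) (nat_lit 76) (nat_lit 0) (XT.nd (nat_lit 78) (nat_lit 0) (nat_lit 76) (XT.lf (nat_lit 76) (nat_lit 106007110081) (nat_lit 0) (nat_lit 16248328406) (nat_lit 1216) (nat_lit 40500438988) (nat_lit 207) (nat_lit 5) (nat_lit 206) (nat_lit 5) (nat_lit 222) (nat_lit 5) (nat_lit 337) (nat_lit 334) (nat_lit 109)) (XT.nd (nat_lit 78) (nat_lit 0) (nat_lit 76) (XT.lf (nat_lit 76) (nat_lit 71487951072) (nat_lit 0) (nat_lit 60667172069) (nat_lit 1216) (nat_lit 34768299398) (nat_lit 208) (nat_lit 5) (nat_lit 207) (nat_lit 5) (nat_lit 223) (nat_lit 5) (nat_lit 338) (nat_lit 334) (nat_lit 108)) (XT.lf (nat_lit 76) (nat_lit 35965985425) (nat_lit 0) (nat_lit 108289702204) (nat_lit 1216) (nat_lit 26992480617) (nat_lit 209) (nat_lit 5) (nat_lit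 208) (nat_lit 5) (nat_lit 224) (nat_lit 5) (nat_lit 339) (nat_lit 334) (nat_lit 107)))) (XT.nd (nat_lit 40326) (nat_lit 0) (nat_lit 0) (XT.nd (nat_lit 40248) (nat_lit 304) (nat_lit 0) (XT.lf (nat_lit 0) (nat_lit 158710872012) (nat_lit 1140) (nat_lit 595421388) (nat_lit 1216) (nat_lit 16430370335) (nat_lit 209) (nat_lit 5) (nat_lit 224) (nat_lit 5) (nat_lit 225) (nat_lit 5) (nat_lit 340) (nat_lit 334) (nat_lit 106)) (XT.lf (nat_lit 0) (nat_lit 27787974259) (nat_lit 0) (nat_lit 27787974259) (nat_lit 1140) (nat_lit 23746158234) (nat_lit 205) (nat_lit 5) (nat_lit 205) (nat_lit 3) (nat_lit 220) (nat_lit 3) (nat_lit 335) (nat_lit 335) (nat_lit 110))) (XT.nd (nat_lit 78) (nat_lit 0) (nat_lit 76) (XT.lf (nat_lit 76) (nat_lit 17925931455) (nat_lit 0) (nat_lit 96824207057) (nat_lit 1216) (nat_lit 47835592772) (nat_lit 206) (nat_lit 5) (nat_lit 205) (nat_lit 5) (nat_lit 221) (nat_lit 5) (nat_lit 336)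 (nat_lit 335) (nat_lit 109)) (XT.lf (nat_lit 0) (nat_lit 120398308282) (nat_lit 1140) (nat_lit 20378267008) (nat_lit 1216) (nat_lit 25891649444) (nat_lit 206) (nat_lit 5) (nat_lit 221) (nat_lit 5) (nat_lit 222) (nat_lit 5) (nat_lit 337) (nat_lit 335) (nat_lit 108))))) (XT.nd (nat_lit 40560) (nat_lit 0) (nat_lit 0) (XT.nd (nat_lit 156) (nat_lit 76) (nat_lit 0) (XT.nd (nat_lit 78) (nat_lit 0) (nat_lit 76) (XT.lf (nat_lit 76) (nat_lit 111312025447) (nat_lit 0) (nat_lit 17063881736) (nat_lit 1216) (nat_lit 42517525315) (nat_lit 207) (nat_lit 5) (nat_lit 206) (nat_lit 5) (nat_lit 222) (nat_lit 5) (nat_lit 338) (nat_lit 335) (nat_lit 107)) (XT.lf (nat_lit 76) (nat_lit 75067039074) (nat_lit 0) (nat_lit 63703186851) (nat_lit 1216) (nat_lit 36499139772) (nat_lit 208) (nat_lit 5) (nat_lit 207) (nat_lit 5) (nat_lit 223) (nat_lit 5) (nat_lit 339) (nat_lit 335) (nat_lit 106))) (XT.nd (nat_lit 40326) (nat_lit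 228) (nat_lit 0) (XT.lf (nat_lit 76) (nat_lit 37769086929) (nat_lit 0) (nat_lit 113706403715) (nat_lit 1216) (nat_lit 28334868246) (nat_lit 209) (nat_lit 5) (nat_lit 208) (nat_lit 5) (nat_lit 224) (nat_lit 5) (nat_lit 340) (nat_lit 335) (nat_lit 105)) (XT.lf (nat_lit 0) (nat_lit 29179389768) (nat_lit 0) (nat_lit 29179389768) (nat_lit 1140) (nat_lit 24929307374) (nat_lit 205) (nat_lit 5) (nat_lit 205) (nat_lit 3) (nat_lit 220) (nat_lit 3) (nat_lit 336) (nat_lit 336) (nat_lit 108)))) (XT.nd (nat_lit 156) (nat_lit 0) (nat_lit 0) (XT.nd (nat_lit 78) (nat_lit 0) (nat_lit 76) (XT.lf (nat_lit 76) (nat_lit 18826426842) (nat_lit 0) (nat_lit 101668905060) (nat_lit 1216) (nat_lit 50219447404) (nat_lit 206) (nat_lit 5) (nat_lit 205) (nat_lit 5) (nat_lit 221) (nat_lit 5) (nat_lit 337) (nat_lit 336) (nat_lit 107)) (XT.lf (nat_lit 0) (nat_lit 126425512210) (nat_lit 1140) (nat_lit 21392922376) (nat_lit 1216)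 (nat_lit 27182975161) (nat_lit 206) (nat_lit 5) (nat_lit 221) (nat_lit 5) (nat_lit 222) (nat_lit 5) (nat_lit 338) (nat_lit 336) (nat_lit 106))) (XT.nd (nat_lit 40560) (nat_lit 76) (nat_lit 0) (XT.lf (nat_lit 76) (nat_lit 116881762648) (nat_lit 0) (nat_lit 17919921092) (nat_lit 1216) (nat_lit 44636203737) (nat_lit 207) (nat_lit 5) (nat_lit 206) (nat_lit 5) (nat_lit 222) (nat_lit 5) (nat_lit 339) (nat_lit 336) (nat_lit 105)) (XT.lf (nat_lit 76) (nat_lit 19771556633) (nat_lit 0) (nat_lit 106755513714) (nat_lit 1216) (nat_lit 52723231559) (nat_lit 206) (nat_lit 5) (nat_lit 205) (nat_lit 5) (nat_lit 221) (nat_lit 5) (nat_lit 338) (nat_lit 337) (nat_lit 105))))))))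

set_option maxRecDepth 10000000 in
noncomputable def Tp : PT := (PT.nd (nat_lit 5415696) (PT.nd (nat_lit 5008770) (PT.nd (nat_lit 4602702) (PT.nd (nat_lit 4197024) pc0 pc1) (PT.nd (nat_lit 243516) pc2 pc3)) (PT.nd (nat_lit 243906) (PT.nd (nat_lit 122382) pc4 pc5) (PT.nd (nat_lit 81666) pc6 pc7))) (PT.nd (nat_lit 282048) (PT.nd (nat_lit 160992) (PT.nd (nat_lit 80730) pc8 pc9) (PT.nd (nat_lit 41730) pc10 pc11)) (PT.nd (nat_lit 161928) (PT.nd (nat_lit 42822) pc12 pc13) (PT.nd (nat_lit 125424) pc14 pc15))))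

set_option maxRecDepth 10000000 in
noncomputable def Tx : XT := (XT.nd (nat_lit 8440692) (nat_lit 0) (nat_lit 152) XT.nil (XT.nd (nat_lit 5280756) (nat_lit 0) (nat_lit 0) (XT.nd (nat_lit 2472288) (nat_lit 0) (nat_lit 456) (XT.nd (nat_lit 1703364) (nat_lit 0) (nat_lit 152) (XT.nd (nat_lit 1177956) (nat_lit 0) (nat_lit 0) (XT.nd (nat_lit 812604) (nat_lit 0) (nat_lit 0) (XT.nd (nat_lit 568074) (nat_lit 0) (nat_lit 0) (XT.nd (nat_lit 405054) (nat_lit 0) (nat_lit 0) (XT.nd (nat_lit 283374) (nat_lit 0) (nat_lit 0) xc0 xc1) (XT.nd (nat_lit 81822) (nat_lit 0) (nat_lit 0) xc2 xc3)) (XT.nd (nat_lit 160602) (nat_lit 0) (nat_lit 0) (XT.nd (nat_lit 80496) (nat_lit 0) (nat_lit 0) xc4 xc5) (XT.nd (nat_lit 42042) (nat_lit 0) (nat_lit 0) xc6 xc7))) (XT.nd (nat_lit 202566) (nat_lit 0) (nat_lit 0) (XT.nd (nat_lit 120198) (nat_lit 0) (nat_lit 0) (XT.nd (nat_lit 78780) (nat_lit 0) (nat_lit 0) xc8 xc9) (XT.nd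 (nat_lit 41262) (nat_lit 0) (nat_lit 0) xc10 xc11)) (XT.nd (nat_lit 81666) (nat_lit 0) (nat_lit 0) (XT.nd (nat_lit 40872) (nat_lit 0) (nat_lit 0) xc12 xc13) (XT.nd (nat_lit 40638) (nat_lit 0) (nat_lit 0) xc14 xc15)))) (XT.nd (nat_lit 283296) (nat_lit 0) (nat_lit 0) (XT.nd (nat_lit 160290) (nat_lit 0) (nat_lit 0) (XT.nd (nat_lit 80418) (nat_lit 0) (nat_lit 0) (XT.nd (nat_lit 40248) (nat_lit 0) (nat_lit 0) xc16 xc17) (XT.nd (nat_lit 40014) (nat_lit 0) (nat_lit 0) xc18 xc19)) (XT.nd (nat_lit 79170) (nat_lit 0) (nat_lit 0) (XT.nd (nat_lit 39624) (nat_lit 0) (nat_lit 0) xc20 xc21) (XT.nd (nat_lit 4446) (nat_lit 152) (nat_lit 0) xc22 xc23))) (XT.nd (nat_lit 121680) (nat_lit 0) (nat_lit 152) (XT.nd (nat_lit 78234) (nat_lit 0) (nat_lit 152) (XT.nd (nat_lit 39156) (nat_lit 0) (nat_lit 0) xc24 xc25) (XT.nd (nat_lit 4446) (nat_lit 0) (nat_lit 0) xc26 xc27)) (XT.nd (nat_lit 77454) (nat_lit 0) (nat_lit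 0) (XT.nd (nat_lit 38766) (nat_lit 0) (nat_lit 0) xc28 xc29) (XT.nd (nat_lit 4446) (nat_lit 228) (nat_lit 0) xc30 xc31))))) (XT.nd (nat_lit 403182) (nat_lit 0) (nat_lit 76) (XT.nd (nat_lit 203502) (nat_lit 0) (nat_lit 0) (XT.nd (nat_lit 119028) (nat_lit 0) (nat_lit 0) (XT.nd (nat_lit 42744) (nat_lit 0) (nat_lit 0) (XT.nd (nat_lit 38298) (nat_lit 0) (nat_lit 228) xc32 xc33) (XT.nd (nat_lit 38220) (nat_lit 0) (nat_lit 0) xc34 xc35)) (XT.nd (nat_lit 42276) (nat_lit 0) (nat_lit 0) (XT.nd (nat_lit 4368) (nat_lit 456) (nat_lit 0) xc36 xc37) (XT.nd (nat_lit 4446) (nat_lit 0) (nat_lit 0) xc38 xc39))) (XT.nd (nat_lit 83850) (nat_lit 0) (nat_lit 76) (XT.nd (nat_lit 41964) (nat_lit 0) (nat_lit 0) (XT.nd (nat_lit 37518) (nat_lit 0) (nat_lit 456) xc40 xc41) (XT.nd (nat_lit 37440) (nat_lit 0) (nat_lit 76) xc42 xc43)) (XT.nd (nat_lit 74334) (nat_lit 0) (nat_lit 0) (XT.nd (nat_lit 37206) (nat_lit 0) (nat_lit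 0) xc44 xc45) (XT.nd (nat_lit 4446) (nat_lit 1216) (nat_lit 0) xc46 xc47)))) (XT.nd (nat_lit 165672) (nat_lit 0) (nat_lit 76) (XT.nd (nat_lit 82680) (nat_lit 0) (nat_lit 0) (XT.nd (nat_lit 41262) (nat_lit 0) (nat_lit 0) (XT.nd (nat_lit 4368) (nat_lit 760) (nat_lit 0) xc48 xc49) (XT.nd (nat_lit 4446) (nat_lit 456) (nat_lit 0) xc50 xc51)) (XT.nd (nat_lit 41418) (nat_lit 0) (nat_lit 0) (XT.nd (nat_lit 4368) (nat_lit 228) (nat_lit 0) xc52 xc53) (XT.nd (nat_lit 37128) (nat_lit 0) (nat_lit 2128) xc54 xc55))) (XT.nd (nat_lit 83304) (nat_lit 0) (nat_lit 76) (XT.nd (nat_lit 41574) (nat_lit 0) (nat_lit 76) (XT.nd (nat_lit 37128) (nat_lit 0) (nat_lit 1064) xc56 xc57) (XT.nd (nat_lit 37284) (nat_lit 0) (nat_lit 380) xc58 xc59)) (XT.nd (nat_lit 41808) (nat_lit 0) (nat_lit 0) (XT.nd (nat_lit 37362) (nat_lit 0) (nat_lit 0) xc60 xc61) (XT.nd (nat_lit 37440) (nat_lit 0) (nat_lit 0) xc62 xc63)))))) (XT.nd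 (nat_lit 858156) (nat_lit 0) (nat_lit 912) (XT.nd (nat_lit 406770) (nat_lit 0) (nat_lit 228) (XT.nd (nat_lit 168792) (nat_lit 0) (nat_lit 76) (XT.nd (nat_lit 84240) (nat_lit 0) (nat_lit 0) (XT.nd (nat_lit 42042) (nat_lit 0) (nat_lit 0) (XT.nd (nat_lit 4368) (nat_lit 912) (nat_lit 0) xc64 xc65) (XT.nd (nat_lit 4446) (nat_lit 228) (nat_lit 0) xc66 xc67)) (XT.nd (nat_lit 42198) (nat_lit 0) (nat_lit 0) (XT.nd (nat_lit 37752) (nat_lit 0) (nat_lit 988) xc68 xc69) (XT.nd (nat_lit 37908) (nat_lit 0) (nat_lit 152) xc70 xc71))) (XT.nd (nat_lit 118560) (nat_lit 0) (nat_lit 76) (XT.nd (nat_lit 75972) (nat_lit 0) (nat_lit 76) (XT.nd (nat_lit 37908) (nat_lit 0) (nat_lit 0) xc72 xc73) (XT.nd (nat_lit 4446) (nat_lit 380) (nat_lit 0) xc74 xc75)) (XT.nd (nat_lit 42588) (nat_lit 0) (nat_lit 76) (XT.nd (nat_lit 38142) (nat_lit 0) (nat_lit 836) xc76 xc77) (XT.nd (nat_lit 38376) (nat_lit 0) (nat_lit 0) xc78 xc79))))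 (XT.nd (nat_lit 206778) (nat_lit 0) (nat_lit 228) (XT.nd (nat_lit 85956) (nat_lit 0) (nat_lit 76) (XT.nd (nat_lit 42900) (nat_lit 0) (nat_lit 76) (XT.nd (nat_lit 4368) (nat_lit 1064) (nat_lit 0) xc80 xc81) (XT.nd (nat_lit 38610) (nat_lit 0) (nat_lit 836) xc82 xc83)) (XT.nd (nat_lit 77376) (nat_lit 0) (nat_lit 152) (XT.nd (nat_lit 38610) (nat_lit 0) (nat_lit 76) xc84 xc85) (XT.nd (nat_lit 4446) (nat_lit 304) (nat_lit 0) xc86 xc87))) (XT.nd (nat_lit 121836) (nat_lit 0) (nat_lit 228) (XT.nd (nat_lit 78156) (nat_lit 0) (nat_lit 76) (XT.nd (nat_lit 39000) (nat_lit 0) (nat_lit 76) xc88 xc89) (XT.nd (nat_lit 4446) (nat_lit 760) (nat_lit 0) xc90 xc91)) (XT.nd (nat_lit 78702) (nat_lit 0) (nat_lit 228) (XT.nd (nat_lit 39234) (nat_lit 0) (nat_lit 0) xc92 xc93) (XT.nd (nat_lit 4446) (nat_lit 76) (nat_lit 0) xc94 xc95))))) (XT.nd (nat_lit 609570) (nat_lit 0) (nat_lit 1748) (XT.nd (nat_lit 283998) (nat_lit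 0) (nat_lit 684) (XT.nd (nat_lit 159120) (nat_lit 0) (nat_lit 380) (XT.nd (nat_lit 79404) (nat_lit 0) (nat_lit 0) (XT.nd (nat_lit 39624) (nat_lit 0) (nat_lit 76) xc96 xc97) (XT.nd (nat_lit 39780) (nat_lit 0) (nat_lit 76) xc98 xc99)) (XT.nd (nat_lit 44460) (nat_lit 0) (nat_lit 0) (XT.nd (nat_lit 4368) (nat_lit 228) (nat_lit 0) xc100 xc101) (XT.nd (nat_lit 40170) (nat_lit 0) (nat_lit 152) xc102 xc103))) (XT.nd (nat_lit 162006) (nat_lit 0) (nat_lit 456) (XT.nd (nat_lit 80808) (nat_lit 0) (nat_lit 152) (XT.nd (nat_lit 40326) (nat_lit 0) (nat_lit 152) xc104 xc105) (XT.nd (nat_lit 40560) (nat_lit 0) (nat_lit 152) xc106 xc107)) (XT.nd (nat_lit 81588) (nat_lit 0) (nat_lit 228) (XT.nd (nat_lit 40716) (nat_lit 0) (nat_lit 152) xc108 xc109) (XT.nd (nat_lit 40950) (nat_lit 0) (nat_lit 152) xc110 xc111)))) (XT.nd (nat_lit 444990) (nat_lit 0) (nat_lit 2736) (XT.nd (nat_lit 202332) (nat_lit 0) (nat_lit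 988) (XT.nd (nat_lit 119262) (nat_lit 0) (nat_lit 608) (XT.nd (nat_lit 41106) (nat_lit 0) (nat_lit 152) xc112 xc113) (XT.nd (nat_lit 41496) (nat_lit 0) (nat_lit 152) xc114 xc115)) (XT.nd (nat_lit 120822) (nat_lit 0) (nat_lit 684) (XT.nd (nat_lit 41574) (nat_lit 0) (nat_lit 228) xc116 xc117) (XT.nd (nat_lit 41964) (nat_lit 0) (nat_lit 304) xc118 xc119))) (XT.nd (nat_lit 285168) (nat_lit 0) (nat_lit 2736) (XT.nd (nat_lit 122772) (nat_lit 0) (nat_lit 912) (XT.nd (nat_lit 42276) (nat_lit 0) (nat_lit 304) xc120 xc121) (XT.nd (nat_lit 80964) (nat_lit 0) (nat_lit 684) xc122 xc123)) (XT.nd (nat_lit 203424) (nat_lit 0) (nat_lit 2584) (XT.nd (nat_lit 81900) (nat_lit 0) (nat_lit 760) xc124 xc125) (XT.nd (nat_lit 122538) (nat_lit 0) (nat_lit 2204) xc126 xc127))))))) XT.nil))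

set_option maxRecDepth 10000000 in
noncomputable def Te : XT := XT.nil

set_option maxRecDepth 10000000 in
noncomputable def Tz : ZL := (ZL.cons (nat_lit 76) (nat_lit 3) (nat_lit 110078782825629675741) (ZL.cons (nat_lit 152) (nat_lit 6) (nat_lit 215233942873561243812) (ZL.cons (nat_lit 228) (nat_lit 6) (nat_lit 210565822170089370610) (ZL.cons (nat_lit 304) (nat_lit 3) (nat_lit 105160549325749285341) (ZL.cons (nat_lit 380) (nat_lit 6) (nat_lit 205664295431443903746) (ZL.cons (nat_lit 456) (nat_lit 6) (nat_lit 201252445586682827128) (ZL.cons (nat_lit 532) (nat_lit 3) (nat_lit 100509687784488651695) (ZL.cons (nat_lit 608) (nat_lit 6) (nat_lit 196620003249683696682) (ZL.cons (nat_lit 684) (nat_lit 6) (nat_lit 192455703777564765512) (ZL.cons (nat_lit 760) (nat_lit 3) (nat_lit 96116866166065466689) (ZL.cons (nat_lit 836) (nat_lit 6) (nat_lit 188083189331839887782) (ZL.cons (nat_lit 912) (nat_lit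 6) (nat_lit 184158492003571771692) (ZL.cons (nat_lit 988) (nat_lit 3) (nat_lit 91973545313484061020) (ZL.cons (nat_lit 1064) (nat_lit 6) (nat_lit 180037559808890249798) (ZL.cons (nat_lit 1140) (nat_lit 6) (nat_lit 176345288470896561830) (ZL.cons (nat_lit 1216) (nat_lit 3) (nat_lit 88071976913256066796) (ZL.cons (nat_lit 1292) (nat_lit 6) (nat_lit 172468403566003189466) (ZL.cons (nat_lit 1368) (nat_lit 6) (nat_lit 169002157717219348504) (ZL.cons (nat_lit 1444) (nat_lit 3) (nat_lit 84405205218426613186) (ZL.cons (nat_lit 1520) (nat_lit 6) (nat_lit 165736963313853982514) (ZL.cons (nat_lit 1596) (nat_lit 6) (nat_lit 165362599575996315494) (ZL.cons (nat_lit 1672) (nat_lit 6) (nat_lit 162116761909954226092) (ZL.cons (nat_lit 1748) (nat_lit 3) (nat_lit 80967072726231340602) (ZL.cons (nat_lit 1824) (nat_lit 6) (nat_lit 159065169253807810334) (ZL.cons (nat_lit 1900) (nat_lit 6) (nat_lit 158708632360610032220)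 (ZL.cons (nat_lit 1976) (nat_lit 6) (nat_lit 155678380507362528902) (ZL.cons (nat_lit 2052) (nat_lit 3) (nat_lit 77752230035828147838) (ZL.cons (nat_lit 2128) (nat_lit 6) (nat_lit 152836175007355296240) (ZL.cons (nat_lit 2204) (nat_lit 6) (nat_lit 152496616061452650416) (ZL.cons (nat_lit 2280) (nat_lit 6) (nat_lit 150175248704635936062) (ZL.cons (nat_lit 2356) (nat_lit 6) (nat_lit 149677938796641468720) (ZL.cons (nat_lit 2432) (nat_lit 3) (nat_lit 74756150143222528061) (ZL.cons (nat_lit 2508) (nat_lit 6) (nat_lit 147041717140877962052) (ZL.cons (nat_lit 2584) (nat_lit 6) (nat_lit 146718327668589727936) (ZL.cons (nat_lit 2660) (nat_lit 6) (nat_lit 144581674375934122070) (ZL.cons (nat_lit 2736) (nat_lit 6) (nat_lit 144108045892129867456) (ZL.cons (nat_lit 2812) (nat_lit 3) (nat_lit 71975147465019022969) (ZL.cons (nat_lit 2888) (nat_lit 6) (nat_lit 141675240000454855970) (ZL.cons (nat_lit 2964)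 (nat_lit 6) (nat_lit 141367250026847013954) (ZL.cons (nat_lit 3040) (nat_lit 6) (nat_lit 139414117598584514880) (ZL.cons (nat_lit 3116) (nat_lit 6) (nat_lit 138963042852104272392) (ZL.cons (nat_lit 3192) (nat_lit 3) (nat_lit 69406401920294125947) (ZL.cons (nat_lit 3268) (nat_lit 6) (nat_lit 137319295061752486226) (ZL.cons (nat_lit 3344) (nat_lit 6) (nat_lit 136731949103012814718) (ZL.cons (nat_lit 3420) (nat_lit 6) (nat_lit 136438625318624393748) (ZL.cons (nat_lit 3496) (nat_lit 6) (nat_lit 134668656651598613652) (ZL.cons (nat_lit 3572) (nat_lit 6) (nat_lit 134239061654950763662) (ZL.cons (nat_lit 3648) (nat_lit 3) (nat_lit 67047988441039181595) (ZL.cons (nat_lit 3724) (nat_lit 6) (nat_lit 132768252896786873480) (ZL.cons (nat_lit 3800) (nat_lit 6) (nat_lit 132208875793225281564) (ZL.cons (nat_lit 3876) (nat_lit 6) (nat_lit 131929519808093452072) (ZL.cons (nat_lit 3952) (nat_lit 6) (nat_lit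 131026213067732804344) (ZL.cons (nat_lit 4028) (nat_lit 6) (nat_lit 130343233957586696308) (ZL.cons (nat_lit 4104) (nat_lit 6) (nat_lit 129934095865541124890) (ZL.cons (nat_lit 4180) (nat_lit 3) (nat_lit 64898912326640847935) (ZL.cons (nat_lit 4256) (nat_lit 6) (nat_lit 128637694143664439834) (ZL.cons (nat_lit 4332) (nat_lit 6) (nat_lit 128104954045034352296) (ZL.cons (nat_lit 4408) (nat_lit 6) (nat_lit 127838900725861181350) (ZL.cons (nat_lit 4484) (nat_lit 6) (nat_lit 127088195542377744862) (ZL.cons (nat_lit 4560) (nat_lit 6) (nat_lit 126437739247000499118) (ZL.cons (nat_lit 4636) (nat_lit 6) (nat_lit 126048083921242812052) (ZL.cons (nat_lit 4712) (nat_lit 3) (nat_lit 62959150907164535063) (ZL.cons (nat_lit 4788) (nat_lit 6) (nat_lit 125691048871342595454) (ZL.cons (nat_lit 4864) (nat_lit 6) (nat_lit 124928481912396627606) (ZL.cons (nat_lit 4940) (nat_lit 6) (nat_lit 124421110389891782334)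 (ZL.cons (nat_lit 5016) (nat_lit 6) (nat_lit 124167726276393524288) (ZL.cons (nat_lit 5092) (nat_lit 6) (nat_lit 124442927590866050780) (ZL.cons (nat_lit 5168) (nat_lit 6) (nat_lit 123573588571378442832) (ZL.cons (nat_lit 5244) (nat_lit 6) (nat_lit 122954106385304875456) (ZL.cons (nat_lit 5320) (nat_lit 6) (nat_lit 122583006075059459204) (ZL.cons (nat_lit 5396) (nat_lit 3) (nat_lit 61229702034237471542) (ZL.cons (nat_lit 5472) (nat_lit 6) (nat_lit 122369833287419711020) (ZL.cons (nat_lit 5548) (nat_lit 6) (nat_lit 121643579040804503544) (ZL.cons (nat_lit 5624) (nat_lit 6) (nat_lit 121160368066990365188) (ZL.cons (nat_lit 5700) (nat_lit 6) (nat_lit 120919049863658690862) (ZL.cons (nat_lit 5776) (nat_lit 6) (nat_lit 121314349976511006620) (ZL.cons (nat_lit 5852) (nat_lit 6) (nat_lit 120486408053189475242) (ZL.cons (nat_lit 5928) (nat_lit 6) (nat_lit 119896425018833696786) (ZL.cons (nat_lit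 6004) (nat_lit 6) (nat_lit 119542996151933300356) (ZL.cons (nat_lit 6080) (nat_lit 3) (nat_lit 59712639977593071075) (ZL.cons (nat_lit 6156) (nat_lit 6) (nat_lit 120404625583150166048) (ZL.cons (nat_lit 6232) (nat_lit 6) (nat_lit 119479838253441659524) (ZL.cons (nat_lit 6308) (nat_lit 6) (nat_lit 118788167542379557166) (ZL.cons (nat_lit 6384) (nat_lit 6) (nat_lit 118327966614937520636) (ZL.cons (nat_lit 6460) (nat_lit 6) (nat_lit 118098139754621640326) (ZL.cons (nat_lit 6536) (nat_lit 6) (nat_lit 118530050899972071678) (ZL.cons (nat_lit 6612) (nat_lit 6) (nat_lit 119014131395104562392) (ZL.cons (nat_lit 6688) (nat_lit 6) (nat_lit 119638494096876806356) (ZL.cons (nat_lit 6764) (nat_lit 6) (nat_lit 118621473046799752072) (ZL.cons (nat_lit 6840) (nat_lit 6) (nat_lit 117832956929350674568) (ZL.cons (nat_lit 6916) (nat_lit 6) (nat_lit 117271068325202314136) (ZL.cons (nat_lit 6992) (nat_lit 6)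 (nat_lit 116934469404344793726) (ZL.cons (nat_lit 7068) (nat_lit 3) (nat_lit 58411179370388035811) (ZL.cons (nat_lit 7144) (nat_lit 6) (nat_lit 116493286487343670884) (ZL.cons (nat_lit 7220) (nat_lit 6) (nat_lit 116634380242911250604) (ZL.cons (nat_lit 7296) (nat_lit 6) (nat_lit 116916903691559666186) (ZL.cons (nat_lit 7372) (nat_lit 6) (nat_lit 117341529508166651950) (ZL.cons (nat_lit 7448) (nat_lit 6) (nat_lit 117909268706581272150) (ZL.cons (nat_lit 7524) (nat_lit 6) (nat_lit 117028518868763646886) (ZL.cons (nat_lit 7600) (nat_lit 6) (nat_lit 116369784858228311308) (ZL.cons (nat_lit 7676) (nat_lit 6) (nat_lit 115931498260664466996) (ZL.cons (nat_lit 7752) (nat_lit 6) (nat_lit 115712615536554104792) (ZL.cons (nat_lit 7828) (nat_lit 3) (nat_lit 57606606454472465742) (ZL.cons (nat_lit 7904) (nat_lit 6) (nat_lit 115285480442284423536) (ZL.cons (nat_lit 7980) (nat_lit 6) (nat_lit 115502455107858469910)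 (ZL.cons (nat_lit 8056) (nat_lit 6) (nat_lit 115864653512013675478) (ZL.cons (nat_lit 8132) (nat_lit 6) (nat_lit 116372938031902790728) (ZL.cons (nat_lit 8208) (nat_lit 6) (nat_lit 115621970300998907390) (ZL.cons (nat_lit 8284) (nat_lit 6) (nat_lit 115086838297048087932) (ZL.cons (nat_lit 8360) (nat_lit 6) (nat_lit 114766267896231401826) (ZL.cons (nat_lit 8436) (nat_lit 3) (nat_lit 57329747917844880863) (ZL.cons (nat_lit 8512) (nat_lit 6) (nat_lit 114135188970799426062) (ZL.cons (nat_lit 8588) (nat_lit 6) (nat_lit 114283337414145384768) (ZL.cons (nat_lit 8664) (nat_lit 6) (nat_lit 114579987035226221128) (ZL.cons (nat_lit 8740) (nat_lit 6) (nat_lit 115025844142663556182) (ZL.cons (nat_lit 8816) (nat_lit 6) (nat_lit 114398478418344188964) (ZL.cons (nat_lit 8892) (nat_lit 6) (nat_lit 113981062611140527712) (ZL.cons (nat_lit 8968) (nat_lit 6) (nat_lit 113772602873892563710) (ZL.cons (nat_lit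 9044) (nat_lit 3) (nat_lit 56590383519619218380) (ZL.cons (nat_lit 9120) (nat_lit 6) (nat_lit 113256647949244903414) (ZL.cons (nat_lit 9196) (nat_lit 6) (nat_lit 113484471348097652106) (ZL.cons (nat_lit 9272) (nat_lit 6) (nat_lit 113864779672460617952) (ZL.cons (nat_lit 9348) (nat_lit 6) (nat_lit 113355130144888408940) (ZL.cons (nat_lit 9424) (nat_lit 6) (nat_lit 113049825001253469792) (ZL.cons (nat_lit 9500) (nat_lit 3) (nat_lit 56474068662273572945) (ZL.cons (nat_lit 9576) (nat_lit 6) (nat_lit 112419942214431072318) (ZL.cons (nat_lit 9652) (nat_lit 6) (nat_lit 112575498079944328958) (ZL.cons (nat_lit 9728) (nat_lit 6) (nat_lit 112886980182079207136) (ZL.cons (nat_lit 9804) (nat_lit 6) (nat_lit 112489441318075720228) (ZL.cons (nat_lit 9880) (nat_lit 6) (nat_lit 112290908234982421180) (ZL.cons (nat_lit 9956) (nat_lit 3) (nat_lit 55885614026596214990) (ZL.cons (nat_lit 10032) (nat_lit 6) (nat_lit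 111850903008699219966) (ZL.cons (nat_lit 10108) (nat_lit 6) (nat_lit 112090117577494606092) (ZL.cons (nat_lit 10184) (nat_lit 6) (nat_lit 111799350774032759284) (ZL.cons (nat_lit 10260) (nat_lit 3) (nat_lit 55851252683822892069) (ZL.cons (nat_lit 10336) (nat_lit 6) (nat_lit 111308960908002217728) (ZL.cons (nat_lit 10412) (nat_lit 6) (nat_lit 111472294566791137200) (ZL.cons (nat_lit 10488) (nat_lit 6) (nat_lit 111283215440035614294) (ZL.cons (nat_lit 10564) (nat_lit 3) (nat_lit 55474190719759164689) (ZL.cons (nat_lit 10640) (nat_lit 6) (nat_lit 111032040142800458864) (ZL.cons (nat_lit 10716) (nat_lit 3) (nat_lit 55469903211215955552) (ZL.cons (nat_lit 10792) (nat_lit 6) (nat_lit 110768306080703545660) (ZL.cons (nat_lit 10868) (nat_lit 1) (nat_lit 18446744073709551617) ZL.nil)))))))))))))))))))))))))))))))))))))))))))))))))))))))))))))))))))))))))))))))))))))))))))))))))))))))))))))))))))))))))))))))))))))))))))))))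

noncomputable def vl : XL := ⟨(nat_lit 0), (nat_lit 76), (nat_lit 213037656), (nat_lit 152), (nat_lit 168042832), (nat_lit 152), (nat_lit 168042832), (nat_lit 1), (nat_lit 4), (nat_lit 2), (nat_lit 5), (nat_lit 2), (nat_lit 4), (nat_lit 0), (nat_lit 0), (nat_lit 0)⟩

noncomputable def cp0 : Nat := (nat_lit 161518355305281605034077814690669060890762615163594130174153785515819593495502735439995284900425491797550980609819264705971273428059927344032354287619455570716947656936024557409029134918531892201431561543664136528572287707948914709051204237678331240874634311147226102605642443520378892955391523007371596837046225406846209489940456593490624153008636999522077538476980536805693384557234381102764089901543866031530820076040631195341466737645868547416933048238322776873971747169132922759057935610910294343545653389998440201351493133525347704742502983145211102064222737390148577919471925174916509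6979162165693627613651664633935637808775985190719836290165877929670965678603234584321076145894987947324310872289648821422113520655730353460899630806205893822260785505623290835490658787472596019772060674420244074757899106624727115177890930509936451912708420536010828792824160333384436722459108707251916474492836311467983324433240985351837546238322303055080286662069124490445069202656742164248902482704619827356195096193449960863102108801437084337631570263362528007114619705603578449102493958756704792232084427562111873488739235163318440080786760810851552106983990453720573081957893036815991359264102631948679752861757229491801809875180260624887410388334786873223808630473566833709414636531594199640359325269989264869329912824264702046874886114163007298930327044088349222640401476315052870032182524056418761559416070088774872867527250088366956353342395610740150279673067535798735459146744134252319578990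4421741265480244376968092474666888241949197398008893274365878653631069204315547991779261566610957600674802948729071915560960973673678371327093662330334870841064766053783842153740734393692312364241093714714557438917312104505238676851206006018148263129820835955077958596520738904242705934783657465368526225766317058321448213671431323114019240403105264731445131676884096001300873519997920560762096621410384189148720559464793837840633356935676926354249283856620525645848025361130840676535742951920101229403086082601875817119936183424693146223404406145373644053829736307654870724800268929859655284096704963319788950167718134117996183674330836423399821458667751068386363402205148255186930774160676609954877017201277774195794513039358637522748074845208739697608146687180417995431586837831372247053377204528043587060309197687256913864027485537187020564312055950328592890835571358566588465995018202388184958962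7914487316871881850438979161187426999815950979386236335270139651514489967653267119446002093320006192052468472570583385850326898606573022023987391268306329259863482882248459797229447683484449862166484282279347316643417328347724169761448247566814738127866078638620889880956964380389151700878169278696001481753542776520477613014350186305019457399667532142237149324006887205157827633763679523277494192936119324466388335685564010179359328866958056223031971020837612062836786584037274222154991601752681602095324185738703268433465322523632199553681423478578160963610409253823020499190537611648112824487302189306561923764999809756597257095453211962695004341220465463012814500551838075547506083699456605289547453514718540342778993561769866952611044587908397457662850563819276215139148982347329866631488530001555439986295677742121325952137414551102416829369021018844887354239408622568781395664540015897083904)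

noncomputable def cp1 : Nat := (nat_lit 1420761952869585175719112683994702722211682764079016917864170638410181320200023213617216889433288337842858617930625768742895583209822182466439782165023879245727997829379041500515970211781936670015770681950756377509867035073818853639000786294465895490145950166864596620549432355194915446363125761015015060870986620735363572469240447633157153637435713568100657238868704096948767560826208111470025636712982594986911768170205473168761729069490636882431934678753470126670838873552132307567844422630399072800616973638485254918052387758028727218378768496769454699033117592637668335587366427186073629480637912602294056704590578726535355816861107972832707722086677797320306089163266592302183523111713530439014155622119204050342817861579687926842165487080360749602512642467741652288137225592661712512474611311630875222006444218608478030183344596090730834624517846703186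0307088070264679728131077180863326791699468606044216378653129229690770548695785532883798479980162670045599874155997290019662163333750627491414075764361888313293269331763731792819230770993391164190727543973199401411562494858485155548706629697830256345755629120343575061238315558355960450471115288260390613521909455197917724089350062975143637499633432929588176939315238551854780655580387942957492027265293639115035438730431524666909354259287991893633261733226483767140936485274780365894948270967923708648959851774850298119583711193574723103412691588438931941290453768926137319212134516071804680869810646292508814649507914490687200950175565589842575328319528737611171746778144829681671585351691487802618789741605908896268065982979447869749830977504973232832777832221179765632033758169541964960505034148988836025756251368429843075373464034957590814247149484871153195345015084351305869316042241567279757099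7356144150164158631081793614770562066900312283594351301270473174642852093097354079793601102254491850204479038527716376618425759249799493111244976060472662740102730615931021712034596519556994008723028183784645354947480141505983723628958249302929863593765147562790137663586045198056533952364816921083157669786327899621167168009792958873365244271552705646641169839062128974743110481260634433335877789934373848969925759242547907417329439829093146253952080247618578820431259265553891918593918742149066662674223303064208786032540878641053232644954809554574242576014244732055855402603100474778843359800609862213108357851489205011214619222074453291150701550779347675987964639885735529332397209066870460837441121694928514952251968473114949185092457588394729311395644792431419186474556432223933594119008639228307331024924578650615914381755500260483510655018852313547121154943695610231663347027395746145836853587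1176327512348070916650914796308785065421396702084001019887171225696077247130645256757813351999429967838680091937384187030443504944996201708048324449814624765338579573651552450965704037040438658434445690199956614093485602413919221032564182034077752195298733897505886659410405582560186966995831748025091723273464660221303966751427397623877602207535384312508323929875477194730331578014776844876786990180918360278893497338507352156048620128069973558257496958546860064375464462366385998368331197643915231933919985773397283902015591653989418608686789338753785993994139814793098730737769084799927475019308555479700298233829547782286378302403859803589912804350757514286350208944317167300694047339349539867156385465892966438617561668466241639989134374315691543727105209479795565860544545028422843941013168184274813645175072873891425930012538009965603856035790037706123031285955813353682973463301656113299574594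5714261243210313106810858370449653576066423060755347691775395923145977433823029820971888569253950129948579928957326532792730074376368633845172855207404612736573565555065002426352399862694508252472465607485951701330020062330760756059880851924832274030323605150409434308413564703993770195622219775915985643227040144925754704523443238879303320972901579274546424533459972238524237732692886691832304307971583820704747757050847705001514763430554482766504843948302438939171173184860967623410398166078953257082310854430816423967697659208652568490807496079921131803847776367769599736137202556904748003620995068579426356059469952744171564242577143175922609958355835672668092858128880867392615347107219036405189340750232724123454314130033355301981178171534230297611362394486452567648730320168629061314685234507644215755789114365912313345660879349916518230358682675120336899111380081096595464830384706658063555568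0383744802007840147460127526553507452595896336037398511298620646876863214776387780345506298288264651577145605340008426161035436000618411400433173172891549046085496296719881490189607279768139442513825513198350567259350157383019904275080534649959443289972931786682796911642197302875924390711016427936900795311079857098658990693081244485732302423366891929426465881000996708406387266580225330171932845259146321425953937522182443902165502275160455903559501794834390917972025199839779069668896809603416881272449746103683155551243645402912699212368845001936874153114468693918995896414988696917956276052029313330417293925426804185030434944110011097823596653267938070893045393655995927639298940412023056385766077479629761613228769665935139060626546338327323385181619167773455697370022773981022449718525664000507894547476916337710503610139344408896099441519937485156032255886679458810698820283879435578347507223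0440560996325796208167194133305848239428733783144055660820484349697435089440768093719724586926877332496738945777880263633286995991472278258370243193876384581922204881359190425081006654197779886368775816373184149455545019654377226343046932290700130304536099602540633240903674984504611625238985232532702762499941151804112480140281329055281903853687468266735953382417173274941148214078172804766679421910976845435673001436799487385965453801769704749341814875826248918175334370171548169494722467466166095456090316437925667889900102450901049000964991363930287405371669860102734999507870103498610862822835450063939387836021087962782391199805124658113908786575792372967109453540791418171042540176167654364568450474708690947463504632460016786939602006399227329366687312142552471192120024584587146000290474967617899437274409923096625174987129992117291082379680111839690741693710424693318543261631400863976604578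301890355110871554328816161636109022390949691814514218228551450002665940223317577182845841833901457893169258908915144549443743522764472033603409218658786664148207872989184916238648321494567387358021535102654305624734302202622348210031701485484275355873076759366302236844170784748584374811107951982263919120295150068105128287334344435851581148678487640193798133346549411262508471800867521775951344271768709730220788967094933372619521697236448255036423659423484646893733054972229780166549906753673913543241239973943114137554725163297029668089571937932413971453834659119788694764164594177261153581121650108615948637530705373290262563026888747954628213048507002660734835843397273076392905224487694238003606782929130151503812601536220374223582950082758400784853387234845837469768363198228773240659773102256864977008967701295885183294722101837202581264861063913542089095085336259994715981580781404302316162544332829463124236712093337847080367484591983846548939464675037829712020128545919396665479187962766010428081544788425529709597403486231914078745349119736402970954789462263374278390379932762508130381134997987300625387985594821007707091337055770749278576270312489214156409762130985199285308387774117737552000090495430919712713935245266148117630328920291071462949323895067122964067619835824626732766253907729428132976097259610969121433354532283127693312)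

noncomputable def rc0 : Nat := (nat_lit 1420761952869585175719112683994702722211682764079016917864170638410181320200023213617216889433288337842858617930625768742895583209822182466439782165023879245727997829379041500515970211781936670015770681950756377509867035073818853639000786294465895490145950166864596620549432355194915446363125761015015060870986620735363572469240447633157153637435713568100657238868704096948767560826208111470025636712982594986911768170205473168761729069490636882431934678753470126670838873552132307567844422630399072800616973638485254918052387758028727218378768496769454699033117592637668335587366427186073629480637912602294056704590578726535355816861107972832707722086677797320306089163266592302183523111713530439014155622119204050342817861579687926842165487080360749602512642467741652288137225592661712512474611311630875222006444218608478030183344596090730834624517846703186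0307088070264679728131077180863326791699468606044216378653129229690770548695785532883798479980162670045599874155997290019662163333750627491414075764361888313293269331763731792819230770993391164190727543973199401411562494858485155548706629697830256345755629120343575061238315558355960450471115288260390613521909455197917724089350062975143637499633432929588176939315238551854780655580387942957492027265293639115035438730431524666909354259287991893633261733226483767140936485274780365894948270967923708648959851774850298119583711193574723103412691588438931941290453768926137319212134516071804680869810646292508814649507914490687200950175565589842575328319528737611171746778144829681671585351691487802618789741605908896268065982979447869749830977504973232832777832221179765632033758169541964960505034148988836025756251368429843075373464034957590814247149484871153195345015084351305869316042241567279757099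7356144150164158631081793614770562066900312283594351301270473174642852093097354079793601102254491850204479038527716376618425759249799493111244976060472662740102730615931021712034596519556994008723028183784645354947480141505983723628958249302929863593765147562790137663586045198056533952364816921083157669786327899621167168009792958873365244271552705646641169839062128974743110481260634433335877789934373848969925759242547907417329439829093146253952080247618578820431259265553891918593918742149066662674223303064208786032540878641053232644954809554574242576014244732055855402603100474778843359800609862213108357851489205011214619222074453291150701550779347675987964639885735529332397209066870460837441121694928514952251968473114949185092457588394729311395644792431419186474556432223933594119008639228307331024924578650615914381755500260483510655018852313547121154943695610231663347027395746145836853587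1176327512348070916650914796308785065421396702084001019887171225696077247130645256757813351999429967838680091937384187030443504944996201708048324449814624765338579573651552450965704037040438658434445690199956614093485602413919221032564182034077752195298733897505886659410405582560186966995831748025091723273464660221303966751427397623877602207535384312508323929875477194730331578014776844876786990180918360278893497338507352156048620128069973558257496958546860064375464462366385998368331197643915231933919985773397283902015591653989418608686789338753785993994139814793098730737769084799927475019308555479700298233829547782286378302403859803589912804350757514286350208944317167300694047339349539867156385465892966438617561668466241639989134374315691543727105209479795565860544545028422843941013168184274813645175072873891425930012538009965603856035790037706123031285955813353682973463301656113299574594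5714261243210313106810858370449653576066423060755347691775395923145977433823029820971888569253950129948579928957326532792730074376368633845172855207404612736573565555065002426352399862694508252472465607485951701330020062330760756059880851924832274030323605150409434308413564703993770195622219775915985643227040144925754704523443238879303320972901579274546424533459972238524237732692886691832304307971583820704747757050847705001514763430554482766504843948302438939171173184860967623410398166078953257082310854430816423967697659208652568490807496079921131803847776367769599736137202556904748003620995068579426356059469952744171564242577143175922609958355835672668092858128880867392615347107219036405189340750232724123454314130033355301981178171534230297611362394486452567648730320168629061314685234507644215755789114365912313345660879349916518230358682675120336899111380081096595464830384706658063555568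0383744802007840147460127526553507452595896336037398511298620646876863214776387780345506298288264651577145605340008426161035436000618411400433173172891549046085496296719881490189607279768139442513825513198350567259350157383019904275080534649959443289972931786682796911642197302875924390711016427936900795311079857098658990693081244485732302423366891929426465881000996708406387266580225330171932845259146321425953937522182443902165502275160455903559501794834390917972025199839779069668896809603416881272449746103683155551243645402912699212368845001936874153114468693918995896414988696917956276052029313330417293925426804185030434944110011097823596653267938070893045393655995927639298940412023056385766077479629761613228769665935139060626546338327323385181619167773455697370022773981022449718525664000507894547476916337710503610139344408896099441519937485156032255886679458810698820283879435578347507223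0440560996325796208167194133305848239428733783144055660820484349697435089440768093719724586926877332496738945777880263633286995991472278258370243193876384581922204881359190425081006654197779886368775816373184149455545019654377226343046932290700130304536099602540633240903674984504611625238985232532702762499941151804112480140281329055281903853687468266735953382417173274941148214078172804766679421910976845435673001436799487385965453801769704749341814875826248918175334370171548169494722467466166095456090316437925667889900102450901049000964991363930287405371669860102734999507870103498610862822835450063939387836021087962782391199805124658113908786575792372967109453540791418171042540176167654364568450474708690947463504632460016786939602006399227329366687312142552471192120024584587146000290474967617899437274409923096625174987129992117291082379680111839690741693710424693318543261631400863976604578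301890355110871554328816161636109022390949691814514218228551450002665940223317577182845841833901457893169258908915144549443743522764472033603409218658786664148207872989184916238648321494567387358021535102654305624734302202622348210031701485484275355873076759366302236844170784748584374811107951982263919120295150068105128287334344435851581148678487640193798133346549411262508471800867521775951344271768709730220788967094933372619521697236448255036423659423484646893733054972229780166549906753673913543241239973943114137554725163297029668089571937932413971453834659119788694764164594177261153581121650108615948637530705373290262563026888747954628213048507002660734835843397273076392905224487694238003606782929130151503812601536220374223582950082758400784853387234845837469768363198228773240659773102256864977008967701295885183294722101837202581264861063913542089095085336259994715981580781404302316162544332829463124236712093337847080367484591983846548939464675037829712020128545919396665479187962766010428081544788425529709597403486231914078745349119736402970954789462263374278390379932762508130381134997987300625387985594821007707091337055770749278576270312489214156409762130985199285308387774117737552000090495430919712713935245266148117630328920291071462949323895067122964067619835824626732766253907729428132976097259610969121433354532283127693312)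

end Vale.Agent.Lib.P154.PChain.BM.S5
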