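import Vale.Agent.Lib.P154.PChain.BM.R5_0

set_option linter.all false

namespace Vale.Agent.Lib.P154.PChain.BM.S6

open Vale.Agent.Lib.P154.Chain

noncomputable def pc0 : PT := (PT.nd (nat_lit 2857140) (PT.nd (nat_lit 2613546) (PT.nd (nat_lit 2491788) (PT.nd (nat_lit 2451072) (PT.nd (nat_lit 2410512) (PT.nd (nat_lit 2369952) PT.nil (PT.lf (nat_lit 76) (nat_lit 3) (nat_lit 1) (nat_lit 1) (nat_lit 166) (nat_lit 58) (nat_lit 166))) (PT.nd (nat_lit 78) (PT.lf (nat_lit 152) (nat_lit 6) (nat_lit 2) (nat_lit 3) (nat_lit 165) (nat_lit 59) (nat_lit 166)) (PT.lf (nat_lit 152) (nat_lit 6) (nat_lit 2) (nat_lit 1) (nat_lit 166) (nat_lit 59) (nat_lit 165)))) (PT.nd (nat_lit 156) (PT.nd (nat_lit 78) (PT.lf (nat_lit 228) (nat_lit 6) (nat_lit 3) (nat_lit 3) (nat_lit 164) (nat_lit 60) (nat_lit 166)) (PT.lf (nat_lit 304) (nat_lit 3) (nat_lit 4) (nat_lit 1) (nat_lit 165) (nat_lit 60) (nat_lit 165))) (PT.nd (nat_lit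 40482) (PT.lf (nat_lit 228) (nat_lit 6) (nat_lit 3) (nat_lit 1) (nat_lit 166) (nat_lit 60) (nat_lit 164)) (PT.lf (nat_lit 380) (nat_lit 6) (nat_lit 5) (nat_lit 3) (nat_lit 164) (nat_lit 61) (nat_lit 165))))) (PT.nd (nat_lit 40638) (PT.nd (nat_lit 40482) (PT.lf (nat_lit 380) (nat_lit 6) (nat_lit 5) (nat_lit 1) (nat_lit 165) (nat_lit 61) (nat_lit 164)) (PT.nd (nat_lit 78) (PT.lf (nat_lit 456) (nat_lit 6) (nat_lit 6) (nat_lit 3) (nat_lit 163) (nat_lit 62) (nat_lit 165)) (PT.lf (nat_lit 532) (nat_lit 3) (nat_lit 7) (nat_lit 1) (nat_lit 164) (nat_lit 62) (nat_lit 164)))) (PT.nd (nat_lit 40560) (PT.nd (nat_lit 40482) (PT.lf (nat_lit 456) (nat_lit 6) (nat_lit 6) (nat_lit 1) (nat_lit 165) (nat_lit 62) (nat_lit 163)) (PT.lf (nat_lit 608) (nat_lit 6) (nat_lit 8) (nat_lit 3) (nat_lit 163) (nat_lit 63) (nat_lit 164))) (PT.nd (nat_lit 40482) (PT.lf (nat_lit 608) (nat_lit 6) (nat_lit 8) (nat_lit 1) (nat_lit 164)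 (nat_lit 63) (nat_lit 163)) (PT.lf (nat_lit 684) (nat_lit 6) (nat_lit 9) (nat_lit 3) (nat_lit 162) (nat_lit 64) (nat_lit 164)))))) (PT.nd (nat_lit 121758) (PT.nd (nat_lit 40638) (PT.nd (nat_lit 78) (PT.lf (nat_lit 760) (nat_lit 3) (nat_lit 10) (nat_lit 1) (nat_lit 163) (nat_lit 64) (nat_lit 163)) (PT.nd (nat_lit 40482) (PT.lf (nat_lit 684) (nat_lit 6) (nat_lit 9) (nat_lit 1) (nat_lit 164) (nat_lit 64) (nat_lit 162)) (PT.lf (nat_lit 836) (nat_lit 6) (nat_lit 11) (nat_lit 3) (nat_lit 162) (nat_lit 65) (nat_lit 163)))) (PT.nd (nat_lit 40560) (PT.nd (nat_lit 40482) (PT.lf (nat_lit 836) (nat_lit 6) (nat_lit 11) (nat_lit 1) (nat_lit 163) (nat_lit 65) (nat_lit 162)) (PT.lf (nat_lit 912) (nat_lit 6) (nat_lit 12) (nat_lit 3) (nat_lit 161) (nat_lit 66) (nat_lit 163))) (PT.nd (nat_lit 78) (PT.lf (nat_lit 988) (nat_lit 3) (nat_lit 13) (nat_lit 1) (nat_lit 162) (nat_lit 66) (nat_lit 162)) (PT.lf (nat_lit 912)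 (nat_lit 6) (nat_lit 12) (nat_lit 1) (nat_lit 163) (nat_lit 66) (nat_lit 161))))) (PT.nd (nat_lit 40716) (PT.nd (nat_lit 40560) (PT.nd (nat_lit 78) (PT.lf (nat_lit 1064) (nat_lit 6) (nat_lit 14) (nat_lit 3) (nat_lit 161) (nat_lit 67) (nat_lit 162)) (PT.lf (nat_lit 1064) (nat_lit 6) (nat_lit 14) (nat_lit 1) (nat_lit 162) (nat_lit 67) (nat_lit 161))) (PT.nd (nat_lit 78) (PT.lf (nat_lit 1140) (nat_lit 6) (nat_lit 15) (nat_lit 3) (nat_lit 160) (nat_lit 68) (nat_lit 162)) (PT.lf (nat_lit 1216) (nat_lit 3) (nat_lit 16) (nat_lit 1) (nat_lit 161) (nat_lit 68) (nat_lit 161)))) (PT.nd (nat_lit 40560) (PT.nd (nat_lit 40482) (PT.lf (nat_lit 1140) (nat_lit 6) (nat_lit 15) (nat_lit 1) (nat_lit 162) (nat_lit 68) (nat_lit 160)) (PT.lf (nat_lit 1292) (nat_lit 6) (nat_lit 17) (nat_lit 3) (nat_lit 160) (nat_lit 69) (nat_lit 161))) (PT.nd (nat_lit 40482) (PT.lf (nat_lit 1292) (nat_lit 6) (nat_lit 17) (nat_lit 1) (nat_lit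 161) (nat_lit 69) (nat_lit 160)) (PT.lf (nat_lit 1368) (nat_lit 6) (nat_lit 18) (nat_lit 3) (nat_lit 159) (nat_lit 70) (nat_lit 161))))))) (PT.nd (nat_lit 202878) (PT.nd (nat_lit 121680) (PT.nd (nat_lit 40638) (PT.nd (nat_lit 78) (PT.lf (nat_lit 1444) (nat_lit 3) (nat_lit 19) (nat_lit 1) (nat_lit 160) (nat_lit 70) (nat_lit 160)) (PT.nd (nat_lit 40482) (PT.lf (nat_lit 1368) (nat_lit 6) (nat_lit 18) (nat_lit 1) (nat_lit 161) (nat_lit 70) (nat_lit 159)) (PT.lf (nat_lit 1520) (nat_lit 6) (nat_lit 20) (nat_lit 3) (nat_lit 159) (nat_lit 71) (nat_lit 160)))) (PT.nd (nat_lit 40560) (PT.nd (nat_lit 40482) (PT.lf (nat_lit 1520) (nat_lit 6) (nat_lit 20) (nat_lit 1) (nat_lit 160) (nat_lit 71) (nat_lit 159)) (PT.lf (nat_lit 1596) (nat_lit 6) (nat_lit 21) (nat_lit 3) (nat_lit 158) (nat_lit 72) (nat_lit 160))) (PT.nd (nat_lit 78) (PT.lf (nat_lit 1672) (nat_lit 3) (nat_lit 22) (nat_lit 1) (nat_lit 159) (nat_lit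 72) (nat_lit 159)) (PT.lf (nat_lit 1596) (nat_lit 6) (nat_lit 21) (nat_lit 1) (nat_lit 160) (nat_lit 72) (nat_lit 158))))) (PT.nd (nat_lit 234) (PT.nd (nat_lit 78) (PT.lf (nat_lit 1748) (nat_lit 6) (nat_lit 23) (nat_lit 3) (nat_lit 157) (nat_lit 73) (nat_lit 160)) (PT.nd (nat_lit 78) (PT.lf (nat_lit 1824) (nat_lit 6) (nat_lit 24) (nat_lit 3) (nat_lit 158) (nat_lit 73) (nat_lit 159)) (PT.lf (nat_lit 1824) (nat_lit 6) (nat_lit 24) (nat_lit 1) (nat_lit 159) (nat_lit 73) (nat_lit 158)))) (PT.nd (nat_lit 40482) (PT.nd (nat_lit 40404) (PT.lf (nat_lit 1748) (nat_lit 6) (nat_lit 23) (nat_lit 1) (nat_lit 160) (nat_lit 73) (nat_lit 157)) (PT.lf (nat_lit 1900) (nat_lit 6) (nat_lit 25) (nat_lit 3) (nat_lit 157) (nat_lit 74) (nat_lit 159))) (PT.nd (nat_lit 78) (PT.lf (nat_lit 1976) (nat_lit 3) (nat_lit 26) (nat_lit 1) (nat_lit 158) (nat_lit 74) (nat_lit 158)) (PT.lf (nat_lit 1900) (nat_lit 6) (nat_lit 25) (nat_lit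 1) (nat_lit 159) (nat_lit 74) (nat_lit 157)))))) (PT.nd (nat_lit 81198) (PT.nd (nat_lit 234) (PT.nd (nat_lit 78) (PT.lf (nat_lit 2052) (nat_lit 6) (nat_lit 27) (nat_lit 3) (nat_lit 156) (nat_lit 75) (nat_lit 159)) (PT.nd (nat_lit 78) (PT.lf (nat_lit 2128) (nat_lit 6) (nat_lit 28) (nat_lit 3) (nat_lit 157) (nat_lit 75) (nat_lit 158)) (PT.lf (nat_lit 2128) (nat_lit 6) (nat_lit 28) (nat_lit 1) (nat_lit 158) (nat_lit 75) (nat_lit 157)))) (PT.nd (nat_lit 40482) (PT.nd (nat_lit 40404) (PT.lf (nat_lit 2052) (nat_lit 6) (nat_lit 27) (nat_lit 1) (nat_lit 159) (nat_lit 75) (nat_lit 156)) (PT.lf (nat_lit 2204) (nat_lit 6) (nat_lit 29) (nat_lit 3) (nat_lit 156) (nat_lit 76) (nat_lit 158))) (PT.nd (nat_lit 78) (PT.lf (nat_lit 2280) (nat_lit 3) (nat_lit 30) (nat_lit 1) (nat_lit 157) (nat_lit 76) (nat_lit 157)) (PT.lf (nat_lit 2204) (nat_lit 6) (nat_lit 29) (nat_lit 1) (nat_lit 158) (nat_lit 76) (nat_lit 156)))))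 (PT.nd (nat_lit 40638) (PT.nd (nat_lit 156) (PT.nd (nat_lit 78) (PT.lf (nat_lit 2356) (nat_lit 6) (nat_lit 31) (nat_lit 3) (nat_lit 155) (nat_lit 77) (nat_lit 158)) (PT.lf (nat_lit 2432) (nat_lit 6) (nat_lit 32) (nat_lit 3) (nat_lit 156) (nat_lit 77) (nat_lit 157))) (PT.nd (nat_lit 78) (PT.lf (nat_lit 2432) (nat_lit 6) (nat_lit 32) (nat_lit 1) (nat_lit 157) (nat_lit 77) (nat_lit 156)) (PT.lf (nat_lit 2356) (nat_lit 6) (nat_lit 31) (nat_lit 1) (nat_lit 158) (nat_lit 77) (nat_lit 155)))) (PT.nd (nat_lit 156) (PT.nd (nat_lit 78) (PT.lf (nat_lit 2508) (nat_lit 6) (nat_lit 33) (nat_lit 3) (nat_lit 155) (nat_lit 78) (nat_lit 157)) (PT.lf (nat_lit 2584) (nat_lit 3) (nat_lit 34) (nat_lit 1) (nat_lit 156) (nat_lit 78) (nat_lit 156))) (PT.nd (nat_lit 40404) (PT.lf (nat_lit 2508) (nat_lit 6) (nat_lit 33) (nat_lit 1) (nat_lit 157) (nat_lit 78) (nat_lit 155)) (PT.lf (nat_lit 2660) (nat_lit 6) (nat_lit 35) (nat_lit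 3) (nat_lit 154) (nat_lit 79) (nat_lit 157))))))))
noncomputable def pc1 : PT := (PT.nd (nat_lit 243672) (PT.nd (nat_lit 121836) (PT.nd (nat_lit 40794) (PT.nd (nat_lit 40482) (PT.nd (nat_lit 78) (PT.lf (nat_lit 2736) (nat_lit 6) (nat_lit 36) (nat_lit 3) (nat_lit 155) (nat_lit 79) (nat_lit 156)) (PT.nd (nat_lit 78) (PT.lf (nat_lit 2736) (nat_lit 6) (nat_lit 36) (nat_lit 1) (nat_lit 156) (nat_lit 79) (nat_lit 155)) (PT.lf (nat_lit 2660) (nat_lit 6) (nat_lit 35) (nat_lit 1) (nat_lit 157) (nat_lit 79) (nat_lit 154)))) (PT.nd (nat_lit 156) (PT.nd (nat_lit 78) (PT.lf (nat_lit 2812) (nat_lit 6) (nat_lit 37) (nat_lit 3) (nat_lit 153) (nat_lit 80) (nat_lit 157)) (PT.lf (nat_lit 2888) (nat_lit 6) (nat_lit 38) (nat_lit 3) (nat_lit 154) (nat_lit 80) (nat_lit 156))) (PT.nd (nat_lit 78) (PT.lf (nat_lit 2964) (nat_lit 3) (nat_lit 39) (nat_lit 1) (nat_lit 155) (nat_lit 80) (nat_lit 155)) (PT.lf (nat_lit 2888) (nat_lit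 6) (nat_lit 38) (nat_lit 1) (nat_lit 156) (nat_lit 80) (nat_lit 154))))) (PT.nd (nat_lit 40482) (PT.nd (nat_lit 40326) (PT.lf (nat_lit 2812) (nat_lit 6) (nat_lit 37) (nat_lit 1) (nat_lit 157) (nat_lit 80) (nat_lit 153)) (PT.nd (nat_lit 78) (PT.lf (nat_lit 3040) (nat_lit 6) (nat_lit 40) (nat_lit 3) (nat_lit 153) (nat_lit 81) (nat_lit 156)) (PT.lf (nat_lit 3116) (nat_lit 6) (nat_lit 41) (nat_lit 3) (nat_lit 154) (nat_lit 81) (nat_lit 155)))) (PT.nd (nat_lit 40404) (PT.nd (nat_lit 78) (PT.lf (nat_lit 3116) (nat_lit 6) (nat_lit 41) (nat_lit 1) (nat_lit 155) (nat_lit 81) (nat_lit 154)) (PT.lf (nat_lit 3040) (nat_lit 6) (nat_lit 40) (nat_lit 1) (nat_lit 156) (nat_lit 81) (nat_lit 153))) (PT.nd (nat_lit 78) (PT.lf (nat_lit 3192) (nat_lit 6) (nat_lit 42) (nat_lit 3) (nat_lit 152) (nat_lit 82) (nat_lit 156)) (PT.lf (nat_lit 3268) (nat_lit 6) (nat_lit 43) (nat_lit 3) (nat_lit 153) (nat_lit 82) (nat_lit 155))))))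 (PT.nd (nat_lit 81042) (PT.nd (nat_lit 40482) (PT.nd (nat_lit 78) (PT.lf (nat_lit 3344) (nat_lit 3) (nat_lit 44) (nat_lit 1) (nat_lit 154) (nat_lit 82) (nat_lit 154)) (PT.nd (nat_lit 78) (PT.lf (nat_lit 3268) (nat_lit 6) (nat_lit 43) (nat_lit 1) (nat_lit 155) (nat_lit 82) (nat_lit 153)) (PT.lf (nat_lit 3192) (nat_lit 6) (nat_lit 42) (nat_lit 1) (nat_lit 156) (nat_lit 82) (nat_lit 152)))) (PT.nd (nat_lit 156) (PT.nd (nat_lit 78) (PT.lf (nat_lit 3420) (nat_lit 6) (nat_lit 45) (nat_lit 3) (nat_lit 152) (nat_lit 83) (nat_lit 155)) (PT.lf (nat_lit 3496) (nat_lit 6) (nat_lit 46) (nat_lit 3) (nat_lit 153) (nat_lit 83) (nat_lit 154))) (PT.nd (nat_lit 78) (PT.lf (nat_lit 3496) (nat_lit 6) (nat_lit 46) (nat_lit 1) (nat_lit 154) (nat_lit 83) (nat_lit 153)) (PT.lf (nat_lit 3420) (nat_lit 6) (nat_lit 45) (nat_lit 1) (nat_lit 155) (nat_lit 83) (nat_lit 152))))) (PT.nd (nat_lit 312) (PT.nd (nat_lit 156) (PT.nd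 (nat_lit 78) (PT.lf (nat_lit 3572) (nat_lit 6) (nat_lit 47) (nat_lit 3) (nat_lit 151) (nat_lit 84) (nat_lit 155)) (PT.lf (nat_lit 3648) (nat_lit 6) (nat_lit 48) (nat_lit 3) (nat_lit 152) (nat_lit 84) (nat_lit 154))) (PT.nd (nat_lit 78) (PT.lf (nat_lit 3724) (nat_lit 3) (nat_lit 49) (nat_lit 1) (nat_lit 153) (nat_lit 84) (nat_lit 153)) (PT.lf (nat_lit 3648) (nat_lit 6) (nat_lit 48) (nat_lit 1) (nat_lit 154) (nat_lit 84) (nat_lit 152)))) (PT.nd (nat_lit 40326) (PT.nd (nat_lit 40248) (PT.lf (nat_lit 3572) (nat_lit 6) (nat_lit 47) (nat_lit 1) (nat_lit 155) (nat_lit 84) (nat_lit 151)) (PT.lf (nat_lit 3800) (nat_lit 6) (nat_lit 50) (nat_lit 3) (nat_lit 150) (nat_lit 85) (nat_lit 155))) (PT.nd (nat_lit 78) (PT.lf (nat_lit 3876) (nat_lit 6) (nat_lit 51) (nat_lit 3) (nat_lit 151) (nat_lit 85) (nat_lit 154)) (PT.lf (nat_lit 3952) (nat_lit 6) (nat_lit 52) (nat_lit 3) (nat_lit 152) (nat_lit 85) (nat_lit 153)))))))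 (PT.nd (nat_lit 121602) (PT.nd (nat_lit 40716) (PT.nd (nat_lit 40404) (PT.nd (nat_lit 78) (PT.lf (nat_lit 3952) (nat_lit 6) (nat_lit 52) (nat_lit 1) (nat_lit 153) (nat_lit 85) (nat_lit 152)) (PT.nd (nat_lit 78) (PT.lf (nat_lit 3876) (nat_lit 6) (nat_lit 51) (nat_lit 1) (nat_lit 154) (nat_lit 85) (nat_lit 151)) (PT.lf (nat_lit 3800) (nat_lit 6) (nat_lit 50) (nat_lit 1) (nat_lit 155) (nat_lit 85) (nat_lit 150)))) (PT.nd (nat_lit 156) (PT.nd (nat_lit 78) (PT.lf (nat_lit 4028) (nat_lit 6) (nat_lit 53) (nat_lit 3) (nat_lit 150) (nat_lit 86) (nat_lit 154)) (PT.lf (nat_lit 4104) (nat_lit 6) (nat_lit 54) (nat_lit 3) (nat_lit 151) (nat_lit 86) (nat_lit 153))) (PT.nd (nat_lit 78) (PT.lf (nat_lit 4180) (nat_lit 3) (nat_lit 55) (nat_lit 1) (nat_lit 152) (nat_lit 86) (nat_lit 152)) (PT.lf (nat_lit 4104) (nat_lit 6) (nat_lit 54) (nat_lit 1) (nat_lit 153) (nat_lit 86) (nat_lit 151))))) (PT.nd (nat_lit 40404) (PT.nd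 (nat_lit 40248) (PT.lf (nat_lit 4028) (nat_lit 6) (nat_lit 53) (nat_lit 1) (nat_lit 154) (nat_lit 86) (nat_lit 150)) (PT.nd (nat_lit 78) (PT.lf (nat_lit 4256) (nat_lit 6) (nat_lit 56) (nat_lit 3) (nat_lit 149) (nat_lit 87) (nat_lit 154)) (PT.lf (nat_lit 4332) (nat_lit 6) (nat_lit 57) (nat_lit 3) (nat_lit 150) (nat_lit 87) (nat_lit 153)))) (PT.nd (nat_lit 156) (PT.nd (nat_lit 78) (PT.lf (nat_lit 4408) (nat_lit 6) (nat_lit 58) (nat_lit 3) (nat_lit 151) (nat_lit 87) (nat_lit 152)) (PT.lf (nat_lit 4408) (nat_lit 6) (nat_lit 58) (nat_lit 1) (nat_lit 152) (nat_lit 87) (nat_lit 151))) (PT.nd (nat_lit 78) (PT.lf (nat_lit 4332) (nat_lit 6) (nat_lit 57) (nat_lit 1) (nat_lit 153) (nat_lit 87) (nat_lit 150)) (PT.lf (nat_lit 4256) (nat_lit 6) (nat_lit 56) (nat_lit 1) (nat_lit 154) (nat_lit 87) (nat_lit 149)))))) (PT.nd (nat_lit 40716) (PT.nd (nat_lit 234) (PT.nd (nat_lit 78) (PT.lf (nat_lit 4484) (nat_lit 6)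 (nat_lit 59) (nat_lit 3) (nat_lit 149) (nat_lit 88) (nat_lit 153)) (PT.nd (nat_lit 78) (PT.lf (nat_lit 4560) (nat_lit 6) (nat_lit 60) (nat_lit 3) (nat_lit 150) (nat_lit 88) (nat_lit 152)) (PT.lf (nat_lit 4636) (nat_lit 3) (nat_lit 61) (nat_lit 1) (nat_lit 151) (nat_lit 88) (nat_lit 151)))) (PT.nd (nat_lit 40326) (PT.nd (nat_lit 78) (PT.lf (nat_lit 4560) (nat_lit 6) (nat_lit 60) (nat_lit 1) (nat_lit 152) (nat_lit 88) (nat_lit 150)) (PT.lf (nat_lit 4484) (nat_lit 6) (nat_lit 59) (nat_lit 1) (nat_lit 153) (nat_lit 88) (nat_lit 149))) (PT.nd (nat_lit 78) (PT.lf (nat_lit 4712) (nat_lit 6) (nat_lit 62) (nat_lit 3) (nat_lit 148) (nat_lit 89) (nat_lit 153)) (PT.lf (nat_lit 4788) (nat_lit 6) (nat_lit 63) (nat_lit 3) (nat_lit 149) (nat_lit 89) (nat_lit 152))))) (PT.nd (nat_lit 40404) (PT.nd (nat_lit 156) (PT.nd (nat_lit 78) (PT.lf (nat_lit 4864) (nat_lit 6) (nat_lit 64) (nat_lit 3) (nat_lit 150) (nat_lit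 89) (nat_lit 151)) (PT.lf (nat_lit 4864) (nat_lit 6) (nat_lit 64) (nat_lit 1) (nat_lit 151) (nat_lit 89) (nat_lit 150))) (PT.nd (nat_lit 78) (PT.lf (nat_lit 4788) (nat_lit 6) (nat_lit 63) (nat_lit 1) (nat_lit 152) (nat_lit 89) (nat_lit 149)) (PT.lf (nat_lit 4712) (nat_lit 6) (nat_lit 62) (nat_lit 1) (nat_lit 153) (nat_lit 89) (nat_lit 148)))) (PT.nd (nat_lit 156) (PT.nd (nat_lit 78) (PT.lf (nat_lit 4940) (nat_lit 6) (nat_lit 65) (nat_lit 3) (nat_lit 147) (nat_lit 90) (nat_lit 153)) (PT.lf (nat_lit 5016) (nat_lit 6) (nat_lit 66) (nat_lit 3) (nat_lit 148) (nat_lit 90) (nat_lit 152))) (PT.nd (nat_lit 78) (PT.lf (nat_lit 5092) (nat_lit 6) (nat_lit 67) (nat_lit 3) (nat_lit 149) (nat_lit 90) (nat_lit 151)) (PT.lf (nat_lit 5168) (nat_lit 3) (nat_lit 68) (nat_lit 1) (nat_lit 150) (nat_lit 90) (nat_lit 150))))))))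
noncomputable def pc2 : PT := (PT.nd (nat_lit 202644) (PT.nd (nat_lit 81276) (PT.nd (nat_lit 40638) (PT.nd (nat_lit 40326) (PT.nd (nat_lit 78) (PT.lf (nat_lit 5092) (nat_lit 6) (nat_lit 67) (nat_lit 1) (nat_lit 151) (nat_lit 90) (nat_lit 149)) (PT.nd (nat_lit 78) (PT.lf (nat_lit 5016) (nat_lit 6) (nat_lit 66) (nat_lit 1) (nat_lit 152) (nat_lit 90) (nat_lit 148)) (PT.lf (nat_lit 4940) (nat_lit 6) (nat_lit 65) (nat_lit 1) (nat_lit 153) (nat_lit 90) (nat_lit 147)))) (PT.nd (nat_lit 156) (PT.nd (nat_lit 78) (PT.lf (nat_lit 5244) (nat_lit 6) (nat_lit 69) (nat_lit 3) (nat_lit 147) (nat_lit 91) (nat_lit 152)) (PT.lf (nat_lit 5320) (nat_lit 6) (nat_lit 70) (nat_lit 3) (nat_lit 148) (nat_lit 91) (nat_lit 151))) (PT.nd (nat_lit 78) (PT.lf (nat_lit 5396) (nat_lit 6) (nat_lit 71) (nat_lit 3) (nat_lit 149) (nat_lit 91) (nat_lit 150)) (PT.lf (nat_lit 5396) (nat_lit 6) (nat_lit 71) (nat_lit 1) (nat_lit 150) (nat_lit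 91) (nat_lit 149))))) (PT.nd (nat_lit 40326) (PT.nd (nat_lit 78) (PT.lf (nat_lit 5320) (nat_lit 6) (nat_lit 70) (nat_lit 1) (nat_lit 151) (nat_lit 91) (nat_lit 148)) (PT.nd (nat_lit 40170) (PT.lf (nat_lit 5244) (nat_lit 6) (nat_lit 69) (nat_lit 1) (nat_lit 152) (nat_lit 91) (nat_lit 147)) (PT.lf (nat_lit 5472) (nat_lit 6) (nat_lit 72) (nat_lit 3) (nat_lit 146) (nat_lit 92) (nat_lit 152)))) (PT.nd (nat_lit 156) (PT.nd (nat_lit 78) (PT.lf (nat_lit 5548) (nat_lit 6) (nat_lit 73) (nat_lit 3) (nat_lit 147) (nat_lit 92) (nat_lit 151)) (PT.lf (nat_lit 5624) (nat_lit 6) (nat_lit 74) (nat_lit 3) (nat_lit 148) (nat_lit 92) (nat_lit 150))) (PT.nd (nat_lit 78) (PT.lf (nat_lit 5700) (nat_lit 3) (nat_lit 75) (nat_lit 1) (nat_lit 149) (nat_lit 92) (nat_lit 149)) (PT.lf (nat_lit 5624) (nat_lit 6) (nat_lit 74) (nat_lit 1) (nat_lit 150) (nat_lit 92) (nat_lit 148)))))) (PT.nd (nat_lit 40638) (PT.nd (nat_lit 40326)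 (PT.nd (nat_lit 78) (PT.lf (nat_lit 5548) (nat_lit 6) (nat_lit 73) (nat_lit 1) (nat_lit 151) (nat_lit 92) (nat_lit 147)) (PT.nd (nat_lit 40170) (PT.lf (nat_lit 5472) (nat_lit 6) (nat_lit 72) (nat_lit 1) (nat_lit 152) (nat_lit 92) (nat_lit 146)) (PT.lf (nat_lit 5776) (nat_lit 6) (nat_lit 76) (nat_lit 3) (nat_lit 146) (nat_lit 93) (nat_lit 151)))) (PT.nd (nat_lit 156) (PT.nd (nat_lit 78) (PT.lf (nat_lit 5852) (nat_lit 6) (nat_lit 77) (nat_lit 3) (nat_lit 147) (nat_lit 93) (nat_lit 150)) (PT.lf (nat_lit 5928) (nat_lit 6) (nat_lit 78) (nat_lit 3) (nat_lit 148) (nat_lit 93) (nat_lit 149))) (PT.nd (nat_lit 78) (PT.lf (nat_lit 5928) (nat_lit 6) (nat_lit 78) (nat_lit 1) (nat_lit 149) (nat_lit 93) (nat_lit 148)) (PT.lf (nat_lit 5852) (nat_lit 6) (nat_lit 77) (nat_lit 1) (nat_lit 150) (nat_lit 93) (nat_lit 147))))) (PT.nd (nat_lit 40404) (PT.nd (nat_lit 40248) (PT.nd (nat_lit 40170) (PT.lf (nat_lit 5776)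 (nat_lit 6) (nat_lit 76) (nat_lit 1) (nat_lit 151) (nat_lit 93) (nat_lit 146)) (PT.lf (nat_lit 6004) (nat_lit 6) (nat_lit 79) (nat_lit 3) (nat_lit 145) (nat_lit 94) (nat_lit 151))) (PT.nd (nat_lit 78) (PT.lf (nat_lit 6080) (nat_lit 6) (nat_lit 80) (nat_lit 3) (nat_lit 146) (nat_lit 94) (nat_lit 150)) (PT.lf (nat_lit 6156) (nat_lit 6) (nat_lit 81) (nat_lit 3) (nat_lit 147) (nat_lit 94) (nat_lit 149)))) (PT.nd (nat_lit 156) (PT.nd (nat_lit 78) (PT.lf (nat_lit 6232) (nat_lit 3) (nat_lit 82) (nat_lit 1) (nat_lit 148) (nat_lit 94) (nat_lit 148)) (PT.lf (nat_lit 6156) (nat_lit 6) (nat_lit 81) (nat_lit 1) (nat_lit 149) (nat_lit 94) (nat_lit 147))) (PT.nd (nat_lit 78) (PT.lf (nat_lit 6080) (nat_lit 6) (nat_lit 80) (nat_lit 1) (nat_lit 150) (nat_lit 94) (nat_lit 146)) (PT.lf (nat_lit 6004) (nat_lit 6) (nat_lit 79) (nat_lit 1) (nat_lit 151) (nat_lit 94) (nat_lit 145))))))) (PT.nd (nat_lit 41106) (PT.nd (nat_lit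 546) (PT.nd (nat_lit 234) (PT.nd (nat_lit 78) (PT.lf (nat_lit 6308) (nat_lit 6) (nat_lit 83) (nat_lit 3) (nat_lit 144) (nat_lit 95) (nat_lit 151)) (PT.nd (nat_lit 78) (PT.lf (nat_lit 6384) (nat_lit 6) (nat_lit 84) (nat_lit 3) (nat_lit 145) (nat_lit 95) (nat_lit 150)) (PT.lf (nat_lit 6460) (nat_lit 6) (nat_lit 85) (nat_lit 3) (nat_lit 146) (nat_lit 95) (nat_lit 149)))) (PT.nd (nat_lit 156) (PT.nd (nat_lit 78) (PT.lf (nat_lit 6536) (nat_lit 6) (nat_lit 86) (nat_lit 3) (nat_lit 147) (nat_lit 95) (nat_lit 148)) (PT.lf (nat_lit 6536) (nat_lit 6) (nat_lit 86) (nat_lit 1) (nat_lit 148) (nat_lit 95) (nat_lit 147))) (PT.nd (nat_lit 78) (PT.lf (nat_lit 6460) (nat_lit 6) (nat_lit 85) (nat_lit 1) (nat_lit 149) (nat_lit 95) (nat_lit 146)) (PT.lf (nat_lit 6384) (nat_lit 6) (nat_lit 84) (nat_lit 1) (nat_lit 150) (nat_lit 95) (nat_lit 145))))) (PT.nd (nat_lit 40248) (PT.nd (nat_lit 40092) (PT.lf (nat_lit 6308)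 (nat_lit 6) (nat_lit 83) (nat_lit 1) (nat_lit 151) (nat_lit 95) (nat_lit 144)) (PT.nd (nat_lit 78) (PT.lf (nat_lit 6612) (nat_lit 6) (nat_lit 87) (nat_lit 3) (nat_lit 144) (nat_lit 96) (nat_lit 150)) (PT.lf (nat_lit 6688) (nat_lit 6) (nat_lit 88) (nat_lit 3) (nat_lit 145) (nat_lit 96) (nat_lit 149)))) (PT.nd (nat_lit 156) (PT.nd (nat_lit 78) (PT.lf (nat_lit 6764) (nat_lit 6) (nat_lit 89) (nat_lit 3) (nat_lit 146) (nat_lit 96) (nat_lit 148)) (PT.lf (nat_lit 6840) (nat_lit 3) (nat_lit 90) (nat_lit 1) (nat_lit 147) (nat_lit 96) (nat_lit 147))) (PT.nd (nat_lit 78) (PT.lf (nat_lit 6764) (nat_lit 6) (nat_lit 89) (nat_lit 1) (nat_lit 148) (nat_lit 96) (nat_lit 146)) (PT.lf (nat_lit 6688) (nat_lit 6) (nat_lit 88) (nat_lit 1) (nat_lit 149) (nat_lit 96) (nat_lit 145)))))) (PT.nd (nat_lit 40560) (PT.nd (nat_lit 40248) (PT.nd (nat_lit 40092) (PT.lf (nat_lit 6612) (nat_lit 6) (nat_lit 87) (nat_lit 1) (nat_lit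 150) (nat_lit 96) (nat_lit 144)) (PT.nd (nat_lit 78) (PT.lf (nat_lit 6916) (nat_lit 6) (nat_lit 91) (nat_lit 3) (nat_lit 143) (nat_lit 97) (nat_lit 150)) (PT.lf (nat_lit 6992) (nat_lit 6) (nat_lit 92) (nat_lit 3) (nat_lit 144) (nat_lit 97) (nat_lit 149)))) (PT.nd (nat_lit 156) (PT.nd (nat_lit 78) (PT.lf (nat_lit 7068) (nat_lit 6) (nat_lit 93) (nat_lit 3) (nat_lit 145) (nat_lit 97) (nat_lit 148)) (PT.lf (nat_lit 7144) (nat_lit 6) (nat_lit 94) (nat_lit 3) (nat_lit 146) (nat_lit 97) (nat_lit 147))) (PT.nd (nat_lit 78) (PT.lf (nat_lit 7144) (nat_lit 6) (nat_lit 94) (nat_lit 1) (nat_lit 147) (nat_lit 97) (nat_lit 146)) (PT.lf (nat_lit 7068) (nat_lit 6) (nat_lit 93) (nat_lit 1) (nat_lit 148) (nat_lit 97) (nat_lit 145))))) (PT.nd (nat_lit 40248) (PT.nd (nat_lit 40092) (PT.nd (nat_lit 78) (PT.lf (nat_lit 6992) (nat_lit 6) (nat_lit 92) (nat_lit 1) (nat_lit 149) (nat_lit 97) (nat_lit 144)) (PT.lf (nat_lit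 6916) (nat_lit 6) (nat_lit 91) (nat_lit 1) (nat_lit 150) (nat_lit 97) (nat_lit 143))) (PT.nd (nat_lit 78) (PT.lf (nat_lit 7220) (nat_lit 6) (nat_lit 95) (nat_lit 3) (nat_lit 142) (nat_lit 98) (nat_lit 150)) (PT.lf (nat_lit 7296) (nat_lit 6) (nat_lit 96) (nat_lit 3) (nat_lit 143) (nat_lit 98) (nat_lit 149)))) (PT.nd (nat_lit 156) (PT.nd (nat_lit 78) (PT.lf (nat_lit 7372) (nat_lit 6) (nat_lit 97) (nat_lit 3) (nat_lit 144) (nat_lit 98) (nat_lit 148)) (PT.lf (nat_lit 7448) (nat_lit 6) (nat_lit 98) (nat_lit 3) (nat_lit 145) (nat_lit 98) (nat_lit 147))) (PT.nd (nat_lit 78) (PT.lf (nat_lit 7524) (nat_lit 3) (nat_lit 99) (nat_lit 1) (nat_lit 146) (nat_lit 98) (nat_lit 146)) (PT.lf (nat_lit 7448) (nat_lit 6) (nat_lit 98) (nat_lit 1) (nat_lit 147) (nat_lit 98) (nat_lit 145))))))))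
noncomputable def pc3 : PT := (PT.nd (nat_lit 121992) (PT.nd (nat_lit 80964) (PT.nd (nat_lit 40482) (PT.nd (nat_lit 40170) (PT.nd (nat_lit 78) (PT.lf (nat_lit 7372) (nat_lit 6) (nat_lit 97) (nat_lit 1) (nat_lit 148) (nat_lit 98) (nat_lit 144)) (PT.nd (nat_lit 78) (PT.lf (nat_lit 7296) (nat_lit 6) (nat_lit 96) (nat_lit 1) (nat_lit 149) (nat_lit 98) (nat_lit 143)) (PT.lf (nat_lit 7220) (nat_lit 6) (nat_lit 95) (nat_lit 1) (nat_lit 150) (nat_lit 98) (nat_lit 142)))) (PT.nd (nat_lit 156) (PT.nd (nat_lit 78) (PT.lf (nat_lit 7600) (nat_lit 6) (nat_lit 100) (nat_lit 3) (nat_lit 142) (nat_lit 99) (nat_lit 149)) (PT.lf (nat_lit 7676) (nat_lit 6) (nat_lit 101) (nat_lit 3) (nat_lit 143) (nat_lit 99) (nat_lit 148))) (PT.nd (nat_lit 78) (PT.lf (nat_lit 7752) (nat_lit 6) (nat_lit 102) (nat_lit 3) (nat_lit 144) (nat_lit 99) (nat_lit 147)) (PT.lf (nat_lit 7828) (nat_lit 6) (nat_lit 103) (nat_lit 3) (nat_lit 145)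 (nat_lit 99) (nat_lit 146))))) (PT.nd (nat_lit 234) (PT.nd (nat_lit 78) (PT.lf (nat_lit 7828) (nat_lit 6) (nat_lit 103) (nat_lit 1) (nat_lit 146) (nat_lit 99) (nat_lit 145)) (PT.nd (nat_lit 78) (PT.lf (nat_lit 7752) (nat_lit 6) (nat_lit 102) (nat_lit 1) (nat_lit 147) (nat_lit 99) (nat_lit 144)) (PT.lf (nat_lit 7676) (nat_lit 6) (nat_lit 101) (nat_lit 1) (nat_lit 148) (nat_lit 99) (nat_lit 143)))) (PT.nd (nat_lit 40092) (PT.nd (nat_lit 40014) (PT.lf (nat_lit 7600) (nat_lit 6) (nat_lit 100) (nat_lit 1) (nat_lit 149) (nat_lit 99) (nat_lit 142)) (PT.lf (nat_lit 7904) (nat_lit 6) (nat_lit 104) (nat_lit 3) (nat_lit 141) (nat_lit 100) (nat_lit 149))) (PT.nd (nat_lit 78) (PT.lf (nat_lit 7980) (nat_lit 6) (nat_lit 105) (nat_lit 3) (nat_lit 142) (nat_lit 100) (nat_lit 148)) (PT.lf (nat_lit 8056) (nat_lit 6) (nat_lit 106) (nat_lit 3) (nat_lit 143) (nat_lit 100) (nat_lit 147)))))) (PT.nd (nat_lit 40404) (PT.nd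 (nat_lit 234) (PT.nd (nat_lit 78) (PT.lf (nat_lit 8132) (nat_lit 6) (nat_lit 107) (nat_lit 3) (nat_lit 144) (nat_lit 100) (nat_lit 146)) (PT.nd (nat_lit 78) (PT.lf (nat_lit 8208) (nat_lit 3) (nat_lit 108) (nat_lit 1) (nat_lit 145) (nat_lit 100) (nat_lit 145)) (PT.lf (nat_lit 8132) (nat_lit 6) (nat_lit 107) (nat_lit 1) (nat_lit 146) (nat_lit 100) (nat_lit 144)))) (PT.nd (nat_lit 156) (PT.nd (nat_lit 78) (PT.lf (nat_lit 8056) (nat_lit 6) (nat_lit 106) (nat_lit 1) (nat_lit 147) (nat_lit 100) (nat_lit 143)) (PT.lf (nat_lit 7980) (nat_lit 6) (nat_lit 105) (nat_lit 1) (nat_lit 148) (nat_lit 100) (nat_lit 142))) (PT.nd (nat_lit 39936) (PT.lf (nat_lit 7904) (nat_lit 6) (nat_lit 104) (nat_lit 1) (nat_lit 149) (nat_lit 100) (nat_lit 141)) (PT.lf (nat_lit 8284) (nat_lit 6) (nat_lit 109) (nat_lit 3) (nat_lit 140) (nat_lit 101) (nat_lit 149))))) (PT.nd (nat_lit 312) (PT.nd (nat_lit 156) (PT.nd (nat_lit 78) (PT.lf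 (nat_lit 8360) (nat_lit 6) (nat_lit 110) (nat_lit 3) (nat_lit 141) (nat_lit 101) (nat_lit 148)) (PT.lf (nat_lit 8436) (nat_lit 6) (nat_lit 111) (nat_lit 3) (nat_lit 142) (nat_lit 101) (nat_lit 147))) (PT.nd (nat_lit 78) (PT.lf (nat_lit 8512) (nat_lit 6) (nat_lit 112) (nat_lit 3) (nat_lit 143) (nat_lit 101) (nat_lit 146)) (PT.lf (nat_lit 8588) (nat_lit 6) (nat_lit 113) (nat_lit 3) (nat_lit 144) (nat_lit 101) (nat_lit 145)))) (PT.nd (nat_lit 156) (PT.nd (nat_lit 78) (PT.lf (nat_lit 8588) (nat_lit 6) (nat_lit 113) (nat_lit 1) (nat_lit 145) (nat_lit 101) (nat_lit 144)) (PT.lf (nat_lit 8512) (nat_lit 6) (nat_lit 112) (nat_lit 1) (nat_lit 146) (nat_lit 101) (nat_lit 143))) (PT.nd (nat_lit 78) (PT.lf (nat_lit 8436) (nat_lit 6) (nat_lit 111) (nat_lit 1) (nat_lit 147) (nat_lit 101) (nat_lit 142)) (PT.lf (nat_lit 8360) (nat_lit 6) (nat_lit 110) (nat_lit 1) (nat_lit 148) (nat_lit 101) (nat_lit 141))))))) (PT.nd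 (nat_lit 80652) (PT.nd (nat_lit 40326) (PT.nd (nat_lit 40014) (PT.nd (nat_lit 39858) (PT.lf (nat_lit 8284) (nat_lit 6) (nat_lit 109) (nat_lit 1) (nat_lit 149) (nat_lit 101) (nat_lit 140)) (PT.nd (nat_lit 78) (PT.lf (nat_lit 8664) (nat_lit 6) (nat_lit 114) (nat_lit 3) (nat_lit 139) (nat_lit 102) (nat_lit 149)) (PT.lf (nat_lit 8740) (nat_lit 6) (nat_lit 115) (nat_lit 3) (nat_lit 140) (nat_lit 102) (nat_lit 148)))) (PT.nd (nat_lit 156) (PT.nd (nat_lit 78) (PT.lf (nat_lit 8816) (nat_lit 6) (nat_lit 116) (nat_lit 3) (nat_lit 141) (nat_lit 102) (nat_lit 147)) (PT.lf (nat_lit 8892) (nat_lit 6) (nat_lit 117) (nat_lit 3) (nat_lit 142) (nat_lit 102) (nat_lit 146))) (PT.nd (nat_lit 78) (PT.lf (nat_lit 8968) (nat_lit 6) (nat_lit 118) (nat_lit 3) (nat_lit 143) (nat_lit 102) (nat_lit 145)) (PT.lf (nat_lit 9044) (nat_lit 3) (nat_lit 119) (nat_lit 1) (nat_lit 144) (nat_lit 102) (nat_lit 144))))) (PT.nd (nat_lit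 234) (PT.nd (nat_lit 78) (PT.lf (nat_lit 8968) (nat_lit 6) (nat_lit 118) (nat_lit 1) (nat_lit 145) (nat_lit 102) (nat_lit 143)) (PT.nd (nat_lit 78) (PT.lf (nat_lit 8892) (nat_lit 6) (nat_lit 117) (nat_lit 1) (nat_lit 146) (nat_lit 102) (nat_lit 142)) (PT.lf (nat_lit 8816) (nat_lit 6) (nat_lit 116) (nat_lit 1) (nat_lit 147) (nat_lit 102) (nat_lit 141)))) (PT.nd (nat_lit 39936) (PT.nd (nat_lit 78) (PT.lf (nat_lit 8740) (nat_lit 6) (nat_lit 115) (nat_lit 1) (nat_lit 148) (nat_lit 102) (nat_lit 140)) (PT.lf (nat_lit 8664) (nat_lit 6) (nat_lit 114) (nat_lit 1) (nat_lit 149) (nat_lit 102) (nat_lit 139))) (PT.nd (nat_lit 78) (PT.lf (nat_lit 9120) (nat_lit 6) (nat_lit 120) (nat_lit 3) (nat_lit 139) (nat_lit 103) (nat_lit 148)) (PT.lf (nat_lit 9196) (nat_lit 6) (nat_lit 121) (nat_lit 3) (nat_lit 140) (nat_lit 103) (nat_lit 147)))))) (PT.nd (nat_lit 546) (PT.nd (nat_lit 234) (PT.nd (nat_lit 78) (PT.lf (nat_lit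 9272) (nat_lit 6) (nat_lit 122) (nat_lit 3) (nat_lit 141) (nat_lit 103) (nat_lit 146)) (PT.nd (nat_lit 78) (PT.lf (nat_lit 9348) (nat_lit 6) (nat_lit 123) (nat_lit 3) (nat_lit 142) (nat_lit 103) (nat_lit 145)) (PT.lf (nat_lit 9424) (nat_lit 6) (nat_lit 124) (nat_lit 3) (nat_lit 143) (nat_lit 103) (nat_lit 144)))) (PT.nd (nat_lit 156) (PT.nd (nat_lit 78) (PT.lf (nat_lit 9424) (nat_lit 6) (nat_lit 124) (nat_lit 1) (nat_lit 144) (nat_lit 103) (nat_lit 143)) (PT.lf (nat_lit 9348) (nat_lit 6) (nat_lit 123) (nat_lit 1) (nat_lit 145) (nat_lit 103) (nat_lit 142))) (PT.nd (nat_lit 78) (PT.lf (nat_lit 9272) (nat_lit 6) (nat_lit 122) (nat_lit 1) (nat_lit 146) (nat_lit 103) (nat_lit 141)) (PT.lf (nat_lit 9196) (nat_lit 6) (nat_lit 121) (nat_lit 1) (nat_lit 147) (nat_lit 103) (nat_lit 140))))) (PT.nd (nat_lit 40092) (PT.nd (nat_lit 39936) (PT.nd (nat_lit 39858) (PT.lf (nat_lit 9120) (nat_lit 6) (nat_lit 120)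 (nat_lit 1) (nat_lit 148) (nat_lit 103) (nat_lit 139)) (PT.lf (nat_lit 9500) (nat_lit 6) (nat_lit 125) (nat_lit 3) (nat_lit 138) (nat_lit 104) (nat_lit 148))) (PT.nd (nat_lit 78) (PT.lf (nat_lit 9576) (nat_lit 6) (nat_lit 126) (nat_lit 3) (nat_lit 139) (nat_lit 104) (nat_lit 147)) (PT.lf (nat_lit 9652) (nat_lit 6) (nat_lit 127) (nat_lit 3) (nat_lit 140) (nat_lit 104) (nat_lit 146)))) (PT.nd (nat_lit 156) (PT.nd (nat_lit 78) (PT.lf (nat_lit 9728) (nat_lit 6) (nat_lit 128) (nat_lit 3) (nat_lit 141) (nat_lit 104) (nat_lit 145)) (PT.lf (nat_lit 9804) (nat_lit 6) (nat_lit 129) (nat_lit 3) (nat_lit 142) (nat_lit 104) (nat_lit 144))) (PT.nd (nat_lit 78) (PT.lf (nat_lit 9880) (nat_lit 3) (nat_lit 130) (nat_lit 1) (nat_lit 143) (nat_lit 104) (nat_lit 143)) (PT.lf (nat_lit 9804) (nat_lit 6) (nat_lit 129) (nat_lit 1) (nat_lit 144) (nat_lit 104) (nat_lit 142))))))))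
noncomputable def pc4 : PT := (PT.nd (nat_lit 121368) (PT.nd (nat_lit 40794) (PT.nd (nat_lit 40248) (PT.nd (nat_lit 234) (PT.nd (nat_lit 78) (PT.lf (nat_lit 9728) (nat_lit 6) (nat_lit 128) (nat_lit 1) (nat_lit 145) (nat_lit 104) (nat_lit 141)) (PT.nd (nat_lit 78) (PT.lf (nat_lit 9652) (nat_lit 6) (nat_lit 127) (nat_lit 1) (nat_lit 146) (nat_lit 104) (nat_lit 140)) (PT.lf (nat_lit 9576) (nat_lit 6) (nat_lit 126) (nat_lit 1) (nat_lit 147) (nat_lit 104) (nat_lit 139)))) (PT.nd (nat_lit 39858) (PT.nd (nat_lit 39780) (PT.lf (nat_lit 9500) (nat_lit 6) (nat_lit 125) (nat_lit 1) (nat_lit 148) (nat_lit 104) (nat_lit 138)) (PT.lf (nat_lit 9956) (nat_lit 6) (nat_lit 131) (nat_lit 3) (nat_lit 137) (nat_lit 105) (nat_lit 148))) (PT.nd (nat_lit 78) (PT.lf (nat_lit 10032) (nat_lit 6) (nat_lit 132) (nat_lit 3) (nat_lit 138) (nat_lit 105) (nat_lit 147)) (PT.lf (nat_lit 10108) (nat_lit 6) (nat_lit 133) (nat_lit 3)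 (nat_lit 139) (nat_lit 105) (nat_lit 146))))) (PT.nd (nat_lit 234) (PT.nd (nat_lit 78) (PT.lf (nat_lit 10184) (nat_lit 6) (nat_lit 134) (nat_lit 3) (nat_lit 140) (nat_lit 105) (nat_lit 145)) (PT.nd (nat_lit 78) (PT.lf (nat_lit 10260) (nat_lit 6) (nat_lit 135) (nat_lit 3) (nat_lit 141) (nat_lit 105) (nat_lit 144)) (PT.lf (nat_lit 10336) (nat_lit 6) (nat_lit 136) (nat_lit 3) (nat_lit 142) (nat_lit 105) (nat_lit 143)))) (PT.nd (nat_lit 156) (PT.nd (nat_lit 78) (PT.lf (nat_lit 10336) (nat_lit 6) (nat_lit 136) (nat_lit 1) (nat_lit 143) (nat_lit 105) (nat_lit 142)) (PT.lf (nat_lit 10260) (nat_lit 6) (nat_lit 135) (nat_lit 1) (nat_lit 144) (nat_lit 105) (nat_lit 141))) (PT.nd (nat_lit 78) (PT.lf (nat_lit 10184) (nat_lit 6) (nat_lit 134) (nat_lit 1) (nat_lit 145) (nat_lit 105) (nat_lit 140)) (PT.lf (nat_lit 10108) (nat_lit 6) (nat_lit 133) (nat_lit 1) (nat_lit 146) (nat_lit 105) (nat_lit 139)))))) (PT.nd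 (nat_lit 40248) (PT.nd (nat_lit 39936) (PT.nd (nat_lit 78) (PT.lf (nat_lit 10032) (nat_lit 6) (nat_lit 132) (nat_lit 1) (nat_lit 147) (nat_lit 105) (nat_lit 138)) (PT.nd (nat_lit 39780) (PT.lf (nat_lit 9956) (nat_lit 6) (nat_lit 131) (nat_lit 1) (nat_lit 148) (nat_lit 105) (nat_lit 137)) (PT.lf (nat_lit 10412) (nat_lit 6) (nat_lit 137) (nat_lit 3) (nat_lit 137) (nat_lit 106) (nat_lit 147)))) (PT.nd (nat_lit 156) (PT.nd (nat_lit 78) (PT.lf (nat_lit 10488) (nat_lit 6) (nat_lit 138) (nat_lit 3) (nat_lit 138) (nat_lit 106) (nat_lit 146)) (PT.lf (nat_lit 10564) (nat_lit 6) (nat_lit 139) (nat_lit 3) (nat_lit 139) (nat_lit 106) (nat_lit 145))) (PT.nd (nat_lit 78) (PT.lf (nat_lit 10640) (nat_lit 6) (nat_lit 140) (nat_lit 3) (nat_lit 140) (nat_lit 106) (nat_lit 144)) (PT.lf (nat_lit 10716) (nat_lit 6) (nat_lit 141) (nat_lit 3) (nat_lit 141) (nat_lit 106) (nat_lit 143))))) (PT.nd (nat_lit 312) (PT.nd (nat_lit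 156) (PT.nd (nat_lit 78) (PT.lf (nat_lit 10792) (nat_lit 3) (nat_lit 142) (nat_lit 1) (nat_lit 142) (nat_lit 106) (nat_lit 142)) (PT.lf (nat_lit 10716) (nat_lit 6) (nat_lit 141) (nat_lit 1) (nat_lit 143) (nat_lit 106) (nat_lit 141))) (PT.nd (nat_lit 78) (PT.lf (nat_lit 10640) (nat_lit 6) (nat_lit 140) (nat_lit 1) (nat_lit 144) (nat_lit 106) (nat_lit 140)) (PT.lf (nat_lit 10564) (nat_lit 6) (nat_lit 139) (nat_lit 1) (nat_lit 145) (nat_lit 106) (nat_lit 139)))) (PT.nd (nat_lit 39858) (PT.nd (nat_lit 78) (PT.lf (nat_lit 10488) (nat_lit 6) (nat_lit 138) (nat_lit 1) (nat_lit 146) (nat_lit 106) (nat_lit 138)) (PT.lf (nat_lit 10412) (nat_lit 6) (nat_lit 137) (nat_lit 1) (nat_lit 147) (nat_lit 106) (nat_lit 137))) (PT.nd (nat_lit 78) (PT.lf (nat_lit 10868) (nat_lit 6) (nat_lit 143) (nat_lit 3) (nat_lit 136) (nat_lit 107) (nat_lit 147)) (PT.lf (nat_lit 10944) (nat_lit 6) (nat_lit 144) (nat_lit 3) (nat_lit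 137) (nat_lit 107) (nat_lit 146))))))) (PT.nd (nat_lit 40716) (PT.nd (nat_lit 546) (PT.nd (nat_lit 234) (PT.nd (nat_lit 78) (PT.lf (nat_lit 11020) (nat_lit 6) (nat_lit 145) (nat_lit 3) (nat_lit 138) (nat_lit 107) (nat_lit 145)) (PT.nd (nat_lit 78) (PT.lf (nat_lit 11096) (nat_lit 6) (nat_lit 146) (nat_lit 3) (nat_lit 139) (nat_lit 107) (nat_lit 144)) (PT.lf (nat_lit 11172) (nat_lit 6) (nat_lit 147) (nat_lit 3) (nat_lit 140) (nat_lit 107) (nat_lit 143)))) (PT.nd (nat_lit 156) (PT.nd (nat_lit 78) (PT.lf (nat_lit 11248) (nat_lit 6) (nat_lit 148) (nat_lit 3) (nat_lit 141) (nat_lit 107) (nat_lit 142)) (PT.lf (nat_lit 11248) (nat_lit 6) (nat_lit 148) (nat_lit 1) (nat_lit 142) (nat_lit 107) (nat_lit 141))) (PT.nd (nat_lit 78) (PT.lf (nat_lit 11172) (nat_lit 6) (nat_lit 147) (nat_lit 1) (nat_lit 143) (nat_lit 107) (nat_lit 140)) (PT.lf (nat_lit 11096) (nat_lit 6) (nat_lit 146) (nat_lit 1) (nat_lit 144) (nat_lit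 107) (nat_lit 139))))) (PT.nd (nat_lit 39858) (PT.nd (nat_lit 78) (PT.lf (nat_lit 11020) (nat_lit 6) (nat_lit 145) (nat_lit 1) (nat_lit 145) (nat_lit 107) (nat_lit 138)) (PT.nd (nat_lit 78) (PT.lf (nat_lit 10944) (nat_lit 6) (nat_lit 144) (nat_lit 1) (nat_lit 146) (nat_lit 107) (nat_lit 137)) (PT.lf (nat_lit 10868) (nat_lit 6) (nat_lit 143) (nat_lit 1) (nat_lit 147) (nat_lit 107) (nat_lit 136)))) (PT.nd (nat_lit 156) (PT.nd (nat_lit 78) (PT.lf (nat_lit 11324) (nat_lit 6) (nat_lit 149) (nat_lit 3) (nat_lit 135) (nat_lit 108) (nat_lit 147)) (PT.lf (nat_lit 11400) (nat_lit 6) (nat_lit 150) (nat_lit 3) (nat_lit 136) (nat_lit 108) (nat_lit 146))) (PT.nd (nat_lit 78) (PT.lf (nat_lit 11476) (nat_lit 6) (nat_lit 151) (nat_lit 3) (nat_lit 137) (nat_lit 108) (nat_lit 145)) (PT.lf (nat_lit 11552) (nat_lit 6) (nat_lit 152) (nat_lit 3) (nat_lit 138) (nat_lit 108) (nat_lit 144)))))) (PT.nd (nat_lit 546) (PT.nd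 (nat_lit 234) (PT.nd (nat_lit 78) (PT.lf (nat_lit 11628) (nat_lit 6) (nat_lit 153) (nat_lit 3) (nat_lit 139) (nat_lit 108) (nat_lit 143)) (PT.nd (nat_lit 78) (PT.lf (nat_lit 11704) (nat_lit 6) (nat_lit 154) (nat_lit 3) (nat_lit 140) (nat_lit 108) (nat_lit 142)) (PT.lf (nat_lit 11780) (nat_lit 3) (nat_lit 155) (nat_lit 1) (nat_lit 141) (nat_lit 108) (nat_lit 141)))) (PT.nd (nat_lit 156) (PT.nd (nat_lit 78) (PT.lf (nat_lit 11704) (nat_lit 6) (nat_lit 154) (nat_lit 1) (nat_lit 142) (nat_lit 108) (nat_lit 140)) (PT.lf (nat_lit 11628) (nat_lit 6) (nat_lit 153) (nat_lit 1) (nat_lit 143) (nat_lit 108) (nat_lit 139))) (PT.nd (nat_lit 78) (PT.lf (nat_lit 11552) (nat_lit 6) (nat_lit 152) (nat_lit 1) (nat_lit 144) (nat_lit 108) (nat_lit 138)) (PT.lf (nat_lit 11476) (nat_lit 6) (nat_lit 151) (nat_lit 1) (nat_lit 145) (nat_lit 108) (nat_lit 137))))) (PT.nd (nat_lit 39858) (PT.nd (nat_lit 39702) (PT.nd (nat_lit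 78) (PT.lf (nat_lit 11400) (nat_lit 6) (nat_lit 150) (nat_lit 1) (nat_lit 146) (nat_lit 108) (nat_lit 136)) (PT.lf (nat_lit 11324) (nat_lit 6) (nat_lit 149) (nat_lit 1) (nat_lit 147) (nat_lit 108) (nat_lit 135))) (PT.nd (nat_lit 78) (PT.lf (nat_lit 11856) (nat_lit 6) (nat_lit 156) (nat_lit 3) (nat_lit 134) (nat_lit 109) (nat_lit 147)) (PT.lf (nat_lit 11932) (nat_lit 6) (nat_lit 157) (nat_lit 3) (nat_lit 135) (nat_lit 109) (nat_lit 146)))) (PT.nd (nat_lit 156) (PT.nd (nat_lit 78) (PT.lf (nat_lit 12008) (nat_lit 6) (nat_lit 158) (nat_lit 3) (nat_lit 136) (nat_lit 109) (nat_lit 145)) (PT.lf (nat_lit 12084) (nat_lit 6) (nat_lit 159) (nat_lit 3) (nat_lit 137) (nat_lit 109) (nat_lit 144))) (PT.nd (nat_lit 78) (PT.lf (nat_lit 12160) (nat_lit 6) (nat_lit 160) (nat_lit 3) (nat_lit 138) (nat_lit 109) (nat_lit 143)) (PT.lf (nat_lit 12236) (nat_lit 6) (nat_lit 161) (nat_lit 3) (nat_lit 139) (nat_lit 109) (nat_lit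 142))))))))
noncomputable def pc5 : PT := (PT.nd (nat_lit 81198) (PT.nd (nat_lit 40560) (PT.nd (nat_lit 546) (PT.nd (nat_lit 234) (PT.nd (nat_lit 78) (PT.lf (nat_lit 12312) (nat_lit 6) (nat_lit 162) (nat_lit 3) (nat_lit 140) (nat_lit 109) (nat_lit 141)) (PT.nd (nat_lit 78) (PT.lf (nat_lit 12312) (nat_lit 6) (nat_lit 162) (nat_lit 1) (nat_lit 141) (nat_lit 109) (nat_lit 140)) (PT.lf (nat_lit 12236) (nat_lit 6) (nat_lit 161) (nat_lit 1) (nat_lit 142) (nat_lit 109) (nat_lit 139)))) (PT.nd (nat_lit 156) (PT.nd (nat_lit 78) (PT.lf (nat_lit 12160) (nat_lit 6) (nat_lit 160) (nat_lit 1) (nat_lit 143) (nat_lit 109) (nat_lit 138)) (PT.lf (nat_lit 12084) (nat_lit 6) (nat_lit 159) (nat_lit 1) (nat_lit 144) (nat_lit 109) (nat_lit 137))) (PT.nd (nat_lit 78) (PT.lf (nat_lit 12008) (nat_lit 6) (nat_lit 158) (nat_lit 1) (nat_lit 145) (nat_lit 109) (nat_lit 136)) (PT.lf (nat_lit 11932) (nat_lit 6) (nat_lit 157) (nat_lit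 1) (nat_lit 146) (nat_lit 109) (nat_lit 135))))) (PT.nd (nat_lit 39702) (PT.nd (nat_lit 39546) (PT.lf (nat_lit 11856) (nat_lit 6) (nat_lit 156) (nat_lit 1) (nat_lit 147) (nat_lit 109) (nat_lit 134)) (PT.nd (nat_lit 78) (PT.lf (nat_lit 12388) (nat_lit 6) (nat_lit 163) (nat_lit 3) (nat_lit 133) (nat_lit 110) (nat_lit 147)) (PT.lf (nat_lit 12464) (nat_lit 6) (nat_lit 164) (nat_lit 3) (nat_lit 134) (nat_lit 110) (nat_lit 146)))) (PT.nd (nat_lit 156) (PT.nd (nat_lit 78) (PT.lf (nat_lit 12540) (nat_lit 6) (nat_lit 165) (nat_lit 3) (nat_lit 135) (nat_lit 110) (nat_lit 145)) (PT.lf (nat_lit 12616) (nat_lit 6) (nat_lit 166) (nat_lit 3) (nat_lit 136) (nat_lit 110) (nat_lit 144))) (PT.nd (nat_lit 78) (PT.lf (nat_lit 12692) (nat_lit 6) (nat_lit 167) (nat_lit 3) (nat_lit 137) (nat_lit 110) (nat_lit 143)) (PT.lf (nat_lit 12768) (nat_lit 6) (nat_lit 168) (nat_lit 3) (nat_lit 138) (nat_lit 110) (nat_lit 142))))))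 (PT.nd (nat_lit 546) (PT.nd (nat_lit 234) (PT.nd (nat_lit 78) (PT.lf (nat_lit 12844) (nat_lit 6) (nat_lit 169) (nat_lit 3) (nat_lit 139) (nat_lit 110) (nat_lit 141)) (PT.nd (nat_lit 78) (PT.lf (nat_lit 12920) (nat_lit 3) (nat_lit 170) (nat_lit 1) (nat_lit 140) (nat_lit 110) (nat_lit 140)) (PT.lf (nat_lit 12844) (nat_lit 6) (nat_lit 169) (nat_lit 1) (nat_lit 141) (nat_lit 110) (nat_lit 139)))) (PT.nd (nat_lit 156) (PT.nd (nat_lit 78) (PT.lf (nat_lit 12768) (nat_lit 6) (nat_lit 168) (nat_lit 1) (nat_lit 142) (nat_lit 110) (nat_lit 138)) (PT.lf (nat_lit 12692) (nat_lit 6) (nat_lit 167) (nat_lit 1) (nat_lit 143) (nat_lit 110) (nat_lit 137))) (PT.nd (nat_lit 78) (PT.lf (nat_lit 12616) (nat_lit 6) (nat_lit 166) (nat_lit 1) (nat_lit 144) (nat_lit 110) (nat_lit 136)) (PT.lf (nat_lit 12540) (nat_lit 6) (nat_lit 165) (nat_lit 1) (nat_lit 145) (nat_lit 110) (nat_lit 135))))) (PT.nd (nat_lit 39780) (PT.nd (nat_lit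 39624) (PT.nd (nat_lit 78) (PT.lf (nat_lit 12464) (nat_lit 6) (nat_lit 164) (nat_lit 1) (nat_lit 146) (nat_lit 110) (nat_lit 134)) (PT.lf (nat_lit 12388) (nat_lit 6) (nat_lit 163) (nat_lit 1) (nat_lit 147) (nat_lit 110) (nat_lit 133))) (PT.nd (nat_lit 78) (PT.lf (nat_lit 12996) (nat_lit 6) (nat_lit 171) (nat_lit 3) (nat_lit 133) (nat_lit 111) (nat_lit 146)) (PT.lf (nat_lit 13072) (nat_lit 6) (nat_lit 172) (nat_lit 3) (nat_lit 134) (nat_lit 111) (nat_lit 145)))) (PT.nd (nat_lit 156) (PT.nd (nat_lit 78) (PT.lf (nat_lit 13148) (nat_lit 6) (nat_lit 173) (nat_lit 3) (nat_lit 135) (nat_lit 111) (nat_lit 144)) (PT.lf (nat_lit 13224) (nat_lit 6) (nat_lit 174) (nat_lit 3) (nat_lit 136) (nat_lit 111) (nat_lit 143))) (PT.nd (nat_lit 78) (PT.lf (nat_lit 13300) (nat_lit 6) (nat_lit 175) (nat_lit 3) (nat_lit 137) (nat_lit 111) (nat_lit 142)) (PT.lf (nat_lit 13376) (nat_lit 6) (nat_lit 176) (nat_lit 3) (nat_lit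 138) (nat_lit 111) (nat_lit 141))))))) (PT.nd (nat_lit 40560) (PT.nd (nat_lit 546) (PT.nd (nat_lit 234) (PT.nd (nat_lit 78) (PT.lf (nat_lit 13452) (nat_lit 6) (nat_lit 177) (nat_lit 3) (nat_lit 139) (nat_lit 111) (nat_lit 140)) (PT.nd (nat_lit 78) (PT.lf (nat_lit 13452) (nat_lit 6) (nat_lit 177) (nat_lit 1) (nat_lit 140) (nat_lit 111) (nat_lit 139)) (PT.lf (nat_lit 13376) (nat_lit 6) (nat_lit 176) (nat_lit 1) (nat_lit 141) (nat_lit 111) (nat_lit 138)))) (PT.nd (nat_lit 156) (PT.nd (nat_lit 78) (PT.lf (nat_lit 13300) (nat_lit 6) (nat_lit 175) (nat_lit 1) (nat_lit 142) (nat_lit 111) (nat_lit 137)) (PT.lf (nat_lit 13224) (nat_lit 6) (nat_lit 174) (nat_lit 1) (nat_lit 143) (nat_lit 111) (nat_lit 136))) (PT.nd (nat_lit 78) (PT.lf (nat_lit 13148) (nat_lit 6) (nat_lit 173) (nat_lit 1) (nat_lit 144) (nat_lit 111) (nat_lit 135)) (PT.lf (nat_lit 13072) (nat_lit 6) (nat_lit 172) (nat_lit 1) (nat_lit 145) (nat_lit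 111) (nat_lit 134))))) (PT.nd (nat_lit 39702) (PT.nd (nat_lit 39546) (PT.lf (nat_lit 12996) (nat_lit 6) (nat_lit 171) (nat_lit 1) (nat_lit 146) (nat_lit 111) (nat_lit 133)) (PT.nd (nat_lit 78) (PT.lf (nat_lit 13528) (nat_lit 6) (nat_lit 178) (nat_lit 3) (nat_lit 132) (nat_lit 112) (nat_lit 146)) (PT.lf (nat_lit 13604) (nat_lit 6) (nat_lit 179) (nat_lit 3) (nat_lit 133) (nat_lit 112) (nat_lit 145)))) (PT.nd (nat_lit 156) (PT.nd (nat_lit 78) (PT.lf (nat_lit 13680) (nat_lit 6) (nat_lit 180) (nat_lit 3) (nat_lit 134) (nat_lit 112) (nat_lit 144)) (PT.lf (nat_lit 13756) (nat_lit 6) (nat_lit 181) (nat_lit 3) (nat_lit 135) (nat_lit 112) (nat_lit 143))) (PT.nd (nat_lit 78) (PT.lf (nat_lit 13832) (nat_lit 6) (nat_lit 182) (nat_lit 3) (nat_lit 136) (nat_lit 112) (nat_lit 142)) (PT.lf (nat_lit 13908) (nat_lit 6) (nat_lit 183) (nat_lit 3) (nat_lit 137) (nat_lit 112) (nat_lit 141)))))) (PT.nd (nat_lit 546) (PT.nd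 (nat_lit 234) (PT.nd (nat_lit 78) (PT.lf (nat_lit 13984) (nat_lit 6) (nat_lit 184) (nat_lit 3) (nat_lit 138) (nat_lit 112) (nat_lit 140)) (PT.nd (nat_lit 78) (PT.lf (nat_lit 14060) (nat_lit 3) (nat_lit 185) (nat_lit 1) (nat_lit 139) (nat_lit 112) (nat_lit 139)) (PT.lf (nat_lit 13984) (nat_lit 6) (nat_lit 184) (nat_lit 1) (nat_lit 140) (nat_lit 112) (nat_lit 138)))) (PT.nd (nat_lit 156) (PT.nd (nat_lit 78) (PT.lf (nat_lit 13908) (nat_lit 6) (nat_lit 183) (nat_lit 1) (nat_lit 141) (nat_lit 112) (nat_lit 137)) (PT.lf (nat_lit 13832) (nat_lit 6) (nat_lit 182) (nat_lit 1) (nat_lit 142) (nat_lit 112) (nat_lit 136))) (PT.nd (nat_lit 78) (PT.lf (nat_lit 13756) (nat_lit 6) (nat_lit 181) (nat_lit 1) (nat_lit 143) (nat_lit 112) (nat_lit 135)) (PT.lf (nat_lit 13680) (nat_lit 6) (nat_lit 180) (nat_lit 1) (nat_lit 144) (nat_lit 112) (nat_lit 134))))) (PT.nd (nat_lit 39702) (PT.nd (nat_lit 39546) (PT.nd (nat_lit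 78) (PT.lf (nat_lit 13604) (nat_lit 6) (nat_lit 179) (nat_lit 1) (nat_lit 145) (nat_lit 112) (nat_lit 133)) (PT.lf (nat_lit 13528) (nat_lit 6) (nat_lit 178) (nat_lit 1) (nat_lit 146) (nat_lit 112) (nat_lit 132))) (PT.nd (nat_lit 78) (PT.lf (nat_lit 14136) (nat_lit 6) (nat_lit 186) (nat_lit 3) (nat_lit 131) (nat_lit 113) (nat_lit 146)) (PT.lf (nat_lit 14212) (nat_lit 6) (nat_lit 187) (nat_lit 3) (nat_lit 132) (nat_lit 113) (nat_lit 145)))) (PT.nd (nat_lit 156) (PT.nd (nat_lit 78) (PT.lf (nat_lit 14288) (nat_lit 6) (nat_lit 188) (nat_lit 3) (nat_lit 133) (nat_lit 113) (nat_lit 144)) (PT.lf (nat_lit 14364) (nat_lit 6) (nat_lit 189) (nat_lit 3) (nat_lit 134) (nat_lit 113) (nat_lit 143))) (PT.nd (nat_lit 78) (PT.lf (nat_lit 14440) (nat_lit 6) (nat_lit 190) (nat_lit 3) (nat_lit 135) (nat_lit 113) (nat_lit 142)) (PT.lf (nat_lit 14516) (nat_lit 6) (nat_lit 191) (nat_lit 3) (nat_lit 136) (nat_lit 113) (nat_lit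 141))))))))
noncomputable def pc6 : PT := (PT.nd (nat_lit 80808) (PT.nd (nat_lit 40404) (PT.nd (nat_lit 546) (PT.nd (nat_lit 234) (PT.nd (nat_lit 78) (PT.lf (nat_lit 14592) (nat_lit 6) (nat_lit 192) (nat_lit 3) (nat_lit 137) (nat_lit 113) (nat_lit 140)) (PT.nd (nat_lit 78) (PT.lf (nat_lit 14668) (nat_lit 6) (nat_lit 193) (nat_lit 3) (nat_lit 138) (nat_lit 113) (nat_lit 139)) (PT.lf (nat_lit 14668) (nat_lit 6) (nat_lit 193) (nat_lit 1) (nat_lit 139) (nat_lit 113) (nat_lit 138)))) (PT.nd (nat_lit 156) (PT.nd (nat_lit 78) (PT.lf (nat_lit 14592) (nat_lit 6) (nat_lit 192) (nat_lit 1) (nat_lit 140) (nat_lit 113) (nat_lit 137)) (PT.lf (nat_lit 14516) (nat_lit 6) (nat_lit 191) (nat_lit 1) (nat_lit 141) (nat_lit 113) (nat_lit 136))) (PT.nd (nat_lit 78) (PT.lf (nat_lit 14440) (nat_lit 6) (nat_lit 190) (nat_lit 1) (nat_lit 142) (nat_lit 113) (nat_lit 135)) (PT.lf (nat_lit 14364) (nat_lit 6) (nat_lit 189) (nat_lit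 1) (nat_lit 143) (nat_lit 113) (nat_lit 134))))) (PT.nd (nat_lit 39546) (PT.nd (nat_lit 78) (PT.lf (nat_lit 14288) (nat_lit 6) (nat_lit 188) (nat_lit 1) (nat_lit 144) (nat_lit 113) (nat_lit 133)) (PT.nd (nat_lit 78) (PT.lf (nat_lit 14212) (nat_lit 6) (nat_lit 187) (nat_lit 1) (nat_lit 145) (nat_lit 113) (nat_lit 132)) (PT.lf (nat_lit 14136) (nat_lit 6) (nat_lit 186) (nat_lit 1) (nat_lit 146) (nat_lit 113) (nat_lit 131)))) (PT.nd (nat_lit 156) (PT.nd (nat_lit 78) (PT.lf (nat_lit 14896) (nat_lit 6) (nat_lit 196) (nat_lit 3) (nat_lit 130) (nat_lit 114) (nat_lit 146)) (PT.lf (nat_lit 14972) (nat_lit 6) (nat_lit 197) (nat_lit 3) (nat_lit 131) (nat_lit 114) (nat_lit 145))) (PT.nd (nat_lit 78) (PT.lf (nat_lit 15048) (nat_lit 6) (nat_lit 198) (nat_lit 3) (nat_lit 132) (nat_lit 114) (nat_lit 144)) (PT.lf (nat_lit 15124) (nat_lit 6) (nat_lit 199) (nat_lit 3) (nat_lit 133) (nat_lit 114) (nat_lit 143))))))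 (PT.nd (nat_lit 546) (PT.nd (nat_lit 234) (PT.nd (nat_lit 78) (PT.lf (nat_lit 15200) (nat_lit 6) (nat_lit 200) (nat_lit 3) (nat_lit 134) (nat_lit 114) (nat_lit 142)) (PT.nd (nat_lit 78) (PT.lf (nat_lit 15276) (nat_lit 6) (nat_lit 201) (nat_lit 3) (nat_lit 135) (nat_lit 114) (nat_lit 141)) (PT.lf (nat_lit 15352) (nat_lit 6) (nat_lit 202) (nat_lit 3) (nat_lit 136) (nat_lit 114) (nat_lit 140)))) (PT.nd (nat_lit 156) (PT.nd (nat_lit 78) (PT.lf (nat_lit 15428) (nat_lit 6) (nat_lit 203) (nat_lit 3) (nat_lit 137) (nat_lit 114) (nat_lit 139)) (PT.lf (nat_lit 15504) (nat_lit 3) (nat_lit 204) (nat_lit 1) (nat_lit 138) (nat_lit 114) (nat_lit 138))) (PT.nd (nat_lit 78) (PT.lf (nat_lit 15428) (nat_lit 6) (nat_lit 203) (nat_lit 1) (nat_lit 139) (nat_lit 114) (nat_lit 137)) (PT.lf (nat_lit 15352) (nat_lit 6) (nat_lit 202) (nat_lit 1) (nat_lit 140) (nat_lit 114) (nat_lit 136))))) (PT.nd (nat_lit 312) (PT.nd (nat_lit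 156) (PT.nd (nat_lit 78) (PT.lf (nat_lit 15276) (nat_lit 6) (nat_lit 201) (nat_lit 1) (nat_lit 141) (nat_lit 114) (nat_lit 135)) (PT.lf (nat_lit 15200) (nat_lit 6) (nat_lit 200) (nat_lit 1) (nat_lit 142) (nat_lit 114) (nat_lit 134))) (PT.nd (nat_lit 78) (PT.lf (nat_lit 15124) (nat_lit 6) (nat_lit 199) (nat_lit 1) (nat_lit 143) (nat_lit 114) (nat_lit 133)) (PT.lf (nat_lit 15048) (nat_lit 6) (nat_lit 198) (nat_lit 1) (nat_lit 144) (nat_lit 114) (nat_lit 132)))) (PT.nd (nat_lit 39390) (PT.nd (nat_lit 78) (PT.lf (nat_lit 14972) (nat_lit 6) (nat_lit 197) (nat_lit 1) (nat_lit 145) (nat_lit 114) (nat_lit 131)) (PT.lf (nat_lit 14896) (nat_lit 6) (nat_lit 196) (nat_lit 1) (nat_lit 146) (nat_lit 114) (nat_lit 130))) (PT.nd (nat_lit 78) (PT.lf (nat_lit 14820) (nat_lit 6) (nat_lit 195) (nat_lit 3) (nat_lit 129) (nat_lit 115) (nat_lit 146)) (PT.lf (nat_lit 16112) (nat_lit 6) (nat_lit 212) (nat_lit 3) (nat_lit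 130) (nat_lit 115) (nat_lit 145))))))) (PT.nd (nat_lit 1092) (PT.nd (nat_lit 546) (PT.nd (nat_lit 234) (PT.nd (nat_lit 78) (PT.lf (nat_lit 16188) (nat_lit 6) (nat_lit 213) (nat_lit 3) (nat_lit 131) (nat_lit 115) (nat_lit 144)) (PT.nd (nat_lit 78) (PT.lf (nat_lit 16264) (nat_lit 6) (nat_lit 214) (nat_lit 3) (nat_lit 132) (nat_lit 115) (nat_lit 143)) (PT.lf (nat_lit 16340) (nat_lit 6) (nat_lit 215) (nat_lit 3) (nat_lit 133) (nat_lit 115) (nat_lit 142)))) (PT.nd (nat_lit 156) (PT.nd (nat_lit 78) (PT.lf (nat_lit 16416) (nat_lit 6) (nat_lit 216) (nat_lit 3) (nat_lit 134) (nat_lit 115) (nat_lit 141)) (PT.lf (nat_lit 16492) (nat_lit 6) (nat_lit 217) (nat_lit 3) (nat_lit 135) (nat_lit 115) (nat_lit 140))) (PT.nd (nat_lit 78) (PT.lf (nat_lit 16568) (nat_lit 6) (nat_lit 218) (nat_lit 3) (nat_lit 136) (nat_lit 115) (nat_lit 139)) (PT.lf (nat_lit 16644) (nat_lit 6) (nat_lit 219) (nat_lit 3) (nat_lit 137) (nat_lit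 115) (nat_lit 138))))) (PT.nd (nat_lit 234) (PT.nd (nat_lit 78) (PT.lf (nat_lit 16644) (nat_lit 6) (nat_lit 219) (nat_lit 1) (nat_lit 138) (nat_lit 115) (nat_lit 137)) (PT.nd (nat_lit 78) (PT.lf (nat_lit 16568) (nat_lit 6) (nat_lit 218) (nat_lit 1) (nat_lit 139) (nat_lit 115) (nat_lit 136)) (PT.lf (nat_lit 16492) (nat_lit 6) (nat_lit 217) (nat_lit 1) (nat_lit 140) (nat_lit 115) (nat_lit 135)))) (PT.nd (nat_lit 156) (PT.nd (nat_lit 78) (PT.lf (nat_lit 16416) (nat_lit 6) (nat_lit 216) (nat_lit 1) (nat_lit 141) (nat_lit 115) (nat_lit 134)) (PT.lf (nat_lit 16340) (nat_lit 6) (nat_lit 215) (nat_lit 1) (nat_lit 142) (nat_lit 115) (nat_lit 133))) (PT.nd (nat_lit 78) (PT.lf (nat_lit 16264) (nat_lit 6) (nat_lit 214) (nat_lit 1) (nat_lit 143) (nat_lit 115) (nat_lit 132)) (PT.lf (nat_lit 16188) (nat_lit 6) (nat_lit 213) (nat_lit 1) (nat_lit 144) (nat_lit 115) (nat_lit 131)))))) (PT.nd (nat_lit 39702) (PT.nd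 (nat_lit 39390) (PT.nd (nat_lit 78) (PT.lf (nat_lit 16112) (nat_lit 6) (nat_lit 212) (nat_lit 1) (nat_lit 145) (nat_lit 115) (nat_lit 130)) (PT.nd (nat_lit 39234) (PT.lf (nat_lit 14820) (nat_lit 6) (nat_lit 195) (nat_lit 1) (nat_lit 146) (nat_lit 115) (nat_lit 129)) (PT.lf (nat_lit 14744) (nat_lit 6) (nat_lit 194) (nat_lit 3) (nat_lit 128) (nat_lit 116) (nat_lit 146)))) (PT.nd (nat_lit 156) (PT.nd (nat_lit 78) (PT.lf (nat_lit 16036) (nat_lit 6) (nat_lit 211) (nat_lit 3) (nat_lit 129) (nat_lit 116) (nat_lit 145)) (PT.lf (nat_lit 17252) (nat_lit 6) (nat_lit 227) (nat_lit 3) (nat_lit 130) (nat_lit 116) (nat_lit 144))) (PT.nd (nat_lit 78) (PT.lf (nat_lit 17328) (nat_lit 6) (nat_lit 228) (nat_lit 3) (nat_lit 131) (nat_lit 116) (nat_lit 143)) (PT.lf (nat_lit 17404) (nat_lit 6) (nat_lit 229) (nat_lit 3) (nat_lit 132) (nat_lit 116) (nat_lit 142))))) (PT.nd (nat_lit 312) (PT.nd (nat_lit 156) (PT.nd (nat_lit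 78) (PT.lf (nat_lit 17480) (nat_lit 6) (nat_lit 230) (nat_lit 3) (nat_lit 133) (nat_lit 116) (nat_lit 141)) (PT.lf (nat_lit 17556) (nat_lit 6) (nat_lit 231) (nat_lit 3) (nat_lit 134) (nat_lit 116) (nat_lit 140))) (PT.nd (nat_lit 78) (PT.lf (nat_lit 17632) (nat_lit 6) (nat_lit 232) (nat_lit 3) (nat_lit 135) (nat_lit 116) (nat_lit 139)) (PT.lf (nat_lit 17708) (nat_lit 6) (nat_lit 233) (nat_lit 3) (nat_lit 136) (nat_lit 116) (nat_lit 138)))) (PT.nd (nat_lit 156) (PT.nd (nat_lit 78) (PT.lf (nat_lit 17784) (nat_lit 3) (nat_lit 234) (nat_lit 1) (nat_lit 137) (nat_lit 116) (nat_lit 137)) (PT.lf (nat_lit 17708) (nat_lit 6) (nat_lit 233) (nat_lit 1) (nat_lit 138) (nat_lit 116) (nat_lit 136))) (PT.nd (nat_lit 78) (PT.lf (nat_lit 17632) (nat_lit 6) (nat_lit 232) (nat_lit 1) (nat_lit 139) (nat_lit 116) (nat_lit 135)) (PT.lf (nat_lit 17556) (nat_lit 6) (nat_lit 231) (nat_lit 1) (nat_lit 140) (nat_lit 116) (nat_lit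 134))))))))
noncomputable def pc7 : PT := (PT.nd (nat_lit 80574) (PT.nd (nat_lit 40248) (PT.nd (nat_lit 39702) (PT.nd (nat_lit 234) (PT.nd (nat_lit 78) (PT.lf (nat_lit 17480) (nat_lit 6) (nat_lit 230) (nat_lit 1) (nat_lit 141) (nat_lit 116) (nat_lit 133)) (PT.nd (nat_lit 78) (PT.lf (nat_lit 17404) (nat_lit 6) (nat_lit 229) (nat_lit 1) (nat_lit 142) (nat_lit 116) (nat_lit 132)) (PT.lf (nat_lit 17328) (nat_lit 6) (nat_lit 228) (nat_lit 1) (nat_lit 143) (nat_lit 116) (nat_lit 131)))) (PT.nd (nat_lit 156) (PT.nd (nat_lit 78) (PT.lf (nat_lit 17252) (nat_lit 6) (nat_lit 227) (nat_lit 1) (nat_lit 144) (nat_lit 116) (nat_lit 130)) (PT.lf (nat_lit 16036) (nat_lit 6) (nat_lit 211) (nat_lit 1) (nat_lit 145) (nat_lit 116) (nat_lit 129))) (PT.nd (nat_lit 39234) (PT.lf (nat_lit 14744) (nat_lit 6) (nat_lit 194) (nat_lit 1) (nat_lit 146) (nat_lit 116) (nat_lit 128)) (PT.lf (nat_lit 15960) (nat_lit 6) (nat_lit 210)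 (nat_lit 3) (nat_lit 128) (nat_lit 117) (nat_lit 145))))) (PT.nd (nat_lit 234) (PT.nd (nat_lit 78) (PT.lf (nat_lit 17176) (nat_lit 6) (nat_lit 226) (nat_lit 3) (nat_lit 129) (nat_lit 117) (nat_lit 144)) (PT.nd (nat_lit 78) (PT.lf (nat_lit 18316) (nat_lit 6) (nat_lit 241) (nat_lit 3) (nat_lit 130) (nat_lit 117) (nat_lit 143)) (PT.lf (nat_lit 18392) (nat_lit 6) (nat_lit 242) (nat_lit 3) (nat_lit 131) (nat_lit 117) (nat_lit 142)))) (PT.nd (nat_lit 156) (PT.nd (nat_lit 78) (PT.lf (nat_lit 18468) (nat_lit 6) (nat_lit 243) (nat_lit 3) (nat_lit 132) (nat_lit 117) (nat_lit 141)) (PT.lf (nat_lit 18544) (nat_lit 6) (nat_lit 244) (nat_lit 3) (nat_lit 133) (nat_lit 117) (nat_lit 140))) (PT.nd (nat_lit 78) (PT.lf (nat_lit 18620) (nat_lit 6) (nat_lit 245) (nat_lit 3) (nat_lit 134) (nat_lit 117) (nat_lit 139)) (PT.lf (nat_lit 18696) (nat_lit 6) (nat_lit 246) (nat_lit 3) (nat_lit 135) (nat_lit 117) (nat_lit 138))))))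 (PT.nd (nat_lit 546) (PT.nd (nat_lit 234) (PT.nd (nat_lit 78) (PT.lf (nat_lit 18772) (nat_lit 6) (nat_lit 247) (nat_lit 3) (nat_lit 136) (nat_lit 117) (nat_lit 137)) (PT.nd (nat_lit 78) (PT.lf (nat_lit 18772) (nat_lit 6) (nat_lit 247) (nat_lit 1) (nat_lit 137) (nat_lit 117) (nat_lit 136)) (PT.lf (nat_lit 18696) (nat_lit 6) (nat_lit 246) (nat_lit 1) (nat_lit 138) (nat_lit 117) (nat_lit 135)))) (PT.nd (nat_lit 156) (PT.nd (nat_lit 78) (PT.lf (nat_lit 18620) (nat_lit 6) (nat_lit 245) (nat_lit 1) (nat_lit 139) (nat_lit 117) (nat_lit 134)) (PT.lf (nat_lit 18544) (nat_lit 6) (nat_lit 244) (nat_lit 1) (nat_lit 140) (nat_lit 117) (nat_lit 133))) (PT.nd (nat_lit 78) (PT.lf (nat_lit 18468) (nat_lit 6) (nat_lit 243) (nat_lit 1) (nat_lit 141) (nat_lit 117) (nat_lit 132)) (PT.lf (nat_lit 18392) (nat_lit 6) (nat_lit 242) (nat_lit 1) (nat_lit 142) (nat_lit 117) (nat_lit 131))))) (PT.nd (nat_lit 39468) (PT.nd (nat_lit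 156) (PT.nd (nat_lit 78) (PT.lf (nat_lit 18316) (nat_lit 6) (nat_lit 241) (nat_lit 1) (nat_lit 143) (nat_lit 117) (nat_lit 130)) (PT.lf (nat_lit 17176) (nat_lit 6) (nat_lit 226) (nat_lit 1) (nat_lit 144) (nat_lit 117) (nat_lit 129))) (PT.nd (nat_lit 39234) (PT.lf (nat_lit 15960) (nat_lit 6) (nat_lit 210) (nat_lit 1) (nat_lit 145) (nat_lit 117) (nat_lit 128)) (PT.lf (nat_lit 15884) (nat_lit 6) (nat_lit 209) (nat_lit 3) (nat_lit 127) (nat_lit 118) (nat_lit 145)))) (PT.nd (nat_lit 156) (PT.nd (nat_lit 78) (PT.lf (nat_lit 17100) (nat_lit 6) (nat_lit 225) (nat_lit 3) (nat_lit 128) (nat_lit 118) (nat_lit 144)) (PT.lf (nat_lit 18240) (nat_lit 6) (nat_lit 240) (nat_lit 3) (nat_lit 129) (nat_lit 118) (nat_lit 143))) (PT.nd (nat_lit 78) (PT.lf (nat_lit 19304) (nat_lit 6) (nat_lit 254) (nat_lit 3) (nat_lit 130) (nat_lit 118) (nat_lit 142)) (PT.lf (nat_lit 19380) (nat_lit 6) (nat_lit 255) (nat_lit 3) (nat_lit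 131) (nat_lit 118) (nat_lit 141))))))) (PT.nd (nat_lit 40170) (PT.nd (nat_lit 546) (PT.nd (nat_lit 234) (PT.nd (nat_lit 78) (PT.lf (nat_lit 19456) (nat_lit 6) (nat_lit 256) (nat_lit 3) (nat_lit 132) (nat_lit 118) (nat_lit 140)) (PT.nd (nat_lit 78) (PT.lf (nat_lit 19532) (nat_lit 6) (nat_lit 257) (nat_lit 3) (nat_lit 133) (nat_lit 118) (nat_lit 139)) (PT.lf (nat_lit 19608) (nat_lit 6) (nat_lit 258) (nat_lit 3) (nat_lit 134) (nat_lit 118) (nat_lit 138)))) (PT.nd (nat_lit 156) (PT.nd (nat_lit 78) (PT.lf (nat_lit 19684) (nat_lit 6) (nat_lit 259) (nat_lit 3) (nat_lit 135) (nat_lit 118) (nat_lit 137)) (PT.lf (nat_lit 19760) (nat_lit 3) (nat_lit 260) (nat_lit 1) (nat_lit 136) (nat_lit 118) (nat_lit 136))) (PT.nd (nat_lit 78) (PT.lf (nat_lit 19684) (nat_lit 6) (nat_lit 259) (nat_lit 1) (nat_lit 137) (nat_lit 118) (nat_lit 135)) (PT.lf (nat_lit 19608) (nat_lit 6) (nat_lit 258) (nat_lit 1) (nat_lit 138) (nat_lit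 118) (nat_lit 134))))) (PT.nd (nat_lit 234) (PT.nd (nat_lit 78) (PT.lf (nat_lit 19532) (nat_lit 6) (nat_lit 257) (nat_lit 1) (nat_lit 139) (nat_lit 118) (nat_lit 133)) (PT.nd (nat_lit 78) (PT.lf (nat_lit 19456) (nat_lit 6) (nat_lit 256) (nat_lit 1) (nat_lit 140) (nat_lit 118) (nat_lit 132)) (PT.lf (nat_lit 19380) (nat_lit 6) (nat_lit 255) (nat_lit 1) (nat_lit 141) (nat_lit 118) (nat_lit 131)))) (PT.nd (nat_lit 156) (PT.nd (nat_lit 78) (PT.lf (nat_lit 19304) (nat_lit 6) (nat_lit 254) (nat_lit 1) (nat_lit 142) (nat_lit 118) (nat_lit 130)) (PT.lf (nat_lit 18240) (nat_lit 6) (nat_lit 240) (nat_lit 1) (nat_lit 143) (nat_lit 118) (nat_lit 129))) (PT.nd (nat_lit 78) (PT.lf (nat_lit 17100) (nat_lit 6) (nat_lit 225) (nat_lit 1) (nat_lit 144) (nat_lit 118) (nat_lit 128)) (PT.lf (nat_lit 15884) (nat_lit 6) (nat_lit 209) (nat_lit 1) (nat_lit 145) (nat_lit 118) (nat_lit 127)))))) (PT.nd (nat_lit 546) (PT.nd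 (nat_lit 234) (PT.nd (nat_lit 78) (PT.lf (nat_lit 15808) (nat_lit 6) (nat_lit 208) (nat_lit 3) (nat_lit 126) (nat_lit 119) (nat_lit 145)) (PT.nd (nat_lit 78) (PT.lf (nat_lit 17024) (nat_lit 6) (nat_lit 224) (nat_lit 3) (nat_lit 127) (nat_lit 119) (nat_lit 144)) (PT.lf (nat_lit 18164) (nat_lit 6) (nat_lit 239) (nat_lit 3) (nat_lit 128) (nat_lit 119) (nat_lit 143)))) (PT.nd (nat_lit 156) (PT.nd (nat_lit 78) (PT.lf (nat_lit 19228) (nat_lit 6) (nat_lit 253) (nat_lit 3) (nat_lit 129) (nat_lit 119) (nat_lit 142)) (PT.lf (nat_lit 20216) (nat_lit 6) (nat_lit 266) (nat_lit 3) (nat_lit 130) (nat_lit 119) (nat_lit 141))) (PT.nd (nat_lit 78) (PT.lf (nat_lit 20292) (nat_lit 6) (nat_lit 267) (nat_lit 3) (nat_lit 131) (nat_lit 119) (nat_lit 140)) (PT.lf (nat_lit 20368) (nat_lit 6) (nat_lit 268) (nat_lit 3) (nat_lit 132) (nat_lit 119) (nat_lit 139))))) (PT.nd (nat_lit 312) (PT.nd (nat_lit 156) (PT.nd (nat_lit 78)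 (PT.lf (nat_lit 20444) (nat_lit 6) (nat_lit 269) (nat_lit 3) (nat_lit 133) (nat_lit 119) (nat_lit 138)) (PT.lf (nat_lit 20520) (nat_lit 6) (nat_lit 270) (nat_lit 3) (nat_lit 134) (nat_lit 119) (nat_lit 137))) (PT.nd (nat_lit 78) (PT.lf (nat_lit 20596) (nat_lit 6) (nat_lit 271) (nat_lit 3) (nat_lit 135) (nat_lit 119) (nat_lit 136)) (PT.lf (nat_lit 20596) (nat_lit 6) (nat_lit 271) (nat_lit 1) (nat_lit 136) (nat_lit 119) (nat_lit 135)))) (PT.nd (nat_lit 156) (PT.nd (nat_lit 78) (PT.lf (nat_lit 20520) (nat_lit 6) (nat_lit 270) (nat_lit 1) (nat_lit 137) (nat_lit 119) (nat_lit 134)) (PT.lf (nat_lit 20444) (nat_lit 6) (nat_lit 269) (nat_lit 1) (nat_lit 138) (nat_lit 119) (nat_lit 133))) (PT.nd (nat_lit 78) (PT.lf (nat_lit 20368) (nat_lit 6) (nat_lit 268) (nat_lit 1) (nat_lit 139) (nat_lit 119) (nat_lit 132)) (PT.lf (nat_lit 20292) (nat_lit 6) (nat_lit 267) (nat_lit 1) (nat_lit 140) (nat_lit 119) (nat_lit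 131))))))))
noncomputable def pc8 : PT := (PT.nd (nat_lit 80184) (PT.nd (nat_lit 40092) (PT.nd (nat_lit 39546) (PT.nd (nat_lit 234) (PT.nd (nat_lit 78) (PT.lf (nat_lit 20216) (nat_lit 6) (nat_lit 266) (nat_lit 1) (nat_lit 141) (nat_lit 119) (nat_lit 130)) (PT.nd (nat_lit 78) (PT.lf (nat_lit 19228) (nat_lit 6) (nat_lit 253) (nat_lit 1) (nat_lit 142) (nat_lit 119) (nat_lit 129)) (PT.lf (nat_lit 18164) (nat_lit 6) (nat_lit 239) (nat_lit 1) (nat_lit 143) (nat_lit 119) (nat_lit 128)))) (PT.nd (nat_lit 39156) (PT.nd (nat_lit 78) (PT.lf (nat_lit 17024) (nat_lit 6) (nat_lit 224) (nat_lit 1) (nat_lit 144) (nat_lit 119) (nat_lit 127)) (PT.lf (nat_lit 15808) (nat_lit 6) (nat_lit 208) (nat_lit 1) (nat_lit 145) (nat_lit 119) (nat_lit 126))) (PT.nd (nat_lit 78) (PT.lf (nat_lit 15732) (nat_lit 6) (nat_lit 207) (nat_lit 3) (nat_lit 125) (nat_lit 120) (nat_lit 145)) (PT.lf (nat_lit 16948) (nat_lit 6) (nat_lit 223)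 (nat_lit 3) (nat_lit 126) (nat_lit 120) (nat_lit 144))))) (PT.nd (nat_lit 234) (PT.nd (nat_lit 78) (PT.lf (nat_lit 18088) (nat_lit 6) (nat_lit 238) (nat_lit 3) (nat_lit 127) (nat_lit 120) (nat_lit 143)) (PT.nd (nat_lit 78) (PT.lf (nat_lit 19152) (nat_lit 6) (nat_lit 252) (nat_lit 3) (nat_lit 128) (nat_lit 120) (nat_lit 142)) (PT.lf (nat_lit 20140) (nat_lit 6) (nat_lit 265) (nat_lit 3) (nat_lit 129) (nat_lit 120) (nat_lit 141)))) (PT.nd (nat_lit 156) (PT.nd (nat_lit 78) (PT.lf (nat_lit 21052) (nat_lit 6) (nat_lit 277) (nat_lit 3) (nat_lit 130) (nat_lit 120) (nat_lit 140)) (PT.lf (nat_lit 21128) (nat_lit 6) (nat_lit 278) (nat_lit 3) (nat_lit 131) (nat_lit 120) (nat_lit 139))) (PT.nd (nat_lit 78) (PT.lf (nat_lit 21204) (nat_lit 6) (nat_lit 279) (nat_lit 3) (nat_lit 132) (nat_lit 120) (nat_lit 138)) (PT.lf (nat_lit 21280) (nat_lit 6) (nat_lit 280) (nat_lit 3) (nat_lit 133) (nat_lit 120) (nat_lit 137))))))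 (PT.nd (nat_lit 546) (PT.nd (nat_lit 234) (PT.nd (nat_lit 78) (PT.lf (nat_lit 21356) (nat_lit 6) (nat_lit 281) (nat_lit 3) (nat_lit 134) (nat_lit 120) (nat_lit 136)) (PT.nd (nat_lit 78) (PT.lf (nat_lit 21432) (nat_lit 3) (nat_lit 282) (nat_lit 1) (nat_lit 135) (nat_lit 120) (nat_lit 135)) (PT.lf (nat_lit 21356) (nat_lit 6) (nat_lit 281) (nat_lit 1) (nat_lit 136) (nat_lit 120) (nat_lit 134)))) (PT.nd (nat_lit 156) (PT.nd (nat_lit 78) (PT.lf (nat_lit 21280) (nat_lit 6) (nat_lit 280) (nat_lit 1) (nat_lit 137) (nat_lit 120) (nat_lit 133)) (PT.lf (nat_lit 21204) (nat_lit 6) (nat_lit 279) (nat_lit 1) (nat_lit 138) (nat_lit 120) (nat_lit 132))) (PT.nd (nat_lit 78) (PT.lf (nat_lit 21128) (nat_lit 6) (nat_lit 278) (nat_lit 1) (nat_lit 139) (nat_lit 120) (nat_lit 131)) (PT.lf (nat_lit 21052) (nat_lit 6) (nat_lit 277) (nat_lit 1) (nat_lit 140) (nat_lit 120) (nat_lit 130))))) (PT.nd (nat_lit 312) (PT.nd (nat_lit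 156) (PT.nd (nat_lit 78) (PT.lf (nat_lit 20140) (nat_lit 6) (nat_lit 265) (nat_lit 1) (nat_lit 141) (nat_lit 120) (nat_lit 129)) (PT.lf (nat_lit 19152) (nat_lit 6) (nat_lit 252) (nat_lit 1) (nat_lit 142) (nat_lit 120) (nat_lit 128))) (PT.nd (nat_lit 78) (PT.lf (nat_lit 18088) (nat_lit 6) (nat_lit 238) (nat_lit 1) (nat_lit 143) (nat_lit 120) (nat_lit 127)) (PT.lf (nat_lit 16948) (nat_lit 6) (nat_lit 223) (nat_lit 1) (nat_lit 144) (nat_lit 120) (nat_lit 126)))) (PT.nd (nat_lit 39078) (PT.nd (nat_lit 39000) (PT.lf (nat_lit 15732) (nat_lit 6) (nat_lit 207) (nat_lit 1) (nat_lit 145) (nat_lit 120) (nat_lit 125)) (PT.lf (nat_lit 15656) (nat_lit 6) (nat_lit 206) (nat_lit 3) (nat_lit 124) (nat_lit 121) (nat_lit 145))) (PT.nd (nat_lit 78) (PT.lf (nat_lit 16872) (nat_lit 6) (nat_lit 222) (nat_lit 3) (nat_lit 125) (nat_lit 121) (nat_lit 144)) (PT.lf (nat_lit 18012) (nat_lit 6) (nat_lit 237) (nat_lit 3) (nat_lit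 126) (nat_lit 121) (nat_lit 143))))))) (PT.nd (nat_lit 1092) (PT.nd (nat_lit 546) (PT.nd (nat_lit 234) (PT.nd (nat_lit 78) (PT.lf (nat_lit 19076) (nat_lit 6) (nat_lit 251) (nat_lit 3) (nat_lit 127) (nat_lit 121) (nat_lit 142)) (PT.nd (nat_lit 78) (PT.lf (nat_lit 20064) (nat_lit 6) (nat_lit 264) (nat_lit 3) (nat_lit 128) (nat_lit 121) (nat_lit 141)) (PT.lf (nat_lit 20976) (nat_lit 6) (nat_lit 276) (nat_lit 3) (nat_lit 129) (nat_lit 121) (nat_lit 140)))) (PT.nd (nat_lit 156) (PT.nd (nat_lit 78) (PT.lf (nat_lit 21812) (nat_lit 6) (nat_lit 287) (nat_lit 3) (nat_lit 130) (nat_lit 121) (nat_lit 139)) (PT.lf (nat_lit 21888) (nat_lit 6) (nat_lit 288) (nat_lit 3) (nat_lit 131) (nat_lit 121) (nat_lit 138))) (PT.nd (nat_lit 78) (PT.lf (nat_lit 21964) (nat_lit 6) (nat_lit 289) (nat_lit 3) (nat_lit 132) (nat_lit 121) (nat_lit 137)) (PT.lf (nat_lit 22040) (nat_lit 6) (nat_lit 290) (nat_lit 3) (nat_lit 133) (nat_lit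 121) (nat_lit 136))))) (PT.nd (nat_lit 234) (PT.nd (nat_lit 78) (PT.lf (nat_lit 22116) (nat_lit 6) (nat_lit 291) (nat_lit 3) (nat_lit 134) (nat_lit 121) (nat_lit 135)) (PT.nd (nat_lit 78) (PT.lf (nat_lit 22116) (nat_lit 6) (nat_lit 291) (nat_lit 1) (nat_lit 135) (nat_lit 121) (nat_lit 134)) (PT.lf (nat_lit 22040) (nat_lit 6) (nat_lit 290) (nat_lit 1) (nat_lit 136) (nat_lit 121) (nat_lit 133)))) (PT.nd (nat_lit 156) (PT.nd (nat_lit 78) (PT.lf (nat_lit 21964) (nat_lit 6) (nat_lit 289) (nat_lit 1) (nat_lit 137) (nat_lit 121) (nat_lit 132)) (PT.lf (nat_lit 21888) (nat_lit 6) (nat_lit 288) (nat_lit 1) (nat_lit 138) (nat_lit 121) (nat_lit 131))) (PT.nd (nat_lit 78) (PT.lf (nat_lit 21812) (nat_lit 6) (nat_lit 287) (nat_lit 1) (nat_lit 139) (nat_lit 121) (nat_lit 130)) (PT.lf (nat_lit 20976) (nat_lit 6) (nat_lit 276) (nat_lit 1) (nat_lit 140) (nat_lit 121) (nat_lit 129)))))) (PT.nd (nat_lit 39390) (PT.nd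 (nat_lit 234) (PT.nd (nat_lit 78) (PT.lf (nat_lit 20064) (nat_lit 6) (nat_lit 264) (nat_lit 1) (nat_lit 141) (nat_lit 121) (nat_lit 128)) (PT.nd (nat_lit 78) (PT.lf (nat_lit 19076) (nat_lit 6) (nat_lit 251) (nat_lit 1) (nat_lit 142) (nat_lit 121) (nat_lit 127)) (PT.lf (nat_lit 18012) (nat_lit 6) (nat_lit 237) (nat_lit 1) (nat_lit 143) (nat_lit 121) (nat_lit 126)))) (PT.nd (nat_lit 39000) (PT.nd (nat_lit 78) (PT.lf (nat_lit 16872) (nat_lit 6) (nat_lit 222) (nat_lit 1) (nat_lit 144) (nat_lit 121) (nat_lit 125)) (PT.lf (nat_lit 15656) (nat_lit 6) (nat_lit 206) (nat_lit 1) (nat_lit 145) (nat_lit 121) (nat_lit 124))) (PT.nd (nat_lit 78) (PT.lf (nat_lit 15580) (nat_lit 6) (nat_lit 205) (nat_lit 3) (nat_lit 123) (nat_lit 122) (nat_lit 145)) (PT.lf (nat_lit 16796) (nat_lit 6) (nat_lit 221) (nat_lit 3) (nat_lit 124) (nat_lit 122) (nat_lit 144))))) (PT.nd (nat_lit 312) (PT.nd (nat_lit 156) (PT.nd (nat_lit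 78) (PT.lf (nat_lit 17936) (nat_lit 6) (nat_lit 236) (nat_lit 3) (nat_lit 125) (nat_lit 122) (nat_lit 143)) (PT.lf (nat_lit 19000) (nat_lit 6) (nat_lit 250) (nat_lit 3) (nat_lit 126) (nat_lit 122) (nat_lit 142))) (PT.nd (nat_lit 78) (PT.lf (nat_lit 19988) (nat_lit 6) (nat_lit 263) (nat_lit 3) (nat_lit 127) (nat_lit 122) (nat_lit 141)) (PT.lf (nat_lit 20900) (nat_lit 6) (nat_lit 275) (nat_lit 3) (nat_lit 128) (nat_lit 122) (nat_lit 140)))) (PT.nd (nat_lit 156) (PT.nd (nat_lit 78) (PT.lf (nat_lit 21736) (nat_lit 6) (nat_lit 286) (nat_lit 3) (nat_lit 129) (nat_lit 122) (nat_lit 139)) (PT.lf (nat_lit 22496) (nat_lit 6) (nat_lit 296) (nat_lit 3) (nat_lit 130) (nat_lit 122) (nat_lit 138))) (PT.nd (nat_lit 78) (PT.lf (nat_lit 22572) (nat_lit 6) (nat_lit 297) (nat_lit 3) (nat_lit 131) (nat_lit 122) (nat_lit 137)) (PT.lf (nat_lit 22648) (nat_lit 6) (nat_lit 298) (nat_lit 3) (nat_lit 132) (nat_lit 122) (nat_lit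 136))))))))
noncomputable def pc9 : PT := (PT.nd (nat_lit 41028) (PT.nd (nat_lit 39858) (PT.nd (nat_lit 546) (PT.nd (nat_lit 234) (PT.nd (nat_lit 78) (PT.lf (nat_lit 22724) (nat_lit 6) (nat_lit 299) (nat_lit 3) (nat_lit 133) (nat_lit 122) (nat_lit 135)) (PT.nd (nat_lit 78) (PT.lf (nat_lit 22800) (nat_lit 3) (nat_lit 300) (nat_lit 1) (nat_lit 134) (nat_lit 122) (nat_lit 134)) (PT.lf (nat_lit 22724) (nat_lit 6) (nat_lit 299) (nat_lit 1) (nat_lit 135) (nat_lit 122) (nat_lit 133)))) (PT.nd (nat_lit 156) (PT.nd (nat_lit 78) (PT.lf (nat_lit 22648) (nat_lit 6) (nat_lit 298) (nat_lit 1) (nat_lit 136) (nat_lit 122) (nat_lit 132)) (PT.lf (nat_lit 22572) (nat_lit 6) (nat_lit 297) (nat_lit 1) (nat_lit 137) (nat_lit 122) (nat_lit 131))) (PT.nd (nat_lit 78) (PT.lf (nat_lit 22496) (nat_lit 6) (nat_lit 296) (nat_lit 1) (nat_lit 138) (nat_lit 122) (nat_lit 130)) (PT.lf (nat_lit 21736) (nat_lit 6) (nat_lit 286) (nat_lit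 1) (nat_lit 139) (nat_lit 122) (nat_lit 129))))) (PT.nd (nat_lit 234) (PT.nd (nat_lit 78) (PT.lf (nat_lit 20900) (nat_lit 6) (nat_lit 275) (nat_lit 1) (nat_lit 140) (nat_lit 122) (nat_lit 128)) (PT.nd (nat_lit 78) (PT.lf (nat_lit 19988) (nat_lit 6) (nat_lit 263) (nat_lit 1) (nat_lit 141) (nat_lit 122) (nat_lit 127)) (PT.lf (nat_lit 19000) (nat_lit 6) (nat_lit 250) (nat_lit 1) (nat_lit 142) (nat_lit 122) (nat_lit 126)))) (PT.nd (nat_lit 156) (PT.nd (nat_lit 78) (PT.lf (nat_lit 17936) (nat_lit 6) (nat_lit 236) (nat_lit 1) (nat_lit 143) (nat_lit 122) (nat_lit 125)) (PT.lf (nat_lit 16796) (nat_lit 6) (nat_lit 221) (nat_lit 1) (nat_lit 144) (nat_lit 122) (nat_lit 124))) (PT.nd (nat_lit 38844) (PT.lf (nat_lit 15580) (nat_lit 6) (nat_lit 205) (nat_lit 1) (nat_lit 145) (nat_lit 122) (nat_lit 123)) (PT.lf (nat_lit 15580) (nat_lit 6) (nat_lit 205) (nat_lit 5) (nat_lit 122) (nat_lit 123) (nat_lit 145))))))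 (PT.nd (nat_lit 546) (PT.nd (nat_lit 234) (PT.nd (nat_lit 78) (PT.lf (nat_lit 16720) (nat_lit 3) (nat_lit 220) (nat_lit 3) (nat_lit 123) (nat_lit 123) (nat_lit 144)) (PT.nd (nat_lit 78) (PT.lf (nat_lit 17860) (nat_lit 6) (nat_lit 235) (nat_lit 3) (nat_lit 124) (nat_lit 123) (nat_lit 143)) (PT.lf (nat_lit 18924) (nat_lit 6) (nat_lit 249) (nat_lit 3) (nat_lit 125) (nat_lit 123) (nat_lit 142)))) (PT.nd (nat_lit 156) (PT.nd (nat_lit 78) (PT.lf (nat_lit 19912) (nat_lit 6) (nat_lit 262) (nat_lit 3) (nat_lit 126) (nat_lit 123) (nat_lit 141)) (PT.lf (nat_lit 20824) (nat_lit 6) (nat_lit 274) (nat_lit 3) (nat_lit 127) (nat_lit 123) (nat_lit 140))) (PT.nd (nat_lit 78) (PT.lf (nat_lit 21660) (nat_lit 6) (nat_lit 285) (nat_lit 3) (nat_lit 128) (nat_lit 123) (nat_lit 139)) (PT.lf (nat_lit 22420) (nat_lit 6) (nat_lit 295) (nat_lit 3) (nat_lit 129) (nat_lit 123) (nat_lit 138))))) (PT.nd (nat_lit 312) (PT.nd (nat_lit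 156) (PT.nd (nat_lit 78) (PT.lf (nat_lit 23104) (nat_lit 6) (nat_lit 304) (nat_lit 3) (nat_lit 130) (nat_lit 123) (nat_lit 137)) (PT.lf (nat_lit 23180) (nat_lit 6) (nat_lit 305) (nat_lit 3) (nat_lit 131) (nat_lit 123) (nat_lit 136))) (PT.nd (nat_lit 78) (PT.lf (nat_lit 23256) (nat_lit 6) (nat_lit 306) (nat_lit 3) (nat_lit 132) (nat_lit 123) (nat_lit 135)) (PT.lf (nat_lit 23332) (nat_lit 6) (nat_lit 307) (nat_lit 3) (nat_lit 133) (nat_lit 123) (nat_lit 134)))) (PT.nd (nat_lit 156) (PT.nd (nat_lit 78) (PT.lf (nat_lit 23332) (nat_lit 6) (nat_lit 307) (nat_lit 1) (nat_lit 134) (nat_lit 123) (nat_lit 133)) (PT.lf (nat_lit 23256) (nat_lit 6) (nat_lit 306) (nat_lit 1) (nat_lit 135) (nat_lit 123) (nat_lit 132))) (PT.nd (nat_lit 78) (PT.lf (nat_lit 23180) (nat_lit 6) (nat_lit 305) (nat_lit 1) (nat_lit 136) (nat_lit 123) (nat_lit 131)) (PT.lf (nat_lit 23104) (nat_lit 6) (nat_lit 304) (nat_lit 1) (nat_lit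 137) (nat_lit 123) (nat_lit 130))))))) (PT.nd (nat_lit 39780) (PT.nd (nat_lit 546) (PT.nd (nat_lit 234) (PT.nd (nat_lit 78) (PT.lf (nat_lit 22420) (nat_lit 6) (nat_lit 295) (nat_lit 1) (nat_lit 138) (nat_lit 123) (nat_lit 129)) (PT.nd (nat_lit 78) (PT.lf (nat_lit 21660) (nat_lit 6) (nat_lit 285) (nat_lit 1) (nat_lit 139) (nat_lit 123) (nat_lit 128)) (PT.lf (nat_lit 20824) (nat_lit 6) (nat_lit 274) (nat_lit 1) (nat_lit 140) (nat_lit 123) (nat_lit 127)))) (PT.nd (nat_lit 156) (PT.nd (nat_lit 78) (PT.lf (nat_lit 19912) (nat_lit 6) (nat_lit 262) (nat_lit 1) (nat_lit 141) (nat_lit 123) (nat_lit 126)) (PT.lf (nat_lit 18924) (nat_lit 6) (nat_lit 249) (nat_lit 1) (nat_lit 142) (nat_lit 123) (nat_lit 125))) (PT.nd (nat_lit 78) (PT.lf (nat_lit 17860) (nat_lit 6) (nat_lit 235) (nat_lit 1) (nat_lit 143) (nat_lit 123) (nat_lit 124)) (PT.lf (nat_lit 16720) (nat_lit 3) (nat_lit 220) (nat_lit 0) (nat_lit 144) (nat_lit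 123) (nat_lit 123))))) (PT.nd (nat_lit 38922) (PT.nd (nat_lit 38766) (PT.lf (nat_lit 15580) (nat_lit 6) (nat_lit 205) (nat_lit 0) (nat_lit 145) (nat_lit 123) (nat_lit 122)) (PT.nd (nat_lit 78) (PT.lf (nat_lit 15656) (nat_lit 6) (nat_lit 206) (nat_lit 5) (nat_lit 121) (nat_lit 124) (nat_lit 145)) (PT.lf (nat_lit 16796) (nat_lit 6) (nat_lit 221) (nat_lit 5) (nat_lit 122) (nat_lit 124) (nat_lit 144)))) (PT.nd (nat_lit 156) (PT.nd (nat_lit 78) (PT.lf (nat_lit 17860) (nat_lit 6) (nat_lit 235) (nat_lit 5) (nat_lit 123) (nat_lit 124) (nat_lit 143)) (PT.lf (nat_lit 18848) (nat_lit 3) (nat_lit 248) (nat_lit 3) (nat_lit 124) (nat_lit 124) (nat_lit 142))) (PT.nd (nat_lit 78) (PT.lf (nat_lit 19836) (nat_lit 6) (nat_lit 261) (nat_lit 3) (nat_lit 125) (nat_lit 124) (nat_lit 141)) (PT.lf (nat_lit 20748) (nat_lit 6) (nat_lit 273) (nat_lit 3) (nat_lit 126) (nat_lit 124) (nat_lit 140)))))) (PT.nd (nat_lit 546) (PT.nd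 (nat_lit 234) (PT.nd (nat_lit 78) (PT.lf (nat_lit 21584) (nat_lit 6) (nat_lit 284) (nat_lit 3) (nat_lit 127) (nat_lit 124) (nat_lit 139)) (PT.nd (nat_lit 78) (PT.lf (nat_lit 22344) (nat_lit 6) (nat_lit 294) (nat_lit 3) (nat_lit 128) (nat_lit 124) (nat_lit 138)) (PT.lf (nat_lit 23028) (nat_lit 6) (nat_lit 303) (nat_lit 3) (nat_lit 129) (nat_lit 124) (nat_lit 137)))) (PT.nd (nat_lit 156) (PT.nd (nat_lit 78) (PT.lf (nat_lit 23636) (nat_lit 6) (nat_lit 311) (nat_lit 3) (nat_lit 130) (nat_lit 124) (nat_lit 136)) (PT.lf (nat_lit 23712) (nat_lit 6) (nat_lit 312) (nat_lit 3) (nat_lit 131) (nat_lit 124) (nat_lit 135))) (PT.nd (nat_lit 78) (PT.lf (nat_lit 23788) (nat_lit 6) (nat_lit 313) (nat_lit 3) (nat_lit 132) (nat_lit 124) (nat_lit 134)) (PT.lf (nat_lit 23864) (nat_lit 3) (nat_lit 314) (nat_lit 1) (nat_lit 133) (nat_lit 124) (nat_lit 133))))) (PT.nd (nat_lit 312) (PT.nd (nat_lit 156) (PT.nd (nat_lit 78)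 (PT.lf (nat_lit 23788) (nat_lit 6) (nat_lit 313) (nat_lit 1) (nat_lit 134) (nat_lit 124) (nat_lit 132)) (PT.lf (nat_lit 23712) (nat_lit 6) (nat_lit 312) (nat_lit 1) (nat_lit 135) (nat_lit 124) (nat_lit 131))) (PT.nd (nat_lit 78) (PT.lf (nat_lit 23636) (nat_lit 6) (nat_lit 311) (nat_lit 1) (nat_lit 136) (nat_lit 124) (nat_lit 130)) (PT.lf (nat_lit 23028) (nat_lit 6) (nat_lit 303) (nat_lit 1) (nat_lit 137) (nat_lit 124) (nat_lit 129)))) (PT.nd (nat_lit 156) (PT.nd (nat_lit 78) (PT.lf (nat_lit 22344) (nat_lit 6) (nat_lit 294) (nat_lit 1) (nat_lit 138) (nat_lit 124) (nat_lit 128)) (PT.lf (nat_lit 21584) (nat_lit 6) (nat_lit 284) (nat_lit 1) (nat_lit 139) (nat_lit 124) (nat_lit 127))) (PT.nd (nat_lit 78) (PT.lf (nat_lit 20748) (nat_lit 6) (nat_lit 273) (nat_lit 1) (nat_lit 140) (nat_lit 124) (nat_lit 126)) (PT.lf (nat_lit 19836) (nat_lit 6) (nat_lit 261) (nat_lit 1) (nat_lit 141) (nat_lit 124) (nat_lit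 125))))))))
noncomputable def pc10 : PT := (PT.nd (nat_lit 40872) (PT.nd (nat_lit 39702) (PT.nd (nat_lit 39156) (PT.nd (nat_lit 234) (PT.nd (nat_lit 78) (PT.lf (nat_lit 18848) (nat_lit 3) (nat_lit 248) (nat_lit 0) (nat_lit 142) (nat_lit 124) (nat_lit 124)) (PT.nd (nat_lit 78) (PT.lf (nat_lit 17860) (nat_lit 6) (nat_lit 235) (nat_lit 0) (nat_lit 143) (nat_lit 124) (nat_lit 123)) (PT.lf (nat_lit 16796) (nat_lit 6) (nat_lit 221) (nat_lit 0) (nat_lit 144) (nat_lit 124) (nat_lit 122)))) (PT.nd (nat_lit 38766) (PT.nd (nat_lit 38688) (PT.lf (nat_lit 15656) (nat_lit 6) (nat_lit 206) (nat_lit 0) (nat_lit 145) (nat_lit 124) (nat_lit 121)) (PT.lf (nat_lit 15732) (nat_lit 6) (nat_lit 207) (nat_lit 5) (nat_lit 120) (nat_lit 125) (nat_lit 145))) (PT.nd (nat_lit 78) (PT.lf (nat_lit 16872) (nat_lit 6) (nat_lit 222) (nat_lit 5) (nat_lit 121) (nat_lit 125) (nat_lit 144)) (PT.lf (nat_lit 17936) (nat_lit 6) (nat_lit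 236) (nat_lit 5) (nat_lit 122) (nat_lit 125) (nat_lit 143))))) (PT.nd (nat_lit 234) (PT.nd (nat_lit 78) (PT.lf (nat_lit 18924) (nat_lit 6) (nat_lit 249) (nat_lit 5) (nat_lit 123) (nat_lit 125) (nat_lit 142)) (PT.nd (nat_lit 78) (PT.lf (nat_lit 19836) (nat_lit 6) (nat_lit 261) (nat_lit 5) (nat_lit 124) (nat_lit 125) (nat_lit 141)) (PT.lf (nat_lit 20672) (nat_lit 3) (nat_lit 272) (nat_lit 3) (nat_lit 125) (nat_lit 125) (nat_lit 140)))) (PT.nd (nat_lit 156) (PT.nd (nat_lit 78) (PT.lf (nat_lit 21508) (nat_lit 6) (nat_lit 283) (nat_lit 3) (nat_lit 126) (nat_lit 125) (nat_lit 139)) (PT.lf (nat_lit 22268) (nat_lit 6) (nat_lit 293) (nat_lit 3) (nat_lit 127) (nat_lit 125) (nat_lit 138))) (PT.nd (nat_lit 78) (PT.lf (nat_lit 22952) (nat_lit 6) (nat_lit 302) (nat_lit 3) (nat_lit 128) (nat_lit 125) (nat_lit 137)) (PT.lf (nat_lit 23560) (nat_lit 6) (nat_lit 310) (nat_lit 3) (nat_lit 129) (nat_lit 125) (nat_lit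 136)))))) (PT.nd (nat_lit 546) (PT.nd (nat_lit 234) (PT.nd (nat_lit 78) (PT.lf (nat_lit 24092) (nat_lit 6) (nat_lit 317) (nat_lit 3) (nat_lit 130) (nat_lit 125) (nat_lit 135)) (PT.nd (nat_lit 78) (PT.lf (nat_lit 24168) (nat_lit 6) (nat_lit 318) (nat_lit 3) (nat_lit 131) (nat_lit 125) (nat_lit 134)) (PT.lf (nat_lit 24244) (nat_lit 6) (nat_lit 319) (nat_lit 3) (nat_lit 132) (nat_lit 125) (nat_lit 133)))) (PT.nd (nat_lit 156) (PT.nd (nat_lit 78) (PT.lf (nat_lit 24244) (nat_lit 6) (nat_lit 319) (nat_lit 1) (nat_lit 133) (nat_lit 125) (nat_lit 132)) (PT.lf (nat_lit 24168) (nat_lit 6) (nat_lit 318) (nat_lit 1) (nat_lit 134) (nat_lit 125) (nat_lit 131))) (PT.nd (nat_lit 78) (PT.lf (nat_lit 24092) (nat_lit 6) (nat_lit 317) (nat_lit 1) (nat_lit 135) (nat_lit 125) (nat_lit 130)) (PT.lf (nat_lit 23560) (nat_lit 6) (nat_lit 310) (nat_lit 1) (nat_lit 136) (nat_lit 125) (nat_lit 129))))) (PT.nd (nat_lit 312)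 (PT.nd (nat_lit 156) (PT.nd (nat_lit 78) (PT.lf (nat_lit 22952) (nat_lit 6) (nat_lit 302) (nat_lit 1) (nat_lit 137) (nat_lit 125) (nat_lit 128)) (PT.lf (nat_lit 22268) (nat_lit 6) (nat_lit 293) (nat_lit 1) (nat_lit 138) (nat_lit 125) (nat_lit 127))) (PT.nd (nat_lit 78) (PT.lf (nat_lit 21508) (nat_lit 6) (nat_lit 283) (nat_lit 1) (nat_lit 139) (nat_lit 125) (nat_lit 126)) (PT.lf (nat_lit 20672) (nat_lit 3) (nat_lit 272) (nat_lit 0) (nat_lit 140) (nat_lit 125) (nat_lit 125)))) (PT.nd (nat_lit 156) (PT.nd (nat_lit 78) (PT.lf (nat_lit 19836) (nat_lit 6) (nat_lit 261) (nat_lit 0) (nat_lit 141) (nat_lit 125) (nat_lit 124)) (PT.lf (nat_lit 18924) (nat_lit 6) (nat_lit 249) (nat_lit 0) (nat_lit 142) (nat_lit 125) (nat_lit 123))) (PT.nd (nat_lit 78) (PT.lf (nat_lit 17936) (nat_lit 6) (nat_lit 236) (nat_lit 0) (nat_lit 143) (nat_lit 125) (nat_lit 122)) (PT.lf (nat_lit 16872) (nat_lit 6) (nat_lit 222) (nat_lit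 0) (nat_lit 144) (nat_lit 125) (nat_lit 121))))))) (PT.nd (nat_lit 39624) (PT.nd (nat_lit 39078) (PT.nd (nat_lit 38766) (PT.nd (nat_lit 38610) (PT.lf (nat_lit 15732) (nat_lit 6) (nat_lit 207) (nat_lit 0) (nat_lit 145) (nat_lit 125) (nat_lit 120)) (PT.nd (nat_lit 78) (PT.lf (nat_lit 15808) (nat_lit 6) (nat_lit 208) (nat_lit 5) (nat_lit 119) (nat_lit 126) (nat_lit 145)) (PT.lf (nat_lit 16948) (nat_lit 6) (nat_lit 223) (nat_lit 5) (nat_lit 120) (nat_lit 126) (nat_lit 144)))) (PT.nd (nat_lit 156) (PT.nd (nat_lit 78) (PT.lf (nat_lit 18012) (nat_lit 6) (nat_lit 237) (nat_lit 5) (nat_lit 121) (nat_lit 126) (nat_lit 143)) (PT.lf (nat_lit 19000) (nat_lit 6) (nat_lit 250) (nat_lit 5) (nat_lit 122) (nat_lit 126) (nat_lit 142))) (PT.nd (nat_lit 78) (PT.lf (nat_lit 19912) (nat_lit 6) (nat_lit 262) (nat_lit 5) (nat_lit 123) (nat_lit 126) (nat_lit 141)) (PT.lf (nat_lit 20748) (nat_lit 6) (nat_lit 273) (nat_lit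 5) (nat_lit 124) (nat_lit 126) (nat_lit 140))))) (PT.nd (nat_lit 234) (PT.nd (nat_lit 78) (PT.lf (nat_lit 21508) (nat_lit 6) (nat_lit 283) (nat_lit 5) (nat_lit 125) (nat_lit 126) (nat_lit 139)) (PT.nd (nat_lit 78) (PT.lf (nat_lit 22192) (nat_lit 3) (nat_lit 292) (nat_lit 3) (nat_lit 126) (nat_lit 126) (nat_lit 138)) (PT.lf (nat_lit 22876) (nat_lit 6) (nat_lit 301) (nat_lit 3) (nat_lit 127) (nat_lit 126) (nat_lit 137)))) (PT.nd (nat_lit 156) (PT.nd (nat_lit 78) (PT.lf (nat_lit 23484) (nat_lit 6) (nat_lit 309) (nat_lit 3) (nat_lit 128) (nat_lit 126) (nat_lit 136)) (PT.lf (nat_lit 24016) (nat_lit 6) (nat_lit 316) (nat_lit 3) (nat_lit 129) (nat_lit 126) (nat_lit 135))) (PT.nd (nat_lit 78) (PT.lf (nat_lit 24472) (nat_lit 6) (nat_lit 322) (nat_lit 3) (nat_lit 130) (nat_lit 126) (nat_lit 134)) (PT.lf (nat_lit 24548) (nat_lit 6) (nat_lit 323) (nat_lit 3) (nat_lit 131) (nat_lit 126) (nat_lit 133)))))) (PT.nd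 (nat_lit 546) (PT.nd (nat_lit 234) (PT.nd (nat_lit 78) (PT.lf (nat_lit 24624) (nat_lit 3) (nat_lit 324) (nat_lit 1) (nat_lit 132) (nat_lit 126) (nat_lit 132)) (PT.nd (nat_lit 78) (PT.lf (nat_lit 24548) (nat_lit 6) (nat_lit 323) (nat_lit 1) (nat_lit 133) (nat_lit 126) (nat_lit 131)) (PT.lf (nat_lit 24472) (nat_lit 6) (nat_lit 322) (nat_lit 1) (nat_lit 134) (nat_lit 126) (nat_lit 130)))) (PT.nd (nat_lit 156) (PT.nd (nat_lit 78) (PT.lf (nat_lit 24016) (nat_lit 6) (nat_lit 316) (nat_lit 1) (nat_lit 135) (nat_lit 126) (nat_lit 129)) (PT.lf (nat_lit 23484) (nat_lit 6) (nat_lit 309) (nat_lit 1) (nat_lit 136) (nat_lit 126) (nat_lit 128))) (PT.nd (nat_lit 78) (PT.lf (nat_lit 22876) (nat_lit 6) (nat_lit 301) (nat_lit 1) (nat_lit 137) (nat_lit 126) (nat_lit 127)) (PT.lf (nat_lit 22192) (nat_lit 3) (nat_lit 292) (nat_lit 0) (nat_lit 138) (nat_lit 126) (nat_lit 126))))) (PT.nd (nat_lit 312) (PT.nd (nat_lit 156)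 (PT.nd (nat_lit 78) (PT.lf (nat_lit 21508) (nat_lit 6) (nat_lit 283) (nat_lit 0) (nat_lit 139) (nat_lit 126) (nat_lit 125)) (PT.lf (nat_lit 20748) (nat_lit 6) (nat_lit 273) (nat_lit 0) (nat_lit 140) (nat_lit 126) (nat_lit 124))) (PT.nd (nat_lit 78) (PT.lf (nat_lit 19912) (nat_lit 6) (nat_lit 262) (nat_lit 0) (nat_lit 141) (nat_lit 126) (nat_lit 123)) (PT.lf (nat_lit 19000) (nat_lit 6) (nat_lit 250) (nat_lit 0) (nat_lit 142) (nat_lit 126) (nat_lit 122)))) (PT.nd (nat_lit 156) (PT.nd (nat_lit 78) (PT.lf (nat_lit 18012) (nat_lit 6) (nat_lit 237) (nat_lit 0) (nat_lit 143) (nat_lit 126) (nat_lit 121)) (PT.lf (nat_lit 16948) (nat_lit 6) (nat_lit 223) (nat_lit 0) (nat_lit 144) (nat_lit 126) (nat_lit 120))) (PT.nd (nat_lit 38532) (PT.lf (nat_lit 15808) (nat_lit 6) (nat_lit 208) (nat_lit 0) (nat_lit 145) (nat_lit 126) (nat_lit 119)) (PT.lf (nat_lit 15884) (nat_lit 6) (nat_lit 209) (nat_lit 5) (nat_lit 118)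 (nat_lit 127) (nat_lit 145))))))))
noncomputable def pc11 : PT := (PT.nd (nat_lit 40560) (PT.nd (nat_lit 1092) (PT.nd (nat_lit 546) (PT.nd (nat_lit 234) (PT.nd (nat_lit 78) (PT.lf (nat_lit 17024) (nat_lit 6) (nat_lit 224) (nat_lit 5) (nat_lit 119) (nat_lit 127) (nat_lit 144)) (PT.nd (nat_lit 78) (PT.lf (nat_lit 18088) (nat_lit 6) (nat_lit 238) (nat_lit 5) (nat_lit 120) (nat_lit 127) (nat_lit 143)) (PT.lf (nat_lit 19076) (nat_lit 6) (nat_lit 251) (nat_lit 5) (nat_lit 121) (nat_lit 127) (nat_lit 142)))) (PT.nd (nat_lit 156) (PT.nd (nat_lit 78) (PT.lf (nat_lit 19988) (nat_lit 6) (nat_lit 263) (nat_lit 5) (nat_lit 122) (nat_lit 127) (nat_lit 141)) (PT.lf (nat_lit 20824) (nat_lit 6) (nat_lit 274) (nat_lit 5) (nat_lit 123) (nat_lit 127) (nat_lit 140))) (PT.nd (nat_lit 78) (PT.lf (nat_lit 21584) (nat_lit 6) (nat_lit 284) (nat_lit 5) (nat_lit 124) (nat_lit 127) (nat_lit 139)) (PT.lf (nat_lit 22268) (nat_lit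 6) (nat_lit 293) (nat_lit 5) (nat_lit 125) (nat_lit 127) (nat_lit 138))))) (PT.nd (nat_lit 234) (PT.nd (nat_lit 78) (PT.lf (nat_lit 22876) (nat_lit 6) (nat_lit 301) (nat_lit 5) (nat_lit 126) (nat_lit 127) (nat_lit 137)) (PT.nd (nat_lit 78) (PT.lf (nat_lit 23408) (nat_lit 3) (nat_lit 308) (nat_lit 3) (nat_lit 127) (nat_lit 127) (nat_lit 136)) (PT.lf (nat_lit 23940) (nat_lit 6) (nat_lit 315) (nat_lit 3) (nat_lit 128) (nat_lit 127) (nat_lit 135)))) (PT.nd (nat_lit 156) (PT.nd (nat_lit 78) (PT.lf (nat_lit 24396) (nat_lit 6) (nat_lit 321) (nat_lit 3) (nat_lit 129) (nat_lit 127) (nat_lit 134)) (PT.lf (nat_lit 24776) (nat_lit 6) (nat_lit 326) (nat_lit 3) (nat_lit 130) (nat_lit 127) (nat_lit 133))) (PT.nd (nat_lit 78) (PT.lf (nat_lit 24852) (nat_lit 6) (nat_lit 327) (nat_lit 3) (nat_lit 131) (nat_lit 127) (nat_lit 132)) (PT.lf (nat_lit 24852) (nat_lit 6) (nat_lit 327) (nat_lit 1) (nat_lit 132) (nat_lit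 127) (nat_lit 131)))))) (PT.nd (nat_lit 546) (PT.nd (nat_lit 234) (PT.nd (nat_lit 78) (PT.lf (nat_lit 24776) (nat_lit 6) (nat_lit 326) (nat_lit 1) (nat_lit 133) (nat_lit 127) (nat_lit 130)) (PT.nd (nat_lit 78) (PT.lf (nat_lit 24396) (nat_lit 6) (nat_lit 321) (nat_lit 1) (nat_lit 134) (nat_lit 127) (nat_lit 129)) (PT.lf (nat_lit 23940) (nat_lit 6) (nat_lit 315) (nat_lit 1) (nat_lit 135) (nat_lit 127) (nat_lit 128)))) (PT.nd (nat_lit 156) (PT.nd (nat_lit 78) (PT.lf (nat_lit 23408) (nat_lit 3) (nat_lit 308) (nat_lit 0) (nat_lit 136) (nat_lit 127) (nat_lit 127)) (PT.lf (nat_lit 22876) (nat_lit 6) (nat_lit 301) (nat_lit 0) (nat_lit 137) (nat_lit 127) (nat_lit 126))) (PT.nd (nat_lit 78) (PT.lf (nat_lit 22268) (nat_lit 6) (nat_lit 293) (nat_lit 0) (nat_lit 138) (nat_lit 127) (nat_lit 125)) (PT.lf (nat_lit 21584) (nat_lit 6) (nat_lit 284) (nat_lit 0) (nat_lit 139) (nat_lit 127) (nat_lit 124))))) (PT.nd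 (nat_lit 312) (PT.nd (nat_lit 156) (PT.nd (nat_lit 78) (PT.lf (nat_lit 20824) (nat_lit 6) (nat_lit 274) (nat_lit 0) (nat_lit 140) (nat_lit 127) (nat_lit 123)) (PT.lf (nat_lit 19988) (nat_lit 6) (nat_lit 263) (nat_lit 0) (nat_lit 141) (nat_lit 127) (nat_lit 122))) (PT.nd (nat_lit 78) (PT.lf (nat_lit 19076) (nat_lit 6) (nat_lit 251) (nat_lit 0) (nat_lit 142) (nat_lit 127) (nat_lit 121)) (PT.lf (nat_lit 18088) (nat_lit 6) (nat_lit 238) (nat_lit 0) (nat_lit 143) (nat_lit 127) (nat_lit 120)))) (PT.nd (nat_lit 38454) (PT.nd (nat_lit 78) (PT.lf (nat_lit 17024) (nat_lit 6) (nat_lit 224) (nat_lit 0) (nat_lit 144) (nat_lit 127) (nat_lit 119)) (PT.lf (nat_lit 15884) (nat_lit 6) (nat_lit 209) (nat_lit 0) (nat_lit 145) (nat_lit 127) (nat_lit 118))) (PT.nd (nat_lit 78) (PT.lf (nat_lit 14744) (nat_lit 6) (nat_lit 194) (nat_lit 5) (nat_lit 116) (nat_lit 128) (nat_lit 146)) (PT.lf (nat_lit 15960) (nat_lit 6) (nat_lit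 210) (nat_lit 5) (nat_lit 117) (nat_lit 128) (nat_lit 145))))))) (PT.nd (nat_lit 1092) (PT.nd (nat_lit 546) (PT.nd (nat_lit 234) (PT.nd (nat_lit 78) (PT.lf (nat_lit 17100) (nat_lit 6) (nat_lit 225) (nat_lit 5) (nat_lit 118) (nat_lit 128) (nat_lit 144)) (PT.nd (nat_lit 78) (PT.lf (nat_lit 18164) (nat_lit 6) (nat_lit 239) (nat_lit 5) (nat_lit 119) (nat_lit 128) (nat_lit 143)) (PT.lf (nat_lit 19152) (nat_lit 6) (nat_lit 252) (nat_lit 5) (nat_lit 120) (nat_lit 128) (nat_lit 142)))) (PT.nd (nat_lit 156) (PT.nd (nat_lit 78) (PT.lf (nat_lit 20064) (nat_lit 6) (nat_lit 264) (nat_lit 5) (nat_lit 121) (nat_lit 128) (nat_lit 141)) (PT.lf (nat_lit 20900) (nat_lit 6) (nat_lit 275) (nat_lit 5) (nat_lit 122) (nat_lit 128) (nat_lit 140))) (PT.nd (nat_lit 78) (PT.lf (nat_lit 21660) (nat_lit 6) (nat_lit 285) (nat_lit 5) (nat_lit 123) (nat_lit 128) (nat_lit 139)) (PT.lf (nat_lit 22344) (nat_lit 6) (nat_lit 294) (nat_lit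 5) (nat_lit 124) (nat_lit 128) (nat_lit 138))))) (PT.nd (nat_lit 234) (PT.nd (nat_lit 78) (PT.lf (nat_lit 22952) (nat_lit 6) (nat_lit 302) (nat_lit 5) (nat_lit 125) (nat_lit 128) (nat_lit 137)) (PT.nd (nat_lit 78) (PT.lf (nat_lit 23484) (nat_lit 6) (nat_lit 309) (nat_lit 5) (nat_lit 126) (nat_lit 128) (nat_lit 136)) (PT.lf (nat_lit 23940) (nat_lit 6) (nat_lit 315) (nat_lit 5) (nat_lit 127) (nat_lit 128) (nat_lit 135)))) (PT.nd (nat_lit 156) (PT.nd (nat_lit 78) (PT.lf (nat_lit 24320) (nat_lit 3) (nat_lit 320) (nat_lit 3) (nat_lit 128) (nat_lit 128) (nat_lit 134)) (PT.lf (nat_lit 24700) (nat_lit 6) (nat_lit 325) (nat_lit 3) (nat_lit 129) (nat_lit 128) (nat_lit 133))) (PT.nd (nat_lit 78) (PT.lf (nat_lit 25004) (nat_lit 6) (nat_lit 329) (nat_lit 3) (nat_lit 130) (nat_lit 128) (nat_lit 132)) (PT.lf (nat_lit 25080) (nat_lit 3) (nat_lit 330) (nat_lit 1) (nat_lit 131) (nat_lit 128) (nat_lit 131)))))) (PT.nd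 (nat_lit 546) (PT.nd (nat_lit 234) (PT.nd (nat_lit 78) (PT.lf (nat_lit 25004) (nat_lit 6) (nat_lit 329) (nat_lit 1) (nat_lit 132) (nat_lit 128) (nat_lit 130)) (PT.nd (nat_lit 78) (PT.lf (nat_lit 24700) (nat_lit 6) (nat_lit 325) (nat_lit 1) (nat_lit 133) (nat_lit 128) (nat_lit 129)) (PT.lf (nat_lit 24320) (nat_lit 3) (nat_lit 320) (nat_lit 0) (nat_lit 134) (nat_lit 128) (nat_lit 128)))) (PT.nd (nat_lit 156) (PT.nd (nat_lit 78) (PT.lf (nat_lit 23940) (nat_lit 6) (nat_lit 315) (nat_lit 0) (nat_lit 135) (nat_lit 128) (nat_lit 127)) (PT.lf (nat_lit 23484) (nat_lit 6) (nat_lit 309) (nat_lit 0) (nat_lit 136) (nat_lit 128) (nat_lit 126))) (PT.nd (nat_lit 78) (PT.lf (nat_lit 22952) (nat_lit 6) (nat_lit 302) (nat_lit 0) (nat_lit 137) (nat_lit 128) (nat_lit 125)) (PT.lf (nat_lit 22344) (nat_lit 6) (nat_lit 294) (nat_lit 0) (nat_lit 138) (nat_lit 128) (nat_lit 124))))) (PT.nd (nat_lit 312) (PT.nd (nat_lit 156)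 (PT.nd (nat_lit 78) (PT.lf (nat_lit 21660) (nat_lit 6) (nat_lit 285) (nat_lit 0) (nat_lit 139) (nat_lit 128) (nat_lit 123)) (PT.lf (nat_lit 20900) (nat_lit 6) (nat_lit 275) (nat_lit 0) (nat_lit 140) (nat_lit 128) (nat_lit 122))) (PT.nd (nat_lit 78) (PT.lf (nat_lit 20064) (nat_lit 6) (nat_lit 264) (nat_lit 0) (nat_lit 141) (nat_lit 128) (nat_lit 121)) (PT.lf (nat_lit 19152) (nat_lit 6) (nat_lit 252) (nat_lit 0) (nat_lit 142) (nat_lit 128) (nat_lit 120)))) (PT.nd (nat_lit 156) (PT.nd (nat_lit 78) (PT.lf (nat_lit 18164) (nat_lit 6) (nat_lit 239) (nat_lit 0) (nat_lit 143) (nat_lit 128) (nat_lit 119)) (PT.lf (nat_lit 17100) (nat_lit 6) (nat_lit 225) (nat_lit 0) (nat_lit 144) (nat_lit 128) (nat_lit 118))) (PT.nd (nat_lit 78) (PT.lf (nat_lit 15960) (nat_lit 6) (nat_lit 210) (nat_lit 0) (nat_lit 145) (nat_lit 128) (nat_lit 117)) (PT.lf (nat_lit 14744) (nat_lit 6) (nat_lit 194) (nat_lit 0) (nat_lit 146)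 (nat_lit 128) (nat_lit 116))))))))
noncomputable def pc12 : PT := (PT.nd (nat_lit 2262) (PT.nd (nat_lit 1092) (PT.nd (nat_lit 546) (PT.nd (nat_lit 234) (PT.nd (nat_lit 78) (PT.lf (nat_lit 14820) (nat_lit 6) (nat_lit 195) (nat_lit 5) (nat_lit 115) (nat_lit 129) (nat_lit 146)) (PT.nd (nat_lit 78) (PT.lf (nat_lit 16036) (nat_lit 6) (nat_lit 211) (nat_lit 5) (nat_lit 116) (nat_lit 129) (nat_lit 145)) (PT.lf (nat_lit 17176) (nat_lit 6) (nat_lit 226) (nat_lit 5) (nat_lit 117) (nat_lit 129) (nat_lit 144)))) (PT.nd (nat_lit 156) (PT.nd (nat_lit 78) (PT.lf (nat_lit 18240) (nat_lit 6) (nat_lit 240) (nat_lit 5) (nat_lit 118) (nat_lit 129) (nat_lit 143)) (PT.lf (nat_lit 19228) (nat_lit 6) (nat_lit 253) (nat_lit 5) (nat_lit 119) (nat_lit 129) (nat_lit 142))) (PT.nd (nat_lit 78) (PT.lf (nat_lit 20140) (nat_lit 6) (nat_lit 265) (nat_lit 5) (nat_lit 120) (nat_lit 129) (nat_lit 141)) (PT.lf (nat_lit 20976) (nat_lit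 6) (nat_lit 276) (nat_lit 5) (nat_lit 121) (nat_lit 129) (nat_lit 140))))) (PT.nd (nat_lit 234) (PT.nd (nat_lit 78) (PT.lf (nat_lit 21736) (nat_lit 6) (nat_lit 286) (nat_lit 5) (nat_lit 122) (nat_lit 129) (nat_lit 139)) (PT.nd (nat_lit 78) (PT.lf (nat_lit 22420) (nat_lit 6) (nat_lit 295) (nat_lit 5) (nat_lit 123) (nat_lit 129) (nat_lit 138)) (PT.lf (nat_lit 23028) (nat_lit 6) (nat_lit 303) (nat_lit 5) (nat_lit 124) (nat_lit 129) (nat_lit 137)))) (PT.nd (nat_lit 156) (PT.nd (nat_lit 78) (PT.lf (nat_lit 23560) (nat_lit 6) (nat_lit 310) (nat_lit 5) (nat_lit 125) (nat_lit 129) (nat_lit 136)) (PT.lf (nat_lit 24016) (nat_lit 6) (nat_lit 316) (nat_lit 5) (nat_lit 126) (nat_lit 129) (nat_lit 135))) (PT.nd (nat_lit 78) (PT.lf (nat_lit 24396) (nat_lit 6) (nat_lit 321) (nat_lit 5) (nat_lit 127) (nat_lit 129) (nat_lit 134)) (PT.lf (nat_lit 24700) (nat_lit 6) (nat_lit 325) (nat_lit 5) (nat_lit 128) (nat_lit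 129) (nat_lit 133)))))) (PT.nd (nat_lit 546) (PT.nd (nat_lit 234) (PT.nd (nat_lit 78) (PT.lf (nat_lit 24928) (nat_lit 3) (nat_lit 328) (nat_lit 3) (nat_lit 129) (nat_lit 129) (nat_lit 132)) (PT.nd (nat_lit 78) (PT.lf (nat_lit 25156) (nat_lit 6) (nat_lit 331) (nat_lit 3) (nat_lit 130) (nat_lit 129) (nat_lit 131)) (PT.lf (nat_lit 25156) (nat_lit 6) (nat_lit 331) (nat_lit 1) (nat_lit 131) (nat_lit 129) (nat_lit 130)))) (PT.nd (nat_lit 156) (PT.nd (nat_lit 78) (PT.lf (nat_lit 24928) (nat_lit 3) (nat_lit 328) (nat_lit 0) (nat_lit 132) (nat_lit 129) (nat_lit 129)) (PT.lf (nat_lit 24700) (nat_lit 6) (nat_lit 325) (nat_lit 0) (nat_lit 133) (nat_lit 129) (nat_lit 128))) (PT.nd (nat_lit 78) (PT.lf (nat_lit 24396) (nat_lit 6) (nat_lit 321) (nat_lit 0) (nat_lit 134) (nat_lit 129) (nat_lit 127)) (PT.lf (nat_lit 24016) (nat_lit 6) (nat_lit 316) (nat_lit 0) (nat_lit 135) (nat_lit 129) (nat_lit 126))))) (PT.nd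 (nat_lit 312) (PT.nd (nat_lit 156) (PT.nd (nat_lit 78) (PT.lf (nat_lit 23560) (nat_lit 6) (nat_lit 310) (nat_lit 0) (nat_lit 136) (nat_lit 129) (nat_lit 125)) (PT.lf (nat_lit 23028) (nat_lit 6) (nat_lit 303) (nat_lit 0) (nat_lit 137) (nat_lit 129) (nat_lit 124))) (PT.nd (nat_lit 78) (PT.lf (nat_lit 22420) (nat_lit 6) (nat_lit 295) (nat_lit 0) (nat_lit 138) (nat_lit 129) (nat_lit 123)) (PT.lf (nat_lit 21736) (nat_lit 6) (nat_lit 286) (nat_lit 0) (nat_lit 139) (nat_lit 129) (nat_lit 122)))) (PT.nd (nat_lit 156) (PT.nd (nat_lit 78) (PT.lf (nat_lit 20976) (nat_lit 6) (nat_lit 276) (nat_lit 0) (nat_lit 140) (nat_lit 129) (nat_lit 121)) (PT.lf (nat_lit 20140) (nat_lit 6) (nat_lit 265) (nat_lit 0) (nat_lit 141) (nat_lit 129) (nat_lit 120))) (PT.nd (nat_lit 78) (PT.lf (nat_lit 19228) (nat_lit 6) (nat_lit 253) (nat_lit 0) (nat_lit 142) (nat_lit 129) (nat_lit 119)) (PT.lf (nat_lit 18240) (nat_lit 6) (nat_lit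 240) (nat_lit 0) (nat_lit 143) (nat_lit 129) (nat_lit 118))))))) (PT.nd (nat_lit 39156) (PT.nd (nat_lit 38610) (PT.nd (nat_lit 38298) (PT.nd (nat_lit 78) (PT.lf (nat_lit 17176) (nat_lit 6) (nat_lit 226) (nat_lit 0) (nat_lit 144) (nat_lit 129) (nat_lit 117)) (PT.nd (nat_lit 78) (PT.lf (nat_lit 16036) (nat_lit 6) (nat_lit 211) (nat_lit 0) (nat_lit 145) (nat_lit 129) (nat_lit 116)) (PT.lf (nat_lit 14820) (nat_lit 6) (nat_lit 195) (nat_lit 0) (nat_lit 146) (nat_lit 129) (nat_lit 115)))) (PT.nd (nat_lit 156) (PT.nd (nat_lit 78) (PT.lf (nat_lit 14896) (nat_lit 6) (nat_lit 196) (nat_lit 5) (nat_lit 114) (nat_lit 130) (nat_lit 146)) (PT.lf (nat_lit 16112) (nat_lit 6) (nat_lit 212) (nat_lit 5) (nat_lit 115) (nat_lit 130) (nat_lit 145))) (PT.nd (nat_lit 78) (PT.lf (nat_lit 17252) (nat_lit 6) (nat_lit 227) (nat_lit 5) (nat_lit 116) (nat_lit 130) (nat_lit 144)) (PT.lf (nat_lit 18316) (nat_lit 6) (nat_lit 241)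 (nat_lit 5) (nat_lit 117) (nat_lit 130) (nat_lit 143))))) (PT.nd (nat_lit 234) (PT.nd (nat_lit 78) (PT.lf (nat_lit 19304) (nat_lit 6) (nat_lit 254) (nat_lit 5) (nat_lit 118) (nat_lit 130) (nat_lit 142)) (PT.nd (nat_lit 78) (PT.lf (nat_lit 20216) (nat_lit 6) (nat_lit 266) (nat_lit 5) (nat_lit 119) (nat_lit 130) (nat_lit 141)) (PT.lf (nat_lit 21052) (nat_lit 6) (nat_lit 277) (nat_lit 5) (nat_lit 120) (nat_lit 130) (nat_lit 140)))) (PT.nd (nat_lit 156) (PT.nd (nat_lit 78) (PT.lf (nat_lit 21812) (nat_lit 6) (nat_lit 287) (nat_lit 5) (nat_lit 121) (nat_lit 130) (nat_lit 139)) (PT.lf (nat_lit 22496) (nat_lit 6) (nat_lit 296) (nat_lit 5) (nat_lit 122) (nat_lit 130) (nat_lit 138))) (PT.nd (nat_lit 78) (PT.lf (nat_lit 23104) (nat_lit 6) (nat_lit 304) (nat_lit 5) (nat_lit 123) (nat_lit 130) (nat_lit 137)) (PT.lf (nat_lit 23636) (nat_lit 6) (nat_lit 311) (nat_lit 5) (nat_lit 124) (nat_lit 130) (nat_lit 136))))))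 (PT.nd (nat_lit 546) (PT.nd (nat_lit 234) (PT.nd (nat_lit 78) (PT.lf (nat_lit 24092) (nat_lit 6) (nat_lit 317) (nat_lit 5) (nat_lit 125) (nat_lit 130) (nat_lit 135)) (PT.nd (nat_lit 78) (PT.lf (nat_lit 24472) (nat_lit 6) (nat_lit 322) (nat_lit 5) (nat_lit 126) (nat_lit 130) (nat_lit 134)) (PT.lf (nat_lit 24776) (nat_lit 6) (nat_lit 326) (nat_lit 5) (nat_lit 127) (nat_lit 130) (nat_lit 133)))) (PT.nd (nat_lit 156) (PT.nd (nat_lit 78) (PT.lf (nat_lit 25004) (nat_lit 6) (nat_lit 329) (nat_lit 5) (nat_lit 128) (nat_lit 130) (nat_lit 132)) (PT.lf (nat_lit 25156) (nat_lit 6) (nat_lit 331) (nat_lit 5) (nat_lit 129) (nat_lit 130) (nat_lit 131))) (PT.nd (nat_lit 78) (PT.lf (nat_lit 25232) (nat_lit 1) (nat_lit 332) (nat_lit 0) (nat_lit 130) (nat_lit 130) (nat_lit 130)) (PT.lf (nat_lit 25156) (nat_lit 6) (nat_lit 331) (nat_lit 0) (nat_lit 131) (nat_lit 130) (nat_lit 129))))) (PT.nd (nat_lit 312) (PT.nd (nat_lit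 156) (PT.nd (nat_lit 78) (PT.lf (nat_lit 25004) (nat_lit 6) (nat_lit 329) (nat_lit 0) (nat_lit 132) (nat_lit 130) (nat_lit 128)) (PT.lf (nat_lit 24776) (nat_lit 6) (nat_lit 326) (nat_lit 0) (nat_lit 133) (nat_lit 130) (nat_lit 127))) (PT.nd (nat_lit 78) (PT.lf (nat_lit 24472) (nat_lit 6) (nat_lit 322) (nat_lit 0) (nat_lit 134) (nat_lit 130) (nat_lit 126)) (PT.lf (nat_lit 24092) (nat_lit 6) (nat_lit 317) (nat_lit 0) (nat_lit 135) (nat_lit 130) (nat_lit 125)))) (PT.nd (nat_lit 156) (PT.nd (nat_lit 78) (PT.lf (nat_lit 23636) (nat_lit 6) (nat_lit 311) (nat_lit 0) (nat_lit 136) (nat_lit 130) (nat_lit 124)) (PT.lf (nat_lit 23104) (nat_lit 6) (nat_lit 304) (nat_lit 0) (nat_lit 137) (nat_lit 130) (nat_lit 123))) (PT.nd (nat_lit 78) (PT.lf (nat_lit 22496) (nat_lit 6) (nat_lit 296) (nat_lit 0) (nat_lit 138) (nat_lit 130) (nat_lit 122)) (PT.lf (nat_lit 21812) (nat_lit 6) (nat_lit 287) (nat_lit 0) (nat_lit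 139) (nat_lit 130) (nat_lit 121))))))))
noncomputable def pc13 : PT := (PT.nd (nat_lit 40248) (PT.nd (nat_lit 39078) (PT.nd (nat_lit 38532) (PT.nd (nat_lit 234) (PT.nd (nat_lit 78) (PT.lf (nat_lit 21052) (nat_lit 6) (nat_lit 277) (nat_lit 0) (nat_lit 140) (nat_lit 130) (nat_lit 120)) (PT.nd (nat_lit 78) (PT.lf (nat_lit 20216) (nat_lit 6) (nat_lit 266) (nat_lit 0) (nat_lit 141) (nat_lit 130) (nat_lit 119)) (PT.lf (nat_lit 19304) (nat_lit 6) (nat_lit 254) (nat_lit 0) (nat_lit 142) (nat_lit 130) (nat_lit 118)))) (PT.nd (nat_lit 156) (PT.nd (nat_lit 78) (PT.lf (nat_lit 18316) (nat_lit 6) (nat_lit 241) (nat_lit 0) (nat_lit 143) (nat_lit 130) (nat_lit 117)) (PT.lf (nat_lit 17252) (nat_lit 6) (nat_lit 227) (nat_lit 0) (nat_lit 144) (nat_lit 130) (nat_lit 116))) (PT.nd (nat_lit 78) (PT.lf (nat_lit 16112) (nat_lit 6) (nat_lit 212) (nat_lit 0) (nat_lit 145) (nat_lit 130) (nat_lit 115)) (PT.lf (nat_lit 14896)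 (nat_lit 6) (nat_lit 196) (nat_lit 0) (nat_lit 146) (nat_lit 130) (nat_lit 114))))) (PT.nd (nat_lit 234) (PT.nd (nat_lit 78) (PT.lf (nat_lit 14136) (nat_lit 6) (nat_lit 186) (nat_lit 5) (nat_lit 113) (nat_lit 131) (nat_lit 146)) (PT.nd (nat_lit 78) (PT.lf (nat_lit 14972) (nat_lit 6) (nat_lit 197) (nat_lit 5) (nat_lit 114) (nat_lit 131) (nat_lit 145)) (PT.lf (nat_lit 16188) (nat_lit 6) (nat_lit 213) (nat_lit 5) (nat_lit 115) (nat_lit 131) (nat_lit 144)))) (PT.nd (nat_lit 156) (PT.nd (nat_lit 78) (PT.lf (nat_lit 17328) (nat_lit 6) (nat_lit 228) (nat_lit 5) (nat_lit 116) (nat_lit 131) (nat_lit 143)) (PT.lf (nat_lit 18392) (nat_lit 6) (nat_lit 242) (nat_lit 5) (nat_lit 117) (nat_lit 131) (nat_lit 142))) (PT.nd (nat_lit 78) (PT.lf (nat_lit 19380) (nat_lit 6) (nat_lit 255) (nat_lit 5) (nat_lit 118) (nat_lit 131) (nat_lit 141)) (PT.lf (nat_lit 20292) (nat_lit 6) (nat_lit 267) (nat_lit 5) (nat_lit 119)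 (nat_lit 131) (nat_lit 140)))))) (PT.nd (nat_lit 546) (PT.nd (nat_lit 234) (PT.nd (nat_lit 78) (PT.lf (nat_lit 21128) (nat_lit 6) (nat_lit 278) (nat_lit 5) (nat_lit 120) (nat_lit 131) (nat_lit 139)) (PT.nd (nat_lit 78) (PT.lf (nat_lit 21888) (nat_lit 6) (nat_lit 288) (nat_lit 5) (nat_lit 121) (nat_lit 131) (nat_lit 138)) (PT.lf (nat_lit 22572) (nat_lit 6) (nat_lit 297) (nat_lit 5) (nat_lit 122) (nat_lit 131) (nat_lit 137)))) (PT.nd (nat_lit 156) (PT.nd (nat_lit 78) (PT.lf (nat_lit 23180) (nat_lit 6) (nat_lit 305) (nat_lit 5) (nat_lit 123) (nat_lit 131) (nat_lit 136)) (PT.lf (nat_lit 23712) (nat_lit 6) (nat_lit 312) (nat_lit 5) (nat_lit 124) (nat_lit 131) (nat_lit 135))) (PT.nd (nat_lit 78) (PT.lf (nat_lit 24168) (nat_lit 6) (nat_lit 318) (nat_lit 5) (nat_lit 125) (nat_lit 131) (nat_lit 134)) (PT.lf (nat_lit 24548) (nat_lit 6) (nat_lit 323) (nat_lit 5) (nat_lit 126) (nat_lit 131) (nat_lit 133)))))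 (PT.nd (nat_lit 312) (PT.nd (nat_lit 156) (PT.nd (nat_lit 78) (PT.lf (nat_lit 24852) (nat_lit 6) (nat_lit 327) (nat_lit 5) (nat_lit 127) (nat_lit 131) (nat_lit 132)) (PT.lf (nat_lit 25080) (nat_lit 3) (nat_lit 330) (nat_lit 4) (nat_lit 128) (nat_lit 131) (nat_lit 131))) (PT.nd (nat_lit 78) (PT.lf (nat_lit 25156) (nat_lit 6) (nat_lit 331) (nat_lit 4) (nat_lit 129) (nat_lit 131) (nat_lit 130)) (PT.lf (nat_lit 25156) (nat_lit 6) (nat_lit 331) (nat_lit 2) (nat_lit 130) (nat_lit 131) (nat_lit 129)))) (PT.nd (nat_lit 156) (PT.nd (nat_lit 78) (PT.lf (nat_lit 25080) (nat_lit 3) (nat_lit 330) (nat_lit 0) (nat_lit 131) (nat_lit 131) (nat_lit 128)) (PT.lf (nat_lit 24852) (nat_lit 6) (nat_lit 327) (nat_lit 0) (nat_lit 132) (nat_lit 131) (nat_lit 127))) (PT.nd (nat_lit 78) (PT.lf (nat_lit 24548) (nat_lit 6) (nat_lit 323) (nat_lit 0) (nat_lit 133) (nat_lit 131) (nat_lit 126)) (PT.lf (nat_lit 24168) (nat_lit 6)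 (nat_lit 318) (nat_lit 0) (nat_lit 134) (nat_lit 131) (nat_lit 125))))))) (PT.nd (nat_lit 39000) (PT.nd (nat_lit 546) (PT.nd (nat_lit 234) (PT.nd (nat_lit 78) (PT.lf (nat_lit 23712) (nat_lit 6) (nat_lit 312) (nat_lit 0) (nat_lit 135) (nat_lit 131) (nat_lit 124)) (PT.nd (nat_lit 78) (PT.lf (nat_lit 23180) (nat_lit 6) (nat_lit 305) (nat_lit 0) (nat_lit 136) (nat_lit 131) (nat_lit 123)) (PT.lf (nat_lit 22572) (nat_lit 6) (nat_lit 297) (nat_lit 0) (nat_lit 137) (nat_lit 131) (nat_lit 122)))) (PT.nd (nat_lit 156) (PT.nd (nat_lit 78) (PT.lf (nat_lit 21888) (nat_lit 6) (nat_lit 288) (nat_lit 0) (nat_lit 138) (nat_lit 131) (nat_lit 121)) (PT.lf (nat_lit 21128) (nat_lit 6) (nat_lit 278) (nat_lit 0) (nat_lit 139) (nat_lit 131) (nat_lit 120))) (PT.nd (nat_lit 78) (PT.lf (nat_lit 20292) (nat_lit 6) (nat_lit 267) (nat_lit 0) (nat_lit 140) (nat_lit 131) (nat_lit 119)) (PT.lf (nat_lit 19380) (nat_lit 6) (nat_lit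 255) (nat_lit 0) (nat_lit 141) (nat_lit 131) (nat_lit 118))))) (PT.nd (nat_lit 234) (PT.nd (nat_lit 78) (PT.lf (nat_lit 18392) (nat_lit 6) (nat_lit 242) (nat_lit 0) (nat_lit 142) (nat_lit 131) (nat_lit 117)) (PT.nd (nat_lit 78) (PT.lf (nat_lit 17328) (nat_lit 6) (nat_lit 228) (nat_lit 0) (nat_lit 143) (nat_lit 131) (nat_lit 116)) (PT.lf (nat_lit 16188) (nat_lit 6) (nat_lit 213) (nat_lit 0) (nat_lit 144) (nat_lit 131) (nat_lit 115)))) (PT.nd (nat_lit 38064) (PT.nd (nat_lit 78) (PT.lf (nat_lit 14972) (nat_lit 6) (nat_lit 197) (nat_lit 0) (nat_lit 145) (nat_lit 131) (nat_lit 114)) (PT.lf (nat_lit 14136) (nat_lit 6) (nat_lit 186) (nat_lit 0) (nat_lit 146) (nat_lit 131) (nat_lit 113))) (PT.nd (nat_lit 78) (PT.lf (nat_lit 13528) (nat_lit 6) (nat_lit 178) (nat_lit 5) (nat_lit 112) (nat_lit 132) (nat_lit 146)) (PT.lf (nat_lit 14212) (nat_lit 6) (nat_lit 187) (nat_lit 5) (nat_lit 113) (nat_lit 132) (nat_lit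 145)))))) (PT.nd (nat_lit 546) (PT.nd (nat_lit 234) (PT.nd (nat_lit 78) (PT.lf (nat_lit 15048) (nat_lit 6) (nat_lit 198) (nat_lit 5) (nat_lit 114) (nat_lit 132) (nat_lit 144)) (PT.nd (nat_lit 78) (PT.lf (nat_lit 16264) (nat_lit 6) (nat_lit 214) (nat_lit 5) (nat_lit 115) (nat_lit 132) (nat_lit 143)) (PT.lf (nat_lit 17404) (nat_lit 6) (nat_lit 229) (nat_lit 5) (nat_lit 116) (nat_lit 132) (nat_lit 142)))) (PT.nd (nat_lit 156) (PT.nd (nat_lit 78) (PT.lf (nat_lit 18468) (nat_lit 6) (nat_lit 243) (nat_lit 5) (nat_lit 117) (nat_lit 132) (nat_lit 141)) (PT.lf (nat_lit 19456) (nat_lit 6) (nat_lit 256) (nat_lit 5) (nat_lit 118) (nat_lit 132) (nat_lit 140))) (PT.nd (nat_lit 78) (PT.lf (nat_lit 20368) (nat_lit 6) (nat_lit 268) (nat_lit 5) (nat_lit 119) (nat_lit 132) (nat_lit 139)) (PT.lf (nat_lit 21204) (nat_lit 6) (nat_lit 279) (nat_lit 5) (nat_lit 120) (nat_lit 132) (nat_lit 138))))) (PT.nd (nat_lit 312)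 (PT.nd (nat_lit 156) (PT.nd (nat_lit 78) (PT.lf (nat_lit 21964) (nat_lit 6) (nat_lit 289) (nat_lit 5) (nat_lit 121) (nat_lit 132) (nat_lit 137)) (PT.lf (nat_lit 22648) (nat_lit 6) (nat_lit 298) (nat_lit 5) (nat_lit 122) (nat_lit 132) (nat_lit 136))) (PT.nd (nat_lit 78) (PT.lf (nat_lit 23256) (nat_lit 6) (nat_lit 306) (nat_lit 5) (nat_lit 123) (nat_lit 132) (nat_lit 135)) (PT.lf (nat_lit 23788) (nat_lit 6) (nat_lit 313) (nat_lit 5) (nat_lit 124) (nat_lit 132) (nat_lit 134)))) (PT.nd (nat_lit 156) (PT.nd (nat_lit 78) (PT.lf (nat_lit 24244) (nat_lit 6) (nat_lit 319) (nat_lit 5) (nat_lit 125) (nat_lit 132) (nat_lit 133)) (PT.lf (nat_lit 24624) (nat_lit 3) (nat_lit 324) (nat_lit 4) (nat_lit 126) (nat_lit 132) (nat_lit 132))) (PT.nd (nat_lit 78) (PT.lf (nat_lit 24852) (nat_lit 6) (nat_lit 327) (nat_lit 4) (nat_lit 127) (nat_lit 132) (nat_lit 131)) (PT.lf (nat_lit 25004) (nat_lit 6) (nat_lit 329) (nat_lit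 4) (nat_lit 128) (nat_lit 132) (nat_lit 130))))))))
noncomputable def pc14 : PT := (PT.nd (nat_lit 40014) (PT.nd (nat_lit 1092) (PT.nd (nat_lit 546) (PT.nd (nat_lit 234) (PT.nd (nat_lit 78) (PT.lf (nat_lit 24928) (nat_lit 3) (nat_lit 328) (nat_lit 2) (nat_lit 129) (nat_lit 132) (nat_lit 129)) (PT.nd (nat_lit 78) (PT.lf (nat_lit 25004) (nat_lit 6) (nat_lit 329) (nat_lit 2) (nat_lit 130) (nat_lit 132) (nat_lit 128)) (PT.lf (nat_lit 24852) (nat_lit 6) (nat_lit 327) (nat_lit 2) (nat_lit 131) (nat_lit 132) (nat_lit 127)))) (PT.nd (nat_lit 156) (PT.nd (nat_lit 78) (PT.lf (nat_lit 24624) (nat_lit 3) (nat_lit 324) (nat_lit 0) (nat_lit 132) (nat_lit 132) (nat_lit 126)) (PT.lf (nat_lit 24244) (nat_lit 6) (nat_lit 319) (nat_lit 0) (nat_lit 133) (nat_lit 132) (nat_lit 125))) (PT.nd (nat_lit 78) (PT.lf (nat_lit 23788) (nat_lit 6) (nat_lit 313) (nat_lit 0) (nat_lit 134) (nat_lit 132) (nat_lit 124)) (PT.lf (nat_lit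 23256) (nat_lit 6) (nat_lit 306) (nat_lit 0) (nat_lit 135) (nat_lit 132) (nat_lit 123))))) (PT.nd (nat_lit 234) (PT.nd (nat_lit 78) (PT.lf (nat_lit 22648) (nat_lit 6) (nat_lit 298) (nat_lit 0) (nat_lit 136) (nat_lit 132) (nat_lit 122)) (PT.nd (nat_lit 78) (PT.lf (nat_lit 21964) (nat_lit 6) (nat_lit 289) (nat_lit 0) (nat_lit 137) (nat_lit 132) (nat_lit 121)) (PT.lf (nat_lit 21204) (nat_lit 6) (nat_lit 279) (nat_lit 0) (nat_lit 138) (nat_lit 132) (nat_lit 120)))) (PT.nd (nat_lit 156) (PT.nd (nat_lit 78) (PT.lf (nat_lit 20368) (nat_lit 6) (nat_lit 268) (nat_lit 0) (nat_lit 139) (nat_lit 132) (nat_lit 119)) (PT.lf (nat_lit 19456) (nat_lit 6) (nat_lit 256) (nat_lit 0) (nat_lit 140) (nat_lit 132) (nat_lit 118))) (PT.nd (nat_lit 78) (PT.lf (nat_lit 18468) (nat_lit 6) (nat_lit 243) (nat_lit 0) (nat_lit 141) (nat_lit 132) (nat_lit 117)) (PT.lf (nat_lit 17404) (nat_lit 6) (nat_lit 229) (nat_lit 0) (nat_lit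 142) (nat_lit 132) (nat_lit 116)))))) (PT.nd (nat_lit 38298) (PT.nd (nat_lit 234) (PT.nd (nat_lit 78) (PT.lf (nat_lit 16264) (nat_lit 6) (nat_lit 214) (nat_lit 0) (nat_lit 143) (nat_lit 132) (nat_lit 115)) (PT.nd (nat_lit 78) (PT.lf (nat_lit 15048) (nat_lit 6) (nat_lit 198) (nat_lit 0) (nat_lit 144) (nat_lit 132) (nat_lit 114)) (PT.lf (nat_lit 14212) (nat_lit 6) (nat_lit 187) (nat_lit 0) (nat_lit 145) (nat_lit 132) (nat_lit 113)))) (PT.nd (nat_lit 37908) (PT.nd (nat_lit 37830) (PT.lf (nat_lit 13528) (nat_lit 6) (nat_lit 178) (nat_lit 0) (nat_lit 146) (nat_lit 132) (nat_lit 112)) (PT.lf (nat_lit 12388) (nat_lit 6) (nat_lit 163) (nat_lit 5) (nat_lit 110) (nat_lit 133) (nat_lit 147))) (PT.nd (nat_lit 78) (PT.lf (nat_lit 12996) (nat_lit 6) (nat_lit 171) (nat_lit 5) (nat_lit 111) (nat_lit 133) (nat_lit 146)) (PT.lf (nat_lit 13604) (nat_lit 6) (nat_lit 179) (nat_lit 5) (nat_lit 112) (nat_lit 133) (nat_lit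 145))))) (PT.nd (nat_lit 312) (PT.nd (nat_lit 156) (PT.nd (nat_lit 78) (PT.lf (nat_lit 14288) (nat_lit 6) (nat_lit 188) (nat_lit 5) (nat_lit 113) (nat_lit 133) (nat_lit 144)) (PT.lf (nat_lit 15124) (nat_lit 6) (nat_lit 199) (nat_lit 5) (nat_lit 114) (nat_lit 133) (nat_lit 143))) (PT.nd (nat_lit 78) (PT.lf (nat_lit 16340) (nat_lit 6) (nat_lit 215) (nat_lit 5) (nat_lit 115) (nat_lit 133) (nat_lit 142)) (PT.lf (nat_lit 17480) (nat_lit 6) (nat_lit 230) (nat_lit 5) (nat_lit 116) (nat_lit 133) (nat_lit 141)))) (PT.nd (nat_lit 156) (PT.nd (nat_lit 78) (PT.lf (nat_lit 18544) (nat_lit 6) (nat_lit 244) (nat_lit 5) (nat_lit 117) (nat_lit 133) (nat_lit 140)) (PT.lf (nat_lit 19532) (nat_lit 6) (nat_lit 257) (nat_lit 5) (nat_lit 118) (nat_lit 133) (nat_lit 139))) (PT.nd (nat_lit 78) (PT.lf (nat_lit 20444) (nat_lit 6) (nat_lit 269) (nat_lit 5) (nat_lit 119) (nat_lit 133) (nat_lit 138)) (PT.lf (nat_lit 21280) (nat_lit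 6) (nat_lit 280) (nat_lit 5) (nat_lit 120) (nat_lit 133) (nat_lit 137))))))) (PT.nd (nat_lit 1092) (PT.nd (nat_lit 546) (PT.nd (nat_lit 234) (PT.nd (nat_lit 78) (PT.lf (nat_lit 22040) (nat_lit 6) (nat_lit 290) (nat_lit 5) (nat_lit 121) (nat_lit 133) (nat_lit 136)) (PT.nd (nat_lit 78) (PT.lf (nat_lit 22724) (nat_lit 6) (nat_lit 299) (nat_lit 5) (nat_lit 122) (nat_lit 133) (nat_lit 135)) (PT.lf (nat_lit 23332) (nat_lit 6) (nat_lit 307) (nat_lit 5) (nat_lit 123) (nat_lit 133) (nat_lit 134)))) (PT.nd (nat_lit 156) (PT.nd (nat_lit 78) (PT.lf (nat_lit 23864) (nat_lit 3) (nat_lit 314) (nat_lit 4) (nat_lit 124) (nat_lit 133) (nat_lit 133)) (PT.lf (nat_lit 24244) (nat_lit 6) (nat_lit 319) (nat_lit 4) (nat_lit 125) (nat_lit 133) (nat_lit 132))) (PT.nd (nat_lit 78) (PT.lf (nat_lit 24548) (nat_lit 6) (nat_lit 323) (nat_lit 4) (nat_lit 126) (nat_lit 133) (nat_lit 131)) (PT.lf (nat_lit 24776) (nat_lit 6) (nat_lit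 326) (nat_lit 4) (nat_lit 127) (nat_lit 133) (nat_lit 130))))) (PT.nd (nat_lit 234) (PT.nd (nat_lit 78) (PT.lf (nat_lit 24700) (nat_lit 6) (nat_lit 325) (nat_lit 4) (nat_lit 128) (nat_lit 133) (nat_lit 129)) (PT.nd (nat_lit 78) (PT.lf (nat_lit 24700) (nat_lit 6) (nat_lit 325) (nat_lit 2) (nat_lit 129) (nat_lit 133) (nat_lit 128)) (PT.lf (nat_lit 24776) (nat_lit 6) (nat_lit 326) (nat_lit 2) (nat_lit 130) (nat_lit 133) (nat_lit 127)))) (PT.nd (nat_lit 156) (PT.nd (nat_lit 78) (PT.lf (nat_lit 24548) (nat_lit 6) (nat_lit 323) (nat_lit 2) (nat_lit 131) (nat_lit 133) (nat_lit 126)) (PT.lf (nat_lit 24244) (nat_lit 6) (nat_lit 319) (nat_lit 2) (nat_lit 132) (nat_lit 133) (nat_lit 125))) (PT.nd (nat_lit 78) (PT.lf (nat_lit 23864) (nat_lit 3) (nat_lit 314) (nat_lit 0) (nat_lit 133) (nat_lit 133) (nat_lit 124)) (PT.lf (nat_lit 23332) (nat_lit 6) (nat_lit 307) (nat_lit 0) (nat_lit 134) (nat_lit 133) (nat_lit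 123)))))) (PT.nd (nat_lit 546) (PT.nd (nat_lit 234) (PT.nd (nat_lit 78) (PT.lf (nat_lit 22724) (nat_lit 6) (nat_lit 299) (nat_lit 0) (nat_lit 135) (nat_lit 133) (nat_lit 122)) (PT.nd (nat_lit 78) (PT.lf (nat_lit 22040) (nat_lit 6) (nat_lit 290) (nat_lit 0) (nat_lit 136) (nat_lit 133) (nat_lit 121)) (PT.lf (nat_lit 21280) (nat_lit 6) (nat_lit 280) (nat_lit 0) (nat_lit 137) (nat_lit 133) (nat_lit 120)))) (PT.nd (nat_lit 156) (PT.nd (nat_lit 78) (PT.lf (nat_lit 20444) (nat_lit 6) (nat_lit 269) (nat_lit 0) (nat_lit 138) (nat_lit 133) (nat_lit 119)) (PT.lf (nat_lit 19532) (nat_lit 6) (nat_lit 257) (nat_lit 0) (nat_lit 139) (nat_lit 133) (nat_lit 118))) (PT.nd (nat_lit 78) (PT.lf (nat_lit 18544) (nat_lit 6) (nat_lit 244) (nat_lit 0) (nat_lit 140) (nat_lit 133) (nat_lit 117)) (PT.lf (nat_lit 17480) (nat_lit 6) (nat_lit 230) (nat_lit 0) (nat_lit 141) (nat_lit 133) (nat_lit 116))))) (PT.nd (nat_lit 312)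 (PT.nd (nat_lit 156) (PT.nd (nat_lit 78) (PT.lf (nat_lit 16340) (nat_lit 6) (nat_lit 215) (nat_lit 0) (nat_lit 142) (nat_lit 133) (nat_lit 115)) (PT.lf (nat_lit 15124) (nat_lit 6) (nat_lit 199) (nat_lit 0) (nat_lit 143) (nat_lit 133) (nat_lit 114))) (PT.nd (nat_lit 78) (PT.lf (nat_lit 14288) (nat_lit 6) (nat_lit 188) (nat_lit 0) (nat_lit 144) (nat_lit 133) (nat_lit 113)) (PT.lf (nat_lit 13604) (nat_lit 6) (nat_lit 179) (nat_lit 0) (nat_lit 145) (nat_lit 133) (nat_lit 112)))) (PT.nd (nat_lit 37752) (PT.nd (nat_lit 78) (PT.lf (nat_lit 12996) (nat_lit 6) (nat_lit 171) (nat_lit 0) (nat_lit 146) (nat_lit 133) (nat_lit 111)) (PT.lf (nat_lit 12388) (nat_lit 6) (nat_lit 163) (nat_lit 0) (nat_lit 147) (nat_lit 133) (nat_lit 110))) (PT.nd (nat_lit 78) (PT.lf (nat_lit 11856) (nat_lit 6) (nat_lit 156) (nat_lit 5) (nat_lit 109) (nat_lit 134) (nat_lit 147)) (PT.lf (nat_lit 12464) (nat_lit 6) (nat_lit 164) (nat_lit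 5) (nat_lit 110) (nat_lit 134) (nat_lit 146))))))))
noncomputable def pc15 : PT := (PT.nd (nat_lit 2262) (PT.nd (nat_lit 1092) (PT.nd (nat_lit 546) (PT.nd (nat_lit 234) (PT.nd (nat_lit 78) (PT.lf (nat_lit 13072) (nat_lit 6) (nat_lit 172) (nat_lit 5) (nat_lit 111) (nat_lit 134) (nat_lit 145)) (PT.nd (nat_lit 78) (PT.lf (nat_lit 13680) (nat_lit 6) (nat_lit 180) (nat_lit 5) (nat_lit 112) (nat_lit 134) (nat_lit 144)) (PT.lf (nat_lit 14364) (nat_lit 6) (nat_lit 189) (nat_lit 5) (nat_lit 113) (nat_lit 134) (nat_lit 143)))) (PT.nd (nat_lit 156) (PT.nd (nat_lit 78) (PT.lf (nat_lit 15200) (nat_lit 6) (nat_lit 200) (nat_lit 5) (nat_lit 114) (nat_lit 134) (nat_lit 142)) (PT.lf (nat_lit 16416) (nat_lit 6) (nat_lit 216) (nat_lit 5) (nat_lit 115) (nat_lit 134) (nat_lit 141))) (PT.nd (nat_lit 78) (PT.lf (nat_lit 17556) (nat_lit 6) (nat_lit 231) (nat_lit 5) (nat_lit 116) (nat_lit 134) (nat_lit 140)) (PT.lf (nat_lit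 18620) (nat_lit 6) (nat_lit 245) (nat_lit 5) (nat_lit 117) (nat_lit 134) (nat_lit 139))))) (PT.nd (nat_lit 234) (PT.nd (nat_lit 78) (PT.lf (nat_lit 19608) (nat_lit 6) (nat_lit 258) (nat_lit 5) (nat_lit 118) (nat_lit 134) (nat_lit 138)) (PT.nd (nat_lit 78) (PT.lf (nat_lit 20520) (nat_lit 6) (nat_lit 270) (nat_lit 5) (nat_lit 119) (nat_lit 134) (nat_lit 137)) (PT.lf (nat_lit 21356) (nat_lit 6) (nat_lit 281) (nat_lit 5) (nat_lit 120) (nat_lit 134) (nat_lit 136)))) (PT.nd (nat_lit 156) (PT.nd (nat_lit 78) (PT.lf (nat_lit 22116) (nat_lit 6) (nat_lit 291) (nat_lit 5) (nat_lit 121) (nat_lit 134) (nat_lit 135)) (PT.lf (nat_lit 22800) (nat_lit 3) (nat_lit 300) (nat_lit 4) (nat_lit 122) (nat_lit 134) (nat_lit 134))) (PT.nd (nat_lit 78) (PT.lf (nat_lit 23332) (nat_lit 6) (nat_lit 307) (nat_lit 4) (nat_lit 123) (nat_lit 134) (nat_lit 133)) (PT.lf (nat_lit 23788) (nat_lit 6) (nat_lit 313) (nat_lit 4) (nat_lit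 124) (nat_lit 134) (nat_lit 132)))))) (PT.nd (nat_lit 546) (PT.nd (nat_lit 234) (PT.nd (nat_lit 78) (PT.lf (nat_lit 24168) (nat_lit 6) (nat_lit 318) (nat_lit 4) (nat_lit 125) (nat_lit 134) (nat_lit 131)) (PT.nd (nat_lit 78) (PT.lf (nat_lit 24472) (nat_lit 6) (nat_lit 322) (nat_lit 4) (nat_lit 126) (nat_lit 134) (nat_lit 130)) (PT.lf (nat_lit 24396) (nat_lit 6) (nat_lit 321) (nat_lit 4) (nat_lit 127) (nat_lit 134) (nat_lit 129)))) (PT.nd (nat_lit 156) (PT.nd (nat_lit 78) (PT.lf (nat_lit 24320) (nat_lit 3) (nat_lit 320) (nat_lit 2) (nat_lit 128) (nat_lit 134) (nat_lit 128)) (PT.lf (nat_lit 24396) (nat_lit 6) (nat_lit 321) (nat_lit 2) (nat_lit 129) (nat_lit 134) (nat_lit 127))) (PT.nd (nat_lit 78) (PT.lf (nat_lit 24472) (nat_lit 6) (nat_lit 322) (nat_lit 2) (nat_lit 130) (nat_lit 134) (nat_lit 126)) (PT.lf (nat_lit 24168) (nat_lit 6) (nat_lit 318) (nat_lit 2) (nat_lit 131) (nat_lit 134) (nat_lit 125)))))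 (PT.nd (nat_lit 312) (PT.nd (nat_lit 156) (PT.nd (nat_lit 78) (PT.lf (nat_lit 23788) (nat_lit 6) (nat_lit 313) (nat_lit 2) (nat_lit 132) (nat_lit 134) (nat_lit 124)) (PT.lf (nat_lit 23332) (nat_lit 6) (nat_lit 307) (nat_lit 2) (nat_lit 133) (nat_lit 134) (nat_lit 123))) (PT.nd (nat_lit 78) (PT.lf (nat_lit 22800) (nat_lit 3) (nat_lit 300) (nat_lit 0) (nat_lit 134) (nat_lit 134) (nat_lit 122)) (PT.lf (nat_lit 22116) (nat_lit 6) (nat_lit 291) (nat_lit 0) (nat_lit 135) (nat_lit 134) (nat_lit 121)))) (PT.nd (nat_lit 156) (PT.nd (nat_lit 78) (PT.lf (nat_lit 21356) (nat_lit 6) (nat_lit 281) (nat_lit 0) (nat_lit 136) (nat_lit 134) (nat_lit 120)) (PT.lf (nat_lit 20520) (nat_lit 6) (nat_lit 270) (nat_lit 0) (nat_lit 137) (nat_lit 134) (nat_lit 119))) (PT.nd (nat_lit 78) (PT.lf (nat_lit 19608) (nat_lit 6) (nat_lit 258) (nat_lit 0) (nat_lit 138) (nat_lit 134) (nat_lit 118)) (PT.lf (nat_lit 18620) (nat_lit 6)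 (nat_lit 245) (nat_lit 0) (nat_lit 139) (nat_lit 134) (nat_lit 117))))))) (PT.nd (nat_lit 38688) (PT.nd (nat_lit 546) (PT.nd (nat_lit 234) (PT.nd (nat_lit 78) (PT.lf (nat_lit 17556) (nat_lit 6) (nat_lit 231) (nat_lit 0) (nat_lit 140) (nat_lit 134) (nat_lit 116)) (PT.nd (nat_lit 78) (PT.lf (nat_lit 16416) (nat_lit 6) (nat_lit 216) (nat_lit 0) (nat_lit 141) (nat_lit 134) (nat_lit 115)) (PT.lf (nat_lit 15200) (nat_lit 6) (nat_lit 200) (nat_lit 0) (nat_lit 142) (nat_lit 134) (nat_lit 114)))) (PT.nd (nat_lit 156) (PT.nd (nat_lit 78) (PT.lf (nat_lit 14364) (nat_lit 6) (nat_lit 189) (nat_lit 0) (nat_lit 143) (nat_lit 134) (nat_lit 113)) (PT.lf (nat_lit 13680) (nat_lit 6) (nat_lit 180) (nat_lit 0) (nat_lit 144) (nat_lit 134) (nat_lit 112))) (PT.nd (nat_lit 78) (PT.lf (nat_lit 13072) (nat_lit 6) (nat_lit 172) (nat_lit 0) (nat_lit 145) (nat_lit 134) (nat_lit 111)) (PT.lf (nat_lit 12464) (nat_lit 6) (nat_lit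 164) (nat_lit 0) (nat_lit 146) (nat_lit 134) (nat_lit 110))))) (PT.nd (nat_lit 37830) (PT.nd (nat_lit 37674) (PT.nd (nat_lit 37596) (PT.lf (nat_lit 11856) (nat_lit 6) (nat_lit 156) (nat_lit 0) (nat_lit 147) (nat_lit 134) (nat_lit 109)) (PT.lf (nat_lit 11324) (nat_lit 6) (nat_lit 149) (nat_lit 5) (nat_lit 108) (nat_lit 135) (nat_lit 147))) (PT.nd (nat_lit 78) (PT.lf (nat_lit 11932) (nat_lit 6) (nat_lit 157) (nat_lit 5) (nat_lit 109) (nat_lit 135) (nat_lit 146)) (PT.lf (nat_lit 12540) (nat_lit 6) (nat_lit 165) (nat_lit 5) (nat_lit 110) (nat_lit 135) (nat_lit 145)))) (PT.nd (nat_lit 156) (PT.nd (nat_lit 78) (PT.lf (nat_lit 13148) (nat_lit 6) (nat_lit 173) (nat_lit 5) (nat_lit 111) (nat_lit 135) (nat_lit 144)) (PT.lf (nat_lit 13756) (nat_lit 6) (nat_lit 181) (nat_lit 5) (nat_lit 112) (nat_lit 135) (nat_lit 143))) (PT.nd (nat_lit 78) (PT.lf (nat_lit 14440) (nat_lit 6) (nat_lit 190) (nat_lit 5) (nat_lit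 113) (nat_lit 135) (nat_lit 142)) (PT.lf (nat_lit 15276) (nat_lit 6) (nat_lit 201) (nat_lit 5) (nat_lit 114) (nat_lit 135) (nat_lit 141)))))) (PT.nd (nat_lit 546) (PT.nd (nat_lit 234) (PT.nd (nat_lit 78) (PT.lf (nat_lit 16492) (nat_lit 6) (nat_lit 217) (nat_lit 5) (nat_lit 115) (nat_lit 135) (nat_lit 140)) (PT.nd (nat_lit 78) (PT.lf (nat_lit 17632) (nat_lit 6) (nat_lit 232) (nat_lit 5) (nat_lit 116) (nat_lit 135) (nat_lit 139)) (PT.lf (nat_lit 18696) (nat_lit 6) (nat_lit 246) (nat_lit 5) (nat_lit 117) (nat_lit 135) (nat_lit 138)))) (PT.nd (nat_lit 156) (PT.nd (nat_lit 78) (PT.lf (nat_lit 19684) (nat_lit 6) (nat_lit 259) (nat_lit 5) (nat_lit 118) (nat_lit 135) (nat_lit 137)) (PT.lf (nat_lit 20596) (nat_lit 6) (nat_lit 271) (nat_lit 5) (nat_lit 119) (nat_lit 135) (nat_lit 136))) (PT.nd (nat_lit 78) (PT.lf (nat_lit 21432) (nat_lit 3) (nat_lit 282) (nat_lit 4) (nat_lit 120) (nat_lit 135) (nat_lit 135))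 (PT.lf (nat_lit 22116) (nat_lit 6) (nat_lit 291) (nat_lit 4) (nat_lit 121) (nat_lit 135) (nat_lit 134))))) (PT.nd (nat_lit 312) (PT.nd (nat_lit 156) (PT.nd (nat_lit 78) (PT.lf (nat_lit 22724) (nat_lit 6) (nat_lit 299) (nat_lit 4) (nat_lit 122) (nat_lit 135) (nat_lit 133)) (PT.lf (nat_lit 23256) (nat_lit 6) (nat_lit 306) (nat_lit 4) (nat_lit 123) (nat_lit 135) (nat_lit 132))) (PT.nd (nat_lit 78) (PT.lf (nat_lit 23712) (nat_lit 6) (nat_lit 312) (nat_lit 4) (nat_lit 124) (nat_lit 135) (nat_lit 131)) (PT.lf (nat_lit 24092) (nat_lit 6) (nat_lit 317) (nat_lit 4) (nat_lit 125) (nat_lit 135) (nat_lit 130)))) (PT.nd (nat_lit 156) (PT.nd (nat_lit 78) (PT.lf (nat_lit 24016) (nat_lit 6) (nat_lit 316) (nat_lit 4) (nat_lit 126) (nat_lit 135) (nat_lit 129)) (PT.lf (nat_lit 23940) (nat_lit 6) (nat_lit 315) (nat_lit 4) (nat_lit 127) (nat_lit 135) (nat_lit 128))) (PT.nd (nat_lit 78) (PT.lf (nat_lit 23940) (nat_lit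 6) (nat_lit 315) (nat_lit 2) (nat_lit 128) (nat_lit 135) (nat_lit 127)) (PT.lf (nat_lit 24016) (nat_lit 6) (nat_lit 316) (nat_lit 2) (nat_lit 129) (nat_lit 135) (nat_lit 126))))))))
noncomputable def pc16 : PT := (PT.nd (nat_lit 39702) (PT.nd (nat_lit 1092) (PT.nd (nat_lit 546) (PT.nd (nat_lit 234) (PT.nd (nat_lit 78) (PT.lf (nat_lit 24092) (nat_lit 6) (nat_lit 317) (nat_lit 2) (nat_lit 130) (nat_lit 135) (nat_lit 125)) (PT.nd (nat_lit 78) (PT.lf (nat_lit 23712) (nat_lit 6) (nat_lit 312) (nat_lit 2) (nat_lit 131) (nat_lit 135) (nat_lit 124)) (PT.lf (nat_lit 23256) (nat_lit 6) (nat_lit 306) (nat_lit 2) (nat_lit 132) (nat_lit 135) (nat_lit 123)))) (PT.nd (nat_lit 156) (PT.nd (nat_lit 78) (PT.lf (nat_lit 22724) (nat_lit 6) (nat_lit 299) (nat_lit 2) (nat_lit 133) (nat_lit 135) (nat_lit 122)) (PT.lf (nat_lit 22116) (nat_lit 6) (nat_lit 291) (nat_lit 2) (nat_lit 134) (nat_lit 135) (nat_lit 121))) (PT.nd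 (nat_lit 78) (PT.lf (nat_lit 21432) (nat_lit 3) (nat_lit 282) (nat_lit 0) (nat_lit 135) (nat_lit 135) (nat_lit 120)) (PT.lf (nat_lit 20596) (nat_lit 6) (nat_lit 271) (nat_lit 0) (nat_lit 136) (nat_lit 135) (nat_lit 119))))) (PT.nd (nat_lit 234) (PT.nd (nat_lit 78) (PT.lf (nat_lit 19684) (nat_lit 6) (nat_lit 259) (nat_lit 0) (nat_lit 137) (nat_lit 135) (nat_lit 118)) (PT.nd (nat_lit 78) (PT.lf (nat_lit 18696) (nat_lit 6) (nat_lit 246) (nat_lit 0) (nat_lit 138) (nat_lit 135) (nat_lit 117)) (PT.lf (nat_lit 17632) (nat_lit 6) (nat_lit 232) (nat_lit 0) (nat_lit 139) (nat_lit 135) (nat_lit 116)))) (PT.nd (nat_lit 156) (PT.nd (nat_lit 78) (PT.lf (nat_lit 16492) (nat_lit 6) (nat_lit 217) (nat_lit 0) (nat_lit 140) (nat_lit 135) (nat_lit 115)) (PT.lf (nat_lit 15276) (nat_lit 6) (nat_lit 201) (nat_lit 0) (nat_lit 141) (nat_lit 135) (nat_lit 114))) (PT.nd (nat_lit 78) (PT.lf (nat_lit 14440) (nat_lit 6) (nat_lit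 190) (nat_lit 0) (nat_lit 142) (nat_lit 135) (nat_lit 113)) (PT.lf (nat_lit 13756) (nat_lit 6) (nat_lit 181) (nat_lit 0) (nat_lit 143) (nat_lit 135) (nat_lit 112)))))) (PT.nd (nat_lit 37986) (PT.nd (nat_lit 234) (PT.nd (nat_lit 78) (PT.lf (nat_lit 13148) (nat_lit 6) (nat_lit 173) (nat_lit 0) (nat_lit 144) (nat_lit 135) (nat_lit 111)) (PT.nd (nat_lit 78) (PT.lf (nat_lit 12540) (nat_lit 6) (nat_lit 165) (nat_lit 0) (nat_lit 145) (nat_lit 135) (nat_lit 110)) (PT.lf (nat_lit 11932) (nat_lit 6) (nat_lit 157) (nat_lit 0) (nat_lit 146) (nat_lit 135) (nat_lit 109)))) (PT.nd (nat_lit 37596) (PT.nd (nat_lit 37518) (PT.lf (nat_lit 11324) (nat_lit 6) (nat_lit 149) (nat_lit 0) (nat_lit 147) (nat_lit 135) (nat_lit 108)) (PT.lf (nat_lit 10868) (nat_lit 6) (nat_lit 143) (nat_lit 5) (nat_lit 107) (nat_lit 136) (nat_lit 147))) (PT.nd (nat_lit 78) (PT.lf (nat_lit 11400) (nat_lit 6) (nat_lit 150) (nat_lit 5) (nat_lit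 108) (nat_lit 136) (nat_lit 146)) (PT.lf (nat_lit 12008) (nat_lit 6) (nat_lit 158) (nat_lit 5) (nat_lit 109) (nat_lit 136) (nat_lit 145))))) (PT.nd (nat_lit 312) (PT.nd (nat_lit 156) (PT.nd (nat_lit 78) (PT.lf (nat_lit 12616) (nat_lit 6) (nat_lit 166) (nat_lit 5) (nat_lit 110) (nat_lit 136) (nat_lit 144)) (PT.lf (nat_lit 13224) (nat_lit 6) (nat_lit 174) (nat_lit 5) (nat_lit 111) (nat_lit 136) (nat_lit 143))) (PT.nd (nat_lit 78) (PT.lf (nat_lit 13832) (nat_lit 6) (nat_lit 182) (nat_lit 5) (nat_lit 112) (nat_lit 136) (nat_lit 142)) (PT.lf (nat_lit 14516) (nat_lit 6) (nat_lit 191) (nat_lit 5) (nat_lit 113) (nat_lit 136) (nat_lit 141)))) (PT.nd (nat_lit 156) (PT.nd (nat_lit 78) (PT.lf (nat_lit 15352) (nat_lit 6) (nat_lit 202) (nat_lit 5) (nat_lit 114) (nat_lit 136) (nat_lit 140)) (PT.lf (nat_lit 16568) (nat_lit 6) (nat_lit 218) (nat_lit 5) (nat_lit 115) (nat_lit 136) (nat_lit 139))) (PT.nd (nat_lit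 78) (PT.lf (nat_lit 17708) (nat_lit 6) (nat_lit 233) (nat_lit 5) (nat_lit 116) (nat_lit 136) (nat_lit 138)) (PT.lf (nat_lit 18772) (nat_lit 6) (nat_lit 247) (nat_lit 5) (nat_lit 117) (nat_lit 136) (nat_lit 137))))))) (PT.nd (nat_lit 1092) (PT.nd (nat_lit 546) (PT.nd (nat_lit 234) (PT.nd (nat_lit 78) (PT.lf (nat_lit 19760) (nat_lit 3) (nat_lit 260) (nat_lit 4) (nat_lit 118) (nat_lit 136) (nat_lit 136)) (PT.nd (nat_lit 78) (PT.lf (nat_lit 20596) (nat_lit 6) (nat_lit 271) (nat_lit 4) (nat_lit 119) (nat_lit 136) (nat_lit 135)) (PT.lf (nat_lit 21356) (nat_lit 6) (nat_lit 281) (nat_lit 4) (nat_lit 120) (nat_lit 136) (nat_lit 134)))) (PT.nd (nat_lit 156) (PT.nd (nat_lit 78) (PT.lf (nat_lit 22040) (nat_lit 6) (nat_lit 290) (nat_lit 4) (nat_lit 121) (nat_lit 136) (nat_lit 133)) (PT.lf (nat_lit 22648) (nat_lit 6) (nat_lit 298) (nat_lit 4) (nat_lit 122) (nat_lit 136) (nat_lit 132))) (PT.nd (nat_lit 78) (PT.lf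 (nat_lit 23180) (nat_lit 6) (nat_lit 305) (nat_lit 4) (nat_lit 123) (nat_lit 136) (nat_lit 131)) (PT.lf (nat_lit 23636) (nat_lit 6) (nat_lit 311) (nat_lit 4) (nat_lit 124) (nat_lit 136) (nat_lit 130))))) (PT.nd (nat_lit 234) (PT.nd (nat_lit 78) (PT.lf (nat_lit 23560) (nat_lit 6) (nat_lit 310) (nat_lit 4) (nat_lit 125) (nat_lit 136) (nat_lit 129)) (PT.nd (nat_lit 78) (PT.lf (nat_lit 23484) (nat_lit 6) (nat_lit 309) (nat_lit 4) (nat_lit 126) (nat_lit 136) (nat_lit 128)) (PT.lf (nat_lit 23408) (nat_lit 3) (nat_lit 308) (nat_lit 2) (nat_lit 127) (nat_lit 136) (nat_lit 127)))) (PT.nd (nat_lit 156) (PT.nd (nat_lit 78) (PT.lf (nat_lit 23484) (nat_lit 6) (nat_lit 309) (nat_lit 2) (nat_lit 128) (nat_lit 136) (nat_lit 126)) (PT.lf (nat_lit 23560) (nat_lit 6) (nat_lit 310) (nat_lit 2) (nat_lit 129) (nat_lit 136) (nat_lit 125))) (PT.nd (nat_lit 78) (PT.lf (nat_lit 23636) (nat_lit 6) (nat_lit 311) (nat_lit 2)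 (nat_lit 130) (nat_lit 136) (nat_lit 124)) (PT.lf (nat_lit 23180) (nat_lit 6) (nat_lit 305) (nat_lit 2) (nat_lit 131) (nat_lit 136) (nat_lit 123)))))) (PT.nd (nat_lit 546) (PT.nd (nat_lit 234) (PT.nd (nat_lit 78) (PT.lf (nat_lit 22648) (nat_lit 6) (nat_lit 298) (nat_lit 2) (nat_lit 132) (nat_lit 136) (nat_lit 122)) (PT.nd (nat_lit 78) (PT.lf (nat_lit 22040) (nat_lit 6) (nat_lit 290) (nat_lit 2) (nat_lit 133) (nat_lit 136) (nat_lit 121)) (PT.lf (nat_lit 21356) (nat_lit 6) (nat_lit 281) (nat_lit 2) (nat_lit 134) (nat_lit 136) (nat_lit 120)))) (PT.nd (nat_lit 156) (PT.nd (nat_lit 78) (PT.lf (nat_lit 20596) (nat_lit 6) (nat_lit 271) (nat_lit 2) (nat_lit 135) (nat_lit 136) (nat_lit 119)) (PT.lf (nat_lit 19760) (nat_lit 3) (nat_lit 260) (nat_lit 0) (nat_lit 136) (nat_lit 136) (nat_lit 118))) (PT.nd (nat_lit 78) (PT.lf (nat_lit 18772) (nat_lit 6) (nat_lit 247) (nat_lit 0) (nat_lit 137) (nat_lit 136) (nat_lit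 117)) (PT.lf (nat_lit 17708) (nat_lit 6) (nat_lit 233) (nat_lit 0) (nat_lit 138) (nat_lit 136) (nat_lit 116))))) (PT.nd (nat_lit 312) (PT.nd (nat_lit 156) (PT.nd (nat_lit 78) (PT.lf (nat_lit 16568) (nat_lit 6) (nat_lit 218) (nat_lit 0) (nat_lit 139) (nat_lit 136) (nat_lit 115)) (PT.lf (nat_lit 15352) (nat_lit 6) (nat_lit 202) (nat_lit 0) (nat_lit 140) (nat_lit 136) (nat_lit 114))) (PT.nd (nat_lit 78) (PT.lf (nat_lit 14516) (nat_lit 6) (nat_lit 191) (nat_lit 0) (nat_lit 141) (nat_lit 136) (nat_lit 113)) (PT.lf (nat_lit 13832) (nat_lit 6) (nat_lit 182) (nat_lit 0) (nat_lit 142) (nat_lit 136) (nat_lit 112)))) (PT.nd (nat_lit 156) (PT.nd (nat_lit 78) (PT.lf (nat_lit 13224) (nat_lit 6) (nat_lit 174) (nat_lit 0) (nat_lit 143) (nat_lit 136) (nat_lit 111)) (PT.lf (nat_lit 12616) (nat_lit 6) (nat_lit 166) (nat_lit 0) (nat_lit 144) (nat_lit 136) (nat_lit 110))) (PT.nd (nat_lit 78) (PT.lf (nat_lit 12008) (nat_lit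 6) (nat_lit 158) (nat_lit 0) (nat_lit 145) (nat_lit 136) (nat_lit 109)) (PT.lf (nat_lit 11400) (nat_lit 6) (nat_lit 150) (nat_lit 0) (nat_lit 146) (nat_lit 136) (nat_lit 108))))))))
noncomputable def pc17 : PT := (PT.nd (nat_lit 39546) (PT.nd (nat_lit 38376) (PT.nd (nat_lit 37830) (PT.nd (nat_lit 37518) (PT.nd (nat_lit 37362) (PT.lf (nat_lit 10868) (nat_lit 6) (nat_lit 143) (nat_lit 0) (nat_lit 147) (nat_lit 136) (nat_lit 107)) (PT.nd (nat_lit 78) (PT.lf (nat_lit 9956) (nat_lit 6) (nat_lit 131) (nat_lit 5) (nat_lit 105) (nat_lit 137) (nat_lit 148)) (PT.lf (nat_lit 10412) (nat_lit 6) (nat_lit 137) (nat_lit 5) (nat_lit 106) (nat_lit 137) (nat_lit 147)))) (PT.nd (nat_lit 156) (PT.nd (nat_lit 78) (PT.lf (nat_lit 10944) (nat_lit 6) (nat_lit 144) (nat_lit 5) (nat_lit 107) (nat_lit 137) (nat_lit 146)) (PT.lf (nat_lit 11476) (nat_lit 6) (nat_lit 151) (nat_lit 5) (nat_lit 108) (nat_lit 137) (nat_lit 145)))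 (PT.nd (nat_lit 78) (PT.lf (nat_lit 12084) (nat_lit 6) (nat_lit 159) (nat_lit 5) (nat_lit 109) (nat_lit 137) (nat_lit 144)) (PT.lf (nat_lit 12692) (nat_lit 6) (nat_lit 167) (nat_lit 5) (nat_lit 110) (nat_lit 137) (nat_lit 143))))) (PT.nd (nat_lit 234) (PT.nd (nat_lit 78) (PT.lf (nat_lit 13300) (nat_lit 6) (nat_lit 175) (nat_lit 5) (nat_lit 111) (nat_lit 137) (nat_lit 142)) (PT.nd (nat_lit 78) (PT.lf (nat_lit 13908) (nat_lit 6) (nat_lit 183) (nat_lit 5) (nat_lit 112) (nat_lit 137) (nat_lit 141)) (PT.lf (nat_lit 14592) (nat_lit 6) (nat_lit 192) (nat_lit 5) (nat_lit 113) (nat_lit 137) (nat_lit 140)))) (PT.nd (nat_lit 156) (PT.nd (nat_lit 78) (PT.lf (nat_lit 15428) (nat_lit 6) (nat_lit 203) (nat_lit 5) (nat_lit 114) (nat_lit 137) (nat_lit 139)) (PT.lf (nat_lit 16644) (nat_lit 6) (nat_lit 219) (nat_lit 5) (nat_lit 115) (nat_lit 137) (nat_lit 138))) (PT.nd (nat_lit 78) (PT.lf (nat_lit 17784) (nat_lit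 3) (nat_lit 234) (nat_lit 4) (nat_lit 116) (nat_lit 137) (nat_lit 137)) (PT.lf (nat_lit 18772) (nat_lit 6) (nat_lit 247) (nat_lit 4) (nat_lit 117) (nat_lit 137) (nat_lit 136)))))) (PT.nd (nat_lit 546) (PT.nd (nat_lit 234) (PT.nd (nat_lit 78) (PT.lf (nat_lit 19684) (nat_lit 6) (nat_lit 259) (nat_lit 4) (nat_lit 118) (nat_lit 137) (nat_lit 135)) (PT.nd (nat_lit 78) (PT.lf (nat_lit 20520) (nat_lit 6) (nat_lit 270) (nat_lit 4) (nat_lit 119) (nat_lit 137) (nat_lit 134)) (PT.lf (nat_lit 21280) (nat_lit 6) (nat_lit 280) (nat_lit 4) (nat_lit 120) (nat_lit 137) (nat_lit 133)))) (PT.nd (nat_lit 156) (PT.nd (nat_lit 78) (PT.lf (nat_lit 21964) (nat_lit 6) (nat_lit 289) (nat_lit 4) (nat_lit 121) (nat_lit 137) (nat_lit 132)) (PT.lf (nat_lit 22572) (nat_lit 6) (nat_lit 297) (nat_lit 4) (nat_lit 122) (nat_lit 137) (nat_lit 131))) (PT.nd (nat_lit 78) (PT.lf (nat_lit 23104) (nat_lit 6) (nat_lit 304) (nat_lit 4) (nat_lit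 123) (nat_lit 137) (nat_lit 130)) (PT.lf (nat_lit 23028) (nat_lit 6) (nat_lit 303) (nat_lit 4) (nat_lit 124) (nat_lit 137) (nat_lit 129))))) (PT.nd (nat_lit 312) (PT.nd (nat_lit 156) (PT.nd (nat_lit 78) (PT.lf (nat_lit 22952) (nat_lit 6) (nat_lit 302) (nat_lit 4) (nat_lit 125) (nat_lit 137) (nat_lit 128)) (PT.lf (nat_lit 22876) (nat_lit 6) (nat_lit 301) (nat_lit 4) (nat_lit 126) (nat_lit 137) (nat_lit 127))) (PT.nd (nat_lit 78) (PT.lf (nat_lit 22876) (nat_lit 6) (nat_lit 301) (nat_lit 2) (nat_lit 127) (nat_lit 137) (nat_lit 126)) (PT.lf (nat_lit 22952) (nat_lit 6) (nat_lit 302) (nat_lit 2) (nat_lit 128) (nat_lit 137) (nat_lit 125)))) (PT.nd (nat_lit 156) (PT.nd (nat_lit 78) (PT.lf (nat_lit 23028) (nat_lit 6) (nat_lit 303) (nat_lit 2) (nat_lit 129) (nat_lit 137) (nat_lit 124)) (PT.lf (nat_lit 23104) (nat_lit 6) (nat_lit 304) (nat_lit 2) (nat_lit 130) (nat_lit 137) (nat_lit 123))) (PT.nd (nat_lit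 78) (PT.lf (nat_lit 22572) (nat_lit 6) (nat_lit 297) (nat_lit 2) (nat_lit 131) (nat_lit 137) (nat_lit 122)) (PT.lf (nat_lit 21964) (nat_lit 6) (nat_lit 289) (nat_lit 2) (nat_lit 132) (nat_lit 137) (nat_lit 121))))))) (PT.nd (nat_lit 1092) (PT.nd (nat_lit 546) (PT.nd (nat_lit 234) (PT.nd (nat_lit 78) (PT.lf (nat_lit 21280) (nat_lit 6) (nat_lit 280) (nat_lit 2) (nat_lit 133) (nat_lit 137) (nat_lit 120)) (PT.nd (nat_lit 78) (PT.lf (nat_lit 20520) (nat_lit 6) (nat_lit 270) (nat_lit 2) (nat_lit 134) (nat_lit 137) (nat_lit 119)) (PT.lf (nat_lit 19684) (nat_lit 6) (nat_lit 259) (nat_lit 2) (nat_lit 135) (nat_lit 137) (nat_lit 118)))) (PT.nd (nat_lit 156) (PT.nd (nat_lit 78) (PT.lf (nat_lit 18772) (nat_lit 6) (nat_lit 247) (nat_lit 2) (nat_lit 136) (nat_lit 137) (nat_lit 117)) (PT.lf (nat_lit 17784) (nat_lit 3) (nat_lit 234) (nat_lit 0) (nat_lit 137) (nat_lit 137) (nat_lit 116))) (PT.nd (nat_lit 78) (PT.lf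 (nat_lit 16644) (nat_lit 6) (nat_lit 219) (nat_lit 0) (nat_lit 138) (nat_lit 137) (nat_lit 115)) (PT.lf (nat_lit 15428) (nat_lit 6) (nat_lit 203) (nat_lit 0) (nat_lit 139) (nat_lit 137) (nat_lit 114))))) (PT.nd (nat_lit 234) (PT.nd (nat_lit 78) (PT.lf (nat_lit 14592) (nat_lit 6) (nat_lit 192) (nat_lit 0) (nat_lit 140) (nat_lit 137) (nat_lit 113)) (PT.nd (nat_lit 78) (PT.lf (nat_lit 13908) (nat_lit 6) (nat_lit 183) (nat_lit 0) (nat_lit 141) (nat_lit 137) (nat_lit 112)) (PT.lf (nat_lit 13300) (nat_lit 6) (nat_lit 175) (nat_lit 0) (nat_lit 142) (nat_lit 137) (nat_lit 111)))) (PT.nd (nat_lit 156) (PT.nd (nat_lit 78) (PT.lf (nat_lit 12692) (nat_lit 6) (nat_lit 167) (nat_lit 0) (nat_lit 143) (nat_lit 137) (nat_lit 110)) (PT.lf (nat_lit 12084) (nat_lit 6) (nat_lit 159) (nat_lit 0) (nat_lit 144) (nat_lit 137) (nat_lit 109))) (PT.nd (nat_lit 78) (PT.lf (nat_lit 11476) (nat_lit 6) (nat_lit 151) (nat_lit 0)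 (nat_lit 145) (nat_lit 137) (nat_lit 108)) (PT.lf (nat_lit 10944) (nat_lit 6) (nat_lit 144) (nat_lit 0) (nat_lit 146) (nat_lit 137) (nat_lit 107)))))) (PT.nd (nat_lit 37674) (PT.nd (nat_lit 37362) (PT.nd (nat_lit 78) (PT.lf (nat_lit 10412) (nat_lit 6) (nat_lit 137) (nat_lit 0) (nat_lit 147) (nat_lit 137) (nat_lit 106)) (PT.nd (nat_lit 37206) (PT.lf (nat_lit 9956) (nat_lit 6) (nat_lit 131) (nat_lit 0) (nat_lit 148) (nat_lit 137) (nat_lit 105)) (PT.lf (nat_lit 9500) (nat_lit 6) (nat_lit 125) (nat_lit 5) (nat_lit 104) (nat_lit 138) (nat_lit 148)))) (PT.nd (nat_lit 156) (PT.nd (nat_lit 78) (PT.lf (nat_lit 10032) (nat_lit 6) (nat_lit 132) (nat_lit 5) (nat_lit 105) (nat_lit 138) (nat_lit 147)) (PT.lf (nat_lit 10488) (nat_lit 6) (nat_lit 138) (nat_lit 5) (nat_lit 106) (nat_lit 138) (nat_lit 146))) (PT.nd (nat_lit 78) (PT.lf (nat_lit 11020) (nat_lit 6) (nat_lit 145) (nat_lit 5) (nat_lit 107) (nat_lit 138)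 (nat_lit 145)) (PT.lf (nat_lit 11552) (nat_lit 6) (nat_lit 152) (nat_lit 5) (nat_lit 108) (nat_lit 138) (nat_lit 144))))) (PT.nd (nat_lit 312) (PT.nd (nat_lit 156) (PT.nd (nat_lit 78) (PT.lf (nat_lit 12160) (nat_lit 6) (nat_lit 160) (nat_lit 5) (nat_lit 109) (nat_lit 138) (nat_lit 143)) (PT.lf (nat_lit 12768) (nat_lit 6) (nat_lit 168) (nat_lit 5) (nat_lit 110) (nat_lit 138) (nat_lit 142))) (PT.nd (nat_lit 78) (PT.lf (nat_lit 13376) (nat_lit 6) (nat_lit 176) (nat_lit 5) (nat_lit 111) (nat_lit 138) (nat_lit 141)) (PT.lf (nat_lit 13984) (nat_lit 6) (nat_lit 184) (nat_lit 5) (nat_lit 112) (nat_lit 138) (nat_lit 140)))) (PT.nd (nat_lit 156) (PT.nd (nat_lit 78) (PT.lf (nat_lit 14668) (nat_lit 6) (nat_lit 193) (nat_lit 5) (nat_lit 113) (nat_lit 138) (nat_lit 139)) (PT.lf (nat_lit 15504) (nat_lit 3) (nat_lit 204) (nat_lit 4) (nat_lit 114) (nat_lit 138) (nat_lit 138))) (PT.nd (nat_lit 78) (PT.lf (nat_lit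 16644) (nat_lit 6) (nat_lit 219) (nat_lit 4) (nat_lit 115) (nat_lit 138) (nat_lit 137)) (PT.lf (nat_lit 17708) (nat_lit 6) (nat_lit 233) (nat_lit 4) (nat_lit 116) (nat_lit 138) (nat_lit 136))))))))
noncomputable def pc18 : PT := (PT.nd (nat_lit 2262) (PT.nd (nat_lit 1092) (PT.nd (nat_lit 546) (PT.nd (nat_lit 234) (PT.nd (nat_lit 78) (PT.lf (nat_lit 18696) (nat_lit 6) (nat_lit 246) (nat_lit 4) (nat_lit 117) (nat_lit 138) (nat_lit 135)) (PT.nd (nat_lit 78) (PT.lf (nat_lit 19608) (nat_lit 6) (nat_lit 258) (nat_lit 4) (nat_lit 118) (nat_lit 138) (nat_lit 134)) (PT.lf (nat_lit 20444) (nat_lit 6) (nat_lit 269) (nat_lit 4) (nat_lit 119) (nat_lit 138) (nat_lit 133)))) (PT.nd (nat_lit 156) (PT.nd (nat_lit 78) (PT.lf (nat_lit 21204) (nat_lit 6) (nat_lit 279) (nat_lit 4) (nat_lit 120) (nat_lit 138) (nat_lit 132)) (PT.lf (nat_lit 21888) (nat_lit 6) (nat_lit 288) (nat_lit 4) (nat_lit 121) (nat_lit 138) (nat_lit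 131))) (PT.nd (nat_lit 78) (PT.lf (nat_lit 22496) (nat_lit 6) (nat_lit 296) (nat_lit 4) (nat_lit 122) (nat_lit 138) (nat_lit 130)) (PT.lf (nat_lit 22420) (nat_lit 6) (nat_lit 295) (nat_lit 4) (nat_lit 123) (nat_lit 138) (nat_lit 129))))) (PT.nd (nat_lit 234) (PT.nd (nat_lit 78) (PT.lf (nat_lit 22344) (nat_lit 6) (nat_lit 294) (nat_lit 4) (nat_lit 124) (nat_lit 138) (nat_lit 128)) (PT.nd (nat_lit 78) (PT.lf (nat_lit 22268) (nat_lit 6) (nat_lit 293) (nat_lit 4) (nat_lit 125) (nat_lit 138) (nat_lit 127)) (PT.lf (nat_lit 22192) (nat_lit 3) (nat_lit 292) (nat_lit 2) (nat_lit 126) (nat_lit 138) (nat_lit 126)))) (PT.nd (nat_lit 156) (PT.nd (nat_lit 78) (PT.lf (nat_lit 22268) (nat_lit 6) (nat_lit 293) (nat_lit 2) (nat_lit 127) (nat_lit 138) (nat_lit 125)) (PT.lf (nat_lit 22344) (nat_lit 6) (nat_lit 294) (nat_lit 2) (nat_lit 128) (nat_lit 138) (nat_lit 124))) (PT.nd (nat_lit 78) (PT.lf (nat_lit 22420) (nat_lit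 6) (nat_lit 295) (nat_lit 2) (nat_lit 129) (nat_lit 138) (nat_lit 123)) (PT.lf (nat_lit 22496) (nat_lit 6) (nat_lit 296) (nat_lit 2) (nat_lit 130) (nat_lit 138) (nat_lit 122)))))) (PT.nd (nat_lit 546) (PT.nd (nat_lit 234) (PT.nd (nat_lit 78) (PT.lf (nat_lit 21888) (nat_lit 6) (nat_lit 288) (nat_lit 2) (nat_lit 131) (nat_lit 138) (nat_lit 121)) (PT.nd (nat_lit 78) (PT.lf (nat_lit 21204) (nat_lit 6) (nat_lit 279) (nat_lit 2) (nat_lit 132) (nat_lit 138) (nat_lit 120)) (PT.lf (nat_lit 20444) (nat_lit 6) (nat_lit 269) (nat_lit 2) (nat_lit 133) (nat_lit 138) (nat_lit 119)))) (PT.nd (nat_lit 156) (PT.nd (nat_lit 78) (PT.lf (nat_lit 19608) (nat_lit 6) (nat_lit 258) (nat_lit 2) (nat_lit 134) (nat_lit 138) (nat_lit 118)) (PT.lf (nat_lit 18696) (nat_lit 6) (nat_lit 246) (nat_lit 2) (nat_lit 135) (nat_lit 138) (nat_lit 117))) (PT.nd (nat_lit 78) (PT.lf (nat_lit 17708) (nat_lit 6) (nat_lit 233) (nat_lit 2) (nat_lit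 136) (nat_lit 138) (nat_lit 116)) (PT.lf (nat_lit 16644) (nat_lit 6) (nat_lit 219) (nat_lit 2) (nat_lit 137) (nat_lit 138) (nat_lit 115))))) (PT.nd (nat_lit 312) (PT.nd (nat_lit 156) (PT.nd (nat_lit 78) (PT.lf (nat_lit 15504) (nat_lit 3) (nat_lit 204) (nat_lit 0) (nat_lit 138) (nat_lit 138) (nat_lit 114)) (PT.lf (nat_lit 14668) (nat_lit 6) (nat_lit 193) (nat_lit 0) (nat_lit 139) (nat_lit 138) (nat_lit 113))) (PT.nd (nat_lit 78) (PT.lf (nat_lit 13984) (nat_lit 6) (nat_lit 184) (nat_lit 0) (nat_lit 140) (nat_lit 138) (nat_lit 112)) (PT.lf (nat_lit 13376) (nat_lit 6) (nat_lit 176) (nat_lit 0) (nat_lit 141) (nat_lit 138) (nat_lit 111)))) (PT.nd (nat_lit 156) (PT.nd (nat_lit 78) (PT.lf (nat_lit 12768) (nat_lit 6) (nat_lit 168) (nat_lit 0) (nat_lit 142) (nat_lit 138) (nat_lit 110)) (PT.lf (nat_lit 12160) (nat_lit 6) (nat_lit 160) (nat_lit 0) (nat_lit 143) (nat_lit 138) (nat_lit 109))) (PT.nd (nat_lit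 78) (PT.lf (nat_lit 11552) (nat_lit 6) (nat_lit 152) (nat_lit 0) (nat_lit 144) (nat_lit 138) (nat_lit 108)) (PT.lf (nat_lit 11020) (nat_lit 6) (nat_lit 145) (nat_lit 0) (nat_lit 145) (nat_lit 138) (nat_lit 107))))))) (PT.nd (nat_lit 38064) (PT.nd (nat_lit 37518) (PT.nd (nat_lit 37206) (PT.nd (nat_lit 78) (PT.lf (nat_lit 10488) (nat_lit 6) (nat_lit 138) (nat_lit 0) (nat_lit 146) (nat_lit 138) (nat_lit 106)) (PT.nd (nat_lit 78) (PT.lf (nat_lit 10032) (nat_lit 6) (nat_lit 132) (nat_lit 0) (nat_lit 147) (nat_lit 138) (nat_lit 105)) (PT.lf (nat_lit 9500) (nat_lit 6) (nat_lit 125) (nat_lit 0) (nat_lit 148) (nat_lit 138) (nat_lit 104)))) (PT.nd (nat_lit 156) (PT.nd (nat_lit 78) (PT.lf (nat_lit 8664) (nat_lit 6) (nat_lit 114) (nat_lit 5) (nat_lit 102) (nat_lit 139) (nat_lit 149)) (PT.lf (nat_lit 9120) (nat_lit 6) (nat_lit 120) (nat_lit 5) (nat_lit 103) (nat_lit 139) (nat_lit 148))) (PT.nd (nat_lit 78) (PT.lf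 (nat_lit 9576) (nat_lit 6) (nat_lit 126) (nat_lit 5) (nat_lit 104) (nat_lit 139) (nat_lit 147)) (PT.lf (nat_lit 10108) (nat_lit 6) (nat_lit 133) (nat_lit 5) (nat_lit 105) (nat_lit 139) (nat_lit 146))))) (PT.nd (nat_lit 234) (PT.nd (nat_lit 78) (PT.lf (nat_lit 10564) (nat_lit 6) (nat_lit 139) (nat_lit 5) (nat_lit 106) (nat_lit 139) (nat_lit 145)) (PT.nd (nat_lit 78) (PT.lf (nat_lit 11096) (nat_lit 6) (nat_lit 146) (nat_lit 5) (nat_lit 107) (nat_lit 139) (nat_lit 144)) (PT.lf (nat_lit 11628) (nat_lit 6) (nat_lit 153) (nat_lit 5) (nat_lit 108) (nat_lit 139) (nat_lit 143)))) (PT.nd (nat_lit 156) (PT.nd (nat_lit 78) (PT.lf (nat_lit 12236) (nat_lit 6) (nat_lit 161) (nat_lit 5) (nat_lit 109) (nat_lit 139) (nat_lit 142)) (PT.lf (nat_lit 12844) (nat_lit 6) (nat_lit 169) (nat_lit 5) (nat_lit 110) (nat_lit 139) (nat_lit 141))) (PT.nd (nat_lit 78) (PT.lf (nat_lit 13452) (nat_lit 6) (nat_lit 177) (nat_lit 5)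 (nat_lit 111) (nat_lit 139) (nat_lit 140)) (PT.lf (nat_lit 14060) (nat_lit 3) (nat_lit 185) (nat_lit 4) (nat_lit 112) (nat_lit 139) (nat_lit 139)))))) (PT.nd (nat_lit 546) (PT.nd (nat_lit 234) (PT.nd (nat_lit 78) (PT.lf (nat_lit 14668) (nat_lit 6) (nat_lit 193) (nat_lit 4) (nat_lit 113) (nat_lit 139) (nat_lit 138)) (PT.nd (nat_lit 78) (PT.lf (nat_lit 15428) (nat_lit 6) (nat_lit 203) (nat_lit 4) (nat_lit 114) (nat_lit 139) (nat_lit 137)) (PT.lf (nat_lit 16568) (nat_lit 6) (nat_lit 218) (nat_lit 4) (nat_lit 115) (nat_lit 139) (nat_lit 136)))) (PT.nd (nat_lit 156) (PT.nd (nat_lit 78) (PT.lf (nat_lit 17632) (nat_lit 6) (nat_lit 232) (nat_lit 4) (nat_lit 116) (nat_lit 139) (nat_lit 135)) (PT.lf (nat_lit 18620) (nat_lit 6) (nat_lit 245) (nat_lit 4) (nat_lit 117) (nat_lit 139) (nat_lit 134))) (PT.nd (nat_lit 78) (PT.lf (nat_lit 19532) (nat_lit 6) (nat_lit 257) (nat_lit 4) (nat_lit 118) (nat_lit 139) (nat_lit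 133)) (PT.lf (nat_lit 20368) (nat_lit 6) (nat_lit 268) (nat_lit 4) (nat_lit 119) (nat_lit 139) (nat_lit 132))))) (PT.nd (nat_lit 312) (PT.nd (nat_lit 156) (PT.nd (nat_lit 78) (PT.lf (nat_lit 21128) (nat_lit 6) (nat_lit 278) (nat_lit 4) (nat_lit 120) (nat_lit 139) (nat_lit 131)) (PT.lf (nat_lit 21812) (nat_lit 6) (nat_lit 287) (nat_lit 4) (nat_lit 121) (nat_lit 139) (nat_lit 130))) (PT.nd (nat_lit 78) (PT.lf (nat_lit 21736) (nat_lit 6) (nat_lit 286) (nat_lit 4) (nat_lit 122) (nat_lit 139) (nat_lit 129)) (PT.lf (nat_lit 21660) (nat_lit 6) (nat_lit 285) (nat_lit 4) (nat_lit 123) (nat_lit 139) (nat_lit 128)))) (PT.nd (nat_lit 156) (PT.nd (nat_lit 78) (PT.lf (nat_lit 21584) (nat_lit 6) (nat_lit 284) (nat_lit 4) (nat_lit 124) (nat_lit 139) (nat_lit 127)) (PT.lf (nat_lit 21508) (nat_lit 6) (nat_lit 283) (nat_lit 4) (nat_lit 125) (nat_lit 139) (nat_lit 126))) (PT.nd (nat_lit 78) (PT.lf (nat_lit 21508) (nat_lit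 6) (nat_lit 283) (nat_lit 2) (nat_lit 126) (nat_lit 139) (nat_lit 125)) (PT.lf (nat_lit 21584) (nat_lit 6) (nat_lit 284) (nat_lit 2) (nat_lit 127) (nat_lit 139) (nat_lit 124))))))))
noncomputable def pc19 : PT := (PT.nd (nat_lit 39078) (PT.nd (nat_lit 1092) (PT.nd (nat_lit 546) (PT.nd (nat_lit 234) (PT.nd (nat_lit 78) (PT.lf (nat_lit 21660) (nat_lit 6) (nat_lit 285) (nat_lit 2) (nat_lit 128) (nat_lit 139) (nat_lit 123)) (PT.nd (nat_lit 78) (PT.lf (nat_lit 21736) (nat_lit 6) (nat_lit 286) (nat_lit 2) (nat_lit 129) (nat_lit 139) (nat_lit 122)) (PT.lf (nat_lit 21812) (nat_lit 6) (nat_lit 287) (nat_lit 2) (nat_lit 130) (nat_lit 139) (nat_lit 121)))) (PT.nd (nat_lit 156) (PT.nd (nat_lit 78) (PT.lf (nat_lit 21128) (nat_lit 6) (nat_lit 278) (nat_lit 2) (nat_lit 131) (nat_lit 139) (nat_lit 120)) (PT.lf (nat_lit 20368) (nat_lit 6) (nat_lit 268) (nat_lit 2) (nat_lit 132) (nat_lit 139) (nat_lit 119))) (PT.nd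 (nat_lit 78) (PT.lf (nat_lit 19532) (nat_lit 6) (nat_lit 257) (nat_lit 2) (nat_lit 133) (nat_lit 139) (nat_lit 118)) (PT.lf (nat_lit 18620) (nat_lit 6) (nat_lit 245) (nat_lit 2) (nat_lit 134) (nat_lit 139) (nat_lit 117))))) (PT.nd (nat_lit 234) (PT.nd (nat_lit 78) (PT.lf (nat_lit 17632) (nat_lit 6) (nat_lit 232) (nat_lit 2) (nat_lit 135) (nat_lit 139) (nat_lit 116)) (PT.nd (nat_lit 78) (PT.lf (nat_lit 16568) (nat_lit 6) (nat_lit 218) (nat_lit 2) (nat_lit 136) (nat_lit 139) (nat_lit 115)) (PT.lf (nat_lit 15428) (nat_lit 6) (nat_lit 203) (nat_lit 2) (nat_lit 137) (nat_lit 139) (nat_lit 114)))) (PT.nd (nat_lit 156) (PT.nd (nat_lit 78) (PT.lf (nat_lit 14668) (nat_lit 6) (nat_lit 193) (nat_lit 2) (nat_lit 138) (nat_lit 139) (nat_lit 113)) (PT.lf (nat_lit 14060) (nat_lit 3) (nat_lit 185) (nat_lit 0) (nat_lit 139) (nat_lit 139) (nat_lit 112))) (PT.nd (nat_lit 78) (PT.lf (nat_lit 13452) (nat_lit 6) (nat_lit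 177) (nat_lit 0) (nat_lit 140) (nat_lit 139) (nat_lit 111)) (PT.lf (nat_lit 12844) (nat_lit 6) (nat_lit 169) (nat_lit 0) (nat_lit 141) (nat_lit 139) (nat_lit 110)))))) (PT.nd (nat_lit 546) (PT.nd (nat_lit 234) (PT.nd (nat_lit 78) (PT.lf (nat_lit 12236) (nat_lit 6) (nat_lit 161) (nat_lit 0) (nat_lit 142) (nat_lit 139) (nat_lit 109)) (PT.nd (nat_lit 78) (PT.lf (nat_lit 11628) (nat_lit 6) (nat_lit 153) (nat_lit 0) (nat_lit 143) (nat_lit 139) (nat_lit 108)) (PT.lf (nat_lit 11096) (nat_lit 6) (nat_lit 146) (nat_lit 0) (nat_lit 144) (nat_lit 139) (nat_lit 107)))) (PT.nd (nat_lit 156) (PT.nd (nat_lit 78) (PT.lf (nat_lit 10564) (nat_lit 6) (nat_lit 139) (nat_lit 0) (nat_lit 145) (nat_lit 139) (nat_lit 106)) (PT.lf (nat_lit 10108) (nat_lit 6) (nat_lit 133) (nat_lit 0) (nat_lit 146) (nat_lit 139) (nat_lit 105))) (PT.nd (nat_lit 78) (PT.lf (nat_lit 9576) (nat_lit 6) (nat_lit 126) (nat_lit 0) (nat_lit 147)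 (nat_lit 139) (nat_lit 104)) (PT.lf (nat_lit 9120) (nat_lit 6) (nat_lit 120) (nat_lit 0) (nat_lit 148) (nat_lit 139) (nat_lit 103))))) (PT.nd (nat_lit 37128) (PT.nd (nat_lit 36972) (PT.nd (nat_lit 36894) (PT.lf (nat_lit 8664) (nat_lit 6) (nat_lit 114) (nat_lit 0) (nat_lit 149) (nat_lit 139) (nat_lit 102)) (PT.lf (nat_lit 8284) (nat_lit 6) (nat_lit 109) (nat_lit 5) (nat_lit 101) (nat_lit 140) (nat_lit 149))) (PT.nd (nat_lit 78) (PT.lf (nat_lit 8740) (nat_lit 6) (nat_lit 115) (nat_lit 5) (nat_lit 102) (nat_lit 140) (nat_lit 148)) (PT.lf (nat_lit 9196) (nat_lit 6) (nat_lit 121) (nat_lit 5) (nat_lit 103) (nat_lit 140) (nat_lit 147)))) (PT.nd (nat_lit 156) (PT.nd (nat_lit 78) (PT.lf (nat_lit 9652) (nat_lit 6) (nat_lit 127) (nat_lit 5) (nat_lit 104) (nat_lit 140) (nat_lit 146)) (PT.lf (nat_lit 10184) (nat_lit 6) (nat_lit 134) (nat_lit 5) (nat_lit 105) (nat_lit 140) (nat_lit 145))) (PT.nd (nat_lit 78)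 (PT.lf (nat_lit 10640) (nat_lit 6) (nat_lit 140) (nat_lit 5) (nat_lit 106) (nat_lit 140) (nat_lit 144)) (PT.lf (nat_lit 11172) (nat_lit 6) (nat_lit 147) (nat_lit 5) (nat_lit 107) (nat_lit 140) (nat_lit 143))))))) (PT.nd (nat_lit 1092) (PT.nd (nat_lit 546) (PT.nd (nat_lit 234) (PT.nd (nat_lit 78) (PT.lf (nat_lit 11704) (nat_lit 6) (nat_lit 154) (nat_lit 5) (nat_lit 108) (nat_lit 140) (nat_lit 142)) (PT.nd (nat_lit 78) (PT.lf (nat_lit 12312) (nat_lit 6) (nat_lit 162) (nat_lit 5) (nat_lit 109) (nat_lit 140) (nat_lit 141)) (PT.lf (nat_lit 12920) (nat_lit 3) (nat_lit 170) (nat_lit 4) (nat_lit 110) (nat_lit 140) (nat_lit 140)))) (PT.nd (nat_lit 156) (PT.nd (nat_lit 78) (PT.lf (nat_lit 13452) (nat_lit 6) (nat_lit 177) (nat_lit 4) (nat_lit 111) (nat_lit 140) (nat_lit 139)) (PT.lf (nat_lit 13984) (nat_lit 6) (nat_lit 184) (nat_lit 4) (nat_lit 112) (nat_lit 140) (nat_lit 138))) (PT.nd (nat_lit 78) (PT.lf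 (nat_lit 14592) (nat_lit 6) (nat_lit 192) (nat_lit 4) (nat_lit 113) (nat_lit 140) (nat_lit 137)) (PT.lf (nat_lit 15352) (nat_lit 6) (nat_lit 202) (nat_lit 4) (nat_lit 114) (nat_lit 140) (nat_lit 136))))) (PT.nd (nat_lit 234) (PT.nd (nat_lit 78) (PT.lf (nat_lit 16492) (nat_lit 6) (nat_lit 217) (nat_lit 4) (nat_lit 115) (nat_lit 140) (nat_lit 135)) (PT.nd (nat_lit 78) (PT.lf (nat_lit 17556) (nat_lit 6) (nat_lit 231) (nat_lit 4) (nat_lit 116) (nat_lit 140) (nat_lit 134)) (PT.lf (nat_lit 18544) (nat_lit 6) (nat_lit 244) (nat_lit 4) (nat_lit 117) (nat_lit 140) (nat_lit 133)))) (PT.nd (nat_lit 156) (PT.nd (nat_lit 78) (PT.lf (nat_lit 19456) (nat_lit 6) (nat_lit 256) (nat_lit 4) (nat_lit 118) (nat_lit 140) (nat_lit 132)) (PT.lf (nat_lit 20292) (nat_lit 6) (nat_lit 267) (nat_lit 4) (nat_lit 119) (nat_lit 140) (nat_lit 131))) (PT.nd (nat_lit 78) (PT.lf (nat_lit 21052) (nat_lit 6) (nat_lit 277) (nat_lit 4)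 (nat_lit 120) (nat_lit 140) (nat_lit 130)) (PT.lf (nat_lit 20976) (nat_lit 6) (nat_lit 276) (nat_lit 4) (nat_lit 121) (nat_lit 140) (nat_lit 129)))))) (PT.nd (nat_lit 546) (PT.nd (nat_lit 234) (PT.nd (nat_lit 78) (PT.lf (nat_lit 20900) (nat_lit 6) (nat_lit 275) (nat_lit 4) (nat_lit 122) (nat_lit 140) (nat_lit 128)) (PT.nd (nat_lit 78) (PT.lf (nat_lit 20824) (nat_lit 6) (nat_lit 274) (nat_lit 4) (nat_lit 123) (nat_lit 140) (nat_lit 127)) (PT.lf (nat_lit 20748) (nat_lit 6) (nat_lit 273) (nat_lit 4) (nat_lit 124) (nat_lit 140) (nat_lit 126)))) (PT.nd (nat_lit 156) (PT.nd (nat_lit 78) (PT.lf (nat_lit 20672) (nat_lit 3) (nat_lit 272) (nat_lit 2) (nat_lit 125) (nat_lit 140) (nat_lit 125)) (PT.lf (nat_lit 20748) (nat_lit 6) (nat_lit 273) (nat_lit 2) (nat_lit 126) (nat_lit 140) (nat_lit 124))) (PT.nd (nat_lit 78) (PT.lf (nat_lit 20824) (nat_lit 6) (nat_lit 274) (nat_lit 2) (nat_lit 127) (nat_lit 140) (nat_lit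 123)) (PT.lf (nat_lit 20900) (nat_lit 6) (nat_lit 275) (nat_lit 2) (nat_lit 128) (nat_lit 140) (nat_lit 122))))) (PT.nd (nat_lit 312) (PT.nd (nat_lit 156) (PT.nd (nat_lit 78) (PT.lf (nat_lit 20976) (nat_lit 6) (nat_lit 276) (nat_lit 2) (nat_lit 129) (nat_lit 140) (nat_lit 121)) (PT.lf (nat_lit 21052) (nat_lit 6) (nat_lit 277) (nat_lit 2) (nat_lit 130) (nat_lit 140) (nat_lit 120))) (PT.nd (nat_lit 78) (PT.lf (nat_lit 20292) (nat_lit 6) (nat_lit 267) (nat_lit 2) (nat_lit 131) (nat_lit 140) (nat_lit 119)) (PT.lf (nat_lit 19456) (nat_lit 6) (nat_lit 256) (nat_lit 2) (nat_lit 132) (nat_lit 140) (nat_lit 118)))) (PT.nd (nat_lit 156) (PT.nd (nat_lit 78) (PT.lf (nat_lit 18544) (nat_lit 6) (nat_lit 244) (nat_lit 2) (nat_lit 133) (nat_lit 140) (nat_lit 117)) (PT.lf (nat_lit 17556) (nat_lit 6) (nat_lit 231) (nat_lit 2) (nat_lit 134) (nat_lit 140) (nat_lit 116))) (PT.nd (nat_lit 78) (PT.lf (nat_lit 16492) (nat_lit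 6) (nat_lit 217) (nat_lit 2) (nat_lit 135) (nat_lit 140) (nat_lit 115)) (PT.lf (nat_lit 15352) (nat_lit 6) (nat_lit 202) (nat_lit 2) (nat_lit 136) (nat_lit 140) (nat_lit 114))))))))
noncomputable def pc20 : PT := (PT.nd (nat_lit 39000) (PT.nd (nat_lit 37830) (PT.nd (nat_lit 546) (PT.nd (nat_lit 234) (PT.nd (nat_lit 78) (PT.lf (nat_lit 14592) (nat_lit 6) (nat_lit 192) (nat_lit 2) (nat_lit 137) (nat_lit 140) (nat_lit 113)) (PT.nd (nat_lit 78) (PT.lf (nat_lit 13984) (nat_lit 6) (nat_lit 184) (nat_lit 2) (nat_lit 138) (nat_lit 140) (nat_lit 112)) (PT.lf (nat_lit 13452) (nat_lit 6) (nat_lit 177) (nat_lit 2) (nat_lit 139) (nat_lit 140) (nat_lit 111)))) (PT.nd (nat_lit 156) (PT.nd (nat_lit 78) (PT.lf (nat_lit 12920) (nat_lit 3) (nat_lit 170) (nat_lit 0) (nat_lit 140) (nat_lit 140) (nat_lit 110)) (PT.lf (nat_lit 12312) (nat_lit 6) (nat_lit 162) (nat_lit 0) (nat_lit 141) (nat_lit 140) (nat_lit 109))) (PT.nd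 (nat_lit 78) (PT.lf (nat_lit 11704) (nat_lit 6) (nat_lit 154) (nat_lit 0) (nat_lit 142) (nat_lit 140) (nat_lit 108)) (PT.lf (nat_lit 11172) (nat_lit 6) (nat_lit 147) (nat_lit 0) (nat_lit 143) (nat_lit 140) (nat_lit 107))))) (PT.nd (nat_lit 234) (PT.nd (nat_lit 78) (PT.lf (nat_lit 10640) (nat_lit 6) (nat_lit 140) (nat_lit 0) (nat_lit 144) (nat_lit 140) (nat_lit 106)) (PT.nd (nat_lit 78) (PT.lf (nat_lit 10184) (nat_lit 6) (nat_lit 134) (nat_lit 0) (nat_lit 145) (nat_lit 140) (nat_lit 105)) (PT.lf (nat_lit 9652) (nat_lit 6) (nat_lit 127) (nat_lit 0) (nat_lit 146) (nat_lit 140) (nat_lit 104)))) (PT.nd (nat_lit 156) (PT.nd (nat_lit 78) (PT.lf (nat_lit 9196) (nat_lit 6) (nat_lit 121) (nat_lit 0) (nat_lit 147) (nat_lit 140) (nat_lit 103)) (PT.lf (nat_lit 8740) (nat_lit 6) (nat_lit 115) (nat_lit 0) (nat_lit 148) (nat_lit 140) (nat_lit 102))) (PT.nd (nat_lit 36816) (PT.lf (nat_lit 8284) (nat_lit 6) (nat_lit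 109) (nat_lit 0) (nat_lit 149) (nat_lit 140) (nat_lit 101)) (PT.lf (nat_lit 7904) (nat_lit 6) (nat_lit 104) (nat_lit 5) (nat_lit 100) (nat_lit 141) (nat_lit 149)))))) (PT.nd (nat_lit 546) (PT.nd (nat_lit 234) (PT.nd (nat_lit 78) (PT.lf (nat_lit 8360) (nat_lit 6) (nat_lit 110) (nat_lit 5) (nat_lit 101) (nat_lit 141) (nat_lit 148)) (PT.nd (nat_lit 78) (PT.lf (nat_lit 8816) (nat_lit 6) (nat_lit 116) (nat_lit 5) (nat_lit 102) (nat_lit 141) (nat_lit 147)) (PT.lf (nat_lit 9272) (nat_lit 6) (nat_lit 122) (nat_lit 5) (nat_lit 103) (nat_lit 141) (nat_lit 146)))) (PT.nd (nat_lit 156) (PT.nd (nat_lit 78) (PT.lf (nat_lit 9728) (nat_lit 6) (nat_lit 128) (nat_lit 5) (nat_lit 104) (nat_lit 141) (nat_lit 145)) (PT.lf (nat_lit 10260) (nat_lit 6) (nat_lit 135) (nat_lit 5) (nat_lit 105) (nat_lit 141) (nat_lit 144))) (PT.nd (nat_lit 78) (PT.lf (nat_lit 10716) (nat_lit 6) (nat_lit 141) (nat_lit 5) (nat_lit 106) (nat_lit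 141) (nat_lit 143)) (PT.lf (nat_lit 11248) (nat_lit 6) (nat_lit 148) (nat_lit 5) (nat_lit 107) (nat_lit 141) (nat_lit 142))))) (PT.nd (nat_lit 312) (PT.nd (nat_lit 156) (PT.nd (nat_lit 78) (PT.lf (nat_lit 11780) (nat_lit 3) (nat_lit 155) (nat_lit 4) (nat_lit 108) (nat_lit 141) (nat_lit 141)) (PT.lf (nat_lit 12312) (nat_lit 6) (nat_lit 162) (nat_lit 4) (nat_lit 109) (nat_lit 141) (nat_lit 140))) (PT.nd (nat_lit 78) (PT.lf (nat_lit 12844) (nat_lit 6) (nat_lit 169) (nat_lit 4) (nat_lit 110) (nat_lit 141) (nat_lit 139)) (PT.lf (nat_lit 13376) (nat_lit 6) (nat_lit 176) (nat_lit 4) (nat_lit 111) (nat_lit 141) (nat_lit 138)))) (PT.nd (nat_lit 156) (PT.nd (nat_lit 78) (PT.lf (nat_lit 13908) (nat_lit 6) (nat_lit 183) (nat_lit 4) (nat_lit 112) (nat_lit 141) (nat_lit 137)) (PT.lf (nat_lit 14516) (nat_lit 6) (nat_lit 191) (nat_lit 4) (nat_lit 113) (nat_lit 141) (nat_lit 136))) (PT.nd (nat_lit 78) (PT.lf (nat_lit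 15276) (nat_lit 6) (nat_lit 201) (nat_lit 4) (nat_lit 114) (nat_lit 141) (nat_lit 135)) (PT.lf (nat_lit 16416) (nat_lit 6) (nat_lit 216) (nat_lit 4) (nat_lit 115) (nat_lit 141) (nat_lit 134))))))) (PT.nd (nat_lit 1092) (PT.nd (nat_lit 546) (PT.nd (nat_lit 234) (PT.nd (nat_lit 78) (PT.lf (nat_lit 17480) (nat_lit 6) (nat_lit 230) (nat_lit 4) (nat_lit 116) (nat_lit 141) (nat_lit 133)) (PT.nd (nat_lit 78) (PT.lf (nat_lit 18468) (nat_lit 6) (nat_lit 243) (nat_lit 4) (nat_lit 117) (nat_lit 141) (nat_lit 132)) (PT.lf (nat_lit 19380) (nat_lit 6) (nat_lit 255) (nat_lit 4) (nat_lit 118) (nat_lit 141) (nat_lit 131)))) (PT.nd (nat_lit 156) (PT.nd (nat_lit 78) (PT.lf (nat_lit 20216) (nat_lit 6) (nat_lit 266) (nat_lit 4) (nat_lit 119) (nat_lit 141) (nat_lit 130)) (PT.lf (nat_lit 20140) (nat_lit 6) (nat_lit 265) (nat_lit 4) (nat_lit 120) (nat_lit 141) (nat_lit 129))) (PT.nd (nat_lit 78) (PT.lf (nat_lit 20064)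 (nat_lit 6) (nat_lit 264) (nat_lit 4) (nat_lit 121) (nat_lit 141) (nat_lit 128)) (PT.lf (nat_lit 19988) (nat_lit 6) (nat_lit 263) (nat_lit 4) (nat_lit 122) (nat_lit 141) (nat_lit 127))))) (PT.nd (nat_lit 234) (PT.nd (nat_lit 78) (PT.lf (nat_lit 19912) (nat_lit 6) (nat_lit 262) (nat_lit 4) (nat_lit 123) (nat_lit 141) (nat_lit 126)) (PT.nd (nat_lit 78) (PT.lf (nat_lit 19836) (nat_lit 6) (nat_lit 261) (nat_lit 4) (nat_lit 124) (nat_lit 141) (nat_lit 125)) (PT.lf (nat_lit 19836) (nat_lit 6) (nat_lit 261) (nat_lit 2) (nat_lit 125) (nat_lit 141) (nat_lit 124)))) (PT.nd (nat_lit 156) (PT.nd (nat_lit 78) (PT.lf (nat_lit 19912) (nat_lit 6) (nat_lit 262) (nat_lit 2) (nat_lit 126) (nat_lit 141) (nat_lit 123)) (PT.lf (nat_lit 19988) (nat_lit 6) (nat_lit 263) (nat_lit 2) (nat_lit 127) (nat_lit 141) (nat_lit 122))) (PT.nd (nat_lit 78) (PT.lf (nat_lit 20064) (nat_lit 6) (nat_lit 264) (nat_lit 2) (nat_lit 128)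 (nat_lit 141) (nat_lit 121)) (PT.lf (nat_lit 20140) (nat_lit 6) (nat_lit 265) (nat_lit 2) (nat_lit 129) (nat_lit 141) (nat_lit 120)))))) (PT.nd (nat_lit 546) (PT.nd (nat_lit 234) (PT.nd (nat_lit 78) (PT.lf (nat_lit 20216) (nat_lit 6) (nat_lit 266) (nat_lit 2) (nat_lit 130) (nat_lit 141) (nat_lit 119)) (PT.nd (nat_lit 78) (PT.lf (nat_lit 19380) (nat_lit 6) (nat_lit 255) (nat_lit 2) (nat_lit 131) (nat_lit 141) (nat_lit 118)) (PT.lf (nat_lit 18468) (nat_lit 6) (nat_lit 243) (nat_lit 2) (nat_lit 132) (nat_lit 141) (nat_lit 117)))) (PT.nd (nat_lit 156) (PT.nd (nat_lit 78) (PT.lf (nat_lit 17480) (nat_lit 6) (nat_lit 230) (nat_lit 2) (nat_lit 133) (nat_lit 141) (nat_lit 116)) (PT.lf (nat_lit 16416) (nat_lit 6) (nat_lit 216) (nat_lit 2) (nat_lit 134) (nat_lit 141) (nat_lit 115))) (PT.nd (nat_lit 78) (PT.lf (nat_lit 15276) (nat_lit 6) (nat_lit 201) (nat_lit 2) (nat_lit 135) (nat_lit 141) (nat_lit 114)) (PT.lf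 (nat_lit 14516) (nat_lit 6) (nat_lit 191) (nat_lit 2) (nat_lit 136) (nat_lit 141) (nat_lit 113))))) (PT.nd (nat_lit 312) (PT.nd (nat_lit 156) (PT.nd (nat_lit 78) (PT.lf (nat_lit 13908) (nat_lit 6) (nat_lit 183) (nat_lit 2) (nat_lit 137) (nat_lit 141) (nat_lit 112)) (PT.lf (nat_lit 13376) (nat_lit 6) (nat_lit 176) (nat_lit 2) (nat_lit 138) (nat_lit 141) (nat_lit 111))) (PT.nd (nat_lit 78) (PT.lf (nat_lit 12844) (nat_lit 6) (nat_lit 169) (nat_lit 2) (nat_lit 139) (nat_lit 141) (nat_lit 110)) (PT.lf (nat_lit 12312) (nat_lit 6) (nat_lit 162) (nat_lit 2) (nat_lit 140) (nat_lit 141) (nat_lit 109)))) (PT.nd (nat_lit 156) (PT.nd (nat_lit 78) (PT.lf (nat_lit 11780) (nat_lit 3) (nat_lit 155) (nat_lit 0) (nat_lit 141) (nat_lit 141) (nat_lit 108)) (PT.lf (nat_lit 11248) (nat_lit 6) (nat_lit 148) (nat_lit 0) (nat_lit 142) (nat_lit 141) (nat_lit 107))) (PT.nd (nat_lit 78) (PT.lf (nat_lit 10716) (nat_lit 6) (nat_lit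 141) (nat_lit 0) (nat_lit 143) (nat_lit 141) (nat_lit 106)) (PT.lf (nat_lit 10260) (nat_lit 6) (nat_lit 135) (nat_lit 0) (nat_lit 144) (nat_lit 141) (nat_lit 105))))))))
noncomputable def pc21 : PT := (PT.nd (nat_lit 38844) (PT.nd (nat_lit 37674) (PT.nd (nat_lit 37128) (PT.nd (nat_lit 234) (PT.nd (nat_lit 78) (PT.lf (nat_lit 9728) (nat_lit 6) (nat_lit 128) (nat_lit 0) (nat_lit 145) (nat_lit 141) (nat_lit 104)) (PT.nd (nat_lit 78) (PT.lf (nat_lit 9272) (nat_lit 6) (nat_lit 122) (nat_lit 0) (nat_lit 146) (nat_lit 141) (nat_lit 103)) (PT.lf (nat_lit 8816) (nat_lit 6) (nat_lit 116) (nat_lit 0) (nat_lit 147) (nat_lit 141) (nat_lit 102)))) (PT.nd (nat_lit 36738) (PT.nd (nat_lit 78) (PT.lf (nat_lit 8360) (nat_lit 6) (nat_lit 110) (nat_lit 0) (nat_lit 148) (nat_lit 141) (nat_lit 101)) (PT.lf (nat_lit 7904) (nat_lit 6) (nat_lit 104) (nat_lit 0) (nat_lit 149) (nat_lit 141) (nat_lit 100))) (PT.nd (nat_lit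 78) (PT.lf (nat_lit 7220) (nat_lit 6) (nat_lit 95) (nat_lit 5) (nat_lit 98) (nat_lit 142) (nat_lit 150)) (PT.lf (nat_lit 7600) (nat_lit 6) (nat_lit 100) (nat_lit 5) (nat_lit 99) (nat_lit 142) (nat_lit 149))))) (PT.nd (nat_lit 234) (PT.nd (nat_lit 78) (PT.lf (nat_lit 7980) (nat_lit 6) (nat_lit 105) (nat_lit 5) (nat_lit 100) (nat_lit 142) (nat_lit 148)) (PT.nd (nat_lit 78) (PT.lf (nat_lit 8436) (nat_lit 6) (nat_lit 111) (nat_lit 5) (nat_lit 101) (nat_lit 142) (nat_lit 147)) (PT.lf (nat_lit 8892) (nat_lit 6) (nat_lit 117) (nat_lit 5) (nat_lit 102) (nat_lit 142) (nat_lit 146)))) (PT.nd (nat_lit 156) (PT.nd (nat_lit 78) (PT.lf (nat_lit 9348) (nat_lit 6) (nat_lit 123) (nat_lit 5) (nat_lit 103) (nat_lit 142) (nat_lit 145)) (PT.lf (nat_lit 9804) (nat_lit 6) (nat_lit 129) (nat_lit 5) (nat_lit 104) (nat_lit 142) (nat_lit 144))) (PT.nd (nat_lit 78) (PT.lf (nat_lit 10336) (nat_lit 6) (nat_lit 136) (nat_lit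 5) (nat_lit 105) (nat_lit 142) (nat_lit 143)) (PT.lf (nat_lit 10792) (nat_lit 3) (nat_lit 142) (nat_lit 4) (nat_lit 106) (nat_lit 142) (nat_lit 142)))))) (PT.nd (nat_lit 546) (PT.nd (nat_lit 234) (PT.nd (nat_lit 78) (PT.lf (nat_lit 11248) (nat_lit 6) (nat_lit 148) (nat_lit 4) (nat_lit 107) (nat_lit 142) (nat_lit 141)) (PT.nd (nat_lit 78) (PT.lf (nat_lit 11704) (nat_lit 6) (nat_lit 154) (nat_lit 4) (nat_lit 108) (nat_lit 142) (nat_lit 140)) (PT.lf (nat_lit 12236) (nat_lit 6) (nat_lit 161) (nat_lit 4) (nat_lit 109) (nat_lit 142) (nat_lit 139)))) (PT.nd (nat_lit 156) (PT.nd (nat_lit 78) (PT.lf (nat_lit 12768) (nat_lit 6) (nat_lit 168) (nat_lit 4) (nat_lit 110) (nat_lit 142) (nat_lit 138)) (PT.lf (nat_lit 13300) (nat_lit 6) (nat_lit 175) (nat_lit 4) (nat_lit 111) (nat_lit 142) (nat_lit 137))) (PT.nd (nat_lit 78) (PT.lf (nat_lit 13832) (nat_lit 6) (nat_lit 182) (nat_lit 4) (nat_lit 112) (nat_lit 142)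 (nat_lit 136)) (PT.lf (nat_lit 14440) (nat_lit 6) (nat_lit 190) (nat_lit 4) (nat_lit 113) (nat_lit 142) (nat_lit 135))))) (PT.nd (nat_lit 312) (PT.nd (nat_lit 156) (PT.nd (nat_lit 78) (PT.lf (nat_lit 15200) (nat_lit 6) (nat_lit 200) (nat_lit 4) (nat_lit 114) (nat_lit 142) (nat_lit 134)) (PT.lf (nat_lit 16340) (nat_lit 6) (nat_lit 215) (nat_lit 4) (nat_lit 115) (nat_lit 142) (nat_lit 133))) (PT.nd (nat_lit 78) (PT.lf (nat_lit 17404) (nat_lit 6) (nat_lit 229) (nat_lit 4) (nat_lit 116) (nat_lit 142) (nat_lit 132)) (PT.lf (nat_lit 18392) (nat_lit 6) (nat_lit 242) (nat_lit 4) (nat_lit 117) (nat_lit 142) (nat_lit 131)))) (PT.nd (nat_lit 156) (PT.nd (nat_lit 78) (PT.lf (nat_lit 19304) (nat_lit 6) (nat_lit 254) (nat_lit 4) (nat_lit 118) (nat_lit 142) (nat_lit 130)) (PT.lf (nat_lit 19228) (nat_lit 6) (nat_lit 253) (nat_lit 4) (nat_lit 119) (nat_lit 142) (nat_lit 129))) (PT.nd (nat_lit 78) (PT.lf (nat_lit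 19152) (nat_lit 6) (nat_lit 252) (nat_lit 4) (nat_lit 120) (nat_lit 142) (nat_lit 128)) (PT.lf (nat_lit 19076) (nat_lit 6) (nat_lit 251) (nat_lit 4) (nat_lit 121) (nat_lit 142) (nat_lit 127))))))) (PT.nd (nat_lit 1092) (PT.nd (nat_lit 546) (PT.nd (nat_lit 234) (PT.nd (nat_lit 78) (PT.lf (nat_lit 19000) (nat_lit 6) (nat_lit 250) (nat_lit 4) (nat_lit 122) (nat_lit 142) (nat_lit 126)) (PT.nd (nat_lit 78) (PT.lf (nat_lit 18924) (nat_lit 6) (nat_lit 249) (nat_lit 4) (nat_lit 123) (nat_lit 142) (nat_lit 125)) (PT.lf (nat_lit 18848) (nat_lit 3) (nat_lit 248) (nat_lit 2) (nat_lit 124) (nat_lit 142) (nat_lit 124)))) (PT.nd (nat_lit 156) (PT.nd (nat_lit 78) (PT.lf (nat_lit 18924) (nat_lit 6) (nat_lit 249) (nat_lit 2) (nat_lit 125) (nat_lit 142) (nat_lit 123)) (PT.lf (nat_lit 19000) (nat_lit 6) (nat_lit 250) (nat_lit 2) (nat_lit 126) (nat_lit 142) (nat_lit 122))) (PT.nd (nat_lit 78) (PT.lf (nat_lit 19076)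 (nat_lit 6) (nat_lit 251) (nat_lit 2) (nat_lit 127) (nat_lit 142) (nat_lit 121)) (PT.lf (nat_lit 19152) (nat_lit 6) (nat_lit 252) (nat_lit 2) (nat_lit 128) (nat_lit 142) (nat_lit 120))))) (PT.nd (nat_lit 234) (PT.nd (nat_lit 78) (PT.lf (nat_lit 19228) (nat_lit 6) (nat_lit 253) (nat_lit 2) (nat_lit 129) (nat_lit 142) (nat_lit 119)) (PT.nd (nat_lit 78) (PT.lf (nat_lit 19304) (nat_lit 6) (nat_lit 254) (nat_lit 2) (nat_lit 130) (nat_lit 142) (nat_lit 118)) (PT.lf (nat_lit 18392) (nat_lit 6) (nat_lit 242) (nat_lit 2) (nat_lit 131) (nat_lit 142) (nat_lit 117)))) (PT.nd (nat_lit 156) (PT.nd (nat_lit 78) (PT.lf (nat_lit 17404) (nat_lit 6) (nat_lit 229) (nat_lit 2) (nat_lit 132) (nat_lit 142) (nat_lit 116)) (PT.lf (nat_lit 16340) (nat_lit 6) (nat_lit 215) (nat_lit 2) (nat_lit 133) (nat_lit 142) (nat_lit 115))) (PT.nd (nat_lit 78) (PT.lf (nat_lit 15200) (nat_lit 6) (nat_lit 200) (nat_lit 2) (nat_lit 134)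 (nat_lit 142) (nat_lit 114)) (PT.lf (nat_lit 14440) (nat_lit 6) (nat_lit 190) (nat_lit 2) (nat_lit 135) (nat_lit 142) (nat_lit 113)))))) (PT.nd (nat_lit 546) (PT.nd (nat_lit 234) (PT.nd (nat_lit 78) (PT.lf (nat_lit 13832) (nat_lit 6) (nat_lit 182) (nat_lit 2) (nat_lit 136) (nat_lit 142) (nat_lit 112)) (PT.nd (nat_lit 78) (PT.lf (nat_lit 13300) (nat_lit 6) (nat_lit 175) (nat_lit 2) (nat_lit 137) (nat_lit 142) (nat_lit 111)) (PT.lf (nat_lit 12768) (nat_lit 6) (nat_lit 168) (nat_lit 2) (nat_lit 138) (nat_lit 142) (nat_lit 110)))) (PT.nd (nat_lit 156) (PT.nd (nat_lit 78) (PT.lf (nat_lit 12236) (nat_lit 6) (nat_lit 161) (nat_lit 2) (nat_lit 139) (nat_lit 142) (nat_lit 109)) (PT.lf (nat_lit 11704) (nat_lit 6) (nat_lit 154) (nat_lit 2) (nat_lit 140) (nat_lit 142) (nat_lit 108))) (PT.nd (nat_lit 78) (PT.lf (nat_lit 11248) (nat_lit 6) (nat_lit 148) (nat_lit 2) (nat_lit 141) (nat_lit 142) (nat_lit 107)) (PT.lf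 (nat_lit 10792) (nat_lit 3) (nat_lit 142) (nat_lit 0) (nat_lit 142) (nat_lit 142) (nat_lit 106))))) (PT.nd (nat_lit 312) (PT.nd (nat_lit 156) (PT.nd (nat_lit 78) (PT.lf (nat_lit 10336) (nat_lit 6) (nat_lit 136) (nat_lit 0) (nat_lit 143) (nat_lit 142) (nat_lit 105)) (PT.lf (nat_lit 9804) (nat_lit 6) (nat_lit 129) (nat_lit 0) (nat_lit 144) (nat_lit 142) (nat_lit 104))) (PT.nd (nat_lit 78) (PT.lf (nat_lit 9348) (nat_lit 6) (nat_lit 123) (nat_lit 0) (nat_lit 145) (nat_lit 142) (nat_lit 103)) (PT.lf (nat_lit 8892) (nat_lit 6) (nat_lit 117) (nat_lit 0) (nat_lit 146) (nat_lit 142) (nat_lit 102)))) (PT.nd (nat_lit 156) (PT.nd (nat_lit 78) (PT.lf (nat_lit 8436) (nat_lit 6) (nat_lit 111) (nat_lit 0) (nat_lit 147) (nat_lit 142) (nat_lit 101)) (PT.lf (nat_lit 7980) (nat_lit 6) (nat_lit 105) (nat_lit 0) (nat_lit 148) (nat_lit 142) (nat_lit 100))) (PT.nd (nat_lit 78) (PT.lf (nat_lit 7600) (nat_lit 6) (nat_lit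 100) (nat_lit 0) (nat_lit 149) (nat_lit 142) (nat_lit 99)) (PT.lf (nat_lit 7220) (nat_lit 6) (nat_lit 95) (nat_lit 0) (nat_lit 150) (nat_lit 142) (nat_lit 98))))))))
noncomputable def pc22 : PT := (PT.nd (nat_lit 2262) (PT.nd (nat_lit 1092) (PT.nd (nat_lit 546) (PT.nd (nat_lit 234) (PT.nd (nat_lit 78) (PT.lf (nat_lit 6916) (nat_lit 6) (nat_lit 91) (nat_lit 5) (nat_lit 97) (nat_lit 143) (nat_lit 150)) (PT.nd (nat_lit 78) (PT.lf (nat_lit 7296) (nat_lit 6) (nat_lit 96) (nat_lit 5) (nat_lit 98) (nat_lit 143) (nat_lit 149)) (PT.lf (nat_lit 7676) (nat_lit 6) (nat_lit 101) (nat_lit 5) (nat_lit 99) (nat_lit 143) (nat_lit 148)))) (PT.nd (nat_lit 156) (PT.nd (nat_lit 78) (PT.lf (nat_lit 8056) (nat_lit 6) (nat_lit 106) (nat_lit 5) (nat_lit 100) (nat_lit 143) (nat_lit 147)) (PT.lf (nat_lit 8512) (nat_lit 6) (nat_lit 112) (nat_lit 5) (nat_lit 101) (nat_lit 143) (nat_lit 146))) (PT.nd (nat_lit 78) (PT.lf (nat_lit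 8968) (nat_lit 6) (nat_lit 118) (nat_lit 5) (nat_lit 102) (nat_lit 143) (nat_lit 145)) (PT.lf (nat_lit 9424) (nat_lit 6) (nat_lit 124) (nat_lit 5) (nat_lit 103) (nat_lit 143) (nat_lit 144))))) (PT.nd (nat_lit 234) (PT.nd (nat_lit 78) (PT.lf (nat_lit 9880) (nat_lit 3) (nat_lit 130) (nat_lit 4) (nat_lit 104) (nat_lit 143) (nat_lit 143)) (PT.nd (nat_lit 78) (PT.lf (nat_lit 10336) (nat_lit 6) (nat_lit 136) (nat_lit 4) (nat_lit 105) (nat_lit 143) (nat_lit 142)) (PT.lf (nat_lit 10716) (nat_lit 6) (nat_lit 141) (nat_lit 4) (nat_lit 106) (nat_lit 143) (nat_lit 141)))) (PT.nd (nat_lit 156) (PT.nd (nat_lit 78) (PT.lf (nat_lit 11172) (nat_lit 6) (nat_lit 147) (nat_lit 4) (nat_lit 107) (nat_lit 143) (nat_lit 140)) (PT.lf (nat_lit 11628) (nat_lit 6) (nat_lit 153) (nat_lit 4) (nat_lit 108) (nat_lit 143) (nat_lit 139))) (PT.nd (nat_lit 78) (PT.lf (nat_lit 12160) (nat_lit 6) (nat_lit 160) (nat_lit 4) (nat_lit 109)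 (nat_lit 143) (nat_lit 138)) (PT.lf (nat_lit 12692) (nat_lit 6) (nat_lit 167) (nat_lit 4) (nat_lit 110) (nat_lit 143) (nat_lit 137)))))) (PT.nd (nat_lit 546) (PT.nd (nat_lit 234) (PT.nd (nat_lit 78) (PT.lf (nat_lit 13224) (nat_lit 6) (nat_lit 174) (nat_lit 4) (nat_lit 111) (nat_lit 143) (nat_lit 136)) (PT.nd (nat_lit 78) (PT.lf (nat_lit 13756) (nat_lit 6) (nat_lit 181) (nat_lit 4) (nat_lit 112) (nat_lit 143) (nat_lit 135)) (PT.lf (nat_lit 14364) (nat_lit 6) (nat_lit 189) (nat_lit 4) (nat_lit 113) (nat_lit 143) (nat_lit 134)))) (PT.nd (nat_lit 156) (PT.nd (nat_lit 78) (PT.lf (nat_lit 15124) (nat_lit 6) (nat_lit 199) (nat_lit 4) (nat_lit 114) (nat_lit 143) (nat_lit 133)) (PT.lf (nat_lit 16264) (nat_lit 6) (nat_lit 214) (nat_lit 4) (nat_lit 115) (nat_lit 143) (nat_lit 132))) (PT.nd (nat_lit 78) (PT.lf (nat_lit 17328) (nat_lit 6) (nat_lit 228) (nat_lit 4) (nat_lit 116) (nat_lit 143) (nat_lit 131)) (PT.lf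 (nat_lit 18316) (nat_lit 6) (nat_lit 241) (nat_lit 4) (nat_lit 117) (nat_lit 143) (nat_lit 130))))) (PT.nd (nat_lit 312) (PT.nd (nat_lit 156) (PT.nd (nat_lit 78) (PT.lf (nat_lit 18240) (nat_lit 6) (nat_lit 240) (nat_lit 4) (nat_lit 118) (nat_lit 143) (nat_lit 129)) (PT.lf (nat_lit 18164) (nat_lit 6) (nat_lit 239) (nat_lit 4) (nat_lit 119) (nat_lit 143) (nat_lit 128))) (PT.nd (nat_lit 78) (PT.lf (nat_lit 18088) (nat_lit 6) (nat_lit 238) (nat_lit 4) (nat_lit 120) (nat_lit 143) (nat_lit 127)) (PT.lf (nat_lit 18012) (nat_lit 6) (nat_lit 237) (nat_lit 4) (nat_lit 121) (nat_lit 143) (nat_lit 126)))) (PT.nd (nat_lit 156) (PT.nd (nat_lit 78) (PT.lf (nat_lit 17936) (nat_lit 6) (nat_lit 236) (nat_lit 4) (nat_lit 122) (nat_lit 143) (nat_lit 125)) (PT.lf (nat_lit 17860) (nat_lit 6) (nat_lit 235) (nat_lit 4) (nat_lit 123) (nat_lit 143) (nat_lit 124))) (PT.nd (nat_lit 78) (PT.lf (nat_lit 17860) (nat_lit 6) (nat_lit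 235) (nat_lit 2) (nat_lit 124) (nat_lit 143) (nat_lit 123)) (PT.lf (nat_lit 17936) (nat_lit 6) (nat_lit 236) (nat_lit 2) (nat_lit 125) (nat_lit 143) (nat_lit 122))))))) (PT.nd (nat_lit 1092) (PT.nd (nat_lit 546) (PT.nd (nat_lit 234) (PT.nd (nat_lit 78) (PT.lf (nat_lit 18012) (nat_lit 6) (nat_lit 237) (nat_lit 2) (nat_lit 126) (nat_lit 143) (nat_lit 121)) (PT.nd (nat_lit 78) (PT.lf (nat_lit 18088) (nat_lit 6) (nat_lit 238) (nat_lit 2) (nat_lit 127) (nat_lit 143) (nat_lit 120)) (PT.lf (nat_lit 18164) (nat_lit 6) (nat_lit 239) (nat_lit 2) (nat_lit 128) (nat_lit 143) (nat_lit 119)))) (PT.nd (nat_lit 156) (PT.nd (nat_lit 78) (PT.lf (nat_lit 18240) (nat_lit 6) (nat_lit 240) (nat_lit 2) (nat_lit 129) (nat_lit 143) (nat_lit 118)) (PT.lf (nat_lit 18316) (nat_lit 6) (nat_lit 241) (nat_lit 2) (nat_lit 130) (nat_lit 143) (nat_lit 117))) (PT.nd (nat_lit 78) (PT.lf (nat_lit 17328) (nat_lit 6) (nat_lit 228) (nat_lit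 2) (nat_lit 131) (nat_lit 143) (nat_lit 116)) (PT.lf (nat_lit 16264) (nat_lit 6) (nat_lit 214) (nat_lit 2) (nat_lit 132) (nat_lit 143) (nat_lit 115))))) (PT.nd (nat_lit 234) (PT.nd (nat_lit 78) (PT.lf (nat_lit 15124) (nat_lit 6) (nat_lit 199) (nat_lit 2) (nat_lit 133) (nat_lit 143) (nat_lit 114)) (PT.nd (nat_lit 78) (PT.lf (nat_lit 14364) (nat_lit 6) (nat_lit 189) (nat_lit 2) (nat_lit 134) (nat_lit 143) (nat_lit 113)) (PT.lf (nat_lit 13756) (nat_lit 6) (nat_lit 181) (nat_lit 2) (nat_lit 135) (nat_lit 143) (nat_lit 112)))) (PT.nd (nat_lit 156) (PT.nd (nat_lit 78) (PT.lf (nat_lit 13224) (nat_lit 6) (nat_lit 174) (nat_lit 2) (nat_lit 136) (nat_lit 143) (nat_lit 111)) (PT.lf (nat_lit 12692) (nat_lit 6) (nat_lit 167) (nat_lit 2) (nat_lit 137) (nat_lit 143) (nat_lit 110))) (PT.nd (nat_lit 78) (PT.lf (nat_lit 12160) (nat_lit 6) (nat_lit 160) (nat_lit 2) (nat_lit 138) (nat_lit 143) (nat_lit 109)) (PT.lf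 (nat_lit 11628) (nat_lit 6) (nat_lit 153) (nat_lit 2) (nat_lit 139) (nat_lit 143) (nat_lit 108)))))) (PT.nd (nat_lit 546) (PT.nd (nat_lit 234) (PT.nd (nat_lit 78) (PT.lf (nat_lit 11172) (nat_lit 6) (nat_lit 147) (nat_lit 2) (nat_lit 140) (nat_lit 143) (nat_lit 107)) (PT.nd (nat_lit 78) (PT.lf (nat_lit 10716) (nat_lit 6) (nat_lit 141) (nat_lit 2) (nat_lit 141) (nat_lit 143) (nat_lit 106)) (PT.lf (nat_lit 10336) (nat_lit 6) (nat_lit 136) (nat_lit 2) (nat_lit 142) (nat_lit 143) (nat_lit 105)))) (PT.nd (nat_lit 156) (PT.nd (nat_lit 78) (PT.lf (nat_lit 9880) (nat_lit 3) (nat_lit 130) (nat_lit 0) (nat_lit 143) (nat_lit 143) (nat_lit 104)) (PT.lf (nat_lit 9424) (nat_lit 6) (nat_lit 124) (nat_lit 0) (nat_lit 144) (nat_lit 143) (nat_lit 103))) (PT.nd (nat_lit 78) (PT.lf (nat_lit 8968) (nat_lit 6) (nat_lit 118) (nat_lit 0) (nat_lit 145) (nat_lit 143) (nat_lit 102)) (PT.lf (nat_lit 8512) (nat_lit 6) (nat_lit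 112) (nat_lit 0) (nat_lit 146) (nat_lit 143) (nat_lit 101))))) (PT.nd (nat_lit 36582) (PT.nd (nat_lit 156) (PT.nd (nat_lit 78) (PT.lf (nat_lit 8056) (nat_lit 6) (nat_lit 106) (nat_lit 0) (nat_lit 147) (nat_lit 143) (nat_lit 100)) (PT.lf (nat_lit 7676) (nat_lit 6) (nat_lit 101) (nat_lit 0) (nat_lit 148) (nat_lit 143) (nat_lit 99))) (PT.nd (nat_lit 78) (PT.lf (nat_lit 7296) (nat_lit 6) (nat_lit 96) (nat_lit 0) (nat_lit 149) (nat_lit 143) (nat_lit 98)) (PT.lf (nat_lit 6916) (nat_lit 6) (nat_lit 91) (nat_lit 0) (nat_lit 150) (nat_lit 143) (nat_lit 97)))) (PT.nd (nat_lit 156) (PT.nd (nat_lit 78) (PT.lf (nat_lit 6308) (nat_lit 6) (nat_lit 83) (nat_lit 5) (nat_lit 95) (nat_lit 144) (nat_lit 151)) (PT.lf (nat_lit 6612) (nat_lit 6) (nat_lit 87) (nat_lit 5) (nat_lit 96) (nat_lit 144) (nat_lit 150))) (PT.nd (nat_lit 78) (PT.lf (nat_lit 6992) (nat_lit 6) (nat_lit 92) (nat_lit 5) (nat_lit 97) (nat_lit 144) (nat_lit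 149)) (PT.lf (nat_lit 7372) (nat_lit 6) (nat_lit 97) (nat_lit 5) (nat_lit 98) (nat_lit 144) (nat_lit 148))))))))
noncomputable def pc23 : PT := (PT.nd (nat_lit 2262) (PT.nd (nat_lit 1092) (PT.nd (nat_lit 546) (PT.nd (nat_lit 234) (PT.nd (nat_lit 78) (PT.lf (nat_lit 7752) (nat_lit 6) (nat_lit 102) (nat_lit 5) (nat_lit 99) (nat_lit 144) (nat_lit 147)) (PT.nd (nat_lit 78) (PT.lf (nat_lit 8132) (nat_lit 6) (nat_lit 107) (nat_lit 5) (nat_lit 100) (nat_lit 144) (nat_lit 146)) (PT.lf (nat_lit 8588) (nat_lit 6) (nat_lit 113) (nat_lit 5) (nat_lit 101) (nat_lit 144) (nat_lit 145)))) (PT.nd (nat_lit 156) (PT.nd (nat_lit 78) (PT.lf (nat_lit 9044) (nat_lit 3) (nat_lit 119) (nat_lit 4) (nat_lit 102) (nat_lit 144) (nat_lit 144)) (PT.lf (nat_lit 9424) (nat_lit 6) (nat_lit 124) (nat_lit 4) (nat_lit 103) (nat_lit 144) (nat_lit 143))) (PT.nd (nat_lit 78) (PT.lf (nat_lit 9804) (nat_lit 6) (nat_lit 129) (nat_lit 4)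 (nat_lit 104) (nat_lit 144) (nat_lit 142)) (PT.lf (nat_lit 10260) (nat_lit 6) (nat_lit 135) (nat_lit 4) (nat_lit 105) (nat_lit 144) (nat_lit 141))))) (PT.nd (nat_lit 234) (PT.nd (nat_lit 78) (PT.lf (nat_lit 10640) (nat_lit 6) (nat_lit 140) (nat_lit 4) (nat_lit 106) (nat_lit 144) (nat_lit 140)) (PT.nd (nat_lit 78) (PT.lf (nat_lit 11096) (nat_lit 6) (nat_lit 146) (nat_lit 4) (nat_lit 107) (nat_lit 144) (nat_lit 139)) (PT.lf (nat_lit 11552) (nat_lit 6) (nat_lit 152) (nat_lit 4) (nat_lit 108) (nat_lit 144) (nat_lit 138)))) (PT.nd (nat_lit 156) (PT.nd (nat_lit 78) (PT.lf (nat_lit 12084) (nat_lit 6) (nat_lit 159) (nat_lit 4) (nat_lit 109) (nat_lit 144) (nat_lit 137)) (PT.lf (nat_lit 12616) (nat_lit 6) (nat_lit 166) (nat_lit 4) (nat_lit 110) (nat_lit 144) (nat_lit 136))) (PT.nd (nat_lit 78) (PT.lf (nat_lit 13148) (nat_lit 6) (nat_lit 173) (nat_lit 4) (nat_lit 111) (nat_lit 144) (nat_lit 135)) (PT.lf (nat_lit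 13680) (nat_lit 6) (nat_lit 180) (nat_lit 4) (nat_lit 112) (nat_lit 144) (nat_lit 134)))))) (PT.nd (nat_lit 546) (PT.nd (nat_lit 234) (PT.nd (nat_lit 78) (PT.lf (nat_lit 14288) (nat_lit 6) (nat_lit 188) (nat_lit 4) (nat_lit 113) (nat_lit 144) (nat_lit 133)) (PT.nd (nat_lit 78) (PT.lf (nat_lit 15048) (nat_lit 6) (nat_lit 198) (nat_lit 4) (nat_lit 114) (nat_lit 144) (nat_lit 132)) (PT.lf (nat_lit 16188) (nat_lit 6) (nat_lit 213) (nat_lit 4) (nat_lit 115) (nat_lit 144) (nat_lit 131)))) (PT.nd (nat_lit 156) (PT.nd (nat_lit 78) (PT.lf (nat_lit 17252) (nat_lit 6) (nat_lit 227) (nat_lit 4) (nat_lit 116) (nat_lit 144) (nat_lit 130)) (PT.lf (nat_lit 17176) (nat_lit 6) (nat_lit 226) (nat_lit 4) (nat_lit 117) (nat_lit 144) (nat_lit 129))) (PT.nd (nat_lit 78) (PT.lf (nat_lit 17100) (nat_lit 6) (nat_lit 225) (nat_lit 4) (nat_lit 118) (nat_lit 144) (nat_lit 128)) (PT.lf (nat_lit 17024) (nat_lit 6) (nat_lit 224)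 (nat_lit 4) (nat_lit 119) (nat_lit 144) (nat_lit 127))))) (PT.nd (nat_lit 312) (PT.nd (nat_lit 156) (PT.nd (nat_lit 78) (PT.lf (nat_lit 16948) (nat_lit 6) (nat_lit 223) (nat_lit 4) (nat_lit 120) (nat_lit 144) (nat_lit 126)) (PT.lf (nat_lit 16872) (nat_lit 6) (nat_lit 222) (nat_lit 4) (nat_lit 121) (nat_lit 144) (nat_lit 125))) (PT.nd (nat_lit 78) (PT.lf (nat_lit 16796) (nat_lit 6) (nat_lit 221) (nat_lit 4) (nat_lit 122) (nat_lit 144) (nat_lit 124)) (PT.lf (nat_lit 16720) (nat_lit 3) (nat_lit 220) (nat_lit 2) (nat_lit 123) (nat_lit 144) (nat_lit 123)))) (PT.nd (nat_lit 156) (PT.nd (nat_lit 78) (PT.lf (nat_lit 16796) (nat_lit 6) (nat_lit 221) (nat_lit 2) (nat_lit 124) (nat_lit 144) (nat_lit 122)) (PT.lf (nat_lit 16872) (nat_lit 6) (nat_lit 222) (nat_lit 2) (nat_lit 125) (nat_lit 144) (nat_lit 121))) (PT.nd (nat_lit 78) (PT.lf (nat_lit 16948) (nat_lit 6) (nat_lit 223) (nat_lit 2) (nat_lit 126) (nat_lit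 144) (nat_lit 120)) (PT.lf (nat_lit 17024) (nat_lit 6) (nat_lit 224) (nat_lit 2) (nat_lit 127) (nat_lit 144) (nat_lit 119))))))) (PT.nd (nat_lit 1092) (PT.nd (nat_lit 546) (PT.nd (nat_lit 234) (PT.nd (nat_lit 78) (PT.lf (nat_lit 17100) (nat_lit 6) (nat_lit 225) (nat_lit 2) (nat_lit 128) (nat_lit 144) (nat_lit 118)) (PT.nd (nat_lit 78) (PT.lf (nat_lit 17176) (nat_lit 6) (nat_lit 226) (nat_lit 2) (nat_lit 129) (nat_lit 144) (nat_lit 117)) (PT.lf (nat_lit 17252) (nat_lit 6) (nat_lit 227) (nat_lit 2) (nat_lit 130) (nat_lit 144) (nat_lit 116)))) (PT.nd (nat_lit 156) (PT.nd (nat_lit 78) (PT.lf (nat_lit 16188) (nat_lit 6) (nat_lit 213) (nat_lit 2) (nat_lit 131) (nat_lit 144) (nat_lit 115)) (PT.lf (nat_lit 15048) (nat_lit 6) (nat_lit 198) (nat_lit 2) (nat_lit 132) (nat_lit 144) (nat_lit 114))) (PT.nd (nat_lit 78) (PT.lf (nat_lit 14288) (nat_lit 6) (nat_lit 188) (nat_lit 2) (nat_lit 133) (nat_lit 144) (nat_lit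 113)) (PT.lf (nat_lit 13680) (nat_lit 6) (nat_lit 180) (nat_lit 2) (nat_lit 134) (nat_lit 144) (nat_lit 112))))) (PT.nd (nat_lit 234) (PT.nd (nat_lit 78) (PT.lf (nat_lit 13148) (nat_lit 6) (nat_lit 173) (nat_lit 2) (nat_lit 135) (nat_lit 144) (nat_lit 111)) (PT.nd (nat_lit 78) (PT.lf (nat_lit 12616) (nat_lit 6) (nat_lit 166) (nat_lit 2) (nat_lit 136) (nat_lit 144) (nat_lit 110)) (PT.lf (nat_lit 12084) (nat_lit 6) (nat_lit 159) (nat_lit 2) (nat_lit 137) (nat_lit 144) (nat_lit 109)))) (PT.nd (nat_lit 156) (PT.nd (nat_lit 78) (PT.lf (nat_lit 11552) (nat_lit 6) (nat_lit 152) (nat_lit 2) (nat_lit 138) (nat_lit 144) (nat_lit 108)) (PT.lf (nat_lit 11096) (nat_lit 6) (nat_lit 146) (nat_lit 2) (nat_lit 139) (nat_lit 144) (nat_lit 107))) (PT.nd (nat_lit 78) (PT.lf (nat_lit 10640) (nat_lit 6) (nat_lit 140) (nat_lit 2) (nat_lit 140) (nat_lit 144) (nat_lit 106)) (PT.lf (nat_lit 10260) (nat_lit 6) (nat_lit 135)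 (nat_lit 2) (nat_lit 141) (nat_lit 144) (nat_lit 105)))))) (PT.nd (nat_lit 546) (PT.nd (nat_lit 234) (PT.nd (nat_lit 78) (PT.lf (nat_lit 9804) (nat_lit 6) (nat_lit 129) (nat_lit 2) (nat_lit 142) (nat_lit 144) (nat_lit 104)) (PT.nd (nat_lit 78) (PT.lf (nat_lit 9424) (nat_lit 6) (nat_lit 124) (nat_lit 2) (nat_lit 143) (nat_lit 144) (nat_lit 103)) (PT.lf (nat_lit 9044) (nat_lit 3) (nat_lit 119) (nat_lit 0) (nat_lit 144) (nat_lit 144) (nat_lit 102)))) (PT.nd (nat_lit 156) (PT.nd (nat_lit 78) (PT.lf (nat_lit 8588) (nat_lit 6) (nat_lit 113) (nat_lit 0) (nat_lit 145) (nat_lit 144) (nat_lit 101)) (PT.lf (nat_lit 8132) (nat_lit 6) (nat_lit 107) (nat_lit 0) (nat_lit 146) (nat_lit 144) (nat_lit 100))) (PT.nd (nat_lit 78) (PT.lf (nat_lit 7752) (nat_lit 6) (nat_lit 102) (nat_lit 0) (nat_lit 147) (nat_lit 144) (nat_lit 99)) (PT.lf (nat_lit 7372) (nat_lit 6) (nat_lit 97) (nat_lit 0) (nat_lit 148) (nat_lit 144)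 (nat_lit 98))))) (PT.nd (nat_lit 36426) (PT.nd (nat_lit 156) (PT.nd (nat_lit 78) (PT.lf (nat_lit 6992) (nat_lit 6) (nat_lit 92) (nat_lit 0) (nat_lit 149) (nat_lit 144) (nat_lit 97)) (PT.lf (nat_lit 6612) (nat_lit 6) (nat_lit 87) (nat_lit 0) (nat_lit 150) (nat_lit 144) (nat_lit 96))) (PT.nd (nat_lit 36192) (PT.lf (nat_lit 6308) (nat_lit 6) (nat_lit 83) (nat_lit 0) (nat_lit 151) (nat_lit 144) (nat_lit 95)) (PT.lf (nat_lit 6004) (nat_lit 6) (nat_lit 79) (nat_lit 5) (nat_lit 94) (nat_lit 145) (nat_lit 151)))) (PT.nd (nat_lit 156) (PT.nd (nat_lit 78) (PT.lf (nat_lit 6384) (nat_lit 6) (nat_lit 84) (nat_lit 5) (nat_lit 95) (nat_lit 145) (nat_lit 150)) (PT.lf (nat_lit 6688) (nat_lit 6) (nat_lit 88) (nat_lit 5) (nat_lit 96) (nat_lit 145) (nat_lit 149))) (PT.nd (nat_lit 78) (PT.lf (nat_lit 7068) (nat_lit 6) (nat_lit 93) (nat_lit 5) (nat_lit 97) (nat_lit 145) (nat_lit 148)) (PT.lf (nat_lit 7448) (nat_lit 6)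 (nat_lit 98) (nat_lit 5) (nat_lit 98) (nat_lit 145) (nat_lit 147))))))))
noncomputable def pc24 : PT := (PT.nd (nat_lit 2262) (PT.nd (nat_lit 1092) (PT.nd (nat_lit 546) (PT.nd (nat_lit 234) (PT.nd (nat_lit 78) (PT.lf (nat_lit 7828) (nat_lit 6) (nat_lit 103) (nat_lit 5) (nat_lit 99) (nat_lit 145) (nat_lit 146)) (PT.nd (nat_lit 78) (PT.lf (nat_lit 8208) (nat_lit 3) (nat_lit 108) (nat_lit 4) (nat_lit 100) (nat_lit 145) (nat_lit 145)) (PT.lf (nat_lit 8588) (nat_lit 6) (nat_lit 113) (nat_lit 4) (nat_lit 101) (nat_lit 145) (nat_lit 144)))) (PT.nd (nat_lit 156) (PT.nd (nat_lit 78) (PT.lf (nat_lit 8968) (nat_lit 6) (nat_lit 118) (nat_lit 4) (nat_lit 102) (nat_lit 145) (nat_lit 143)) (PT.lf (nat_lit 9348) (nat_lit 6) (nat_lit 123) (nat_lit 4) (nat_lit 103) (nat_lit 145) (nat_lit 142))) (PT.nd (nat_lit 78) (PT.lf (nat_lit 9728) (nat_lit 6) (nat_lit 128) (nat_lit 4) (nat_lit 104) (nat_lit 145) (nat_lit 141))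 (PT.lf (nat_lit 10184) (nat_lit 6) (nat_lit 134) (nat_lit 4) (nat_lit 105) (nat_lit 145) (nat_lit 140))))) (PT.nd (nat_lit 234) (PT.nd (nat_lit 78) (PT.lf (nat_lit 10564) (nat_lit 6) (nat_lit 139) (nat_lit 4) (nat_lit 106) (nat_lit 145) (nat_lit 139)) (PT.nd (nat_lit 78) (PT.lf (nat_lit 11020) (nat_lit 6) (nat_lit 145) (nat_lit 4) (nat_lit 107) (nat_lit 145) (nat_lit 138)) (PT.lf (nat_lit 11476) (nat_lit 6) (nat_lit 151) (nat_lit 4) (nat_lit 108) (nat_lit 145) (nat_lit 137)))) (PT.nd (nat_lit 156) (PT.nd (nat_lit 78) (PT.lf (nat_lit 12008) (nat_lit 6) (nat_lit 158) (nat_lit 4) (nat_lit 109) (nat_lit 145) (nat_lit 136)) (PT.lf (nat_lit 12540) (nat_lit 6) (nat_lit 165) (nat_lit 4) (nat_lit 110) (nat_lit 145) (nat_lit 135))) (PT.nd (nat_lit 78) (PT.lf (nat_lit 13072) (nat_lit 6) (nat_lit 172) (nat_lit 4) (nat_lit 111) (nat_lit 145) (nat_lit 134)) (PT.lf (nat_lit 13604) (nat_lit 6) (nat_lit 179) (nat_lit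 4) (nat_lit 112) (nat_lit 145) (nat_lit 133)))))) (PT.nd (nat_lit 546) (PT.nd (nat_lit 234) (PT.nd (nat_lit 78) (PT.lf (nat_lit 14212) (nat_lit 6) (nat_lit 187) (nat_lit 4) (nat_lit 113) (nat_lit 145) (nat_lit 132)) (PT.nd (nat_lit 78) (PT.lf (nat_lit 14972) (nat_lit 6) (nat_lit 197) (nat_lit 4) (nat_lit 114) (nat_lit 145) (nat_lit 131)) (PT.lf (nat_lit 16112) (nat_lit 6) (nat_lit 212) (nat_lit 4) (nat_lit 115) (nat_lit 145) (nat_lit 130)))) (PT.nd (nat_lit 156) (PT.nd (nat_lit 78) (PT.lf (nat_lit 16036) (nat_lit 6) (nat_lit 211) (nat_lit 4) (nat_lit 116) (nat_lit 145) (nat_lit 129)) (PT.lf (nat_lit 15960) (nat_lit 6) (nat_lit 210) (nat_lit 4) (nat_lit 117) (nat_lit 145) (nat_lit 128))) (PT.nd (nat_lit 78) (PT.lf (nat_lit 15884) (nat_lit 6) (nat_lit 209) (nat_lit 4) (nat_lit 118) (nat_lit 145) (nat_lit 127)) (PT.lf (nat_lit 15808) (nat_lit 6) (nat_lit 208) (nat_lit 4) (nat_lit 119) (nat_lit 145)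 (nat_lit 126))))) (PT.nd (nat_lit 312) (PT.nd (nat_lit 156) (PT.nd (nat_lit 78) (PT.lf (nat_lit 15732) (nat_lit 6) (nat_lit 207) (nat_lit 4) (nat_lit 120) (nat_lit 145) (nat_lit 125)) (PT.lf (nat_lit 15656) (nat_lit 6) (nat_lit 206) (nat_lit 4) (nat_lit 121) (nat_lit 145) (nat_lit 124))) (PT.nd (nat_lit 78) (PT.lf (nat_lit 15580) (nat_lit 6) (nat_lit 205) (nat_lit 4) (nat_lit 122) (nat_lit 145) (nat_lit 123)) (PT.lf (nat_lit 15580) (nat_lit 6) (nat_lit 205) (nat_lit 2) (nat_lit 123) (nat_lit 145) (nat_lit 122)))) (PT.nd (nat_lit 156) (PT.nd (nat_lit 78) (PT.lf (nat_lit 15656) (nat_lit 6) (nat_lit 206) (nat_lit 2) (nat_lit 124) (nat_lit 145) (nat_lit 121)) (PT.lf (nat_lit 15732) (nat_lit 6) (nat_lit 207) (nat_lit 2) (nat_lit 125) (nat_lit 145) (nat_lit 120))) (PT.nd (nat_lit 78) (PT.lf (nat_lit 15808) (nat_lit 6) (nat_lit 208) (nat_lit 2) (nat_lit 126) (nat_lit 145) (nat_lit 119)) (PT.lf (nat_lit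 15884) (nat_lit 6) (nat_lit 209) (nat_lit 2) (nat_lit 127) (nat_lit 145) (nat_lit 118))))))) (PT.nd (nat_lit 1092) (PT.nd (nat_lit 546) (PT.nd (nat_lit 234) (PT.nd (nat_lit 78) (PT.lf (nat_lit 15960) (nat_lit 6) (nat_lit 210) (nat_lit 2) (nat_lit 128) (nat_lit 145) (nat_lit 117)) (PT.nd (nat_lit 78) (PT.lf (nat_lit 16036) (nat_lit 6) (nat_lit 211) (nat_lit 2) (nat_lit 129) (nat_lit 145) (nat_lit 116)) (PT.lf (nat_lit 16112) (nat_lit 6) (nat_lit 212) (nat_lit 2) (nat_lit 130) (nat_lit 145) (nat_lit 115)))) (PT.nd (nat_lit 156) (PT.nd (nat_lit 78) (PT.lf (nat_lit 14972) (nat_lit 6) (nat_lit 197) (nat_lit 2) (nat_lit 131) (nat_lit 145) (nat_lit 114)) (PT.lf (nat_lit 14212) (nat_lit 6) (nat_lit 187) (nat_lit 2) (nat_lit 132) (nat_lit 145) (nat_lit 113))) (PT.nd (nat_lit 78) (PT.lf (nat_lit 13604) (nat_lit 6) (nat_lit 179) (nat_lit 2) (nat_lit 133) (nat_lit 145) (nat_lit 112)) (PT.lf (nat_lit 13072)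 (nat_lit 6) (nat_lit 172) (nat_lit 2) (nat_lit 134) (nat_lit 145) (nat_lit 111))))) (PT.nd (nat_lit 234) (PT.nd (nat_lit 78) (PT.lf (nat_lit 12540) (nat_lit 6) (nat_lit 165) (nat_lit 2) (nat_lit 135) (nat_lit 145) (nat_lit 110)) (PT.nd (nat_lit 78) (PT.lf (nat_lit 12008) (nat_lit 6) (nat_lit 158) (nat_lit 2) (nat_lit 136) (nat_lit 145) (nat_lit 109)) (PT.lf (nat_lit 11476) (nat_lit 6) (nat_lit 151) (nat_lit 2) (nat_lit 137) (nat_lit 145) (nat_lit 108)))) (PT.nd (nat_lit 156) (PT.nd (nat_lit 78) (PT.lf (nat_lit 11020) (nat_lit 6) (nat_lit 145) (nat_lit 2) (nat_lit 138) (nat_lit 145) (nat_lit 107)) (PT.lf (nat_lit 10564) (nat_lit 6) (nat_lit 139) (nat_lit 2) (nat_lit 139) (nat_lit 145) (nat_lit 106))) (PT.nd (nat_lit 78) (PT.lf (nat_lit 10184) (nat_lit 6) (nat_lit 134) (nat_lit 2) (nat_lit 140) (nat_lit 145) (nat_lit 105)) (PT.lf (nat_lit 9728) (nat_lit 6) (nat_lit 128) (nat_lit 2) (nat_lit 141) (nat_lit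 145) (nat_lit 104)))))) (PT.nd (nat_lit 546) (PT.nd (nat_lit 234) (PT.nd (nat_lit 78) (PT.lf (nat_lit 9348) (nat_lit 6) (nat_lit 123) (nat_lit 2) (nat_lit 142) (nat_lit 145) (nat_lit 103)) (PT.nd (nat_lit 78) (PT.lf (nat_lit 8968) (nat_lit 6) (nat_lit 118) (nat_lit 2) (nat_lit 143) (nat_lit 145) (nat_lit 102)) (PT.lf (nat_lit 8588) (nat_lit 6) (nat_lit 113) (nat_lit 2) (nat_lit 144) (nat_lit 145) (nat_lit 101)))) (PT.nd (nat_lit 156) (PT.nd (nat_lit 78) (PT.lf (nat_lit 8208) (nat_lit 3) (nat_lit 108) (nat_lit 0) (nat_lit 145) (nat_lit 145) (nat_lit 100)) (PT.lf (nat_lit 7828) (nat_lit 6) (nat_lit 103) (nat_lit 0) (nat_lit 146) (nat_lit 145) (nat_lit 99))) (PT.nd (nat_lit 78) (PT.lf (nat_lit 7448) (nat_lit 6) (nat_lit 98) (nat_lit 0) (nat_lit 147) (nat_lit 145) (nat_lit 98)) (PT.lf (nat_lit 7068) (nat_lit 6) (nat_lit 93) (nat_lit 0) (nat_lit 148) (nat_lit 145) (nat_lit 97))))) (PT.nd (nat_lit 36270)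 (PT.nd (nat_lit 156) (PT.nd (nat_lit 78) (PT.lf (nat_lit 6688) (nat_lit 6) (nat_lit 88) (nat_lit 0) (nat_lit 149) (nat_lit 145) (nat_lit 96)) (PT.lf (nat_lit 6384) (nat_lit 6) (nat_lit 84) (nat_lit 0) (nat_lit 150) (nat_lit 145) (nat_lit 95))) (PT.nd (nat_lit 36036) (PT.lf (nat_lit 6004) (nat_lit 6) (nat_lit 79) (nat_lit 0) (nat_lit 151) (nat_lit 145) (nat_lit 94)) (PT.lf (nat_lit 5472) (nat_lit 6) (nat_lit 72) (nat_lit 5) (nat_lit 92) (nat_lit 146) (nat_lit 152)))) (PT.nd (nat_lit 156) (PT.nd (nat_lit 78) (PT.lf (nat_lit 5776) (nat_lit 6) (nat_lit 76) (nat_lit 5) (nat_lit 93) (nat_lit 146) (nat_lit 151)) (PT.lf (nat_lit 6080) (nat_lit 6) (nat_lit 80) (nat_lit 5) (nat_lit 94) (nat_lit 146) (nat_lit 150))) (PT.nd (nat_lit 78) (PT.lf (nat_lit 6460) (nat_lit 6) (nat_lit 85) (nat_lit 5) (nat_lit 95) (nat_lit 146) (nat_lit 149)) (PT.lf (nat_lit 6764) (nat_lit 6) (nat_lit 89) (nat_lit 5) (nat_lit 96)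 (nat_lit 146) (nat_lit 148))))))))
noncomputable def pc25 : PT := (PT.nd (nat_lit 3120) (PT.nd (nat_lit 1092) (PT.nd (nat_lit 546) (PT.nd (nat_lit 234) (PT.nd (nat_lit 78) (PT.lf (nat_lit 7144) (nat_lit 6) (nat_lit 94) (nat_lit 5) (nat_lit 97) (nat_lit 146) (nat_lit 147)) (PT.nd (nat_lit 78) (PT.lf (nat_lit 7524) (nat_lit 3) (nat_lit 99) (nat_lit 4) (nat_lit 98) (nat_lit 146) (nat_lit 146)) (PT.lf (nat_lit 7828) (nat_lit 6) (nat_lit 103) (nat_lit 4) (nat_lit 99) (nat_lit 146) (nat_lit 145)))) (PT.nd (nat_lit 156) (PT.nd (nat_lit 78) (PT.lf (nat_lit 8132) (nat_lit 6) (nat_lit 107) (nat_lit 4) (nat_lit 100) (nat_lit 146) (nat_lit 144)) (PT.lf (nat_lit 8512) (nat_lit 6) (nat_lit 112) (nat_lit 4) (nat_lit 101) (nat_lit 146) (nat_lit 143))) (PT.nd (nat_lit 78) (PT.lf (nat_lit 8892) (nat_lit 6) (nat_lit 117) (nat_lit 4) (nat_lit 102) (nat_lit 146) (nat_lit 142)) (PT.lf (nat_lit 9272) (nat_lit 6) (nat_lit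 122) (nat_lit 4) (nat_lit 103) (nat_lit 146) (nat_lit 141))))) (PT.nd (nat_lit 234) (PT.nd (nat_lit 78) (PT.lf (nat_lit 9652) (nat_lit 6) (nat_lit 127) (nat_lit 4) (nat_lit 104) (nat_lit 146) (nat_lit 140)) (PT.nd (nat_lit 78) (PT.lf (nat_lit 10108) (nat_lit 6) (nat_lit 133) (nat_lit 4) (nat_lit 105) (nat_lit 146) (nat_lit 139)) (PT.lf (nat_lit 10488) (nat_lit 6) (nat_lit 138) (nat_lit 4) (nat_lit 106) (nat_lit 146) (nat_lit 138)))) (PT.nd (nat_lit 156) (PT.nd (nat_lit 78) (PT.lf (nat_lit 10944) (nat_lit 6) (nat_lit 144) (nat_lit 4) (nat_lit 107) (nat_lit 146) (nat_lit 137)) (PT.lf (nat_lit 11400) (nat_lit 6) (nat_lit 150) (nat_lit 4) (nat_lit 108) (nat_lit 146) (nat_lit 136))) (PT.nd (nat_lit 78) (PT.lf (nat_lit 11932) (nat_lit 6) (nat_lit 157) (nat_lit 4) (nat_lit 109) (nat_lit 146) (nat_lit 135)) (PT.lf (nat_lit 12464) (nat_lit 6) (nat_lit 164) (nat_lit 4) (nat_lit 110) (nat_lit 146) (nat_lit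 134)))))) (PT.nd (nat_lit 1404) (PT.nd (nat_lit 234) (PT.nd (nat_lit 78) (PT.lf (nat_lit 12996) (nat_lit 6) (nat_lit 171) (nat_lit 4) (nat_lit 111) (nat_lit 146) (nat_lit 133)) (PT.nd (nat_lit 78) (PT.lf (nat_lit 13528) (nat_lit 6) (nat_lit 178) (nat_lit 4) (nat_lit 112) (nat_lit 146) (nat_lit 132)) (PT.lf (nat_lit 14136) (nat_lit 6) (nat_lit 186) (nat_lit 4) (nat_lit 113) (nat_lit 146) (nat_lit 131)))) (PT.nd (nat_lit 156) (PT.nd (nat_lit 78) (PT.lf (nat_lit 14896) (nat_lit 6) (nat_lit 196) (nat_lit 4) (nat_lit 114) (nat_lit 146) (nat_lit 130)) (PT.lf (nat_lit 14820) (nat_lit 6) (nat_lit 195) (nat_lit 4) (nat_lit 115) (nat_lit 146) (nat_lit 129))) (PT.nd (nat_lit 936) (PT.lf (nat_lit 14744) (nat_lit 6) (nat_lit 194) (nat_lit 4) (nat_lit 116) (nat_lit 146) (nat_lit 128)) (PT.lf (nat_lit 14744) (nat_lit 6) (nat_lit 194) (nat_lit 2) (nat_lit 128) (nat_lit 146) (nat_lit 116))))) (PT.nd (nat_lit 312)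 (PT.nd (nat_lit 156) (PT.nd (nat_lit 78) (PT.lf (nat_lit 14820) (nat_lit 6) (nat_lit 195) (nat_lit 2) (nat_lit 129) (nat_lit 146) (nat_lit 115)) (PT.lf (nat_lit 14896) (nat_lit 6) (nat_lit 196) (nat_lit 2) (nat_lit 130) (nat_lit 146) (nat_lit 114))) (PT.nd (nat_lit 78) (PT.lf (nat_lit 14136) (nat_lit 6) (nat_lit 186) (nat_lit 2) (nat_lit 131) (nat_lit 146) (nat_lit 113)) (PT.lf (nat_lit 13528) (nat_lit 6) (nat_lit 178) (nat_lit 2) (nat_lit 132) (nat_lit 146) (nat_lit 112)))) (PT.nd (nat_lit 156) (PT.nd (nat_lit 78) (PT.lf (nat_lit 12996) (nat_lit 6) (nat_lit 171) (nat_lit 2) (nat_lit 133) (nat_lit 146) (nat_lit 111)) (PT.lf (nat_lit 12464) (nat_lit 6) (nat_lit 164) (nat_lit 2) (nat_lit 134) (nat_lit 146) (nat_lit 110))) (PT.nd (nat_lit 78) (PT.lf (nat_lit 11932) (nat_lit 6) (nat_lit 157) (nat_lit 2) (nat_lit 135) (nat_lit 146) (nat_lit 109)) (PT.lf (nat_lit 11400) (nat_lit 6) (nat_lit 150) (nat_lit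 2) (nat_lit 136) (nat_lit 146) (nat_lit 108))))))) (PT.nd (nat_lit 1092) (PT.nd (nat_lit 546) (PT.nd (nat_lit 234) (PT.nd (nat_lit 78) (PT.lf (nat_lit 10944) (nat_lit 6) (nat_lit 144) (nat_lit 2) (nat_lit 137) (nat_lit 146) (nat_lit 107)) (PT.nd (nat_lit 78) (PT.lf (nat_lit 10488) (nat_lit 6) (nat_lit 138) (nat_lit 2) (nat_lit 138) (nat_lit 146) (nat_lit 106)) (PT.lf (nat_lit 10108) (nat_lit 6) (nat_lit 133) (nat_lit 2) (nat_lit 139) (nat_lit 146) (nat_lit 105)))) (PT.nd (nat_lit 156) (PT.nd (nat_lit 78) (PT.lf (nat_lit 9652) (nat_lit 6) (nat_lit 127) (nat_lit 2) (nat_lit 140) (nat_lit 146) (nat_lit 104)) (PT.lf (nat_lit 9272) (nat_lit 6) (nat_lit 122) (nat_lit 2) (nat_lit 141) (nat_lit 146) (nat_lit 103))) (PT.nd (nat_lit 78) (PT.lf (nat_lit 8892) (nat_lit 6) (nat_lit 117) (nat_lit 2) (nat_lit 142) (nat_lit 146) (nat_lit 102)) (PT.lf (nat_lit 8512) (nat_lit 6) (nat_lit 112) (nat_lit 2) (nat_lit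 143) (nat_lit 146) (nat_lit 101))))) (PT.nd (nat_lit 234) (PT.nd (nat_lit 78) (PT.lf (nat_lit 8132) (nat_lit 6) (nat_lit 107) (nat_lit 2) (nat_lit 144) (nat_lit 146) (nat_lit 100)) (PT.nd (nat_lit 78) (PT.lf (nat_lit 7828) (nat_lit 6) (nat_lit 103) (nat_lit 2) (nat_lit 145) (nat_lit 146) (nat_lit 99)) (PT.lf (nat_lit 7524) (nat_lit 3) (nat_lit 99) (nat_lit 0) (nat_lit 146) (nat_lit 146) (nat_lit 98)))) (PT.nd (nat_lit 156) (PT.nd (nat_lit 78) (PT.lf (nat_lit 7144) (nat_lit 6) (nat_lit 94) (nat_lit 0) (nat_lit 147) (nat_lit 146) (nat_lit 97)) (PT.lf (nat_lit 6764) (nat_lit 6) (nat_lit 89) (nat_lit 0) (nat_lit 148) (nat_lit 146) (nat_lit 96))) (PT.nd (nat_lit 78) (PT.lf (nat_lit 6460) (nat_lit 6) (nat_lit 85) (nat_lit 0) (nat_lit 149) (nat_lit 146) (nat_lit 95)) (PT.lf (nat_lit 6080) (nat_lit 6) (nat_lit 80) (nat_lit 0) (nat_lit 150) (nat_lit 146) (nat_lit 94)))))) (PT.nd (nat_lit 36270) (PT.nd (nat_lit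 35958) (PT.nd (nat_lit 78) (PT.lf (nat_lit 5776) (nat_lit 6) (nat_lit 76) (nat_lit 0) (nat_lit 151) (nat_lit 146) (nat_lit 93)) (PT.nd (nat_lit 35802) (PT.lf (nat_lit 5472) (nat_lit 6) (nat_lit 72) (nat_lit 0) (nat_lit 152) (nat_lit 146) (nat_lit 92)) (PT.lf (nat_lit 4940) (nat_lit 6) (nat_lit 65) (nat_lit 5) (nat_lit 90) (nat_lit 147) (nat_lit 153)))) (PT.nd (nat_lit 156) (PT.nd (nat_lit 78) (PT.lf (nat_lit 5244) (nat_lit 6) (nat_lit 69) (nat_lit 5) (nat_lit 91) (nat_lit 147) (nat_lit 152)) (PT.lf (nat_lit 5548) (nat_lit 6) (nat_lit 73) (nat_lit 5) (nat_lit 92) (nat_lit 147) (nat_lit 151))) (PT.nd (nat_lit 78) (PT.lf (nat_lit 5852) (nat_lit 6) (nat_lit 77) (nat_lit 5) (nat_lit 93) (nat_lit 147) (nat_lit 150)) (PT.lf (nat_lit 6156) (nat_lit 6) (nat_lit 81) (nat_lit 5) (nat_lit 94) (nat_lit 147) (nat_lit 149))))) (PT.nd (nat_lit 312) (PT.nd (nat_lit 156) (PT.nd (nat_lit 78) (PT.lf (nat_lit 6536)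 (nat_lit 6) (nat_lit 86) (nat_lit 5) (nat_lit 95) (nat_lit 147) (nat_lit 148)) (PT.lf (nat_lit 6840) (nat_lit 3) (nat_lit 90) (nat_lit 4) (nat_lit 96) (nat_lit 147) (nat_lit 147))) (PT.nd (nat_lit 78) (PT.lf (nat_lit 7144) (nat_lit 6) (nat_lit 94) (nat_lit 4) (nat_lit 97) (nat_lit 147) (nat_lit 146)) (PT.lf (nat_lit 7448) (nat_lit 6) (nat_lit 98) (nat_lit 4) (nat_lit 98) (nat_lit 147) (nat_lit 145)))) (PT.nd (nat_lit 156) (PT.nd (nat_lit 78) (PT.lf (nat_lit 7752) (nat_lit 6) (nat_lit 102) (nat_lit 4) (nat_lit 99) (nat_lit 147) (nat_lit 144)) (PT.lf (nat_lit 8056) (nat_lit 6) (nat_lit 106) (nat_lit 4) (nat_lit 100) (nat_lit 147) (nat_lit 143))) (PT.nd (nat_lit 78) (PT.lf (nat_lit 8436) (nat_lit 6) (nat_lit 111) (nat_lit 4) (nat_lit 101) (nat_lit 147) (nat_lit 142)) (PT.lf (nat_lit 8816) (nat_lit 6) (nat_lit 116) (nat_lit 4) (nat_lit 102) (nat_lit 147) (nat_lit 141))))))))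
noncomputable def pc26 : PT := (PT.nd (nat_lit 39546) (PT.nd (nat_lit 2808) (PT.nd (nat_lit 546) (PT.nd (nat_lit 234) (PT.nd (nat_lit 78) (PT.lf (nat_lit 9196) (nat_lit 6) (nat_lit 121) (nat_lit 4) (nat_lit 103) (nat_lit 147) (nat_lit 140)) (PT.nd (nat_lit 78) (PT.lf (nat_lit 9576) (nat_lit 6) (nat_lit 126) (nat_lit 4) (nat_lit 104) (nat_lit 147) (nat_lit 139)) (PT.lf (nat_lit 10032) (nat_lit 6) (nat_lit 132) (nat_lit 4) (nat_lit 105) (nat_lit 147) (nat_lit 138)))) (PT.nd (nat_lit 156) (PT.nd (nat_lit 78) (PT.lf (nat_lit 10412) (nat_lit 6) (nat_lit 137) (nat_lit 4) (nat_lit 106) (nat_lit 147) (nat_lit 137)) (PT.lf (nat_lit 10868) (nat_lit 6) (nat_lit 143) (nat_lit 4) (nat_lit 107) (nat_lit 147) (nat_lit 136))) (PT.nd (nat_lit 78) (PT.lf (nat_lit 11324) (nat_lit 6) (nat_lit 149) (nat_lit 4) (nat_lit 108) (nat_lit 147) (nat_lit 135)) (PT.lf (nat_lit 11856) (nat_lit 6) (nat_lit 156) (nat_lit 4) (nat_lit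 109) (nat_lit 147) (nat_lit 134))))) (PT.nd (nat_lit 1950) (PT.nd (nat_lit 1794) (PT.lf (nat_lit 12388) (nat_lit 6) (nat_lit 163) (nat_lit 4) (nat_lit 110) (nat_lit 147) (nat_lit 133)) (PT.nd (nat_lit 78) (PT.lf (nat_lit 12388) (nat_lit 6) (nat_lit 163) (nat_lit 2) (nat_lit 133) (nat_lit 147) (nat_lit 110)) (PT.lf (nat_lit 11856) (nat_lit 6) (nat_lit 156) (nat_lit 2) (nat_lit 134) (nat_lit 147) (nat_lit 109)))) (PT.nd (nat_lit 156) (PT.nd (nat_lit 78) (PT.lf (nat_lit 11324) (nat_lit 6) (nat_lit 149) (nat_lit 2) (nat_lit 135) (nat_lit 147) (nat_lit 108)) (PT.lf (nat_lit 10868) (nat_lit 6) (nat_lit 143) (nat_lit 2) (nat_lit 136) (nat_lit 147) (nat_lit 107))) (PT.nd (nat_lit 78) (PT.lf (nat_lit 10412) (nat_lit 6) (nat_lit 137) (nat_lit 2) (nat_lit 137) (nat_lit 147) (nat_lit 106)) (PT.lf (nat_lit 10032) (nat_lit 6) (nat_lit 132) (nat_lit 2) (nat_lit 138) (nat_lit 147) (nat_lit 105)))))) (PT.nd (nat_lit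 546) (PT.nd (nat_lit 234) (PT.nd (nat_lit 78) (PT.lf (nat_lit 9576) (nat_lit 6) (nat_lit 126) (nat_lit 2) (nat_lit 139) (nat_lit 147) (nat_lit 104)) (PT.nd (nat_lit 78) (PT.lf (nat_lit 9196) (nat_lit 6) (nat_lit 121) (nat_lit 2) (nat_lit 140) (nat_lit 147) (nat_lit 103)) (PT.lf (nat_lit 8816) (nat_lit 6) (nat_lit 116) (nat_lit 2) (nat_lit 141) (nat_lit 147) (nat_lit 102)))) (PT.nd (nat_lit 156) (PT.nd (nat_lit 78) (PT.lf (nat_lit 8436) (nat_lit 6) (nat_lit 111) (nat_lit 2) (nat_lit 142) (nat_lit 147) (nat_lit 101)) (PT.lf (nat_lit 8056) (nat_lit 6) (nat_lit 106) (nat_lit 2) (nat_lit 143) (nat_lit 147) (nat_lit 100))) (PT.nd (nat_lit 78) (PT.lf (nat_lit 7752) (nat_lit 6) (nat_lit 102) (nat_lit 2) (nat_lit 144) (nat_lit 147) (nat_lit 99)) (PT.lf (nat_lit 7448) (nat_lit 6) (nat_lit 98) (nat_lit 2) (nat_lit 145) (nat_lit 147) (nat_lit 98))))) (PT.nd (nat_lit 312) (PT.nd (nat_lit 156) (PT.nd (nat_lit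 78) (PT.lf (nat_lit 7144) (nat_lit 6) (nat_lit 94) (nat_lit 2) (nat_lit 146) (nat_lit 147) (nat_lit 97)) (PT.lf (nat_lit 6840) (nat_lit 3) (nat_lit 90) (nat_lit 0) (nat_lit 147) (nat_lit 147) (nat_lit 96))) (PT.nd (nat_lit 78) (PT.lf (nat_lit 6536) (nat_lit 6) (nat_lit 86) (nat_lit 0) (nat_lit 148) (nat_lit 147) (nat_lit 95)) (PT.lf (nat_lit 6156) (nat_lit 6) (nat_lit 81) (nat_lit 0) (nat_lit 149) (nat_lit 147) (nat_lit 94)))) (PT.nd (nat_lit 156) (PT.nd (nat_lit 78) (PT.lf (nat_lit 5852) (nat_lit 6) (nat_lit 77) (nat_lit 0) (nat_lit 150) (nat_lit 147) (nat_lit 93)) (PT.lf (nat_lit 5548) (nat_lit 6) (nat_lit 73) (nat_lit 0) (nat_lit 151) (nat_lit 147) (nat_lit 92))) (PT.nd (nat_lit 78) (PT.lf (nat_lit 5244) (nat_lit 6) (nat_lit 69) (nat_lit 0) (nat_lit 152) (nat_lit 147) (nat_lit 91)) (PT.lf (nat_lit 4940) (nat_lit 6) (nat_lit 65) (nat_lit 0) (nat_lit 153) (nat_lit 147) (nat_lit 90))))))) (PT.nd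 (nat_lit 1092) (PT.nd (nat_lit 546) (PT.nd (nat_lit 234) (PT.nd (nat_lit 78) (PT.lf (nat_lit 4712) (nat_lit 6) (nat_lit 62) (nat_lit 5) (nat_lit 89) (nat_lit 148) (nat_lit 153)) (PT.nd (nat_lit 78) (PT.lf (nat_lit 5016) (nat_lit 6) (nat_lit 66) (nat_lit 5) (nat_lit 90) (nat_lit 148) (nat_lit 152)) (PT.lf (nat_lit 5320) (nat_lit 6) (nat_lit 70) (nat_lit 5) (nat_lit 91) (nat_lit 148) (nat_lit 151)))) (PT.nd (nat_lit 156) (PT.nd (nat_lit 78) (PT.lf (nat_lit 5624) (nat_lit 6) (nat_lit 74) (nat_lit 5) (nat_lit 92) (nat_lit 148) (nat_lit 150)) (PT.lf (nat_lit 5928) (nat_lit 6) (nat_lit 78) (nat_lit 5) (nat_lit 93) (nat_lit 148) (nat_lit 149))) (PT.nd (nat_lit 78) (PT.lf (nat_lit 6232) (nat_lit 3) (nat_lit 82) (nat_lit 4) (nat_lit 94) (nat_lit 148) (nat_lit 148)) (PT.lf (nat_lit 6536) (nat_lit 6) (nat_lit 86) (nat_lit 4) (nat_lit 95) (nat_lit 148) (nat_lit 147))))) (PT.nd (nat_lit 234) (PT.nd (nat_lit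 78) (PT.lf (nat_lit 6764) (nat_lit 6) (nat_lit 89) (nat_lit 4) (nat_lit 96) (nat_lit 148) (nat_lit 146)) (PT.nd (nat_lit 78) (PT.lf (nat_lit 7068) (nat_lit 6) (nat_lit 93) (nat_lit 4) (nat_lit 97) (nat_lit 148) (nat_lit 145)) (PT.lf (nat_lit 7372) (nat_lit 6) (nat_lit 97) (nat_lit 4) (nat_lit 98) (nat_lit 148) (nat_lit 144)))) (PT.nd (nat_lit 156) (PT.nd (nat_lit 78) (PT.lf (nat_lit 7676) (nat_lit 6) (nat_lit 101) (nat_lit 4) (nat_lit 99) (nat_lit 148) (nat_lit 143)) (PT.lf (nat_lit 7980) (nat_lit 6) (nat_lit 105) (nat_lit 4) (nat_lit 100) (nat_lit 148) (nat_lit 142))) (PT.nd (nat_lit 78) (PT.lf (nat_lit 8360) (nat_lit 6) (nat_lit 110) (nat_lit 4) (nat_lit 101) (nat_lit 148) (nat_lit 141)) (PT.lf (nat_lit 8740) (nat_lit 6) (nat_lit 115) (nat_lit 4) (nat_lit 102) (nat_lit 148) (nat_lit 140)))))) (PT.nd (nat_lit 2964) (PT.nd (nat_lit 2652) (PT.nd (nat_lit 78) (PT.lf (nat_lit 9120) (nat_lit 6) (nat_lit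 120) (nat_lit 4) (nat_lit 103) (nat_lit 148) (nat_lit 139)) (PT.nd (nat_lit 78) (PT.lf (nat_lit 9500) (nat_lit 6) (nat_lit 125) (nat_lit 4) (nat_lit 104) (nat_lit 148) (nat_lit 138)) (PT.lf (nat_lit 9956) (nat_lit 6) (nat_lit 131) (nat_lit 4) (nat_lit 105) (nat_lit 148) (nat_lit 137)))) (PT.nd (nat_lit 156) (PT.nd (nat_lit 78) (PT.lf (nat_lit 9956) (nat_lit 6) (nat_lit 131) (nat_lit 2) (nat_lit 137) (nat_lit 148) (nat_lit 105)) (PT.lf (nat_lit 9500) (nat_lit 6) (nat_lit 125) (nat_lit 2) (nat_lit 138) (nat_lit 148) (nat_lit 104))) (PT.nd (nat_lit 78) (PT.lf (nat_lit 9120) (nat_lit 6) (nat_lit 120) (nat_lit 2) (nat_lit 139) (nat_lit 148) (nat_lit 103)) (PT.lf (nat_lit 8740) (nat_lit 6) (nat_lit 115) (nat_lit 2) (nat_lit 140) (nat_lit 148) (nat_lit 102))))) (PT.nd (nat_lit 312) (PT.nd (nat_lit 156) (PT.nd (nat_lit 78) (PT.lf (nat_lit 8360) (nat_lit 6) (nat_lit 110) (nat_lit 2) (nat_lit 141) (nat_lit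 148) (nat_lit 101)) (PT.lf (nat_lit 7980) (nat_lit 6) (nat_lit 105) (nat_lit 2) (nat_lit 142) (nat_lit 148) (nat_lit 100))) (PT.nd (nat_lit 78) (PT.lf (nat_lit 7676) (nat_lit 6) (nat_lit 101) (nat_lit 2) (nat_lit 143) (nat_lit 148) (nat_lit 99)) (PT.lf (nat_lit 7372) (nat_lit 6) (nat_lit 97) (nat_lit 2) (nat_lit 144) (nat_lit 148) (nat_lit 98)))) (PT.nd (nat_lit 156) (PT.nd (nat_lit 78) (PT.lf (nat_lit 7068) (nat_lit 6) (nat_lit 93) (nat_lit 2) (nat_lit 145) (nat_lit 148) (nat_lit 97)) (PT.lf (nat_lit 6764) (nat_lit 6) (nat_lit 89) (nat_lit 2) (nat_lit 146) (nat_lit 148) (nat_lit 96))) (PT.nd (nat_lit 78) (PT.lf (nat_lit 6536) (nat_lit 6) (nat_lit 86) (nat_lit 2) (nat_lit 147) (nat_lit 148) (nat_lit 95)) (PT.lf (nat_lit 6232) (nat_lit 3) (nat_lit 82) (nat_lit 0) (nat_lit 148) (nat_lit 148) (nat_lit 94))))))))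
noncomputable def pc27 : PT := (PT.nd (nat_lit 40482) (PT.nd (nat_lit 36504) (PT.nd (nat_lit 35958) (PT.nd (nat_lit 234) (PT.nd (nat_lit 78) (PT.lf (nat_lit 5928) (nat_lit 6) (nat_lit 78) (nat_lit 0) (nat_lit 149) (nat_lit 148) (nat_lit 93)) (PT.nd (nat_lit 78) (PT.lf (nat_lit 5624) (nat_lit 6) (nat_lit 74) (nat_lit 0) (nat_lit 150) (nat_lit 148) (nat_lit 92)) (PT.lf (nat_lit 5320) (nat_lit 6) (nat_lit 70) (nat_lit 0) (nat_lit 151) (nat_lit 148) (nat_lit 91)))) (PT.nd (nat_lit 35568) (PT.nd (nat_lit 78) (PT.lf (nat_lit 5016) (nat_lit 6) (nat_lit 66) (nat_lit 0) (nat_lit 152) (nat_lit 148) (nat_lit 90)) (PT.lf (nat_lit 4712) (nat_lit 6) (nat_lit 62) (nat_lit 0) (nat_lit 153) (nat_lit 148) (nat_lit 89))) (PT.nd (nat_lit 78) (PT.lf (nat_lit 4256) (nat_lit 6) (nat_lit 56) (nat_lit 5) (nat_lit 87) (nat_lit 149) (nat_lit 154)) (PT.lf (nat_lit 4484) (nat_lit 6) (nat_lit 59) (nat_lit 5) (nat_lit 88) (nat_lit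 149) (nat_lit 153))))) (PT.nd (nat_lit 234) (PT.nd (nat_lit 78) (PT.lf (nat_lit 4788) (nat_lit 6) (nat_lit 63) (nat_lit 5) (nat_lit 89) (nat_lit 149) (nat_lit 152)) (PT.nd (nat_lit 78) (PT.lf (nat_lit 5092) (nat_lit 6) (nat_lit 67) (nat_lit 5) (nat_lit 90) (nat_lit 149) (nat_lit 151)) (PT.lf (nat_lit 5396) (nat_lit 6) (nat_lit 71) (nat_lit 5) (nat_lit 91) (nat_lit 149) (nat_lit 150)))) (PT.nd (nat_lit 156) (PT.nd (nat_lit 78) (PT.lf (nat_lit 5700) (nat_lit 3) (nat_lit 75) (nat_lit 4) (nat_lit 92) (nat_lit 149) (nat_lit 149)) (PT.lf (nat_lit 5928) (nat_lit 6) (nat_lit 78) (nat_lit 4) (nat_lit 93) (nat_lit 149) (nat_lit 148))) (PT.nd (nat_lit 78) (PT.lf (nat_lit 6156) (nat_lit 6) (nat_lit 81) (nat_lit 4) (nat_lit 94) (nat_lit 149) (nat_lit 147)) (PT.lf (nat_lit 6460) (nat_lit 6) (nat_lit 85) (nat_lit 4) (nat_lit 95) (nat_lit 149) (nat_lit 146)))))) (PT.nd (nat_lit 3354) (PT.nd (nat_lit 234) (PT.nd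 (nat_lit 78) (PT.lf (nat_lit 6688) (nat_lit 6) (nat_lit 88) (nat_lit 4) (nat_lit 96) (nat_lit 149) (nat_lit 145)) (PT.nd (nat_lit 78) (PT.lf (nat_lit 6992) (nat_lit 6) (nat_lit 92) (nat_lit 4) (nat_lit 97) (nat_lit 149) (nat_lit 144)) (PT.lf (nat_lit 7296) (nat_lit 6) (nat_lit 96) (nat_lit 4) (nat_lit 98) (nat_lit 149) (nat_lit 143)))) (PT.nd (nat_lit 156) (PT.nd (nat_lit 78) (PT.lf (nat_lit 7600) (nat_lit 6) (nat_lit 100) (nat_lit 4) (nat_lit 99) (nat_lit 149) (nat_lit 142)) (PT.lf (nat_lit 7904) (nat_lit 6) (nat_lit 104) (nat_lit 4) (nat_lit 100) (nat_lit 149) (nat_lit 141))) (PT.nd (nat_lit 78) (PT.lf (nat_lit 8284) (nat_lit 6) (nat_lit 109) (nat_lit 4) (nat_lit 101) (nat_lit 149) (nat_lit 140)) (PT.lf (nat_lit 8664) (nat_lit 6) (nat_lit 114) (nat_lit 4) (nat_lit 102) (nat_lit 149) (nat_lit 139))))) (PT.nd (nat_lit 312) (PT.nd (nat_lit 156) (PT.nd (nat_lit 78) (PT.lf (nat_lit 8664) (nat_lit 6)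 (nat_lit 114) (nat_lit 2) (nat_lit 139) (nat_lit 149) (nat_lit 102)) (PT.lf (nat_lit 8284) (nat_lit 6) (nat_lit 109) (nat_lit 2) (nat_lit 140) (nat_lit 149) (nat_lit 101))) (PT.nd (nat_lit 78) (PT.lf (nat_lit 7904) (nat_lit 6) (nat_lit 104) (nat_lit 2) (nat_lit 141) (nat_lit 149) (nat_lit 100)) (PT.lf (nat_lit 7600) (nat_lit 6) (nat_lit 100) (nat_lit 2) (nat_lit 142) (nat_lit 149) (nat_lit 99)))) (PT.nd (nat_lit 156) (PT.nd (nat_lit 78) (PT.lf (nat_lit 7296) (nat_lit 6) (nat_lit 96) (nat_lit 2) (nat_lit 143) (nat_lit 149) (nat_lit 98)) (PT.lf (nat_lit 6992) (nat_lit 6) (nat_lit 92) (nat_lit 2) (nat_lit 144) (nat_lit 149) (nat_lit 97))) (PT.nd (nat_lit 78) (PT.lf (nat_lit 6688) (nat_lit 6) (nat_lit 88) (nat_lit 2) (nat_lit 145) (nat_lit 149) (nat_lit 96)) (PT.lf (nat_lit 6460) (nat_lit 6) (nat_lit 85) (nat_lit 2) (nat_lit 146) (nat_lit 149) (nat_lit 95))))))) (PT.nd (nat_lit 36270) (PT.nd (nat_lit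 546) (PT.nd (nat_lit 234) (PT.nd (nat_lit 78) (PT.lf (nat_lit 6156) (nat_lit 6) (nat_lit 81) (nat_lit 2) (nat_lit 147) (nat_lit 149) (nat_lit 94)) (PT.nd (nat_lit 78) (PT.lf (nat_lit 5928) (nat_lit 6) (nat_lit 78) (nat_lit 2) (nat_lit 148) (nat_lit 149) (nat_lit 93)) (PT.lf (nat_lit 5700) (nat_lit 3) (nat_lit 75) (nat_lit 0) (nat_lit 149) (nat_lit 149) (nat_lit 92)))) (PT.nd (nat_lit 156) (PT.nd (nat_lit 78) (PT.lf (nat_lit 5396) (nat_lit 6) (nat_lit 71) (nat_lit 0) (nat_lit 150) (nat_lit 149) (nat_lit 91)) (PT.lf (nat_lit 5092) (nat_lit 6) (nat_lit 67) (nat_lit 0) (nat_lit 151) (nat_lit 149) (nat_lit 90))) (PT.nd (nat_lit 78) (PT.lf (nat_lit 4788) (nat_lit 6) (nat_lit 63) (nat_lit 0) (nat_lit 152) (nat_lit 149) (nat_lit 89)) (PT.lf (nat_lit 4484) (nat_lit 6) (nat_lit 59) (nat_lit 0) (nat_lit 153) (nat_lit 149) (nat_lit 88))))) (PT.nd (nat_lit 35412) (PT.nd (nat_lit 35256) (PT.lf (nat_lit 4256)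 (nat_lit 6) (nat_lit 56) (nat_lit 0) (nat_lit 154) (nat_lit 149) (nat_lit 87)) (PT.nd (nat_lit 78) (PT.lf (nat_lit 3800) (nat_lit 6) (nat_lit 50) (nat_lit 5) (nat_lit 85) (nat_lit 150) (nat_lit 155)) (PT.lf (nat_lit 4028) (nat_lit 6) (nat_lit 53) (nat_lit 5) (nat_lit 86) (nat_lit 150) (nat_lit 154)))) (PT.nd (nat_lit 156) (PT.nd (nat_lit 78) (PT.lf (nat_lit 4332) (nat_lit 6) (nat_lit 57) (nat_lit 5) (nat_lit 87) (nat_lit 150) (nat_lit 153)) (PT.lf (nat_lit 4560) (nat_lit 6) (nat_lit 60) (nat_lit 5) (nat_lit 88) (nat_lit 150) (nat_lit 152))) (PT.nd (nat_lit 78) (PT.lf (nat_lit 4864) (nat_lit 6) (nat_lit 64) (nat_lit 5) (nat_lit 89) (nat_lit 150) (nat_lit 151)) (PT.lf (nat_lit 5168) (nat_lit 3) (nat_lit 68) (nat_lit 4) (nat_lit 90) (nat_lit 150) (nat_lit 150)))))) (PT.nd (nat_lit 546) (PT.nd (nat_lit 234) (PT.nd (nat_lit 78) (PT.lf (nat_lit 5396) (nat_lit 6) (nat_lit 71) (nat_lit 4) (nat_lit 91) (nat_lit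 150) (nat_lit 149)) (PT.nd (nat_lit 78) (PT.lf (nat_lit 5624) (nat_lit 6) (nat_lit 74) (nat_lit 4) (nat_lit 92) (nat_lit 150) (nat_lit 148)) (PT.lf (nat_lit 5852) (nat_lit 6) (nat_lit 77) (nat_lit 4) (nat_lit 93) (nat_lit 150) (nat_lit 147)))) (PT.nd (nat_lit 156) (PT.nd (nat_lit 78) (PT.lf (nat_lit 6080) (nat_lit 6) (nat_lit 80) (nat_lit 4) (nat_lit 94) (nat_lit 150) (nat_lit 146)) (PT.lf (nat_lit 6384) (nat_lit 6) (nat_lit 84) (nat_lit 4) (nat_lit 95) (nat_lit 150) (nat_lit 145))) (PT.nd (nat_lit 78) (PT.lf (nat_lit 6612) (nat_lit 6) (nat_lit 87) (nat_lit 4) (nat_lit 96) (nat_lit 150) (nat_lit 144)) (PT.lf (nat_lit 6916) (nat_lit 6) (nat_lit 91) (nat_lit 4) (nat_lit 97) (nat_lit 150) (nat_lit 143))))) (PT.nd (nat_lit 3666) (PT.nd (nat_lit 3510) (PT.nd (nat_lit 3432) (PT.lf (nat_lit 7220) (nat_lit 6) (nat_lit 95) (nat_lit 4) (nat_lit 98) (nat_lit 150) (nat_lit 142)) (PT.lf (nat_lit 7220) (nat_lit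 6) (nat_lit 95) (nat_lit 2) (nat_lit 142) (nat_lit 150) (nat_lit 98))) (PT.nd (nat_lit 78) (PT.lf (nat_lit 6916) (nat_lit 6) (nat_lit 91) (nat_lit 2) (nat_lit 143) (nat_lit 150) (nat_lit 97)) (PT.lf (nat_lit 6612) (nat_lit 6) (nat_lit 87) (nat_lit 2) (nat_lit 144) (nat_lit 150) (nat_lit 96)))) (PT.nd (nat_lit 156) (PT.nd (nat_lit 78) (PT.lf (nat_lit 6384) (nat_lit 6) (nat_lit 84) (nat_lit 2) (nat_lit 145) (nat_lit 150) (nat_lit 95)) (PT.lf (nat_lit 6080) (nat_lit 6) (nat_lit 80) (nat_lit 2) (nat_lit 146) (nat_lit 150) (nat_lit 94))) (PT.nd (nat_lit 78) (PT.lf (nat_lit 5852) (nat_lit 6) (nat_lit 77) (nat_lit 2) (nat_lit 147) (nat_lit 150) (nat_lit 93)) (PT.lf (nat_lit 5624) (nat_lit 6) (nat_lit 74) (nat_lit 2) (nat_lit 148) (nat_lit 150) (nat_lit 92))))))))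
noncomputable def pc28 : PT := (PT.nd (nat_lit 41028) (PT.nd (nat_lit 36114) (PT.nd (nat_lit 35568) (PT.nd (nat_lit 234) (PT.nd (nat_lit 78) (PT.lf (nat_lit 5396) (nat_lit 6) (nat_lit 71) (nat_lit 2) (nat_lit 149) (nat_lit 150) (nat_lit 91)) (PT.nd (nat_lit 78) (PT.lf (nat_lit 5168) (nat_lit 3) (nat_lit 68) (nat_lit 0) (nat_lit 150) (nat_lit 150) (nat_lit 90)) (PT.lf (nat_lit 4864) (nat_lit 6) (nat_lit 64) (nat_lit 0) (nat_lit 151) (nat_lit 150) (nat_lit 89)))) (PT.nd (nat_lit 156) (PT.nd (nat_lit 78) (PT.lf (nat_lit 4560) (nat_lit 6) (nat_lit 60) (nat_lit 0) (nat_lit 152) (nat_lit 150) (nat_lit 88)) (PT.lf (nat_lit 4332) (nat_lit 6) (nat_lit 57) (nat_lit 0) (nat_lit 153) (nat_lit 150) (nat_lit 87))) (PT.nd (nat_lit 78) (PT.lf (nat_lit 4028) (nat_lit 6) (nat_lit 53) (nat_lit 0) (nat_lit 154) (nat_lit 150) (nat_lit 86)) (PT.lf (nat_lit 3800) (nat_lit 6) (nat_lit 50) (nat_lit 0) (nat_lit 155) (nat_lit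 150) (nat_lit 85))))) (PT.nd (nat_lit 234) (PT.nd (nat_lit 78) (PT.lf (nat_lit 3572) (nat_lit 6) (nat_lit 47) (nat_lit 5) (nat_lit 84) (nat_lit 151) (nat_lit 155)) (PT.nd (nat_lit 78) (PT.lf (nat_lit 3876) (nat_lit 6) (nat_lit 51) (nat_lit 5) (nat_lit 85) (nat_lit 151) (nat_lit 154)) (PT.lf (nat_lit 4104) (nat_lit 6) (nat_lit 54) (nat_lit 5) (nat_lit 86) (nat_lit 151) (nat_lit 153)))) (PT.nd (nat_lit 156) (PT.nd (nat_lit 78) (PT.lf (nat_lit 4408) (nat_lit 6) (nat_lit 58) (nat_lit 5) (nat_lit 87) (nat_lit 151) (nat_lit 152)) (PT.lf (nat_lit 4636) (nat_lit 3) (nat_lit 61) (nat_lit 4) (nat_lit 88) (nat_lit 151) (nat_lit 151))) (PT.nd (nat_lit 78) (PT.lf (nat_lit 4864) (nat_lit 6) (nat_lit 64) (nat_lit 4) (nat_lit 89) (nat_lit 151) (nat_lit 150)) (PT.lf (nat_lit 5092) (nat_lit 6) (nat_lit 67) (nat_lit 4) (nat_lit 90) (nat_lit 151) (nat_lit 149)))))) (PT.nd (nat_lit 4290) (PT.nd (nat_lit 234) (PT.nd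 (nat_lit 78) (PT.lf (nat_lit 5320) (nat_lit 6) (nat_lit 70) (nat_lit 4) (nat_lit 91) (nat_lit 151) (nat_lit 148)) (PT.nd (nat_lit 78) (PT.lf (nat_lit 5548) (nat_lit 6) (nat_lit 73) (nat_lit 4) (nat_lit 92) (nat_lit 151) (nat_lit 147)) (PT.lf (nat_lit 5776) (nat_lit 6) (nat_lit 76) (nat_lit 4) (nat_lit 93) (nat_lit 151) (nat_lit 146)))) (PT.nd (nat_lit 3900) (PT.nd (nat_lit 78) (PT.lf (nat_lit 6004) (nat_lit 6) (nat_lit 79) (nat_lit 4) (nat_lit 94) (nat_lit 151) (nat_lit 145)) (PT.lf (nat_lit 6308) (nat_lit 6) (nat_lit 83) (nat_lit 4) (nat_lit 95) (nat_lit 151) (nat_lit 144))) (PT.nd (nat_lit 78) (PT.lf (nat_lit 6308) (nat_lit 6) (nat_lit 83) (nat_lit 2) (nat_lit 144) (nat_lit 151) (nat_lit 95)) (PT.lf (nat_lit 6004) (nat_lit 6) (nat_lit 79) (nat_lit 2) (nat_lit 145) (nat_lit 151) (nat_lit 94))))) (PT.nd (nat_lit 312) (PT.nd (nat_lit 156) (PT.nd (nat_lit 78) (PT.lf (nat_lit 5776) (nat_lit 6) (nat_lit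 76) (nat_lit 2) (nat_lit 146) (nat_lit 151) (nat_lit 93)) (PT.lf (nat_lit 5548) (nat_lit 6) (nat_lit 73) (nat_lit 2) (nat_lit 147) (nat_lit 151) (nat_lit 92))) (PT.nd (nat_lit 78) (PT.lf (nat_lit 5320) (nat_lit 6) (nat_lit 70) (nat_lit 2) (nat_lit 148) (nat_lit 151) (nat_lit 91)) (PT.lf (nat_lit 5092) (nat_lit 6) (nat_lit 67) (nat_lit 2) (nat_lit 149) (nat_lit 151) (nat_lit 90)))) (PT.nd (nat_lit 156) (PT.nd (nat_lit 78) (PT.lf (nat_lit 4864) (nat_lit 6) (nat_lit 64) (nat_lit 2) (nat_lit 150) (nat_lit 151) (nat_lit 89)) (PT.lf (nat_lit 4636) (nat_lit 3) (nat_lit 61) (nat_lit 0) (nat_lit 151) (nat_lit 151) (nat_lit 88))) (PT.nd (nat_lit 78) (PT.lf (nat_lit 4408) (nat_lit 6) (nat_lit 58) (nat_lit 0) (nat_lit 152) (nat_lit 151) (nat_lit 87)) (PT.lf (nat_lit 4104) (nat_lit 6) (nat_lit 54) (nat_lit 0) (nat_lit 153) (nat_lit 151) (nat_lit 86))))))) (PT.nd (nat_lit 40092) (PT.nd (nat_lit 35412) (PT.nd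 (nat_lit 35100) (PT.nd (nat_lit 78) (PT.lf (nat_lit 3876) (nat_lit 6) (nat_lit 51) (nat_lit 0) (nat_lit 154) (nat_lit 151) (nat_lit 85)) (PT.nd (nat_lit 34944) (PT.lf (nat_lit 3572) (nat_lit 6) (nat_lit 47) (nat_lit 0) (nat_lit 155) (nat_lit 151) (nat_lit 84)) (PT.lf (nat_lit 3192) (nat_lit 6) (nat_lit 42) (nat_lit 5) (nat_lit 82) (nat_lit 152) (nat_lit 156)))) (PT.nd (nat_lit 156) (PT.nd (nat_lit 78) (PT.lf (nat_lit 3420) (nat_lit 6) (nat_lit 45) (nat_lit 5) (nat_lit 83) (nat_lit 152) (nat_lit 155)) (PT.lf (nat_lit 3648) (nat_lit 6) (nat_lit 48) (nat_lit 5) (nat_lit 84) (nat_lit 152) (nat_lit 154))) (PT.nd (nat_lit 78) (PT.lf (nat_lit 3952) (nat_lit 6) (nat_lit 52) (nat_lit 5) (nat_lit 85) (nat_lit 152) (nat_lit 153)) (PT.lf (nat_lit 4180) (nat_lit 3) (nat_lit 55) (nat_lit 4) (nat_lit 86) (nat_lit 152) (nat_lit 152))))) (PT.nd (nat_lit 234) (PT.nd (nat_lit 78) (PT.lf (nat_lit 4408) (nat_lit 6)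 (nat_lit 58) (nat_lit 4) (nat_lit 87) (nat_lit 152) (nat_lit 151)) (PT.nd (nat_lit 78) (PT.lf (nat_lit 4560) (nat_lit 6) (nat_lit 60) (nat_lit 4) (nat_lit 88) (nat_lit 152) (nat_lit 150)) (PT.lf (nat_lit 4788) (nat_lit 6) (nat_lit 63) (nat_lit 4) (nat_lit 89) (nat_lit 152) (nat_lit 149)))) (PT.nd (nat_lit 156) (PT.nd (nat_lit 78) (PT.lf (nat_lit 5016) (nat_lit 6) (nat_lit 66) (nat_lit 4) (nat_lit 90) (nat_lit 152) (nat_lit 148)) (PT.lf (nat_lit 5244) (nat_lit 6) (nat_lit 69) (nat_lit 4) (nat_lit 91) (nat_lit 152) (nat_lit 147))) (PT.nd (nat_lit 4212) (PT.lf (nat_lit 5472) (nat_lit 6) (nat_lit 72) (nat_lit 4) (nat_lit 92) (nat_lit 152) (nat_lit 146)) (PT.lf (nat_lit 5472) (nat_lit 6) (nat_lit 72) (nat_lit 2) (nat_lit 146) (nat_lit 152) (nat_lit 92)))))) (PT.nd (nat_lit 546) (PT.nd (nat_lit 234) (PT.nd (nat_lit 78) (PT.lf (nat_lit 5244) (nat_lit 6) (nat_lit 69) (nat_lit 2) (nat_lit 147) (nat_lit 152)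 (nat_lit 91)) (PT.nd (nat_lit 78) (PT.lf (nat_lit 5016) (nat_lit 6) (nat_lit 66) (nat_lit 2) (nat_lit 148) (nat_lit 152) (nat_lit 90)) (PT.lf (nat_lit 4788) (nat_lit 6) (nat_lit 63) (nat_lit 2) (nat_lit 149) (nat_lit 152) (nat_lit 89)))) (PT.nd (nat_lit 156) (PT.nd (nat_lit 78) (PT.lf (nat_lit 4560) (nat_lit 6) (nat_lit 60) (nat_lit 2) (nat_lit 150) (nat_lit 152) (nat_lit 88)) (PT.lf (nat_lit 4408) (nat_lit 6) (nat_lit 58) (nat_lit 2) (nat_lit 151) (nat_lit 152) (nat_lit 87))) (PT.nd (nat_lit 78) (PT.lf (nat_lit 4180) (nat_lit 3) (nat_lit 55) (nat_lit 0) (nat_lit 152) (nat_lit 152) (nat_lit 86)) (PT.lf (nat_lit 3952) (nat_lit 6) (nat_lit 52) (nat_lit 0) (nat_lit 153) (nat_lit 152) (nat_lit 85))))) (PT.nd (nat_lit 34944) (PT.nd (nat_lit 156) (PT.nd (nat_lit 78) (PT.lf (nat_lit 3648) (nat_lit 6) (nat_lit 48) (nat_lit 0) (nat_lit 154) (nat_lit 152) (nat_lit 84)) (PT.lf (nat_lit 3420) (nat_lit 6) (nat_lit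 45) (nat_lit 0) (nat_lit 155) (nat_lit 152) (nat_lit 83))) (PT.nd (nat_lit 34710) (PT.lf (nat_lit 3192) (nat_lit 6) (nat_lit 42) (nat_lit 0) (nat_lit 156) (nat_lit 152) (nat_lit 82)) (PT.lf (nat_lit 2812) (nat_lit 6) (nat_lit 37) (nat_lit 5) (nat_lit 80) (nat_lit 153) (nat_lit 157)))) (PT.nd (nat_lit 156) (PT.nd (nat_lit 78) (PT.lf (nat_lit 3040) (nat_lit 6) (nat_lit 40) (nat_lit 5) (nat_lit 81) (nat_lit 153) (nat_lit 156)) (PT.lf (nat_lit 3268) (nat_lit 6) (nat_lit 43) (nat_lit 5) (nat_lit 82) (nat_lit 153) (nat_lit 155))) (PT.nd (nat_lit 78) (PT.lf (nat_lit 3496) (nat_lit 6) (nat_lit 46) (nat_lit 5) (nat_lit 83) (nat_lit 153) (nat_lit 154)) (PT.lf (nat_lit 3724) (nat_lit 3) (nat_lit 49) (nat_lit 4) (nat_lit 84) (nat_lit 153) (nat_lit 153))))))))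
noncomputable def pc29 : PT := (PT.nd (nat_lit 45864) (PT.nd (nat_lit 5460) (PT.nd (nat_lit 4914) (PT.nd (nat_lit 234) (PT.nd (nat_lit 78) (PT.lf (nat_lit 3952) (nat_lit 6) (nat_lit 52) (nat_lit 4) (nat_lit 85) (nat_lit 153) (nat_lit 152)) (PT.nd (nat_lit 78) (PT.lf (nat_lit 4104) (nat_lit 6) (nat_lit 54) (nat_lit 4) (nat_lit 86) (nat_lit 153) (nat_lit 151)) (PT.lf (nat_lit 4332) (nat_lit 6) (nat_lit 57) (nat_lit 4) (nat_lit 87) (nat_lit 153) (nat_lit 150)))) (PT.nd (nat_lit 156) (PT.nd (nat_lit 78) (PT.lf (nat_lit 4484) (nat_lit 6) (nat_lit 59) (nat_lit 4) (nat_lit 88) (nat_lit 153) (nat_lit 149)) (PT.lf (nat_lit 4712) (nat_lit 6) (nat_lit 62) (nat_lit 4) (nat_lit 89) (nat_lit 153) (nat_lit 148))) (PT.nd (nat_lit 4446) (PT.lf (nat_lit 4940) (nat_lit 6) (nat_lit 65) (nat_lit 4) (nat_lit 90) (nat_lit 153) (nat_lit 147)) (PT.lf (nat_lit 4940) (nat_lit 6) (nat_lit 65) (nat_lit 2) (nat_lit 147) (nat_lit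 153) (nat_lit 90))))) (PT.nd (nat_lit 234) (PT.nd (nat_lit 78) (PT.lf (nat_lit 4712) (nat_lit 6) (nat_lit 62) (nat_lit 2) (nat_lit 148) (nat_lit 153) (nat_lit 89)) (PT.nd (nat_lit 78) (PT.lf (nat_lit 4484) (nat_lit 6) (nat_lit 59) (nat_lit 2) (nat_lit 149) (nat_lit 153) (nat_lit 88)) (PT.lf (nat_lit 4332) (nat_lit 6) (nat_lit 57) (nat_lit 2) (nat_lit 150) (nat_lit 153) (nat_lit 87)))) (PT.nd (nat_lit 156) (PT.nd (nat_lit 78) (PT.lf (nat_lit 4104) (nat_lit 6) (nat_lit 54) (nat_lit 2) (nat_lit 151) (nat_lit 153) (nat_lit 86)) (PT.lf (nat_lit 3952) (nat_lit 6) (nat_lit 52) (nat_lit 2) (nat_lit 152) (nat_lit 153) (nat_lit 85))) (PT.nd (nat_lit 78) (PT.lf (nat_lit 3724) (nat_lit 3) (nat_lit 49) (nat_lit 0) (nat_lit 153) (nat_lit 153) (nat_lit 84)) (PT.lf (nat_lit 3496) (nat_lit 6) (nat_lit 46) (nat_lit 0) (nat_lit 154) (nat_lit 153) (nat_lit 83)))))) (PT.nd (nat_lit 35022) (PT.nd (nat_lit 34710) (PT.nd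 (nat_lit 78) (PT.lf (nat_lit 3268) (nat_lit 6) (nat_lit 43) (nat_lit 0) (nat_lit 155) (nat_lit 153) (nat_lit 82)) (PT.nd (nat_lit 78) (PT.lf (nat_lit 3040) (nat_lit 6) (nat_lit 40) (nat_lit 0) (nat_lit 156) (nat_lit 153) (nat_lit 81)) (PT.lf (nat_lit 2812) (nat_lit 6) (nat_lit 37) (nat_lit 0) (nat_lit 157) (nat_lit 153) (nat_lit 80)))) (PT.nd (nat_lit 156) (PT.nd (nat_lit 78) (PT.lf (nat_lit 2660) (nat_lit 6) (nat_lit 35) (nat_lit 5) (nat_lit 79) (nat_lit 154) (nat_lit 157)) (PT.lf (nat_lit 2888) (nat_lit 6) (nat_lit 38) (nat_lit 5) (nat_lit 80) (nat_lit 154) (nat_lit 156))) (PT.nd (nat_lit 78) (PT.lf (nat_lit 3116) (nat_lit 6) (nat_lit 41) (nat_lit 5) (nat_lit 81) (nat_lit 154) (nat_lit 155)) (PT.lf (nat_lit 3344) (nat_lit 3) (nat_lit 44) (nat_lit 4) (nat_lit 82) (nat_lit 154) (nat_lit 154))))) (PT.nd (nat_lit 312) (PT.nd (nat_lit 156) (PT.nd (nat_lit 78) (PT.lf (nat_lit 3496) (nat_lit 6) (nat_lit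 46) (nat_lit 4) (nat_lit 83) (nat_lit 154) (nat_lit 153)) (PT.lf (nat_lit 3648) (nat_lit 6) (nat_lit 48) (nat_lit 4) (nat_lit 84) (nat_lit 154) (nat_lit 152))) (PT.nd (nat_lit 78) (PT.lf (nat_lit 3876) (nat_lit 6) (nat_lit 51) (nat_lit 4) (nat_lit 85) (nat_lit 154) (nat_lit 151)) (PT.lf (nat_lit 4028) (nat_lit 6) (nat_lit 53) (nat_lit 4) (nat_lit 86) (nat_lit 154) (nat_lit 150)))) (PT.nd (nat_lit 4914) (PT.nd (nat_lit 4836) (PT.lf (nat_lit 4256) (nat_lit 6) (nat_lit 56) (nat_lit 4) (nat_lit 87) (nat_lit 154) (nat_lit 149)) (PT.lf (nat_lit 4256) (nat_lit 6) (nat_lit 56) (nat_lit 2) (nat_lit 149) (nat_lit 154) (nat_lit 87))) (PT.nd (nat_lit 78) (PT.lf (nat_lit 4028) (nat_lit 6) (nat_lit 53) (nat_lit 2) (nat_lit 150) (nat_lit 154) (nat_lit 86)) (PT.lf (nat_lit 3876) (nat_lit 6) (nat_lit 51) (nat_lit 2) (nat_lit 151) (nat_lit 154) (nat_lit 85))))))) (PT.nd (nat_lit 35412) (PT.nd (nat_lit 34866) (PT.nd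 (nat_lit 234) (PT.nd (nat_lit 78) (PT.lf (nat_lit 3648) (nat_lit 6) (nat_lit 48) (nat_lit 2) (nat_lit 152) (nat_lit 154) (nat_lit 84)) (PT.nd (nat_lit 78) (PT.lf (nat_lit 3496) (nat_lit 6) (nat_lit 46) (nat_lit 2) (nat_lit 153) (nat_lit 154) (nat_lit 83)) (PT.lf (nat_lit 3344) (nat_lit 3) (nat_lit 44) (nat_lit 0) (nat_lit 154) (nat_lit 154) (nat_lit 82)))) (PT.nd (nat_lit 156) (PT.nd (nat_lit 78) (PT.lf (nat_lit 3116) (nat_lit 6) (nat_lit 41) (nat_lit 0) (nat_lit 155) (nat_lit 154) (nat_lit 81)) (PT.lf (nat_lit 2888) (nat_lit 6) (nat_lit 38) (nat_lit 0) (nat_lit 156) (nat_lit 154) (nat_lit 80))) (PT.nd (nat_lit 34398) (PT.lf (nat_lit 2660) (nat_lit 6) (nat_lit 35) (nat_lit 0) (nat_lit 157) (nat_lit 154) (nat_lit 79)) (PT.lf (nat_lit 2356) (nat_lit 6) (nat_lit 31) (nat_lit 5) (nat_lit 77) (nat_lit 155) (nat_lit 158))))) (PT.nd (nat_lit 234) (PT.nd (nat_lit 78) (PT.lf (nat_lit 2508) (nat_lit 6) (nat_lit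 33) (nat_lit 5) (nat_lit 78) (nat_lit 155) (nat_lit 157)) (PT.nd (nat_lit 78) (PT.lf (nat_lit 2736) (nat_lit 6) (nat_lit 36) (nat_lit 5) (nat_lit 79) (nat_lit 155) (nat_lit 156)) (PT.lf (nat_lit 2964) (nat_lit 3) (nat_lit 39) (nat_lit 4) (nat_lit 80) (nat_lit 155) (nat_lit 155)))) (PT.nd (nat_lit 156) (PT.nd (nat_lit 78) (PT.lf (nat_lit 3116) (nat_lit 6) (nat_lit 41) (nat_lit 4) (nat_lit 81) (nat_lit 155) (nat_lit 154)) (PT.lf (nat_lit 3268) (nat_lit 6) (nat_lit 43) (nat_lit 4) (nat_lit 82) (nat_lit 155) (nat_lit 153))) (PT.nd (nat_lit 78) (PT.lf (nat_lit 3420) (nat_lit 6) (nat_lit 45) (nat_lit 4) (nat_lit 83) (nat_lit 155) (nat_lit 152)) (PT.lf (nat_lit 3572) (nat_lit 6) (nat_lit 47) (nat_lit 4) (nat_lit 84) (nat_lit 155) (nat_lit 151)))))) (PT.nd (nat_lit 5538) (PT.nd (nat_lit 5226) (PT.nd (nat_lit 5070) (PT.lf (nat_lit 3800) (nat_lit 6) (nat_lit 50) (nat_lit 4) (nat_lit 85) (nat_lit 155) (nat_lit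 150)) (PT.nd (nat_lit 78) (PT.lf (nat_lit 3800) (nat_lit 6) (nat_lit 50) (nat_lit 2) (nat_lit 150) (nat_lit 155) (nat_lit 85)) (PT.lf (nat_lit 3572) (nat_lit 6) (nat_lit 47) (nat_lit 2) (nat_lit 151) (nat_lit 155) (nat_lit 84)))) (PT.nd (nat_lit 156) (PT.nd (nat_lit 78) (PT.lf (nat_lit 3420) (nat_lit 6) (nat_lit 45) (nat_lit 2) (nat_lit 152) (nat_lit 155) (nat_lit 83)) (PT.lf (nat_lit 3268) (nat_lit 6) (nat_lit 43) (nat_lit 2) (nat_lit 153) (nat_lit 155) (nat_lit 82))) (PT.nd (nat_lit 78) (PT.lf (nat_lit 3116) (nat_lit 6) (nat_lit 41) (nat_lit 2) (nat_lit 154) (nat_lit 155) (nat_lit 81)) (PT.lf (nat_lit 2964) (nat_lit 3) (nat_lit 39) (nat_lit 0) (nat_lit 155) (nat_lit 155) (nat_lit 80))))) (PT.nd (nat_lit 34398) (PT.nd (nat_lit 156) (PT.nd (nat_lit 78) (PT.lf (nat_lit 2736) (nat_lit 6) (nat_lit 36) (nat_lit 0) (nat_lit 156) (nat_lit 155) (nat_lit 79)) (PT.lf (nat_lit 2508) (nat_lit 6) (nat_lit 33)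 (nat_lit 0) (nat_lit 157) (nat_lit 155) (nat_lit 78))) (PT.nd (nat_lit 34164) (PT.lf (nat_lit 2356) (nat_lit 6) (nat_lit 31) (nat_lit 0) (nat_lit 158) (nat_lit 155) (nat_lit 77)) (PT.lf (nat_lit 2052) (nat_lit 6) (nat_lit 27) (nat_lit 5) (nat_lit 75) (nat_lit 156) (nat_lit 159)))) (PT.nd (nat_lit 156) (PT.nd (nat_lit 78) (PT.lf (nat_lit 2204) (nat_lit 6) (nat_lit 29) (nat_lit 5) (nat_lit 76) (nat_lit 156) (nat_lit 158)) (PT.lf (nat_lit 2432) (nat_lit 6) (nat_lit 32) (nat_lit 5) (nat_lit 77) (nat_lit 156) (nat_lit 157))) (PT.nd (nat_lit 78) (PT.lf (nat_lit 2584) (nat_lit 3) (nat_lit 34) (nat_lit 4) (nat_lit 78) (nat_lit 156) (nat_lit 156)) (PT.lf (nat_lit 2736) (nat_lit 6) (nat_lit 36) (nat_lit 4) (nat_lit 79) (nat_lit 156) (nat_lit 155))))))))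
noncomputable def pc30 : PT := (PT.nd (nat_lit 80808) (PT.nd (nat_lit 40326) (PT.nd (nat_lit 5928) (PT.nd (nat_lit 5616) (PT.nd (nat_lit 78) (PT.lf (nat_lit 2888) (nat_lit 6) (nat_lit 38) (nat_lit 4) (nat_lit 80) (nat_lit 156) (nat_lit 154)) (PT.nd (nat_lit 78) (PT.lf (nat_lit 3040) (nat_lit 6) (nat_lit 40) (nat_lit 4) (nat_lit 81) (nat_lit 156) (nat_lit 153)) (PT.lf (nat_lit 3192) (nat_lit 6) (nat_lit 42) (nat_lit 4) (nat_lit 82) (nat_lit 156) (nat_lit 152)))) (PT.nd (nat_lit 156) (PT.nd (nat_lit 78) (PT.lf (nat_lit 3192) (nat_lit 6) (nat_lit 42) (nat_lit 2) (nat_lit 152) (nat_lit 156) (nat_lit 82)) (PT.lf (nat_lit 3040) (nat_lit 6) (nat_lit 40) (nat_lit 2) (nat_lit 153) (nat_lit 156) (nat_lit 81))) (PT.nd (nat_lit 78) (PT.lf (nat_lit 2888) (nat_lit 6) (nat_lit 38) (nat_lit 2) (nat_lit 154) (nat_lit 156) (nat_lit 80)) (PT.lf (nat_lit 2736) (nat_lit 6) (nat_lit 36) (nat_lit 2) (nat_lit 155) (nat_lit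 156) (nat_lit 79))))) (PT.nd (nat_lit 234) (PT.nd (nat_lit 78) (PT.lf (nat_lit 2584) (nat_lit 3) (nat_lit 34) (nat_lit 0) (nat_lit 156) (nat_lit 156) (nat_lit 78)) (PT.nd (nat_lit 78) (PT.lf (nat_lit 2432) (nat_lit 6) (nat_lit 32) (nat_lit 0) (nat_lit 157) (nat_lit 156) (nat_lit 77)) (PT.lf (nat_lit 2204) (nat_lit 6) (nat_lit 29) (nat_lit 0) (nat_lit 158) (nat_lit 156) (nat_lit 76)))) (PT.nd (nat_lit 34008) (PT.nd (nat_lit 33930) (PT.lf (nat_lit 2052) (nat_lit 6) (nat_lit 27) (nat_lit 0) (nat_lit 159) (nat_lit 156) (nat_lit 75)) (PT.lf (nat_lit 1748) (nat_lit 6) (nat_lit 23) (nat_lit 5) (nat_lit 73) (nat_lit 157) (nat_lit 160))) (PT.nd (nat_lit 78) (PT.lf (nat_lit 1900) (nat_lit 6) (nat_lit 25) (nat_lit 5) (nat_lit 74) (nat_lit 157) (nat_lit 159)) (PT.lf (nat_lit 2128) (nat_lit 6) (nat_lit 28) (nat_lit 5) (nat_lit 75) (nat_lit 157) (nat_lit 158)))))) (PT.nd (nat_lit 6162) (PT.nd (nat_lit 234) (PT.nd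 (nat_lit 78) (PT.lf (nat_lit 2280) (nat_lit 3) (nat_lit 30) (nat_lit 4) (nat_lit 76) (nat_lit 157) (nat_lit 157)) (PT.nd (nat_lit 78) (PT.lf (nat_lit 2432) (nat_lit 6) (nat_lit 32) (nat_lit 4) (nat_lit 77) (nat_lit 157) (nat_lit 156)) (PT.lf (nat_lit 2508) (nat_lit 6) (nat_lit 33) (nat_lit 4) (nat_lit 78) (nat_lit 157) (nat_lit 155)))) (PT.nd (nat_lit 5772) (PT.nd (nat_lit 78) (PT.lf (nat_lit 2660) (nat_lit 6) (nat_lit 35) (nat_lit 4) (nat_lit 79) (nat_lit 157) (nat_lit 154)) (PT.lf (nat_lit 2812) (nat_lit 6) (nat_lit 37) (nat_lit 4) (nat_lit 80) (nat_lit 157) (nat_lit 153))) (PT.nd (nat_lit 78) (PT.lf (nat_lit 2812) (nat_lit 6) (nat_lit 37) (nat_lit 2) (nat_lit 153) (nat_lit 157) (nat_lit 80)) (PT.lf (nat_lit 2660) (nat_lit 6) (nat_lit 35) (nat_lit 2) (nat_lit 154) (nat_lit 157) (nat_lit 79))))) (PT.nd (nat_lit 312) (PT.nd (nat_lit 156) (PT.nd (nat_lit 78) (PT.lf (nat_lit 2508) (nat_lit 6) (nat_lit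 33) (nat_lit 2) (nat_lit 155) (nat_lit 157) (nat_lit 78)) (PT.lf (nat_lit 2432) (nat_lit 6) (nat_lit 32) (nat_lit 2) (nat_lit 156) (nat_lit 157) (nat_lit 77))) (PT.nd (nat_lit 78) (PT.lf (nat_lit 2280) (nat_lit 3) (nat_lit 30) (nat_lit 0) (nat_lit 157) (nat_lit 157) (nat_lit 76)) (PT.lf (nat_lit 2128) (nat_lit 6) (nat_lit 28) (nat_lit 0) (nat_lit 158) (nat_lit 157) (nat_lit 75)))) (PT.nd (nat_lit 33852) (PT.nd (nat_lit 78) (PT.lf (nat_lit 1900) (nat_lit 6) (nat_lit 25) (nat_lit 0) (nat_lit 159) (nat_lit 157) (nat_lit 74)) (PT.lf (nat_lit 1748) (nat_lit 6) (nat_lit 23) (nat_lit 0) (nat_lit 160) (nat_lit 157) (nat_lit 73))) (PT.nd (nat_lit 78) (PT.lf (nat_lit 1596) (nat_lit 6) (nat_lit 21) (nat_lit 5) (nat_lit 72) (nat_lit 158) (nat_lit 160)) (PT.lf (nat_lit 1824) (nat_lit 6) (nat_lit 24) (nat_lit 5) (nat_lit 73) (nat_lit 158) (nat_lit 159))))))) (PT.nd (nat_lit 40638) (PT.nd (nat_lit 6552) (PT.nd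 (nat_lit 234) (PT.nd (nat_lit 78) (PT.lf (nat_lit 1976) (nat_lit 3) (nat_lit 26) (nat_lit 4) (nat_lit 74) (nat_lit 158) (nat_lit 158)) (PT.nd (nat_lit 78) (PT.lf (nat_lit 2128) (nat_lit 6) (nat_lit 28) (nat_lit 4) (nat_lit 75) (nat_lit 158) (nat_lit 157)) (PT.lf (nat_lit 2204) (nat_lit 6) (nat_lit 29) (nat_lit 4) (nat_lit 76) (nat_lit 158) (nat_lit 156)))) (PT.nd (nat_lit 6162) (PT.nd (nat_lit 6084) (PT.lf (nat_lit 2356) (nat_lit 6) (nat_lit 31) (nat_lit 4) (nat_lit 77) (nat_lit 158) (nat_lit 155)) (PT.lf (nat_lit 2356) (nat_lit 6) (nat_lit 31) (nat_lit 2) (nat_lit 155) (nat_lit 158) (nat_lit 77))) (PT.nd (nat_lit 78) (PT.lf (nat_lit 2204) (nat_lit 6) (nat_lit 29) (nat_lit 2) (nat_lit 156) (nat_lit 158) (nat_lit 76)) (PT.lf (nat_lit 2128) (nat_lit 6) (nat_lit 28) (nat_lit 2) (nat_lit 157) (nat_lit 158) (nat_lit 75))))) (PT.nd (nat_lit 33774) (PT.nd (nat_lit 78) (PT.lf (nat_lit 1976) (nat_lit 3)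 (nat_lit 26) (nat_lit 0) (nat_lit 158) (nat_lit 158) (nat_lit 74)) (PT.nd (nat_lit 78) (PT.lf (nat_lit 1824) (nat_lit 6) (nat_lit 24) (nat_lit 0) (nat_lit 159) (nat_lit 158) (nat_lit 73)) (PT.lf (nat_lit 1596) (nat_lit 6) (nat_lit 21) (nat_lit 0) (nat_lit 160) (nat_lit 158) (nat_lit 72)))) (PT.nd (nat_lit 156) (PT.nd (nat_lit 78) (PT.lf (nat_lit 1368) (nat_lit 6) (nat_lit 18) (nat_lit 5) (nat_lit 70) (nat_lit 159) (nat_lit 161)) (PT.lf (nat_lit 1520) (nat_lit 6) (nat_lit 20) (nat_lit 5) (nat_lit 71) (nat_lit 159) (nat_lit 160))) (PT.nd (nat_lit 78) (PT.lf (nat_lit 1672) (nat_lit 3) (nat_lit 22) (nat_lit 4) (nat_lit 72) (nat_lit 159) (nat_lit 159)) (PT.lf (nat_lit 1824) (nat_lit 6) (nat_lit 24) (nat_lit 4) (nat_lit 73) (nat_lit 159) (nat_lit 158)))))) (PT.nd (nat_lit 6786) (PT.nd (nat_lit 6474) (PT.nd (nat_lit 78) (PT.lf (nat_lit 1900) (nat_lit 6) (nat_lit 25) (nat_lit 4) (nat_lit 74) (nat_lit 159)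 (nat_lit 157)) (PT.nd (nat_lit 6318) (PT.lf (nat_lit 2052) (nat_lit 6) (nat_lit 27) (nat_lit 4) (nat_lit 75) (nat_lit 159) (nat_lit 156)) (PT.lf (nat_lit 2052) (nat_lit 6) (nat_lit 27) (nat_lit 2) (nat_lit 156) (nat_lit 159) (nat_lit 75)))) (PT.nd (nat_lit 156) (PT.nd (nat_lit 78) (PT.lf (nat_lit 1900) (nat_lit 6) (nat_lit 25) (nat_lit 2) (nat_lit 157) (nat_lit 159) (nat_lit 74)) (PT.lf (nat_lit 1824) (nat_lit 6) (nat_lit 24) (nat_lit 2) (nat_lit 158) (nat_lit 159) (nat_lit 73))) (PT.nd (nat_lit 78) (PT.lf (nat_lit 1672) (nat_lit 3) (nat_lit 22) (nat_lit 0) (nat_lit 159) (nat_lit 159) (nat_lit 72)) (PT.lf (nat_lit 1520) (nat_lit 6) (nat_lit 20) (nat_lit 0) (nat_lit 160) (nat_lit 159) (nat_lit 71))))) (PT.nd (nat_lit 33618) (PT.nd (nat_lit 33462) (PT.nd (nat_lit 33384) (PT.lf (nat_lit 1368) (nat_lit 6) (nat_lit 18) (nat_lit 0) (nat_lit 161) (nat_lit 159) (nat_lit 70)) (PT.lf (nat_lit 1140) (nat_lit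 6) (nat_lit 15) (nat_lit 5) (nat_lit 68) (nat_lit 160) (nat_lit 162))) (PT.nd (nat_lit 78) (PT.lf (nat_lit 1292) (nat_lit 6) (nat_lit 17) (nat_lit 5) (nat_lit 69) (nat_lit 160) (nat_lit 161)) (PT.lf (nat_lit 1444) (nat_lit 3) (nat_lit 19) (nat_lit 4) (nat_lit 70) (nat_lit 160) (nat_lit 160)))) (PT.nd (nat_lit 156) (PT.nd (nat_lit 78) (PT.lf (nat_lit 1520) (nat_lit 6) (nat_lit 20) (nat_lit 4) (nat_lit 71) (nat_lit 160) (nat_lit 159)) (PT.lf (nat_lit 1596) (nat_lit 6) (nat_lit 21) (nat_lit 4) (nat_lit 72) (nat_lit 160) (nat_lit 158))) (PT.nd (nat_lit 6552) (PT.lf (nat_lit 1748) (nat_lit 6) (nat_lit 23) (nat_lit 4) (nat_lit 73) (nat_lit 160) (nat_lit 157)) (PT.lf (nat_lit 1748) (nat_lit 6) (nat_lit 23) (nat_lit 2) (nat_lit 157) (nat_lit 160) (nat_lit 73))))))))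
noncomputable def pc31 : PT := (PT.nd (nat_lit 114738) (PT.nd (nat_lit 41028) (PT.nd (nat_lit 33618) (PT.nd (nat_lit 234) (PT.nd (nat_lit 78) (PT.lf (nat_lit 1596) (nat_lit 6) (nat_lit 21) (nat_lit 2) (nat_lit 158) (nat_lit 160) (nat_lit 72)) (PT.nd (nat_lit 78) (PT.lf (nat_lit 1520) (nat_lit 6) (nat_lit 20) (nat_lit 2) (nat_lit 159) (nat_lit 160) (nat_lit 71)) (PT.lf (nat_lit 1444) (nat_lit 3) (nat_lit 19) (nat_lit 0) (nat_lit 160) (nat_lit 160) (nat_lit 70)))) (PT.nd (nat_lit 33228) (PT.nd (nat_lit 78) (PT.lf (nat_lit 1292) (nat_lit 6) (nat_lit 17) (nat_lit 0) (nat_lit 161) (nat_lit 160) (nat_lit 69)) (PT.lf (nat_lit 1140) (nat_lit 6) (nat_lit 15) (nat_lit 0) (nat_lit 162) (nat_lit 160) (nat_lit 68))) (PT.nd (nat_lit 78) (PT.lf (nat_lit 912) (nat_lit 6) (nat_lit 12) (nat_lit 5) (nat_lit 66) (nat_lit 161) (nat_lit 163)) (PT.lf (nat_lit 1064) (nat_lit 6) (nat_lit 14) (nat_lit 5) (nat_lit 67) (nat_lit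 161) (nat_lit 162))))) (PT.nd (nat_lit 7098) (PT.nd (nat_lit 78) (PT.lf (nat_lit 1216) (nat_lit 3) (nat_lit 16) (nat_lit 4) (nat_lit 68) (nat_lit 161) (nat_lit 161)) (PT.nd (nat_lit 78) (PT.lf (nat_lit 1292) (nat_lit 6) (nat_lit 17) (nat_lit 4) (nat_lit 69) (nat_lit 161) (nat_lit 160)) (PT.lf (nat_lit 1368) (nat_lit 6) (nat_lit 18) (nat_lit 4) (nat_lit 70) (nat_lit 161) (nat_lit 159)))) (PT.nd (nat_lit 156) (PT.nd (nat_lit 78) (PT.lf (nat_lit 1368) (nat_lit 6) (nat_lit 18) (nat_lit 2) (nat_lit 159) (nat_lit 161) (nat_lit 70)) (PT.lf (nat_lit 1292) (nat_lit 6) (nat_lit 17) (nat_lit 2) (nat_lit 160) (nat_lit 161) (nat_lit 69))) (PT.nd (nat_lit 78) (PT.lf (nat_lit 1216) (nat_lit 3) (nat_lit 16) (nat_lit 0) (nat_lit 161) (nat_lit 161) (nat_lit 68)) (PT.lf (nat_lit 1064) (nat_lit 6) (nat_lit 14) (nat_lit 0) (nat_lit 162) (nat_lit 161) (nat_lit 67)))))) (PT.nd (nat_lit 40482) (PT.nd (nat_lit 33072) (PT.nd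 (nat_lit 32916) (PT.lf (nat_lit 912) (nat_lit 6) (nat_lit 12) (nat_lit 0) (nat_lit 163) (nat_lit 161) (nat_lit 66)) (PT.nd (nat_lit 78) (PT.lf (nat_lit 684) (nat_lit 6) (nat_lit 9) (nat_lit 5) (nat_lit 64) (nat_lit 162) (nat_lit 164)) (PT.lf (nat_lit 836) (nat_lit 6) (nat_lit 11) (nat_lit 5) (nat_lit 65) (nat_lit 162) (nat_lit 163)))) (PT.nd (nat_lit 156) (PT.nd (nat_lit 78) (PT.lf (nat_lit 988) (nat_lit 3) (nat_lit 13) (nat_lit 4) (nat_lit 66) (nat_lit 162) (nat_lit 162)) (PT.lf (nat_lit 1064) (nat_lit 6) (nat_lit 14) (nat_lit 4) (nat_lit 67) (nat_lit 162) (nat_lit 161))) (PT.nd (nat_lit 7176) (PT.lf (nat_lit 1140) (nat_lit 6) (nat_lit 15) (nat_lit 4) (nat_lit 68) (nat_lit 162) (nat_lit 160)) (PT.lf (nat_lit 1140) (nat_lit 6) (nat_lit 15) (nat_lit 2) (nat_lit 160) (nat_lit 162) (nat_lit 68))))) (PT.nd (nat_lit 32916) (PT.nd (nat_lit 156) (PT.nd (nat_lit 78) (PT.lf (nat_lit 1064) (nat_lit 6) (nat_lit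 14) (nat_lit 2) (nat_lit 161) (nat_lit 162) (nat_lit 67)) (PT.lf (nat_lit 988) (nat_lit 3) (nat_lit 13) (nat_lit 0) (nat_lit 162) (nat_lit 162) (nat_lit 66))) (PT.nd (nat_lit 78) (PT.lf (nat_lit 836) (nat_lit 6) (nat_lit 11) (nat_lit 0) (nat_lit 163) (nat_lit 162) (nat_lit 65)) (PT.lf (nat_lit 684) (nat_lit 6) (nat_lit 9) (nat_lit 0) (nat_lit 164) (nat_lit 162) (nat_lit 64)))) (PT.nd (nat_lit 156) (PT.nd (nat_lit 78) (PT.lf (nat_lit 456) (nat_lit 6) (nat_lit 6) (nat_lit 5) (nat_lit 62) (nat_lit 163) (nat_lit 165)) (PT.lf (nat_lit 608) (nat_lit 6) (nat_lit 8) (nat_lit 5) (nat_lit 63) (nat_lit 163) (nat_lit 164))) (PT.nd (nat_lit 78) (PT.lf (nat_lit 760) (nat_lit 3) (nat_lit 10) (nat_lit 4) (nat_lit 64) (nat_lit 163) (nat_lit 163)) (PT.lf (nat_lit 836) (nat_lit 6) (nat_lit 11) (nat_lit 4) (nat_lit 65) (nat_lit 163) (nat_lit 162))))))) (PT.nd (nat_lit 48438) (PT.nd (nat_lit 40248) (PT.nd (nat_lit 7566)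 (PT.nd (nat_lit 7410) (PT.lf (nat_lit 912) (nat_lit 6) (nat_lit 12) (nat_lit 4) (nat_lit 66) (nat_lit 163) (nat_lit 161)) (PT.nd (nat_lit 78) (PT.lf (nat_lit 912) (nat_lit 6) (nat_lit 12) (nat_lit 2) (nat_lit 161) (nat_lit 163) (nat_lit 66)) (PT.lf (nat_lit 836) (nat_lit 6) (nat_lit 11) (nat_lit 2) (nat_lit 162) (nat_lit 163) (nat_lit 65)))) (PT.nd (nat_lit 156) (PT.nd (nat_lit 78) (PT.lf (nat_lit 760) (nat_lit 3) (nat_lit 10) (nat_lit 0) (nat_lit 163) (nat_lit 163) (nat_lit 64)) (PT.lf (nat_lit 608) (nat_lit 6) (nat_lit 8) (nat_lit 0) (nat_lit 164) (nat_lit 163) (nat_lit 63))) (PT.nd (nat_lit 32448) (PT.lf (nat_lit 456) (nat_lit 6) (nat_lit 6) (nat_lit 0) (nat_lit 165) (nat_lit 163) (nat_lit 62)) (PT.lf (nat_lit 228) (nat_lit 6) (nat_lit 3) (nat_lit 5) (nat_lit 60) (nat_lit 164) (nat_lit 166))))) (PT.nd (nat_lit 7878) (PT.nd (nat_lit 156) (PT.nd (nat_lit 78) (PT.lf (nat_lit 380) (nat_lit 6) (nat_lit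 5) (nat_lit 5) (nat_lit 61) (nat_lit 164) (nat_lit 165)) (PT.lf (nat_lit 532) (nat_lit 3) (nat_lit 7) (nat_lit 4) (nat_lit 62) (nat_lit 164) (nat_lit 164))) (PT.nd (nat_lit 78) (PT.lf (nat_lit 608) (nat_lit 6) (nat_lit 8) (nat_lit 4) (nat_lit 63) (nat_lit 164) (nat_lit 163)) (PT.lf (nat_lit 684) (nat_lit 6) (nat_lit 9) (nat_lit 4) (nat_lit 64) (nat_lit 164) (nat_lit 162)))) (PT.nd (nat_lit 156) (PT.nd (nat_lit 78) (PT.lf (nat_lit 684) (nat_lit 6) (nat_lit 9) (nat_lit 2) (nat_lit 162) (nat_lit 164) (nat_lit 64)) (PT.lf (nat_lit 608) (nat_lit 6) (nat_lit 8) (nat_lit 2) (nat_lit 163) (nat_lit 164) (nat_lit 63))) (PT.nd (nat_lit 78) (PT.lf (nat_lit 532) (nat_lit 3) (nat_lit 7) (nat_lit 0) (nat_lit 164) (nat_lit 164) (nat_lit 62)) (PT.lf (nat_lit 380) (nat_lit 6) (nat_lit 5) (nat_lit 0) (nat_lit 165) (nat_lit 164) (nat_lit 61)))))) (PT.nd (nat_lit 40560) (PT.nd (nat_lit 32448) (PT.nd (nat_lit 32292)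 (PT.lf (nat_lit 228) (nat_lit 6) (nat_lit 3) (nat_lit 0) (nat_lit 166) (nat_lit 164) (nat_lit 60)) (PT.nd (nat_lit 78) (PT.lf (nat_lit 152) (nat_lit 6) (nat_lit 2) (nat_lit 5) (nat_lit 59) (nat_lit 165) (nat_lit 166)) (PT.lf (nat_lit 304) (nat_lit 3) (nat_lit 4) (nat_lit 4) (nat_lit 60) (nat_lit 165) (nat_lit 165)))) (PT.nd (nat_lit 7956) (PT.nd (nat_lit 78) (PT.lf (nat_lit 380) (nat_lit 6) (nat_lit 5) (nat_lit 4) (nat_lit 61) (nat_lit 165) (nat_lit 164)) (PT.lf (nat_lit 456) (nat_lit 6) (nat_lit 6) (nat_lit 4) (nat_lit 62) (nat_lit 165) (nat_lit 163))) (PT.nd (nat_lit 78) (PT.lf (nat_lit 456) (nat_lit 6) (nat_lit 6) (nat_lit 2) (nat_lit 163) (nat_lit 165) (nat_lit 62)) (PT.lf (nat_lit 380) (nat_lit 6) (nat_lit 5) (nat_lit 2) (nat_lit 164) (nat_lit 165) (nat_lit 61))))) (PT.nd (nat_lit 32448) (PT.nd (nat_lit 32292) (PT.nd (nat_lit 78) (PT.lf (nat_lit 304) (nat_lit 3) (nat_lit 4) (nat_lit 0) (nat_lit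 165) (nat_lit 165) (nat_lit 60)) (PT.lf (nat_lit 152) (nat_lit 6) (nat_lit 2) (nat_lit 0) (nat_lit 166) (nat_lit 165) (nat_lit 59))) (PT.nd (nat_lit 78) (PT.lf (nat_lit 76) (nat_lit 3) (nat_lit 1) (nat_lit 4) (nat_lit 58) (nat_lit 166) (nat_lit 166)) (PT.lf (nat_lit 152) (nat_lit 6) (nat_lit 2) (nat_lit 4) (nat_lit 59) (nat_lit 166) (nat_lit 165)))) (PT.nd (nat_lit 8190) (PT.nd (nat_lit 8112) (PT.lf (nat_lit 228) (nat_lit 6) (nat_lit 3) (nat_lit 4) (nat_lit 60) (nat_lit 166) (nat_lit 164)) (PT.lf (nat_lit 228) (nat_lit 6) (nat_lit 3) (nat_lit 2) (nat_lit 164) (nat_lit 166) (nat_lit 60))) (PT.nd (nat_lit 78) (PT.lf (nat_lit 152) (nat_lit 6) (nat_lit 2) (nat_lit 2) (nat_lit 165) (nat_lit 166) (nat_lit 59)) (PT.lf (nat_lit 76) (nat_lit 3) (nat_lit 1) (nat_lit 0) (nat_lit 166) (nat_lit 166) (nat_lit 58))))))))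
noncomputable def xc0 : XT := (XT.nd (nat_lit 162240) (nat_lit 0) (nat_lit 0) (XT.nd (nat_lit 121368) (nat_lit 0) (nat_lit 0) (XT.nd (nat_lit 80886) (nat_lit 0) (nat_lit 0) (XT.nd (nat_lit 40482) (nat_lit 0) (nat_lit 0) (XT.nd (nat_lit 78) (nat_lit 0) (nat_lit 0) (XT.lf (nat_lit 0) (nat_lit 12225386024) (nat_lit 152) (nat_lit 78631500179) (nat_lit 0) (nat_lit 12115116679) (nat_lit 2) (nat_lit 5) (nat_lit 4) (nat_lit 4) (nat_lit 2) (nat_lit 4) (nat_lit 413) (nat_lit 184) (nat_lit 183)) (XT.nd (nat_lit 40326) (nat_lit 0) (nat_lit 0) (XT.lf (nat_lit 0) (nat_lit 15199399191) (nat_lit 152) (nat_lit 75797629235) (nat_lit 0) (nat_lit 14982072229) (nat_lit 2) (nat_lit 5) (nat_lit 4) (nat_lit 4) (nat_lit 2) (nat_lit 4) (nat_lit 414) (nat_lit 184) (nat_lit 182)) (XT.lf (nat_lit 0) (nat_lit 1821071254) (nat_lit 152) (nat_lit 43595193751) (nat_lit 0) (nat_lit 1821071254) (nat_lit 2) (nat_lit 5) (nat_lit 4)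 (nat_lit 4) (nat_lit 2) (nat_lit 4) (nat_lit 410) (nat_lit 185) (nat_lit 185)))) (XT.nd (nat_lit 156) (nat_lit 0) (nat_lit 0) (XT.nd (nat_lit 78) (nat_lit 0) (nat_lit 0) (XT.lf (nat_lit 0) (nat_lit 6492092665) (nat_lit 152) (nat_lit 84352115230) (nat_lit 0) (nat_lit 6378515239) (nat_lit 2) (nat_lit 5) (nat_lit 4) (nat_lit 4) (nat_lit 2) (nat_lit 4) (nat_lit 411) (nat_lit 185) (nat_lit 184)) (XT.lf (nat_lit 0) (nat_lit 9372324578) (nat_lit 152) (nat_lit 81534078259) (nat_lit 0) (nat_lit 9148477807) (nat_lit 2) (nat_lit 5) (nat_lit 4) (nat_lit 4) (nat_lit 2) (nat_lit 4) (nat_lit 412) (nat_lit 185) (nat_lit 183))) (XT.nd (nat_lit 78) (nat_lit 0) (nat_lit 0) (XT.lf (nat_lit 0) (nat_lit 12285354958) (nat_lit 152) (nat_lit 78733814227) (nat_lit 0) (nat_lit 11954450570) (nat_lit 2) (nat_lit 5) (nat_lit 4) (nat_lit 4) (nat_lit 2) (nat_lit 4) (nat_lit 413) (nat_lit 185) (nat_lit 182)) (XT.lf (nat_lit 0)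 (nat_lit 15233729170) (nat_lit 152) (nat_lit 75948876301) (nat_lit 0) (nat_lit 14798885348) (nat_lit 2) (nat_lit 5) (nat_lit 4) (nat_lit 4) (nat_lit 2) (nat_lit 4) (nat_lit 414) (nat_lit 185) (nat_lit 181))))) (XT.nd (nat_lit 234) (nat_lit 0) (nat_lit 0) (XT.nd (nat_lit 78) (nat_lit 152) (nat_lit 0) (XT.lf (nat_lit 0) (nat_lit 42796126162) (nat_lit 76) (nat_lit 906528280) (nat_lit 76) (nat_lit 906528280) (nat_lit 4) (nat_lit 4) (nat_lit 5) (nat_lit 5) (nat_lit 5) (nat_lit 4) (nat_lit 408) (nat_lit 186) (nat_lit 186)) (XT.nd (nat_lit 78) (nat_lit 0) (nat_lit 0) (XT.lf (nat_lit 0) (nat_lit 936968612) (nat_lit 152) (nat_lit 90051375119) (nat_lit 0) (nat_lit 819983864) (nat_lit 2) (nat_lit 5) (nat_lit 4) (nat_lit 4) (nat_lit 2) (nat_lit 4) (nat_lit 409) (nat_lit 186) (nat_lit 185)) (XT.lf (nat_lit 0) (nat_lit 3731110879) (nat_lit 152) (nat_lit 87243857932) (nat_lit 0) (nat_lit 3500548705) (nat_lit 2)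 (nat_lit 5) (nat_lit 4) (nat_lit 4) (nat_lit 2) (nat_lit 4) (nat_lit 410) (nat_lit 186) (nat_lit 184)))) (XT.nd (nat_lit 156) (nat_lit 0) (nat_lit 0) (XT.nd (nat_lit 78) (nat_lit 0) (nat_lit 0) (XT.lf (nat_lit 0) (nat_lit 6553860667) (nat_lit 152) (nat_lit 84457498699) (nat_lit 0) (nat_lit 6213029147) (nat_lit 2) (nat_lit 5) (nat_lit 4) (nat_lit 4) (nat_lit 2) (nat_lit 4) (nat_lit 411) (nat_lit 186) (nat_lit 183)) (XT.lf (nat_lit 0) (nat_lit 9407684456) (nat_lit 152) (nat_lit 81689862737) (nat_lit 0) (nat_lit 8959795320) (nat_lit 2) (nat_lit 5) (nat_lit 4) (nat_lit 4) (nat_lit 2) (nat_lit 4) (nat_lit 412) (nat_lit 186) (nat_lit 182))) (XT.nd (nat_lit 78) (nat_lit 0) (nat_lit 0) (XT.lf (nat_lit 0) (nat_lit 12295075881) (nat_lit 152) (nat_lit 78938531724) (nat_lit 0) (nat_lit 11743247311) (nat_lit 2) (nat_lit 5) (nat_lit 4) (nat_lit 4) (nat_lit 2) (nat_lit 4) (nat_lit 413) (nat_lit 186) (nat_lit 181))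 (XT.lf (nat_lit 0) (nat_lit 15218557903) (nat_lit 152) (nat_lit 76201101583) (nat_lit 0) (nat_lit 14565817261) (nat_lit 2) (nat_lit 5) (nat_lit 4) (nat_lit 4) (nat_lit 2) (nat_lit 4) (nat_lit 414) (nat_lit 186) (nat_lit 180)))))) (XT.nd (nat_lit 546) (nat_lit 0) (nat_lit 0) (XT.nd (nat_lit 234) (nat_lit 152) (nat_lit 0) (XT.nd (nat_lit 78) (nat_lit 0) (nat_lit 0) (XT.lf (nat_lit 0) (nat_lit 35054528708) (nat_lit 76) (nat_lit 3538910690) (nat_lit 76) (nat_lit 3538910690) (nat_lit 4) (nat_lit 4) (nat_lit 5) (nat_lit 5) (nat_lit 5) (nat_lit 4) (nat_lit 406) (nat_lit 187) (nat_lit 187)) (XT.nd (nat_lit 78) (nat_lit 0) (nat_lit 0) (XT.lf (nat_lit 0) (nat_lit 77763054353) (nat_lit 76) (nat_lit 4532779238) (nat_lit 76) (nat_lit 4408670119) (nat_lit 4) (nat_lit 4) (nat_lit 5) (nat_lit 5) (nat_lit 5) (nat_lit 4) (nat_lit 407) (nat_lit 187) (nat_lit 186)) (XT.lf (nat_lit 0) (nat_lit 85539418465) (nat_lit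 76) (nat_lit 1962194657) (nat_lit 76) (nat_lit 1717591246) (nat_lit 4) (nat_lit 4) (nat_lit 5) (nat_lit 5) (nat_lit 5) (nat_lit 4) (nat_lit 408) (nat_lit 187) (nat_lit 185)))) (XT.nd (nat_lit 156) (nat_lit 0) (nat_lit 0) (XT.nd (nat_lit 78) (nat_lit 0) (nat_lit 0) (XT.lf (nat_lit 0) (nat_lit 1000589655) (nat_lit 152) (nat_lit 90159920093) (nat_lit 0) (nat_lit 649533190) (nat_lit 2) (nat_lit 5) (nat_lit 4) (nat_lit 4) (nat_lit 2) (nat_lit 4) (nat_lit 409) (nat_lit 187) (nat_lit 184)) (XT.lf (nat_lit 0) (nat_lit 3767531553) (nat_lit 152) (nat_lit 87404315945) (nat_lit 0) (nat_lit 3306205743) (nat_lit 2) (nat_lit 5) (nat_lit 4) (nat_lit 4) (nat_lit 2) (nat_lit 4) (nat_lit 410) (nat_lit 187) (nat_lit 183))) (XT.nd (nat_lit 78) (nat_lit 0) (nat_lit 0) (XT.lf (nat_lit 0) (nat_lit 6563873217) (nat_lit 152) (nat_lit 84668357721) (nat_lit 0) (nat_lit 5995489790) (nat_lit 2) (nat_lit 5) (nat_lit 4) (nat_lit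 4) (nat_lit 2) (nat_lit 4) (nat_lit 411) (nat_lit 187) (nat_lit 182)) (XT.lf (nat_lit 0) (nat_lit 9392058052) (nat_lit 152) (nat_lit 81949654777) (nat_lit 0) (nat_lit 8719735191) (nat_lit 2) (nat_lit 5) (nat_lit 4) (nat_lit 4) (nat_lit 2) (nat_lit 4) (nat_lit 412) (nat_lit 187) (nat_lit 181))))) (XT.nd (nat_lit 40014) (nat_lit 0) (nat_lit 152) (XT.nd (nat_lit 78) (nat_lit 0) (nat_lit 0) (XT.lf (nat_lit 0) (nat_lit 12254557286) (nat_lit 152) (nat_lit 79245831549) (nat_lit 0) (nat_lit 11481322354) (nat_lit 2) (nat_lit 5) (nat_lit 4) (nat_lit 4) (nat_lit 2) (nat_lit 4) (nat_lit 413) (nat_lit 187) (nat_lit 180)) (XT.nd (nat_lit 39858) (nat_lit 0) (nat_lit 152) (XT.lf (nat_lit 0) (nat_lit 15153872134) (nat_lit 152) (nat_lit 76554525471) (nat_lit 0) (nat_lit 14282664316) (nat_lit 2) (nat_lit 5) (nat_lit 4) (nat_lit 4) (nat_lit 2) (nat_lit 4) (nat_lit 414) (nat_lit 187) (nat_lit 179)) (XT.lf (nat_lit 0)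 (nat_lit 27598782875) (nat_lit 76) (nat_lit 6100716206) (nat_lit 76) (nat_lit 6100716206) (nat_lit 4) (nat_lit 4) (nat_lit 5) (nat_lit 5) (nat_lit 5) (nat_lit 4) (nat_lit 404) (nat_lit 188) (nat_lit 188)))) (XT.nd (nat_lit 156) (nat_lit 0) (nat_lit 0) (XT.nd (nat_lit 78) (nat_lit 0) (nat_lit 0) (XT.lf (nat_lit 0) (nat_lit 62570739695) (nat_lit 76) (nat_lit 9727377299) (nat_lit 76) (nat_lit 9599544906) (nat_lit 4) (nat_lit 4) (nat_lit 5) (nat_lit 5) (nat_lit 5) (nat_lit 4) (nat_lit 405) (nat_lit 188) (nat_lit 187)) (XT.lf (nat_lit 0) (nat_lit 70054638541) (nat_lit 76) (nat_lit 7231433620) (nat_lit 76) (nat_lit 6979492108) (nat_lit 4) (nat_lit 4) (nat_lit 5) (nat_lit 5) (nat_lit 5) (nat_lit 4) (nat_lit 406) (nat_lit 188) (nat_lit 186))) (XT.nd (nat_lit 78) (nat_lit 0) (nat_lit 0) (XT.lf (nat_lit 0) (nat_lit 77655801620) (nat_lit 76) (nat_lit 4711420456) (nat_lit 76) (nat_lit 4338984653) (nat_lit 4)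 (nat_lit 4) (nat_lit 5) (nat_lit 5) (nat_lit 5) (nat_lit 4) (nat_lit 407) (nat_lit 188) (nat_lit 185)) (XT.lf (nat_lit 0) (nat_lit 85380870723) (nat_lit 76) (nat_lit 2165135853) (nat_lit 76) (nat_lit 1675715301) (nat_lit 4) (nat_lit 4) (nat_lit 5) (nat_lit 5) (nat_lit 5) (nat_lit 4) (nat_lit 408) (nat_lit 188) (nat_lit 184))))))) (XT.nd (nat_lit 40716) (nat_lit 0) (nat_lit 0) (XT.nd (nat_lit 40170) (nat_lit 0) (nat_lit 0) (XT.nd (nat_lit 234) (nat_lit 0) (nat_lit 0) (XT.nd (nat_lit 78) (nat_lit 0) (nat_lit 0) (XT.lf (nat_lit 0) (nat_lit 1010902582) (nat_lit 152) (nat_lit 90377104886) (nat_lit 0) (nat_lit 425467652) (nat_lit 2) (nat_lit 5) (nat_lit 4) (nat_lit 4) (nat_lit 2) (nat_lit 4) (nat_lit 409) (nat_lit 188) (nat_lit 183)) (XT.nd (nat_lit 78) (nat_lit 0) (nat_lit 0) (XT.lf (nat_lit 0) (nat_lit 3751436356) (nat_lit 152) (nat_lit 87671901747) (nat_lit 0) (nat_lit 3058943810) (nat_lit 2) (nat_lit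 5) (nat_lit 4) (nat_lit 4) (nat_lit 2) (nat_lit 4) (nat_lit 410) (nat_lit 188) (nat_lit 182)) (XT.lf (nat_lit 0) (nat_lit 6522139065) (nat_lit 152) (nat_lit 84984876541) (nat_lit 0) (nat_lit 5725707084) (nat_lit 2) (nat_lit 5) (nat_lit 4) (nat_lit 4) (nat_lit 2) (nat_lit 4) (nat_lit 411) (nat_lit 188) (nat_lit 181)))) (XT.nd (nat_lit 156) (nat_lit 0) (nat_lit 0) (XT.nd (nat_lit 78) (nat_lit 0) (nat_lit 0) (XT.lf (nat_lit 0) (nat_lit 9325431710) (nat_lit 152) (nat_lit 82313681382) (nat_lit 0) (nat_lit 8428087658) (nat_lit 2) (nat_lit 5) (nat_lit 4) (nat_lit 4) (nat_lit 2) (nat_lit 4) (nat_lit 412) (nat_lit 188) (nat_lit 180)) (XT.lf (nat_lit 0) (nat_lit 12163763770) (nat_lit 152) (nat_lit 79655982216) (nat_lit 0) (nat_lit 11168446833) (nat_lit 2) (nat_lit 5) (nat_lit 4) (nat_lit 4) (nat_lit 2) (nat_lit 4) (nat_lit 413) (nat_lit 188) (nat_lit 179))) (XT.nd (nat_lit 39702) (nat_lit 0) (nat_lit 152)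 (XT.lf (nat_lit 0) (nat_lit 15039615342) (nat_lit 152) (nat_lit 77009456782) (nat_lit 0) (nat_lit 13949179099) (nat_lit 2) (nat_lit 5) (nat_lit 4) (nat_lit 4) (nat_lit 2) (nat_lit 4) (nat_lit 414) (nat_lit 188) (nat_lit 178)) (XT.lf (nat_lit 0) (nat_lit 20407723179) (nat_lit 76) (nat_lit 8598412210) (nat_lit 76) (nat_lit 8598412210) (nat_lit 4) (nat_lit 4) (nat_lit 5) (nat_lit 5) (nat_lit 5) (nat_lit 4) (nat_lit 402) (nat_lit 189) (nat_lit 189))))) (XT.nd (nat_lit 234) (nat_lit 152) (nat_lit 0) (XT.nd (nat_lit 78) (nat_lit 0) (nat_lit 0) (XT.lf (nat_lit 0) (nat_lit 47928674130) (nat_lit 76) (nat_lit 14787428124) (nat_lit 76) (nat_lit 14655760759) (nat_lit 4) (nat_lit 4) (nat_lit 5) (nat_lit 5) (nat_lit 5) (nat_lit 4) (nat_lit 403) (nat_lit 189) (nat_lit 188)) (XT.nd (nat_lit 78) (nat_lit 0) (nat_lit 0) (XT.lf (nat_lit 0) (nat_lit 55141514310) (nat_lit 76) (nat_lit 12359653021) (nat_lit 76) (nat_lit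 12100153263) (nat_lit 4) (nat_lit 4) (nat_lit 5) (nat_lit 5) (nat_lit 5) (nat_lit 4) (nat_lit 404) (nat_lit 189) (nat_lit 187)) (XT.lf (nat_lit 0) (nat_lit 62460269379) (nat_lit 76) (nat_lit 9911377753) (nat_lit 76) (nat_lit 9527768876) (nat_lit 4) (nat_lit 4) (nat_lit 5) (nat_lit 5) (nat_lit 5) (nat_lit 4) (nat_lit 405) (nat_lit 189) (nat_lit 186)))) (XT.nd (nat_lit 156) (nat_lit 152) (nat_lit 0) (XT.nd (nat_lit 78) (nat_lit 0) (nat_lit 0) (XT.lf (nat_lit 0) (nat_lit 69891334367) (nat_lit 76) (nat_lit 7440463052) (nat_lit 76) (nat_lit 6936359884) (nat_lit 4) (nat_lit 4) (nat_lit 5) (nat_lit 5) (nat_lit 5) (nat_lit 4) (nat_lit 406) (nat_lit 189) (nat_lit 185)) (XT.lf (nat_lit 0) (nat_lit 77441202437) (nat_lit 76) (nat_lit 4944749866) (nat_lit 76) (nat_lit 4323661949) (nat_lit 4) (nat_lit 4) (nat_lit 5) (nat_lit 5) (nat_lit 5) (nat_lit 4) (nat_lit 407) (nat_lit 189) (nat_lit 184))) (XT.nd (nat_lit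 78) (nat_lit 152) (nat_lit 0) (XT.lf (nat_lit 0) (nat_lit 85116470561) (nat_lit 76) (nat_lit 2422057475) (nat_lit 76) (nat_lit 1687392132) (nat_lit 4) (nat_lit 4) (nat_lit 5) (nat_lit 5) (nat_lit 5) (nat_lit 4) (nat_lit 408) (nat_lit 189) (nat_lit 183)) (XT.lf (nat_lit 0) (nat_lit 967916405) (nat_lit 152) (nat_lit 90703119270) (nat_lit 0) (nat_lit 147591465) (nat_lit 2) (nat_lit 5) (nat_lit 4) (nat_lit 4) (nat_lit 2) (nat_lit 4) (nat_lit 409) (nat_lit 189) (nat_lit 182)))))) (XT.nd (nat_lit 40014) (nat_lit 0) (nat_lit 0) (XT.nd (nat_lit 234) (nat_lit 0) (nat_lit 0) (XT.nd (nat_lit 78) (nat_lit 0) (nat_lit 0) (XT.lf (nat_lit 0) (nat_lit 3682811224) (nat_lit 152) (nat_lit 88046849149) (nat_lit 0) (nat_lit 2758546850) (nat_lit 2) (nat_lit 5) (nat_lit 4) (nat_lit 4) (nat_lit 2) (nat_lit 4) (nat_lit 410) (nat_lit 189) (nat_lit 181)) (XT.nd (nat_lit 78) (nat_lit 0) (nat_lit 0) (XT.lf (nat_lit 0) (nat_lit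 6428621743) (nat_lit 152) (nat_lit 85407331728) (nat_lit 0) (nat_lit 5403445298) (nat_lit 2) (nat_lit 5) (nat_lit 4) (nat_lit 4) (nat_lit 2) (nat_lit 4) (nat_lit 411) (nat_lit 189) (nat_lit 180)) (XT.lf (nat_lit 0) (nat_lit 9207747214) (nat_lit 152) (nat_lit 82782260632) (nat_lit 0) (nat_lit 8084597883) (nat_lit 2) (nat_lit 5) (nat_lit 4) (nat_lit 4) (nat_lit 2) (nat_lit 4) (nat_lit 412) (nat_lit 189) (nat_lit 179)))) (XT.nd (nat_lit 39624) (nat_lit 0) (nat_lit 152) (XT.nd (nat_lit 78) (nat_lit 0) (nat_lit 0) (XT.lf (nat_lit 0) (nat_lit 12022615998) (nat_lit 152) (nat_lit 80169342110) (nat_lit 0) (nat_lit 10804347361) (nat_lit 2) (nat_lit 5) (nat_lit 4) (nat_lit 4) (nat_lit 2) (nat_lit 4) (nat_lit 413) (nat_lit 189) (nat_lit 178)) (XT.lf (nat_lit 0) (nat_lit 14875687690) (nat_lit 152) (nat_lit 77566293029) (nat_lit 0) (nat_lit 13565070213) (nat_lit 2) (nat_lit 5) (nat_lit 4) (nat_lit 4) (nat_lit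 2) (nat_lit 4) (nat_lit 414) (nat_lit 189) (nat_lit 177))) (XT.nd (nat_lit 78) (nat_lit 0) (nat_lit 0) (XT.lf (nat_lit 0) (nat_lit 13461256428) (nat_lit 76) (nat_lit 11038167308) (nat_lit 76) (nat_lit 11038167308) (nat_lit 4) (nat_lit 4) (nat_lit 5) (nat_lit 5) (nat_lit 5) (nat_lit 4) (nat_lit 400) (nat_lit 190) (nat_lit 190)) (XT.lf (nat_lit 0) (nat_lit 33795615554) (nat_lit 76) (nat_lit 19725564595) (nat_lit 76) (nat_lit 19589947209) (nat_lit 4) (nat_lit 4) (nat_lit 5) (nat_lit 5) (nat_lit 5) (nat_lit 4) (nat_lit 401) (nat_lit 190) (nat_lit 189))))) (XT.nd (nat_lit 312) (nat_lit 152) (nat_lit 0) (XT.nd (nat_lit 156) (nat_lit 0) (nat_lit 0) (XT.nd (nat_lit 78) (nat_lit 0) (nat_lit 0) (XT.lf (nat_lit 0) (nat_lit 40757713375) (nat_lit 76) (nat_lit 17359791647) (nat_lit 76) (nat_lit 17092506896) (nat_lit 4) (nat_lit 4) (nat_lit 5) (nat_lit 5) (nat_lit 5) (nat_lit 4) (nat_lit 402) (nat_lit 190) (nat_lit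 188)) (XT.lf (nat_lit 0) (nat_lit 47814889705) (nat_lit 76) (nat_lit 14976948592) (nat_lit 76) (nat_lit 14581831448) (nat_lit 4) (nat_lit 4) (nat_lit 5) (nat_lit 5) (nat_lit 5) (nat_lit 4) (nat_lit 403) (nat_lit 190) (nat_lit 187))) (XT.nd (nat_lit 78) (nat_lit 0) (nat_lit 0) (XT.lf (nat_lit 0) (nat_lit 54973311010) (nat_lit 76) (nat_lit 12574953336) (nat_lit 76) (nat_lit 12055727072) (nat_lit 4) (nat_lit 4) (nat_lit 5) (nat_lit 5) (nat_lit 5) (nat_lit 4) (nat_lit 404) (nat_lit 190) (nat_lit 186)) (XT.lf (nat_lit 0) (nat_lit 62239232220) (nat_lit 76) (nat_lit 10151707046) (nat_lit 76) (nat_lit 9511986491) (nat_lit 4) (nat_lit 4) (nat_lit 5) (nat_lit 5) (nat_lit 5) (nat_lit 4) (nat_lit 405) (nat_lit 190) (nat_lit 185)))) (XT.nd (nat_lit 156) (nat_lit 152) (nat_lit 0) (XT.nd (nat_lit 78) (nat_lit 0) (nat_lit 0) (XT.lf (nat_lit 0) (nat_lit 69619002200) (nat_lit 76) (nat_lit 7705092323) (nat_lit 76)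 (nat_lit 6948387020) (nat_lit 4) (nat_lit 4) (nat_lit 5) (nat_lit 5) (nat_lit 5) (nat_lit 4) (nat_lit 406) (nat_lit 190) (nat_lit 184)) (XT.lf (nat_lit 0) (nat_lit 77119069290) (nat_lit 76) (nat_lit 5232971349) (nat_lit 76) (nat_lit 4362688621) (nat_lit 4) (nat_lit 4) (nat_lit 5) (nat_lit 5) (nat_lit 5) (nat_lit 4) (nat_lit 407) (nat_lit 190) (nat_lit 183))) (XT.nd (nat_lit 78) (nat_lit 152) (nat_lit 0) (XT.lf (nat_lit 0) (nat_lit 84745986949) (nat_lit 76) (nat_lit 2733184018) (nat_lit 76) (nat_lit 1752631944) (nat_lit 4) (nat_lit 4) (nat_lit 5) (nat_lit 5) (nat_lit 5) (nat_lit 4) (nat_lit 408) (nat_lit 190) (nat_lit 182)) (XT.lf (nat_lit 0) (nat_lit 685393934) (nat_lit 76) (nat_lit 188006866) (nat_lit 152) (nat_lit 90952048484) (nat_lit 2) (nat_lit 5) (nat_lit 3) (nat_lit 5) (nat_lit 4) (nat_lit 4) (nat_lit 409) (nat_lit 190) (nat_lit 181))))))))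
noncomputable def xc1 : XT := (XT.nd (nat_lit 80652) (nat_lit 0) (nat_lit 0) (XT.nd (nat_lit 40404) (nat_lit 0) (nat_lit 0) (XT.nd (nat_lit 39858) (nat_lit 0) (nat_lit 152) (XT.nd (nat_lit 234) (nat_lit 0) (nat_lit 0) (XT.nd (nat_lit 78) (nat_lit 0) (nat_lit 0) (XT.lf (nat_lit 0) (nat_lit 3561596193) (nat_lit 152) (nat_lit 88529485777) (nat_lit 0) (nat_lit 2404752383) (nat_lit 2) (nat_lit 5) (nat_lit 4) (nat_lit 4) (nat_lit 2) (nat_lit 4) (nat_lit 410) (nat_lit 190) (nat_lit 180)) (XT.nd (nat_lit 78) (nat_lit 0) (nat_lit 0) (XT.lf (nat_lit 0) (nat_lit 6283239538) (nat_lit 152) (nat_lit 85936092419) (nat_lit 0) (nat_lit 5028422842) (nat_lit 2) (nat_lit 5) (nat_lit 4) (nat_lit 4) (nat_lit 2) (nat_lit 4) (nat_lit 411) (nat_lit 190) (nat_lit 179)) (XT.lf (nat_lit 0) (nat_lit 9038901732) (nat_lit 152) (nat_lit 83355801967) (nat_lit 0) (nat_lit 7688965731) (nat_lit 2) (nat_lit 5) (nat_lit 4) (nat_lit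 4) (nat_lit 2) (nat_lit 4) (nat_lit 412) (nat_lit 190) (nat_lit 178)))) (XT.nd (nat_lit 39468) (nat_lit 0) (nat_lit 152) (XT.nd (nat_lit 78) (nat_lit 0) (nat_lit 0) (XT.lf (nat_lit 0) (nat_lit 11830990636) (nat_lit 152) (nat_lit 80786359798) (nat_lit 0) (nat_lit 10388705795) (nat_lit 2) (nat_lit 5) (nat_lit 4) (nat_lit 4) (nat_lit 2) (nat_lit 4) (nat_lit 413) (nat_lit 190) (nat_lit 177)) (XT.lf (nat_lit 0) (nat_lit 14661945940) (nat_lit 152) (nat_lit 78225520768) (nat_lit 0) (nat_lit 13130002030) (nat_lit 2) (nat_lit 5) (nat_lit 4) (nat_lit 4) (nat_lit 2) (nat_lit 4) (nat_lit 414) (nat_lit 190) (nat_lit 176))) (XT.nd (nat_lit 78) (nat_lit 0) (nat_lit 0) (XT.lf (nat_lit 0) (nat_lit 6740295887) (nat_lit 76) (nat_lit 13425870656) (nat_lit 76) (nat_lit 13425870656) (nat_lit 4) (nat_lit 4) (nat_lit 5) (nat_lit 5) (nat_lit 5) (nat_lit 4) (nat_lit 398) (nat_lit 191) (nat_lit 191)) (XT.lf (nat_lit 0) (nat_lit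 20132399658) (nat_lit 76) (nat_lit 24553841691) (nat_lit 76) (nat_lit 24414155783) (nat_lit 4) (nat_lit 4) (nat_lit 5) (nat_lit 5) (nat_lit 5) (nat_lit 4) (nat_lit 399) (nat_lit 191) (nat_lit 190))))) (XT.nd (nat_lit 234) (nat_lit 0) (nat_lit 0) (XT.nd (nat_lit 78) (nat_lit 0) (nat_lit 0) (XT.lf (nat_lit 0) (nat_lit 26863047883) (nat_lit 76) (nat_lit 22244190859) (nat_lit 76) (nat_lit 21968887565) (nat_lit 4) (nat_lit 4) (nat_lit 5) (nat_lit 5) (nat_lit 5) (nat_lit 4) (nat_lit 400) (nat_lit 191) (nat_lit 189)) (XT.nd (nat_lit 78) (nat_lit 0) (nat_lit 0) (XT.lf (nat_lit 0) (nat_lit 33678417596) (nat_lit 76) (nat_lit 19920770677) (nat_lit 76) (nat_lit 19513800018) (nat_lit 4) (nat_lit 4) (nat_lit 5) (nat_lit 5) (nat_lit 5) (nat_lit 4) (nat_lit 401) (nat_lit 191) (nat_lit 188)) (XT.lf (nat_lit 0) (nat_lit 40584463976) (nat_lit 76) (nat_lit 17581550971) (nat_lit 76) (nat_lit 17046747919) (nat_lit 4)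 (nat_lit 4) (nat_lit 5) (nat_lit 5) (nat_lit 5) (nat_lit 4) (nat_lit 402) (nat_lit 191) (nat_lit 187)))) (XT.nd (nat_lit 156) (nat_lit 0) (nat_lit 0) (XT.nd (nat_lit 78) (nat_lit 0) (nat_lit 0) (XT.lf (nat_lit 0) (nat_lit 47587221432) (nat_lit 76) (nat_lit 15224487764) (nat_lit 76) (nat_lit 14565575592) (nat_lit 4) (nat_lit 4) (nat_lit 5) (nat_lit 5) (nat_lit 5) (nat_lit 4) (nat_lit 403) (nat_lit 191) (nat_lit 186)) (XT.lf (nat_lit 0) (nat_lit 54692808878) (nat_lit 76) (nat_lit 12847521485) (nat_lit 76) (nat_lit 12068115023) (nat_lit 4) (nat_lit 4) (nat_lit 5) (nat_lit 5) (nat_lit 5) (nat_lit 4) (nat_lit 404) (nat_lit 191) (nat_lit 185))) (XT.nd (nat_lit 78) (nat_lit 0) (nat_lit 0) (XT.lf (nat_lit 0) (nat_lit 61907435080) (nat_lit 76) (nat_lit 10448575173) (nat_lit 76) (nat_lit 9552183963) (nat_lit 4) (nat_lit 4) (nat_lit 5) (nat_lit 5) (nat_lit 5) (nat_lit 4) (nat_lit 405) (nat_lit 191) (nat_lit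 184)) (XT.lf (nat_lit 0) (nat_lit 69237404080) (nat_lit 76) (nat_lit 8025552662) (nat_lit 76) (nat_lit 7015584026) (nat_lit 4) (nat_lit 4) (nat_lit 5) (nat_lit 5) (nat_lit 5) (nat_lit 4) (nat_lit 406) (nat_lit 191) (nat_lit 183)))))) (XT.nd (nat_lit 546) (nat_lit 0) (nat_lit 0) (XT.nd (nat_lit 234) (nat_lit 0) (nat_lit 0) (XT.nd (nat_lit 78) (nat_lit 152) (nat_lit 0) (XT.lf (nat_lit 0) (nat_lit 76689120705) (nat_lit 76) (nat_lit 5576336749) (nat_lit 76) (nat_lit 4456098767) (nat_lit 4) (nat_lit 4) (nat_lit 5) (nat_lit 5) (nat_lit 5) (nat_lit 4) (nat_lit 407) (nat_lit 191) (nat_lit 182)) (XT.nd (nat_lit 78) (nat_lit 152) (nat_lit 0) (XT.lf (nat_lit 0) (nat_lit 84269096164) (nat_lit 76) (nat_lit 3098787340) (nat_lit 76) (nat_lit 1871491741) (nat_lit 4) (nat_lit 4) (nat_lit 5) (nat_lit 5) (nat_lit 5) (nat_lit 4) (nat_lit 408) (nat_lit 191) (nat_lit 181)) (XT.lf (nat_lit 0) (nat_lit 145476532) (nat_lit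 76) (nat_lit 581967587) (nat_lit 152) (nat_lit 91106498265) (nat_lit 2) (nat_lit 5) (nat_lit 3) (nat_lit 5) (nat_lit 4) (nat_lit 4) (nat_lit 409) (nat_lit 191) (nat_lit 180)))) (XT.nd (nat_lit 156) (nat_lit 0) (nat_lit 0) (XT.nd (nat_lit 78) (nat_lit 0) (nat_lit 0) (XT.lf (nat_lit 0) (nat_lit 3387685347) (nat_lit 152) (nat_lit 89120233352) (nat_lit 0) (nat_lit 1997251266) (nat_lit 2) (nat_lit 5) (nat_lit 4) (nat_lit 4) (nat_lit 2) (nat_lit 4) (nat_lit 410) (nat_lit 191) (nat_lit 179)) (XT.lf (nat_lit 0) (nat_lit 6085865415) (nat_lit 152) (nat_lit 86571620637) (nat_lit 0) (nat_lit 4600312028) (nat_lit 2) (nat_lit 5) (nat_lit 4) (nat_lit 4) (nat_lit 2) (nat_lit 4) (nat_lit 411) (nat_lit 191) (nat_lit 178))) (XT.nd (nat_lit 78) (nat_lit 0) (nat_lit 0) (XT.lf (nat_lit 0) (nat_lit 8818747730) (nat_lit 152) (nat_lit 84034806538) (nat_lit 0) (nat_lit 7240845502) (nat_lit 2) (nat_lit 5) (nat_lit 4) (nat_lit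 4) (nat_lit 2) (nat_lit 4) (nat_lit 412) (nat_lit 191) (nat_lit 177)) (XT.lf (nat_lit 0) (nat_lit 11588720247) (nat_lit 152) (nat_lit 81507574420) (nat_lit 0) (nat_lit 9921158950) (nat_lit 2) (nat_lit 5) (nat_lit 4) (nat_lit 4) (nat_lit 2) (nat_lit 4) (nat_lit 413) (nat_lit 191) (nat_lit 176))))) (XT.nd (nat_lit 39390) (nat_lit 0) (nat_lit 152) (XT.nd (nat_lit 39234) (nat_lit 0) (nat_lit 152) (XT.lf (nat_lit 0) (nat_lit 14398203329) (nat_lit 152) (nat_lit 78987716023) (nat_lit 0) (nat_lit 12643594393) (nat_lit 2) (nat_lit 5) (nat_lit 4) (nat_lit 4) (nat_lit 2) (nat_lit 4) (nat_lit 414) (nat_lit 191) (nat_lit 175)) (XT.nd (nat_lit 78) (nat_lit 0) (nat_lit 0) (XT.lf (nat_lit 0) (nat_lit 226699094) (nat_lit 76) (nat_lit 15767150244) (nat_lit 76) (nat_lit 15767150244) (nat_lit 4) (nat_lit 4) (nat_lit 5) (nat_lit 5) (nat_lit 5) (nat_lit 4) (nat_lit 396) (nat_lit 192) (nat_lit 192)) (XT.lf (nat_lit 0)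 (nat_lit 6901811970) (nat_lit 76) (nat_lit 29283774085) (nat_lit 76) (nat_lit 29139897600) (nat_lit 4) (nat_lit 4) (nat_lit 5) (nat_lit 5) (nat_lit 5) (nat_lit 4) (nat_lit 397) (nat_lit 192) (nat_lit 191)))) (XT.nd (nat_lit 156) (nat_lit 0) (nat_lit 0) (XT.nd (nat_lit 78) (nat_lit 0) (nat_lit 0) (XT.lf (nat_lit 0) (nat_lit 13419342851) (nat_lit 76) (nat_lit 27024633243) (nat_lit 76) (nat_lit 26741070851) (nat_lit 4) (nat_lit 4) (nat_lit 5) (nat_lit 5) (nat_lit 5) (nat_lit 4) (nat_lit 398) (nat_lit 192) (nat_lit 190)) (XT.lf (nat_lit 0) (nat_lit 20011685762) (nat_lit 76) (nat_lit 24754903955) (nat_lit 76) (nat_lit 24335724177) (nat_lit 4) (nat_lit 4) (nat_lit 5) (nat_lit 5) (nat_lit 5) (nat_lit 4) (nat_lit 399) (nat_lit 192) (nat_lit 189))) (XT.nd (nat_lit 78) (nat_lit 0) (nat_lit 0) (XT.lf (nat_lit 0) (nat_lit 26684601002) (nat_lit 76) (nat_lit 22472602963) (nat_lit 76) (nat_lit 21921755820) (nat_lit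 4) (nat_lit 4) (nat_lit 5) (nat_lit 5) (nat_lit 5) (nat_lit 4) (nat_lit 400) (nat_lit 192) (nat_lit 188)) (XT.lf (nat_lit 0) (nat_lit 33443919275) (nat_lit 76) (nat_lit 20175736023) (nat_lit 76) (nat_lit 19497056487) (nat_lit 4) (nat_lit 4) (nat_lit 5) (nat_lit 5) (nat_lit 5) (nat_lit 4) (nat_lit 401) (nat_lit 192) (nat_lit 187))))))) (XT.nd (nat_lit 40092) (nat_lit 0) (nat_lit 76) (XT.nd (nat_lit 546) (nat_lit 152) (nat_lit 0) (XT.nd (nat_lit 234) (nat_lit 0) (nat_lit 0) (XT.nd (nat_lit 78) (nat_lit 0) (nat_lit 0) (XT.lf (nat_lit 0) (nat_lit 40295546780) (nat_lit 76) (nat_lit 17862296165) (nat_lit 76) (nat_lit 17059507509) (nat_lit 4) (nat_lit 4) (nat_lit 5) (nat_lit 5) (nat_lit 5) (nat_lit 4) (nat_lit 402) (nat_lit 192) (nat_lit 186)) (XT.nd (nat_lit 78) (nat_lit 0) (nat_lit 0) (XT.lf (nat_lit 0) (nat_lit 47245470377) (nat_lit 76) (nat_lit 15530261935) (nat_lit 76) (nat_lit 14606978988) (nat_lit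 4) (nat_lit 4) (nat_lit 5) (nat_lit 5) (nat_lit 5) (nat_lit 4) (nat_lit 403) (nat_lit 192) (nat_lit 185)) (XT.lf (nat_lit 0) (nat_lit 54299762814) (nat_lit 76) (nat_lit 13177595634) (nat_lit 76) (nat_lit 12137327939) (nat_lit 4) (nat_lit 4) (nat_lit 5) (nat_lit 5) (nat_lit 5) (nat_lit 4) (nat_lit 404) (nat_lit 192) (nat_lit 184)))) (XT.nd (nat_lit 156) (nat_lit 0) (nat_lit 0) (XT.nd (nat_lit 78) (nat_lit 0) (nat_lit 0) (XT.lf (nat_lit 0) (nat_lit 61464588037) (nat_lit 76) (nat_lit 10802241534) (nat_lit 76) (nat_lit 9648396413) (nat_lit 4) (nat_lit 4) (nat_lit 5) (nat_lit 5) (nat_lit 5) (nat_lit 4) (nat_lit 405) (nat_lit 192) (nat_lit 183)) (XT.lf (nat_lit 0) (nat_lit 68746206571) (nat_lit 76) (nat_lit 8402124084) (nat_lit 76) (nat_lit 7138009618) (nat_lit 4) (nat_lit 4) (nat_lit 5) (nat_lit 5) (nat_lit 5) (nat_lit 4) (nat_lit 406) (nat_lit 192) (nat_lit 182))) (XT.nd (nat_lit 78) (nat_lit 0) (nat_lit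 0) (XT.lf (nat_lit 0) (nat_lit 76150980997) (nat_lit 76) (nat_lit 5975146092) (nat_lit 76) (nat_lit 4603974009) (nat_lit 4) (nat_lit 4) (nat_lit 5) (nat_lit 5) (nat_lit 5) (nat_lit 4) (nat_lit 407) (nat_lit 192) (nat_lit 181)) (XT.lf (nat_lit 0) (nat_lit 83685381506) (nat_lit 76) (nat_lit 3519186900) (nat_lit 76) (nat_lit 2044075383) (nat_lit 4) (nat_lit 4) (nat_lit 5) (nat_lit 5) (nat_lit 5) (nat_lit 4) (nat_lit 408) (nat_lit 192) (nat_lit 180))))) (XT.nd (nat_lit 234) (nat_lit 0) (nat_lit 0) (XT.nd (nat_lit 78) (nat_lit 76) (nat_lit 0) (XT.lf (nat_lit 0) (nat_lit 533309168) (nat_lit 152) (nat_lit 493405977) (nat_lit 76) (nat_lit 90817297009) (nat_lit 3) (nat_lit 5) (nat_lit 5) (nat_lit 5) (nat_lit 4) (nat_lit 4) (nat_lit 409) (nat_lit 192) (nat_lit 179)) (XT.nd (nat_lit 78) (nat_lit 0) (nat_lit 0) (XT.lf (nat_lit 0) (nat_lit 3160926725) (nat_lit 152) (nat_lit 89819608060) (nat_lit 0) (nat_lit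 1535687430) (nat_lit 2) (nat_lit 5) (nat_lit 4) (nat_lit 4) (nat_lit 2) (nat_lit 4) (nat_lit 410) (nat_lit 192) (nat_lit 178)) (XT.lf (nat_lit 0) (nat_lit 5836326914) (nat_lit 152) (nat_lit 87314471699) (nat_lit 0) (nat_lit 4118738779) (nat_lit 2) (nat_lit 5) (nat_lit 4) (nat_lit 4) (nat_lit 2) (nat_lit 4) (nat_lit 411) (nat_lit 192) (nat_lit 177)))) (XT.nd (nat_lit 156) (nat_lit 0) (nat_lit 0) (XT.nd (nat_lit 78) (nat_lit 0) (nat_lit 0) (XT.lf (nat_lit 0) (nat_lit 8547092841) (nat_lit 152) (nat_lit 84819867651) (nat_lit 0) (nat_lit 6739845637) (nat_lit 2) (nat_lit 5) (nat_lit 4) (nat_lit 4) (nat_lit 2) (nat_lit 4) (nat_lit 412) (nat_lit 192) (nat_lit 176)) (XT.lf (nat_lit 0) (nat_lit 11295593135) (nat_lit 152) (nat_lit 82333616166) (nat_lit 0) (nat_lit 9401298292) (nat_lit 2) (nat_lit 5) (nat_lit 4) (nat_lit 4) (nat_lit 2) (nat_lit 4) (nat_lit 413) (nat_lit 192) (nat_lit 175))) (XT.nd (nat_lit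 39078) (nat_lit 0) (nat_lit 228) (XT.lf (nat_lit 0) (nat_lit 14084229401) (nat_lit 152) (nat_lit 79853544790) (nat_lit 0) (nat_lit 12105422286) (nat_lit 2) (nat_lit 5) (nat_lit 4) (nat_lit 4) (nat_lit 2) (nat_lit 4) (nat_lit 414) (nat_lit 192) (nat_lit 174)) (XT.lf (nat_lit 0) (nat_lit 12029205391) (nat_lit 152) (nat_lit 5977820532) (nat_lit 0) (nat_lit 12029205391) (nat_lit 5) (nat_lit 5) (nat_lit 7) (nat_lit 4) (nat_lit 5) (nat_lit 4) (nat_lit 394) (nat_lit 193) (nat_lit 193)))))) (XT.nd (nat_lit 546) (nat_lit 76) (nat_lit 0) (XT.nd (nat_lit 234) (nat_lit 0) (nat_lit 0) (XT.nd (nat_lit 78) (nat_lit 76) (nat_lit 0) (XT.lf (nat_lit 0) (nat_lit 28051856208) (nat_lit 152) (nat_lit 5815787454) (nat_lit 0) (nat_lit 27903663428) (nat_lit 5) (nat_lit 5) (nat_lit 7) (nat_lit 4) (nat_lit 5) (nat_lit 4) (nat_lit 395) (nat_lit 193) (nat_lit 192)) (XT.nd (nat_lit 78) (nat_lit 0) (nat_lit 0) (XT.lf (nat_lit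 0) (nat_lit 390311798) (nat_lit 76) (nat_lit 31712379176) (nat_lit 76) (nat_lit 31420309912) (nat_lit 4) (nat_lit 4) (nat_lit 5) (nat_lit 5) (nat_lit 5) (nat_lit 4) (nat_lit 396) (nat_lit 193) (nat_lit 191)) (XT.lf (nat_lit 0) (nat_lit 6777476656) (nat_lit 76) (nat_lit 29490868218) (nat_lit 76) (nat_lit 29059113046) (nat_lit 4) (nat_lit 4) (nat_lit 5) (nat_lit 5) (nat_lit 5) (nat_lit 4) (nat_lit 397) (nat_lit 193) (nat_lit 190)))) (XT.nd (nat_lit 156) (nat_lit 0) (nat_lit 0) (XT.nd (nat_lit 78) (nat_lit 0) (nat_lit 0) (XT.lf (nat_lit 0) (nat_lit 13235542564) (nat_lit 76) (nat_lit 27259897710) (nat_lit 76) (nat_lit 26692525153) (nat_lit 4) (nat_lit 4) (nat_lit 5) (nat_lit 5) (nat_lit 5) (nat_lit 4) (nat_lit 398) (nat_lit 193) (nat_lit 189)) (XT.lf (nat_lit 0) (nat_lit 19770152490) (nat_lit 76) (nat_lit 25017518262) (nat_lit 76) (nat_lit 24318478339) (nat_lit 4) (nat_lit 4) (nat_lit 5) (nat_lit 5)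 (nat_lit 5) (nat_lit 4) (nat_lit 399) (nat_lit 193) (nat_lit 188))) (XT.nd (nat_lit 78) (nat_lit 0) (nat_lit 0) (XT.lf (nat_lit 0) (nat_lit 26387016290) (nat_lit 76) (nat_lit 22761770512) (nat_lit 76) (nat_lit 21934898197) (nat_lit 4) (nat_lit 4) (nat_lit 5) (nat_lit 5) (nat_lit 5) (nat_lit 4) (nat_lit 400) (nat_lit 193) (nat_lit 187)) (XT.lf (nat_lit 0) (nat_lit 33091915688) (nat_lit 76) (nat_lit 20490683419) (nat_lit 76) (nat_lit 19539701984) (nat_lit 4) (nat_lit 4) (nat_lit 5) (nat_lit 5) (nat_lit 5) (nat_lit 4) (nat_lit 401) (nat_lit 193) (nat_lit 186))))) (XT.nd (nat_lit 312) (nat_lit 76) (nat_lit 0) (XT.nd (nat_lit 156) (nat_lit 0) (nat_lit 0) (XT.nd (nat_lit 78) (nat_lit 0) (nat_lit 0) (XT.lf (nat_lit 0) (nat_lit 39890709334) (nat_lit 76) (nat_lit 18202272538) (nat_lit 76) (nat_lit 17130796812) (nat_lit 4) (nat_lit 4) (nat_lit 5) (nat_lit 5) (nat_lit 5) (nat_lit 4) (nat_lit 402) (nat_lit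 193) (nat_lit 185)) (XT.lf (nat_lit 0) (nat_lit 46789337923) (nat_lit 76) (nat_lit 15894538287) (nat_lit 76) (nat_lit 14706077812) (nat_lit 4) (nat_lit 4) (nat_lit 5) (nat_lit 5) (nat_lit 5) (nat_lit 4) (nat_lit 403) (nat_lit 193) (nat_lit 184))) (XT.nd (nat_lit 78) (nat_lit 0) (nat_lit 0) (XT.lf (nat_lit 0) (nat_lit 53793829381) (nat_lit 76) (nat_lit 13565464198) (nat_lit 76) (nat_lit 12263426298) (nat_lit 4) (nat_lit 4) (nat_lit 5) (nat_lit 5) (nat_lit 5) (nat_lit 4) (nat_lit 404) (nat_lit 193) (nat_lit 183)) (XT.lf (nat_lit 0) (nat_lit 60910304138) (nat_lit 76) (nat_lit 11213015159) (nat_lit 76) (nat_lit 9800707913) (nat_lit 4) (nat_lit 4) (nat_lit 5) (nat_lit 5) (nat_lit 5) (nat_lit 4) (nat_lit 405) (nat_lit 193) (nat_lit 182)))) (XT.nd (nat_lit 156) (nat_lit 76) (nat_lit 0) (XT.nd (nat_lit 78) (nat_lit 0) (nat_lit 0) (XT.lf (nat_lit 0) (nat_lit 68144980473) (nat_lit 76) (nat_lit 8835135630)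 (nat_lit 76) (nat_lit 7315770768) (nat_lit 4) (nat_lit 4) (nat_lit 5) (nat_lit 5) (nat_lit 5) (nat_lit 4) (nat_lit 406) (nat_lit 193) (nat_lit 181)) (XT.lf (nat_lit 0) (nat_lit 75504179948) (nat_lit 76) (nat_lit 6429747855) (nat_lit 76) (nat_lit 4806443559) (nat_lit 4) (nat_lit 4) (nat_lit 5) (nat_lit 5) (nat_lit 5) (nat_lit 4) (nat_lit 407) (nat_lit 193) (nat_lit 180))) (XT.nd (nat_lit 78) (nat_lit 76) (nat_lit 0) (XT.lf (nat_lit 0) (nat_lit 82994332932) (nat_lit 76) (nat_lit 3994750037) (nat_lit 76) (nat_lit 2270533669) (nat_lit 4) (nat_lit 4) (nat_lit 5) (nat_lit 5) (nat_lit 5) (nat_lit 4) (nat_lit 408) (nat_lit 193) (nat_lit 179)) (XT.lf (nat_lit 0) (nat_lit 288434335) (nat_lit 152) (nat_lit 1236667552) (nat_lit 76) (nat_lit 90330637262) (nat_lit 3) (nat_lit 5) (nat_lit 5) (nat_lit 5) (nat_lit 4) (nat_lit 4) (nat_lit 409) (nat_lit 193) (nat_lit 178))))))))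
noncomputable def xc2 : XT := (XT.nd (nat_lit 79716) (nat_lit 0) (nat_lit 0) (XT.nd (nat_lit 39936) (nat_lit 0) (nat_lit 0) (XT.nd (nat_lit 39390) (nat_lit 0) (nat_lit 152) (XT.nd (nat_lit 234) (nat_lit 0) (nat_lit 0) (XT.nd (nat_lit 78) (nat_lit 0) (nat_lit 0) (XT.lf (nat_lit 0) (nat_lit 2881122189) (nat_lit 152) (nat_lit 90628221006) (nat_lit 0) (nat_lit 1019657569) (nat_lit 2) (nat_lit 5) (nat_lit 4) (nat_lit 4) (nat_lit 2) (nat_lit 4) (nat_lit 410) (nat_lit 193) (nat_lit 177)) (XT.nd (nat_lit 78) (nat_lit 0) (nat_lit 0) (XT.lf (nat_lit 0) (nat_lit 5534405989) (nat_lit 152) (nat_lit 88165294696) (nat_lit 0) (nat_lit 3583282301) (nat_lit 2) (nat_lit 5) (nat_lit 4) (nat_lit 4) (nat_lit 2) (nat_lit 4) (nat_lit 411) (nat_lit 193) (nat_lit 176)) (XT.lf (nat_lit 0) (nat_lit 8223699695) (nat_lit 152) (nat_lit 85711671281) (nat_lit 0) (nat_lit 6185528367) (nat_lit 2) (nat_lit 5) (nat_lit 4) (nat_lit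 4) (nat_lit 2) (nat_lit 4) (nat_lit 412) (nat_lit 193) (nat_lit 175)))) (XT.nd (nat_lit 39000) (nat_lit 0) (nat_lit 228) (XT.nd (nat_lit 78) (nat_lit 0) (nat_lit 0) (XT.lf (nat_lit 0) (nat_lit 10951353173) (nat_lit 152) (nat_lit 83265206818) (nat_lit 0) (nat_lit 8828669573) (nat_lit 2) (nat_lit 5) (nat_lit 4) (nat_lit 4) (nat_lit 2) (nat_lit 4) (nat_lit 413) (nat_lit 193) (nat_lit 174)) (XT.lf (nat_lit 0) (nat_lit 13719749810) (nat_lit 152) (nat_lit 80823763619) (nat_lit 0) (nat_lit 11515015462) (nat_lit 2) (nat_lit 5) (nat_lit 4) (nat_lit 4) (nat_lit 2) (nat_lit 4) (nat_lit 414) (nat_lit 193) (nat_lit 173))) (XT.nd (nat_lit 78) (nat_lit 0) (nat_lit 0) (XT.lf (nat_lit 0) (nat_lit 8202867977) (nat_lit 152) (nat_lit 12007625667) (nat_lit 0) (nat_lit 8202867977) (nat_lit 5) (nat_lit 5) (nat_lit 7) (nat_lit 4) (nat_lit 5) (nat_lit 4) (nat_lit 392) (nat_lit 194) (nat_lit 194)) (XT.lf (nat_lit 0) (nat_lit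 20267751928) (nat_lit 152) (nat_lit 18042230345) (nat_lit 0) (nat_lit 20115113365) (nat_lit 5) (nat_lit 5) (nat_lit 7) (nat_lit 4) (nat_lit 5) (nat_lit 4) (nat_lit 393) (nat_lit 194) (nat_lit 193))))) (XT.nd (nat_lit 234) (nat_lit 0) (nat_lit 0) (XT.nd (nat_lit 78) (nat_lit 76) (nat_lit 0) (XT.lf (nat_lit 0) (nat_lit 24177477466) (nat_lit 152) (nat_lit 12019352073) (nat_lit 0) (nat_lit 23876646124) (nat_lit 5) (nat_lit 5) (nat_lit 7) (nat_lit 4) (nat_lit 5) (nat_lit 4) (nat_lit 394) (nat_lit 194) (nat_lit 192)) (XT.nd (nat_lit 78) (nat_lit 76) (nat_lit 0) (XT.lf (nat_lit 0) (nat_lit 28138328834) (nat_lit 152) (nat_lit 5941353810) (nat_lit 0) (nat_lit 27693621007) (nat_lit 5) (nat_lit 5) (nat_lit 7) (nat_lit 4) (nat_lit 5) (nat_lit 4) (nat_lit 395) (nat_lit 194) (nat_lit 191)) (XT.lf (nat_lit 0) (nat_lit 200997503) (nat_lit 76) (nat_lit 31954701577) (nat_lit 76) (nat_lit 31370307843) (nat_lit 4)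 (nat_lit 4) (nat_lit 5) (nat_lit 5) (nat_lit 5) (nat_lit 4) (nat_lit 396) (nat_lit 194) (nat_lit 190)))) (XT.nd (nat_lit 156) (nat_lit 0) (nat_lit 0) (XT.nd (nat_lit 78) (nat_lit 0) (nat_lit 0) (XT.lf (nat_lit 0) (nat_lit 6528697387) (nat_lit 76) (nat_lit 29761360954) (nat_lit 76) (nat_lit 29041349833) (nat_lit 4) (nat_lit 4) (nat_lit 5) (nat_lit 5) (nat_lit 5) (nat_lit 4) (nat_lit 397) (nat_lit 194) (nat_lit 189)) (XT.lf (nat_lit 0) (nat_lit 12929030310) (nat_lit 76) (nat_lit 27557740286) (nat_lit 76) (nat_lit 26706061801) (nat_lit 4) (nat_lit 4) (nat_lit 5) (nat_lit 5) (nat_lit 5) (nat_lit 4) (nat_lit 398) (nat_lit 194) (nat_lit 188))) (XT.nd (nat_lit 78) (nat_lit 0) (nat_lit 0) (XT.lf (nat_lit 0) (nat_lit 19407588796) (nat_lit 76) (nat_lit 25341914080) (nat_lit 76) (nat_lit 24362403202) (nat_lit 4) (nat_lit 4) (nat_lit 5) (nat_lit 5) (nat_lit 5) (nat_lit 4) (nat_lit 399) (nat_lit 194) (nat_lit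 187)) (XT.lf (nat_lit 0) (nat_lit 25970033721) (nat_lit 76) (nat_lit 23111946177) (nat_lit 76) (nat_lit 22008326179) (nat_lit 4) (nat_lit 4) (nat_lit 5) (nat_lit 5) (nat_lit 5) (nat_lit 4) (nat_lit 400) (nat_lit 194) (nat_lit 186)))))) (XT.nd (nat_lit 546) (nat_lit 152) (nat_lit 0) (XT.nd (nat_lit 234) (nat_lit 0) (nat_lit 0) (XT.nd (nat_lit 78) (nat_lit 0) (nat_lit 0) (XT.lf (nat_lit 0) (nat_lit 32622099260) (nat_lit 76) (nat_lit 20865888062) (nat_lit 76) (nat_lit 19641773773) (nat_lit 4) (nat_lit 4) (nat_lit 5) (nat_lit 5) (nat_lit 5) (nat_lit 4) (nat_lit 401) (nat_lit 194) (nat_lit 185)) (XT.nd (nat_lit 78) (nat_lit 0) (nat_lit 0) (XT.lf (nat_lit 0) (nat_lit 39369597898) (nat_lit 76) (nat_lit 18601777159) (nat_lit 76) (nat_lit 17260678122) (nat_lit 4) (nat_lit 4) (nat_lit 5) (nat_lit 5) (nat_lit 5) (nat_lit 4) (nat_lit 402) (nat_lit 194) (nat_lit 184)) (XT.lf (nat_lit 0) (nat_lit 46218425507)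 (nat_lit 76) (nat_lit 16317635120) (nat_lit 76) (nat_lit 14862958657) (nat_lit 4) (nat_lit 4) (nat_lit 5) (nat_lit 5) (nat_lit 5) (nat_lit 4) (nat_lit 403) (nat_lit 194) (nat_lit 183)))) (XT.nd (nat_lit 156) (nat_lit 0) (nat_lit 0) (XT.nd (nat_lit 78) (nat_lit 0) (nat_lit 0) (XT.lf (nat_lit 0) (nat_lit 53174566500) (nat_lit 76) (nat_lit 14011466091) (nat_lit 76) (nat_lit 12446520283) (nat_lit 4) (nat_lit 4) (nat_lit 5) (nat_lit 5) (nat_lit 5) (nat_lit 4) (nat_lit 404) (nat_lit 194) (nat_lit 182)) (XT.lf (nat_lit 0) (nat_lit 60244099058) (nat_lit 76) (nat_lit 11681254974) (nat_lit 76) (nat_lit 10009251549) (nat_lit 4) (nat_lit 4) (nat_lit 5) (nat_lit 5) (nat_lit 5) (nat_lit 4) (nat_lit 405) (nat_lit 194) (nat_lit 181))) (XT.nd (nat_lit 78) (nat_lit 0) (nat_lit 0) (XT.lf (nat_lit 0) (nat_lit 67433200442) (nat_lit 76) (nat_lit 9324965662) (nat_lit 76) (nat_lit 7549022803) (nat_lit 4) (nat_lit 4) (nat_lit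 5) (nat_lit 5) (nat_lit 5) (nat_lit 4) (nat_lit 406) (nat_lit 194) (nat_lit 180)) (XT.lf (nat_lit 0) (nat_lit 74748152392) (nat_lit 76) (nat_lit 6940539261) (nat_lit 76) (nat_lit 5063684331) (nat_lit 4) (nat_lit 4) (nat_lit 5) (nat_lit 5) (nat_lit 5) (nat_lit 4) (nat_lit 407) (nat_lit 194) (nat_lit 179))))) (XT.nd (nat_lit 234) (nat_lit 0) (nat_lit 0) (XT.nd (nat_lit 78) (nat_lit 152) (nat_lit 0) (XT.lf (nat_lit 0) (nat_lit 82195346614) (nat_lit 76) (nat_lit 4525892292) (nat_lit 76) (nat_lit 2551064477) (nat_lit 4) (nat_lit 4) (nat_lit 5) (nat_lit 5) (nat_lit 5) (nat_lit 4) (nat_lit 408) (nat_lit 194) (nat_lit 178)) (XT.nd (nat_lit 78) (nat_lit 152) (nat_lit 0) (XT.lf (nat_lit 0) (nat_lit 89781290364) (nat_lit 76) (nat_lit 2078914870) (nat_lit 76) (nat_lit 8967748) (nat_lit 4) (nat_lit 4) (nat_lit 5) (nat_lit 5) (nat_lit 5) (nat_lit 4) (nat_lit 409) (nat_lit 194) (nat_lit 177)) (XT.lf (nat_lit 0)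 (nat_lit 2548027249) (nat_lit 152) (nat_lit 91546778746) (nat_lit 0) (nat_lit 448710781) (nat_lit 2) (nat_lit 5) (nat_lit 4) (nat_lit 4) (nat_lit 2) (nat_lit 4) (nat_lit 410) (nat_lit 194) (nat_lit 176)))) (XT.nd (nat_lit 156) (nat_lit 0) (nat_lit 0) (XT.nd (nat_lit 78) (nat_lit 0) (nat_lit 0) (XT.lf (nat_lit 0) (nat_lit 5179838828) (nat_lit 152) (nat_lit 89124833068) (nat_lit 0) (nat_lit 2993474720) (nat_lit 2) (nat_lit 5) (nat_lit 4) (nat_lit 4) (nat_lit 2) (nat_lit 4) (nat_lit 411) (nat_lit 194) (nat_lit 175)) (XT.lf (nat_lit 0) (nat_lit 7848285716) (nat_lit 152) (nat_lit 86710996675) (nat_lit 0) (nat_lit 5577409337) (nat_lit 2) (nat_lit 5) (nat_lit 4) (nat_lit 4) (nat_lit 2) (nat_lit 4) (nat_lit 412) (nat_lit 194) (nat_lit 174))) (XT.nd (nat_lit 78) (nat_lit 0) (nat_lit 0) (XT.lf (nat_lit 0) (nat_lit 10555699566) (nat_lit 152) (nat_lit 84303160388) (nat_lit 0) (nat_lit 8202772439) (nat_lit 2)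 (nat_lit 5) (nat_lit 4) (nat_lit 4) (nat_lit 2) (nat_lit 4) (nat_lit 413) (nat_lit 194) (nat_lit 173)) (XT.lf (nat_lit 0) (nat_lit 13304446079) (nat_lit 152) (nat_lit 81899220273) (nat_lit 0) (nat_lit 10871858030) (nat_lit 2) (nat_lit 5) (nat_lit 4) (nat_lit 4) (nat_lit 2) (nat_lit 4) (nat_lit 414) (nat_lit 194) (nat_lit 172))))))) (XT.nd (nat_lit 1092) (nat_lit 152) (nat_lit 0) (XT.nd (nat_lit 546) (nat_lit 76) (nat_lit 0) (XT.nd (nat_lit 234) (nat_lit 0) (nat_lit 0) (XT.nd (nat_lit 78) (nat_lit 0) (nat_lit 0) (XT.lf (nat_lit 0) (nat_lit 4502103630) (nat_lit 152) (nat_lit 17882484014) (nat_lit 0) (nat_lit 4502103630) (nat_lit 5) (nat_lit 5) (nat_lit 7) (nat_lit 4) (nat_lit 5) (nat_lit 4) (nat_lit 390) (nat_lit 195) (nat_lit 195)) (XT.nd (nat_lit 78) (nat_lit 0) (nat_lit 0) (XT.lf (nat_lit 0) (nat_lit 12745272689) (nat_lit 152) (nat_lit 29943634184) (nat_lit 0) (nat_lit 12588054969) (nat_lit 5)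 (nat_lit 5) (nat_lit 7) (nat_lit 4) (nat_lit 5) (nat_lit 4) (nat_lit 391) (nat_lit 195) (nat_lit 194)) (XT.lf (nat_lit 0) (nat_lit 16528374639) (nat_lit 152) (nat_lit 24080873672) (nat_lit 0) (nat_lit 16218518357) (nat_lit 5) (nat_lit 5) (nat_lit 7) (nat_lit 4) (nat_lit 5) (nat_lit 4) (nat_lit 392) (nat_lit 195) (nat_lit 193)))) (XT.nd (nat_lit 156) (nat_lit 0) (nat_lit 0) (XT.nd (nat_lit 78) (nat_lit 0) (nat_lit 0) (XT.lf (nat_lit 0) (nat_lit 20356818733) (nat_lit 152) (nat_lit 18171563692) (nat_lit 0) (nat_lit 19898769672) (nat_lit 5) (nat_lit 5) (nat_lit 7) (nat_lit 4) (nat_lit 5) (nat_lit 4) (nat_lit 393) (nat_lit 195) (nat_lit 192)) (XT.lf (nat_lit 0) (nat_lit 24233950214) (nat_lit 152) (nat_lit 12210540768) (nat_lit 0) (nat_lit 23632024668) (nat_lit 5) (nat_lit 5) (nat_lit 7) (nat_lit 4) (nat_lit 5) (nat_lit 4) (nat_lit 394) (nat_lit 195) (nat_lit 191))) (XT.nd (nat_lit 78) (nat_lit 0) (nat_lit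 0) (XT.lf (nat_lit 0) (nat_lit 28163156866) (nat_lit 152) (nat_lit 6192596240) (nat_lit 0) (nat_lit 27421545412) (nat_lit 5) (nat_lit 5) (nat_lit 7) (nat_lit 4) (nat_lit 5) (nat_lit 4) (nat_lit 395) (nat_lit 195) (nat_lit 190)) (XT.lf (nat_lit 0) (nat_lit 32147871976) (nat_lit 152) (nat_lit 112471710) (nat_lit 0) (nat_lit 31270643136) (nat_lit 5) (nat_lit 5) (nat_lit 7) (nat_lit 4) (nat_lit 5) (nat_lit 4) (nat_lit 396) (nat_lit 195) (nat_lit 189))))) (XT.nd (nat_lit 234) (nat_lit 0) (nat_lit 0) (XT.nd (nat_lit 78) (nat_lit 0) (nat_lit 0) (XT.lf (nat_lit 0) (nat_lit 6155256782) (nat_lit 76) (nat_lit 30095488646) (nat_lit 76) (nat_lit 29086592442) (nat_lit 4) (nat_lit 4) (nat_lit 5) (nat_lit 5) (nat_lit 5) (nat_lit 4) (nat_lit 397) (nat_lit 195) (nat_lit 188)) (XT.nd (nat_lit 78) (nat_lit 0) (nat_lit 0) (XT.lf (nat_lit 0) (nat_lit 12499538264) (nat_lit 76) (nat_lit 27918421221) (nat_lit 76) (nat_lit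 26781692623) (nat_lit 4) (nat_lit 4) (nat_lit 5) (nat_lit 5) (nat_lit 5) (nat_lit 4) (nat_lit 398) (nat_lit 195) (nat_lit 187)) (XT.lf (nat_lit 0) (nat_lit 18923677875) (nat_lit 76) (nat_lit 25728374862) (nat_lit 76) (nat_lit 24467537144) (nat_lit 4) (nat_lit 4) (nat_lit 5) (nat_lit 5) (nat_lit 5) (nat_lit 4) (nat_lit 399) (nat_lit 195) (nat_lit 186)))) (XT.nd (nat_lit 156) (nat_lit 0) (nat_lit 0) (XT.nd (nat_lit 78) (nat_lit 0) (nat_lit 0) (XT.lf (nat_lit 0) (nat_lit 25433288941) (nat_lit 76) (nat_lit 23523435937) (nat_lit 76) (nat_lit 22142103928) (nat_lit 4) (nat_lit 4) (nat_lit 5) (nat_lit 5) (nat_lit 5) (nat_lit 4) (nat_lit 400) (nat_lit 195) (nat_lit 185)) (XT.lf (nat_lit 0) (nat_lit 32034059472) (nat_lit 76) (nat_lit 21301677800) (nat_lit 76) (nat_lit 19803361043) (nat_lit 4) (nat_lit 4) (nat_lit 5) (nat_lit 5) (nat_lit 5) (nat_lit 4) (nat_lit 401) (nat_lit 195) (nat_lit 184))) (XT.nd (nat_lit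 78) (nat_lit 0) (nat_lit 0) (XT.lf (nat_lit 0) (nat_lit 38731757130) (nat_lit 76) (nat_lit 19061159109) (nat_lit 76) (nat_lit 17449264927) (nat_lit 4) (nat_lit 4) (nat_lit 5) (nat_lit 5) (nat_lit 5) (nat_lit 4) (nat_lit 402) (nat_lit 195) (nat_lit 183)) (XT.lf (nat_lit 0) (nat_lit 45532234274) (nat_lit 76) (nat_lit 16799922130) (nat_lit 76) (nat_lit 15077758602) (nat_lit 4) (nat_lit 4) (nat_lit 5) (nat_lit 5) (nat_lit 5) (nat_lit 4) (nat_lit 403) (nat_lit 195) (nat_lit 182)))))) (XT.nd (nat_lit 546) (nat_lit 0) (nat_lit 0) (XT.nd (nat_lit 234) (nat_lit 152) (nat_lit 0) (XT.nd (nat_lit 78) (nat_lit 0) (nat_lit 0) (XT.lf (nat_lit 0) (nat_lit 52441433068) (nat_lit 76) (nat_lit 14515991023) (nat_lit 76) (nat_lit 12686769879) (nat_lit 4) (nat_lit 4) (nat_lit 5) (nat_lit 5) (nat_lit 5) (nat_lit 4) (nat_lit 404) (nat_lit 195) (nat_lit 181)) (XT.nd (nat_lit 78) (nat_lit 0) (nat_lit 0) (XT.lf (nat_lit 0)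 (nat_lit 59465390675) (nat_lit 76) (nat_lit 12207370122) (nat_lit 76) (nat_lit 10274209544) (nat_lit 4) (nat_lit 4) (nat_lit 5) (nat_lit 5) (nat_lit 5) (nat_lit 4) (nat_lit 405) (nat_lit 195) (nat_lit 180)) (XT.lf (nat_lit 0) (nat_lit 66610244534) (nat_lit 76) (nat_lit 9872042185) (nat_lit 76) (nat_lit 7837969535) (nat_lit 4) (nat_lit 4) (nat_lit 5) (nat_lit 5) (nat_lit 5) (nat_lit 4) (nat_lit 406) (nat_lit 195) (nat_lit 179)))) (XT.nd (nat_lit 156) (nat_lit 152) (nat_lit 0) (XT.nd (nat_lit 78) (nat_lit 0) (nat_lit 0) (XT.lf (nat_lit 0) (nat_lit 73882237722) (nat_lit 76) (nat_lit 7507966633) (nat_lit 76) (nat_lit 5375921098) (nat_lit 4) (nat_lit 4) (nat_lit 5) (nat_lit 5) (nat_lit 5) (nat_lit 4) (nat_lit 407) (nat_lit 195) (nat_lit 178)) (XT.lf (nat_lit 0) (nat_lit 81287724408) (nat_lit 76) (nat_lit 5113077771) (nat_lit 76) (nat_lit 2885912930) (nat_lit 4) (nat_lit 4) (nat_lit 5) (nat_lit 5) (nat_lit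 5) (nat_lit 4) (nat_lit 408) (nat_lit 195) (nat_lit 177))) (XT.nd (nat_lit 78) (nat_lit 152) (nat_lit 0) (XT.lf (nat_lit 0) (nat_lit 88833175404) (nat_lit 76) (nat_lit 2685282975) (nat_lit 76) (nat_lit 365769294) (nat_lit 4) (nat_lit 4) (nat_lit 5) (nat_lit 5) (nat_lit 5) (nat_lit 4) (nat_lit 409) (nat_lit 195) (nat_lit 176)) (XT.lf (nat_lit 0) (nat_lit 1981905097) (nat_lit 76) (nat_lit 181187438) (nat_lit 152) (nat_lit 92396638147) (nat_lit 2) (nat_lit 5) (nat_lit 3) (nat_lit 5) (nat_lit 4) (nat_lit 4) (nat_lit 410) (nat_lit 195) (nat_lit 175))))) (XT.nd (nat_lit 38844) (nat_lit 0) (nat_lit 228) (XT.nd (nat_lit 156) (nat_lit 0) (nat_lit 0) (XT.nd (nat_lit 78) (nat_lit 0) (nat_lit 0) (XT.lf (nat_lit 0) (nat_lit 4772315613) (nat_lit 152) (nat_lit 90193925245) (nat_lit 0) (nat_lit 2348800672) (nat_lit 2) (nat_lit 5) (nat_lit 4) (nat_lit 4) (nat_lit 2) (nat_lit 4) (nat_lit 411) (nat_lit 195) (nat_lit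 174)) (XT.lf (nat_lit 0) (nat_lit 7420522873) (nat_lit 152) (nat_lit 87818717029) (nat_lit 0) (nat_lit 4914957183) (nat_lit 2) (nat_lit 5) (nat_lit 4) (nat_lit 4) (nat_lit 2) (nat_lit 4) (nat_lit 412) (nat_lit 195) (nat_lit 173))) (XT.nd (nat_lit 78) (nat_lit 0) (nat_lit 0) (XT.lf (nat_lit 0) (nat_lit 10108286599) (nat_lit 152) (nat_lit 85448383826) (nat_lit 0) (nat_lit 7523059987) (nat_lit 2) (nat_lit 5) (nat_lit 4) (nat_lit 4) (nat_lit 2) (nat_lit 4) (nat_lit 413) (nat_lit 195) (nat_lit 172)) (XT.lf (nat_lit 0) (nat_lit 12837955321) (nat_lit 152) (nat_lit 83080854472) (nat_lit 0) (nat_lit 10175388010) (nat_lit 2) (nat_lit 5) (nat_lit 4) (nat_lit 4) (nat_lit 2) (nat_lit 4) (nat_lit 414) (nat_lit 195) (nat_lit 171)))) (XT.nd (nat_lit 156) (nat_lit 0) (nat_lit 0) (XT.nd (nat_lit 78) (nat_lit 0) (nat_lit 0) (XT.lf (nat_lit 0) (nat_lit 916881710) (nat_lit 152) (nat_lit 23617025814) (nat_lit 0) (nat_lit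 916881710) (nat_lit 5) (nat_lit 5) (nat_lit 7) (nat_lit 4) (nat_lit 5) (nat_lit 4) (nat_lit 388) (nat_lit 196) (nat_lit 196)) (XT.lf (nat_lit 0) (nat_lit 5463843710) (nat_lit 152) (nat_lit 41549961806) (nat_lit 0) (nat_lit 5301909459) (nat_lit 5) (nat_lit 5) (nat_lit 7) (nat_lit 4) (nat_lit 5) (nat_lit 4) (nat_lit 389) (nat_lit 196) (nat_lit 195))) (XT.nd (nat_lit 78) (nat_lit 0) (nat_lit 0) (XT.lf (nat_lit 0) (nat_lit 9130525104) (nat_lit 152) (nat_lit 35832559037) (nat_lit 0) (nat_lit 8811373134) (nat_lit 5) (nat_lit 5) (nat_lit 7) (nat_lit 4) (nat_lit 5) (nat_lit 4) (nat_lit 390) (nat_lit 196) (nat_lit 194)) (XT.lf (nat_lit 0) (nat_lit 12837011498) (nat_lit 152) (nat_lit 30076847532) (nat_lit 0) (nat_lit 12365220965) (nat_lit 5) (nat_lit 5) (nat_lit 7) (nat_lit 4) (nat_lit 5) (nat_lit 4) (nat_lit 391) (nat_lit 196) (nat_lit 193))))))))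
noncomputable def xc3 : XT := (XT.nd (nat_lit 40560) (nat_lit 0) (nat_lit 0) (XT.nd (nat_lit 1092) (nat_lit 152) (nat_lit 0) (XT.nd (nat_lit 546) (nat_lit 0) (nat_lit 0) (XT.nd (nat_lit 234) (nat_lit 76) (nat_lit 0) (XT.nd (nat_lit 78) (nat_lit 0) (nat_lit 0) (XT.lf (nat_lit 0) (nat_lit 16586541569) (nat_lit 152) (nat_lit 24277798028) (nat_lit 0) (nat_lit 15966558257) (nat_lit 5) (nat_lit 5) (nat_lit 7) (nat_lit 4) (nat_lit 5) (nat_lit 4) (nat_lit 392) (nat_lit 196) (nat_lit 192)) (XT.nd (nat_lit 78) (nat_lit 0) (nat_lit 0) (XT.lf (nat_lit 0) (nat_lit 20382391606) (nat_lit 152) (nat_lit 18430343395) (nat_lit 0) (nat_lit 19618531809) (nat_lit 5) (nat_lit 5) (nat_lit 7) (nat_lit 4) (nat_lit 5) (nat_lit 4) (nat_lit 393) (nat_lit 196) (nat_lit 191)) (XT.lf (nat_lit 0) (nat_lit 24227878371) (nat_lit 152) (nat_lit 12529374207) (nat_lit 0) (nat_lit 23324332666) (nat_lit 5) (nat_lit 5) (nat_lit 7) (nat_lit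 4) (nat_lit 5) (nat_lit 4) (nat_lit 394) (nat_lit 196) (nat_lit 190)))) (XT.nd (nat_lit 156) (nat_lit 76) (nat_lit 0) (XT.nd (nat_lit 78) (nat_lit 0) (nat_lit 0) (XT.lf (nat_lit 0) (nat_lit 28126361997) (nat_lit 152) (nat_lit 6569734277) (nat_lit 0) (nat_lit 27087198907) (nat_lit 5) (nat_lit 5) (nat_lit 7) (nat_lit 4) (nat_lit 5) (nat_lit 4) (nat_lit 395) (nat_lit 196) (nat_lit 189)) (XT.lf (nat_lit 0) (nat_lit 32081248928) (nat_lit 152) (nat_lit 546216152) (nat_lit 0) (nat_lit 30910418472) (nat_lit 5) (nat_lit 5) (nat_lit 7) (nat_lit 4) (nat_lit 5) (nat_lit 4) (nat_lit 396) (nat_lit 196) (nat_lit 188))) (XT.nd (nat_lit 78) (nat_lit 0) (nat_lit 0) (XT.lf (nat_lit 0) (nat_lit 5656828534) (nat_lit 76) (nat_lit 30493543252) (nat_lit 76) (nat_lit 29194880403) (nat_lit 4) (nat_lit 4) (nat_lit 5) (nat_lit 5) (nat_lit 5) (nat_lit 4) (nat_lit 397) (nat_lit 196) (nat_lit 187)) (XT.lf (nat_lit 0) (nat_lit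 11946691141) (nat_lit 76) (nat_lit 28342255673) (nat_lit 76) (nat_lit 26919483705) (nat_lit 4) (nat_lit 4) (nat_lit 5) (nat_lit 5) (nat_lit 5) (nat_lit 4) (nat_lit 398) (nat_lit 196) (nat_lit 186))))) (XT.nd (nat_lit 234) (nat_lit 0) (nat_lit 0) (XT.nd (nat_lit 78) (nat_lit 0) (nat_lit 0) (XT.lf (nat_lit 0) (nat_lit 18317996894) (nat_lit 76) (nat_lit 26177238292) (nat_lit 76) (nat_lit 24633972032) (nat_lit 4) (nat_lit 4) (nat_lit 5) (nat_lit 5) (nat_lit 5) (nat_lit 4) (nat_lit 399) (nat_lit 196) (nat_lit 185)) (XT.nd (nat_lit 78) (nat_lit 0) (nat_lit 0) (XT.lf (nat_lit 0) (nat_lit 24776312951) (nat_lit 76) (nat_lit 23996599345) (nat_lit 76) (nat_lit 22336348337) (nat_lit 4) (nat_lit 4) (nat_lit 5) (nat_lit 5) (nat_lit 5) (nat_lit 4) (nat_lit 400) (nat_lit 196) (nat_lit 184)) (XT.lf (nat_lit 0) (nat_lit 31327282502) (nat_lit 76) (nat_lit 21798433420) (nat_lit 76) (nat_lit 20024604987) (nat_lit 4)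 (nat_lit 4) (nat_lit 5) (nat_lit 5) (nat_lit 5) (nat_lit 4) (nat_lit 401) (nat_lit 196) (nat_lit 183)))) (XT.nd (nat_lit 156) (nat_lit 0) (nat_lit 0) (XT.nd (nat_lit 78) (nat_lit 0) (nat_lit 0) (XT.lf (nat_lit 0) (nat_lit 37976629695) (nat_lit 76) (nat_lit 19580819789) (nat_lit 76) (nat_lit 17696722011) (nat_lit 4) (nat_lit 4) (nat_lit 5) (nat_lit 5) (nat_lit 5) (nat_lit 4) (nat_lit 402) (nat_lit 196) (nat_lit 182)) (XT.lf (nat_lit 0) (nat_lit 44730164640) (nat_lit 76) (nat_lit 17341820732) (nat_lit 76) (nat_lit 15350665337) (nat_lit 4) (nat_lit 4) (nat_lit 5) (nat_lit 5) (nat_lit 5) (nat_lit 4) (nat_lit 403) (nat_lit 196) (nat_lit 181))) (XT.nd (nat_lit 78) (nat_lit 0) (nat_lit 0) (XT.lf (nat_lit 0) (nat_lit 51593788482) (nat_lit 76) (nat_lit 15079479842) (nat_lit 76) (nat_lit 12984385013) (nat_lit 4) (nat_lit 4) (nat_lit 5) (nat_lit 5) (nat_lit 5) (nat_lit 4) (nat_lit 404) (nat_lit 196) (nat_lit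 180)) (XT.lf (nat_lit 0) (nat_lit 58573498564) (nat_lit 76) (nat_lit 12791820316) (nat_lit 76) (nat_lit 10595813415) (nat_lit 4) (nat_lit 4) (nat_lit 5) (nat_lit 5) (nat_lit 5) (nat_lit 4) (nat_lit 405) (nat_lit 196) (nat_lit 179)))))) (XT.nd (nat_lit 546) (nat_lit 0) (nat_lit 0) (XT.nd (nat_lit 234) (nat_lit 152) (nat_lit 0) (XT.nd (nat_lit 78) (nat_lit 0) (nat_lit 0) (XT.lf (nat_lit 0) (nat_lit 65675393662) (nat_lit 76) (nat_lit 10476843228) (nat_lit 76) (nat_lit 8182863442) (nat_lit 4) (nat_lit 4) (nat_lit 5) (nat_lit 5) (nat_lit 5) (nat_lit 4) (nat_lit 406) (nat_lit 196) (nat_lit 178)) (XT.nd (nat_lit 78) (nat_lit 0) (nat_lit 0) (XT.lf (nat_lit 0) (nat_lit 72905679314) (nat_lit 76) (nat_lit 8132525782) (nat_lit 76) (nat_lit 5743426690) (nat_lit 4) (nat_lit 4) (nat_lit 5) (nat_lit 5) (nat_lit 5) (nat_lit 4) (nat_lit 407) (nat_lit 196) (nat_lit 177)) (XT.lf (nat_lit 0) (nat_lit 80270673246) (nat_lit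 76) (nat_lit 5756819547) (nat_lit 76) (nat_lit 3275371614) (nat_lit 4) (nat_lit 4) (nat_lit 5) (nat_lit 5) (nat_lit 5) (nat_lit 4) (nat_lit 408) (nat_lit 196) (nat_lit 176)))) (XT.nd (nat_lit 156) (nat_lit 0) (nat_lit 0) (XT.nd (nat_lit 78) (nat_lit 152) (nat_lit 0) (XT.lf (nat_lit 0) (nat_lit 87776810889) (nat_lit 76) (nat_lit 3347648661) (nat_lit 76) (nat_lit 776541660) (nat_lit 4) (nat_lit 4) (nat_lit 5) (nat_lit 5) (nat_lit 5) (nat_lit 4) (nat_lit 409) (nat_lit 196) (nat_lit 175)) (XT.lf (nat_lit 0) (nat_lit 852093498) (nat_lit 76) (nat_lit 877092777) (nat_lit 152) (nat_lit 92848374241) (nat_lit 2) (nat_lit 5) (nat_lit 3) (nat_lit 5) (nat_lit 4) (nat_lit 4) (nat_lit 410) (nat_lit 196) (nat_lit 174))) (XT.nd (nat_lit 78) (nat_lit 0) (nat_lit 0) (XT.lf (nat_lit 0) (nat_lit 4311480257) (nat_lit 152) (nat_lit 91373505386) (nat_lit 0) (nat_lit 1648696847) (nat_lit 2) (nat_lit 5) (nat_lit 4) (nat_lit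 4) (nat_lit 2) (nat_lit 4) (nat_lit 411) (nat_lit 196) (nat_lit 173)) (XT.lf (nat_lit 0) (nat_lit 6940037393) (nat_lit 152) (nat_lit 89035800254) (nat_lit 0) (nat_lit 4197593062) (nat_lit 2) (nat_lit 5) (nat_lit 4) (nat_lit 4) (nat_lit 2) (nat_lit 4) (nat_lit 412) (nat_lit 196) (nat_lit 172))))) (XT.nd (nat_lit 38610) (nat_lit 0) (nat_lit 228) (XT.nd (nat_lit 78) (nat_lit 0) (nat_lit 0) (XT.lf (nat_lit 0) (nat_lit 9608723328) (nat_lit 152) (nat_lit 86701877812) (nat_lit 0) (nat_lit 6788938297) (nat_lit 2) (nat_lit 5) (nat_lit 4) (nat_lit 4) (nat_lit 2) (nat_lit 4) (nat_lit 413) (nat_lit 196) (nat_lit 171)) (XT.nd (nat_lit 38454) (nat_lit 0) (nat_lit 380) (XT.lf (nat_lit 0) (nat_lit 12319869923) (nat_lit 152) (nat_lit 84369698712) (nat_lit 0) (nat_lit 9424996834) (nat_lit 2) (nat_lit 5) (nat_lit 4) (nat_lit 4) (nat_lit 2) (nat_lit 4) (nat_lit 414) (nat_lit 196) (nat_lit 170)) (XT.lf (nat_lit 0) (nat_lit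 19023135686) (nat_lit 76) (nat_lit 2537216333) (nat_lit 76) (nat_lit 2537216333) (nat_lit 7) (nat_lit 4) (nat_lit 8) (nat_lit 5) (nat_lit 8) (nat_lit 4) (nat_lit 386) (nat_lit 197) (nat_lit 197)))) (XT.nd (nat_lit 156) (nat_lit 0) (nat_lit 0) (XT.nd (nat_lit 78) (nat_lit 152) (nat_lit 0) (XT.lf (nat_lit 0) (nat_lit 46202813126) (nat_lit 76) (nat_lit 1748923962) (nat_lit 76) (nat_lit 1577127915) (nat_lit 7) (nat_lit 4) (nat_lit 8) (nat_lit 5) (nat_lit 8) (nat_lit 4) (nat_lit 387) (nat_lit 197) (nat_lit 196)) (XT.lf (nat_lit 0) (nat_lit 1963870800) (nat_lit 152) (nat_lit 47303670368) (nat_lit 0) (nat_lit 1635144270) (nat_lit 5) (nat_lit 5) (nat_lit 7) (nat_lit 4) (nat_lit 5) (nat_lit 4) (nat_lit 388) (nat_lit 197) (nat_lit 195))) (XT.nd (nat_lit 78) (nat_lit 0) (nat_lit 0) (XT.lf (nat_lit 0) (nat_lit 5558334684) (nat_lit 152) (nat_lit 41687171554) (nat_lit 0) (nat_lit 5072390434) (nat_lit 5) (nat_lit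 5) (nat_lit 7) (nat_lit 4) (nat_lit 5) (nat_lit 4) (nat_lit 389) (nat_lit 197) (nat_lit 194)) (XT.lf (nat_lit 0) (nat_lit 9190437042) (nat_lit 152) (nat_lit 36035391123) (nat_lit 0) (nat_lit 8551854230) (nat_lit 5) (nat_lit 5) (nat_lit 7) (nat_lit 4) (nat_lit 5) (nat_lit 4) (nat_lit 390) (nat_lit 197) (nat_lit 193))))))) (XT.nd (nat_lit 1092) (nat_lit 152) (nat_lit 0) (XT.nd (nat_lit 546) (nat_lit 0) (nat_lit 0) (XT.nd (nat_lit 234) (nat_lit 76) (nat_lit 0) (XT.nd (nat_lit 78) (nat_lit 0) (nat_lit 0) (XT.lf (nat_lit 0) (nat_lit 12863351557) (nat_lit 152) (nat_lit 30343390626) (nat_lit 0) (nat_lit 12076575966) (nat_lit 5) (nat_lit 5) (nat_lit 7) (nat_lit 4) (nat_lit 5) (nat_lit 4) (nat_lit 391) (nat_lit 197) (nat_lit 192)) (XT.nd (nat_lit 78) (nat_lit 0) (nat_lit 0) (XT.lf (nat_lit 0) (nat_lit 16580287571) (nat_lit 152) (nat_lit 24606196470) (nat_lit 0) (nat_lit 15649635495) (nat_lit 5) (nat_lit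 5) (nat_lit 7) (nat_lit 4) (nat_lit 5) (nat_lit 4) (nat_lit 392) (nat_lit 197) (nat_lit 191)) (XT.lf (nat_lit 0) (nat_lit 20344492892) (nat_lit 152) (nat_lit 18818795573) (nat_lit 0) (nat_lit 19274154908) (nat_lit 5) (nat_lit 5) (nat_lit 7) (nat_lit 4) (nat_lit 5) (nat_lit 4) (nat_lit 393) (nat_lit 197) (nat_lit 190)))) (XT.nd (nat_lit 156) (nat_lit 76) (nat_lit 0) (XT.nd (nat_lit 78) (nat_lit 0) (nat_lit 0) (XT.lf (nat_lit 0) (nat_lit 24159256631) (nat_lit 152) (nat_lit 12976130983) (nat_lit 0) (nat_lit 22953301262) (nat_lit 5) (nat_lit 5) (nat_lit 7) (nat_lit 4) (nat_lit 5) (nat_lit 4) (nat_lit 394) (nat_lit 197) (nat_lit 189)) (XT.lf (nat_lit 0) (nat_lit 28027912078) (nat_lit 152) (nat_lit 7073097458) (nat_lit 0) (nat_lit 26690289344) (nat_lit 5) (nat_lit 5) (nat_lit 7) (nat_lit 4) (nat_lit 5) (nat_lit 4) (nat_lit 395) (nat_lit 197) (nat_lit 188))) (XT.nd (nat_lit 78) (nat_lit 76) (nat_lit 0)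 (XT.lf (nat_lit 0) (nat_lit 31953839611) (nat_lit 152) (nat_lit 1104537009) (nat_lit 0) (nat_lit 30488384484) (nat_lit 5) (nat_lit 5) (nat_lit 7) (nat_lit 4) (nat_lit 5) (nat_lit 4) (nat_lit 396) (nat_lit 197) (nat_lit 187)) (XT.lf (nat_lit 0) (nat_lit 5032977122) (nat_lit 76) (nat_lit 30955872585) (nat_lit 76) (nat_lit 29366308337) (nat_lit 4) (nat_lit 4) (nat_lit 5) (nat_lit 5) (nat_lit 5) (nat_lit 4) (nat_lit 397) (nat_lit 197) (nat_lit 186))))) (XT.nd (nat_lit 234) (nat_lit 0) (nat_lit 0) (XT.nd (nat_lit 78) (nat_lit 0) (nat_lit 0) (XT.lf (nat_lit 0) (nat_lit 11270005871) (nat_lit 76) (nat_lit 28829613984) (nat_lit 76) (nat_lit 27119555446) (nat_lit 4) (nat_lit 4) (nat_lit 5) (nat_lit 5) (nat_lit 5) (nat_lit 4) (nat_lit 398) (nat_lit 197) (nat_lit 185)) (XT.nd (nat_lit 78) (nat_lit 0) (nat_lit 0) (XT.lf (nat_lit 0) (nat_lit 17590016615) (nat_lit 76) (nat_lit 26688896581) (nat_lit 76) (nat_lit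 24861853294) (nat_lit 4) (nat_lit 4) (nat_lit 5) (nat_lit 5) (nat_lit 5) (nat_lit 4) (nat_lit 399) (nat_lit 197) (nat_lit 184)) (XT.lf (nat_lit 0) (nat_lit 23998531693) (nat_lit 76) (nat_lit 24531849846) (nat_lit 76) (nat_lit 22591229134) (nat_lit 4) (nat_lit 4) (nat_lit 5) (nat_lit 5) (nat_lit 5) (nat_lit 4) (nat_lit 400) (nat_lit 197) (nat_lit 183)))) (XT.nd (nat_lit 156) (nat_lit 0) (nat_lit 0) (XT.nd (nat_lit 78) (nat_lit 0) (nat_lit 0) (XT.lf (nat_lit 0) (nat_lit 30501150779) (nat_lit 76) (nat_lit 22356588981) (nat_lit 76) (nat_lit 20305698923) (nat_lit 4) (nat_lit 4) (nat_lit 5) (nat_lit 5) (nat_lit 5) (nat_lit 4) (nat_lit 401) (nat_lit 197) (nat_lit 182)) (XT.lf (nat_lit 0) (nat_lit 37103555773) (nat_lit 76) (nat_lit 20161213273) (nat_lit 76) (nat_lit 18003265598) (nat_lit 4) (nat_lit 4) (nat_lit 5) (nat_lit 5) (nat_lit 5) (nat_lit 4) (nat_lit 402) (nat_lit 197) (nat_lit 181))) (XT.nd (nat_lit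 78) (nat_lit 0) (nat_lit 0) (XT.lf (nat_lit 0) (nat_lit 43811515766) (nat_lit 76) (nat_lit 17943804432) (nat_lit 76) (nat_lit 15681917324) (nat_lit 4) (nat_lit 4) (nat_lit 5) (nat_lit 5) (nat_lit 5) (nat_lit 4) (nat_lit 403) (nat_lit 197) (nat_lit 180)) (XT.lf (nat_lit 0) (nat_lit 50630892084) (nat_lit 76) (nat_lit 15702424916) (nat_lit 76) (nat_lit 13339625736) (nat_lit 4) (nat_lit 4) (nat_lit 5) (nat_lit 5) (nat_lit 5) (nat_lit 4) (nat_lit 404) (nat_lit 197) (nat_lit 179)))))) (XT.nd (nat_lit 546) (nat_lit 0) (nat_lit 0) (XT.nd (nat_lit 234) (nat_lit 152) (nat_lit 0) (XT.nd (nat_lit 78) (nat_lit 0) (nat_lit 0) (XT.lf (nat_lit 0) (nat_lit 57567643404) (nat_lit 76) (nat_lit 13435116239) (nat_lit 76) (nat_lit 10974344174) (nat_lit 4) (nat_lit 4) (nat_lit 5) (nat_lit 5) (nat_lit 5) (nat_lit 4) (nat_lit 405) (nat_lit 197) (nat_lit 178)) (XT.nd (nat_lit 78) (nat_lit 0) (nat_lit 0) (XT.lf (nat_lit 0)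 (nat_lit 64627830965) (nat_lit 76) (nat_lit 11139897257) (nat_lit 76) (nat_lit 8584005886) (nat_lit 4) (nat_lit 4) (nat_lit 5) (nat_lit 5) (nat_lit 5) (nat_lit 4) (nat_lit 406) (nat_lit 197) (nat_lit 177)) (XT.lf (nat_lit 0) (nat_lit 71817623863) (nat_lit 76) (nat_lit 8814762439) (nat_lit 76) (nat_lit 6166522227) (nat_lit 4) (nat_lit 4) (nat_lit 5) (nat_lit 5) (nat_lit 5) (nat_lit 4) (nat_lit 407) (nat_lit 197) (nat_lit 176)))) (XT.nd (nat_lit 156) (nat_lit 152) (nat_lit 0) (XT.nd (nat_lit 78) (nat_lit 0) (nat_lit 0) (XT.lf (nat_lit 0) (nat_lit 79143304442) (nat_lit 76) (nat_lit 6457680113) (nat_lit 76) (nat_lit 3719780833) (nat_lit 4) (nat_lit 4) (nat_lit 5) (nat_lit 5) (nat_lit 5) (nat_lit 4) (nat_lit 408) (nat_lit 197) (nat_lit 175)) (XT.lf (nat_lit 0) (nat_lit 86611273782) (nat_lit 76) (nat_lit 4066590694) (nat_lit 76) (nat_lit 1241643774) (nat_lit 4) (nat_lit 4) (nat_lit 5) (nat_lit 5) (nat_lit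 5) (nat_lit 4) (nat_lit 409) (nat_lit 197) (nat_lit 174))) (XT.nd (nat_lit 78) (nat_lit 76) (nat_lit 0) (XT.lf (nat_lit 0) (nat_lit 1245270976) (nat_lit 152) (nat_lit 381559107) (nat_lit 76) (nat_lit 92970211521) (nat_lit 3) (nat_lit 5) (nat_lit 5) (nat_lit 5) (nat_lit 4) (nat_lit 4) (nat_lit 410) (nat_lit 197) (nat_lit 173)) (XT.lf (nat_lit 0) (nat_lit 3796930087) (nat_lit 152) (nat_lit 92664604192) (nat_lit 0) (nat_lit 892551505) (nat_lit 2) (nat_lit 5) (nat_lit 4) (nat_lit 4) (nat_lit 2) (nat_lit 4) (nat_lit 411) (nat_lit 197) (nat_lit 172))))) (XT.nd (nat_lit 38532) (nat_lit 0) (nat_lit 228) (XT.nd (nat_lit 156) (nat_lit 0) (nat_lit 0) (XT.nd (nat_lit 78) (nat_lit 0) (nat_lit 0) (XT.lf (nat_lit 0) (nat_lit 6406409433) (nat_lit 152) (nat_lit 90363309821) (nat_lit 0) (nat_lit 3424690150) (nat_lit 2) (nat_lit 5) (nat_lit 4) (nat_lit 4) (nat_lit 2) (nat_lit 4) (nat_lit 412) (nat_lit 197) (nat_lit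 171)) (XT.lf (nat_lit 0) (nat_lit 9056573241) (nat_lit 152) (nat_lit 88064737633) (nat_lit 0) (nat_lit 5999765900) (nat_lit 2) (nat_lit 5) (nat_lit 4) (nat_lit 4) (nat_lit 2) (nat_lit 4) (nat_lit 413) (nat_lit 197) (nat_lit 170))) (XT.nd (nat_lit 38298) (nat_lit 0) (nat_lit 380) (XT.lf (nat_lit 0) (nat_lit 11749737189) (nat_lit 152) (nat_lit 85766879168) (nat_lit 0) (nat_lit 8620028821) (nat_lit 2) (nat_lit 5) (nat_lit 4) (nat_lit 4) (nat_lit 2) (nat_lit 4) (nat_lit 414) (nat_lit 197) (nat_lit 169)) (XT.lf (nat_lit 0) (nat_lit 11051525112) (nat_lit 76) (nat_lit 5886351758) (nat_lit 76) (nat_lit 5886351758) (nat_lit 7) (nat_lit 4) (nat_lit 8) (nat_lit 5) (nat_lit 8) (nat_lit 4) (nat_lit 384) (nat_lit 198) (nat_lit 198)))) (XT.nd (nat_lit 156) (nat_lit 152) (nat_lit 0) (XT.nd (nat_lit 78) (nat_lit 0) (nat_lit 0) (XT.lf (nat_lit 0) (nat_lit 29991749951) (nat_lit 76) (nat_lit 8543810686) (nat_lit 76)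 (nat_lit 8366860757) (nat_lit 7) (nat_lit 4) (nat_lit 8) (nat_lit 5) (nat_lit 8) (nat_lit 4) (nat_lit 385) (nat_lit 198) (nat_lit 197)) (XT.lf (nat_lit 0) (nat_lit 37977495357) (nat_lit 76) (nat_lit 5283743299) (nat_lit 76) (nat_lit 4934997323) (nat_lit 7) (nat_lit 4) (nat_lit 8) (nat_lit 5) (nat_lit 8) (nat_lit 4) (nat_lit 386) (nat_lit 198) (nat_lit 196))) (XT.nd (nat_lit 78) (nat_lit 152) (nat_lit 0) (XT.lf (nat_lit 0) (nat_lit 46067264279) (nat_lit 76) (nat_lit 1989652752) (nat_lit 76) (nat_lit 1474114498) (nat_lit 7) (nat_lit 4) (nat_lit 8) (nat_lit 5) (nat_lit 8) (nat_lit 4) (nat_lit 387) (nat_lit 198) (nat_lit 195)) (XT.lf (nat_lit 0) (nat_lit 2025580096) (nat_lit 152) (nat_lit 47512587416) (nat_lit 0) (nat_lit 1367839800) (nat_lit 5) (nat_lit 5) (nat_lit 7) (nat_lit 4) (nat_lit 5) (nat_lit 4) (nat_lit 388) (nat_lit 198) (nat_lit 194))))))))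
noncomputable def xc4 : XT := (XT.nd (nat_lit 40248) (nat_lit 0) (nat_lit 0) (XT.nd (nat_lit 1092) (nat_lit 152) (nat_lit 0) (XT.nd (nat_lit 546) (nat_lit 76) (nat_lit 0) (XT.nd (nat_lit 234) (nat_lit 0) (nat_lit 0) (XT.nd (nat_lit 78) (nat_lit 0) (nat_lit 0) (XT.lf (nat_lit 0) (nat_lit 5585464945) (nat_lit 152) (nat_lit 41961710941) (nat_lit 0) (nat_lit 4775086086) (nat_lit 5) (nat_lit 5) (nat_lit 7) (nat_lit 4) (nat_lit 5) (nat_lit 4) (nat_lit 389) (nat_lit 198) (nat_lit 193)) (XT.nd (nat_lit 78) (nat_lit 0) (nat_lit 0) (XT.lf (nat_lit 0) (nat_lit 9183995424) (nat_lit 152) (nat_lit 36373641519) (nat_lit 0) (nat_lit 8225423786) (nat_lit 5) (nat_lit 5) (nat_lit 7) (nat_lit 4) (nat_lit 5) (nat_lit 4) (nat_lit 390) (nat_lit 198) (nat_lit 192)) (XT.lf (nat_lit 0) (nat_lit 12824315881) (nat_lit 152) (nat_lit 30743496369) (nat_lit 0) (nat_lit 11721867758) (nat_lit 5) (nat_lit 5) (nat_lit 7) (nat_lit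 4) (nat_lit 5) (nat_lit 4) (nat_lit 391) (nat_lit 198) (nat_lit 191)))) (XT.nd (nat_lit 156) (nat_lit 0) (nat_lit 0) (XT.nd (nat_lit 78) (nat_lit 0) (nat_lit 0) (XT.lf (nat_lit 0) (nat_lit 16509607179) (nat_lit 152) (nat_lit 25066355949) (nat_lit 0) (nat_lit 15267473149) (nat_lit 5) (nat_lit 5) (nat_lit 7) (nat_lit 4) (nat_lit 5) (nat_lit 4) (nat_lit 392) (nat_lit 198) (nat_lit 190)) (XT.lf (nat_lit 0) (nat_lit 20243089475) (nat_lit 152) (nat_lit 19337259650) (nat_lit 0) (nat_lit 18865338059) (nat_lit 5) (nat_lit 5) (nat_lit 7) (nat_lit 4) (nat_lit 5) (nat_lit 4) (nat_lit 393) (nat_lit 198) (nat_lit 189))) (XT.nd (nat_lit 78) (nat_lit 0) (nat_lit 0) (XT.lf (nat_lit 0) (nat_lit 24028025035) (nat_lit 152) (nat_lit 13551201466) (nat_lit 0) (nat_lit 22518606254) (nat_lit 5) (nat_lit 5) (nat_lit 7) (nat_lit 4) (nat_lit 5) (nat_lit 4) (nat_lit 394) (nat_lit 198) (nat_lit 188)) (XT.lf (nat_lit 0) (nat_lit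 27867721084) (nat_lit 152) (nat_lit 7703125616) (nat_lit 0) (nat_lit 26230469910) (nat_lit 5) (nat_lit 5) (nat_lit 7) (nat_lit 4) (nat_lit 5) (nat_lit 4) (nat_lit 395) (nat_lit 198) (nat_lit 187))))) (XT.nd (nat_lit 234) (nat_lit 0) (nat_lit 0) (XT.nd (nat_lit 78) (nat_lit 76) (nat_lit 0) (XT.lf (nat_lit 0) (nat_lit 31765532697) (nat_lit 152) (nat_lit 1787922134) (nat_lit 0) (nat_lit 30004172403) (nat_lit 5) (nat_lit 5) (nat_lit 7) (nat_lit 4) (nat_lit 5) (nat_lit 4) (nat_lit 396) (nat_lit 198) (nat_lit 186)) (XT.nd (nat_lit 78) (nat_lit 0) (nat_lit 0) (XT.lf (nat_lit 0) (nat_lit 4283157435) (nat_lit 76) (nat_lit 31482880622) (nat_lit 76) (nat_lit 29601026037) (nat_lit 4) (nat_lit 4) (nat_lit 5) (nat_lit 5) (nat_lit 5) (nat_lit 4) (nat_lit 397) (nat_lit 198) (nat_lit 185)) (XT.lf (nat_lit 0) (nat_lit 10468891175) (nat_lit 76) (nat_lit 29380921999) (nat_lit 76) (nat_lit 27382082666) (nat_lit 4) (nat_lit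 4) (nat_lit 5) (nat_lit 5) (nat_lit 5) (nat_lit 4) (nat_lit 398) (nat_lit 198) (nat_lit 184)))) (XT.nd (nat_lit 156) (nat_lit 0) (nat_lit 0) (XT.nd (nat_lit 78) (nat_lit 0) (nat_lit 0) (XT.lf (nat_lit 0) (nat_lit 16739100940) (nat_lit 76) (nat_lit 27263796808) (nat_lit 76) (nat_lit 25151380049) (nat_lit 4) (nat_lit 4) (nat_lit 5) (nat_lit 5) (nat_lit 5) (nat_lit 4) (nat_lit 399) (nat_lit 198) (nat_lit 183)) (XT.lf (nat_lit 0) (nat_lit 23099265552) (nat_lit 76) (nat_lit 25129655134) (nat_lit 76) (nat_lit 22906969029) (nat_lit 4) (nat_lit 4) (nat_lit 5) (nat_lit 5) (nat_lit 5) (nat_lit 4) (nat_lit 400) (nat_lit 198) (nat_lit 182))) (XT.nd (nat_lit 78) (nat_lit 0) (nat_lit 0) (XT.lf (nat_lit 0) (nat_lit 29554942439) (nat_lit 76) (nat_lit 22976632191) (nat_lit 76) (nat_lit 20646888470) (nat_lit 4) (nat_lit 4) (nat_lit 5) (nat_lit 5) (nat_lit 5) (nat_lit 4) (nat_lit 401) (nat_lit 198) (nat_lit 181))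 (XT.lf (nat_lit 0) (nat_lit 36111772482) (nat_lit 76) (nat_lit 20802846699) (nat_lit 76) (nat_lit 18369163544) (nat_lit 4) (nat_lit 4) (nat_lit 5) (nat_lit 5) (nat_lit 5) (nat_lit 4) (nat_lit 402) (nat_lit 198) (nat_lit 180)))))) (XT.nd (nat_lit 546) (nat_lit 152) (nat_lit 0) (XT.nd (nat_lit 234) (nat_lit 0) (nat_lit 0) (XT.nd (nat_lit 78) (nat_lit 0) (nat_lit 0) (XT.lf (nat_lit 0) (nat_lit 42775484951) (nat_lit 76) (nat_lit 18606399233) (nat_lit 76) (nat_lit 16071804006) (nat_lit 4) (nat_lit 4) (nat_lit 5) (nat_lit 5) (nat_lit 5) (nat_lit 4) (nat_lit 403) (nat_lit 198) (nat_lit 179)) (XT.nd (nat_lit 78) (nat_lit 0) (nat_lit 0) (XT.lf (nat_lit 0) (nat_lit 49551902506) (nat_lit 76) (nat_lit 16385370566) (nat_lit 76) (nat_lit 13752802455) (nat_lit 4) (nat_lit 4) (nat_lit 5) (nat_lit 5) (nat_lit 5) (nat_lit 4) (nat_lit 404) (nat_lit 198) (nat_lit 178)) (XT.lf (nat_lit 0) (nat_lit 56446946290) (nat_lit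 76) (nat_lit 14137819995) (nat_lit 76) (nat_lit 11410132578) (nat_lit 4) (nat_lit 4) (nat_lit 5) (nat_lit 5) (nat_lit 5) (nat_lit 4) (nat_lit 405) (nat_lit 198) (nat_lit 177)))) (XT.nd (nat_lit 156) (nat_lit 0) (nat_lit 0) (XT.nd (nat_lit 78) (nat_lit 0) (nat_lit 0) (XT.lf (nat_lit 0) (nat_lit 63466641098) (nat_lit 76) (nat_lit 11861783641) (nat_lit 76) (nat_lit 9041747382) (nat_lit 4) (nat_lit 4) (nat_lit 5) (nat_lit 5) (nat_lit 5) (nat_lit 4) (nat_lit 406) (nat_lit 198) (nat_lit 176)) (XT.lf (nat_lit 0) (nat_lit 70617120643) (nat_lit 76) (nat_lit 9555272732) (nat_lit 76) (nat_lit 6645577405) (nat_lit 4) (nat_lit 4) (nat_lit 5) (nat_lit 5) (nat_lit 5) (nat_lit 4) (nat_lit 407) (nat_lit 198) (nat_lit 175))) (XT.nd (nat_lit 78) (nat_lit 0) (nat_lit 0) (XT.lf (nat_lit 0) (nat_lit 77904632919) (nat_lit 76) (nat_lit 7216271873) (nat_lit 76) (nat_lit 4219528906) (nat_lit 4) (nat_lit 4) (nat_lit 5) (nat_lit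 5) (nat_lit 5) (nat_lit 4) (nat_lit 408) (nat_lit 198) (nat_lit 174)) (XT.lf (nat_lit 0) (nat_lit 85335545653) (nat_lit 76) (nat_lit 4842737275) (nat_lit 76) (nat_lit 1761482037) (nat_lit 4) (nat_lit 4) (nat_lit 5) (nat_lit 5) (nat_lit 5) (nat_lit 4) (nat_lit 409) (nat_lit 198) (nat_lit 173))))) (XT.nd (nat_lit 234) (nat_lit 0) (nat_lit 0) (XT.nd (nat_lit 78) (nat_lit 76) (nat_lit 0) (XT.lf (nat_lit 0) (nat_lit 716452206) (nat_lit 152) (nat_lit 1708908007) (nat_lit 76) (nat_lit 92192664907) (nat_lit 3) (nat_lit 5) (nat_lit 5) (nat_lit 5) (nat_lit 4) (nat_lit 4) (nat_lit 410) (nat_lit 198) (nat_lit 172)) (XT.nd (nat_lit 78) (nat_lit 0) (nat_lit 0) (XT.lf (nat_lit 0) (nat_lit 3228215498) (nat_lit 152) (nat_lit 94068349808) (nat_lit 0) (nat_lit 79703937) (nat_lit 2) (nat_lit 5) (nat_lit 4) (nat_lit 4) (nat_lit 2) (nat_lit 4) (nat_lit 411) (nat_lit 198) (nat_lit 171)) (XT.lf (nat_lit 0) (nat_lit 5819172716)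 (nat_lit 152) (nat_lit 91802405690) (nat_lit 0) (nat_lit 2595573097) (nat_lit 2) (nat_lit 5) (nat_lit 4) (nat_lit 4) (nat_lit 2) (nat_lit 4) (nat_lit 412) (nat_lit 198) (nat_lit 170)))) (XT.nd (nat_lit 38220) (nat_lit 0) (nat_lit 380) (XT.nd (nat_lit 78) (nat_lit 0) (nat_lit 0) (XT.lf (nat_lit 0) (nat_lit 8451353877) (nat_lit 152) (nat_lit 89538154136) (nat_lit 0) (nat_lit 5154853230) (nat_lit 2) (nat_lit 5) (nat_lit 4) (nat_lit 4) (nat_lit 2) (nat_lit 4) (nat_lit 413) (nat_lit 198) (nat_lit 169)) (XT.lf (nat_lit 0) (nat_lit 11127058944) (nat_lit 152) (nat_lit 87273616675) (nat_lit 0) (nat_lit 7759780601) (nat_lit 2) (nat_lit 5) (nat_lit 4) (nat_lit 4) (nat_lit 2) (nat_lit 4) (nat_lit 414) (nat_lit 198) (nat_lit 168))) (XT.nd (nat_lit 78) (nat_lit 0) (nat_lit 0) (XT.lf (nat_lit 0) (nat_lit 3331129452) (nat_lit 76) (nat_lit 9148076569) (nat_lit 76) (nat_lit 9148076569) (nat_lit 7) (nat_lit 4) (nat_lit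 8) (nat_lit 5) (nat_lit 8) (nat_lit 4) (nat_lit 382) (nat_lit 199) (nat_lit 199)) (XT.lf (nat_lit 0) (nat_lit 14304503138) (nat_lit 76) (nat_lit 15155501578) (nat_lit 76) (nat_lit 14973243152) (nat_lit 7) (nat_lit 4) (nat_lit 8) (nat_lit 5) (nat_lit 8) (nat_lit 4) (nat_lit 383) (nat_lit 199) (nat_lit 198))))))) (XT.nd (nat_lit 1092) (nat_lit 152) (nat_lit 0) (XT.nd (nat_lit 546) (nat_lit 76) (nat_lit 0) (XT.nd (nat_lit 234) (nat_lit 152) (nat_lit 0) (XT.nd (nat_lit 78) (nat_lit 0) (nat_lit 0) (XT.lf (nat_lit 0) (nat_lit 22032210928) (nat_lit 76) (nat_lit 11988293467) (nat_lit 76) (nat_lit 11629085112) (nat_lit 7) (nat_lit 4) (nat_lit 8) (nat_lit 5) (nat_lit 8) (nat_lit 4) (nat_lit 384) (nat_lit 199) (nat_lit 197)) (XT.nd (nat_lit 78) (nat_lit 0) (nat_lit 0) (XT.lf (nat_lit 0) (nat_lit 29852134639) (nat_lit 76) (nat_lit 8791761340) (nat_lit 76) (nat_lit 8260756938) (nat_lit 7) (nat_lit 4) (nat_lit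 8) (nat_lit 5) (nat_lit 8) (nat_lit 4) (nat_lit 385) (nat_lit 199) (nat_lit 196)) (XT.lf (nat_lit 0) (nat_lit 37771107214) (nat_lit 76) (nat_lit 5563112112) (nat_lit 76) (nat_lit 4865315431) (nat_lit 7) (nat_lit 4) (nat_lit 8) (nat_lit 5) (nat_lit 8) (nat_lit 4) (nat_lit 386) (nat_lit 199) (nat_lit 195)))) (XT.nd (nat_lit 156) (nat_lit 0) (nat_lit 0) (XT.nd (nat_lit 78) (nat_lit 152) (nat_lit 0) (XT.lf (nat_lit 0) (nat_lit 45796048145) (nat_lit 76) (nat_lit 2299524632) (nat_lit 76) (nat_lit 1439793701) (nat_lit 7) (nat_lit 4) (nat_lit 8) (nat_lit 5) (nat_lit 8) (nat_lit 4) (nat_lit 387) (nat_lit 199) (nat_lit 194)) (XT.lf (nat_lit 0) (nat_lit 2018945229) (nat_lit 152) (nat_lit 47860985324) (nat_lit 0) (nat_lit 1031616442) (nat_lit 5) (nat_lit 5) (nat_lit 7) (nat_lit 4) (nat_lit 5) (nat_lit 4) (nat_lit 388) (nat_lit 199) (nat_lit 193))) (XT.nd (nat_lit 78) (nat_lit 0) (nat_lit 0) (XT.lf (nat_lit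 0) (nat_lit 5545258199) (nat_lit 152) (nat_lit 42373819857) (nat_lit 0) (nat_lit 4409736632) (nat_lit 5) (nat_lit 5) (nat_lit 7) (nat_lit 4) (nat_lit 5) (nat_lit 4) (nat_lit 389) (nat_lit 199) (nat_lit 192)) (XT.lf (nat_lit 0) (nat_lit 9111194621) (nat_lit 152) (nat_lit 36847605782) (nat_lit 0) (nat_lit 7831796569) (nat_lit 5) (nat_lit 5) (nat_lit 7) (nat_lit 4) (nat_lit 5) (nat_lit 4) (nat_lit 390) (nat_lit 199) (nat_lit 191))))) (XT.nd (nat_lit 234) (nat_lit 76) (nat_lit 0) (XT.nd (nat_lit 78) (nat_lit 0) (nat_lit 0) (XT.lf (nat_lit 0) (nat_lit 12719870362) (nat_lit 152) (nat_lit 31277514369) (nat_lit 0) (nat_lit 11300786403) (nat_lit 5) (nat_lit 5) (nat_lit 7) (nat_lit 4) (nat_lit 5) (nat_lit 4) (nat_lit 391) (nat_lit 199) (nat_lit 190)) (XT.nd (nat_lit 78) (nat_lit 0) (nat_lit 0) (XT.lf (nat_lit 0) (nat_lit 16374438635) (nat_lit 152) (nat_lit 25658678546) (nat_lit 0) (nat_lit 14819737290) (nat_lit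 5) (nat_lit 5) (nat_lit 7) (nat_lit 4) (nat_lit 5) (nat_lit 4) (nat_lit 392) (nat_lit 199) (nat_lit 189)) (XT.lf (nat_lit 0) (nat_lit 20078092751) (nat_lit 152) (nat_lit 19986188653) (nat_lit 0) (nat_lit 18391724041) (nat_lit 5) (nat_lit 5) (nat_lit 7) (nat_lit 4) (nat_lit 5) (nat_lit 4) (nat_lit 393) (nat_lit 199) (nat_lit 188)))) (XT.nd (nat_lit 156) (nat_lit 76) (nat_lit 0) (XT.nd (nat_lit 78) (nat_lit 0) (nat_lit 0) (XT.lf (nat_lit 0) (nat_lit 23834068913) (nat_lit 152) (nat_lit 14255088144) (nat_lit 0) (nat_lit 22019867810) (nat_lit 5) (nat_lit 5) (nat_lit 7) (nat_lit 4) (nat_lit 5) (nat_lit 4) (nat_lit 394) (nat_lit 199) (nat_lit 187)) (XT.lf (nat_lit 0) (nat_lit 27645649042) (nat_lit 152) (nat_lit 8460369261) (nat_lit 0) (nat_lit 25707338820) (nat_lit 5) (nat_lit 5) (nat_lit 7) (nat_lit 4) (nat_lit 5) (nat_lit 4) (nat_lit 395) (nat_lit 199) (nat_lit 186))) (XT.nd (nat_lit 78) (nat_lit 76)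 (nat_lit 0) (XT.lf (nat_lit 0) (nat_lit 31516163645) (nat_lit 152) (nat_lit 2596968658) (nat_lit 0) (nat_lit 29457359132) (nat_lit 5) (nat_lit 5) (nat_lit 7) (nat_lit 4) (nat_lit 5) (nat_lit 4) (nat_lit 396) (nat_lit 199) (nat_lit 185)) (XT.lf (nat_lit 0) (nat_lit 3406714290) (nat_lit 76) (nat_lit 32075027857) (nat_lit 76) (nat_lit 29899238595) (nat_lit 4) (nat_lit 4) (nat_lit 5) (nat_lit 5) (nat_lit 5) (nat_lit 4) (nat_lit 397) (nat_lit 199) (nat_lit 184)))))) (XT.nd (nat_lit 546) (nat_lit 152) (nat_lit 0) (XT.nd (nat_lit 234) (nat_lit 0) (nat_lit 0) (XT.nd (nat_lit 78) (nat_lit 0) (nat_lit 0) (XT.lf (nat_lit 0) (nat_lit 9542647051) (nat_lit 76) (nat_lit 29996661446) (nat_lit 76) (nat_lit 27707294758) (nat_lit 4) (nat_lit 4) (nat_lit 5) (nat_lit 5) (nat_lit 5) (nat_lit 4) (nat_lit 398) (nat_lit 199) (nat_lit 183)) (XT.nd (nat_lit 78) (nat_lit 0) (nat_lit 0) (XT.lf (nat_lit 0) (nat_lit 15764506350)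 (nat_lit 76) (nat_lit 27902441315) (nat_lit 76) (nat_lit 25502805282) (nat_lit 4) (nat_lit 4) (nat_lit 5) (nat_lit 5) (nat_lit 5) (nat_lit 4) (nat_lit 399) (nat_lit 199) (nat_lit 182)) (XT.lf (nat_lit 0) (nat_lit 22077728763) (nat_lit 76) (nat_lit 25790537563) (nat_lit 76) (nat_lit 23283843913) (nat_lit 4) (nat_lit 4) (nat_lit 5) (nat_lit 5) (nat_lit 5) (nat_lit 4) (nat_lit 400) (nat_lit 199) (nat_lit 181)))) (XT.nd (nat_lit 156) (nat_lit 0) (nat_lit 0) (XT.nd (nat_lit 78) (nat_lit 0) (nat_lit 0) (XT.lf (nat_lit 0) (nat_lit 28487830699) (nat_lit 76) (nat_lit 23659104836) (nat_lit 76) (nat_lit 21048471753) (nat_lit 4) (nat_lit 4) (nat_lit 5) (nat_lit 5) (nat_lit 5) (nat_lit 4) (nat_lit 401) (nat_lit 199) (nat_lit 180)) (XT.lf (nat_lit 0) (nat_lit 35000413217) (nat_lit 76) (nat_lit 21506280719) (nat_lit 76) (nat_lit 18794735564) (nat_lit 4) (nat_lit 4) (nat_lit 5) (nat_lit 5) (nat_lit 5) (nat_lit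 4) (nat_lit 402) (nat_lit 199) (nat_lit 179))) (XT.nd (nat_lit 78) (nat_lit 0) (nat_lit 0) (XT.lf (nat_lit 0) (nat_lit 41621166923) (nat_lit 76) (nat_lit 19330184102) (nat_lit 76) (nat_lit 16520666061) (nat_lit 4) (nat_lit 4) (nat_lit 5) (nat_lit 5) (nat_lit 5) (nat_lit 4) (nat_lit 403) (nat_lit 199) (nat_lit 178)) (XT.lf (nat_lit 0) (nat_lit 48355876943) (nat_lit 76) (nat_lit 17128913541) (nat_lit 76) (nat_lit 14224276195) (nat_lit 4) (nat_lit 4) (nat_lit 5) (nat_lit 5) (nat_lit 5) (nat_lit 4) (nat_lit 404) (nat_lit 199) (nat_lit 177))))) (XT.nd (nat_lit 312) (nat_lit 152) (nat_lit 0) (XT.nd (nat_lit 156) (nat_lit 0) (nat_lit 0) (XT.nd (nat_lit 78) (nat_lit 0) (nat_lit 0) (XT.lf (nat_lit 0) (nat_lit 55210427973) (nat_lit 76) (nat_lit 14900545598) (nat_lit 76) (nat_lit 11903559411) (nat_lit 4) (nat_lit 4) (nat_lit 5) (nat_lit 5) (nat_lit 5) (nat_lit 4) (nat_lit 405) (nat_lit 199) (nat_lit 176))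 (XT.lf (nat_lit 0) (nat_lit 62190809428) (nat_lit 76) (nat_lit 12643133153) (nat_lit 76) (nat_lit 9556487897) (nat_lit 4) (nat_lit 4) (nat_lit 5) (nat_lit 5) (nat_lit 5) (nat_lit 4) (nat_lit 406) (nat_lit 199) (nat_lit 175))) (XT.nd (nat_lit 78) (nat_lit 0) (nat_lit 0) (XT.lf (nat_lit 0) (nat_lit 69303120670) (nat_lit 76) (nat_lit 10354703710) (nat_lit 76) (nat_lit 7181010816) (nat_lit 4) (nat_lit 4) (nat_lit 5) (nat_lit 5) (nat_lit 5) (nat_lit 4) (nat_lit 407) (nat_lit 199) (nat_lit 174)) (XT.lf (nat_lit 0) (nat_lit 76553576339) (nat_lit 76) (nat_lit 8033257672) (nat_lit 76) (nat_lit 4775052506) (nat_lit 4) (nat_lit 4) (nat_lit 5) (nat_lit 5) (nat_lit 5) (nat_lit 4) (nat_lit 408) (nat_lit 199) (nat_lit 173)))) (XT.nd (nat_lit 156) (nat_lit 76) (nat_lit 0) (XT.nd (nat_lit 78) (nat_lit 76) (nat_lit 0) (XT.lf (nat_lit 0) (nat_lit 83948511787) (nat_lit 76) (nat_lit 5676766590) (nat_lit 76) (nat_lit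 2336510675) (nat_lit 4) (nat_lit 4) (nat_lit 5) (nat_lit 5) (nat_lit 5) (nat_lit 4) (nat_lit 409) (nat_lit 199) (nat_lit 172)) (XT.lf (nat_lit 0) (nat_lit 134077045) (nat_lit 152) (nat_lit 3147740433) (nat_lit 76) (nat_lit 91358957644) (nat_lit 3) (nat_lit 5) (nat_lit 5) (nat_lit 5) (nat_lit 4) (nat_lit 4) (nat_lit 410) (nat_lit 199) (nat_lit 171))) (XT.nd (nat_lit 78) (nat_lit 0) (nat_lit 0) (XT.lf (nat_lit 0) (nat_lit 1806300374) (nat_lit 76) (nat_lit 806289729) (nat_lit 152) (nat_lit 94787429627) (nat_lit 2) (nat_lit 5) (nat_lit 3) (nat_lit 5) (nat_lit 4) (nat_lit 4) (nat_lit 411) (nat_lit 199) (nat_lit 170)) (XT.lf (nat_lit 0) (nat_lit 5177814124) (nat_lit 152) (nat_lit 93354345323) (nat_lit 0) (nat_lit 1709517431) (nat_lit 2) (nat_lit 5) (nat_lit 4) (nat_lit 4) (nat_lit 2) (nat_lit 4) (nat_lit 412) (nat_lit 199) (nat_lit 169))))))))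
noncomputable def xc5 : XT := (XT.nd (nat_lit 40092) (nat_lit 0) (nat_lit 0) (XT.nd (nat_lit 39000) (nat_lit 0) (nat_lit 152) (XT.nd (nat_lit 38454) (nat_lit 0) (nat_lit 228) (XT.nd (nat_lit 38142) (nat_lit 0) (nat_lit 380) (XT.nd (nat_lit 78) (nat_lit 0) (nat_lit 0) (XT.lf (nat_lit 0) (nat_lit 7792536404) (nat_lit 152) (nat_lit 91123414774) (nat_lit 0) (nat_lit 4253462014) (nat_lit 2) (nat_lit 5) (nat_lit 4) (nat_lit 4) (nat_lit 2) (nat_lit 4) (nat_lit 413) (nat_lit 199) (nat_lit 168)) (XT.nd (nat_lit 37986) (nat_lit 0) (nat_lit 456) (XT.lf (nat_lit 0) (nat_lit 10451291102) (nat_lit 152) (nat_lit 88891227803) (nat_lit 0) (nat_lit 6843500501) (nat_lit 2) (nat_lit 5) (nat_lit 4) (nat_lit 4) (nat_lit 2) (nat_lit 4) (nat_lit 414) (nat_lit 199) (nat_lit 167)) (XT.lf (nat_lit 0) (nat_lit 8211865715) (nat_lit 152) (nat_lit 4077513192) (nat_lit 0) (nat_lit 8211865715) (nat_lit 8) (nat_lit 5) (nat_lit 10)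 (nat_lit 4) (nat_lit 8) (nat_lit 4) (nat_lit 380) (nat_lit 200) (nat_lit 200)))) (XT.nd (nat_lit 156) (nat_lit 0) (nat_lit 0) (XT.nd (nat_lit 78) (nat_lit 76) (nat_lit 0) (XT.lf (nat_lit 0) (nat_lit 20708182001) (nat_lit 152) (nat_lit 883613815) (nat_lit 0) (nat_lit 20520455822) (nat_lit 8) (nat_lit 5) (nat_lit 10) (nat_lit 4) (nat_lit 8) (nat_lit 4) (nat_lit 381) (nat_lit 200) (nat_lit 199)) (XT.lf (nat_lit 0) (nat_lit 6589294429) (nat_lit 76) (nat_lit 18518210787) (nat_lit 76) (nat_lit 18148226182) (nat_lit 7) (nat_lit 4) (nat_lit 8) (nat_lit 5) (nat_lit 8) (nat_lit 4) (nat_lit 382) (nat_lit 200) (nat_lit 198))) (XT.nd (nat_lit 78) (nat_lit 0) (nat_lit 0) (XT.lf (nat_lit 0) (nat_lit 14160699367) (nat_lit 76) (nat_lit 15410890752) (nat_lit 76) (nat_lit 14863956218) (nat_lit 7) (nat_lit 4) (nat_lit 8) (nat_lit 5) (nat_lit 8) (nat_lit 4) (nat_lit 383) (nat_lit 200) (nat_lit 197)) (XT.lf (nat_lit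 0) (nat_lit 21819631140) (nat_lit 76) (nat_lit 12276043344) (nat_lit 76) (nat_lit 11557312763) (nat_lit 7) (nat_lit 4) (nat_lit 8) (nat_lit 5) (nat_lit 8) (nat_lit 4) (nat_lit 384) (nat_lit 200) (nat_lit 196))))) (XT.nd (nat_lit 234) (nat_lit 152) (nat_lit 0) (XT.nd (nat_lit 78) (nat_lit 0) (nat_lit 0) (XT.lf (nat_lit 0) (nat_lit 29572782021) (nat_lit 76) (nat_lit 9110929376) (nat_lit 76) (nat_lit 8225406517) (nat_lit 7) (nat_lit 4) (nat_lit 8) (nat_lit 5) (nat_lit 8) (nat_lit 4) (nat_lit 385) (nat_lit 200) (nat_lit 195)) (XT.nd (nat_lit 78) (nat_lit 0) (nat_lit 0) (XT.lf (nat_lit 0) (nat_lit 37426926605) (nat_lit 76) (nat_lit 5912783215) (nat_lit 76) (nat_lit 4865326104) (nat_lit 7) (nat_lit 4) (nat_lit 8) (nat_lit 5) (nat_lit 8) (nat_lit 4) (nat_lit 386) (nat_lit 200) (nat_lit 194)) (XT.lf (nat_lit 0) (nat_lit 45388927739) (nat_lit 76) (nat_lit 2678810363) (nat_lit 76) (nat_lit 1474135533) (nat_lit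 7) (nat_lit 4) (nat_lit 8) (nat_lit 5) (nat_lit 8) (nat_lit 4) (nat_lit 387) (nat_lit 200) (nat_lit 193)))) (XT.nd (nat_lit 156) (nat_lit 0) (nat_lit 0) (XT.nd (nat_lit 78) (nat_lit 0) (nat_lit 0) (XT.lf (nat_lit 0) (nat_lit 1943960402) (nat_lit 152) (nat_lit 48349168515) (nat_lit 0) (nat_lit 626180409) (nat_lit 5) (nat_lit 5) (nat_lit 7) (nat_lit 4) (nat_lit 5) (nat_lit 4) (nat_lit 388) (nat_lit 200) (nat_lit 192)) (XT.lf (nat_lit 0) (nat_lit 5437679314) (nat_lit 152) (nat_lit 42923858396) (nat_lit 0) (nat_lit 3976022836) (nat_lit 5) (nat_lit 5) (nat_lit 7) (nat_lit 4) (nat_lit 5) (nat_lit 4) (nat_lit 389) (nat_lit 200) (nat_lit 191))) (XT.nd (nat_lit 78) (nat_lit 0) (nat_lit 0) (XT.lf (nat_lit 0) (nat_lit 8971971020) (nat_lit 152) (nat_lit 37457698057) (nat_lit 0) (nat_lit 7370628635) (nat_lit 5) (nat_lit 5) (nat_lit 7) (nat_lit 4) (nat_lit 5) (nat_lit 4) (nat_lit 390) (nat_lit 200) (nat_lit 190))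 (XT.lf (nat_lit 0) (nat_lit 12549923737) (nat_lit 152) (nat_lit 31945911241) (nat_lit 0) (nat_lit 10812963965) (nat_lit 5) (nat_lit 5) (nat_lit 7) (nat_lit 4) (nat_lit 5) (nat_lit 4) (nat_lit 391) (nat_lit 200) (nat_lit 189)))))) (XT.nd (nat_lit 546) (nat_lit 0) (nat_lit 0) (XT.nd (nat_lit 234) (nat_lit 76) (nat_lit 0) (XT.nd (nat_lit 78) (nat_lit 0) (nat_lit 0) (XT.lf (nat_lit 0) (nat_lit 16174663830) (nat_lit 152) (nat_lit 26383681825) (nat_lit 0) (nat_lit 14306036693) (nat_lit 5) (nat_lit 5) (nat_lit 7) (nat_lit 4) (nat_lit 5) (nat_lit 4) (nat_lit 392) (nat_lit 200) (nat_lit 188)) (XT.nd (nat_lit 78) (nat_lit 0) (nat_lit 0) (XT.lf (nat_lit 0) (nat_lit 19849358548) (nat_lit 152) (nat_lit 20766149607) (nat_lit 0) (nat_lit 17852899019) (nat_lit 5) (nat_lit 5) (nat_lit 7) (nat_lit 4) (nat_lit 5) (nat_lit 4) (nat_lit 393) (nat_lit 200) (nat_lit 187)) (XT.lf (nat_lit 0) (nat_lit 23577218790) (nat_lit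 152) (nat_lit 15088406064) (nat_lit 0) (nat_lit 21456650141) (nat_lit 5) (nat_lit 5) (nat_lit 7) (nat_lit 4) (nat_lit 5) (nat_lit 4) (nat_lit 394) (nat_lit 200) (nat_lit 186)))) (XT.nd (nat_lit 156) (nat_lit 76) (nat_lit 0) (XT.nd (nat_lit 78) (nat_lit 0) (nat_lit 0) (XT.lf (nat_lit 0) (nat_lit 27361501909) (nat_lit 152) (nat_lit 9345490061) (nat_lit 0) (nat_lit 25120438969) (nat_lit 5) (nat_lit 5) (nat_lit 7) (nat_lit 4) (nat_lit 5) (nat_lit 4) (nat_lit 395) (nat_lit 200) (nat_lit 185)) (XT.lf (nat_lit 0) (nat_lit 31205514561) (nat_lit 152) (nat_lit 3532383517) (nat_lit 0) (nat_lit 28847466872) (nat_lit 5) (nat_lit 5) (nat_lit 7) (nat_lit 4) (nat_lit 5) (nat_lit 4) (nat_lit 396) (nat_lit 200) (nat_lit 184))) (XT.nd (nat_lit 78) (nat_lit 0) (nat_lit 0) (XT.lf (nat_lit 0) (nat_lit 2402881862) (nat_lit 76) (nat_lit 32732831698) (nat_lit 76) (nat_lit 30261206584) (nat_lit 4) (nat_lit 4) (nat_lit 5)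 (nat_lit 5) (nat_lit 5) (nat_lit 4) (nat_lit 397) (nat_lit 200) (nat_lit 183)) (XT.lf (nat_lit 0) (nat_lit 8490464158) (nat_lit 76) (nat_lit 30677370348) (nat_lit 76) (nat_lit 28095475889) (nat_lit 4) (nat_lit 4) (nat_lit 5) (nat_lit 5) (nat_lit 5) (nat_lit 4) (nat_lit 398) (nat_lit 200) (nat_lit 182))))) (XT.nd (nat_lit 234) (nat_lit 0) (nat_lit 0) (XT.nd (nat_lit 78) (nat_lit 0) (nat_lit 0) (XT.lf (nat_lit 0) (nat_lit 14665381257) (nat_lit 76) (nat_lit 28605388139) (nat_lit 76) (nat_lit 25916436063) (nat_lit 4) (nat_lit 4) (nat_lit 5) (nat_lit 5) (nat_lit 5) (nat_lit 4) (nat_lit 399) (nat_lit 200) (nat_lit 181)) (XT.nd (nat_lit 78) (nat_lit 0) (nat_lit 0) (XT.lf (nat_lit 0) (nat_lit 20933028720) (nat_lit 76) (nat_lit 26515074603) (nat_lit 76) (nat_lit 23722183093) (nat_lit 4) (nat_lit 4) (nat_lit 5) (nat_lit 5) (nat_lit 5) (nat_lit 4) (nat_lit 400) (nat_lit 200) (nat_lit 180)) (XT.lf (nat_lit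 0) (nat_lit 27298883131) (nat_lit 76) (nat_lit 24404603251) (nat_lit 76) (nat_lit 21510799670) (nat_lit 4) (nat_lit 4) (nat_lit 5) (nat_lit 5) (nat_lit 5) (nat_lit 4) (nat_lit 401) (nat_lit 200) (nat_lit 179)))) (XT.nd (nat_lit 156) (nat_lit 0) (nat_lit 0) (XT.nd (nat_lit 78) (nat_lit 0) (nat_lit 0) (XT.lf (nat_lit 0) (nat_lit 33768506887) (nat_lit 76) (nat_lit 22272129983) (nat_lit 76) (nat_lit 19280353517) (nat_lit 4) (nat_lit 4) (nat_lit 5) (nat_lit 5) (nat_lit 5) (nat_lit 4) (nat_lit 402) (nat_lit 200) (nat_lit 178)) (XT.lf (nat_lit 0) (nat_lit 40347553057) (nat_lit 76) (nat_lit 20115791472) (nat_lit 76) (nat_lit 17028895700) (nat_lit 4) (nat_lit 4) (nat_lit 5) (nat_lit 5) (nat_lit 5) (nat_lit 4) (nat_lit 403) (nat_lit 200) (nat_lit 177))) (XT.nd (nat_lit 78) (nat_lit 0) (nat_lit 0) (XT.lf (nat_lit 0) (nat_lit 47041770323) (nat_lit 76) (nat_lit 17933703539) (nat_lit 76) (nat_lit 14754458926)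 (nat_lit 4) (nat_lit 4) (nat_lit 5) (nat_lit 5) (nat_lit 5) (nat_lit 4) (nat_lit 404) (nat_lit 200) (nat_lit 176)) (XT.lf (nat_lit 0) (nat_lit 53857008000) (nat_lit 76) (nat_lit 15723959505) (nat_lit 76) (nat_lit 12455055823) (nat_lit 4) (nat_lit 4) (nat_lit 5) (nat_lit 5) (nat_lit 5) (nat_lit 4) (nat_lit 405) (nat_lit 200) (nat_lit 175))))))) (XT.nd (nat_lit 38844) (nat_lit 0) (nat_lit 152) (XT.nd (nat_lit 546) (nat_lit 0) (nat_lit 0) (XT.nd (nat_lit 234) (nat_lit 152) (nat_lit 0) (XT.nd (nat_lit 78) (nat_lit 0) (nat_lit 0) (XT.lf (nat_lit 0) (nat_lit 60799221151) (nat_lit 76) (nat_lit 13484628526) (nat_lit 76) (nat_lit 10128677205) (nat_lit 4) (nat_lit 4) (nat_lit 5) (nat_lit 5) (nat_lit 5) (nat_lit 4) (nat_lit 406) (nat_lit 200) (nat_lit 174)) (XT.nd (nat_lit 78) (nat_lit 0) (nat_lit 0) (XT.lf (nat_lit 0) (nat_lit 67874475788) (nat_lit 76) (nat_lit 11213753905) (nat_lit 76) (nat_lit 7773290313)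 (nat_lit 4) (nat_lit 4) (nat_lit 5) (nat_lit 5) (nat_lit 5) (nat_lit 4) (nat_lit 407) (nat_lit 200) (nat_lit 173)) (XT.lf (nat_lit 0) (nat_lit 75088954170) (nat_lit 76) (nat_lit 8909351383) (nat_lit 76) (nat_lit 5386837042) (nat_lit 4) (nat_lit 4) (nat_lit 5) (nat_lit 5) (nat_lit 5) (nat_lit 4) (nat_lit 408) (nat_lit 200) (nat_lit 172)))) (XT.nd (nat_lit 156) (nat_lit 152) (nat_lit 0) (XT.nd (nat_lit 78) (nat_lit 0) (nat_lit 0) (XT.lf (nat_lit 0) (nat_lit 82448960213) (nat_lit 76) (nat_lit 6569407404) (nat_lit 76) (nat_lit 2967232141) (nat_lit 4) (nat_lit 4) (nat_lit 5) (nat_lit 5) (nat_lit 5) (nat_lit 4) (nat_lit 409) (nat_lit 200) (nat_lit 171)) (XT.lf (nat_lit 0) (nat_lit 89960924988) (nat_lit 76) (nat_lit 4191877356) (nat_lit 76) (nat_lit 512361393) (nat_lit 4) (nat_lit 4) (nat_lit 5) (nat_lit 5) (nat_lit 5) (nat_lit 4) (nat_lit 410) (nat_lit 200) (nat_lit 170))) (XT.nd (nat_lit 78) (nat_lit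 0) (nat_lit 0) (XT.lf (nat_lit 0) (nat_lit 189910072) (nat_lit 76) (nat_lit 1753200318) (nat_lit 152) (nat_lit 95482439778) (nat_lit 2) (nat_lit 5) (nat_lit 3) (nat_lit 5) (nat_lit 4) (nat_lit 4) (nat_lit 411) (nat_lit 200) (nat_lit 169)) (XT.lf (nat_lit 0) (nat_lit 4481773246) (nat_lit 152) (nat_lit 95020484784) (nat_lit 0) (nat_lit 765748927) (nat_lit 2) (nat_lit 5) (nat_lit 4) (nat_lit 4) (nat_lit 2) (nat_lit 4) (nat_lit 412) (nat_lit 200) (nat_lit 168))))) (XT.nd (nat_lit 37986) (nat_lit 0) (nat_lit 380) (XT.nd (nat_lit 78) (nat_lit 0) (nat_lit 0) (XT.lf (nat_lit 0) (nat_lit 7079545156) (nat_lit 152) (nat_lit 92821904725) (nat_lit 0) (nat_lit 3294804627) (nat_lit 2) (nat_lit 5) (nat_lit 4) (nat_lit 4) (nat_lit 2) (nat_lit 4) (nat_lit 413) (nat_lit 200) (nat_lit 167)) (XT.nd (nat_lit 37830) (nat_lit 0) (nat_lit 456) (XT.lf (nat_lit 0) (nat_lit 9721843184) (nat_lit 152) (nat_lit 90621125996) (nat_lit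 0) (nat_lit 5870387887) (nat_lit 2) (nat_lit 5) (nat_lit 4) (nat_lit 4) (nat_lit 2) (nat_lit 4) (nat_lit 414) (nat_lit 200) (nat_lit 166)) (XT.lf (nat_lit 0) (nat_lit 4114046924) (nat_lit 152) (nat_lit 11214283046) (nat_lit 0) (nat_lit 4114046924) (nat_lit 8) (nat_lit 5) (nat_lit 10) (nat_lit 4) (nat_lit 8) (nat_lit 4) (nat_lit 378) (nat_lit 201) (nat_lit 201)))) (XT.nd (nat_lit 156) (nat_lit 76) (nat_lit 0) (XT.nd (nat_lit 78) (nat_lit 0) (nat_lit 0) (XT.lf (nat_lit 0) (nat_lit 12380427449) (nat_lit 152) (nat_lit 15359877812) (nat_lit 0) (nat_lit 12187069484) (nat_lit 8) (nat_lit 5) (nat_lit 10) (nat_lit 4) (nat_lit 8) (nat_lit 4) (nat_lit 379) (nat_lit 201) (nat_lit 200)) (XT.lf (nat_lit 0) (nat_lit 16578019821) (nat_lit 152) (nat_lit 8228713281) (nat_lit 0) (nat_lit 16196935678) (nat_lit 8) (nat_lit 5) (nat_lit 10) (nat_lit 4) (nat_lit 8) (nat_lit 4) (nat_lit 380) (nat_lit 201) (nat_lit 199)))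 (XT.nd (nat_lit 78) (nat_lit 76) (nat_lit 0) (XT.lf (nat_lit 0) (nat_lit 20824538765) (nat_lit 152) (nat_lit 1028841386) (nat_lit 0) (nat_lit 20261196196) (nat_lit 8) (nat_lit 5) (nat_lit 10) (nat_lit 4) (nat_lit 8) (nat_lit 4) (nat_lit 381) (nat_lit 201) (nat_lit 198)) (XT.lf (nat_lit 0) (nat_lit 6370337248) (nat_lit 76) (nat_lit 18814593161) (nat_lit 76) (nat_lit 18074300663) (nat_lit 7) (nat_lit 4) (nat_lit 8) (nat_lit 5) (nat_lit 8) (nat_lit 4) (nat_lit 382) (nat_lit 201) (nat_lit 197)))))) (XT.nd (nat_lit 546) (nat_lit 76) (nat_lit 0) (XT.nd (nat_lit 234) (nat_lit 152) (nat_lit 0) (XT.nd (nat_lit 78) (nat_lit 0) (nat_lit 0) (XT.lf (nat_lit 0) (nat_lit 13872966170) (nat_lit 76) (nat_lit 15739633829) (nat_lit 76) (nat_lit 14827545284) (nat_lit 7) (nat_lit 4) (nat_lit 8) (nat_lit 5) (nat_lit 8) (nat_lit 4) (nat_lit 383) (nat_lit 201) (nat_lit 196)) (XT.nd (nat_lit 78) (nat_lit 0) (nat_lit 0) (XT.lf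 (nat_lit 0) (nat_lit 21465125113) (nat_lit 76) (nat_lit 12636204580) (nat_lit 76) (nat_lit 11557323756) (nat_lit 7) (nat_lit 4) (nat_lit 8) (nat_lit 5) (nat_lit 8) (nat_lit 4) (nat_lit 384) (nat_lit 201) (nat_lit 195)) (XT.lf (nat_lit 0) (nat_lit 29153448002) (nat_lit 76) (nat_lit 9501593679) (nat_lit 76) (nat_lit 8260778604) (nat_lit 7) (nat_lit 4) (nat_lit 8) (nat_lit 5) (nat_lit 8) (nat_lit 4) (nat_lit 385) (nat_lit 201) (nat_lit 194)))) (XT.nd (nat_lit 156) (nat_lit 152) (nat_lit 0) (XT.nd (nat_lit 78) (nat_lit 0) (nat_lit 0) (XT.lf (nat_lit 0) (nat_lit 36944652789) (nat_lit 76) (nat_lit 6333062145) (nat_lit 76) (nat_lit 4935029351) (nat_lit 7) (nat_lit 4) (nat_lit 8) (nat_lit 5) (nat_lit 8) (nat_lit 4) (nat_lit 386) (nat_lit 201) (nat_lit 193)) (XT.lf (nat_lit 0) (nat_lit 44845547324) (nat_lit 76) (nat_lit 3127841360) (nat_lit 76) (nat_lit 1577170002) (nat_lit 7) (nat_lit 4) (nat_lit 8) (nat_lit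 5) (nat_lit 8) (nat_lit 4) (nat_lit 387) (nat_lit 201) (nat_lit 192))) (XT.nd (nat_lit 78) (nat_lit 0) (nat_lit 0) (XT.lf (nat_lit 0) (nat_lit 1800560093) (nat_lit 152) (nat_lit 48977563558) (nat_lit 0) (nat_lit 151177436) (nat_lit 5) (nat_lit 5) (nat_lit 7) (nat_lit 4) (nat_lit 5) (nat_lit 4) (nat_lit 388) (nat_lit 201) (nat_lit 191)) (XT.lf (nat_lit 0) (nat_lit 5262634289) (nat_lit 152) (nat_lit 43612307175) (nat_lit 0) (nat_lit 3473565725) (nat_lit 5) (nat_lit 5) (nat_lit 7) (nat_lit 4) (nat_lit 5) (nat_lit 4) (nat_lit 389) (nat_lit 201) (nat_lit 190))))) (XT.nd (nat_lit 312) (nat_lit 76) (nat_lit 0) (XT.nd (nat_lit 156) (nat_lit 0) (nat_lit 0) (XT.nd (nat_lit 78) (nat_lit 0) (nat_lit 0) (XT.lf (nat_lit 0) (nat_lit 8766202971) (nat_lit 152) (nat_lit 38204451434) (nat_lit 0) (nat_lit 6841517020) (nat_lit 5) (nat_lit 5) (nat_lit 7) (nat_lit 4) (nat_lit 5) (nat_lit 4) (nat_lit 390) (nat_lit 201)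 (nat_lit 189)) (XT.lf (nat_lit 0) (nat_lit 12314327507) (nat_lit 152) (nat_lit 32749271024) (nat_lit 0) (nat_lit 10257974192) (nat_lit 5) (nat_lit 5) (nat_lit 7) (nat_lit 4) (nat_lit 5) (nat_lit 4) (nat_lit 391) (nat_lit 201) (nat_lit 188))) (XT.nd (nat_lit 78) (nat_lit 0) (nat_lit 0) (XT.lf (nat_lit 0) (nat_lit 15910108203) (nat_lit 152) (nat_lit 27241999283) (nat_lit 0) (nat_lit 13725922494) (nat_lit 5) (nat_lit 5) (nat_lit 7) (nat_lit 4) (nat_lit 5) (nat_lit 4) (nat_lit 392) (nat_lit 201) (nat_lit 187)) (XT.lf (nat_lit 0) (nat_lit 19556687001) (nat_lit 152) (nat_lit 21677824031) (nat_lit 0) (nat_lit 17248392173) (nat_lit 5) (nat_lit 5) (nat_lit 7) (nat_lit 4) (nat_lit 5) (nat_lit 4) (nat_lit 393) (nat_lit 201) (nat_lit 186)))) (XT.nd (nat_lit 156) (nat_lit 76) (nat_lit 0) (XT.nd (nat_lit 78) (nat_lit 0) (nat_lit 0) (XT.lf (nat_lit 0) (nat_lit 23257250233) (nat_lit 152) (nat_lit 16051883368) (nat_lit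 0) (nat_lit 20828461114) (nat_lit 5) (nat_lit 5) (nat_lit 7) (nat_lit 4) (nat_lit 5) (nat_lit 4) (nat_lit 394) (nat_lit 201) (nat_lit 185)) (XT.lf (nat_lit 0) (nat_lit 27015031401) (nat_lit 152) (nat_lit 10359261424) (nat_lit 0) (nat_lit 24469257533) (nat_lit 5) (nat_lit 5) (nat_lit 7) (nat_lit 4) (nat_lit 5) (nat_lit 4) (nat_lit 395) (nat_lit 201) (nat_lit 184))) (XT.nd (nat_lit 78) (nat_lit 76) (nat_lit 0) (XT.lf (nat_lit 0) (nat_lit 30833314002) (nat_lit 152) (nat_lit 4594984062) (nat_lit 0) (nat_lit 28173962709) (nat_lit 5) (nat_lit 5) (nat_lit 7) (nat_lit 4) (nat_lit 5) (nat_lit 4) (nat_lit 396) (nat_lit 201) (nat_lit 183)) (XT.lf (nat_lit 0) (nat_lit 1270783017) (nat_lit 76) (nat_lit 33456866927) (nat_lit 76) (nat_lit 30687246289) (nat_lit 4) (nat_lit 4) (nat_lit 5) (nat_lit 5) (nat_lit 5) (nat_lit 4) (nat_lit 397) (nat_lit 201) (nat_lit 182))))))))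
noncomputable def xc6 : XT := (XT.nd (nat_lit 39858) (nat_lit 0) (nat_lit 0) (XT.nd (nat_lit 1092) (nat_lit 76) (nat_lit 0) (XT.nd (nat_lit 546) (nat_lit 76) (nat_lit 0) (XT.nd (nat_lit 234) (nat_lit 0) (nat_lit 0) (XT.nd (nat_lit 78) (nat_lit 0) (nat_lit 0) (XT.lf (nat_lit 0) (nat_lit 7311423113) (nat_lit 76) (nat_lit 31423643499) (nat_lit 76) (nat_lit 28546965244) (nat_lit 4) (nat_lit 4) (nat_lit 5) (nat_lit 5) (nat_lit 5) (nat_lit 4) (nat_lit 398) (nat_lit 201) (nat_lit 181)) (XT.nd (nat_lit 78) (nat_lit 0) (nat_lit 0) (XT.lf (nat_lit 0) (nat_lit 13440765262) (nat_lit 76) (nat_lit 29373251507) (nat_lit 76) (nat_lit 26392633818) (nat_lit 4) (nat_lit 4) (nat_lit 5) (nat_lit 5) (nat_lit 5) (nat_lit 4) (nat_lit 399) (nat_lit 201) (nat_lit 180)) (XT.lf (nat_lit 0) (nat_lit 19664165200) (nat_lit 76) (nat_lit 27303899345) (nat_lit 76) (nat_lit 24222369585) (nat_lit 4) (nat_lit 4) (nat_lit 5) (nat_lit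 5) (nat_lit 5) (nat_lit 4) (nat_lit 400) (nat_lit 201) (nat_lit 179)))) (XT.nd (nat_lit 156) (nat_lit 0) (nat_lit 0) (XT.nd (nat_lit 78) (nat_lit 0) (nat_lit 0) (XT.lf (nat_lit 0) (nat_lit 25987060849) (nat_lit 76) (nat_lit 25213778843) (nat_lit 76) (nat_lit 22034276197) (nat_lit 4) (nat_lit 4) (nat_lit 5) (nat_lit 5) (nat_lit 5) (nat_lit 4) (nat_lit 401) (nat_lit 201) (nat_lit 178)) (XT.lf (nat_lit 0) (nat_lit 32414977068) (nat_lit 76) (nat_lit 23101063681) (nat_lit 76) (nat_lit 19826441729) (nat_lit 4) (nat_lit 4) (nat_lit 5) (nat_lit 5) (nat_lit 5) (nat_lit 4) (nat_lit 402) (nat_lit 201) (nat_lit 177))) (XT.nd (nat_lit 78) (nat_lit 0) (nat_lit 0) (XT.lf (nat_lit 0) (nat_lit 38953530485) (nat_lit 76) (nat_lit 20963907797) (nat_lit 76) (nat_lit 17596937005) (nat_lit 4) (nat_lit 4) (nat_lit 5) (nat_lit 5) (nat_lit 5) (nat_lit 4) (nat_lit 403) (nat_lit 201) (nat_lit 176)) (XT.lf (nat_lit 0) (nat_lit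 45608434398) (nat_lit 76) (nat_lit 18800443774) (nat_lit 76) (nat_lit 15343813913) (nat_lit 4) (nat_lit 4) (nat_lit 5) (nat_lit 5) (nat_lit 5) (nat_lit 4) (nat_lit 404) (nat_lit 201) (nat_lit 175))))) (XT.nd (nat_lit 234) (nat_lit 76) (nat_lit 0) (XT.nd (nat_lit 78) (nat_lit 0) (nat_lit 0) (XT.lf (nat_lit 0) (nat_lit 52385503772) (nat_lit 76) (nat_lit 16608781206) (nat_lit 76) (nat_lit 13065103706) (nat_lit 4) (nat_lit 4) (nat_lit 5) (nat_lit 5) (nat_lit 5) (nat_lit 4) (nat_lit 405) (nat_lit 201) (nat_lit 174)) (XT.nd (nat_lit 78) (nat_lit 0) (nat_lit 0) (XT.lf (nat_lit 0) (nat_lit 59290660317) (nat_lit 76) (nat_lit 14387005048) (nat_lit 76) (nat_lit 10758815277) (nat_lit 4) (nat_lit 4) (nat_lit 5) (nat_lit 5) (nat_lit 5) (nat_lit 4) (nat_lit 406) (nat_lit 201) (nat_lit 173)) (XT.lf (nat_lit 0) (nat_lit 66329937666) (nat_lit 76) (nat_lit 12133173943) (nat_lit 76) (nat_lit 8422933423) (nat_lit 4)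 (nat_lit 4) (nat_lit 5) (nat_lit 5) (nat_lit 5) (nat_lit 4) (nat_lit 407) (nat_lit 201) (nat_lit 172)))) (XT.nd (nat_lit 156) (nat_lit 76) (nat_lit 0) (XT.nd (nat_lit 78) (nat_lit 0) (nat_lit 0) (XT.lf (nat_lit 0) (nat_lit 73509486644) (nat_lit 76) (nat_lit 9845318524) (nat_lit 76) (nat_lit 6055417082) (nat_lit 4) (nat_lit 4) (nat_lit 5) (nat_lit 5) (nat_lit 5) (nat_lit 4) (nat_lit 408) (nat_lit 201) (nat_lit 171)) (XT.lf (nat_lit 0) (nat_lit 80835580643) (nat_lit 76) (nat_lit 7521439693) (nat_lit 76) (nat_lit 3654197551) (nat_lit 4) (nat_lit 4) (nat_lit 5) (nat_lit 5) (nat_lit 5) (nat_lit 4) (nat_lit 409) (nat_lit 201) (nat_lit 170))) (XT.nd (nat_lit 78) (nat_lit 76) (nat_lit 0) (XT.lf (nat_lit 0) (nat_lit 88314621104) (nat_lit 76) (nat_lit 5159506876) (nat_lit 76) (nat_lit 1217176676) (nat_lit 4) (nat_lit 4) (nat_lit 5) (nat_lit 5) (nat_lit 5) (nat_lit 4) (nat_lit 410) (nat_lit 201) (nat_lit 169))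 (XT.lf (nat_lit 0) (nat_lit 1233231257) (nat_lit 152) (nat_lit 1511771775) (nat_lit 76) (nat_lit 94707458636) (nat_lit 3) (nat_lit 5) (nat_lit 5) (nat_lit 5) (nat_lit 4) (nat_lit 4) (nat_lit 411) (nat_lit 201) (nat_lit 168)))))) (XT.nd (nat_lit 38220) (nat_lit 0) (nat_lit 380) (XT.nd (nat_lit 37908) (nat_lit 0) (nat_lit 456) (XT.nd (nat_lit 78) (nat_lit 0) (nat_lit 0) (XT.lf (nat_lit 0) (nat_lit 3491496065) (nat_lit 76) (nat_lit 241265013) (nat_lit 152) (nat_lit 96563334096) (nat_lit 2) (nat_lit 5) (nat_lit 3) (nat_lit 5) (nat_lit 4) (nat_lit 4) (nat_lit 412) (nat_lit 201) (nat_lit 167)) (XT.nd (nat_lit 37752) (nat_lit 0) (nat_lit 456) (XT.lf (nat_lit 0) (nat_lit 6311757131) (nat_lit 152) (nat_lit 94635108106) (nat_lit 0) (nat_lit 2278043408) (nat_lit 2) (nat_lit 5) (nat_lit 4) (nat_lit 4) (nat_lit 2) (nat_lit 4) (nat_lit 413) (nat_lit 201) (nat_lit 166)) (XT.lf (nat_lit 0) (nat_lit 142666971) (nat_lit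 152) (nat_lit 18162498188) (nat_lit 0) (nat_lit 142666971) (nat_lit 8) (nat_lit 5) (nat_lit 10) (nat_lit 4) (nat_lit 8) (nat_lit 4) (nat_lit 376) (nat_lit 202) (nat_lit 202)))) (XT.nd (nat_lit 156) (nat_lit 0) (nat_lit 0) (XT.nd (nat_lit 78) (nat_lit 0) (nat_lit 0) (XT.lf (nat_lit 0) (nat_lit 4316549469) (nat_lit 152) (nat_lit 29440954646) (nat_lit 0) (nat_lit 4117390766) (nat_lit 8) (nat_lit 5) (nat_lit 10) (nat_lit 4) (nat_lit 8) (nat_lit 4) (nat_lit 377) (nat_lit 202) (nat_lit 201)) (XT.lf (nat_lit 0) (nat_lit 8387010889) (nat_lit 152) (nat_lit 22504463595) (nat_lit 0) (nat_lit 7994494222) (nat_lit 8) (nat_lit 5) (nat_lit 10) (nat_lit 4) (nat_lit 8) (nat_lit 4) (nat_lit 378) (nat_lit 202) (nat_lit 200))) (XT.nd (nat_lit 78) (nat_lit 0) (nat_lit 0) (XT.lf (nat_lit 0) (nat_lit 12500274916) (nat_lit 152) (nat_lit 15509462210) (nat_lit 0) (nat_lit 11920032069) (nat_lit 8) (nat_lit 5) (nat_lit 10)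 (nat_lit 4) (nat_lit 8) (nat_lit 4) (nat_lit 379) (nat_lit 202) (nat_lit 199)) (XT.lf (nat_lit 0) (nat_lit 16659935663) (nat_lit 152) (nat_lit 8449838355) (nat_lit 0) (nat_lit 15897434390) (nat_lit 8) (nat_lit 5) (nat_lit 10) (nat_lit 4) (nat_lit 8) (nat_lit 4) (nat_lit 380) (nat_lit 202) (nat_lit 198))))) (XT.nd (nat_lit 234) (nat_lit 0) (nat_lit 0) (XT.nd (nat_lit 78) (nat_lit 76) (nat_lit 0) (XT.lf (nat_lit 0) (nat_lit 20869627786) (nat_lit 152) (nat_lit 1319423426) (nat_lit 0) (nat_lit 19930176584) (nat_lit 8) (nat_lit 5) (nat_lit 10) (nat_lit 4) (nat_lit 8) (nat_lit 4) (nat_lit 381) (nat_lit 202) (nat_lit 197)) (XT.nd (nat_lit 78) (nat_lit 0) (nat_lit 0) (XT.lf (nat_lit 0) (nat_lit 6005196040) (nat_lit 76) (nat_lit 19185559234) (nat_lit 76) (nat_lit 18074311985) (nat_lit 7) (nat_lit 4) (nat_lit 8) (nat_lit 5) (nat_lit 8) (nat_lit 4) (nat_lit 382) (nat_lit 202) (nat_lit 196)) (XT.lf (nat_lit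 0) (nat_lit 13441052131) (nat_lit 76) (nat_lit 16142018061) (nat_lit 76) (nat_lit 14863978534) (nat_lit 7) (nat_lit 4) (nat_lit 8) (nat_lit 5) (nat_lit 8) (nat_lit 4) (nat_lit 383) (nat_lit 202) (nat_lit 195)))) (XT.nd (nat_lit 156) (nat_lit 0) (nat_lit 0) (XT.nd (nat_lit 78) (nat_lit 0) (nat_lit 0) (XT.lf (nat_lit 0) (nat_lit 20968383082) (nat_lit 76) (nat_lit 13069091879) (nat_lit 76) (nat_lit 11629118100) (nat_lit 7) (nat_lit 4) (nat_lit 8) (nat_lit 5) (nat_lit 8) (nat_lit 4) (nat_lit 384) (nat_lit 202) (nat_lit 194)) (XT.lf (nat_lit 0) (nat_lit 28593766174) (nat_lit 76) (nat_lit 9964095605) (nat_lit 76) (nat_lit 8366904108) (nat_lit 7) (nat_lit 4) (nat_lit 8) (nat_lit 5) (nat_lit 8) (nat_lit 4) (nat_lit 385) (nat_lit 202) (nat_lit 193))) (XT.nd (nat_lit 78) (nat_lit 0) (nat_lit 0) (XT.lf (nat_lit 0) (nat_lit 36323864362) (nat_lit 76) (nat_lit 6824316138) (nat_lit 76) (nat_lit 5074486077) (nat_lit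 7) (nat_lit 4) (nat_lit 8) (nat_lit 5) (nat_lit 8) (nat_lit 4) (nat_lit 386) (nat_lit 202) (nat_lit 192)) (XT.lf (nat_lit 0) (nat_lit 44165432101) (nat_lit 76) (nat_lit 3647009979) (nat_lit 76) (nat_lit 1748987139) (nat_lit 7) (nat_lit 4) (nat_lit 8) (nat_lit 5) (nat_lit 8) (nat_lit 4) (nat_lit 387) (nat_lit 202) (nat_lit 191))))))) (XT.nd (nat_lit 1092) (nat_lit 152) (nat_lit 0) (XT.nd (nat_lit 546) (nat_lit 76) (nat_lit 0) (XT.nd (nat_lit 234) (nat_lit 0) (nat_lit 0) (XT.nd (nat_lit 78) (nat_lit 0) (nat_lit 0) (XT.lf (nat_lit 0) (nat_lit 1190834792) (nat_lit 76) (nat_lit 401645067) (nat_lit 152) (nat_lit 49348935327) (nat_lit 5) (nat_lit 5) (nat_lit 6) (nat_lit 5) (nat_lit 7) (nat_lit 4) (nat_lit 388) (nat_lit 202) (nat_lit 190)) (XT.nd (nat_lit 78) (nat_lit 0) (nat_lit 0) (XT.lf (nat_lit 0) (nat_lit 5019970173) (nat_lit 152) (nat_lit 44439767751) (nat_lit 0) (nat_lit 2901926259) (nat_lit 5) (nat_lit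 5) (nat_lit 7) (nat_lit 4) (nat_lit 5) (nat_lit 4) (nat_lit 389) (nat_lit 202) (nat_lit 189)) (XT.lf (nat_lit 0) (nat_lit 8493710675) (nat_lit 152) (nat_lit 39088518415) (nat_lit 0) (nat_lit 6243999395) (nat_lit 5) (nat_lit 5) (nat_lit 7) (nat_lit 4) (nat_lit 5) (nat_lit 4) (nat_lit 390) (nat_lit 202) (nat_lit 188)))) (XT.nd (nat_lit 156) (nat_lit 0) (nat_lit 0) (XT.nd (nat_lit 78) (nat_lit 0) (nat_lit 0) (XT.lf (nat_lit 0) (nat_lit 12012875814) (nat_lit 152) (nat_lit 33688295681) (nat_lit 0) (nat_lit 9635332141) (nat_lit 5) (nat_lit 5) (nat_lit 7) (nat_lit 4) (nat_lit 5) (nat_lit 4) (nat_lit 391) (nat_lit 202) (nat_lit 187)) (XT.lf (nat_lit 0) (nat_lit 15580540589) (nat_lit 152) (nat_lit 28234380906) (nat_lit 0) (nat_lit 13078887796) (nat_lit 5) (nat_lit 5) (nat_lit 7) (nat_lit 4) (nat_lit 5) (nat_lit 4) (nat_lit 392) (nat_lit 202) (nat_lit 186))) (XT.nd (nat_lit 78) (nat_lit 0) (nat_lit 0) (XT.lf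 (nat_lit 0) (nat_lit 19199822377) (nat_lit 152) (nat_lit 22722008534) (nat_lit 0) (nat_lit 16577675294) (nat_lit 5) (nat_lit 5) (nat_lit 7) (nat_lit 4) (nat_lit 5) (nat_lit 4) (nat_lit 393) (nat_lit 202) (nat_lit 185)) (XT.lf (nat_lit 0) (nat_lit 22873883658) (nat_lit 152) (nat_lit 17146361930) (nat_lit 0) (nat_lit 20134751826) (nat_lit 5) (nat_lit 5) (nat_lit 7) (nat_lit 4) (nat_lit 5) (nat_lit 4) (nat_lit 394) (nat_lit 202) (nat_lit 184))))) (XT.nd (nat_lit 234) (nat_lit 0) (nat_lit 0) (XT.nd (nat_lit 78) (nat_lit 76) (nat_lit 0) (XT.lf (nat_lit 0) (nat_lit 26605934776) (nat_lit 152) (nat_lit 11502569168) (nat_lit 0) (nat_lit 23753225518) (nat_lit 5) (nat_lit 5) (nat_lit 7) (nat_lit 4) (nat_lit 5) (nat_lit 4) (nat_lit 395) (nat_lit 202) (nat_lit 183)) (XT.nd (nat_lit 78) (nat_lit 76) (nat_lit 0) (XT.lf (nat_lit 0) (nat_lit 30399236746) (nat_lit 152) (nat_lit 5785698780) (nat_lit 0) (nat_lit 27436258144)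 (nat_lit 5) (nat_lit 5) (nat_lit 7) (nat_lit 4) (nat_lit 5) (nat_lit 4) (nat_lit 396) (nat_lit 202) (nat_lit 182)) (XT.lf (nat_lit 0) (nat_lit 9428542) (nat_lit 76) (nat_lit 34247766196) (nat_lit 76) (nat_lit 31177729976) (nat_lit 4) (nat_lit 4) (nat_lit 5) (nat_lit 5) (nat_lit 5) (nat_lit 4) (nat_lit 397) (nat_lit 202) (nat_lit 181)))) (XT.nd (nat_lit 156) (nat_lit 0) (nat_lit 0) (XT.nd (nat_lit 78) (nat_lit 0) (nat_lit 0) (XT.lf (nat_lit 0) (nat_lit 6004493688) (nat_lit 76) (nat_lit 32236132984) (nat_lit 76) (nat_lit 29062157330) (nat_lit 4) (nat_lit 4) (nat_lit 5) (nat_lit 5) (nat_lit 5) (nat_lit 4) (nat_lit 398) (nat_lit 202) (nat_lit 180)) (XT.lf (nat_lit 0) (nat_lit 12089588312) (nat_lit 76) (nat_lit 30206702366) (nat_lit 76) (nat_lit 26931814641) (nat_lit 4) (nat_lit 4) (nat_lit 5) (nat_lit 5) (nat_lit 5) (nat_lit 4) (nat_lit 399) (nat_lit 202) (nat_lit 179))) (XT.nd (nat_lit 78) (nat_lit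 0) (nat_lit 0) (XT.lf (nat_lit 0) (nat_lit 18270029487) (nat_lit 76) (nat_lit 28157701054) (nat_lit 76) (nat_lit 24784840444) (nat_lit 4) (nat_lit 4) (nat_lit 5) (nat_lit 5) (nat_lit 5) (nat_lit 4) (nat_lit 400) (nat_lit 202) (nat_lit 178)) (XT.lf (nat_lit 0) (nat_lit 24551217600) (nat_lit 76) (nat_lit 26087338657) (nat_lit 76) (nat_lit 22619358741) (nat_lit 4) (nat_lit 4) (nat_lit 5) (nat_lit 5) (nat_lit 5) (nat_lit 4) (nat_lit 401) (nat_lit 202) (nat_lit 177)))))) (XT.nd (nat_lit 546) (nat_lit 152) (nat_lit 0) (XT.nd (nat_lit 234) (nat_lit 0) (nat_lit 0) (XT.nd (nat_lit 78) (nat_lit 0) (nat_lit 0) (XT.lf (nat_lit 0) (nat_lit 30938641066) (nat_lit 76) (nat_lit 23993806122) (nat_lit 76) (nat_lit 20433477366) (nat_lit 4) (nat_lit 4) (nat_lit 5) (nat_lit 5) (nat_lit 5) (nat_lit 4) (nat_lit 402) (nat_lit 202) (nat_lit 176)) (XT.nd (nat_lit 78) (nat_lit 0) (nat_lit 0) (XT.lf (nat_lit 0) (nat_lit 37437881130)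 (nat_lit 76) (nat_lit 21875274149) (nat_lit 76) (nat_lit 18225286323) (nat_lit 4) (nat_lit 4) (nat_lit 5) (nat_lit 5) (nat_lit 5) (nat_lit 4) (nat_lit 403) (nat_lit 202) (nat_lit 175)) (XT.lf (nat_lit 0) (nat_lit 44054616739) (nat_lit 76) (nat_lit 19729891591) (nat_lit 76) (nat_lit 15992856127) (nat_lit 4) (nat_lit 4) (nat_lit 5) (nat_lit 5) (nat_lit 5) (nat_lit 4) (nat_lit 404) (nat_lit 202) (nat_lit 174)))) (XT.nd (nat_lit 156) (nat_lit 0) (nat_lit 0) (XT.nd (nat_lit 78) (nat_lit 0) (nat_lit 0) (XT.lf (nat_lit 0) (nat_lit 50794629507) (nat_lit 76) (nat_lit 17555783845) (nat_lit 76) (nat_lit 13734236109) (nat_lit 4) (nat_lit 4) (nat_lit 5) (nat_lit 5) (nat_lit 5) (nat_lit 4) (nat_lit 405) (nat_lit 202) (nat_lit 173)) (XT.lf (nat_lit 0) (nat_lit 57663808765) (nat_lit 76) (nat_lit 15351051203) (nat_lit 76) (nat_lit 11447452718) (nat_lit 4) (nat_lit 4) (nat_lit 5) (nat_lit 5) (nat_lit 5) (nat_lit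 4) (nat_lit 406) (nat_lit 202) (nat_lit 172))) (XT.nd (nat_lit 78) (nat_lit 0) (nat_lit 0) (XT.lf (nat_lit 0) (nat_lit 64668156710) (nat_lit 76) (nat_lit 13113767201) (nat_lit 76) (nat_lit 9130507795) (nat_lit 4) (nat_lit 4) (nat_lit 5) (nat_lit 5) (nat_lit 5) (nat_lit 4) (nat_lit 407) (nat_lit 202) (nat_lit 171)) (XT.lf (nat_lit 0) (nat_lit 71813793644) (nat_lit 76) (nat_lit 10841976930) (nat_lit 76) (nat_lit 6781376824) (nat_lit 4) (nat_lit 4) (nat_lit 5) (nat_lit 5) (nat_lit 5) (nat_lit 4) (nat_lit 408) (nat_lit 202) (nat_lit 170))))) (XT.nd (nat_lit 312) (nat_lit 0) (nat_lit 0) (XT.nd (nat_lit 156) (nat_lit 152) (nat_lit 0) (XT.nd (nat_lit 78) (nat_lit 0) (nat_lit 0) (XT.lf (nat_lit 0) (nat_lit 79106963329) (nat_lit 76) (nat_lit 8533695330) (nat_lit 76) (nat_lit 4398007165) (nat_lit 4) (nat_lit 4) (nat_lit 5) (nat_lit 5) (nat_lit 5) (nat_lit 4) (nat_lit 409) (nat_lit 202) (nat_lit 169)) (XT.lf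 (nat_lit 0) (nat_lit 86554038436) (nat_lit 76) (nat_lit 6186905457) (nat_lit 76) (nat_lit 1978316265) (nat_lit 4) (nat_lit 4) (nat_lit 5) (nat_lit 5) (nat_lit 5) (nat_lit 4) (nat_lit 410) (nat_lit 202) (nat_lit 168))) (XT.nd (nat_lit 78) (nat_lit 76) (nat_lit 0) (XT.lf (nat_lit 0) (nat_lit 470447346) (nat_lit 152) (nat_lit 3324358774) (nat_lit 76) (nat_lit 93686328177) (nat_lit 3) (nat_lit 5) (nat_lit 5) (nat_lit 5) (nat_lit 4) (nat_lit 4) (nat_lit 411) (nat_lit 202) (nat_lit 167)) (XT.lf (nat_lit 0) (nat_lit 1611777164) (nat_lit 76) (nat_lit 1324114591) (nat_lit 152) (nat_lit 97389901257) (nat_lit 2) (nat_lit 5) (nat_lit 3) (nat_lit 5) (nat_lit 4) (nat_lit 4) (nat_lit 412) (nat_lit 202) (nat_lit 166)))) (XT.nd (nat_lit 37674) (nat_lit 0) (nat_lit 456) (XT.nd (nat_lit 37596) (nat_lit 0) (nat_lit 608) (XT.lf (nat_lit 0) (nat_lit 5488501446) (nat_lit 152) (nat_lit 96564609271) (nat_lit 0) (nat_lit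 1202289925) (nat_lit 2) (nat_lit 5) (nat_lit 4) (nat_lit 4) (nat_lit 2) (nat_lit 4) (nat_lit 413) (nat_lit 202) (nat_lit 165)) (XT.lf (nat_lit 0) (nat_lit 10156927598) (nat_lit 76) (nat_lit 3676396069) (nat_lit 76) (nat_lit 3676396069) (nat_lit 10) (nat_lit 4) (nat_lit 11) (nat_lit 5) (nat_lit 11) (nat_lit 4) (nat_lit 374) (nat_lit 203) (nat_lit 203))) (XT.nd (nat_lit 78) (nat_lit 152) (nat_lit 0) (XT.lf (nat_lit 0) (nat_lit 28798793112) (nat_lit 76) (nat_lit 3677866572) (nat_lit 76) (nat_lit 3466579103) (nat_lit 10) (nat_lit 4) (nat_lit 11) (nat_lit 5) (nat_lit 11) (nat_lit 4) (nat_lit 375) (nat_lit 203) (nat_lit 202)) (XT.lf (nat_lit 0) (nat_lit 449018495) (nat_lit 152) (nat_lit 36403170804) (nat_lit 0) (nat_lit 44726327) (nat_lit 8) (nat_lit 5) (nat_lit 10) (nat_lit 4) (nat_lit 8) (nat_lit 4) (nat_lit 376) (nat_lit 203) (nat_lit 201))))))))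
noncomputable def xc7 : XT := (XT.nd (nat_lit 2184) (nat_lit 152) (nat_lit 0) (XT.nd (nat_lit 1092) (nat_lit 76) (nat_lit 0) (XT.nd (nat_lit 546) (nat_lit 152) (nat_lit 0) (XT.nd (nat_lit 234) (nat_lit 76) (nat_lit 0) (XT.nd (nat_lit 78) (nat_lit 0) (nat_lit 0) (XT.lf (nat_lit 0) (nat_lit 4439992361) (nat_lit 152) (nat_lit 29595026577) (nat_lit 0) (nat_lit 3842342228) (nat_lit 8) (nat_lit 5) (nat_lit 10) (nat_lit 4) (nat_lit 8) (nat_lit 4) (nat_lit 377) (nat_lit 203) (nat_lit 200)) (XT.nd (nat_lit 78) (nat_lit 0) (nat_lit 0) (XT.lf (nat_lit 0) (nat_lit 8471384206) (nat_lit 152) (nat_lit 22732222421) (nat_lit 0) (nat_lit 7686007895) (nat_lit 8) (nat_lit 5) (nat_lit 10) (nat_lit 4) (nat_lit 8) (nat_lit 4) (nat_lit 378) (nat_lit 203) (nat_lit 199)) (XT.lf (nat_lit 0) (nat_lit 12546716607) (nat_lit 152) (nat_lit 15808761711) (nat_lit 0) (nat_lit 11579081869) (nat_lit 8) (nat_lit 5) (nat_lit 10) (nat_lit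 4) (nat_lit 8) (nat_lit 4) (nat_lit 379) (nat_lit 203) (nat_lit 198)))) (XT.nd (nat_lit 156) (nat_lit 76) (nat_lit 0) (XT.nd (nat_lit 78) (nat_lit 0) (nat_lit 0) (XT.lf (nat_lit 0) (nat_lit 16669550533) (nat_lit 152) (nat_lit 8818594823) (nat_lit 0) (nat_lit 15524965867) (nat_lit 8) (nat_lit 5) (nat_lit 10) (nat_lit 4) (nat_lit 8) (nat_lit 4) (nat_lit 380) (nat_lit 203) (nat_lit 197)) (XT.lf (nat_lit 0) (nat_lit 20843488461) (nat_lit 152) (nat_lit 1755613842) (nat_lit 0) (nat_lit 19527107748) (nat_lit 8) (nat_lit 5) (nat_lit 10) (nat_lit 4) (nat_lit 8) (nat_lit 4) (nat_lit 381) (nat_lit 203) (nat_lit 196))) (XT.nd (nat_lit 78) (nat_lit 0) (nat_lit 0) (XT.lf (nat_lit 0) (nat_lit 5493551749) (nat_lit 76) (nat_lit 19631433152) (nat_lit 76) (nat_lit 18148260160) (nat_lit 7) (nat_lit 4) (nat_lit 8) (nat_lit 5) (nat_lit 8) (nat_lit 4) (nat_lit 382) (nat_lit 203) (nat_lit 195)) (XT.lf (nat_lit 0) (nat_lit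 12864579848) (nat_lit 76) (nat_lit 16618395046) (nat_lit 76) (nat_lit 14973287803) (nat_lit 7) (nat_lit 4) (nat_lit 8) (nat_lit 5) (nat_lit 8) (nat_lit 4) (nat_lit 383) (nat_lit 203) (nat_lit 194))))) (XT.nd (nat_lit 234) (nat_lit 152) (nat_lit 0) (XT.nd (nat_lit 78) (nat_lit 0) (nat_lit 0) (XT.lf (nat_lit 0) (nat_lit 20328971003) (nat_lit 76) (nat_lit 13575083491) (nat_lit 76) (nat_lit 11772758529) (nat_lit 7) (nat_lit 4) (nat_lit 8) (nat_lit 5) (nat_lit 8) (nat_lit 4) (nat_lit 384) (nat_lit 203) (nat_lit 193)) (XT.nd (nat_lit 78) (nat_lit 0) (nat_lit 0) (XT.lf (nat_lit 0) (nat_lit 27893247495) (nat_lit 76) (nat_lit 10498839284) (nat_lit 76) (nat_lit 8543875758) (nat_lit 7) (nat_lit 4) (nat_lit 8) (nat_lit 5) (nat_lit 8) (nat_lit 4) (nat_lit 385) (nat_lit 203) (nat_lit 192)) (XT.lf (nat_lit 0) (nat_lit 35564018888) (nat_lit 76) (nat_lit 7386974443) (nat_lit 76) (nat_lit 5283818139) (nat_lit 7)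 (nat_lit 4) (nat_lit 8) (nat_lit 5) (nat_lit 8) (nat_lit 4) (nat_lit 386) (nat_lit 203) (nat_lit 191)))) (XT.nd (nat_lit 156) (nat_lit 0) (nat_lit 0) (XT.nd (nat_lit 78) (nat_lit 152) (nat_lit 0) (XT.lf (nat_lit 0) (nat_lit 43347987797) (nat_lit 76) (nat_lit 4236769864) (nat_lit 76) (nat_lit 1989737075) (nat_lit 7) (nat_lit 4) (nat_lit 8) (nat_lit 5) (nat_lit 8) (nat_lit 4) (nat_lit 387) (nat_lit 203) (nat_lit 190)) (XT.lf (nat_lit 0) (nat_lit 288509804) (nat_lit 76) (nat_lit 1029336747) (nat_lit 152) (nat_lit 49637866394) (nat_lit 5) (nat_lit 5) (nat_lit 6) (nat_lit 5) (nat_lit 7) (nat_lit 4) (nat_lit 388) (nat_lit 203) (nat_lit 189))) (XT.nd (nat_lit 78) (nat_lit 0) (nat_lit 0) (XT.lf (nat_lit 0) (nat_lit 4709474929) (nat_lit 152) (nat_lit 45406963148) (nat_lit 0) (nat_lit 2260604946) (nat_lit 5) (nat_lit 5) (nat_lit 7) (nat_lit 4) (nat_lit 5) (nat_lit 4) (nat_lit 389) (nat_lit 203) (nat_lit 188))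 (XT.lf (nat_lit 0) (nat_lit 8154256032) (nat_lit 152) (nat_lit 40110671488) (nat_lit 0) (nat_lit 5577553656) (nat_lit 5) (nat_lit 5) (nat_lit 7) (nat_lit 4) (nat_lit 5) (nat_lit 4) (nat_lit 390) (nat_lit 203) (nat_lit 187)))))) (XT.nd (nat_lit 546) (nat_lit 76) (nat_lit 0) (XT.nd (nat_lit 234) (nat_lit 0) (nat_lit 0) (XT.nd (nat_lit 78) (nat_lit 0) (nat_lit 0) (XT.lf (nat_lit 0) (nat_lit 11645305251) (nat_lit 152) (nat_lit 34763805719) (nat_lit 0) (nat_lit 8944493755) (nat_lit 5) (nat_lit 5) (nat_lit 7) (nat_lit 4) (nat_lit 5) (nat_lit 4) (nat_lit 391) (nat_lit 203) (nat_lit 186)) (XT.nd (nat_lit 78) (nat_lit 0) (nat_lit 0) (XT.lf (nat_lit 0) (nat_lit 15185673016) (nat_lit 152) (nat_lit 29361693825) (nat_lit 0) (nat_lit 12364367230) (nat_lit 5) (nat_lit 5) (nat_lit 7) (nat_lit 4) (nat_lit 5) (nat_lit 4) (nat_lit 392) (nat_lit 203) (nat_lit 185)) (XT.lf (nat_lit 0) (nat_lit 18778452853) (nat_lit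 152) (nat_lit 23899615511) (nat_lit 0) (nat_lit 15840162318) (nat_lit 5) (nat_lit 5) (nat_lit 7) (nat_lit 4) (nat_lit 5) (nat_lit 4) (nat_lit 393) (nat_lit 203) (nat_lit 184)))) (XT.nd (nat_lit 156) (nat_lit 0) (nat_lit 0) (XT.nd (nat_lit 78) (nat_lit 0) (nat_lit 0) (XT.lf (nat_lit 0) (nat_lit 22426784084) (nat_lit 152) (nat_lit 18372798089) (nat_lit 0) (nat_lit 19374916123) (nat_lit 5) (nat_lit 5) (nat_lit 7) (nat_lit 4) (nat_lit 5) (nat_lit 4) (nat_lit 394) (nat_lit 203) (nat_lit 183)) (XT.lf (nat_lit 0) (nat_lit 26133854571) (nat_lit 152) (nat_lit 12776412301) (nat_lit 0) (nat_lit 22971717265) (nat_lit 5) (nat_lit 5) (nat_lit 7) (nat_lit 4) (nat_lit 5) (nat_lit 4) (nat_lit 395) (nat_lit 203) (nat_lit 182))) (XT.nd (nat_lit 78) (nat_lit 0) (nat_lit 0) (XT.lf (nat_lit 0) (nat_lit 29902903502) (nat_lit 152) (nat_lit 7105568101) (nat_lit 0) (nat_lit 26633708579) (nat_lit 5) (nat_lit 5) (nat_lit 7)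 (nat_lit 4) (nat_lit 5) (nat_lit 4) (nat_lit 396) (nat_lit 203) (nat_lit 181)) (XT.lf (nat_lit 0) (nat_lit 33737224221) (nat_lit 152) (nat_lit 1355310382) (nat_lit 0) (nat_lit 30364089864) (nat_lit 5) (nat_lit 5) (nat_lit 7) (nat_lit 4) (nat_lit 5) (nat_lit 4) (nat_lit 397) (nat_lit 203) (nat_lit 180))))) (XT.nd (nat_lit 234) (nat_lit 0) (nat_lit 0) (XT.nd (nat_lit 78) (nat_lit 0) (nat_lit 0) (XT.lf (nat_lit 0) (nat_lit 4568533903) (nat_lit 76) (nat_lit 33115548743) (nat_lit 76) (nat_lit 29641502315) (nat_lit 4) (nat_lit 4) (nat_lit 5) (nat_lit 5) (nat_lit 5) (nat_lit 4) (nat_lit 398) (nat_lit 203) (nat_lit 179)) (XT.nd (nat_lit 78) (nat_lit 0) (nat_lit 0) (XT.lf (nat_lit 0) (nat_lit 10610669765) (nat_lit 76) (nat_lit 31106468975) (nat_lit 76) (nat_lit 27534449662) (nat_lit 4) (nat_lit 4) (nat_lit 5) (nat_lit 5) (nat_lit 5) (nat_lit 4) (nat_lit 399) (nat_lit 203) (nat_lit 178)) (XT.lf (nat_lit 0)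 (nat_lit 16749403405) (nat_lit 76) (nat_lit 29077225769) (nat_lit 76) (nat_lit 25410087149) (nat_lit 4) (nat_lit 4) (nat_lit 5) (nat_lit 5) (nat_lit 5) (nat_lit 4) (nat_lit 400) (nat_lit 203) (nat_lit 177)))) (XT.nd (nat_lit 156) (nat_lit 0) (nat_lit 0) (XT.nd (nat_lit 78) (nat_lit 0) (nat_lit 0) (XT.lf (nat_lit 0) (nat_lit 22990098764) (nat_lit 76) (nat_lit 27026046000) (nat_lit 76) (nat_lit 23266558540) (nat_lit 4) (nat_lit 4) (nat_lit 5) (nat_lit 5) (nat_lit 5) (nat_lit 4) (nat_lit 401) (nat_lit 203) (nat_lit 176)) (XT.lf (nat_lit 0) (nat_lit 29338208877) (nat_lit 76) (nat_lit 24951137375) (nat_lit 76) (nat_lit 21101990846) (nat_lit 4) (nat_lit 4) (nat_lit 5) (nat_lit 5) (nat_lit 5) (nat_lit 4) (nat_lit 402) (nat_lit 203) (nat_lit 175))) (XT.nd (nat_lit 78) (nat_lit 0) (nat_lit 0) (XT.lf (nat_lit 0) (nat_lit 35799280637) (nat_lit 76) (nat_lit 22850686867) (nat_lit 76) (nat_lit 18914492699) (nat_lit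 4) (nat_lit 4) (nat_lit 5) (nat_lit 5) (nat_lit 5) (nat_lit 4) (nat_lit 403) (nat_lit 203) (nat_lit 174)) (XT.lf (nat_lit 0) (nat_lit 42378959641) (nat_lit 76) (nat_lit 20722859131) (nat_lit 76) (nat_lit 16702152692) (nat_lit 4) (nat_lit 4) (nat_lit 5) (nat_lit 5) (nat_lit 5) (nat_lit 4) (nat_lit 404) (nat_lit 203) (nat_lit 173))))))) (XT.nd (nat_lit 38454) (nat_lit 0) (nat_lit 228) (XT.nd (nat_lit 546) (nat_lit 152) (nat_lit 0) (XT.nd (nat_lit 234) (nat_lit 0) (nat_lit 0) (XT.nd (nat_lit 78) (nat_lit 0) (nat_lit 0) (XT.lf (nat_lit 0) (nat_lit 49082995122) (nat_lit 76) (nat_lit 18565794900) (nat_lit 76) (nat_lit 14463037712) (nat_lit 4) (nat_lit 4) (nat_lit 5) (nat_lit 5) (nat_lit 5) (nat_lit 4) (nat_lit 405) (nat_lit 203) (nat_lit 172)) (XT.nd (nat_lit 78) (nat_lit 0) (nat_lit 0) (XT.lf (nat_lit 0) (nat_lit 55917244975) (nat_lit 76) (nat_lit 16377609361) (nat_lit 76) (nat_lit 12195191252) (nat_lit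 4) (nat_lit 4) (nat_lit 5) (nat_lit 5) (nat_lit 5) (nat_lit 4) (nat_lit 406) (nat_lit 203) (nat_lit 171)) (XT.lf (nat_lit 0) (nat_lit 62887680876) (nat_lit 76) (nat_lit 14156390507) (nat_lit 76) (nat_lit 9896631698) (nat_lit 4) (nat_lit 4) (nat_lit 5) (nat_lit 5) (nat_lit 5) (nat_lit 4) (nat_lit 407) (nat_lit 203) (nat_lit 170)))) (XT.nd (nat_lit 156) (nat_lit 0) (nat_lit 0) (XT.nd (nat_lit 78) (nat_lit 0) (nat_lit 0) (XT.lf (nat_lit 0) (nat_lit 70000393496) (nat_lit 76) (nat_lit 11900197468) (nat_lit 76) (nat_lit 7565350600) (nat_lit 4) (nat_lit 4) (nat_lit 5) (nat_lit 5) (nat_lit 5) (nat_lit 4) (nat_lit 408) (nat_lit 203) (nat_lit 169)) (XT.lf (nat_lit 0) (nat_lit 77261597827) (nat_lit 76) (nat_lit 9607058811) (nat_lit 76) (nat_lit 5199310915) (nat_lit 4) (nat_lit 4) (nat_lit 5) (nat_lit 5) (nat_lit 5) (nat_lit 4) (nat_lit 409) (nat_lit 203) (nat_lit 168))) (XT.nd (nat_lit 78) (nat_lit 0) (nat_lit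 0) (XT.lf (nat_lit 0) (nat_lit 84677638611) (nat_lit 76) (nat_lit 7274970824) (nat_lit 76) (nat_lit 2796445232) (nat_lit 4) (nat_lit 4) (nat_lit 5) (nat_lit 5) (nat_lit 5) (nat_lit 4) (nat_lit 410) (nat_lit 203) (nat_lit 167)) (XT.lf (nat_lit 0) (nat_lit 92254995883) (nat_lit 76) (nat_lit 4901895761) (nat_lit 76) (nat_lit 354653958) (nat_lit 4) (nat_lit 4) (nat_lit 5) (nat_lit 5) (nat_lit 5) (nat_lit 4) (nat_lit 411) (nat_lit 203) (nat_lit 166))))) (XT.nd (nat_lit 37596) (nat_lit 0) (nat_lit 456) (XT.nd (nat_lit 78) (nat_lit 76) (nat_lit 0) (XT.lf (nat_lit 0) (nat_lit 2086667730) (nat_lit 152) (nat_lit 378021076) (nat_lit 76) (nat_lit 97892551651) (nat_lit 3) (nat_lit 5) (nat_lit 5) (nat_lit 5) (nat_lit 4) (nat_lit 4) (nat_lit 412) (nat_lit 203) (nat_lit 165)) (XT.nd (nat_lit 37440) (nat_lit 0) (nat_lit 608) (XT.lf (nat_lit 0) (nat_lit 4609058752) (nat_lit 152) (nat_lit 98612094191) (nat_lit 0)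 (nat_lit 66604200) (nat_lit 2) (nat_lit 5) (nat_lit 4) (nat_lit 4) (nat_lit 2) (nat_lit 4) (nat_lit 413) (nat_lit 203) (nat_lit 164)) (XT.lf (nat_lit 0) (nat_lit 1850529285) (nat_lit 76) (nat_lit 7389197512) (nat_lit 76) (nat_lit 7389197512) (nat_lit 10) (nat_lit 4) (nat_lit 11) (nat_lit 5) (nat_lit 11) (nat_lit 4) (nat_lit 372) (nat_lit 204) (nat_lit 204)))) (XT.nd (nat_lit 156) (nat_lit 152) (nat_lit 0) (XT.nd (nat_lit 78) (nat_lit 0) (nat_lit 0) (XT.lf (nat_lit 0) (nat_lit 11923878255) (nat_lit 76) (nat_lit 11209372265) (nat_lit 76) (nat_lit 10991746172) (nat_lit 10) (nat_lit 4) (nat_lit 11) (nat_lit 5) (nat_lit 11) (nat_lit 4) (nat_lit 373) (nat_lit 204) (nat_lit 203)) (XT.lf (nat_lit 0) (nat_lit 20236644194) (nat_lit 76) (nat_lit 7606475910) (nat_lit 76) (nat_lit 7177562349) (nat_lit 10) (nat_lit 4) (nat_lit 11) (nat_lit 5) (nat_lit 11) (nat_lit 4) (nat_lit 374) (nat_lit 204) (nat_lit 202)))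 (XT.nd (nat_lit 78) (nat_lit 152) (nat_lit 0) (XT.lf (nat_lit 0) (nat_lit 28646619971) (nat_lit 76) (nat_lit 3966557798) (nat_lit 76) (nat_lit 3332510773) (nat_lit 10) (nat_lit 4) (nat_lit 11) (nat_lit 5) (nat_lit 11) (nat_lit 4) (nat_lit 375) (nat_lit 204) (nat_lit 201)) (XT.lf (nat_lit 0) (nat_lit 260151511) (nat_lit 76) (nat_lit 278448114) (nat_lit 152) (nat_lit 36361990894) (nat_lit 8) (nat_lit 5) (nat_lit 9) (nat_lit 5) (nat_lit 10) (nat_lit 4) (nat_lit 376) (nat_lit 204) (nat_lit 200)))))) (XT.nd (nat_lit 546) (nat_lit 152) (nat_lit 0) (XT.nd (nat_lit 234) (nat_lit 76) (nat_lit 0) (XT.nd (nat_lit 78) (nat_lit 0) (nat_lit 0) (XT.lf (nat_lit 0) (nat_lit 4487827303) (nat_lit 152) (nat_lit 29903305063) (nat_lit 0) (nat_lit 3491163523) (nat_lit 8) (nat_lit 5) (nat_lit 10) (nat_lit 4) (nat_lit 8) (nat_lit 4) (nat_lit 377) (nat_lit 204) (nat_lit 199)) (XT.nd (nat_lit 78) (nat_lit 0) (nat_lit 0) (XT.lf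 (nat_lit 0) (nat_lit 8481287523) (nat_lit 152) (nat_lit 23112041583) (nat_lit 0) (nat_lit 7302365317) (nat_lit 8) (nat_lit 5) (nat_lit 10) (nat_lit 4) (nat_lit 8) (nat_lit 4) (nat_lit 378) (nat_lit 204) (nat_lit 198)) (XT.lf (nat_lit 0) (nat_lit 12519793102) (nat_lit 152) (nat_lit 16258037840) (nat_lit 0) (nat_lit 11163920968) (nat_lit 8) (nat_lit 5) (nat_lit 10) (nat_lit 4) (nat_lit 8) (nat_lit 4) (nat_lit 379) (nat_lit 204) (nat_lit 197)))) (XT.nd (nat_lit 156) (nat_lit 76) (nat_lit 0) (XT.nd (nat_lit 78) (nat_lit 0) (nat_lit 0) (XT.lf (nat_lit 0) (nat_lit 16606872833) (nat_lit 152) (nat_lit 9335304899) (nat_lit 0) (nat_lit 15079204652) (nat_lit 8) (nat_lit 5) (nat_lit 10) (nat_lit 4) (nat_lit 8) (nat_lit 4) (nat_lit 380) (nat_lit 204) (nat_lit 196)) (XT.lf (nat_lit 0) (nat_lit 20746097950) (nat_lit 152) (nat_lit 2337793771) (nat_lit 0) (nat_lit 19051637490) (nat_lit 8) (nat_lit 5) (nat_lit 10)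 (nat_lit 4) (nat_lit 8) (nat_lit 4) (nat_lit 381) (nat_lit 204) (nat_lit 195))) (XT.nd (nat_lit 78) (nat_lit 0) (nat_lit 0) (XT.lf (nat_lit 0) (nat_lit 4834957307) (nat_lit 76) (nat_lit 20152604512) (nat_lit 76) (nat_lit 18296209801) (nat_lit 7) (nat_lit 4) (nat_lit 8) (nat_lit 5) (nat_lit 8) (nat_lit 4) (nat_lit 382) (nat_lit 204) (nat_lit 194)) (XT.lf (nat_lit 0) (nat_lit 12143045609) (nat_lit 76) (nat_lit 17169181034) (nat_lit 76) (nat_lit 15155568603) (nat_lit 7) (nat_lit 4) (nat_lit 8) (nat_lit 5) (nat_lit 8) (nat_lit 4) (nat_lit 383) (nat_lit 204) (nat_lit 193))))) (XT.nd (nat_lit 312) (nat_lit 152) (nat_lit 0) (XT.nd (nat_lit 156) (nat_lit 0) (nat_lit 0) (XT.nd (nat_lit 78) (nat_lit 0) (nat_lit 0) (XT.lf (nat_lit 0) (nat_lit 19546330164) (nat_lit 76) (nat_lit 14154621545) (nat_lit 76) (nat_lit 11988370552) (nat_lit 7) (nat_lit 4) (nat_lit 8) (nat_lit 5) (nat_lit 8) (nat_lit 4) (nat_lit 384)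 (nat_lit 204) (nat_lit 192)) (XT.lf (nat_lit 0) (nat_lit 27051279861) (nat_lit 76) (nat_lit 11106291965) (nat_lit 76) (nat_lit 8791848192) (nat_lit 7) (nat_lit 4) (nat_lit 8) (nat_lit 5) (nat_lit 8) (nat_lit 4) (nat_lit 385) (nat_lit 204) (nat_lit 191))) (XT.nd (nat_lit 78) (nat_lit 0) (nat_lit 0) (XT.lf (nat_lit 0) (nat_lit 34664452424) (nat_lit 76) (nat_lit 8021528704) (nat_lit 76) (nat_lit 5563208447) (nat_lit 7) (nat_lit 4) (nat_lit 8) (nat_lit 5) (nat_lit 8) (nat_lit 4) (nat_lit 386) (nat_lit 204) (nat_lit 190)) (XT.lf (nat_lit 0) (nat_lit 42392500138) (nat_lit 76) (nat_lit 4897636339) (nat_lit 76) (nat_lit 2299630174) (nat_lit 7) (nat_lit 4) (nat_lit 8) (nat_lit 5) (nat_lit 8) (nat_lit 4) (nat_lit 387) (nat_lit 204) (nat_lit 189)))) (XT.nd (nat_lit 156) (nat_lit 0) (nat_lit 0) (XT.nd (nat_lit 78) (nat_lit 76) (nat_lit 0) (XT.lf (nat_lit 0) (nat_lit 982190774) (nat_lit 152) (nat_lit 739776278)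 (nat_lit 76) (nat_lit 49250066691) (nat_lit 6) (nat_lit 5) (nat_lit 8) (nat_lit 5) (nat_lit 7) (nat_lit 4) (nat_lit 388) (nat_lit 204) (nat_lit 188)) (XT.lf (nat_lit 0) (nat_lit 4330877250) (nat_lit 152) (nat_lit 46514738487) (nat_lit 0) (nat_lit 1549041409) (nat_lit 5) (nat_lit 5) (nat_lit 7) (nat_lit 4) (nat_lit 5) (nat_lit 4) (nat_lit 389) (nat_lit 204) (nat_lit 187))) (XT.nd (nat_lit 78) (nat_lit 0) (nat_lit 0) (XT.lf (nat_lit 0) (nat_lit 7747542433) (nat_lit 152) (nat_lit 41271803794) (nat_lit 0) (nat_lit 4841597473) (nat_lit 5) (nat_lit 5) (nat_lit 7) (nat_lit 4) (nat_lit 5) (nat_lit 4) (nat_lit 390) (nat_lit 204) (nat_lit 186)) (XT.lf (nat_lit 0) (nat_lit 11211294642) (nat_lit 152) (nat_lit 35976740905) (nat_lit 0) (nat_lit 8184855391) (nat_lit 5) (nat_lit 5) (nat_lit 7) (nat_lit 4) (nat_lit 5) (nat_lit 4) (nat_lit 391) (nat_lit 204) (nat_lit 185))))))))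
noncomputable def xc8 : XT := (XT.nd (nat_lit 39390) (nat_lit 0) (nat_lit 152) (XT.nd (nat_lit 1092) (nat_lit 152) (nat_lit 0) (XT.nd (nat_lit 546) (nat_lit 0) (nat_lit 0) (XT.nd (nat_lit 234) (nat_lit 76) (nat_lit 0) (XT.nd (nat_lit 78) (nat_lit 0) (nat_lit 0) (XT.lf (nat_lit 0) (nat_lit 14725160456) (nat_lit 152) (nat_lit 30624923069) (nat_lit 0) (nat_lit 11581736456) (nat_lit 5) (nat_lit 5) (nat_lit 7) (nat_lit 4) (nat_lit 5) (nat_lit 4) (nat_lit 392) (nat_lit 204) (nat_lit 184)) (XT.nd (nat_lit 78) (nat_lit 0) (nat_lit 0) (XT.lf (nat_lit 0) (nat_lit 18292210243) (nat_lit 152) (nat_lit 25211673938) (nat_lit 0) (nat_lit 15035208817) (nat_lit 5) (nat_lit 5) (nat_lit 7) (nat_lit 4) (nat_lit 5) (nat_lit 4) (nat_lit 393) (nat_lit 204) (nat_lit 183)) (XT.lf (nat_lit 0) (nat_lit 21915560843) (nat_lit 152) (nat_lit 19732263490) (nat_lit 0) (nat_lit 18548290072) (nat_lit 5) (nat_lit 5) (nat_lit 7) (nat_lit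 4) (nat_lit 5) (nat_lit 4) (nat_lit 394) (nat_lit 204) (nat_lit 182)))) (XT.nd (nat_lit 156) (nat_lit 76) (nat_lit 0) (XT.nd (nat_lit 78) (nat_lit 0) (nat_lit 0) (XT.lf (nat_lit 0) (nat_lit 25598378290) (nat_lit 152) (nat_lit 14181903890) (nat_lit 0) (nat_lit 22124049903) (nat_lit 5) (nat_lit 5) (nat_lit 7) (nat_lit 4) (nat_lit 5) (nat_lit 4) (nat_lit 395) (nat_lit 204) (nat_lit 181)) (XT.lf (nat_lit 0) (nat_lit 29343880581) (nat_lit 152) (nat_lit 8555745309) (nat_lit 0) (nat_lit 25765612759) (nat_lit 5) (nat_lit 5) (nat_lit 7) (nat_lit 4) (nat_lit 5) (nat_lit 4) (nat_lit 396) (nat_lit 204) (nat_lit 180))) (XT.nd (nat_lit 78) (nat_lit 76) (nat_lit 0) (XT.lf (nat_lit 0) (nat_lit 33155340483) (nat_lit 152) (nat_lit 2848871686) (nat_lit 0) (nat_lit 29476160590) (nat_lit 5) (nat_lit 5) (nat_lit 7) (nat_lit 4) (nat_lit 5) (nat_lit 4) (nat_lit 397) (nat_lit 204) (nat_lit 179)) (XT.lf (nat_lit 0) (nat_lit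 3002289038) (nat_lit 76) (nat_lit 34062659200) (nat_lit 76) (nat_lit 30285506422) (nat_lit 4) (nat_lit 4) (nat_lit 5) (nat_lit 5) (nat_lit 5) (nat_lit 4) (nat_lit 398) (nat_lit 204) (nat_lit 178))))) (XT.nd (nat_lit 234) (nat_lit 0) (nat_lit 0) (XT.nd (nat_lit 78) (nat_lit 0) (nat_lit 0) (XT.lf (nat_lit 0) (nat_lit 9002717364) (nat_lit 76) (nat_lit 32073337538) (nat_lit 76) (nat_lit 28201065454) (nat_lit 4) (nat_lit 4) (nat_lit 5) (nat_lit 5) (nat_lit 5) (nat_lit 4) (nat_lit 399) (nat_lit 204) (nat_lit 177)) (XT.nd (nat_lit 78) (nat_lit 0) (nat_lit 0) (XT.lf (nat_lit 0) (nat_lit 15100958250) (nat_lit 76) (nat_lit 30063276959) (nat_lit 76) (nat_lit 26098656034) (nat_lit 4) (nat_lit 4) (nat_lit 5) (nat_lit 5) (nat_lit 5) (nat_lit 4) (nat_lit 400) (nat_lit 204) (nat_lit 176)) (XT.lf (nat_lit 0) (nat_lit 21302340256) (nat_lit 76) (nat_lit 28030721099) (nat_lit 76) (nat_lit 23976441106) (nat_lit 4) (nat_lit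 4) (nat_lit 5) (nat_lit 5) (nat_lit 5) (nat_lit 4) (nat_lit 401) (nat_lit 204) (nat_lit 175)))) (XT.nd (nat_lit 156) (nat_lit 0) (nat_lit 0) (XT.nd (nat_lit 78) (nat_lit 0) (nat_lit 0) (XT.lf (nat_lit 0) (nat_lit 27612282066) (nat_lit 76) (nat_lit 25973893940) (nat_lit 76) (nat_lit 21832566308) (nat_lit 4) (nat_lit 4) (nat_lit 5) (nat_lit 5) (nat_lit 5) (nat_lit 4) (nat_lit 402) (nat_lit 204) (nat_lit 174)) (XT.lf (nat_lit 0) (nat_lit 34036297220) (nat_lit 76) (nat_lit 23890998254) (nat_lit 76) (nat_lit 19665158350) (nat_lit 4) (nat_lit 4) (nat_lit 5) (nat_lit 5) (nat_lit 5) (nat_lit 4) (nat_lit 403) (nat_lit 204) (nat_lit 173))) (XT.nd (nat_lit 78) (nat_lit 0) (nat_lit 0) (XT.lf (nat_lit 0) (nat_lit 40579998937) (nat_lit 76) (nat_lit 21780214034) (nat_lit 76) (nat_lit 17472323381) (nat_lit 4) (nat_lit 4) (nat_lit 5) (nat_lit 5) (nat_lit 5) (nat_lit 4) (nat_lit 404) (nat_lit 204) (nat_lit 172))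 (XT.lf (nat_lit 0) (nat_lit 47249105013) (nat_lit 76) (nat_lit 19639696906) (nat_lit 76) (nat_lit 15252145332) (nat_lit 4) (nat_lit 4) (nat_lit 5) (nat_lit 5) (nat_lit 5) (nat_lit 4) (nat_lit 405) (nat_lit 204) (nat_lit 171)))))) (XT.nd (nat_lit 546) (nat_lit 76) (nat_lit 0) (XT.nd (nat_lit 234) (nat_lit 76) (nat_lit 0) (XT.nd (nat_lit 78) (nat_lit 0) (nat_lit 0) (XT.lf (nat_lit 0) (nat_lit 54049442823) (nat_lit 76) (nat_lit 17467576515) (nat_lit 76) (nat_lit 13002684241) (nat_lit 4) (nat_lit 4) (nat_lit 5) (nat_lit 5) (nat_lit 5) (nat_lit 4) (nat_lit 406) (nat_lit 204) (nat_lit 170)) (XT.nd (nat_lit 78) (nat_lit 0) (nat_lit 0) (XT.lf (nat_lit 0) (nat_lit 60986954409) (nat_lit 76) (nat_lit 15261954893) (nat_lit 76) (nat_lit 10721974560) (nat_lit 4) (nat_lit 4) (nat_lit 5) (nat_lit 5) (nat_lit 5) (nat_lit 4) (nat_lit 407) (nat_lit 204) (nat_lit 169)) (XT.lf (nat_lit 0) (nat_lit 68067701676) (nat_lit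 76) (nat_lit 13020904796) (nat_lit 76) (nat_lit 8408023436) (nat_lit 4) (nat_lit 4) (nat_lit 5) (nat_lit 5) (nat_lit 5) (nat_lit 4) (nat_lit 408) (nat_lit 204) (nat_lit 168)))) (XT.nd (nat_lit 156) (nat_lit 76) (nat_lit 0) (XT.nd (nat_lit 78) (nat_lit 0) (nat_lit 0) (XT.lf (nat_lit 0) (nat_lit 75297871683) (nat_lit 76) (nat_lit 10742468026) (nat_lit 76) (nat_lit 6058808969) (nat_lit 4) (nat_lit 4) (nat_lit 5) (nat_lit 5) (nat_lit 5) (nat_lit 4) (nat_lit 409) (nat_lit 204) (nat_lit 167)) (XT.lf (nat_lit 0) (nat_lit 82683782055) (nat_lit 76) (nat_lit 8424653715) (nat_lit 76) (nat_lit 3672278448) (nat_lit 4) (nat_lit 4) (nat_lit 5) (nat_lit 5) (nat_lit 5) (nat_lit 4) (nat_lit 410) (nat_lit 204) (nat_lit 166))) (XT.nd (nat_lit 78) (nat_lit 76) (nat_lit 0) (XT.lf (nat_lit 0) (nat_lit 90231886501) (nat_lit 76) (nat_lit 6065436590) (nat_lit 76) (nat_lit 1246346555) (nat_lit 4) (nat_lit 4) (nat_lit 5) (nat_lit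 5) (nat_lit 5) (nat_lit 4) (nat_lit 411) (nat_lit 204) (nat_lit 165)) (XT.lf (nat_lit 0) (nat_lit 1197278270) (nat_lit 152) (nat_lit 2453386764) (nat_lit 76) (nat_lit 96739412017) (nat_lit 3) (nat_lit 5) (nat_lit 5) (nat_lit 5) (nat_lit 4) (nat_lit 4) (nat_lit 412) (nat_lit 204) (nat_lit 164))))) (XT.nd (nat_lit 37440) (nat_lit 0) (nat_lit 608) (XT.nd (nat_lit 37284) (nat_lit 0) (nat_lit 684) (XT.lf (nat_lit 0) (nat_lit 2531243642) (nat_lit 76) (nat_lit 1152495452) (nat_lit 152) (nat_lit 99637934969) (nat_lit 2) (nat_lit 5) (nat_lit 3) (nat_lit 5) (nat_lit 4) (nat_lit 4) (nat_lit 413) (nat_lit 204) (nat_lit 163)) (XT.nd (nat_lit 78) (nat_lit 0) (nat_lit 0) (XT.lf (nat_lit 0) (nat_lit 4855537467) (nat_lit 152) (nat_lit 6089554188) (nat_lit 0) (nat_lit 4855537467) (nat_lit 11) (nat_lit 5) (nat_lit 13) (nat_lit 4) (nat_lit 11) (nat_lit 4) (nat_lit 370) (nat_lit 205) (nat_lit 205)) (XT.lf (nat_lit 0)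 (nat_lit 14144488166) (nat_lit 152) (nat_lit 4352378969) (nat_lit 0) (nat_lit 13920333291) (nat_lit 11) (nat_lit 5) (nat_lit 13) (nat_lit 4) (nat_lit 11) (nat_lit 4) (nat_lit 371) (nat_lit 205) (nat_lit 204)))) (XT.nd (nat_lit 156) (nat_lit 0) (nat_lit 0) (XT.nd (nat_lit 78) (nat_lit 0) (nat_lit 0) (XT.lf (nat_lit 0) (nat_lit 3621531238) (nat_lit 76) (nat_lit 15039689309) (nat_lit 76) (nat_lit 14597908342) (nat_lit 10) (nat_lit 4) (nat_lit 11) (nat_lit 5) (nat_lit 11) (nat_lit 4) (nat_lit 372) (nat_lit 205) (nat_lit 203)) (XT.lf (nat_lit 0) (nat_lit 11767139920) (nat_lit 76) (nat_lit 11506724228) (nat_lit 76) (nat_lit 10853655792) (nat_lit 10) (nat_lit 4) (nat_lit 11) (nat_lit 5) (nat_lit 11) (nat_lit 4) (nat_lit 373) (nat_lit 205) (nat_lit 202))) (XT.nd (nat_lit 78) (nat_lit 0) (nat_lit 0) (XT.lf (nat_lit 0) (nat_lit 20004943721) (nat_lit 76) (nat_lit 7938835328) (nat_lit 76) (nat_lit 7080633428)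 (nat_lit 10) (nat_lit 4) (nat_lit 11) (nat_lit 5) (nat_lit 11) (nat_lit 4) (nat_lit 374) (nat_lit 205) (nat_lit 201)) (XT.lf (nat_lit 0) (nat_lit 28342140722) (nat_lit 76) (nat_lit 4332905037) (nat_lit 76) (nat_lit 3275544433) (nat_lit 10) (nat_lit 4) (nat_lit 11) (nat_lit 5) (nat_lit 11) (nat_lit 4) (nat_lit 375) (nat_lit 205) (nat_lit 200))))))) (XT.nd (nat_lit 1092) (nat_lit 76) (nat_lit 0) (XT.nd (nat_lit 546) (nat_lit 152) (nat_lit 0) (XT.nd (nat_lit 234) (nat_lit 76) (nat_lit 0) (XT.nd (nat_lit 78) (nat_lit 76) (nat_lit 0) (XT.lf (nat_lit 0) (nat_lit 553912089) (nat_lit 152) (nat_lit 126277027) (nat_lit 76) (nat_lit 36226510338) (nat_lit 9) (nat_lit 5) (nat_lit 11) (nat_lit 5) (nat_lit 10) (nat_lit 4) (nat_lit 376) (nat_lit 205) (nat_lit 199)) (XT.nd (nat_lit 78) (nat_lit 0) (nat_lit 0) (XT.lf (nat_lit 0) (nat_lit 4460096093) (nat_lit 152) (nat_lit 30366059475) (nat_lit 0) (nat_lit 3063547794)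 (nat_lit 8) (nat_lit 5) (nat_lit 10) (nat_lit 4) (nat_lit 8) (nat_lit 4) (nat_lit 377) (nat_lit 205) (nat_lit 198)) (XT.lf (nat_lit 0) (nat_lit 8416729492) (nat_lit 152) (nat_lit 23644252961) (nat_lit 0) (nat_lit 6843231265) (nat_lit 8) (nat_lit 5) (nat_lit 10) (nat_lit 4) (nat_lit 8) (nat_lit 4) (nat_lit 378) (nat_lit 205) (nat_lit 197)))) (XT.nd (nat_lit 156) (nat_lit 76) (nat_lit 0) (XT.nd (nat_lit 78) (nat_lit 0) (nat_lit 0) (XT.lf (nat_lit 0) (nat_lit 12419480876) (nat_lit 152) (nat_lit 16857683166) (nat_lit 0) (nat_lit 10674186602) (nat_lit 8) (nat_lit 5) (nat_lit 10) (nat_lit 4) (nat_lit 8) (nat_lit 4) (nat_lit 379) (nat_lit 205) (nat_lit 196)) (XT.lf (nat_lit 0) (nat_lit 16471847797) (nat_lit 152) (nat_lit 10000420078) (nat_lit 0) (nat_lit 14559761244) (nat_lit 8) (nat_lit 5) (nat_lit 10) (nat_lit 4) (nat_lit 8) (nat_lit 4) (nat_lit 380) (nat_lit 205) (nat_lit 195))) (XT.nd (nat_lit 78)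 (nat_lit 76) (nat_lit 0) (XT.lf (nat_lit 0) (nat_lit 20577371155) (nat_lit 152) (nat_lit 3066471913) (nat_lit 0) (nat_lit 18503350352) (nat_lit 8) (nat_lit 5) (nat_lit 10) (nat_lit 4) (nat_lit 8) (nat_lit 4) (nat_lit 381) (nat_lit 205) (nat_lit 194)) (XT.lf (nat_lit 0) (nat_lit 4028837243) (nat_lit 76) (nat_lit 20749528708) (nat_lit 76) (nat_lit 18518290185) (nat_lit 7) (nat_lit 4) (nat_lit 8) (nat_lit 5) (nat_lit 8) (nat_lit 4) (nat_lit 382) (nat_lit 205) (nat_lit 193))))) (XT.nd (nat_lit 234) (nat_lit 152) (nat_lit 0) (XT.nd (nat_lit 78) (nat_lit 0) (nat_lit 0) (XT.lf (nat_lit 0) (nat_lit 11275818946) (nat_lit 76) (nat_lit 17794857296) (nat_lit 76) (nat_lit 15410980210) (nat_lit 7) (nat_lit 4) (nat_lit 8) (nat_lit 5) (nat_lit 8) (nat_lit 4) (nat_lit 383) (nat_lit 205) (nat_lit 192)) (XT.nd (nat_lit 78) (nat_lit 0) (nat_lit 0) (XT.lf (nat_lit 0) (nat_lit 18619776706) (nat_lit 76) (nat_lit 14808212434)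 (nat_lit 76) (nat_lit 12276142569) (nat_lit 7) (nat_lit 4) (nat_lit 8) (nat_lit 5) (nat_lit 8) (nat_lit 4) (nat_lit 384) (nat_lit 205) (nat_lit 191)) (XT.lf (nat_lit 0) (nat_lit 26067127573) (nat_lit 76) (nat_lit 11786984434) (nat_lit 76) (nat_lit 9111038084) (nat_lit 7) (nat_lit 4) (nat_lit 8) (nat_lit 5) (nat_lit 8) (nat_lit 4) (nat_lit 385) (nat_lit 205) (nat_lit 190)))) (XT.nd (nat_lit 156) (nat_lit 152) (nat_lit 0) (XT.nd (nat_lit 78) (nat_lit 0) (nat_lit 0) (XT.lf (nat_lit 0) (nat_lit 33624378940) (nat_lit 76) (nat_lit 8728533386) (nat_lit 76) (nat_lit 5912901129) (nat_lit 7) (nat_lit 4) (nat_lit 8) (nat_lit 5) (nat_lit 8) (nat_lit 4) (nat_lit 386) (nat_lit 205) (nat_lit 189)) (XT.lf (nat_lit 0) (nat_lit 41298134232) (nat_lit 76) (nat_lit 5630186859) (nat_lit 76) (nat_lit 2678937215) (nat_lit 7) (nat_lit 4) (nat_lit 8) (nat_lit 5) (nat_lit 8) (nat_lit 4) (nat_lit 387) (nat_lit 205) (nat_lit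 188))) (XT.nd (nat_lit 78) (nat_lit 76) (nat_lit 0) (XT.lf (nat_lit 0) (nat_lit 582094625) (nat_lit 152) (nat_lit 1901264919) (nat_lit 76) (nat_lit 48507126032) (nat_lit 6) (nat_lit 5) (nat_lit 8) (nat_lit 5) (nat_lit 7) (nat_lit 4) (nat_lit 388) (nat_lit 205) (nat_lit 187)) (XT.lf (nat_lit 0) (nat_lit 3883846322) (nat_lit 152) (nat_lit 47764061729) (nat_lit 0) (nat_lit 766613893) (nat_lit 5) (nat_lit 5) (nat_lit 7) (nat_lit 4) (nat_lit 5) (nat_lit 4) (nat_lit 389) (nat_lit 205) (nat_lit 186)))))) (XT.nd (nat_lit 546) (nat_lit 76) (nat_lit 0) (XT.nd (nat_lit 234) (nat_lit 0) (nat_lit 0) (XT.nd (nat_lit 78) (nat_lit 0) (nat_lit 0) (XT.lf (nat_lit 0) (nat_lit 7273214495) (nat_lit 152) (nat_lit 42572929915) (nat_lit 0) (nat_lit 4035487776) (nat_lit 5) (nat_lit 5) (nat_lit 7) (nat_lit 4) (nat_lit 5) (nat_lit 4) (nat_lit 390) (nat_lit 205) (nat_lit 185)) (XT.nd (nat_lit 78) (nat_lit 0) (nat_lit 0) (XT.lf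 (nat_lit 0) (nat_lit 10710464753) (nat_lit 152) (nat_lit 37328161085) (nat_lit 0) (nat_lit 7355753285) (nat_lit 5) (nat_lit 5) (nat_lit 7) (nat_lit 4) (nat_lit 5) (nat_lit 4) (nat_lit 391) (nat_lit 205) (nat_lit 184)) (XT.lf (nat_lit 0) (nat_lit 14198600517) (nat_lit 152) (nat_lit 32025172432) (nat_lit 0) (nat_lit 10730311623) (nat_lit 5) (nat_lit 5) (nat_lit 7) (nat_lit 4) (nat_lit 5) (nat_lit 4) (nat_lit 392) (nat_lit 205) (nat_lit 183)))) (XT.nd (nat_lit 156) (nat_lit 0) (nat_lit 0) (XT.nd (nat_lit 78) (nat_lit 0) (nat_lit 0) (XT.lf (nat_lit 0) (nat_lit 17740669673) (nat_lit 152) (nat_lit 26659330274) (nat_lit 0) (nat_lit 14162111434) (nat_lit 5) (nat_lit 5) (nat_lit 7) (nat_lit 4) (nat_lit 5) (nat_lit 4) (nat_lit 393) (nat_lit 205) (nat_lit 182)) (XT.lf (nat_lit 0) (nat_lit 21339767233) (nat_lit 152) (nat_lit 21225946014) (nat_lit 0) (nat_lit 17654151378) (nat_lit 5) (nat_lit 5) (nat_lit 7)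 (nat_lit 4) (nat_lit 5) (nat_lit 4) (nat_lit 394) (nat_lit 205) (nat_lit 181))) (XT.nd (nat_lit 78) (nat_lit 0) (nat_lit 0) (XT.lf (nat_lit 0) (nat_lit 24999038040) (nat_lit 152) (nat_lit 15720272033) (nat_lit 0) (nat_lit 21209482751) (nat_lit 5) (nat_lit 5) (nat_lit 7) (nat_lit 4) (nat_lit 5) (nat_lit 4) (nat_lit 395) (nat_lit 205) (nat_lit 180)) (XT.lf (nat_lit 0) (nat_lit 28721679515) (nat_lit 152) (nat_lit 10137497549) (nat_lit 0) (nat_lit 24831212153) (nat_lit 5) (nat_lit 5) (nat_lit 7) (nat_lit 4) (nat_lit 5) (nat_lit 4) (nat_lit 396) (nat_lit 205) (nat_lit 179))))) (XT.nd (nat_lit 312) (nat_lit 0) (nat_lit 0) (XT.nd (nat_lit 156) (nat_lit 0) (nat_lit 0) (XT.nd (nat_lit 78) (nat_lit 76) (nat_lit 0) (XT.lf (nat_lit 0) (nat_lit 32510944450) (nat_lit 152) (nat_lit 4472744408) (nat_lit 0) (nat_lit 28522504204) (nat_lit 5) (nat_lit 5) (nat_lit 7) (nat_lit 4) (nat_lit 5) (nat_lit 4) (nat_lit 397)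 (nat_lit 205) (nat_lit 178)) (XT.lf (nat_lit 0) (nat_lit 1304390529) (nat_lit 76) (nat_lit 35078291925) (nat_lit 76) (nat_lit 30994732373) (nat_lit 4) (nat_lit 4) (nat_lit 5) (nat_lit 5) (nat_lit 5) (nat_lit 4) (nat_lit 398) (nat_lit 205) (nat_lit 177))) (XT.nd (nat_lit 78) (nat_lit 0) (nat_lit 0) (XT.lf (nat_lit 0) (nat_lit 7264326101) (nat_lit 76) (nat_lit 33108152890) (nat_lit 76) (nat_lit 28932244497) (nat_lit 4) (nat_lit 4) (nat_lit 5) (nat_lit 5) (nat_lit 5) (nat_lit 4) (nat_lit 399) (nat_lit 205) (nat_lit 176)) (XT.lf (nat_lit 0) (nat_lit 13323253634) (nat_lit 76) (nat_lit 31116716221) (nat_lit 76) (nat_lit 26851148760) (nat_lit 4) (nat_lit 4) (nat_lit 5) (nat_lit 5) (nat_lit 5) (nat_lit 4) (nat_lit 400) (nat_lit 205) (nat_lit 175)))) (XT.nd (nat_lit 156) (nat_lit 0) (nat_lit 0) (XT.nd (nat_lit 78) (nat_lit 0) (nat_lit 0) (XT.lf (nat_lit 0) (nat_lit 19486467337) (nat_lit 76) (nat_lit 29102241828)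 (nat_lit 76) (nat_lit 24749626727) (nat_lit 4) (nat_lit 4) (nat_lit 5) (nat_lit 5) (nat_lit 5) (nat_lit 4) (nat_lit 401) (nat_lit 205) (nat_lit 174)) (XT.lf (nat_lit 0) (nat_lit 25759352541) (nat_lit 76) (nat_lit 27062969490) (nat_lit 76) (nat_lit 22625842118) (nat_lit 4) (nat_lit 4) (nat_lit 5) (nat_lit 5) (nat_lit 5) (nat_lit 4) (nat_lit 402) (nat_lit 205) (nat_lit 173))) (XT.nd (nat_lit 78) (nat_lit 0) (nat_lit 0) (XT.lf (nat_lit 0) (nat_lit 32147390408) (nat_lit 76) (nat_lit 24997117320) (nat_lit 76) (nat_lit 20477939199) (nat_lit 4) (nat_lit 4) (nat_lit 5) (nat_lit 5) (nat_lit 5) (nat_lit 4) (nat_lit 403) (nat_lit 205) (nat_lit 172)) (XT.lf (nat_lit 0) (nat_lit 38656162720) (nat_lit 76) (nat_lit 22902880203) (nat_lit 76) (nat_lit 18304041160) (nat_lit 4) (nat_lit 4) (nat_lit 5) (nat_lit 5) (nat_lit 5) (nat_lit 4) (nat_lit 404) (nat_lit 205) (nat_lit 171))))))))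
noncomputable def xc9 : XT := (XT.nd (nat_lit 39234) (nat_lit 0) (nat_lit 76) (XT.nd (nat_lit 38142) (nat_lit 0) (nat_lit 380) (XT.nd (nat_lit 546) (nat_lit 152) (nat_lit 0) (XT.nd (nat_lit 234) (nat_lit 0) (nat_lit 0) (XT.nd (nat_lit 78) (nat_lit 0) (nat_lit 0) (XT.lf (nat_lit 0) (nat_lit 45291356752) (nat_lit 76) (nat_lit 20778428223) (nat_lit 76) (nat_lit 16102248481) (nat_lit 4) (nat_lit 4) (nat_lit 5) (nat_lit 5) (nat_lit 5) (nat_lit 4) (nat_lit 405) (nat_lit 205) (nat_lit 170)) (XT.nd (nat_lit 78) (nat_lit 0) (nat_lit 0) (XT.lf (nat_lit 0) (nat_lit 52058770248) (nat_lit 76) (nat_lit 18621905064) (nat_lit 76) (nat_lit 13870637263) (nat_lit 4) (nat_lit 4) (nat_lit 5) (nat_lit 5) (nat_lit 5) (nat_lit 4) (nat_lit 406) (nat_lit 205) (nat_lit 169)) (XT.lf (nat_lit 0) (nat_lit 58964316481) (nat_lit 76) (nat_lit 16431426384) (nat_lit 76) (nat_lit 11607257556) (nat_lit 4) (nat_lit 4) (nat_lit 5) (nat_lit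 5) (nat_lit 5) (nat_lit 4) (nat_lit 407) (nat_lit 205) (nat_lit 168)))) (XT.nd (nat_lit 156) (nat_lit 0) (nat_lit 0) (XT.nd (nat_lit 78) (nat_lit 0) (nat_lit 0) (XT.lf (nat_lit 0) (nat_lit 66014029424) (nat_lit 76) (nat_lit 14205078174) (nat_lit 76) (nat_lit 9310131649) (nat_lit 4) (nat_lit 4) (nat_lit 5) (nat_lit 5) (nat_lit 5) (nat_lit 4) (nat_lit 408) (nat_lit 205) (nat_lit 167)) (XT.lf (nat_lit 0) (nat_lit 73214069020) (nat_lit 76) (nat_lit 11940915080) (nat_lit 76) (nat_lit 6977252345) (nat_lit 4) (nat_lit 4) (nat_lit 5) (nat_lit 5) (nat_lit 5) (nat_lit 4) (nat_lit 409) (nat_lit 205) (nat_lit 166))) (XT.nd (nat_lit 78) (nat_lit 0) (nat_lit 0) (XT.lf (nat_lit 0) (nat_lit 80570726565) (nat_lit 76) (nat_lit 9636958708) (nat_lit 76) (nat_lit 4606581205) (nat_lit 4) (nat_lit 4) (nat_lit 5) (nat_lit 5) (nat_lit 5) (nat_lit 4) (nat_lit 410) (nat_lit 205) (nat_lit 165)) (XT.lf (nat_lit 0) (nat_lit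 88090430208) (nat_lit 76) (nat_lit 7291195891) (nat_lit 76) (nat_lit 2196046769) (nat_lit 4) (nat_lit 4) (nat_lit 5) (nat_lit 5) (nat_lit 5) (nat_lit 4) (nat_lit 411) (nat_lit 205) (nat_lit 164))))) (XT.nd (nat_lit 37284) (nat_lit 0) (nat_lit 608) (XT.nd (nat_lit 78) (nat_lit 76) (nat_lit 0) (XT.lf (nat_lit 0) (nat_lit 251452849) (nat_lit 152) (nat_lit 4647584904) (nat_lit 76) (nat_lit 95525758533) (nat_lit 3) (nat_lit 5) (nat_lit 5) (nat_lit 5) (nat_lit 4) (nat_lit 4) (nat_lit 412) (nat_lit 205) (nat_lit 163)) (XT.nd (nat_lit 37128) (nat_lit 0) (nat_lit 684) (XT.lf (nat_lit 0) (nat_lit 265782145) (nat_lit 76) (nat_lit 2436124158) (nat_lit 152) (nat_lit 100655569567) (nat_lit 2) (nat_lit 5) (nat_lit 3) (nat_lit 5) (nat_lit 4) (nat_lit 4) (nat_lit 413) (nat_lit 205) (nat_lit 162)) (XT.lf (nat_lit 0) (nat_lit 624675112) (nat_lit 152) (nat_lit 13773801325) (nat_lit 0) (nat_lit 624675112) (nat_lit 11)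 (nat_lit 5) (nat_lit 13) (nat_lit 4) (nat_lit 11) (nat_lit 4) (nat_lit 368) (nat_lit 206) (nat_lit 206)))) (XT.nd (nat_lit 156) (nat_lit 76) (nat_lit 0) (XT.nd (nat_lit 78) (nat_lit 0) (nat_lit 0) (XT.lf (nat_lit 0) (nat_lit 5553174145) (nat_lit 152) (nat_lit 19936164992) (nat_lit 0) (nat_lit 5322294623) (nat_lit 11) (nat_lit 5) (nat_lit 13) (nat_lit 4) (nat_lit 11) (nat_lit 4) (nat_lit 369) (nat_lit 206) (nat_lit 205)) (XT.lf (nat_lit 0) (nat_lit 9899082294) (nat_lit 152) (nat_lit 12259423109) (nat_lit 0) (nat_lit 9444047897) (nat_lit 11) (nat_lit 5) (nat_lit 13) (nat_lit 4) (nat_lit 11) (nat_lit 4) (nat_lit 370) (nat_lit 206) (nat_lit 204))) (XT.nd (nat_lit 78) (nat_lit 76) (nat_lit 0) (XT.lf (nat_lit 0) (nat_lit 14290872067) (nat_lit 152) (nat_lit 4510669169) (nat_lit 0) (nat_lit 13618211578) (nat_lit 11) (nat_lit 5) (nat_lit 13) (nat_lit 4) (nat_lit 11) (nat_lit 4) (nat_lit 371) (nat_lit 206)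 (nat_lit 203)) (XT.lf (nat_lit 0) (nat_lit 3382879750) (nat_lit 76) (nat_lit 15382019510) (nat_lit 76) (nat_lit 14498071553) (nat_lit 10) (nat_lit 4) (nat_lit 11) (nat_lit 5) (nat_lit 11) (nat_lit 4) (nat_lit 372) (nat_lit 206) (nat_lit 202)))))) (XT.nd (nat_lit 546) (nat_lit 76) (nat_lit 0) (XT.nd (nat_lit 234) (nat_lit 152) (nat_lit 0) (XT.nd (nat_lit 78) (nat_lit 0) (nat_lit 0) (XT.lf (nat_lit 0) (nat_lit 11453526294) (nat_lit 76) (nat_lit 11884061884) (nat_lit 76) (nat_lit 10794980462) (nat_lit 10) (nat_lit 4) (nat_lit 11) (nat_lit 5) (nat_lit 11) (nat_lit 4) (nat_lit 373) (nat_lit 206) (nat_lit 201)) (XT.nd (nat_lit 78) (nat_lit 0) (nat_lit 0) (XT.lf (nat_lit 0) (nat_lit 19618551319) (nat_lit 76) (nat_lit 8350160805) (nat_lit 76) (nat_lit 7061920679) (nat_lit 10) (nat_lit 4) (nat_lit 11) (nat_lit 5) (nat_lit 11) (nat_lit 4) (nat_lit 374) (nat_lit 206) (nat_lit 200)) (XT.lf (nat_lit 0) (nat_lit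 27885089316) (nat_lit 76) (nat_lit 4777228398) (nat_lit 76) (nat_lit 3295630308) (nat_lit 10) (nat_lit 4) (nat_lit 11) (nat_lit 5) (nat_lit 11) (nat_lit 4) (nat_lit 375) (nat_lit 206) (nat_lit 199)))) (XT.nd (nat_lit 156) (nat_lit 0) (nat_lit 0) (XT.nd (nat_lit 78) (nat_lit 76) (nat_lit 0) (XT.lf (nat_lit 0) (nat_lit 497284645) (nat_lit 152) (nat_lit 659836438) (nat_lit 76) (nat_lit 35758057226) (nat_lit 9) (nat_lit 5) (nat_lit 11) (nat_lit 5) (nat_lit 10) (nat_lit 4) (nat_lit 376) (nat_lit 206) (nat_lit 198)) (XT.lf (nat_lit 0) (nat_lit 4356774500) (nat_lit 152) (nat_lit 30983694162) (nat_lit 0) (nat_lit 2559121398) (nat_lit 8) (nat_lit 5) (nat_lit 10) (nat_lit 4) (nat_lit 8) (nat_lit 4) (nat_lit 377) (nat_lit 206) (nat_lit 197))) (XT.nd (nat_lit 78) (nat_lit 0) (nat_lit 0) (XT.lf (nat_lit 0) (nat_lit 8277653704) (nat_lit 152) (nat_lit 24329321596) (nat_lit 0) (nat_lit 6308204555) (nat_lit 8) (nat_lit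 5) (nat_lit 10) (nat_lit 4) (nat_lit 8) (nat_lit 4) (nat_lit 378) (nat_lit 206) (nat_lit 196)) (XT.lf (nat_lit 0) (nat_lit 12245692278) (nat_lit 152) (nat_lit 17608221653) (nat_lit 0) (nat_lit 10109450850) (nat_lit 8) (nat_lit 5) (nat_lit 10) (nat_lit 4) (nat_lit 8) (nat_lit 4) (nat_lit 379) (nat_lit 206) (nat_lit 195))))) (XT.nd (nat_lit 234) (nat_lit 0) (nat_lit 0) (XT.nd (nat_lit 78) (nat_lit 76) (nat_lit 0) (XT.lf (nat_lit 0) (nat_lit 16264357440) (nat_lit 152) (nat_lit 10814521529) (nat_lit 0) (nat_lit 13966181761) (nat_lit 8) (nat_lit 5) (nat_lit 10) (nat_lit 4) (nat_lit 8) (nat_lit 4) (nat_lit 380) (nat_lit 206) (nat_lit 194)) (XT.nd (nat_lit 78) (nat_lit 76) (nat_lit 0) (XT.lf (nat_lit 0) (nat_lit 20337160645) (nat_lit 152) (nat_lit 3942284979) (nat_lit 0) (nat_lit 17881767246) (nat_lit 8) (nat_lit 5) (nat_lit 10) (nat_lit 4) (nat_lit 8) (nat_lit 4) (nat_lit 381) (nat_lit 206) (nat_lit 193))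 (XT.lf (nat_lit 0) (nat_lit 3074487181) (nat_lit 76) (nat_lit 21422727324) (nat_lit 76) (nat_lit 18814695363) (nat_lit 7) (nat_lit 4) (nat_lit 8) (nat_lit 5) (nat_lit 8) (nat_lit 4) (nat_lit 382) (nat_lit 206) (nat_lit 192)))) (XT.nd (nat_lit 156) (nat_lit 0) (nat_lit 0) (XT.nd (nat_lit 78) (nat_lit 0) (nat_lit 0) (XT.lf (nat_lit 0) (nat_lit 10262142089) (nat_lit 76) (nat_lit 18495970539) (nat_lit 76) (nat_lit 15739745798) (nat_lit 7) (nat_lit 4) (nat_lit 8) (nat_lit 5) (nat_lit 8) (nat_lit 4) (nat_lit 383) (nat_lit 206) (nat_lit 191)) (XT.lf (nat_lit 0) (nat_lit 17548501018) (nat_lit 76) (nat_lit 15536427257) (nat_lit 76) (nat_lit 12636326032) (nat_lit 7) (nat_lit 4) (nat_lit 8) (nat_lit 5) (nat_lit 8) (nat_lit 4) (nat_lit 384) (nat_lit 206) (nat_lit 190))) (XT.nd (nat_lit 78) (nat_lit 0) (nat_lit 0) (XT.lf (nat_lit 0) (nat_lit 24939930690) (nat_lit 76) (nat_lit 12541511470) (nat_lit 76) (nat_lit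 9501724337) (nat_lit 7) (nat_lit 4) (nat_lit 8) (nat_lit 5) (nat_lit 8) (nat_lit 4) (nat_lit 385) (nat_lit 206) (nat_lit 189)) (XT.lf (nat_lit 0) (nat_lit 32442889636) (nat_lit 76) (nat_lit 9508606260) (nat_lit 76) (nat_lit 6333201742) (nat_lit 7) (nat_lit 4) (nat_lit 8) (nat_lit 5) (nat_lit 8) (nat_lit 4) (nat_lit 386) (nat_lit 206) (nat_lit 188))))))) (XT.nd (nat_lit 1092) (nat_lit 76) (nat_lit 0) (XT.nd (nat_lit 546) (nat_lit 76) (nat_lit 0) (XT.nd (nat_lit 234) (nat_lit 0) (nat_lit 0) (XT.nd (nat_lit 78) (nat_lit 152) (nat_lit 0) (XT.lf (nat_lit 0) (nat_lit 40063933838) (nat_lit 76) (nat_lit 6435061517) (nat_lit 76) (nat_lit 3127989634) (nat_lit 7) (nat_lit 4) (nat_lit 8) (nat_lit 5) (nat_lit 8) (nat_lit 4) (nat_lit 387) (nat_lit 206) (nat_lit 187)) (XT.nd (nat_lit 78) (nat_lit 76) (nat_lit 0) (XT.lf (nat_lit 0) (nat_lit 114435172) (nat_lit 152) (nat_lit 3202600876) (nat_lit 76) (nat_lit 47694131720)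 (nat_lit 6) (nat_lit 5) (nat_lit 8) (nat_lit 5) (nat_lit 7) (nat_lit 4) (nat_lit 388) (nat_lit 206) (nat_lit 186)) (XT.lf (nat_lit 0) (nat_lit 3279748083) (nat_lit 76) (nat_lit 89099935) (nat_lit 152) (nat_lit 49067781061) (nat_lit 5) (nat_lit 5) (nat_lit 6) (nat_lit 5) (nat_lit 7) (nat_lit 4) (nat_lit 389) (nat_lit 206) (nat_lit 185)))) (XT.nd (nat_lit 156) (nat_lit 0) (nat_lit 0) (XT.nd (nat_lit 78) (nat_lit 0) (nat_lit 0) (XT.lf (nat_lit 0) (nat_lit 6730857759) (nat_lit 152) (nat_lit 44015186759) (nat_lit 0) (nat_lit 3158520198) (nat_lit 5) (nat_lit 5) (nat_lit 7) (nat_lit 4) (nat_lit 5) (nat_lit 4) (nat_lit 390) (nat_lit 206) (nat_lit 184)) (XT.lf (nat_lit 0) (nat_lit 10142377966) (nat_lit 152) (nat_lit 38819247112) (nat_lit 0) (nat_lit 6456462980) (nat_lit 5) (nat_lit 5) (nat_lit 7) (nat_lit 4) (nat_lit 5) (nat_lit 4) (nat_lit 391) (nat_lit 206) (nat_lit 183))) (XT.nd (nat_lit 78) (nat_lit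 0) (nat_lit 0) (XT.lf (nat_lit 0) (nat_lit 13605533099) (nat_lit 152) (nat_lit 33563665431) (nat_lit 0) (nat_lit 9809348768) (nat_lit 5) (nat_lit 5) (nat_lit 7) (nat_lit 4) (nat_lit 5) (nat_lit 4) (nat_lit 392) (nat_lit 206) (nat_lit 182)) (XT.lf (nat_lit 0) (nat_lit 17123349216) (nat_lit 152) (nat_lit 28243849462) (nat_lit 0) (nat_lit 13220107267) (nat_lit 5) (nat_lit 5) (nat_lit 7) (nat_lit 4) (nat_lit 5) (nat_lit 4) (nat_lit 393) (nat_lit 206) (nat_lit 181))))) (XT.nd (nat_lit 234) (nat_lit 76) (nat_lit 0) (XT.nd (nat_lit 78) (nat_lit 0) (nat_lit 0) (XT.lf (nat_lit 0) (nat_lit 20698900135) (nat_lit 152) (nat_lit 22855150821) (nat_lit 0) (nat_lit 16691718753) (nat_lit 5) (nat_lit 5) (nat_lit 7) (nat_lit 4) (nat_lit 5) (nat_lit 4) (nat_lit 394) (nat_lit 206) (nat_lit 180)) (XT.nd (nat_lit 78) (nat_lit 0) (nat_lit 0) (XT.lf (nat_lit 0) (nat_lit 24335310126) (nat_lit 152) (nat_lit 17392860937) (nat_lit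 0) (nat_lit 20227216673) (nat_lit 5) (nat_lit 5) (nat_lit 7) (nat_lit 4) (nat_lit 5) (nat_lit 4) (nat_lit 395) (nat_lit 206) (nat_lit 179)) (XT.lf (nat_lit 0) (nat_lit 28035756634) (nat_lit 152) (nat_lit 11852206935) (nat_lit 0) (nat_lit 23829690295) (nat_lit 5) (nat_lit 5) (nat_lit 7) (nat_lit 4) (nat_lit 5) (nat_lit 4) (nat_lit 396) (nat_lit 206) (nat_lit 178)))) (XT.nd (nat_lit 156) (nat_lit 76) (nat_lit 0) (XT.nd (nat_lit 78) (nat_lit 0) (nat_lit 0) (XT.lf (nat_lit 0) (nat_lit 31803473058) (nat_lit 152) (nat_lit 6228347466) (nat_lit 0) (nat_lit 27502287413) (nat_lit 5) (nat_lit 5) (nat_lit 7) (nat_lit 4) (nat_lit 5) (nat_lit 4) (nat_lit 397) (nat_lit 206) (nat_lit 177)) (XT.lf (nat_lit 0) (nat_lit 35641751577) (nat_lit 152) (nat_lit 516368479) (nat_lit 0) (nat_lit 31248217092) (nat_lit 5) (nat_lit 5) (nat_lit 7) (nat_lit 4) (nat_lit 5) (nat_lit 4) (nat_lit 398) (nat_lit 206) (nat_lit 176)))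 (XT.nd (nat_lit 78) (nat_lit 0) (nat_lit 0) (XT.lf (nat_lit 0) (nat_lit 5393976994) (nat_lit 76) (nat_lit 34211819241) (nat_lit 76) (nat_lit 29728625687) (nat_lit 4) (nat_lit 4) (nat_lit 5) (nat_lit 5) (nat_lit 5) (nat_lit 4) (nat_lit 399) (nat_lit 206) (nat_lit 175)) (XT.lf (nat_lit 0) (nat_lit 11414736223) (nat_lit 76) (nat_lit 32238464038) (nat_lit 76) (nat_lit 27668222844) (nat_lit 4) (nat_lit 4) (nat_lit 5) (nat_lit 5) (nat_lit 5) (nat_lit 4) (nat_lit 400) (nat_lit 206) (nat_lit 174)))))) (XT.nd (nat_lit 546) (nat_lit 76) (nat_lit 0) (XT.nd (nat_lit 234) (nat_lit 0) (nat_lit 0) (XT.nd (nat_lit 78) (nat_lit 0) (nat_lit 0) (XT.lf (nat_lit 0) (nat_lit 17540893320) (nat_lit 76) (nat_lit 30241544466) (nat_lit 76) (nat_lit 25586791001) (nat_lit 4) (nat_lit 4) (nat_lit 5) (nat_lit 5) (nat_lit 5) (nat_lit 4) (nat_lit 401) (nat_lit 206) (nat_lit 173)) (XT.nd (nat_lit 78) (nat_lit 0) (nat_lit 0) (XT.lf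 (nat_lit 0) (nat_lit 23777801237) (nat_lit 76) (nat_lit 28219315644) (nat_lit 76) (nat_lit 23482511431) (nat_lit 4) (nat_lit 4) (nat_lit 5) (nat_lit 5) (nat_lit 5) (nat_lit 4) (nat_lit 402) (nat_lit 206) (nat_lit 172)) (XT.lf (nat_lit 0) (nat_lit 30130909700) (nat_lit 76) (nat_lit 26170010576) (nat_lit 76) (nat_lit 21353545441) (nat_lit 4) (nat_lit 4) (nat_lit 5) (nat_lit 5) (nat_lit 5) (nat_lit 4) (nat_lit 403) (nat_lit 206) (nat_lit 171)))) (XT.nd (nat_lit 156) (nat_lit 0) (nat_lit 0) (XT.nd (nat_lit 78) (nat_lit 0) (nat_lit 0) (XT.lf (nat_lit 0) (nat_lit 36605769968) (nat_lit 76) (nat_lit 24091838607) (nat_lit 76) (nat_lit 19198032772) (nat_lit 4) (nat_lit 4) (nat_lit 5) (nat_lit 5) (nat_lit 5) (nat_lit 4) (nat_lit 404) (nat_lit 206) (nat_lit 170)) (XT.lf (nat_lit 0) (nat_lit 43208039686) (nat_lit 76) (nat_lit 21982983859) (nat_lit 76) (nat_lit 17014089966) (nat_lit 4) (nat_lit 4) (nat_lit 5)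 (nat_lit 5) (nat_lit 5) (nat_lit 4) (nat_lit 405) (nat_lit 206) (nat_lit 169))) (XT.nd (nat_lit 78) (nat_lit 0) (nat_lit 0) (XT.lf (nat_lit 0) (nat_lit 49943487829) (nat_lit 76) (nat_lit 19841603643) (nat_lit 76) (nat_lit 14799808722) (nat_lit 4) (nat_lit 4) (nat_lit 5) (nat_lit 5) (nat_lit 5) (nat_lit 4) (nat_lit 406) (nat_lit 206) (nat_lit 168)) (XT.lf (nat_lit 0) (nat_lit 56817999738) (nat_lit 76) (nat_lit 17665826850) (nat_lit 76) (nat_lit 12553254232) (nat_lit 4) (nat_lit 4) (nat_lit 5) (nat_lit 5) (nat_lit 5) (nat_lit 4) (nat_lit 407) (nat_lit 206) (nat_lit 167))))) (XT.nd (nat_lit 312) (nat_lit 76) (nat_lit 0) (XT.nd (nat_lit 156) (nat_lit 0) (nat_lit 0) (XT.nd (nat_lit 78) (nat_lit 0) (nat_lit 0) (XT.lf (nat_lit 0) (nat_lit 63837582269) (nat_lit 76) (nat_lit 15453752316) (nat_lit 76) (nat_lit 10272463488) (nat_lit 4) (nat_lit 4) (nat_lit 5) (nat_lit 5) (nat_lit 5) (nat_lit 4) (nat_lit 408)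 (nat_lit 206) (nat_lit 166)) (XT.lf (nat_lit 0) (nat_lit 71008369038) (nat_lit 76) (nat_lit 13203447160) (nat_lit 76) (nat_lit 7955443565) (nat_lit 4) (nat_lit 4) (nat_lit 5) (nat_lit 5) (nat_lit 5) (nat_lit 4) (nat_lit 409) (nat_lit 206) (nat_lit 165))) (XT.nd (nat_lit 78) (nat_lit 0) (nat_lit 0) (XT.lf (nat_lit 0) (nat_lit 78336625781) (nat_lit 76) (nat_lit 10912945097) (nat_lit 76) (nat_lit 5600169882) (nat_lit 4) (nat_lit 4) (nat_lit 5) (nat_lit 5) (nat_lit 5) (nat_lit 4) (nat_lit 410) (nat_lit 206) (nat_lit 164)) (XT.lf (nat_lit 0) (nat_lit 85828755829) (nat_lit 76) (nat_lit 8580244715) (nat_lit 76) (nat_lit 3204584434) (nat_lit 4) (nat_lit 4) (nat_lit 5) (nat_lit 5) (nat_lit 5) (nat_lit 4) (nat_lit 411) (nat_lit 206) (nat_lit 163)))) (XT.nd (nat_lit 37050) (nat_lit 0) (nat_lit 760) (XT.nd (nat_lit 78) (nat_lit 76) (nat_lit 0) (XT.lf (nat_lit 0) (nat_lit 93491305703) (nat_lit 76) (nat_lit 6203307735)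 (nat_lit 76) (nat_lit 766593991) (nat_lit 4) (nat_lit 4) (nat_lit 5) (nat_lit 5) (nat_lit 5) (nat_lit 4) (nat_lit 412) (nat_lit 206) (nat_lit 162)) (XT.lf (nat_lit 0) (nat_lit 1682447721) (nat_lit 152) (nat_lit 2080620076) (nat_lit 76) (nat_lit 99631533692) (nat_lit 3) (nat_lit 5) (nat_lit 5) (nat_lit 5) (nat_lit 4) (nat_lit 4) (nat_lit 413) (nat_lit 206) (nat_lit 161))) (XT.nd (nat_lit 78) (nat_lit 0) (nat_lit 0) (XT.lf (nat_lit 0) (nat_lit 7394661248) (nat_lit 76) (nat_lit 3447746371) (nat_lit 76) (nat_lit 3447746371) (nat_lit 13) (nat_lit 4) (nat_lit 14) (nat_lit 5) (nat_lit 14) (nat_lit 4) (nat_lit 366) (nat_lit 207) (nat_lit 207)) (XT.lf (nat_lit 0) (nat_lit 23564848200) (nat_lit 76) (nat_lit 2991312792) (nat_lit 76) (nat_lit 2746372708) (nat_lit 13) (nat_lit 4) (nat_lit 14) (nat_lit 5) (nat_lit 14) (nat_lit 4) (nat_lit 367) (nat_lit 207) (nat_lit 206))))))))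
noncomputable def xc10 : XT := (XT.nd (nat_lit 2184) (nat_lit 152) (nat_lit 0) (XT.nd (nat_lit 1092) (nat_lit 228) (nat_lit 0) (XT.nd (nat_lit 546) (nat_lit 152) (nat_lit 0) (XT.nd (nat_lit 234) (nat_lit 76) (nat_lit 0) (XT.nd (nat_lit 78) (nat_lit 0) (nat_lit 0) (XT.lf (nat_lit 0) (nat_lit 1442997806) (nat_lit 152) (nat_lit 27630326825) (nat_lit 0) (nat_lit 974312377) (nat_lit 11) (nat_lit 5) (nat_lit 13) (nat_lit 4) (nat_lit 11) (nat_lit 4) (nat_lit 368) (nat_lit 207) (nat_lit 205)) (XT.nd (nat_lit 78) (nat_lit 0) (nat_lit 0) (XT.lf (nat_lit 0) (nat_lit 5703949564) (nat_lit 152) (nat_lit 20099203898) (nat_lit 0) (nat_lit 5011109260) (nat_lit 11) (nat_lit 5) (nat_lit 13) (nat_lit 4) (nat_lit 11) (nat_lit 4) (nat_lit 369) (nat_lit 207) (nat_lit 204)) (XT.lf (nat_lit 0) (nat_lit 10008234254) (nat_lit 152) (nat_lit 12500437483) (nat_lit 0) (nat_lit 9097767858) (nat_lit 11) (nat_lit 5) (nat_lit 13)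 (nat_lit 4) (nat_lit 11) (nat_lit 4) (nat_lit 370) (nat_lit 207) (nat_lit 203)))) (XT.nd (nat_lit 156) (nat_lit 0) (nat_lit 0) (XT.nd (nat_lit 78) (nat_lit 76) (nat_lit 0) (XT.lf (nat_lit 0) (nat_lit 14359612904) (nat_lit 152) (nat_lit 4827387881) (nat_lit 0) (nat_lit 13237859039) (nat_lit 11) (nat_lit 5) (nat_lit 13) (nat_lit 4) (nat_lit 11) (nat_lit 4) (nat_lit 371) (nat_lit 207) (nat_lit 202)) (XT.lf (nat_lit 0) (nat_lit 2984895577) (nat_lit 76) (nat_lit 15805684751) (nat_lit 76) (nat_lit 14478797422) (nat_lit 10) (nat_lit 4) (nat_lit 11) (nat_lit 5) (nat_lit 11) (nat_lit 4) (nat_lit 372) (nat_lit 207) (nat_lit 201))) (XT.nd (nat_lit 78) (nat_lit 0) (nat_lit 0) (XT.lf (nat_lit 0) (nat_lit 10982763345) (nat_lit 76) (nat_lit 12341714946) (nat_lit 76) (nat_lit 10815668913) (nat_lit 10) (nat_lit 4) (nat_lit 11) (nat_lit 5) (nat_lit 11) (nat_lit 4) (nat_lit 373) (nat_lit 207) (nat_lit 200)) (XT.lf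 (nat_lit 0) (nat_lit 19077129366) (nat_lit 76) (nat_lit 8840811750) (nat_lit 76) (nat_lit 7121407753) (nat_lit 10) (nat_lit 4) (nat_lit 11) (nat_lit 5) (nat_lit 11) (nat_lit 4) (nat_lit 374) (nat_lit 207) (nat_lit 199))))) (XT.nd (nat_lit 234) (nat_lit 0) (nat_lit 0) (XT.nd (nat_lit 78) (nat_lit 152) (nat_lit 0) (XT.lf (nat_lit 0) (nat_lit 27275066387) (nat_lit 76) (nat_lit 5299916124) (nat_lit 76) (nat_lit 3392785948) (nat_lit 10) (nat_lit 4) (nat_lit 11) (nat_lit 5) (nat_lit 11) (nat_lit 4) (nat_lit 375) (nat_lit 207) (nat_lit 198)) (XT.nd (nat_lit 78) (nat_lit 76) (nat_lit 0) (XT.lf (nat_lit 0) (nat_lit 366167079) (nat_lit 152) (nat_lit 1346069431) (nat_lit 76) (nat_lit 35213873005) (nat_lit 9) (nat_lit 5) (nat_lit 11) (nat_lit 5) (nat_lit 10) (nat_lit 4) (nat_lit 376) (nat_lit 207) (nat_lit 197)) (XT.lf (nat_lit 0) (nat_lit 4177772243) (nat_lit 152) (nat_lit 31756748803) (nat_lit 0) (nat_lit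 1977443573) (nat_lit 8) (nat_lit 5) (nat_lit 10) (nat_lit 4) (nat_lit 8) (nat_lit 4) (nat_lit 377) (nat_lit 207) (nat_lit 196)))) (XT.nd (nat_lit 156) (nat_lit 0) (nat_lit 0) (XT.nd (nat_lit 78) (nat_lit 0) (nat_lit 0) (XT.lf (nat_lit 0) (nat_lit 8063938636) (nat_lit 152) (nat_lit 25167846090) (nat_lit 0) (nat_lit 5696817687) (nat_lit 8) (nat_lit 5) (nat_lit 10) (nat_lit 4) (nat_lit 8) (nat_lit 4) (nat_lit 378) (nat_lit 207) (nat_lit 195)) (XT.lf (nat_lit 0) (nat_lit 11998275452) (nat_lit 152) (nat_lit 18510309111) (nat_lit 0) (nat_lit 9469220251) (nat_lit 8) (nat_lit 5) (nat_lit 10) (nat_lit 4) (nat_lit 8) (nat_lit 4) (nat_lit 379) (nat_lit 207) (nat_lit 194))) (XT.nd (nat_lit 78) (nat_lit 0) (nat_lit 0) (XT.lf (nat_lit 0) (nat_lit 15984220460) (nat_lit 152) (nat_lit 11778320601) (nat_lit 0) (nat_lit 13297947540) (nat_lit 8) (nat_lit 5) (nat_lit 10) (nat_lit 4) (nat_lit 8) (nat_lit 4) (nat_lit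 380) (nat_lit 207) (nat_lit 193)) (XT.lf (nat_lit 0) (nat_lit 20025256526) (nat_lit 152) (nat_lit 4965998241) (nat_lit 0) (nat_lit 17186345044) (nat_lit 8) (nat_lit 5) (nat_lit 10) (nat_lit 4) (nat_lit 8) (nat_lit 4) (nat_lit 381) (nat_lit 207) (nat_lit 192)))))) (XT.nd (nat_lit 546) (nat_lit 152) (nat_lit 0) (XT.nd (nat_lit 234) (nat_lit 0) (nat_lit 0) (XT.nd (nat_lit 78) (nat_lit 0) (nat_lit 0) (XT.lf (nat_lit 0) (nat_lit 1971073222) (nat_lit 76) (nat_lit 22172788591) (nat_lit 76) (nat_lit 19185684329) (nat_lit 7) (nat_lit 4) (nat_lit 8) (nat_lit 5) (nat_lit 8) (nat_lit 4) (nat_lit 382) (nat_lit 207) (nat_lit 191)) (XT.nd (nat_lit 78) (nat_lit 0) (nat_lit 0) (XT.lf (nat_lit 0) (nat_lit 9101129300) (nat_lit 76) (nat_lit 19273133386) (nat_lit 76) (nat_lit 16142152639) (nat_lit 7) (nat_lit 4) (nat_lit 8) (nat_lit 5) (nat_lit 8) (nat_lit 4) (nat_lit 383) (nat_lit 207) (nat_lit 190)) (XT.lf (nat_lit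 0) (nat_lit 16331567034) (nat_lit 76) (nat_lit 16339902317) (nat_lit 76) (nat_lit 13069235663) (nat_lit 7) (nat_lit 4) (nat_lit 8) (nat_lit 5) (nat_lit 8) (nat_lit 4) (nat_lit 384) (nat_lit 207) (nat_lit 189)))) (XT.nd (nat_lit 156) (nat_lit 0) (nat_lit 0) (XT.nd (nat_lit 78) (nat_lit 0) (nat_lit 0) (XT.lf (nat_lit 0) (nat_lit 23668704285) (nat_lit 76) (nat_lit 13370532368) (nat_lit 76) (nat_lit 9964248328) (nat_lit 7) (nat_lit 4) (nat_lit 8) (nat_lit 5) (nat_lit 8) (nat_lit 4) (nat_lit 385) (nat_lit 207) (nat_lit 188)) (XT.lf (nat_lit 0) (nat_lit 31118952141) (nat_lit 76) (nat_lit 10362428943) (nat_lit 76) (nat_lit 6824477538) (nat_lit 7) (nat_lit 4) (nat_lit 8) (nat_lit 5) (nat_lit 8) (nat_lit 4) (nat_lit 386) (nat_lit 207) (nat_lit 187))) (XT.nd (nat_lit 78) (nat_lit 0) (nat_lit 0) (XT.lf (nat_lit 0) (nat_lit 38688820529) (nat_lit 76) (nat_lit 7312963603) (nat_lit 76) (nat_lit 3647179805) (nat_lit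 7) (nat_lit 4) (nat_lit 8) (nat_lit 5) (nat_lit 8) (nat_lit 4) (nat_lit 387) (nat_lit 207) (nat_lit 186)) (XT.lf (nat_lit 0) (nat_lit 46384923896) (nat_lit 76) (nat_lit 4219471766) (nat_lit 76) (nat_lit 429578848) (nat_lit 7) (nat_lit 4) (nat_lit 8) (nat_lit 5) (nat_lit 8) (nat_lit 4) (nat_lit 388) (nat_lit 207) (nat_lit 185))))) (XT.nd (nat_lit 234) (nat_lit 0) (nat_lit 0) (XT.nd (nat_lit 78) (nat_lit 0) (nat_lit 0) (XT.lf (nat_lit 0) (nat_lit 1758996178) (nat_lit 76) (nat_lit 1033803519) (nat_lit 152) (nat_lit 49667977154) (nat_lit 5) (nat_lit 5) (nat_lit 6) (nat_lit 5) (nat_lit 7) (nat_lit 4) (nat_lit 389) (nat_lit 207) (nat_lit 184)) (XT.nd (nat_lit 78) (nat_lit 0) (nat_lit 0) (XT.lf (nat_lit 0) (nat_lit 6119998318) (nat_lit 152) (nat_lit 45599834549) (nat_lit 0) (nat_lit 2209928457) (nat_lit 5) (nat_lit 5) (nat_lit 7) (nat_lit 4) (nat_lit 5) (nat_lit 4) (nat_lit 390) (nat_lit 207) (nat_lit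 183)) (XT.lf (nat_lit 0) (nat_lit 9506537895) (nat_lit 152) (nat_lit 40451301875) (nat_lit 0) (nat_lit 5486198688) (nat_lit 5) (nat_lit 5) (nat_lit 7) (nat_lit 4) (nat_lit 5) (nat_lit 4) (nat_lit 391) (nat_lit 207) (nat_lit 182)))) (XT.nd (nat_lit 156) (nat_lit 0) (nat_lit 0) (XT.nd (nat_lit 78) (nat_lit 0) (nat_lit 0) (XT.lf (nat_lit 0) (nat_lit 12945439988) (nat_lit 152) (nat_lit 35241746383) (nat_lit 0) (nat_lit 8818043165) (nat_lit 5) (nat_lit 5) (nat_lit 7) (nat_lit 4) (nat_lit 5) (nat_lit 4) (nat_lit 392) (nat_lit 207) (nat_lit 181)) (XT.lf (nat_lit 0) (nat_lit 16439709464) (nat_lit 152) (nat_lit 29966616033) (nat_lit 0) (nat_lit 12208373207) (nat_lit 5) (nat_lit 5) (nat_lit 7) (nat_lit 4) (nat_lit 5) (nat_lit 4) (nat_lit 393) (nat_lit 207) (nat_lit 180))) (XT.nd (nat_lit 78) (nat_lit 0) (nat_lit 0) (XT.lf (nat_lit 0) (nat_lit 19992399568) (nat_lit 152) (nat_lit 24621301489) (nat_lit 0) (nat_lit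 15660151239) (nat_lit 5) (nat_lit 5) (nat_lit 7) (nat_lit 4) (nat_lit 5) (nat_lit 4) (nat_lit 394) (nat_lit 207) (nat_lit 179)) (XT.lf (nat_lit 0) (nat_lit 23606614592) (nat_lit 152) (nat_lit 19201132086) (nat_lit 0) (nat_lit 19176393378) (nat_lit 5) (nat_lit 5) (nat_lit 7) (nat_lit 4) (nat_lit 5) (nat_lit 4) (nat_lit 395) (nat_lit 207) (nat_lit 178))))))) (XT.nd (nat_lit 1092) (nat_lit 76) (nat_lit 0) (XT.nd (nat_lit 546) (nat_lit 0) (nat_lit 0) (XT.nd (nat_lit 234) (nat_lit 76) (nat_lit 0) (XT.nd (nat_lit 78) (nat_lit 0) (nat_lit 0) (XT.lf (nat_lit 0) (nat_lit 27285512588) (nat_lit 152) (nat_lit 13701371756) (nat_lit 0) (nat_lit 22760172068) (nat_lit 5) (nat_lit 5) (nat_lit 7) (nat_lit 4) (nat_lit 5) (nat_lit 4) (nat_lit 396) (nat_lit 207) (nat_lit 177)) (XT.nd (nat_lit 78) (nat_lit 0) (nat_lit 0) (XT.lf (nat_lit 0) (nat_lit 31032308126) (nat_lit 152) (nat_lit 8117214881) (nat_lit 0) (nat_lit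 26414618766) (nat_lit 5) (nat_lit 5) (nat_lit 7) (nat_lit 4) (nat_lit 5) (nat_lit 4) (nat_lit 397) (nat_lit 207) (nat_lit 176)) (XT.lf (nat_lit 0) (nat_lit 34850275107) (nat_lit 152) (nat_lit 2443782102) (nat_lit 0) (nat_lit 30142926678) (nat_lit 5) (nat_lit 5) (nat_lit 7) (nat_lit 4) (nat_lit 5) (nat_lit 4) (nat_lit 398) (nat_lit 207) (nat_lit 175)))) (XT.nd (nat_lit 156) (nat_lit 0) (nat_lit 0) (XT.nd (nat_lit 78) (nat_lit 0) (nat_lit 0) (XT.lf (nat_lit 0) (nat_lit 3390035757) (nat_lit 76) (nat_lit 35385300958) (nat_lit 76) (nat_lit 30590904889) (nat_lit 4) (nat_lit 4) (nat_lit 5) (nat_lit 5) (nat_lit 5) (nat_lit 4) (nat_lit 399) (nat_lit 207) (nat_lit 174)) (XT.lf (nat_lit 0) (nat_lit 9373738381) (nat_lit 76) (nat_lit 33429500576) (nat_lit 76) (nat_lit 28550592236) (nat_lit 4) (nat_lit 4) (nat_lit 5) (nat_lit 5) (nat_lit 5) (nat_lit 4) (nat_lit 400) (nat_lit 207) (nat_lit 173))) (XT.nd (nat_lit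 78) (nat_lit 0) (nat_lit 0) (XT.lf (nat_lit 0) (nat_lit 15463918191) (nat_lit 76) (nat_lit 31449624520) (nat_lit 76) (nat_lit 26488665431) (nat_lit 4) (nat_lit 4) (nat_lit 5) (nat_lit 5) (nat_lit 5) (nat_lit 4) (nat_lit 401) (nat_lit 207) (nat_lit 172)) (XT.lf (nat_lit 0) (nat_lit 21665896703) (nat_lit 76) (nat_lit 29443942801) (nat_lit 76) (nat_lit 24403322791) (nat_lit 4) (nat_lit 4) (nat_lit 5) (nat_lit 5) (nat_lit 5) (nat_lit 4) (nat_lit 402) (nat_lit 207) (nat_lit 171))))) (XT.nd (nat_lit 234) (nat_lit 0) (nat_lit 0) (XT.nd (nat_lit 78) (nat_lit 0) (nat_lit 0) (XT.lf (nat_lit 0) (nat_lit 27985093122) (nat_lit 76) (nat_lit 27410702881) (nat_lit 76) (nat_lit 22292742171) (nat_lit 4) (nat_lit 4) (nat_lit 5) (nat_lit 5) (nat_lit 5) (nat_lit 4) (nat_lit 403) (nat_lit 207) (nat_lit 170)) (XT.nd (nat_lit 78) (nat_lit 0) (nat_lit 0) (XT.lf (nat_lit 0) (nat_lit 34427029076) (nat_lit 76) (nat_lit 25348128144)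 (nat_lit 76) (nat_lit 20155079375) (nat_lit 4) (nat_lit 4) (nat_lit 5) (nat_lit 5) (nat_lit 5) (nat_lit 4) (nat_lit 404) (nat_lit 207) (nat_lit 169)) (XT.lf (nat_lit 0) (nat_lit 40997333441) (nat_lit 76) (nat_lit 23254416339) (nat_lit 76) (nat_lit 17988466543) (nat_lit 4) (nat_lit 4) (nat_lit 5) (nat_lit 5) (nat_lit 5) (nat_lit 4) (nat_lit 405) (nat_lit 207) (nat_lit 168)))) (XT.nd (nat_lit 156) (nat_lit 0) (nat_lit 0) (XT.nd (nat_lit 78) (nat_lit 0) (nat_lit 0) (XT.lf (nat_lit 0) (nat_lit 47701747259) (nat_lit 76) (nat_lit 21127738009) (nat_lit 76) (nat_lit 15791010516) (nat_lit 4) (nat_lit 4) (nat_lit 5) (nat_lit 5) (nat_lit 5) (nat_lit 4) (nat_lit 406) (nat_lit 207) (nat_lit 167)) (XT.lf (nat_lit 0) (nat_lit 54546128757) (nat_lit 76) (nat_lit 18966234893) (nat_lit 76) (nat_lit 13560791189) (nat_lit 4) (nat_lit 4) (nat_lit 5) (nat_lit 5) (nat_lit 5) (nat_lit 4) (nat_lit 407) (nat_lit 207) (nat_lit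 166))) (XT.nd (nat_lit 78) (nat_lit 0) (nat_lit 0) (XT.lf (nat_lit 0) (nat_lit 61536458462) (nat_lit 76) (nat_lit 16768018297) (nat_lit 76) (nat_lit 11295859826) (nat_lit 4) (nat_lit 4) (nat_lit 5) (nat_lit 5) (nat_lit 5) (nat_lit 4) (nat_lit 408) (nat_lit 207) (nat_lit 165)) (XT.lf (nat_lit 0) (nat_lit 68678844428) (nat_lit 76) (nat_lit 14531167449) (nat_lit 76) (nat_lit 8994237360) (nat_lit 4) (nat_lit 4) (nat_lit 5) (nat_lit 5) (nat_lit 5) (nat_lit 4) (nat_lit 409) (nat_lit 207) (nat_lit 164)))))) (XT.nd (nat_lit 37284) (nat_lit 0) (nat_lit 532) (XT.nd (nat_lit 234) (nat_lit 76) (nat_lit 0) (XT.nd (nat_lit 78) (nat_lit 0) (nat_lit 0) (XT.lf (nat_lit 0) (nat_lit 75979527576) (nat_lit 76) (nat_lit 12253727822) (nat_lit 76) (nat_lit 6653912665) (nat_lit 4) (nat_lit 4) (nat_lit 5) (nat_lit 5) (nat_lit 5) (nat_lit 4) (nat_lit 410) (nat_lit 207) (nat_lit 163)) (XT.nd (nat_lit 78) (nat_lit 0) (nat_lit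 0) (XT.lf (nat_lit 0) (nat_lit 83444887144) (nat_lit 76) (nat_lit 9933709417) (nat_lit 76) (nat_lit 4272840798) (nat_lit 4) (nat_lit 4) (nat_lit 5) (nat_lit 5) (nat_lit 5) (nat_lit 4) (nat_lit 411) (nat_lit 207) (nat_lit 162)) (XT.lf (nat_lit 0) (nat_lit 91081446260) (nat_lit 76) (nat_lit 7569085035) (nat_lit 76) (nat_lit 1848941209) (nat_lit 4) (nat_lit 4) (nat_lit 5) (nat_lit 5) (nat_lit 5) (nat_lit 4) (nat_lit 412) (nat_lit 207) (nat_lit 161)))) (XT.nd (nat_lit 36894) (nat_lit 0) (nat_lit 760) (XT.nd (nat_lit 36816) (nat_lit 0) (nat_lit 836) (XT.lf (nat_lit 0) (nat_lit 607807509) (nat_lit 152) (nat_lit 4543843326) (nat_lit 76) (nat_lit 98281932475) (nat_lit 3) (nat_lit 5) (nat_lit 5) (nat_lit 5) (nat_lit 4) (nat_lit 4) (nat_lit 413) (nat_lit 207) (nat_lit 160)) (XT.lf (nat_lit 0) (nat_lit 6212408620) (nat_lit 152) (nat_lit 1177248667) (nat_lit 0) (nat_lit 6212408620) (nat_lit 14) (nat_lit 5)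 (nat_lit 16) (nat_lit 4) (nat_lit 14) (nat_lit 4) (nat_lit 364) (nat_lit 208) (nat_lit 208))) (XT.nd (nat_lit 78) (nat_lit 0) (nat_lit 0) (XT.lf (nat_lit 0) (nat_lit 6108404267) (nat_lit 76) (nat_lit 11012807018) (nat_lit 76) (nat_lit 10760518731) (nat_lit 13) (nat_lit 4) (nat_lit 14) (nat_lit 5) (nat_lit 14) (nat_lit 4) (nat_lit 365) (nat_lit 208) (nat_lit 207)) (XT.lf (nat_lit 0) (nat_lit 14707637732) (nat_lit 76) (nat_lit 7185611974) (nat_lit 76) (nat_lit 6688383603) (nat_lit 13) (nat_lit 4) (nat_lit 14) (nat_lit 5) (nat_lit 14) (nat_lit 4) (nat_lit 366) (nat_lit 208) (nat_lit 206))))) (XT.nd (nat_lit 312) (nat_lit 76) (nat_lit 0) (XT.nd (nat_lit 156) (nat_lit 0) (nat_lit 0) (XT.nd (nat_lit 78) (nat_lit 152) (nat_lit 0) (XT.lf (nat_lit 0) (nat_lit 23403857838) (nat_lit 76) (nat_lit 3318161098) (nat_lit 76) (nat_lit 2583126820) (nat_lit 13) (nat_lit 4) (nat_lit 14) (nat_lit 5) (nat_lit 14) (nat_lit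 4) (nat_lit 367) (nat_lit 208) (nat_lit 205)) (XT.lf (nat_lit 0) (nat_lit 1555424325) (nat_lit 152) (nat_lit 27878571630) (nat_lit 0) (nat_lit 617643937) (nat_lit 11) (nat_lit 5) (nat_lit 13) (nat_lit 4) (nat_lit 11) (nat_lit 4) (nat_lit 368) (nat_lit 208) (nat_lit 204))) (XT.nd (nat_lit 78) (nat_lit 0) (nat_lit 0) (XT.lf (nat_lit 0) (nat_lit 5774752625) (nat_lit 152) (nat_lit 20425424171) (nat_lit 0) (nat_lit 4619346144) (nat_lit 11) (nat_lit 5) (nat_lit 13) (nat_lit 4) (nat_lit 11) (nat_lit 4) (nat_lit 369) (nat_lit 208) (nat_lit 203)) (XT.lf (nat_lit 0) (nat_lit 10038626191) (nat_lit 152) (nat_lit 12902362093) (nat_lit 0) (nat_lit 8671932242) (nat_lit 11) (nat_lit 5) (nat_lit 13) (nat_lit 4) (nat_lit 11) (nat_lit 4) (nat_lit 370) (nat_lit 208) (nat_lit 202)))) (XT.nd (nat_lit 156) (nat_lit 0) (nat_lit 0) (XT.nd (nat_lit 78) (nat_lit 76) (nat_lit 0) (XT.lf (nat_lit 0) (nat_lit 14350770739) (nat_lit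 152) (nat_lit 5302811848) (nat_lit 0) (nat_lit 12778943326) (nat_lit 11) (nat_lit 5) (nat_lit 13) (nat_lit 4) (nat_lit 11) (nat_lit 4) (nat_lit 371) (nat_lit 208) (nat_lit 201)) (XT.lf (nat_lit 0) (nat_lit 2427230965) (nat_lit 76) (nat_lit 16311055225) (nat_lit 76) (nat_lit 14540069108) (nat_lit 10) (nat_lit 4) (nat_lit 11) (nat_lit 5) (nat_lit 11) (nat_lit 4) (nat_lit 372) (nat_lit 208) (nat_lit 200))) (XT.nd (nat_lit 78) (nat_lit 0) (nat_lit 0) (XT.lf (nat_lit 0) (nat_lit 10354439728) (nat_lit 76) (nat_lit 12880083304) (nat_lit 76) (nat_lit 10915739222) (nat_lit 10) (nat_lit 4) (nat_lit 11) (nat_lit 5) (nat_lit 11) (nat_lit 4) (nat_lit 373) (nat_lit 208) (nat_lit 199)) (XT.lf (nat_lit 0) (nat_lit 18380204773) (nat_lit 76) (nat_lit 9411216889) (nat_lit 76) (nat_lit 7259146628) (nat_lit 10) (nat_lit 4) (nat_lit 11) (nat_lit 5) (nat_lit 11) (nat_lit 4) (nat_lit 374) (nat_lit 208) (nat_lit 198))))))))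
noncomputable def xc11 : XT := (XT.nd (nat_lit 2184) (nat_lit 0) (nat_lit 0) (XT.nd (nat_lit 1092) (nat_lit 228) (nat_lit 0) (XT.nd (nat_lit 546) (nat_lit 76) (nat_lit 0) (XT.nd (nat_lit 234) (nat_lit 0) (nat_lit 0) (XT.nd (nat_lit 78) (nat_lit 152) (nat_lit 0) (XT.lf (nat_lit 0) (nat_lit 26511538905) (nat_lit 76) (nat_lit 5901424933) (nat_lit 76) (nat_lit 3567096246) (nat_lit 10) (nat_lit 4) (nat_lit 11) (nat_lit 5) (nat_lit 11) (nat_lit 4) (nat_lit 375) (nat_lit 208) (nat_lit 197)) (XT.nd (nat_lit 78) (nat_lit 76) (nat_lit 0) (XT.lf (nat_lit 0) (nat_lit 160444821) (nat_lit 152) (nat_lit 2185575628) (nat_lit 76) (nat_lit 34593482173) (nat_lit 9) (nat_lit 5) (nat_lit 11) (nat_lit 5) (nat_lit 10) (nat_lit 4) (nat_lit 376) (nat_lit 208) (nat_lit 196)) (XT.lf (nat_lit 0) (nat_lit 3922932913) (nat_lit 152) (nat_lit 32685898884) (nat_lit 0) (nat_lit 1318006056) (nat_lit 8) (nat_lit 5) (nat_lit 10) (nat_lit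 4) (nat_lit 8) (nat_lit 4) (nat_lit 377) (nat_lit 208) (nat_lit 195)))) (XT.nd (nat_lit 156) (nat_lit 0) (nat_lit 0) (XT.nd (nat_lit 78) (nat_lit 0) (nat_lit 0) (XT.lf (nat_lit 0) (nat_lit 7775397548) (nat_lit 152) (nat_lit 26160559134) (nat_lit 0) (nat_lit 5008536440) (nat_lit 8) (nat_lit 5) (nat_lit 10) (nat_lit 4) (nat_lit 8) (nat_lit 4) (nat_lit 378) (nat_lit 208) (nat_lit 194)) (XT.lf (nat_lit 0) (nat_lit 11677014210) (nat_lit 152) (nat_lit 19564733771) (nat_lit 0) (nat_lit 8752935383) (nat_lit 8) (nat_lit 5) (nat_lit 10) (nat_lit 4) (nat_lit 8) (nat_lit 4) (nat_lit 379) (nat_lit 208) (nat_lit 193))) (XT.nd (nat_lit 78) (nat_lit 0) (nat_lit 0) (XT.lf (nat_lit 0) (nat_lit 15631192079) (nat_lit 152) (nat_lit 12892659450) (nat_lit 0) (nat_lit 12554474689) (nat_lit 8) (nat_lit 5) (nat_lit 10) (nat_lit 4) (nat_lit 8) (nat_lit 4) (nat_lit 380) (nat_lit 208) (nat_lit 192)) (XT.lf (nat_lit 0) (nat_lit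 19641386262) (nat_lit 152) (nat_lit 6138506206) (nat_lit 0) (nat_lit 16416476093) (nat_lit 8) (nat_lit 5) (nat_lit 10) (nat_lit 4) (nat_lit 8) (nat_lit 4) (nat_lit 381) (nat_lit 208) (nat_lit 191))))) (XT.nd (nat_lit 234) (nat_lit 0) (nat_lit 0) (XT.nd (nat_lit 78) (nat_lit 0) (nat_lit 0) (XT.lf (nat_lit 0) (nat_lit 717631219) (nat_lit 76) (nat_lit 23000367903) (nat_lit 76) (nat_lit 19631581249) (nat_lit 7) (nat_lit 4) (nat_lit 8) (nat_lit 5) (nat_lit 8) (nat_lit 4) (nat_lit 382) (nat_lit 208) (nat_lit 190)) (XT.nd (nat_lit 78) (nat_lit 0) (nat_lit 0) (XT.lf (nat_lit 0) (nat_lit 7791766102) (nat_lit 76) (nat_lit 20127024911) (nat_lit 76) (nat_lit 16618552350) (nat_lit 7) (nat_lit 4) (nat_lit 8) (nat_lit 5) (nat_lit 8) (nat_lit 4) (nat_lit 383) (nat_lit 208) (nat_lit 189)) (XT.lf (nat_lit 0) (nat_lit 14967911415) (nat_lit 76) (nat_lit 17219339681) (nat_lit 76) (nat_lit 13575249733) (nat_lit 7) (nat_lit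 4) (nat_lit 8) (nat_lit 5) (nat_lit 8) (nat_lit 4) (nat_lit 384) (nat_lit 208) (nat_lit 188)))) (XT.nd (nat_lit 156) (nat_lit 0) (nat_lit 0) (XT.nd (nat_lit 78) (nat_lit 0) (nat_lit 0) (XT.lf (nat_lit 0) (nat_lit 22252337575) (nat_lit 76) (nat_lit 14274771516) (nat_lit 76) (nat_lit 10499014204) (nat_lit 7) (nat_lit 4) (nat_lit 8) (nat_lit 5) (nat_lit 8) (nat_lit 4) (nat_lit 385) (nat_lit 208) (nat_lit 187)) (XT.lf (nat_lit 0) (nat_lit 29651409617) (nat_lit 76) (nat_lit 11290747494) (nat_lit 76) (nat_lit 7387157789) (nat_lit 7) (nat_lit 4) (nat_lit 8) (nat_lit 5) (nat_lit 8) (nat_lit 4) (nat_lit 386) (nat_lit 208) (nat_lit 186))) (XT.nd (nat_lit 78) (nat_lit 0) (nat_lit 0) (XT.lf (nat_lit 0) (nat_lit 37171592748) (nat_lit 76) (nat_lit 8264660214) (nat_lit 76) (nat_lit 4236961389) (nat_lit 7) (nat_lit 4) (nat_lit 8) (nat_lit 5) (nat_lit 8) (nat_lit 4) (nat_lit 387) (nat_lit 208) (nat_lit 185)) (XT.lf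 (nat_lit 0) (nat_lit 44819458001) (nat_lit 76) (nat_lit 5193865524) (nat_lit 76) (nat_lit 1045672408) (nat_lit 7) (nat_lit 4) (nat_lit 8) (nat_lit 5) (nat_lit 8) (nat_lit 4) (nat_lit 388) (nat_lit 208) (nat_lit 184)))))) (XT.nd (nat_lit 546) (nat_lit 76) (nat_lit 0) (XT.nd (nat_lit 234) (nat_lit 0) (nat_lit 0) (XT.nd (nat_lit 78) (nat_lit 0) (nat_lit 0) (XT.lf (nat_lit 0) (nat_lit 94616985) (nat_lit 76) (nat_lit 2053065206) (nat_lit 152) (nat_lit 50339529640) (nat_lit 5) (nat_lit 5) (nat_lit 6) (nat_lit 5) (nat_lit 7) (nat_lit 4) (nat_lit 389) (nat_lit 208) (nat_lit 183)) (XT.nd (nat_lit 78) (nat_lit 0) (nat_lit 0) (XT.lf (nat_lit 0) (nat_lit 5440102414) (nat_lit 152) (nat_lit 47328257929) (nat_lit 0) (nat_lit 1188883686) (nat_lit 5) (nat_lit 5) (nat_lit 7) (nat_lit 4) (nat_lit 5) (nat_lit 4) (nat_lit 390) (nat_lit 208) (nat_lit 182)) (XT.lf (nat_lit 0) (nat_lit 8802388951) (nat_lit 152) (nat_lit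 42225751443) (nat_lit 0) (nat_lit 4444112606) (nat_lit 5) (nat_lit 5) (nat_lit 7) (nat_lit 4) (nat_lit 5) (nat_lit 4) (nat_lit 391) (nat_lit 208) (nat_lit 181)))) (XT.nd (nat_lit 156) (nat_lit 0) (nat_lit 0) (XT.nd (nat_lit 78) (nat_lit 0) (nat_lit 0) (XT.lf (nat_lit 0) (nat_lit 12217744404) (nat_lit 152) (nat_lit 37060881570) (nat_lit 0) (nat_lit 7755528625) (nat_lit 5) (nat_lit 5) (nat_lit 7) (nat_lit 4) (nat_lit 5) (nat_lit 4) (nat_lit 392) (nat_lit 208) (nat_lit 180)) (XT.lf (nat_lit 0) (nat_lit 15689153064) (nat_lit 152) (nat_lit 31829135317) (nat_lit 0) (nat_lit 11126025214) (nat_lit 5) (nat_lit 5) (nat_lit 7) (nat_lit 4) (nat_lit 5) (nat_lit 4) (nat_lit 393) (nat_lit 208) (nat_lit 179))) (XT.nd (nat_lit 78) (nat_lit 0) (nat_lit 0) (XT.lf (nat_lit 0) (nat_lit 19219648201) (nat_lit 152) (nat_lit 26525941254) (nat_lit 0) (nat_lit 14558547465) (nat_lit 5) (nat_lit 5) (nat_lit 7) (nat_lit 4) (nat_lit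 5) (nat_lit 4) (nat_lit 394) (nat_lit 208) (nat_lit 178)) (XT.lf (nat_lit 0) (nat_lit 22812314713) (nat_lit 152) (nat_lit 21146665524) (nat_lit 0) (nat_lit 18056094671) (nat_lit 5) (nat_lit 5) (nat_lit 7) (nat_lit 4) (nat_lit 5) (nat_lit 4) (nat_lit 395) (nat_lit 208) (nat_lit 177))))) (XT.nd (nat_lit 234) (nat_lit 76) (nat_lit 0) (XT.nd (nat_lit 78) (nat_lit 0) (nat_lit 0) (XT.lf (nat_lit 0) (nat_lit 26470291823) (nat_lit 152) (nat_lit 15686607787) (nat_lit 0) (nat_lit 21621722941) (nat_lit 5) (nat_lit 5) (nat_lit 7) (nat_lit 4) (nat_lit 5) (nat_lit 4) (nat_lit 396) (nat_lit 208) (nat_lit 176)) (XT.nd (nat_lit 78) (nat_lit 0) (nat_lit 0) (XT.lf (nat_lit 0) (nat_lit 30196775823) (nat_lit 152) (nat_lit 10140997120) (nat_lit 0) (nat_lit 25258547872) (nat_lit 5) (nat_lit 5) (nat_lit 7) (nat_lit 4) (nat_lit 5) (nat_lit 4) (nat_lit 397) (nat_lit 208) (nat_lit 175)) (XT.lf (nat_lit 0) (nat_lit 33995022863)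 (nat_lit 152) (nat_lit 4504987844) (nat_lit 0) (nat_lit 28969747273) (nat_lit 5) (nat_lit 5) (nat_lit 7) (nat_lit 4) (nat_lit 5) (nat_lit 4) (nat_lit 398) (nat_lit 208) (nat_lit 174)))) (XT.nd (nat_lit 156) (nat_lit 0) (nat_lit 0) (XT.nd (nat_lit 78) (nat_lit 0) (nat_lit 0) (XT.lf (nat_lit 0) (nat_lit 1250751374) (nat_lit 76) (nat_lit 36629623414) (nat_lit 76) (nat_lit 31519835552) (nat_lit 4) (nat_lit 4) (nat_lit 5) (nat_lit 5) (nat_lit 5) (nat_lit 4) (nat_lit 399) (nat_lit 208) (nat_lit 173)) (XT.lf (nat_lit 0) (nat_lit 7198476710) (nat_lit 76) (nat_lit 34690866548) (nat_lit 76) (nat_lit 29499027937) (nat_lit 4) (nat_lit 4) (nat_lit 5) (nat_lit 5) (nat_lit 5) (nat_lit 4) (nat_lit 400) (nat_lit 208) (nat_lit 172))) (XT.nd (nat_lit 78) (nat_lit 0) (nat_lit 0) (XT.lf (nat_lit 0) (nat_lit 13253727115) (nat_lit 76) (nat_lit 32727537595) (nat_lit 76) (nat_lit 27456038063) (nat_lit 4) (nat_lit 4) (nat_lit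 5) (nat_lit 5) (nat_lit 5) (nat_lit 4) (nat_lit 401) (nat_lit 208) (nat_lit 171)) (XT.lf (nat_lit 0) (nat_lit 19421793584) (nat_lit 76) (nat_lit 30737921024) (nat_lit 76) (nat_lit 25389080792) (nat_lit 4) (nat_lit 4) (nat_lit 5) (nat_lit 5) (nat_lit 5) (nat_lit 4) (nat_lit 402) (nat_lit 208) (nat_lit 170))))))) (XT.nd (nat_lit 37674) (nat_lit 0) (nat_lit 304) (XT.nd (nat_lit 546) (nat_lit 0) (nat_lit 0) (XT.nd (nat_lit 234) (nat_lit 0) (nat_lit 0) (XT.nd (nat_lit 78) (nat_lit 0) (nat_lit 0) (XT.lf (nat_lit 0) (nat_lit 25708065689) (nat_lit 76) (nat_lit 28720278336) (nat_lit 76) (nat_lit 23296350046) (nat_lit 4) (nat_lit 4) (nat_lit 5) (nat_lit 5) (nat_lit 5) (nat_lit 4) (nat_lit 403) (nat_lit 208) (nat_lit 169)) (XT.nd (nat_lit 78) (nat_lit 0) (nat_lit 0) (XT.lf (nat_lit 0) (nat_lit 32118036289) (nat_lit 76) (nat_lit 26672846541) (nat_lit 76) (nat_lit 21176017224) (nat_lit 4) (nat_lit 4) (nat_lit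 5) (nat_lit 5) (nat_lit 5) (nat_lit 4) (nat_lit 404) (nat_lit 208) (nat_lit 168)) (XT.lf (nat_lit 0) (nat_lit 38657306330) (nat_lit 76) (nat_lit 24593836623) (nat_lit 76) (nat_lit 19026229608) (nat_lit 4) (nat_lit 4) (nat_lit 5) (nat_lit 5) (nat_lit 5) (nat_lit 4) (nat_lit 405) (nat_lit 208) (nat_lit 167)))) (XT.nd (nat_lit 156) (nat_lit 0) (nat_lit 0) (XT.nd (nat_lit 78) (nat_lit 0) (nat_lit 0) (XT.lf (nat_lit 0) (nat_lit 45331589737) (nat_lit 76) (nat_lit 22481431969) (nat_lit 76) (nat_lit 16845108745) (nat_lit 4) (nat_lit 4) (nat_lit 5) (nat_lit 5) (nat_lit 5) (nat_lit 4) (nat_lit 406) (nat_lit 208) (nat_lit 166)) (XT.lf (nat_lit 0) (nat_lit 52146718409) (nat_lit 76) (nat_lit 20333786791) (nat_lit 76) (nat_lit 14630748798) (nat_lit 4) (nat_lit 4) (nat_lit 5) (nat_lit 5) (nat_lit 5) (nat_lit 4) (nat_lit 407) (nat_lit 208) (nat_lit 165))) (XT.nd (nat_lit 78) (nat_lit 0) (nat_lit 0) (XT.lf (nat_lit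 0) (nat_lit 59108647311) (nat_lit 76) (nat_lit 18149024503) (nat_lit 76) (nat_lit 12381214892) (nat_lit 4) (nat_lit 4) (nat_lit 5) (nat_lit 5) (nat_lit 5) (nat_lit 4) (nat_lit 408) (nat_lit 208) (nat_lit 164)) (XT.lf (nat_lit 0) (nat_lit 66223459682) (nat_lit 76) (nat_lit 15925236092) (nat_lit 76) (nat_lit 10094541414) (nat_lit 4) (nat_lit 4) (nat_lit 5) (nat_lit 5) (nat_lit 5) (nat_lit 4) (nat_lit 409) (nat_lit 208) (nat_lit 163))))) (XT.nd (nat_lit 234) (nat_lit 0) (nat_lit 0) (XT.nd (nat_lit 78) (nat_lit 0) (nat_lit 0) (XT.lf (nat_lit 0) (nat_lit 73497372350) (nat_lit 76) (nat_lit 13660478441) (nat_lit 76) (nat_lit 7768730300) (nat_lit 4) (nat_lit 4) (nat_lit 5) (nat_lit 5) (nat_lit 5) (nat_lit 4) (nat_lit 410) (nat_lit 208) (nat_lit 162)) (XT.nd (nat_lit 78) (nat_lit 0) (nat_lit 0) (XT.lf (nat_lit 0) (nat_lit 80936741160) (nat_lit 76) (nat_lit 11352772634) (nat_lit 76) (nat_lit 5401749287) (nat_lit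 4) (nat_lit 4) (nat_lit 5) (nat_lit 5) (nat_lit 5) (nat_lit 4) (nat_lit 411) (nat_lit 208) (nat_lit 161)) (XT.lf (nat_lit 0) (nat_lit 88548066531) (nat_lit 76) (nat_lit 9000102232) (nat_lit 76) (nat_lit 2991530140) (nat_lit 4) (nat_lit 4) (nat_lit 5) (nat_lit 5) (nat_lit 5) (nat_lit 4) (nat_lit 412) (nat_lit 208) (nat_lit 160)))) (XT.nd (nat_lit 36738) (nat_lit 0) (nat_lit 760) (XT.nd (nat_lit 36660) (nat_lit 0) (nat_lit 760) (XT.lf (nat_lit 0) (nat_lit 96337999137) (nat_lit 76) (nat_lit 6600411501) (nat_lit 76) (nat_lit 535966842) (nat_lit 4) (nat_lit 4) (nat_lit 5) (nat_lit 5) (nat_lit 5) (nat_lit 4) (nat_lit 413) (nat_lit 208) (nat_lit 159)) (XT.lf (nat_lit 0) (nat_lit 1796974148) (nat_lit 152) (nat_lit 9361425004) (nat_lit 0) (nat_lit 1796974148) (nat_lit 14) (nat_lit 5) (nat_lit 16) (nat_lit 4) (nat_lit 14) (nat_lit 4) (nat_lit 362) (nat_lit 209) (nat_lit 209))) (XT.nd (nat_lit 78) (nat_lit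 0) (nat_lit 0) (XT.lf (nat_lit 0) (nat_lit 8094646510) (nat_lit 152) (nat_lit 10617765770) (nat_lit 0) (nat_lit 7834789574) (nat_lit 14) (nat_lit 5) (nat_lit 16) (nat_lit 4) (nat_lit 14) (nat_lit 4) (nat_lit 363) (nat_lit 209) (nat_lit 208)) (XT.lf (nat_lit 0) (nat_lit 12640313501) (nat_lit 152) (nat_lit 2436990859) (nat_lit 0) (nat_lit 12128168279) (nat_lit 14) (nat_lit 5) (nat_lit 16) (nat_lit 4) (nat_lit 14) (nat_lit 4) (nat_lit 364) (nat_lit 209) (nat_lit 207)))))) (XT.nd (nat_lit 546) (nat_lit 228) (nat_lit 0) (XT.nd (nat_lit 234) (nat_lit 152) (nat_lit 0) (XT.nd (nat_lit 78) (nat_lit 0) (nat_lit 0) (XT.lf (nat_lit 0) (nat_lit 5942584194) (nat_lit 76) (nat_lit 11349460773) (nat_lit 76) (nat_lit 10592375466) (nat_lit 13) (nat_lit 4) (nat_lit 14) (nat_lit 5) (nat_lit 14) (nat_lit 4) (nat_lit 365) (nat_lit 209) (nat_lit 206)) (XT.nd (nat_lit 78) (nat_lit 0) (nat_lit 0) (XT.lf (nat_lit 0) (nat_lit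 14462512062) (nat_lit 76) (nat_lit 7558994803) (nat_lit 76) (nat_lit 6564103589) (nat_lit 13) (nat_lit 4) (nat_lit 14) (nat_lit 5) (nat_lit 14) (nat_lit 4) (nat_lit 366) (nat_lit 209) (nat_lit 205)) (XT.lf (nat_lit 0) (nat_lit 23081736442) (nat_lit 76) (nat_lit 3727203221) (nat_lit 76) (nat_lit 2501432485) (nat_lit 13) (nat_lit 4) (nat_lit 14) (nat_lit 5) (nat_lit 14) (nat_lit 4) (nat_lit 367) (nat_lit 209) (nat_lit 204)))) (XT.nd (nat_lit 156) (nat_lit 0) (nat_lit 0) (XT.nd (nat_lit 78) (nat_lit 0) (nat_lit 0) (XT.lf (nat_lit 0) (nat_lit 1586728020) (nat_lit 152) (nat_lit 28292553979) (nat_lit 0) (nat_lit 179033253) (nat_lit 11) (nat_lit 5) (nat_lit 13) (nat_lit 4) (nat_lit 11) (nat_lit 4) (nat_lit 368) (nat_lit 209) (nat_lit 203)) (XT.lf (nat_lit 0) (nat_lit 5765645196) (nat_lit 152) (nat_lit 20915110857) (nat_lit 0) (nat_lit 4146662960) (nat_lit 11) (nat_lit 5) (nat_lit 13) (nat_lit 4) (nat_lit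 11) (nat_lit 4) (nat_lit 369) (nat_lit 209) (nat_lit 202))) (XT.nd (nat_lit 78) (nat_lit 0) (nat_lit 0) (XT.lf (nat_lit 0) (nat_lit 9990284661) (nat_lit 152) (nat_lit 13465548137) (nat_lit 0) (nat_lit 8166168960) (nat_lit 11) (nat_lit 5) (nat_lit 13) (nat_lit 4) (nat_lit 11) (nat_lit 4) (nat_lit 370) (nat_lit 209) (nat_lit 201)) (XT.lf (nat_lit 0) (nat_lit 14264337848) (nat_lit 152) (nat_lit 5937356491) (nat_lit 0) (nat_lit 12241063444) (nat_lit 11) (nat_lit 5) (nat_lit 13) (nat_lit 4) (nat_lit 11) (nat_lit 4) (nat_lit 371) (nat_lit 209) (nat_lit 200))))) (XT.nd (nat_lit 312) (nat_lit 152) (nat_lit 0) (XT.nd (nat_lit 156) (nat_lit 0) (nat_lit 0) (XT.nd (nat_lit 78) (nat_lit 0) (nat_lit 0) (XT.lf (nat_lit 0) (nat_lit 1709398635) (nat_lit 76) (nat_lit 16898572518) (nat_lit 76) (nat_lit 14681940149) (nat_lit 10) (nat_lit 4) (nat_lit 11) (nat_lit 5) (nat_lit 11) (nat_lit 4) (nat_lit 372) (nat_lit 209)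 (nat_lit 199)) (XT.lf (nat_lit 0) (nat_lit 9568006422) (nat_lit 76) (nat_lit 13499637377) (nat_lit 76) (nat_lit 11095278829) (nat_lit 10) (nat_lit 4) (nat_lit 11) (nat_lit 5) (nat_lit 11) (nat_lit 4) (nat_lit 373) (nat_lit 209) (nat_lit 198))) (XT.nd (nat_lit 78) (nat_lit 0) (nat_lit 0) (XT.lf (nat_lit 0) (nat_lit 17527168578) (nat_lit 76) (nat_lit 10061874633) (nat_lit 76) (nat_lit 7475257659) (nat_lit 10) (nat_lit 4) (nat_lit 11) (nat_lit 5) (nat_lit 11) (nat_lit 4) (nat_lit 374) (nat_lit 209) (nat_lit 197)) (XT.lf (nat_lit 0) (nat_lit 25593839711) (nat_lit 76) (nat_lit 6582280415) (nat_lit 76) (nat_lit 3818713513) (nat_lit 10) (nat_lit 4) (nat_lit 11) (nat_lit 5) (nat_lit 11) (nat_lit 4) (nat_lit 375) (nat_lit 209) (nat_lit 196)))) (XT.nd (nat_lit 156) (nat_lit 0) (nat_lit 0) (XT.nd (nat_lit 78) (nat_lit 152) (nat_lit 0) (XT.lf (nat_lit 0) (nat_lit 33775068368) (nat_lit 76) (nat_lit 3057814302)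 (nat_lit 76) (nat_lit 122451352) (nat_lit 10) (nat_lit 4) (nat_lit 11) (nat_lit 5) (nat_lit 11) (nat_lit 4) (nat_lit 376) (nat_lit 209) (nat_lit 195)) (XT.lf (nat_lit 0) (nat_lit 3592033833) (nat_lit 152) (nat_lit 33771956284) (nat_lit 0) (nat_lit 580232641) (nat_lit 8) (nat_lit 5) (nat_lit 10) (nat_lit 4) (nat_lit 8) (nat_lit 4) (nat_lit 377) (nat_lit 209) (nat_lit 194))) (XT.nd (nat_lit 78) (nat_lit 0) (nat_lit 0) (XT.lf (nat_lit 0) (nat_lit 7411778315) (nat_lit 152) (nat_lit 27308328149) (nat_lit 0) (nat_lit 4242759403) (nat_lit 8) (nat_lit 5) (nat_lit 10) (nat_lit 4) (nat_lit 8) (nat_lit 4) (nat_lit 378) (nat_lit 209) (nat_lit 193)) (XT.lf (nat_lit 0) (nat_lit 11281627838) (nat_lit 152) (nat_lit 20772416975) (nat_lit 0) (nat_lit 7959970363) (nat_lit 8) (nat_lit 5) (nat_lit 10) (nat_lit 4) (nat_lit 8) (nat_lit 4) (nat_lit 379) (nat_lit 209) (nat_lit 192))))))))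
noncomputable def xc12 : XT := (XT.nd (nat_lit 2184) (nat_lit 0) (nat_lit 0) (XT.nd (nat_lit 1092) (nat_lit 76) (nat_lit 0) (XT.nd (nat_lit 546) (nat_lit 152) (nat_lit 0) (XT.nd (nat_lit 234) (nat_lit 76) (nat_lit 0) (XT.nd (nat_lit 78) (nat_lit 0) (nat_lit 0) (XT.lf (nat_lit 0) (nat_lit 15204963824) (nat_lit 152) (nat_lit 14158511770) (nat_lit 0) (nat_lit 11735113571) (nat_lit 8) (nat_lit 5) (nat_lit 10) (nat_lit 4) (nat_lit 8) (nat_lit 4) (nat_lit 380) (nat_lit 209) (nat_lit 191)) (XT.nd (nat_lit 78) (nat_lit 0) (nat_lit 0) (XT.lf (nat_lit 0) (nat_lit 19185214432) (nat_lit 152) (nat_lit 7460833396) (nat_lit 0) (nat_lit 15571487693) (nat_lit 8) (nat_lit 5) (nat_lit 10) (nat_lit 4) (nat_lit 8) (nat_lit 4) (nat_lit 381) (nat_lit 209) (nat_lit 190)) (XT.lf (nat_lit 0) (nat_lit 23225857549) (nat_lit 152) (nat_lit 673529510) (nat_lit 0) (nat_lit 19472444904) (nat_lit 8) (nat_lit 5) (nat_lit 10) (nat_lit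 4) (nat_lit 8) (nat_lit 4) (nat_lit 382) (nat_lit 209) (nat_lit 189)))) (XT.nd (nat_lit 156) (nat_lit 0) (nat_lit 0) (XT.nd (nat_lit 78) (nat_lit 0) (nat_lit 0) (XT.lf (nat_lit 0) (nat_lit 6332908392) (nat_lit 76) (nat_lit 21058391234) (nat_lit 76) (nat_lit 17169361202) (nat_lit 7) (nat_lit 4) (nat_lit 8) (nat_lit 5) (nat_lit 8) (nat_lit 4) (nat_lit 383) (nat_lit 209) (nat_lit 188)) (XT.lf (nat_lit 0) (nat_lit 13456342615) (nat_lit 76) (nat_lit 18175507788) (nat_lit 76) (nat_lit 14154810391) (nat_lit 7) (nat_lit 4) (nat_lit 8) (nat_lit 5) (nat_lit 8) (nat_lit 4) (nat_lit 384) (nat_lit 209) (nat_lit 187))) (XT.nd (nat_lit 78) (nat_lit 0) (nat_lit 0) (XT.lf (nat_lit 0) (nat_lit 20689592961) (nat_lit 76) (nat_lit 15255019026) (nat_lit 76) (nat_lit 11106489236) (nat_lit 7) (nat_lit 4) (nat_lit 8) (nat_lit 5) (nat_lit 8) (nat_lit 4) (nat_lit 385) (nat_lit 209) (nat_lit 186)) (XT.lf (nat_lit 0) (nat_lit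 28038979745) (nat_lit 76) (nat_lit 12294373065) (nat_lit 76) (nat_lit 8021734155) (nat_lit 7) (nat_lit 4) (nat_lit 8) (nat_lit 5) (nat_lit 8) (nat_lit 4) (nat_lit 386) (nat_lit 209) (nat_lit 185))))) (XT.nd (nat_lit 234) (nat_lit 76) (nat_lit 0) (XT.nd (nat_lit 78) (nat_lit 76) (nat_lit 0) (XT.lf (nat_lit 0) (nat_lit 35510924762) (nat_lit 76) (nat_lit 9290982931) (nat_lit 76) (nat_lit 4897849731) (nat_lit 7) (nat_lit 4) (nat_lit 8) (nat_lit 5) (nat_lit 8) (nat_lit 4) (nat_lit 387) (nat_lit 209) (nat_lit 184)) (XT.nd (nat_lit 78) (nat_lit 76) (nat_lit 0) (XT.lf (nat_lit 0) (nat_lit 43111956896) (nat_lit 76) (nat_lit 6242224305) (nat_lit 76) (nat_lit 1732106356) (nat_lit 7) (nat_lit 4) (nat_lit 8) (nat_lit 5) (nat_lit 8) (nat_lit 4) (nat_lit 388) (nat_lit 209) (nat_lit 183)) (XT.lf (nat_lit 0) (nat_lit 1449415933) (nat_lit 152) (nat_lit 1681381029) (nat_lit 76) (nat_lit 49384665632) (nat_lit 6) (nat_lit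 5) (nat_lit 8) (nat_lit 5) (nat_lit 7) (nat_lit 4) (nat_lit 389) (nat_lit 209) (nat_lit 182)))) (XT.nd (nat_lit 156) (nat_lit 0) (nat_lit 0) (XT.nd (nat_lit 78) (nat_lit 0) (nat_lit 0) (XT.lf (nat_lit 0) (nat_lit 4690575962) (nat_lit 152) (nat_lit 49201967171) (nat_lit 0) (nat_lit 94493710) (nat_lit 5) (nat_lit 5) (nat_lit 7) (nat_lit 4) (nat_lit 5) (nat_lit 4) (nat_lit 390) (nat_lit 209) (nat_lit 181)) (XT.lf (nat_lit 0) (nat_lit 8029315859) (nat_lit 152) (nat_lit 44144146305) (nat_lit 0) (nat_lit 3329294173) (nat_lit 5) (nat_lit 5) (nat_lit 7) (nat_lit 4) (nat_lit 5) (nat_lit 4) (nat_lit 391) (nat_lit 209) (nat_lit 180))) (XT.nd (nat_lit 78) (nat_lit 0) (nat_lit 0) (XT.lf (nat_lit 0) (nat_lit 11421810496) (nat_lit 152) (nat_lit 39022660529) (nat_lit 0) (nat_lit 6620876738) (nat_lit 5) (nat_lit 5) (nat_lit 7) (nat_lit 4) (nat_lit 5) (nat_lit 4) (nat_lit 392) (nat_lit 209) (nat_lit 179)) (XT.lf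 (nat_lit 0) (nat_lit 14871024188) (nat_lit 152) (nat_lit 33833034757) (nat_lit 0) (nat_lit 9972117546) (nat_lit 5) (nat_lit 5) (nat_lit 7) (nat_lit 4) (nat_lit 5) (nat_lit 4) (nat_lit 393) (nat_lit 209) (nat_lit 178)))))) (XT.nd (nat_lit 546) (nat_lit 0) (nat_lit 0) (XT.nd (nat_lit 234) (nat_lit 76) (nat_lit 0) (XT.nd (nat_lit 78) (nat_lit 0) (nat_lit 0) (XT.lf (nat_lit 0) (nat_lit 18379970813) (nat_lit 152) (nat_lit 28570734367) (nat_lit 0) (nat_lit 13385944865) (nat_lit 5) (nat_lit 5) (nat_lit 7) (nat_lit 4) (nat_lit 5) (nat_lit 4) (nat_lit 394) (nat_lit 209) (nat_lit 177)) (XT.nd (nat_lit 78) (nat_lit 0) (nat_lit 0) (XT.lf (nat_lit 0) (nat_lit 21951716440) (nat_lit 152) (nat_lit 23231161230) (nat_lit 0) (nat_lit 16865341651) (nat_lit 5) (nat_lit 5) (nat_lit 7) (nat_lit 4) (nat_lit 5) (nat_lit 4) (nat_lit 395) (nat_lit 209) (nat_lit 176)) (XT.lf (nat_lit 0) (nat_lit 25589382012) (nat_lit 152)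 (nat_lit 17809649701) (nat_lit 0) (nat_lit 20413348154) (nat_lit 5) (nat_lit 5) (nat_lit 7) (nat_lit 4) (nat_lit 5) (nat_lit 4) (nat_lit 396) (nat_lit 209) (nat_lit 175)))) (XT.nd (nat_lit 156) (nat_lit 76) (nat_lit 0) (XT.nd (nat_lit 78) (nat_lit 0) (nat_lit 0) (XT.lf (nat_lit 0) (nat_lit 29296146071) (nat_lit 152) (nat_lit 12301462537) (nat_lit 0) (nat_lit 24033064574) (nat_lit 5) (nat_lit 5) (nat_lit 7) (nat_lit 4) (nat_lit 5) (nat_lit 4) (nat_lit 397) (nat_lit 209) (nat_lit 174)) (XT.lf (nat_lit 0) (nat_lit 33075247538) (nat_lit 152) (nat_lit 6701786759) (nat_lit 0) (nat_lit 27727653769) (nat_lit 5) (nat_lit 5) (nat_lit 7) (nat_lit 4) (nat_lit 5) (nat_lit 4) (nat_lit 398) (nat_lit 209) (nat_lit 173))) (XT.nd (nat_lit 78) (nat_lit 76) (nat_lit 0) (XT.lf (nat_lit 0) (nat_lit 36929988540) (nat_lit 152) (nat_lit 1005729445) (nat_lit 0) (nat_lit 31500344022) (nat_lit 5) (nat_lit 5) (nat_lit 7) (nat_lit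 4) (nat_lit 5) (nat_lit 4) (nat_lit 399) (nat_lit 209) (nat_lit 172)) (XT.lf (nat_lit 0) (nat_lit 4887050498) (nat_lit 76) (nat_lit 36023664117) (nat_lit 76) (nat_lit 30514358679) (nat_lit 4) (nat_lit 4) (nat_lit 5) (nat_lit 5) (nat_lit 5) (nat_lit 4) (nat_lit 400) (nat_lit 209) (nat_lit 171))))) (XT.nd (nat_lit 234) (nat_lit 0) (nat_lit 0) (XT.nd (nat_lit 78) (nat_lit 0) (nat_lit 0) (XT.lf (nat_lit 0) (nat_lit 10908388859) (nat_lit 76) (nat_lit 34076400312) (nat_lit 76) (nat_lit 28489754174) (nat_lit 4) (nat_lit 4) (nat_lit 5) (nat_lit 5) (nat_lit 5) (nat_lit 4) (nat_lit 401) (nat_lit 209) (nat_lit 170)) (XT.nd (nat_lit 78) (nat_lit 0) (nat_lit 0) (XT.lf (nat_lit 0) (nat_lit 17043531014) (nat_lit 76) (nat_lit 32102380973) (nat_lit 76) (nat_lit 26440646776) (nat_lit 4) (nat_lit 4) (nat_lit 5) (nat_lit 5) (nat_lit 5) (nat_lit 4) (nat_lit 402) (nat_lit 209) (nat_lit 169)) (XT.lf (nat_lit 0) (nat_lit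 23297837765) (nat_lit 76) (nat_lit 30099881228) (nat_lit 76) (nat_lit 24365246003) (nat_lit 4) (nat_lit 4) (nat_lit 5) (nat_lit 5) (nat_lit 5) (nat_lit 4) (nat_lit 403) (nat_lit 209) (nat_lit 168)))) (XT.nd (nat_lit 156) (nat_lit 0) (nat_lit 0) (XT.nd (nat_lit 78) (nat_lit 0) (nat_lit 0) (XT.lf (nat_lit 0) (nat_lit 29676774042) (nat_lit 76) (nat_lit 28067151320) (nat_lit 76) (nat_lit 22261738399) (nat_lit 4) (nat_lit 4) (nat_lit 5) (nat_lit 5) (nat_lit 5) (nat_lit 4) (nat_lit 404) (nat_lit 209) (nat_lit 167)) (XT.lf (nat_lit 0) (nat_lit 36185913671) (nat_lit 76) (nat_lit 26002415078) (nat_lit 76) (nat_lit 20128285946) (nat_lit 4) (nat_lit 4) (nat_lit 5) (nat_lit 5) (nat_lit 5) (nat_lit 4) (nat_lit 405) (nat_lit 209) (nat_lit 166))) (XT.nd (nat_lit 78) (nat_lit 0) (nat_lit 0) (XT.lf (nat_lit 0) (nat_lit 42830944252) (nat_lit 76) (nat_lit 23903868362) (nat_lit 76) (nat_lit 17963024463) (nat_lit 4)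 (nat_lit 4) (nat_lit 5) (nat_lit 5) (nat_lit 5) (nat_lit 4) (nat_lit 406) (nat_lit 209) (nat_lit 165)) (XT.lf (nat_lit 0) (nat_lit 49617672120) (nat_lit 76) (nat_lit 21769677492) (nat_lit 76) (nat_lit 15764061974) (nat_lit 4) (nat_lit 4) (nat_lit 5) (nat_lit 5) (nat_lit 5) (nat_lit 4) (nat_lit 407) (nat_lit 209) (nat_lit 164))))))) (XT.nd (nat_lit 37518) (nat_lit 0) (nat_lit 304) (XT.nd (nat_lit 36972) (nat_lit 0) (nat_lit 684) (XT.nd (nat_lit 234) (nat_lit 0) (nat_lit 0) (XT.nd (nat_lit 78) (nat_lit 0) (nat_lit 0) (XT.lf (nat_lit 0) (nat_lit 56552027428) (nat_lit 76) (nat_lit 19597977641) (nat_lit 76) (nat_lit 13529477056) (nat_lit 4) (nat_lit 4) (nat_lit 5) (nat_lit 5) (nat_lit 5) (nat_lit 4) (nat_lit 408) (nat_lit 209) (nat_lit 163)) (XT.nd (nat_lit 78) (nat_lit 0) (nat_lit 0) (XT.lf (nat_lit 0) (nat_lit 63640069319) (nat_lit 76) (nat_lit 17386871206) (nat_lit 76) (nat_lit 11257317158) (nat_lit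 4) (nat_lit 4) (nat_lit 5) (nat_lit 5) (nat_lit 5) (nat_lit 4) (nat_lit 409) (nat_lit 209) (nat_lit 162)) (XT.lf (nat_lit 0) (nat_lit 70887991229) (nat_lit 76) (nat_lit 15134426153) (nat_lit 76) (nat_lit 8945596898) (nat_lit 4) (nat_lit 4) (nat_lit 5) (nat_lit 5) (nat_lit 5) (nat_lit 4) (nat_lit 410) (nat_lit 209) (nat_lit 161)))) (XT.nd (nat_lit 156) (nat_lit 0) (nat_lit 0) (XT.nd (nat_lit 78) (nat_lit 0) (nat_lit 0) (XT.lf (nat_lit 0) (nat_lit 78302126294) (nat_lit 76) (nat_lit 12838674326) (nat_lit 76) (nat_lit 6592296327) (nat_lit 4) (nat_lit 4) (nat_lit 5) (nat_lit 5) (nat_lit 5) (nat_lit 4) (nat_lit 411) (nat_lit 209) (nat_lit 160)) (XT.lf (nat_lit 0) (nat_lit 85888952883) (nat_lit 76) (nat_lit 10497609728) (nat_lit 76) (nat_lit 4195359162) (nat_lit 4) (nat_lit 4) (nat_lit 5) (nat_lit 5) (nat_lit 5) (nat_lit 4) (nat_lit 412) (nat_lit 209) (nat_lit 159))) (XT.nd (nat_lit 36504) (nat_lit 0)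 (nat_lit 912) (XT.lf (nat_lit 0) (nat_lit 93655100264) (nat_lit 76) (nat_lit 8109186769) (nat_lit 76) (nat_lit 1752690992) (nat_lit 4) (nat_lit 4) (nat_lit 5) (nat_lit 5) (nat_lit 5) (nat_lit 4) (nat_lit 413) (nat_lit 209) (nat_lit 158)) (XT.lf (nat_lit 0) (nat_lit 7422182514) (nat_lit 76) (nat_lit 2462380817) (nat_lit 76) (nat_lit 2462380817) (nat_lit 16) (nat_lit 4) (nat_lit 17) (nat_lit 5) (nat_lit 17) (nat_lit 4) (nat_lit 360) (nat_lit 210) (nat_lit 210))))) (XT.nd (nat_lit 234) (nat_lit 76) (nat_lit 0) (XT.nd (nat_lit 78) (nat_lit 152) (nat_lit 0) (XT.lf (nat_lit 0) (nat_lit 23845278057) (nat_lit 76) (nat_lit 862553209) (nat_lit 76) (nat_lit 586870987) (nat_lit 16) (nat_lit 4) (nat_lit 17) (nat_lit 5) (nat_lit 17) (nat_lit 4) (nat_lit 361) (nat_lit 210) (nat_lit 209)) (XT.nd (nat_lit 78) (nat_lit 0) (nat_lit 0) (XT.lf (nat_lit 0) (nat_lit 3815909445) (nat_lit 152) (nat_lit 18807818340) (nat_lit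 0) (nat_lit 3288399866) (nat_lit 14) (nat_lit 5) (nat_lit 16) (nat_lit 4) (nat_lit 14) (nat_lit 4) (nat_lit 362) (nat_lit 210) (nat_lit 208)) (XT.lf (nat_lit 0) (nat_lit 8272246985) (nat_lit 152) (nat_lit 10785227625) (nat_lit 0) (nat_lit 7492449119) (nat_lit 14) (nat_lit 5) (nat_lit 16) (nat_lit 4) (nat_lit 14) (nat_lit 4) (nat_lit 363) (nat_lit 210) (nat_lit 207)))) (XT.nd (nat_lit 156) (nat_lit 0) (nat_lit 0) (XT.nd (nat_lit 78) (nat_lit 76) (nat_lit 0) (XT.lf (nat_lit 0) (nat_lit 12774845361) (nat_lit 152) (nat_lit 2684543516) (nat_lit 0) (nat_lit 11750107411) (nat_lit 14) (nat_lit 5) (nat_lit 16) (nat_lit 4) (nat_lit 14) (nat_lit 4) (nat_lit 364) (nat_lit 210) (nat_lit 206)) (XT.lf (nat_lit 0) (nat_lit 5610799157) (nat_lit 76) (nat_lit 11770774159) (nat_lit 76) (nat_lit 10508230302) (nat_lit 13) (nat_lit 4) (nat_lit 14) (nat_lit 5) (nat_lit 14) (nat_lit 4) (nat_lit 365) (nat_lit 210) (nat_lit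 205))) (XT.nd (nat_lit 78) (nat_lit 0) (nat_lit 0) (XT.lf (nat_lit 0) (nat_lit 14053731299) (nat_lit 76) (nat_lit 8015967484) (nat_lit 76) (nat_lit 6522544105) (nat_lit 13) (nat_lit 4) (nat_lit 14) (nat_lit 5) (nat_lit 14) (nat_lit 4) (nat_lit 366) (nat_lit 210) (nat_lit 204)) (XT.lf (nat_lit 0) (nat_lit 22598202548) (nat_lit 76) (nat_lit 4218796576) (nat_lit 76) (nat_lit 2501218322) (nat_lit 13) (nat_lit 4) (nat_lit 14) (nat_lit 5) (nat_lit 14) (nat_lit 4) (nat_lit 367) (nat_lit 210) (nat_lit 203)))))) (XT.nd (nat_lit 546) (nat_lit 152) (nat_lit 0) (XT.nd (nat_lit 234) (nat_lit 76) (nat_lit 0) (XT.nd (nat_lit 78) (nat_lit 0) (nat_lit 0) (XT.lf (nat_lit 0) (nat_lit 1191580767) (nat_lit 76) (nat_lit 348707465) (nat_lit 152) (nat_lit 28527280127) (nat_lit 11) (nat_lit 5) (nat_lit 12) (nat_lit 5) (nat_lit 13) (nat_lit 4) (nat_lit 368) (nat_lit 210) (nat_lit 202)) (XT.nd (nat_lit 78) (nat_lit 0) (nat_lit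 0) (XT.lf (nat_lit 0) (nat_lit 5676619318) (nat_lit 152) (nat_lit 21568691840) (nat_lit 0) (nat_lit 3592646682) (nat_lit 11) (nat_lit 5) (nat_lit 13) (nat_lit 4) (nat_lit 11) (nat_lit 4) (nat_lit 369) (nat_lit 210) (nat_lit 201)) (XT.lf (nat_lit 0) (nat_lit 9863167423) (nat_lit 152) (nat_lit 14190487718) (nat_lit 0) (nat_lit 7580036083) (nat_lit 11) (nat_lit 5) (nat_lit 13) (nat_lit 4) (nat_lit 11) (nat_lit 4) (nat_lit 370) (nat_lit 210) (nat_lit 200)))) (XT.nd (nat_lit 156) (nat_lit 0) (nat_lit 0) (XT.nd (nat_lit 78) (nat_lit 76) (nat_lit 0) (XT.lf (nat_lit 0) (nat_lit 14100238707) (nat_lit 152) (nat_lit 6731576266) (nat_lit 0) (nat_lit 11623749403) (nat_lit 11) (nat_lit 5) (nat_lit 13) (nat_lit 4) (nat_lit 11) (nat_lit 4) (nat_lit 371) (nat_lit 210) (nat_lit 199)) (XT.lf (nat_lit 0) (nat_lit 830771353) (nat_lit 76) (nat_lit 17568749994) (nat_lit 76) (nat_lit 14904534511) (nat_lit 10) (nat_lit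 4) (nat_lit 11) (nat_lit 5) (nat_lit 11) (nat_lit 4) (nat_lit 372) (nat_lit 210) (nat_lit 198))) (XT.nd (nat_lit 78) (nat_lit 0) (nat_lit 0) (XT.lf (nat_lit 0) (nat_lit 8622776252) (nat_lit 76) (nat_lit 14200918523) (nat_lit 76) (nat_lit 11354444614) (nat_lit 10) (nat_lit 4) (nat_lit 11) (nat_lit 5) (nat_lit 11) (nat_lit 4) (nat_lit 373) (nat_lit 210) (nat_lit 197)) (XT.lf (nat_lit 0) (nat_lit 16517275409) (nat_lit 76) (nat_lit 10793353517) (nat_lit 76) (nat_lit 7769929680) (nat_lit 10) (nat_lit 4) (nat_lit 11) (nat_lit 5) (nat_lit 11) (nat_lit 4) (nat_lit 374) (nat_lit 210) (nat_lit 196))))) (XT.nd (nat_lit 312) (nat_lit 0) (nat_lit 0) (XT.nd (nat_lit 156) (nat_lit 152) (nat_lit 0) (XT.nd (nat_lit 78) (nat_lit 0) (nat_lit 0) (XT.lf (nat_lit 0) (nat_lit 24521166931) (nat_lit 76) (nat_lit 7343077492) (nat_lit 76) (nat_lit 4147857608) (nat_lit 10) (nat_lit 4) (nat_lit 11) (nat_lit 5) (nat_lit 11)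 (nat_lit 4) (nat_lit 375) (nat_lit 210) (nat_lit 195)) (XT.lf (nat_lit 0) (nat_lit 32641444509) (nat_lit 76) (nat_lit 3847075644) (nat_lit 76) (nat_lit 485063480) (nat_lit 10) (nat_lit 4) (nat_lit 11) (nat_lit 5) (nat_lit 11) (nat_lit 4) (nat_lit 376) (nat_lit 210) (nat_lit 194))) (XT.nd (nat_lit 78) (nat_lit 0) (nat_lit 0) (XT.lf (nat_lit 0) (nat_lit 2945876141) (nat_lit 76) (nat_lit 241228565) (nat_lit 152) (nat_lit 34776960255) (nat_lit 8) (nat_lit 5) (nat_lit 9) (nat_lit 5) (nat_lit 10) (nat_lit 4) (nat_lit 377) (nat_lit 210) (nat_lit 193)) (XT.lf (nat_lit 0) (nat_lit 6972763212) (nat_lit 152) (nat_lit 28612156039) (nat_lit 0) (nat_lit 3398817451) (nat_lit 8) (nat_lit 5) (nat_lit 10) (nat_lit 4) (nat_lit 8) (nat_lit 4) (nat_lit 378) (nat_lit 210) (nat_lit 192)))) (XT.nd (nat_lit 156) (nat_lit 0) (nat_lit 0) (XT.nd (nat_lit 78) (nat_lit 0) (nat_lit 0) (XT.lf (nat_lit 0) (nat_lit 10811770852)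 (nat_lit 152) (nat_lit 22134413980) (nat_lit 0) (nat_lit 7089632312) (nat_lit 8) (nat_lit 5) (nat_lit 10) (nat_lit 4) (nat_lit 8) (nat_lit 4) (nat_lit 379) (nat_lit 210) (nat_lit 191)) (XT.lf (nat_lit 0) (nat_lit 14705163263) (nat_lit 152) (nat_lit 15576983646) (nat_lit 0) (nat_lit 10839148238) (nat_lit 8) (nat_lit 5) (nat_lit 10) (nat_lit 4) (nat_lit 8) (nat_lit 4) (nat_lit 380) (nat_lit 210) (nat_lit 190))) (XT.nd (nat_lit 78) (nat_lit 0) (nat_lit 0) (XT.lf (nat_lit 0) (nat_lit 18656342438) (nat_lit 152) (nat_lit 8934135242) (nat_lit 0) (nat_lit 14650641505) (nat_lit 8) (nat_lit 5) (nat_lit 10) (nat_lit 4) (nat_lit 8) (nat_lit 4) (nat_lit 381) (nat_lit 210) (nat_lit 189)) (XT.lf (nat_lit 0) (nat_lit 22668760864) (nat_lit 152) (nat_lit 2200064338) (nat_lit 0) (nat_lit 18527442545) (nat_lit 8) (nat_lit 5) (nat_lit 10) (nat_lit 4) (nat_lit 8) (nat_lit 4) (nat_lit 382) (nat_lit 210) (nat_lit 188))))))))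
noncomputable def xc13 : XT := (XT.nd (nat_lit 2184) (nat_lit 0) (nat_lit 0) (XT.nd (nat_lit 1092) (nat_lit 76) (nat_lit 0) (XT.nd (nat_lit 546) (nat_lit 76) (nat_lit 0) (XT.nd (nat_lit 234) (nat_lit 76) (nat_lit 0) (XT.nd (nat_lit 78) (nat_lit 0) (nat_lit 0) (XT.lf (nat_lit 0) (nat_lit 4723281439) (nat_lit 76) (nat_lit 22068046169) (nat_lit 76) (nat_lit 17795060485) (nat_lit 7) (nat_lit 4) (nat_lit 8) (nat_lit 5) (nat_lit 8) (nat_lit 4) (nat_lit 383) (nat_lit 210) (nat_lit 187)) (XT.nd (nat_lit 78) (nat_lit 0) (nat_lit 0) (XT.lf (nat_lit 0) (nat_lit 11795539847) (nat_lit 76) (nat_lit 19209242126) (nat_lit 76) (nat_lit 14808424049) (nat_lit 7) (nat_lit 4) (nat_lit 8) (nat_lit 5) (nat_lit 8) (nat_lit 4) (nat_lit 384) (nat_lit 210) (nat_lit 186)) (XT.lf (nat_lit 0) (nat_lit 18979104936) (nat_lit 76) (nat_lit 16312131424) (nat_lit 76) (nat_lit 11787204228) (nat_lit 7) (nat_lit 4) (nat_lit 8) (nat_lit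 5) (nat_lit 8) (nat_lit 4) (nat_lit 385) (nat_lit 210) (nat_lit 185)))) (XT.nd (nat_lit 156) (nat_lit 76) (nat_lit 0) (XT.nd (nat_lit 78) (nat_lit 0) (nat_lit 0) (XT.lf (nat_lit 0) (nat_lit 26280253607) (nat_lit 76) (nat_lit 13374182609) (nat_lit 76) (nat_lit 8728761122) (nat_lit 7) (nat_lit 4) (nat_lit 8) (nat_lit 5) (nat_lit 8) (nat_lit 4) (nat_lit 386) (nat_lit 210) (nat_lit 184)) (XT.lf (nat_lit 0) (nat_lit 33705365504) (nat_lit 76) (nat_lit 10392828540) (nat_lit 76) (nat_lit 5630422305) (nat_lit 7) (nat_lit 4) (nat_lit 8) (nat_lit 5) (nat_lit 8) (nat_lit 4) (nat_lit 387) (nat_lit 210) (nat_lit 183))) (XT.nd (nat_lit 78) (nat_lit 76) (nat_lit 0) (XT.lf (nat_lit 0) (nat_lit 41260928589) (nat_lit 76) (nat_lit 7365464151) (nat_lit 76) (nat_lit 2489480490) (nat_lit 7) (nat_lit 4) (nat_lit 8) (nat_lit 5) (nat_lit 8) (nat_lit 4) (nat_lit 388) (nat_lit 210) (nat_lit 182)) (XT.lf (nat_lit 0) (nat_lit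 683211584) (nat_lit 152) (nat_lit 3599333490) (nat_lit 76) (nat_lit 48263434129) (nat_lit 6) (nat_lit 5) (nat_lit 8) (nat_lit 5) (nat_lit 7) (nat_lit 4) (nat_lit 389) (nat_lit 210) (nat_lit 181))))) (XT.nd (nat_lit 234) (nat_lit 0) (nat_lit 0) (XT.nd (nat_lit 78) (nat_lit 0) (nat_lit 0) (XT.lf (nat_lit 0) (nat_lit 2785719012) (nat_lit 76) (nat_lit 1095576374) (nat_lit 152) (nat_lit 50137554475) (nat_lit 5) (nat_lit 5) (nat_lit 6) (nat_lit 5) (nat_lit 7) (nat_lit 4) (nat_lit 390) (nat_lit 210) (nat_lit 180)) (XT.nd (nat_lit 78) (nat_lit 0) (nat_lit 0) (XT.lf (nat_lit 0) (nat_lit 7186643117) (nat_lit 152) (nat_lit 46208162729) (nat_lit 0) (nat_lit 2140769275) (nat_lit 5) (nat_lit 5) (nat_lit 7) (nat_lit 4) (nat_lit 5) (nat_lit 4) (nat_lit 391) (nat_lit 210) (nat_lit 179)) (XT.lf (nat_lit 0) (nat_lit 10556942787) (nat_lit 152) (nat_lit 41128797434) (nat_lit 0) (nat_lit 5413096060) (nat_lit 5) (nat_lit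 5) (nat_lit 7) (nat_lit 4) (nat_lit 5) (nat_lit 4) (nat_lit 392) (nat_lit 210) (nat_lit 178)))) (XT.nd (nat_lit 156) (nat_lit 0) (nat_lit 0) (XT.nd (nat_lit 78) (nat_lit 0) (nat_lit 0) (XT.lf (nat_lit 0) (nat_lit 13984607968) (nat_lit 152) (nat_lit 35980065335) (nat_lit 0) (nat_lit 8745641935) (nat_lit 5) (nat_lit 5) (nat_lit 7) (nat_lit 4) (nat_lit 5) (nat_lit 4) (nat_lit 393) (nat_lit 210) (nat_lit 177)) (XT.lf (nat_lit 0) (nat_lit 17472633708) (nat_lit 152) (nat_lit 30757467538) (nat_lit 0) (nat_lit 12141318834) (nat_lit 5) (nat_lit 5) (nat_lit 7) (nat_lit 4) (nat_lit 5) (nat_lit 4) (nat_lit 394) (nat_lit 210) (nat_lit 176))) (XT.nd (nat_lit 78) (nat_lit 0) (nat_lit 0) (XT.lf (nat_lit 0) (nat_lit 21024067796) (nat_lit 152) (nat_lit 25456440610) (nat_lit 0) (nat_lit 15603093854) (nat_lit 5) (nat_lit 5) (nat_lit 7) (nat_lit 4) (nat_lit 5) (nat_lit 4) (nat_lit 395) (nat_lit 210) (nat_lit 175)) (XT.lf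 (nat_lit 0) (nat_lit 24642013427) (nat_lit 152) (nat_lit 20072352583) (nat_lit 0) (nat_lit 19133991845) (nat_lit 5) (nat_lit 5) (nat_lit 7) (nat_lit 4) (nat_lit 5) (nat_lit 4) (nat_lit 396) (nat_lit 210) (nat_lit 174)))))) (XT.nd (nat_lit 546) (nat_lit 0) (nat_lit 0) (XT.nd (nat_lit 234) (nat_lit 76) (nat_lit 0) (XT.nd (nat_lit 78) (nat_lit 0) (nat_lit 0) (XT.lf (nat_lit 0) (nat_lit 28329631912) (nat_lit 152) (nat_lit 14600498917) (nat_lit 0) (nat_lit 22737098059) (nat_lit 5) (nat_lit 5) (nat_lit 7) (nat_lit 4) (nat_lit 5) (nat_lit 4) (nat_lit 397) (nat_lit 210) (nat_lit 173)) (XT.nd (nat_lit 78) (nat_lit 0) (nat_lit 0) (XT.lf (nat_lit 0) (nat_lit 32090145444) (nat_lit 152) (nat_lit 9036098379) (nat_lit 0) (nat_lit 26415560842) (nat_lit 5) (nat_lit 5) (nat_lit 7) (nat_lit 4) (nat_lit 5) (nat_lit 4) (nat_lit 398) (nat_lit 210) (nat_lit 172)) (XT.lf (nat_lit 0) (nat_lit 35926839906) (nat_lit 152)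 (nat_lit 3374288872) (nat_lit 0) (nat_lit 30172594383) (nat_lit 5) (nat_lit 5) (nat_lit 7) (nat_lit 4) (nat_lit 5) (nat_lit 4) (nat_lit 399) (nat_lit 210) (nat_lit 171)))) (XT.nd (nat_lit 156) (nat_lit 0) (nat_lit 0) (XT.nd (nat_lit 78) (nat_lit 0) (nat_lit 0) (XT.lf (nat_lit 0) (nat_lit 2437440051) (nat_lit 76) (nat_lit 37429057865) (nat_lit 76) (nat_lit 31597471642) (nat_lit 4) (nat_lit 4) (nat_lit 5) (nat_lit 5) (nat_lit 5) (nat_lit 4) (nat_lit 400) (nat_lit 210) (nat_lit 170)) (XT.lf (nat_lit 0) (nat_lit 8425854098) (nat_lit 76) (nat_lit 35497391291) (nat_lit 76) (nat_lit 29590717010) (nat_lit 4) (nat_lit 4) (nat_lit 5) (nat_lit 5) (nat_lit 5) (nat_lit 4) (nat_lit 401) (nat_lit 210) (nat_lit 169))) (XT.nd (nat_lit 78) (nat_lit 0) (nat_lit 0) (XT.lf (nat_lit 0) (nat_lit 14529030899) (nat_lit 76) (nat_lit 33538514895) (nat_lit 76) (nat_lit 27558939586) (nat_lit 4) (nat_lit 4) (nat_lit 5) (nat_lit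 5) (nat_lit 5) (nat_lit 4) (nat_lit 402) (nat_lit 210) (nat_lit 168)) (XT.lf (nat_lit 0) (nat_lit 20752303326) (nat_lit 76) (nat_lit 31550717036) (nat_lit 76) (nat_lit 25500364031) (nat_lit 4) (nat_lit 4) (nat_lit 5) (nat_lit 5) (nat_lit 5) (nat_lit 4) (nat_lit 403) (nat_lit 210) (nat_lit 167))))) (XT.nd (nat_lit 234) (nat_lit 0) (nat_lit 0) (XT.nd (nat_lit 78) (nat_lit 0) (nat_lit 0) (XT.lf (nat_lit 0) (nat_lit 27101109192) (nat_lit 76) (nat_lit 29532260805) (nat_lit 76) (nat_lit 23413191589) (nat_lit 4) (nat_lit 4) (nat_lit 5) (nat_lit 5) (nat_lit 5) (nat_lit 4) (nat_lit 404) (nat_lit 210) (nat_lit 166)) (XT.nd (nat_lit 78) (nat_lit 0) (nat_lit 0) (XT.lf (nat_lit 0) (nat_lit 33580995995) (nat_lit 76) (nat_lit 27481382501) (nat_lit 76) (nat_lit 21295598517) (nat_lit 4) (nat_lit 4) (nat_lit 5) (nat_lit 5) (nat_lit 5) (nat_lit 4) (nat_lit 405) (nat_lit 210) (nat_lit 165)) (XT.lf (nat_lit 0) (nat_lit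 40197625772) (nat_lit 76) (nat_lit 25396290094) (nat_lit 76) (nat_lit 19145734492) (nat_lit 4) (nat_lit 4) (nat_lit 5) (nat_lit 5) (nat_lit 5) (nat_lit 4) (nat_lit 406) (nat_lit 210) (nat_lit 164)))) (XT.nd (nat_lit 156) (nat_lit 0) (nat_lit 0) (XT.nd (nat_lit 78) (nat_lit 0) (nat_lit 0) (XT.lf (nat_lit 0) (nat_lit 46956780046) (nat_lit 76) (nat_lit 23275161660) (nat_lit 76) (nat_lit 16961720991) (nat_lit 4) (nat_lit 4) (nat_lit 5) (nat_lit 5) (nat_lit 5) (nat_lit 4) (nat_lit 407) (nat_lit 210) (nat_lit 163)) (XT.lf (nat_lit 0) (nat_lit 53864364873) (nat_lit 76) (nat_lit 21116143785) (nat_lit 76) (nat_lit 14741649653) (nat_lit 4) (nat_lit 4) (nat_lit 5) (nat_lit 5) (nat_lit 5) (nat_lit 4) (nat_lit 408) (nat_lit 210) (nat_lit 162))) (XT.nd (nat_lit 78) (nat_lit 0) (nat_lit 0) (XT.lf (nat_lit 0) (nat_lit 60926416007) (nat_lit 76) (nat_lit 18917349948) (nat_lit 76) (nat_lit 12483580609) (nat_lit 4)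 (nat_lit 4) (nat_lit 5) (nat_lit 5) (nat_lit 5) (nat_lit 4) (nat_lit 409) (nat_lit 210) (nat_lit 161)) (XT.lf (nat_lit 0) (nat_lit 68149104172) (nat_lit 76) (nat_lit 16676858874) (nat_lit 76) (nat_lit 10185540791) (nat_lit 4) (nat_lit 4) (nat_lit 5) (nat_lit 5) (nat_lit 5) (nat_lit 4) (nat_lit 410) (nat_lit 210) (nat_lit 160))))))) (XT.nd (nat_lit 37362) (nat_lit 0) (nat_lit 228) (XT.nd (nat_lit 36816) (nat_lit 0) (nat_lit 532) (XT.nd (nat_lit 36504) (nat_lit 0) (nat_lit 912) (XT.nd (nat_lit 78) (nat_lit 0) (nat_lit 0) (XT.lf (nat_lit 0) (nat_lit 75538740455) (nat_lit 76) (nat_lit 14392712852) (nat_lit 76) (nat_lit 7845522202) (nat_lit 4) (nat_lit 4) (nat_lit 5) (nat_lit 5) (nat_lit 5) (nat_lit 4) (nat_lit 411) (nat_lit 210) (nat_lit 159)) (XT.nd (nat_lit 78) (nat_lit 0) (nat_lit 0) (XT.lf (nat_lit 0) (nat_lit 83101781819) (nat_lit 76) (nat_lit 12062916027) (nat_lit 76) (nat_lit 5461480165) (nat_lit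 4) (nat_lit 4) (nat_lit 5) (nat_lit 5) (nat_lit 5) (nat_lit 4) (nat_lit 412) (nat_lit 210) (nat_lit 158)) (XT.lf (nat_lit 0) (nat_lit 90844836748) (nat_lit 76) (nat_lit 9685432652) (nat_lit 76) (nat_lit 3031331537) (nat_lit 4) (nat_lit 4) (nat_lit 5) (nat_lit 5) (nat_lit 5) (nat_lit 4) (nat_lit 413) (nat_lit 210) (nat_lit 157)))) (XT.nd (nat_lit 156) (nat_lit 0) (nat_lit 0) (XT.nd (nat_lit 78) (nat_lit 76) (nat_lit 0) (XT.lf (nat_lit 0) (nat_lit 5204064830) (nat_lit 152) (nat_lit 1366944864) (nat_lit 0) (nat_lit 5204064830) (nat_lit 17) (nat_lit 5) (nat_lit 19) (nat_lit 4) (nat_lit 17) (nat_lit 4) (nat_lit 358) (nat_lit 211) (nat_lit 211)) (XT.lf (nat_lit 0) (nat_lit 5940301060) (nat_lit 76) (nat_lit 9228465292) (nat_lit 76) (nat_lit 8944512602) (nat_lit 16) (nat_lit 4) (nat_lit 17) (nat_lit 5) (nat_lit 17) (nat_lit 4) (nat_lit 359) (nat_lit 211) (nat_lit 210))) (XT.nd (nat_lit 78) (nat_lit 0) (nat_lit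 0) (XT.lf (nat_lit 0) (nat_lit 14760486773) (nat_lit 76) (nat_lit 5247204507) (nat_lit 76) (nat_lit 4687569595) (nat_lit 16) (nat_lit 4) (nat_lit 17) (nat_lit 5) (nat_lit 17) (nat_lit 4) (nat_lit 360) (nat_lit 211) (nat_lit 209)) (XT.lf (nat_lit 0) (nat_lit 23679964601) (nat_lit 76) (nat_lit 1222365190) (nat_lit 76) (nat_lit 395077634) (nat_lit 16) (nat_lit 4) (nat_lit 17) (nat_lit 5) (nat_lit 17) (nat_lit 4) (nat_lit 361) (nat_lit 211) (nat_lit 208))))) (XT.nd (nat_lit 234) (nat_lit 228) (nat_lit 0) (XT.nd (nat_lit 78) (nat_lit 0) (nat_lit 0) (XT.lf (nat_lit 0) (nat_lit 3954477261) (nat_lit 152) (nat_lit 19062797577) (nat_lit 0) (nat_lit 2898997172) (nat_lit 14) (nat_lit 5) (nat_lit 16) (nat_lit 4) (nat_lit 14) (nat_lit 4) (nat_lit 362) (nat_lit 211) (nat_lit 207)) (XT.nd (nat_lit 78) (nat_lit 0) (nat_lit 0) (XT.lf (nat_lit 0) (nat_lit 8367746185) (nat_lit 152) (nat_lit 11120297663) (nat_lit 0)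 (nat_lit 7067326012) (nat_lit 14) (nat_lit 5) (nat_lit 16) (nat_lit 4) (nat_lit 14) (nat_lit 4) (nat_lit 363) (nat_lit 211) (nat_lit 206)) (XT.lf (nat_lit 0) (nat_lit 12828530371) (nat_lit 152) (nat_lit 3097371612) (nat_lit 0) (nat_lit 11290304291) (nat_lit 14) (nat_lit 5) (nat_lit 16) (nat_lit 4) (nat_lit 14) (nat_lit 4) (nat_lit 364) (nat_lit 211) (nat_lit 205)))) (XT.nd (nat_lit 156) (nat_lit 152) (nat_lit 0) (XT.nd (nat_lit 78) (nat_lit 0) (nat_lit 0) (XT.lf (nat_lit 0) (nat_lit 5112759247) (nat_lit 76) (nat_lit 12277115315) (nat_lit 76) (nat_lit 10508009714) (nat_lit 13) (nat_lit 4) (nat_lit 14) (nat_lit 5) (nat_lit 14) (nat_lit 4) (nat_lit 365) (nat_lit 211) (nat_lit 204)) (XT.lf (nat_lit 0) (nat_lit 13480938257) (nat_lit 76) (nat_lit 8556929314) (nat_lit 76) (nat_lit 6563668837) (nat_lit 13) (nat_lit 4) (nat_lit 14) (nat_lit 5) (nat_lit 14) (nat_lit 4) (nat_lit 366) (nat_lit 211) (nat_lit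 203))) (XT.nd (nat_lit 78) (nat_lit 152) (nat_lit 0) (XT.lf (nat_lit 0) (nat_lit 21952833651) (nat_lit 76) (nat_lit 4793370711) (nat_lit 76) (nat_lit 2582484142) (nat_lit 13) (nat_lit 4) (nat_lit 14) (nat_lit 5) (nat_lit 14) (nat_lit 4) (nat_lit 367) (nat_lit 211) (nat_lit 202)) (XT.lf (nat_lit 0) (nat_lit 450836792) (nat_lit 76) (nat_lit 964439478) (nat_lit 152) (nat_lit 28664154676) (nat_lit 11) (nat_lit 5) (nat_lit 12) (nat_lit 5) (nat_lit 13) (nat_lit 4) (nat_lit 368) (nat_lit 211) (nat_lit 201)))))) (XT.nd (nat_lit 546) (nat_lit 228) (nat_lit 0) (XT.nd (nat_lit 234) (nat_lit 76) (nat_lit 0) (XT.nd (nat_lit 78) (nat_lit 0) (nat_lit 0) (XT.lf (nat_lit 0) (nat_lit 5507597202) (nat_lit 152) (nat_lit 22386738207) (nat_lit 0) (nat_lit 2956813219) (nat_lit 11) (nat_lit 5) (nat_lit 13) (nat_lit 4) (nat_lit 11) (nat_lit 4) (nat_lit 369) (nat_lit 211) (nat_lit 200)) (XT.nd (nat_lit 78) (nat_lit 0) (nat_lit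 0) (XT.lf (nat_lit 0) (nat_lit 9657163403) (nat_lit 152) (nat_lit 15077814280) (nat_lit 0) (nat_lit 6913021456) (nat_lit 11) (nat_lit 5) (nat_lit 13) (nat_lit 4) (nat_lit 11) (nat_lit 4) (nat_lit 370) (nat_lit 211) (nat_lit 199)) (XT.lf (nat_lit 0) (nat_lit 13858329927) (nat_lit 152) (nat_lit 7686165151) (nat_lit 0) (nat_lit 10926461800) (nat_lit 11) (nat_lit 5) (nat_lit 13) (nat_lit 4) (nat_lit 11) (nat_lit 4) (nat_lit 371) (nat_lit 211) (nat_lit 198)))) (XT.nd (nat_lit 156) (nat_lit 0) (nat_lit 0) (XT.nd (nat_lit 78) (nat_lit 76) (nat_lit 0) (XT.lf (nat_lit 0) (nat_lit 18114767695) (nat_lit 152) (nat_lit 205332098) (nat_lit 0) (nat_lit 15000641142) (nat_lit 11) (nat_lit 5) (nat_lit 13) (nat_lit 4) (nat_lit 11) (nat_lit 4) (nat_lit 372) (nat_lit 211) (nat_lit 197)) (XT.lf (nat_lit 0) (nat_lit 7517923288) (nat_lit 76) (nat_lit 14984539513) (nat_lit 76) (nat_lit 11693463032) (nat_lit 10) (nat_lit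 4) (nat_lit 11) (nat_lit 5) (nat_lit 11) (nat_lit 4) (nat_lit 373) (nat_lit 211) (nat_lit 196))) (XT.nd (nat_lit 78) (nat_lit 0) (nat_lit 0) (XT.lf (nat_lit 0) (nat_lit 15349642835) (nat_lit 76) (nat_lit 11606292700) (nat_lit 76) (nat_lit 8143420171) (nat_lit 10) (nat_lit 4) (nat_lit 11) (nat_lit 5) (nat_lit 11) (nat_lit 4) (nat_lit 374) (nat_lit 211) (nat_lit 195)) (XT.lf (nat_lit 0) (nat_lit 23292583278) (nat_lit 76) (nat_lit 8184480939) (nat_lit 76) (nat_lit 4554816132) (nat_lit 10) (nat_lit 4) (nat_lit 11) (nat_lit 5) (nat_lit 11) (nat_lit 4) (nat_lit 375) (nat_lit 211) (nat_lit 194))))) (XT.nd (nat_lit 312) (nat_lit 76) (nat_lit 0) (XT.nd (nat_lit 156) (nat_lit 0) (nat_lit 0) (XT.nd (nat_lit 78) (nat_lit 152) (nat_lit 0) (XT.lf (nat_lit 0) (nat_lit 31353685052) (nat_lit 76) (nat_lit 4716114299) (nat_lit 76) (nat_lit 924515241) (nat_lit 10) (nat_lit 4) (nat_lit 11) (nat_lit 5) (nat_lit 11) (nat_lit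 4) (nat_lit 376) (nat_lit 211) (nat_lit 193)) (XT.lf (nat_lit 0) (nat_lit 1556422883) (nat_lit 76) (nat_lit 1155517835) (nat_lit 152) (nat_lit 35274316608) (nat_lit 8) (nat_lit 5) (nat_lit 9) (nat_lit 5) (nat_lit 10) (nat_lit 4) (nat_lit 377) (nat_lit 211) (nat_lit 192))) (XT.nd (nat_lit 78) (nat_lit 0) (nat_lit 0) (XT.lf (nat_lit 0) (nat_lit 6457968634) (nat_lit 152) (nat_lit 30073182070) (nat_lit 0) (nat_lit 2475973158) (nat_lit 8) (nat_lit 5) (nat_lit 10) (nat_lit 4) (nat_lit 8) (nat_lit 4) (nat_lit 378) (nat_lit 211) (nat_lit 191)) (XT.lf (nat_lit 0) (nat_lit 10267032699) (nat_lit 152) (nat_lit 23651914882) (nat_lit 0) (nat_lit 6141160738) (nat_lit 8) (nat_lit 5) (nat_lit 10) (nat_lit 4) (nat_lit 8) (nat_lit 4) (nat_lit 379) (nat_lit 211) (nat_lit 190)))) (XT.nd (nat_lit 156) (nat_lit 76) (nat_lit 0) (XT.nd (nat_lit 78) (nat_lit 0) (nat_lit 0) (XT.lf (nat_lit 0) (nat_lit 14131353677) (nat_lit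 152) (nat_lit 17149314518) (nat_lit 0) (nat_lit 9865795809) (nat_lit 8) (nat_lit 5) (nat_lit 10) (nat_lit 4) (nat_lit 8) (nat_lit 4) (nat_lit 380) (nat_lit 211) (nat_lit 189)) (XT.lf (nat_lit 0) (nat_lit 18054308160) (nat_lit 152) (nat_lit 10559699095) (nat_lit 0) (nat_lit 13653132906) (nat_lit 8) (nat_lit 5) (nat_lit 10) (nat_lit 4) (nat_lit 8) (nat_lit 4) (nat_lit 381) (nat_lit 211) (nat_lit 188))) (XT.nd (nat_lit 78) (nat_lit 76) (nat_lit 0) (XT.lf (nat_lit 0) (nat_lit 22039323973) (nat_lit 152) (nat_lit 3877310697) (nat_lit 0) (nat_lit 17506481354) (nat_lit 8) (nat_lit 5) (nat_lit 10) (nat_lit 4) (nat_lit 8) (nat_lit 4) (nat_lit 382) (nat_lit 211) (nat_lit 187)) (XT.lf (nat_lit 0) (nat_lit 2961478773) (nat_lit 76) (nat_lit 23156871939) (nat_lit 76) (nat_lit 18496196927) (nat_lit 7) (nat_lit 4) (nat_lit 8) (nat_lit 5) (nat_lit 8) (nat_lit 4) (nat_lit 383) (nat_lit 211) (nat_lit 186))))))))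
noncomputable def xc14 : XT := (XT.nd (nat_lit 2184) (nat_lit 0) (nat_lit 0) (XT.nd (nat_lit 1092) (nat_lit 76) (nat_lit 0) (XT.nd (nat_lit 546) (nat_lit 0) (nat_lit 0) (XT.nd (nat_lit 234) (nat_lit 152) (nat_lit 0) (XT.nd (nat_lit 78) (nat_lit 0) (nat_lit 0) (XT.lf (nat_lit 0) (nat_lit 9984051925) (nat_lit 76) (nat_lit 20321445957) (nat_lit 76) (nat_lit 15536661825) (nat_lit 7) (nat_lit 4) (nat_lit 8) (nat_lit 5) (nat_lit 8) (nat_lit 4) (nat_lit 384) (nat_lit 211) (nat_lit 185)) (XT.nd (nat_lit 78) (nat_lit 0) (nat_lit 0) (XT.lf (nat_lit 0) (nat_lit 17119378900) (nat_lit 76) (nat_lit 17447032402) (nat_lit 76) (nat_lit 12541753979) (nat_lit 7) (nat_lit 4) (nat_lit 8) (nat_lit 5) (nat_lit 8) (nat_lit 4) (nat_lit 385) (nat_lit 211) (nat_lit 184)) (XT.lf (nat_lit 0) (nat_lit 24373694450) (nat_lit 76) (nat_lit 14531119651) (nat_lit 76) (nat_lit 9508856480) (nat_lit 7) (nat_lit 4) (nat_lit 8) (nat_lit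 5) (nat_lit 8) (nat_lit 4) (nat_lit 386) (nat_lit 211) (nat_lit 183)))) (XT.nd (nat_lit 156) (nat_lit 152) (nat_lit 0) (XT.nd (nat_lit 78) (nat_lit 0) (nat_lit 0) (XT.lf (nat_lit 0) (nat_lit 31753337298) (nat_lit 76) (nat_lit 11571159819) (nat_lit 76) (nat_lit 6435319223) (nat_lit 7) (nat_lit 4) (nat_lit 8) (nat_lit 5) (nat_lit 8) (nat_lit 4) (nat_lit 387) (nat_lit 211) (nat_lit 182)) (XT.lf (nat_lit 0) (nat_lit 39264755676) (nat_lit 76) (nat_lit 8564566534) (nat_lit 76) (nat_lit 3318456592) (nat_lit 7) (nat_lit 4) (nat_lit 8) (nat_lit 5) (nat_lit 8) (nat_lit 4) (nat_lit 388) (nat_lit 211) (nat_lit 181))) (XT.nd (nat_lit 78) (nat_lit 152) (nat_lit 0) (XT.lf (nat_lit 0) (nat_lit 46914512958) (nat_lit 76) (nat_lit 5508712676) (nat_lit 76) (nat_lit 155545117) (nat_lit 7) (nat_lit 4) (nat_lit 8) (nat_lit 5) (nat_lit 8) (nat_lit 4) (nat_lit 389) (nat_lit 211) (nat_lit 180)) (XT.lf (nat_lit 0) (nat_lit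 638329071) (nat_lit 76) (nat_lit 2364348792) (nat_lit 152) (nat_lit 51050299286) (nat_lit 5) (nat_lit 5) (nat_lit 6) (nat_lit 5) (nat_lit 7) (nat_lit 4) (nat_lit 390) (nat_lit 211) (nat_lit 179))))) (XT.nd (nat_lit 234) (nat_lit 0) (nat_lit 0) (XT.nd (nat_lit 78) (nat_lit 0) (nat_lit 0) (XT.lf (nat_lit 0) (nat_lit 6273634410) (nat_lit 152) (nat_lit 48419604224) (nat_lit 0) (nat_lit 877499396) (nat_lit 5) (nat_lit 5) (nat_lit 7) (nat_lit 4) (nat_lit 5) (nat_lit 4) (nat_lit 391) (nat_lit 211) (nat_lit 178)) (XT.nd (nat_lit 78) (nat_lit 0) (nat_lit 0) (XT.lf (nat_lit 0) (nat_lit 9622385568) (nat_lit 152) (nat_lit 43381132601) (nat_lit 0) (nat_lit 4131131248) (nat_lit 5) (nat_lit 5) (nat_lit 7) (nat_lit 4) (nat_lit 5) (nat_lit 4) (nat_lit 392) (nat_lit 211) (nat_lit 177)) (XT.lf (nat_lit 0) (nat_lit 13029129864) (nat_lit 152) (nat_lit 38272103096) (nat_lit 0) (nat_lit 7445526704) (nat_lit 5) (nat_lit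 5) (nat_lit 7) (nat_lit 4) (nat_lit 5) (nat_lit 4) (nat_lit 393) (nat_lit 211) (nat_lit 176)))) (XT.nd (nat_lit 156) (nat_lit 0) (nat_lit 0) (XT.nd (nat_lit 78) (nat_lit 0) (nat_lit 0) (XT.lf (nat_lit 0) (nat_lit 16496844065) (nat_lit 152) (nat_lit 33088051507) (nat_lit 0) (nat_lit 10823581836) (nat_lit 5) (nat_lit 5) (nat_lit 7) (nat_lit 4) (nat_lit 5) (nat_lit 4) (nat_lit 394) (nat_lit 211) (nat_lit 175)) (XT.lf (nat_lit 0) (nat_lit 20028558212) (nat_lit 152) (nat_lit 27824448081) (nat_lit 0) (nat_lit 14268248344) (nat_lit 5) (nat_lit 5) (nat_lit 7) (nat_lit 4) (nat_lit 5) (nat_lit 4) (nat_lit 395) (nat_lit 211) (nat_lit 174))) (XT.nd (nat_lit 78) (nat_lit 0) (nat_lit 0) (XT.lf (nat_lit 0) (nat_lit 23627358270) (nat_lit 152) (nat_lit 22476693553) (nat_lit 0) (nat_lit 17782536130) (nat_lit 5) (nat_lit 5) (nat_lit 7) (nat_lit 4) (nat_lit 5) (nat_lit 4) (nat_lit 396) (nat_lit 211) (nat_lit 173))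 (XT.lf (nat_lit 0) (nat_lit 27296388820) (nat_lit 152) (nat_lit 17040115127) (nat_lit 0) (nat_lit 21369515931) (nat_lit 5) (nat_lit 5) (nat_lit 7) (nat_lit 4) (nat_lit 5) (nat_lit 4) (nat_lit 397) (nat_lit 211) (nat_lit 172)))))) (XT.nd (nat_lit 546) (nat_lit 0) (nat_lit 0) (XT.nd (nat_lit 234) (nat_lit 76) (nat_lit 0) (XT.nd (nat_lit 78) (nat_lit 0) (nat_lit 0) (XT.lf (nat_lit 0) (nat_lit 31038855812) (nat_lit 152) (nat_lit 11509962395) (nat_lit 0) (nat_lit 25032322002) (nat_lit 5) (nat_lit 5) (nat_lit 7) (nat_lit 4) (nat_lit 5) (nat_lit 4) (nat_lit 398) (nat_lit 211) (nat_lit 171)) (XT.nd (nat_lit 78) (nat_lit 0) (nat_lit 0) (XT.lf (nat_lit 0) (nat_lit 34858029362) (nat_lit 152) (nat_lit 5881403185) (nat_lit 0) (nat_lit 28774154852) (nat_lit 5) (nat_lit 5) (nat_lit 7) (nat_lit 4) (nat_lit 5) (nat_lit 4) (nat_lit 399) (nat_lit 211) (nat_lit 170)) (XT.lf (nat_lit 0) (nat_lit 38757246613) (nat_lit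 152) (nat_lit 149519339) (nat_lit 0) (nat_lit 32598284045) (nat_lit 5) (nat_lit 5) (nat_lit 7) (nat_lit 4) (nat_lit 5) (nat_lit 4) (nat_lit 400) (nat_lit 211) (nat_lit 169)))) (XT.nd (nat_lit 156) (nat_lit 0) (nat_lit 0) (XT.nd (nat_lit 78) (nat_lit 0) (nat_lit 0) (XT.lf (nat_lit 0) (nat_lit 5803953626) (nat_lit 76) (nat_lit 36991752174) (nat_lit 76) (nat_lit 30759888578) (nat_lit 4) (nat_lit 4) (nat_lit 5) (nat_lit 5) (nat_lit 5) (nat_lit 4) (nat_lit 401) (nat_lit 211) (nat_lit 168)) (XT.lf (nat_lit 0) (nat_lit 11876096103) (nat_lit 76) (nat_lit 35047577664) (nat_lit 76) (nat_lit 28744936372) (nat_lit 4) (nat_lit 4) (nat_lit 5) (nat_lit 5) (nat_lit 5) (nat_lit 4) (nat_lit 402) (nat_lit 211) (nat_lit 167))) (XT.nd (nat_lit 78) (nat_lit 0) (nat_lit 0) (XT.lf (nat_lit 0) (nat_lit 18069238119) (nat_lit 76) (nat_lit 33074053482) (nat_lit 76) (nat_lit 26702695979) (nat_lit 4) (nat_lit 4) (nat_lit 5)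 (nat_lit 5) (nat_lit 5) (nat_lit 4) (nat_lit 403) (nat_lit 211) (nat_lit 166)) (XT.lf (nat_lit 0) (nat_lit 24388791158) (nat_lit 76) (nat_lit 31069455188) (nat_lit 76) (nat_lit 24631382918) (nat_lit 4) (nat_lit 4) (nat_lit 5) (nat_lit 5) (nat_lit 5) (nat_lit 4) (nat_lit 404) (nat_lit 211) (nat_lit 165))))) (XT.nd (nat_lit 234) (nat_lit 0) (nat_lit 0) (XT.nd (nat_lit 78) (nat_lit 0) (nat_lit 0) (XT.lf (nat_lit 0) (nat_lit 30840277158) (nat_lit 76) (nat_lit 29032031193) (nat_lit 76) (nat_lit 22529187304) (nat_lit 4) (nat_lit 4) (nat_lit 5) (nat_lit 5) (nat_lit 5) (nat_lit 4) (nat_lit 405) (nat_lit 211) (nat_lit 164)) (XT.nd (nat_lit 78) (nat_lit 0) (nat_lit 0) (XT.lf (nat_lit 0) (nat_lit 37429333341) (nat_lit 76) (nat_lit 26960001222) (nat_lit 76) (nat_lit 20394272266) (nat_lit 4) (nat_lit 4) (nat_lit 5) (nat_lit 5) (nat_lit 5) (nat_lit 4) (nat_lit 406) (nat_lit 211) (nat_lit 163)) (XT.lf (nat_lit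 0) (nat_lit 44161717135) (nat_lit 76) (nat_lit 24851554764) (nat_lit 76) (nat_lit 18224772345) (nat_lit 4) (nat_lit 4) (nat_lit 5) (nat_lit 5) (nat_lit 5) (nat_lit 4) (nat_lit 407) (nat_lit 211) (nat_lit 162)))) (XT.nd (nat_lit 156) (nat_lit 0) (nat_lit 0) (XT.nd (nat_lit 78) (nat_lit 0) (nat_lit 0) (XT.lf (nat_lit 0) (nat_lit 51043311204) (nat_lit 76) (nat_lit 22704849488) (nat_lit 76) (nat_lit 16018791862) (nat_lit 4) (nat_lit 4) (nat_lit 5) (nat_lit 5) (nat_lit 5) (nat_lit 4) (nat_lit 408) (nat_lit 211) (nat_lit 161)) (XT.lf (nat_lit 0) (nat_lit 58080128593) (nat_lit 76) (nat_lit 20518009631) (nat_lit 76) (nat_lit 13774403260) (nat_lit 4) (nat_lit 4) (nat_lit 5) (nat_lit 5) (nat_lit 5) (nat_lit 4) (nat_lit 409) (nat_lit 211) (nat_lit 160))) (XT.nd (nat_lit 78) (nat_lit 0) (nat_lit 0) (XT.lf (nat_lit 0) (nat_lit 65278317976) (nat_lit 76) (nat_lit 18289124362) (nat_lit 76) (nat_lit 11489645424)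 (nat_lit 4) (nat_lit 4) (nat_lit 5) (nat_lit 5) (nat_lit 5) (nat_lit 4) (nat_lit 410) (nat_lit 211) (nat_lit 159)) (XT.lf (nat_lit 0) (nat_lit 72644169034) (nat_lit 76) (nat_lit 16016246111) (nat_lit 76) (nat_lit 9162521963) (nat_lit 4) (nat_lit 4) (nat_lit 5) (nat_lit 5) (nat_lit 5) (nat_lit 4) (nat_lit 411) (nat_lit 211) (nat_lit 158))))))) (XT.nd (nat_lit 37206) (nat_lit 0) (nat_lit 304) (XT.nd (nat_lit 36660) (nat_lit 0) (nat_lit 684) (XT.nd (nat_lit 36348) (nat_lit 0) (nat_lit 912) (XT.nd (nat_lit 78) (nat_lit 0) (nat_lit 0) (XT.lf (nat_lit 0) (nat_lit 80184117947) (nat_lit 76) (nat_lit 13697388870) (nat_lit 76) (nat_lit 6790999468) (nat_lit 4) (nat_lit 4) (nat_lit 5) (nat_lit 5) (nat_lit 5) (nat_lit 4) (nat_lit 412) (nat_lit 211) (nat_lit 157)) (XT.nd (nat_lit 36192) (nat_lit 0) (nat_lit 988) (XT.lf (nat_lit 0) (nat_lit 87904753020) (nat_lit 76) (nat_lit 11330526451) (nat_lit 76) (nat_lit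 4373005735) (nat_lit 4) (nat_lit 4) (nat_lit 5) (nat_lit 5) (nat_lit 5) (nat_lit 4) (nat_lit 413) (nat_lit 211) (nat_lit 156)) (XT.lf (nat_lit 0) (nat_lit 738122070) (nat_lit 152) (nat_lit 9761817225) (nat_lit 0) (nat_lit 738122070) (nat_lit 17) (nat_lit 5) (nat_lit 19) (nat_lit 4) (nat_lit 17) (nat_lit 4) (nat_lit 356) (nat_lit 212) (nat_lit 212)))) (XT.nd (nat_lit 156) (nat_lit 76) (nat_lit 0) (XT.nd (nat_lit 78) (nat_lit 0) (nat_lit 0) (XT.lf (nat_lit 0) (nat_lit 6043561188) (nat_lit 152) (nat_lit 11209843949) (nat_lit 0) (nat_lit 5751089917) (nat_lit 17) (nat_lit 5) (nat_lit 19) (nat_lit 4) (nat_lit 17) (nat_lit 4) (nat_lit 357) (nat_lit 212) (nat_lit 211)) (XT.lf (nat_lit 0) (nat_lit 10654681694) (nat_lit 152) (nat_lit 2818598461) (nat_lit 0) (nat_lit 10078257734) (nat_lit 17) (nat_lit 5) (nat_lit 19) (nat_lit 4) (nat_lit 17) (nat_lit 4) (nat_lit 358) (nat_lit 212) (nat_lit 210))) (XT.nd (nat_lit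 78) (nat_lit 0) (nat_lit 0) (XT.lf (nat_lit 0) (nat_lit 5770028201) (nat_lit 76) (nat_lit 9599071632) (nat_lit 76) (nat_lit 8746965449) (nat_lit 16) (nat_lit 4) (nat_lit 17) (nat_lit 5) (nat_lit 17) (nat_lit 4) (nat_lit 359) (nat_lit 212) (nat_lit 209)) (XT.lf (nat_lit 0) (nat_lit 14508778714) (nat_lit 76) (nat_lit 5655179956) (nat_lit 76) (nat_lit 4535421130) (nat_lit 16) (nat_lit 4) (nat_lit 17) (nat_lit 5) (nat_lit 17) (nat_lit 4) (nat_lit 360) (nat_lit 212) (nat_lit 208))))) (XT.nd (nat_lit 234) (nat_lit 76) (nat_lit 0) (XT.nd (nat_lit 78) (nat_lit 152) (nat_lit 0) (XT.lf (nat_lit 0) (nat_lit 23349193242) (nat_lit 76) (nat_lit 1666621327) (nat_lit 76) (nat_lit 287005566) (nat_lit 16) (nat_lit 4) (nat_lit 17) (nat_lit 5) (nat_lit 17) (nat_lit 4) (nat_lit 361) (nat_lit 212) (nat_lit 207)) (XT.nd (nat_lit 78) (nat_lit 0) (nat_lit 0) (XT.lf (nat_lit 0) (nat_lit 4009772822) (nat_lit 152) (nat_lit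 19488010516) (nat_lit 0) (nat_lit 2425399959) (nat_lit 14) (nat_lit 5) (nat_lit 16) (nat_lit 4) (nat_lit 14) (nat_lit 4) (nat_lit 362) (nat_lit 212) (nat_lit 206)) (XT.lf (nat_lit 0) (nat_lit 8381227556) (nat_lit 152) (nat_lit 11623268662) (nat_lit 0) (nat_lit 6559048786) (nat_lit 14) (nat_lit 5) (nat_lit 16) (nat_lit 4) (nat_lit 14) (nat_lit 4) (nat_lit 363) (nat_lit 212) (nat_lit 205)))) (XT.nd (nat_lit 156) (nat_lit 0) (nat_lit 0) (XT.nd (nat_lit 78) (nat_lit 76) (nat_lit 0) (XT.lf (nat_lit 0) (nat_lit 12801415442) (nat_lit 152) (nat_lit 3675835873) (nat_lit 0) (nat_lit 10748357150) (nat_lit 14) (nat_lit 5) (nat_lit 16) (nat_lit 4) (nat_lit 14) (nat_lit 4) (nat_lit 364) (nat_lit 212) (nat_lit 204)) (XT.lf (nat_lit 0) (nat_lit 4448029282) (nat_lit 76) (nat_lit 12868926675) (nat_lit 76) (nat_lit 10591713508) (nat_lit 13) (nat_lit 4) (nat_lit 14) (nat_lit 5) (nat_lit 14) (nat_lit 4) (nat_lit 365)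 (nat_lit 212) (nat_lit 203))) (XT.nd (nat_lit 78) (nat_lit 0) (nat_lit 0) (XT.lf (nat_lit 0) (nat_lit 12743632437) (nat_lit 76) (nat_lit 9182352978) (nat_lit 76) (nat_lit 6687513719) (nat_lit 13) (nat_lit 4) (nat_lit 14) (nat_lit 5) (nat_lit 14) (nat_lit 4) (nat_lit 366) (nat_lit 212) (nat_lit 202)) (XT.lf (nat_lit 0) (nat_lit 21145065835) (nat_lit 76) (nat_lit 5451427682) (nat_lit 76) (nat_lit 2745300954) (nat_lit 13) (nat_lit 4) (nat_lit 14) (nat_lit 5) (nat_lit 14) (nat_lit 4) (nat_lit 367) (nat_lit 212) (nat_lit 201)))))) (XT.nd (nat_lit 546) (nat_lit 152) (nat_lit 0) (XT.nd (nat_lit 234) (nat_lit 76) (nat_lit 0) (XT.nd (nat_lit 78) (nat_lit 76) (nat_lit 0) (XT.lf (nat_lit 0) (nat_lit 1214204389) (nat_lit 152) (nat_lit 446425281) (nat_lit 76) (nat_lit 28433205061) (nat_lit 12) (nat_lit 5) (nat_lit 14) (nat_lit 5) (nat_lit 13) (nat_lit 4) (nat_lit 368) (nat_lit 212) (nat_lit 200)) (XT.nd (nat_lit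 78) (nat_lit 0) (nat_lit 0) (XT.lf (nat_lit 0) (nat_lit 5258431159) (nat_lit 152) (nat_lit 23369964759) (nat_lit 0) (nat_lit 2238606989) (nat_lit 11) (nat_lit 5) (nat_lit 13) (nat_lit 4) (nat_lit 11) (nat_lit 4) (nat_lit 369) (nat_lit 212) (nat_lit 199)) (XT.lf (nat_lit 0) (nat_lit 9372092600) (nat_lit 152) (nat_lit 16128303154) (nat_lit 0) (nat_lit 6164542250) (nat_lit 11) (nat_lit 5) (nat_lit 13) (nat_lit 4) (nat_lit 11) (nat_lit 4) (nat_lit 370) (nat_lit 212) (nat_lit 198)))) (XT.nd (nat_lit 156) (nat_lit 76) (nat_lit 0) (XT.nd (nat_lit 78) (nat_lit 0) (nat_lit 0) (XT.lf (nat_lit 0) (nat_lit 13538400132) (nat_lit 152) (nat_lit 8801957252) (nat_lit 0) (nat_lit 10148591357) (nat_lit 11) (nat_lit 5) (nat_lit 13) (nat_lit 4) (nat_lit 11) (nat_lit 4) (nat_lit 371) (nat_lit 212) (nat_lit 197)) (XT.lf (nat_lit 0) (nat_lit 17760994219) (nat_lit 152) (nat_lit 1384525391) (nat_lit 0) (nat_lit 14194235515)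 (nat_lit 11) (nat_lit 5) (nat_lit 13) (nat_lit 4) (nat_lit 11) (nat_lit 4) (nat_lit 372) (nat_lit 212) (nat_lit 196))) (XT.nd (nat_lit 78) (nat_lit 0) (nat_lit 0) (XT.lf (nat_lit 0) (nat_lit 6252482126) (nat_lit 76) (nat_lit 15851185063) (nat_lit 76) (nat_lit 12112630312) (nat_lit 10) (nat_lit 4) (nat_lit 11) (nat_lit 5) (nat_lit 11) (nat_lit 4) (nat_lit 373) (nat_lit 212) (nat_lit 195)) (XT.lf (nat_lit 0) (nat_lit 14023250594) (nat_lit 76) (nat_lit 12501402515) (nat_lit 76) (nat_lit 8596055485) (nat_lit 10) (nat_lit 4) (nat_lit 11) (nat_lit 5) (nat_lit 11) (nat_lit 4) (nat_lit 374) (nat_lit 212) (nat_lit 194))))) (XT.nd (nat_lit 312) (nat_lit 0) (nat_lit 0) (XT.nd (nat_lit 156) (nat_lit 152) (nat_lit 0) (XT.nd (nat_lit 78) (nat_lit 0) (nat_lit 0) (XT.lf (nat_lit 0) (nat_lit 21907015233) (nat_lit 76) (nat_lit 9107225962) (nat_lit 76) (nat_lit 5039944682) (nat_lit 10) (nat_lit 4) (nat_lit 11) (nat_lit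 5) (nat_lit 11) (nat_lit 4) (nat_lit 375) (nat_lit 212) (nat_lit 193)) (XT.lf (nat_lit 0) (nat_lit 29910664770) (nat_lit 76) (nat_lit 5665689622) (nat_lit 76) (nat_lit 1441190621) (nat_lit 10) (nat_lit 4) (nat_lit 11) (nat_lit 5) (nat_lit 11) (nat_lit 4) (nat_lit 376) (nat_lit 212) (nat_lit 192))) (XT.nd (nat_lit 78) (nat_lit 0) (nat_lit 0) (XT.lf (nat_lit 0) (nat_lit 8551830) (nat_lit 76) (nat_lit 2151886294) (nat_lit 152) (nat_lit 35850551782) (nat_lit 8) (nat_lit 5) (nat_lit 9) (nat_lit 5) (nat_lit 10) (nat_lit 4) (nat_lit 377) (nat_lit 212) (nat_lit 191)) (XT.lf (nat_lit 0) (nat_lit 5866944761) (nat_lit 152) (nat_lit 31692682869) (nat_lit 0) (nat_lit 1473420156) (nat_lit 8) (nat_lit 5) (nat_lit 10) (nat_lit 4) (nat_lit 8) (nat_lit 4) (nat_lit 378) (nat_lit 212) (nat_lit 190)))) (XT.nd (nat_lit 156) (nat_lit 0) (nat_lit 0) (XT.nd (nat_lit 78) (nat_lit 0) (nat_lit 0) (XT.lf (nat_lit 0) (nat_lit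 9646937393) (nat_lit 152) (nat_lit 25326245651) (nat_lit 0) (nat_lit 5113726881) (nat_lit 8) (nat_lit 5) (nat_lit 10) (nat_lit 4) (nat_lit 8) (nat_lit 4) (nat_lit 379) (nat_lit 212) (nat_lit 189)) (XT.lf (nat_lit 0) (nat_lit 13483033679) (nat_lit 152) (nat_lit 18876878268) (nat_lit 0) (nat_lit 8814205781) (nat_lit 8) (nat_lit 5) (nat_lit 10) (nat_lit 4) (nat_lit 8) (nat_lit 4) (nat_lit 380) (nat_lit 212) (nat_lit 188))) (XT.nd (nat_lit 78) (nat_lit 0) (nat_lit 0) (XT.lf (nat_lit 0) (nat_lit 17378585549) (nat_lit 152) (nat_lit 12338945351) (nat_lit 0) (nat_lit 12578090286) (nat_lit 8) (nat_lit 5) (nat_lit 10) (nat_lit 4) (nat_lit 8) (nat_lit 4) (nat_lit 381) (nat_lit 212) (nat_lit 187)) (XT.lf (nat_lit 0) (nat_lit 21336996882) (nat_lit 152) (nat_lit 5706734144) (nat_lit 0) (nat_lit 16408669226) (nat_lit 8) (nat_lit 5) (nat_lit 10) (nat_lit 4) (nat_lit 8) (nat_lit 4) (nat_lit 382) (nat_lit 212) (nat_lit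 186))))))))
noncomputable def xc15 : XT := (XT.nd (nat_lit 2184) (nat_lit 0) (nat_lit 0) (XT.nd (nat_lit 1092) (nat_lit 76) (nat_lit 0) (XT.nd (nat_lit 546) (nat_lit 152) (nat_lit 0) (XT.nd (nat_lit 234) (nat_lit 0) (nat_lit 0) (XT.nd (nat_lit 78) (nat_lit 0) (nat_lit 0) (XT.lf (nat_lit 0) (nat_lit 1045960956) (nat_lit 76) (nat_lit 24325819946) (nat_lit 76) (nat_lit 19273383170) (nat_lit 7) (nat_lit 4) (nat_lit 8) (nat_lit 5) (nat_lit 8) (nat_lit 4) (nat_lit 383) (nat_lit 212) (nat_lit 185)) (XT.nd (nat_lit 78) (nat_lit 0) (nat_lit 0) (XT.lf (nat_lit 0) (nat_lit 8020295993) (nat_lit 76) (nat_lit 21513091110) (nat_lit 76) (nat_lit 16340160043) (nat_lit 7) (nat_lit 4) (nat_lit 8) (nat_lit 5) (nat_lit 8) (nat_lit 4) (nat_lit 384) (nat_lit 212) (nat_lit 184)) (XT.lf (nat_lit 0) (nat_lit 15108789848) (nat_lit 76) (nat_lit 18660713619) (nat_lit 76) (nat_lit 13370797805) (nat_lit 7) (nat_lit 4) (nat_lit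 8) (nat_lit 5) (nat_lit 8) (nat_lit 4) (nat_lit 385) (nat_lit 212) (nat_lit 183)))) (XT.nd (nat_lit 156) (nat_lit 0) (nat_lit 0) (XT.nd (nat_lit 78) (nat_lit 0) (nat_lit 0) (XT.lf (nat_lit 0) (nat_lit 22317636350) (nat_lit 76) (nat_lit 15766195106) (nat_lit 76) (nat_lit 10362701865) (nat_lit 7) (nat_lit 4) (nat_lit 8) (nat_lit 5) (nat_lit 8) (nat_lit 4) (nat_lit 386) (nat_lit 212) (nat_lit 182)) (XT.lf (nat_lit 0) (nat_lit 29653134491) (nat_lit 76) (nat_lit 12827006378) (nat_lit 76) (nat_lit 7313243793) (nat_lit 7) (nat_lit 4) (nat_lit 8) (nat_lit 5) (nat_lit 8) (nat_lit 4) (nat_lit 387) (nat_lit 212) (nat_lit 181))) (XT.nd (nat_lit 78) (nat_lit 0) (nat_lit 0) (XT.lf (nat_lit 0) (nat_lit 37121693929) (nat_lit 76) (nat_lit 9840579214) (nat_lit 76) (nat_lit 4219759011) (nat_lit 7) (nat_lit 4) (nat_lit 8) (nat_lit 5) (nat_lit 8) (nat_lit 4) (nat_lit 388) (nat_lit 212) (nat_lit 180)) (XT.lf (nat_lit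 0) (nat_lit 44729840591) (nat_lit 76) (nat_lit 6804304113) (nat_lit 76) (nat_lit 1079544477) (nat_lit 7) (nat_lit 4) (nat_lit 8) (nat_lit 5) (nat_lit 8) (nat_lit 4) (nat_lit 389) (nat_lit 212) (nat_lit 179))))) (XT.nd (nat_lit 234) (nat_lit 0) (nat_lit 0) (XT.nd (nat_lit 78) (nat_lit 76) (nat_lit 0) (XT.lf (nat_lit 0) (nat_lit 2068967184) (nat_lit 152) (nat_lit 1625668323) (nat_lit 76) (nat_lit 50394362675) (nat_lit 6) (nat_lit 5) (nat_lit 8) (nat_lit 5) (nat_lit 7) (nat_lit 4) (nat_lit 390) (nat_lit 212) (nat_lit 178)) (XT.nd (nat_lit 78) (nat_lit 0) (nat_lit 0) (XT.lf (nat_lit 0) (nat_lit 4823211221) (nat_lit 76) (nat_lit 470806420) (nat_lit 152) (nat_lit 50314122376) (nat_lit 5) (nat_lit 5) (nat_lit 6) (nat_lit 5) (nat_lit 7) (nat_lit 4) (nat_lit 391) (nat_lit 212) (nat_lit 177)) (XT.lf (nat_lit 0) (nat_lit 8617322236) (nat_lit 152) (nat_lit 45781634089) (nat_lit 0) (nat_lit 2773862140) (nat_lit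 5) (nat_lit 5) (nat_lit 7) (nat_lit 4) (nat_lit 5) (nat_lit 4) (nat_lit 392) (nat_lit 212) (nat_lit 176)))) (XT.nd (nat_lit 156) (nat_lit 0) (nat_lit 0) (XT.nd (nat_lit 78) (nat_lit 0) (nat_lit 0) (XT.lf (nat_lit 0) (nat_lit 12003754993) (nat_lit 152) (nat_lit 40711150791) (nat_lit 0) (nat_lit 6070635828) (nat_lit 5) (nat_lit 5) (nat_lit 7) (nat_lit 4) (nat_lit 5) (nat_lit 4) (nat_lit 393) (nat_lit 212) (nat_lit 175)) (XT.lf (nat_lit 0) (nat_lit 15451749253) (nat_lit 152) (nat_lit 35564522705) (nat_lit 0) (nat_lit 9431582449) (nat_lit 5) (nat_lit 5) (nat_lit 7) (nat_lit 4) (nat_lit 5) (nat_lit 4) (nat_lit 394) (nat_lit 212) (nat_lit 174))) (XT.nd (nat_lit 78) (nat_lit 0) (nat_lit 0) (XT.lf (nat_lit 0) (nat_lit 18964317827) (nat_lit 152) (nat_lit 30337252777) (nat_lit 0) (nat_lit 12859638752) (nat_lit 5) (nat_lit 5) (nat_lit 7) (nat_lit 4) (nat_lit 5) (nat_lit 4) (nat_lit 395) (nat_lit 212) (nat_lit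 173)) (XT.lf (nat_lit 0) (nat_lit 22544529949) (nat_lit 152) (nat_lit 25024773489) (nat_lit 0) (nat_lit 16357800125) (nat_lit 5) (nat_lit 5) (nat_lit 7) (nat_lit 4) (nat_lit 5) (nat_lit 4) (nat_lit 396) (nat_lit 212) (nat_lit 172)))))) (XT.nd (nat_lit 546) (nat_lit 0) (nat_lit 0) (XT.nd (nat_lit 234) (nat_lit 76) (nat_lit 0) (XT.nd (nat_lit 78) (nat_lit 0) (nat_lit 0) (XT.lf (nat_lit 0) (nat_lit 26195513960) (nat_lit 152) (nat_lit 19622442870) (nat_lit 0) (nat_lit 19929123214) (nat_lit 5) (nat_lit 5) (nat_lit 7) (nat_lit 4) (nat_lit 5) (nat_lit 4) (nat_lit 397) (nat_lit 212) (nat_lit 171)) (XT.nd (nat_lit 78) (nat_lit 0) (nat_lit 0) (XT.lf (nat_lit 0) (nat_lit 29920460040) (nat_lit 152) (nat_lit 14125540435) (nat_lit 0) (nat_lit 23576728594) (nat_lit 5) (nat_lit 5) (nat_lit 7) (nat_lit 4) (nat_lit 5) (nat_lit 4) (nat_lit 398) (nat_lit 212) (nat_lit 170)) (XT.lf (nat_lit 0) (nat_lit 33722622996)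 (nat_lit 152) (nat_lit 8529263068) (nat_lit 0) (nat_lit 27303803492) (nat_lit 5) (nat_lit 5) (nat_lit 7) (nat_lit 4) (nat_lit 5) (nat_lit 4) (nat_lit 399) (nat_lit 212) (nat_lit 169)))) (XT.nd (nat_lit 156) (nat_lit 0) (nat_lit 0) (XT.nd (nat_lit 78) (nat_lit 76) (nat_lit 0) (XT.lf (nat_lit 0) (nat_lit 37605325107) (nat_lit 152) (nat_lit 2828720815) (nat_lit 0) (nat_lit 31113604576) (nat_lit 5) (nat_lit 5) (nat_lit 7) (nat_lit 4) (nat_lit 5) (nat_lit 4) (nat_lit 400) (nat_lit 212) (nat_lit 168)) (XT.lf (nat_lit 0) (nat_lit 3040396463) (nat_lit 76) (nat_lit 38560788713) (nat_lit 76) (nat_lit 31998290485) (nat_lit 4) (nat_lit 4) (nat_lit 5) (nat_lit 5) (nat_lit 5) (nat_lit 4) (nat_lit 401) (nat_lit 212) (nat_lit 167))) (XT.nd (nat_lit 78) (nat_lit 0) (nat_lit 0) (XT.lf (nat_lit 0) (nat_lit 9082408528) (nat_lit 76) (nat_lit 36630887880) (nat_lit 76) (nat_lit 29999673441) (nat_lit 4) (nat_lit 4) (nat_lit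 5) (nat_lit 5) (nat_lit 5) (nat_lit 4) (nat_lit 402) (nat_lit 212) (nat_lit 166)) (XT.lf (nat_lit 0) (nat_lit 15246297718) (nat_lit 76) (nat_lit 34671221635) (nat_lit 76) (nat_lit 27973292429) (nat_lit 4) (nat_lit 4) (nat_lit 5) (nat_lit 5) (nat_lit 5) (nat_lit 4) (nat_lit 403) (nat_lit 212) (nat_lit 165))))) (XT.nd (nat_lit 234) (nat_lit 0) (nat_lit 0) (XT.nd (nat_lit 78) (nat_lit 0) (nat_lit 0) (XT.lf (nat_lit 0) (nat_lit 21537449954) (nat_lit 76) (nat_lit 32680077650) (nat_lit 76) (nat_lit 25917376826) (nat_lit 4) (nat_lit 4) (nat_lit 5) (nat_lit 5) (nat_lit 5) (nat_lit 4) (nat_lit 404) (nat_lit 212) (nat_lit 164)) (XT.nd (nat_lit 78) (nat_lit 0) (nat_lit 0) (XT.lf (nat_lit 0) (nat_lit 27961362359) (nat_lit 76) (nat_lit 30655716091) (nat_lit 76) (nat_lit 23830130199) (nat_lit 4) (nat_lit 4) (nat_lit 5) (nat_lit 5) (nat_lit 5) (nat_lit 4) (nat_lit 405) (nat_lit 212) (nat_lit 163)) (XT.lf (nat_lit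 0) (nat_lit 34523648062) (nat_lit 76) (nat_lit 28596368096) (nat_lit 76) (nat_lit 21709728742) (nat_lit 4) (nat_lit 4) (nat_lit 5) (nat_lit 5) (nat_lit 5) (nat_lit 4) (nat_lit 406) (nat_lit 212) (nat_lit 162)))) (XT.nd (nat_lit 156) (nat_lit 0) (nat_lit 0) (XT.nd (nat_lit 78) (nat_lit 0) (nat_lit 0) (XT.lf (nat_lit 0) (nat_lit 41230041098) (nat_lit 76) (nat_lit 26500234237) (nat_lit 76) (nat_lit 19554319676) (nat_lit 4) (nat_lit 4) (nat_lit 5) (nat_lit 5) (nat_lit 5) (nat_lit 4) (nat_lit 407) (nat_lit 212) (nat_lit 161)) (XT.lf (nat_lit 0) (nat_lit 48086401422) (nat_lit 76) (nat_lit 24365482940) (nat_lit 76) (nat_lit 17362019634) (nat_lit 4) (nat_lit 4) (nat_lit 5) (nat_lit 5) (nat_lit 5) (nat_lit 4) (nat_lit 408) (nat_lit 212) (nat_lit 160))) (XT.nd (nat_lit 78) (nat_lit 0) (nat_lit 0) (XT.lf (nat_lit 0) (nat_lit 55098720029) (nat_lit 76) (nat_lit 22190248887) (nat_lit 76) (nat_lit 15130913014)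 (nat_lit 4) (nat_lit 4) (nat_lit 5) (nat_lit 5) (nat_lit 5) (nat_lit 4) (nat_lit 409) (nat_lit 212) (nat_lit 159)) (XT.lf (nat_lit 0) (nat_lit 62273124187) (nat_lit 76) (nat_lit 19972631390) (nat_lit 76) (nat_lit 12859050306) (nat_lit 4) (nat_lit 4) (nat_lit 5) (nat_lit 5) (nat_lit 5) (nat_lit 4) (nat_lit 410) (nat_lit 212) (nat_lit 158))))))) (XT.nd (nat_lit 37050) (nat_lit 0) (nat_lit 304) (XT.nd (nat_lit 36504) (nat_lit 0) (nat_lit 760) (XT.nd (nat_lit 36192) (nat_lit 0) (nat_lit 988) (XT.nd (nat_lit 78) (nat_lit 0) (nat_lit 0) (XT.lf (nat_lit 0) (nat_lit 69615882793) (nat_lit 76) (nat_lit 17710692724) (nat_lit 76) (nat_lit 10544446387) (nat_lit 4) (nat_lit 4) (nat_lit 5) (nat_lit 5) (nat_lit 5) (nat_lit 4) (nat_lit 411) (nat_lit 212) (nat_lit 157)) (XT.nd (nat_lit 78) (nat_lit 0) (nat_lit 0) (XT.lf (nat_lit 0) (nat_lit 77133411850) (nat_lit 76) (nat_lit 15402456438) (nat_lit 76) (nat_lit 8185078787)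 (nat_lit 4) (nat_lit 4) (nat_lit 5) (nat_lit 5) (nat_lit 5) (nat_lit 4) (nat_lit 412) (nat_lit 212) (nat_lit 156)) (XT.lf (nat_lit 0) (nat_lit 84832280073) (nat_lit 76) (nat_lit 13045905627) (nat_lit 76) (nat_lit 5778885923) (nat_lit 4) (nat_lit 4) (nat_lit 5) (nat_lit 5) (nat_lit 5) (nat_lit 4) (nat_lit 413) (nat_lit 212) (nat_lit 155)))) (XT.nd (nat_lit 156) (nat_lit 152) (nat_lit 0) (XT.nd (nat_lit 78) (nat_lit 0) (nat_lit 0) (XT.lf (nat_lit 0) (nat_lit 3609445150) (nat_lit 76) (nat_lit 3561214005) (nat_lit 76) (nat_lit 3561214005) (nat_lit 19) (nat_lit 4) (nat_lit 20) (nat_lit 5) (nat_lit 20) (nat_lit 4) (nat_lit 354) (nat_lit 213) (nat_lit 213)) (XT.lf (nat_lit 0) (nat_lit 16218196460) (nat_lit 76) (nat_lit 3027341364) (nat_lit 76) (nat_lit 2717058594) (nat_lit 19) (nat_lit 4) (nat_lit 20) (nat_lit 5) (nat_lit 20) (nat_lit 4) (nat_lit 355) (nat_lit 213) (nat_lit 212))) (XT.nd (nat_lit 78) (nat_lit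 0) (nat_lit 0) (XT.lf (nat_lit 0) (nat_lit 1730192734) (nat_lit 152) (nat_lit 19610884447) (nat_lit 0) (nat_lit 1136476055) (nat_lit 17) (nat_lit 5) (nat_lit 19) (nat_lit 4) (nat_lit 17) (nat_lit 4) (nat_lit 356) (nat_lit 213) (nat_lit 211)) (XT.lf (nat_lit 0) (nat_lit 6251590543) (nat_lit 152) (nat_lit 11381802678) (nat_lit 0) (nat_lit 5373921175) (nat_lit 17) (nat_lit 5) (nat_lit 19) (nat_lit 4) (nat_lit 17) (nat_lit 4) (nat_lit 357) (nat_lit 213) (nat_lit 210))))) (XT.nd (nat_lit 234) (nat_lit 152) (nat_lit 0) (XT.nd (nat_lit 78) (nat_lit 76) (nat_lit 0) (XT.lf (nat_lit 0) (nat_lit 10818129265) (nat_lit 152) (nat_lit 3072798679) (nat_lit 0) (nat_lit 9664777674) (nat_lit 17) (nat_lit 5) (nat_lit 19) (nat_lit 4) (nat_lit 17) (nat_lit 4) (nat_lit 358) (nat_lit 213) (nat_lit 209)) (XT.nd (nat_lit 78) (nat_lit 0) (nat_lit 0) (XT.lf (nat_lit 0) (nat_lit 5429333701) (nat_lit 76) (nat_lit 10056655453)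 (nat_lit 76) (nat_lit 8635651219) (nat_lit 16) (nat_lit 4) (nat_lit 17) (nat_lit 5) (nat_lit 17) (nat_lit 4) (nat_lit 359) (nat_lit 213) (nat_lit 208)) (XT.lf (nat_lit 0) (nat_lit 14089020913) (nat_lit 76) (nat_lit 6149044466) (nat_lit 76) (nat_lit 4468183296) (nat_lit 16) (nat_lit 4) (nat_lit 17) (nat_lit 5) (nat_lit 17) (nat_lit 4) (nat_lit 360) (nat_lit 213) (nat_lit 207)))) (XT.nd (nat_lit 156) (nat_lit 0) (nat_lit 0) (XT.nd (nat_lit 78) (nat_lit 152) (nat_lit 0) (XT.lf (nat_lit 0) (nat_lit 22852674955) (nat_lit 76) (nat_lit 2195709806) (nat_lit 76) (nat_lit 262560350) (nat_lit 16) (nat_lit 4) (nat_lit 17) (nat_lit 5) (nat_lit 17) (nat_lit 4) (nat_lit 361) (nat_lit 213) (nat_lit 206)) (XT.lf (nat_lit 0) (nat_lit 3981844444) (nat_lit 152) (nat_lit 20083828704) (nat_lit 0) (nat_lit 1867194404) (nat_lit 14) (nat_lit 5) (nat_lit 16) (nat_lit 4) (nat_lit 14) (nat_lit 4) (nat_lit 362) (nat_lit 213)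 (nat_lit 205))) (XT.nd (nat_lit 78) (nat_lit 0) (nat_lit 0) (XT.lf (nat_lit 0) (nat_lit 8312702877) (nat_lit 152) (nat_lit 12294580111) (nat_lit 0) (nat_lit 5967173316) (nat_lit 14) (nat_lit 5) (nat_lit 16) (nat_lit 4) (nat_lit 14) (nat_lit 4) (nat_lit 363) (nat_lit 213) (nat_lit 204)) (XT.lf (nat_lit 0) (nat_lit 12693476879) (nat_lit 152) (nat_lit 4420441751) (nat_lit 0) (nat_lit 10123792442) (nat_lit 14) (nat_lit 5) (nat_lit 16) (nat_lit 4) (nat_lit 14) (nat_lit 4) (nat_lit 364) (nat_lit 213) (nat_lit 203)))))) (XT.nd (nat_lit 546) (nat_lit 228) (nat_lit 0) (XT.nd (nat_lit 234) (nat_lit 152) (nat_lit 0) (XT.nd (nat_lit 78) (nat_lit 0) (nat_lit 0) (XT.lf (nat_lit 0) (nat_lit 3616028431) (nat_lit 76) (nat_lit 13546725354) (nat_lit 76) (nat_lit 10759414825) (nat_lit 13) (nat_lit 4) (nat_lit 14) (nat_lit 5) (nat_lit 14) (nat_lit 4) (nat_lit 365) (nat_lit 213) (nat_lit 202)) (XT.nd (nat_lit 78) (nat_lit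 0) (nat_lit 0) (XT.lf (nat_lit 0) (nat_lit 11841169590) (nat_lit 76) (nat_lit 9892784964) (nat_lit 76) (nat_lit 6894186966) (nat_lit 13) (nat_lit 4) (nat_lit 14) (nat_lit 5) (nat_lit 14) (nat_lit 4) (nat_lit 366) (nat_lit 213) (nat_lit 201)) (XT.lf (nat_lit 0) (nat_lit 20174193283) (nat_lit 76) (nat_lit 6193542489) (nat_lit 76) (nat_lit 2989811026) (nat_lit 13) (nat_lit 4) (nat_lit 14) (nat_lit 5) (nat_lit 14) (nat_lit 4) (nat_lit 367) (nat_lit 213) (nat_lit 200)))) (XT.nd (nat_lit 156) (nat_lit 0) (nat_lit 0) (XT.nd (nat_lit 78) (nat_lit 76) (nat_lit 0) (XT.lf (nat_lit 0) (nat_lit 938447635) (nat_lit 152) (nat_lit 1497841464) (nat_lit 76) (nat_lit 27674456677) (nat_lit 12) (nat_lit 5) (nat_lit 14) (nat_lit 5) (nat_lit 13) (nat_lit 4) (nat_lit 368) (nat_lit 213) (nat_lit 199)) (XT.lf (nat_lit 0) (nat_lit 4928903470) (nat_lit 152) (nat_lit 24519230623) (nat_lit 0) (nat_lit 1437400432) (nat_lit 11)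 (nat_lit 5) (nat_lit 13) (nat_lit 4) (nat_lit 11) (nat_lit 4) (nat_lit 369) (nat_lit 213) (nat_lit 198))) (XT.nd (nat_lit 78) (nat_lit 0) (nat_lit 0) (XT.lf (nat_lit 0) (nat_lit 9007705920) (nat_lit 152) (nat_lit 17342872246) (nat_lit 0) (nat_lit 5333944455) (nat_lit 11) (nat_lit 5) (nat_lit 13) (nat_lit 4) (nat_lit 11) (nat_lit 4) (nat_lit 370) (nat_lit 213) (nat_lit 197)) (XT.lf (nat_lit 0) (nat_lit 13140169772) (nat_lit 152) (nat_lit 10079927535) (nat_lit 0) (nat_lit 9289458379) (nat_lit 11) (nat_lit 5) (nat_lit 13) (nat_lit 4) (nat_lit 11) (nat_lit 4) (nat_lit 371) (nat_lit 213) (nat_lit 196))))) (XT.nd (nat_lit 312) (nat_lit 152) (nat_lit 0) (XT.nd (nat_lit 156) (nat_lit 0) (nat_lit 0) (XT.nd (nat_lit 78) (nat_lit 76) (nat_lit 0) (XT.lf (nat_lit 0) (nat_lit 17329905918) (nat_lit 152) (nat_lit 2724050228) (nat_lit 0) (nat_lit 13307398477) (nat_lit 11) (nat_lit 5) (nat_lit 13) (nat_lit 4) (nat_lit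 11) (nat_lit 4) (nat_lit 372) (nat_lit 213) (nat_lit 195)) (XT.lf (nat_lit 0) (nat_lit 4825347040) (nat_lit 76) (nat_lit 16801612437) (nat_lit 76) (nat_lit 12612312718) (nat_lit 10) (nat_lit 4) (nat_lit 11) (nat_lit 5) (nat_lit 11) (nat_lit 4) (nat_lit 373) (nat_lit 213) (nat_lit 194))) (XT.nd (nat_lit 78) (nat_lit 0) (nat_lit 0) (XT.lf (nat_lit 0) (nat_lit 12536939704) (nat_lit 76) (nat_lit 13479465097) (nat_lit 76) (nat_lit 9128231127) (nat_lit 10) (nat_lit 4) (nat_lit 11) (nat_lit 5) (nat_lit 11) (nat_lit 4) (nat_lit 374) (nat_lit 213) (nat_lit 193)) (XT.lf (nat_lit 0) (nat_lit 20363252106) (nat_lit 76) (nat_lit 10112118844) (nat_lit 76) (nat_lit 5603667154) (nat_lit 10) (nat_lit 4) (nat_lit 11) (nat_lit 5) (nat_lit 11) (nat_lit 4) (nat_lit 375) (nat_lit 213) (nat_lit 192)))) (XT.nd (nat_lit 156) (nat_lit 76) (nat_lit 0) (XT.nd (nat_lit 78) (nat_lit 76) (nat_lit 0) (XT.lf (nat_lit 0) (nat_lit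 28311122772) (nat_lit 76) (nat_lit 6696631338) (nat_lit 76) (nat_lit 2035541085) (nat_lit 10) (nat_lit 4) (nat_lit 11) (nat_lit 5) (nat_lit 11) (nat_lit 4) (nat_lit 376) (nat_lit 213) (nat_lit 191)) (XT.lf (nat_lit 0) (nat_lit 1548447715) (nat_lit 152) (nat_lit 1665934170) (nat_lit 76) (nat_lit 34823412442) (nat_lit 9) (nat_lit 5) (nat_lit 11) (nat_lit 5) (nat_lit 10) (nat_lit 4) (nat_lit 377) (nat_lit 213) (nat_lit 190))) (XT.nd (nat_lit 78) (nat_lit 0) (nat_lit 0) (XT.lf (nat_lit 0) (nat_lit 5199175163) (nat_lit 152) (nat_lit 33472073531) (nat_lit 0) (nat_lit 390282428) (nat_lit 8) (nat_lit 5) (nat_lit 10) (nat_lit 4) (nat_lit 8) (nat_lit 4) (nat_lit 378) (nat_lit 213) (nat_lit 189)) (XT.lf (nat_lit 0) (nat_lit 8950943103) (nat_lit 152) (nat_lit 27158869295) (nat_lit 0) (nat_lit 4006432982) (nat_lit 8) (nat_lit 5) (nat_lit 10) (nat_lit 4) (nat_lit 8) (nat_lit 4) (nat_lit 379) (nat_lit 213) (nat_lit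 188))))))))
noncomputable def xc16 : XT := (XT.nd (nat_lit 2184) (nat_lit 0) (nat_lit 0) (XT.nd (nat_lit 1092) (nat_lit 76) (nat_lit 0) (XT.nd (nat_lit 546) (nat_lit 152) (nat_lit 0) (XT.nd (nat_lit 234) (nat_lit 76) (nat_lit 0) (XT.nd (nat_lit 78) (nat_lit 0) (nat_lit 0) (XT.lf (nat_lit 0) (nat_lit 12759636776) (nat_lit 152) (nat_lit 20761184418) (nat_lit 0) (nat_lit 7683459290) (nat_lit 8) (nat_lit 5) (nat_lit 10) (nat_lit 4) (nat_lit 8) (nat_lit 4) (nat_lit 380) (nat_lit 213) (nat_lit 187)) (XT.nd (nat_lit 78) (nat_lit 0) (nat_lit 0) (XT.lf (nat_lit 0) (nat_lit 16628584167) (nat_lit 152) (nat_lit 14273428692) (nat_lit 0) (nat_lit 11424574288) (nat_lit 8) (nat_lit 5) (nat_lit 10) (nat_lit 4) (nat_lit 8) (nat_lit 4) (nat_lit 381) (nat_lit 213) (nat_lit 186)) (XT.lf (nat_lit 0) (nat_lit 20561165909) (nat_lit 152) (nat_lit 7689933203) (nat_lit 0) (nat_lit 15233046910) (nat_lit 8) (nat_lit 5) (nat_lit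 10) (nat_lit 4) (nat_lit 8) (nat_lit 4) (nat_lit 382) (nat_lit 213) (nat_lit 185)))) (XT.nd (nat_lit 156) (nat_lit 0) (nat_lit 0) (XT.nd (nat_lit 78) (nat_lit 76) (nat_lit 0) (XT.lf (nat_lit 0) (nat_lit 24560818238) (nat_lit 152) (nat_lit 1004945383) (nat_lit 0) (nat_lit 19112204949) (nat_lit 8) (nat_lit 5) (nat_lit 10) (nat_lit 4) (nat_lit 8) (nat_lit 4) (nat_lit 383) (nat_lit 213) (nat_lit 184)) (XT.lf (nat_lit 0) (nat_lit 5902556150) (nat_lit 76) (nat_lit 22785218828) (nat_lit 76) (nat_lit 17219620790) (nat_lit 7) (nat_lit 4) (nat_lit 8) (nat_lit 5) (nat_lit 8) (nat_lit 4) (nat_lit 384) (nat_lit 213) (nat_lit 183))) (XT.nd (nat_lit 78) (nat_lit 0) (nat_lit 0) (XT.lf (nat_lit 0) (nat_lit 12945580956) (nat_lit 76) (nat_lit 19954235575) (nat_lit 76) (nat_lit 14275060112) (nat_lit 7) (nat_lit 4) (nat_lit 8) (nat_lit 5) (nat_lit 8) (nat_lit 4) (nat_lit 385) (nat_lit 213) (nat_lit 182)) (XT.lf (nat_lit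 0) (nat_lit 20110282751) (nat_lit 76) (nat_lit 17080488166) (nat_lit 76) (nat_lit 11291043357) (nat_lit 7) (nat_lit 4) (nat_lit 8) (nat_lit 5) (nat_lit 8) (nat_lit 4) (nat_lit 386) (nat_lit 213) (nat_lit 181))))) (XT.nd (nat_lit 234) (nat_lit 152) (nat_lit 0) (XT.nd (nat_lit 78) (nat_lit 0) (nat_lit 0) (XT.lf (nat_lit 0) (nat_lit 27402921952) (nat_lit 76) (nat_lit 14161465559) (nat_lit 76) (nat_lit 8264963133) (nat_lit 7) (nat_lit 4) (nat_lit 8) (nat_lit 5) (nat_lit 8) (nat_lit 4) (nat_lit 387) (nat_lit 213) (nat_lit 180)) (XT.nd (nat_lit 78) (nat_lit 0) (nat_lit 0) (XT.lf (nat_lit 0) (nat_lit 34829870770) (nat_lit 76) (nat_lit 11194617152) (nat_lit 76) (nat_lit 5194175293) (nat_lit 7) (nat_lit 4) (nat_lit 8) (nat_lit 5) (nat_lit 8) (nat_lit 4) (nat_lit 388) (nat_lit 213) (nat_lit 179)) (XT.lf (nat_lit 0) (nat_lit 42397618771) (nat_lit 76) (nat_lit 8177350554) (nat_lit 76) (nat_lit 2075996623) (nat_lit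 7) (nat_lit 4) (nat_lit 8) (nat_lit 5) (nat_lit 8) (nat_lit 4) (nat_lit 389) (nat_lit 213) (nat_lit 178)))) (XT.nd (nat_lit 156) (nat_lit 0) (nat_lit 0) (XT.nd (nat_lit 78) (nat_lit 76) (nat_lit 0) (XT.lf (nat_lit 0) (nat_lit 1070982839) (nat_lit 152) (nat_lit 4025231651) (nat_lit 76) (nat_lit 49030980884) (nat_lit 6) (nat_lit 5) (nat_lit 8) (nat_lit 5) (nat_lit 7) (nat_lit 4) (nat_lit 390) (nat_lit 213) (nat_lit 177)) (XT.lf (nat_lit 0) (nat_lit 2336637290) (nat_lit 76) (nat_lit 1915127937) (nat_lit 152) (nat_lit 51395903688) (nat_lit 5) (nat_lit 5) (nat_lit 6) (nat_lit 5) (nat_lit 7) (nat_lit 4) (nat_lit 391) (nat_lit 213) (nat_lit 176))) (XT.nd (nat_lit 78) (nat_lit 0) (nat_lit 0) (XT.lf (nat_lit 0) (nat_lit 7540874580) (nat_lit 152) (nat_lit 48332399423) (nat_lit 0) (nat_lit 1340102772) (nat_lit 5) (nat_lit 5) (nat_lit 7) (nat_lit 4) (nat_lit 5) (nat_lit 4) (nat_lit 392) (nat_lit 213) (nat_lit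 175)) (XT.lf (nat_lit 0) (nat_lit 10907587396) (nat_lit 152) (nat_lit 43299339628) (nat_lit 0) (nat_lit 4619767949) (nat_lit 5) (nat_lit 5) (nat_lit 7) (nat_lit 4) (nat_lit 5) (nat_lit 4) (nat_lit 393) (nat_lit 213) (nat_lit 174)))))) (XT.nd (nat_lit 546) (nat_lit 76) (nat_lit 0) (XT.nd (nat_lit 234) (nat_lit 0) (nat_lit 0) (XT.nd (nat_lit 78) (nat_lit 0) (nat_lit 0) (XT.lf (nat_lit 0) (nat_lit 14336436083) (nat_lit 152) (nat_lit 38189045040) (nat_lit 0) (nat_lit 7964104364) (nat_lit 5) (nat_lit 5) (nat_lit 7) (nat_lit 4) (nat_lit 5) (nat_lit 4) (nat_lit 394) (nat_lit 213) (nat_lit 173)) (XT.nd (nat_lit 78) (nat_lit 0) (nat_lit 0) (XT.lf (nat_lit 0) (nat_lit 17830416721) (nat_lit 152) (nat_lit 32997050352) (nat_lit 0) (nat_lit 11376034253) (nat_lit 5) (nat_lit 5) (nat_lit 7) (nat_lit 4) (nat_lit 5) (nat_lit 4) (nat_lit 395) (nat_lit 213) (nat_lit 172)) (XT.lf (nat_lit 0) (nat_lit 21392582304) (nat_lit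 152) (nat_lit 27718818871) (nat_lit 0) (nat_lit 14858538915) (nat_lit 5) (nat_lit 5) (nat_lit 7) (nat_lit 4) (nat_lit 5) (nat_lit 4) (nat_lit 396) (nat_lit 213) (nat_lit 171)))) (XT.nd (nat_lit 156) (nat_lit 0) (nat_lit 0) (XT.nd (nat_lit 78) (nat_lit 0) (nat_lit 0) (XT.lf (nat_lit 0) (nat_lit 25026045403) (nat_lit 152) (nat_lit 22349738549) (nat_lit 0) (nat_lit 18414661314) (nat_lit 5) (nat_lit 5) (nat_lit 7) (nat_lit 4) (nat_lit 5) (nat_lit 4) (nat_lit 397) (nat_lit 213) (nat_lit 170)) (XT.lf (nat_lit 0) (nat_lit 28733980889) (nat_lit 152) (nat_lit 16885117956) (nat_lit 0) (nat_lit 22047508741) (nat_lit 5) (nat_lit 5) (nat_lit 7) (nat_lit 4) (nat_lit 5) (nat_lit 4) (nat_lit 398) (nat_lit 213) (nat_lit 169))) (XT.nd (nat_lit 78) (nat_lit 0) (nat_lit 0) (XT.lf (nat_lit 0) (nat_lit 32519628705) (nat_lit 152) (nat_lit 11320182183) (nat_lit 0) (nat_lit 25760255530) (nat_lit 5) (nat_lit 5) (nat_lit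 7) (nat_lit 4) (nat_lit 5) (nat_lit 4) (nat_lit 399) (nat_lit 213) (nat_lit 168)) (XT.lf (nat_lit 0) (nat_lit 36386296700) (nat_lit 152) (nat_lit 5650068663) (nat_lit 0) (nat_lit 29556145828) (nat_lit 5) (nat_lit 5) (nat_lit 7) (nat_lit 4) (nat_lit 5) (nat_lit 4) (nat_lit 400) (nat_lit 213) (nat_lit 167))))) (XT.nd (nat_lit 234) (nat_lit 0) (nat_lit 0) (XT.nd (nat_lit 78) (nat_lit 0) (nat_lit 0) (XT.lf (nat_lit 0) (nat_lit 132767849) (nat_lit 76) (nat_lit 40205871911) (nat_lit 76) (nat_lit 33307004829) (nat_lit 4) (nat_lit 4) (nat_lit 5) (nat_lit 5) (nat_lit 5) (nat_lit 4) (nat_lit 401) (nat_lit 213) (nat_lit 166)) (XT.nd (nat_lit 78) (nat_lit 0) (nat_lit 0) (XT.lf (nat_lit 0) (nat_lit 6145527088) (nat_lit 76) (nat_lit 38289829015) (nat_lit 76) (nat_lit 31324247166) (nat_lit 4) (nat_lit 4) (nat_lit 5) (nat_lit 5) (nat_lit 5) (nat_lit 4) (nat_lit 402) (nat_lit 213) (nat_lit 165)) (XT.lf (nat_lit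 0) (nat_lit 12281015475) (nat_lit 76) (nat_lit 36343617080) (nat_lit 76) (nat_lit 29313263612) (nat_lit 4) (nat_lit 4) (nat_lit 5) (nat_lit 5) (nat_lit 5) (nat_lit 4) (nat_lit 403) (nat_lit 213) (nat_lit 164)))) (XT.nd (nat_lit 156) (nat_lit 0) (nat_lit 0) (XT.nd (nat_lit 78) (nat_lit 0) (nat_lit 0) (XT.lf (nat_lit 0) (nat_lit 18544594116) (nat_lit 76) (nat_lit 34365535531) (nat_lit 76) (nat_lit 27272296996) (nat_lit 4) (nat_lit 4) (nat_lit 5) (nat_lit 5) (nat_lit 5) (nat_lit 4) (nat_lit 404) (nat_lit 213) (nat_lit 163)) (XT.lf (nat_lit 0) (nat_lit 24941736041) (nat_lit 76) (nat_lit 32353855948) (nat_lit 76) (nat_lit 25199563949) (nat_lit 4) (nat_lit 4) (nat_lit 5) (nat_lit 5) (nat_lit 5) (nat_lit 4) (nat_lit 405) (nat_lit 213) (nat_lit 162))) (XT.nd (nat_lit 78) (nat_lit 0) (nat_lit 0) (XT.lf (nat_lit 0) (nat_lit 31478030987) (nat_lit 76) (nat_lit 30306820552) (nat_lit 76) (nat_lit 23093253347)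 (nat_lit 4) (nat_lit 4) (nat_lit 5) (nat_lit 5) (nat_lit 5) (nat_lit 4) (nat_lit 406) (nat_lit 213) (nat_lit 161)) (XT.lf (nat_lit 0) (nat_lit 38159190277) (nat_lit 76) (nat_lit 28222640672) (nat_lit 76) (nat_lit 20951524722) (nat_lit 4) (nat_lit 4) (nat_lit 5) (nat_lit 5) (nat_lit 5) (nat_lit 4) (nat_lit 407) (nat_lit 213) (nat_lit 160))))))) (XT.nd (nat_lit 36894) (nat_lit 0) (nat_lit 456) (XT.nd (nat_lit 36348) (nat_lit 0) (nat_lit 912) (XT.nd (nat_lit 234) (nat_lit 0) (nat_lit 0) (XT.nd (nat_lit 78) (nat_lit 0) (nat_lit 0) (XT.lf (nat_lit 0) (nat_lit 44991051819) (nat_lit 76) (nat_lit 26099495179) (nat_lit 76) (nat_lit 18772506662) (nat_lit 4) (nat_lit 4) (nat_lit 5) (nat_lit 5) (nat_lit 5) (nat_lit 4) (nat_lit 408) (nat_lit 213) (nat_lit 159)) (XT.nd (nat_lit 78) (nat_lit 0) (nat_lit 0) (XT.lf (nat_lit 0) (nat_lit 51979585201) (nat_lit 76) (nat_lit 23935528899) (nat_lit 76) (nat_lit 16554295171)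 (nat_lit 4) (nat_lit 4) (nat_lit 5) (nat_lit 5) (nat_lit 5) (nat_lit 4) (nat_lit 409) (nat_lit 213) (nat_lit 158)) (XT.lf (nat_lit 0) (nat_lit 59130896908) (nat_lit 76) (nat_lit 21728850986) (nat_lit 76) (nat_lit 14294952005) (nat_lit 4) (nat_lit 4) (nat_lit 5) (nat_lit 5) (nat_lit 5) (nat_lit 4) (nat_lit 410) (nat_lit 213) (nat_lit 157)))) (XT.nd (nat_lit 156) (nat_lit 0) (nat_lit 0) (XT.nd (nat_lit 78) (nat_lit 0) (nat_lit 0) (XT.lf (nat_lit 0) (nat_lit 66451235658) (nat_lit 76) (nat_lit 19477533275) (nat_lit 76) (nat_lit 11992502980) (nat_lit 4) (nat_lit 4) (nat_lit 5) (nat_lit 5) (nat_lit 5) (nat_lit 4) (nat_lit 411) (nat_lit 213) (nat_lit 156)) (XT.lf (nat_lit 0) (nat_lit 73946997865) (nat_lit 76) (nat_lit 17179608597) (nat_lit 76) (nat_lit 9644936249) (nat_lit 4) (nat_lit 4) (nat_lit 5) (nat_lit 5) (nat_lit 5) (nat_lit 4) (nat_lit 412) (nat_lit 213) (nat_lit 155))) (XT.nd (nat_lit 35880) (nat_lit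 0) (nat_lit 1216) (XT.lf (nat_lit 0) (nat_lit 81624733223) (nat_lit 76) (nat_lit 14833069054) (nat_lit 76) (nat_lit 7250200539) (nat_lit 4) (nat_lit 4) (nat_lit 5) (nat_lit 5) (nat_lit 5) (nat_lit 4) (nat_lit 413) (nat_lit 213) (nat_lit 154)) (XT.lf (nat_lit 0) (nat_lit 2573734554) (nat_lit 152) (nat_lit 5109107308) (nat_lit 0) (nat_lit 2573734554) (nat_lit 20) (nat_lit 5) (nat_lit 22) (nat_lit 4) (nat_lit 20) (nat_lit 4) (nat_lit 352) (nat_lit 214) (nat_lit 214))))) (XT.nd (nat_lit 234) (nat_lit 228) (nat_lit 0) (XT.nd (nat_lit 78) (nat_lit 76) (nat_lit 0) (XT.lf (nat_lit 0) (nat_lit 9823134729) (nat_lit 152) (nat_lit 1655063788) (nat_lit 0) (nat_lit 9503543476) (nat_lit 20) (nat_lit 5) (nat_lit 22) (nat_lit 4) (nat_lit 20) (nat_lit 4) (nat_lit 353) (nat_lit 214) (nat_lit 213)) (XT.nd (nat_lit 78) (nat_lit 0) (nat_lit 0) (XT.lf (nat_lit 0) (nat_lit 7132785011) (nat_lit 76) (nat_lit 7481128757)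 (nat_lit 76) (nat_lit 6851254733) (nat_lit 19) (nat_lit 4) (nat_lit 20) (nat_lit 5) (nat_lit 20) (nat_lit 4) (nat_lit 354) (nat_lit 214) (nat_lit 212)) (XT.lf (nat_lit 0) (nat_lit 16048493804) (nat_lit 76) (nat_lit 3424012492) (nat_lit 76) (nat_lit 2492893059) (nat_lit 19) (nat_lit 4) (nat_lit 20) (nat_lit 5) (nat_lit 20) (nat_lit 4) (nat_lit 355) (nat_lit 214) (nat_lit 211)))) (XT.nd (nat_lit 156) (nat_lit 76) (nat_lit 0) (XT.nd (nat_lit 78) (nat_lit 0) (nat_lit 0) (XT.lf (nat_lit 0) (nat_lit 1898543732) (nat_lit 152) (nat_lit 19872710671) (nat_lit 0) (nat_lit 710591593) (nat_lit 17) (nat_lit 5) (nat_lit 19) (nat_lit 4) (nat_lit 17) (nat_lit 4) (nat_lit 356) (nat_lit 214) (nat_lit 210)) (XT.lf (nat_lit 0) (nat_lit 6375359757) (nat_lit 152) (nat_lit 11725870391) (nat_lit 0) (nat_lit 4911725395) (nat_lit 17) (nat_lit 5) (nat_lit 19) (nat_lit 4) (nat_lit 17) (nat_lit 4) (nat_lit 357) (nat_lit 214)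 (nat_lit 209))) (XT.nd (nat_lit 78) (nat_lit 76) (nat_lit 0) (XT.lf (nat_lit 0) (nat_lit 10898615193) (nat_lit 152) (nat_lit 3496712498) (nat_lit 0) (nat_lit 9167328188) (nat_lit 17) (nat_lit 5) (nat_lit 19) (nat_lit 4) (nat_lit 17) (nat_lit 4) (nat_lit 358) (nat_lit 214) (nat_lit 208)) (XT.lf (nat_lit 0) (nat_lit 4917919865) (nat_lit 76) (nat_lit 10601616587) (nat_lit 76) (nat_lit 8610472646) (nat_lit 16) (nat_lit 4) (nat_lit 17) (nat_lit 5) (nat_lit 17) (nat_lit 4) (nat_lit 359) (nat_lit 214) (nat_lit 207)))))) (XT.nd (nat_lit 546) (nat_lit 228) (nat_lit 0) (XT.nd (nat_lit 234) (nat_lit 76) (nat_lit 0) (XT.nd (nat_lit 78) (nat_lit 152) (nat_lit 0) (XT.lf (nat_lit 0) (nat_lit 13500846592) (nat_lit 76) (nat_lit 6729229568) (nat_lit 76) (nat_lit 4485797341) (nat_lit 16) (nat_lit 4) (nat_lit 17) (nat_lit 5) (nat_lit 17) (nat_lit 4) (nat_lit 360) (nat_lit 214) (nat_lit 206)) (XT.nd (nat_lit 78) (nat_lit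 152) (nat_lit 0) (XT.lf (nat_lit 0) (nat_lit 22189975890) (nat_lit 76) (nat_lit 2810092937) (nat_lit 76) (nat_lit 321720626) (nat_lit 16) (nat_lit 4) (nat_lit 17) (nat_lit 5) (nat_lit 17) (nat_lit 4) (nat_lit 361) (nat_lit 214) (nat_lit 205)) (XT.lf (nat_lit 0) (nat_lit 3870667724) (nat_lit 152) (nat_lit 20850772759) (nat_lit 0) (nat_lit 1223892754) (nat_lit 14) (nat_lit 5) (nat_lit 16) (nat_lit 4) (nat_lit 14) (nat_lit 4) (nat_lit 362) (nat_lit 214) (nat_lit 204)))) (XT.nd (nat_lit 156) (nat_lit 76) (nat_lit 0) (XT.nd (nat_lit 78) (nat_lit 0) (nat_lit 0) (XT.lf (nat_lit 0) (nat_lit 8162112273) (nat_lit 152) (nat_lit 13134818594) (nat_lit 0) (nat_lit 5291182428) (nat_lit 14) (nat_lit 5) (nat_lit 16) (nat_lit 4) (nat_lit 14) (nat_lit 4) (nat_lit 363) (nat_lit 214) (nat_lit 203)) (XT.lf (nat_lit 0) (nat_lit 12504620367) (nat_lit 152) (nat_lit 5331839873) (nat_lit 0) (nat_lit 9416064430) (nat_lit 14)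 (nat_lit 5) (nat_lit 16) (nat_lit 4) (nat_lit 14) (nat_lit 4) (nat_lit 364) (nat_lit 214) (nat_lit 202))) (XT.nd (nat_lit 78) (nat_lit 0) (nat_lit 0) (XT.lf (nat_lit 0) (nat_lit 2616029704) (nat_lit 76) (nat_lit 14311103605) (nat_lit 76) (nat_lit 11011260199) (nat_lit 13) (nat_lit 4) (nat_lit 14) (nat_lit 5) (nat_lit 14) (nat_lit 4) (nat_lit 365) (nat_lit 214) (nat_lit 201)) (XT.lf (nat_lit 0) (nat_lit 10772761158) (nat_lit 76) (nat_lit 10688846036) (nat_lit 76) (nat_lit 7183869165) (nat_lit 13) (nat_lit 4) (nat_lit 14) (nat_lit 5) (nat_lit 14) (nat_lit 4) (nat_lit 366) (nat_lit 214) (nat_lit 200))))) (XT.nd (nat_lit 312) (nat_lit 76) (nat_lit 0) (XT.nd (nat_lit 156) (nat_lit 76) (nat_lit 0) (XT.nd (nat_lit 78) (nat_lit 76) (nat_lit 0) (XT.lf (nat_lit 0) (nat_lit 19039367662) (nat_lit 76) (nat_lit 7020363582) (nat_lit 76) (nat_lit 3316228008) (nat_lit 13) (nat_lit 4) (nat_lit 14) (nat_lit 5) (nat_lit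 14) (nat_lit 4) (nat_lit 367) (nat_lit 214) (nat_lit 199)) (XT.lf (nat_lit 0) (nat_lit 583431338) (nat_lit 152) (nat_lit 2713127921) (nat_lit 76) (nat_lit 26833749614) (nat_lit 12) (nat_lit 5) (nat_lit 14) (nat_lit 5) (nat_lit 13) (nat_lit 4) (nat_lit 368) (nat_lit 214) (nat_lit 198))) (XT.nd (nat_lit 78) (nat_lit 0) (nat_lit 0) (XT.lf (nat_lit 0) (nat_lit 4518726200) (nat_lit 152) (nat_lit 25835540014) (nat_lit 0) (nat_lit 552493464) (nat_lit 11) (nat_lit 5) (nat_lit 13) (nat_lit 4) (nat_lit 11) (nat_lit 4) (nat_lit 369) (nat_lit 214) (nat_lit 197)) (XT.lf (nat_lit 0) (nat_lit 8563684969) (nat_lit 152) (nat_lit 18722582828) (nat_lit 0) (nat_lit 4420502306) (nat_lit 11) (nat_lit 5) (nat_lit 13) (nat_lit 4) (nat_lit 11) (nat_lit 4) (nat_lit 370) (nat_lit 214) (nat_lit 196)))) (XT.nd (nat_lit 156) (nat_lit 76) (nat_lit 0) (XT.nd (nat_lit 78) (nat_lit 0) (nat_lit 0) (XT.lf (nat_lit 0) (nat_lit 12663290879)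 (nat_lit 152) (nat_lit 11521192671) (nat_lit 0) (nat_lit 8348312168) (nat_lit 11) (nat_lit 5) (nat_lit 13) (nat_lit 4) (nat_lit 11) (nat_lit 4) (nat_lit 371) (nat_lit 214) (nat_lit 195)) (XT.lf (nat_lit 0) (nat_lit 16821126110) (nat_lit 152) (nat_lit 4225077068) (nat_lit 0) (nat_lit 12339355120) (nat_lit 11) (nat_lit 5) (nat_lit 13) (nat_lit 4) (nat_lit 11) (nat_lit 4) (nat_lit 372) (nat_lit 214) (nat_lit 194))) (XT.nd (nat_lit 78) (nat_lit 0) (nat_lit 0) (XT.lf (nat_lit 0) (nat_lit 3235271019) (nat_lit 76) (nat_lit 17836652105) (nat_lit 76) (nat_lit 13192946865) (nat_lit 10) (nat_lit 4) (nat_lit 11) (nat_lit 5) (nat_lit 11) (nat_lit 4) (nat_lit 373) (nat_lit 214) (nat_lit 193)) (XT.lf (nat_lit 0) (nat_lit 10889411445) (nat_lit 76) (nat_lit 14541335064) (nat_lit 76) (nat_lit 9740412104) (nat_lit 10) (nat_lit 4) (nat_lit 11) (nat_lit 5) (nat_lit 11) (nat_lit 4) (nat_lit 374) (nat_lit 214) (nat_lit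 192))))))))
noncomputable def xc17 : XT := (XT.nd (nat_lit 2184) (nat_lit 0) (nat_lit 0) (XT.nd (nat_lit 1092) (nat_lit 228) (nat_lit 0) (XT.nd (nat_lit 546) (nat_lit 76) (nat_lit 0) (XT.nd (nat_lit 234) (nat_lit 76) (nat_lit 0) (XT.nd (nat_lit 78) (nat_lit 76) (nat_lit 0) (XT.lf (nat_lit 0) (nat_lit 18659944976) (nat_lit 76) (nat_lit 11200037646) (nat_lit 76) (nat_lit 6246476123) (nat_lit 10) (nat_lit 4) (nat_lit 11) (nat_lit 5) (nat_lit 11) (nat_lit 4) (nat_lit 375) (nat_lit 214) (nat_lit 191)) (XT.nd (nat_lit 78) (nat_lit 76) (nat_lit 0) (XT.lf (nat_lit 0) (nat_lit 26553661399) (nat_lit 76) (nat_lit 7809840270) (nat_lit 76) (nat_lit 2708085968) (nat_lit 10) (nat_lit 4) (nat_lit 11) (nat_lit 5) (nat_lit 11) (nat_lit 4) (nat_lit 376) (nat_lit 214) (nat_lit 190)) (XT.lf (nat_lit 0) (nat_lit 860720140) (nat_lit 152) (nat_lit 3498368902) (nat_lit 76) (nat_lit 33708046408) (nat_lit 9) (nat_lit 5) (nat_lit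 11) (nat_lit 5) (nat_lit 10) (nat_lit 4) (nat_lit 377) (nat_lit 214) (nat_lit 189)))) (XT.nd (nat_lit 156) (nat_lit 0) (nat_lit 0) (XT.nd (nat_lit 78) (nat_lit 0) (nat_lit 0) (XT.lf (nat_lit 0) (nat_lit 3671870110) (nat_lit 76) (nat_lit 789798266) (nat_lit 152) (nat_lit 34630702624) (nat_lit 8) (nat_lit 5) (nat_lit 9) (nat_lit 5) (nat_lit 10) (nat_lit 4) (nat_lit 378) (nat_lit 214) (nat_lit 188)) (XT.lf (nat_lit 0) (nat_lit 8178441679) (nat_lit 152) (nat_lit 29151387136) (nat_lit 0) (nat_lit 2818311504) (nat_lit 8) (nat_lit 5) (nat_lit 10) (nat_lit 4) (nat_lit 8) (nat_lit 4) (nat_lit 379) (nat_lit 214) (nat_lit 187))) (XT.nd (nat_lit 78) (nat_lit 0) (nat_lit 0) (XT.lf (nat_lit 0) (nat_lit 11960530873) (nat_lit 152) (nat_lit 22803879449) (nat_lit 0) (nat_lit 6472568305) (nat_lit 8) (nat_lit 5) (nat_lit 10) (nat_lit 4) (nat_lit 8) (nat_lit 4) (nat_lit 380) (nat_lit 214) (nat_lit 186)) (XT.lf (nat_lit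 0) (nat_lit 15803648672) (nat_lit 152) (nat_lit 16364839442) (nat_lit 0) (nat_lit 10191576985) (nat_lit 8) (nat_lit 5) (nat_lit 10) (nat_lit 4) (nat_lit 8) (nat_lit 4) (nat_lit 381) (nat_lit 214) (nat_lit 185))))) (XT.nd (nat_lit 234) (nat_lit 0) (nat_lit 0) (XT.nd (nat_lit 78) (nat_lit 76) (nat_lit 0) (XT.lf (nat_lit 0) (nat_lit 19711153141) (nat_lit 152) (nat_lit 9828640767) (nat_lit 0) (nat_lit 13978587163) (nat_lit 8) (nat_lit 5) (nat_lit 10) (nat_lit 4) (nat_lit 8) (nat_lit 4) (nat_lit 382) (nat_lit 214) (nat_lit 184)) (XT.nd (nat_lit 78) (nat_lit 76) (nat_lit 0) (XT.lf (nat_lit 0) (nat_lit 23686458604) (nat_lit 152) (nat_lit 3189572184) (nat_lit 0) (nat_lit 17836907877) (nat_lit 8) (nat_lit 5) (nat_lit 10) (nat_lit 4) (nat_lit 8) (nat_lit 4) (nat_lit 383) (nat_lit 214) (nat_lit 183)) (XT.lf (nat_lit 0) (nat_lit 3628981943) (nat_lit 76) (nat_lit 24138940680) (nat_lit 76) (nat_lit 18175812527)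 (nat_lit 7) (nat_lit 4) (nat_lit 8) (nat_lit 5) (nat_lit 8) (nat_lit 4) (nat_lit 384) (nat_lit 214) (nat_lit 182)))) (XT.nd (nat_lit 156) (nat_lit 0) (nat_lit 0) (XT.nd (nat_lit 78) (nat_lit 0) (nat_lit 0) (XT.lf (nat_lit 0) (nat_lit 10627862042) (nat_lit 76) (nat_lit 21328728531) (nat_lit 76) (nat_lit 15255331033) (nat_lit 7) (nat_lit 4) (nat_lit 8) (nat_lit 5) (nat_lit 8) (nat_lit 4) (nat_lit 385) (nat_lit 214) (nat_lit 181)) (XT.lf (nat_lit 0) (nat_lit 17749704897) (nat_lit 76) (nat_lit 18475147242) (nat_lit 76) (nat_lit 12294692127) (nat_lit 7) (nat_lit 4) (nat_lit 8) (nat_lit 5) (nat_lit 8) (nat_lit 4) (nat_lit 386) (nat_lit 214) (nat_lit 180))) (XT.nd (nat_lit 78) (nat_lit 0) (nat_lit 0) (XT.lf (nat_lit 0) (nat_lit 25000733478) (nat_lit 76) (nat_lit 15575703393) (nat_lit 76) (nat_lit 9291308844) (nat_lit 7) (nat_lit 4) (nat_lit 8) (nat_lit 5) (nat_lit 8) (nat_lit 4) (nat_lit 387) (nat_lit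 214) (nat_lit 179)) (XT.lf (nat_lit 0) (nat_lit 32387283635) (nat_lit 76) (nat_lit 12627863489) (nat_lit 76) (nat_lit 6242556869) (nat_lit 7) (nat_lit 4) (nat_lit 8) (nat_lit 5) (nat_lit 8) (nat_lit 4) (nat_lit 388) (nat_lit 214) (nat_lit 178)))))) (XT.nd (nat_lit 546) (nat_lit 76) (nat_lit 0) (XT.nd (nat_lit 234) (nat_lit 76) (nat_lit 0) (XT.nd (nat_lit 78) (nat_lit 76) (nat_lit 0) (XT.lf (nat_lit 0) (nat_lit 39915809635) (nat_lit 76) (nat_lit 9629051748) (nat_lit 76) (nat_lit 3145772242) (nat_lit 7) (nat_lit 4) (nat_lit 8) (nat_lit 5) (nat_lit 8) (nat_lit 4) (nat_lit 389) (nat_lit 214) (nat_lit 177)) (XT.nd (nat_lit 78) (nat_lit 0) (nat_lit 0) (XT.lf (nat_lit 0) (nat_lit 1716795) (nat_lit 152) (nat_lit 6574913717) (nat_lit 76) (nat_lit 47591155670) (nat_lit 6) (nat_lit 5) (nat_lit 8) (nat_lit 5) (nat_lit 7) (nat_lit 4) (nat_lit 390) (nat_lit 214) (nat_lit 176)) (XT.lf (nat_lit 0) (nat_lit 3140265568)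 (nat_lit 152) (nat_lit 296008548) (nat_lit 76) (nat_lit 52253256170) (nat_lit 6) (nat_lit 5) (nat_lit 8) (nat_lit 5) (nat_lit 7) (nat_lit 4) (nat_lit 391) (nat_lit 214) (nat_lit 175)))) (XT.nd (nat_lit 156) (nat_lit 0) (nat_lit 0) (XT.nd (nat_lit 78) (nat_lit 0) (nat_lit 0) (XT.lf (nat_lit 0) (nat_lit 6218971558) (nat_lit 76) (nat_lit 174810844) (nat_lit 152) (nat_lit 50862526972) (nat_lit 5) (nat_lit 5) (nat_lit 6) (nat_lit 5) (nat_lit 7) (nat_lit 4) (nat_lit 392) (nat_lit 214) (nat_lit 174)) (XT.lf (nat_lit 0) (nat_lit 9739669257) (nat_lit 152) (nat_lit 46038931131) (nat_lit 0) (nat_lit 3091655315) (nat_lit 5) (nat_lit 5) (nat_lit 7) (nat_lit 4) (nat_lit 5) (nat_lit 4) (nat_lit 393) (nat_lit 214) (nat_lit 173))) (XT.nd (nat_lit 78) (nat_lit 0) (nat_lit 0) (XT.lf (nat_lit 0) (nat_lit 13149930008) (nat_lit 152) (nat_lit 40963911783) (nat_lit 0) (nat_lit 6419865318) (nat_lit 5) (nat_lit 5) (nat_lit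 7) (nat_lit 4) (nat_lit 5) (nat_lit 4) (nat_lit 394) (nat_lit 214) (nat_lit 172)) (XT.lf (nat_lit 0) (nat_lit 16625864107) (nat_lit 152) (nat_lit 35806164901) (nat_lit 0) (nat_lit 9816138496) (nat_lit 5) (nat_lit 5) (nat_lit 7) (nat_lit 4) (nat_lit 5) (nat_lit 4) (nat_lit 395) (nat_lit 214) (nat_lit 171))))) (XT.nd (nat_lit 234) (nat_lit 76) (nat_lit 0) (XT.nd (nat_lit 78) (nat_lit 0) (nat_lit 0) (XT.lf (nat_lit 0) (nat_lit 20170508778) (nat_lit 152) (nat_lit 30561183717) (nat_lit 0) (nat_lit 13283442466) (nat_lit 5) (nat_lit 5) (nat_lit 7) (nat_lit 4) (nat_lit 5) (nat_lit 4) (nat_lit 396) (nat_lit 214) (nat_lit 170)) (XT.nd (nat_lit 78) (nat_lit 0) (nat_lit 0) (XT.lf (nat_lit 0) (nat_lit 23786961283) (nat_lit 152) (nat_lit 25224385238) (nat_lit 0) (nat_lit 16824806913) (nat_lit 5) (nat_lit 5) (nat_lit 7) (nat_lit 4) (nat_lit 5) (nat_lit 4) (nat_lit 397) (nat_lit 214) (nat_lit 169)) (XT.lf (nat_lit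 0) (nat_lit 27478381629) (nat_lit 152) (nat_lit 19791106240) (nat_lit 0) (nat_lit 20443326231) (nat_lit 5) (nat_lit 5) (nat_lit 7) (nat_lit 4) (nat_lit 5) (nat_lit 4) (nat_lit 398) (nat_lit 214) (nat_lit 168)))) (XT.nd (nat_lit 156) (nat_lit 76) (nat_lit 0) (XT.nd (nat_lit 78) (nat_lit 0) (nat_lit 0) (XT.lf (nat_lit 0) (nat_lit 31247995329) (nat_lit 152) (nat_lit 14256599199) (nat_lit 0) (nat_lit 24142162234) (nat_lit 5) (nat_lit 5) (nat_lit 7) (nat_lit 4) (nat_lit 5) (nat_lit 4) (nat_lit 399) (nat_lit 214) (nat_lit 167)) (XT.lf (nat_lit 0) (nat_lit 35099096220) (nat_lit 152) (nat_lit 8616028138) (nat_lit 0) (nat_lit 27924546915) (nat_lit 5) (nat_lit 5) (nat_lit 7) (nat_lit 4) (nat_lit 5) (nat_lit 4) (nat_lit 400) (nat_lit 214) (nat_lit 166))) (XT.nd (nat_lit 78) (nat_lit 76) (nat_lit 0) (XT.lf (nat_lit 0) (nat_lit 39035049343) (nat_lit 152) (nat_lit 2864464402) (nat_lit 0) (nat_lit 31793785270)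 (nat_lit 5) (nat_lit 5) (nat_lit 7) (nat_lit 4) (nat_lit 5) (nat_lit 4) (nat_lit 401) (nat_lit 214) (nat_lit 165)) (XT.lf (nat_lit 0) (nat_lit 3062885575) (nat_lit 76) (nat_lit 40025850632) (nat_lit 76) (nat_lit 32719814941) (nat_lit 4) (nat_lit 4) (nat_lit 5) (nat_lit 5) (nat_lit 5) (nat_lit 4) (nat_lit 402) (nat_lit 214) (nat_lit 164))))))) (XT.nd (nat_lit 36738) (nat_lit 0) (nat_lit 684) (XT.nd (nat_lit 546) (nat_lit 0) (nat_lit 0) (XT.nd (nat_lit 234) (nat_lit 0) (nat_lit 0) (XT.nd (nat_lit 78) (nat_lit 0) (nat_lit 0) (XT.lf (nat_lit 0) (nat_lit 9170800368) (nat_lit 76) (nat_lit 38092701132) (nat_lit 76) (nat_lit 30723780374) (nat_lit 4) (nat_lit 4) (nat_lit 5) (nat_lit 5) (nat_lit 5) (nat_lit 4) (nat_lit 403) (nat_lit 214) (nat_lit 163)) (XT.nd (nat_lit 78) (nat_lit 0) (nat_lit 0) (XT.lf (nat_lit 0) (nat_lit 15407608528) (nat_lit 76) (nat_lit 36127301560) (nat_lit 76) (nat_lit 28697327339)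 (nat_lit 4) (nat_lit 4) (nat_lit 5) (nat_lit 5) (nat_lit 5) (nat_lit 4) (nat_lit 404) (nat_lit 214) (nat_lit 162)) (XT.lf (nat_lit 0) (nat_lit 21778759696) (nat_lit 76) (nat_lit 34127934575) (nat_lit 76) (nat_lit 26638685147) (nat_lit 4) (nat_lit 4) (nat_lit 5) (nat_lit 5) (nat_lit 5) (nat_lit 4) (nat_lit 405) (nat_lit 214) (nat_lit 161)))) (XT.nd (nat_lit 156) (nat_lit 0) (nat_lit 0) (XT.nd (nat_lit 78) (nat_lit 0) (nat_lit 0) (XT.lf (nat_lit 0) (nat_lit 28289820896) (nat_lit 76) (nat_lit 32092853158) (nat_lit 76) (nat_lit 24546054986) (nat_lit 4) (nat_lit 4) (nat_lit 5) (nat_lit 5) (nat_lit 5) (nat_lit 4) (nat_lit 406) (nat_lit 214) (nat_lit 160)) (XT.lf (nat_lit 0) (nat_lit 34946481405) (nat_lit 76) (nat_lit 30020279083) (nat_lit 76) (nat_lit 22417608344) (nat_lit 4) (nat_lit 4) (nat_lit 5) (nat_lit 5) (nat_lit 5) (nat_lit 4) (nat_lit 407) (nat_lit 214) (nat_lit 159))) (XT.nd (nat_lit 78) (nat_lit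 0) (nat_lit 0) (XT.lf (nat_lit 0) (nat_lit 41754557722) (nat_lit 76) (nat_lit 27908401362) (nat_lit 76) (nat_lit 20251485412) (nat_lit 4) (nat_lit 4) (nat_lit 5) (nat_lit 5) (nat_lit 5) (nat_lit 4) (nat_lit 408) (nat_lit 214) (nat_lit 158)) (XT.lf (nat_lit 0) (nat_lit 48719998652) (nat_lit 76) (nat_lit 25755374666) (nat_lit 76) (nat_lit 18045793462) (nat_lit 4) (nat_lit 4) (nat_lit 5) (nat_lit 5) (nat_lit 5) (nat_lit 4) (nat_lit 409) (nat_lit 214) (nat_lit 157))))) (XT.nd (nat_lit 234) (nat_lit 0) (nat_lit 0) (XT.nd (nat_lit 78) (nat_lit 0) (nat_lit 0) (XT.lf (nat_lit 0) (nat_lit 55848890503) (nat_lit 76) (nat_lit 23559317709) (nat_lit 76) (nat_lit 15798605191) (nat_lit 4) (nat_lit 4) (nat_lit 5) (nat_lit 5) (nat_lit 5) (nat_lit 4) (nat_lit 410) (nat_lit 214) (nat_lit 156)) (XT.nd (nat_lit 78) (nat_lit 0) (nat_lit 0) (XT.lf (nat_lit 0) (nat_lit 63147462403) (nat_lit 76) (nat_lit 21318311606) (nat_lit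 76) (nat_lit 13507957036) (nat_lit 4) (nat_lit 4) (nat_lit 5) (nat_lit 5) (nat_lit 5) (nat_lit 4) (nat_lit 411) (nat_lit 214) (nat_lit 155)) (XT.lf (nat_lit 0) (nat_lit 70622091746) (nat_lit 76) (nat_lit 19030398197) (nat_lit 76) (nat_lit 11171847459) (nat_lit 4) (nat_lit 4) (nat_lit 5) (nat_lit 5) (nat_lit 5) (nat_lit 4) (nat_lit 412) (nat_lit 214) (nat_lit 154)))) (XT.nd (nat_lit 35802) (nat_lit 0) (nat_lit 1216) (XT.nd (nat_lit 35724) (nat_lit 0) (nat_lit 1368) (XT.lf (nat_lit 0) (nat_lit 78279309760) (nat_lit 76) (nat_lit 16693578333) (nat_lit 76) (nat_lit 8788235200) (nat_lit 4) (nat_lit 4) (nat_lit 5) (nat_lit 5) (nat_lit 5) (nat_lit 4) (nat_lit 413) (nat_lit 214) (nat_lit 153)) (XT.lf (nat_lit 0) (nat_lit 6143565057) (nat_lit 152) (nat_lit 1833032291) (nat_lit 152) (nat_lit 1833032291) (nat_lit 22) (nat_lit 4) (nat_lit 24) (nat_lit 5) (nat_lit 24) (nat_lit 4) (nat_lit 350) (nat_lit 215) (nat_lit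 215))) (XT.nd (nat_lit 78) (nat_lit 0) (nat_lit 0) (XT.lf (nat_lit 0) (nat_lit 843445674) (nat_lit 152) (nat_lit 18703336167) (nat_lit 0) (nat_lit 514266682) (nat_lit 20) (nat_lit 5) (nat_lit 22) (nat_lit 4) (nat_lit 20) (nat_lit 4) (nat_lit 351) (nat_lit 215) (nat_lit 214)) (XT.lf (nat_lit 0) (nat_lit 5429094958) (nat_lit 152) (nat_lit 10305172433) (nat_lit 0) (nat_lit 4780324713) (nat_lit 20) (nat_lit 5) (nat_lit 22) (nat_lit 4) (nat_lit 20) (nat_lit 4) (nat_lit 352) (nat_lit 215) (nat_lit 213)))))) (XT.nd (nat_lit 546) (nat_lit 228) (nat_lit 0) (XT.nd (nat_lit 234) (nat_lit 228) (nat_lit 0) (XT.nd (nat_lit 78) (nat_lit 76) (nat_lit 0) (XT.lf (nat_lit 0) (nat_lit 10058592478) (nat_lit 152) (nat_lit 1826446668) (nat_lit 0) (nat_lit 9099539463) (nat_lit 20) (nat_lit 5) (nat_lit 22) (nat_lit 4) (nat_lit 20) (nat_lit 4) (nat_lit 353) (nat_lit 215) (nat_lit 212)) (XT.nd (nat_lit 78) (nat_lit 0) (nat_lit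 0) (XT.lf (nat_lit 0) (nat_lit 6874393907) (nat_lit 76) (nat_lit 7927670399) (nat_lit 76) (nat_lit 6667371975) (nat_lit 19) (nat_lit 4) (nat_lit 20) (nat_lit 5) (nat_lit 20) (nat_lit 4) (nat_lit 354) (nat_lit 215) (nat_lit 211)) (XT.lf (nat_lit 0) (nat_lit 15708940207) (nat_lit 76) (nat_lit 3907418581) (nat_lit 76) (nat_lit 2354648887) (nat_lit 19) (nat_lit 4) (nat_lit 20) (nat_lit 5) (nat_lit 20) (nat_lit 4) (nat_lit 355) (nat_lit 215) (nat_lit 210)))) (XT.nd (nat_lit 156) (nat_lit 76) (nat_lit 0) (XT.nd (nat_lit 78) (nat_lit 0) (nat_lit 0) (XT.lf (nat_lit 0) (nat_lit 1981444238) (nat_lit 152) (nat_lit 20309341904) (nat_lit 0) (nat_lit 198218623) (nat_lit 17) (nat_lit 5) (nat_lit 19) (nat_lit 4) (nat_lit 17) (nat_lit 4) (nat_lit 356) (nat_lit 215) (nat_lit 209)) (XT.lf (nat_lit 0) (nat_lit 6414976977) (nat_lit 152) (nat_lit 12242347730) (nat_lit 0) (nat_lit 4364098718) (nat_lit 17) (nat_lit 5)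 (nat_lit 19) (nat_lit 4) (nat_lit 17) (nat_lit 4) (nat_lit 357) (nat_lit 215) (nat_lit 208))) (XT.nd (nat_lit 78) (nat_lit 76) (nat_lit 0) (XT.lf (nat_lit 0) (nat_lit 10896209805) (nat_lit 152) (nat_lit 4090710327) (nat_lit 0) (nat_lit 8585474611) (nat_lit 17) (nat_lit 5) (nat_lit 19) (nat_lit 4) (nat_lit 17) (nat_lit 4) (nat_lit 358) (nat_lit 215) (nat_lit 207)) (XT.lf (nat_lit 0) (nat_lit 4235339828) (nat_lit 76) (nat_lit 11234431211) (nat_lit 76) (nat_lit 8671407730) (nat_lit 16) (nat_lit 4) (nat_lit 17) (nat_lit 5) (nat_lit 17) (nat_lit 4) (nat_lit 359) (nat_lit 215) (nat_lit 206))))) (XT.nd (nat_lit 312) (nat_lit 76) (nat_lit 0) (XT.nd (nat_lit 156) (nat_lit 152) (nat_lit 0) (XT.nd (nat_lit 78) (nat_lit 0) (nat_lit 0) (XT.lf (nat_lit 0) (nat_lit 12743741811) (nat_lit 76) (nat_lit 7396242222) (nat_lit 76) (nat_lit 4588278656) (nat_lit 16) (nat_lit 4) (nat_lit 17) (nat_lit 5) (nat_lit 17) (nat_lit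 4) (nat_lit 360) (nat_lit 215) (nat_lit 205)) (XT.lf (nat_lit 0) (nat_lit 21360516989) (nat_lit 76) (nat_lit 3510307560) (nat_lit 76) (nat_lit 464538087) (nat_lit 16) (nat_lit 4) (nat_lit 17) (nat_lit 5) (nat_lit 17) (nat_lit 4) (nat_lit 361) (nat_lit 215) (nat_lit 204))) (XT.nd (nat_lit 78) (nat_lit 0) (nat_lit 0) (XT.lf (nat_lit 0) (nat_lit 3676145518) (nat_lit 152) (nat_lit 21789512824) (nat_lit 0) (nat_lit 494932902) (nat_lit 14) (nat_lit 5) (nat_lit 16) (nat_lit 4) (nat_lit 14) (nat_lit 4) (nat_lit 362) (nat_lit 215) (nat_lit 203)) (XT.lf (nat_lit 0) (nat_lit 7929324160) (nat_lit 152) (nat_lit 14144718299) (nat_lit 0) (nat_lit 4530485451) (nat_lit 14) (nat_lit 5) (nat_lit 16) (nat_lit 4) (nat_lit 14) (nat_lit 4) (nat_lit 363) (nat_lit 215) (nat_lit 202)))) (XT.nd (nat_lit 156) (nat_lit 0) (nat_lit 0) (XT.nd (nat_lit 78) (nat_lit 76) (nat_lit 0) (XT.lf (nat_lit 0) (nat_lit 12234680888) (nat_lit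 152) (nat_lit 6410826606) (nat_lit 0) (nat_lit 8624554711) (nat_lit 14) (nat_lit 5) (nat_lit 16) (nat_lit 4) (nat_lit 14) (nat_lit 4) (nat_lit 364) (nat_lit 215) (nat_lit 201)) (XT.lf (nat_lit 0) (nat_lit 1447159314) (nat_lit 76) (nat_lit 15162729331) (nat_lit 76) (nat_lit 11347469690) (nat_lit 13) (nat_lit 4) (nat_lit 14) (nat_lit 5) (nat_lit 14) (nat_lit 4) (nat_lit 365) (nat_lit 215) (nat_lit 200))) (XT.nd (nat_lit 78) (nat_lit 0) (nat_lit 0) (XT.lf (nat_lit 0) (nat_lit 9537473579) (nat_lit 76) (nat_lit 11571231782) (nat_lit 76) (nat_lit 7556813438) (nat_lit 13) (nat_lit 4) (nat_lit 14) (nat_lit 5) (nat_lit 14) (nat_lit 4) (nat_lit 366) (nat_lit 215) (nat_lit 199)) (XT.lf (nat_lit 0) (nat_lit 17739597375) (nat_lit 76) (nat_lit 7932613426) (nat_lit 76) (nat_lit 3724837117) (nat_lit 13) (nat_lit 4) (nat_lit 14) (nat_lit 5) (nat_lit 14) (nat_lit 4) (nat_lit 367) (nat_lit 215) (nat_lit 198))))))))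
noncomputable def xc18 : XT := (XT.nd (nat_lit 2184) (nat_lit 76) (nat_lit 0) (XT.nd (nat_lit 1092) (nat_lit 228) (nat_lit 0) (XT.nd (nat_lit 546) (nat_lit 152) (nat_lit 0) (XT.nd (nat_lit 234) (nat_lit 76) (nat_lit 0) (XT.nd (nat_lit 78) (nat_lit 76) (nat_lit 0) (XT.lf (nat_lit 0) (nat_lit 148845288) (nat_lit 152) (nat_lit 4093346552) (nat_lit 76) (nat_lit 25910349273) (nat_lit 12) (nat_lit 5) (nat_lit 14) (nat_lit 5) (nat_lit 13) (nat_lit 4) (nat_lit 368) (nat_lit 215) (nat_lit 197)) (XT.nd (nat_lit 78) (nat_lit 0) (nat_lit 0) (XT.lf (nat_lit 0) (nat_lit 3606444065) (nat_lit 76) (nat_lit 425184003) (nat_lit 152) (nat_lit 26898946231) (nat_lit 11) (nat_lit 5) (nat_lit 12) (nat_lit 5) (nat_lit 13) (nat_lit 4) (nat_lit 369) (nat_lit 215) (nat_lit 196)) (XT.lf (nat_lit 0) (nat_lit 8039641767) (nat_lit 152) (nat_lit 20268640473) (nat_lit 0) (nat_lit 3423417648) (nat_lit 11) (nat_lit 5) (nat_lit 13)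 (nat_lit 4) (nat_lit 11) (nat_lit 4) (nat_lit 370) (nat_lit 215) (nat_lit 195)))) (XT.nd (nat_lit 156) (nat_lit 76) (nat_lit 0) (XT.nd (nat_lit 78) (nat_lit 0) (nat_lit 0) (XT.lf (nat_lit 0) (nat_lit 12107346762) (nat_lit 152) (nat_lit 13127012020) (nat_lit 0) (nat_lit 7324330365) (nat_lit 11) (nat_lit 5) (nat_lit 13) (nat_lit 4) (nat_lit 11) (nat_lit 4) (nat_lit 371) (nat_lit 215) (nat_lit 194)) (XT.lf (nat_lit 0) (nat_lit 16234210231) (nat_lit 152) (nat_lit 5888917487) (nat_lit 0) (nat_lit 11289259582) (nat_lit 11) (nat_lit 5) (nat_lit 13) (nat_lit 4) (nat_lit 11) (nat_lit 4) (nat_lit 372) (nat_lit 215) (nat_lit 193))) (XT.nd (nat_lit 78) (nat_lit 0) (nat_lit 0) (XT.lf (nat_lit 0) (nat_lit 1480864675) (nat_lit 76) (nat_lit 18957208471) (nat_lit 76) (nat_lit 13855040103) (nat_lit 10) (nat_lit 4) (nat_lit 11) (nat_lit 5) (nat_lit 11) (nat_lit 4) (nat_lit 373) (nat_lit 215) (nat_lit 192)) (XT.lf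 (nat_lit 0) (nat_lit 9079226231) (nat_lit 76) (nat_lit 15687940265) (nat_lit 76) (nat_lit 10433133334) (nat_lit 10) (nat_lit 4) (nat_lit 11) (nat_lit 5) (nat_lit 11) (nat_lit 4) (nat_lit 374) (nat_lit 215) (nat_lit 191))))) (XT.nd (nat_lit 234) (nat_lit 76) (nat_lit 0) (XT.nd (nat_lit 78) (nat_lit 76) (nat_lit 0) (XT.lf (nat_lit 0) (nat_lit 16795605518) (nat_lit 76) (nat_lit 12371932977) (nat_lit 76) (nat_lit 6968933266) (nat_lit 10) (nat_lit 4) (nat_lit 11) (nat_lit 5) (nat_lit 11) (nat_lit 4) (nat_lit 375) (nat_lit 215) (nat_lit 190)) (XT.nd (nat_lit 78) (nat_lit 76) (nat_lit 0) (XT.lf (nat_lit 0) (nat_lit 24636745005) (nat_lit 76) (nat_lit 9006289125) (nat_lit 76) (nat_lit 3459412930) (nat_lit 10) (nat_lit 4) (nat_lit 11) (nat_lit 5) (nat_lit 11) (nat_lit 4) (nat_lit 376) (nat_lit 215) (nat_lit 189)) (XT.lf (nat_lit 0) (nat_lit 96572267) (nat_lit 152) (nat_lit 5490520398) (nat_lit 76) (nat_lit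 32511948713) (nat_lit 9) (nat_lit 5) (nat_lit 11) (nat_lit 5) (nat_lit 10) (nat_lit 4) (nat_lit 377) (nat_lit 215) (nat_lit 188)))) (XT.nd (nat_lit 156) (nat_lit 0) (nat_lit 0) (XT.nd (nat_lit 78) (nat_lit 0) (nat_lit 0) (XT.lf (nat_lit 0) (nat_lit 1588978862) (nat_lit 76) (nat_lit 2061838059) (nat_lit 152) (nat_lit 35474866338) (nat_lit 8) (nat_lit 5) (nat_lit 9) (nat_lit 5) (nat_lit 10) (nat_lit 4) (nat_lit 378) (nat_lit 215) (nat_lit 187)) (XT.lf (nat_lit 0) (nat_lit 7328758120) (nat_lit 152) (nat_lit 31305540208) (nat_lit 0) (nat_lit 1548324282) (nat_lit 8) (nat_lit 5) (nat_lit 10) (nat_lit 4) (nat_lit 8) (nat_lit 4) (nat_lit 379) (nat_lit 215) (nat_lit 186))) (XT.nd (nat_lit 78) (nat_lit 0) (nat_lit 0) (XT.lf (nat_lit 0) (nat_lit 11085017723) (nat_lit 152) (nat_lit 25006748241) (nat_lit 0) (nat_lit 5180474765) (nat_lit 8) (nat_lit 5) (nat_lit 10) (nat_lit 4) (nat_lit 8) (nat_lit 4) (nat_lit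 380) (nat_lit 215) (nat_lit 185)) (XT.lf (nat_lit 0) (nat_lit 14903058249) (nat_lit 152) (nat_lit 18615005048) (nat_lit 0) (nat_lit 8878021000) (nat_lit 8) (nat_lit 5) (nat_lit 10) (nat_lit 4) (nat_lit 8) (nat_lit 4) (nat_lit 381) (nat_lit 215) (nat_lit 184)))))) (XT.nd (nat_lit 546) (nat_lit 152) (nat_lit 0) (XT.nd (nat_lit 234) (nat_lit 0) (nat_lit 0) (XT.nd (nat_lit 78) (nat_lit 76) (nat_lit 0) (XT.lf (nat_lit 0) (nat_lit 18786215851) (nat_lit 152) (nat_lit 12124725610) (nat_lit 0) (nat_lit 12644193854) (nat_lit 8) (nat_lit 5) (nat_lit 10) (nat_lit 4) (nat_lit 8) (nat_lit 4) (nat_lit 382) (nat_lit 215) (nat_lit 183)) (XT.nd (nat_lit 78) (nat_lit 76) (nat_lit 0) (XT.lf (nat_lit 0) (nat_lit 22737883579) (nat_lit 152) (nat_lit 5530238811) (nat_lit 0) (nat_lit 16482284156) (nat_lit 8) (nat_lit 5) (nat_lit 10) (nat_lit 4) (nat_lit 8) (nat_lit 4) (nat_lit 383) (nat_lit 215) (nat_lit 182)) (XT.lf (nat_lit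 0) (nat_lit 1197586754) (nat_lit 76) (nat_lit 25575439528) (nat_lit 76) (nat_lit 19209570760) (nat_lit 7) (nat_lit 4) (nat_lit 8) (nat_lit 5) (nat_lit 8) (nat_lit 4) (nat_lit 384) (nat_lit 215) (nat_lit 181)))) (XT.nd (nat_lit 156) (nat_lit 0) (nat_lit 0) (XT.nd (nat_lit 78) (nat_lit 0) (nat_lit 0) (XT.lf (nat_lit 0) (nat_lit 8153607913) (nat_lit 76) (nat_lit 22785393500) (nat_lit 76) (nat_lit 16312467115) (nat_lit 7) (nat_lit 4) (nat_lit 8) (nat_lit 5) (nat_lit 8) (nat_lit 4) (nat_lit 385) (nat_lit 215) (nat_lit 180)) (XT.lf (nat_lit 0) (nat_lit 15233840148) (nat_lit 76) (nat_lit 19951390969) (nat_lit 76) (nat_lit 13374525150) (nat_lit 7) (nat_lit 4) (nat_lit 8) (nat_lit 5) (nat_lit 8) (nat_lit 4) (nat_lit 386) (nat_lit 215) (nat_lit 179))) (XT.nd (nat_lit 78) (nat_lit 0) (nat_lit 0) (XT.lf (nat_lit 0) (nat_lit 22444470068) (nat_lit 76) (nat_lit 17070955623) (nat_lit 76) (nat_lit 10393177732) (nat_lit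 7) (nat_lit 4) (nat_lit 8) (nat_lit 5) (nat_lit 8) (nat_lit 4) (nat_lit 387) (nat_lit 215) (nat_lit 178)) (XT.lf (nat_lit 0) (nat_lit 29791798224) (nat_lit 76) (nat_lit 14141570576) (nat_lit 76) (nat_lit 7365819800) (nat_lit 7) (nat_lit 4) (nat_lit 8) (nat_lit 5) (nat_lit 8) (nat_lit 4) (nat_lit 388) (nat_lit 215) (nat_lit 177))))) (XT.nd (nat_lit 234) (nat_lit 76) (nat_lit 0) (XT.nd (nat_lit 78) (nat_lit 76) (nat_lit 0) (XT.lf (nat_lit 0) (nat_lit 37282244611) (nat_lit 76) (nat_lit 11160676171) (nat_lit 76) (nat_lit 4289806090) (nat_lit 7) (nat_lit 4) (nat_lit 8) (nat_lit 5) (nat_lit 8) (nat_lit 4) (nat_lit 389) (nat_lit 215) (nat_lit 176)) (XT.nd (nat_lit 78) (nat_lit 76) (nat_lit 0) (XT.lf (nat_lit 0) (nat_lit 44922354281) (nat_lit 76) (nat_lit 8125667745) (nat_lit 76) (nat_lit 1162448822) (nat_lit 7) (nat_lit 4) (nat_lit 8) (nat_lit 5) (nat_lit 8) (nat_lit 4) (nat_lit 390) (nat_lit 215) (nat_lit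 175)) (XT.lf (nat_lit 0) (nat_lit 1979586981) (nat_lit 152) (nat_lit 3034316417) (nat_lit 76) (nat_lit 50719226127) (nat_lit 6) (nat_lit 5) (nat_lit 8) (nat_lit 5) (nat_lit 7) (nat_lit 4) (nat_lit 391) (nat_lit 215) (nat_lit 174)))) (XT.nd (nat_lit 156) (nat_lit 0) (nat_lit 0) (XT.nd (nat_lit 78) (nat_lit 0) (nat_lit 0) (XT.lf (nat_lit 0) (nat_lit 3390242484) (nat_lit 76) (nat_lit 1797032448) (nat_lit 152) (nat_lit 52114011899) (nat_lit 5) (nat_lit 5) (nat_lit 6) (nat_lit 5) (nat_lit 7) (nat_lit 4) (nat_lit 392) (nat_lit 215) (nat_lit 173)) (XT.lf (nat_lit 0) (nat_lit 8498980065) (nat_lit 152) (nat_lit 48932319116) (nat_lit 0) (nat_lit 1484962685) (nat_lit 5) (nat_lit 5) (nat_lit 7) (nat_lit 4) (nat_lit 5) (nat_lit 4) (nat_lit 393) (nat_lit 215) (nat_lit 172))) (XT.nd (nat_lit 78) (nat_lit 0) (nat_lit 0) (XT.lf (nat_lit 0) (nat_lit 11891194277) (nat_lit 152) (nat_lit 43891547575) (nat_lit 0) (nat_lit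 4797515976) (nat_lit 5) (nat_lit 5) (nat_lit 7) (nat_lit 4) (nat_lit 5) (nat_lit 4) (nat_lit 394) (nat_lit 215) (nat_lit 171)) (XT.lf (nat_lit 0) (nat_lit 15349607464) (nat_lit 152) (nat_lit 38767050991) (nat_lit 0) (nat_lit 8178588462) (nat_lit 5) (nat_lit 5) (nat_lit 7) (nat_lit 4) (nat_lit 5) (nat_lit 4) (nat_lit 395) (nat_lit 215) (nat_lit 170))))))) (XT.nd (nat_lit 1092) (nat_lit 0) (nat_lit 0) (XT.nd (nat_lit 546) (nat_lit 76) (nat_lit 0) (XT.nd (nat_lit 234) (nat_lit 0) (nat_lit 0) (XT.nd (nat_lit 78) (nat_lit 0) (nat_lit 0) (XT.lf (nat_lit 0) (nat_lit 18877241541) (nat_lit 152) (nat_lit 33554351649) (nat_lit 0) (nat_lit 11631134481) (nat_lit 5) (nat_lit 5) (nat_lit 7) (nat_lit 4) (nat_lit 5) (nat_lit 4) (nat_lit 396) (nat_lit 215) (nat_lit 169)) (XT.nd (nat_lit 78) (nat_lit 0) (nat_lit 0) (XT.lf (nat_lit 0) (nat_lit 22477178906) (nat_lit 152) (nat_lit 28248894764) (nat_lit 0) (nat_lit 15158170818)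 (nat_lit 5) (nat_lit 5) (nat_lit 7) (nat_lit 4) (nat_lit 5) (nat_lit 4) (nat_lit 397) (nat_lit 215) (nat_lit 168)) (XT.lf (nat_lit 0) (nat_lit 26152565135) (nat_lit 152) (nat_lit 22846044498) (nat_lit 0) (nat_lit 18762779351) (nat_lit 5) (nat_lit 5) (nat_lit 7) (nat_lit 4) (nat_lit 5) (nat_lit 4) (nat_lit 398) (nat_lit 215) (nat_lit 167)))) (XT.nd (nat_lit 156) (nat_lit 0) (nat_lit 0) (XT.nd (nat_lit 78) (nat_lit 0) (nat_lit 0) (XT.lf (nat_lit 0) (nat_lit 29906611732) (nat_lit 152) (nat_lit 17341079916) (nat_lit 0) (nat_lit 22448109737) (nat_lit 5) (nat_lit 5) (nat_lit 7) (nat_lit 4) (nat_lit 5) (nat_lit 4) (nat_lit 399) (nat_lit 215) (nat_lit 166)) (XT.lf (nat_lit 0) (nat_lit 33742598931) (nat_lit 152) (nat_lit 11729190853) (nat_lit 0) (nat_lit 26217382169) (nat_lit 5) (nat_lit 5) (nat_lit 7) (nat_lit 4) (nat_lit 5) (nat_lit 4) (nat_lit 400) (nat_lit 215) (nat_lit 165))) (XT.nd (nat_lit 78) (nat_lit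 0) (nat_lit 0) (XT.lf (nat_lit 0) (nat_lit 37663878565) (nat_lit 152) (nat_lit 6005473718) (nat_lit 0) (nat_lit 30073890184) (nat_lit 5) (nat_lit 5) (nat_lit 7) (nat_lit 4) (nat_lit 5) (nat_lit 4) (nat_lit 401) (nat_lit 215) (nat_lit 164)) (XT.lf (nat_lit 0) (nat_lit 41673876996) (nat_lit 152) (nat_lit 164927204) (nat_lit 0) (nat_lit 34021003548) (nat_lit 5) (nat_lit 5) (nat_lit 7) (nat_lit 4) (nat_lit 5) (nat_lit 4) (nat_lit 402) (nat_lit 215) (nat_lit 163))))) (XT.nd (nat_lit 234) (nat_lit 0) (nat_lit 0) (XT.nd (nat_lit 78) (nat_lit 0) (nat_lit 0) (XT.lf (nat_lit 0) (nat_lit 5912934732) (nat_lit 76) (nat_lit 39920002119) (nat_lit 76) (nat_lit 32206075208) (nat_lit 4) (nat_lit 4) (nat_lit 5) (nat_lit 5) (nat_lit 5) (nat_lit 4) (nat_lit 403) (nat_lit 215) (nat_lit 162)) (XT.nd (nat_lit 78) (nat_lit 0) (nat_lit 0) (XT.lf (nat_lit 0) (nat_lit 12123752135) (nat_lit 76) (nat_lit 37966915145) (nat_lit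 76) (nat_lit 30193713027) (nat_lit 4) (nat_lit 4) (nat_lit 5) (nat_lit 5) (nat_lit 5) (nat_lit 4) (nat_lit 404) (nat_lit 215) (nat_lit 161)) (XT.lf (nat_lit 0) (nat_lit 18469669557) (nat_lit 76) (nat_lit 35979502139) (nat_lit 76) (nat_lit 28148751277) (nat_lit 4) (nat_lit 4) (nat_lit 5) (nat_lit 5) (nat_lit 5) (nat_lit 4) (nat_lit 405) (nat_lit 215) (nat_lit 160)))) (XT.nd (nat_lit 156) (nat_lit 0) (nat_lit 0) (XT.nd (nat_lit 78) (nat_lit 0) (nat_lit 0) (XT.lf (nat_lit 0) (nat_lit 24956231976) (nat_lit 76) (nat_lit 33956026527) (nat_lit 76) (nat_lit 26069403098) (nat_lit 4) (nat_lit 4) (nat_lit 5) (nat_lit 5) (nat_lit 5) (nat_lit 4) (nat_lit 406) (nat_lit 215) (nat_lit 159)) (XT.lf (nat_lit 0) (nat_lit 31589107259) (nat_lit 76) (nat_lit 31894720224) (nat_lit 76) (nat_lit 23953851584) (nat_lit 4) (nat_lit 4) (nat_lit 5) (nat_lit 5) (nat_lit 5) (nat_lit 4) (nat_lit 407) (nat_lit 215) (nat_lit 158)))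 (XT.nd (nat_lit 78) (nat_lit 0) (nat_lit 0) (XT.lf (nat_lit 0) (nat_lit 38374091125) (nat_lit 76) (nat_lit 29793782087) (nat_lit 76) (nat_lit 21800248194) (nat_lit 4) (nat_lit 4) (nat_lit 5) (nat_lit 5) (nat_lit 5) (nat_lit 4) (nat_lit 408) (nat_lit 215) (nat_lit 157)) (XT.lf (nat_lit 0) (nat_lit 45317112199) (nat_lit 76) (nat_lit 27651376347) (nat_lit 76) (nat_lit 19606711139) (nat_lit 4) (nat_lit 4) (nat_lit 5) (nat_lit 5) (nat_lit 5) (nat_lit 4) (nat_lit 409) (nat_lit 215) (nat_lit 156)))))) (XT.nd (nat_lit 36114) (nat_lit 0) (nat_lit 912) (XT.nd (nat_lit 35802) (nat_lit 0) (nat_lit 1216) (XT.nd (nat_lit 78) (nat_lit 0) (nat_lit 0) (XT.lf (nat_lit 0) (nat_lit 52424237200) (nat_lit 76) (nat_lit 25465630997) (nat_lit 76) (nat_lit 17371323737) (nat_lit 4) (nat_lit 4) (nat_lit 5) (nat_lit 5) (nat_lit 5) (nat_lit 4) (nat_lit 410) (nat_lit 215) (nat_lit 155)) (XT.nd (nat_lit 78) (nat_lit 0) (nat_lit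 0) (XT.lf (nat_lit 0) (nat_lit 59701676236) (nat_lit 76) (nat_lit 23234636163) (nat_lit 76) (nat_lit 15092132736) (nat_lit 4) (nat_lit 4) (nat_lit 5) (nat_lit 5) (nat_lit 5) (nat_lit 4) (nat_lit 411) (nat_lit 215) (nat_lit 154)) (XT.lf (nat_lit 0) (nat_lit 67155788234) (nat_lit 76) (nat_lit 20956442433) (nat_lit 76) (nat_lit 12767146610) (nat_lit 4) (nat_lit 4) (nat_lit 5) (nat_lit 5) (nat_lit 5) (nat_lit 4) (nat_lit 412) (nat_lit 215) (nat_lit 153)))) (XT.nd (nat_lit 156) (nat_lit 152) (nat_lit 0) (XT.nd (nat_lit 78) (nat_lit 152) (nat_lit 0) (XT.lf (nat_lit 0) (nat_lit 3326415671) (nat_lit 152) (nat_lit 2736061127) (nat_lit 0) (nat_lit 3326415671) (nat_lit 24) (nat_lit 5) (nat_lit 26) (nat_lit 4) (nat_lit 24) (nat_lit 4) (nat_lit 348) (nat_lit 216) (nat_lit 216)) (XT.lf (nat_lit 0) (nat_lit 3264548704) (nat_lit 152) (nat_lit 8138535976) (nat_lit 152) (nat_lit 7789309985) (nat_lit 22) (nat_lit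 4) (nat_lit 24) (nat_lit 5) (nat_lit 24) (nat_lit 4) (nat_lit 349) (nat_lit 216) (nat_lit 215))) (XT.nd (nat_lit 78) (nat_lit 152) (nat_lit 0) (XT.lf (nat_lit 0) (nat_lit 12201340968) (nat_lit 152) (nat_lit 4053815026) (nat_lit 152) (nat_lit 3365534673) (nat_lit 22) (nat_lit 4) (nat_lit 24) (nat_lit 5) (nat_lit 24) (nat_lit 4) (nat_lit 350) (nat_lit 216) (nat_lit 214)) (XT.lf (nat_lit 0) (nat_lit 1085967155) (nat_lit 152) (nat_lit 18879860534) (nat_lit 0) (nat_lit 98142549) (nat_lit 20) (nat_lit 5) (nat_lit 22) (nat_lit 4) (nat_lit 20) (nat_lit 4) (nat_lit 351) (nat_lit 216) (nat_lit 213))))) (XT.nd (nat_lit 312) (nat_lit 228) (nat_lit 0) (XT.nd (nat_lit 156) (nat_lit 76) (nat_lit 0) (XT.nd (nat_lit 78) (nat_lit 0) (nat_lit 0) (XT.lf (nat_lit 0) (nat_lit 5625448340) (nat_lit 152) (nat_lit 10566121865) (nat_lit 0) (nat_lit 4327340963) (nat_lit 20) (nat_lit 5) (nat_lit 22) (nat_lit 4) (nat_lit 20)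 (nat_lit 4) (nat_lit 352) (nat_lit 216) (nat_lit 212)) (XT.lf (nat_lit 0) (nat_lit 10210122463) (nat_lit 152) (nat_lit 2169362182) (nat_lit 0) (nat_lit 8610769678) (nat_lit 20) (nat_lit 5) (nat_lit 22) (nat_lit 4) (nat_lit 20) (nat_lit 4) (nat_lit 353) (nat_lit 216) (nat_lit 211))) (XT.nd (nat_lit 78) (nat_lit 0) (nat_lit 0) (XT.lf (nat_lit 0) (nat_lit 6443491210) (nat_lit 76) (nat_lit 8462443119) (nat_lit 76) (nat_lit 6570619064) (nat_lit 19) (nat_lit 4) (nat_lit 20) (nat_lit 5) (nat_lit 20) (nat_lit 4) (nat_lit 354) (nat_lit 216) (nat_lit 210)) (XT.lf (nat_lit 0) (nat_lit 15199238973) (nat_lit 76) (nat_lit 4477982027) (nat_lit 76) (nat_lit 2302205282) (nat_lit 19) (nat_lit 4) (nat_lit 20) (nat_lit 5) (nat_lit 20) (nat_lit 4) (nat_lit 355) (nat_lit 216) (nat_lit 209)))) (XT.nd (nat_lit 156) (nat_lit 76) (nat_lit 0) (XT.nd (nat_lit 78) (nat_lit 0) (nat_lit 0) (XT.lf (nat_lit 0) (nat_lit 1573825900)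 (nat_lit 76) (nat_lit 409073049) (nat_lit 152) (nat_lit 20516018880) (nat_lit 17) (nat_lit 5) (nat_lit 18) (nat_lit 5) (nat_lit 19) (nat_lit 4) (nat_lit 356) (nat_lit 216) (nat_lit 208)) (XT.lf (nat_lit 0) (nat_lit 6370476821) (nat_lit 152) (nat_lit 12931685985) (nat_lit 0) (nat_lit 3730562635) (nat_lit 17) (nat_lit 5) (nat_lit 19) (nat_lit 4) (nat_lit 17) (nat_lit 4) (nat_lit 357) (nat_lit 216) (nat_lit 207))) (XT.nd (nat_lit 78) (nat_lit 76) (nat_lit 0) (XT.lf (nat_lit 0) (nat_lit 10810911001) (nat_lit 152) (nat_lit 4855311195) (nat_lit 0) (nat_lit 7918708528) (nat_lit 17) (nat_lit 5) (nat_lit 19) (nat_lit 4) (nat_lit 17) (nat_lit 4) (nat_lit 358) (nat_lit 216) (nat_lit 206)) (XT.lf (nat_lit 0) (nat_lit 3380997160) (nat_lit 76) (nat_lit 11955652273) (nat_lit 76) (nat_lit 8818509716) (nat_lit 16) (nat_lit 4) (nat_lit 17) (nat_lit 5) (nat_lit 17) (nat_lit 4) (nat_lit 359) (nat_lit 216) (nat_lit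 205))))))))
noncomputable def xc19 : XT := (XT.nd (nat_lit 2184) (nat_lit 228) (nat_lit 0) (XT.nd (nat_lit 1092) (nat_lit 304) (nat_lit 0) (XT.nd (nat_lit 546) (nat_lit 152) (nat_lit 0) (XT.nd (nat_lit 234) (nat_lit 76) (nat_lit 0) (XT.nd (nat_lit 78) (nat_lit 152) (nat_lit 0) (XT.lf (nat_lit 0) (nat_lit 11817045022) (nat_lit 76) (nat_lit 8150665252) (nat_lit 76) (nat_lit 4775716788) (nat_lit 16) (nat_lit 4) (nat_lit 17) (nat_lit 5) (nat_lit 17) (nat_lit 4) (nat_lit 360) (nat_lit 216) (nat_lit 204)) (XT.nd (nat_lit 78) (nat_lit 152) (nat_lit 0) (XT.lf (nat_lit 0) (nat_lit 20363573482) (nat_lit 76) (nat_lit 4296965512) (nat_lit 76) (nat_lit 691137526) (nat_lit 16) (nat_lit 4) (nat_lit 17) (nat_lit 5) (nat_lit 17) (nat_lit 4) (nat_lit 361) (nat_lit 216) (nat_lit 203)) (XT.lf (nat_lit 0) (nat_lit 3074551121) (nat_lit 76) (nat_lit 326697145) (nat_lit 152) (nat_lit 22577312427) (nat_lit 14) (nat_lit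 5) (nat_lit 15) (nat_lit 5) (nat_lit 16) (nat_lit 4) (nat_lit 362) (nat_lit 216) (nat_lit 202)))) (XT.nd (nat_lit 156) (nat_lit 76) (nat_lit 0) (XT.nd (nat_lit 78) (nat_lit 0) (nat_lit 0) (XT.lf (nat_lit 0) (nat_lit 7614135130) (nat_lit 152) (nat_lit 15325161664) (nat_lit 0) (nat_lit 3684417699) (nat_lit 14) (nat_lit 5) (nat_lit 16) (nat_lit 4) (nat_lit 14) (nat_lit 4) (nat_lit 363) (nat_lit 216) (nat_lit 201)) (XT.lf (nat_lit 0) (nat_lit 11883422570) (nat_lit 152) (nat_lit 7658344756) (nat_lit 0) (nat_lit 7748571676) (nat_lit 14) (nat_lit 5) (nat_lit 16) (nat_lit 4) (nat_lit 14) (nat_lit 4) (nat_lit 364) (nat_lit 216) (nat_lit 200))) (XT.nd (nat_lit 78) (nat_lit 0) (nat_lit 0) (XT.lf (nat_lit 0) (nat_lit 108395918) (nat_lit 76) (nat_lit 16102346670) (nat_lit 76) (nat_lit 11768337072) (nat_lit 13) (nat_lit 4) (nat_lit 14) (nat_lit 5) (nat_lit 14) (nat_lit 4) (nat_lit 365) (nat_lit 216) (nat_lit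 199)) (XT.lf (nat_lit 0) (nat_lit 8134227476) (nat_lit 76) (nat_lit 12540713220) (nat_lit 76) (nat_lit 8013345657) (nat_lit 13) (nat_lit 4) (nat_lit 14) (nat_lit 5) (nat_lit 14) (nat_lit 4) (nat_lit 366) (nat_lit 216) (nat_lit 198))))) (XT.nd (nat_lit 234) (nat_lit 0) (nat_lit 0) (XT.nd (nat_lit 78) (nat_lit 152) (nat_lit 0) (XT.lf (nat_lit 0) (nat_lit 16273746701) (nat_lit 76) (nat_lit 8931089133) (nat_lit 76) (nat_lit 4215995391) (nat_lit 13) (nat_lit 4) (nat_lit 14) (nat_lit 5) (nat_lit 14) (nat_lit 4) (nat_lit 367) (nat_lit 216) (nat_lit 197)) (XT.nd (nat_lit 78) (nat_lit 152) (nat_lit 0) (XT.lf (nat_lit 0) (nat_lit 24534065797) (nat_lit 76) (nat_lit 5270320369) (nat_lit 76) (nat_lit 372968201) (nat_lit 13) (nat_lit 4) (nat_lit 14) (nat_lit 5) (nat_lit 14) (nat_lit 4) (nat_lit 368) (nat_lit 216) (nat_lit 196)) (XT.lf (nat_lit 0) (nat_lit 1968469953) (nat_lit 76) (nat_lit 1500875884) (nat_lit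 152) (nat_lit 27487588487) (nat_lit 11) (nat_lit 5) (nat_lit 12) (nat_lit 5) (nat_lit 13) (nat_lit 4) (nat_lit 369) (nat_lit 216) (nat_lit 195)))) (XT.nd (nat_lit 156) (nat_lit 0) (nat_lit 0) (XT.nd (nat_lit 78) (nat_lit 0) (nat_lit 0) (XT.lf (nat_lit 0) (nat_lit 7435118412) (nat_lit 152) (nat_lit 21982396105) (nat_lit 0) (nat_lit 2341819244) (nat_lit 11) (nat_lit 5) (nat_lit 13) (nat_lit 4) (nat_lit 11) (nat_lit 4) (nat_lit 370) (nat_lit 216) (nat_lit 194)) (XT.lf (nat_lit 0) (nat_lit 11471851645) (nat_lit 152) (nat_lit 14898788723) (nat_lit 0) (nat_lit 6216618226) (nat_lit 11) (nat_lit 5) (nat_lit 13) (nat_lit 4) (nat_lit 11) (nat_lit 4) (nat_lit 371) (nat_lit 216) (nat_lit 193))) (XT.nd (nat_lit 78) (nat_lit 0) (nat_lit 0) (XT.lf (nat_lit 0) (nat_lit 15568645442) (nat_lit 152) (nat_lit 7717025328) (nat_lit 0) (nat_lit 10156194303) (nat_lit 11) (nat_lit 5) (nat_lit 13) (nat_lit 4) (nat_lit 11)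 (nat_lit 4) (nat_lit 372) (nat_lit 216) (nat_lit 192)) (XT.lf (nat_lit 0) (nat_lit 19729079525) (nat_lit 152) (nat_lit 430830592) (nat_lit 0) (nat_lit 14163989823) (nat_lit 11) (nat_lit 5) (nat_lit 13) (nat_lit 4) (nat_lit 11) (nat_lit 4) (nat_lit 373) (nat_lit 216) (nat_lit 191)))))) (XT.nd (nat_lit 546) (nat_lit 76) (nat_lit 0) (XT.nd (nat_lit 234) (nat_lit 152) (nat_lit 0) (XT.nd (nat_lit 78) (nat_lit 0) (nat_lit 0) (XT.lf (nat_lit 0) (nat_lit 7104802345) (nat_lit 76) (nat_lit 16920282586) (nat_lit 76) (nat_lit 11207000105) (nat_lit 10) (nat_lit 4) (nat_lit 11) (nat_lit 5) (nat_lit 11) (nat_lit 4) (nat_lit 374) (nat_lit 216) (nat_lit 190)) (XT.nd (nat_lit 78) (nat_lit 0) (nat_lit 0) (XT.lf (nat_lit 0) (nat_lit 14768604697) (nat_lit 76) (nat_lit 13628828823) (nat_lit 76) (nat_lit 7771669857) (nat_lit 10) (nat_lit 4) (nat_lit 11) (nat_lit 5) (nat_lit 11) (nat_lit 4) (nat_lit 375) (nat_lit 216)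 (nat_lit 189)) (XT.lf (nat_lit 0) (nat_lit 22558698615) (nat_lit 76) (nat_lit 10287023345) (nat_lit 76) (nat_lit 4290178472) (nat_lit 10) (nat_lit 4) (nat_lit 11) (nat_lit 5) (nat_lit 11) (nat_lit 4) (nat_lit 376) (nat_lit 216) (nat_lit 188)))) (XT.nd (nat_lit 156) (nat_lit 76) (nat_lit 0) (XT.nd (nat_lit 78) (nat_lit 76) (nat_lit 0) (XT.lf (nat_lit 0) (nat_lit 30481890978) (nat_lit 76) (nat_lit 6891946128) (nat_lit 76) (nat_lit 759483869) (nat_lit 10) (nat_lit 4) (nat_lit 11) (nat_lit 5) (nat_lit 11) (nat_lit 4) (nat_lit 377) (nat_lit 216) (nat_lit 187)) (XT.lf (nat_lit 0) (nat_lit 2768402388) (nat_lit 152) (nat_lit 644272776) (nat_lit 76) (nat_lit 35748747139) (nat_lit 9) (nat_lit 5) (nat_lit 11) (nat_lit 5) (nat_lit 10) (nat_lit 4) (nat_lit 378) (nat_lit 216) (nat_lit 186))) (XT.nd (nat_lit 78) (nat_lit 0) (nat_lit 0) (XT.lf (nat_lit 0) (nat_lit 6401149984) (nat_lit 152) (nat_lit 33623210782)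 (nat_lit 0) (nat_lit 195361618) (nat_lit 8) (nat_lit 5) (nat_lit 10) (nat_lit 4) (nat_lit 8) (nat_lit 4) (nat_lit 379) (nat_lit 216) (nat_lit 185)) (XT.lf (nat_lit 0) (nat_lit 10132332314) (nat_lit 152) (nat_lit 27371715629) (nat_lit 0) (nat_lit 3806049656) (nat_lit 8) (nat_lit 5) (nat_lit 10) (nat_lit 4) (nat_lit 8) (nat_lit 4) (nat_lit 380) (nat_lit 216) (nat_lit 184))))) (XT.nd (nat_lit 234) (nat_lit 76) (nat_lit 0) (XT.nd (nat_lit 78) (nat_lit 0) (nat_lit 0) (XT.lf (nat_lit 0) (nat_lit 13926025973) (nat_lit 152) (nat_lit 21025891673) (nat_lit 0) (nat_lit 7482758567) (nat_lit 8) (nat_lit 5) (nat_lit 10) (nat_lit 4) (nat_lit 8) (nat_lit 4) (nat_lit 381) (nat_lit 216) (nat_lit 183)) (XT.nd (nat_lit 78) (nat_lit 0) (nat_lit 0) (XT.lf (nat_lit 0) (nat_lit 17785545840) (nat_lit 152) (nat_lit 14580194019) (nat_lit 0) (nat_lit 11228701008) (nat_lit 8) (nat_lit 5) (nat_lit 10) (nat_lit 4) (nat_lit 8)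 (nat_lit 4) (nat_lit 382) (nat_lit 216) (nat_lit 182)) (XT.lf (nat_lit 0) (nat_lit 21714264310) (nat_lit 152) (nat_lit 8028990505) (nat_lit 0) (nat_lit 15047150133) (nat_lit 8) (nat_lit 5) (nat_lit 10) (nat_lit 4) (nat_lit 8) (nat_lit 4) (nat_lit 383) (nat_lit 216) (nat_lit 181)))) (XT.nd (nat_lit 156) (nat_lit 0) (nat_lit 0) (XT.nd (nat_lit 78) (nat_lit 76) (nat_lit 0) (XT.lf (nat_lit 0) (nat_lit 25715614245) (nat_lit 152) (nat_lit 1366556778) (nat_lit 0) (nat_lit 18941442451) (nat_lit 8) (nat_lit 5) (nat_lit 10) (nat_lit 4) (nat_lit 8) (nat_lit 4) (nat_lit 384) (nat_lit 216) (nat_lit 180)) (XT.lf (nat_lit 0) (nat_lit 5520656601) (nat_lit 76) (nat_lit 24325503296) (nat_lit 76) (nat_lit 17447392069) (nat_lit 7) (nat_lit 4) (nat_lit 8) (nat_lit 5) (nat_lit 8) (nat_lit 4) (nat_lit 385) (nat_lit 216) (nat_lit 179))) (XT.nd (nat_lit 78) (nat_lit 0) (nat_lit 0) (XT.lf (nat_lit 0) (nat_lit 12560490174)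 (nat_lit 76) (nat_lit 21510509268) (nat_lit 76) (nat_lit 14531485970) (nat_lit 7) (nat_lit 4) (nat_lit 8) (nat_lit 5) (nat_lit 8) (nat_lit 4) (nat_lit 386) (nat_lit 216) (nat_lit 178)) (XT.lf (nat_lit 0) (nat_lit 19731898094) (nat_lit 76) (nat_lit 18648528779) (nat_lit 76) (nat_lit 11571532595) (nat_lit 7) (nat_lit 4) (nat_lit 8) (nat_lit 5) (nat_lit 8) (nat_lit 4) (nat_lit 387) (nat_lit 216) (nat_lit 177))))))) (XT.nd (nat_lit 1092) (nat_lit 76) (nat_lit 0) (XT.nd (nat_lit 546) (nat_lit 0) (nat_lit 0) (XT.nd (nat_lit 234) (nat_lit 152) (nat_lit 0) (XT.nd (nat_lit 78) (nat_lit 0) (nat_lit 0) (XT.lf (nat_lit 0) (nat_lit 27041146637) (nat_lit 76) (nat_lit 15737061069) (nat_lit 76) (nat_lit 8564945579) (nat_lit 7) (nat_lit 4) (nat_lit 8) (nat_lit 5) (nat_lit 8) (nat_lit 4) (nat_lit 388) (nat_lit 216) (nat_lit 176)) (XT.nd (nat_lit 78) (nat_lit 0) (nat_lit 0) (XT.lf (nat_lit 0) (nat_lit 34494622527)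 (nat_lit 76) (nat_lit 12773562137) (nat_lit 76) (nat_lit 5509097807) (nat_lit 7) (nat_lit 4) (nat_lit 8) (nat_lit 5) (nat_lit 8) (nat_lit 4) (nat_lit 389) (nat_lit 216) (nat_lit 175)) (XT.lf (nat_lit 0) (nat_lit 42098838510) (nat_lit 76) (nat_lit 9755442519) (nat_lit 76) (nat_lit 2401319120) (nat_lit 7) (nat_lit 4) (nat_lit 8) (nat_lit 5) (nat_lit 8) (nat_lit 4) (nat_lit 390) (nat_lit 216) (nat_lit 174)))) (XT.nd (nat_lit 156) (nat_lit 0) (nat_lit 0) (XT.nd (nat_lit 78) (nat_lit 76) (nat_lit 0) (XT.lf (nat_lit 0) (nat_lit 746254096) (nat_lit 152) (nat_lit 5926275223) (nat_lit 76) (nat_lit 49106649246) (nat_lit 6) (nat_lit 5) (nat_lit 8) (nat_lit 5) (nat_lit 7) (nat_lit 4) (nat_lit 391) (nat_lit 216) (nat_lit 173)) (XT.lf (nat_lit 0) (nat_lit 405850834) (nat_lit 76) (nat_lit 3501308842) (nat_lit 152) (nat_lit 53441582919) (nat_lit 5) (nat_lit 5) (nat_lit 6) (nat_lit 5) (nat_lit 7) (nat_lit 4) (nat_lit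 392) (nat_lit 216) (nat_lit 172))) (XT.nd (nat_lit 78) (nat_lit 0) (nat_lit 0) (XT.lf (nat_lit 0) (nat_lit 6980684959) (nat_lit 76) (nat_lit 205728349) (nat_lit 152) (nat_lit 51778281025) (nat_lit 5) (nat_lit 5) (nat_lit 6) (nat_lit 5) (nat_lit 7) (nat_lit 4) (nat_lit 393) (nat_lit 216) (nat_lit 171)) (XT.lf (nat_lit 0) (nat_lit 10559129022) (nat_lit 152) (nat_lit 46974510545) (nat_lit 0) (nat_lit 3095638751) (nat_lit 5) (nat_lit 5) (nat_lit 7) (nat_lit 4) (nat_lit 5) (nat_lit 4) (nat_lit 394) (nat_lit 216) (nat_lit 170))))) (XT.nd (nat_lit 234) (nat_lit 0) (nat_lit 0) (XT.nd (nat_lit 78) (nat_lit 0) (nat_lit 0) (XT.lf (nat_lit 0) (nat_lit 14000531615) (nat_lit 152) (nat_lit 41882295803) (nat_lit 0) (nat_lit 6461953285) (nat_lit 5) (nat_lit 5) (nat_lit 7) (nat_lit 4) (nat_lit 5) (nat_lit 4) (nat_lit 395) (nat_lit 216) (nat_lit 169)) (XT.nd (nat_lit 78) (nat_lit 0) (nat_lit 0) (XT.lf (nat_lit 0)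 (nat_lit 17511650552) (nat_lit 152) (nat_lit 36700938055) (nat_lit 0) (nat_lit 9900171194) (nat_lit 5) (nat_lit 5) (nat_lit 7) (nat_lit 4) (nat_lit 5) (nat_lit 4) (nat_lit 396) (nat_lit 216) (nat_lit 168)) (XT.lf (nat_lit 0) (nat_lit 21095553801) (nat_lit 152) (nat_lit 31425909902) (nat_lit 0) (nat_lit 13413296746) (nat_lit 5) (nat_lit 5) (nat_lit 7) (nat_lit 4) (nat_lit 5) (nat_lit 4) (nat_lit 397) (nat_lit 216) (nat_lit 167)))) (XT.nd (nat_lit 156) (nat_lit 0) (nat_lit 0) (XT.nd (nat_lit 78) (nat_lit 0) (nat_lit 0) (XT.lf (nat_lit 0) (nat_lit 24755372927) (nat_lit 152) (nat_lit 26052602096) (nat_lit 0) (nat_lit 17004399662) (nat_lit 5) (nat_lit 5) (nat_lit 7) (nat_lit 4) (nat_lit 5) (nat_lit 4) (nat_lit 398) (nat_lit 216) (nat_lit 166)) (XT.lf (nat_lit 0) (nat_lit 28494305831) (nat_lit 152) (nat_lit 20576319512) (nat_lit 0) (nat_lit 20676617799) (nat_lit 5) (nat_lit 5) (nat_lit 7) (nat_lit 4)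 (nat_lit 5) (nat_lit 4) (nat_lit 399) (nat_lit 216) (nat_lit 165))) (XT.nd (nat_lit 78) (nat_lit 0) (nat_lit 0) (XT.lf (nat_lit 0) (nat_lit 32315619542) (nat_lit 152) (nat_lit 14992277050) (nat_lit 0) (nat_lit 24433159891) (nat_lit 5) (nat_lit 5) (nat_lit 7) (nat_lit 4) (nat_lit 5) (nat_lit 4) (nat_lit 400) (nat_lit 216) (nat_lit 164)) (XT.lf (nat_lit 0) (nat_lit 36222653072) (nat_lit 152) (nat_lit 9295595449) (nat_lit 0) (nat_lit 28277308354) (nat_lit 5) (nat_lit 5) (nat_lit 7) (nat_lit 4) (nat_lit 5) (nat_lit 4) (nat_lit 401) (nat_lit 216) (nat_lit 163)))))) (XT.nd (nat_lit 546) (nat_lit 0) (nat_lit 0) (XT.nd (nat_lit 234) (nat_lit 0) (nat_lit 0) (XT.nd (nat_lit 78) (nat_lit 76) (nat_lit 0) (XT.lf (nat_lit 0) (nat_lit 40218820333) (nat_lit 152) (nat_lit 3481297027) (nat_lit 0) (nat_lit 32212422152) (nat_lit 5) (nat_lit 5) (nat_lit 7) (nat_lit 4) (nat_lit 5) (nat_lit 4) (nat_lit 402) (nat_lit 216)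 (nat_lit 162)) (XT.nd (nat_lit 78) (nat_lit 0) (nat_lit 0) (XT.lf (nat_lit 0) (nat_lit 2504571889) (nat_lit 76) (nat_lit 41827116710) (nat_lit 76) (nat_lit 33761443322) (nat_lit 4) (nat_lit 4) (nat_lit 5) (nat_lit 5) (nat_lit 5) (nat_lit 4) (nat_lit 403) (nat_lit 216) (nat_lit 161)) (XT.lf (nat_lit 0) (nat_lit 8690155547) (nat_lit 76) (nat_lit 39885983715) (nat_lit 76) (nat_lit 31762761583) (nat_lit 4) (nat_lit 4) (nat_lit 5) (nat_lit 5) (nat_lit 5) (nat_lit 4) (nat_lit 404) (nat_lit 216) (nat_lit 160)))) (XT.nd (nat_lit 156) (nat_lit 0) (nat_lit 0) (XT.nd (nat_lit 78) (nat_lit 0) (nat_lit 0) (XT.lf (nat_lit 0) (nat_lit 15011574188) (nat_lit 76) (nat_lit 37910176514) (nat_lit 76) (nat_lit 29731081815) (nat_lit 4) (nat_lit 4) (nat_lit 5) (nat_lit 5) (nat_lit 5) (nat_lit 4) (nat_lit 405) (nat_lit 216) (nat_lit 159)) (XT.lf (nat_lit 0) (nat_lit 21474351381) (nat_lit 76) (nat_lit 35897968674) (nat_lit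 76) (nat_lit 27664628764) (nat_lit 4) (nat_lit 4) (nat_lit 5) (nat_lit 5) (nat_lit 5) (nat_lit 4) (nat_lit 406) (nat_lit 216) (nat_lit 158))) (XT.nd (nat_lit 78) (nat_lit 0) (nat_lit 0) (XT.lf (nat_lit 0) (nat_lit 28084134213) (nat_lit 76) (nat_lit 33847601955) (nat_lit 76) (nat_lit 25561596791) (nat_lit 4) (nat_lit 4) (nat_lit 5) (nat_lit 5) (nat_lit 5) (nat_lit 4) (nat_lit 407) (nat_lit 216) (nat_lit 157)) (XT.lf (nat_lit 0) (nat_lit 34846698223) (nat_lit 76) (nat_lit 31757284774) (nat_lit 76) (nat_lit 23420148296) (nat_lit 4) (nat_lit 4) (nat_lit 5) (nat_lit 5) (nat_lit 5) (nat_lit 4) (nat_lit 408) (nat_lit 216) (nat_lit 156))))) (XT.nd (nat_lit 35724) (nat_lit 0) (nat_lit 1368) (XT.nd (nat_lit 156) (nat_lit 0) (nat_lit 0) (XT.nd (nat_lit 78) (nat_lit 0) (nat_lit 0) (XT.lf (nat_lit 0) (nat_lit 41767952447) (nat_lit 76) (nat_lit 29625190641) (nat_lit 76) (nat_lit 21238412110) (nat_lit 4) (nat_lit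 4) (nat_lit 5) (nat_lit 5) (nat_lit 5) (nat_lit 4) (nat_lit 409) (nat_lit 216) (nat_lit 155)) (XT.lf (nat_lit 0) (nat_lit 48853944583) (nat_lit 76) (nat_lit 27449456560) (nat_lit 76) (nat_lit 19014481863) (nat_lit 4) (nat_lit 4) (nat_lit 5) (nat_lit 5) (nat_lit 5) (nat_lit 4) (nat_lit 410) (nat_lit 216) (nat_lit 154))) (XT.nd (nat_lit 78) (nat_lit 0) (nat_lit 0) (XT.lf (nat_lit 0) (nat_lit 56110866275) (nat_lit 76) (nat_lit 25228181405) (nat_lit 76) (nat_lit 16746414312) (nat_lit 4) (nat_lit 4) (nat_lit 5) (nat_lit 5) (nat_lit 5) (nat_lit 4) (nat_lit 411) (nat_lit 216) (nat_lit 153)) (XT.lf (nat_lit 0) (nat_lit 63545058522) (nat_lit 76) (nat_lit 22959424257) (nat_lit 76) (nat_lit 14432227653) (nat_lit 4) (nat_lit 4) (nat_lit 5) (nat_lit 5) (nat_lit 5) (nat_lit 4) (nat_lit 412) (nat_lit 216) (nat_lit 152)))) (XT.nd (nat_lit 156) (nat_lit 152) (nat_lit 0) (XT.nd (nat_lit 78) (nat_lit 152) (nat_lit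 0) (XT.lf (nat_lit 0) (nat_lit 6765098524) (nat_lit 152) (nat_lit 1114227729) (nat_lit 152) (nat_lit 1114227729) (nat_lit 26) (nat_lit 4) (nat_lit 28) (nat_lit 5) (nat_lit 28) (nat_lit 4) (nat_lit 346) (nat_lit 217) (nat_lit 217)) (XT.lf (nat_lit 0) (nat_lit 2336831228) (nat_lit 152) (nat_lit 14063233034) (nat_lit 0) (nat_lit 1977128457) (nat_lit 24) (nat_lit 5) (nat_lit 26) (nat_lit 4) (nat_lit 24) (nat_lit 4) (nat_lit 347) (nat_lit 217) (nat_lit 216))) (XT.nd (nat_lit 78) (nat_lit 152) (nat_lit 0) (XT.lf (nat_lit 0) (nat_lit 6964700876) (nat_lit 152) (nat_lit 5558760800) (nat_lit 0) (nat_lit 6255772113) (nat_lit 24) (nat_lit 5) (nat_lit 26) (nat_lit 4) (nat_lit 24) (nat_lit 4) (nat_lit 348) (nat_lit 217) (nat_lit 215)) (XT.lf (nat_lit 0) (nat_lit 3090396736) (nat_lit 152) (nat_lit 8576443385) (nat_lit 152) (nat_lit 7528460260) (nat_lit 22) (nat_lit 4) (nat_lit 24) (nat_lit 5) (nat_lit 24) (nat_lit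 4) (nat_lit 349) (nat_lit 217) (nat_lit 214))))))))
noncomputable def xc20 : XT := (XT.nd (nat_lit 2184) (nat_lit 456) (nat_lit 0) (XT.nd (nat_lit 1092) (nat_lit 304) (nat_lit 0) (XT.nd (nat_lit 546) (nat_lit 228) (nat_lit 0) (XT.nd (nat_lit 234) (nat_lit 228) (nat_lit 0) (XT.nd (nat_lit 78) (nat_lit 152) (nat_lit 0) (XT.lf (nat_lit 0) (nat_lit 11943898566) (nat_lit 152) (nat_lit 4529124814) (nat_lit 152) (nat_lit 3151962699) (nat_lit 22) (nat_lit 4) (nat_lit 24) (nat_lit 5) (nat_lit 24) (nat_lit 4) (nat_lit 350) (nat_lit 217) (nat_lit 213)) (XT.nd (nat_lit 78) (nat_lit 0) (nat_lit 0) (XT.lf (nat_lit 0) (nat_lit 832660073) (nat_lit 76) (nat_lit 413356400) (nat_lit 152) (nat_lit 18823680546) (nat_lit 20) (nat_lit 5) (nat_lit 21) (nat_lit 5) (nat_lit 22) (nat_lit 4) (nat_lit 351) (nat_lit 217) (nat_lit 212)) (XT.lf (nat_lit 0) (nat_lit 5736700827) (nat_lit 152) (nat_lit 11001290926) (nat_lit 0) (nat_lit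 3788122050) (nat_lit 20) (nat_lit 5) (nat_lit 22) (nat_lit 4) (nat_lit 20) (nat_lit 4) (nat_lit 352) (nat_lit 217) (nat_lit 211)))) (XT.nd (nat_lit 156) (nat_lit 152) (nat_lit 0) (XT.nd (nat_lit 78) (nat_lit 76) (nat_lit 0) (XT.lf (nat_lit 0) (nat_lit 10277857088) (nat_lit 152) (nat_lit 2684109963) (nat_lit 0) (nat_lit 8036807041) (nat_lit 20) (nat_lit 5) (nat_lit 22) (nat_lit 4) (nat_lit 20) (nat_lit 4) (nat_lit 353) (nat_lit 217) (nat_lit 210)) (XT.lf (nat_lit 0) (nat_lit 5839700402) (nat_lit 76) (nat_lit 9085914194) (nat_lit 76) (nat_lit 6560911458) (nat_lit 19) (nat_lit 4) (nat_lit 20) (nat_lit 5) (nat_lit 20) (nat_lit 4) (nat_lit 354) (nat_lit 217) (nat_lit 209))) (XT.nd (nat_lit 78) (nat_lit 152) (nat_lit 0) (XT.lf (nat_lit 0) (nat_lit 14518944731) (nat_lit 76) (nat_lit 5136201380) (nat_lit 76) (nat_lit 2335516420) (nat_lit 19) (nat_lit 4) (nat_lit 20) (nat_lit 5) (nat_lit 20) (nat_lit 4)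 (nat_lit 355) (nat_lit 217) (nat_lit 208)) (XT.lf (nat_lit 0) (nat_lit 792264045) (nat_lit 76) (nat_lit 1109510165) (nat_lit 152) (nat_lit 20609853687) (nat_lit 17) (nat_lit 5) (nat_lit 18) (nat_lit 5) (nat_lit 19) (nat_lit 4) (nat_lit 356) (nat_lit 217) (nat_lit 207))))) (XT.nd (nat_lit 234) (nat_lit 152) (nat_lit 0) (XT.nd (nat_lit 78) (nat_lit 76) (nat_lit 0) (XT.lf (nat_lit 0) (nat_lit 6241820404) (nat_lit 152) (nat_lit 13794487492) (nat_lit 0) (nat_lit 3010563570) (nat_lit 17) (nat_lit 5) (nat_lit 19) (nat_lit 4) (nat_lit 17) (nat_lit 4) (nat_lit 357) (nat_lit 217) (nat_lit 206)) (XT.nd (nat_lit 78) (nat_lit 76) (nat_lit 0) (XT.lf (nat_lit 0) (nat_lit 10642644246) (nat_lit 152) (nat_lit 5791183199) (nat_lit 0) (nat_lit 7166447328) (nat_lit 17) (nat_lit 5) (nat_lit 19) (nat_lit 4) (nat_lit 17) (nat_lit 4) (nat_lit 358) (nat_lit 217) (nat_lit 205)) (XT.lf (nat_lit 0) (nat_lit 2354145348) (nat_lit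 76) (nat_lit 12765909963) (nat_lit 76) (nat_lit 9051907138) (nat_lit 16) (nat_lit 4) (nat_lit 17) (nat_lit 5) (nat_lit 17) (nat_lit 4) (nat_lit 359) (nat_lit 217) (nat_lit 204)))) (XT.nd (nat_lit 156) (nat_lit 152) (nat_lit 0) (XT.nd (nat_lit 78) (nat_lit 0) (nat_lit 0) (XT.lf (nat_lit 0) (nat_lit 10719946492) (nat_lit 76) (nat_lit 8993157864) (nat_lit 76) (nat_lit 5048275518) (nat_lit 16) (nat_lit 4) (nat_lit 17) (nat_lit 5) (nat_lit 17) (nat_lit 4) (nat_lit 360) (nat_lit 217) (nat_lit 203)) (XT.lf (nat_lit 0) (nat_lit 19198274254) (nat_lit 76) (nat_lit 5170754165) (nat_lit 76) (nat_lit 1001716943) (nat_lit 16) (nat_lit 4) (nat_lit 17) (nat_lit 5) (nat_lit 17) (nat_lit 4) (nat_lit 361) (nat_lit 217) (nat_lit 202))) (XT.nd (nat_lit 78) (nat_lit 0) (nat_lit 0) (XT.lf (nat_lit 0) (nat_lit 1801381444) (nat_lit 76) (nat_lit 1246916466) (nat_lit 152) (nat_lit 22950882512) (nat_lit 14) (nat_lit 5) (nat_lit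 15) (nat_lit 5) (nat_lit 16) (nat_lit 4) (nat_lit 362) (nat_lit 217) (nat_lit 201)) (XT.lf (nat_lit 0) (nat_lit 7216269775) (nat_lit 152) (nat_lit 16677180142) (nat_lit 0) (nat_lit 2752239889) (nat_lit 14) (nat_lit 5) (nat_lit 16) (nat_lit 4) (nat_lit 14) (nat_lit 4) (nat_lit 363) (nat_lit 217) (nat_lit 200)))))) (XT.nd (nat_lit 546) (nat_lit 76) (nat_lit 0) (XT.nd (nat_lit 234) (nat_lit 152) (nat_lit 0) (XT.nd (nat_lit 78) (nat_lit 76) (nat_lit 0) (XT.lf (nat_lit 0) (nat_lit 11450538490) (nat_lit 152) (nat_lit 9075484385) (nat_lit 0) (nat_lit 6787349901) (nat_lit 14) (nat_lit 5) (nat_lit 16) (nat_lit 4) (nat_lit 14) (nat_lit 4) (nat_lit 364) (nat_lit 217) (nat_lit 199)) (XT.nd (nat_lit 78) (nat_lit 76) (nat_lit 0) (XT.lf (nat_lit 0) (nat_lit 15742817778) (nat_lit 152) (nat_lit 1374083323) (nat_lit 0) (nat_lit 10886271224) (nat_lit 14) (nat_lit 5) (nat_lit 16) (nat_lit 4) (nat_lit 14) (nat_lit 4)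 (nat_lit 365) (nat_lit 217) (nat_lit 198)) (XT.lf (nat_lit 0) (nat_lit 6561796711) (nat_lit 76) (nat_lit 13598137467) (nat_lit 76) (nat_lit 8553864734) (nat_lit 13) (nat_lit 4) (nat_lit 14) (nat_lit 5) (nat_lit 14) (nat_lit 4) (nat_lit 366) (nat_lit 217) (nat_lit 197)))) (XT.nd (nat_lit 156) (nat_lit 152) (nat_lit 0) (XT.nd (nat_lit 78) (nat_lit 0) (nat_lit 0) (XT.lf (nat_lit 0) (nat_lit 14640534800) (nat_lit 76) (nat_lit 10016663157) (nat_lit 76) (nat_lit 4790131997) (nat_lit 13) (nat_lit 4) (nat_lit 14) (nat_lit 5) (nat_lit 14) (nat_lit 4) (nat_lit 367) (nat_lit 217) (nat_lit 196)) (XT.lf (nat_lit 0) (nat_lit 22841843083) (nat_lit 76) (nat_lit 6383224273) (nat_lit 76) (nat_lit 979743185) (nat_lit 13) (nat_lit 4) (nat_lit 14) (nat_lit 5) (nat_lit 14) (nat_lit 4) (nat_lit 368) (nat_lit 217) (nat_lit 195))) (XT.nd (nat_lit 78) (nat_lit 0) (nat_lit 0) (XT.lf (nat_lit 0) (nat_lit 161445187) (nat_lit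 76) (nat_lit 2664526399) (nat_lit 152) (nat_lit 28160053696) (nat_lit 11) (nat_lit 5) (nat_lit 12) (nat_lit 5) (nat_lit 13) (nat_lit 4) (nat_lit 369) (nat_lit 217) (nat_lit 194)) (XT.lf (nat_lit 0) (nat_lit 6749586680) (nat_lit 152) (nat_lit 23865347181) (nat_lit 0) (nat_lit 1174762007) (nat_lit 11) (nat_lit 5) (nat_lit 13) (nat_lit 4) (nat_lit 11) (nat_lit 4) (nat_lit 370) (nat_lit 217) (nat_lit 193))))) (XT.nd (nat_lit 234) (nat_lit 76) (nat_lit 0) (XT.nd (nat_lit 78) (nat_lit 0) (nat_lit 0) (XT.lf (nat_lit 0) (nat_lit 10756250241) (nat_lit 152) (nat_lit 16838070936) (nat_lit 0) (nat_lit 5024207849) (nat_lit 11) (nat_lit 5) (nat_lit 13) (nat_lit 4) (nat_lit 11) (nat_lit 4) (nat_lit 371) (nat_lit 217) (nat_lit 192)) (XT.nd (nat_lit 78) (nat_lit 0) (nat_lit 0) (XT.lf (nat_lit 0) (nat_lit 14823850182) (nat_lit 152) (nat_lit 9710997965) (nat_lit 0) (nat_lit 8939169227) (nat_lit 11) (nat_lit 5) (nat_lit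 13) (nat_lit 4) (nat_lit 11) (nat_lit 4) (nat_lit 372) (nat_lit 217) (nat_lit 191)) (XT.lf (nat_lit 0) (nat_lit 18955940716) (nat_lit 152) (nat_lit 2477900728) (nat_lit 0) (nat_lit 12923066981) (nat_lit 11) (nat_lit 5) (nat_lit 13) (nat_lit 4) (nat_lit 11) (nat_lit 4) (nat_lit 373) (nat_lit 217) (nat_lit 190)))) (XT.nd (nat_lit 156) (nat_lit 0) (nat_lit 0) (XT.nd (nat_lit 78) (nat_lit 0) (nat_lit 0) (XT.lf (nat_lit 0) (nat_lit 4964414564) (nat_lit 76) (nat_lit 18239438832) (nat_lit 76) (nat_lit 12062688612) (nat_lit 10) (nat_lit 4) (nat_lit 11) (nat_lit 5) (nat_lit 11) (nat_lit 4) (nat_lit 374) (nat_lit 217) (nat_lit 189)) (XT.lf (nat_lit 0) (nat_lit 12577171347) (nat_lit 76) (nat_lit 14971823442) (nat_lit 76) (nat_lit 8655387315) (nat_lit 10) (nat_lit 4) (nat_lit 11) (nat_lit 5) (nat_lit 11) (nat_lit 4) (nat_lit 375) (nat_lit 217) (nat_lit 188))) (XT.nd (nat_lit 78) (nat_lit 0) (nat_lit 0) (XT.lf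 (nat_lit 0) (nat_lit 20317706460) (nat_lit 76) (nat_lit 11653162016) (nat_lit 76) (nat_lit 5201108503) (nat_lit 10) (nat_lit 4) (nat_lit 11) (nat_lit 5) (nat_lit 11) (nat_lit 4) (nat_lit 376) (nat_lit 217) (nat_lit 187)) (XT.lf (nat_lit 0) (nat_lit 28192783479) (nat_lit 76) (nat_lit 8280554753) (nat_lit 76) (nat_lit 1696833875) (nat_lit 10) (nat_lit 4) (nat_lit 11) (nat_lit 5) (nat_lit 11) (nat_lit 4) (nat_lit 377) (nat_lit 217) (nat_lit 186))))))) (XT.nd (nat_lit 1092) (nat_lit 228) (nat_lit 0) (XT.nd (nat_lit 546) (nat_lit 76) (nat_lit 0) (XT.nd (nat_lit 234) (nat_lit 0) (nat_lit 0) (XT.nd (nat_lit 78) (nat_lit 76) (nat_lit 0) (XT.lf (nat_lit 0) (nat_lit 1824193529) (nat_lit 152) (nat_lit 3008440406) (nat_lit 76) (nat_lit 34366669230) (nat_lit 9) (nat_lit 5) (nat_lit 11) (nat_lit 5) (nat_lit 10) (nat_lit 4) (nat_lit 378) (nat_lit 217) (nat_lit 185)) (XT.nd (nat_lit 78) (nat_lit 0) (nat_lit 0)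 (XT.lf (nat_lit 0) (nat_lit 4140508724) (nat_lit 76) (nat_lit 1266472120) (nat_lit 152) (nat_lit 34852125990) (nat_lit 8) (nat_lit 5) (nat_lit 9) (nat_lit 5) (nat_lit 10) (nat_lit 4) (nat_lit 379) (nat_lit 217) (nat_lit 184)) (XT.lf (nat_lit 0) (nat_lit 9101642202) (nat_lit 152) (nat_lit 29900848090) (nat_lit 0) (nat_lit 2348092026) (nat_lit 8) (nat_lit 5) (nat_lit 10) (nat_lit 4) (nat_lit 8) (nat_lit 4) (nat_lit 380) (nat_lit 217) (nat_lit 183)))) (XT.nd (nat_lit 156) (nat_lit 0) (nat_lit 0) (XT.nd (nat_lit 78) (nat_lit 0) (nat_lit 0) (XT.lf (nat_lit 0) (nat_lit 12871698126) (nat_lit 152) (nat_lit 23599605918) (nat_lit 0) (nat_lit 6004570524) (nat_lit 8) (nat_lit 5) (nat_lit 10) (nat_lit 4) (nat_lit 8) (nat_lit 4) (nat_lit 381) (nat_lit 217) (nat_lit 182)) (XT.lf (nat_lit 0) (nat_lit 16708268735) (nat_lit 152) (nat_lit 17197191550) (nat_lit 0) (nat_lit 9730871788) (nat_lit 8) (nat_lit 5) (nat_lit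 10) (nat_lit 4) (nat_lit 8) (nat_lit 4) (nat_lit 382) (nat_lit 217) (nat_lit 181))) (XT.nd (nat_lit 78) (nat_lit 0) (nat_lit 0) (XT.lf (nat_lit 0) (nat_lit 20614706373) (nat_lit 152) (nat_lit 10688010643) (nat_lit 0) (nat_lit 13530251809) (nat_lit 8) (nat_lit 5) (nat_lit 10) (nat_lit 4) (nat_lit 8) (nat_lit 4) (nat_lit 383) (nat_lit 217) (nat_lit 180)) (XT.lf (nat_lit 0) (nat_lit 24594424432) (nat_lit 152) (nat_lit 4066375563) (nat_lit 0) (nat_lit 17406030434) (nat_lit 8) (nat_lit 5) (nat_lit 10) (nat_lit 4) (nat_lit 8) (nat_lit 4) (nat_lit 384) (nat_lit 217) (nat_lit 179))))) (XT.nd (nat_lit 234) (nat_lit 0) (nat_lit 0) (XT.nd (nat_lit 78) (nat_lit 0) (nat_lit 0) (XT.lf (nat_lit 0) (nat_lit 2726707467) (nat_lit 76) (nat_lit 25950403648) (nat_lit 76) (nat_lit 18661097578) (nat_lit 7) (nat_lit 4) (nat_lit 8) (nat_lit 5) (nat_lit 8) (nat_lit 4) (nat_lit 385) (nat_lit 217) (nat_lit 178)) (XT.nd (nat_lit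 78) (nat_lit 0) (nat_lit 0) (XT.lf (nat_lit 0) (nat_lit 9727319040) (nat_lit 76) (nat_lit 23153864476) (nat_lit 76) (nat_lit 15766585522) (nat_lit 7) (nat_lit 4) (nat_lit 8) (nat_lit 5) (nat_lit 8) (nat_lit 4) (nat_lit 386) (nat_lit 217) (nat_lit 177)) (XT.lf (nat_lit 0) (nat_lit 16860647347) (nat_lit 76) (nat_lit 20309801324) (nat_lit 76) (nat_lit 12827403064) (nat_lit 7) (nat_lit 4) (nat_lit 8) (nat_lit 5) (nat_lit 8) (nat_lit 4) (nat_lit 387) (nat_lit 217) (nat_lit 176)))) (XT.nd (nat_lit 156) (nat_lit 0) (nat_lit 0) (XT.nd (nat_lit 78) (nat_lit 0) (nat_lit 0) (XT.lf (nat_lit 0) (nat_lit 24132925393) (nat_lit 76) (nat_lit 17415729087) (nat_lit 76) (nat_lit 9840981986) (nat_lit 7) (nat_lit 4) (nat_lit 8) (nat_lit 5) (nat_lit 8) (nat_lit 4) (nat_lit 388) (nat_lit 217) (nat_lit 175)) (XT.lf (nat_lit 0) (nat_lit 31550507596) (nat_lit 76) (nat_lit 14469118964) (nat_lit 76) (nat_lit 6804712794) (nat_lit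 7) (nat_lit 4) (nat_lit 8) (nat_lit 5) (nat_lit 8) (nat_lit 4) (nat_lit 389) (nat_lit 217) (nat_lit 174))) (XT.nd (nat_lit 78) (nat_lit 0) (nat_lit 0) (XT.lf (nat_lit 0) (nat_lit 39119875339) (nat_lit 76) (nat_lit 11467396247) (nat_lit 76) (nat_lit 3715942438) (nat_lit 7) (nat_lit 4) (nat_lit 8) (nat_lit 5) (nat_lit 8) (nat_lit 4) (nat_lit 390) (nat_lit 217) (nat_lit 173)) (XT.lf (nat_lit 0) (nat_lit 46847642632) (nat_lit 76) (nat_lit 8407938071) (nat_lit 76) (nat_lit 571971991) (nat_lit 7) (nat_lit 4) (nat_lit 8) (nat_lit 5) (nat_lit 8) (nat_lit 4) (nat_lit 391) (nat_lit 217) (nat_lit 172)))))) (XT.nd (nat_lit 546) (nat_lit 76) (nat_lit 0) (XT.nd (nat_lit 234) (nat_lit 0) (nat_lit 0) (XT.nd (nat_lit 78) (nat_lit 76) (nat_lit 0) (XT.lf (nat_lit 0) (nat_lit 2578625990) (nat_lit 152) (nat_lit 2683406068) (nat_lit 76) (nat_lit 52135896836) (nat_lit 6) (nat_lit 5) (nat_lit 8) (nat_lit 5) (nat_lit 7)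 (nat_lit 4) (nat_lit 392) (nat_lit 217) (nat_lit 171)) (XT.nd (nat_lit 78) (nat_lit 0) (nat_lit 0) (XT.lf (nat_lit 0) (nat_lit 3805147913) (nat_lit 76) (nat_lit 2009051920) (nat_lit 152) (nat_lit 53200994260) (nat_lit 5) (nat_lit 5) (nat_lit 6) (nat_lit 5) (nat_lit 7) (nat_lit 4) (nat_lit 393) (nat_lit 217) (nat_lit 170)) (XT.lf (nat_lit 0) (nat_lit 9152570304) (nat_lit 152) (nat_lit 50215494543) (nat_lit 0) (nat_lit 1312746566) (nat_lit 5) (nat_lit 5) (nat_lit 7) (nat_lit 4) (nat_lit 5) (nat_lit 4) (nat_lit 394) (nat_lit 217) (nat_lit 169)))) (XT.nd (nat_lit 156) (nat_lit 0) (nat_lit 0) (XT.nd (nat_lit 78) (nat_lit 0) (nat_lit 0) (XT.lf (nat_lit 0) (nat_lit 12577457757) (nat_lit 152) (nat_lit 45154621396) (nat_lit 0) (nat_lit 4664732991) (nat_lit 5) (nat_lit 5) (nat_lit 7) (nat_lit 4) (nat_lit 5) (nat_lit 4) (nat_lit 395) (nat_lit 217) (nat_lit 168)) (XT.lf (nat_lit 0) (nat_lit 16072542577) (nat_lit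 152) (nat_lit 40003692381) (nat_lit 0) (nat_lit 8089040115) (nat_lit 5) (nat_lit 5) (nat_lit 7) (nat_lit 4) (nat_lit 5) (nat_lit 4) (nat_lit 396) (nat_lit 217) (nat_lit 167))) (XT.nd (nat_lit 78) (nat_lit 0) (nat_lit 0) (XT.lf (nat_lit 0) (nat_lit 19640878723) (nat_lit 152) (nat_lit 34758206686) (nat_lit 0) (nat_lit 11588660049) (nat_lit 5) (nat_lit 5) (nat_lit 7) (nat_lit 4) (nat_lit 5) (nat_lit 4) (nat_lit 397) (nat_lit 217) (nat_lit 166)) (XT.lf (nat_lit 0) (nat_lit 23285584156) (nat_lit 152) (nat_lit 29413580878) (nat_lit 0) (nat_lit 15166650716) (nat_lit 5) (nat_lit 5) (nat_lit 7) (nat_lit 4) (nat_lit 5) (nat_lit 4) (nat_lit 398) (nat_lit 217) (nat_lit 165))))) (XT.nd (nat_lit 312) (nat_lit 76) (nat_lit 0) (XT.nd (nat_lit 156) (nat_lit 0) (nat_lit 0) (XT.nd (nat_lit 78) (nat_lit 0) (nat_lit 0) (XT.lf (nat_lit 0) (nat_lit 27009843573) (nat_lit 152) (nat_lit 23965144895) (nat_lit 0) (nat_lit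 18826138513) (nat_lit 5) (nat_lit 5) (nat_lit 7) (nat_lit 4) (nat_lit 5) (nat_lit 4) (nat_lit 399) (nat_lit 217) (nat_lit 164)) (XT.lf (nat_lit 0) (nat_lit 30816911179) (nat_lit 152) (nat_lit 18408137968) (nat_lit 0) (nat_lit 22570321053) (nat_lit 5) (nat_lit 5) (nat_lit 7) (nat_lit 4) (nat_lit 5) (nat_lit 4) (nat_lit 400) (nat_lit 217) (nat_lit 163))) (XT.nd (nat_lit 78) (nat_lit 0) (nat_lit 0) (XT.lf (nat_lit 0) (nat_lit 34710113539) (nat_lit 152) (nat_lit 12737704459) (nat_lit 0) (nat_lit 26402469950) (nat_lit 5) (nat_lit 5) (nat_lit 7) (nat_lit 4) (nat_lit 5) (nat_lit 4) (nat_lit 401) (nat_lit 217) (nat_lit 162)) (XT.lf (nat_lit 0) (nat_lit 38692852480) (nat_lit 152) (nat_lit 6948889621) (nat_lit 0) (nat_lit 30325933684) (nat_lit 5) (nat_lit 5) (nat_lit 7) (nat_lit 4) (nat_lit 5) (nat_lit 4) (nat_lit 402) (nat_lit 217) (nat_lit 161)))) (XT.nd (nat_lit 156) (nat_lit 0) (nat_lit 0) (XT.nd (nat_lit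 78) (nat_lit 76) (nat_lit 0) (XT.lf (nat_lit 0) (nat_lit 42768608065) (nat_lit 152) (nat_lit 1036635266) (nat_lit 0) (nat_lit 34344140525) (nat_lit 5) (nat_lit 5) (nat_lit 7) (nat_lit 4) (nat_lit 5) (nat_lit 4) (nat_lit 403) (nat_lit 217) (nat_lit 160)) (XT.lf (nat_lit 0) (nat_lit 5103818534) (nat_lit 76) (nat_lit 41886184126) (nat_lit 76) (nat_lit 33405844018) (nat_lit 4) (nat_lit 4) (nat_lit 5) (nat_lit 5) (nat_lit 5) (nat_lit 4) (nat_lit 404) (nat_lit 217) (nat_lit 159))) (XT.nd (nat_lit 78) (nat_lit 0) (nat_lit 0) (XT.lf (nat_lit 0) (nat_lit 11401451950) (nat_lit 76) (nat_lit 39921644697) (nat_lit 76) (nat_lit 31387059378) (nat_lit 4) (nat_lit 4) (nat_lit 5) (nat_lit 5) (nat_lit 5) (nat_lit 4) (nat_lit 405) (nat_lit 217) (nat_lit 158)) (XT.lf (nat_lit 0) (nat_lit 17841136691) (nat_lit 76) (nat_lit 37920376441) (nat_lit 76) (nat_lit 29333125869) (nat_lit 4) (nat_lit 4) (nat_lit 5) (nat_lit 5)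 (nat_lit 5) (nat_lit 4) (nat_lit 406) (nat_lit 217) (nat_lit 157))))))))
noncomputable def xc21 : XT := (XT.nd (nat_lit 37440) (nat_lit 0) (nat_lit 76) (XT.nd (nat_lit 36348) (nat_lit 0) (nat_lit 760) (XT.nd (nat_lit 35802) (nat_lit 0) (nat_lit 1216) (XT.nd (nat_lit 234) (nat_lit 0) (nat_lit 0) (XT.nd (nat_lit 78) (nat_lit 0) (nat_lit 0) (XT.lf (nat_lit 0) (nat_lit 24428499668) (nat_lit 76) (nat_lit 35880630677) (nat_lit 76) (nat_lit 27242248791) (nat_lit 4) (nat_lit 4) (nat_lit 5) (nat_lit 5) (nat_lit 5) (nat_lit 4) (nat_lit 407) (nat_lit 217) (nat_lit 156)) (XT.nd (nat_lit 78) (nat_lit 0) (nat_lit 0) (XT.lf (nat_lit 0) (nat_lit 31169296827) (nat_lit 76) (nat_lit 33800625104) (nat_lit 76) (nat_lit 25112601166) (nat_lit 4) (nat_lit 4) (nat_lit 5) (nat_lit 5) (nat_lit 5) (nat_lit 4) (nat_lit 408) (nat_lit 217) (nat_lit 155)) (XT.lf (nat_lit 0) (nat_lit 38069418187) (nat_lit 76) (nat_lit 31678542240)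 (nat_lit 76) (nat_lit 22942322134) (nat_lit 4) (nat_lit 4) (nat_lit 5) (nat_lit 5) (nat_lit 5) (nat_lit 4) (nat_lit 409) (nat_lit 217) (nat_lit 154)))) (XT.nd (nat_lit 156) (nat_lit 0) (nat_lit 0) (XT.nd (nat_lit 78) (nat_lit 0) (nat_lit 0) (XT.lf (nat_lit 0) (nat_lit 45134892979) (nat_lit 76) (nat_lit 29512527839) (nat_lit 76) (nat_lit 20729515337) (nat_lit 4) (nat_lit 4) (nat_lit 5) (nat_lit 5) (nat_lit 5) (nat_lit 4) (nat_lit 410) (nat_lit 217) (nat_lit 153)) (XT.lf (nat_lit 0) (nat_lit 52371894919) (nat_lit 76) (nat_lit 27300689265) (nat_lit 76) (nat_lit 18472247254) (nat_lit 4) (nat_lit 4) (nat_lit 5) (nat_lit 5) (nat_lit 5) (nat_lit 4) (nat_lit 411) (nat_lit 217) (nat_lit 152))) (XT.nd (nat_lit 35334) (nat_lit 0) (nat_lit 1824) (XT.lf (nat_lit 0) (nat_lit 59786747602) (nat_lit 76) (nat_lit 25041093846) (nat_lit 76) (nat_lit 16168545514) (nat_lit 4) (nat_lit 4) (nat_lit 5) (nat_lit 5) (nat_lit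 5) (nat_lit 4) (nat_lit 412) (nat_lit 217) (nat_lit 151)) (XT.lf (nat_lit 0) (nat_lit 3246545677) (nat_lit 152) (nat_lit 2127756932) (nat_lit 0) (nat_lit 3246545677) (nat_lit 28) (nat_lit 5) (nat_lit 30) (nat_lit 4) (nat_lit 28) (nat_lit 4) (nat_lit 344) (nat_lit 218) (nat_lit 218))))) (XT.nd (nat_lit 234) (nat_lit 304) (nat_lit 0) (XT.nd (nat_lit 78) (nat_lit 152) (nat_lit 0) (XT.lf (nat_lit 0) (nat_lit 4506300939) (nat_lit 152) (nat_lit 6742052860) (nat_lit 152) (nat_lit 6360444190) (nat_lit 26) (nat_lit 4) (nat_lit 28) (nat_lit 5) (nat_lit 28) (nat_lit 4) (nat_lit 345) (nat_lit 218) (nat_lit 217)) (XT.nd (nat_lit 78) (nat_lit 152) (nat_lit 0) (XT.lf (nat_lit 0) (nat_lit 13444753359) (nat_lit 152) (nat_lit 2647949291) (nat_lit 152) (nat_lit 1895846766) (nat_lit 26) (nat_lit 4) (nat_lit 28) (nat_lit 5) (nat_lit 28) (nat_lit 4) (nat_lit 346) (nat_lit 218) (nat_lit 216)) (XT.lf (nat_lit 0) (nat_lit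 2610223609) (nat_lit 152) (nat_lit 14239109280) (nat_lit 0) (nat_lit 1530800991) (nat_lit 24) (nat_lit 5) (nat_lit 26) (nat_lit 4) (nat_lit 24) (nat_lit 4) (nat_lit 347) (nat_lit 218) (nat_lit 215)))) (XT.nd (nat_lit 156) (nat_lit 152) (nat_lit 0) (XT.nd (nat_lit 78) (nat_lit 152) (nat_lit 0) (XT.lf (nat_lit 0) (nat_lit 7191653220) (nat_lit 152) (nat_lit 5818752137) (nat_lit 0) (nat_lit 5773176240) (nat_lit 24) (nat_lit 5) (nat_lit 26) (nat_lit 4) (nat_lit 24) (nat_lit 4) (nat_lit 348) (nat_lit 218) (nat_lit 214)) (XT.lf (nat_lit 0) (nat_lit 2741940628) (nat_lit 152) (nat_lit 9103414848) (nat_lit 152) (nat_lit 7355758877) (nat_lit 22) (nat_lit 4) (nat_lit 24) (nat_lit 5) (nat_lit 24) (nat_lit 4) (nat_lit 349) (nat_lit 218) (nat_lit 213))) (XT.nd (nat_lit 78) (nat_lit 152) (nat_lit 0) (XT.lf (nat_lit 0) (nat_lit 11514577959) (nat_lit 152) (nat_lit 5092409268) (nat_lit 152) (nat_lit 3025162043) (nat_lit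 22) (nat_lit 4) (nat_lit 24) (nat_lit 5) (nat_lit 24) (nat_lit 4) (nat_lit 350) (nat_lit 218) (nat_lit 212)) (XT.lf (nat_lit 0) (nat_lit 305275446) (nat_lit 76) (nat_lit 1016303588) (nat_lit 152) (nat_lit 18756719470) (nat_lit 20) (nat_lit 5) (nat_lit 21) (nat_lit 5) (nat_lit 22) (nat_lit 4) (nat_lit 351) (nat_lit 218) (nat_lit 211)))))) (XT.nd (nat_lit 546) (nat_lit 228) (nat_lit 0) (XT.nd (nat_lit 234) (nat_lit 152) (nat_lit 0) (XT.nd (nat_lit 78) (nat_lit 76) (nat_lit 0) (XT.lf (nat_lit 0) (nat_lit 5762949628) (nat_lit 152) (nat_lit 11611059861) (nat_lit 0) (nat_lit 3162196809) (nat_lit 20) (nat_lit 5) (nat_lit 22) (nat_lit 4) (nat_lit 20) (nat_lit 4) (nat_lit 352) (nat_lit 218) (nat_lit 210)) (XT.nd (nat_lit 78) (nat_lit 76) (nat_lit 0) (XT.lf (nat_lit 0) (nat_lit 10261855538) (nat_lit 152) (nat_lit 3371139792) (nat_lit 0) (nat_lit 7377150030) (nat_lit 20) (nat_lit 5) (nat_lit 22) (nat_lit 4)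 (nat_lit 20) (nat_lit 4) (nat_lit 353) (nat_lit 218) (nat_lit 209)) (XT.lf (nat_lit 0) (nat_lit 5062493898) (nat_lit 76) (nat_lit 9798628405) (nat_lit 76) (nat_lit 6638240674) (nat_lit 19) (nat_lit 4) (nat_lit 20) (nat_lit 5) (nat_lit 20) (nat_lit 4) (nat_lit 354) (nat_lit 218) (nat_lit 208)))) (XT.nd (nat_lit 156) (nat_lit 76) (nat_lit 0) (XT.nd (nat_lit 78) (nat_lit 76) (nat_lit 0) (XT.lf (nat_lit 0) (nat_lit 13667463049) (nat_lit 76) (nat_lit 5882651782) (nat_lit 76) (nat_lit 2454611408) (nat_lit 19) (nat_lit 4) (nat_lit 20) (nat_lit 5) (nat_lit 20) (nat_lit 4) (nat_lit 355) (nat_lit 218) (nat_lit 207)) (XT.lf (nat_lit 0) (nat_lit 1737629439) (nat_lit 152) (nat_lit 160509547) (nat_lit 76) (nat_lit 20629018182) (nat_lit 18) (nat_lit 5) (nat_lit 20) (nat_lit 5) (nat_lit 19) (nat_lit 4) (nat_lit 356) (nat_lit 218) (nat_lit 206))) (XT.nd (nat_lit 78) (nat_lit 0) (nat_lit 0) (XT.lf (nat_lit 0) (nat_lit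 6028895308) (nat_lit 152) (nat_lit 14831506154) (nat_lit 0) (nat_lit 2203472399) (nat_lit 17) (nat_lit 5) (nat_lit 19) (nat_lit 4) (nat_lit 17) (nat_lit 4) (nat_lit 357) (nat_lit 218) (nat_lit 205)) (XT.lf (nat_lit 0) (nat_lit 10391262512) (nat_lit 152) (nat_lit 6899144092) (nat_lit 0) (nat_lit 6328033695) (nat_lit 17) (nat_lit 5) (nat_lit 19) (nat_lit 4) (nat_lit 17) (nat_lit 4) (nat_lit 358) (nat_lit 218) (nat_lit 204))))) (XT.nd (nat_lit 234) (nat_lit 152) (nat_lit 0) (XT.nd (nat_lit 78) (nat_lit 0) (nat_lit 0) (XT.lf (nat_lit 0) (nat_lit 1153887143) (nat_lit 76) (nat_lit 13665912276) (nat_lit 76) (nat_lit 9371803937) (nat_lit 16) (nat_lit 4) (nat_lit 17) (nat_lit 5) (nat_lit 17) (nat_lit 4) (nat_lit 359) (nat_lit 218) (nat_lit 203)) (XT.nd (nat_lit 78) (nat_lit 0) (nat_lit 0) (XT.lf (nat_lit 0) (nat_lit 9451487589) (nat_lit 76) (nat_lit 9924456217) (nat_lit 76) (nat_lit 5406193003) (nat_lit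 16) (nat_lit 4) (nat_lit 17) (nat_lit 5) (nat_lit 17) (nat_lit 4) (nat_lit 360) (nat_lit 218) (nat_lit 202)) (XT.lf (nat_lit 0) (nat_lit 17863601081) (nat_lit 76) (nat_lit 6132437023) (nat_lit 76) (nat_lit 1396547717) (nat_lit 16) (nat_lit 4) (nat_lit 17) (nat_lit 5) (nat_lit 17) (nat_lit 4) (nat_lit 361) (nat_lit 218) (nat_lit 201)))) (XT.nd (nat_lit 156) (nat_lit 0) (nat_lit 0) (XT.nd (nat_lit 78) (nat_lit 0) (nat_lit 0) (XT.lf (nat_lit 0) (nat_lit 355454765) (nat_lit 76) (nat_lit 2256678998) (nat_lit 152) (nat_lit 23410480253) (nat_lit 14) (nat_lit 5) (nat_lit 15) (nat_lit 5) (nat_lit 16) (nat_lit 4) (nat_lit 362) (nat_lit 218) (nat_lit 200)) (XT.lf (nat_lit 0) (nat_lit 6735380447) (nat_lit 152) (nat_lit 18201955110) (nat_lit 0) (nat_lit 1733137496) (nat_lit 14) (nat_lit 5) (nat_lit 16) (nat_lit 4) (nat_lit 14) (nat_lit 4) (nat_lit 363) (nat_lit 218) (nat_lit 199))) (XT.nd (nat_lit 78) (nat_lit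 0) (nat_lit 0) (XT.lf (nat_lit 0) (nat_lit 10935650399) (nat_lit 152) (nat_lit 10663483771) (nat_lit 0) (nat_lit 5740049484) (nat_lit 14) (nat_lit 5) (nat_lit 16) (nat_lit 4) (nat_lit 14) (nat_lit 4) (nat_lit 364) (nat_lit 218) (nat_lit 198)) (XT.lf (nat_lit 0) (nat_lit 15194921180) (nat_lit 152) (nat_lit 3023465639) (nat_lit 0) (nat_lit 9811594086) (nat_lit 14) (nat_lit 5) (nat_lit 16) (nat_lit 4) (nat_lit 14) (nat_lit 4) (nat_lit 365) (nat_lit 218) (nat_lit 197))))))) (XT.nd (nat_lit 1092) (nat_lit 228) (nat_lit 0) (XT.nd (nat_lit 546) (nat_lit 228) (nat_lit 0) (XT.nd (nat_lit 234) (nat_lit 152) (nat_lit 0) (XT.nd (nat_lit 78) (nat_lit 0) (nat_lit 0) (XT.lf (nat_lit 0) (nat_lit 4818807316) (nat_lit 76) (nat_lit 14744428489) (nat_lit 76) (nat_lit 9178842968) (nat_lit 13) (nat_lit 4) (nat_lit 14) (nat_lit 5) (nat_lit 14) (nat_lit 4) (nat_lit 366) (nat_lit 218) (nat_lit 196)) (XT.nd (nat_lit 78)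 (nat_lit 0) (nat_lit 0) (XT.lf (nat_lit 0) (nat_lit 12838534593) (nat_lit 76) (nat_lit 11190284058) (nat_lit 76) (nat_lit 5447748609) (nat_lit 13) (nat_lit 4) (nat_lit 14) (nat_lit 5) (nat_lit 14) (nat_lit 4) (nat_lit 367) (nat_lit 218) (nat_lit 195)) (XT.lf (nat_lit 0) (nat_lit 20982550825) (nat_lit 76) (nat_lit 7583379039) (nat_lit 76) (nat_lit 1669047543) (nat_lit 13) (nat_lit 4) (nat_lit 14) (nat_lit 5) (nat_lit 14) (nat_lit 4) (nat_lit 368) (nat_lit 218) (nat_lit 194)))) (XT.nd (nat_lit 156) (nat_lit 0) (nat_lit 0) (XT.nd (nat_lit 78) (nat_lit 76) (nat_lit 0) (XT.lf (nat_lit 0) (nat_lit 2118401661) (nat_lit 152) (nat_lit 1780768401) (nat_lit 76) (nat_lit 27118178779) (nat_lit 12) (nat_lit 5) (nat_lit 14) (nat_lit 5) (nat_lit 13) (nat_lit 4) (nat_lit 369) (nat_lit 218) (nat_lit 193)) (XT.lf (nat_lit 0) (nat_lit 5902878279) (nat_lit 76) (nat_lit 80341575) (nat_lit 152) (nat_lit 25839569714) (nat_lit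 11) (nat_lit 5) (nat_lit 12) (nat_lit 5) (nat_lit 13) (nat_lit 4) (nat_lit 370) (nat_lit 218) (nat_lit 192))) (XT.nd (nat_lit 78) (nat_lit 0) (nat_lit 0) (XT.lf (nat_lit 0) (nat_lit 9959917268) (nat_lit 152) (nat_lit 18946553176) (nat_lit 0) (nat_lit 3746057321) (nat_lit 11) (nat_lit 5) (nat_lit 13) (nat_lit 4) (nat_lit 11) (nat_lit 4) (nat_lit 371) (nat_lit 218) (nat_lit 191)) (XT.lf (nat_lit 0) (nat_lit 13999173659) (nat_lit 152) (nat_lit 11872577705) (nat_lit 0) (nat_lit 7637120933) (nat_lit 11) (nat_lit 5) (nat_lit 13) (nat_lit 4) (nat_lit 11) (nat_lit 4) (nat_lit 372) (nat_lit 218) (nat_lit 190))))) (XT.nd (nat_lit 234) (nat_lit 152) (nat_lit 0) (XT.nd (nat_lit 78) (nat_lit 76) (nat_lit 0) (XT.lf (nat_lit 0) (nat_lit 18103746183) (nat_lit 152) (nat_lit 4691031438) (nat_lit 0) (nat_lit 11597816972) (nat_lit 11) (nat_lit 5) (nat_lit 13) (nat_lit 4) (nat_lit 11) (nat_lit 4) (nat_lit 373) (nat_lit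 218) (nat_lit 189)) (XT.nd (nat_lit 78) (nat_lit 0) (nat_lit 0) (XT.lf (nat_lit 0) (nat_lit 2656192644) (nat_lit 76) (nat_lit 19646561663) (nat_lit 76) (nat_lit 13000946545) (nat_lit 10) (nat_lit 4) (nat_lit 11) (nat_lit 5) (nat_lit 11) (nat_lit 4) (nat_lit 374) (nat_lit 218) (nat_lit 188)) (XT.lf (nat_lit 0) (nat_lit 10219390623) (nat_lit 76) (nat_lit 16402090326) (nat_lit 76) (nat_lit 9620857821) (nat_lit 10) (nat_lit 4) (nat_lit 11) (nat_lit 5) (nat_lit 11) (nat_lit 4) (nat_lit 375) (nat_lit 218) (nat_lit 187)))) (XT.nd (nat_lit 156) (nat_lit 152) (nat_lit 0) (XT.nd (nat_lit 78) (nat_lit 0) (nat_lit 0) (XT.lf (nat_lit 0) (nat_lit 17911810393) (nat_lit 76) (nat_lit 13105898853) (nat_lit 76) (nat_lit 6192998984) (nat_lit 10) (nat_lit 4) (nat_lit 11) (nat_lit 5) (nat_lit 11) (nat_lit 4) (nat_lit 376) (nat_lit 218) (nat_lit 186)) (XT.lf (nat_lit 0) (nat_lit 25740173485) (nat_lit 76) (nat_lit 9755107078)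 (nat_lit 76) (nat_lit 2714374816) (nat_lit 10) (nat_lit 4) (nat_lit 11) (nat_lit 5) (nat_lit 11) (nat_lit 4) (nat_lit 377) (nat_lit 218) (nat_lit 185))) (XT.nd (nat_lit 78) (nat_lit 76) (nat_lit 0) (XT.lf (nat_lit 0) (nat_lit 802091071) (nat_lit 152) (nat_lit 5536596506) (nat_lit 76) (nat_lit 32901129598) (nat_lit 9) (nat_lit 5) (nat_lit 11) (nat_lit 5) (nat_lit 10) (nat_lit 4) (nat_lit 378) (nat_lit 218) (nat_lit 184)) (XT.lf (nat_lit 0) (nat_lit 1516642752) (nat_lit 76) (nat_lit 2819307210) (nat_lit 152) (nat_lit 35965143373) (nat_lit 8) (nat_lit 5) (nat_lit 9) (nat_lit 5) (nat_lit 10) (nat_lit 4) (nat_lit 379) (nat_lit 218) (nat_lit 183)))))) (XT.nd (nat_lit 546) (nat_lit 152) (nat_lit 0) (XT.nd (nat_lit 234) (nat_lit 76) (nat_lit 0) (XT.nd (nat_lit 78) (nat_lit 0) (nat_lit 0) (XT.lf (nat_lit 0) (nat_lit 7992046785) (nat_lit 152) (nat_lit 32596355547) (nat_lit 0) (nat_lit 805327929) (nat_lit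 8) (nat_lit 5) (nat_lit 10) (nat_lit 4) (nat_lit 8) (nat_lit 4) (nat_lit 380) (nat_lit 218) (nat_lit 182)) (XT.nd (nat_lit 78) (nat_lit 0) (nat_lit 0) (XT.lf (nat_lit 0) (nat_lit 11739153451) (nat_lit 152) (nat_lit 26338396660) (nat_lit 0) (nat_lit 4442165251) (nat_lit 8) (nat_lit 5) (nat_lit 10) (nat_lit 4) (nat_lit 8) (nat_lit 4) (nat_lit 381) (nat_lit 218) (nat_lit 181)) (XT.lf (nat_lit 0) (nat_lit 15553443229) (nat_lit 152) (nat_lit 19978004898) (nat_lit 0) (nat_lit 8149397411) (nat_lit 8) (nat_lit 5) (nat_lit 10) (nat_lit 4) (nat_lit 8) (nat_lit 4) (nat_lit 382) (nat_lit 218) (nat_lit 180)))) (XT.nd (nat_lit 156) (nat_lit 76) (nat_lit 0) (XT.nd (nat_lit 78) (nat_lit 0) (nat_lit 0) (XT.lf (nat_lit 0) (nat_lit 19438248990) (nat_lit 152) (nat_lit 13509622639) (nat_lit 0) (nat_lit 11930263739) (nat_lit 8) (nat_lit 5) (nat_lit 10) (nat_lit 4) (nat_lit 8) (nat_lit 4) (nat_lit 383) (nat_lit 218) (nat_lit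 179)) (XT.lf (nat_lit 0) (nat_lit 23396965228) (nat_lit 152) (nat_lit 6927597896) (nat_lit 0) (nat_lit 15788067905) (nat_lit 8) (nat_lit 5) (nat_lit 10) (nat_lit 4) (nat_lit 8) (nat_lit 4) (nat_lit 384) (nat_lit 218) (nat_lit 178))) (XT.nd (nat_lit 78) (nat_lit 76) (nat_lit 0) (XT.lf (nat_lit 0) (nat_lit 27433051013) (nat_lit 152) (nat_lit 226179387) (nat_lit 0) (nat_lit 19726180805) (nat_lit 8) (nat_lit 5) (nat_lit 10) (nat_lit 4) (nat_lit 8) (nat_lit 4) (nat_lit 385) (nat_lit 218) (nat_lit 177)) (XT.lf (nat_lit 0) (nat_lit 6731851159) (nat_lit 76) (nat_lit 24882892535) (nat_lit 76) (nat_lit 17080903021) (nat_lit 7) (nat_lit 4) (nat_lit 8) (nat_lit 5) (nat_lit 8) (nat_lit 4) (nat_lit 386) (nat_lit 218) (nat_lit 176))))) (XT.nd (nat_lit 312) (nat_lit 152) (nat_lit 0) (XT.nd (nat_lit 156) (nat_lit 0) (nat_lit 0) (XT.nd (nat_lit 78) (nat_lit 0) (nat_lit 0) (XT.lf (nat_lit 0) (nat_lit 13828208968)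 (nat_lit 76) (nat_lit 22056224855) (nat_lit 76) (nat_lit 14161886500) (nat_lit 7) (nat_lit 4) (nat_lit 8) (nat_lit 5) (nat_lit 8) (nat_lit 4) (nat_lit 387) (nat_lit 218) (nat_lit 175)) (XT.lf (nat_lit 0) (nat_lit 21064593327) (nat_lit 76) (nat_lit 19179041426) (nat_lit 76) (nat_lit 11195044003) (nat_lit 7) (nat_lit 4) (nat_lit 8) (nat_lit 5) (nat_lit 8) (nat_lit 4) (nat_lit 388) (nat_lit 218) (nat_lit 174))) (XT.nd (nat_lit 78) (nat_lit 0) (nat_lit 0) (XT.lf (nat_lit 0) (nat_lit 28447327291) (nat_lit 76) (nat_lit 16248828205) (nat_lit 76) (nat_lit 8177783142) (nat_lit 7) (nat_lit 4) (nat_lit 8) (nat_lit 5) (nat_lit 8) (nat_lit 4) (nat_lit 389) (nat_lit 218) (nat_lit 173)) (XT.lf (nat_lit 0) (nat_lit 35982861791) (nat_lit 76) (nat_lit 13263024809) (nat_lit 76) (nat_lit 5107467475) (nat_lit 7) (nat_lit 4) (nat_lit 8) (nat_lit 5) (nat_lit 8) (nat_lit 4) (nat_lit 390) (nat_lit 218) (nat_lit 172))))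 (XT.nd (nat_lit 156) (nat_lit 76) (nat_lit 0) (XT.nd (nat_lit 78) (nat_lit 76) (nat_lit 0) (XT.lf (nat_lit 0) (nat_lit 43677781276) (nat_lit 76) (nat_lit 10219022286) (nat_lit 76) (nat_lit 1981414203) (nat_lit 7) (nat_lit 4) (nat_lit 8) (nat_lit 5) (nat_lit 8) (nat_lit 4) (nat_lit 391) (nat_lit 218) (nat_lit 171)) (XT.lf (nat_lit 0) (nat_lit 1179631202) (nat_lit 152) (nat_lit 5922617663) (nat_lit 76) (nat_lit 50347266297) (nat_lit 6) (nat_lit 5) (nat_lit 8) (nat_lit 5) (nat_lit 7) (nat_lit 4) (nat_lit 392) (nat_lit 218) (nat_lit 170))) (XT.nd (nat_lit 78) (nat_lit 0) (nat_lit 0) (XT.lf (nat_lit 0) (nat_lit 469552084) (nat_lit 76) (nat_lit 3897030077) (nat_lit 152) (nat_lit 54701659865) (nat_lit 5) (nat_lit 5) (nat_lit 6) (nat_lit 5) (nat_lit 7) (nat_lit 4) (nat_lit 393) (nat_lit 218) (nat_lit 169)) (XT.lf (nat_lit 0) (nat_lit 7111989272) (nat_lit 76) (nat_lit 563718626) (nat_lit 152) (nat_lit 53059031679)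 (nat_lit 5) (nat_lit 5) (nat_lit 6) (nat_lit 5) (nat_lit 7) (nat_lit 4) (nat_lit 394) (nat_lit 218) (nat_lit 168))))))))
noncomputable def xc22 : XT := (XT.nd (nat_lit 37284) (nat_lit 0) (nat_lit 304) (XT.nd (nat_lit 1092) (nat_lit 0) (nat_lit 0) (XT.nd (nat_lit 546) (nat_lit 76) (nat_lit 0) (XT.nd (nat_lit 234) (nat_lit 0) (nat_lit 0) (XT.nd (nat_lit 78) (nat_lit 0) (nat_lit 0) (XT.lf (nat_lit 0) (nat_lit 11079142427) (nat_lit 152) (nat_lit 48586887083) (nat_lit 0) (nat_lit 2785357193) (nat_lit 5) (nat_lit 5) (nat_lit 7) (nat_lit 4) (nat_lit 5) (nat_lit 4) (nat_lit 395) (nat_lit 218) (nat_lit 167)) (XT.nd (nat_lit 78) (nat_lit 0) (nat_lit 0) (XT.lf (nat_lit 0) (nat_lit 14558660144) (nat_lit 152) (nat_lit 43465500526) (nat_lit 0) (nat_lit 6196158700) (nat_lit 5) (nat_lit 5) (nat_lit 7) (nat_lit 4) (nat_lit 5) (nat_lit 4) (nat_lit 396) (nat_lit 218) (nat_lit 166)) (XT.lf (nat_lit 0) (nat_lit 18111882597)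 (nat_lit 152) (nat_lit 38248696831) (nat_lit 0) (nat_lit 9682666385) (nat_lit 5) (nat_lit 5) (nat_lit 7) (nat_lit 4) (nat_lit 5) (nat_lit 4) (nat_lit 397) (nat_lit 218) (nat_lit 165)))) (XT.nd (nat_lit 156) (nat_lit 0) (nat_lit 0) (XT.nd (nat_lit 78) (nat_lit 0) (nat_lit 0) (XT.lf (nat_lit 0) (nat_lit 21741914542) (nat_lit 152) (nat_lit 32931917623) (nat_lit 0) (nat_lit 13247926712) (nat_lit 5) (nat_lit 5) (nat_lit 7) (nat_lit 4) (nat_lit 5) (nat_lit 4) (nat_lit 398) (nat_lit 218) (nat_lit 164)) (XT.lf (nat_lit 0) (nat_lit 25451927854) (nat_lit 152) (nat_lit 27510517175) (nat_lit 0) (nat_lit 16895054957) (nat_lit 5) (nat_lit 5) (nat_lit 7) (nat_lit 4) (nat_lit 5) (nat_lit 4) (nat_lit 399) (nat_lit 218) (nat_lit 163))) (XT.nd (nat_lit 78) (nat_lit 0) (nat_lit 0) (XT.lf (nat_lit 0) (nat_lit 29245164291) (nat_lit 152) (nat_lit 21979758339) (nat_lit 0) (nat_lit 20627237931) (nat_lit 5) (nat_lit 5) (nat_lit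 7) (nat_lit 4) (nat_lit 5) (nat_lit 4) (nat_lit 400) (nat_lit 218) (nat_lit 162)) (XT.lf (nat_lit 0) (nat_lit 33124938330) (nat_lit 152) (nat_lit 16334808415) (nat_lit 0) (nat_lit 24447736764) (nat_lit 5) (nat_lit 5) (nat_lit 7) (nat_lit 4) (nat_lit 5) (nat_lit 4) (nat_lit 401) (nat_lit 218) (nat_lit 161))))) (XT.nd (nat_lit 234) (nat_lit 0) (nat_lit 0) (XT.nd (nat_lit 78) (nat_lit 76) (nat_lit 0) (XT.lf (nat_lit 0) (nat_lit 37094640068) (nat_lit 152) (nat_lit 10570734921) (nat_lit 0) (nat_lit 28359889757) (nat_lit 5) (nat_lit 5) (nat_lit 7) (nat_lit 4) (nat_lit 5) (nat_lit 4) (nat_lit 402) (nat_lit 218) (nat_lit 160)) (XT.nd (nat_lit 78) (nat_lit 76) (nat_lit 0) (XT.lf (nat_lit 0) (nat_lit 41157738173) (nat_lit 152) (nat_lit 4682501289) (nat_lit 0) (nat_lit 32367115295) (nat_lit 5) (nat_lit 5) (nat_lit 7) (nat_lit 4) (nat_lit 5) (nat_lit 4) (nat_lit 403) (nat_lit 218) (nat_lit 159)) (XT.lf (nat_lit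 0) (nat_lit 1361607404) (nat_lit 76) (nat_lit 43969264126) (nat_lit 76) (nat_lit 35124396037) (nat_lit 4) (nat_lit 4) (nat_lit 5) (nat_lit 5) (nat_lit 5) (nat_lit 4) (nat_lit 404) (nat_lit 218) (nat_lit 158)))) (XT.nd (nat_lit 156) (nat_lit 0) (nat_lit 0) (XT.nd (nat_lit 78) (nat_lit 0) (nat_lit 0) (XT.lf (nat_lit 0) (nat_lit 7636148369) (nat_lit 76) (nat_lit 42015664281) (nat_lit 76) (nat_lit 33118130939) (nat_lit 4) (nat_lit 4) (nat_lit 5) (nat_lit 5) (nat_lit 5) (nat_lit 4) (nat_lit 405) (nat_lit 218) (nat_lit 157)) (XT.lf (nat_lit 0) (nat_lit 14053413254) (nat_lit 76) (nat_lit 40025016981) (nat_lit 76) (nat_lit 31076352324) (nat_lit 4) (nat_lit 4) (nat_lit 5) (nat_lit 5) (nat_lit 5) (nat_lit 4) (nat_lit 406) (nat_lit 218) (nat_lit 156))) (XT.nd (nat_lit 78) (nat_lit 0) (nat_lit 0) (XT.lf (nat_lit 0) (nat_lit 20619009380) (nat_lit 76) (nat_lit 37995582825) (nat_lit 76) (nat_lit 28997276116) (nat_lit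 4) (nat_lit 4) (nat_lit 5) (nat_lit 5) (nat_lit 5) (nat_lit 4) (nat_lit 407) (nat_lit 218) (nat_lit 155)) (XT.lf (nat_lit 0) (nat_lit 27338673676) (nat_lit 76) (nat_lit 35925588521) (nat_lit 76) (nat_lit 26879085644) (nat_lit 4) (nat_lit 4) (nat_lit 5) (nat_lit 5) (nat_lit 5) (nat_lit 4) (nat_lit 408) (nat_lit 218) (nat_lit 154)))))) (XT.nd (nat_lit 35646) (nat_lit 0) (nat_lit 1292) (XT.nd (nat_lit 234) (nat_lit 0) (nat_lit 0) (XT.nd (nat_lit 78) (nat_lit 0) (nat_lit 0) (XT.lf (nat_lit 0) (nat_lit 34218277691) (nat_lit 76) (nat_lit 33813225336) (nat_lit 76) (nat_lit 24719930064) (nat_lit 4) (nat_lit 4) (nat_lit 5) (nat_lit 5) (nat_lit 5) (nat_lit 4) (nat_lit 409) (nat_lit 218) (nat_lit 153)) (XT.nd (nat_lit 78) (nat_lit 0) (nat_lit 0) (XT.lf (nat_lit 0) (nat_lit 41263832732) (nat_lit 76) (nat_lit 31656647516) (nat_lit 76) (nat_lit 22517922733) (nat_lit 4) (nat_lit 4) (nat_lit 5) (nat_lit 5) (nat_lit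 5) (nat_lit 4) (nat_lit 410) (nat_lit 218) (nat_lit 152)) (XT.lf (nat_lit 0) (nat_lit 48481495107) (nat_lit 76) (nat_lit 29453970672) (nat_lit 76) (nat_lit 20271139569) (nat_lit 4) (nat_lit 4) (nat_lit 5) (nat_lit 5) (nat_lit 5) (nat_lit 4) (nat_lit 411) (nat_lit 218) (nat_lit 151)))) (XT.nd (nat_lit 35256) (nat_lit 0) (nat_lit 1824) (XT.nd (nat_lit 35178) (nat_lit 0) (nat_lit 1976) (XT.lf (nat_lit 0) (nat_lit 55877571513) (nat_lit 76) (nat_lit 27203270136) (nat_lit 76) (nat_lit 17977617363) (nat_lit 4) (nat_lit 4) (nat_lit 5) (nat_lit 5) (nat_lit 5) (nat_lit 4) (nat_lit 412) (nat_lit 218) (nat_lit 150)) (XT.lf (nat_lit 0) (nat_lit 5928622039) (nat_lit 152) (nat_lit 1170978565) (nat_lit 152) (nat_lit 1170978565) (nat_lit 30) (nat_lit 4) (nat_lit 32) (nat_lit 5) (nat_lit 32) (nat_lit 4) (nat_lit 342) (nat_lit 219) (nat_lit 219))) (XT.nd (nat_lit 78) (nat_lit 0) (nat_lit 0) (XT.lf (nat_lit 0) (nat_lit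 2216567784) (nat_lit 152) (nat_lit 12846823251) (nat_lit 0) (nat_lit 1823510853) (nat_lit 28) (nat_lit 5) (nat_lit 30) (nat_lit 4) (nat_lit 28) (nat_lit 4) (nat_lit 343) (nat_lit 219) (nat_lit 218)) (XT.lf (nat_lit 0) (nat_lit 6838008978) (nat_lit 152) (nat_lit 4341803533) (nat_lit 0) (nat_lit 6063343377) (nat_lit 28) (nat_lit 5) (nat_lit 30) (nat_lit 4) (nat_lit 28) (nat_lit 4) (nat_lit 344) (nat_lit 219) (nat_lit 217))))) (XT.nd (nat_lit 234) (nat_lit 228) (nat_lit 0) (XT.nd (nat_lit 78) (nat_lit 152) (nat_lit 0) (XT.lf (nat_lit 0) (nat_lit 4332850248) (nat_lit 152) (nat_lit 7212016669) (nat_lit 152) (nat_lit 6066857214) (nat_lit 26) (nat_lit 4) (nat_lit 28) (nat_lit 5) (nat_lit 28) (nat_lit 4) (nat_lit 345) (nat_lit 219) (nat_lit 216)) (XT.nd (nat_lit 78) (nat_lit 152) (nat_lit 0) (XT.lf (nat_lit 0) (nat_lit 13188347629) (nat_lit 152) (nat_lit 3154694811) (nat_lit 152) (nat_lit 1649832584) (nat_lit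 26) (nat_lit 4) (nat_lit 28) (nat_lit 5) (nat_lit 28) (nat_lit 4) (nat_lit 346) (nat_lit 219) (nat_lit 215)) (XT.lf (nat_lit 0) (nat_lit 2797544485) (nat_lit 152) (nat_lit 14591015448) (nat_lit 0) (nat_lit 997458835) (nat_lit 24) (nat_lit 5) (nat_lit 26) (nat_lit 4) (nat_lit 24) (nat_lit 4) (nat_lit 347) (nat_lit 219) (nat_lit 214)))) (XT.nd (nat_lit 156) (nat_lit 76) (nat_lit 0) (XT.nd (nat_lit 78) (nat_lit 152) (nat_lit 0) (XT.lf (nat_lit 0) (nat_lit 7333886681) (nat_lit 152) (nat_lit 6252323442) (nat_lit 0) (nat_lit 5204622040) (nat_lit 24) (nat_lit 5) (nat_lit 26) (nat_lit 4) (nat_lit 24) (nat_lit 4) (nat_lit 348) (nat_lit 219) (nat_lit 213)) (XT.lf (nat_lit 0) (nat_lit 2218875905) (nat_lit 152) (nat_lit 9719910825) (nat_lit 152) (nat_lit 7271054931) (nat_lit 22) (nat_lit 4) (nat_lit 24) (nat_lit 5) (nat_lit 24) (nat_lit 4) (nat_lit 349) (nat_lit 219) (nat_lit 212))) (XT.nd (nat_lit 78) (nat_lit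 76) (nat_lit 0) (XT.lf (nat_lit 0) (nat_lit 10913004013) (nat_lit 152) (nat_lit 5744160576) (nat_lit 152) (nat_lit 2985021911) (nat_lit 22) (nat_lit 4) (nat_lit 24) (nat_lit 5) (nat_lit 24) (nat_lit 4) (nat_lit 350) (nat_lit 219) (nat_lit 211)) (XT.lf (nat_lit 0) (nat_lit 1315579828) (nat_lit 228) (nat_lit 389757021) (nat_lit 76) (nat_lit 18384359590) (nat_lit 21) (nat_lit 5) (nat_lit 24) (nat_lit 5) (nat_lit 22) (nat_lit 4) (nat_lit 351) (nat_lit 219) (nat_lit 210))))))) (XT.nd (nat_lit 1092) (nat_lit 456) (nat_lit 0) (XT.nd (nat_lit 546) (nat_lit 228) (nat_lit 0) (XT.nd (nat_lit 234) (nat_lit 152) (nat_lit 0) (XT.nd (nat_lit 78) (nat_lit 76) (nat_lit 0) (XT.lf (nat_lit 0) (nat_lit 5704217681) (nat_lit 152) (nat_lit 12395961478) (nat_lit 0) (nat_lit 2449018318) (nat_lit 20) (nat_lit 5) (nat_lit 22) (nat_lit 4) (nat_lit 20) (nat_lit 4) (nat_lit 352) (nat_lit 219) (nat_lit 209)) (XT.nd (nat_lit 78)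 (nat_lit 76) (nat_lit 0) (XT.lf (nat_lit 0) (nat_lit 10162103833) (nat_lit 152) (nat_lit 4231051985) (nat_lit 0) (nat_lit 6631222246) (nat_lit 20) (nat_lit 5) (nat_lit 22) (nat_lit 4) (nat_lit 20) (nat_lit 4) (nat_lit 353) (nat_lit 219) (nat_lit 208)) (XT.lf (nat_lit 0) (nat_lit 4111192588) (nat_lit 76) (nat_lit 10601208512) (nat_lit 76) (nat_lit 6802674282) (nat_lit 19) (nat_lit 4) (nat_lit 20) (nat_lit 5) (nat_lit 20) (nat_lit 4) (nat_lit 354) (nat_lit 219) (nat_lit 207)))) (XT.nd (nat_lit 156) (nat_lit 76) (nat_lit 0) (XT.nd (nat_lit 78) (nat_lit 76) (nat_lit 0) (XT.lf (nat_lit 0) (nat_lit 12644049915) (nat_lit 76) (nat_lit 6717985473) (nat_lit 76) (nat_lit 2659594308) (nat_lit 19) (nat_lit 4) (nat_lit 20) (nat_lit 5) (nat_lit 20) (nat_lit 4) (nat_lit 355) (nat_lit 219) (nat_lit 206)) (XT.lf (nat_lit 0) (nat_lit 1498046465) (nat_lit 152) (nat_lit 1269645126) (nat_lit 76) (nat_lit 19777595861)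 (nat_lit 18) (nat_lit 5) (nat_lit 20) (nat_lit 5) (nat_lit 19) (nat_lit 4) (nat_lit 356) (nat_lit 219) (nat_lit 205))) (XT.nd (nat_lit 78) (nat_lit 0) (nat_lit 0) (XT.lf (nat_lit 0) (nat_lit 5731515483) (nat_lit 152) (nat_lit 16043648103) (nat_lit 0) (nat_lit 1308583895) (nat_lit 17) (nat_lit 5) (nat_lit 19) (nat_lit 4) (nat_lit 17) (nat_lit 4) (nat_lit 357) (nat_lit 219) (nat_lit 204)) (XT.lf (nat_lit 0) (nat_lit 10056546144) (nat_lit 152) (nat_lit 8180161994) (nat_lit 0) (nat_lit 5402735034) (nat_lit 17) (nat_lit 5) (nat_lit 19) (nat_lit 4) (nat_lit 17) (nat_lit 4) (nat_lit 358) (nat_lit 219) (nat_lit 203))))) (XT.nd (nat_lit 234) (nat_lit 152) (nat_lit 0) (XT.nd (nat_lit 78) (nat_lit 76) (nat_lit 0) (XT.lf (nat_lit 0) (nat_lit 14437742112) (nat_lit 152) (nat_lit 216517109) (nat_lit 0) (nat_lit 9559776126) (nat_lit 17) (nat_lit 5) (nat_lit 19) (nat_lit 4) (nat_lit 17) (nat_lit 4) (nat_lit 359)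 (nat_lit 219) (nat_lit 202)) (XT.nd (nat_lit 78) (nat_lit 0) (nat_lit 0) (XT.lf (nat_lit 0) (nat_lit 8010559952) (nat_lit 76) (nat_lit 10945374066) (nat_lit 76) (nat_lit 5849781988) (nat_lit 16) (nat_lit 4) (nat_lit 17) (nat_lit 5) (nat_lit 17) (nat_lit 4) (nat_lit 360) (nat_lit 219) (nat_lit 201)) (XT.lf (nat_lit 0) (nat_lit 16358387745) (nat_lit 76) (nat_lit 7182854391) (nat_lit 76) (nat_lit 1875974845) (nat_lit 16) (nat_lit 4) (nat_lit 17) (nat_lit 5) (nat_lit 17) (nat_lit 4) (nat_lit 361) (nat_lit 219) (nat_lit 200)))) (XT.nd (nat_lit 156) (nat_lit 0) (nat_lit 0) (XT.nd (nat_lit 78) (nat_lit 76) (nat_lit 0) (XT.lf (nat_lit 0) (nat_lit 2104529784) (nat_lit 152) (nat_lit 1239817548) (nat_lit 76) (nat_lit 22704169966) (nat_lit 15) (nat_lit 5) (nat_lit 17) (nat_lit 5) (nat_lit 16) (nat_lit 4) (nat_lit 362) (nat_lit 219) (nat_lit 199)) (XT.lf (nat_lit 0) (nat_lit 6171046950) (nat_lit 152) (nat_lit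 19900818896) (nat_lit 0) (nat_lit 626220043) (nat_lit 14) (nat_lit 5) (nat_lit 16) (nat_lit 4) (nat_lit 14) (nat_lit 4) (nat_lit 363) (nat_lit 219) (nat_lit 198))) (XT.nd (nat_lit 78) (nat_lit 0) (nat_lit 0) (XT.lf (nat_lit 0) (nat_lit 10338308395) (nat_lit 152) (nat_lit 12423730486) (nat_lit 0) (nat_lit 4605755309) (nat_lit 14) (nat_lit 5) (nat_lit 16) (nat_lit 4) (nat_lit 14) (nat_lit 4) (nat_lit 364) (nat_lit 219) (nat_lit 197)) (XT.lf (nat_lit 0) (nat_lit 14565532081) (nat_lit 152) (nat_lit 4843307432) (nat_lit 0) (nat_lit 8650720568) (nat_lit 14) (nat_lit 5) (nat_lit 16) (nat_lit 4) (nat_lit 14) (nat_lit 4) (nat_lit 365) (nat_lit 219) (nat_lit 196)))))) (XT.nd (nat_lit 546) (nat_lit 228) (nat_lit 0) (XT.nd (nat_lit 234) (nat_lit 152) (nat_lit 0) (XT.nd (nat_lit 78) (nat_lit 0) (nat_lit 0) (XT.lf (nat_lit 0) (nat_lit 2903736290) (nat_lit 76) (nat_lit 15980587897) (nat_lit 76) (nat_lit 9888826456)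 (nat_lit 13) (nat_lit 4) (nat_lit 14) (nat_lit 5) (nat_lit 14) (nat_lit 4) (nat_lit 366) (nat_lit 219) (nat_lit 195)) (XT.nd (nat_lit 78) (nat_lit 0) (nat_lit 0) (XT.lf (nat_lit 0) (nat_lit 10866171517) (nat_lit 76) (nat_lit 12452977330) (nat_lit 76) (nat_lit 6189419843) (nat_lit 13) (nat_lit 4) (nat_lit 14) (nat_lit 5) (nat_lit 14) (nat_lit 4) (nat_lit 367) (nat_lit 219) (nat_lit 194)) (XT.lf (nat_lit 0) (nat_lit 18954564399) (nat_lit 76) (nat_lit 8871833344) (nat_lit 76) (nat_lit 2441483577) (nat_lit 13) (nat_lit 4) (nat_lit 14) (nat_lit 5) (nat_lit 14) (nat_lit 4) (nat_lit 368) (nat_lit 219) (nat_lit 193)))) (XT.nd (nat_lit 156) (nat_lit 0) (nat_lit 0) (XT.nd (nat_lit 78) (nat_lit 76) (nat_lit 0) (XT.lf (nat_lit 0) (nat_lit 1331752743) (nat_lit 152) (nat_lit 3888825948) (nat_lit 76) (nat_lit 25830781630) (nat_lit 12) (nat_lit 5) (nat_lit 14) (nat_lit 5) (nat_lit 13) (nat_lit 4) (nat_lit 369)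 (nat_lit 219) (nat_lit 192)) (XT.lf (nat_lit 0) (nat_lit 3698809138) (nat_lit 76) (nat_lit 1448142031) (nat_lit 152) (nat_lit 26711344524) (nat_lit 11) (nat_lit 5) (nat_lit 12) (nat_lit 5) (nat_lit 13) (nat_lit 4) (nat_lit 370) (nat_lit 219) (nat_lit 191))) (XT.nd (nat_lit 78) (nat_lit 0) (nat_lit 0) (XT.lf (nat_lit 0) (nat_lit 9082156899) (nat_lit 152) (nat_lit 21226077807) (nat_lit 0) (nat_lit 2381049812) (nat_lit 11) (nat_lit 5) (nat_lit 13) (nat_lit 4) (nat_lit 11) (nat_lit 4) (nat_lit 371) (nat_lit 219) (nat_lit 190)) (XT.lf (nat_lit 0) (nat_lit 13093895281) (nat_lit 152) (nat_lit 14203653306) (nat_lit 0) (nat_lit 6248911709) (nat_lit 11) (nat_lit 5) (nat_lit 13) (nat_lit 4) (nat_lit 11) (nat_lit 4) (nat_lit 372) (nat_lit 219) (nat_lit 189))))) (XT.nd (nat_lit 312) (nat_lit 152) (nat_lit 0) (XT.nd (nat_lit 156) (nat_lit 0) (nat_lit 0) (XT.nd (nat_lit 78) (nat_lit 76) (nat_lit 0) (XT.lf (nat_lit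 0) (nat_lit 17171751291) (nat_lit 152) (nat_lit 7072156526) (nat_lit 0) (nat_lit 10187081812) (nat_lit 11) (nat_lit 5) (nat_lit 13) (nat_lit 4) (nat_lit 11) (nat_lit 4) (nat_lit 373) (nat_lit 219) (nat_lit 188)) (XT.lf (nat_lit 0) (nat_lit 178119695) (nat_lit 76) (nat_lit 21142880605) (nat_lit 76) (nat_lit 14022593740) (nat_lit 10) (nat_lit 4) (nat_lit 11) (nat_lit 5) (nat_lit 11) (nat_lit 4) (nat_lit 374) (nat_lit 219) (nat_lit 187))) (XT.nd (nat_lit 78) (nat_lit 0) (nat_lit 0) (XT.lf (nat_lit 0) (nat_lit 7693202329) (nat_lit 76) (nat_lit 17920879221) (nat_lit 76) (nat_lit 10668924991) (nat_lit 10) (nat_lit 4) (nat_lit 11) (nat_lit 5) (nat_lit 11) (nat_lit 4) (nat_lit 375) (nat_lit 219) (nat_lit 186)) (XT.lf (nat_lit 0) (nat_lit 15338908172) (nat_lit 76) (nat_lit 14646503237) (nat_lit 76) (nat_lit 7266716613) (nat_lit 10) (nat_lit 4) (nat_lit 11) (nat_lit 5) (nat_lit 11) (nat_lit 4) (nat_lit 376)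 (nat_lit 219) (nat_lit 185)))) (XT.nd (nat_lit 156) (nat_lit 152) (nat_lit 0) (XT.nd (nat_lit 78) (nat_lit 0) (nat_lit 0) (XT.lf (nat_lit 0) (nat_lit 23121917938) (nat_lit 76) (nat_lit 11316891548) (nat_lit 76) (nat_lit 3812995805) (nat_lit 10) (nat_lit 4) (nat_lit 11) (nat_lit 5) (nat_lit 11) (nat_lit 4) (nat_lit 377) (nat_lit 219) (nat_lit 184)) (XT.lf (nat_lit 0) (nat_lit 31049032314) (nat_lit 76) (nat_lit 7929134785) (nat_lit 76) (nat_lit 304744751) (nat_lit 10) (nat_lit 4) (nat_lit 11) (nat_lit 5) (nat_lit 11) (nat_lit 4) (nat_lit 378) (nat_lit 219) (nat_lit 183))) (XT.nd (nat_lit 78) (nat_lit 76) (nat_lit 0) (XT.lf (nat_lit 0) (nat_lit 3197466163) (nat_lit 152) (nat_lit 1250518470) (nat_lit 76) (nat_lit 35897423603) (nat_lit 9) (nat_lit 5) (nat_lit 11) (nat_lit 5) (nat_lit 10) (nat_lit 4) (nat_lit 379) (nat_lit 219) (nat_lit 182)) (XT.lf (nat_lit 0) (nat_lit 5970669182) (nat_lit 76) (nat_lit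 839981748) (nat_lit 152) (nat_lit 34628685965) (nat_lit 8) (nat_lit 5) (nat_lit 9) (nat_lit 5) (nat_lit 10) (nat_lit 4) (nat_lit 380) (nat_lit 219) (nat_lit 181))))))))
noncomputable def xc23 : XT := (XT.nd (nat_lit 2184) (nat_lit 0) (nat_lit 0) (XT.nd (nat_lit 1092) (nat_lit 76) (nat_lit 0) (XT.nd (nat_lit 546) (nat_lit 152) (nat_lit 0) (XT.nd (nat_lit 234) (nat_lit 76) (nat_lit 0) (XT.nd (nat_lit 78) (nat_lit 0) (nat_lit 0) (XT.lf (nat_lit 0) (nat_lit 10527402347) (nat_lit 152) (nat_lit 29244657016) (nat_lit 0) (nat_lit 2794177538) (nat_lit 8) (nat_lit 5) (nat_lit 10) (nat_lit 4) (nat_lit 8) (nat_lit 4) (nat_lit 381) (nat_lit 219) (nat_lit 180)) (XT.nd (nat_lit 78) (nat_lit 0) (nat_lit 0) (XT.lf (nat_lit 0) (nat_lit 14320060248) (nat_lit 152) (nat_lit 22925063902) (nat_lit 0) (nat_lit 6482896005) (nat_lit 8) (nat_lit 5) (nat_lit 10) (nat_lit 4) (nat_lit 8) (nat_lit 4) (nat_lit 382) (nat_lit 219)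 (nat_lit 179)) (XT.lf (nat_lit 0) (nat_lit 18183864188) (nat_lit 152) (nat_lit 16496291980) (nat_lit 0) (nat_lit 10245787874) (nat_lit 8) (nat_lit 5) (nat_lit 10) (nat_lit 4) (nat_lit 8) (nat_lit 4) (nat_lit 383) (nat_lit 219) (nat_lit 178)))) (XT.nd (nat_lit 156) (nat_lit 76) (nat_lit 0) (XT.nd (nat_lit 78) (nat_lit 0) (nat_lit 0) (XT.lf (nat_lit 0) (nat_lit 22122190308) (nat_lit 152) (nat_lit 9952723875) (nat_lit 0) (nat_lit 14086141108) (nat_lit 8) (nat_lit 5) (nat_lit 10) (nat_lit 4) (nat_lit 8) (nat_lit 4) (nat_lit 384) (nat_lit 219) (nat_lit 177)) (XT.lf (nat_lit 0) (nat_lit 26138479862) (nat_lit 152) (nat_lit 3288641908) (nat_lit 0) (nat_lit 18007311356) (nat_lit 8) (nat_lit 5) (nat_lit 10) (nat_lit 4) (nat_lit 8) (nat_lit 4) (nat_lit 385) (nat_lit 219) (nat_lit 176))) (XT.nd (nat_lit 78) (nat_lit 0) (nat_lit 0) (XT.lf (nat_lit 0) (nat_lit 3571469131) (nat_lit 76) (nat_lit 26699104244) (nat_lit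 76) (nat_lit 18475586898) (nat_lit 7) (nat_lit 4) (nat_lit 8) (nat_lit 5) (nat_lit 8) (nat_lit 4) (nat_lit 386) (nat_lit 219) (nat_lit 175)) (XT.lf (nat_lit 0) (nat_lit 10631933254) (nat_lit 76) (nat_lit 23889325373) (nat_lit 76) (nat_lit 15576148959) (nat_lit 7) (nat_lit 4) (nat_lit 8) (nat_lit 5) (nat_lit 8) (nat_lit 4) (nat_lit 387) (nat_lit 219) (nat_lit 174))))) (XT.nd (nat_lit 234) (nat_lit 152) (nat_lit 0) (XT.nd (nat_lit 78) (nat_lit 0) (nat_lit 0) (XT.lf (nat_lit 0) (nat_lit 17833469373) (nat_lit 76) (nat_lit 21028538846) (nat_lit 76) (nat_lit 12628314792) (nat_lit 7) (nat_lit 4) (nat_lit 8) (nat_lit 5) (nat_lit 8) (nat_lit 4) (nat_lit 388) (nat_lit 219) (nat_lit 173)) (XT.nd (nat_lit 78) (nat_lit 0) (nat_lit 0) (XT.lf (nat_lit 0) (nat_lit 25182370094) (nat_lit 76) (nat_lit 18114244946) (nat_lit 76) (nat_lit 9629508620) (nat_lit 7) (nat_lit 4) (nat_lit 8) (nat_lit 5) (nat_lit 8) (nat_lit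 4) (nat_lit 389) (nat_lit 219) (nat_lit 172)) (XT.lf (nat_lit 0) (nat_lit 32685056786) (nat_lit 76) (nat_lit 15143897203) (nat_lit 76) (nat_lit 6577110129) (nat_lit 7) (nat_lit 4) (nat_lit 8) (nat_lit 5) (nat_lit 8) (nat_lit 4) (nat_lit 390) (nat_lit 219) (nat_lit 171)))) (XT.nd (nat_lit 156) (nat_lit 152) (nat_lit 0) (XT.nd (nat_lit 78) (nat_lit 0) (nat_lit 0) (XT.lf (nat_lit 0) (nat_lit 40348085195) (nat_lit 76) (nat_lit 12114900168) (nat_lit 76) (nat_lit 3468452172) (nat_lit 7) (nat_lit 4) (nat_lit 8) (nat_lit 5) (nat_lit 8) (nat_lit 4) (nat_lit 391) (nat_lit 219) (nat_lit 170)) (XT.lf (nat_lit 0) (nat_lit 48178151171) (nat_lit 76) (nat_lit 9024607143) (nat_lit 76) (nat_lit 300818448) (nat_lit 7) (nat_lit 4) (nat_lit 8) (nat_lit 5) (nat_lit 8) (nat_lit 4) (nat_lit 392) (nat_lit 219) (nat_lit 169))) (XT.nd (nat_lit 78) (nat_lit 76) (nat_lit 0) (XT.lf (nat_lit 0) (nat_lit 2871412147) (nat_lit 152)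 (nat_lit 2969910094) (nat_lit 76) (nat_lit 53281688738) (nat_lit 6) (nat_lit 5) (nat_lit 8) (nat_lit 5) (nat_lit 7) (nat_lit 4) (nat_lit 393) (nat_lit 219) (nat_lit 168)) (XT.lf (nat_lit 0) (nat_lit 3583334686) (nat_lit 76) (nat_lit 2552188697) (nat_lit 152) (nat_lit 54655338390) (nat_lit 5) (nat_lit 5) (nat_lit 6) (nat_lit 5) (nat_lit 7) (nat_lit 4) (nat_lit 394) (nat_lit 219) (nat_lit 167)))))) (XT.nd (nat_lit 546) (nat_lit 76) (nat_lit 0) (XT.nd (nat_lit 234) (nat_lit 0) (nat_lit 0) (XT.nd (nat_lit 78) (nat_lit 0) (nat_lit 0) (XT.lf (nat_lit 0) (nat_lit 9504276417) (nat_lit 152) (nat_lit 52182091932) (nat_lit 0) (nat_lit 822183719) (nat_lit 5) (nat_lit 5) (nat_lit 7) (nat_lit 4) (nat_lit 5) (nat_lit 4) (nat_lit 395) (nat_lit 219) (nat_lit 166)) (XT.nd (nat_lit 78) (nat_lit 0) (nat_lit 0) (XT.lf (nat_lit 0) (nat_lit 12968680442) (nat_lit 152) (nat_lit 47089387374) (nat_lit 0) (nat_lit 4219872977)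 (nat_lit 5) (nat_lit 5) (nat_lit 7) (nat_lit 4) (nat_lit 5) (nat_lit 4) (nat_lit 396) (nat_lit 219) (nat_lit 165)) (XT.lf (nat_lit 0) (nat_lit 16507229406) (nat_lit 152) (nat_lit 41900430279) (nat_lit 0) (nat_lit 7693650323) (nat_lit 5) (nat_lit 5) (nat_lit 7) (nat_lit 4) (nat_lit 5) (nat_lit 4) (nat_lit 397) (nat_lit 219) (nat_lit 164)))) (XT.nd (nat_lit 156) (nat_lit 0) (nat_lit 0) (XT.nd (nat_lit 78) (nat_lit 0) (nat_lit 0) (XT.lf (nat_lit 0) (nat_lit 20123015247) (nat_lit 152) (nat_lit 36610686606) (nat_lit 0) (nat_lit 11246551097) (nat_lit 5) (nat_lit 5) (nat_lit 7) (nat_lit 4) (nat_lit 5) (nat_lit 4) (nat_lit 398) (nat_lit 219) (nat_lit 163)) (XT.lf (nat_lit 0) (nat_lit 23819197389) (nat_lit 152) (nat_lit 31215534249) (nat_lit 0) (nat_lit 14881679776) (nat_lit 5) (nat_lit 5) (nat_lit 7) (nat_lit 4) (nat_lit 5) (nat_lit 4) (nat_lit 399) (nat_lit 219) (nat_lit 162))) (XT.nd (nat_lit 78) (nat_lit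 0) (nat_lit 0) (XT.lf (nat_lit 0) (nat_lit 27599005506) (nat_lit 152) (nat_lit 25710258998) (nat_lit 0) (nat_lit 18602212686) (nat_lit 5) (nat_lit 5) (nat_lit 7) (nat_lit 4) (nat_lit 5) (nat_lit 4) (nat_lit 400) (nat_lit 219) (nat_lit 161)) (XT.lf (nat_lit 0) (nat_lit 31465742342) (nat_lit 152) (nat_lit 20090050418) (nat_lit 0) (nat_lit 22411400777) (nat_lit 5) (nat_lit 5) (nat_lit 7) (nat_lit 4) (nat_lit 5) (nat_lit 4) (nat_lit 401) (nat_lit 219) (nat_lit 160))))) (XT.nd (nat_lit 234) (nat_lit 76) (nat_lit 0) (XT.nd (nat_lit 78) (nat_lit 0) (nat_lit 0) (XT.lf (nat_lit 0) (nat_lit 35422786599) (nat_lit 152) (nat_lit 14349997646) (nat_lit 0) (nat_lit 26312572467) (nat_lit 5) (nat_lit 5) (nat_lit 7) (nat_lit 4) (nat_lit 5) (nat_lit 4) (nat_lit 402) (nat_lit 219) (nat_lit 159)) (XT.nd (nat_lit 78) (nat_lit 0) (nat_lit 0) (XT.lf (nat_lit 0) (nat_lit 39473595890) (nat_lit 152) (nat_lit 8485085104) (nat_lit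 0) (nat_lit 30309136547) (nat_lit 5) (nat_lit 5) (nat_lit 7) (nat_lit 4) (nat_lit 5) (nat_lit 4) (nat_lit 403) (nat_lit 219) (nat_lit 158)) (XT.lf (nat_lit 0) (nat_lit 43621709756) (nat_lit 152) (nat_lit 2490188109) (nat_lit 0) (nat_lit 34404585159) (nat_lit 5) (nat_lit 5) (nat_lit 7) (nat_lit 4) (nat_lit 5) (nat_lit 4) (nat_lit 404) (nat_lit 219) (nat_lit 157)))) (XT.nd (nat_lit 156) (nat_lit 0) (nat_lit 0) (XT.nd (nat_lit 78) (nat_lit 0) (nat_lit 0) (XT.lf (nat_lit 0) (nat_lit 3712373372) (nat_lit 76) (nat_lit 44194064993) (nat_lit 76) (nat_lit 34925809083) (nat_lit 4) (nat_lit 4) (nat_lit 5) (nat_lit 5) (nat_lit 5) (nat_lit 4) (nat_lit 405) (nat_lit 219) (nat_lit 156)) (XT.lf (nat_lit 0) (nat_lit 10107871408) (nat_lit 76) (nat_lit 42213729300) (nat_lit 76) (nat_lit 32895831338) (nat_lit 4) (nat_lit 4) (nat_lit 5) (nat_lit 5) (nat_lit 5) (nat_lit 4) (nat_lit 406) (nat_lit 219) (nat_lit 155)))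 (XT.nd (nat_lit 78) (nat_lit 0) (nat_lit 0) (XT.lf (nat_lit 0) (nat_lit 16652334669) (nat_lit 76) (nat_lit 40194306414) (nat_lit 76) (nat_lit 30828212283) (nat_lit 4) (nat_lit 4) (nat_lit 5) (nat_lit 5) (nat_lit 5) (nat_lit 4) (nat_lit 407) (nat_lit 219) (nat_lit 154)) (XT.lf (nat_lit 0) (nat_lit 23351481621) (nat_lit 76) (nat_lit 38134031788) (nat_lit 76) (nat_lit 28721145263) (nat_lit 4) (nat_lit 4) (nat_lit 5) (nat_lit 5) (nat_lit 5) (nat_lit 4) (nat_lit 408) (nat_lit 219) (nat_lit 153))))))) (XT.nd (nat_lit 36036) (nat_lit 0) (nat_lit 760) (XT.nd (nat_lit 35490) (nat_lit 0) (nat_lit 1368) (XT.nd (nat_lit 234) (nat_lit 0) (nat_lit 0) (XT.nd (nat_lit 78) (nat_lit 0) (nat_lit 0) (XT.lf (nat_lit 0) (nat_lit 30211165885) (nat_lit 76) (nat_lit 36031105185) (nat_lit 76) (nat_lit 26572789149) (nat_lit 4) (nat_lit 4) (nat_lit 5) (nat_lit 5) (nat_lit 5) (nat_lit 4) (nat_lit 409) (nat_lit 219) (nat_lit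 152)) (XT.nd (nat_lit 78) (nat_lit 0) (nat_lit 0) (XT.lf (nat_lit 0) (nat_lit 37237381361) (nat_lit 76) (nat_lit 33883689094) (nat_lit 76) (nat_lit 24381266738) (nat_lit 4) (nat_lit 4) (nat_lit 5) (nat_lit 5) (nat_lit 5) (nat_lit 4) (nat_lit 410) (nat_lit 219) (nat_lit 151)) (XT.lf (nat_lit 0) (nat_lit 44436267460) (nat_lit 76) (nat_lit 31689907134) (nat_lit 76) (nat_lit 22144663107) (nat_lit 4) (nat_lit 4) (nat_lit 5) (nat_lit 5) (nat_lit 5) (nat_lit 4) (nat_lit 411) (nat_lit 219) (nat_lit 150)))) (XT.nd (nat_lit 35100) (nat_lit 0) (nat_lit 1976) (XT.nd (nat_lit 35022) (nat_lit 0) (nat_lit 2128) (XT.lf (nat_lit 0) (nat_lit 51814114472) (nat_lit 76) (nat_lit 29447842407) (nat_lit 76) (nat_lit 19861023942) (nat_lit 4) (nat_lit 4) (nat_lit 5) (nat_lit 5) (nat_lit 5) (nat_lit 4) (nat_lit 412) (nat_lit 219) (nat_lit 149)) (XT.lf (nat_lit 0) (nat_lit 2538225547) (nat_lit 152) (nat_lit 2863807410) (nat_lit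 0) (nat_lit 2538225547) (nat_lit 32) (nat_lit 5) (nat_lit 34) (nat_lit 4) (nat_lit 32) (nat_lit 4) (nat_lit 340) (nat_lit 220) (nat_lit 220))) (XT.nd (nat_lit 78) (nat_lit 0) (nat_lit 0) (XT.lf (nat_lit 0) (nat_lit 2920201236) (nat_lit 152) (nat_lit 6851433370) (nat_lit 152) (nat_lit 6434439272) (nat_lit 30) (nat_lit 4) (nat_lit 32) (nat_lit 5) (nat_lit 32) (nat_lit 4) (nat_lit 341) (nat_lit 220) (nat_lit 219)) (XT.lf (nat_lit 0) (nat_lit 11772177879) (nat_lit 152) (nat_lit 2796137820) (nat_lit 152) (nat_lit 1974295084) (nat_lit 30) (nat_lit 4) (nat_lit 32) (nat_lit 5) (nat_lit 32) (nat_lit 4) (nat_lit 342) (nat_lit 220) (nat_lit 218))))) (XT.nd (nat_lit 234) (nat_lit 304) (nat_lit 0) (XT.nd (nat_lit 78) (nat_lit 152) (nat_lit 0) (XT.lf (nat_lit 0) (nat_lit 2523693629) (nat_lit 152) (nat_lit 13021991276) (nat_lit 0) (nat_lit 1344179390) (nat_lit 28) (nat_lit 5) (nat_lit 30) (nat_lit 4) (nat_lit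 28) (nat_lit 4) (nat_lit 343) (nat_lit 220) (nat_lit 217)) (XT.nd (nat_lit 78) (nat_lit 152) (nat_lit 0) (XT.lf (nat_lit 0) (nat_lit 7098397632) (nat_lit 152) (nat_lit 4600747933) (nat_lit 0) (nat_lit 5548389538) (nat_lit 28) (nat_lit 5) (nat_lit 30) (nat_lit 4) (nat_lit 28) (nat_lit 4) (nat_lit 344) (nat_lit 220) (nat_lit 216)) (XT.lf (nat_lit 0) (nat_lit 3985797307) (nat_lit 152) (nat_lit 7770746265) (nat_lit 152) (nat_lit 5861035399) (nat_lit 26) (nat_lit 4) (nat_lit 28) (nat_lit 5) (nat_lit 28) (nat_lit 4) (nat_lit 345) (nat_lit 220) (nat_lit 215)))) (XT.nd (nat_lit 156) (nat_lit 152) (nat_lit 0) (XT.nd (nat_lit 78) (nat_lit 152) (nat_lit 0) (XT.lf (nat_lit 0) (nat_lit 12760755816) (nat_lit 152) (nat_lit 3749134805) (nat_lit 152) (nat_lit 1490197947) (nat_lit 26) (nat_lit 4) (nat_lit 28) (nat_lit 5) (nat_lit 28) (nat_lit 4) (nat_lit 346) (nat_lit 220) (nat_lit 214)) (XT.lf (nat_lit 0) (nat_lit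 2898957535) (nat_lit 152) (nat_lit 15119259030) (nat_lit 0) (nat_lit 376635963) (nat_lit 24) (nat_lit 5) (nat_lit 26) (nat_lit 4) (nat_lit 24) (nat_lit 4) (nat_lit 347) (nat_lit 220) (nat_lit 213))) (XT.nd (nat_lit 78) (nat_lit 152) (nat_lit 0) (XT.lf (nat_lit 0) (nat_lit 7391525541) (nat_lit 152) (nat_lit 6859853566) (nat_lit 0) (nat_lit 4549612716) (nat_lit 24) (nat_lit 5) (nat_lit 26) (nat_lit 4) (nat_lit 24) (nat_lit 4) (nat_lit 348) (nat_lit 220) (nat_lit 212)) (XT.lf (nat_lit 0) (nat_lit 1520745518) (nat_lit 152) (nat_lit 10426470004) (nat_lit 152) (nat_lit 7274274408) (nat_lit 22) (nat_lit 4) (nat_lit 24) (nat_lit 5) (nat_lit 24) (nat_lit 4) (nat_lit 349) (nat_lit 220) (nat_lit 211)))))) (XT.nd (nat_lit 546) (nat_lit 304) (nat_lit 0) (XT.nd (nat_lit 234) (nat_lit 152) (nat_lit 0) (XT.nd (nat_lit 78) (nat_lit 152) (nat_lit 0) (XT.lf (nat_lit 0) (nat_lit 10138651080) (nat_lit 152) (nat_lit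 6484948231) (nat_lit 152) (nat_lit 3031507226) (nat_lit 22) (nat_lit 4) (nat_lit 24) (nat_lit 5) (nat_lit 24) (nat_lit 4) (nat_lit 350) (nat_lit 220) (nat_lit 210)) (XT.nd (nat_lit 78) (nat_lit 76) (nat_lit 0) (XT.lf (nat_lit 0) (nat_lit 1228815622) (nat_lit 228) (nat_lit 1251416560) (nat_lit 76) (nat_lit 17623644541) (nat_lit 21) (nat_lit 5) (nat_lit 24) (nat_lit 5) (nat_lit 22) (nat_lit 4) (nat_lit 351) (nat_lit 220) (nat_lit 209)) (XT.lf (nat_lit 0) (nat_lit 5560453666) (nat_lit 152) (nat_lit 13356681613) (nat_lit 0) (nat_lit 1647963409) (nat_lit 20) (nat_lit 5) (nat_lit 22) (nat_lit 4) (nat_lit 20) (nat_lit 4) (nat_lit 352) (nat_lit 220) (nat_lit 208)))) (XT.nd (nat_lit 156) (nat_lit 76) (nat_lit 0) (XT.nd (nat_lit 78) (nat_lit 76) (nat_lit 0) (XT.lf (nat_lit 0) (nat_lit 9978514809) (nat_lit 152) (nat_lit 5264597923) (nat_lit 0) (nat_lit 5798371909) (nat_lit 20) (nat_lit 5) (nat_lit 22) (nat_lit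 4) (nat_lit 20) (nat_lit 4) (nat_lit 353) (nat_lit 220) (nat_lit 207)) (XT.lf (nat_lit 0) (nat_lit 2984965236) (nat_lit 76) (nat_lit 11494355797) (nat_lit 76) (nat_lit 7054355962) (nat_lit 19) (nat_lit 4) (nat_lit 20) (nat_lit 5) (nat_lit 20) (nat_lit 4) (nat_lit 354) (nat_lit 220) (nat_lit 206))) (XT.nd (nat_lit 78) (nat_lit 76) (nat_lit 0) (XT.lf (nat_lit 0) (nat_lit 11447811084) (nat_lit 76) (nat_lit 7642932355) (nat_lit 76) (nat_lit 2950644233) (nat_lit 19) (nat_lit 4) (nat_lit 20) (nat_lit 5) (nat_lit 20) (nat_lit 4) (nat_lit 355) (nat_lit 220) (nat_lit 205)) (XT.lf (nat_lit 0) (nat_lit 1175200217) (nat_lit 152) (nat_lit 2551571765) (nat_lit 76) (nat_lit 18839491082) (nat_lit 18) (nat_lit 5) (nat_lit 20) (nat_lit 5) (nat_lit 19) (nat_lit 4) (nat_lit 356) (nat_lit 220) (nat_lit 204))))) (XT.nd (nat_lit 312) (nat_lit 152) (nat_lit 0) (XT.nd (nat_lit 156) (nat_lit 76) (nat_lit 0) (XT.nd (nat_lit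 78) (nat_lit 0) (nat_lit 0) (XT.lf (nat_lit 0) (nat_lit 5349421082) (nat_lit 152) (nat_lit 17431972494) (nat_lit 0) (nat_lit 325116117) (nat_lit 17) (nat_lit 5) (nat_lit 19) (nat_lit 4) (nat_lit 17) (nat_lit 4) (nat_lit 357) (nat_lit 220) (nat_lit 203)) (XT.lf (nat_lit 0) (nat_lit 9638202672) (nat_lit 152) (nat_lit 9635356241) (nat_lit 0) (nat_lit 4389742832) (nat_lit 17) (nat_lit 5) (nat_lit 19) (nat_lit 4) (nat_lit 17) (nat_lit 4) (nat_lit 358) (nat_lit 220) (nat_lit 202))) (XT.nd (nat_lit 78) (nat_lit 76) (nat_lit 0) (XT.lf (nat_lit 0) (nat_lit 13984205368) (nat_lit 152) (nat_lit 1736633547) (nat_lit 0) (nat_lit 8518119435) (nat_lit 17) (nat_lit 5) (nat_lit 19) (nat_lit 4) (nat_lit 17) (nat_lit 4) (nat_lit 359) (nat_lit 220) (nat_lit 201)) (XT.lf (nat_lit 0) (nat_lit 6395904517) (nat_lit 76) (nat_lit 12056803476) (nat_lit 76) (nat_lit 6379430075) (nat_lit 16) (nat_lit 4) (nat_lit 17) (nat_lit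 5) (nat_lit 17) (nat_lit 4) (nat_lit 360) (nat_lit 220) (nat_lit 200)))) (XT.nd (nat_lit 156) (nat_lit 76) (nat_lit 0) (XT.nd (nat_lit 78) (nat_lit 76) (nat_lit 0) (XT.lf (nat_lit 0) (nat_lit 14681319011) (nat_lit 76) (nat_lit 8322924111) (nat_lit 76) (nat_lit 2440417246) (nat_lit 16) (nat_lit 4) (nat_lit 17) (nat_lit 5) (nat_lit 17) (nat_lit 4) (nat_lit 361) (nat_lit 220) (nat_lit 199)) (XT.lf (nat_lit 0) (nat_lit 1517979987) (nat_lit 152) (nat_lit 3000166194) (nat_lit 76) (nat_lit 21558978595) (nat_lit 15) (nat_lit 5) (nat_lit 17) (nat_lit 5) (nat_lit 16) (nat_lit 4) (nat_lit 362) (nat_lit 220) (nat_lit 198))) (XT.nd (nat_lit 78) (nat_lit 0) (nat_lit 0) (XT.lf (nat_lit 0) (nat_lit 4947545872) (nat_lit 76) (nat_lit 580813440) (nat_lit 152) (nat_lit 21200025636) (nat_lit 14) (nat_lit 5) (nat_lit 15) (nat_lit 5) (nat_lit 16) (nat_lit 4) (nat_lit 363) (nat_lit 220) (nat_lit 197)) (XT.lf (nat_lit 0)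 (nat_lit 9657990528) (nat_lit 152) (nat_lit 14357762611) (nat_lit 0) (nat_lit 3383476245) (nat_lit 14) (nat_lit 5) (nat_lit 16) (nat_lit 4) (nat_lit 14) (nat_lit 4) (nat_lit 364) (nat_lit 220) (nat_lit 196))))))))
noncomputable def xc24 : XT := (XT.nd (nat_lit 2184) (nat_lit 228) (nat_lit 0) (XT.nd (nat_lit 1092) (nat_lit 228) (nat_lit 0) (XT.nd (nat_lit 546) (nat_lit 76) (nat_lit 0) (XT.nd (nat_lit 234) (nat_lit 152) (nat_lit 0) (XT.nd (nat_lit 78) (nat_lit 76) (nat_lit 0) (XT.lf (nat_lit 0) (nat_lit 13854100530) (nat_lit 152) (nat_lit 6835198856) (nat_lit 0) (nat_lit 7402636318) (nat_lit 14) (nat_lit 5) (nat_lit 16) (nat_lit 4) (nat_lit 14) (nat_lit 4) (nat_lit 365) (nat_lit 220) (nat_lit 195)) (XT.nd (nat_lit 78) (nat_lit 0) (nat_lit 0) (XT.lf (nat_lit 0) (nat_lit 814910271) (nat_lit 76) (nat_lit 17307695831) (nat_lit 76) (nat_lit 10684435572) (nat_lit 13) (nat_lit 4) (nat_lit 14) (nat_lit 5)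 (nat_lit 14) (nat_lit 4) (nat_lit 366) (nat_lit 220) (nat_lit 194)) (XT.lf (nat_lit 0) (nat_lit 8721722147) (nat_lit 76) (nat_lit 13805846298) (nat_lit 76) (nat_lit 7015793760) (nat_lit 13) (nat_lit 4) (nat_lit 14) (nat_lit 5) (nat_lit 14) (nat_lit 4) (nat_lit 367) (nat_lit 220) (nat_lit 193)))) (XT.nd (nat_lit 156) (nat_lit 76) (nat_lit 0) (XT.nd (nat_lit 78) (nat_lit 76) (nat_lit 0) (XT.lf (nat_lit 0) (nat_lit 16756111777) (nat_lit 76) (nat_lit 10249713023) (nat_lit 76) (nat_lit 3297726234) (nat_lit 13) (nat_lit 4) (nat_lit 14) (nat_lit 5) (nat_lit 14) (nat_lit 4) (nat_lit 368) (nat_lit 220) (nat_lit 192)) (XT.lf (nat_lit 0) (nat_lit 463785559) (nat_lit 152) (nat_lit 6167719821) (nat_lit 76) (nat_lit 24456630616) (nat_lit 12) (nat_lit 5) (nat_lit 14) (nat_lit 5) (nat_lit 13) (nat_lit 4) (nat_lit 369) (nat_lit 220) (nat_lit 191))) (XT.nd (nat_lit 78) (nat_lit 0) (nat_lit 0) (XT.lf (nat_lit 0) (nat_lit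 1322078172) (nat_lit 76) (nat_lit 2906454460) (nat_lit 152) (nat_lit 27668058156) (nat_lit 11) (nat_lit 5) (nat_lit 12) (nat_lit 5) (nat_lit 13) (nat_lit 4) (nat_lit 370) (nat_lit 220) (nat_lit 190)) (XT.lf (nat_lit 0) (nat_lit 8122202160) (nat_lit 152) (nat_lit 23678636647) (nat_lit 0) (nat_lit 927992597) (nat_lit 11) (nat_lit 5) (nat_lit 13) (nat_lit 4) (nat_lit 11) (nat_lit 4) (nat_lit 371) (nat_lit 220) (nat_lit 189))))) (XT.nd (nat_lit 234) (nat_lit 76) (nat_lit 0) (XT.nd (nat_lit 78) (nat_lit 0) (nat_lit 0) (XT.lf (nat_lit 0) (nat_lit 12107224028) (nat_lit 152) (nat_lit 16706261632) (nat_lit 0) (nat_lit 4773328557) (nat_lit 11) (nat_lit 5) (nat_lit 13) (nat_lit 4) (nat_lit 11) (nat_lit 4) (nat_lit 372) (nat_lit 220) (nat_lit 188)) (XT.nd (nat_lit 78) (nat_lit 0) (nat_lit 0) (XT.lf (nat_lit 0) (nat_lit 16159141676) (nat_lit 152) (nat_lit 9623356585) (nat_lit 0) (nat_lit 8689628818) (nat_lit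 11) (nat_lit 5) (nat_lit 13) (nat_lit 4) (nat_lit 11) (nat_lit 4) (nat_lit 373) (nat_lit 220) (nat_lit 187)) (XT.lf (nat_lit 0) (nat_lit 20281495613) (nat_lit 152) (nat_lit 2423732561) (nat_lit 0) (nat_lit 12680315391) (nat_lit 11) (nat_lit 5) (nat_lit 13) (nat_lit 4) (nat_lit 11) (nat_lit 4) (nat_lit 374) (nat_lit 220) (nat_lit 186)))) (XT.nd (nat_lit 156) (nat_lit 0) (nat_lit 0) (XT.nd (nat_lit 78) (nat_lit 0) (nat_lit 0) (XT.lf (nat_lit 0) (nat_lit 4996399116) (nat_lit 76) (nat_lit 19529517225) (nat_lit 76) (nat_lit 11800504610) (nat_lit 10) (nat_lit 4) (nat_lit 11) (nat_lit 5) (nat_lit 11) (nat_lit 4) (nat_lit 375) (nat_lit 220) (nat_lit 185)) (XT.lf (nat_lit 0) (nat_lit 12596751633) (nat_lit 76) (nat_lit 16276321327) (nat_lit 76) (nat_lit 8423199592) (nat_lit 10) (nat_lit 4) (nat_lit 11) (nat_lit 5) (nat_lit 11) (nat_lit 4) (nat_lit 376) (nat_lit 220) (nat_lit 184))) (XT.nd (nat_lit 78) (nat_lit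 0) (nat_lit 0) (XT.lf (nat_lit 0) (nat_lit 20335729042) (nat_lit 76) (nat_lit 12967272829) (nat_lit 76) (nat_lit 4993656803) (nat_lit 10) (nat_lit 4) (nat_lit 11) (nat_lit 5) (nat_lit 11) (nat_lit 4) (nat_lit 377) (nat_lit 220) (nat_lit 183)) (XT.lf (nat_lit 0) (nat_lit 28220093558) (nat_lit 76) (nat_lit 9599480328) (nat_lit 76) (nat_lit 1508879554) (nat_lit 10) (nat_lit 4) (nat_lit 11) (nat_lit 5) (nat_lit 11) (nat_lit 4) (nat_lit 378) (nat_lit 220) (nat_lit 182)))))) (XT.nd (nat_lit 546) (nat_lit 76) (nat_lit 0) (XT.nd (nat_lit 234) (nat_lit 0) (nat_lit 0) (XT.nd (nat_lit 78) (nat_lit 76) (nat_lit 0) (XT.lf (nat_lit 0) (nat_lit 1994482982) (nat_lit 152) (nat_lit 4155377744) (nat_lit 76) (nat_lit 34242111081) (nat_lit 9) (nat_lit 5) (nat_lit 11) (nat_lit 5) (nat_lit 10) (nat_lit 4) (nat_lit 379) (nat_lit 220) (nat_lit 181)) (XT.nd (nat_lit 78) (nat_lit 0) (nat_lit 0) (XT.lf (nat_lit 0) (nat_lit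 2966455016) (nat_lit 76) (nat_lit 2590639841) (nat_lit 152) (nat_lit 35930327043) (nat_lit 8) (nat_lit 5) (nat_lit 9) (nat_lit 5) (nat_lit 10) (nat_lit 4) (nat_lit 380) (nat_lit 220) (nat_lit 180)) (XT.lf (nat_lit 0) (nat_lit 9235386001) (nat_lit 152) (nat_lit 32320926437) (nat_lit 0) (nat_lit 1059167397) (nat_lit 8) (nat_lit 5) (nat_lit 10) (nat_lit 4) (nat_lit 8) (nat_lit 4) (nat_lit 381) (nat_lit 220) (nat_lit 179)))) (XT.nd (nat_lit 156) (nat_lit 0) (nat_lit 0) (XT.nd (nat_lit 78) (nat_lit 0) (nat_lit 0) (XT.lf (nat_lit 0) (nat_lit 13007042080) (nat_lit 152) (nat_lit 26040943660) (nat_lit 0) (nat_lit 4729911405) (nat_lit 8) (nat_lit 5) (nat_lit 10) (nat_lit 4) (nat_lit 8) (nat_lit 4) (nat_lit 382) (nat_lit 220) (nat_lit 178)) (XT.lf (nat_lit 0) (nat_lit 16850455903) (nat_lit 152) (nat_lit 19650628376) (nat_lit 0) (nat_lit 8475352342) (nat_lit 8) (nat_lit 5) (nat_lit 10) (nat_lit 4) (nat_lit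 8) (nat_lit 4) (nat_lit 383) (nat_lit 220) (nat_lit 177))) (XT.nd (nat_lit 78) (nat_lit 0) (nat_lit 0) (XT.lf (nat_lit 0) (nat_lit 20768985791) (nat_lit 152) (nat_lit 13144396814) (nat_lit 0) (nat_lit 12298762925) (nat_lit 8) (nat_lit 5) (nat_lit 10) (nat_lit 4) (nat_lit 8) (nat_lit 4) (nat_lit 384) (nat_lit 220) (nat_lit 176)) (XT.lf (nat_lit 0) (nat_lit 24766055704) (nat_lit 152) (nat_lit 6516563917) (nat_lit 0) (nat_lit 16203483997) (nat_lit 8) (nat_lit 5) (nat_lit 10) (nat_lit 4) (nat_lit 8) (nat_lit 4) (nat_lit 385) (nat_lit 220) (nat_lit 175))))) (XT.nd (nat_lit 234) (nat_lit 0) (nat_lit 0) (XT.nd (nat_lit 78) (nat_lit 0) (nat_lit 0) (XT.lf (nat_lit 0) (nat_lit 243411458) (nat_lit 76) (nat_lit 28604086587) (nat_lit 76) (nat_lit 19951855811) (nat_lit 7) (nat_lit 4) (nat_lit 8) (nat_lit 5) (nat_lit 8) (nat_lit 4) (nat_lit 386) (nat_lit 220) (nat_lit 174)) (XT.nd (nat_lit 78) (nat_lit 0) (nat_lit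 0) (XT.lf (nat_lit 0) (nat_lit 7269027341) (nat_lit 76) (nat_lit 25810704617) (nat_lit 76) (nat_lit 17071426202) (nat_lit 7) (nat_lit 4) (nat_lit 8) (nat_lit 5) (nat_lit 8) (nat_lit 4) (nat_lit 387) (nat_lit 220) (nat_lit 173)) (XT.lf (nat_lit 0) (nat_lit 14436730218) (nat_lit 76) (nat_lit 22965837411) (nat_lit 76) (nat_lit 14142046725) (nat_lit 7) (nat_lit 4) (nat_lit 8) (nat_lit 5) (nat_lit 8) (nat_lit 4) (nat_lit 388) (nat_lit 220) (nat_lit 172)))) (XT.nd (nat_lit 156) (nat_lit 0) (nat_lit 0) (XT.nd (nat_lit 78) (nat_lit 0) (nat_lit 0) (XT.lf (nat_lit 0) (nat_lit 21752783131) (nat_lit 76) (nat_lit 20066999164) (nat_lit 76) (nat_lit 11161157728) (nat_lit 7) (nat_lit 4) (nat_lit 8) (nat_lit 5) (nat_lit 8) (nat_lit 4) (nat_lit 389) (nat_lit 220) (nat_lit 171)) (XT.lf (nat_lit 0) (nat_lit 29223578747) (nat_lit 76) (nat_lit 17111656908) (nat_lit 76) (nat_lit 8126154552) (nat_lit 7) (nat_lit 4) (nat_lit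 8) (nat_lit 5) (nat_lit 8) (nat_lit 4) (nat_lit 390) (nat_lit 220) (nat_lit 170))) (XT.nd (nat_lit 78) (nat_lit 0) (nat_lit 0) (XT.lf (nat_lit 0) (nat_lit 36855644946) (nat_lit 76) (nat_lit 14097228307) (nat_lit 76) (nat_lit 5034385251) (nat_lit 7) (nat_lit 4) (nat_lit 8) (nat_lit 5) (nat_lit 8) (nat_lit 4) (nat_lit 391) (nat_lit 220) (nat_lit 169)) (XT.lf (nat_lit 0) (nat_lit 44655650524) (nat_lit 76) (nat_lit 11021079394) (nat_lit 76) (nat_lit 1883148279) (nat_lit 7) (nat_lit 4) (nat_lit 8) (nat_lit 5) (nat_lit 8) (nat_lit 4) (nat_lit 392) (nat_lit 220) (nat_lit 168))))))) (XT.nd (nat_lit 1092) (nat_lit 0) (nat_lit 0) (XT.nd (nat_lit 546) (nat_lit 76) (nat_lit 0) (XT.nd (nat_lit 234) (nat_lit 0) (nat_lit 0) (XT.nd (nat_lit 78) (nat_lit 76) (nat_lit 0) (XT.lf (nat_lit 0) (nat_lit 1304350733) (nat_lit 152) (nat_lit 6563000153) (nat_lit 76) (nat_lit 51312888901) (nat_lit 6) (nat_lit 5) (nat_lit 8)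 (nat_lit 5) (nat_lit 7) (nat_lit 4) (nat_lit 393) (nat_lit 220) (nat_lit 167)) (XT.nd (nat_lit 78) (nat_lit 76) (nat_lit 0) (XT.lf (nat_lit 0) (nat_lit 4518862844) (nat_lit 152) (nat_lit 108318265) (nat_lit 76) (nat_lit 56222400171) (nat_lit 6) (nat_lit 5) (nat_lit 8) (nat_lit 5) (nat_lit 7) (nat_lit 4) (nat_lit 394) (nat_lit 220) (nat_lit 166)) (XT.lf (nat_lit 0) (nat_lit 6612595533) (nat_lit 76) (nat_lit 1250912635) (nat_lit 152) (nat_lit 54704489285) (nat_lit 5) (nat_lit 5) (nat_lit 6) (nat_lit 5) (nat_lit 7) (nat_lit 4) (nat_lit 395) (nat_lit 220) (nat_lit 165)))) (XT.nd (nat_lit 156) (nat_lit 0) (nat_lit 0) (XT.nd (nat_lit 78) (nat_lit 0) (nat_lit 0) (XT.lf (nat_lit 0) (nat_lit 11301214168) (nat_lit 152) (nat_lit 50878519426) (nat_lit 0) (nat_lit 2158456093) (nat_lit 5) (nat_lit 5) (nat_lit 7) (nat_lit 4) (nat_lit 5) (nat_lit 4) (nat_lit 396) (nat_lit 220) (nat_lit 164)) (XT.lf (nat_lit 0)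 (nat_lit 14825517028) (nat_lit 152) (nat_lit 45716597866) (nat_lit 0) (nat_lit 5619873886) (nat_lit 5) (nat_lit 5) (nat_lit 7) (nat_lit 4) (nat_lit 5) (nat_lit 4) (nat_lit 397) (nat_lit 220) (nat_lit 163))) (XT.nd (nat_lit 78) (nat_lit 0) (nat_lit 0) (XT.lf (nat_lit 0) (nat_lit 18427471699) (nat_lit 152) (nat_lit 40453102285) (nat_lit 0) (nat_lit 9160775094) (nat_lit 5) (nat_lit 5) (nat_lit 7) (nat_lit 4) (nat_lit 5) (nat_lit 4) (nat_lit 398) (nat_lit 220) (nat_lit 162)) (XT.lf (nat_lit 0) (nat_lit 22110225521) (nat_lit 152) (nat_lit 35083433512) (nat_lit 0) (nat_lit 12784253710) (nat_lit 5) (nat_lit 5) (nat_lit 7) (nat_lit 4) (nat_lit 5) (nat_lit 4) (nat_lit 399) (nat_lit 220) (nat_lit 161))))) (XT.nd (nat_lit 234) (nat_lit 76) (nat_lit 0) (XT.nd (nat_lit 78) (nat_lit 0) (nat_lit 0) (XT.lf (nat_lit 0) (nat_lit 25876996434) (nat_lit 152) (nat_lit 29602899605) (nat_lit 0) (nat_lit 16493475878) (nat_lit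 5) (nat_lit 5) (nat_lit 7) (nat_lit 4) (nat_lit 5) (nat_lit 4) (nat_lit 400) (nat_lit 220) (nat_lit 160)) (XT.nd (nat_lit 78) (nat_lit 0) (nat_lit 0) (XT.lf (nat_lit 0) (nat_lit 29731075790) (nat_lit 152) (nat_lit 24006711747) (nat_lit 0) (nat_lit 20291682667) (nat_lit 5) (nat_lit 5) (nat_lit 7) (nat_lit 4) (nat_lit 5) (nat_lit 4) (nat_lit 401) (nat_lit 220) (nat_lit 159)) (XT.lf (nat_lit 0) (nat_lit 33675831232) (nat_lit 152) (nat_lit 18289980065) (nat_lit 0) (nat_lit 24182192898) (nat_lit 5) (nat_lit 5) (nat_lit 7) (nat_lit 4) (nat_lit 5) (nat_lit 4) (nat_lit 402) (nat_lit 220) (nat_lit 158)))) (XT.nd (nat_lit 156) (nat_lit 76) (nat_lit 0) (XT.nd (nat_lit 78) (nat_lit 0) (nat_lit 0) (XT.lf (nat_lit 0) (nat_lit 37714709634) (nat_lit 152) (nat_lit 12447709357) (nat_lit 0) (nat_lit 28168406047) (nat_lit 5) (nat_lit 5) (nat_lit 7) (nat_lit 4) (nat_lit 5) (nat_lit 4) (nat_lit 403) (nat_lit 220) (nat_lit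 157)) (XT.lf (nat_lit 0) (nat_lit 41851240113) (nat_lit 152) (nat_lit 6474794726) (nat_lit 0) (nat_lit 32253805212) (nat_lit 5) (nat_lit 5) (nat_lit 7) (nat_lit 4) (nat_lit 5) (nat_lit 4) (nat_lit 404) (nat_lit 220) (nat_lit 156))) (XT.nd (nat_lit 78) (nat_lit 76) (nat_lit 0) (XT.lf (nat_lit 0) (nat_lit 46089037113) (nat_lit 152) (nat_lit 366017120) (nat_lit 0) (nat_lit 36441960159) (nat_lit 5) (nat_lit 5) (nat_lit 7) (nat_lit 4) (nat_lit 5) (nat_lit 4) (nat_lit 405) (nat_lit 220) (nat_lit 155)) (XT.lf (nat_lit 0) (nat_lit 6001063591) (nat_lit 76) (nat_lit 44488425866) (nat_lit 76) (nat_lit 34793152744) (nat_lit 4) (nat_lit 4) (nat_lit 5) (nat_lit 5) (nat_lit 5) (nat_lit 4) (nat_lit 406) (nat_lit 220) (nat_lit 154)))))) (XT.nd (nat_lit 35334) (nat_lit 0) (nat_lit 1672) (XT.nd (nat_lit 234) (nat_lit 0) (nat_lit 0) (XT.nd (nat_lit 78) (nat_lit 0) (nat_lit 0) (XT.lf (nat_lit 0) (nat_lit 12525009509)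 (nat_lit 76) (nat_lit 42478722658) (nat_lit 76) (nat_lit 32736657141) (nat_lit 4) (nat_lit 4) (nat_lit 5) (nat_lit 5) (nat_lit 5) (nat_lit 4) (nat_lit 407) (nat_lit 220) (nat_lit 153)) (XT.nd (nat_lit 78) (nat_lit 0) (nat_lit 0) (XT.lf (nat_lit 0) (nat_lit 19204236708) (nat_lit 76) (nat_lit 40427884614) (nat_lit 76) (nat_lit 30640389587) (nat_lit 4) (nat_lit 4) (nat_lit 5) (nat_lit 5) (nat_lit 5) (nat_lit 4) (nat_lit 408) (nat_lit 220) (nat_lit 152)) (XT.lf (nat_lit 0) (nat_lit 26044581408) (nat_lit 76) (nat_lit 38334119740) (nat_lit 76) (nat_lit 28502518393) (nat_lit 4) (nat_lit 4) (nat_lit 5) (nat_lit 5) (nat_lit 5) (nat_lit 4) (nat_lit 409) (nat_lit 220) (nat_lit 151)))) (XT.nd (nat_lit 156) (nat_lit 0) (nat_lit 0) (XT.nd (nat_lit 78) (nat_lit 0) (nat_lit 0) (XT.lf (nat_lit 0) (nat_lit 33052020608) (nat_lit 76) (nat_lit 36195598533) (nat_lit 76) (nat_lit 26321175515) (nat_lit 4) (nat_lit 4) (nat_lit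 5) (nat_lit 5) (nat_lit 5) (nat_lit 4) (nat_lit 410) (nat_lit 220) (nat_lit 150)) (XT.lf (nat_lit 0) (nat_lit 40232677312) (nat_lit 76) (nat_lit 34010452381) (nat_lit 76) (nat_lit 24094454926) (nat_lit 4) (nat_lit 4) (nat_lit 5) (nat_lit 5) (nat_lit 5) (nat_lit 4) (nat_lit 411) (nat_lit 220) (nat_lit 149))) (XT.nd (nat_lit 34866) (nat_lit 0) (nat_lit 2280) (XT.lf (nat_lit 0) (nat_lit 47592825883) (nat_lit 76) (nat_lit 31776771935) (nat_lit 76) (nat_lit 21820410947) (nat_lit 4) (nat_lit 4) (nat_lit 5) (nat_lit 5) (nat_lit 5) (nat_lit 4) (nat_lit 412) (nat_lit 220) (nat_lit 148)) (XT.lf (nat_lit 0) (nat_lit 4004158475) (nat_lit 152) (nat_lit 1812646145) (nat_lit 152) (nat_lit 1812646145) (nat_lit 34) (nat_lit 4) (nat_lit 36) (nat_lit 5) (nat_lit 36) (nat_lit 4) (nat_lit 338) (nat_lit 221) (nat_lit 221))))) (XT.nd (nat_lit 312) (nat_lit 304) (nat_lit 0) (XT.nd (nat_lit 156) (nat_lit 152) (nat_lit 0)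 (XT.nd (nat_lit 78) (nat_lit 0) (nat_lit 0) (XT.lf (nat_lit 0) (nat_lit 879241931) (nat_lit 152) (nat_lit 14237543508) (nat_lit 0) (nat_lit 449738011) (nat_lit 32) (nat_lit 5) (nat_lit 34) (nat_lit 4) (nat_lit 32) (nat_lit 4) (nat_lit 339) (nat_lit 221) (nat_lit 220)) (XT.lf (nat_lit 0) (nat_lit 5457481259) (nat_lit 152) (nat_lit 5813523261) (nat_lit 0) (nat_lit 4610983241) (nat_lit 32) (nat_lit 5) (nat_lit 34) (nat_lit 4) (nat_lit 32) (nat_lit 4) (nat_lit 340) (nat_lit 221) (nat_lit 219))) (XT.nd (nat_lit 78) (nat_lit 0) (nat_lit 0) (XT.lf (nat_lit 0) (nat_lit 2747516850) (nat_lit 152) (nat_lit 7356426073) (nat_lit 152) (nat_lit 6105079417) (nat_lit 30) (nat_lit 4) (nat_lit 32) (nat_lit 5) (nat_lit 32) (nat_lit 4) (nat_lit 341) (nat_lit 221) (nat_lit 218)) (XT.lf (nat_lit 0) (nat_lit 11516904949) (nat_lit 152) (nat_lit 3337234012) (nat_lit 152) (nat_lit 1692830425) (nat_lit 30) (nat_lit 4) (nat_lit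 32) (nat_lit 5) (nat_lit 32) (nat_lit 4) (nat_lit 342) (nat_lit 221) (nat_lit 217)))) (XT.nd (nat_lit 156) (nat_lit 152) (nat_lit 0) (XT.nd (nat_lit 78) (nat_lit 0) (nat_lit 0) (XT.lf (nat_lit 0) (nat_lit 2745156752) (nat_lit 152) (nat_lit 13372480384) (nat_lit 0) (nat_lit 778154560) (nat_lit 28) (nat_lit 5) (nat_lit 30) (nat_lit 4) (nat_lit 28) (nat_lit 4) (nat_lit 343) (nat_lit 221) (nat_lit 216)) (XT.lf (nat_lit 0) (nat_lit 7274484841) (nat_lit 152) (nat_lit 5032573329) (nat_lit 0) (nat_lit 4947779877) (nat_lit 28) (nat_lit 5) (nat_lit 30) (nat_lit 4) (nat_lit 28) (nat_lit 4) (nat_lit 344) (nat_lit 221) (nat_lit 215))) (XT.nd (nat_lit 78) (nat_lit 0) (nat_lit 0) (XT.lf (nat_lit 0) (nat_lit 3464838866) (nat_lit 152) (nat_lit 8418729858) (nat_lit 152) (nat_lit 5742798902) (nat_lit 26) (nat_lit 4) (nat_lit 28) (nat_lit 5) (nat_lit 28) (nat_lit 4) (nat_lit 345) (nat_lit 221) (nat_lit 214)) (XT.lf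 (nat_lit 0) (nat_lit 12161604295) (nat_lit 152) (nat_lit 4431788688) (nat_lit 152) (nat_lit 1416803371) (nat_lit 26) (nat_lit 4) (nat_lit 28) (nat_lit 5) (nat_lit 28) (nat_lit 4) (nat_lit 346) (nat_lit 221) (nat_lit 213))))))))
noncomputable def xc25 : XT := (XT.nd (nat_lit 2184) (nat_lit 456) (nat_lit 0) (XT.nd (nat_lit 1092) (nat_lit 380) (nat_lit 0) (XT.nd (nat_lit 546) (nat_lit 304) (nat_lit 0) (XT.nd (nat_lit 234) (nat_lit 152) (nat_lit 0) (XT.nd (nat_lit 78) (nat_lit 152) (nat_lit 0) (XT.lf (nat_lit 0) (nat_lit 2578986611) (nat_lit 76) (nat_lit 338821723) (nat_lit 152) (nat_lit 15488736838) (nat_lit 24) (nat_lit 5) (nat_lit 25) (nat_lit 5) (nat_lit 26) (nat_lit 4) (nat_lit 347) (nat_lit 221) (nat_lit 212)) (XT.nd (nat_lit 78) (nat_lit 152) (nat_lit 0) (XT.lf (nat_lit 0) (nat_lit 7364620166) (nat_lit 152) (nat_lit 7641873359) (nat_lit 0) (nat_lit 3807575931) (nat_lit 24) (nat_lit 5) (nat_lit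 26) (nat_lit 4) (nat_lit 24) (nat_lit 4) (nat_lit 348) (nat_lit 221) (nat_lit 211)) (XT.lf (nat_lit 0) (nat_lit 646939451) (nat_lit 152) (nat_lit 11223709764) (nat_lit 152) (nat_lit 7365420121) (nat_lit 22) (nat_lit 4) (nat_lit 24) (nat_lit 5) (nat_lit 24) (nat_lit 4) (nat_lit 349) (nat_lit 221) (nat_lit 210)))) (XT.nd (nat_lit 156) (nat_lit 76) (nat_lit 0) (XT.nd (nat_lit 78) (nat_lit 76) (nat_lit 0) (XT.lf (nat_lit 0) (nat_lit 9190842542) (nat_lit 152) (nat_lit 7315419522) (nat_lit 152) (nat_lit 3164658609) (nat_lit 22) (nat_lit 4) (nat_lit 24) (nat_lit 5) (nat_lit 24) (nat_lit 4) (nat_lit 350) (nat_lit 221) (nat_lit 209)) (XT.lf (nat_lit 0) (nat_lit 1058276108) (nat_lit 228) (nat_lit 2286413102) (nat_lit 76) (nat_lit 16776250572) (nat_lit 21) (nat_lit 5) (nat_lit 24) (nat_lit 5) (nat_lit 22) (nat_lit 4) (nat_lit 351) (nat_lit 221) (nat_lit 208))) (XT.nd (nat_lit 78) (nat_lit 0) (nat_lit 0) (XT.lf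 (nat_lit 0) (nat_lit 5331531963) (nat_lit 152) (nat_lit 14494059731) (nat_lit 0) (nat_lit 758332132) (nat_lit 20) (nat_lit 5) (nat_lit 22) (nat_lit 4) (nat_lit 20) (nat_lit 4) (nat_lit 352) (nat_lit 221) (nat_lit 207)) (XT.lf (nat_lit 0) (nat_lit 9710928050) (nat_lit 152) (nat_lit 6472680703) (nat_lit 0) (nat_lit 4877871284) (nat_lit 20) (nat_lit 5) (nat_lit 22) (nat_lit 4) (nat_lit 20) (nat_lit 4) (nat_lit 353) (nat_lit 221) (nat_lit 206))))) (XT.nd (nat_lit 234) (nat_lit 152) (nat_lit 0) (XT.nd (nat_lit 78) (nat_lit 76) (nat_lit 0) (XT.lf (nat_lit 0) (nat_lit 1682827760) (nat_lit 76) (nat_lit 12478850682) (nat_lit 76) (nat_lit 7393505629) (nat_lit 19) (nat_lit 4) (nat_lit 20) (nat_lit 5) (nat_lit 20) (nat_lit 4) (nat_lit 354) (nat_lit 221) (nat_lit 205)) (XT.nd (nat_lit 78) (nat_lit 76) (nat_lit 0) (XT.lf (nat_lit 0) (nat_lit 10077701298) (nat_lit 76) (nat_lit 8658300634) (nat_lit 76) (nat_lit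 3328015497) (nat_lit 19) (nat_lit 4) (nat_lit 20) (nat_lit 5) (nat_lit 20) (nat_lit 4) (nat_lit 355) (nat_lit 221) (nat_lit 204)) (XT.lf (nat_lit 0) (nat_lit 768808596) (nat_lit 152) (nat_lit 4007409593) (nat_lit 76) (nat_lit 17813884142) (nat_lit 18) (nat_lit 5) (nat_lit 20) (nat_lit 5) (nat_lit 19) (nat_lit 4) (nat_lit 356) (nat_lit 221) (nat_lit 203)))) (XT.nd (nat_lit 156) (nat_lit 76) (nat_lit 0) (XT.nd (nat_lit 78) (nat_lit 0) (nat_lit 0) (XT.lf (nat_lit 0) (nat_lit 4126936746) (nat_lit 76) (nat_lit 762672766) (nat_lit 152) (nat_lit 18242350936) (nat_lit 17) (nat_lit 5) (nat_lit 18) (nat_lit 5) (nat_lit 19) (nat_lit 4) (nat_lit 357) (nat_lit 221) (nat_lit 202)) (XT.lf (nat_lit 0) (nat_lit 9135866554) (nat_lit 152) (nat_lit 11265998363) (nat_lit 0) (nat_lit 3288171951) (nat_lit 17) (nat_lit 5) (nat_lit 19) (nat_lit 4) (nat_lit 17) (nat_lit 4) (nat_lit 358) (nat_lit 221) (nat_lit 201))) (XT.nd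 (nat_lit 78) (nat_lit 76) (nat_lit 0) (XT.lf (nat_lit 0) (nat_lit 13447701024) (nat_lit 152) (nat_lit 3430306922) (nat_lit 0) (nat_lit 7388718952) (nat_lit 17) (nat_lit 5) (nat_lit 19) (nat_lit 4) (nat_lit 17) (nat_lit 4) (nat_lit 359) (nat_lit 221) (nat_lit 200)) (XT.lf (nat_lit 0) (nat_lit 4606110421) (nat_lit 76) (nat_lit 13259715597) (nat_lit 76) (nat_lit 6995600061) (nat_lit 16) (nat_lit 4) (nat_lit 17) (nat_lit 5) (nat_lit 17) (nat_lit 4) (nat_lit 360) (nat_lit 221) (nat_lit 199)))))) (XT.nd (nat_lit 546) (nat_lit 152) (nat_lit 0) (XT.nd (nat_lit 234) (nat_lit 76) (nat_lit 0) (XT.nd (nat_lit 78) (nat_lit 152) (nat_lit 0) (XT.lf (nat_lit 0) (nat_lit 12830929479) (nat_lit 76) (nat_lit 9553642360) (nat_lit 76) (nat_lit 3090368120) (nat_lit 16) (nat_lit 4) (nat_lit 17) (nat_lit 5) (nat_lit 17) (nat_lit 4) (nat_lit 361) (nat_lit 221) (nat_lit 198)) (XT.nd (nat_lit 78) (nat_lit 76) (nat_lit 0) (XT.lf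 (nat_lit 0) (nat_lit 848555004) (nat_lit 152) (nat_lit 4934065545) (nat_lit 76) (nat_lit 20325943405) (nat_lit 15) (nat_lit 5) (nat_lit 17) (nat_lit 5) (nat_lit 16) (nat_lit 4) (nat_lit 362) (nat_lit 221) (nat_lit 197)) (XT.lf (nat_lit 0) (nat_lit 2916263296) (nat_lit 76) (nat_lit 1891924722) (nat_lit 152) (nat_lit 21953165725) (nat_lit 14) (nat_lit 5) (nat_lit 15) (nat_lit 5) (nat_lit 16) (nat_lit 4) (nat_lit 363) (nat_lit 221) (nat_lit 196)))) (XT.nd (nat_lit 156) (nat_lit 76) (nat_lit 0) (XT.nd (nat_lit 78) (nat_lit 0) (nat_lit 0) (XT.lf (nat_lit 0) (nat_lit 8894102347) (nat_lit 152) (nat_lit 16467270076) (nat_lit 0) (nat_lit 2072144280) (nat_lit 14) (nat_lit 5) (nat_lit 16) (nat_lit 4) (nat_lit 14) (nat_lit 4) (nat_lit 364) (nat_lit 221) (nat_lit 195)) (XT.lf (nat_lit 0) (nat_lit 13060004888) (nat_lit 152) (nat_lit 9000880397) (nat_lit 0) (nat_lit 6066250774) (nat_lit 14) (nat_lit 5) (nat_lit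 16) (nat_lit 4) (nat_lit 14) (nat_lit 4) (nat_lit 365) (nat_lit 221) (nat_lit 194))) (XT.nd (nat_lit 78) (nat_lit 76) (nat_lit 0) (XT.lf (nat_lit 0) (nat_lit 17291349414) (nat_lit 152) (nat_lit 1421211042) (nat_lit 0) (nat_lit 10130803021) (nat_lit 14) (nat_lit 5) (nat_lit 16) (nat_lit 4) (nat_lit 14) (nat_lit 4) (nat_lit 366) (nat_lit 221) (nat_lit 193)) (XT.lf (nat_lit 0) (nat_lit 6403312694) (nat_lit 76) (nat_lit 15250073079) (nat_lit 76) (nat_lit 7927592435) (nat_lit 13) (nat_lit 4) (nat_lit 14) (nat_lit 5) (nat_lit 14) (nat_lit 4) (nat_lit 367) (nat_lit 221) (nat_lit 192))))) (XT.nd (nat_lit 234) (nat_lit 76) (nat_lit 0) (XT.nd (nat_lit 78) (nat_lit 76) (nat_lit 0) (XT.lf (nat_lit 0) (nat_lit 14385271981) (nat_lit 76) (nat_lit 11718222049) (nat_lit 76) (nat_lit 4238523685) (nat_lit 13) (nat_lit 4) (nat_lit 14) (nat_lit 5) (nat_lit 14) (nat_lit 4) (nat_lit 368) (nat_lit 221) (nat_lit 191)) (XT.nd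 (nat_lit 78) (nat_lit 76) (nat_lit 0) (XT.lf (nat_lit 0) (nat_lit 22503356460) (nat_lit 76) (nat_lit 8128272726) (nat_lit 76) (nat_lit 495935800) (nat_lit 13) (nat_lit 4) (nat_lit 14) (nat_lit 5) (nat_lit 14) (nat_lit 4) (nat_lit 369) (nat_lit 221) (nat_lit 190)) (XT.lf (nat_lit 0) (nat_lit 3238979400) (nat_lit 152) (nat_lit 1205401521) (nat_lit 76) (nat_lit 27492972860) (nat_lit 12) (nat_lit 5) (nat_lit 14) (nat_lit 5) (nat_lit 13) (nat_lit 4) (nat_lit 370) (nat_lit 221) (nat_lit 189)))) (XT.nd (nat_lit 156) (nat_lit 0) (nat_lit 0) (XT.nd (nat_lit 78) (nat_lit 0) (nat_lit 0) (XT.lf (nat_lit 0) (nat_lit 6458626197) (nat_lit 76) (nat_lit 626611432) (nat_lit 152) (nat_lit 25685784649) (nat_lit 11) (nat_lit 5) (nat_lit 12) (nat_lit 5) (nat_lit 13) (nat_lit 4) (nat_lit 371) (nat_lit 221) (nat_lit 188)) (XT.lf (nat_lit 0) (nat_lit 11038297762) (nat_lit 152) (nat_lit 19382589426) (nat_lit 0) (nat_lit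 3209082133) (nat_lit 11) (nat_lit 5) (nat_lit 13) (nat_lit 4) (nat_lit 11) (nat_lit 4) (nat_lit 372) (nat_lit 221) (nat_lit 187))) (XT.nd (nat_lit 78) (nat_lit 0) (nat_lit 0) (XT.lf (nat_lit 0) (nat_lit 15065032532) (nat_lit 152) (nat_lit 12346860820) (nat_lit 0) (nat_lit 7104149538) (nat_lit 11) (nat_lit 5) (nat_lit 13) (nat_lit 4) (nat_lit 11) (nat_lit 4) (nat_lit 373) (nat_lit 221) (nat_lit 186)) (XT.lf (nat_lit 0) (nat_lit 19162937074) (nat_lit 152) (nat_lit 5193039166) (nat_lit 0) (nat_lit 11074221687) (nat_lit 11) (nat_lit 5) (nat_lit 13) (nat_lit 4) (nat_lit 11) (nat_lit 4) (nat_lit 374) (nat_lit 221) (nat_lit 185))))))) (XT.nd (nat_lit 1092) (nat_lit 152) (nat_lit 0) (XT.nd (nat_lit 546) (nat_lit 76) (nat_lit 0) (XT.nd (nat_lit 234) (nat_lit 152) (nat_lit 0) (XT.nd (nat_lit 78) (nat_lit 0) (nat_lit 0) (XT.lf (nat_lit 0) (nat_lit 2126624553) (nat_lit 76) (nat_lit 21229409944) (nat_lit 76)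 (nat_lit 13016585437) (nat_lit 10) (nat_lit 4) (nat_lit 11) (nat_lit 5) (nat_lit 11) (nat_lit 4) (nat_lit 375) (nat_lit 221) (nat_lit 184)) (XT.nd (nat_lit 78) (nat_lit 0) (nat_lit 0) (XT.lf (nat_lit 0) (nat_lit 9682944714) (nat_lit 76) (nat_lit 17996777236) (nat_lit 76) (nat_lit 9663458439) (nat_lit 10) (nat_lit 4) (nat_lit 11) (nat_lit 5) (nat_lit 11) (nat_lit 4) (nat_lit 376) (nat_lit 221) (nat_lit 183)) (XT.lf (nat_lit 0) (nat_lit 17379172264) (nat_lit 76) (nat_lit 14707693001) (nat_lit 76) (nat_lit 6257389455) (nat_lit 10) (nat_lit 4) (nat_lit 11) (nat_lit 5) (nat_lit 11) (nat_lit 4) (nat_lit 377) (nat_lit 221) (nat_lit 182)))) (XT.nd (nat_lit 156) (nat_lit 76) (nat_lit 0) (XT.nd (nat_lit 78) (nat_lit 76) (nat_lit 0) (XT.lf (nat_lit 0) (nat_lit 25222032061) (nat_lit 76) (nat_lit 11359283279) (nat_lit 76) (nat_lit 2795402308) (nat_lit 10) (nat_lit 4) (nat_lit 11) (nat_lit 5) (nat_lit 11) (nat_lit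 4) (nat_lit 378) (nat_lit 221) (nat_lit 181)) (XT.lf (nat_lit 0) (nat_lit 711370373) (nat_lit 152) (nat_lit 7230068458) (nat_lit 76) (nat_lit 32499823272) (nat_lit 9) (nat_lit 5) (nat_lit 11) (nat_lit 5) (nat_lit 10) (nat_lit 4) (nat_lit 379) (nat_lit 221) (nat_lit 180))) (XT.nd (nat_lit 78) (nat_lit 76) (nat_lit 0) (XT.lf (nat_lit 0) (nat_lit 4224404199) (nat_lit 152) (nat_lit 205667407) (nat_lit 76) (nat_lit 37108132052) (nat_lit 9) (nat_lit 5) (nat_lit 11) (nat_lit 5) (nat_lit 10) (nat_lit 4) (nat_lit 380) (nat_lit 221) (nat_lit 179)) (XT.lf (nat_lit 0) (nat_lit 7089875516) (nat_lit 76) (nat_lit 779593884) (nat_lit 152) (nat_lit 34797792974) (nat_lit 8) (nat_lit 5) (nat_lit 9) (nat_lit 5) (nat_lit 10) (nat_lit 4) (nat_lit 381) (nat_lit 221) (nat_lit 178))))) (XT.nd (nat_lit 234) (nat_lit 76) (nat_lit 0) (XT.nd (nat_lit 78) (nat_lit 0) (nat_lit 0) (XT.lf (nat_lit 0) (nat_lit 11613241429) (nat_lit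 152) (nat_lit 29328366787) (nat_lit 0) (nat_lit 2888911876) (nat_lit 8) (nat_lit 5) (nat_lit 10) (nat_lit 4) (nat_lit 8) (nat_lit 4) (nat_lit 382) (nat_lit 221) (nat_lit 177)) (XT.nd (nat_lit 78) (nat_lit 0) (nat_lit 0) (XT.lf (nat_lit 0) (nat_lit 15436859020) (nat_lit 152) (nat_lit 22975388045) (nat_lit 0) (nat_lit 6617410162) (nat_lit 8) (nat_lit 5) (nat_lit 10) (nat_lit 4) (nat_lit 8) (nat_lit 4) (nat_lit 383) (nat_lit 221) (nat_lit 176)) (XT.lf (nat_lit 0) (nat_lit 19336169267) (nat_lit 152) (nat_lit 16505405553) (nat_lit 0) (nat_lit 10424371568) (nat_lit 8) (nat_lit 5) (nat_lit 10) (nat_lit 4) (nat_lit 8) (nat_lit 4) (nat_lit 384) (nat_lit 221) (nat_lit 175)))) (XT.nd (nat_lit 156) (nat_lit 76) (nat_lit 0) (XT.nd (nat_lit 78) (nat_lit 0) (nat_lit 0) (XT.lf (nat_lit 0) (nat_lit 23314579333) (nat_lit 152) (nat_lit 9912765928) (nat_lit 0) (nat_lit 14313122565) (nat_lit 8) (nat_lit 5) (nat_lit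 10) (nat_lit 4) (nat_lit 8) (nat_lit 4) (nat_lit 385) (nat_lit 221) (nat_lit 174)) (XT.lf (nat_lit 0) (nat_lit 27375565499) (nat_lit 152) (nat_lit 3191708611) (nat_lit 0) (nat_lit 18287061092) (nat_lit 8) (nat_lit 5) (nat_lit 10) (nat_lit 4) (nat_lit 8) (nat_lit 4) (nat_lit 386) (nat_lit 221) (nat_lit 173))) (XT.nd (nat_lit 78) (nat_lit 0) (nat_lit 0) (XT.lf (nat_lit 0) (nat_lit 3736552769) (nat_lit 76) (nat_lit 27822041461) (nat_lit 76) (nat_lit 18649024783) (nat_lit 7) (nat_lit 4) (nat_lit 8) (nat_lit 5) (nat_lit 8) (nat_lit 4) (nat_lit 387) (nat_lit 221) (nat_lit 172)) (XT.lf (nat_lit 0) (nat_lit 10871407838) (nat_lit 76) (nat_lit 24992629908) (nat_lit 76) (nat_lit 15737562480) (nat_lit 7) (nat_lit 4) (nat_lit 8) (nat_lit 5) (nat_lit 8) (nat_lit 4) (nat_lit 388) (nat_lit 221) (nat_lit 171)))))) (XT.nd (nat_lit 546) (nat_lit 0) (nat_lit 0) (XT.nd (nat_lit 234) (nat_lit 152) (nat_lit 0) (XT.nd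 (nat_lit 78) (nat_lit 0) (nat_lit 0) (XT.lf (nat_lit 0) (nat_lit 18155569675) (nat_lit 76) (nat_lit 22108797148) (nat_lit 76) (nat_lit 12774068799) (nat_lit 7) (nat_lit 4) (nat_lit 8) (nat_lit 5) (nat_lit 8) (nat_lit 4) (nat_lit 389) (nat_lit 221) (nat_lit 170)) (XT.nd (nat_lit 78) (nat_lit 0) (nat_lit 0) (XT.lf (nat_lit 0) (nat_lit 25595403081) (nat_lit 76) (nat_lit 19168023327) (nat_lit 76) (nat_lit 9755954278) (nat_lit 7) (nat_lit 4) (nat_lit 8) (nat_lit 5) (nat_lit 8) (nat_lit 4) (nat_lit 390) (nat_lit 221) (nat_lit 169)) (XT.lf (nat_lit 0) (nat_lit 33197408883) (nat_lit 76) (nat_lit 16167738837) (nat_lit 76) (nat_lit 6680581730) (nat_lit 7) (nat_lit 4) (nat_lit 8) (nat_lit 5) (nat_lit 8) (nat_lit 4) (nat_lit 391) (nat_lit 221) (nat_lit 168)))) (XT.nd (nat_lit 156) (nat_lit 152) (nat_lit 0) (XT.nd (nat_lit 78) (nat_lit 0) (nat_lit 0) (XT.lf (nat_lit 0) (nat_lit 40968229609) (nat_lit 76) (nat_lit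 13105322071) (nat_lit 76) (nat_lit 3545263936) (nat_lit 7) (nat_lit 4) (nat_lit 8) (nat_lit 5) (nat_lit 8) (nat_lit 4) (nat_lit 392) (nat_lit 221) (nat_lit 167)) (XT.lf (nat_lit 0) (nat_lit 48914655296) (nat_lit 76) (nat_lit 9978097130) (nat_lit 76) (nat_lit 347261298) (nat_lit 7) (nat_lit 4) (nat_lit 8) (nat_lit 5) (nat_lit 8) (nat_lit 4) (nat_lit 393) (nat_lit 221) (nat_lit 166))) (XT.nd (nat_lit 78) (nat_lit 76) (nat_lit 0) (XT.lf (nat_lit 0) (nat_lit 2859314587) (nat_lit 152) (nat_lit 3895143429) (nat_lit 76) (nat_lit 54155441366) (nat_lit 6) (nat_lit 5) (nat_lit 8) (nat_lit 5) (nat_lit 7) (nat_lit 4) (nat_lit 394) (nat_lit 221) (nat_lit 165)) (XT.lf (nat_lit 0) (nat_lit 2722872745) (nat_lit 76) (nat_lit 3429412749) (nat_lit 152) (nat_lit 56477582862) (nat_lit 5) (nat_lit 5) (nat_lit 6) (nat_lit 5) (nat_lit 7) (nat_lit 4) (nat_lit 395) (nat_lit 221) (nat_lit 164))))) (XT.nd (nat_lit 312) (nat_lit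 0) (nat_lit 0) (XT.nd (nat_lit 156) (nat_lit 0) (nat_lit 0) (XT.nd (nat_lit 78) (nat_lit 0) (nat_lit 0) (XT.lf (nat_lit 0) (nat_lit 9554804313) (nat_lit 152) (nat_lit 54836207575) (nat_lit 0) (nat_lit 10106810) (nat_lit 5) (nat_lit 5) (nat_lit 7) (nat_lit 4) (nat_lit 5) (nat_lit 4) (nat_lit 396) (nat_lit 221) (nat_lit 163)) (XT.lf (nat_lit 0) (nat_lit 13065276003) (nat_lit 152) (nat_lit 49700534107) (nat_lit 0) (nat_lit 3459525037) (nat_lit 5) (nat_lit 5) (nat_lit 7) (nat_lit 4) (nat_lit 5) (nat_lit 4) (nat_lit 397) (nat_lit 221) (nat_lit 162))) (XT.nd (nat_lit 78) (nat_lit 0) (nat_lit 0) (XT.lf (nat_lit 0) (nat_lit 16653802355) (nat_lit 152) (nat_lit 44462522110) (nat_lit 0) (nat_lit 6988776182) (nat_lit 5) (nat_lit 5) (nat_lit 7) (nat_lit 4) (nat_lit 5) (nat_lit 4) (nat_lit 398) (nat_lit 221) (nat_lit 161)) (XT.lf (nat_lit 0) (nat_lit 20323518973) (nat_lit 152) (nat_lit 39117594682) (nat_lit 0)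 (nat_lit 10600944056) (nat_lit 5) (nat_lit 5) (nat_lit 7) (nat_lit 4) (nat_lit 5) (nat_lit 4) (nat_lit 399) (nat_lit 221) (nat_lit 160)))) (XT.nd (nat_lit 156) (nat_lit 0) (nat_lit 0) (XT.nd (nat_lit 78) (nat_lit 0) (nat_lit 0) (XT.lf (nat_lit 0) (nat_lit 24077632406) (nat_lit 152) (nat_lit 33661081497) (nat_lit 0) (nat_lit 14299184921) (nat_lit 5) (nat_lit 5) (nat_lit 7) (nat_lit 4) (nat_lit 5) (nat_lit 4) (nat_lit 400) (nat_lit 221) (nat_lit 159)) (XT.lf (nat_lit 0) (nat_lit 27919422947) (nat_lit 152) (nat_lit 28088214728) (nat_lit 0) (nat_lit 18086730251) (nat_lit 5) (nat_lit 5) (nat_lit 7) (nat_lit 4) (nat_lit 5) (nat_lit 4) (nat_lit 401) (nat_lit 221) (nat_lit 158))) (XT.nd (nat_lit 78) (nat_lit 0) (nat_lit 0) (XT.lf (nat_lit 0) (nat_lit 31852247501) (nat_lit 152) (nat_lit 22394124881) (nat_lit 0) (nat_lit 21966889552) (nat_lit 5) (nat_lit 5) (nat_lit 7) (nat_lit 4) (nat_lit 5) (nat_lit 4)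 (nat_lit 402) (nat_lit 221) (nat_lit 157)) (XT.lf (nat_lit 0) (nat_lit 35879542516) (nat_lit 152) (nat_lit 16573836537) (nat_lit 0) (nat_lit 25943053253) (nat_lit 5) (nat_lit 5) (nat_lit 7) (nat_lit 4) (nat_lit 5) (nat_lit 4) (nat_lit 403) (nat_lit 221) (nat_lit 156))))))))
noncomputable def xc26 : XT := (XT.nd (nat_lit 36816) (nat_lit 0) (nat_lit 304) (XT.nd (nat_lit 35724) (nat_lit 0) (nat_lit 1140) (XT.nd (nat_lit 546) (nat_lit 0) (nat_lit 0) (XT.nd (nat_lit 234) (nat_lit 0) (nat_lit 0) (XT.nd (nat_lit 78) (nat_lit 76) (nat_lit 0) (XT.lf (nat_lit 0) (nat_lit 40004826988) (nat_lit 152) (nat_lit 10622264006) (nat_lit 0) (nat_lit 30018695673) (nat_lit 5) (nat_lit 5) (nat_lit 7) (nat_lit 4) (nat_lit 5) (nat_lit 4) (nat_lit 404) (nat_lit 221) (nat_lit 155)) (XT.nd (nat_lit 78) (nat_lit 76) (nat_lit 0) (XT.lf (nat_lit 0) (nat_lit 44231705535) (nat_lit 152) (nat_lit 4534206887) (nat_lit 0) (nat_lit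 34197378052) (nat_lit 5) (nat_lit 5) (nat_lit 7) (nat_lit 4) (nat_lit 5) (nat_lit 4) (nat_lit 405) (nat_lit 221) (nat_lit 154)) (XT.lf (nat_lit 0) (nat_lit 1729401332) (nat_lit 76) (nat_lit 46851094277) (nat_lit 76) (nat_lit 36769974399) (nat_lit 4) (nat_lit 4) (nat_lit 5) (nat_lit 5) (nat_lit 5) (nat_lit 4) (nat_lit 406) (nat_lit 221) (nat_lit 153)))) (XT.nd (nat_lit 156) (nat_lit 0) (nat_lit 0) (XT.nd (nat_lit 78) (nat_lit 0) (nat_lit 0) (XT.lf (nat_lit 0) (nat_lit 8233427498) (nat_lit 76) (nat_lit 44850827650) (nat_lit 76) (nat_lit 34724278262) (nat_lit 4) (nat_lit 4) (nat_lit 5) (nat_lit 5) (nat_lit 5) (nat_lit 4) (nat_lit 407) (nat_lit 221) (nat_lit 152)) (XT.lf (nat_lit 0) (nat_lit 14893315133) (nat_lit 76) (nat_lit 42809151336) (nat_lit 76) (nat_lit 32638495627) (nat_lit 4) (nat_lit 4) (nat_lit 5) (nat_lit 5) (nat_lit 5) (nat_lit 4) (nat_lit 408) (nat_lit 221) (nat_lit 151))) (XT.nd (nat_lit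 78) (nat_lit 0) (nat_lit 0) (XT.lf (nat_lit 0) (nat_lit 21714883556) (nat_lit 76) (nat_lit 40724281345) (nat_lit 76) (nat_lit 30510803966) (nat_lit 4) (nat_lit 4) (nat_lit 5) (nat_lit 5) (nat_lit 5) (nat_lit 4) (nat_lit 409) (nat_lit 221) (nat_lit 150)) (XT.lf (nat_lit 0) (nat_lit 28704093361) (nat_lit 76) (nat_lit 38594395947) (nat_lit 76) (nat_lit 28339344130) (nat_lit 4) (nat_lit 4) (nat_lit 5) (nat_lit 5) (nat_lit 5) (nat_lit 4) (nat_lit 410) (nat_lit 221) (nat_lit 149))))) (XT.nd (nat_lit 34866) (nat_lit 0) (nat_lit 2128) (XT.nd (nat_lit 78) (nat_lit 0) (nat_lit 0) (XT.lf (nat_lit 0) (nat_lit 35867051625) (nat_lit 76) (nat_lit 36417634076) (nat_lit 76) (nat_lit 26122218727) (nat_lit 4) (nat_lit 4) (nat_lit 5) (nat_lit 5) (nat_lit 5) (nat_lit 4) (nat_lit 411) (nat_lit 221) (nat_lit 148)) (XT.nd (nat_lit 34710) (nat_lit 0) (nat_lit 2432) (XT.lf (nat_lit 0) (nat_lit 43210017243) (nat_lit 76) (nat_lit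 34192093707) (nat_lit 76) (nat_lit 23857490464) (nat_lit 4) (nat_lit 4) (nat_lit 5) (nat_lit 5) (nat_lit 5) (nat_lit 4) (nat_lit 412) (nat_lit 221) (nat_lit 147)) (XT.lf (nat_lit 0) (nat_lit 1367339439) (nat_lit 228) (nat_lit 4601945186) (nat_lit 0) (nat_lit 1367339439) (nat_lit 36) (nat_lit 5) (nat_lit 39) (nat_lit 4) (nat_lit 36) (nat_lit 4) (nat_lit 336) (nat_lit 222) (nat_lit 222)))) (XT.nd (nat_lit 156) (nat_lit 152) (nat_lit 0) (XT.nd (nat_lit 78) (nat_lit 152) (nat_lit 0) (XT.lf (nat_lit 0) (nat_lit 7328988952) (nat_lit 228) (nat_lit 759837133) (nat_lit 0) (nat_lit 6873328243) (nat_lit 36) (nat_lit 5) (nat_lit 39) (nat_lit 4) (nat_lit 36) (nat_lit 4) (nat_lit 337) (nat_lit 222) (nat_lit 221)) (XT.lf (nat_lit 0) (nat_lit 7923663243) (nat_lit 152) (nat_lit 4117376248) (nat_lit 152) (nat_lit 3219326500) (nat_lit 34) (nat_lit 4) (nat_lit 36) (nat_lit 5) (nat_lit 36) (nat_lit 4) (nat_lit 338)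 (nat_lit 222) (nat_lit 220))) (XT.nd (nat_lit 78) (nat_lit 0) (nat_lit 0) (XT.lf (nat_lit 0) (nat_lit 1156908418) (nat_lit 76) (nat_lit 66964530) (nat_lit 152) (nat_lit 14345616814) (nat_lit 32) (nat_lit 5) (nat_lit 33) (nat_lit 5) (nat_lit 34) (nat_lit 4) (nat_lit 339) (nat_lit 222) (nat_lit 219)) (XT.lf (nat_lit 0) (nat_lit 5754406673) (nat_lit 152) (nat_lit 6071323646) (nat_lit 0) (nat_lit 4060670978) (nat_lit 32) (nat_lit 5) (nat_lit 34) (nat_lit 4) (nat_lit 32) (nat_lit 4) (nat_lit 340) (nat_lit 222) (nat_lit 218)))))) (XT.nd (nat_lit 546) (nat_lit 380) (nat_lit 0) (XT.nd (nat_lit 234) (nat_lit 304) (nat_lit 0) (XT.nd (nat_lit 78) (nat_lit 152) (nat_lit 0) (XT.lf (nat_lit 0) (nat_lit 2401997188) (nat_lit 152) (nat_lit 7949858638) (nat_lit 152) (nat_lit 5863066013) (nat_lit 30) (nat_lit 4) (nat_lit 32) (nat_lit 5) (nat_lit 32) (nat_lit 4) (nat_lit 341) (nat_lit 222) (nat_lit 217)) (XT.nd (nat_lit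 78) (nat_lit 152) (nat_lit 0) (XT.lf (nat_lit 0) (nat_lit 11091202234) (nat_lit 152) (nat_lit 3965718507) (nat_lit 152) (nat_lit 1497317211) (nat_lit 30) (nat_lit 4) (nat_lit 32) (nat_lit 5) (nat_lit 32) (nat_lit 4) (nat_lit 342) (nat_lit 222) (nat_lit 216)) (XT.lf (nat_lit 0) (nat_lit 2881150662) (nat_lit 152) (nat_lit 13898596829) (nat_lit 0) (nat_lit 124941778) (nat_lit 28) (nat_lit 5) (nat_lit 30) (nat_lit 4) (nat_lit 28) (nat_lit 4) (nat_lit 343) (nat_lit 222) (nat_lit 215)))) (XT.nd (nat_lit 156) (nat_lit 152) (nat_lit 0) (XT.nd (nat_lit 78) (nat_lit 152) (nat_lit 0) (XT.lf (nat_lit 0) (nat_lit 7366424467) (nat_lit 152) (nat_lit 5637657043) (nat_lit 0) (nat_lit 4260989591) (nat_lit 28) (nat_lit 5) (nat_lit 30) (nat_lit 4) (nat_lit 28) (nat_lit 4) (nat_lit 344) (nat_lit 222) (nat_lit 214)) (XT.lf (nat_lit 0) (nat_lit 2769519719) (nat_lit 152) (nat_lit 9156533647) (nat_lit 152) (nat_lit 5712044410)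 (nat_lit 26) (nat_lit 4) (nat_lit 28) (nat_lit 5) (nat_lit 28) (nat_lit 4) (nat_lit 345) (nat_lit 222) (nat_lit 213))) (XT.nd (nat_lit 78) (nat_lit 152) (nat_lit 0) (XT.lf (nat_lit 0) (nat_lit 11390369536) (nat_lit 152) (nat_lit 5203252952) (nat_lit 152) (nat_lit 1429584724) (nat_lit 26) (nat_lit 4) (nat_lit 28) (nat_lit 5) (nat_lit 28) (nat_lit 4) (nat_lit 346) (nat_lit 222) (nat_lit 212)) (XT.lf (nat_lit 0) (nat_lit 1703233171) (nat_lit 76) (nat_lit 1152181928) (nat_lit 152) (nat_lit 15565652760) (nat_lit 24) (nat_lit 5) (nat_lit 25) (nat_lit 5) (nat_lit 26) (nat_lit 4) (nat_lit 347) (nat_lit 222) (nat_lit 211))))) (XT.nd (nat_lit 234) (nat_lit 228) (nat_lit 0) (XT.nd (nat_lit 78) (nat_lit 152) (nat_lit 0) (XT.lf (nat_lit 0) (nat_lit 7253147044) (nat_lit 152) (nat_lit 8599066140) (nat_lit 0) (nat_lit 2977863304) (nat_lit 24) (nat_lit 5) (nat_lit 26) (nat_lit 4) (nat_lit 24) (nat_lit 4) (nat_lit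 348) (nat_lit 222) (nat_lit 210)) (XT.nd (nat_lit 78) (nat_lit 152) (nat_lit 0) (XT.lf (nat_lit 0) (nat_lit 11712897733) (nat_lit 152) (nat_lit 395435864) (nat_lit 0) (nat_lit 7145142722) (nat_lit 24) (nat_lit 5) (nat_lit 26) (nat_lit 4) (nat_lit 24) (nat_lit 4) (nat_lit 349) (nat_lit 222) (nat_lit 209)) (XT.lf (nat_lit 0) (nat_lit 8068750216) (nat_lit 152) (nat_lit 8236300104) (nat_lit 152) (nat_lit 3384592403) (nat_lit 22) (nat_lit 4) (nat_lit 24) (nat_lit 5) (nat_lit 24) (nat_lit 4) (nat_lit 350) (nat_lit 222) (nat_lit 208)))) (XT.nd (nat_lit 156) (nat_lit 76) (nat_lit 0) (XT.nd (nat_lit 78) (nat_lit 76) (nat_lit 0) (XT.lf (nat_lit 0) (nat_lit 803812271) (nat_lit 228) (nat_lit 3495651011) (nat_lit 76) (nat_lit 15841437241) (nat_lit 21) (nat_lit 5) (nat_lit 24) (nat_lit 5) (nat_lit 22) (nat_lit 4) (nat_lit 351) (nat_lit 222) (nat_lit 207)) (XT.lf (nat_lit 0) (nat_lit 4794371524) (nat_lit 76) (nat_lit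 225044283) (nat_lit 152) (nat_lit 15586208636) (nat_lit 20) (nat_lit 5) (nat_lit 21) (nat_lit 5) (nat_lit 22) (nat_lit 4) (nat_lit 352) (nat_lit 222) (nat_lit 206))) (XT.nd (nat_lit 78) (nat_lit 76) (nat_lit 0) (XT.lf (nat_lit 0) (nat_lit 9359109742) (nat_lit 152) (nat_lit 7856355932) (nat_lit 0) (nat_lit 3868916050) (nat_lit 20) (nat_lit 5) (nat_lit 22) (nat_lit 4) (nat_lit 20) (nat_lit 4) (nat_lit 353) (nat_lit 222) (nat_lit 205)) (XT.lf (nat_lit 0) (nat_lit 203642371) (nat_lit 76) (nat_lit 13555553404) (nat_lit 76) (nat_lit 7820419628) (nat_lit 19) (nat_lit 4) (nat_lit 20) (nat_lit 5) (nat_lit 20) (nat_lit 4) (nat_lit 354) (nat_lit 222) (nat_lit 204))))))) (XT.nd (nat_lit 1092) (nat_lit 380) (nat_lit 0) (XT.nd (nat_lit 546) (nat_lit 228) (nat_lit 0) (XT.nd (nat_lit 234) (nat_lit 76) (nat_lit 0) (XT.nd (nat_lit 78) (nat_lit 152) (nat_lit 0) (XT.lf (nat_lit 0) (nat_lit 8532523375) (nat_lit 76)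 (nat_lit 9764977526) (nat_lit 76) (nat_lit 3792037843) (nat_lit 19) (nat_lit 4) (nat_lit 20) (nat_lit 5) (nat_lit 20) (nat_lit 4) (nat_lit 355) (nat_lit 222) (nat_lit 203)) (XT.nd (nat_lit 78) (nat_lit 76) (nat_lit 0) (XT.lf (nat_lit 0) (nat_lit 278516503) (nat_lit 152) (nat_lit 5638430702) (nat_lit 76) (nat_lit 16699878879) (nat_lit 18) (nat_lit 5) (nat_lit 20) (nat_lit 5) (nat_lit 19) (nat_lit 4) (nat_lit 356) (nat_lit 222) (nat_lit 202)) (XT.lf (nat_lit 0) (nat_lit 2399307903) (nat_lit 76) (nat_lit 1949106866) (nat_lit 152) (nat_lit 18811805143) (nat_lit 17) (nat_lit 5) (nat_lit 18) (nat_lit 5) (nat_lit 19) (nat_lit 4) (nat_lit 357) (nat_lit 222) (nat_lit 201)))) (XT.nd (nat_lit 156) (nat_lit 76) (nat_lit 0) (XT.nd (nat_lit 78) (nat_lit 0) (nat_lit 0) (XT.lf (nat_lit 0) (nat_lit 8549098854) (nat_lit 152) (nat_lit 13073513192) (nat_lit 0) (nat_lit 2097059852) (nat_lit 17) (nat_lit 5) (nat_lit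 19) (nat_lit 4) (nat_lit 17) (nat_lit 4) (nat_lit 358) (nat_lit 222) (nat_lit 200)) (XT.lf (nat_lit 0) (nat_lit 12827760290) (nat_lit 152) (nat_lit 5299017143) (nat_lit 0) (nat_lit 6170587823) (nat_lit 17) (nat_lit 5) (nat_lit 19) (nat_lit 4) (nat_lit 17) (nat_lit 4) (nat_lit 359) (nat_lit 222) (nat_lit 199))) (XT.nd (nat_lit 78) (nat_lit 0) (nat_lit 0) (XT.lf (nat_lit 0) (nat_lit 2639613766) (nat_lit 76) (nat_lit 14555161520) (nat_lit 76) (nat_lit 7698830350) (nat_lit 16) (nat_lit 4) (nat_lit 17) (nat_lit 5) (nat_lit 17) (nat_lit 4) (nat_lit 360) (nat_lit 222) (nat_lit 198)) (XT.lf (nat_lit 0) (nat_lit 10805602303) (nat_lit 76) (nat_lit 10876084521) (nat_lit 76) (nat_lit 3826395387) (nat_lit 16) (nat_lit 4) (nat_lit 17) (nat_lit 5) (nat_lit 17) (nat_lit 4) (nat_lit 361) (nat_lit 222) (nat_lit 197))))) (XT.nd (nat_lit 234) (nat_lit 76) (nat_lit 0) (XT.nd (nat_lit 78) (nat_lit 76) (nat_lit 0) (XT.lf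 (nat_lit 0) (nat_lit 95669900) (nat_lit 152) (nat_lit 7043205414) (nat_lit 76) (nat_lit 19003986985) (nat_lit 15) (nat_lit 5) (nat_lit 17) (nat_lit 5) (nat_lit 16) (nat_lit 4) (nat_lit 362) (nat_lit 222) (nat_lit 196)) (XT.nd (nat_lit 78) (nat_lit 0) (nat_lit 0) (XT.lf (nat_lit 0) (nat_lit 707967955) (nat_lit 76) (nat_lit 3295796426) (nat_lit 152) (nat_lit 22793440882) (nat_lit 14) (nat_lit 5) (nat_lit 15) (nat_lit 5) (nat_lit 16) (nat_lit 4) (nat_lit 363) (nat_lit 222) (nat_lit 195)) (XT.lf (nat_lit 0) (nat_lit 8045976375) (nat_lit 152) (nat_lit 18754096140) (nat_lit 0) (nat_lit 670613591) (nat_lit 14) (nat_lit 5) (nat_lit 16) (nat_lit 4) (nat_lit 14) (nat_lit 4) (nat_lit 364) (nat_lit 222) (nat_lit 194)))) (XT.nd (nat_lit 156) (nat_lit 76) (nat_lit 0) (XT.nd (nat_lit 78) (nat_lit 0) (nat_lit 0) (XT.lf (nat_lit 0) (nat_lit 12182551285) (nat_lit 152) (nat_lit 11342244399) (nat_lit 0) (nat_lit 4640396222)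 (nat_lit 14) (nat_lit 5) (nat_lit 16) (nat_lit 4) (nat_lit 14) (nat_lit 4) (nat_lit 365) (nat_lit 222) (nat_lit 193)) (XT.lf (nat_lit 0) (nat_lit 16385422382) (nat_lit 152) (nat_lit 3815524499) (nat_lit 0) (nat_lit 8681333068) (nat_lit 14) (nat_lit 5) (nat_lit 16) (nat_lit 4) (nat_lit 14) (nat_lit 4) (nat_lit 366) (nat_lit 222) (nat_lit 192))) (XT.nd (nat_lit 78) (nat_lit 0) (nat_lit 0) (XT.lf (nat_lit 0) (nat_lit 3908917362) (nat_lit 76) (nat_lit 16786919620) (nat_lit 76) (nat_lit 8925612586) (nat_lit 13) (nat_lit 4) (nat_lit 14) (nat_lit 5) (nat_lit 14) (nat_lit 4) (nat_lit 367) (nat_lit 222) (nat_lit 191)) (XT.lf (nat_lit 0) (nat_lit 11839973405) (nat_lit 76) (nat_lit 13278643584) (nat_lit 76) (nat_lit 5264697988) (nat_lit 13) (nat_lit 4) (nat_lit 14) (nat_lit 5) (nat_lit 14) (nat_lit 4) (nat_lit 368) (nat_lit 222) (nat_lit 190)))))) (XT.nd (nat_lit 546) (nat_lit 228) (nat_lit 0) (XT.nd (nat_lit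 234) (nat_lit 0) (nat_lit 0) (XT.nd (nat_lit 78) (nat_lit 152) (nat_lit 0) (XT.lf (nat_lit 0) (nat_lit 19908637257) (nat_lit 76) (nat_lit 9711582606) (nat_lit 76) (nat_lit 1549444230) (nat_lit 13) (nat_lit 4) (nat_lit 14) (nat_lit 5) (nat_lit 14) (nat_lit 4) (nat_lit 369) (nat_lit 222) (nat_lit 189)) (XT.nd (nat_lit 78) (nat_lit 76) (nat_lit 0) (XT.lf (nat_lit 0) (nat_lit 2180008578) (nat_lit 152) (nat_lit 3880597445) (nat_lit 76) (nat_lit 25919936818) (nat_lit 12) (nat_lit 5) (nat_lit 14) (nat_lit 5) (nat_lit 13) (nat_lit 4) (nat_lit 370) (nat_lit 222) (nat_lit 188)) (XT.lf (nat_lit 0) (nat_lit 3682159582) (nat_lit 76) (nat_lit 2292155861) (nat_lit 152) (nat_lit 26841459813) (nat_lit 11) (nat_lit 5) (nat_lit 12) (nat_lit 5) (nat_lit 13) (nat_lit 4) (nat_lit 371) (nat_lit 222) (nat_lit 187)))) (XT.nd (nat_lit 156) (nat_lit 0) (nat_lit 0) (XT.nd (nat_lit 78) (nat_lit 0) (nat_lit 0) (XT.lf (nat_lit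 0) (nat_lit 9886182467) (nat_lit 152) (nat_lit 22234975229) (nat_lit 0) (nat_lit 1554805618) (nat_lit 11) (nat_lit 5) (nat_lit 13) (nat_lit 4) (nat_lit 11) (nat_lit 4) (nat_lit 372) (nat_lit 222) (nat_lit 186)) (XT.lf (nat_lit 0) (nat_lit 13888467843) (nat_lit 152) (nat_lit 15245048992) (nat_lit 0) (nat_lit 5429258601) (nat_lit 11) (nat_lit 5) (nat_lit 13) (nat_lit 4) (nat_lit 11) (nat_lit 4) (nat_lit 373) (nat_lit 222) (nat_lit 185))) (XT.nd (nat_lit 78) (nat_lit 0) (nat_lit 0) (XT.lf (nat_lit 0) (nat_lit 17962635109) (nat_lit 152) (nat_lit 8135695657) (nat_lit 0) (nat_lit 9379316747) (nat_lit 11) (nat_lit 5) (nat_lit 13) (nat_lit 4) (nat_lit 11) (nat_lit 4) (nat_lit 374) (nat_lit 222) (nat_lit 184)) (XT.lf (nat_lit 0) (nat_lit 22112244216) (nat_lit 152) (nat_lit 900703168) (nat_lit 0) (nat_lit 13408431564) (nat_lit 11) (nat_lit 5) (nat_lit 13) (nat_lit 4) (nat_lit 11) (nat_lit 4) (nat_lit 375)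 (nat_lit 222) (nat_lit 183))))) (XT.nd (nat_lit 312) (nat_lit 152) (nat_lit 0) (XT.nd (nat_lit 156) (nat_lit 0) (nat_lit 0) (XT.nd (nat_lit 78) (nat_lit 0) (nat_lit 0) (XT.lf (nat_lit 0) (nat_lit 6594941372) (nat_lit 76) (nat_lit 19809374276) (nat_lit 76) (nat_lit 10988576875) (nat_lit 10) (nat_lit 4) (nat_lit 11) (nat_lit 5) (nat_lit 11) (nat_lit 4) (nat_lit 376) (nat_lit 222) (nat_lit 182)) (XT.lf (nat_lit 0) (nat_lit 14249664203) (nat_lit 76) (nat_lit 16539672819) (nat_lit 76) (nat_lit 7605297993) (nat_lit 10) (nat_lit 4) (nat_lit 11) (nat_lit 5) (nat_lit 11) (nat_lit 4) (nat_lit 377) (nat_lit 222) (nat_lit 181))) (XT.nd (nat_lit 78) (nat_lit 0) (nat_lit 0) (XT.lf (nat_lit 0) (nat_lit 22052228158) (nat_lit 76) (nat_lit 13210081330) (nat_lit 76) (nat_lit 4165437159) (nat_lit 10) (nat_lit 4) (nat_lit 11) (nat_lit 5) (nat_lit 11) (nat_lit 4) (nat_lit 378) (nat_lit 222) (nat_lit 180)) (XT.lf (nat_lit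 0) (nat_lit 30009451010) (nat_lit 76) (nat_lit 9817690457) (nat_lit 76) (nat_lit 665988668) (nat_lit 10) (nat_lit 4) (nat_lit 11) (nat_lit 5) (nat_lit 11) (nat_lit 4) (nat_lit 379) (nat_lit 222) (nat_lit 179)))) (XT.nd (nat_lit 156) (nat_lit 0) (nat_lit 0) (XT.nd (nat_lit 78) (nat_lit 76) (nat_lit 0) (XT.lf (nat_lit 0) (nat_lit 2839591802) (nat_lit 152) (nat_lit 3491269862) (nat_lit 76) (nat_lit 35260019560) (nat_lit 9) (nat_lit 5) (nat_lit 11) (nat_lit 5) (nat_lit 10) (nat_lit 4) (nat_lit 380) (nat_lit 222) (nat_lit 178)) (XT.lf (nat_lit 0) (nat_lit 3700865860) (nat_lit 76) (nat_lit 2731360323) (nat_lit 152) (nat_lit 36289290567) (nat_lit 8) (nat_lit 5) (nat_lit 9) (nat_lit 5) (nat_lit 10) (nat_lit 4) (nat_lit 381) (nat_lit 222) (nat_lit 177))) (XT.nd (nat_lit 78) (nat_lit 0) (nat_lit 0) (XT.lf (nat_lit 0) (nat_lit 10137440408) (nat_lit 152) (nat_lit 32790205789) (nat_lit 0) (nat_lit 958288778)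 (nat_lit 8) (nat_lit 5) (nat_lit 10) (nat_lit 4) (nat_lit 8) (nat_lit 4) (nat_lit 382) (nat_lit 222) (nat_lit 176)) (XT.lf (nat_lit 0) (nat_lit 13941838358) (nat_lit 152) (nat_lit 26473476117) (nat_lit 0) (nat_lit 4670337887) (nat_lit 8) (nat_lit 5) (nat_lit 10) (nat_lit 4) (nat_lit 8) (nat_lit 4) (nat_lit 383) (nat_lit 222) (nat_lit 175))))))))
noncomputable def xc27 : XT := (XT.nd (nat_lit 2184) (nat_lit 0) (nat_lit 0) (XT.nd (nat_lit 1092) (nat_lit 76) (nat_lit 0) (XT.nd (nat_lit 546) (nat_lit 152) (nat_lit 0) (XT.nd (nat_lit 234) (nat_lit 76) (nat_lit 0) (XT.nd (nat_lit 78) (nat_lit 0) (nat_lit 0) (XT.lf (nat_lit 0) (nat_lit 17822488758) (nat_lit 152) (nat_lit 20038686896) (nat_lit 0) (nat_lit 8461329219) (nat_lit 8) (nat_lit 5) (nat_lit 10) (nat_lit 4) (nat_lit 8) (nat_lit 4) (nat_lit 384) (nat_lit 222) (nat_lit 174)) (XT.nd (nat_lit 78) (nat_lit 0) (nat_lit 0) (XT.lf (nat_lit 0) (nat_lit 21782782469)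 (nat_lit 152) (nat_lit 13480215496) (nat_lit 0) (nat_lit 12334575290) (nat_lit 8) (nat_lit 5) (nat_lit 10) (nat_lit 4) (nat_lit 8) (nat_lit 4) (nat_lit 385) (nat_lit 222) (nat_lit 173)) (XT.lf (nat_lit 0) (nat_lit 25826179940) (nat_lit 152) (nat_lit 6792331213) (nat_lit 0) (nat_lit 16293460490) (nat_lit 8) (nat_lit 5) (nat_lit 10) (nat_lit 4) (nat_lit 8) (nat_lit 4) (nat_lit 386) (nat_lit 222) (nat_lit 172)))) (XT.nd (nat_lit 156) (nat_lit 0) (nat_lit 0) (XT.nd (nat_lit 78) (nat_lit 0) (nat_lit 0) (XT.lf (nat_lit 0) (nat_lit 31422909) (nat_lit 76) (nat_lit 29925093384) (nat_lit 76) (nat_lit 20310323186) (nat_lit 7) (nat_lit 4) (nat_lit 8) (nat_lit 5) (nat_lit 8) (nat_lit 4) (nat_lit 387) (nat_lit 222) (nat_lit 171)) (XT.lf (nat_lit 0) (nat_lit 7134386902) (nat_lit 76) (nat_lit 27110687319) (nat_lit 76) (nat_lit 17416256199) (nat_lit 7) (nat_lit 4) (nat_lit 8) (nat_lit 5) (nat_lit 8) (nat_lit 4)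 (nat_lit 388) (nat_lit 222) (nat_lit 170))) (XT.nd (nat_lit 78) (nat_lit 0) (nat_lit 0) (XT.lf (nat_lit 0) (nat_lit 14387586529) (nat_lit 76) (nat_lit 24241422993) (nat_lit 76) (nat_lit 14469651173) (nat_lit 7) (nat_lit 4) (nat_lit 8) (nat_lit 5) (nat_lit 8) (nat_lit 4) (nat_lit 389) (nat_lit 222) (nat_lit 169)) (XT.lf (nat_lit 0) (nat_lit 21797359538) (nat_lit 76) (nat_lit 21314793284) (nat_lit 76) (nat_lit 11467933405) (nat_lit 7) (nat_lit 4) (nat_lit 8) (nat_lit 5) (nat_lit 8) (nat_lit 4) (nat_lit 390) (nat_lit 222) (nat_lit 168))))) (XT.nd (nat_lit 234) (nat_lit 152) (nat_lit 0) (XT.nd (nat_lit 78) (nat_lit 0) (nat_lit 0) (XT.lf (nat_lit 0) (nat_lit 29370180488) (nat_lit 76) (nat_lit 18328240941) (nat_lit 76) (nat_lit 8408480034) (nat_lit 7) (nat_lit 4) (nat_lit 8) (nat_lit 5) (nat_lit 8) (nat_lit 4) (nat_lit 391) (nat_lit 222) (nat_lit 167)) (XT.nd (nat_lit 78) (nat_lit 0) (nat_lit 0) (XT.lf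 (nat_lit 0) (nat_lit 37112666405) (nat_lit 76) (nat_lit 15279156356) (nat_lit 76) (nat_lit 5288617753) (nat_lit 7) (nat_lit 4) (nat_lit 8) (nat_lit 5) (nat_lit 8) (nat_lit 4) (nat_lit 392) (nat_lit 222) (nat_lit 166)) (XT.lf (nat_lit 0) (nat_lit 45031582571) (nat_lit 76) (nat_lit 12164875280) (nat_lit 76) (nat_lit 2105620466) (nat_lit 7) (nat_lit 4) (nat_lit 8) (nat_lit 5) (nat_lit 8) (nat_lit 4) (nat_lit 393) (nat_lit 222) (nat_lit 165)))) (XT.nd (nat_lit 156) (nat_lit 76) (nat_lit 0) (XT.nd (nat_lit 78) (nat_lit 0) (nat_lit 0) (XT.lf (nat_lit 0) (nat_lit 1120983317) (nat_lit 152) (nat_lit 7850373446) (nat_lit 76) (nat_lit 52001545374) (nat_lit 6) (nat_lit 5) (nat_lit 8) (nat_lit 5) (nat_lit 7) (nat_lit 4) (nat_lit 394) (nat_lit 222) (nat_lit 164)) (XT.lf (nat_lit 0) (nat_lit 4373912322) (nat_lit 152) (nat_lit 1311699184) (nat_lit 76) (nat_lit 57008463356) (nat_lit 6) (nat_lit 5) (nat_lit 8) (nat_lit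 5) (nat_lit 7) (nat_lit 4) (nat_lit 395) (nat_lit 222) (nat_lit 163))) (XT.nd (nat_lit 78) (nat_lit 0) (nat_lit 0) (XT.lf (nat_lit 0) (nat_lit 5478383960) (nat_lit 76) (nat_lit 2271374772) (nat_lit 152) (nat_lit 56716369067) (nat_lit 5) (nat_lit 5) (nat_lit 6) (nat_lit 5) (nat_lit 7) (nat_lit 4) (nat_lit 396) (nat_lit 222) (nat_lit 162)) (XT.lf (nat_lit 0) (nat_lit 11224968258) (nat_lit 152) (nat_lit 53855720111) (nat_lit 0) (nat_lit 1210716094) (nat_lit 5) (nat_lit 5) (nat_lit 7) (nat_lit 4) (nat_lit 5) (nat_lit 4) (nat_lit 397) (nat_lit 222) (nat_lit 161)))))) (XT.nd (nat_lit 546) (nat_lit 76) (nat_lit 0) (XT.nd (nat_lit 234) (nat_lit 0) (nat_lit 0) (XT.nd (nat_lit 78) (nat_lit 0) (nat_lit 0) (XT.lf (nat_lit 0) (nat_lit 14800457406) (nat_lit 152) (nat_lit 48642449458) (nat_lit 0) (nat_lit 4728656497) (nat_lit 5) (nat_lit 5) (nat_lit 7) (nat_lit 4) (nat_lit 5) (nat_lit 4) (nat_lit 398) (nat_lit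 222) (nat_lit 160)) (XT.nd (nat_lit 78) (nat_lit 0) (nat_lit 0) (XT.lf (nat_lit 0) (nat_lit 18457516544) (nat_lit 152) (nat_lit 43321542752) (nat_lit 0) (nat_lit 8329843068) (nat_lit 5) (nat_lit 5) (nat_lit 7) (nat_lit 4) (nat_lit 5) (nat_lit 4) (nat_lit 399) (nat_lit 222) (nat_lit 159)) (XT.lf (nat_lit 0) (nat_lit 22199341162) (nat_lit 152) (nat_lit 37888350657) (nat_lit 0) (nat_lit 12017422475) (nat_lit 5) (nat_lit 5) (nat_lit 7) (nat_lit 4) (nat_lit 5) (nat_lit 4) (nat_lit 400) (nat_lit 222) (nat_lit 158)))) (XT.nd (nat_lit 156) (nat_lit 0) (nat_lit 0) (XT.nd (nat_lit 78) (nat_lit 0) (nat_lit 0) (XT.lf (nat_lit 0) (nat_lit 26029200815) (nat_lit 152) (nat_lit 32338125723) (nat_lit 0) (nat_lit 15794616874) (nat_lit 5) (nat_lit 5) (nat_lit 7) (nat_lit 4) (nat_lit 5) (nat_lit 4) (nat_lit 401) (nat_lit 222) (nat_lit 157)) (XT.lf (nat_lit 0) (nat_lit 29950441982) (nat_lit 152) (nat_lit 26666018240)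 (nat_lit 0) (nat_lit 19664726727) (nat_lit 5) (nat_lit 5) (nat_lit 7) (nat_lit 4) (nat_lit 5) (nat_lit 4) (nat_lit 402) (nat_lit 222) (nat_lit 156))) (XT.nd (nat_lit 78) (nat_lit 0) (nat_lit 0) (XT.lf (nat_lit 0) (nat_lit 33966490991) (nat_lit 152) (nat_lit 20867071996) (nat_lit 0) (nat_lit 23631133684) (nat_lit 5) (nat_lit 5) (nat_lit 7) (nat_lit 4) (nat_lit 5) (nat_lit 4) (nat_lit 403) (nat_lit 222) (nat_lit 155)) (XT.lf (nat_lit 0) (nat_lit 38080857010) (nat_lit 152) (nat_lit 14936219952) (nat_lit 0) (nat_lit 27697303535) (nat_lit 5) (nat_lit 5) (nat_lit 7) (nat_lit 4) (nat_lit 5) (nat_lit 4) (nat_lit 404) (nat_lit 222) (nat_lit 154))))) (XT.nd (nat_lit 234) (nat_lit 0) (nat_lit 0) (XT.nd (nat_lit 78) (nat_lit 76) (nat_lit 0) (XT.lf (nat_lit 0) (nat_lit 42297135117) (nat_lit 152) (nat_lit 8868279809) (nat_lit 0) (nat_lit 31866789247) (nat_lit 5) (nat_lit 5) (nat_lit 7) (nat_lit 4) (nat_lit 5)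 (nat_lit 4) (nat_lit 405) (nat_lit 222) (nat_lit 153)) (XT.nd (nat_lit 78) (nat_lit 76) (nat_lit 0) (XT.lf (nat_lit 0) (nat_lit 46619009438) (nat_lit 152) (nat_lit 2657949484) (nat_lit 0) (nat_lit 36143234057) (nat_lit 5) (nat_lit 5) (nat_lit 7) (nat_lit 4) (nat_lit 5) (nat_lit 4) (nat_lit 406) (nat_lit 222) (nat_lit 152)) (XT.lf (nat_lit 0) (nat_lit 3773838710) (nat_lit 76) (nat_lit 47312694103) (nat_lit 76) (nat_lit 36792812403) (nat_lit 4) (nat_lit 4) (nat_lit 5) (nat_lit 5) (nat_lit 5) (nat_lit 4) (nat_lit 407) (nat_lit 222) (nat_lit 151)))) (XT.nd (nat_lit 156) (nat_lit 0) (nat_lit 0) (XT.nd (nat_lit 78) (nat_lit 0) (nat_lit 0) (XT.lf (nat_lit 0) (nat_lit 10414950069) (nat_lit 76) (nat_lit 45279912673) (nat_lit 76) (nat_lit 34717209301) (nat_lit 4) (nat_lit 4) (nat_lit 5) (nat_lit 5) (nat_lit 5) (nat_lit 4) (nat_lit 408) (nat_lit 222) (nat_lit 150)) (XT.lf (nat_lit 0) (nat_lit 17218289098)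 (nat_lit 76) (nat_lit 43203678491) (nat_lit 76) (nat_lit 32599400682) (nat_lit 4) (nat_lit 4) (nat_lit 5) (nat_lit 5) (nat_lit 5) (nat_lit 4) (nat_lit 409) (nat_lit 222) (nat_lit 149))) (XT.nd (nat_lit 78) (nat_lit 0) (nat_lit 0) (XT.lf (nat_lit 0) (nat_lit 24189800462) (nat_lit 76) (nat_lit 41082177373) (nat_lit 76) (nat_lit 30437536032) (nat_lit 4) (nat_lit 4) (nat_lit 5) (nat_lit 5) (nat_lit 5) (nat_lit 4) (nat_lit 410) (nat_lit 222) (nat_lit 148)) (XT.lf (nat_lit 0) (nat_lit 31335575773) (nat_lit 76) (nat_lit 38913555579) (nat_lit 76) (nat_lit 28229726345) (nat_lit 4) (nat_lit 4) (nat_lit 5) (nat_lit 5) (nat_lit 5) (nat_lit 4) (nat_lit 411) (nat_lit 222) (nat_lit 147))))))) (XT.nd (nat_lit 35568) (nat_lit 0) (nat_lit 912) (XT.nd (nat_lit 35022) (nat_lit 0) (nat_lit 1672) (XT.nd (nat_lit 34710) (nat_lit 0) (nat_lit 2128) (XT.nd (nat_lit 34554) (nat_lit 0) (nat_lit 2660) (XT.lf (nat_lit 0) (nat_lit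 38661858912) (nat_lit 76) (nat_lit 36695918199) (nat_lit 76) (nat_lit 25974042465) (nat_lit 4) (nat_lit 4) (nat_lit 5) (nat_lit 5) (nat_lit 5) (nat_lit 4) (nat_lit 412) (nat_lit 222) (nat_lit 146)) (XT.nd (nat_lit 78) (nat_lit 0) (nat_lit 0) (XT.lf (nat_lit 0) (nat_lit 1291965491) (nat_lit 152) (nat_lit 2884248684) (nat_lit 152) (nat_lit 2884248684) (nat_lit 39) (nat_lit 4) (nat_lit 41) (nat_lit 5) (nat_lit 41) (nat_lit 4) (nat_lit 334) (nat_lit 223) (nat_lit 223)) (XT.lf (nat_lit 0) (nat_lit 11250151245) (nat_lit 152) (nat_lit 1813549416) (nat_lit 152) (nat_lit 1330138969) (nat_lit 39) (nat_lit 4) (nat_lit 41) (nat_lit 5) (nat_lit 41) (nat_lit 4) (nat_lit 335) (nat_lit 223) (nat_lit 222)))) (XT.nd (nat_lit 156) (nat_lit 304) (nat_lit 0) (XT.nd (nat_lit 78) (nat_lit 0) (nat_lit 0) (XT.lf (nat_lit 0) (nat_lit 3155170191) (nat_lit 228) (nat_lit 9289382235) (nat_lit 0) (nat_lit 2230178951) (nat_lit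 36) (nat_lit 5) (nat_lit 39) (nat_lit 4) (nat_lit 36) (nat_lit 4) (nat_lit 336) (nat_lit 223) (nat_lit 221)) (XT.lf (nat_lit 0) (nat_lit 7702063548) (nat_lit 228) (nat_lit 928330803) (nat_lit 0) (nat_lit 6334683270) (nat_lit 36) (nat_lit 5) (nat_lit 39) (nat_lit 4) (nat_lit 36) (nat_lit 4) (nat_lit 337) (nat_lit 223) (nat_lit 220))) (XT.nd (nat_lit 78) (nat_lit 152) (nat_lit 0) (XT.lf (nat_lit 0) (nat_lit 7669628153) (nat_lit 152) (nat_lit 4696008345) (nat_lit 152) (nat_lit 2899124147) (nat_lit 34) (nat_lit 4) (nat_lit 36) (nat_lit 5) (nat_lit 36) (nat_lit 4) (nat_lit 338) (nat_lit 223) (nat_lit 219)) (XT.lf (nat_lit 0) (nat_lit 807865249) (nat_lit 76) (nat_lit 680678369) (nat_lit 152) (nat_lit 14086743017) (nat_lit 32) (nat_lit 5) (nat_lit 33) (nat_lit 5) (nat_lit 34) (nat_lit 4) (nat_lit 339) (nat_lit 223) (nat_lit 218))))) (XT.nd (nat_lit 234) (nat_lit 304) (nat_lit 0) (XT.nd (nat_lit 78) (nat_lit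 152) (nat_lit 0) (XT.lf (nat_lit 0) (nat_lit 5967486785) (nat_lit 152) (nat_lit 6501241239) (nat_lit 0) (nat_lit 3425033451) (nat_lit 32) (nat_lit 5) (nat_lit 34) (nat_lit 4) (nat_lit 32) (nat_lit 4) (nat_lit 340) (nat_lit 223) (nat_lit 217)) (XT.nd (nat_lit 78) (nat_lit 0) (nat_lit 0) (XT.lf (nat_lit 0) (nat_lit 1883340340) (nat_lit 152) (nat_lit 8632249598) (nat_lit 152) (nat_lit 5708187593) (nat_lit 30) (nat_lit 4) (nat_lit 32) (nat_lit 5) (nat_lit 32) (nat_lit 4) (nat_lit 341) (nat_lit 223) (nat_lit 216)) (XT.lf (nat_lit 0) (nat_lit 10494697763) (nat_lit 152) (nat_lit 4682140467) (nat_lit 152) (nat_lit 1387584607) (nat_lit 30) (nat_lit 4) (nat_lit 32) (nat_lit 5) (nat_lit 32) (nat_lit 4) (nat_lit 342) (nat_lit 223) (nat_lit 215)))) (XT.nd (nat_lit 156) (nat_lit 152) (nat_lit 0) (XT.nd (nat_lit 78) (nat_lit 0) (nat_lit 0) (XT.lf (nat_lit 0) (nat_lit 2309543777) (nat_lit 76) (nat_lit 628289921)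 (nat_lit 152) (nat_lit 13978549910) (nat_lit 28) (nat_lit 5) (nat_lit 29) (nat_lit 5) (nat_lit 30) (nat_lit 4) (nat_lit 343) (nat_lit 223) (nat_lit 214)) (XT.lf (nat_lit 0) (nat_lit 7374296845) (nat_lit 152) (nat_lit 6416527790) (nat_lit 0) (nat_lit 3487418570) (nat_lit 28) (nat_lit 5) (nat_lit 30) (nat_lit 4) (nat_lit 28) (nat_lit 4) (nat_lit 344) (nat_lit 223) (nat_lit 213))) (XT.nd (nat_lit 78) (nat_lit 0) (nat_lit 0) (XT.lf (nat_lit 0) (nat_lit 1899232306) (nat_lit 152) (nat_lit 9984802315) (nat_lit 152) (nat_lit 5768745048) (nat_lit 26) (nat_lit 4) (nat_lit 28) (nat_lit 5) (nat_lit 28) (nat_lit 4) (nat_lit 345) (nat_lit 223) (nat_lit 212)) (XT.lf (nat_lit 0) (nat_lit 10446377645) (nat_lit 152) (nat_lit 6064201694) (nat_lit 152) (nat_lit 1528553174) (nat_lit 26) (nat_lit 4) (nat_lit 28) (nat_lit 5) (nat_lit 28) (nat_lit 4) (nat_lit 346) (nat_lit 223) (nat_lit 211)))))) (XT.nd (nat_lit 546) (nat_lit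 304) (nat_lit 0) (XT.nd (nat_lit 234) (nat_lit 304) (nat_lit 0) (XT.nd (nat_lit 78) (nat_lit 0) (nat_lit 0) (XT.lf (nat_lit 0) (nat_lit 651371245) (nat_lit 76) (nat_lit 2056659560) (nat_lit 152) (nat_lit 15730513254) (nat_lit 24) (nat_lit 5) (nat_lit 25) (nat_lit 5) (nat_lit 26) (nat_lit 4) (nat_lit 347) (nat_lit 223) (nat_lit 210)) (XT.nd (nat_lit 78) (nat_lit 0) (nat_lit 0) (XT.lf (nat_lit 0) (nat_lit 7057008773) (nat_lit 152) (nat_lit 9732268291) (nat_lit 0) (nat_lit 2059749842) (nat_lit 24) (nat_lit 5) (nat_lit 26) (nat_lit 4) (nat_lit 24) (nat_lit 4) (nat_lit 348) (nat_lit 223) (nat_lit 209)) (XT.lf (nat_lit 0) (nat_lit 11477866661) (nat_lit 152) (nat_lit 1599083080) (nat_lit 0) (nat_lit 6196655040) (nat_lit 24) (nat_lit 5) (nat_lit 26) (nat_lit 4) (nat_lit 24) (nat_lit 4) (nat_lit 349) (nat_lit 223) (nat_lit 208)))) (XT.nd (nat_lit 156) (nat_lit 76) (nat_lit 0) (XT.nd (nat_lit 78) (nat_lit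 76) (nat_lit 0) (XT.lf (nat_lit 0) (nat_lit 6771393634) (nat_lit 152) (nat_lit 9248394629) (nat_lit 152) (nat_lit 3691500786) (nat_lit 22) (nat_lit 4) (nat_lit 24) (nat_lit 5) (nat_lit 24) (nat_lit 4) (nat_lit 350) (nat_lit 223) (nat_lit 207)) (XT.lf (nat_lit 0) (nat_lit 465201765) (nat_lit 228) (nat_lit 4880186904) (nat_lit 76) (nat_lit 14818387723) (nat_lit 21) (nat_lit 5) (nat_lit 24) (nat_lit 5) (nat_lit 22) (nat_lit 4) (nat_lit 351) (nat_lit 223) (nat_lit 206))) (XT.nd (nat_lit 78) (nat_lit 0) (nat_lit 0) (XT.lf (nat_lit 0) (nat_lit 3314468881) (nat_lit 76) (nat_lit 1315517475) (nat_lit 152) (nat_lit 16000048529) (nat_lit 20) (nat_lit 5) (nat_lit 21) (nat_lit 5) (nat_lit 22) (nat_lit 4) (nat_lit 352) (nat_lit 223) (nat_lit 205)) (XT.lf (nat_lit 0) (nat_lit 8922752470) (nat_lit 152) (nat_lit 9416832646) (nat_lit 0) (nat_lit 2770624597) (nat_lit 20) (nat_lit 5) (nat_lit 22) (nat_lit 4) (nat_lit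 20) (nat_lit 4) (nat_lit 353) (nat_lit 223) (nat_lit 204))))) (XT.nd (nat_lit 312) (nat_lit 76) (nat_lit 0) (XT.nd (nat_lit 156) (nat_lit 152) (nat_lit 0) (XT.nd (nat_lit 78) (nat_lit 76) (nat_lit 0) (XT.lf (nat_lit 0) (nat_lit 13285496965) (nat_lit 152) (nat_lit 1425512921) (nat_lit 0) (nat_lit 6895563185) (nat_lit 20) (nat_lit 5) (nat_lit 22) (nat_lit 4) (nat_lit 20) (nat_lit 4) (nat_lit 354) (nat_lit 223) (nat_lit 203)) (XT.lf (nat_lit 0) (nat_lit 6810927158) (nat_lit 76) (nat_lit 10963930029) (nat_lit 76) (nat_lit 4343116727) (nat_lit 19) (nat_lit 4) (nat_lit 20) (nat_lit 5) (nat_lit 20) (nat_lit 4) (nat_lit 355) (nat_lit 223) (nat_lit 202))) (XT.nd (nat_lit 78) (nat_lit 152) (nat_lit 0) (XT.lf (nat_lit 0) (nat_lit 15197407344) (nat_lit 76) (nat_lit 7146965709) (nat_lit 76) (nat_lit 301997531) (nat_lit 19) (nat_lit 4) (nat_lit 20) (nat_lit 5) (nat_lit 20) (nat_lit 4) (nat_lit 356) (nat_lit 223)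 (nat_lit 201)) (XT.lf (nat_lit 0) (nat_lit 493424126) (nat_lit 76) (nat_lit 3228752423) (nat_lit 152) (nat_lit 19469231849) (nat_lit 17) (nat_lit 5) (nat_lit 18) (nat_lit 5) (nat_lit 19) (nat_lit 4) (nat_lit 357) (nat_lit 223) (nat_lit 200)))) (XT.nd (nat_lit 156) (nat_lit 76) (nat_lit 0) (XT.nd (nat_lit 78) (nat_lit 0) (nat_lit 0) (XT.lf (nat_lit 0) (nat_lit 7877386864) (nat_lit 152) (nat_lit 15059480111) (nat_lit 0) (nat_lit 815365759) (nat_lit 17) (nat_lit 5) (nat_lit 19) (nat_lit 4) (nat_lit 17) (nat_lit 4) (nat_lit 358) (nat_lit 223) (nat_lit 199)) (XT.lf (nat_lit 0) (nat_lit 12123841470) (nat_lit 152) (nat_lit 7344397063) (nat_lit 0) (nat_lit 4862661661) (nat_lit 17) (nat_lit 5) (nat_lit 19) (nat_lit 4) (nat_lit 17) (nat_lit 4) (nat_lit 359) (nat_lit 223) (nat_lit 198))) (XT.nd (nat_lit 78) (nat_lit 0) (nat_lit 0) (XT.lf (nat_lit 0) (nat_lit 494696254) (nat_lit 76) (nat_lit 15944273186) (nat_lit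 76) (nat_lit 8489735413) (nat_lit 16) (nat_lit 4) (nat_lit 17) (nat_lit 5) (nat_lit 17) (nat_lit 4) (nat_lit 360) (nat_lit 223) (nat_lit 197)) (XT.lf (nat_lit 0) (nat_lit 8603567780) (nat_lit 76) (nat_lit 12291406128) (nat_lit 76) (nat_lit 4649142177) (nat_lit 16) (nat_lit 4) (nat_lit 17) (nat_lit 5) (nat_lit 17) (nat_lit 4) (nat_lit 361) (nat_lit 223) (nat_lit 196))))))))
noncomputable def xc28 : XT := (XT.nd (nat_lit 2184) (nat_lit 228) (nat_lit 0) (XT.nd (nat_lit 1092) (nat_lit 304) (nat_lit 0) (XT.nd (nat_lit 546) (nat_lit 152) (nat_lit 0) (XT.nd (nat_lit 234) (nat_lit 76) (nat_lit 0) (XT.nd (nat_lit 78) (nat_lit 152) (nat_lit 0) (XT.lf (nat_lit 0) (nat_lit 16843135033) (nat_lit 76) (nat_lit 8580609545) (nat_lit 76) (nat_lit 756087167) (nat_lit 16) (nat_lit 4) (nat_lit 17) (nat_lit 5) (nat_lit 17) (nat_lit 4) (nat_lit 362) (nat_lit 223) (nat_lit 195)) (XT.nd (nat_lit 78) (nat_lit 76) (nat_lit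 0) (XT.lf (nat_lit 0) (nat_lit 3130527674) (nat_lit 152) (nat_lit 1646501128) (nat_lit 76) (nat_lit 22058457770) (nat_lit 15) (nat_lit 5) (nat_lit 17) (nat_lit 5) (nat_lit 16) (nat_lit 4) (nat_lit 363) (nat_lit 223) (nat_lit 194)) (XT.lf (nat_lit 0) (nat_lit 6282227046) (nat_lit 76) (nat_lit 838706647) (nat_lit 152) (nat_lit 20389594514) (nat_lit 14) (nat_lit 5) (nat_lit 15) (nat_lit 5) (nat_lit 16) (nat_lit 4) (nat_lit 364) (nat_lit 223) (nat_lit 193)))) (XT.nd (nat_lit 156) (nat_lit 76) (nat_lit 0) (XT.nd (nat_lit 78) (nat_lit 0) (nat_lit 0) (XT.lf (nat_lit 0) (nat_lit 11220973014) (nat_lit 152) (nat_lit 13861336714) (nat_lit 0) (nat_lit 3123826769) (nat_lit 14) (nat_lit 5) (nat_lit 16) (nat_lit 4) (nat_lit 14) (nat_lit 4) (nat_lit 365) (nat_lit 223) (nat_lit 192)) (XT.lf (nat_lit 0) (nat_lit 15396200006) (nat_lit 152) (nat_lit 6386024052) (nat_lit 0) (nat_lit 7141836041) (nat_lit 14) (nat_lit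 5) (nat_lit 16) (nat_lit 4) (nat_lit 14) (nat_lit 4) (nat_lit 366) (nat_lit 223) (nat_lit 191))) (XT.nd (nat_lit 78) (nat_lit 0) (nat_lit 0) (XT.lf (nat_lit 0) (nat_lit 1236356583) (nat_lit 76) (nat_lit 18417728796) (nat_lit 76) (nat_lit 10010726269) (nat_lit 13) (nat_lit 4) (nat_lit 14) (nat_lit 5) (nat_lit 14) (nat_lit 4) (nat_lit 367) (nat_lit 223) (nat_lit 190)) (XT.lf (nat_lit 0) (nat_lit 9117992000) (nat_lit 76) (nat_lit 14932341105) (nat_lit 76) (nat_lit 6377145798) (nat_lit 13) (nat_lit 4) (nat_lit 14) (nat_lit 5) (nat_lit 14) (nat_lit 4) (nat_lit 368) (nat_lit 223) (nat_lit 189))))) (XT.nd (nat_lit 234) (nat_lit 0) (nat_lit 0) (XT.nd (nat_lit 78) (nat_lit 152) (nat_lit 0) (XT.lf (nat_lit 0) (nat_lit 17138674662) (nat_lit 76) (nat_lit 11387501820) (nat_lit 76) (nat_lit 2688430029) (nat_lit 13) (nat_lit 4) (nat_lit 14) (nat_lit 5) (nat_lit 14) (nat_lit 4) (nat_lit 369) (nat_lit 223) (nat_lit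 188)) (XT.nd (nat_lit 78) (nat_lit 76) (nat_lit 0) (XT.lf (nat_lit 0) (nat_lit 1037986227) (nat_lit 152) (nat_lit 6731645656) (nat_lit 76) (nat_lit 24256945080) (nat_lit 12) (nat_lit 5) (nat_lit 14) (nat_lit 5) (nat_lit 13) (nat_lit 4) (nat_lit 370) (nat_lit 223) (nat_lit 187)) (XT.lf (nat_lit 0) (nat_lit 727739778) (nat_lit 76) (nat_lit 4051627148) (nat_lit 152) (nat_lit 28084035457) (nat_lit 11) (nat_lit 5) (nat_lit 12) (nat_lit 5) (nat_lit 13) (nat_lit 4) (nat_lit 371) (nat_lit 223) (nat_lit 186)))) (XT.nd (nat_lit 156) (nat_lit 0) (nat_lit 0) (XT.nd (nat_lit 78) (nat_lit 0) (nat_lit 0) (XT.lf (nat_lit 0) (nat_lit 8456996788) (nat_lit 76) (nat_lit 194746678) (nat_lit 152) (nat_lit 25073036761) (nat_lit 11) (nat_lit 5) (nat_lit 12) (nat_lit 5) (nat_lit 13) (nat_lit 4) (nat_lit 372) (nat_lit 223) (nat_lit 185)) (XT.lf (nat_lit 0) (nat_lit 12628419542) (nat_lit 152) (nat_lit 18320453499) (nat_lit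 0) (nat_lit 3663492510) (nat_lit 11) (nat_lit 5) (nat_lit 13) (nat_lit 4) (nat_lit 11) (nat_lit 4) (nat_lit 373) (nat_lit 223) (nat_lit 184))) (XT.nd (nat_lit 78) (nat_lit 0) (nat_lit 0) (XT.lf (nat_lit 0) (nat_lit 16679540908) (nat_lit 152) (nat_lit 11254273290) (nat_lit 0) (nat_lit 7594119585) (nat_lit 11) (nat_lit 5) (nat_lit 13) (nat_lit 4) (nat_lit 11) (nat_lit 4) (nat_lit 374) (nat_lit 223) (nat_lit 183)) (XT.lf (nat_lit 0) (nat_lit 20806775356) (nat_lit 152) (nat_lit 4061196457) (nat_lit 0) (nat_lit 11604369284) (nat_lit 11) (nat_lit 5) (nat_lit 13) (nat_lit 4) (nat_lit 11) (nat_lit 4) (nat_lit 375) (nat_lit 223) (nat_lit 182)))))) (XT.nd (nat_lit 546) (nat_lit 76) (nat_lit 0) (XT.nd (nat_lit 234) (nat_lit 152) (nat_lit 0) (XT.nd (nat_lit 78) (nat_lit 0) (nat_lit 0) (XT.lf (nat_lit 0) (nat_lit 3330043352) (nat_lit 76) (nat_lit 21715696268) (nat_lit 76) (nat_lit 12399712772) (nat_lit 10) (nat_lit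 4) (nat_lit 11) (nat_lit 5) (nat_lit 11) (nat_lit 4) (nat_lit 376) (nat_lit 223) (nat_lit 181)) (XT.nd (nat_lit 78) (nat_lit 0) (nat_lit 0) (XT.lf (nat_lit 0) (nat_lit 10944470340) (nat_lit 76) (nat_lit 18464813044) (nat_lit 76) (nat_lit 9038560202) (nat_lit 10) (nat_lit 4) (nat_lit 11) (nat_lit 5) (nat_lit 11) (nat_lit 4) (nat_lit 377) (nat_lit 223) (nat_lit 180)) (XT.lf (nat_lit 0) (nat_lit 18707912116) (nat_lit 76) (nat_lit 15153491683) (nat_lit 76) (nat_lit 5620181224) (nat_lit 10) (nat_lit 4) (nat_lit 11) (nat_lit 5) (nat_lit 11) (nat_lit 4) (nat_lit 378) (nat_lit 223) (nat_lit 179)))) (XT.nd (nat_lit 156) (nat_lit 76) (nat_lit 0) (XT.nd (nat_lit 78) (nat_lit 76) (nat_lit 0) (XT.lf (nat_lit 0) (nat_lit 26627152271) (nat_lit 76) (nat_lit 11778838798) (nat_lit 76) (nat_lit 2141588906) (nat_lit 10) (nat_lit 4) (nat_lit 11) (nat_lit 5) (nat_lit 11) (nat_lit 4) (nat_lit 379) (nat_lit 223) (nat_lit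 178)) (XT.lf (nat_lit 0) (nat_lit 1372932255) (nat_lit 152) (nat_lit 6951109485) (nat_lit 76) (nat_lit 33322314349) (nat_lit 9) (nat_lit 5) (nat_lit 11) (nat_lit 5) (nat_lit 10) (nat_lit 4) (nat_lit 380) (nat_lit 223) (nat_lit 177))) (XT.nd (nat_lit 78) (nat_lit 0) (nat_lit 0) (XT.lf (nat_lit 0) (nat_lit 135258675) (nat_lit 76) (nat_lit 4776757839) (nat_lit 152) (nat_lit 37866585377) (nat_lit 8) (nat_lit 5) (nat_lit 9) (nat_lit 5) (nat_lit 10) (nat_lit 4) (nat_lit 381) (nat_lit 223) (nat_lit 176)) (XT.lf (nat_lit 0) (nat_lit 7503963917) (nat_lit 76) (nat_lit 1084813458) (nat_lit 152) (nat_lit 35355100004) (nat_lit 8) (nat_lit 5) (nat_lit 9) (nat_lit 5) (nat_lit 10) (nat_lit 4) (nat_lit 382) (nat_lit 223) (nat_lit 175))))) (XT.nd (nat_lit 234) (nat_lit 76) (nat_lit 0) (XT.nd (nat_lit 78) (nat_lit 0) (nat_lit 0) (XT.lf (nat_lit 0) (nat_lit 12364087588) (nat_lit 152) (nat_lit 30147949171) (nat_lit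 0) (nat_lit 2632434194) (nat_lit 8) (nat_lit 5) (nat_lit 10) (nat_lit 4) (nat_lit 8) (nat_lit 4) (nat_lit 383) (nat_lit 223) (nat_lit 174)) (XT.nd (nat_lit 78) (nat_lit 0) (nat_lit 0) (XT.lf (nat_lit 0) (nat_lit 16226621633) (nat_lit 152) (nat_lit 23747328176) (nat_lit 0) (nat_lit 6407920599) (nat_lit 8) (nat_lit 5) (nat_lit 10) (nat_lit 4) (nat_lit 8) (nat_lit 4) (nat_lit 384) (nat_lit 223) (nat_lit 173)) (XT.lf (nat_lit 0) (nat_lit 20169326648) (nat_lit 152) (nat_lit 17222029810) (nat_lit 0) (nat_lit 10266113344) (nat_lit 8) (nat_lit 5) (nat_lit 10) (nat_lit 4) (nat_lit 8) (nat_lit 4) (nat_lit 385) (nat_lit 223) (nat_lit 172)))) (XT.nd (nat_lit 156) (nat_lit 76) (nat_lit 0) (XT.nd (nat_lit 78) (nat_lit 0) (nat_lit 0) (XT.lf (nat_lit 0) (nat_lit 24195647717) (nat_lit 152) (nat_lit 10566352356) (nat_lit 0) (nat_lit 14210383663) (nat_lit 8) (nat_lit 5) (nat_lit 10) (nat_lit 4) (nat_lit 8) (nat_lit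 4) (nat_lit 386) (nat_lit 223) (nat_lit 171)) (XT.lf (nat_lit 0) (nat_lit 28309102983) (nat_lit 152) (nat_lit 3774480173) (nat_lit 0) (nat_lit 18244178008) (nat_lit 8) (nat_lit 5) (nat_lit 10) (nat_lit 4) (nat_lit 8) (nat_lit 4) (nat_lit 387) (nat_lit 223) (nat_lit 170))) (XT.nd (nat_lit 78) (nat_lit 0) (nat_lit 0) (XT.lf (nat_lit 0) (nat_lit 3222402053) (nat_lit 76) (nat_lit 29321860374) (nat_lit 76) (nat_lit 19179594699) (nat_lit 7) (nat_lit 4) (nat_lit 8) (nat_lit 5) (nat_lit 8) (nat_lit 4) (nat_lit 388) (nat_lit 223) (nat_lit 169)) (XT.lf (nat_lit 0) (nat_lit 10445541282) (nat_lit 76) (nat_lit 26466740160) (nat_lit 76) (nat_lit 16249386426) (nat_lit 7) (nat_lit 4) (nat_lit 8) (nat_lit 5) (nat_lit 8) (nat_lit 4) (nat_lit 389) (nat_lit 223) (nat_lit 168))))))) (XT.nd (nat_lit 1092) (nat_lit 76) (nat_lit 0) (XT.nd (nat_lit 546) (nat_lit 0) (nat_lit 0) (XT.nd (nat_lit 234) (nat_lit 152) (nat_lit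 0) (XT.nd (nat_lit 78) (nat_lit 0) (nat_lit 0) (XT.lf (nat_lit 0) (nat_lit 17826129439) (nat_lit 76) (nat_lit 23553842597) (nat_lit 76) (nat_lit 13263587836) (nat_lit 7) (nat_lit 4) (nat_lit 8) (nat_lit 5) (nat_lit 8) (nat_lit 4) (nat_lit 390) (nat_lit 223) (nat_lit 167)) (XT.nd (nat_lit 78) (nat_lit 0) (nat_lit 0) (XT.lf (nat_lit 0) (nat_lit 25370615581) (nat_lit 76) (nat_lit 20580622436) (nat_lit 76) (nat_lit 10219589978) (nat_lit 7) (nat_lit 4) (nat_lit 8) (nat_lit 5) (nat_lit 8) (nat_lit 4) (nat_lit 391) (nat_lit 223) (nat_lit 166)) (XT.lf (nat_lit 0) (nat_lit 33085591976) (nat_lit 76) (nat_lit 17544481716) (nat_lit 76) (nat_lit 7114733048) (nat_lit 7) (nat_lit 4) (nat_lit 8) (nat_lit 5) (nat_lit 8) (nat_lit 4) (nat_lit 392) (nat_lit 223) (nat_lit 165)))) (XT.nd (nat_lit 156) (nat_lit 152) (nat_lit 0) (XT.nd (nat_lit 78) (nat_lit 0) (nat_lit 0) (XT.lf (nat_lit 0) (nat_lit 40977799867) (nat_lit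 76) (nat_lit 14442767500) (nat_lit 76) (nat_lit 3946304064) (nat_lit 7) (nat_lit 4) (nat_lit 8) (nat_lit 5) (nat_lit 8) (nat_lit 4) (nat_lit 393) (nat_lit 223) (nat_lit 164)) (XT.lf (nat_lit 0) (nat_lit 49054135358) (nat_lit 76) (nat_lit 11272769551) (nat_lit 76) (nat_lit 711534497) (nat_lit 7) (nat_lit 4) (nat_lit 8) (nat_lit 5) (nat_lit 8) (nat_lit 4) (nat_lit 394) (nat_lit 223) (nat_lit 163))) (XT.nd (nat_lit 78) (nat_lit 76) (nat_lit 0) (XT.lf (nat_lit 0) (nat_lit 2541815047) (nat_lit 152) (nat_lit 5464235574) (nat_lit 76) (nat_lit 54754173045) (nat_lit 6) (nat_lit 5) (nat_lit 8) (nat_lit 5) (nat_lit 7) (nat_lit 4) (nat_lit 395) (nat_lit 223) (nat_lit 162)) (XT.lf (nat_lit 0) (nat_lit 1218007926) (nat_lit 76) (nat_lit 4645628285) (nat_lit 152) (nat_lit 58670263500) (nat_lit 5) (nat_lit 5) (nat_lit 6) (nat_lit 5) (nat_lit 7) (nat_lit 4) (nat_lit 396) (nat_lit 223) (nat_lit 161))))) (XT.nd (nat_lit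 234) (nat_lit 0) (nat_lit 0) (XT.nd (nat_lit 78) (nat_lit 0) (nat_lit 0) (XT.lf (nat_lit 0) (nat_lit 8163072016) (nat_lit 76) (nat_lit 1150977642) (nat_lit 152) (nat_lit 57045872883) (nat_lit 5) (nat_lit 5) (nat_lit 6) (nat_lit 5) (nat_lit 7) (nat_lit 4) (nat_lit 397) (nat_lit 223) (nat_lit 160)) (XT.nd (nat_lit 78) (nat_lit 0) (nat_lit 0) (XT.lf (nat_lit 0) (nat_lit 12865817425) (nat_lit 152) (nat_lit 52996536693) (nat_lit 0) (nat_lit 2378441177) (nat_lit 5) (nat_lit 5) (nat_lit 7) (nat_lit 4) (nat_lit 5) (nat_lit 4) (nat_lit 398) (nat_lit 223) (nat_lit 159)) (XT.lf (nat_lit 0) (nat_lit 16510587748) (nat_lit 152) (nat_lit 47698951077) (nat_lit 0) (nat_lit 5968966289) (nat_lit 5) (nat_lit 5) (nat_lit 7) (nat_lit 4) (nat_lit 5) (nat_lit 4) (nat_lit 399) (nat_lit 223) (nat_lit 158)))) (XT.nd (nat_lit 156) (nat_lit 0) (nat_lit 0) (XT.nd (nat_lit 78) (nat_lit 0) (nat_lit 0) (XT.lf (nat_lit 0) (nat_lit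 20240481478) (nat_lit 152) (nat_lit 42288400816) (nat_lit 0) (nat_lit 9646194765) (nat_lit 5) (nat_lit 5) (nat_lit 7) (nat_lit 4) (nat_lit 5) (nat_lit 4) (nat_lit 400) (nat_lit 223) (nat_lit 157)) (XT.lf (nat_lit 0) (nat_lit 24058757744) (nat_lit 152) (nat_lit 36760158246) (nat_lit 0) (nat_lit 13413339717) (nat_lit 5) (nat_lit 5) (nat_lit 7) (nat_lit 4) (nat_lit 5) (nat_lit 4) (nat_lit 401) (nat_lit 223) (nat_lit 156))) (XT.nd (nat_lit 78) (nat_lit 0) (nat_lit 0) (XT.lf (nat_lit 0) (nat_lit 27968752904) (nat_lit 152) (nat_lit 31109392863) (nat_lit 0) (nat_lit 17273692825) (nat_lit 5) (nat_lit 5) (nat_lit 7) (nat_lit 4) (nat_lit 5) (nat_lit 4) (nat_lit 402) (nat_lit 223) (nat_lit 155)) (XT.lf (nat_lit 0) (nat_lit 31973883460) (nat_lit 152) (nat_lit 25331167106) (nat_lit 0) (nat_lit 21230627214) (nat_lit 5) (nat_lit 5) (nat_lit 7) (nat_lit 4) (nat_lit 5) (nat_lit 4) (nat_lit 403) (nat_lit 223) (nat_lit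 154)))))) (XT.nd (nat_lit 546) (nat_lit 0) (nat_lit 0) (XT.nd (nat_lit 234) (nat_lit 76) (nat_lit 0) (XT.nd (nat_lit 78) (nat_lit 0) (nat_lit 0) (XT.lf (nat_lit 0) (nat_lit 36077649039) (nat_lit 152) (nat_lit 19420432038) (nat_lit 0) (nat_lit 25287600397) (nat_lit 5) (nat_lit 5) (nat_lit 7) (nat_lit 4) (nat_lit 5) (nat_lit 4) (nat_lit 404) (nat_lit 223) (nat_lit 153)) (XT.nd (nat_lit 78) (nat_lit 0) (nat_lit 0) (XT.lf (nat_lit 0) (nat_lit 40283635457) (nat_lit 152) (nat_lit 13372022941) (nat_lit 0) (nat_lit 29448157305) (nat_lit 5) (nat_lit 5) (nat_lit 7) (nat_lit 4) (nat_lit 5) (nat_lit 4) (nat_lit 405) (nat_lit 223) (nat_lit 152)) (XT.lf (nat_lit 0) (nat_lit 44595517846) (nat_lit 152) (nat_lit 7180654796) (nat_lit 0) (nat_lit 33715933374) (nat_lit 5) (nat_lit 5) (nat_lit 7) (nat_lit 4) (nat_lit 5) (nat_lit 4) (nat_lit 406) (nat_lit 223) (nat_lit 151)))) (XT.nd (nat_lit 156) (nat_lit 0) (nat_lit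 0) (XT.nd (nat_lit 78) (nat_lit 76) (nat_lit 0) (XT.lf (nat_lit 0) (nat_lit 49017063873) (nat_lit 152) (nat_lit 840917670) (nat_lit 0) (nat_lit 38094657729) (nat_lit 5) (nat_lit 5) (nat_lit 7) (nat_lit 4) (nat_lit 5) (nat_lit 4) (nat_lit 407) (nat_lit 223) (nat_lit 150)) (XT.lf (nat_lit 0) (nat_lit 5765228383) (nat_lit 76) (nat_lit 47842327541) (nat_lit 76) (nat_lit 36878346960) (nat_lit 4) (nat_lit 4) (nat_lit 5) (nat_lit 5) (nat_lit 5) (nat_lit 4) (nat_lit 408) (nat_lit 223) (nat_lit 149))) (XT.nd (nat_lit 78) (nat_lit 0) (nat_lit 0) (XT.lf (nat_lit 0) (nat_lit 12550868970) (nat_lit 76) (nat_lit 45774477639) (nat_lit 76) (nat_lit 34770133527) (nat_lit 4) (nat_lit 4) (nat_lit 5) (nat_lit 5) (nat_lit 5) (nat_lit 4) (nat_lit 409) (nat_lit 223) (nat_lit 148)) (XT.lf (nat_lit 0) (nat_lit 19505197381) (nat_lit 76) (nat_lit 43661116599) (nat_lit 76) (nat_lit 32617584593) (nat_lit 4) (nat_lit 4) (nat_lit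 5) (nat_lit 5) (nat_lit 5) (nat_lit 4) (nat_lit 410) (nat_lit 223) (nat_lit 147))))) (XT.nd (nat_lit 34632) (nat_lit 0) (nat_lit 2432) (XT.nd (nat_lit 34476) (nat_lit 0) (nat_lit 2812) (XT.nd (nat_lit 78) (nat_lit 0) (nat_lit 0) (XT.lf (nat_lit 0) (nat_lit 26634290214) (nat_lit 76) (nat_lit 41500397795) (nat_lit 76) (nat_lit 30418819289) (nat_lit 4) (nat_lit 4) (nat_lit 5) (nat_lit 5) (nat_lit 5) (nat_lit 4) (nat_lit 411) (nat_lit 223) (nat_lit 146)) (XT.lf (nat_lit 0) (nat_lit 33944376773) (nat_lit 76) (nat_lit 39290433219) (nat_lit 76) (nat_lit 28171916363) (nat_lit 4) (nat_lit 4) (nat_lit 5) (nat_lit 5) (nat_lit 5) (nat_lit 4) (nat_lit 412) (nat_lit 223) (nat_lit 145))) (XT.nd (nat_lit 78) (nat_lit 228) (nat_lit 0) (XT.lf (nat_lit 0) (nat_lit 6539851980) (nat_lit 152) (nat_lit 130441338) (nat_lit 152) (nat_lit 130441338) (nat_lit 44) (nat_lit 4) (nat_lit 46) (nat_lit 5) (nat_lit 46) (nat_lit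 4) (nat_lit 332) (nat_lit 224) (nat_lit 224)) (XT.lf (nat_lit 0) (nat_lit 4238114143) (nat_lit 228) (nat_lit 5878828300) (nat_lit 0) (nat_lit 3740201383) (nat_lit 41) (nat_lit 5) (nat_lit 44) (nat_lit 4) (nat_lit 41) (nat_lit 4) (nat_lit 333) (nat_lit 224) (nat_lit 223)))) (XT.nd (nat_lit 156) (nat_lit 228) (nat_lit 0) (XT.nd (nat_lit 78) (nat_lit 0) (nat_lit 0) (XT.lf (nat_lit 0) (nat_lit 2499728019) (nat_lit 152) (nat_lit 6301999246) (nat_lit 152) (nat_lit 5320676040) (nat_lit 39) (nat_lit 4) (nat_lit 41) (nat_lit 5) (nat_lit 41) (nat_lit 4) (nat_lit 334) (nat_lit 224) (nat_lit 222)) (XT.lf (nat_lit 0) (nat_lit 11084197830) (nat_lit 152) (nat_lit 2381603837) (nat_lit 152) (nat_lit 930950100) (nat_lit 39) (nat_lit 4) (nat_lit 41) (nat_lit 5) (nat_lit 41) (nat_lit 4) (nat_lit 335) (nat_lit 224) (nat_lit 221))) (XT.nd (nat_lit 78) (nat_lit 0) (nat_lit 0) (XT.lf (nat_lit 0) (nat_lit 3492020309) (nat_lit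 228) (nat_lit 9545932524) (nat_lit 0) (nat_lit 1641229584) (nat_lit 36) (nat_lit 5) (nat_lit 39) (nat_lit 4) (nat_lit 36) (nat_lit 4) (nat_lit 336) (nat_lit 224) (nat_lit 220)) (XT.lf (nat_lit 0) (nat_lit 7992878018) (nat_lit 228) (nat_lit 1265465371) (nat_lit 0) (nat_lit 5712583373) (nat_lit 36) (nat_lit 5) (nat_lit 39) (nat_lit 4) (nat_lit 36) (nat_lit 4) (nat_lit 337) (nat_lit 224) (nat_lit 219))))))))
noncomputable def xc29 : XT := (XT.nd (nat_lit 2184) (nat_lit 532) (nat_lit 0) (XT.nd (nat_lit 1092) (nat_lit 532) (nat_lit 0) (XT.nd (nat_lit 546) (nat_lit 532) (nat_lit 0) (XT.nd (nat_lit 234) (nat_lit 304) (nat_lit 0) (XT.nd (nat_lit 78) (nat_lit 152) (nat_lit 0) (XT.lf (nat_lit 0) (nat_lit 7245989709) (nat_lit 152) (nat_lit 5361694186) (nat_lit 152) (nat_lit 2664405443) (nat_lit 34) (nat_lit 4) (nat_lit 36) (nat_lit 5) (nat_lit 36) (nat_lit 4) (nat_lit 338) (nat_lit 224) (nat_lit 218)) (XT.nd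 (nat_lit 78) (nat_lit 0) (nat_lit 0) (XT.lf (nat_lit 0) (nat_lit 286086919) (nat_lit 76) (nat_lit 1382989090) (nat_lit 152) (nat_lit 13914975400) (nat_lit 32) (nat_lit 5) (nat_lit 33) (nat_lit 5) (nat_lit 34) (nat_lit 4) (nat_lit 339) (nat_lit 224) (nat_lit 217)) (XT.lf (nat_lit 0) (nat_lit 6096907783) (nat_lit 152) (nat_lit 7103651695) (nat_lit 0) (nat_lit 2703515247) (nat_lit 32) (nat_lit 5) (nat_lit 34) (nat_lit 4) (nat_lit 32) (nat_lit 4) (nat_lit 340) (nat_lit 224) (nat_lit 216)))) (XT.nd (nat_lit 156) (nat_lit 152) (nat_lit 0) (XT.nd (nat_lit 78) (nat_lit 0) (nat_lit 0) (XT.lf (nat_lit 0) (nat_lit 1191093110) (nat_lit 152) (nat_lit 9404195217) (nat_lit 152) (nat_lit 5640308826) (nat_lit 30) (nat_lit 4) (nat_lit 32) (nat_lit 5) (nat_lit 32) (nat_lit 4) (nat_lit 341) (nat_lit 224) (nat_lit 215)) (XT.lf (nat_lit 0) (nat_lit 9726870316) (nat_lit 152) (nat_lit 5487125891) (nat_lit 152) (nat_lit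 1363536729) (nat_lit 30) (nat_lit 4) (nat_lit 32) (nat_lit 5) (nat_lit 32) (nat_lit 4) (nat_lit 342) (nat_lit 224) (nat_lit 214))) (XT.nd (nat_lit 78) (nat_lit 0) (nat_lit 0) (XT.lf (nat_lit 0) (nat_lit 1437128417) (nat_lit 76) (nat_lit 1474173834) (nat_lit 152) (nat_lit 14019701271) (nat_lit 28) (nat_lit 5) (nat_lit 29) (nat_lit 5) (nat_lit 30) (nat_lit 4) (nat_lit 343) (nat_lit 224) (nat_lit 213)) (XT.lf (nat_lit 0) (nat_lit 7298108855) (nat_lit 152) (nat_lit 7369866136) (nat_lit 0) (nat_lit 2626390879) (nat_lit 28) (nat_lit 5) (nat_lit 30) (nat_lit 4) (nat_lit 28) (nat_lit 4) (nat_lit 344) (nat_lit 224) (nat_lit 212))))) (XT.nd (nat_lit 234) (nat_lit 304) (nat_lit 0) (XT.nd (nat_lit 78) (nat_lit 76) (nat_lit 0) (XT.lf (nat_lit 0) (nat_lit 853216180) (nat_lit 152) (nat_lit 10904259592) (nat_lit 152) (nat_lit 5912950362) (nat_lit 26) (nat_lit 4) (nat_lit 28) (nat_lit 5) (nat_lit 28) (nat_lit 4)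 (nat_lit 345) (nat_lit 224) (nat_lit 211)) (XT.nd (nat_lit 78) (nat_lit 76) (nat_lit 0) (XT.lf (nat_lit 0) (nat_lit 9328803773) (nat_lit 152) (nat_lit 7015387197) (nat_lit 152) (nat_lit 1713795197) (nat_lit 26) (nat_lit 4) (nat_lit 28) (nat_lit 5) (nat_lit 28) (nat_lit 4) (nat_lit 346) (nat_lit 224) (nat_lit 210)) (XT.lf (nat_lit 0) (nat_lit 2481078127) (nat_lit 228) (nat_lit 566248810) (nat_lit 76) (nat_lit 15411495559) (nat_lit 25) (nat_lit 5) (nat_lit 28) (nat_lit 5) (nat_lit 26) (nat_lit 4) (nat_lit 347) (nat_lit 224) (nat_lit 209)))) (XT.nd (nat_lit 156) (nat_lit 228) (nat_lit 0) (XT.nd (nat_lit 78) (nat_lit 0) (nat_lit 0) (XT.lf (nat_lit 0) (nat_lit 6776033969) (nat_lit 152) (nat_lit 11042469989) (nat_lit 0) (nat_lit 1052433310) (nat_lit 24) (nat_lit 5) (nat_lit 26) (nat_lit 4) (nat_lit 24) (nat_lit 4) (nat_lit 348) (nat_lit 224) (nat_lit 208)) (XT.lf (nat_lit 0) (nat_lit 11159131857) (nat_lit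 152) (nat_lit 2977678044) (nat_lit 0) (nat_lit 5159848975) (nat_lit 24) (nat_lit 5) (nat_lit 26) (nat_lit 4) (nat_lit 24) (nat_lit 4) (nat_lit 349) (nat_lit 224) (nat_lit 207))) (XT.nd (nat_lit 78) (nat_lit 76) (nat_lit 0) (XT.lf (nat_lit 0) (nat_lit 5297639182) (nat_lit 152) (nat_lit 10352587454) (nat_lit 152) (nat_lit 4085651928) (nat_lit 22) (nat_lit 4) (nat_lit 24) (nat_lit 5) (nat_lit 24) (nat_lit 4) (nat_lit 350) (nat_lit 224) (nat_lit 206)) (XT.lf (nat_lit 0) (nat_lit 42148715) (nat_lit 228) (nat_lit 6441230568) (nat_lit 76) (nat_lit 13706208089) (nat_lit 21) (nat_lit 5) (nat_lit 24) (nat_lit 5) (nat_lit 22) (nat_lit 4) (nat_lit 351) (nat_lit 224) (nat_lit 205)))))) (XT.nd (nat_lit 546) (nat_lit 228) (nat_lit 0) (XT.nd (nat_lit 234) (nat_lit 228) (nat_lit 0) (XT.nd (nat_lit 78) (nat_lit 0) (nat_lit 0) (XT.lf (nat_lit 0) (nat_lit 1656520715) (nat_lit 76) (nat_lit 2498947985) (nat_lit 152)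 (nat_lit 16501930818) (nat_lit 20) (nat_lit 5) (nat_lit 21) (nat_lit 5) (nat_lit 22) (nat_lit 4) (nat_lit 352) (nat_lit 224) (nat_lit 204)) (XT.nd (nat_lit 78) (nat_lit 0) (nat_lit 0) (XT.lf (nat_lit 0) (nat_lit 8401474953) (nat_lit 152) (nat_lit 11155474370) (nat_lit 0) (nat_lit 1582037252) (nat_lit 20) (nat_lit 5) (nat_lit 22) (nat_lit 4) (nat_lit 20) (nat_lit 4) (nat_lit 353) (nat_lit 224) (nat_lit 203)) (XT.lf (nat_lit 0) (nat_lit 12729866046) (nat_lit 152) (nat_lit 3226974821) (nat_lit 0) (nat_lit 5679548823) (nat_lit 20) (nat_lit 5) (nat_lit 22) (nat_lit 4) (nat_lit 20) (nat_lit 4) (nat_lit 354) (nat_lit 224) (nat_lit 202)))) (XT.nd (nat_lit 156) (nat_lit 152) (nat_lit 0) (XT.nd (nat_lit 78) (nat_lit 0) (nat_lit 0) (XT.lf (nat_lit 0) (nat_lit 4911408341) (nat_lit 76) (nat_lit 12256205772) (nat_lit 76) (nat_lit 4981733674) (nat_lit 19) (nat_lit 4) (nat_lit 20) (nat_lit 5) (nat_lit 20) (nat_lit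 4) (nat_lit 355) (nat_lit 224) (nat_lit 201)) (XT.lf (nat_lit 0) (nat_lit 13237496010) (nat_lit 76) (nat_lit 8466672063) (nat_lit 76) (nat_lit 974573872) (nat_lit 19) (nat_lit 4) (nat_lit 20) (nat_lit 5) (nat_lit 20) (nat_lit 4) (nat_lit 356) (nat_lit 224) (nat_lit 200))) (XT.nd (nat_lit 78) (nat_lit 76) (nat_lit 0) (XT.lf (nat_lit 0) (nat_lit 3025654584) (nat_lit 152) (nat_lit 1561306852) (nat_lit 76) (nat_lit 18638132516) (nat_lit 18) (nat_lit 5) (nat_lit 20) (nat_lit 5) (nat_lit 19) (nat_lit 4) (nat_lit 357) (nat_lit 224) (nat_lit 199)) (XT.lf (nat_lit 0) (nat_lit 6556478382) (nat_lit 76) (nat_lit 569136152) (nat_lit 152) (nat_lit 16661969163) (nat_lit 17) (nat_lit 5) (nat_lit 18) (nat_lit 5) (nat_lit 19) (nat_lit 4) (nat_lit 358) (nat_lit 224) (nat_lit 198))))) (XT.nd (nat_lit 234) (nat_lit 152) (nat_lit 0) (XT.nd (nat_lit 78) (nat_lit 76) (nat_lit 0) (XT.lf (nat_lit 0) (nat_lit 11335329489)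 (nat_lit 152) (nat_lit 9568233908) (nat_lit 0) (nat_lit 3463797618) (nat_lit 17) (nat_lit 5) (nat_lit 19) (nat_lit 4) (nat_lit 17) (nat_lit 4) (nat_lit 359) (nat_lit 224) (nat_lit 197)) (XT.nd (nat_lit 78) (nat_lit 76) (nat_lit 0) (XT.lf (nat_lit 0) (nat_lit 15615344111) (nat_lit 152) (nat_lit 1794796347) (nat_lit 0) (nat_lit 7556086061) (nat_lit 17) (nat_lit 5) (nat_lit 19) (nat_lit 4) (nat_lit 17) (nat_lit 4) (nat_lit 360) (nat_lit 224) (nat_lit 196)) (XT.lf (nat_lit 0) (nat_lit 6222901803) (nat_lit 76) (nat_lit 13800843870) (nat_lit 76) (nat_lit 5559327394) (nat_lit 16) (nat_lit 4) (nat_lit 17) (nat_lit 5) (nat_lit 17) (nat_lit 4) (nat_lit 361) (nat_lit 224) (nat_lit 195)))) (XT.nd (nat_lit 156) (nat_lit 76) (nat_lit 0) (XT.nd (nat_lit 78) (nat_lit 76) (nat_lit 0) (XT.lf (nat_lit 0) (nat_lit 14408630796) (nat_lit 76) (nat_lit 10114752670) (nat_lit 76) (nat_lit 1696286266) (nat_lit 16) (nat_lit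 4) (nat_lit 17) (nat_lit 5) (nat_lit 17) (nat_lit 4) (nat_lit 362) (nat_lit 224) (nat_lit 194)) (XT.lf (nat_lit 0) (nat_lit 2180104176) (nat_lit 152) (nat_lit 4164650973) (nat_lit 76) (nat_lit 20531704288) (nat_lit 15) (nat_lit 5) (nat_lit 17) (nat_lit 5) (nat_lit 16) (nat_lit 4) (nat_lit 363) (nat_lit 224) (nat_lit 193))) (XT.nd (nat_lit 78) (nat_lit 0) (nat_lit 0) (XT.lf (nat_lit 0) (nat_lit 3661633783) (nat_lit 76) (nat_lit 2455946765) (nat_lit 152) (nat_lit 21435514838) (nat_lit 14) (nat_lit 5) (nat_lit 15) (nat_lit 5) (nat_lit 16) (nat_lit 4) (nat_lit 364) (nat_lit 224) (nat_lit 192)) (XT.lf (nat_lit 0) (nat_lit 10174429861) (nat_lit 152) (nat_lit 16560358491) (nat_lit 0) (nat_lit 1515217258) (nat_lit 14) (nat_lit 5) (nat_lit 16) (nat_lit 4) (nat_lit 14) (nat_lit 4) (nat_lit 365) (nat_lit 224) (nat_lit 191))))))) (XT.nd (nat_lit 1092) (nat_lit 228) (nat_lit 0) (XT.nd (nat_lit 546) (nat_lit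 76) (nat_lit 0) (XT.nd (nat_lit 234) (nat_lit 152) (nat_lit 0) (XT.nd (nat_lit 78) (nat_lit 76) (nat_lit 0) (XT.lf (nat_lit 0) (nat_lit 14322817915) (nat_lit 152) (nat_lit 9134955768) (nat_lit 0) (nat_lit 5510966750) (nat_lit 14) (nat_lit 5) (nat_lit 16) (nat_lit 4) (nat_lit 14) (nat_lit 4) (nat_lit 366) (nat_lit 224) (nat_lit 190)) (XT.nd (nat_lit 78) (nat_lit 76) (nat_lit 0) (XT.lf (nat_lit 0) (nat_lit 18542761453) (nat_lit 152) (nat_lit 1585157154) (nat_lit 0) (nat_lit 9582717508) (nat_lit 14) (nat_lit 5) (nat_lit 16) (nat_lit 4) (nat_lit 14) (nat_lit 4) (nat_lit 367) (nat_lit 224) (nat_lit 189)) (XT.lf (nat_lit 0) (nat_lit 6216949336) (nat_lit 76) (nat_lit 16680759588) (nat_lit 76) (nat_lit 7576839158) (nat_lit 13) (nat_lit 4) (nat_lit 14) (nat_lit 5) (nat_lit 14) (nat_lit 4) (nat_lit 368) (nat_lit 224) (nat_lit 188)))) (XT.nd (nat_lit 156) (nat_lit 152) (nat_lit 0) (XT.nd (nat_lit 78) (nat_lit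 0) (nat_lit 0) (XT.lf (nat_lit 0) (nat_lit 14191048317) (nat_lit 76) (nat_lit 13157494763) (nat_lit 76) (nat_lit 3913888426) (nat_lit 13) (nat_lit 4) (nat_lit 14) (nat_lit 5) (nat_lit 14) (nat_lit 4) (nat_lit 369) (nat_lit 224) (nat_lit 187)) (XT.lf (nat_lit 0) (nat_lit 22312559715) (nat_lit 76) (nat_lit 9571052530) (nat_lit 76) (nat_lit 191828807) (nat_lit 13) (nat_lit 4) (nat_lit 14) (nat_lit 5) (nat_lit 14) (nat_lit 4) (nat_lit 370) (nat_lit 224) (nat_lit 186))) (XT.nd (nat_lit 78) (nat_lit 76) (nat_lit 0) (XT.lf (nat_lit 0) (nat_lit 3522487573) (nat_lit 152) (nat_lit 2360241314) (nat_lit 76) (nat_lit 27030522203) (nat_lit 12) (nat_lit 5) (nat_lit 14) (nat_lit 5) (nat_lit 13) (nat_lit 4) (nat_lit 371) (nat_lit 224) (nat_lit 185)) (XT.lf (nat_lit 0) (nat_lit 5278088883) (nat_lit 76) (nat_lit 2070094547) (nat_lit 152) (nat_lit 26427850845) (nat_lit 11) (nat_lit 5) (nat_lit 12) (nat_lit 5) (nat_lit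 13) (nat_lit 4) (nat_lit 372) (nat_lit 224) (nat_lit 184))))) (XT.nd (nat_lit 234) (nat_lit 76) (nat_lit 0) (XT.nd (nat_lit 78) (nat_lit 0) (nat_lit 0) (XT.lf (nat_lit 0) (nat_lit 11283786615) (nat_lit 152) (nat_lit 21575761586) (nat_lit 0) (nat_lit 1805308362) (nat_lit 11) (nat_lit 5) (nat_lit 13) (nat_lit 4) (nat_lit 11) (nat_lit 4) (nat_lit 373) (nat_lit 224) (nat_lit 183)) (XT.nd (nat_lit 78) (nat_lit 0) (nat_lit 0) (XT.lf (nat_lit 0) (nat_lit 15312533322) (nat_lit 152) (nat_lit 14551497033) (nat_lit 0) (nat_lit 5717070320) (nat_lit 11) (nat_lit 5) (nat_lit 13) (nat_lit 4) (nat_lit 11) (nat_lit 4) (nat_lit 374) (nat_lit 224) (nat_lit 182)) (XT.lf (nat_lit 0) (nat_lit 19418044799) (nat_lit 152) (nat_lit 7399115013) (nat_lit 0) (nat_lit 9709004371) (nat_lit 11) (nat_lit 5) (nat_lit 13) (nat_lit 4) (nat_lit 11) (nat_lit 4) (nat_lit 375) (nat_lit 224) (nat_lit 181)))) (XT.nd (nat_lit 156) (nat_lit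 0) (nat_lit 0) (XT.nd (nat_lit 78) (nat_lit 76) (nat_lit 0) (XT.lf (nat_lit 0) (nat_lit 23603908387) (nat_lit 152) (nat_lit 112365869) (nat_lit 0) (nat_lit 13784598614) (nat_lit 11) (nat_lit 5) (nat_lit 13) (nat_lit 4) (nat_lit 11) (nat_lit 4) (nat_lit 376) (nat_lit 224) (nat_lit 180)) (XT.lf (nat_lit 0) (nat_lit 7460702639) (nat_lit 76) (nat_lit 20484795836) (nat_lit 76) (nat_lit 10558428446) (nat_lit 10) (nat_lit 4) (nat_lit 11) (nat_lit 5) (nat_lit 11) (nat_lit 4) (nat_lit 377) (nat_lit 224) (nat_lit 179))) (XT.nd (nat_lit 78) (nat_lit 0) (nat_lit 0) (XT.lf (nat_lit 0) (nat_lit 15186161718) (nat_lit 76) (nat_lit 17191212463) (nat_lit 76) (nat_lit 7160905640) (nat_lit 10) (nat_lit 4) (nat_lit 11) (nat_lit 5) (nat_lit 11) (nat_lit 4) (nat_lit 378) (nat_lit 224) (nat_lit 178)) (XT.lf (nat_lit 0) (nat_lit 23068525468) (nat_lit 76) (nat_lit 13833780927) (nat_lit 76) (nat_lit 3702562032) (nat_lit 10)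 (nat_lit 4) (nat_lit 11) (nat_lit 5) (nat_lit 11) (nat_lit 4) (nat_lit 379) (nat_lit 224) (nat_lit 177)))))) (XT.nd (nat_lit 546) (nat_lit 76) (nat_lit 0) (XT.nd (nat_lit 234) (nat_lit 0) (nat_lit 0) (XT.nd (nat_lit 78) (nat_lit 152) (nat_lit 0) (XT.lf (nat_lit 0) (nat_lit 31114681391) (nat_lit 76) (nat_lit 10409567548) (nat_lit 76) (nat_lit 180375768) (nat_lit 10) (nat_lit 4) (nat_lit 11) (nat_lit 5) (nat_lit 11) (nat_lit 4) (nat_lit 380) (nat_lit 224) (nat_lit 176)) (XT.nd (nat_lit 78) (nat_lit 76) (nat_lit 0) (XT.lf (nat_lit 0) (nat_lit 3342214173) (nat_lit 152) (nat_lit 3539616313) (nat_lit 76) (nat_lit 35955696125) (nat_lit 9) (nat_lit 5) (nat_lit 11) (nat_lit 5) (nat_lit 10) (nat_lit 4) (nat_lit 381) (nat_lit 224) (nat_lit 175)) (XT.lf (nat_lit 0) (nat_lit 3723852436) (nat_lit 76) (nat_lit 3241917200) (nat_lit 152) (nat_lit 37038632181) (nat_lit 8) (nat_lit 5) (nat_lit 9) (nat_lit 5) (nat_lit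 10) (nat_lit 4) (nat_lit 382) (nat_lit 224) (nat_lit 174)))) (XT.nd (nat_lit 156) (nat_lit 0) (nat_lit 0) (XT.nd (nat_lit 78) (nat_lit 0) (nat_lit 0) (XT.lf (nat_lit 0) (nat_lit 10702228093) (nat_lit 152) (nat_lit 34002017915) (nat_lit 0) (nat_lit 501918389) (nat_lit 8) (nat_lit 5) (nat_lit 10) (nat_lit 4) (nat_lit 8) (nat_lit 4) (nat_lit 383) (nat_lit 224) (nat_lit 173)) (XT.lf (nat_lit 0) (nat_lit 14547173443) (nat_lit 152) (nat_lit 27634569953) (nat_lit 0) (nat_lit 4262351468) (nat_lit 8) (nat_lit 5) (nat_lit 10) (nat_lit 4) (nat_lit 8) (nat_lit 4) (nat_lit 384) (nat_lit 224) (nat_lit 172))) (XT.nd (nat_lit 78) (nat_lit 0) (nat_lit 0) (XT.lf (nat_lit 0) (nat_lit 18472802056) (nat_lit 152) (nat_lit 21141478416) (nat_lit 0) (nat_lit 8105929332) (nat_lit 8) (nat_lit 5) (nat_lit 10) (nat_lit 4) (nat_lit 8) (nat_lit 4) (nat_lit 385) (nat_lit 224) (nat_lit 171)) (XT.lf (nat_lit 0) (nat_lit 22482544092)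 (nat_lit 152) (nat_lit 14517069728) (nat_lit 0) (nat_lit 12036010447) (nat_lit 8) (nat_lit 5) (nat_lit 10) (nat_lit 4) (nat_lit 8) (nat_lit 4) (nat_lit 386) (nat_lit 224) (nat_lit 170))))) (XT.nd (nat_lit 312) (nat_lit 0) (nat_lit 0) (XT.nd (nat_lit 156) (nat_lit 76) (nat_lit 0) (XT.nd (nat_lit 78) (nat_lit 0) (nat_lit 0) (XT.lf (nat_lit 0) (nat_lit 26579903211) (nat_lit 152) (nat_lit 7755555571) (nat_lit 0) (nat_lit 16056028866) (nat_lit 8) (nat_lit 5) (nat_lit 10) (nat_lit 4) (nat_lit 8) (nat_lit 4) (nat_lit 387) (nat_lit 224) (nat_lit 169)) (XT.lf (nat_lit 0) (nat_lit 30768459628) (nat_lit 152) (nat_lit 851027826) (nat_lit 0) (nat_lit 20169497224) (nat_lit 8) (nat_lit 5) (nat_lit 10) (nat_lit 4) (nat_lit 8) (nat_lit 4) (nat_lit 388) (nat_lit 224) (nat_lit 168))) (XT.nd (nat_lit 78) (nat_lit 0) (nat_lit 0) (XT.lf (nat_lit 0) (nat_lit 6325989428) (nat_lit 76) (nat_lit 28786693100) (nat_lit 76)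 (nat_lit 18114829668) (nat_lit 7) (nat_lit 4) (nat_lit 8) (nat_lit 5) (nat_lit 8) (nat_lit 4) (nat_lit 389) (nat_lit 224) (nat_lit 167)) (XT.lf (nat_lit 0) (nat_lit 13678242777) (nat_lit 76) (nat_lit 25887127718) (nat_lit 76) (nat_lit 15144486590) (nat_lit 7) (nat_lit 4) (nat_lit 8) (nat_lit 5) (nat_lit 8) (nat_lit 4) (nat_lit 390) (nat_lit 224) (nat_lit 166)))) (XT.nd (nat_lit 156) (nat_lit 0) (nat_lit 0) (XT.nd (nat_lit 78) (nat_lit 0) (nat_lit 0) (XT.lf (nat_lit 0) (nat_lit 21195219396) (nat_lit 76) (nat_lit 22926851422) (nat_lit 76) (nat_lit 12115494083) (nat_lit 7) (nat_lit 4) (nat_lit 8) (nat_lit 5) (nat_lit 8) (nat_lit 4) (nat_lit 391) (nat_lit 224) (nat_lit 165)) (XT.lf (nat_lit 0) (nat_lit 28883487518) (nat_lit 76) (nat_lit 19903277562) (nat_lit 76) (nat_lit 9025205456) (nat_lit 7) (nat_lit 4) (nat_lit 8) (nat_lit 5) (nat_lit 8) (nat_lit 4) (nat_lit 392) (nat_lit 224) (nat_lit 164))) (XT.nd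 (nat_lit 78) (nat_lit 0) (nat_lit 0) (XT.lf (nat_lit 0) (nat_lit 36749765046) (nat_lit 76) (nat_lit 16813764181) (nat_lit 76) (nat_lit 5870920456) (nat_lit 7) (nat_lit 4) (nat_lit 8) (nat_lit 5) (nat_lit 8) (nat_lit 4) (nat_lit 393) (nat_lit 224) (nat_lit 163)) (XT.lf (nat_lit 0) (nat_lit 44800925427) (nat_lit 76) (nat_lit 13655611703) (nat_lit 76) (nat_lit 2649882911) (nat_lit 7) (nat_lit 4) (nat_lit 8) (nat_lit 5) (nat_lit 8) (nat_lit 4) (nat_lit 394) (nat_lit 224) (nat_lit 162))))))))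
noncomputable def xc30 : XT := (XT.nd (nat_lit 36348) (nat_lit 0) (nat_lit 684) (XT.nd (nat_lit 1092) (nat_lit 0) (nat_lit 0) (XT.nd (nat_lit 546) (nat_lit 76) (nat_lit 0) (XT.nd (nat_lit 234) (nat_lit 0) (nat_lit 0) (XT.nd (nat_lit 78) (nat_lit 76) (nat_lit 0) (XT.lf (nat_lit 0) (nat_lit 628218888) (nat_lit 152) (nat_lit 9791497910) (nat_lit 76) (nat_lit 52409440988) (nat_lit 6) (nat_lit 5) (nat_lit 8) (nat_lit 5) (nat_lit 7) (nat_lit 4) (nat_lit 395) (nat_lit 224) (nat_lit 161)) (XT.nd (nat_lit 78) (nat_lit 76) (nat_lit 0) (XT.lf (nat_lit 0) (nat_lit 3925640647) (nat_lit 152) (nat_lit 3157006947) (nat_lit 76) (nat_lit 57520920501) (nat_lit 6) (nat_lit 5) (nat_lit 8) (nat_lit 5) (nat_lit 7) (nat_lit 4) (nat_lit 396) (nat_lit 224) (nat_lit 160)) (XT.lf (nat_lit 0) (nat_lit 3701476841) (nat_lit 76) (nat_lit 3631076383) (nat_lit 152) (nat_lit 59098344942) (nat_lit 5) (nat_lit 5) (nat_lit 6) (nat_lit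 5) (nat_lit 7) (nat_lit 4) (nat_lit 397) (nat_lit 224) (nat_lit 159)))) (XT.nd (nat_lit 156) (nat_lit 0) (nat_lit 0) (XT.nd (nat_lit 78) (nat_lit 0) (nat_lit 0) (XT.lf (nat_lit 0) (nat_lit 10783623087) (nat_lit 76) (nat_lit 65195563) (nat_lit 152) (nat_lit 57464019494) (nat_lit 5) (nat_lit 5) (nat_lit 6) (nat_lit 5) (nat_lit 7) (nat_lit 4) (nat_lit 398) (nat_lit 224) (nat_lit 158)) (XT.lf (nat_lit 0) (nat_lit 14481031385) (nat_lit 152) (nat_lit 52253644575) (nat_lit 0) (nat_lit 3516250818) (nat_lit 5) (nat_lit 5) (nat_lit 7) (nat_lit 4) (nat_lit 5) (nat_lit 4) (nat_lit 399) (nat_lit 224) (nat_lit 157))) (XT.nd (nat_lit 78) (nat_lit 0) (nat_lit 0) (XT.lf (nat_lit 0) (nat_lit 18199341728) (nat_lit 152) (nat_lit 46865076679) (nat_lit 0) (nat_lit 7183429846) (nat_lit 5) (nat_lit 5) (nat_lit 7) (nat_lit 4) (nat_lit 5) (nat_lit 4) (nat_lit 400) (nat_lit 224) (nat_lit 156)) (XT.lf (nat_lit 0) (nat_lit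 22006371987) (nat_lit 152) (nat_lit 41358176209) (nat_lit 0) (nat_lit 10940818053) (nat_lit 5) (nat_lit 5) (nat_lit 7) (nat_lit 4) (nat_lit 5) (nat_lit 4) (nat_lit 401) (nat_lit 224) (nat_lit 155))))) (XT.nd (nat_lit 234) (nat_lit 76) (nat_lit 0) (XT.nd (nat_lit 78) (nat_lit 0) (nat_lit 0) (XT.lf (nat_lit 0) (nat_lit 25905448694) (nat_lit 152) (nat_lit 35728131312) (nat_lit 0) (nat_lit 14791698593) (nat_lit 5) (nat_lit 5) (nat_lit 7) (nat_lit 4) (nat_lit 5) (nat_lit 4) (nat_lit 402) (nat_lit 224) (nat_lit 154)) (XT.nd (nat_lit 78) (nat_lit 0) (nat_lit 0) (XT.lf (nat_lit 0) (nat_lit 29899978810) (nat_lit 152) (nat_lit 29970022531) (nat_lit 0) (nat_lit 18739436313) (nat_lit 5) (nat_lit 5) (nat_lit 7) (nat_lit 4) (nat_lit 5) (nat_lit 4) (nat_lit 403) (nat_lit 224) (nat_lit 153)) (XT.lf (nat_lit 0) (nat_lit 33993452700) (nat_lit 152) (nat_lit 24078818509) (nat_lit 0) (nat_lit 22787480693) (nat_lit 5)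 (nat_lit 5) (nat_lit 7) (nat_lit 4) (nat_lit 5) (nat_lit 4) (nat_lit 404) (nat_lit 224) (nat_lit 152)))) (XT.nd (nat_lit 156) (nat_lit 76) (nat_lit 0) (XT.nd (nat_lit 78) (nat_lit 0) (nat_lit 0) (XT.lf (nat_lit 0) (nat_lit 38189447187) (nat_lit 152) (nat_lit 18049371592) (nat_lit 0) (nat_lit 26939368859) (nat_lit 5) (nat_lit 5) (nat_lit 7) (nat_lit 4) (nat_lit 5) (nat_lit 4) (nat_lit 405) (nat_lit 224) (nat_lit 151)) (XT.lf (nat_lit 0) (nat_lit 42491628672) (nat_lit 152) (nat_lit 11876413331) (nat_lit 0) (nat_lit 31198728674) (nat_lit 5) (nat_lit 5) (nat_lit 7) (nat_lit 4) (nat_lit 5) (nat_lit 4) (nat_lit 406) (nat_lit 224) (nat_lit 150))) (XT.nd (nat_lit 78) (nat_lit 76) (nat_lit 0) (XT.lf (nat_lit 0) (nat_lit 46903756345) (nat_lit 152) (nat_lit 5554549878) (nat_lit 0) (nat_lit 35569281909) (nat_lit 5) (nat_lit 5) (nat_lit 7) (nat_lit 4) (nat_lit 5) (nat_lit 4) (nat_lit 407) (nat_lit 224) (nat_lit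 149)) (XT.lf (nat_lit 0) (nat_lit 940087210) (nat_lit 76) (nat_lit 50498634944) (nat_lit 76) (nat_lit 39123796978) (nat_lit 4) (nat_lit 4) (nat_lit 5) (nat_lit 5) (nat_lit 5) (nat_lit 4) (nat_lit 408) (nat_lit 224) (nat_lit 148)))))) (XT.nd (nat_lit 34710) (nat_lit 0) (nat_lit 2204) (XT.nd (nat_lit 234) (nat_lit 0) (nat_lit 0) (XT.nd (nat_lit 78) (nat_lit 0) (nat_lit 0) (XT.lf (nat_lit 0) (nat_lit 7708544845) (nat_lit 76) (nat_lit 48438925121) (nat_lit 76) (nat_lit 37024899260) (nat_lit 4) (nat_lit 4) (nat_lit 5) (nat_lit 5) (nat_lit 5) (nat_lit 4) (nat_lit 409) (nat_lit 224) (nat_lit 147)) (XT.nd (nat_lit 78) (nat_lit 0) (nat_lit 0) (XT.lf (nat_lit 0) (nat_lit 14646190778) (nat_lit 76) (nat_lit 46333467070) (nat_lit 76) (nat_lit 34881394709) (nat_lit 4) (nat_lit 4) (nat_lit 5) (nat_lit 5) (nat_lit 5) (nat_lit 4) (nat_lit 410) (nat_lit 224) (nat_lit 146)) (XT.lf (nat_lit 0) (nat_lit 21759087030)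 (nat_lit 76) (nat_lit 44180421069) (nat_lit 76) (nat_lit 32691410359) (nat_lit 4) (nat_lit 4) (nat_lit 5) (nat_lit 5) (nat_lit 5) (nat_lit 4) (nat_lit 411) (nat_lit 224) (nat_lit 145)))) (XT.nd (nat_lit 34320) (nat_lit 0) (nat_lit 2964) (XT.nd (nat_lit 34242) (nat_lit 0) (nat_lit 3192) (XT.lf (nat_lit 0) (nat_lit 29053448752) (nat_lit 76) (nat_lit 41977905818) (nat_lit 76) (nat_lit 30453032633) (nat_lit 4) (nat_lit 4) (nat_lit 5) (nat_lit 5) (nat_lit 5) (nat_lit 4) (nat_lit 412) (nat_lit 224) (nat_lit 144)) (XT.lf (nat_lit 0) (nat_lit 2313930022) (nat_lit 228) (nat_lit 1926807932) (nat_lit 0) (nat_lit 2313930022) (nat_lit 46) (nat_lit 5) (nat_lit 49) (nat_lit 4) (nat_lit 46) (nat_lit 4) (nat_lit 330) (nat_lit 225) (nat_lit 225))) (XT.nd (nat_lit 78) (nat_lit 76) (nat_lit 0) (XT.lf (nat_lit 0) (nat_lit 4490243693) (nat_lit 152) (nat_lit 4694799137) (nat_lit 152) (nat_lit 4166563490) (nat_lit 44)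 (nat_lit 4) (nat_lit 46) (nat_lit 5) (nat_lit 46) (nat_lit 4) (nat_lit 331) (nat_lit 225) (nat_lit 224)) (XT.lf (nat_lit 0) (nat_lit 214040033) (nat_lit 228) (nat_lit 606584520) (nat_lit 76) (nat_lit 12782230284) (nat_lit 43) (nat_lit 5) (nat_lit 46) (nat_lit 5) (nat_lit 44) (nat_lit 4) (nat_lit 332) (nat_lit 225) (nat_lit 223))))) (XT.nd (nat_lit 234) (nat_lit 456) (nat_lit 0) (XT.nd (nat_lit 78) (nat_lit 152) (nat_lit 0) (XT.lf (nat_lit 0) (nat_lit 4653921282) (nat_lit 228) (nat_lit 6046424818) (nat_lit 0) (nat_lit 3159747933) (nat_lit 41) (nat_lit 5) (nat_lit 44) (nat_lit 4) (nat_lit 41) (nat_lit 4) (nat_lit 333) (nat_lit 225) (nat_lit 222)) (XT.nd (nat_lit 78) (nat_lit 0) (nat_lit 0) (XT.lf (nat_lit 0) (nat_lit 2247045551) (nat_lit 152) (nat_lit 6921647843) (nat_lit 152) (nat_lit 4958143963) (nat_lit 39) (nat_lit 4) (nat_lit 41) (nat_lit 5) (nat_lit 41) (nat_lit 4) (nat_lit 334) (nat_lit 225)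 (nat_lit 221)) (XT.lf (nat_lit 0) (nat_lit 10752145993) (nat_lit 152) (nat_lit 3034798591) (nat_lit 152) (nat_lit 615634002) (nat_lit 39) (nat_lit 4) (nat_lit 41) (nat_lit 5) (nat_lit 41) (nat_lit 4) (nat_lit 335) (nat_lit 225) (nat_lit 220)))) (XT.nd (nat_lit 156) (nat_lit 228) (nat_lit 0) (XT.nd (nat_lit 78) (nat_lit 0) (nat_lit 0) (XT.lf (nat_lit 0) (nat_lit 3745523566) (nat_lit 228) (nat_lit 9973765408) (nat_lit 0) (nat_lit 967316161) (nat_lit 36) (nat_lit 5) (nat_lit 39) (nat_lit 4) (nat_lit 36) (nat_lit 4) (nat_lit 336) (nat_lit 225) (nat_lit 219)) (XT.lf (nat_lit 0) (nat_lit 8201686473) (nat_lit 228) (nat_lit 1771535421) (nat_lit 0) (nat_lit 5006484970) (nat_lit 36) (nat_lit 5) (nat_lit 39) (nat_lit 4) (nat_lit 36) (nat_lit 4) (nat_lit 337) (nat_lit 225) (nat_lit 218))) (XT.nd (nat_lit 78) (nat_lit 76) (nat_lit 0) (XT.lf (nat_lit 0) (nat_lit 6652377739) (nat_lit 152) (nat_lit 6115015435)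 (nat_lit 152) (nat_lit 2514965294) (nat_lit 34) (nat_lit 4) (nat_lit 36) (nat_lit 5) (nat_lit 36) (nat_lit 4) (nat_lit 338) (nat_lit 225) (nat_lit 217)) (XT.lf (nat_lit 0) (nat_lit 1769558299) (nat_lit 228) (nat_lit 400903723) (nat_lit 76) (nat_lit 13425211810) (nat_lit 33) (nat_lit 5) (nat_lit 36) (nat_lit 5) (nat_lit 34) (nat_lit 4) (nat_lit 339) (nat_lit 225) (nat_lit 216))))))) (XT.nd (nat_lit 1092) (nat_lit 532) (nat_lit 0) (XT.nd (nat_lit 546) (nat_lit 456) (nat_lit 0) (XT.nd (nat_lit 234) (nat_lit 304) (nat_lit 0) (XT.nd (nat_lit 78) (nat_lit 152) (nat_lit 0) (XT.lf (nat_lit 0) (nat_lit 6142782752) (nat_lit 152) (nat_lit 7879081394) (nat_lit 0) (nat_lit 1895485915) (nat_lit 32) (nat_lit 5) (nat_lit 34) (nat_lit 4) (nat_lit 32) (nat_lit 4) (nat_lit 340) (nat_lit 225) (nat_lit 215)) (XT.nd (nat_lit 78) (nat_lit 0) (nat_lit 0) (XT.lf (nat_lit 0) (nat_lit 324650624) (nat_lit 152) (nat_lit 10266370010)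 (nat_lit 152) (nat_lit 5659370401) (nat_lit 30) (nat_lit 4) (nat_lit 32) (nat_lit 5) (nat_lit 32) (nat_lit 4) (nat_lit 341) (nat_lit 225) (nat_lit 214)) (XT.lf (nat_lit 0) (nat_lit 8787048978) (nat_lit 152) (nat_lit 6381378166) (nat_lit 152) (nat_lit 1425152565) (nat_lit 30) (nat_lit 4) (nat_lit 32) (nat_lit 5) (nat_lit 32) (nat_lit 4) (nat_lit 342) (nat_lit 225) (nat_lit 213)))) (XT.nd (nat_lit 156) (nat_lit 152) (nat_lit 0) (XT.nd (nat_lit 78) (nat_lit 0) (nat_lit 0) (XT.lf (nat_lit 0) (nat_lit 389345722) (nat_lit 76) (nat_lit 2410962496) (nat_lit 152) (nat_lit 14148290316) (nat_lit 28) (nat_lit 5) (nat_lit 29) (nat_lit 5) (nat_lit 30) (nat_lit 4) (nat_lit 343) (nat_lit 225) (nat_lit 212)) (XT.lf (nat_lit 0) (nat_lit 7137793924) (nat_lit 152) (nat_lit 8498505095) (nat_lit 0) (nat_lit 1677154164) (nat_lit 28) (nat_lit 5) (nat_lit 30) (nat_lit 4) (nat_lit 28) (nat_lit 4) (nat_lit 344) (nat_lit 225)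 (nat_lit 211))) (XT.nd (nat_lit 78) (nat_lit 152) (nat_lit 0) (XT.lf (nat_lit 0) (nat_lit 11549817544) (nat_lit 152) (nat_lit 362233495) (nat_lit 0) (nat_lit 5778895013) (nat_lit 28) (nat_lit 5) (nat_lit 30) (nat_lit 4) (nat_lit 28) (nat_lit 4) (nat_lit 345) (nat_lit 225) (nat_lit 210)) (XT.lf (nat_lit 0) (nat_lit 8036671402) (nat_lit 152) (nat_lit 8057640596) (nat_lit 152) (nat_lit 1985472657) (nat_lit 26) (nat_lit 4) (nat_lit 28) (nat_lit 5) (nat_lit 28) (nat_lit 4) (nat_lit 346) (nat_lit 225) (nat_lit 209))))) (XT.nd (nat_lit 234) (nat_lit 304) (nat_lit 0) (XT.nd (nat_lit 78) (nat_lit 76) (nat_lit 0) (XT.lf (nat_lit 0) (nat_lit 2176775844) (nat_lit 228) (nat_lit 1945784245) (nat_lit 76) (nat_lit 14359288288) (nat_lit 25) (nat_lit 5) (nat_lit 28) (nat_lit 5) (nat_lit 26) (nat_lit 4) (nat_lit 347) (nat_lit 225) (nat_lit 208)) (XT.nd (nat_lit 78) (nat_lit 0) (nat_lit 0) (XT.lf (nat_lit 0) (nat_lit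 6364556578) (nat_lit 76) (nat_lit 45861390) (nat_lit 152) (nat_lit 12485395526) (nat_lit 24) (nat_lit 5) (nat_lit 25) (nat_lit 5) (nat_lit 26) (nat_lit 4) (nat_lit 348) (nat_lit 225) (nat_lit 207)) (XT.lf (nat_lit 0) (nat_lit 10756414815) (nat_lit 152) (nat_lit 4532425355) (nat_lit 0) (nat_lit 4033818580) (nat_lit 24) (nat_lit 5) (nat_lit 26) (nat_lit 4) (nat_lit 24) (nat_lit 4) (nat_lit 349) (nat_lit 225) (nat_lit 206)))) (XT.nd (nat_lit 156) (nat_lit 152) (nat_lit 0) (XT.nd (nat_lit 78) (nat_lit 0) (nat_lit 0) (XT.lf (nat_lit 0) (nat_lit 3646199114) (nat_lit 152) (nat_lit 11549843405) (nat_lit 152) (nat_lit 4567390235) (nat_lit 22) (nat_lit 4) (nat_lit 24) (nat_lit 5) (nat_lit 24) (nat_lit 4) (nat_lit 350) (nat_lit 225) (nat_lit 205)) (XT.lf (nat_lit 0) (nat_lit 12033507174) (nat_lit 152) (nat_lit 7709726664) (nat_lit 152) (nat_lit 474985207) (nat_lit 22) (nat_lit 4) (nat_lit 24) (nat_lit 5) (nat_lit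 24) (nat_lit 4) (nat_lit 351) (nat_lit 225) (nat_lit 204))) (XT.nd (nat_lit 78) (nat_lit 76) (nat_lit 0) (XT.lf (nat_lit 0) (nat_lit 3597187344) (nat_lit 228) (nat_lit 177391232) (nat_lit 76) (nat_lit 16913111506) (nat_lit 21) (nat_lit 5) (nat_lit 24) (nat_lit 5) (nat_lit 22) (nat_lit 4) (nat_lit 352) (nat_lit 225) (nat_lit 203)) (XT.lf (nat_lit 0) (nat_lit 7794821704) (nat_lit 152) (nat_lit 13073800304) (nat_lit 0) (nat_lit 302115443) (nat_lit 20) (nat_lit 5) (nat_lit 22) (nat_lit 4) (nat_lit 20) (nat_lit 4) (nat_lit 353) (nat_lit 225) (nat_lit 202)))))) (XT.nd (nat_lit 546) (nat_lit 304) (nat_lit 0) (XT.nd (nat_lit 234) (nat_lit 152) (nat_lit 0) (XT.nd (nat_lit 78) (nat_lit 76) (nat_lit 0) (XT.lf (nat_lit 0) (nat_lit 12089859979) (nat_lit 152) (nat_lit 5206291217) (nat_lit 0) (nat_lit 4372998843) (nat_lit 20) (nat_lit 5) (nat_lit 22) (nat_lit 4) (nat_lit 20) (nat_lit 4) (nat_lit 354) (nat_lit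 225) (nat_lit 201)) (XT.nd (nat_lit 78) (nat_lit 0) (nat_lit 0) (XT.lf (nat_lit 0) (nat_lit 2832307150) (nat_lit 76) (nat_lit 13642933928) (nat_lit 76) (nat_lit 5708446699) (nat_lit 19) (nat_lit 4) (nat_lit 20) (nat_lit 5) (nat_lit 20) (nat_lit 4) (nat_lit 355) (nat_lit 225) (nat_lit 200)) (XT.lf (nat_lit 0) (nat_lit 11099761307) (nat_lit 76) (nat_lit 9880031880) (nat_lit 76) (nat_lit 1734257183) (nat_lit 19) (nat_lit 4) (nat_lit 20) (nat_lit 5) (nat_lit 20) (nat_lit 4) (nat_lit 356) (nat_lit 225) (nat_lit 199)))) (XT.nd (nat_lit 156) (nat_lit 0) (nat_lit 0) (XT.nd (nat_lit 78) (nat_lit 76) (nat_lit 0) (XT.lf (nat_lit 0) (nat_lit 2249410075) (nat_lit 152) (nat_lit 3784605707) (nat_lit 76) (nat_lit 17227555130) (nat_lit 18) (nat_lit 5) (nat_lit 20) (nat_lit 5) (nat_lit 19) (nat_lit 4) (nat_lit 357) (nat_lit 225) (nat_lit 198)) (XT.lf (nat_lit 0) (nat_lit 4231937549) (nat_lit 76) (nat_lit 2064616349)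 (nat_lit 152) (nat_lit 17529098912) (nat_lit 17) (nat_lit 5) (nat_lit 18) (nat_lit 5) (nat_lit 19) (nat_lit 4) (nat_lit 358) (nat_lit 225) (nat_lit 197))) (XT.nd (nat_lit 78) (nat_lit 0) (nat_lit 0) (XT.lf (nat_lit 0) (nat_lit 10461535356) (nat_lit 152) (nat_lit 11972470835) (nat_lit 0) (nat_lit 1972773386) (nat_lit 17) (nat_lit 5) (nat_lit 19) (nat_lit 4) (nat_lit 17) (nat_lit 4) (nat_lit 359) (nat_lit 225) (nat_lit 196)) (XT.lf (nat_lit 0) (nat_lit 14712076167) (nat_lit 152) (nat_lit 4253404587) (nat_lit 0) (nat_lit 6041055771) (nat_lit 17) (nat_lit 5) (nat_lit 19) (nat_lit 4) (nat_lit 17) (nat_lit 4) (nat_lit 360) (nat_lit 225) (nat_lit 195))))) (XT.nd (nat_lit 312) (nat_lit 76) (nat_lit 0) (XT.nd (nat_lit 156) (nat_lit 152) (nat_lit 0) (XT.nd (nat_lit 78) (nat_lit 0) (nat_lit 0) (XT.lf (nat_lit 0) (nat_lit 3661524178) (nat_lit 76) (nat_lit 15405716671) (nat_lit 76) (nat_lit 6557746347) (nat_lit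 16) (nat_lit 4) (nat_lit 17) (nat_lit 5) (nat_lit 17) (nat_lit 4) (nat_lit 361) (nat_lit 225) (nat_lit 194)) (XT.lf (nat_lit 0) (nat_lit 11794983014) (nat_lit 76) (nat_lit 11743611281) (nat_lit 76) (nat_lit 2723844909) (nat_lit 16) (nat_lit 4) (nat_lit 17) (nat_lit 5) (nat_lit 17) (nat_lit 4) (nat_lit 362) (nat_lit 225) (nat_lit 193))) (XT.nd (nat_lit 78) (nat_lit 76) (nat_lit 0) (XT.lf (nat_lit 0) (nat_lit 1144858000) (nat_lit 152) (nat_lit 6862496909) (nat_lit 76) (nat_lit 18913008915) (nat_lit 15) (nat_lit 5) (nat_lit 17) (nat_lit 5) (nat_lit 16) (nat_lit 4) (nat_lit 363) (nat_lit 225) (nat_lit 192)) (XT.lf (nat_lit 0) (nat_lit 859292220) (nat_lit 76) (nat_lit 4169173357) (nat_lit 152) (nat_lit 22570156495) (nat_lit 14) (nat_lit 5) (nat_lit 15) (nat_lit 5) (nat_lit 16) (nat_lit 4) (nat_lit 364) (nat_lit 225) (nat_lit 191)))) (XT.nd (nat_lit 156) (nat_lit 76) (nat_lit 0) (XT.nd (nat_lit 78) (nat_lit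 0) (nat_lit 0) (XT.lf (nat_lit 0) (nat_lit 8853282782) (nat_lit 76) (nat_lit 190556332) (nat_lit 152) (nat_lit 19252943509) (nat_lit 14) (nat_lit 5) (nat_lit 15) (nat_lit 5) (nat_lit 16) (nat_lit 4) (nat_lit 365) (nat_lit 225) (nat_lit 190)) (XT.lf (nat_lit 0) (nat_lit 13164338204) (nat_lit 152) (nat_lit 12064721626) (nat_lit 0) (nat_lit 3787300161) (nat_lit 14) (nat_lit 5) (nat_lit 16) (nat_lit 4) (nat_lit 14) (nat_lit 4) (nat_lit 366) (nat_lit 225) (nat_lit 189))) (XT.nd (nat_lit 78) (nat_lit 76) (nat_lit 0) (XT.lf (nat_lit 0) (nat_lit 17358983469) (nat_lit 152) (nat_lit 4561967917) (nat_lit 0) (nat_lit 7838068942) (nat_lit 14) (nat_lit 5) (nat_lit 16) (nat_lit 4) (nat_lit 14) (nat_lit 4) (nat_lit 367) (nat_lit 225) (nat_lit 188)) (XT.lf (nat_lit 0) (nat_lit 3134310521) (nat_lit 76) (nat_lit 18525426779) (nat_lit 76) (nat_lit 8864826344) (nat_lit 13) (nat_lit 4) (nat_lit 14) (nat_lit 5) (nat_lit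 14) (nat_lit 4) (nat_lit 368) (nat_lit 225) (nat_lit 187))))))))
noncomputable def xc31 : XT := (XT.nd (nat_lit 2184) (nat_lit 152) (nat_lit 0) (XT.nd (nat_lit 1092) (nat_lit 228) (nat_lit 0) (XT.nd (nat_lit 546) (nat_lit 152) (nat_lit 0) (XT.nd (nat_lit 234) (nat_lit 76) (nat_lit 0) (XT.nd (nat_lit 78) (nat_lit 76) (nat_lit 0) (XT.lf (nat_lit 0) (nat_lit 11063182629) (nat_lit 76) (nat_lit 15023108031) (nat_lit 76) (nat_lit 5226890210) (nat_lit 13) (nat_lit 4) (nat_lit 14) (nat_lit 5) (nat_lit 14) (nat_lit 4) (nat_lit 369) (nat_lit 225) (nat_lit 186)) (XT.nd (nat_lit 78) (nat_lit 76) (nat_lit 0) (XT.lf (nat_lit 0) (nat_lit 19140784440) (nat_lit 76) (nat_lit 11457001796) (nat_lit 76) (nat_lit 1529116610) (nat_lit 13) (nat_lit 4) (nat_lit 14) (nat_lit 5) (nat_lit 14) (nat_lit 4) (nat_lit 370) (nat_lit 225) (nat_lit 185)) (XT.lf (nat_lit 0) (nat_lit 2188176518) (nat_lit 152) (nat_lit 5613719247) (nat_lit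 76) (nat_lit 25163901243) (nat_lit 12) (nat_lit 5) (nat_lit 14) (nat_lit 5) (nat_lit 13) (nat_lit 4) (nat_lit 371) (nat_lit 225) (nat_lit 184)))) (XT.nd (nat_lit 156) (nat_lit 0) (nat_lit 0) (XT.nd (nat_lit 78) (nat_lit 0) (nat_lit 0) (XT.lf (nat_lit 0) (nat_lit 1917187174) (nat_lit 76) (nat_lit 4041932960) (nat_lit 152) (nat_lit 27871107405) (nat_lit 11) (nat_lit 5) (nat_lit 12) (nat_lit 5) (nat_lit 13) (nat_lit 4) (nat_lit 372) (nat_lit 225) (nat_lit 183)) (XT.lf (nat_lit 0) (nat_lit 9704993065) (nat_lit 76) (nat_lit 149841444) (nat_lit 152) (nat_lit 24865416621) (nat_lit 11) (nat_lit 5) (nat_lit 12) (nat_lit 5) (nat_lit 13) (nat_lit 4) (nat_lit 373) (nat_lit 225) (nat_lit 182))) (XT.nd (nat_lit 78) (nat_lit 0) (nat_lit 0) (XT.lf (nat_lit 0) (nat_lit 13860417877) (nat_lit 152) (nat_lit 18030247958) (nat_lit 0) (nat_lit 3746528812) (nat_lit 11) (nat_lit 5) (nat_lit 13) (nat_lit 4) (nat_lit 11)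 (nat_lit 4) (nat_lit 374) (nat_lit 225) (nat_lit 181)) (XT.lf (nat_lit 0) (nat_lit 17944839092) (nat_lit 152) (nat_lit 10917375463) (nat_lit 0) (nat_lit 7720680681) (nat_lit 11) (nat_lit 5) (nat_lit 13) (nat_lit 4) (nat_lit 11) (nat_lit 4) (nat_lit 375) (nat_lit 225) (nat_lit 180))))) (XT.nd (nat_lit 234) (nat_lit 76) (nat_lit 0) (XT.nd (nat_lit 78) (nat_lit 76) (nat_lit 0) (XT.lf (nat_lit 0) (nat_lit 22110226697) (nat_lit 152) (nat_lit 3668985083) (nat_lit 0) (nat_lit 11779010669) (nat_lit 11) (nat_lit 5) (nat_lit 13) (nat_lit 4) (nat_lit 11) (nat_lit 4) (nat_lit 376) (nat_lit 225) (nat_lit 179)) (XT.nd (nat_lit 78) (nat_lit 0) (nat_lit 0) (XT.lf (nat_lit 0) (nat_lit 3795317032) (nat_lit 76) (nat_lit 22601386228) (nat_lit 76) (nat_lit 12166230766) (nat_lit 10) (nat_lit 4) (nat_lit 11) (nat_lit 5) (nat_lit 11) (nat_lit 4) (nat_lit 377) (nat_lit 225) (nat_lit 178)) (XT.lf (nat_lit 0) (nat_lit 11483899707)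 (nat_lit 76) (nat_lit 19325024204) (nat_lit 76) (nat_lit 8788956671) (nat_lit 10) (nat_lit 4) (nat_lit 11) (nat_lit 5) (nat_lit 11) (nat_lit 4) (nat_lit 378) (nat_lit 225) (nat_lit 177)))) (XT.nd (nat_lit 156) (nat_lit 76) (nat_lit 0) (XT.nd (nat_lit 78) (nat_lit 0) (nat_lit 0) (XT.lf (nat_lit 0) (nat_lit 19330461122) (nat_lit 76) (nat_lit 15984312423) (nat_lit 76) (nat_lit 5350272005) (nat_lit 10) (nat_lit 4) (nat_lit 11) (nat_lit 5) (nat_lit 11) (nat_lit 4) (nat_lit 379) (nat_lit 225) (nat_lit 176)) (XT.lf (nat_lit 0) (nat_lit 27341857497) (nat_lit 76) (nat_lit 12576331817) (nat_lit 76) (nat_lit 1847172093) (nat_lit 10) (nat_lit 4) (nat_lit 11) (nat_lit 5) (nat_lit 11) (nat_lit 4) (nat_lit 380) (nat_lit 225) (nat_lit 175))) (XT.nd (nat_lit 78) (nat_lit 0) (nat_lit 0) (XT.lf (nat_lit 0) (nat_lit 1689774206) (nat_lit 152) (nat_lit 7391266925) (nat_lit 76) (nat_lit 33818251467) (nat_lit 9) (nat_lit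 5) (nat_lit 11) (nat_lit 5) (nat_lit 10) (nat_lit 4) (nat_lit 381) (nat_lit 225) (nat_lit 174)) (XT.lf (nat_lit 0) (nat_lit 5259894068) (nat_lit 152) (nat_lit 233582673) (nat_lit 76) (nat_lit 38574297583) (nat_lit 9) (nat_lit 5) (nat_lit 11) (nat_lit 5) (nat_lit 10) (nat_lit 4) (nat_lit 382) (nat_lit 225) (nat_lit 173)))))) (XT.nd (nat_lit 546) (nat_lit 76) (nat_lit 0) (XT.nd (nat_lit 234) (nat_lit 76) (nat_lit 0) (XT.nd (nat_lit 78) (nat_lit 0) (nat_lit 0) (XT.lf (nat_lit 0) (nat_lit 7214336980) (nat_lit 76) (nat_lit 1757363636) (nat_lit 152) (nat_lit 36298579197) (nat_lit 8) (nat_lit 5) (nat_lit 9) (nat_lit 5) (nat_lit 10) (nat_lit 4) (nat_lit 383) (nat_lit 225) (nat_lit 172)) (XT.nd (nat_lit 78) (nat_lit 0) (nat_lit 0) (XT.lf (nat_lit 0) (nat_lit 12782676710) (nat_lit 152) (nat_lit 31703808847) (nat_lit 0) (nat_lit 2022747055) (nat_lit 8) (nat_lit 5) (nat_lit 10) (nat_lit 4) (nat_lit 8) (nat_lit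 4) (nat_lit 384) (nat_lit 225) (nat_lit 171)) (XT.lf (nat_lit 0) (nat_lit 16691726291) (nat_lit 152) (nat_lit 25241986076) (nat_lit 0) (nat_lit 5852135715) (nat_lit 8) (nat_lit 5) (nat_lit 10) (nat_lit 4) (nat_lit 8) (nat_lit 4) (nat_lit 385) (nat_lit 225) (nat_lit 170)))) (XT.nd (nat_lit 156) (nat_lit 76) (nat_lit 0) (XT.nd (nat_lit 78) (nat_lit 0) (nat_lit 0) (XT.lf (nat_lit 0) (nat_lit 20685372180) (nat_lit 152) (nat_lit 18647935414) (nat_lit 0) (nat_lit 9768440904) (nat_lit 8) (nat_lit 5) (nat_lit 10) (nat_lit 4) (nat_lit 8) (nat_lit 4) (nat_lit 386) (nat_lit 225) (nat_lit 169)) (XT.lf (nat_lit 0) (nat_lit 24767103971) (nat_lit 152) (nat_lit 11915895068) (nat_lit 0) (nat_lit 13775084637) (nat_lit 8) (nat_lit 5) (nat_lit 10) (nat_lit 4) (nat_lit 8) (nat_lit 4) (nat_lit 387) (nat_lit 225) (nat_lit 168))) (XT.nd (nat_lit 78) (nat_lit 76) (nat_lit 0) (XT.lf (nat_lit 0) (nat_lit 28940488226) (nat_lit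 152) (nat_lit 5039982673) (nat_lit 0) (nat_lit 17875567864) (nat_lit 8) (nat_lit 5) (nat_lit 10) (nat_lit 4) (nat_lit 8) (nat_lit 4) (nat_lit 388) (nat_lit 225) (nat_lit 167)) (XT.lf (nat_lit 0) (nat_lit 2025331358) (nat_lit 76) (nat_lit 31203308956) (nat_lit 76) (nat_lit 20067610897) (nat_lit 7) (nat_lit 4) (nat_lit 8) (nat_lit 5) (nat_lit 8) (nat_lit 4) (nat_lit 389) (nat_lit 225) (nat_lit 166))))) (XT.nd (nat_lit 234) (nat_lit 76) (nat_lit 0) (XT.nd (nat_lit 78) (nat_lit 0) (nat_lit 0) (XT.lf (nat_lit 0) (nat_lit 9350075185) (nat_lit 76) (nat_lit 28316687440) (nat_lit 76) (nat_lit 17112273170) (nat_lit 7) (nat_lit 4) (nat_lit 8) (nat_lit 5) (nat_lit 8) (nat_lit 4) (nat_lit 390) (nat_lit 225) (nat_lit 165)) (XT.nd (nat_lit 78) (nat_lit 0) (nat_lit 0) (XT.lf (nat_lit 0) (nat_lit 16840343530) (nat_lit 76) (nat_lit 25368978003) (nat_lit 76) (nat_lit 14097848967) (nat_lit 7) (nat_lit 4) (nat_lit 8)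 (nat_lit 5) (nat_lit 8) (nat_lit 4) (nat_lit 391) (nat_lit 225) (nat_lit 164)) (XT.lf (nat_lit 0) (nat_lit 24502681289) (nat_lit 76) (nat_lit 22357604978) (nat_lit 76) (nat_lit 11021704322) (nat_lit 7) (nat_lit 4) (nat_lit 8) (nat_lit 5) (nat_lit 8) (nat_lit 4) (nat_lit 392) (nat_lit 225) (nat_lit 163)))) (XT.nd (nat_lit 156) (nat_lit 76) (nat_lit 0) (XT.nd (nat_lit 78) (nat_lit 0) (nat_lit 0) (XT.lf (nat_lit 0) (nat_lit 32343783707) (nat_lit 76) (nat_lit 19279937067) (nat_lit 76) (nat_lit 7881151345) (nat_lit 7) (nat_lit 4) (nat_lit 8) (nat_lit 5) (nat_lit 8) (nat_lit 4) (nat_lit 393) (nat_lit 225) (nat_lit 162)) (XT.lf (nat_lit 0) (nat_lit 40370502234) (nat_lit 76) (nat_lit 16133285046) (nat_lit 76) (nat_lit 4673445860) (nat_lit 7) (nat_lit 4) (nat_lit 8) (nat_lit 5) (nat_lit 8) (nat_lit 4) (nat_lit 394) (nat_lit 225) (nat_lit 161))) (XT.nd (nat_lit 78) (nat_lit 76) (nat_lit 0) (XT.lf (nat_lit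 0) (nat_lit 48589850507) (nat_lit 76) (nat_lit 12914899413) (nat_lit 76) (nat_lit 1395785021) (nat_lit 7) (nat_lit 4) (nat_lit 8) (nat_lit 5) (nat_lit 8) (nat_lit 4) (nat_lit 395) (nat_lit 225) (nat_lit 160)) (XT.lf (nat_lit 0) (nat_lit 1916552006) (nat_lit 152) (nat_lit 7686062562) (nat_lit 76) (nat_lit 55073105057) (nat_lit 6) (nat_lit 5) (nat_lit 8) (nat_lit 5) (nat_lit 7) (nat_lit 4) (nat_lit 396) (nat_lit 225) (nat_lit 159))))))) (XT.nd (nat_lit 1092) (nat_lit 0) (nat_lit 0) (XT.nd (nat_lit 546) (nat_lit 76) (nat_lit 0) (XT.nd (nat_lit 234) (nat_lit 0) (nat_lit 0) (XT.nd (nat_lit 78) (nat_lit 76) (nat_lit 0) (XT.lf (nat_lit 0) (nat_lit 5275921081) (nat_lit 152) (nat_lit 922415908) (nat_lit 76) (nat_lit 60306141164) (nat_lit 6) (nat_lit 5) (nat_lit 8) (nat_lit 5) (nat_lit 7) (nat_lit 4) (nat_lit 397) (nat_lit 225) (nat_lit 158)) (XT.nd (nat_lit 78) (nat_lit 0) (nat_lit 0) (XT.lf (nat_lit 0)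 (nat_lit 6118986108) (nat_lit 76) (nat_lit 2652327696) (nat_lit 152) (nat_lit 59615732596) (nat_lit 5) (nat_lit 5) (nat_lit 6) (nat_lit 5) (nat_lit 7) (nat_lit 4) (nat_lit 398) (nat_lit 225) (nat_lit 157)) (XT.lf (nat_lit 0) (nat_lit 12367074055) (nat_lit 152) (nat_lit 56989603077) (nat_lit 0) (nat_lit 969553504) (nat_lit 5) (nat_lit 5) (nat_lit 7) (nat_lit 4) (nat_lit 5) (nat_lit 4) (nat_lit 399) (nat_lit 225) (nat_lit 156)))) (XT.nd (nat_lit 156) (nat_lit 0) (nat_lit 0) (XT.nd (nat_lit 78) (nat_lit 0) (nat_lit 0) (XT.lf (nat_lit 0) (nat_lit 16074138391) (nat_lit 152) (nat_lit 51622377281) (nat_lit 0) (nat_lit 4626975787) (nat_lit 5) (nat_lit 5) (nat_lit 7) (nat_lit 4) (nat_lit 5) (nat_lit 4) (nat_lit 400) (nat_lit 225) (nat_lit 155)) (XT.lf (nat_lit 0) (nat_lit 19870250198) (nat_lit 152) (nat_lit 46136197298) (nat_lit 0) (nat_lit 8374891426) (nat_lit 5) (nat_lit 5) (nat_lit 7) (nat_lit 4) (nat_lit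 5) (nat_lit 4) (nat_lit 401) (nat_lit 225) (nat_lit 154))) (XT.nd (nat_lit 78) (nat_lit 0) (nat_lit 0) (XT.lf (nat_lit 0) (nat_lit 23758726465) (nat_lit 152) (nat_lit 40526269378) (nat_lit 0) (nat_lit 12216575298) (nat_lit 5) (nat_lit 5) (nat_lit 7) (nat_lit 4) (nat_lit 5) (nat_lit 4) (nat_lit 402) (nat_lit 225) (nat_lit 153)) (XT.lf (nat_lit 0) (nat_lit 27742964892) (nat_lit 152) (nat_lit 34787691642) (nat_lit 0) (nat_lit 16155384214) (nat_lit 5) (nat_lit 5) (nat_lit 7) (nat_lit 4) (nat_lit 5) (nat_lit 4) (nat_lit 403) (nat_lit 225) (nat_lit 152))))) (XT.nd (nat_lit 234) (nat_lit 76) (nat_lit 0) (XT.nd (nat_lit 78) (nat_lit 0) (nat_lit 0) (XT.lf (nat_lit 0) (nat_lit 31826446851) (nat_lit 152) (nat_lit 28915449800) (nat_lit 0) (nat_lit 20194759853) (nat_lit 5) (nat_lit 5) (nat_lit 7) (nat_lit 4) (nat_lit 5) (nat_lit 4) (nat_lit 404) (nat_lit 225) (nat_lit 151)) (XT.nd (nat_lit 78) (nat_lit 0) (nat_lit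 0) (XT.lf (nat_lit 0) (nat_lit 36012740433) (nat_lit 152) (nat_lit 22904412766) (nat_lit 0) (nat_lit 24338231765) (nat_lit 5) (nat_lit 5) (nat_lit 7) (nat_lit 4) (nat_lit 5) (nat_lit 4) (nat_lit 405) (nat_lit 225) (nat_lit 150)) (XT.lf (nat_lit 0) (nat_lit 40305503565) (nat_lit 152) (nat_lit 16749328178) (nat_lit 0) (nat_lit 28589420459) (nat_lit 5) (nat_lit 5) (nat_lit 7) (nat_lit 4) (nat_lit 5) (nat_lit 4) (nat_lit 406) (nat_lit 225) (nat_lit 149)))) (XT.nd (nat_lit 156) (nat_lit 76) (nat_lit 0) (XT.nd (nat_lit 78) (nat_lit 0) (nat_lit 0) (XT.lf (nat_lit 0) (nat_lit 44708487205) (nat_lit 152) (nat_lit 10444817807) (nat_lit 0) (nat_lit 32952040568) (nat_lit 5) (nat_lit 5) (nat_lit 7) (nat_lit 4) (nat_lit 5) (nat_lit 4) (nat_lit 407) (nat_lit 225) (nat_lit 148)) (XT.lf (nat_lit 0) (nat_lit 49225538620) (nat_lit 152) (nat_lit 3985372857) (nat_lit 0) (nat_lit 37429904088) (nat_lit 5) (nat_lit 5) (nat_lit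 7) (nat_lit 4) (nat_lit 5) (nat_lit 4) (nat_lit 408) (nat_lit 225) (nat_lit 147))) (XT.nd (nat_lit 78) (nat_lit 0) (nat_lit 0) (XT.lf (nat_lit 0) (nat_lit 2687085565) (nat_lit 76) (nat_lit 51199349094) (nat_lit 76) (nat_lit 39365668062) (nat_lit 4) (nat_lit 4) (nat_lit 5) (nat_lit 5) (nat_lit 5) (nat_lit 4) (nat_lit 409) (nat_lit 225) (nat_lit 146)) (XT.lf (nat_lit 0) (nat_lit 9608534917) (nat_lit 76) (nat_lit 49101563847) (nat_lit 76) (nat_lit 37230944466) (nat_lit 4) (nat_lit 4) (nat_lit 5) (nat_lit 5) (nat_lit 5) (nat_lit 4) (nat_lit 410) (nat_lit 225) (nat_lit 145)))))) (XT.nd (nat_lit 34554) (nat_lit 0) (nat_lit 2128) (XT.nd (nat_lit 34242) (nat_lit 0) (nat_lit 2964) (XT.nd (nat_lit 78) (nat_lit 0) (nat_lit 0) (XT.lf (nat_lit 0) (nat_lit 16705706333) (nat_lit 76) (nat_lit 46955967171) (nat_lit 76) (nat_lit 35049485315) (nat_lit 4) (nat_lit 4) (nat_lit 5) (nat_lit 5) (nat_lit 5) (nat_lit 4)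 (nat_lit 411) (nat_lit 225) (nat_lit 144)) (XT.nd (nat_lit 34086) (nat_lit 0) (nat_lit 3420) (XT.lf (nat_lit 0) (nat_lit 23984801225) (nat_lit 76) (nat_lit 44760684273) (nat_lit 76) (nat_lit 32819384481) (nat_lit 4) (nat_lit 4) (nat_lit 5) (nat_lit 5) (nat_lit 5) (nat_lit 4) (nat_lit 412) (nat_lit 225) (nat_lit 143)) (XT.lf (nat_lit 0) (nat_lit 2658304726) (nat_lit 228) (nat_lit 1832387547) (nat_lit 228) (nat_lit 1832387547) (nat_lit 49) (nat_lit 4) (nat_lit 52) (nat_lit 5) (nat_lit 52) (nat_lit 4) (nat_lit 328) (nat_lit 226) (nat_lit 226)))) (XT.nd (nat_lit 156) (nat_lit 228) (nat_lit 0) (XT.nd (nat_lit 78) (nat_lit 0) (nat_lit 0) (XT.lf (nat_lit 0) (nat_lit 694347740) (nat_lit 228) (nat_lit 12031144900) (nat_lit 0) (nat_lit 150265024) (nat_lit 46) (nat_lit 5) (nat_lit 49) (nat_lit 4) (nat_lit 46) (nat_lit 4) (nat_lit 329) (nat_lit 226) (nat_lit 225)) (XT.lf (nat_lit 0) (nat_lit 5123714655) (nat_lit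 228) (nat_lit 3935692798) (nat_lit 0) (nat_lit 4051396292) (nat_lit 46) (nat_lit 5) (nat_lit 49) (nat_lit 4) (nat_lit 46) (nat_lit 4) (nat_lit 330) (nat_lit 226) (nat_lit 224))) (XT.nd (nat_lit 78) (nat_lit 76) (nat_lit 0) (XT.lf (nat_lit 0) (nat_lit 4325261010) (nat_lit 152) (nat_lit 5307227114) (nat_lit 152) (nat_lit 3722058608) (nat_lit 44) (nat_lit 4) (nat_lit 46) (nat_lit 5) (nat_lit 46) (nat_lit 4) (nat_lit 331) (nat_lit 226) (nat_lit 223)) (XT.lf (nat_lit 0) (nat_lit 603175960) (nat_lit 228) (nat_lit 858634066) (nat_lit 76) (nat_lit 12145277061) (nat_lit 43) (nat_lit 5) (nat_lit 46) (nat_lit 5) (nat_lit 44) (nat_lit 4) (nat_lit 332) (nat_lit 226) (nat_lit 222))))) (XT.nd (nat_lit 312) (nat_lit 304) (nat_lit 0) (XT.nd (nat_lit 156) (nat_lit 228) (nat_lit 0) (XT.nd (nat_lit 78) (nat_lit 152) (nat_lit 0) (XT.lf (nat_lit 0) (nat_lit 4987986129) (nat_lit 228) (nat_lit 6381764297) (nat_lit 0) (nat_lit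 2496246602) (nat_lit 41) (nat_lit 5) (nat_lit 44) (nat_lit 4) (nat_lit 41) (nat_lit 4) (nat_lit 333) (nat_lit 226) (nat_lit 221)) (XT.lf (nat_lit 0) (nat_lit 1825662790) (nat_lit 152) (nat_lit 7627984597) (nat_lit 152) (nat_lit 4680584361) (nat_lit 39) (nat_lit 4) (nat_lit 41) (nat_lit 5) (nat_lit 41) (nat_lit 4) (nat_lit 334) (nat_lit 226) (nat_lit 220))) (XT.nd (nat_lit 78) (nat_lit 228) (nat_lit 0) (XT.lf (nat_lit 0) (nat_lit 10253705592) (nat_lit 152) (nat_lit 3773704431) (nat_lit 152) (nat_lit 383915156) (nat_lit 39) (nat_lit 4) (nat_lit 41) (nat_lit 5) (nat_lit 41) (nat_lit 4) (nat_lit 335) (nat_lit 226) (nat_lit 219)) (XT.lf (nat_lit 0) (nat_lit 3915901471) (nat_lit 228) (nat_lit 10573254724) (nat_lit 0) (nat_lit 207849825) (nat_lit 36) (nat_lit 5) (nat_lit 39) (nat_lit 4) (nat_lit 36) (nat_lit 4) (nat_lit 336) (nat_lit 226) (nat_lit 218)))) (XT.nd (nat_lit 156) (nat_lit 152) (nat_lit 0)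 (XT.nd (nat_lit 78) (nat_lit 152) (nat_lit 0) (XT.lf (nat_lit 0) (nat_lit 8328671365) (nat_lit 228) (nat_lit 2446983149) (nat_lit 0) (nat_lit 4215771081) (nat_lit 36) (nat_lit 5) (nat_lit 39) (nat_lit 4) (nat_lit 36) (nat_lit 4) (nat_lit 337) (nat_lit 226) (nat_lit 217)) (XT.lf (nat_lit 0) (nat_lit 5888273555) (nat_lit 152) (nat_lit 6956630336) (nat_lit 152) (nat_lit 2450673122) (nat_lit 34) (nat_lit 4) (nat_lit 36) (nat_lit 5) (nat_lit 36) (nat_lit 4) (nat_lit 338) (nat_lit 226) (nat_lit 216))) (XT.nd (nat_lit 78) (nat_lit 76) (nat_lit 0) (XT.lf (nat_lit 0) (nat_lit 1790565121) (nat_lit 228) (nat_lit 1252718687) (nat_lit 76) (nat_lit 12566865645) (nat_lit 33) (nat_lit 5) (nat_lit 36) (nat_lit 5) (nat_lit 34) (nat_lit 4) (nat_lit 339) (nat_lit 226) (nat_lit 215)) (XT.lf (nat_lit 0) (nat_lit 6105151778) (nat_lit 152) (nat_lit 8828207894) (nat_lit 0) (nat_lit 1000239409) (nat_lit 32) (nat_lit 5) (nat_lit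 34) (nat_lit 4) (nat_lit 32) (nat_lit 4) (nat_lit 340) (nat_lit 226) (nat_lit 214))))))))
noncomputable def xc32 : XT := (XT.nd (nat_lit 2184) (nat_lit 608) (nat_lit 0) (XT.nd (nat_lit 1092) (nat_lit 456) (nat_lit 0) (XT.nd (nat_lit 546) (nat_lit 380) (nat_lit 0) (XT.nd (nat_lit 234) (nat_lit 304) (nat_lit 0) (XT.nd (nat_lit 78) (nat_lit 228) (nat_lit 0) (XT.lf (nat_lit 0) (nat_lit 10509672912) (nat_lit 152) (nat_lit 702757945) (nat_lit 0) (nat_lit 5055534551) (nat_lit 32) (nat_lit 5) (nat_lit 34) (nat_lit 4) (nat_lit 32) (nat_lit 4) (nat_lit 341) (nat_lit 226) (nat_lit 213)) (XT.nd (nat_lit 78) (nat_lit 76) (nat_lit 0) (XT.lf (nat_lit 0) (nat_lit 7674412544) (nat_lit 152) (nat_lit 7365678676) (nat_lit 152) (nat_lit 1572485954) (nat_lit 30) (nat_lit 4) (nat_lit 32) (nat_lit 5) (nat_lit 32) (nat_lit 4) (nat_lit 342) (nat_lit 226) (nat_lit 212)) (XT.lf (nat_lit 0) (nat_lit 2612778452) (nat_lit 228)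 (nat_lit 818431454) (nat_lit 76) (nat_lit 13537733397) (nat_lit 29) (nat_lit 5) (nat_lit 32) (nat_lit 5) (nat_lit 30) (nat_lit 4) (nat_lit 343) (nat_lit 226) (nat_lit 211)))) (XT.nd (nat_lit 156) (nat_lit 228) (nat_lit 0) (XT.nd (nat_lit 78) (nat_lit 0) (nat_lit 0) (XT.lf (nat_lit 0) (nat_lit 6893211972) (nat_lit 152) (nat_lit 9803430856) (nat_lit 0) (nat_lit 638878995) (nat_lit 28) (nat_lit 5) (nat_lit 30) (nat_lit 4) (nat_lit 28) (nat_lit 4) (nat_lit 344) (nat_lit 226) (nat_lit 210)) (XT.lf (nat_lit 0) (nat_lit 11267233978) (nat_lit 152) (nat_lit 1735277116) (nat_lit 0) (nat_lit 4711655593) (nat_lit 28) (nat_lit 5) (nat_lit 30) (nat_lit 4) (nat_lit 28) (nat_lit 4) (nat_lit 345) (nat_lit 226) (nat_lit 209))) (XT.nd (nat_lit 78) (nat_lit 76) (nat_lit 0) (XT.lf (nat_lit 0) (nat_lit 6568851482) (nat_lit 152) (nat_lit 9191872597) (nat_lit 152) (nat_lit 2343822941) (nat_lit 26) (nat_lit 4) (nat_lit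 28) (nat_lit 5) (nat_lit 28) (nat_lit 4) (nat_lit 346) (nat_lit 226) (nat_lit 208)) (XT.lf (nat_lit 0) (nat_lit 1788596684) (nat_lit 228) (nat_lit 3501151076) (nat_lit 76) (nat_lit 13218081903) (nat_lit 25) (nat_lit 5) (nat_lit 28) (nat_lit 5) (nat_lit 26) (nat_lit 4) (nat_lit 347) (nat_lit 226) (nat_lit 207))))) (XT.nd (nat_lit 234) (nat_lit 152) (nat_lit 0) (XT.nd (nat_lit 78) (nat_lit 152) (nat_lit 0) (XT.lf (nat_lit 0) (nat_lit 4712654974) (nat_lit 76) (nat_lit 1257955637) (nat_lit 152) (nat_lit 12952743630) (nat_lit 24) (nat_lit 5) (nat_lit 25) (nat_lit 5) (nat_lit 26) (nat_lit 4) (nat_lit 348) (nat_lit 226) (nat_lit 206)) (XT.nd (nat_lit 78) (nat_lit 152) (nat_lit 0) (XT.lf (nat_lit 0) (nat_lit 10269363645) (nat_lit 152) (nat_lit 6264683528) (nat_lit 0) (nat_lit 2817579944) (nat_lit 24) (nat_lit 5) (nat_lit 26) (nat_lit 4) (nat_lit 24) (nat_lit 4) (nat_lit 349) (nat_lit 226) (nat_lit 205))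 (XT.lf (nat_lit 0) (nat_lit 1815630424) (nat_lit 152) (nat_lit 12841208629) (nat_lit 152) (nat_lit 5137136641) (nat_lit 22) (nat_lit 4) (nat_lit 24) (nat_lit 5) (nat_lit 24) (nat_lit 4) (nat_lit 350) (nat_lit 226) (nat_lit 204)))) (XT.nd (nat_lit 156) (nat_lit 76) (nat_lit 0) (XT.nd (nat_lit 78) (nat_lit 76) (nat_lit 0) (XT.lf (nat_lit 0) (nat_lit 10140962580) (nat_lit 152) (nat_lit 9028922772) (nat_lit 152) (nat_lit 1079910700) (nat_lit 22) (nat_lit 4) (nat_lit 24) (nat_lit 5) (nat_lit 24) (nat_lit 4) (nat_lit 351) (nat_lit 226) (nat_lit 203)) (XT.lf (nat_lit 0) (nat_lit 2970578150) (nat_lit 228) (nat_lit 2156544333) (nat_lit 76) (nat_lit 15593332847) (nat_lit 21) (nat_lit 5) (nat_lit 24) (nat_lit 5) (nat_lit 22) (nat_lit 4) (nat_lit 352) (nat_lit 226) (nat_lit 202))) (XT.nd (nat_lit 78) (nat_lit 0) (nat_lit 0) (XT.lf (nat_lit 0) (nat_lit 6021195911) (nat_lit 76) (nat_lit 1091559463) (nat_lit 152)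 (nat_lit 14092419929) (nat_lit 20) (nat_lit 5) (nat_lit 21) (nat_lit 5) (nat_lit 22) (nat_lit 4) (nat_lit 353) (nat_lit 226) (nat_lit 201)) (XT.lf (nat_lit 0) (nat_lit 11364919537) (nat_lit 152) (nat_lit 7365191610) (nat_lit 0) (nat_lit 2974771599) (nat_lit 20) (nat_lit 5) (nat_lit 22) (nat_lit 4) (nat_lit 20) (nat_lit 4) (nat_lit 354) (nat_lit 226) (nat_lit 200)))))) (XT.nd (nat_lit 546) (nat_lit 152) (nat_lit 0) (XT.nd (nat_lit 234) (nat_lit 152) (nat_lit 0) (XT.nd (nat_lit 78) (nat_lit 76) (nat_lit 0) (XT.lf (nat_lit 0) (nat_lit 571806894) (nat_lit 76) (nat_lit 15125326201) (nat_lit 76) (nat_lit 6523890795) (nat_lit 19) (nat_lit 4) (nat_lit 20) (nat_lit 5) (nat_lit 20) (nat_lit 4) (nat_lit 355) (nat_lit 226) (nat_lit 199)) (XT.nd (nat_lit 78) (nat_lit 76) (nat_lit 0) (XT.lf (nat_lit 0) (nat_lit 8782335312) (nat_lit 76) (nat_lit 11388280135) (nat_lit 76) (nat_lit 2581711264) (nat_lit 19) (nat_lit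 4) (nat_lit 20) (nat_lit 5) (nat_lit 20) (nat_lit 4) (nat_lit 356) (nat_lit 226) (nat_lit 198)) (XT.lf (nat_lit 0) (nat_lit 1388021657) (nat_lit 152) (nat_lit 6188043610) (nat_lit 76) (nat_lit 15724948179) (nat_lit 18) (nat_lit 5) (nat_lit 20) (nat_lit 5) (nat_lit 19) (nat_lit 4) (nat_lit 357) (nat_lit 226) (nat_lit 197)))) (XT.nd (nat_lit 156) (nat_lit 76) (nat_lit 0) (XT.nd (nat_lit 78) (nat_lit 0) (nat_lit 0) (XT.lf (nat_lit 0) (nat_lit 1725332566) (nat_lit 76) (nat_lit 3656154184) (nat_lit 152) (nat_lit 18485226399) (nat_lit 17) (nat_lit 5) (nat_lit 18) (nat_lit 5) (nat_lit 19) (nat_lit 4) (nat_lit 358) (nat_lit 226) (nat_lit 196)) (XT.lf (nat_lit 0) (nat_lit 9501695562) (nat_lit 152) (nat_lit 14559208635) (nat_lit 0) (nat_lit 388286128) (nat_lit 17) (nat_lit 5) (nat_lit 19) (nat_lit 4) (nat_lit 17) (nat_lit 4) (nat_lit 359) (nat_lit 226) (nat_lit 195))) (XT.nd (nat_lit 78) (nat_lit 76) (nat_lit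 0) (XT.lf (nat_lit 0) (nat_lit 13723621022) (nat_lit 152) (nat_lit 6892930069) (nat_lit 0) (nat_lit 4433261659) (nat_lit 17) (nat_lit 5) (nat_lit 19) (nat_lit 4) (nat_lit 17) (nat_lit 4) (nat_lit 360) (nat_lit 226) (nat_lit 194)) (XT.lf (nat_lit 0) (nat_lit 917196808) (nat_lit 76) (nat_lit 17107426850) (nat_lit 76) (nat_lit 7645271439) (nat_lit 16) (nat_lit 4) (nat_lit 17) (nat_lit 5) (nat_lit 17) (nat_lit 4) (nat_lit 361) (nat_lit 226) (nat_lit 193))))) (XT.nd (nat_lit 234) (nat_lit 76) (nat_lit 0) (XT.nd (nat_lit 78) (nat_lit 76) (nat_lit 0) (XT.lf (nat_lit 0) (nat_lit 8999907920) (nat_lit 76) (nat_lit 13468608652) (nat_lit 76) (nat_lit 3839660963) (nat_lit 16) (nat_lit 4) (nat_lit 17) (nat_lit 5) (nat_lit 17) (nat_lit 4) (nat_lit 362) (nat_lit 226) (nat_lit 192)) (XT.nd (nat_lit 78) (nat_lit 0) (nat_lit 0) (XT.lf (nat_lit 0) (nat_lit 23884562) (nat_lit 152) (nat_lit 9742396278) (nat_lit 76) (nat_lit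 17200957257) (nat_lit 15) (nat_lit 5) (nat_lit 17) (nat_lit 5) (nat_lit 16) (nat_lit 4) (nat_lit 363) (nat_lit 226) (nat_lit 191)) (XT.lf (nat_lit 0) (nat_lit 3873085520) (nat_lit 152) (nat_lit 2085736053) (nat_lit 76) (nat_lit 21687713024) (nat_lit 15) (nat_lit 5) (nat_lit 17) (nat_lit 5) (nat_lit 16) (nat_lit 4) (nat_lit 364) (nat_lit 226) (nat_lit 190)))) (XT.nd (nat_lit 156) (nat_lit 0) (nat_lit 0) (XT.nd (nat_lit 78) (nat_lit 0) (nat_lit 0) (XT.lf (nat_lit 0) (nat_lit 5818857380) (nat_lit 76) (nat_lit 2023307941) (nat_lit 152) (nat_lit 20503924517) (nat_lit 14) (nat_lit 5) (nat_lit 15) (nat_lit 5) (nat_lit 16) (nat_lit 4) (nat_lit 365) (nat_lit 226) (nat_lit 189)) (XT.lf (nat_lit 0) (nat_lit 11919748608) (nat_lit 152) (nat_lit 15177881617) (nat_lit 0) (nat_lit 1969330160) (nat_lit 14) (nat_lit 5) (nat_lit 16) (nat_lit 4) (nat_lit 14) (nat_lit 4) (nat_lit 366) (nat_lit 226) (nat_lit 188))) (XT.nd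 (nat_lit 78) (nat_lit 0) (nat_lit 0) (XT.lf (nat_lit 0) (nat_lit 16089832444) (nat_lit 152) (nat_lit 7720802572) (nat_lit 0) (nat_lit 5999728089) (nat_lit 14) (nat_lit 5) (nat_lit 16) (nat_lit 4) (nat_lit 14) (nat_lit 4) (nat_lit 367) (nat_lit 226) (nat_lit 187)) (XT.lf (nat_lit 0) (nat_lit 20336611317) (nat_lit 152) (nat_lit 130030156) (nat_lit 0) (nat_lit 10110889576) (nat_lit 14) (nat_lit 5) (nat_lit 16) (nat_lit 4) (nat_lit 14) (nat_lit 4) (nat_lit 368) (nat_lit 226) (nat_lit 186))))))) (XT.nd (nat_lit 1092) (nat_lit 228) (nat_lit 0) (XT.nd (nat_lit 546) (nat_lit 152) (nat_lit 0) (XT.nd (nat_lit 234) (nat_lit 76) (nat_lit 0) (XT.nd (nat_lit 78) (nat_lit 76) (nat_lit 0) (XT.lf (nat_lit 0) (nat_lit 7752344510) (nat_lit 76) (nat_lit 16985971772) (nat_lit 76) (nat_lit 6628582666) (nat_lit 13) (nat_lit 4) (nat_lit 14) (nat_lit 5) (nat_lit 14) (nat_lit 4) (nat_lit 369) (nat_lit 226) (nat_lit 185))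 (XT.nd (nat_lit 78) (nat_lit 76) (nat_lit 0) (XT.lf (nat_lit 0) (nat_lit 15787315655) (nat_lit 76) (nat_lit 13439609223) (nat_lit 76) (nat_lit 2954387724) (nat_lit 13) (nat_lit 4) (nat_lit 14) (nat_lit 5) (nat_lit 14) (nat_lit 4) (nat_lit 370) (nat_lit 226) (nat_lit 184)) (XT.lf (nat_lit 0) (nat_lit 768272379) (nat_lit 152) (nat_lit 9049737689) (nat_lit 76) (nat_lit 23203285848) (nat_lit 12) (nat_lit 5) (nat_lit 14) (nat_lit 5) (nat_lit 13) (nat_lit 4) (nat_lit 371) (nat_lit 226) (nat_lit 183)))) (XT.nd (nat_lit 156) (nat_lit 0) (nat_lit 0) (XT.nd (nat_lit 78) (nat_lit 76) (nat_lit 0) (XT.lf (nat_lit 0) (nat_lit 4498995364) (nat_lit 152) (nat_lit 1596864319) (nat_lit 76) (nat_lit 27791078022) (nat_lit 12) (nat_lit 5) (nat_lit 14) (nat_lit 5) (nat_lit 13) (nat_lit 4) (nat_lit 372) (nat_lit 226) (nat_lit 182)) (XT.lf (nat_lit 0) (nat_lit 6118937270) (nat_lit 76) (nat_lit 2238573532) (nat_lit 152)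 (nat_lit 26420570968) (nat_lit 11) (nat_lit 5) (nat_lit 12) (nat_lit 5) (nat_lit 13) (nat_lit 4) (nat_lit 373) (nat_lit 226) (nat_lit 181))) (XT.nd (nat_lit 78) (nat_lit 0) (nat_lit 0) (XT.lf (nat_lit 0) (nat_lit 12321925737) (nat_lit 152) (nat_lit 21693565748) (nat_lit 0) (nat_lit 1680773228) (nat_lit 11) (nat_lit 5) (nat_lit 13) (nat_lit 4) (nat_lit 11) (nat_lit 4) (nat_lit 374) (nat_lit 226) (nat_lit 180)) (XT.lf (nat_lit 0) (nat_lit 16385870968) (nat_lit 152) (nat_lit 14619052016) (nat_lit 0) (nat_lit 5637660842) (nat_lit 11) (nat_lit 5) (nat_lit 13) (nat_lit 4) (nat_lit 11) (nat_lit 4) (nat_lit 375) (nat_lit 226) (nat_lit 179))))) (XT.nd (nat_lit 234) (nat_lit 76) (nat_lit 0) (XT.nd (nat_lit 78) (nat_lit 76) (nat_lit 0) (XT.lf (nat_lit 0) (nat_lit 20531378977) (nat_lit 152) (nat_lit 7407903154) (nat_lit 0) (nat_lit 9679229418) (nat_lit 11) (nat_lit 5) (nat_lit 13) (nat_lit 4) (nat_lit 11) (nat_lit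 4) (nat_lit 376) (nat_lit 226) (nat_lit 178)) (XT.nd (nat_lit 78) (nat_lit 76) (nat_lit 0) (XT.lf (nat_lit 0) (nat_lit 24762072054) (nat_lit 152) (nat_lit 53818157) (nat_lit 0) (nat_lit 13809010423) (nat_lit 11) (nat_lit 5) (nat_lit 13) (nat_lit 4) (nat_lit 11) (nat_lit 4) (nat_lit 377) (nat_lit 226) (nat_lit 177)) (XT.lf (nat_lit 0) (nat_lit 7597891095) (nat_lit 76) (nat_lit 21556791401) (nat_lit 76) (nat_lit 10505756885) (nat_lit 10) (nat_lit 4) (nat_lit 11) (nat_lit 5) (nat_lit 11) (nat_lit 4) (nat_lit 378) (nat_lit 226) (nat_lit 176)))) (XT.nd (nat_lit 156) (nat_lit 76) (nat_lit 0) (XT.nd (nat_lit 78) (nat_lit 0) (nat_lit 0) (XT.lf (nat_lit 0) (nat_lit 15409692962) (nat_lit 76) (nat_lit 18232312392) (nat_lit 76) (nat_lit 7086158571) (nat_lit 10) (nat_lit 4) (nat_lit 11) (nat_lit 5) (nat_lit 11) (nat_lit 4) (nat_lit 379) (nat_lit 226) (nat_lit 175)) (XT.lf (nat_lit 0) (nat_lit 23387342202) (nat_lit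 76) (nat_lit 14840091759) (nat_lit 76) (nat_lit 3601589097) (nat_lit 10) (nat_lit 4) (nat_lit 11) (nat_lit 5) (nat_lit 11) (nat_lit 4) (nat_lit 380) (nat_lit 226) (nat_lit 174))) (XT.nd (nat_lit 78) (nat_lit 76) (nat_lit 0) (XT.lf (nat_lit 0) (nat_lit 31537809578) (nat_lit 76) (nat_lit 11377165425) (nat_lit 76) (nat_lit 49003694) (nat_lit 10) (nat_lit 4) (nat_lit 11) (nat_lit 5) (nat_lit 11) (nat_lit 4) (nat_lit 381) (nat_lit 226) (nat_lit 173)) (XT.lf (nat_lit 0) (nat_lit 3504946529) (nat_lit 152) (nat_lit 4300167915) (nat_lit 76) (nat_lit 36327877238) (nat_lit 9) (nat_lit 5) (nat_lit 11) (nat_lit 5) (nat_lit 10) (nat_lit 4) (nat_lit 382) (nat_lit 226) (nat_lit 172)))))) (XT.nd (nat_lit 546) (nat_lit 152) (nat_lit 0) (XT.nd (nat_lit 234) (nat_lit 0) (nat_lit 0) (XT.nd (nat_lit 78) (nat_lit 0) (nat_lit 0) (XT.lf (nat_lit 0) (nat_lit 3034979854) (nat_lit 76) (nat_lit 4124971621) (nat_lit 152) (nat_lit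 38177252998) (nat_lit 8) (nat_lit 5) (nat_lit 9) (nat_lit 5) (nat_lit 10) (nat_lit 4) (nat_lit 383) (nat_lit 226) (nat_lit 171)) (XT.nd (nat_lit 78) (nat_lit 0) (nat_lit 0) (XT.lf (nat_lit 0) (nat_lit 10615580899) (nat_lit 76) (nat_lit 319075893) (nat_lit 152) (nat_lit 35642591762) (nat_lit 8) (nat_lit 5) (nat_lit 9) (nat_lit 5) (nat_lit 10) (nat_lit 4) (nat_lit 384) (nat_lit 226) (nat_lit 170)) (XT.lf (nat_lit 0) (nat_lit 14824543074) (nat_lit 152) (nat_lit 29527135758) (nat_lit 0) (nat_lit 3502763159) (nat_lit 8) (nat_lit 5) (nat_lit 10) (nat_lit 4) (nat_lit 8) (nat_lit 4) (nat_lit 385) (nat_lit 226) (nat_lit 169)))) (XT.nd (nat_lit 156) (nat_lit 0) (nat_lit 0) (XT.nd (nat_lit 78) (nat_lit 0) (nat_lit 0) (XT.lf (nat_lit 0) (nat_lit 18802561636) (nat_lit 152) (nat_lit 22962558906) (nat_lit 0) (nat_lit 7405693663) (nat_lit 8) (nat_lit 5) (nat_lit 10) (nat_lit 4) (nat_lit 8) (nat_lit 4) (nat_lit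 386) (nat_lit 226) (nat_lit 168)) (XT.lf (nat_lit 0) (nat_lit 22869121264) (nat_lit 152) (nat_lit 16259133911) (nat_lit 0) (nat_lit 11399352263) (nat_lit 8) (nat_lit 5) (nat_lit 10) (nat_lit 4) (nat_lit 8) (nat_lit 4) (nat_lit 387) (nat_lit 226) (nat_lit 167))) (XT.nd (nat_lit 78) (nat_lit 0) (nat_lit 0) (XT.lf (nat_lit 0) (nat_lit 27027775264) (nat_lit 152) (nat_lit 9411003409) (nat_lit 0) (nat_lit 15487228566) (nat_lit 8) (nat_lit 5) (nat_lit 10) (nat_lit 4) (nat_lit 8) (nat_lit 4) (nat_lit 388) (nat_lit 226) (nat_lit 166)) (XT.lf (nat_lit 0) (nat_lit 31282157410) (nat_lit 152) (nat_lit 2412183599) (nat_lit 0) (nat_lit 19672894502) (nat_lit 8) (nat_lit 5) (nat_lit 10) (nat_lit 4) (nat_lit 8) (nat_lit 4) (nat_lit 389) (nat_lit 226) (nat_lit 165))))) (XT.nd (nat_lit 312) (nat_lit 76) (nat_lit 0) (XT.nd (nat_lit 156) (nat_lit 0) (nat_lit 0) (XT.nd (nat_lit 78) (nat_lit 0) (nat_lit 0) (XT.lf (nat_lit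 0) (nat_lit 4837844769) (nat_lit 76) (nat_lit 30844644678) (nat_lit 76) (nat_lit 19168667003) (nat_lit 7) (nat_lit 4) (nat_lit 8) (nat_lit 5) (nat_lit 8) (nat_lit 4) (nat_lit 390) (nat_lit 226) (nat_lit 164)) (XT.lf (nat_lit 0) (nat_lit 12302182751) (nat_lit 76) (nat_lit 27909136076) (nat_lit 76) (nat_lit 16168386782) (nat_lit 7) (nat_lit 4) (nat_lit 8) (nat_lit 5) (nat_lit 8) (nat_lit 4) (nat_lit 391) (nat_lit 226) (nat_lit 163))) (XT.nd (nat_lit 78) (nat_lit 0) (nat_lit 0) (XT.lf (nat_lit 0) (nat_lit 19939345400) (nat_lit 76) (nat_lit 24909608521) (nat_lit 76) (nat_lit 13105974160) (nat_lit 7) (nat_lit 4) (nat_lit 8) (nat_lit 5) (nat_lit 8) (nat_lit 4) (nat_lit 392) (nat_lit 226) (nat_lit 162)) (XT.lf (nat_lit 0) (nat_lit 27756005964) (nat_lit 76) (nat_lit 21843441067) (nat_lit 76) (nat_lit 9978753243) (nat_lit 7) (nat_lit 4) (nat_lit 8) (nat_lit 5) (nat_lit 8) (nat_lit 4) (nat_lit 393) (nat_lit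 226) (nat_lit 161)))) (XT.nd (nat_lit 156) (nat_lit 76) (nat_lit 0) (XT.nd (nat_lit 78) (nat_lit 0) (nat_lit 0) (XT.lf (nat_lit 0) (nat_lit 35758994535) (nat_lit 76) (nat_lit 18707954538) (nat_lit 76) (nat_lit 6783991507) (nat_lit 7) (nat_lit 4) (nat_lit 8) (nat_lit 5) (nat_lit 8) (nat_lit 4) (nat_lit 394) (nat_lit 226) (nat_lit 160)) (XT.lf (nat_lit 0) (nat_lit 43955304016) (nat_lit 76) (nat_lit 15500409188) (nat_lit 76) (nat_lit 3518897413) (nat_lit 7) (nat_lit 4) (nat_lit 8) (nat_lit 5) (nat_lit 8) (nat_lit 4) (nat_lit 395) (nat_lit 226) (nat_lit 159))) (XT.nd (nat_lit 78) (nat_lit 76) (nat_lit 0) (XT.lf (nat_lit 0) (nat_lit 52352096231) (nat_lit 76) (nat_lit 12218002309) (nat_lit 76) (nat_lit 180617967) (nat_lit 7) (nat_lit 4) (nat_lit 8) (nat_lit 5) (nat_lit 8) (nat_lit 4) (nat_lit 396) (nat_lit 226) (nat_lit 158)) (XT.lf (nat_lit 0) (nat_lit 3170661397) (nat_lit 152) (nat_lit 5655186917) (nat_lit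 76) (nat_lit 57754029323) (nat_lit 6) (nat_lit 5) (nat_lit 8) (nat_lit 5) (nat_lit 7) (nat_lit 4) (nat_lit 397) (nat_lit 226) (nat_lit 157))))))))
noncomputable def xc33 : XT := (XT.nd (nat_lit 36036) (nat_lit 0) (nat_lit 760) (XT.nd (nat_lit 1092) (nat_lit 0) (nat_lit 0) (XT.nd (nat_lit 546) (nat_lit 76) (nat_lit 0) (XT.nd (nat_lit 234) (nat_lit 0) (nat_lit 0) (XT.nd (nat_lit 78) (nat_lit 0) (nat_lit 0) (XT.lf (nat_lit 0) (nat_lit 1270289362) (nat_lit 76) (nat_lit 5337880178) (nat_lit 152) (nat_lit 61856014907) (nat_lit 5) (nat_lit 5) (nat_lit 6) (nat_lit 5) (nat_lit 7) (nat_lit 4) (nat_lit 398) (nat_lit 226) (nat_lit 156)) (XT.nd (nat_lit 78) (nat_lit 0) (nat_lit 0) (XT.lf (nat_lit 0) (nat_lit 8476620128) (nat_lit 76) (nat_lit 1706653885) (nat_lit 152) (nat_lit 60220716314) (nat_lit 5) (nat_lit 5) (nat_lit 6) (nat_lit 5) (nat_lit 7) (nat_lit 4) (nat_lit 399) (nat_lit 226) (nat_lit 155)) (XT.lf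 (nat_lit 0) (nat_lit 13863014495) (nat_lit 152) (nat_lit 56564459489) (nat_lit 0) (nat_lit 1974598793) (nat_lit 5) (nat_lit 5) (nat_lit 7) (nat_lit 4) (nat_lit 5) (nat_lit 4) (nat_lit 400) (nat_lit 226) (nat_lit 154)))) (XT.nd (nat_lit 156) (nat_lit 0) (nat_lit 0) (XT.nd (nat_lit 78) (nat_lit 0) (nat_lit 0) (XT.lf (nat_lit 0) (nat_lit 17648525862) (nat_lit 152) (nat_lit 51098396482) (nat_lit 0) (nat_lit 5713317764) (nat_lit 5) (nat_lit 5) (nat_lit 7) (nat_lit 4) (nat_lit 5) (nat_lit 4) (nat_lit 401) (nat_lit 226) (nat_lit 153)) (XT.lf (nat_lit 0) (nat_lit 21526710440) (nat_lit 152) (nat_lit 45507999607) (nat_lit 0) (nat_lit 9546072832) (nat_lit 5) (nat_lit 5) (nat_lit 7) (nat_lit 4) (nat_lit 5) (nat_lit 4) (nat_lit 402) (nat_lit 226) (nat_lit 152))) (XT.nd (nat_lit 78) (nat_lit 0) (nat_lit 0) (XT.lf (nat_lit 0) (nat_lit 25500956935) (nat_lit 152) (nat_lit 39788384052) (nat_lit 0) (nat_lit 13476213007)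 (nat_lit 5) (nat_lit 5) (nat_lit 7) (nat_lit 4) (nat_lit 5) (nat_lit 4) (nat_lit 403) (nat_lit 226) (nat_lit 151)) (XT.lf (nat_lit 0) (nat_lit 29574737990) (nat_lit 152) (nat_lit 33934552093) (nat_lit 0) (nat_lit 17507172391) (nat_lit 5) (nat_lit 5) (nat_lit 7) (nat_lit 4) (nat_lit 5) (nat_lit 4) (nat_lit 404) (nat_lit 226) (nat_lit 150))))) (XT.nd (nat_lit 234) (nat_lit 76) (nat_lit 0) (XT.nd (nat_lit 78) (nat_lit 0) (nat_lit 0) (XT.lf (nat_lit 0) (nat_lit 33751613219) (nat_lit 152) (nat_lit 27941388733) (nat_lit 0) (nat_lit 21642473183) (nat_lit 5) (nat_lit 5) (nat_lit 7) (nat_lit 4) (nat_lit 5) (nat_lit 4) (nat_lit 405) (nat_lit 226) (nat_lit 149)) (XT.nd (nat_lit 78) (nat_lit 0) (nat_lit 0) (XT.lf (nat_lit 0) (nat_lit 38035232319) (nat_lit 152) (nat_lit 21803657226) (nat_lit 0) (nat_lit 25885728751) (nat_lit 5) (nat_lit 5) (nat_lit 7) (nat_lit 4) (nat_lit 5) (nat_lit 4) (nat_lit 406) (nat_lit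 226) (nat_lit 148)) (XT.lf (nat_lit 0) (nat_lit 42429338257) (nat_lit 152) (nat_lit 15515994506) (nat_lit 0) (nat_lit 30240646795) (nat_lit 5) (nat_lit 5) (nat_lit 7) (nat_lit 4) (nat_lit 5) (nat_lit 4) (nat_lit 407) (nat_lit 226) (nat_lit 147)))) (XT.nd (nat_lit 156) (nat_lit 76) (nat_lit 0) (XT.nd (nat_lit 78) (nat_lit 0) (nat_lit 0) (XT.lf (nat_lit 0) (nat_lit 46937770545) (nat_lit 152) (nat_lit 9072906498) (nat_lit 0) (nat_lit 34711032583) (nat_lit 5) (nat_lit 5) (nat_lit 7) (nat_lit 4) (nat_lit 5) (nat_lit 4) (nat_lit 408) (nat_lit 226) (nat_lit 146)) (XT.lf (nat_lit 0) (nat_lit 51564468588) (nat_lit 152) (nat_lit 2468763321) (nat_lit 0) (nat_lit 39300792277) (nat_lit 5) (nat_lit 5) (nat_lit 7) (nat_lit 4) (nat_lit 5) (nat_lit 4) (nat_lit 409) (nat_lit 226) (nat_lit 145))) (XT.nd (nat_lit 78) (nat_lit 0) (nat_lit 0) (XT.lf (nat_lit 0) (nat_lit 4387827963) (nat_lit 76) (nat_lit 51967825656)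 (nat_lit 76) (nat_lit 39668286870) (nat_lit 4) (nat_lit 4) (nat_lit 5) (nat_lit 5) (nat_lit 5) (nat_lit 4) (nat_lit 410) (nat_lit 226) (nat_lit 144)) (XT.lf (nat_lit 0) (nat_lit 11469732549) (nat_lit 76) (nat_lit 49829461334) (nat_lit 76) (nat_lit 37495104611) (nat_lit 4) (nat_lit 4) (nat_lit 5) (nat_lit 5) (nat_lit 5) (nat_lit 4) (nat_lit 411) (nat_lit 226) (nat_lit 143)))))) (XT.nd (nat_lit 34398) (nat_lit 0) (nat_lit 2280) (XT.nd (nat_lit 34086) (nat_lit 0) (nat_lit 3040) (XT.nd (nat_lit 33930) (nat_lit 0) (nat_lit 3648) (XT.lf (nat_lit 0) (nat_lit 18734005275) (nat_lit 76) (nat_lit 47641200139) (nat_lit 76) (nat_lit 35273039594) (nat_lit 4) (nat_lit 4) (nat_lit 5) (nat_lit 5) (nat_lit 5) (nat_lit 4) (nat_lit 412) (nat_lit 226) (nat_lit 142)) (XT.nd (nat_lit 78) (nat_lit 0) (nat_lit 0) (XT.lf (nat_lit 0) (nat_lit 321010032) (nat_lit 228) (nat_lit 5462894779) (nat_lit 0) (nat_lit 321010032) (nat_lit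 52) (nat_lit 5) (nat_lit 55) (nat_lit 4) (nat_lit 52) (nat_lit 4) (nat_lit 326) (nat_lit 227) (nat_lit 227)) (XT.lf (nat_lit 0) (nat_lit 5033235038) (nat_lit 228) (nat_lit 2935542250) (nat_lit 0) (nat_lit 4456017684) (nat_lit 52) (nat_lit 5) (nat_lit 55) (nat_lit 4) (nat_lit 52) (nat_lit 4) (nat_lit 327) (nat_lit 227) (nat_lit 226)))) (XT.nd (nat_lit 156) (nat_lit 152) (nat_lit 0) (XT.nd (nat_lit 78) (nat_lit 228) (nat_lit 0) (XT.lf (nat_lit 0) (nat_lit 5235859730) (nat_lit 228) (nat_lit 4274693080) (nat_lit 228) (nat_lit 3137070528) (nat_lit 49) (nat_lit 4) (nat_lit 52) (nat_lit 5) (nat_lit 52) (nat_lit 4) (nat_lit 328) (nat_lit 227) (nat_lit 225)) (XT.lf (nat_lit 0) (nat_lit 676170817) (nat_lit 152) (nat_lit 485344495) (nat_lit 228) (nat_lit 11717082007) (nat_lit 46) (nat_lit 5) (nat_lit 48) (nat_lit 5) (nat_lit 49) (nat_lit 4) (nat_lit 329) (nat_lit 227) (nat_lit 224))) (XT.nd (nat_lit 78) (nat_lit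 152) (nat_lit 0) (XT.lf (nat_lit 0) (nat_lit 5539393396) (nat_lit 228) (nat_lit 4181995316) (nat_lit 0) (nat_lit 3393819692) (nat_lit 46) (nat_lit 5) (nat_lit 49) (nat_lit 4) (nat_lit 46) (nat_lit 4) (nat_lit 330) (nat_lit 227) (nat_lit 223)) (XT.lf (nat_lit 0) (nat_lit 3995151484) (nat_lit 152) (nat_lit 6004382551) (nat_lit 152) (nat_lit 3360896087) (nat_lit 44) (nat_lit 4) (nat_lit 46) (nat_lit 5) (nat_lit 46) (nat_lit 4) (nat_lit 331) (nat_lit 227) (nat_lit 222))))) (XT.nd (nat_lit 234) (nat_lit 380) (nat_lit 0) (XT.nd (nat_lit 78) (nat_lit 304) (nat_lit 0) (XT.lf (nat_lit 0) (nat_lit 911955884) (nat_lit 228) (nat_lit 1275626464) (nat_lit 76) (nat_lit 11426662642) (nat_lit 43) (nat_lit 5) (nat_lit 46) (nat_lit 5) (nat_lit 44) (nat_lit 4) (nat_lit 332) (nat_lit 227) (nat_lit 221)) (XT.nd (nat_lit 78) (nat_lit 152) (nat_lit 0) (XT.lf (nat_lit 0) (nat_lit 5240600583) (nat_lit 228) (nat_lit 6885139752)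 (nat_lit 0) (nat_lit 1749117631) (nat_lit 41) (nat_lit 5) (nat_lit 44) (nat_lit 4) (nat_lit 41) (nat_lit 4) (nat_lit 333) (nat_lit 227) (nat_lit 220)) (XT.lf (nat_lit 0) (nat_lit 1235211536) (nat_lit 152) (nat_lit 8421626697) (nat_lit 152) (nat_lit 4487754706) (nat_lit 39) (nat_lit 4) (nat_lit 41) (nat_lit 5) (nat_lit 41) (nat_lit 4) (nat_lit 334) (nat_lit 227) (nat_lit 219)))) (XT.nd (nat_lit 156) (nat_lit 152) (nat_lit 0) (XT.nd (nat_lit 78) (nat_lit 228) (nat_lit 0) (XT.lf (nat_lit 0) (nat_lit 9588441095) (nat_lit 152) (nat_lit 4598967002) (nat_lit 152) (nat_lit 235591090) (nat_lit 39) (nat_lit 4) (nat_lit 41) (nat_lit 5) (nat_lit 41) (nat_lit 4) (nat_lit 335) (nat_lit 227) (nat_lit 218)) (XT.lf (nat_lit 0) (nat_lit 3359029001) (nat_lit 152) (nat_lit 650527161) (nat_lit 228) (nat_lit 10700650400) (nat_lit 36) (nat_lit 5) (nat_lit 38) (nat_lit 5) (nat_lit 39) (nat_lit 4) (nat_lit 336) (nat_lit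 227) (nat_lit 217))) (XT.nd (nat_lit 78) (nat_lit 152) (nat_lit 0) (XT.lf (nat_lit 0) (nat_lit 8373943653) (nat_lit 228) (nat_lit 3292398752) (nat_lit 0) (nat_lit 3339750791) (nat_lit 36) (nat_lit 5) (nat_lit 39) (nat_lit 4) (nat_lit 36) (nat_lit 4) (nat_lit 337) (nat_lit 227) (nat_lit 216)) (XT.lf (nat_lit 0) (nat_lit 4953009492) (nat_lit 152) (nat_lit 7887274281) (nat_lit 152) (nat_lit 2471472749) (nat_lit 34) (nat_lit 4) (nat_lit 36) (nat_lit 5) (nat_lit 36) (nat_lit 4) (nat_lit 338) (nat_lit 227) (nat_lit 215))))))) (XT.nd (nat_lit 1092) (nat_lit 532) (nat_lit 0) (XT.nd (nat_lit 546) (nat_lit 532) (nat_lit 0) (XT.nd (nat_lit 234) (nat_lit 304) (nat_lit 0) (XT.nd (nat_lit 78) (nat_lit 76) (nat_lit 0) (XT.lf (nat_lit 0) (nat_lit 1729364790) (nat_lit 228) (nat_lit 2275684862) (nat_lit 76) (nat_lit 11622523771) (nat_lit 33) (nat_lit 5) (nat_lit 36) (nat_lit 5) (nat_lit 34) (nat_lit 4) (nat_lit 339)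 (nat_lit 227) (nat_lit 214)) (XT.nd (nat_lit 78) (nat_lit 0) (nat_lit 0) (XT.lf (nat_lit 0) (nat_lit 5983981979) (nat_lit 152) (nat_lit 9951860530) (nat_lit 0) (nat_lit 16993476) (nat_lit 32) (nat_lit 5) (nat_lit 34) (nat_lit 4) (nat_lit 32) (nat_lit 4) (nat_lit 340) (nat_lit 227) (nat_lit 213)) (XT.lf (nat_lit 0) (nat_lit 10349089513) (nat_lit 152) (nat_lit 1896262004) (nat_lit 0) (nat_lit 4043046649) (nat_lit 32) (nat_lit 5) (nat_lit 34) (nat_lit 4) (nat_lit 32) (nat_lit 4) (nat_lit 341) (nat_lit 227) (nat_lit 212)))) (XT.nd (nat_lit 156) (nat_lit 76) (nat_lit 0) (XT.nd (nat_lit 78) (nat_lit 76) (nat_lit 0) (XT.lf (nat_lit 0) (nat_lit 6387988809) (nat_lit 152) (nat_lit 8440887489) (nat_lit 152) (nat_lit 1805665634) (nat_lit 30) (nat_lit 4) (nat_lit 32) (nat_lit 5) (nat_lit 32) (nat_lit 4) (nat_lit 342) (nat_lit 227) (nat_lit 211)) (XT.lf (nat_lit 0) (nat_lit 2345965692) (nat_lit 228) (nat_lit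 2192502753) (nat_lit 76) (nat_lit 12453664663) (nat_lit 29) (nat_lit 5) (nat_lit 32) (nat_lit 5) (nat_lit 30) (nat_lit 4) (nat_lit 343) (nat_lit 227) (nat_lit 210))) (XT.nd (nat_lit 78) (nat_lit 0) (nat_lit 0) (XT.lf (nat_lit 0) (nat_lit 6069866034) (nat_lit 76) (nat_lit 499080721) (nat_lit 152) (nat_lit 10791500394) (nat_lit 28) (nat_lit 5) (nat_lit 29) (nat_lit 5) (nat_lit 30) (nat_lit 4) (nat_lit 344) (nat_lit 227) (nat_lit 209)) (XT.lf (nat_lit 0) (nat_lit 10901276522) (nat_lit 152) (nat_lit 3283763752) (nat_lit 0) (nat_lit 3555314106) (nat_lit 28) (nat_lit 5) (nat_lit 30) (nat_lit 4) (nat_lit 28) (nat_lit 4) (nat_lit 345) (nat_lit 227) (nat_lit 208))))) (XT.nd (nat_lit 234) (nat_lit 228) (nat_lit 0) (XT.nd (nat_lit 78) (nat_lit 152) (nat_lit 0) (XT.lf (nat_lit 0) (nat_lit 4924061453) (nat_lit 152) (nat_lit 10419074277) (nat_lit 152) (nat_lit 2789159172) (nat_lit 26) (nat_lit 4) (nat_lit 28)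 (nat_lit 5) (nat_lit 28) (nat_lit 4) (nat_lit 346) (nat_lit 227) (nat_lit 207)) (XT.nd (nat_lit 78) (nat_lit 76) (nat_lit 0) (XT.lf (nat_lit 0) (nat_lit 1316201460) (nat_lit 228) (nat_lit 5233708364) (nat_lit 76) (nat_lit 11986879234) (nat_lit 25) (nat_lit 5) (nat_lit 28) (nat_lit 5) (nat_lit 26) (nat_lit 4) (nat_lit 347) (nat_lit 227) (nat_lit 206)) (XT.lf (nat_lit 0) (nat_lit 2881946572) (nat_lit 76) (nat_lit 2563963055) (nat_lit 152) (nat_lit 13507983486) (nat_lit 24) (nat_lit 5) (nat_lit 25) (nat_lit 5) (nat_lit 26) (nat_lit 4) (nat_lit 348) (nat_lit 227) (nat_lit 205)))) (XT.nd (nat_lit 156) (nat_lit 228) (nat_lit 0) (XT.nd (nat_lit 78) (nat_lit 0) (nat_lit 0) (XT.lf (nat_lit 0) (nat_lit 9697552768) (nat_lit 152) (nat_lit 8175966188) (nat_lit 0) (nat_lit 1510070334) (nat_lit 24) (nat_lit 5) (nat_lit 26) (nat_lit 4) (nat_lit 24) (nat_lit 4) (nat_lit 349) (nat_lit 227) (nat_lit 204)) (XT.lf (nat_lit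 0) (nat_lit 14034025956) (nat_lit 152) (nat_lit 191848256) (nat_lit 0) (nat_lit 5601603438) (nat_lit 24) (nat_lit 5) (nat_lit 26) (nat_lit 4) (nat_lit 24) (nat_lit 4) (nat_lit 350) (nat_lit 227) (nat_lit 203))) (XT.nd (nat_lit 78) (nat_lit 76) (nat_lit 0) (XT.lf (nat_lit 0) (nat_lit 8069494961) (nat_lit 152) (nat_lit 10442545922) (nat_lit 152) (nat_lit 1772317496) (nat_lit 22) (nat_lit 4) (nat_lit 24) (nat_lit 5) (nat_lit 24) (nat_lit 4) (nat_lit 351) (nat_lit 227) (nat_lit 202)) (XT.lf (nat_lit 0) (nat_lit 2259170106) (nat_lit 228) (nat_lit 4314992630) (nat_lit 76) (nat_lit 14182038864) (nat_lit 21) (nat_lit 5) (nat_lit 24) (nat_lit 5) (nat_lit 22) (nat_lit 4) (nat_lit 352) (nat_lit 227) (nat_lit 201)))))) (XT.nd (nat_lit 546) (nat_lit 228) (nat_lit 0) (XT.nd (nat_lit 234) (nat_lit 228) (nat_lit 0) (XT.nd (nat_lit 78) (nat_lit 0) (nat_lit 0) (XT.lf (nat_lit 0) (nat_lit 3761295231) (nat_lit 76)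 (nat_lit 2586762923) (nat_lit 152) (nat_lit 14894470726) (nat_lit 20) (nat_lit 5) (nat_lit 21) (nat_lit 5) (nat_lit 22) (nat_lit 4) (nat_lit 353) (nat_lit 227) (nat_lit 200)) (XT.nd (nat_lit 78) (nat_lit 0) (nat_lit 0) (XT.lf (nat_lit 0) (nat_lit 10554411277) (nat_lit 152) (nat_lit 9705562418) (nat_lit 0) (nat_lit 1483645340) (nat_lit 20) (nat_lit 5) (nat_lit 22) (nat_lit 4) (nat_lit 20) (nat_lit 4) (nat_lit 354) (nat_lit 227) (nat_lit 199)) (XT.lf (nat_lit 0) (nat_lit 14850605725) (nat_lit 152) (nat_lit 1835536837) (nat_lit 0) (nat_lit 5574706324) (nat_lit 20) (nat_lit 5) (nat_lit 22) (nat_lit 4) (nat_lit 20) (nat_lit 4) (nat_lit 355) (nat_lit 227) (nat_lit 198)))) (XT.nd (nat_lit 156) (nat_lit 76) (nat_lit 0) (XT.nd (nat_lit 78) (nat_lit 76) (nat_lit 0) (XT.lf (nat_lit 0) (nat_lit 6283193089) (nat_lit 76) (nat_lit 12992734715) (nat_lit 76) (nat_lit 3517676610) (nat_lit 19) (nat_lit 4) (nat_lit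 20) (nat_lit 5) (nat_lit 20) (nat_lit 4) (nat_lit 356) (nat_lit 227) (nat_lit 197)) (XT.lf (nat_lit 0) (nat_lit 440736658) (nat_lit 152) (nat_lit 8773720651) (nat_lit 76) (nat_lit 14128998706) (nat_lit 18) (nat_lit 5) (nat_lit 20) (nat_lit 5) (nat_lit 19) (nat_lit 4) (nat_lit 357) (nat_lit 227) (nat_lit 196))) (XT.nd (nat_lit 78) (nat_lit 76) (nat_lit 0) (XT.lf (nat_lit 0) (nat_lit 4388894754) (nat_lit 152) (nat_lit 946685896) (nat_lit 76) (nat_lit 18574941508) (nat_lit 18) (nat_lit 5) (nat_lit 20) (nat_lit 5) (nat_lit 19) (nat_lit 4) (nat_lit 358) (nat_lit 227) (nat_lit 195)) (XT.lf (nat_lit 0) (nat_lit 7150885693) (nat_lit 76) (nat_lit 1316743059) (nat_lit 152) (nat_lit 16026621844) (nat_lit 17) (nat_lit 5) (nat_lit 18) (nat_lit 5) (nat_lit 19) (nat_lit 4) (nat_lit 359) (nat_lit 227) (nat_lit 194))))) (XT.nd (nat_lit 312) (nat_lit 152) (nat_lit 0) (XT.nd (nat_lit 156) (nat_lit 76) (nat_lit 0)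 (XT.nd (nat_lit 78) (nat_lit 0) (nat_lit 0) (XT.lf (nat_lit 0) (nat_lit 12649114978) (nat_lit 152) (nat_lit 9715679174) (nat_lit 0) (nat_lit 2731298859) (nat_lit 17) (nat_lit 5) (nat_lit 19) (nat_lit 4) (nat_lit 17) (nat_lit 4) (nat_lit 360) (nat_lit 227) (nat_lit 193)) (XT.lf (nat_lit 0) (nat_lit 16914328244) (nat_lit 152) (nat_lit 1973207563) (nat_lit 0) (nat_lit 6829719846) (nat_lit 17) (nat_lit 5) (nat_lit 19) (nat_lit 4) (nat_lit 17) (nat_lit 4) (nat_lit 361) (nat_lit 227) (nat_lit 192))) (XT.nd (nat_lit 78) (nat_lit 0) (nat_lit 0) (XT.lf (nat_lit 0) (nat_lit 6020963213) (nat_lit 76) (nat_lit 15291252063) (nat_lit 76) (nat_lit 5044709414) (nat_lit 16) (nat_lit 4) (nat_lit 17) (nat_lit 5) (nat_lit 17) (nat_lit 4) (nat_lit 362) (nat_lit 227) (nat_lit 191)) (XT.lf (nat_lit 0) (nat_lit 14198303703) (nat_lit 76) (nat_lit 11611115852) (nat_lit 76) (nat_lit 1207355483) (nat_lit 16) (nat_lit 4) (nat_lit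 17) (nat_lit 5) (nat_lit 17) (nat_lit 4) (nat_lit 363) (nat_lit 227) (nat_lit 190)))) (XT.nd (nat_lit 156) (nat_lit 0) (nat_lit 0) (XT.nd (nat_lit 78) (nat_lit 76) (nat_lit 0) (XT.lf (nat_lit 0) (nat_lit 2640020302) (nat_lit 152) (nat_lit 5197157716) (nat_lit 76) (nat_lit 19860009122) (nat_lit 15) (nat_lit 5) (nat_lit 17) (nat_lit 5) (nat_lit 16) (nat_lit 4) (nat_lit 364) (nat_lit 227) (nat_lit 189)) (XT.lf (nat_lit 0) (nat_lit 2599020197) (nat_lit 76) (nat_lit 3954483205) (nat_lit 152) (nat_lit 21844912586) (nat_lit 14) (nat_lit 5) (nat_lit 15) (nat_lit 5) (nat_lit 16) (nat_lit 4) (nat_lit 365) (nat_lit 227) (nat_lit 188))) (XT.nd (nat_lit 78) (nat_lit 0) (nat_lit 0) (XT.lf (nat_lit 0) (nat_lit 10587961622) (nat_lit 152) (nat_lit 18477155977) (nat_lit 0) (nat_lit 55468229) (nat_lit 14) (nat_lit 5) (nat_lit 16) (nat_lit 4) (nat_lit 14) (nat_lit 4) (nat_lit 366) (nat_lit 227) (nat_lit 187)) (XT.lf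 (nat_lit 0) (nat_lit 14734199410) (nat_lit 152) (nat_lit 11064421267) (nat_lit 0) (nat_lit 4066088630) (nat_lit 14) (nat_lit 5) (nat_lit 16) (nat_lit 4) (nat_lit 14) (nat_lit 4) (nat_lit 367) (nat_lit 227) (nat_lit 186))))))))
noncomputable def xc34 : XT := (XT.nd (nat_lit 2184) (nat_lit 228) (nat_lit 0) (XT.nd (nat_lit 1092) (nat_lit 228) (nat_lit 0) (XT.nd (nat_lit 546) (nat_lit 76) (nat_lit 0) (XT.nd (nat_lit 234) (nat_lit 152) (nat_lit 0) (XT.nd (nat_lit 78) (nat_lit 76) (nat_lit 0) (XT.lf (nat_lit 0) (nat_lit 18957826780) (nat_lit 152) (nat_lit 3516701602) (nat_lit 0) (nat_lit 8158048635) (nat_lit 14) (nat_lit 5) (nat_lit 16) (nat_lit 4) (nat_lit 14) (nat_lit 4) (nat_lit 368) (nat_lit 227) (nat_lit 185)) (XT.nd (nat_lit 78) (nat_lit 0) (nat_lit 0) (XT.lf (nat_lit 0) (nat_lit 4255640995) (nat_lit 76) (nat_lit 19047801110) (nat_lit 76) (nat_lit 8120190572) (nat_lit 13) (nat_lit 4) (nat_lit 14)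 (nat_lit 5) (nat_lit 14) (nat_lit 4) (nat_lit 369) (nat_lit 227) (nat_lit 184)) (XT.lf (nat_lit 0) (nat_lit 12249223143) (nat_lit 76) (nat_lit 15520607189) (nat_lit 76) (nat_lit 4468887531) (nat_lit 13) (nat_lit 4) (nat_lit 14) (nat_lit 5) (nat_lit 14) (nat_lit 4) (nat_lit 370) (nat_lit 227) (nat_lit 183)))) (XT.nd (nat_lit 156) (nat_lit 76) (nat_lit 0) (XT.nd (nat_lit 78) (nat_lit 76) (nat_lit 0) (XT.lf (nat_lit 0) (nat_lit 20401040268) (nat_lit 76) (nat_lit 11925376397) (nat_lit 76) (nat_lit 753162448) (nat_lit 13) (nat_lit 4) (nat_lit 14) (nat_lit 5) (nat_lit 14) (nat_lit 4) (nat_lit 371) (nat_lit 227) (nat_lit 182)) (XT.lf (nat_lit 0) (nat_lit 2971100697) (nat_lit 152) (nat_lit 5257864281) (nat_lit 76) (nat_lit 25717112328) (nat_lit 12) (nat_lit 5) (nat_lit 14) (nat_lit 5) (nat_lit 13) (nat_lit 4) (nat_lit 372) (nat_lit 227) (nat_lit 181))) (XT.nd (nat_lit 78) (nat_lit 0) (nat_lit 0) (XT.lf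 (nat_lit 0) (nat_lit 2346024220) (nat_lit 76) (nat_lit 4426783830) (nat_lit 152) (nat_lit 28066121936) (nat_lit 11) (nat_lit 5) (nat_lit 12) (nat_lit 5) (nat_lit 13) (nat_lit 4) (nat_lit 373) (nat_lit 227) (nat_lit 180)) (XT.lf (nat_lit 0) (nat_lit 10208843856) (nat_lit 76) (nat_lit 491594234) (nat_lit 152) (nat_lit 25057782631) (nat_lit 11) (nat_lit 5) (nat_lit 12) (nat_lit 5) (nat_lit 13) (nat_lit 4) (nat_lit 374) (nat_lit 227) (nat_lit 179))))) (XT.nd (nat_lit 234) (nat_lit 76) (nat_lit 0) (XT.nd (nat_lit 78) (nat_lit 0) (nat_lit 0) (XT.lf (nat_lit 0) (nat_lit 14739778221) (nat_lit 152) (nat_lit 18507379147) (nat_lit 0) (nat_lit 3458124742) (nat_lit 11) (nat_lit 5) (nat_lit 13) (nat_lit 4) (nat_lit 11) (nat_lit 4) (nat_lit 375) (nat_lit 227) (nat_lit 178)) (XT.nd (nat_lit 78) (nat_lit 0) (nat_lit 0) (XT.lf (nat_lit 0) (nat_lit 18865985653) (nat_lit 152) (nat_lit 11332387098) (nat_lit 0) (nat_lit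 7483420101) (nat_lit 11) (nat_lit 5) (nat_lit 13) (nat_lit 4) (nat_lit 11) (nat_lit 4) (nat_lit 376) (nat_lit 227) (nat_lit 177)) (XT.lf (nat_lit 0) (nat_lit 23077940304) (nat_lit 152) (nat_lit 4013405804) (nat_lit 0) (nat_lit 11597401868) (nat_lit 11) (nat_lit 5) (nat_lit 13) (nat_lit 4) (nat_lit 11) (nat_lit 4) (nat_lit 377) (nat_lit 227) (nat_lit 176)))) (XT.nd (nat_lit 156) (nat_lit 0) (nat_lit 0) (XT.nd (nat_lit 78) (nat_lit 0) (nat_lit 0) (XT.lf (nat_lit 0) (nat_lit 3524740342) (nat_lit 76) (nat_lit 23888464141) (nat_lit 76) (nat_lit 12312806399) (nat_lit 10) (nat_lit 4) (nat_lit 11) (nat_lit 5) (nat_lit 11) (nat_lit 4) (nat_lit 378) (nat_lit 227) (nat_lit 175)) (XT.lf (nat_lit 0) (nat_lit 11302795075) (nat_lit 76) (nat_lit 20579745106) (nat_lit 76) (nat_lit 8911738523) (nat_lit 10) (nat_lit 4) (nat_lit 11) (nat_lit 5) (nat_lit 11) (nat_lit 4) (nat_lit 379) (nat_lit 227) (nat_lit 174))) (XT.nd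 (nat_lit 78) (nat_lit 0) (nat_lit 0) (XT.lf (nat_lit 0) (nat_lit 19247680107) (nat_lit 76) (nat_lit 17202825418) (nat_lit 76) (nat_lit 5445159766) (nat_lit 10) (nat_lit 4) (nat_lit 11) (nat_lit 5) (nat_lit 11) (nat_lit 4) (nat_lit 380) (nat_lit 227) (nat_lit 173)) (XT.lf (nat_lit 0) (nat_lit 27366337572) (nat_lit 76) (nat_lit 13754754370) (nat_lit 76) (nat_lit 1910041079) (nat_lit 10) (nat_lit 4) (nat_lit 11) (nat_lit 5) (nat_lit 11) (nat_lit 4) (nat_lit 381) (nat_lit 227) (nat_lit 172)))))) (XT.nd (nat_lit 546) (nat_lit 76) (nat_lit 0) (XT.nd (nat_lit 234) (nat_lit 0) (nat_lit 0) (XT.nd (nat_lit 78) (nat_lit 76) (nat_lit 0) (XT.lf (nat_lit 0) (nat_lit 1663597622) (nat_lit 152) (nat_lit 8552122388) (nat_lit 76) (nat_lit 33985464744) (nat_lit 9) (nat_lit 5) (nat_lit 11) (nat_lit 5) (nat_lit 10) (nat_lit 4) (nat_lit 382) (nat_lit 227) (nat_lit 171)) (XT.nd (nat_lit 78) (nat_lit 76) (nat_lit 0) (XT.lf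 (nat_lit 0) (nat_lit 5273285704) (nat_lit 152) (nat_lit 1306506331) (nat_lit 76) (nat_lit 38826968176) (nat_lit 9) (nat_lit 5) (nat_lit 11) (nat_lit 5) (nat_lit 10) (nat_lit 4) (nat_lit 383) (nat_lit 227) (nat_lit 170)) (XT.lf (nat_lit 0) (nat_lit 6218081492) (nat_lit 76) (nat_lit 2801139554) (nat_lit 152) (nat_lit 37628449413) (nat_lit 8) (nat_lit 5) (nat_lit 9) (nat_lit 5) (nat_lit 10) (nat_lit 4) (nat_lit 384) (nat_lit 227) (nat_lit 169)))) (XT.nd (nat_lit 156) (nat_lit 0) (nat_lit 0) (XT.nd (nat_lit 78) (nat_lit 0) (nat_lit 0) (XT.lf (nat_lit 0) (nat_lit 12869620885) (nat_lit 152) (nat_lit 34000671766) (nat_lit 0) (nat_lit 1055758815) (nat_lit 8) (nat_lit 5) (nat_lit 10) (nat_lit 4) (nat_lit 8) (nat_lit 4) (nat_lit 385) (nat_lit 227) (nat_lit 168)) (XT.lf (nat_lit 0) (nat_lit 16832467285) (nat_lit 152) (nat_lit 27464710265) (nat_lit 0) (nat_lit 4945704186) (nat_lit 8) (nat_lit 5) (nat_lit 10)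 (nat_lit 4) (nat_lit 8) (nat_lit 4) (nat_lit 386) (nat_lit 227) (nat_lit 167))) (XT.nd (nat_lit 78) (nat_lit 0) (nat_lit 0) (XT.lf (nat_lit 0) (nat_lit 20884296658) (nat_lit 152) (nat_lit 20789067163) (nat_lit 0) (nat_lit 8926755863) (nat_lit 8) (nat_lit 5) (nat_lit 10) (nat_lit 4) (nat_lit 8) (nat_lit 4) (nat_lit 387) (nat_lit 227) (nat_lit 166)) (XT.lf (nat_lit 0) (nat_lit 25028649439) (nat_lit 152) (nat_lit 13967909374) (nat_lit 0) (nat_lit 13002392434) (nat_lit 8) (nat_lit 5) (nat_lit 10) (nat_lit 4) (nat_lit 8) (nat_lit 4) (nat_lit 388) (nat_lit 227) (nat_lit 165))))) (XT.nd (nat_lit 234) (nat_lit 0) (nat_lit 0) (XT.nd (nat_lit 78) (nat_lit 76) (nat_lit 0) (XT.lf (nat_lit 0) (nat_lit 29269146907) (nat_lit 152) (nat_lit 6995276663) (nat_lit 0) (nat_lit 17176175134) (nat_lit 8) (nat_lit 5) (nat_lit 10) (nat_lit 4) (nat_lit 8) (nat_lit 4) (nat_lit 389) (nat_lit 227) (nat_lit 164)) (XT.nd (nat_lit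 78) (nat_lit 0) (nat_lit 0) (XT.lf (nat_lit 0) (nat_lit 137608803) (nat_lit 76) (nat_lit 33473208327) (nat_lit 76) (nat_lit 21315464936) (nat_lit 7) (nat_lit 4) (nat_lit 8) (nat_lit 5) (nat_lit 8) (nat_lit 4) (nat_lit 390) (nat_lit 227) (nat_lit 163)) (XT.lf (nat_lit 0) (nat_lit 7576771676) (nat_lit 76) (nat_lit 30549545196) (nat_lit 76) (nat_lit 18328916738) (nat_lit 7) (nat_lit 4) (nat_lit 8) (nat_lit 5) (nat_lit 8) (nat_lit 4) (nat_lit 391) (nat_lit 227) (nat_lit 162)))) (XT.nd (nat_lit 156) (nat_lit 0) (nat_lit 0) (XT.nd (nat_lit 78) (nat_lit 0) (nat_lit 0) (XT.lf (nat_lit 0) (nat_lit 15189492470) (nat_lit 76) (nat_lit 27561518098) (nat_lit 76) (nat_lit 15279836177) (nat_lit 7) (nat_lit 4) (nat_lit 8) (nat_lit 5) (nat_lit 8) (nat_lit 4) (nat_lit 392) (nat_lit 227) (nat_lit 161)) (XT.lf (nat_lit 0) (nat_lit 22982423079) (nat_lit 76) (nat_lit 24506516136) (nat_lit 76) (nat_lit 12165559008) (nat_lit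 7) (nat_lit 4) (nat_lit 8) (nat_lit 5) (nat_lit 8) (nat_lit 4) (nat_lit 393) (nat_lit 227) (nat_lit 160))) (XT.nd (nat_lit 78) (nat_lit 0) (nat_lit 0) (XT.lf (nat_lit 0) (nat_lit 30962372858) (nat_lit 76) (nat_lit 21381869890) (nat_lit 76) (nat_lit 8983364018) (nat_lit 7) (nat_lit 4) (nat_lit 8) (nat_lit 5) (nat_lit 8) (nat_lit 4) (nat_lit 394) (nat_lit 227) (nat_lit 159)) (XT.lf (nat_lit 0) (nat_lit 39136314581) (nat_lit 76) (nat_lit 18184849087) (nat_lit 76) (nat_lit 5730470648) (nat_lit 7) (nat_lit 4) (nat_lit 8) (nat_lit 5) (nat_lit 8) (nat_lit 4) (nat_lit 395) (nat_lit 227) (nat_lit 158))))))) (XT.nd (nat_lit 1092) (nat_lit 76) (nat_lit 0) (XT.nd (nat_lit 546) (nat_lit 0) (nat_lit 0) (XT.nd (nat_lit 234) (nat_lit 76) (nat_lit 0) (XT.nd (nat_lit 78) (nat_lit 76) (nat_lit 0) (XT.lf (nat_lit 0) (nat_lit 47511390525) (nat_lit 76) (nat_lit 14912660215) (nat_lit 76) (nat_lit 2404036564) (nat_lit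 7) (nat_lit 4) (nat_lit 8) (nat_lit 5) (nat_lit 8) (nat_lit 4) (nat_lit 396) (nat_lit 227) (nat_lit 157)) (XT.nd (nat_lit 78) (nat_lit 0) (nat_lit 0) (XT.lf (nat_lit 0) (nat_lit 979353765) (nat_lit 152) (nat_lit 10573200760) (nat_lit 76) (nat_lit 55105675400) (nat_lit 6) (nat_lit 5) (nat_lit 8) (nat_lit 5) (nat_lit 7) (nat_lit 4) (nat_lit 397) (nat_lit 227) (nat_lit 156)) (XT.lf (nat_lit 0) (nat_lit 4393703597) (nat_lit 152) (nat_lit 3693201915) (nat_lit 76) (nat_lit 60456327942) (nat_lit 6) (nat_lit 5) (nat_lit 8) (nat_lit 5) (nat_lit 7) (nat_lit 4) (nat_lit 398) (nat_lit 227) (nat_lit 155)))) (XT.nd (nat_lit 156) (nat_lit 0) (nat_lit 0) (XT.nd (nat_lit 78) (nat_lit 0) (nat_lit 0) (XT.lf (nat_lit 0) (nat_lit 3419140215) (nat_lit 76) (nat_lit 4502634408) (nat_lit 152) (nat_lit 62562677626) (nat_lit 5) (nat_lit 5) (nat_lit 6) (nat_lit 5) (nat_lit 7) (nat_lit 4) (nat_lit 399) (nat_lit 227) (nat_lit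 154)) (XT.lf (nat_lit 0) (nat_lit 10780182976) (nat_lit 76) (nat_lit 791463040) (nat_lit 152) (nat_lit 60911786611) (nat_lit 5) (nat_lit 5) (nat_lit 6) (nat_lit 5) (nat_lit 7) (nat_lit 4) (nat_lit 400) (nat_lit 227) (nat_lit 153))) (XT.nd (nat_lit 78) (nat_lit 0) (nat_lit 0) (XT.lf (nat_lit 0) (nat_lit 15339257667) (nat_lit 152) (nat_lit 56249109664) (nat_lit 0) (nat_lit 2953771421) (nat_lit 5) (nat_lit 5) (nat_lit 7) (nat_lit 4) (nat_lit 5) (nat_lit 4) (nat_lit 401) (nat_lit 227) (nat_lit 152)) (XT.lf (nat_lit 0) (nat_lit 19207450314) (nat_lit 152) (nat_lit 50677674969) (nat_lit 0) (nat_lit 6777857747) (nat_lit 5) (nat_lit 5) (nat_lit 7) (nat_lit 4) (nat_lit 5) (nat_lit 4) (nat_lit 402) (nat_lit 227) (nat_lit 151))))) (XT.nd (nat_lit 234) (nat_lit 0) (nat_lit 0) (XT.nd (nat_lit 78) (nat_lit 0) (nat_lit 0) (XT.lf (nat_lit 0) (nat_lit 23171995905) (nat_lit 152) (nat_lit 44976469297) (nat_lit 0) (nat_lit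 10699581668) (nat_lit 5) (nat_lit 5) (nat_lit 7) (nat_lit 4) (nat_lit 5) (nat_lit 4) (nat_lit 403) (nat_lit 227) (nat_lit 150)) (XT.nd (nat_lit 78) (nat_lit 0) (nat_lit 0) (XT.lf (nat_lit 0) (nat_lit 27236358606) (nat_lit 152) (nat_lit 39140511012) (nat_lit 0) (nat_lit 14722369932) (nat_lit 5) (nat_lit 5) (nat_lit 7) (nat_lit 4) (nat_lit 5) (nat_lit 4) (nat_lit 404) (nat_lit 227) (nat_lit 149)) (XT.lf (nat_lit 0) (nat_lit 31404089803) (nat_lit 152) (nat_lit 33164700732) (nat_lit 0) (nat_lit 18849737596) (nat_lit 5) (nat_lit 5) (nat_lit 7) (nat_lit 4) (nat_lit 5) (nat_lit 4) (nat_lit 405) (nat_lit 227) (nat_lit 148)))) (XT.nd (nat_lit 156) (nat_lit 0) (nat_lit 0) (XT.nd (nat_lit 78) (nat_lit 0) (nat_lit 0) (XT.lf (nat_lit 0) (nat_lit 35678831201) (nat_lit 152) (nat_lit 27043816877) (nat_lit 0) (nat_lit 23085291100) (nat_lit 5) (nat_lit 5) (nat_lit 7) (nat_lit 4) (nat_lit 5) (nat_lit 4) (nat_lit 406)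 (nat_lit 227) (nat_lit 147)) (XT.lf (nat_lit 0) (nat_lit 40064318012) (nat_lit 152) (nat_lit 20772511100) (nat_lit 0) (nat_lit 27432731411) (nat_lit 5) (nat_lit 5) (nat_lit 7) (nat_lit 4) (nat_lit 5) (nat_lit 4) (nat_lit 407) (nat_lit 227) (nat_lit 146))) (XT.nd (nat_lit 78) (nat_lit 0) (nat_lit 0) (XT.lf (nat_lit 0) (nat_lit 44564382214) (nat_lit 152) (nat_lit 14345303620) (nat_lit 0) (nat_lit 31895857264) (nat_lit 5) (nat_lit 5) (nat_lit 7) (nat_lit 4) (nat_lit 5) (nat_lit 4) (nat_lit 408) (nat_lit 227) (nat_lit 145)) (XT.lf (nat_lit 0) (nat_lit 49182955903) (nat_lit 152) (nat_lit 7756578430) (nat_lit 0) (nat_lit 36478568478) (nat_lit 5) (nat_lit 5) (nat_lit 7) (nat_lit 4) (nat_lit 5) (nat_lit 4) (nat_lit 409) (nat_lit 227) (nat_lit 144)))))) (XT.nd (nat_lit 34242) (nat_lit 0) (nat_lit 2660) (XT.nd (nat_lit 33930) (nat_lit 0) (nat_lit 3648) (XT.nd (nat_lit 78) (nat_lit 76) (nat_lit 0) (XT.lf (nat_lit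 0) (nat_lit 53924074725) (nat_lit 152) (nat_lit 1000578392) (nat_lit 0) (nat_lit 41184869364) (nat_lit 5) (nat_lit 5) (nat_lit 7) (nat_lit 4) (nat_lit 5) (nat_lit 4) (nat_lit 410) (nat_lit 227) (nat_lit 143)) (XT.nd (nat_lit 78) (nat_lit 0) (nat_lit 0) (XT.lf (nat_lit 0) (nat_lit 6046590554) (nat_lit 76) (nat_lit 52803414379) (nat_lit 76) (nat_lit 40030405196) (nat_lit 4) (nat_lit 4) (nat_lit 5) (nat_lit 5) (nat_lit 5) (nat_lit 4) (nat_lit 411) (nat_lit 227) (nat_lit 142)) (XT.lf (nat_lit 0) (nat_lit 13296472828) (nat_lit 76) (nat_lit 50621970371) (nat_lit 76) (nat_lit 37816141943) (nat_lit 4) (nat_lit 4) (nat_lit 5) (nat_lit 5) (nat_lit 5) (nat_lit 4) (nat_lit 412) (nat_lit 227) (nat_lit 141)))) (XT.nd (nat_lit 156) (nat_lit 228) (nat_lit 0) (XT.nd (nat_lit 78) (nat_lit 228) (nat_lit 0) (XT.lf (nat_lit 0) (nat_lit 2246781687) (nat_lit 228) (nat_lit 1404605129) (nat_lit 0) (nat_lit 2246781687) (nat_lit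 58) (nat_lit 5) (nat_lit 61) (nat_lit 4) (nat_lit 58) (nat_lit 4) (nat_lit 324) (nat_lit 228) (nat_lit 228)) (XT.lf (nat_lit 0) (nat_lit 5227158434) (nat_lit 228) (nat_lit 3692648049) (nat_lit 228) (nat_lit 3080278158) (nat_lit 55) (nat_lit 4) (nat_lit 58) (nat_lit 5) (nat_lit 58) (nat_lit 4) (nat_lit 325) (nat_lit 228) (nat_lit 227))) (XT.nd (nat_lit 78) (nat_lit 0) (nat_lit 0) (XT.lf (nat_lit 0) (nat_lit 1187862878) (nat_lit 228) (nat_lit 11007338785) (nat_lit 0) (nat_lit 16111650) (nat_lit 52) (nat_lit 5) (nat_lit 55) (nat_lit 4) (nat_lit 52) (nat_lit 4) (nat_lit 326) (nat_lit 228) (nat_lit 226)) (XT.lf (nat_lit 0) (nat_lit 5531804976) (nat_lit 228) (nat_lit 3096265480) (nat_lit 0) (nat_lit 3799648550) (nat_lit 52) (nat_lit 5) (nat_lit 55) (nat_lit 4) (nat_lit 52) (nat_lit 4) (nat_lit 327) (nat_lit 228) (nat_lit 225))))) (XT.nd (nat_lit 312) (nat_lit 380) (nat_lit 0) (XT.nd (nat_lit 156) (nat_lit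 152) (nat_lit 0) (XT.nd (nat_lit 78) (nat_lit 228) (nat_lit 0) (XT.lf (nat_lit 0) (nat_lit 4993540002) (nat_lit 228) (nat_lit 4967357425) (nat_lit 228) (nat_lit 2691118283) (nat_lit 49) (nat_lit 4) (nat_lit 52) (nat_lit 5) (nat_lit 52) (nat_lit 4) (nat_lit 328) (nat_lit 228) (nat_lit 224)) (XT.lf (nat_lit 0) (nat_lit 341597819) (nat_lit 152) (nat_lit 1208191643) (nat_lit 228) (nat_lit 11334561245) (nat_lit 46) (nat_lit 5) (nat_lit 48) (nat_lit 5) (nat_lit 49) (nat_lit 4) (nat_lit 329) (nat_lit 228) (nat_lit 223))) (XT.nd (nat_lit 78) (nat_lit 152) (nat_lit 0) (XT.lf (nat_lit 0) (nat_lit 5875259482) (nat_lit 228) (nat_lit 4592738635) (nat_lit 0) (nat_lit 2654555664) (nat_lit 46) (nat_lit 5) (nat_lit 49) (nat_lit 4) (nat_lit 46) (nat_lit 4) (nat_lit 330) (nat_lit 228) (nat_lit 222)) (XT.lf (nat_lit 0) (nat_lit 3499626671) (nat_lit 152) (nat_lit 6786874614) (nat_lit 152) (nat_lit 3082760350) (nat_lit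 44) (nat_lit 4) (nat_lit 46) (nat_lit 5) (nat_lit 46) (nat_lit 4) (nat_lit 331) (nat_lit 228) (nat_lit 221)))) (XT.nd (nat_lit 156) (nat_lit 152) (nat_lit 0) (XT.nd (nat_lit 78) (nat_lit 152) (nat_lit 0) (XT.lf (nat_lit 0) (nat_lit 1140649614) (nat_lit 228) (nat_lit 1857926077) (nat_lit 76) (nat_lit 10625759111) (nat_lit 43) (nat_lit 5) (nat_lit 46) (nat_lit 5) (nat_lit 44) (nat_lit 4) (nat_lit 332) (nat_lit 228) (nat_lit 220)) (XT.lf (nat_lit 0) (nat_lit 5411985377) (nat_lit 228) (nat_lit 7556991026) (nat_lit 0) (nat_lit 917708188) (nat_lit 41) (nat_lit 5) (nat_lit 44) (nat_lit 4) (nat_lit 41) (nat_lit 4) (nat_lit 333) (nat_lit 228) (nat_lit 219))) (XT.nd (nat_lit 78) (nat_lit 0) (nat_lit 0) (XT.lf (nat_lit 0) (nat_lit 475175861) (nat_lit 152) (nat_lit 9303267616) (nat_lit 152) (nat_lit 4379486507) (nat_lit 39) (nat_lit 4) (nat_lit 41) (nat_lit 5) (nat_lit 41) (nat_lit 4) (nat_lit 334) (nat_lit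 228) (nat_lit 218)) (XT.lf (nat_lit 0) (nat_lit 8755771203) (nat_lit 152) (nat_lit 5511307407) (nat_lit 152) (nat_lit 170532201) (nat_lit 39) (nat_lit 4) (nat_lit 41) (nat_lit 5) (nat_lit 41) (nat_lit 4) (nat_lit 335) (nat_lit 228) (nat_lit 217))))))))
noncomputable def xc35 : XT := (XT.nd (nat_lit 2184) (nat_lit 684) (nat_lit 0) (XT.nd (nat_lit 1092) (nat_lit 608) (nat_lit 0) (XT.nd (nat_lit 546) (nat_lit 456) (nat_lit 0) (XT.nd (nat_lit 234) (nat_lit 304) (nat_lit 0) (XT.nd (nat_lit 78) (nat_lit 152) (nat_lit 0) (XT.lf (nat_lit 0) (nat_lit 2421474172) (nat_lit 152) (nat_lit 1601726821) (nat_lit 228) (nat_lit 10703118356) (nat_lit 36) (nat_lit 5) (nat_lit 38) (nat_lit 5) (nat_lit 39) (nat_lit 4) (nat_lit 336) (nat_lit 228) (nat_lit 216)) (XT.nd (nat_lit 78) (nat_lit 152) (nat_lit 0) (XT.lf (nat_lit 0) (nat_lit 8337542895) (nat_lit 228) (nat_lit 4308520944) (nat_lit 0) (nat_lit 2377658646) (nat_lit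 36) (nat_lit 5) (nat_lit 39) (nat_lit 4) (nat_lit 36) (nat_lit 4) (nat_lit 337) (nat_lit 228) (nat_lit 215)) (XT.lf (nat_lit 0) (nat_lit 3845768330) (nat_lit 152) (nat_lit 8907760452) (nat_lit 152) (nat_lit 2577382349) (nat_lit 34) (nat_lit 4) (nat_lit 36) (nat_lit 5) (nat_lit 36) (nat_lit 4) (nat_lit 338) (nat_lit 228) (nat_lit 214)))) (XT.nd (nat_lit 156) (nat_lit 152) (nat_lit 0) (XT.nd (nat_lit 78) (nat_lit 76) (nat_lit 0) (XT.lf (nat_lit 0) (nat_lit 1585903828) (nat_lit 228) (nat_lit 3470696103) (nat_lit 76) (nat_lit 10591361034) (nat_lit 33) (nat_lit 5) (nat_lit 36) (nat_lit 5) (nat_lit 34) (nat_lit 4) (nat_lit 339) (nat_lit 228) (nat_lit 213)) (XT.lf (nat_lit 0) (nat_lit 4713401893) (nat_lit 76) (nat_lit 1076109810) (nat_lit 152) (nat_lit 10185255549) (nat_lit 32) (nat_lit 5) (nat_lit 33) (nat_lit 5) (nat_lit 34) (nat_lit 4) (nat_lit 340) (nat_lit 228) (nat_lit 212))) (XT.nd (nat_lit 78)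 (nat_lit 152) (nat_lit 0) (XT.lf (nat_lit 0) (nat_lit 10106009381) (nat_lit 152) (nat_lit 3263239523) (nat_lit 0) (nat_lit 2942551879) (nat_lit 32) (nat_lit 5) (nat_lit 34) (nat_lit 4) (nat_lit 32) (nat_lit 4) (nat_lit 341) (nat_lit 228) (nat_lit 211)) (XT.lf (nat_lit 0) (nat_lit 4926653712) (nat_lit 152) (nat_lit 9607944110) (nat_lit 152) (nat_lit 2124895353) (nat_lit 30) (nat_lit 4) (nat_lit 32) (nat_lit 5) (nat_lit 32) (nat_lit 4) (nat_lit 342) (nat_lit 228) (nat_lit 210))))) (XT.nd (nat_lit 234) (nat_lit 304) (nat_lit 0) (XT.nd (nat_lit 78) (nat_lit 76) (nat_lit 0) (XT.lf (nat_lit 0) (nat_lit 1995894172) (nat_lit 228) (nat_lit 3741666356) (nat_lit 76) (nat_lit 11280739963) (nat_lit 29) (nat_lit 5) (nat_lit 32) (nat_lit 5) (nat_lit 30) (nat_lit 4) (nat_lit 343) (nat_lit 228) (nat_lit 209)) (XT.nd (nat_lit 78) (nat_lit 0) (nat_lit 0) (XT.lf (nat_lit 0) (nat_lit 4424571672) (nat_lit 76) (nat_lit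 1742496607) (nat_lit 152) (nat_lit 11221112062) (nat_lit 28) (nat_lit 5) (nat_lit 29) (nat_lit 5) (nat_lit 30) (nat_lit 4) (nat_lit 344) (nat_lit 228) (nat_lit 208)) (XT.lf (nat_lit 0) (nat_lit 10451625406) (nat_lit 152) (nat_lit 5009046447) (nat_lit 0) (nat_lit 2308860158) (nat_lit 28) (nat_lit 5) (nat_lit 30) (nat_lit 4) (nat_lit 28) (nat_lit 4) (nat_lit 345) (nat_lit 228) (nat_lit 207)))) (XT.nd (nat_lit 156) (nat_lit 76) (nat_lit 0) (XT.nd (nat_lit 78) (nat_lit 76) (nat_lit 0) (XT.lf (nat_lit 0) (nat_lit 3100864119) (nat_lit 152) (nat_lit 11740317947) (nat_lit 152) (nat_lit 3321870476) (nat_lit 26) (nat_lit 4) (nat_lit 28) (nat_lit 5) (nat_lit 28) (nat_lit 4) (nat_lit 346) (nat_lit 228) (nat_lit 206)) (XT.lf (nat_lit 0) (nat_lit 759177400) (nat_lit 228) (nat_lit 7144969991) (nat_lit 76) (nat_lit 10664604471) (nat_lit 25) (nat_lit 5) (nat_lit 28) (nat_lit 5) (nat_lit 26) (nat_lit 4) (nat_lit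 347) (nat_lit 228) (nat_lit 205))) (XT.nd (nat_lit 78) (nat_lit 0) (nat_lit 0) (XT.lf (nat_lit 0) (nat_lit 870831723) (nat_lit 76) (nat_lit 3965024814) (nat_lit 152) (nat_lit 14151600257) (nat_lit 24) (nat_lit 5) (nat_lit 25) (nat_lit 5) (nat_lit 26) (nat_lit 4) (nat_lit 348) (nat_lit 228) (nat_lit 204)) (XT.lf (nat_lit 0) (nat_lit 9040482546) (nat_lit 152) (nat_lit 10267943387) (nat_lit 0) (nat_lit 110147267) (nat_lit 24) (nat_lit 5) (nat_lit 26) (nat_lit 4) (nat_lit 24) (nat_lit 4) (nat_lit 349) (nat_lit 228) (nat_lit 203)))))) (XT.nd (nat_lit 546) (nat_lit 228) (nat_lit 0) (XT.nd (nat_lit 234) (nat_lit 152) (nat_lit 0) (XT.nd (nat_lit 78) (nat_lit 228) (nat_lit 0) (XT.lf (nat_lit 0) (nat_lit 13344383626) (nat_lit 152) (nat_lit 2342822088) (nat_lit 0) (nat_lit 4176242440) (nat_lit 24) (nat_lit 5) (nat_lit 26) (nat_lit 4) (nat_lit 24) (nat_lit 4) (nat_lit 350) (nat_lit 228) (nat_lit 202)) (XT.nd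 (nat_lit 78) (nat_lit 76) (nat_lit 0) (XT.lf (nat_lit 0) (nat_lit 5817294297) (nat_lit 152) (nat_lit 11951831319) (nat_lit 152) (nat_lit 2552810612) (nat_lit 22) (nat_lit 4) (nat_lit 24) (nat_lit 5) (nat_lit 24) (nat_lit 4) (nat_lit 351) (nat_lit 228) (nat_lit 201)) (XT.lf (nat_lit 0) (nat_lit 1462341593) (nat_lit 228) (nat_lit 6654622146) (nat_lit 76) (nat_lit 12677996386) (nat_lit 21) (nat_lit 5) (nat_lit 24) (nat_lit 5) (nat_lit 22) (nat_lit 4) (nat_lit 352) (nat_lit 228) (nat_lit 200)))) (XT.nd (nat_lit 156) (nat_lit 76) (nat_lit 0) (XT.nd (nat_lit 78) (nat_lit 0) (nat_lit 0) (XT.lf (nat_lit 0) (nat_lit 1318311208) (nat_lit 76) (nat_lit 4178788733) (nat_lit 152) (nat_lit 15785819734) (nat_lit 20) (nat_lit 5) (nat_lit 21) (nat_lit 5) (nat_lit 22) (nat_lit 4) (nat_lit 353) (nat_lit 228) (nat_lit 199)) (XT.lf (nat_lit 0) (nat_lit 9554917327) (nat_lit 76) (nat_lit 103706549) (nat_lit 152) (nat_lit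 12126738964) (nat_lit 20) (nat_lit 5) (nat_lit 21) (nat_lit 5) (nat_lit 22) (nat_lit 4) (nat_lit 354) (nat_lit 228) (nat_lit 198))) (XT.nd (nat_lit 78) (nat_lit 76) (nat_lit 0) (XT.lf (nat_lit 0) (nat_lit 13924187888) (nat_lit 152) (nat_lit 4413612279) (nat_lit 0) (nat_lit 3965719337) (nat_lit 20) (nat_lit 5) (nat_lit 22) (nat_lit 4) (nat_lit 20) (nat_lit 4) (nat_lit 355) (nat_lit 228) (nat_lit 197)) (XT.lf (nat_lit 0) (nat_lit 3600150921) (nat_lit 76) (nat_lit 14694797569) (nat_lit 76) (nat_lit 4542971053) (nat_lit 19) (nat_lit 4) (nat_lit 20) (nat_lit 5) (nat_lit 20) (nat_lit 4) (nat_lit 356) (nat_lit 228) (nat_lit 196))))) (XT.nd (nat_lit 234) (nat_lit 76) (nat_lit 0) (XT.nd (nat_lit 78) (nat_lit 152) (nat_lit 0) (XT.lf (nat_lit 0) (nat_lit 11839048658) (nat_lit 76) (nat_lit 10944632627) (nat_lit 76) (nat_lit 605079932) (nat_lit 19) (nat_lit 4) (nat_lit 20) (nat_lit 5) (nat_lit 20) (nat_lit 4)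 (nat_lit 357) (nat_lit 228) (nat_lit 195)) (XT.nd (nat_lit 78) (nat_lit 76) (nat_lit 0) (XT.lf (nat_lit 0) (nat_lit 3326999970) (nat_lit 152) (nat_lit 3768001181) (nat_lit 76) (nat_lit 16861844283) (nat_lit 18) (nat_lit 5) (nat_lit 20) (nat_lit 5) (nat_lit 19) (nat_lit 4) (nat_lit 358) (nat_lit 228) (nat_lit 194)) (XT.lf (nat_lit 0) (nat_lit 4222782296) (nat_lit 76) (nat_lit 3127731667) (nat_lit 152) (nat_lit 17191723322) (nat_lit 17) (nat_lit 5) (nat_lit 18) (nat_lit 5) (nat_lit 19) (nat_lit 4) (nat_lit 359) (nat_lit 228) (nat_lit 193)))) (XT.nd (nat_lit 156) (nat_lit 76) (nat_lit 0) (XT.nd (nat_lit 78) (nat_lit 0) (nat_lit 0) (XT.lf (nat_lit 0) (nat_lit 11487619146) (nat_lit 152) (nat_lit 12724118383) (nat_lit 0) (nat_lit 933680217) (nat_lit 17) (nat_lit 5) (nat_lit 19) (nat_lit 4) (nat_lit 17) (nat_lit 4) (nat_lit 360) (nat_lit 228) (nat_lit 192)) (XT.lf (nat_lit 0) (nat_lit 15726645312) (nat_lit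 152) (nat_lit 5029954979) (nat_lit 0) (nat_lit 5010772132) (nat_lit 17) (nat_lit 5) (nat_lit 19) (nat_lit 4) (nat_lit 17) (nat_lit 4) (nat_lit 361) (nat_lit 228) (nat_lit 191))) (XT.nd (nat_lit 78) (nat_lit 0) (nat_lit 0) (XT.lf (nat_lit 0) (nat_lit 2855545933) (nat_lit 76) (nat_lit 17213134115) (nat_lit 76) (nat_lit 6340043216) (nat_lit 16) (nat_lit 4) (nat_lit 17) (nat_lit 5) (nat_lit 17) (nat_lit 4) (nat_lit 362) (nat_lit 228) (nat_lit 190)) (XT.lf (nat_lit 0) (nat_lit 10986445066) (nat_lit 76) (nat_lit 13554308984) (nat_lit 76) (nat_lit 2528579522) (nat_lit 16) (nat_lit 4) (nat_lit 17) (nat_lit 5) (nat_lit 17) (nat_lit 4) (nat_lit 363) (nat_lit 228) (nat_lit 189))))))) (XT.nd (nat_lit 1092) (nat_lit 304) (nat_lit 0) (XT.nd (nat_lit 546) (nat_lit 152) (nat_lit 0) (XT.nd (nat_lit 234) (nat_lit 76) (nat_lit 0) (XT.nd (nat_lit 78) (nat_lit 76) (nat_lit 0) (XT.lf (nat_lit 0) (nat_lit 1319932447)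 (nat_lit 152) (nat_lit 8494459373) (nat_lit 76) (nat_lit 17936479944) (nat_lit 15) (nat_lit 5) (nat_lit 17) (nat_lit 5) (nat_lit 16) (nat_lit 4) (nat_lit 364) (nat_lit 228) (nat_lit 188)) (XT.nd (nat_lit 78) (nat_lit 76) (nat_lit 0) (XT.lf (nat_lit 0) (nat_lit 5184504354) (nat_lit 152) (nat_lit 793254887) (nat_lit 76) (nat_lit 22475814247) (nat_lit 15) (nat_lit 5) (nat_lit 17) (nat_lit 5) (nat_lit 16) (nat_lit 4) (nat_lit 365) (nat_lit 228) (nat_lit 187)) (XT.lf (nat_lit 0) (nat_lit 7192104270) (nat_lit 76) (nat_lit 1994885337) (nat_lit 152) (nat_lit 19989718288) (nat_lit 14) (nat_lit 5) (nat_lit 15) (nat_lit 5) (nat_lit 16) (nat_lit 4) (nat_lit 366) (nat_lit 228) (nat_lit 186)))) (XT.nd (nat_lit 156) (nat_lit 76) (nat_lit 0) (XT.nd (nat_lit 78) (nat_lit 0) (nat_lit 0) (XT.lf (nat_lit 0) (nat_lit 13290899834) (nat_lit 152) (nat_lit 14595745609) (nat_lit 0) (nat_lit 2035460980) (nat_lit 14) (nat_lit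 5) (nat_lit 16) (nat_lit 4) (nat_lit 14) (nat_lit 4) (nat_lit 367) (nat_lit 228) (nat_lit 185)) (XT.lf (nat_lit 0) (nat_lit 17492050016) (nat_lit 152) (nat_lit 7089824733) (nat_lit 0) (nat_lit 6108778769) (nat_lit 14) (nat_lit 5) (nat_lit 16) (nat_lit 4) (nat_lit 14) (nat_lit 4) (nat_lit 368) (nat_lit 228) (nat_lit 184))) (XT.nd (nat_lit 78) (nat_lit 0) (nat_lit 0) (XT.lf (nat_lit 0) (nat_lit 570016712) (nat_lit 76) (nat_lit 21210397642) (nat_lit 76) (nat_lit 9703017275) (nat_lit 13) (nat_lit 4) (nat_lit 14) (nat_lit 5) (nat_lit 14) (nat_lit 4) (nat_lit 369) (nat_lit 228) (nat_lit 183)) (XT.lf (nat_lit 0) (nat_lit 8523415368) (nat_lit 76) (nat_lit 17701814039) (nat_lit 76) (nat_lit 6073939382) (nat_lit 13) (nat_lit 4) (nat_lit 14) (nat_lit 5) (nat_lit 14) (nat_lit 4) (nat_lit 370) (nat_lit 228) (nat_lit 182))))) (XT.nd (nat_lit 234) (nat_lit 76) (nat_lit 0) (XT.nd (nat_lit 78) (nat_lit 76) (nat_lit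 0) (XT.lf (nat_lit 0) (nat_lit 16636219395) (nat_lit 76) (nat_lit 14124651518) (nat_lit 76) (nat_lit 2379792112) (nat_lit 13) (nat_lit 4) (nat_lit 14) (nat_lit 5) (nat_lit 14) (nat_lit 4) (nat_lit 371) (nat_lit 228) (nat_lit 181)) (XT.nd (nat_lit 78) (nat_lit 0) (nat_lit 0) (XT.lf (nat_lit 0) (nat_lit 1355671901) (nat_lit 152) (nat_lit 9106422870) (nat_lit 76) (nat_lit 23546156118) (nat_lit 12) (nat_lit 5) (nat_lit 14) (nat_lit 5) (nat_lit 13) (nat_lit 4) (nat_lit 372) (nat_lit 228) (nat_lit 180)) (XT.lf (nat_lit 0) (nat_lit 5114885567) (nat_lit 152) (nat_lit 1585488475) (nat_lit 76) (nat_lit 28202008585) (nat_lit 12) (nat_lit 5) (nat_lit 14) (nat_lit 5) (nat_lit 13) (nat_lit 4) (nat_lit 373) (nat_lit 228) (nat_lit 179)))) (XT.nd (nat_lit 156) (nat_lit 0) (nat_lit 0) (XT.nd (nat_lit 78) (nat_lit 0) (nat_lit 0) (XT.lf (nat_lit 0) (nat_lit 6208966566) (nat_lit 76) (nat_lit 2798289768) (nat_lit 152)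 (nat_lit 26815478928) (nat_lit 11) (nat_lit 5) (nat_lit 12) (nat_lit 5) (nat_lit 13) (nat_lit 4) (nat_lit 374) (nat_lit 228) (nat_lit 178)) (XT.lf (nat_lit 0) (nat_lit 13005122519) (nat_lit 152) (nat_lit 22585754423) (nat_lit 0) (nat_lit 1180167929) (nat_lit 11) (nat_lit 5) (nat_lit 13) (nat_lit 4) (nat_lit 11) (nat_lit 4) (nat_lit 375) (nat_lit 228) (nat_lit 177))) (XT.nd (nat_lit 78) (nat_lit 0) (nat_lit 0) (XT.lf (nat_lit 0) (nat_lit 17112591525) (nat_lit 152) (nat_lit 15445866077) (nat_lit 0) (nat_lit 5189664051) (nat_lit 11) (nat_lit 5) (nat_lit 13) (nat_lit 4) (nat_lit 11) (nat_lit 4) (nat_lit 376) (nat_lit 228) (nat_lit 176)) (XT.lf (nat_lit 0) (nat_lit 21306353531) (nat_lit 152) (nat_lit 8160966046) (nat_lit 0) (nat_lit 9288306750) (nat_lit 11) (nat_lit 5) (nat_lit 13) (nat_lit 4) (nat_lit 11) (nat_lit 4) (nat_lit 377) (nat_lit 228) (nat_lit 175)))))) (XT.nd (nat_lit 546) (nat_lit 76) (nat_lit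 0) (XT.nd (nat_lit 234) (nat_lit 152) (nat_lit 0) (XT.nd (nat_lit 78) (nat_lit 76) (nat_lit 0) (XT.lf (nat_lit 0) (nat_lit 25590072987) (nat_lit 152) (nat_lit 724688885) (nat_lit 0) (nat_lit 13479677366) (nat_lit 11) (nat_lit 5) (nat_lit 13) (nat_lit 4) (nat_lit 11) (nat_lit 4) (nat_lit 378) (nat_lit 228) (nat_lit 174)) (XT.nd (nat_lit 78) (nat_lit 0) (nat_lit 0) (XT.lf (nat_lit 0) (nat_lit 7006178909) (nat_lit 76) (nat_lit 23028661719) (nat_lit 76) (nat_lit 10828607029) (nat_lit 10) (nat_lit 4) (nat_lit 11) (nat_lit 5) (nat_lit 11) (nat_lit 4) (nat_lit 379) (nat_lit 228) (nat_lit 173)) (XT.lf (nat_lit 0) (nat_lit 14919254030) (nat_lit 76) (nat_lit 19666597317) (nat_lit 76) (nat_lit 7379494988) (nat_lit 10) (nat_lit 4) (nat_lit 11) (nat_lit 5) (nat_lit 11) (nat_lit 4) (nat_lit 380) (nat_lit 228) (nat_lit 172)))) (XT.nd (nat_lit 156) (nat_lit 152) (nat_lit 0) (XT.nd (nat_lit 78) (nat_lit 0) (nat_lit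 0) (XT.lf (nat_lit 0) (nat_lit 23007028086) (nat_lit 76) (nat_lit 16232948877) (nat_lit 76) (nat_lit 3861334277) (nat_lit 10) (nat_lit 4) (nat_lit 11) (nat_lit 5) (nat_lit 11) (nat_lit 4) (nat_lit 381) (nat_lit 228) (nat_lit 171)) (XT.lf (nat_lit 0) (nat_lit 31276568064) (nat_lit 76) (nat_lit 12724716124) (nat_lit 76) (nat_lit 271050775) (nat_lit 10) (nat_lit 4) (nat_lit 11) (nat_lit 5) (nat_lit 11) (nat_lit 4) (nat_lit 382) (nat_lit 228) (nat_lit 170))) (XT.nd (nat_lit 78) (nat_lit 76) (nat_lit 0) (XT.lf (nat_lit 0) (nat_lit 3328253880) (nat_lit 152) (nat_lit 5776970894) (nat_lit 76) (nat_lit 36373237056) (nat_lit 9) (nat_lit 5) (nat_lit 11) (nat_lit 5) (nat_lit 10) (nat_lit 4) (nat_lit 383) (nat_lit 228) (nat_lit 169)) (XT.lf (nat_lit 0) (nat_lit 1629508847) (nat_lit 76) (nat_lit 5385356087) (nat_lit 152) (nat_lit 39706289849) (nat_lit 8) (nat_lit 5) (nat_lit 9) (nat_lit 5) (nat_lit 10) (nat_lit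 4) (nat_lit 384) (nat_lit 228) (nat_lit 168))))) (XT.nd (nat_lit 312) (nat_lit 76) (nat_lit 0) (XT.nd (nat_lit 156) (nat_lit 0) (nat_lit 0) (XT.nd (nat_lit 78) (nat_lit 0) (nat_lit 0) (XT.lf (nat_lit 0) (nat_lit 9319179731) (nat_lit 76) (nat_lit 1520689608) (nat_lit 152) (nat_lit 37160431206) (nat_lit 8) (nat_lit 5) (nat_lit 9) (nat_lit 5) (nat_lit 10) (nat_lit 4) (nat_lit 385) (nat_lit 228) (nat_lit 167)) (XT.lf (nat_lit 0) (nat_lit 14773367685) (nat_lit 152) (nat_lit 32158323408) (nat_lit 0) (nat_lit 2386322970) (nat_lit 8) (nat_lit 5) (nat_lit 10) (nat_lit 4) (nat_lit 8) (nat_lit 4) (nat_lit 386) (nat_lit 228) (nat_lit 166))) (XT.nd (nat_lit 78) (nat_lit 0) (nat_lit 0) (XT.lf (nat_lit 0) (nat_lit 18810895840) (nat_lit 152) (nat_lit 25509653019) (nat_lit 0) (nat_lit 6355134914) (nat_lit 8) (nat_lit 5) (nat_lit 10) (nat_lit 4) (nat_lit 8) (nat_lit 4) (nat_lit 387) (nat_lit 228) (nat_lit 165)) (XT.lf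 (nat_lit 0) (nat_lit 22941363943) (nat_lit 152) (nat_lit 18714682330) (nat_lit 0) (nat_lit 10418888250) (nat_lit 8) (nat_lit 5) (nat_lit 10) (nat_lit 4) (nat_lit 8) (nat_lit 4) (nat_lit 388) (nat_lit 228) (nat_lit 164)))) (XT.nd (nat_lit 156) (nat_lit 76) (nat_lit 0) (XT.nd (nat_lit 78) (nat_lit 0) (nat_lit 0) (XT.lf (nat_lit 0) (nat_lit 27168381141) (nat_lit 152) (nat_lit 11767473987) (nat_lit 0) (nat_lit 14581133829) (nat_lit 8) (nat_lit 5) (nat_lit 10) (nat_lit 4) (nat_lit 8) (nat_lit 4) (nat_lit 389) (nat_lit 228) (nat_lit 163)) (XT.lf (nat_lit 0) (nat_lit 31495640945) (nat_lit 152) (nat_lit 4661957616) (nat_lit 0) (nat_lit 18845508566) (nat_lit 8) (nat_lit 5) (nat_lit 10) (nat_lit 4) (nat_lit 8) (nat_lit 4) (nat_lit 390) (nat_lit 228) (nat_lit 162))) (XT.nd (nat_lit 78) (nat_lit 0) (nat_lit 0) (XT.lf (nat_lit 0) (nat_lit 2659981304) (nat_lit 76) (nat_lit 33292512517) (nat_lit 76) (nat_lit 20581326675)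 (nat_lit 7) (nat_lit 4) (nat_lit 8) (nat_lit 5) (nat_lit 8) (nat_lit 4) (nat_lit 391) (nat_lit 228) (nat_lit 161)) (XT.lf (nat_lit 0) (nat_lit 10248972143) (nat_lit 76) (nat_lit 30315650911) (nat_lit 76) (nat_lit 17545189862) (nat_lit 7) (nat_lit 4) (nat_lit 8) (nat_lit 5) (nat_lit 8) (nat_lit 4) (nat_lit 392) (nat_lit 228) (nat_lit 160))))))))
noncomputable def xc36 : XT := (XT.nd (nat_lit 35724) (nat_lit 0) (nat_lit 1064) (XT.nd (nat_lit 1092) (nat_lit 76) (nat_lit 0) (XT.nd (nat_lit 546) (nat_lit 76) (nat_lit 0) (XT.nd (nat_lit 234) (nat_lit 76) (nat_lit 0) (XT.nd (nat_lit 78) (nat_lit 0) (nat_lit 0) (XT.lf (nat_lit 0) (nat_lit 18018863960) (nat_lit 76) (nat_lit 27271489232) (nat_lit 76) (nat_lit 14443479439) (nat_lit 7) (nat_lit 4) (nat_lit 8) (nat_lit 5) (nat_lit 8) (nat_lit 4) (nat_lit 393) (nat_lit 228) (nat_lit 159)) (XT.nd (nat_lit 78) (nat_lit 0) (nat_lit 0) (XT.lf (nat_lit 0) (nat_lit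 25976445980) (nat_lit 76) (nat_lit 24157367533) (nat_lit 76) (nat_lit 11273485173) (nat_lit 7) (nat_lit 4) (nat_lit 8) (nat_lit 5) (nat_lit 8) (nat_lit 4) (nat_lit 394) (nat_lit 228) (nat_lit 158)) (XT.lf (nat_lit 0) (nat_lit 34128671432) (nat_lit 76) (nat_lit 20970564738) (nat_lit 76) (nat_lit 8032437166) (nat_lit 7) (nat_lit 4) (nat_lit 8) (nat_lit 5) (nat_lit 8) (nat_lit 4) (nat_lit 395) (nat_lit 228) (nat_lit 157)))) (XT.nd (nat_lit 156) (nat_lit 76) (nat_lit 0) (XT.nd (nat_lit 78) (nat_lit 0) (nat_lit 0) (XT.lf (nat_lit 0) (nat_lit 42482663618) (nat_lit 76) (nat_lit 17708296260) (nat_lit 76) (nat_lit 4717503435) (nat_lit 7) (nat_lit 4) (nat_lit 8) (nat_lit 5) (nat_lit 8) (nat_lit 4) (nat_lit 396) (nat_lit 228) (nat_lit 156)) (XT.lf (nat_lit 0) (nat_lit 51045722143) (nat_lit 76) (nat_lit 14367711575) (nat_lit 76) (nat_lit 1325787436) (nat_lit 7) (nat_lit 4) (nat_lit 8) (nat_lit 5) (nat_lit 8)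 (nat_lit 4) (nat_lit 397) (nat_lit 228) (nat_lit 155))) (XT.nd (nat_lit 78) (nat_lit 0) (nat_lit 0) (XT.lf (nat_lit 0) (nat_lit 2103804629) (nat_lit 152) (nat_lit 8820842793) (nat_lit 76) (nat_lit 57700280361) (nat_lit 6) (nat_lit 5) (nat_lit 8) (nat_lit 5) (nat_lit 7) (nat_lit 4) (nat_lit 398) (nat_lit 228) (nat_lit 154)) (XT.lf (nat_lit 0) (nat_lit 5588689706) (nat_lit 152) (nat_lit 1794722255) (nat_lit 76) (nat_lit 63184032051) (nat_lit 6) (nat_lit 5) (nat_lit 8) (nat_lit 5) (nat_lit 7) (nat_lit 4) (nat_lit 399) (nat_lit 228) (nat_lit 153))))) (XT.nd (nat_lit 234) (nat_lit 0) (nat_lit 0) (XT.nd (nat_lit 78) (nat_lit 0) (nat_lit 0) (XT.lf (nat_lit 0) (nat_lit 5511291357) (nat_lit 76) (nat_lit 3699470273) (nat_lit 152) (nat_lit 63356498545) (nat_lit 5) (nat_lit 5) (nat_lit 6) (nat_lit 5) (nat_lit 7) (nat_lit 4) (nat_lit 400) (nat_lit 228) (nat_lit 152)) (XT.nd (nat_lit 78) (nat_lit 0) (nat_lit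 0) (XT.lf (nat_lit 0) (nat_lit 12940427806) (nat_lit 152) (nat_lit 61592837467) (nat_lit 0) (nat_lit 93841141) (nat_lit 5) (nat_lit 5) (nat_lit 7) (nat_lit 4) (nat_lit 5) (nat_lit 4) (nat_lit 401) (nat_lit 228) (nat_lit 151)) (XT.lf (nat_lit 0) (nat_lit 16798919549) (nat_lit 152) (nat_lit 56039812656) (nat_lit 0) (nat_lit 3909511214) (nat_lit 5) (nat_lit 5) (nat_lit 7) (nat_lit 4) (nat_lit 5) (nat_lit 4) (nat_lit 402) (nat_lit 228) (nat_lit 150)))) (XT.nd (nat_lit 156) (nat_lit 0) (nat_lit 0) (XT.nd (nat_lit 78) (nat_lit 0) (nat_lit 0) (XT.lf (nat_lit 0) (nat_lit 20754046786) (nat_lit 152) (nat_lit 50356480657) (nat_lit 0) (nat_lit 7823064014) (nat_lit 5) (nat_lit 5) (nat_lit 7) (nat_lit 4) (nat_lit 5) (nat_lit 4) (nat_lit 403) (nat_lit 228) (nat_lit 149)) (XT.lf (nat_lit 0) (nat_lit 24809265455) (nat_lit 152) (nat_lit 44537875453) (nat_lit 0) (nat_lit 11837919151) (nat_lit 5) (nat_lit 5) (nat_lit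 7) (nat_lit 4) (nat_lit 5) (nat_lit 4) (nat_lit 404) (nat_lit 228) (nat_lit 148))) (XT.nd (nat_lit 78) (nat_lit 0) (nat_lit 0) (XT.lf (nat_lit 0) (nat_lit 28968118950) (nat_lit 152) (nat_lit 38578912824) (nat_lit 0) (nat_lit 15957584751) (nat_lit 5) (nat_lit 5) (nat_lit 7) (nat_lit 4) (nat_lit 5) (nat_lit 4) (nat_lit 405) (nat_lit 228) (nat_lit 147)) (XT.lf (nat_lit 0) (nat_lit 33234241220) (nat_lit 152) (nat_lit 32474385912) (nat_lit 0) (nat_lit 20185660522) (nat_lit 5) (nat_lit 5) (nat_lit 7) (nat_lit 4) (nat_lit 5) (nat_lit 4) (nat_lit 406) (nat_lit 228) (nat_lit 146)))))) (XT.nd (nat_lit 34086) (nat_lit 0) (nat_lit 3344) (XT.nd (nat_lit 234) (nat_lit 76) (nat_lit 0) (XT.nd (nat_lit 78) (nat_lit 0) (nat_lit 0) (XT.lf (nat_lit 0) (nat_lit 37611359946) (nat_lit 152) (nat_lit 26218960662) (nat_lit 0) (nat_lit 24525840899) (nat_lit 5) (nat_lit 5) (nat_lit 7) (nat_lit 4) (nat_lit 5) (nat_lit 4) (nat_lit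 407) (nat_lit 228) (nat_lit 145)) (XT.nd (nat_lit 78) (nat_lit 0) (nat_lit 0) (XT.lf (nat_lit 0) (nat_lit 42103299794) (nat_lit 152) (nat_lit 19807171169) (nat_lit 0) (nat_lit 28981918272) (nat_lit 5) (nat_lit 5) (nat_lit 7) (nat_lit 4) (nat_lit 5) (nat_lit 4) (nat_lit 408) (nat_lit 228) (nat_lit 144)) (XT.lf (nat_lit 0) (nat_lit 46713985760) (nat_lit 152) (nat_lit 13233414900) (nat_lit 0) (nat_lit 33557786301) (nat_lit 5) (nat_lit 5) (nat_lit 7) (nat_lit 4) (nat_lit 5) (nat_lit 4) (nat_lit 409) (nat_lit 228) (nat_lit 143)))) (XT.nd (nat_lit 156) (nat_lit 0) (nat_lit 0) (XT.nd (nat_lit 78) (nat_lit 76) (nat_lit 0) (XT.lf (nat_lit 0) (nat_lit 51447446599) (nat_lit 152) (nat_lit 6491947794) (nat_lit 0) (nat_lit 38257443318) (nat_lit 5) (nat_lit 5) (nat_lit 7) (nat_lit 4) (nat_lit 5) (nat_lit 4) (nat_lit 410) (nat_lit 228) (nat_lit 142)) (XT.lf (nat_lit 0) (nat_lit 431541681) (nat_lit 76) (nat_lit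 55880424905) (nat_lit 76) (nat_lit 42657602379) (nat_lit 4) (nat_lit 4) (nat_lit 5) (nat_lit 5) (nat_lit 5) (nat_lit 4) (nat_lit 411) (nat_lit 228) (nat_lit 141))) (XT.nd (nat_lit 33618) (nat_lit 0) (nat_lit 4332) (XT.lf (nat_lit 0) (nat_lit 7667452642) (nat_lit 76) (nat_lit 53705599526) (nat_lit 76) (nat_lit 40450913656) (nat_lit 4) (nat_lit 4) (nat_lit 5) (nat_lit 5) (nat_lit 5) (nat_lit 4) (nat_lit 412) (nat_lit 228) (nat_lit 140)) (XT.lf (nat_lit 0) (nat_lit 2255146318) (nat_lit 228) (nat_lit 1724093847) (nat_lit 228) (nat_lit 1724093847) (nat_lit 61) (nat_lit 4) (nat_lit 64) (nat_lit 5) (nat_lit 64) (nat_lit 4) (nat_lit 322) (nat_lit 229) (nat_lit 229))))) (XT.nd (nat_lit 234) (nat_lit 532) (nat_lit 0) (XT.nd (nat_lit 78) (nat_lit 228) (nat_lit 0) (XT.lf (nat_lit 0) (nat_lit 781627239) (nat_lit 228) (nat_lit 10667418755) (nat_lit 0) (nat_lit 150886252) (nat_lit 58) (nat_lit 5) (nat_lit 61)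 (nat_lit 4) (nat_lit 58) (nat_lit 4) (nat_lit 323) (nat_lit 229) (nat_lit 228)) (XT.nd (nat_lit 78) (nat_lit 228) (nat_lit 0) (XT.lf (nat_lit 0) (nat_lit 5076540336) (nat_lit 228) (nat_lit 2887824419) (nat_lit 0) (nat_lit 3833429458) (nat_lit 58) (nat_lit 5) (nat_lit 61) (nat_lit 4) (nat_lit 58) (nat_lit 4) (nat_lit 324) (nat_lit 229) (nat_lit 227)) (XT.lf (nat_lit 0) (nat_lit 5069136265) (nat_lit 228) (nat_lit 4385755334) (nat_lit 228) (nat_lit 2548110582) (nat_lit 55) (nat_lit 4) (nat_lit 58) (nat_lit 5) (nat_lit 58) (nat_lit 4) (nat_lit 325) (nat_lit 229) (nat_lit 226)))) (XT.nd (nat_lit 156) (nat_lit 304) (nat_lit 0) (XT.nd (nat_lit 78) (nat_lit 0) (nat_lit 0) (XT.lf (nat_lit 0) (nat_lit 956735982) (nat_lit 152) (nat_lit 704149775) (nat_lit 228) (nat_lit 10554676661) (nat_lit 52) (nat_lit 5) (nat_lit 54) (nat_lit 5) (nat_lit 55) (nat_lit 4) (nat_lit 326) (nat_lit 229) (nat_lit 225)) (XT.lf (nat_lit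 0) (nat_lit 5952163142) (nat_lit 228) (nat_lit 3417852380) (nat_lit 0) (nat_lit 3063554109) (nat_lit 52) (nat_lit 5) (nat_lit 55) (nat_lit 4) (nat_lit 52) (nat_lit 4) (nat_lit 327) (nat_lit 229) (nat_lit 224))) (XT.nd (nat_lit 78) (nat_lit 76) (nat_lit 0) (XT.lf (nat_lit 0) (nat_lit 4589438534) (nat_lit 228) (nat_lit 5743373371) (nat_lit 228) (nat_lit 2326528690) (nat_lit 49) (nat_lit 4) (nat_lit 52) (nat_lit 5) (nat_lit 52) (nat_lit 4) (nat_lit 328) (nat_lit 229) (nat_lit 223)) (XT.lf (nat_lit 0) (nat_lit 1859553921) (nat_lit 304) (nat_lit 154800363) (nat_lit 76) (nat_lit 10878667235) (nat_lit 48) (nat_lit 5) (nat_lit 52) (nat_lit 5) (nat_lit 49) (nat_lit 4) (nat_lit 329) (nat_lit 229) (nat_lit 222))))))) (XT.nd (nat_lit 1092) (nat_lit 836) (nat_lit 0) (XT.nd (nat_lit 546) (nat_lit 532) (nat_lit 0) (XT.nd (nat_lit 234) (nat_lit 532) (nat_lit 0) (XT.nd (nat_lit 78) (nat_lit 228) (nat_lit 0) (XT.lf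 (nat_lit 0) (nat_lit 6131606387) (nat_lit 228) (nat_lit 5168281655) (nat_lit 0) (nat_lit 1832958249) (nat_lit 46) (nat_lit 5) (nat_lit 49) (nat_lit 4) (nat_lit 46) (nat_lit 4) (nat_lit 330) (nat_lit 229) (nat_lit 221)) (XT.nd (nat_lit 78) (nat_lit 76) (nat_lit 0) (XT.lf (nat_lit 0) (nat_lit 2838253588) (nat_lit 152) (nat_lit 7655387033) (nat_lit 152) (nat_lit 2887408364) (nat_lit 44) (nat_lit 4) (nat_lit 46) (nat_lit 5) (nat_lit 46) (nat_lit 4) (nat_lit 331) (nat_lit 229) (nat_lit 220)) (XT.lf (nat_lit 0) (nat_lit 1289456979) (nat_lit 228) (nat_lit 2606041709) (nat_lit 76) (nat_lit 9741866652) (nat_lit 43) (nat_lit 5) (nat_lit 46) (nat_lit 5) (nat_lit 44) (nat_lit 4) (nat_lit 332) (nat_lit 229) (nat_lit 219)))) (XT.nd (nat_lit 156) (nat_lit 380) (nat_lit 0) (XT.nd (nat_lit 78) (nat_lit 0) (nat_lit 0) (XT.lf (nat_lit 0) (nat_lit 5502290263) (nat_lit 228) (nat_lit 8397905174) (nat_lit 0) (nat_lit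 1291800) (nat_lit 41) (nat_lit 5) (nat_lit 44) (nat_lit 4) (nat_lit 41) (nat_lit 4) (nat_lit 333) (nat_lit 229) (nat_lit 218)) (XT.lf (nat_lit 0) (nat_lit 9822944157) (nat_lit 228) (nat_lit 446227540) (nat_lit 0) (nat_lit 3904951596) (nat_lit 41) (nat_lit 5) (nat_lit 44) (nat_lit 4) (nat_lit 41) (nat_lit 4) (nat_lit 334) (nat_lit 229) (nat_lit 217))) (XT.nd (nat_lit 78) (nat_lit 228) (nat_lit 0) (XT.lf (nat_lit 0) (nat_lit 7754968342) (nat_lit 152) (nat_lit 6511522838) (nat_lit 152) (nat_lit 188681639) (nat_lit 39) (nat_lit 4) (nat_lit 41) (nat_lit 5) (nat_lit 41) (nat_lit 4) (nat_lit 335) (nat_lit 229) (nat_lit 216)) (XT.lf (nat_lit 0) (nat_lit 1312366462) (nat_lit 152) (nat_lit 2642443681) (nat_lit 228) (nat_lit 10790609449) (nat_lit 36) (nat_lit 5) (nat_lit 38) (nat_lit 5) (nat_lit 39) (nat_lit 4) (nat_lit 336) (nat_lit 229) (nat_lit 215))))) (XT.nd (nat_lit 234) (nat_lit 304) (nat_lit 0) (XT.nd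 (nat_lit 78) (nat_lit 228) (nat_lit 0) (XT.lf (nat_lit 0) (nat_lit 8219437284) (nat_lit 228) (nat_lit 5496237597) (nat_lit 0) (nat_lit 1328653983) (nat_lit 36) (nat_lit 5) (nat_lit 39) (nat_lit 4) (nat_lit 36) (nat_lit 4) (nat_lit 337) (nat_lit 229) (nat_lit 214)) (XT.nd (nat_lit 78) (nat_lit 76) (nat_lit 0) (XT.lf (nat_lit 0) (nat_lit 2565582576) (nat_lit 152) (nat_lit 10018980537) (nat_lit 152) (nat_lit 2768494465) (nat_lit 34) (nat_lit 4) (nat_lit 36) (nat_lit 5) (nat_lit 36) (nat_lit 4) (nat_lit 338) (nat_lit 229) (nat_lit 213)) (XT.lf (nat_lit 0) (nat_lit 1360056882) (nat_lit 228) (nat_lit 4838796593) (nat_lit 76) (nat_lit 9472476419) (nat_lit 33) (nat_lit 5) (nat_lit 36) (nat_lit 5) (nat_lit 34) (nat_lit 4) (nat_lit 339) (nat_lit 229) (nat_lit 212)))) (XT.nd (nat_lit 156) (nat_lit 228) (nat_lit 0) (XT.nd (nat_lit 78) (nat_lit 0) (nat_lit 0) (XT.lf (nat_lit 0) (nat_lit 3251130943) (nat_lit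 76) (nat_lit 2261133770) (nat_lit 152) (nat_lit 10487426526) (nat_lit 32) (nat_lit 5) (nat_lit 33) (nat_lit 5) (nat_lit 34) (nat_lit 4) (nat_lit 340) (nat_lit 229) (nat_lit 211)) (XT.lf (nat_lit 0) (nat_lit 9780220117) (nat_lit 152) (nat_lit 4804884950) (nat_lit 0) (nat_lit 1753088645) (nat_lit 32) (nat_lit 5) (nat_lit 34) (nat_lit 4) (nat_lit 32) (nat_lit 4) (nat_lit 341) (nat_lit 229) (nat_lit 210))) (XT.nd (nat_lit 78) (nat_lit 76) (nat_lit 0) (XT.lf (nat_lit 0) (nat_lit 3289130359) (nat_lit 152) (nat_lit 10867868295) (nat_lit 152) (nat_lit 2530454052) (nat_lit 30) (nat_lit 4) (nat_lit 32) (nat_lit 5) (nat_lit 32) (nat_lit 4) (nat_lit 342) (nat_lit 229) (nat_lit 209)) (XT.lf (nat_lit 0) (nat_lit 1562258004) (nat_lit 228) (nat_lit 5467275901) (nat_lit 76) (nat_lit 10017934411) (nat_lit 29) (nat_lit 5) (nat_lit 32) (nat_lit 5) (nat_lit 30) (nat_lit 4) (nat_lit 343) (nat_lit 229) (nat_lit 208))))))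 (XT.nd (nat_lit 546) (nat_lit 456) (nat_lit 0) (XT.nd (nat_lit 234) (nat_lit 152) (nat_lit 0) (XT.nd (nat_lit 78) (nat_lit 152) (nat_lit 0) (XT.lf (nat_lit 0) (nat_lit 2601221670) (nat_lit 76) (nat_lit 3079740197) (nat_lit 152) (nat_lit 11737971667) (nat_lit 28) (nat_lit 5) (nat_lit 29) (nat_lit 5) (nat_lit 30) (nat_lit 4) (nat_lit 344) (nat_lit 229) (nat_lit 207)) (XT.nd (nat_lit 78) (nat_lit 152) (nat_lit 0) (XT.lf (nat_lit 0) (nat_lit 9917887732) (nat_lit 152) (nat_lit 6912632731) (nat_lit 0) (nat_lit 971204614) (nat_lit 28) (nat_lit 5) (nat_lit 30) (nat_lit 4) (nat_lit 28) (nat_lit 4) (nat_lit 345) (nat_lit 229) (nat_lit 206)) (XT.lf (nat_lit 0) (nat_lit 1097666395) (nat_lit 152) (nat_lit 13156758093) (nat_lit 152) (nat_lit 3942422331) (nat_lit 26) (nat_lit 4) (nat_lit 28) (nat_lit 5) (nat_lit 28) (nat_lit 4) (nat_lit 346) (nat_lit 229) (nat_lit 205)))) (XT.nd (nat_lit 156) (nat_lit 76) (nat_lit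 0) (XT.nd (nat_lit 78) (nat_lit 0) (nat_lit 0) (XT.lf (nat_lit 0) (nat_lit 117037784) (nat_lit 228) (nat_lit 9236605995) (nat_lit 76) (nat_lit 9250102229) (nat_lit 25) (nat_lit 5) (nat_lit 28) (nat_lit 5) (nat_lit 26) (nat_lit 4) (nat_lit 347) (nat_lit 229) (nat_lit 204)) (XT.lf (nat_lit 0) (nat_lit 4152630457) (nat_lit 228) (nat_lit 1296641154) (nat_lit 76) (nat_lit 13574421637) (nat_lit 25) (nat_lit 5) (nat_lit 28) (nat_lit 5) (nat_lit 26) (nat_lit 4) (nat_lit 348) (nat_lit 229) (nat_lit 203))) (XT.nd (nat_lit 78) (nat_lit 0) (nat_lit 0) (XT.lf (nat_lit 0) (nat_lit 6900196593) (nat_lit 76) (nat_lit 1410945111) (nat_lit 152) (nat_lit 11145060823) (nat_lit 24) (nat_lit 5) (nat_lit 25) (nat_lit 5) (nat_lit 26) (nat_lit 4) (nat_lit 349) (nat_lit 229) (nat_lit 202)) (XT.lf (nat_lit 0) (nat_lit 12569856512) (nat_lit 152) (nat_lit 4674600052) (nat_lit 0) (nat_lit 2657985662) (nat_lit 24) (nat_lit 5)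 (nat_lit 26) (nat_lit 4) (nat_lit 24) (nat_lit 4) (nat_lit 350) (nat_lit 229) (nat_lit 201))))) (XT.nd (nat_lit 312) (nat_lit 152) (nat_lit 0) (XT.nd (nat_lit 156) (nat_lit 76) (nat_lit 0) (XT.nd (nat_lit 78) (nat_lit 76) (nat_lit 0) (XT.lf (nat_lit 0) (nat_lit 3382392646) (nat_lit 152) (nat_lit 13558097755) (nat_lit 152) (nat_lit 3422072030) (nat_lit 22) (nat_lit 4) (nat_lit 24) (nat_lit 5) (nat_lit 24) (nat_lit 4) (nat_lit 351) (nat_lit 229) (nat_lit 200)) (XT.lf (nat_lit 0) (nat_lit 579396354) (nat_lit 228) (nat_lit 9177477218) (nat_lit 76) (nat_lit 11079891202) (nat_lit 21) (nat_lit 5) (nat_lit 24) (nat_lit 5) (nat_lit 22) (nat_lit 4) (nat_lit 352) (nat_lit 229) (nat_lit 199))) (XT.nd (nat_lit 78) (nat_lit 76) (nat_lit 0) (XT.lf (nat_lit 0) (nat_lit 4571728656) (nat_lit 228) (nat_lit 1284330113) (nat_lit 76) (nat_lit 15469946471) (nat_lit 21) (nat_lit 5) (nat_lit 24) (nat_lit 5) (nat_lit 22)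 (nat_lit 4) (nat_lit 353) (nat_lit 229) (nat_lit 198)) (XT.lf (nat_lit 0) (nat_lit 6873184078) (nat_lit 76) (nat_lit 1818075442) (nat_lit 152) (nat_lit 13138456575) (nat_lit 20) (nat_lit 5) (nat_lit 21) (nat_lit 5) (nat_lit 22) (nat_lit 4) (nat_lit 354) (nat_lit 229) (nat_lit 197)))) (XT.nd (nat_lit 156) (nat_lit 76) (nat_lit 0) (XT.nd (nat_lit 78) (nat_lit 76) (nat_lit 0) (XT.lf (nat_lit 0) (nat_lit 12911573537) (nat_lit 152) (nat_lit 7175830129) (nat_lit 0) (nat_lit 2261834261) (nat_lit 20) (nat_lit 5) (nat_lit 22) (nat_lit 4) (nat_lit 20) (nat_lit 4) (nat_lit 355) (nat_lit 229) (nat_lit 196)) (XT.lf (nat_lit 0) (nat_lit 730864404) (nat_lit 76) (nat_lit 16495955938) (nat_lit 76) (nat_lit 5658490484) (nat_lit 19) (nat_lit 4) (nat_lit 20) (nat_lit 5) (nat_lit 20) (nat_lit 4) (nat_lit 356) (nat_lit 229) (nat_lit 195))) (XT.nd (nat_lit 78) (nat_lit 76) (nat_lit 0) (XT.lf (nat_lit 0) (nat_lit 8919184358)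 (nat_lit 76) (nat_lit 12768763701) (nat_lit 76) (nat_lit 1749039820) (nat_lit 19) (nat_lit 4) (nat_lit 20) (nat_lit 5) (nat_lit 20) (nat_lit 4) (nat_lit 357) (nat_lit 229) (nat_lit 194)) (XT.lf (nat_lit 0) (nat_lit 2178289576) (nat_lit 152) (nat_lit 6774745969) (nat_lit 76) (nat_lit 15053185456) (nat_lit 18) (nat_lit 5) (nat_lit 20) (nat_lit 5) (nat_lit 19) (nat_lit 4) (nat_lit 358) (nat_lit 229) (nat_lit 193))))))))
noncomputable def xc37 : XT := (XT.nd (nat_lit 2184) (nat_lit 304) (nat_lit 0) (XT.nd (nat_lit 1092) (nat_lit 380) (nat_lit 0) (XT.nd (nat_lit 546) (nat_lit 152) (nat_lit 0) (XT.nd (nat_lit 234) (nat_lit 152) (nat_lit 0) (XT.nd (nat_lit 78) (nat_lit 0) (nat_lit 0) (XT.lf (nat_lit 0) (nat_lit 1107033891) (nat_lit 76) (nat_lit 5038534457) (nat_lit 152) (nat_lit 18447738175) (nat_lit 17) (nat_lit 5) (nat_lit 18) (nat_lit 5) (nat_lit 19) (nat_lit 4) (nat_lit 359) (nat_lit 229) (nat_lit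 192)) (XT.nd (nat_lit 78) (nat_lit 0) (nat_lit 0) (XT.lf (nat_lit 0) (nat_lit 9267247745) (nat_lit 76) (nat_lit 980294067) (nat_lit 152) (nat_lit 14950005547) (nat_lit 17) (nat_lit 5) (nat_lit 18) (nat_lit 5) (nat_lit 19) (nat_lit 4) (nat_lit 360) (nat_lit 229) (nat_lit 191)) (XT.lf (nat_lit 0) (nat_lit 14451720424) (nat_lit 152) (nat_lit 8273614196) (nat_lit 0) (nat_lit 3095219078) (nat_lit 17) (nat_lit 5) (nat_lit 19) (nat_lit 4) (nat_lit 17) (nat_lit 4) (nat_lit 361) (nat_lit 229) (nat_lit 190)))) (XT.nd (nat_lit 156) (nat_lit 76) (nat_lit 0) (XT.nd (nat_lit 78) (nat_lit 76) (nat_lit 0) (XT.lf (nat_lit 0) (nat_lit 18741622053) (nat_lit 152) (nat_lit 489370388) (nat_lit 0) (nat_lit 7232482145) (nat_lit 17) (nat_lit 5) (nat_lit 19) (nat_lit 4) (nat_lit 17) (nat_lit 4) (nat_lit 362) (nat_lit 229) (nat_lit 189)) (XT.lf (nat_lit 0) (nat_lit 7586700618) (nat_lit 76) (nat_lit 15597799361) (nat_lit 76)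 (nat_lit 3940466674) (nat_lit 16) (nat_lit 4) (nat_lit 17) (nat_lit 5) (nat_lit 17) (nat_lit 4) (nat_lit 363) (nat_lit 229) (nat_lit 188))) (XT.nd (nat_lit 78) (nat_lit 76) (nat_lit 0) (XT.lf (nat_lit 0) (nat_lit 15826221241) (nat_lit 76) (nat_lit 11891298664) (nat_lit 76) (nat_lit 90089492) (nat_lit 16) (nat_lit 4) (nat_lit 17) (nat_lit 5) (nat_lit 17) (nat_lit 4) (nat_lit 364) (nat_lit 229) (nat_lit 187)) (XT.lf (nat_lit 0) (nat_lit 3753009490) (nat_lit 152) (nat_lit 4322285814) (nat_lit 76) (nat_lit 20435744101) (nat_lit 15) (nat_lit 5) (nat_lit 17) (nat_lit 5) (nat_lit 16) (nat_lit 4) (nat_lit 365) (nat_lit 229) (nat_lit 186))))) (XT.nd (nat_lit 234) (nat_lit 76) (nat_lit 0) (XT.nd (nat_lit 78) (nat_lit 0) (nat_lit 0) (XT.lf (nat_lit 0) (nat_lit 3550291826) (nat_lit 76) (nat_lit 4147641322) (nat_lit 152) (nat_lit 21537972735) (nat_lit 14) (nat_lit 5) (nat_lit 15) (nat_lit 5) (nat_lit 16) (nat_lit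 4) (nat_lit 366) (nat_lit 229) (nat_lit 185)) (XT.nd (nat_lit 78) (nat_lit 0) (nat_lit 0) (XT.lf (nat_lit 0) (nat_lit 11663794882) (nat_lit 76) (nat_lit 95798572) (nat_lit 152) (nat_lit 18222983524) (nat_lit 14) (nat_lit 5) (nat_lit 15) (nat_lit 5) (nat_lit 16) (nat_lit 4) (nat_lit 367) (nat_lit 229) (nat_lit 184)) (XT.lf (nat_lit 0) (nat_lit 15938000250) (nat_lit 152) (nat_lit 10852521694) (nat_lit 0) (nat_lit 3961289353) (nat_lit 14) (nat_lit 5) (nat_lit 16) (nat_lit 4) (nat_lit 14) (nat_lit 4) (nat_lit 368) (nat_lit 229) (nat_lit 183)))) (XT.nd (nat_lit 156) (nat_lit 0) (nat_lit 0) (XT.nd (nat_lit 78) (nat_lit 76) (nat_lit 0) (XT.lf (nat_lit 0) (nat_lit 20199698334) (nat_lit 152) (nat_lit 3243202694) (nat_lit 0) (nat_lit 8102493145) (nat_lit 14) (nat_lit 5) (nat_lit 16) (nat_lit 4) (nat_lit 14) (nat_lit 4) (nat_lit 369) (nat_lit 229) (nat_lit 182)) (XT.lf (nat_lit 0) (nat_lit 4606636770) (nat_lit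 76) (nat_lit 19985135684) (nat_lit 76) (nat_lit 7770945748) (nat_lit 13) (nat_lit 4) (nat_lit 14) (nat_lit 5) (nat_lit 14) (nat_lit 4) (nat_lit 370) (nat_lit 229) (nat_lit 181))) (XT.nd (nat_lit 78) (nat_lit 0) (nat_lit 0) (XT.lf (nat_lit 0) (nat_lit 12681564001) (nat_lit 76) (nat_lit 16425515172) (nat_lit 76) (nat_lit 4097747810) (nat_lit 13) (nat_lit 4) (nat_lit 14) (nat_lit 5) (nat_lit 14) (nat_lit 4) (nat_lit 371) (nat_lit 229) (nat_lit 180)) (XT.lf (nat_lit 0) (nat_lit 20924088668) (nat_lit 76) (nat_lit 12793679133) (nat_lit 76) (nat_lit 355642425) (nat_lit 13) (nat_lit 4) (nat_lit 14) (nat_lit 5) (nat_lit 14) (nat_lit 4) (nat_lit 372) (nat_lit 229) (nat_lit 179)))))) (XT.nd (nat_lit 546) (nat_lit 152) (nat_lit 0) (XT.nd (nat_lit 234) (nat_lit 76) (nat_lit 0) (XT.nd (nat_lit 78) (nat_lit 76) (nat_lit 0) (XT.lf (nat_lit 0) (nat_lit 3391149679) (nat_lit 152) (nat_lit 5661060474) (nat_lit 76)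 (nat_lit 25916019333) (nat_lit 12) (nat_lit 5) (nat_lit 14) (nat_lit 5) (nat_lit 13) (nat_lit 4) (nat_lit 373) (nat_lit 229) (nat_lit 178)) (XT.nd (nat_lit 78) (nat_lit 0) (nat_lit 0) (XT.lf (nat_lit 0) (nat_lit 2016544570) (nat_lit 76) (nat_lit 5207878251) (nat_lit 152) (nat_lit 28665936232) (nat_lit 11) (nat_lit 5) (nat_lit 12) (nat_lit 5) (nat_lit 13) (nat_lit 4) (nat_lit 374) (nat_lit 229) (nat_lit 177)) (XT.lf (nat_lit 0) (nat_lit 9970088630) (nat_lit 76) (nat_lit 1222046571) (nat_lit 152) (nat_lit 25647441961) (nat_lit 11) (nat_lit 5) (nat_lit 12) (nat_lit 5) (nat_lit 13) (nat_lit 4) (nat_lit 375) (nat_lit 229) (nat_lit 176)))) (XT.nd (nat_lit 156) (nat_lit 76) (nat_lit 0) (XT.nd (nat_lit 78) (nat_lit 0) (nat_lit 0) (XT.lf (nat_lit 0) (nat_lit 15269664503) (nat_lit 152) (nat_lit 19751934391) (nat_lit 0) (nat_lit 2795957013) (nat_lit 11) (nat_lit 5) (nat_lit 13) (nat_lit 4) (nat_lit 11) (nat_lit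 4) (nat_lit 376) (nat_lit 229) (nat_lit 175)) (XT.lf (nat_lit 0) (nat_lit 19445763745) (nat_lit 152) (nat_lit 12500122967) (nat_lit 0) (nat_lit 6879707414) (nat_lit 11) (nat_lit 5) (nat_lit 13) (nat_lit 4) (nat_lit 11) (nat_lit 4) (nat_lit 377) (nat_lit 229) (nat_lit 174))) (XT.nd (nat_lit 78) (nat_lit 76) (nat_lit 0) (XT.lf (nat_lit 0) (nat_lit 23712334888) (nat_lit 152) (nat_lit 5095970666) (nat_lit 0) (nat_lit 11056619489) (nat_lit 11) (nat_lit 5) (nat_lit 13) (nat_lit 4) (nat_lit 11) (nat_lit 4) (nat_lit 378) (nat_lit 229) (nat_lit 173)) (XT.lf (nat_lit 0) (nat_lit 2516090138) (nat_lit 76) (nat_lit 25581202062) (nat_lit 76) (nat_lit 12838439023) (nat_lit 10) (nat_lit 4) (nat_lit 11) (nat_lit 5) (nat_lit 11) (nat_lit 4) (nat_lit 379) (nat_lit 229) (nat_lit 172))))) (XT.nd (nat_lit 234) (nat_lit 152) (nat_lit 0) (XT.nd (nat_lit 78) (nat_lit 0) (nat_lit 0) (XT.lf (nat_lit 0) (nat_lit 10398281852)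 (nat_lit 76) (nat_lit 22233560268) (nat_lit 76) (nat_lit 9406284958) (nat_lit 10) (nat_lit 4) (nat_lit 11) (nat_lit 5) (nat_lit 11) (nat_lit 4) (nat_lit 380) (nat_lit 229) (nat_lit 171)) (XT.nd (nat_lit 78) (nat_lit 0) (nat_lit 0) (XT.lf (nat_lit 0) (nat_lit 18456072016) (nat_lit 76) (nat_lit 18813914360) (nat_lit 76) (nat_lit 5904588301) (nat_lit 10) (nat_lit 4) (nat_lit 11) (nat_lit 5) (nat_lit 11) (nat_lit 4) (nat_lit 381) (nat_lit 229) (nat_lit 170)) (XT.lf (nat_lit 0) (nat_lit 26696501419) (nat_lit 76) (nat_lit 15319276298) (nat_lit 76) (nat_lit 2330289318) (nat_lit 10) (nat_lit 4) (nat_lit 11) (nat_lit 5) (nat_lit 11) (nat_lit 4) (nat_lit 382) (nat_lit 229) (nat_lit 169)))) (XT.nd (nat_lit 156) (nat_lit 76) (nat_lit 0) (XT.nd (nat_lit 78) (nat_lit 0) (nat_lit 0) (XT.lf (nat_lit 0) (nat_lit 1293982377) (nat_lit 152) (nat_lit 10439543453) (nat_lit 76) (nat_lit 33819721373) (nat_lit 9) (nat_lit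 5) (nat_lit 11) (nat_lit 5) (nat_lit 10) (nat_lit 4) (nat_lit 383) (nat_lit 229) (nat_lit 168)) (XT.lf (nat_lit 0) (nat_lit 4950156665) (nat_lit 152) (nat_lit 3092597707) (nat_lit 76) (nat_lit 38754101780) (nat_lit 9) (nat_lit 5) (nat_lit 11) (nat_lit 5) (nat_lit 10) (nat_lit 4) (nat_lit 384) (nat_lit 229) (nat_lit 167))) (XT.nd (nat_lit 78) (nat_lit 0) (nat_lit 0) (XT.lf (nat_lit 0) (nat_lit 4508059933) (nat_lit 76) (nat_lit 4222174894) (nat_lit 152) (nat_lit 39347117681) (nat_lit 8) (nat_lit 5) (nat_lit 9) (nat_lit 5) (nat_lit 10) (nat_lit 4) (nat_lit 385) (nat_lit 229) (nat_lit 166)) (XT.lf (nat_lit 0) (nat_lit 12346003492) (nat_lit 76) (nat_lit 280153135) (nat_lit 152) (nat_lit 36770039420) (nat_lit 8) (nat_lit 5) (nat_lit 9) (nat_lit 5) (nat_lit 10) (nat_lit 4) (nat_lit 386) (nat_lit 229) (nat_lit 165))))))) (XT.nd (nat_lit 1092) (nat_lit 76) (nat_lit 0) (XT.nd (nat_lit 546) (nat_lit 152) (nat_lit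 0) (XT.nd (nat_lit 234) (nat_lit 76) (nat_lit 0) (XT.nd (nat_lit 78) (nat_lit 0) (nat_lit 0) (XT.lf (nat_lit 0) (nat_lit 16647107101) (nat_lit 152) (nat_lit 30425016262) (nat_lit 0) (nat_lit 3682242370) (nat_lit 8) (nat_lit 5) (nat_lit 10) (nat_lit 4) (nat_lit 8) (nat_lit 4) (nat_lit 387) (nat_lit 229) (nat_lit 164)) (XT.nd (nat_lit 78) (nat_lit 0) (nat_lit 0) (XT.lf (nat_lit 0) (nat_lit 20764094935) (nat_lit 152) (nat_lit 23655469941) (nat_lit 0) (nat_lit 7734458584) (nat_lit 8) (nat_lit 5) (nat_lit 10) (nat_lit 4) (nat_lit 8) (nat_lit 4) (nat_lit 388) (nat_lit 229) (nat_lit 163)) (XT.lf (nat_lit 0) (nat_lit 24978024492) (nat_lit 152) (nat_lit 16732945452) (nat_lit 0) (nat_lit 11885503075) (nat_lit 8) (nat_lit 5) (nat_lit 10) (nat_lit 4) (nat_lit 8) (nat_lit 4) (nat_lit 389) (nat_lit 229) (nat_lit 162)))) (XT.nd (nat_lit 156) (nat_lit 76) (nat_lit 0) (XT.nd (nat_lit 78) (nat_lit 0) (nat_lit 0)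 (XT.lf (nat_lit 0) (nat_lit 29292577848) (nat_lit 152) (nat_lit 9651393986) (nat_lit 0) (nat_lit 16139002968) (nat_lit 8) (nat_lit 5) (nat_lit 10) (nat_lit 4) (nat_lit 8) (nat_lit 4) (nat_lit 390) (nat_lit 229) (nat_lit 161)) (XT.lf (nat_lit 0) (nat_lit 33711525000) (nat_lit 152) (nat_lit 2404627780) (nat_lit 0) (nat_lit 20498674913) (nat_lit 8) (nat_lit 5) (nat_lit 10) (nat_lit 4) (nat_lit 8) (nat_lit 4) (nat_lit 391) (nat_lit 229) (nat_lit 160))) (XT.nd (nat_lit 78) (nat_lit 0) (nat_lit 0) (XT.lf (nat_lit 0) (nat_lit 5113467458) (nat_lit 76) (nat_lit 33174413484) (nat_lit 76) (nat_lit 19904014652) (nat_lit 7) (nat_lit 4) (nat_lit 8) (nat_lit 5) (nat_lit 8) (nat_lit 4) (nat_lit 392) (nat_lit 229) (nat_lit 159)) (XT.lf (nat_lit 0) (nat_lit 12860991516) (nat_lit 76) (nat_lit 30140776352) (nat_lit 76) (nat_lit 16814504953) (nat_lit 7) (nat_lit 4) (nat_lit 8) (nat_lit 5) (nat_lit 8) (nat_lit 4) (nat_lit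 393) (nat_lit 229) (nat_lit 158))))) (XT.nd (nat_lit 234) (nat_lit 152) (nat_lit 0) (XT.nd (nat_lit 78) (nat_lit 0) (nat_lit 0) (XT.lf (nat_lit 0) (nat_lit 20796857266) (nat_lit 76) (nat_lit 27036872660) (nat_lit 76) (nat_lit 13656356051) (nat_lit 7) (nat_lit 4) (nat_lit 8) (nat_lit 5) (nat_lit 8) (nat_lit 4) (nat_lit 394) (nat_lit 229) (nat_lit 157)) (XT.nd (nat_lit 78) (nat_lit 0) (nat_lit 0) (XT.lf (nat_lit 0) (nat_lit 28927998959) (nat_lit 76) (nat_lit 23859990260) (nat_lit 76) (nat_lit 10426808397) (nat_lit 7) (nat_lit 4) (nat_lit 8) (nat_lit 5) (nat_lit 8) (nat_lit 4) (nat_lit 395) (nat_lit 229) (nat_lit 156)) (XT.lf (nat_lit 0) (nat_lit 37261521477) (nat_lit 76) (nat_lit 20607353233) (nat_lit 76) (nat_lit 7123040057) (nat_lit 7) (nat_lit 4) (nat_lit 8) (nat_lit 5) (nat_lit 8) (nat_lit 4) (nat_lit 396) (nat_lit 229) (nat_lit 155)))) (XT.nd (nat_lit 156) (nat_lit 152) (nat_lit 0) (XT.nd (nat_lit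 78) (nat_lit 0) (nat_lit 0) (XT.lf (nat_lit 0) (nat_lit 45804706538) (nat_lit 76) (nat_lit 17276119472) (nat_lit 76) (nat_lit 3742164243) (nat_lit 7) (nat_lit 4) (nat_lit 8) (nat_lit 5) (nat_lit 8) (nat_lit 4) (nat_lit 397) (nat_lit 229) (nat_lit 154)) (XT.lf (nat_lit 0) (nat_lit 54565019062) (nat_lit 76) (nat_lit 13863378188) (nat_lit 76) (nat_lit 281226791) (nat_lit 7) (nat_lit 4) (nat_lit 8) (nat_lit 5) (nat_lit 8) (nat_lit 4) (nat_lit 398) (nat_lit 229) (nat_lit 153))) (XT.nd (nat_lit 78) (nat_lit 76) (nat_lit 0) (XT.lf (nat_lit 0) (nat_lit 3199127506) (nat_lit 152) (nat_lit 7134714953) (nat_lit 76) (nat_lit 60318681268) (nat_lit 6) (nat_lit 5) (nat_lit 8) (nat_lit 5) (nat_lit 7) (nat_lit 4) (nat_lit 399) (nat_lit 229) (nat_lit 152)) (XT.lf (nat_lit 0) (nat_lit 46274123) (nat_lit 76) (nat_lit 6712665495) (nat_lit 152) (nat_lit 65895269817) (nat_lit 5) (nat_lit 5) (nat_lit 6) (nat_lit 5) (nat_lit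 7) (nat_lit 4) (nat_lit 400) (nat_lit 229) (nat_lit 151)))))) (XT.nd (nat_lit 546) (nat_lit 76) (nat_lit 0) (XT.nd (nat_lit 234) (nat_lit 0) (nat_lit 0) (XT.nd (nat_lit 78) (nat_lit 0) (nat_lit 0) (XT.lf (nat_lit 0) (nat_lit 7551997179) (nat_lit 76) (nat_lit 2926070210) (nat_lit 152) (nat_lit 64236306133) (nat_lit 5) (nat_lit 5) (nat_lit 6) (nat_lit 5) (nat_lit 7) (nat_lit 4) (nat_lit 401) (nat_lit 229) (nat_lit 150)) (XT.nd (nat_lit 78) (nat_lit 0) (nat_lit 0) (XT.lf (nat_lit 0) (nat_lit 14299013603) (nat_lit 152) (nat_lit 61599098029) (nat_lit 0) (nat_lit 938526910) (nat_lit 5) (nat_lit 5) (nat_lit 7) (nat_lit 4) (nat_lit 5) (nat_lit 4) (nat_lit 402) (nat_lit 229) (nat_lit 149)) (XT.lf (nat_lit 0) (nat_lit 18244996808) (nat_lit 152) (nat_lit 55933119112) (nat_lit 0) (nat_lit 4844146583) (nat_lit 5) (nat_lit 5) (nat_lit 7) (nat_lit 4) (nat_lit 5) (nat_lit 4) (nat_lit 403) (nat_lit 229) (nat_lit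 148)))) (XT.nd (nat_lit 156) (nat_lit 0) (nat_lit 0) (XT.nd (nat_lit 78) (nat_lit 0) (nat_lit 0) (XT.lf (nat_lit 0) (nat_lit 22291337775) (nat_lit 152) (nat_lit 50131361558) (nat_lit 0) (nat_lit 8851299656) (nat_lit 5) (nat_lit 5) (nat_lit 7) (nat_lit 4) (nat_lit 5) (nat_lit 4) (nat_lit 404) (nat_lit 229) (nat_lit 147)) (XT.lf (nat_lit 0) (nat_lit 26441572142) (nat_lit 152) (nat_lit 44188755873) (nat_lit 0) (nat_lit 12963487523) (nat_lit 5) (nat_lit 5) (nat_lit 7) (nat_lit 4) (nat_lit 5) (nat_lit 4) (nat_lit 405) (nat_lit 229) (nat_lit 146))) (XT.nd (nat_lit 78) (nat_lit 0) (nat_lit 0) (XT.lf (nat_lit 0) (nat_lit 30699326327) (nat_lit 152) (nat_lit 38100109488) (nat_lit 0) (nat_lit 17184303360) (nat_lit 5) (nat_lit 5) (nat_lit 7) (nat_lit 4) (nat_lit 5) (nat_lit 4) (nat_lit 406) (nat_lit 229) (nat_lit 145)) (XT.lf (nat_lit 0) (nat_lit 35068320699) (nat_lit 152) (nat_lit 31860102226) (nat_lit 0)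 (nat_lit 21517435256) (nat_lit 5) (nat_lit 5) (nat_lit 7) (nat_lit 4) (nat_lit 5) (nat_lit 4) (nat_lit 407) (nat_lit 229) (nat_lit 144))))) (XT.nd (nat_lit 312) (nat_lit 76) (nat_lit 0) (XT.nd (nat_lit 156) (nat_lit 0) (nat_lit 0) (XT.nd (nat_lit 78) (nat_lit 0) (nat_lit 0) (XT.lf (nat_lit 0) (nat_lit 39552372824) (nat_lit 152) (nat_lit 25463281653) (nat_lit 0) (nat_lit 25966669444) (nat_lit 5) (nat_lit 5) (nat_lit 7) (nat_lit 4) (nat_lit 5) (nat_lit 4) (nat_lit 408) (nat_lit 229) (nat_lit 143)) (XT.lf (nat_lit 0) (nat_lit 44155400807) (nat_lit 152) (nat_lit 18904058316) (nat_lit 0) (nat_lit 30535893605) (nat_lit 5) (nat_lit 5) (nat_lit 7) (nat_lit 4) (nat_lit 5) (nat_lit 4) (nat_lit 409) (nat_lit 229) (nat_lit 142))) (XT.nd (nat_lit 78) (nat_lit 0) (nat_lit 0) (XT.lf (nat_lit 0) (nat_lit 48881426710) (nat_lit 152) (nat_lit 12176700853) (nat_lit 0) (nat_lit 35229100264) (nat_lit 5) (nat_lit 5) (nat_lit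 7) (nat_lit 4) (nat_lit 5) (nat_lit 4) (nat_lit 410) (nat_lit 229) (nat_lit 141)) (XT.lf (nat_lit 0) (nat_lit 53734580072) (nat_lit 152) (nat_lit 5275330991) (nat_lit 0) (nat_lit 40050390281) (nat_lit 5) (nat_lit 5) (nat_lit 7) (nat_lit 4) (nat_lit 5) (nat_lit 4) (nat_lit 411) (nat_lit 229) (nat_lit 140)))) (XT.nd (nat_lit 33540) (nat_lit 0) (nat_lit 4332) (XT.nd (nat_lit 33462) (nat_lit 0) (nat_lit 4560) (XT.lf (nat_lit 0) (nat_lit 1842026157) (nat_lit 76) (nat_lit 56894782037) (nat_lit 76) (nat_lit 43179656960) (nat_lit 4) (nat_lit 4) (nat_lit 5) (nat_lit 5) (nat_lit 5) (nat_lit 4) (nat_lit 412) (nat_lit 229) (nat_lit 139)) (XT.lf (nat_lit 0) (nat_lit 14404781) (nat_lit 304) (nat_lit 5491042667) (nat_lit 0) (nat_lit 14404781) (nat_lit 64) (nat_lit 5) (nat_lit 68) (nat_lit 4) (nat_lit 64) (nat_lit 4) (nat_lit 320) (nat_lit 230) (nat_lit 230))) (XT.nd (nat_lit 78) (nat_lit 228) (nat_lit 0) (XT.lf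 (nat_lit 0) (nat_lit 4267119369) (nat_lit 304) (nat_lit 3355302911) (nat_lit 0) (nat_lit 3597966256) (nat_lit 64) (nat_lit 5) (nat_lit 68) (nat_lit 4) (nat_lit 64) (nat_lit 4) (nat_lit 321) (nat_lit 230) (nat_lit 229)) (XT.lf (nat_lit 0) (nat_lit 4433054965) (nat_lit 228) (nat_lit 4146942123) (nat_lit 228) (nat_lit 2828125792) (nat_lit 61) (nat_lit 4) (nat_lit 64) (nat_lit 5) (nat_lit 64) (nat_lit 4) (nat_lit 322) (nat_lit 230) (nat_lit 228))))))))
noncomputable def xc38 : XT := (XT.nd (nat_lit 2184) (nat_lit 988) (nat_lit 0) (XT.nd (nat_lit 1092) (nat_lit 912) (nat_lit 0) (XT.nd (nat_lit 546) (nat_lit 912) (nat_lit 0) (XT.nd (nat_lit 234) (nat_lit 532) (nat_lit 0) (XT.nd (nat_lit 78) (nat_lit 228) (nat_lit 0) (XT.lf (nat_lit 0) (nat_lit 770245680) (nat_lit 152) (nat_lit 569558752) (nat_lit 228) (nat_lit 10262921695) (nat_lit 58) (nat_lit 5) (nat_lit 60) (nat_lit 5) (nat_lit 61) (nat_lit 4) (nat_lit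 323) (nat_lit 230) (nat_lit 227)) (XT.nd (nat_lit 78) (nat_lit 228) (nat_lit 0) (XT.lf (nat_lit 0) (nat_lit 5582869742) (nat_lit 228) (nat_lit 3123735591) (nat_lit 0) (nat_lit 3095561773) (nat_lit 58) (nat_lit 5) (nat_lit 61) (nat_lit 4) (nat_lit 58) (nat_lit 4) (nat_lit 324) (nat_lit 230) (nat_lit 226)) (XT.lf (nat_lit 0) (nat_lit 4752953850) (nat_lit 228) (nat_lit 5160205642) (nat_lit 228) (nat_lit 2095680319) (nat_lit 55) (nat_lit 4) (nat_lit 58) (nat_lit 5) (nat_lit 58) (nat_lit 4) (nat_lit 325) (nat_lit 230) (nat_lit 225)))) (XT.nd (nat_lit 156) (nat_lit 304) (nat_lit 0) (XT.nd (nat_lit 78) (nat_lit 0) (nat_lit 0) (XT.lf (nat_lit 0) (nat_lit 548103372) (nat_lit 152) (nat_lit 1507578348) (nat_lit 228) (nat_lit 10167073608) (nat_lit 52) (nat_lit 5) (nat_lit 54) (nat_lit 5) (nat_lit 55) (nat_lit 4) (nat_lit 326) (nat_lit 230) (nat_lit 224)) (XT.lf (nat_lit 0) (nat_lit 6294676840) (nat_lit 228)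 (nat_lit 3900583946) (nat_lit 0) (nat_lit 2247091172) (nat_lit 52) (nat_lit 5) (nat_lit 55) (nat_lit 4) (nat_lit 52) (nat_lit 4) (nat_lit 327) (nat_lit 230) (nat_lit 223))) (XT.nd (nat_lit 78) (nat_lit 76) (nat_lit 0) (XT.lf (nat_lit 0) (nat_lit 4023202228) (nat_lit 228) (nat_lit 6603418988) (nat_lit 228) (nat_lit 2042983177) (nat_lit 49) (nat_lit 4) (nat_lit 52) (nat_lit 5) (nat_lit 52) (nat_lit 4) (nat_lit 328) (nat_lit 230) (nat_lit 222)) (XT.lf (nat_lit 0) (nat_lit 2094433400) (nat_lit 304) (nat_lit 806648766) (nat_lit 76) (nat_lit 10003434544) (nat_lit 48) (nat_lit 5) (nat_lit 52) (nat_lit 5) (nat_lit 49) (nat_lit 4) (nat_lit 329) (nat_lit 230) (nat_lit 221))))) (XT.nd (nat_lit 234) (nat_lit 532) (nat_lit 0) (XT.nd (nat_lit 78) (nat_lit 228) (nat_lit 0) (XT.lf (nat_lit 0) (nat_lit 6308658105) (nat_lit 228) (nat_lit 5909127279) (nat_lit 0) (nat_lit 928309545) (nat_lit 46) (nat_lit 5) (nat_lit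 49) (nat_lit 4) (nat_lit 46) (nat_lit 4) (nat_lit 330) (nat_lit 230) (nat_lit 220)) (XT.nd (nat_lit 78) (nat_lit 76) (nat_lit 0) (XT.lf (nat_lit 0) (nat_lit 2010454334) (nat_lit 152) (nat_lit 8610678704) (nat_lit 152) (nat_lit 2774669435) (nat_lit 44) (nat_lit 4) (nat_lit 46) (nat_lit 5) (nat_lit 46) (nat_lit 4) (nat_lit 331) (nat_lit 230) (nat_lit 219)) (XT.lf (nat_lit 0) (nat_lit 1358508006) (nat_lit 228) (nat_lit 3520627054) (nat_lit 76) (nat_lit 8774212929) (nat_lit 43) (nat_lit 5) (nat_lit 46) (nat_lit 5) (nat_lit 44) (nat_lit 4) (nat_lit 332) (nat_lit 230) (nat_lit 218)))) (XT.nd (nat_lit 156) (nat_lit 380) (nat_lit 0) (XT.nd (nat_lit 78) (nat_lit 0) (nat_lit 0) (XT.lf (nat_lit 0) (nat_lit 4500554410) (nat_lit 152) (nat_lit 1020852800) (nat_lit 228) (nat_lit 8397577235) (nat_lit 41) (nat_lit 5) (nat_lit 43) (nat_lit 5) (nat_lit 44) (nat_lit 4) (nat_lit 333) (nat_lit 230) (nat_lit 217)) (XT.lf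 (nat_lit 0) (nat_lit 9792212581) (nat_lit 228) (nat_lit 1526081924) (nat_lit 0) (nat_lit 2874837508) (nat_lit 41) (nat_lit 5) (nat_lit 44) (nat_lit 4) (nat_lit 41) (nat_lit 4) (nat_lit 334) (nat_lit 230) (nat_lit 216))) (XT.nd (nat_lit 78) (nat_lit 228) (nat_lit 0) (XT.lf (nat_lit 0) (nat_lit 6585158023) (nat_lit 152) (nat_lit 7600487269) (nat_lit 152) (nat_lit 290055265) (nat_lit 39) (nat_lit 4) (nat_lit 41) (nat_lit 5) (nat_lit 41) (nat_lit 4) (nat_lit 335) (nat_lit 230) (nat_lit 215)) (XT.lf (nat_lit 0) (nat_lit 30736749) (nat_lit 152) (nat_lit 3773587104) (nat_lit 228) (nat_lit 10963200129) (nat_lit 36) (nat_lit 5) (nat_lit 38) (nat_lit 5) (nat_lit 39) (nat_lit 4) (nat_lit 336) (nat_lit 230) (nat_lit 214)))))) (XT.nd (nat_lit 546) (nat_lit 380) (nat_lit 0) (XT.nd (nat_lit 234) (nat_lit 304) (nat_lit 0) (XT.nd (nat_lit 78) (nat_lit 228) (nat_lit 0) (XT.lf (nat_lit 0) (nat_lit 8019523622) (nat_lit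 228) (nat_lit 6856586524) (nat_lit 0) (nat_lit 191820195) (nat_lit 36) (nat_lit 5) (nat_lit 39) (nat_lit 4) (nat_lit 36) (nat_lit 4) (nat_lit 337) (nat_lit 230) (nat_lit 213)) (XT.nd (nat_lit 78) (nat_lit 76) (nat_lit 0) (XT.lf (nat_lit 0) (nat_lit 1111333621) (nat_lit 152) (nat_lit 11221905506) (nat_lit 152) (nat_lit 3044976087) (nat_lit 34) (nat_lit 4) (nat_lit 36) (nat_lit 5) (nat_lit 36) (nat_lit 4) (nat_lit 338) (nat_lit 230) (nat_lit 212)) (XT.lf (nat_lit 0) (nat_lit 1051626609) (nat_lit 228) (nat_lit 6381181761) (nat_lit 76) (nat_lit 8264892260) (nat_lit 33) (nat_lit 5) (nat_lit 36) (nat_lit 5) (nat_lit 34) (nat_lit 4) (nat_lit 339) (nat_lit 230) (nat_lit 211)))) (XT.nd (nat_lit 156) (nat_lit 228) (nat_lit 0) (XT.nd (nat_lit 78) (nat_lit 0) (nat_lit 0) (XT.lf (nat_lit 0) (nat_lit 1613056492) (nat_lit 76) (nat_lit 3538775656) (nat_lit 152) (nat_lit 10875802570) (nat_lit 32) (nat_lit 5) (nat_lit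 33) (nat_lit 5) (nat_lit 34) (nat_lit 4) (nat_lit 340) (nat_lit 230) (nat_lit 210)) (XT.lf (nat_lit 0) (nat_lit 9371437051) (nat_lit 152) (nat_lit 6522545353) (nat_lit 0) (nat_lit 473617609) (nat_lit 32) (nat_lit 5) (nat_lit 34) (nat_lit 4) (nat_lit 32) (nat_lit 4) (nat_lit 341) (nat_lit 230) (nat_lit 209))) (XT.nd (nat_lit 78) (nat_lit 76) (nat_lit 0) (XT.lf (nat_lit 0) (nat_lit 1473987905) (nat_lit 152) (nat_lit 12221760950) (nat_lit 152) (nat_lit 3022696100) (nat_lit 30) (nat_lit 4) (nat_lit 32) (nat_lit 5) (nat_lit 32) (nat_lit 4) (nat_lit 342) (nat_lit 230) (nat_lit 208)) (XT.lf (nat_lit 0) (nat_lit 1044678283) (nat_lit 228) (nat_lit 7370839203) (nat_lit 76) (nat_lit 8664144586) (nat_lit 29) (nat_lit 5) (nat_lit 32) (nat_lit 5) (nat_lit 30) (nat_lit 4) (nat_lit 343) (nat_lit 230) (nat_lit 207))))) (XT.nd (nat_lit 234) (nat_lit 304) (nat_lit 0) (XT.nd (nat_lit 78) (nat_lit 0) (nat_lit 0) (XT.lf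 (nat_lit 0) (nat_lit 598222811) (nat_lit 76) (nat_lit 4511979957) (nat_lit 152) (nat_lit 12342530836) (nat_lit 28) (nat_lit 5) (nat_lit 29) (nat_lit 5) (nat_lit 30) (nat_lit 4) (nat_lit 344) (nat_lit 230) (nat_lit 206)) (XT.nd (nat_lit 78) (nat_lit 0) (nat_lit 0) (XT.lf (nat_lit 0) (nat_lit 8836142579) (nat_lit 76) (nat_lit 467952795) (nat_lit 152) (nat_lit 8532731385) (nat_lit 28) (nat_lit 5) (nat_lit 29) (nat_lit 5) (nat_lit 30) (nat_lit 4) (nat_lit 345) (nat_lit 230) (nat_lit 205)) (XT.lf (nat_lit 0) (nat_lit 13592801917) (nat_lit 152) (nat_lit 1066065294) (nat_lit 0) (nat_lit 3574526503) (nat_lit 28) (nat_lit 5) (nat_lit 30) (nat_lit 4) (nat_lit 28) (nat_lit 4) (nat_lit 346) (nat_lit 230) (nat_lit 204)))) (XT.nd (nat_lit 156) (nat_lit 76) (nat_lit 0) (XT.nd (nat_lit 78) (nat_lit 76) (nat_lit 0) (XT.lf (nat_lit 0) (nat_lit 7125190391) (nat_lit 152) (nat_lit 10893497870) (nat_lit 152) (nat_lit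 622934170) (nat_lit 26) (nat_lit 4) (nat_lit 28) (nat_lit 5) (nat_lit 28) (nat_lit 4) (nat_lit 347) (nat_lit 230) (nat_lit 203)) (XT.lf (nat_lit 0) (nat_lit 3393051573) (nat_lit 228) (nat_lit 3627609090) (nat_lit 76) (nat_lit 12042050958) (nat_lit 25) (nat_lit 5) (nat_lit 28) (nat_lit 5) (nat_lit 26) (nat_lit 4) (nat_lit 348) (nat_lit 230) (nat_lit 202))) (XT.nd (nat_lit 78) (nat_lit 0) (nat_lit 0) (XT.lf (nat_lit 0) (nat_lit 4466268008) (nat_lit 76) (nat_lit 3031060907) (nat_lit 152) (nat_lit 11999528158) (nat_lit 24) (nat_lit 5) (nat_lit 25) (nat_lit 5) (nat_lit 26) (nat_lit 4) (nat_lit 349) (nat_lit 230) (nat_lit 201)) (XT.lf (nat_lit 0) (nat_lit 11709767843) (nat_lit 152) (nat_lit 7189219625) (nat_lit 0) (nat_lit 1045506471) (nat_lit 24) (nat_lit 5) (nat_lit 26) (nat_lit 4) (nat_lit 24) (nat_lit 4) (nat_lit 350) (nat_lit 230) (nat_lit 200))))))) (XT.nd (nat_lit 1092) (nat_lit 380) (nat_lit 0)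 (XT.nd (nat_lit 546) (nat_lit 228) (nat_lit 0) (XT.nd (nat_lit 234) (nat_lit 152) (nat_lit 0) (XT.nd (nat_lit 78) (nat_lit 76) (nat_lit 0) (XT.lf (nat_lit 0) (nat_lit 762662425) (nat_lit 152) (nat_lit 15262748766) (nat_lit 152) (nat_lit 4380861301) (nat_lit 22) (nat_lit 4) (nat_lit 24) (nat_lit 5) (nat_lit 24) (nat_lit 4) (nat_lit 351) (nat_lit 230) (nat_lit 199)) (XT.nd (nat_lit 78) (nat_lit 76) (nat_lit 0) (XT.lf (nat_lit 0) (nat_lit 8991947142) (nat_lit 152) (nat_lit 11491382514) (nat_lit 152) (nat_lit 398207581) (nat_lit 22) (nat_lit 4) (nat_lit 24) (nat_lit 5) (nat_lit 24) (nat_lit 4) (nat_lit 352) (nat_lit 230) (nat_lit 198)) (XT.lf (nat_lit 0) (nat_lit 3573008162) (nat_lit 228) (nat_lit 4045101828) (nat_lit 76) (nat_lit 13753657057) (nat_lit 21) (nat_lit 5) (nat_lit 24) (nat_lit 5) (nat_lit 22) (nat_lit 4) (nat_lit 353) (nat_lit 230) (nat_lit 197)))) (XT.nd (nat_lit 156) (nat_lit 76) (nat_lit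 0) (XT.nd (nat_lit 78) (nat_lit 0) (nat_lit 0) (XT.lf (nat_lit 0) (nat_lit 4005495517) (nat_lit 76) (nat_lit 3631431880) (nat_lit 152) (nat_lit 14240226523) (nat_lit 20) (nat_lit 5) (nat_lit 21) (nat_lit 5) (nat_lit 22) (nat_lit 4) (nat_lit 354) (nat_lit 230) (nat_lit 196)) (XT.lf (nat_lit 0) (nat_lit 11811877862) (nat_lit 152) (nat_lit 10124603976) (nat_lit 0) (nat_lit 461562265) (nat_lit 20) (nat_lit 5) (nat_lit 22) (nat_lit 4) (nat_lit 20) (nat_lit 4) (nat_lit 355) (nat_lit 230) (nat_lit 195))) (XT.nd (nat_lit 78) (nat_lit 76) (nat_lit 0) (XT.lf (nat_lit 0) (nat_lit 16092980260) (nat_lit 152) (nat_lit 2281762067) (nat_lit 0) (nat_lit 4560406236) (nat_lit 20) (nat_lit 5) (nat_lit 22) (nat_lit 4) (nat_lit 20) (nat_lit 4) (nat_lit 356) (nat_lit 230) (nat_lit 194)) (XT.lf (nat_lit 0) (nat_lit 5812041705) (nat_lit 76) (nat_lit 14692895009) (nat_lit 76) (nat_lit 2983371057) (nat_lit 19) (nat_lit 4)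 (nat_lit 20) (nat_lit 5) (nat_lit 20) (nat_lit 4) (nat_lit 357) (nat_lit 230) (nat_lit 193))))) (XT.nd (nat_lit 234) (nat_lit 76) (nat_lit 0) (XT.nd (nat_lit 78) (nat_lit 76) (nat_lit 0) (XT.lf (nat_lit 0) (nat_lit 941759846) (nat_lit 152) (nat_lit 9969547511) (nat_lit 76) (nat_lit 13147384648) (nat_lit 18) (nat_lit 5) (nat_lit 20) (nat_lit 5) (nat_lit 19) (nat_lit 4) (nat_lit 358) (nat_lit 230) (nat_lit 192)) (XT.nd (nat_lit 78) (nat_lit 76) (nat_lit 0) (XT.lf (nat_lit 0) (nat_lit 4872877965) (nat_lit 152) (nat_lit 2156170008) (nat_lit 76) (nat_lit 17617820796) (nat_lit 18) (nat_lit 5) (nat_lit 20) (nat_lit 5) (nat_lit 19) (nat_lit 4) (nat_lit 359) (nat_lit 230) (nat_lit 191)) (XT.lf (nat_lit 0) (nat_lit 5914790519) (nat_lit 76) (nat_lit 3013700637) (nat_lit 152) (nat_lit 16324015491) (nat_lit 17) (nat_lit 5) (nat_lit 18) (nat_lit 5) (nat_lit 19) (nat_lit 4) (nat_lit 360) (nat_lit 230) (nat_lit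 190)))) (XT.nd (nat_lit 156) (nat_lit 76) (nat_lit 0) (XT.nd (nat_lit 78) (nat_lit 0) (nat_lit 0) (XT.lf (nat_lit 0) (nat_lit 13088439567) (nat_lit 152) (nat_lit 11707019480) (nat_lit 0) (nat_lit 1081386898) (nat_lit 17) (nat_lit 5) (nat_lit 19) (nat_lit 4) (nat_lit 17) (nat_lit 4) (nat_lit 361) (nat_lit 230) (nat_lit 189)) (XT.lf (nat_lit 0) (nat_lit 17354376291) (nat_lit 152) (nat_lit 3966984524) (nat_lit 0) (nat_lit 5199130843) (nat_lit 17) (nat_lit 5) (nat_lit 19) (nat_lit 4) (nat_lit 17) (nat_lit 4) (nat_lit 362) (nat_lit 230) (nat_lit 188))) (XT.nd (nat_lit 78) (nat_lit 0) (nat_lit 0) (XT.lf (nat_lit 0) (nat_lit 3996099709) (nat_lit 76) (nat_lit 17743372557) (nat_lit 76) (nat_lit 5444250624) (nat_lit 16) (nat_lit 4) (nat_lit 17) (nat_lit 5) (nat_lit 17) (nat_lit 4) (nat_lit 363) (nat_lit 230) (nat_lit 187)) (XT.lf (nat_lit 0) (nat_lit 12193119911) (nat_lit 76) (nat_lit 14056374517) (nat_lit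 76) (nat_lit 1617566677) (nat_lit 16) (nat_lit 4) (nat_lit 17) (nat_lit 5) (nat_lit 17) (nat_lit 4) (nat_lit 364) (nat_lit 230) (nat_lit 186)))))) (XT.nd (nat_lit 546) (nat_lit 152) (nat_lit 0) (XT.nd (nat_lit 234) (nat_lit 76) (nat_lit 0) (XT.nd (nat_lit 78) (nat_lit 76) (nat_lit 0) (XT.lf (nat_lit 0) (nat_lit 2232784620) (nat_lit 152) (nat_lit 8041872447) (nat_lit 76) (nat_lit 18296956389) (nat_lit 15) (nat_lit 5) (nat_lit 17) (nat_lit 5) (nat_lit 16) (nat_lit 4) (nat_lit 365) (nat_lit 230) (nat_lit 185)) (XT.nd (nat_lit 78) (nat_lit 76) (nat_lit 0) (XT.lf (nat_lit 0) (nat_lit 6121683355) (nat_lit 152) (nat_lit 279075379) (nat_lit 76) (nat_lit 22897407016) (nat_lit 15) (nat_lit 5) (nat_lit 17) (nat_lit 5) (nat_lit 16) (nat_lit 4) (nat_lit 366) (nat_lit 230) (nat_lit 184)) (XT.lf (nat_lit 0) (nat_lit 7788769011) (nat_lit 76) (nat_lit 2370193547) (nat_lit 152) (nat_lit 19886610642) (nat_lit 14)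 (nat_lit 5) (nat_lit 15) (nat_lit 5) (nat_lit 16) (nat_lit 4) (nat_lit 367) (nat_lit 230) (nat_lit 183)))) (XT.nd (nat_lit 156) (nat_lit 76) (nat_lit 0) (XT.nd (nat_lit 78) (nat_lit 0) (nat_lit 0) (XT.lf (nat_lit 0) (nat_lit 14294319574) (nat_lit 152) (nat_lit 14808080278) (nat_lit 0) (nat_lit 1713703939) (nat_lit 14) (nat_lit 5) (nat_lit 16) (nat_lit 4) (nat_lit 14) (nat_lit 4) (nat_lit 368) (nat_lit 230) (nat_lit 182)) (XT.lf (nat_lit 0) (nat_lit 18535447847) (nat_lit 152) (nat_lit 7237013092) (nat_lit 0) (nat_lit 5837847464) (nat_lit 14) (nat_lit 5) (nat_lit 16) (nat_lit 4) (nat_lit 14) (nat_lit 4) (nat_lit 369) (nat_lit 230) (nat_lit 181))) (XT.nd (nat_lit 78) (nat_lit 0) (nat_lit 0) (XT.lf (nat_lit 0) (nat_lit 495464920) (nat_lit 76) (nat_lit 22372567259) (nat_lit 76) (nat_lit 9561389450) (nat_lit 13) (nat_lit 4) (nat_lit 14) (nat_lit 5) (nat_lit 14) (nat_lit 4) (nat_lit 370) (nat_lit 230)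 (nat_lit 180)) (XT.lf (nat_lit 0) (nat_lit 8533618564) (nat_lit 76) (nat_lit 18829977824) (nat_lit 76) (nat_lit 5908530670) (nat_lit 13) (nat_lit 4) (nat_lit 14) (nat_lit 5) (nat_lit 14) (nat_lit 4) (nat_lit 371) (nat_lit 230) (nat_lit 179))))) (XT.nd (nat_lit 312) (nat_lit 0) (nat_lit 0) (XT.nd (nat_lit 156) (nat_lit 76) (nat_lit 0) (XT.nd (nat_lit 78) (nat_lit 76) (nat_lit 0) (XT.lf (nat_lit 0) (nat_lit 16740440719) (nat_lit 76) (nat_lit 15214676812) (nat_lit 76) (nat_lit 2186172041) (nat_lit 13) (nat_lit 4) (nat_lit 14) (nat_lit 5) (nat_lit 14) (nat_lit 4) (nat_lit 372) (nat_lit 230) (nat_lit 178)) (XT.lf (nat_lit 0) (nat_lit 1577542789) (nat_lit 152) (nat_lit 9930032341) (nat_lit 76) (nat_lit 23529629514) (nat_lit 12) (nat_lit 5) (nat_lit 14) (nat_lit 5) (nat_lit 13) (nat_lit 4) (nat_lit 373) (nat_lit 230) (nat_lit 177))) (XT.nd (nat_lit 78) (nat_lit 76) (nat_lit 0) (XT.lf (nat_lit 0) (nat_lit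 5373181672) (nat_lit 152) (nat_lit 2325797481) (nat_lit 76) (nat_lit 28261487971) (nat_lit 12) (nat_lit 5) (nat_lit 14) (nat_lit 5) (nat_lit 13) (nat_lit 4) (nat_lit 374) (nat_lit 230) (nat_lit 176)) (XT.lf (nat_lit 0) (nat_lit 5547772041) (nat_lit 76) (nat_lit 3752277812) (nat_lit 152) (nat_lit 27610864479) (nat_lit 11) (nat_lit 5) (nat_lit 12) (nat_lit 5) (nat_lit 13) (nat_lit 4) (nat_lit 375) (nat_lit 230) (nat_lit 175)))) (XT.nd (nat_lit 156) (nat_lit 0) (nat_lit 0) (XT.nd (nat_lit 78) (nat_lit 0) (nat_lit 0) (XT.lf (nat_lit 0) (nat_lit 13335594261) (nat_lit 152) (nat_lit 24254354625) (nat_lit 0) (nat_lit 300207399) (nat_lit 11) (nat_lit 5) (nat_lit 13) (nat_lit 4) (nat_lit 11) (nat_lit 4) (nat_lit 376) (nat_lit 230) (nat_lit 174)) (XT.lf (nat_lit 0) (nat_lit 17494545189) (nat_lit 152) (nat_lit 17034668061) (nat_lit 0) (nat_lit 4369499259) (nat_lit 11) (nat_lit 5) (nat_lit 13) (nat_lit 4) (nat_lit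 11) (nat_lit 4) (nat_lit 377) (nat_lit 230) (nat_lit 173))) (XT.nd (nat_lit 78) (nat_lit 0) (nat_lit 0) (XT.lf (nat_lit 0) (nat_lit 21744467484) (nat_lit 152) (nat_lit 9661704945) (nat_lit 0) (nat_lit 8532373915) (nat_lit 11) (nat_lit 5) (nat_lit 13) (nat_lit 4) (nat_lit 11) (nat_lit 4) (nat_lit 378) (nat_lit 230) (nat_lit 172)) (XT.lf (nat_lit 0) (nat_lit 26089074669) (nat_lit 152) (nat_lit 2129022883) (nat_lit 0) (nat_lit 12792468828) (nat_lit 11) (nat_lit 5) (nat_lit 13) (nat_lit 4) (nat_lit 11) (nat_lit 4) (nat_lit 379) (nat_lit 230) (nat_lit 171))))))))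
noncomputable def xc39 : XT := (XT.nd (nat_lit 2184) (nat_lit 0) (nat_lit 0) (XT.nd (nat_lit 1092) (nat_lit 152) (nat_lit 0) (XT.nd (nat_lit 546) (nat_lit 76) (nat_lit 0) (XT.nd (nat_lit 234) (nat_lit 152) (nat_lit 0) (XT.nd (nat_lit 78) (nat_lit 0) (nat_lit 0) (XT.lf (nat_lit 0) (nat_lit 5680813208) (nat_lit 76) (nat_lit 24905957247) (nat_lit 76) (nat_lit 11527300658) (nat_lit 10) (nat_lit 4) (nat_lit 11) (nat_lit 5) (nat_lit 11) (nat_lit 4) (nat_lit 380) (nat_lit 230) (nat_lit 170)) (XT.nd (nat_lit 78) (nat_lit 0) (nat_lit 0) (XT.lf (nat_lit 0) (nat_lit 13709492797) (nat_lit 76) (nat_lit 21499906031) (nat_lit 76) (nat_lit 8041588520) (nat_lit 10) (nat_lit 4) (nat_lit 11) (nat_lit 5) (nat_lit 11) (nat_lit 4) (nat_lit 381) (nat_lit 230) (nat_lit 169)) (XT.lf (nat_lit 0) (nat_lit 21921659507) (nat_lit 76) (nat_lit 18018466698) (nat_lit 76) (nat_lit 4482808487) (nat_lit 10) (nat_lit 4) (nat_lit 11)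 (nat_lit 5) (nat_lit 11) (nat_lit 4) (nat_lit 382) (nat_lit 230) (nat_lit 168)))) (XT.nd (nat_lit 156) (nat_lit 76) (nat_lit 0) (XT.nd (nat_lit 78) (nat_lit 76) (nat_lit 0) (XT.lf (nat_lit 0) (nat_lit 30324489015) (nat_lit 76) (nat_lit 14458597216) (nat_lit 76) (nat_lit 847850946) (nat_lit 10) (nat_lit 4) (nat_lit 11) (nat_lit 5) (nat_lit 11) (nat_lit 4) (nat_lit 383) (nat_lit 230) (nat_lit 167)) (XT.lf (nat_lit 0) (nat_lit 2810525314) (nat_lit 152) (nat_lit 7978280909) (nat_lit 76) (nat_lit 36086417492) (nat_lit 9) (nat_lit 5) (nat_lit 11) (nat_lit 5) (nat_lit 10) (nat_lit 4) (nat_lit 384) (nat_lit 230) (nat_lit 166))) (XT.nd (nat_lit 78) (nat_lit 76) (nat_lit 0) (XT.lf (nat_lit 0) (nat_lit 6533344341) (nat_lit 152) (nat_lit 491735981) (nat_lit 76) (nat_lit 41132360248) (nat_lit 9) (nat_lit 5) (nat_lit 11) (nat_lit 5) (nat_lit 10) (nat_lit 4) (nat_lit 385) (nat_lit 230) (nat_lit 165)) (XT.lf (nat_lit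 0) (nat_lit 7310533157) (nat_lit 76) (nat_lit 3100143867) (nat_lit 152) (nat_lit 39066167404) (nat_lit 8) (nat_lit 5) (nat_lit 9) (nat_lit 5) (nat_lit 10) (nat_lit 4) (nat_lit 386) (nat_lit 230) (nat_lit 164))))) (XT.nd (nat_lit 234) (nat_lit 76) (nat_lit 0) (XT.nd (nat_lit 78) (nat_lit 0) (nat_lit 0) (XT.lf (nat_lit 0) (nat_lit 14391039752) (nat_lit 152) (nat_lit 35539451871) (nat_lit 0) (nat_lit 905742693) (nat_lit 8) (nat_lit 5) (nat_lit 10) (nat_lit 4) (nat_lit 8) (nat_lit 4) (nat_lit 387) (nat_lit 230) (nat_lit 163)) (XT.nd (nat_lit 78) (nat_lit 0) (nat_lit 0) (XT.lf (nat_lit 0) (nat_lit 18494939945) (nat_lit 152) (nat_lit 28794589403) (nat_lit 0) (nat_lit 4946757818) (nat_lit 8) (nat_lit 5) (nat_lit 10) (nat_lit 4) (nat_lit 8) (nat_lit 4) (nat_lit 388) (nat_lit 230) (nat_lit 162)) (XT.lf (nat_lit 0) (nat_lit 22696163055) (nat_lit 152) (nat_lit 21896029818) (nat_lit 0) (nat_lit 9086927465)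 (nat_lit 8) (nat_lit 5) (nat_lit 10) (nat_lit 4) (nat_lit 8) (nat_lit 4) (nat_lit 389) (nat_lit 230) (nat_lit 161)))) (XT.nd (nat_lit 156) (nat_lit 76) (nat_lit 0) (XT.nd (nat_lit 78) (nat_lit 0) (nat_lit 0) (XT.lf (nat_lit 0) (nat_lit 26998380054) (nat_lit 152) (nat_lit 14837745251) (nat_lit 0) (nat_lit 13329869258) (nat_lit 8) (nat_lit 5) (nat_lit 10) (nat_lit 4) (nat_lit 8) (nat_lit 4) (nat_lit 390) (nat_lit 230) (nat_lit 160)) (XT.lf (nat_lit 0) (nat_lit 31405350161) (nat_lit 152) (nat_lit 7613568267) (nat_lit 0) (nat_lit 17679290620) (nat_lit 8) (nat_lit 5) (nat_lit 10) (nat_lit 4) (nat_lit 8) (nat_lit 4) (nat_lit 391) (nat_lit 230) (nat_lit 159))) (XT.nd (nat_lit 78) (nat_lit 76) (nat_lit 0) (XT.lf (nat_lit 0) (nat_lit 35920924127) (nat_lit 152) (nat_lit 217186479) (nat_lit 0) (nat_lit 22138992019) (nat_lit 8) (nat_lit 5) (nat_lit 10) (nat_lit 4) (nat_lit 8) (nat_lit 4) (nat_lit 392) (nat_lit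 230) (nat_lit 158)) (XT.lf (nat_lit 0) (nat_lit 7504298870) (nat_lit 76) (nat_lit 33116884639) (nat_lit 76) (nat_lit 19280707320) (nat_lit 7) (nat_lit 4) (nat_lit 8) (nat_lit 5) (nat_lit 8) (nat_lit 4) (nat_lit 393) (nat_lit 230) (nat_lit 157)))))) (XT.nd (nat_lit 546) (nat_lit 76) (nat_lit 0) (XT.nd (nat_lit 234) (nat_lit 76) (nat_lit 0) (XT.nd (nat_lit 78) (nat_lit 0) (nat_lit 0) (XT.lf (nat_lit 0) (nat_lit 15419080861) (nat_lit 76) (nat_lit 30022901343) (nat_lit 76) (nat_lit 16134058770) (nat_lit 7) (nat_lit 4) (nat_lit 8) (nat_lit 5) (nat_lit 8) (nat_lit 4) (nat_lit 394) (nat_lit 230) (nat_lit 156)) (XT.nd (nat_lit 78) (nat_lit 0) (nat_lit 0) (XT.lf (nat_lit 0) (nat_lit 23529752887) (nat_lit 76) (nat_lit 26855650393) (nat_lit 76) (nat_lit 12915676507) (nat_lit 7) (nat_lit 4) (nat_lit 8) (nat_lit 5) (nat_lit 8) (nat_lit 4) (nat_lit 395) (nat_lit 230) (nat_lit 155)) (XT.lf (nat_lit 0) (nat_lit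 31843401940) (nat_lit 76) (nat_lit 23612364291) (nat_lit 76) (nat_lit 9622748352) (nat_lit 7) (nat_lit 4) (nat_lit 8) (nat_lit 5) (nat_lit 8) (nat_lit 4) (nat_lit 396) (nat_lit 230) (nat_lit 154)))) (XT.nd (nat_lit 156) (nat_lit 76) (nat_lit 0) (XT.nd (nat_lit 78) (nat_lit 0) (nat_lit 0) (XT.lf (nat_lit 0) (nat_lit 40367292376) (nat_lit 76) (nat_lit 20290209096) (nat_lit 76) (nat_lit 6252396990) (nat_lit 7) (nat_lit 4) (nat_lit 8) (nat_lit 5) (nat_lit 8) (nat_lit 4) (nat_lit 397) (nat_lit 230) (nat_lit 153)) (XT.lf (nat_lit 0) (nat_lit 49108872253) (nat_lit 76) (nat_lit 16886281955) (nat_lit 76) (nat_lit 2801677453) (nat_lit 7) (nat_lit 4) (nat_lit 8) (nat_lit 5) (nat_lit 8) (nat_lit 4) (nat_lit 398) (nat_lit 230) (nat_lit 152))) (XT.nd (nat_lit 78) (nat_lit 0) (nat_lit 0) (XT.lf (nat_lit 0) (nat_lit 718133191) (nat_lit 152) (nat_lit 12672223633) (nat_lit 76) (nat_lit 57350394918) (nat_lit 6) (nat_lit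 5) (nat_lit 8) (nat_lit 5) (nat_lit 7) (nat_lit 4) (nat_lit 399) (nat_lit 230) (nat_lit 151)) (XT.lf (nat_lit 0) (nat_lit 4268057066) (nat_lit 152) (nat_lit 5509984487) (nat_lit 76) (nat_lit 62964694242) (nat_lit 6) (nat_lit 5) (nat_lit 8) (nat_lit 5) (nat_lit 7) (nat_lit 4) (nat_lit 400) (nat_lit 230) (nat_lit 150))))) (XT.nd (nat_lit 234) (nat_lit 0) (nat_lit 0) (XT.nd (nat_lit 78) (nat_lit 0) (nat_lit 0) (XT.lf (nat_lit 0) (nat_lit 1868407086) (nat_lit 76) (nat_lit 6055420051) (nat_lit 152) (nat_lit 66880975126) (nat_lit 5) (nat_lit 5) (nat_lit 6) (nat_lit 5) (nat_lit 7) (nat_lit 4) (nat_lit 401) (nat_lit 230) (nat_lit 149)) (XT.nd (nat_lit 78) (nat_lit 0) (nat_lit 0) (XT.lf (nat_lit 0) (nat_lit 9546270433) (nat_lit 76) (nat_lit 2180235415) (nat_lit 152) (nat_lit 65201111059) (nat_lit 5) (nat_lit 5) (nat_lit 6) (nat_lit 5) (nat_lit 7) (nat_lit 4) (nat_lit 402) (nat_lit 230) (nat_lit 148)) (XT.lf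 (nat_lit 0) (nat_lit 15642653596) (nat_lit 152) (nat_lit 61711257452) (nat_lit 0) (nat_lit 1760226439) (nat_lit 5) (nat_lit 5) (nat_lit 7) (nat_lit 4) (nat_lit 5) (nat_lit 4) (nat_lit 403) (nat_lit 230) (nat_lit 147)))) (XT.nd (nat_lit 156) (nat_lit 0) (nat_lit 0) (XT.nd (nat_lit 78) (nat_lit 0) (nat_lit 0) (XT.lf (nat_lit 0) (nat_lit 19680375435) (nat_lit 152) (nat_lit 55925856842) (nat_lit 0) (nat_lit 5759901779) (nat_lit 5) (nat_lit 5) (nat_lit 7) (nat_lit 4) (nat_lit 5) (nat_lit 4) (nat_lit 404) (nat_lit 230) (nat_lit 146)) (XT.lf (nat_lit 0) (nat_lit 23822241717) (nat_lit 152) (nat_lit 49999131684) (nat_lit 0) (nat_lit 9864829711) (nat_lit 5) (nat_lit 5) (nat_lit 7) (nat_lit 4) (nat_lit 5) (nat_lit 4) (nat_lit 405) (nat_lit 230) (nat_lit 145))) (XT.nd (nat_lit 78) (nat_lit 0) (nat_lit 0) (XT.lf (nat_lit 0) (nat_lit 28071871548) (nat_lit 152) (nat_lit 43925903286) (nat_lit 0) (nat_lit 14078597067)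 (nat_lit 5) (nat_lit 5) (nat_lit 7) (nat_lit 4) (nat_lit 5) (nat_lit 4) (nat_lit 406) (nat_lit 230) (nat_lit 144)) (XT.lf (nat_lit 0) (nat_lit 32432978197) (nat_lit 152) (nat_lit 37700864944) (nat_lit 0) (nat_lit 18404885779) (nat_lit 5) (nat_lit 5) (nat_lit 7) (nat_lit 4) (nat_lit 5) (nat_lit 4) (nat_lit 407) (nat_lit 230) (nat_lit 143))))))) (XT.nd (nat_lit 34320) (nat_lit 0) (nat_lit 2052) (XT.nd (nat_lit 33774) (nat_lit 0) (nat_lit 3724) (XT.nd (nat_lit 234) (nat_lit 0) (nat_lit 0) (XT.nd (nat_lit 78) (nat_lit 0) (nat_lit 0) (XT.lf (nat_lit 0) (nat_lit 36909372339) (nat_lit 152) (nat_lit 31318577304) (nat_lit 0) (nat_lit 22847476099) (nat_lit 5) (nat_lit 5) (nat_lit 7) (nat_lit 4) (nat_lit 5) (nat_lit 4) (nat_lit 408) (nat_lit 230) (nat_lit 142)) (XT.nd (nat_lit 78) (nat_lit 0) (nat_lit 0) (XT.lf (nat_lit 0) (nat_lit 41504965386) (nat_lit 152) (nat_lit 24773463609) (nat_lit 0) (nat_lit 27410249902)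 (nat_lit 5) (nat_lit 5) (nat_lit 7) (nat_lit 4) (nat_lit 5) (nat_lit 4) (nat_lit 409) (nat_lit 230) (nat_lit 141)) (XT.lf (nat_lit 0) (nat_lit 46223772906) (nat_lit 152) (nat_lit 18059804828) (nat_lit 0) (nat_lit 32097194077) (nat_lit 5) (nat_lit 5) (nat_lit 7) (nat_lit 4) (nat_lit 5) (nat_lit 4) (nat_lit 410) (nat_lit 230) (nat_lit 140)))) (XT.nd (nat_lit 33384) (nat_lit 0) (nat_lit 4788) (XT.nd (nat_lit 78) (nat_lit 0) (nat_lit 0) (XT.lf (nat_lit 0) (nat_lit 51069918129) (nat_lit 152) (nat_lit 11171734658) (nat_lit 0) (nat_lit 36912404014) (nat_lit 5) (nat_lit 5) (nat_lit 7) (nat_lit 4) (nat_lit 5) (nat_lit 4) (nat_lit 411) (nat_lit 230) (nat_lit 139)) (XT.lf (nat_lit 0) (nat_lit 56047635549) (nat_lit 152) (nat_lit 4103234396) (nat_lit 0) (nat_lit 41860087176) (nat_lit 5) (nat_lit 5) (nat_lit 7) (nat_lit 4) (nat_lit 5) (nat_lit 4) (nat_lit 412) (nat_lit 230) (nat_lit 138))) (XT.nd (nat_lit 78)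 (nat_lit 228) (nat_lit 0) (XT.lf (nat_lit 0) (nat_lit 1590892928) (nat_lit 304) (nat_lit 2163745220) (nat_lit 0) (nat_lit 1590892928) (nat_lit 71) (nat_lit 5) (nat_lit 75) (nat_lit 4) (nat_lit 71) (nat_lit 4) (nat_lit 318) (nat_lit 231) (nat_lit 231)) (XT.lf (nat_lit 0) (nat_lit 3264701166) (nat_lit 228) (nat_lit 4153973292) (nat_lit 228) (nat_lit 3444068753) (nat_lit 68) (nat_lit 4) (nat_lit 71) (nat_lit 5) (nat_lit 71) (nat_lit 4) (nat_lit 319) (nat_lit 231) (nat_lit 230))))) (XT.nd (nat_lit 234) (nat_lit 532) (nat_lit 0) (XT.nd (nat_lit 78) (nat_lit 456) (nat_lit 0) (XT.lf (nat_lit 0) (nat_lit 676736564) (nat_lit 304) (nat_lit 25357018) (nat_lit 76) (nat_lit 10338876436) (nat_lit 67) (nat_lit 5) (nat_lit 71) (nat_lit 5) (nat_lit 68) (nat_lit 4) (nat_lit 320) (nat_lit 231) (nat_lit 229)) (XT.nd (nat_lit 78) (nat_lit 228) (nat_lit 0) (XT.lf (nat_lit 0) (nat_lit 4861152458) (nat_lit 304) (nat_lit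 3509035800) (nat_lit 0) (nat_lit 2853108420) (nat_lit 64) (nat_lit 5) (nat_lit 68) (nat_lit 4) (nat_lit 64) (nat_lit 4) (nat_lit 321) (nat_lit 231) (nat_lit 228)) (XT.lf (nat_lit 0) (nat_lit 4201274458) (nat_lit 228) (nat_lit 4924999642) (nat_lit 228) (nat_lit 2286214617) (nat_lit 61) (nat_lit 4) (nat_lit 64) (nat_lit 5) (nat_lit 64) (nat_lit 4) (nat_lit 322) (nat_lit 231) (nat_lit 227)))) (XT.nd (nat_lit 156) (nat_lit 304) (nat_lit 0) (XT.nd (nat_lit 78) (nat_lit 0) (nat_lit 0) (XT.lf (nat_lit 0) (nat_lit 448888876) (nat_lit 152) (nat_lit 1373792794) (nat_lit 228) (nat_lit 9785731376) (nat_lit 58) (nat_lit 5) (nat_lit 60) (nat_lit 5) (nat_lit 61) (nat_lit 4) (nat_lit 323) (nat_lit 231) (nat_lit 226)) (XT.lf (nat_lit 0) (nat_lit 6012994017) (nat_lit 228) (nat_lit 3517149911) (nat_lit 0) (nat_lit 2279315580) (nat_lit 58) (nat_lit 5) (nat_lit 61) (nat_lit 4) (nat_lit 58) (nat_lit 4) (nat_lit 324)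 (nat_lit 231) (nat_lit 225))) (XT.nd (nat_lit 78) (nat_lit 76) (nat_lit 0) (XT.lf (nat_lit 0) (nat_lit 4278334913) (nat_lit 228) (nat_lit 6016675677) (nat_lit 228) (nat_lit 1722592043) (nat_lit 55) (nat_lit 4) (nat_lit 58) (nat_lit 5) (nat_lit 58) (nat_lit 4) (nat_lit 325) (nat_lit 231) (nat_lit 224)) (XT.lf (nat_lit 0) (nat_lit 2372650386) (nat_lit 304) (nat_lit 21686067) (nat_lit 76) (nat_lit 9838560234) (nat_lit 54) (nat_lit 5) (nat_lit 58) (nat_lit 5) (nat_lit 55) (nat_lit 4) (nat_lit 326) (nat_lit 231) (nat_lit 223)))))) (XT.nd (nat_lit 546) (nat_lit 684) (nat_lit 0) (XT.nd (nat_lit 234) (nat_lit 532) (nat_lit 0) (XT.nd (nat_lit 78) (nat_lit 304) (nat_lit 0) (XT.lf (nat_lit 0) (nat_lit 6559645352) (nat_lit 228) (nat_lit 4544881983) (nat_lit 0) (nat_lit 1349546325) (nat_lit 52) (nat_lit 5) (nat_lit 55) (nat_lit 4) (nat_lit 52) (nat_lit 4) (nat_lit 327) (nat_lit 231) (nat_lit 222)) (XT.nd (nat_lit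 78) (nat_lit 76) (nat_lit 0) (XT.lf (nat_lit 0) (nat_lit 3294336313) (nat_lit 228) (nat_lit 7548245773) (nat_lit 228) (nat_lit 1840233985) (nat_lit 49) (nat_lit 4) (nat_lit 52) (nat_lit 5) (nat_lit 52) (nat_lit 4) (nat_lit 328) (nat_lit 231) (nat_lit 221)) (XT.lf (nat_lit 0) (nat_lit 2251349488) (nat_lit 304) (nat_lit 1621182772) (nat_lit 76) (nat_lit 9046412576) (nat_lit 48) (nat_lit 5) (nat_lit 52) (nat_lit 5) (nat_lit 49) (nat_lit 4) (nat_lit 329) (nat_lit 231) (nat_lit 220)))) (XT.nd (nat_lit 156) (nat_lit 228) (nat_lit 0) (XT.nd (nat_lit 78) (nat_lit 152) (nat_lit 0) (XT.lf (nat_lit 0) (nat_lit 6345780713) (nat_lit 152) (nat_lit 61378635) (nat_lit 228) (nat_lit 6755134222) (nat_lit 46) (nat_lit 5) (nat_lit 48) (nat_lit 5) (nat_lit 49) (nat_lit 4) (nat_lit 330) (nat_lit 231) (nat_lit 219)) (XT.lf (nat_lit 0) (nat_lit 1015505592) (nat_lit 152) (nat_lit 9653584346) (nat_lit 152) (nat_lit 2744445051)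 (nat_lit 44) (nat_lit 4) (nat_lit 46) (nat_lit 5) (nat_lit 46) (nat_lit 4) (nat_lit 331) (nat_lit 231) (nat_lit 218))) (XT.nd (nat_lit 78) (nat_lit 152) (nat_lit 0) (XT.lf (nat_lit 0) (nat_lit 1347863029) (nat_lit 228) (nat_lit 4602481265) (nat_lit 76) (nat_lit 7721952420) (nat_lit 43) (nat_lit 5) (nat_lit 46) (nat_lit 5) (nat_lit 44) (nat_lit 4) (nat_lit 332) (nat_lit 231) (nat_lit 217)) (XT.lf (nat_lit 0) (nat_lit 3328962081) (nat_lit 152) (nat_lit 2131431709) (nat_lit 228) (nat_lit 8479066490) (nat_lit 41) (nat_lit 5) (nat_lit 43) (nat_lit 5) (nat_lit 44) (nat_lit 4) (nat_lit 333) (nat_lit 231) (nat_lit 216))))) (XT.nd (nat_lit 312) (nat_lit 304) (nat_lit 0) (XT.nd (nat_lit 156) (nat_lit 228) (nat_lit 0) (XT.nd (nat_lit 78) (nat_lit 152) (nat_lit 0) (XT.lf (nat_lit 0) (nat_lit 9681654217) (nat_lit 228) (nat_lit 2774603246) (nat_lit 0) (nat_lit 1758852322) (nat_lit 41) (nat_lit 5) (nat_lit 44)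 (nat_lit 4) (nat_lit 41) (nat_lit 4) (nat_lit 334) (nat_lit 231) (nat_lit 215)) (XT.lf (nat_lit 0) (nat_lit 5245318081) (nat_lit 152) (nat_lit 8779152222) (nat_lit 152) (nat_lit 474741657) (nat_lit 39) (nat_lit 4) (nat_lit 41) (nat_lit 5) (nat_lit 41) (nat_lit 4) (nat_lit 335) (nat_lit 231) (nat_lit 214))) (XT.nd (nat_lit 78) (nat_lit 152) (nat_lit 0) (XT.lf (nat_lit 0) (nat_lit 3585304131) (nat_lit 228) (nat_lit 1396737032) (nat_lit 76) (nat_lit 9810199864) (nat_lit 38) (nat_lit 5) (nat_lit 41) (nat_lit 5) (nat_lit 39) (nat_lit 4) (nat_lit 336) (nat_lit 231) (nat_lit 213)) (XT.lf (nat_lit 0) (nat_lit 6693351443) (nat_lit 152) (nat_lit 1054411430) (nat_lit 228) (nat_lit 7346480594) (nat_lit 36) (nat_lit 5) (nat_lit 38) (nat_lit 5) (nat_lit 39) (nat_lit 4) (nat_lit 337) (nat_lit 231) (nat_lit 212)))) (XT.nd (nat_lit 156) (nat_lit 76) (nat_lit 0) (XT.nd (nat_lit 78) (nat_lit 228) (nat_lit 0) (XT.lf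 (nat_lit 0) (nat_lit 12004318948) (nat_lit 228) (nat_lit 508136328) (nat_lit 0) (nat_lit 2893801294) (nat_lit 36) (nat_lit 5) (nat_lit 39) (nat_lit 4) (nat_lit 36) (nat_lit 4) (nat_lit 338) (nat_lit 231) (nat_lit 211)) (XT.lf (nat_lit 0) (nat_lit 660343509) (nat_lit 228) (nat_lit 8099199321) (nat_lit 76) (nat_lit 6967553386) (nat_lit 33) (nat_lit 5) (nat_lit 36) (nat_lit 5) (nat_lit 34) (nat_lit 4) (nat_lit 339) (nat_lit 231) (nat_lit 210))) (XT.nd (nat_lit 78) (nat_lit 76) (nat_lit 0) (XT.lf (nat_lit 0) (nat_lit 4709843247) (nat_lit 228) (nat_lit 198306105) (nat_lit 76) (nat_lit 11150414430) (nat_lit 33) (nat_lit 5) (nat_lit 36) (nat_lit 5) (nat_lit 34) (nat_lit 4) (nat_lit 340) (nat_lit 231) (nat_lit 209)) (XT.lf (nat_lit 0) (nat_lit 7973266049) (nat_lit 76) (nat_lit 914830856) (nat_lit 152) (nat_lit 7511684657) (nat_lit 32) (nat_lit 5) (nat_lit 33) (nat_lit 5) (nat_lit 34) (nat_lit 4) (nat_lit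 341) (nat_lit 231) (nat_lit 208))))))))
noncomputable def xc40 : XT := (XT.nd (nat_lit 2184) (nat_lit 532) (nat_lit 0) (XT.nd (nat_lit 1092) (nat_lit 456) (nat_lit 0) (XT.nd (nat_lit 546) (nat_lit 380) (nat_lit 0) (XT.nd (nat_lit 234) (nat_lit 304) (nat_lit 0) (XT.nd (nat_lit 78) (nat_lit 228) (nat_lit 0) (XT.lf (nat_lit 0) (nat_lit 13155447406) (nat_lit 152) (nat_lit 510205605) (nat_lit 0) (nat_lit 3086693932) (nat_lit 32) (nat_lit 5) (nat_lit 34) (nat_lit 4) (nat_lit 32) (nat_lit 4) (nat_lit 342) (nat_lit 231) (nat_lit 207)) (XT.nd (nat_lit 78) (nat_lit 0) (nat_lit 0) (XT.lf (nat_lit 0) (nat_lit 442702755) (nat_lit 228) (nat_lit 9454019570) (nat_lit 76) (nat_lit 7218187562) (nat_lit 29) (nat_lit 5) (nat_lit 32) (nat_lit 5) (nat_lit 30) (nat_lit 4) (nat_lit 343) (nat_lit 231) (nat_lit 206)) (XT.lf (nat_lit 0) (nat_lit 4469539545) (nat_lit 228) (nat_lit 1555223109) (nat_lit 76) (nat_lit 11464390011)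 (nat_lit 29) (nat_lit 5) (nat_lit 32) (nat_lit 5) (nat_lit 30) (nat_lit 4) (nat_lit 344) (nat_lit 231) (nat_lit 205)))) (XT.nd (nat_lit 156) (nat_lit 228) (nat_lit 0) (XT.nd (nat_lit 78) (nat_lit 0) (nat_lit 0) (XT.lf (nat_lit 0) (nat_lit 6593727028) (nat_lit 76) (nat_lit 2021922261) (nat_lit 152) (nat_lit 9259040322) (nat_lit 28) (nat_lit 5) (nat_lit 29) (nat_lit 5) (nat_lit 30) (nat_lit 4) (nat_lit 345) (nat_lit 231) (nat_lit 204)) (XT.lf (nat_lit 0) (nat_lit 12857592373) (nat_lit 152) (nat_lit 3388453627) (nat_lit 0) (nat_lit 2026623475) (nat_lit 28) (nat_lit 5) (nat_lit 30) (nat_lit 4) (nat_lit 28) (nat_lit 4) (nat_lit 346) (nat_lit 231) (nat_lit 203))) (XT.nd (nat_lit 78) (nat_lit 76) (nat_lit 0) (XT.lf (nat_lit 0) (nat_lit 4700093631) (nat_lit 152) (nat_lit 12529174783) (nat_lit 152) (nat_lit 1453265800) (nat_lit 26) (nat_lit 4) (nat_lit 28) (nat_lit 5) (nat_lit 28) (nat_lit 4) (nat_lit 347)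 (nat_lit 231) (nat_lit 202)) (XT.lf (nat_lit 0) (nat_lit 2548085209) (nat_lit 228) (nat_lit 6141101914) (nat_lit 76) (nat_lit 10415610013) (nat_lit 25) (nat_lit 5) (nat_lit 28) (nat_lit 5) (nat_lit 26) (nat_lit 4) (nat_lit 348) (nat_lit 231) (nat_lit 201))))) (XT.nd (nat_lit 234) (nat_lit 304) (nat_lit 0) (XT.nd (nat_lit 78) (nat_lit 0) (nat_lit 0) (XT.lf (nat_lit 0) (nat_lit 1847829595) (nat_lit 76) (nat_lit 4749423609) (nat_lit 152) (nat_lit 12943351555) (nat_lit 24) (nat_lit 5) (nat_lit 25) (nat_lit 5) (nat_lit 26) (nat_lit 4) (nat_lit 349) (nat_lit 231) (nat_lit 200)) (XT.nd (nat_lit 78) (nat_lit 0) (nat_lit 0) (XT.lf (nat_lit 0) (nat_lit 10094070988) (nat_lit 76) (nat_lit 675791215) (nat_lit 152) (nat_lit 9219582949) (nat_lit 24) (nat_lit 5) (nat_lit 25) (nat_lit 5) (nat_lit 26) (nat_lit 4) (nat_lit 350) (nat_lit 231) (nat_lit 199)) (XT.lf (nat_lit 0) (nat_lit 15042738360) (nat_lit 152) (nat_lit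 2004296030) (nat_lit 0) (nat_lit 3405480711) (nat_lit 24) (nat_lit 5) (nat_lit 26) (nat_lit 4) (nat_lit 24) (nat_lit 4) (nat_lit 351) (nat_lit 231) (nat_lit 198)))) (XT.nd (nat_lit 156) (nat_lit 76) (nat_lit 0) (XT.nd (nat_lit 78) (nat_lit 76) (nat_lit 0) (XT.lf (nat_lit 0) (nat_lit 6133195420) (nat_lit 152) (nat_lit 13319215526) (nat_lit 152) (nat_lit 1476824412) (nat_lit 22) (nat_lit 4) (nat_lit 24) (nat_lit 5) (nat_lit 24) (nat_lit 4) (nat_lit 352) (nat_lit 231) (nat_lit 197)) (XT.lf (nat_lit 0) (nat_lit 2487393377) (nat_lit 228) (nat_lit 6992141260) (nat_lit 76) (nat_lit 11941090618) (nat_lit 21) (nat_lit 5) (nat_lit 24) (nat_lit 5) (nat_lit 22) (nat_lit 4) (nat_lit 353) (nat_lit 231) (nat_lit 196))) (XT.nd (nat_lit 78) (nat_lit 0) (nat_lit 0) (XT.lf (nat_lit 0) (nat_lit 949345895) (nat_lit 76) (nat_lit 5545360349) (nat_lit 152) (nat_lit 15433011520) (nat_lit 20) (nat_lit 5) (nat_lit 21) (nat_lit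 5) (nat_lit 22) (nat_lit 4) (nat_lit 354) (nat_lit 231) (nat_lit 195)) (XT.lf (nat_lit 0) (nat_lit 9172962713) (nat_lit 76) (nat_lit 1465262249) (nat_lit 152) (nat_lit 11811333166) (nat_lit 20) (nat_lit 5) (nat_lit 21) (nat_lit 5) (nat_lit 22) (nat_lit 4) (nat_lit 355) (nat_lit 231) (nat_lit 194)))))) (XT.nd (nat_lit 546) (nat_lit 228) (nat_lit 0) (XT.nd (nat_lit 234) (nat_lit 152) (nat_lit 0) (XT.nd (nat_lit 78) (nat_lit 76) (nat_lit 0) (XT.lf (nat_lit 0) (nat_lit 14878913340) (nat_lit 152) (nat_lit 5467814944) (nat_lit 0) (nat_lit 2641153741) (nat_lit 20) (nat_lit 5) (nat_lit 22) (nat_lit 4) (nat_lit 20) (nat_lit 4) (nat_lit 356) (nat_lit 231) (nat_lit 193)) (XT.nd (nat_lit 78) (nat_lit 0) (nat_lit 0) (XT.lf (nat_lit 0) (nat_lit 2514905718) (nat_lit 76) (nat_lit 16718707832) (nat_lit 76) (nat_lit 4309152186) (nat_lit 19) (nat_lit 4) (nat_lit 20) (nat_lit 5) (nat_lit 20) (nat_lit 4) (nat_lit 357)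 (nat_lit 231) (nat_lit 192)) (XT.lf (nat_lit 0) (nat_lit 10755232599) (nat_lit 76) (nat_lit 12967653387) (nat_lit 76) (nat_lit 391305462) (nat_lit 19) (nat_lit 4) (nat_lit 20) (nat_lit 5) (nat_lit 20) (nat_lit 4) (nat_lit 358) (nat_lit 231) (nat_lit 191)))) (XT.nd (nat_lit 156) (nat_lit 0) (nat_lit 0) (XT.nd (nat_lit 78) (nat_lit 76) (nat_lit 0) (XT.lf (nat_lit 0) (nat_lit 3522672546) (nat_lit 152) (nat_lit 5587256907) (nat_lit 76) (nat_lit 15593301115) (nat_lit 18) (nat_lit 5) (nat_lit 20) (nat_lit 5) (nat_lit 19) (nat_lit 4) (nat_lit 359) (nat_lit 231) (nat_lit 190)) (XT.lf (nat_lit 0) (nat_lit 2370426696) (nat_lit 76) (nat_lit 5149734186) (nat_lit 152) (nat_lit 17790457363) (nat_lit 17) (nat_lit 5) (nat_lit 18) (nat_lit 5) (nat_lit 19) (nat_lit 4) (nat_lit 360) (nat_lit 231) (nat_lit 189))) (XT.nd (nat_lit 78) (nat_lit 0) (nat_lit 0) (XT.lf (nat_lit 0) (nat_lit 10592701396) (nat_lit 76) (nat_lit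 1053032521) (nat_lit 152) (nat_lit 14290260764) (nat_lit 17) (nat_lit 5) (nat_lit 18) (nat_lit 5) (nat_lit 19) (nat_lit 4) (nat_lit 361) (nat_lit 231) (nat_lit 188)) (XT.lf (nat_lit 0) (nat_lit 15878281350) (nat_lit 152) (nat_lit 7636057154) (nat_lit 0) (nat_lit 3066309275) (nat_lit 17) (nat_lit 5) (nat_lit 19) (nat_lit 4) (nat_lit 17) (nat_lit 4) (nat_lit 362) (nat_lit 231) (nat_lit 187))))) (XT.nd (nat_lit 234) (nat_lit 76) (nat_lit 0) (XT.nd (nat_lit 78) (nat_lit 76) (nat_lit 0) (XT.lf (nat_lit 0) (nat_lit 211504920) (nat_lit 76) (nat_lit 19992903343) (nat_lit 76) (nat_lit 7041245360) (nat_lit 16) (nat_lit 4) (nat_lit 17) (nat_lit 5) (nat_lit 17) (nat_lit 4) (nat_lit 363) (nat_lit 231) (nat_lit 186)) (XT.nd (nat_lit 78) (nat_lit 76) (nat_lit 0) (XT.lf (nat_lit 0) (nat_lit 8367262578) (nat_lit 76) (nat_lit 16324839923) (nat_lit 76) (nat_lit 3237564554) (nat_lit 16) (nat_lit 4) (nat_lit 17) (nat_lit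 5) (nat_lit 17) (nat_lit 4) (nat_lit 364) (nat_lit 231) (nat_lit 185)) (XT.lf (nat_lit 0) (nat_lit 622501390) (nat_lit 152) (nat_lit 11955264910) (nat_lit 76) (nat_lit 16057582267) (nat_lit 15) (nat_lit 5) (nat_lit 17) (nat_lit 5) (nat_lit 16) (nat_lit 4) (nat_lit 365) (nat_lit 231) (nat_lit 184)))) (XT.nd (nat_lit 156) (nat_lit 0) (nat_lit 0) (XT.nd (nat_lit 78) (nat_lit 76) (nat_lit 0) (XT.lf (nat_lit 0) (nat_lit 4490140566) (nat_lit 152) (nat_lit 4231789777) (nat_lit 76) (nat_lit 20640613228) (nat_lit 15) (nat_lit 5) (nat_lit 17) (nat_lit 5) (nat_lit 16) (nat_lit 4) (nat_lit 366) (nat_lit 231) (nat_lit 183)) (XT.lf (nat_lit 0) (nat_lit 3718451422) (nat_lit 76) (nat_lit 4749201616) (nat_lit 152) (nat_lit 21644095764) (nat_lit 14) (nat_lit 5) (nat_lit 15) (nat_lit 5) (nat_lit 16) (nat_lit 4) (nat_lit 367) (nat_lit 231) (nat_lit 182))) (XT.nd (nat_lit 78) (nat_lit 0) (nat_lit 0) (XT.lf (nat_lit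 0) (nat_lit 11917208620) (nat_lit 76) (nat_lit 648597860) (nat_lit 152) (nat_lit 18317593658) (nat_lit 14) (nat_lit 5) (nat_lit 15) (nat_lit 5) (nat_lit 16) (nat_lit 4) (nat_lit 368) (nat_lit 231) (nat_lit 181)) (XT.lf (nat_lit 0) (nat_lit 16780729345) (nat_lit 152) (nat_lit 11426027296) (nat_lit 0) (nat_lit 3471638776) (nat_lit 14) (nat_lit 5) (nat_lit 16) (nat_lit 4) (nat_lit 14) (nat_lit 4) (nat_lit 369) (nat_lit 231) (nat_lit 180))))))) (XT.nd (nat_lit 1092) (nat_lit 228) (nat_lit 0) (XT.nd (nat_lit 546) (nat_lit 76) (nat_lit 0) (XT.nd (nat_lit 234) (nat_lit 152) (nat_lit 0) (XT.nd (nat_lit 78) (nat_lit 76) (nat_lit 0) (XT.lf (nat_lit 0) (nat_lit 21089161946) (nat_lit 152) (nat_lit 3739273590) (nat_lit 0) (nat_lit 7669802032) (nat_lit 14) (nat_lit 5) (nat_lit 16) (nat_lit 4) (nat_lit 14) (nat_lit 4) (nat_lit 370) (nat_lit 231) (nat_lit 179)) (XT.nd (nat_lit 78) (nat_lit 0) (nat_lit 0) (XT.lf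 (nat_lit 0) (nat_lit 4188758665) (nat_lit 76) (nat_lit 21340140461) (nat_lit 76) (nat_lit 7813722930) (nat_lit 13) (nat_lit 4) (nat_lit 14) (nat_lit 5) (nat_lit 14) (nat_lit 4) (nat_lit 371) (nat_lit 231) (nat_lit 178)) (XT.lf (nat_lit 0) (nat_lit 12360918186) (nat_lit 76) (nat_lit 17740892872) (nat_lit 76) (nat_lit 4110535907) (nat_lit 13) (nat_lit 4) (nat_lit 14) (nat_lit 5) (nat_lit 14) (nat_lit 4) (nat_lit 372) (nat_lit 231) (nat_lit 177)))) (XT.nd (nat_lit 156) (nat_lit 76) (nat_lit 0) (XT.nd (nat_lit 78) (nat_lit 76) (nat_lit 0) (XT.lf (nat_lit 0) (nat_lit 20709926819) (nat_lit 76) (nat_lit 14065307128) (nat_lit 76) (nat_lit 334038092) (nat_lit 13) (nat_lit 4) (nat_lit 14) (nat_lit 5) (nat_lit 14) (nat_lit 4) (nat_lit 373) (nat_lit 231) (nat_lit 176)) (XT.lf (nat_lit 0) (nat_lit 3450400629) (nat_lit 152) (nat_lit 6824928643) (nat_lit 76) (nat_lit 25757836903) (nat_lit 12) (nat_lit 5) (nat_lit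 14) (nat_lit 5) (nat_lit 13) (nat_lit 4) (nat_lit 374) (nat_lit 231) (nat_lit 175))) (XT.nd (nat_lit 78) (nat_lit 0) (nat_lit 0) (XT.lf (nat_lit 0) (nat_lit 926393903) (nat_lit 76) (nat_lit 6389249017) (nat_lit 152) (nat_lit 29669822901) (nat_lit 11) (nat_lit 5) (nat_lit 12) (nat_lit 5) (nat_lit 13) (nat_lit 4) (nat_lit 375) (nat_lit 231) (nat_lit 174)) (XT.lf (nat_lit 0) (nat_lit 8985702171) (nat_lit 76) (nat_lit 2345535384) (nat_lit 152) (nat_lit 26634072269) (nat_lit 11) (nat_lit 5) (nat_lit 12) (nat_lit 5) (nat_lit 13) (nat_lit 4) (nat_lit 376) (nat_lit 231) (nat_lit 173))))) (XT.nd (nat_lit 234) (nat_lit 76) (nat_lit 0) (XT.nd (nat_lit 78) (nat_lit 0) (nat_lit 0) (XT.lf (nat_lit 0) (nat_lit 15450992915) (nat_lit 152) (nat_lit 21768563554) (nat_lit 0) (nat_lit 1755488899) (nat_lit 11) (nat_lit 5) (nat_lit 13) (nat_lit 4) (nat_lit 11) (nat_lit 4) (nat_lit 377) (nat_lit 231) (nat_lit 172)) (XT.nd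 (nat_lit 78) (nat_lit 0) (nat_lit 0) (XT.lf (nat_lit 0) (nat_lit 19684751279) (nat_lit 152) (nat_lit 14425881200) (nat_lit 0) (nat_lit 5904734992) (nat_lit 11) (nat_lit 5) (nat_lit 13) (nat_lit 4) (nat_lit 11) (nat_lit 4) (nat_lit 378) (nat_lit 231) (nat_lit 171)) (XT.lf (nat_lit 0) (nat_lit 24013665328) (nat_lit 152) (nat_lit 6922597935) (nat_lit 0) (nat_lit 10151598292) (nat_lit 11) (nat_lit 5) (nat_lit 13) (nat_lit 4) (nat_lit 11) (nat_lit 4) (nat_lit 379) (nat_lit 231) (nat_lit 170)))) (XT.nd (nat_lit 156) (nat_lit 0) (nat_lit 0) (XT.nd (nat_lit 78) (nat_lit 0) (nat_lit 0) (XT.lf (nat_lit 0) (nat_lit 762726038) (nat_lit 76) (nat_lit 27686123359) (nat_lit 76) (nat_lit 13744395402) (nat_lit 10) (nat_lit 4) (nat_lit 11) (nat_lit 5) (nat_lit 11) (nat_lit 4) (nat_lit 380) (nat_lit 231) (nat_lit 169)) (XT.lf (nat_lit 0) (nat_lit 8763142934) (nat_lit 76) (nat_lit 24293270872) (nat_lit 76) (nat_lit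 10274202214) (nat_lit 10) (nat_lit 4) (nat_lit 11) (nat_lit 5) (nat_lit 11) (nat_lit 4) (nat_lit 381) (nat_lit 231) (nat_lit 168))) (XT.nd (nat_lit 78) (nat_lit 0) (nat_lit 0) (XT.lf (nat_lit 0) (nat_lit 16947870135) (nat_lit 76) (nat_lit 20824645840) (nat_lit 76) (nat_lit 6730489124) (nat_lit 10) (nat_lit 4) (nat_lit 11) (nat_lit 5) (nat_lit 11) (nat_lit 4) (nat_lit 382) (nat_lit 231) (nat_lit 167)) (XT.lf (nat_lit 0) (nat_lit 25324059344) (nat_lit 76) (nat_lit 17277217426) (nat_lit 76) (nat_lit 3110159682) (nat_lit 10) (nat_lit 4) (nat_lit 11) (nat_lit 5) (nat_lit 11) (nat_lit 4) (nat_lit 383) (nat_lit 231) (nat_lit 166)))))) (XT.nd (nat_lit 546) (nat_lit 76) (nat_lit 0) (XT.nd (nat_lit 234) (nat_lit 0) (nat_lit 0) (XT.nd (nat_lit 78) (nat_lit 76) (nat_lit 0) (XT.lf (nat_lit 0) (nat_lit 578437464) (nat_lit 152) (nat_lit 13063607386) (nat_lit 76) (nat_lit 33314751012) (nat_lit 9) (nat_lit 5) (nat_lit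 11) (nat_lit 5) (nat_lit 10) (nat_lit 4) (nat_lit 384) (nat_lit 231) (nat_lit 165)) (XT.nd (nat_lit 78) (nat_lit 76) (nat_lit 0) (XT.lf (nat_lit 0) (nat_lit 4287737166) (nat_lit 152) (nat_lit 5602445202) (nat_lit 76) (nat_lit 38349238575) (nat_lit 9) (nat_lit 5) (nat_lit 11) (nat_lit 5) (nat_lit 10) (nat_lit 4) (nat_lit 385) (nat_lit 231) (nat_lit 164)) (XT.lf (nat_lit 0) (nat_lit 2072976907) (nat_lit 76) (nat_lit 6028620789) (nat_lit 152) (nat_lit 41459133839) (nat_lit 8) (nat_lit 5) (nat_lit 9) (nat_lit 5) (nat_lit 10) (nat_lit 4) (nat_lit 386) (nat_lit 231) (nat_lit 163)))) (XT.nd (nat_lit 156) (nat_lit 0) (nat_lit 0) (XT.nd (nat_lit 78) (nat_lit 0) (nat_lit 0) (XT.lf (nat_lit 0) (nat_lit 10043970583) (nat_lit 76) (nat_lit 2016132185) (nat_lit 152) (nat_lit 38860676879) (nat_lit 8) (nat_lit 5) (nat_lit 9) (nat_lit 5) (nat_lit 10) (nat_lit 4) (nat_lit 387) (nat_lit 231) (nat_lit 162)) (XT.lf (nat_lit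 0) (nat_lit 16131916217) (nat_lit 152) (nat_lit 34136531206) (nat_lit 0) (nat_lit 2053350097) (nat_lit 8) (nat_lit 5) (nat_lit 10) (nat_lit 4) (nat_lit 8) (nat_lit 4) (nat_lit 388) (nat_lit 231) (nat_lit 161))) (XT.nd (nat_lit 78) (nat_lit 0) (nat_lit 0) (XT.lf (nat_lit 0) (nat_lit 20320802970) (nat_lit 152) (nat_lit 27261238520) (nat_lit 0) (nat_lit 6182961643) (nat_lit 8) (nat_lit 5) (nat_lit 10) (nat_lit 4) (nat_lit 8) (nat_lit 4) (nat_lit 389) (nat_lit 231) (nat_lit 160)) (XT.lf (nat_lit 0) (nat_lit 24611042924) (nat_lit 152) (nat_lit 20225543175) (nat_lit 0) (nat_lit 10415652853) (nat_lit 8) (nat_lit 5) (nat_lit 10) (nat_lit 4) (nat_lit 8) (nat_lit 4) (nat_lit 390) (nat_lit 231) (nat_lit 159))))) (XT.nd (nat_lit 312) (nat_lit 0) (nat_lit 0) (XT.nd (nat_lit 156) (nat_lit 76) (nat_lit 0) (XT.nd (nat_lit 78) (nat_lit 0) (nat_lit 0) (XT.lf (nat_lit 0) (nat_lit 29006384832) (nat_lit 152) (nat_lit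 13023297475) (nat_lit 0) (nat_lit 14755122193) (nat_lit 8) (nat_lit 5) (nat_lit 10) (nat_lit 4) (nat_lit 8) (nat_lit 4) (nat_lit 391) (nat_lit 231) (nat_lit 158)) (XT.lf (nat_lit 0) (nat_lit 33510669284) (nat_lit 152) (nat_lit 5648208195) (nat_lit 0) (nat_lit 19205161434) (nat_lit 8) (nat_lit 5) (nat_lit 10) (nat_lit 4) (nat_lit 8) (nat_lit 4) (nat_lit 392) (nat_lit 231) (nat_lit 157))) (XT.nd (nat_lit 78) (nat_lit 0) (nat_lit 0) (XT.lf (nat_lit 0) (nat_lit 1944105415) (nat_lit 76) (nat_lit 36202414577) (nat_lit 76) (nat_lit 21844241474) (nat_lit 7) (nat_lit 4) (nat_lit 8) (nat_lit 5) (nat_lit 8) (nat_lit 4) (nat_lit 393) (nat_lit 231) (nat_lit 156)) (XT.lf (nat_lit 0) (nat_lit 9838417739) (nat_lit 76) (nat_lit 33118062732) (nat_lit 76) (nat_lit 18708758315) (nat_lit 7) (nat_lit 4) (nat_lit 8) (nat_lit 5) (nat_lit 8) (nat_lit 4) (nat_lit 394) (nat_lit 231) (nat_lit 155)))) (XT.nd (nat_lit 156) (nat_lit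 0) (nat_lit 0) (XT.nd (nat_lit 78) (nat_lit 0) (nat_lit 0) (XT.lf (nat_lit 0) (nat_lit 17929216300) (nat_lit 76) (nat_lit 29960162707) (nat_lit 76) (nat_lit 15501216237) (nat_lit 7) (nat_lit 4) (nat_lit 8) (nat_lit 5) (nat_lit 8) (nat_lit 4) (nat_lit 395) (nat_lit 231) (nat_lit 154)) (XT.lf (nat_lit 0) (nat_lit 26223570728) (nat_lit 76) (nat_lit 26725955171) (nat_lit 76) (nat_lit 12218812534) (nat_lit 7) (nat_lit 4) (nat_lit 8) (nat_lit 5) (nat_lit 8) (nat_lit 4) (nat_lit 396) (nat_lit 231) (nat_lit 153))) (XT.nd (nat_lit 78) (nat_lit 0) (nat_lit 0) (XT.lf (nat_lit 0) (nat_lit 34728728518) (nat_lit 76) (nat_lit 23412614119) (nat_lit 76) (nat_lit 8858679087) (nat_lit 7) (nat_lit 4) (nat_lit 8) (nat_lit 5) (nat_lit 8) (nat_lit 4) (nat_lit 397) (nat_lit 231) (nat_lit 152)) (XT.lf (nat_lit 0) (nat_lit 43452121360) (nat_lit 76) (nat_lit 20017244397) (nat_lit 76) (nat_lit 5417879855) (nat_lit 7) (nat_lit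 4) (nat_lit 8) (nat_lit 5) (nat_lit 8) (nat_lit 4) (nat_lit 398) (nat_lit 231) (nat_lit 151))))))))
noncomputable def xc41 : XT := (XT.nd (nat_lit 35256) (nat_lit 0) (nat_lit 1064) (XT.nd (nat_lit 34164) (nat_lit 0) (nat_lit 3268) (XT.nd (nat_lit 546) (nat_lit 0) (nat_lit 0) (XT.nd (nat_lit 234) (nat_lit 76) (nat_lit 0) (XT.nd (nat_lit 78) (nat_lit 76) (nat_lit 0) (XT.lf (nat_lit 0) (nat_lit 52401371637) (nat_lit 76) (nat_lit 16536879179) (nat_lit 76) (nat_lit 1893408316) (nat_lit 7) (nat_lit 4) (nat_lit 8) (nat_lit 5) (nat_lit 8) (nat_lit 4) (nat_lit 399) (nat_lit 231) (nat_lit 150)) (XT.nd (nat_lit 78) (nat_lit 0) (nat_lit 0) (XT.lf (nat_lit 0) (nat_lit 1684294404) (nat_lit 152) (nat_lit 11267174892) (nat_lit 76) (nat_lit 59882996607) (nat_lit 6) (nat_lit 5) (nat_lit 8) (nat_lit 5) (nat_lit 7) (nat_lit 4) (nat_lit 400) (nat_lit 231) (nat_lit 149)) (XT.lf (nat_lit 0) (nat_lit 5313202873) (nat_lit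 152) (nat_lit 3942065137) (nat_lit 76) (nat_lit 65642071809) (nat_lit 6) (nat_lit 5) (nat_lit 8) (nat_lit 5) (nat_lit 7) (nat_lit 4) (nat_lit 401) (nat_lit 231) (nat_lit 148)))) (XT.nd (nat_lit 156) (nat_lit 0) (nat_lit 0) (XT.nd (nat_lit 78) (nat_lit 0) (nat_lit 0) (XT.lf (nat_lit 0) (nat_lit 3640685841) (nat_lit 76) (nat_lit 5427745854) (nat_lit 152) (nat_lit 67953147819) (nat_lit 5) (nat_lit 5) (nat_lit 6) (nat_lit 5) (nat_lit 7) (nat_lit 4) (nat_lit 402) (nat_lit 231) (nat_lit 147)) (XT.lf (nat_lit 0) (nat_lit 11498897908) (nat_lit 76) (nat_lit 1459878596) (nat_lit 152) (nat_lit 66250099186) (nat_lit 5) (nat_lit 5) (nat_lit 6) (nat_lit 5) (nat_lit 7) (nat_lit 4) (nat_lit 403) (nat_lit 231) (nat_lit 146))) (XT.nd (nat_lit 78) (nat_lit 0) (nat_lit 0) (XT.lf (nat_lit 0) (nat_lit 16974097013) (nat_lit 152) (nat_lit 61926424454) (nat_lit 0) (nat_lit 2561024298) (nat_lit 5) (nat_lit 5) (nat_lit 7)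 (nat_lit 4) (nat_lit 5) (nat_lit 4) (nat_lit 404) (nat_lit 231) (nat_lit 145)) (XT.lf (nat_lit 0) (nat_lit 21107838940) (nat_lit 152) (nat_lit 56015117284) (nat_lit 0) (nat_lit 6658903750) (nat_lit 5) (nat_lit 5) (nat_lit 7) (nat_lit 4) (nat_lit 5) (nat_lit 4) (nat_lit 405) (nat_lit 231) (nat_lit 144))))) (XT.nd (nat_lit 234) (nat_lit 0) (nat_lit 0) (XT.nd (nat_lit 78) (nat_lit 0) (nat_lit 0) (XT.lf (nat_lit 0) (nat_lit 25349581048) (nat_lit 152) (nat_lit 49956857806) (nat_lit 0) (nat_lit 10865827922) (nat_lit 5) (nat_lit 5) (nat_lit 7) (nat_lit 4) (nat_lit 5) (nat_lit 4) (nat_lit 406) (nat_lit 231) (nat_lit 143)) (XT.nd (nat_lit 78) (nat_lit 0) (nat_lit 0) (XT.lf (nat_lit 0) (nat_lit 29703029714) (nat_lit 152) (nat_lit 43746352396) (nat_lit 0) (nat_lit 15185472765) (nat_lit 5) (nat_lit 5) (nat_lit 7) (nat_lit 4) (nat_lit 5) (nat_lit 4) (nat_lit 407) (nat_lit 231) (nat_lit 142)) (XT.lf (nat_lit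 0) (nat_lit 34171988920) (nat_lit 152) (nat_lit 37378174398) (nat_lit 0) (nat_lit 19621612726) (nat_lit 5) (nat_lit 5) (nat_lit 7) (nat_lit 4) (nat_lit 5) (nat_lit 4) (nat_lit 408) (nat_lit 231) (nat_lit 141)))) (XT.nd (nat_lit 156) (nat_lit 0) (nat_lit 0) (XT.nd (nat_lit 78) (nat_lit 0) (nat_lit 0) (XT.lf (nat_lit 0) (nat_lit 38760363584) (nat_lit 152) (nat_lit 30846759386) (nat_lit 0) (nat_lit 24178124046) (nat_lit 5) (nat_lit 5) (nat_lit 7) (nat_lit 4) (nat_lit 5) (nat_lit 4) (nat_lit 409) (nat_lit 231) (nat_lit 140)) (XT.lf (nat_lit 0) (nat_lit 43472162965) (nat_lit 152) (nat_lit 24146400297) (nat_lit 0) (nat_lit 28858988140) (nat_lit 5) (nat_lit 5) (nat_lit 7) (nat_lit 4) (nat_lit 5) (nat_lit 4) (nat_lit 410) (nat_lit 231) (nat_lit 139))) (XT.nd (nat_lit 78) (nat_lit 0) (nat_lit 0) (XT.lf (nat_lit 0) (nat_lit 48311504168) (nat_lit 152) (nat_lit 17271242449) (nat_lit 0) (nat_lit 33668295086)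 (nat_lit 5) (nat_lit 5) (nat_lit 7) (nat_lit 4) (nat_lit 5) (nat_lit 4) (nat_lit 411) (nat_lit 231) (nat_lit 138)) (XT.lf (nat_lit 0) (nat_lit 53282615745) (nat_lit 152) (nat_lit 10215278422) (nat_lit 0) (nat_lit 38610247189) (nat_lit 5) (nat_lit 5) (nat_lit 7) (nat_lit 4) (nat_lit 5) (nat_lit 4) (nat_lit 412) (nat_lit 231) (nat_lit 137)))))) (XT.nd (nat_lit 546) (nat_lit 988) (nat_lit 0) (XT.nd (nat_lit 234) (nat_lit 760) (nat_lit 0) (XT.nd (nat_lit 78) (nat_lit 304) (nat_lit 0) (XT.lf (nat_lit 0) (nat_lit 858247589) (nat_lit 228) (nat_lit 2161572430) (nat_lit 228) (nat_lit 2161572430) (nat_lit 75) (nat_lit 4) (nat_lit 78) (nat_lit 5) (nat_lit 78) (nat_lit 4) (nat_lit 316) (nat_lit 232) (nat_lit 232)) (XT.nd (nat_lit 78) (nat_lit 304) (nat_lit 0) (XT.lf (nat_lit 0) (nat_lit 9279590073) (nat_lit 228) (nat_lit 999573755) (nat_lit 228) (nat_lit 246436030) (nat_lit 75) (nat_lit 4) (nat_lit 78) (nat_lit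 5) (nat_lit 78) (nat_lit 4) (nat_lit 317) (nat_lit 232) (nat_lit 231)) (XT.lf (nat_lit 0) (nat_lit 3865524253) (nat_lit 304) (nat_lit 4402571914) (nat_lit 0) (nat_lit 2424418041) (nat_lit 71) (nat_lit 5) (nat_lit 75) (nat_lit 4) (nat_lit 71) (nat_lit 4) (nat_lit 318) (nat_lit 232) (nat_lit 230)))) (XT.nd (nat_lit 156) (nat_lit 456) (nat_lit 0) (XT.nd (nat_lit 78) (nat_lit 76) (nat_lit 0) (XT.lf (nat_lit 0) (nat_lit 3113780045) (nat_lit 228) (nat_lit 4941101210) (nat_lit 228) (nat_lit 2810767291) (nat_lit 68) (nat_lit 4) (nat_lit 71) (nat_lit 5) (nat_lit 71) (nat_lit 4) (nat_lit 319) (nat_lit 232) (nat_lit 229)) (XT.lf (nat_lit 0) (nat_lit 1251771657) (nat_lit 304) (nat_lit 258390568) (nat_lit 76) (nat_lit 9534933514) (nat_lit 67) (nat_lit 5) (nat_lit 71) (nat_lit 5) (nat_lit 68) (nat_lit 4) (nat_lit 320) (nat_lit 232) (nat_lit 228))) (XT.nd (nat_lit 78) (nat_lit 228) (nat_lit 0) (XT.lf (nat_lit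 0) (nat_lit 5380584578) (nat_lit 304) (nat_lit 3816635907) (nat_lit 0) (nat_lit 2031895015) (nat_lit 64) (nat_lit 5) (nat_lit 68) (nat_lit 4) (nat_lit 64) (nat_lit 4) (nat_lit 321) (nat_lit 232) (nat_lit 227)) (XT.lf (nat_lit 0) (nat_lit 3814748591) (nat_lit 228) (nat_lit 5783040108) (nat_lit 228) (nat_lit 1821980654) (nat_lit 61) (nat_lit 4) (nat_lit 64) (nat_lit 5) (nat_lit 64) (nat_lit 4) (nat_lit 322) (nat_lit 232) (nat_lit 226))))) (XT.nd (nat_lit 234) (nat_lit 532) (nat_lit 0) (XT.nd (nat_lit 78) (nat_lit 380) (nat_lit 0) (XT.lf (nat_lit 0) (nat_lit 2229493006) (nat_lit 304) (nat_lit 29722524) (nat_lit 76) (nat_lit 9357818081) (nat_lit 60) (nat_lit 5) (nat_lit 64) (nat_lit 5) (nat_lit 61) (nat_lit 4) (nat_lit 323) (nat_lit 232) (nat_lit 225)) (XT.nd (nat_lit 78) (nat_lit 228) (nat_lit 0) (XT.lf (nat_lit 0) (nat_lit 6367288995) (nat_lit 228) (nat_lit 4068411138) (nat_lit 0) (nat_lit 1383977654)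 (nat_lit 58) (nat_lit 5) (nat_lit 61) (nat_lit 4) (nat_lit 58) (nat_lit 4) (nat_lit 324) (nat_lit 232) (nat_lit 224)) (XT.lf (nat_lit 0) (nat_lit 3644864738) (nat_lit 228) (nat_lit 6955913811) (nat_lit 228) (nat_lit 1428519753) (nat_lit 55) (nat_lit 4) (nat_lit 58) (nat_lit 5) (nat_lit 58) (nat_lit 4) (nat_lit 325) (nat_lit 232) (nat_lit 223)))) (XT.nd (nat_lit 156) (nat_lit 304) (nat_lit 0) (XT.nd (nat_lit 78) (nat_lit 152) (nat_lit 0) (XT.lf (nat_lit 0) (nat_lit 2618682702) (nat_lit 304) (nat_lit 739703818) (nat_lit 76) (nat_lit 8887410417) (nat_lit 54) (nat_lit 5) (nat_lit 58) (nat_lit 5) (nat_lit 55) (nat_lit 4) (nat_lit 326) (nat_lit 232) (nat_lit 222)) (XT.lf (nat_lit 0) (nat_lit 6747300206) (nat_lit 228) (nat_lit 5351309470) (nat_lit 0) (nat_lit 370135305) (nat_lit 52) (nat_lit 5) (nat_lit 55) (nat_lit 4) (nat_lit 52) (nat_lit 4) (nat_lit 327) (nat_lit 232) (nat_lit 221))) (XT.nd (nat_lit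 78) (nat_lit 76) (nat_lit 0) (XT.lf (nat_lit 0) (nat_lit 2402203917) (nat_lit 228) (nat_lit 8578679303) (nat_lit 228) (nat_lit 1718103955) (nat_lit 49) (nat_lit 4) (nat_lit 52) (nat_lit 5) (nat_lit 52) (nat_lit 4) (nat_lit 328) (nat_lit 232) (nat_lit 220)) (XT.lf (nat_lit 0) (nat_lit 2330439295) (nat_lit 304) (nat_lit 2599114108) (nat_lit 76) (nat_lit 8006765099) (nat_lit 48) (nat_lit 5) (nat_lit 52) (nat_lit 5) (nat_lit 49) (nat_lit 4) (nat_lit 329) (nat_lit 232) (nat_lit 219))))))) (XT.nd (nat_lit 1092) (nat_lit 836) (nat_lit 0) (XT.nd (nat_lit 546) (nat_lit 608) (nat_lit 0) (XT.nd (nat_lit 234) (nat_lit 380) (nat_lit 0) (XT.nd (nat_lit 78) (nat_lit 228) (nat_lit 0) (XT.lf (nat_lit 0) (nat_lit 5280603895) (nat_lit 152) (nat_lit 1155933288) (nat_lit 228) (nat_lit 6744638958) (nat_lit 46) (nat_lit 5) (nat_lit 48) (nat_lit 5) (nat_lit 49) (nat_lit 4) (nat_lit 330) (nat_lit 232) (nat_lit 218)) (XT.nd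 (nat_lit 78) (nat_lit 228) (nat_lit 0) (XT.lf (nat_lit 0) (nat_lit 10638970721) (nat_lit 228) (nat_lit 144584496) (nat_lit 0) (nat_lit 2650664288) (nat_lit 46) (nat_lit 5) (nat_lit 49) (nat_lit 4) (nat_lit 46) (nat_lit 4) (nat_lit 331) (nat_lit 232) (nat_lit 217)) (XT.lf (nat_lit 0) (nat_lit 1257512748) (nat_lit 228) (nat_lit 5852549650) (nat_lit 76) (nat_lit 6584165675) (nat_lit 43) (nat_lit 5) (nat_lit 46) (nat_lit 5) (nat_lit 44) (nat_lit 4) (nat_lit 332) (nat_lit 232) (nat_lit 216)))) (XT.nd (nat_lit 156) (nat_lit 228) (nat_lit 0) (XT.nd (nat_lit 78) (nat_lit 0) (nat_lit 0) (XT.lf (nat_lit 0) (nat_lit 1987794400) (nat_lit 152) (nat_lit 3331389623) (nat_lit 228) (nat_lit 8643748989) (nat_lit 41) (nat_lit 5) (nat_lit 43) (nat_lit 5) (nat_lit 44) (nat_lit 4) (nat_lit 333) (nat_lit 232) (nat_lit 215)) (XT.lf (nat_lit 0) (nat_lit 9491172458) (nat_lit 228) (nat_lit 4192882446) (nat_lit 0) (nat_lit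 556020906) (nat_lit 41) (nat_lit 5) (nat_lit 44) (nat_lit 4) (nat_lit 41) (nat_lit 4) (nat_lit 334) (nat_lit 232) (nat_lit 214))) (XT.nd (nat_lit 78) (nat_lit 76) (nat_lit 0) (XT.lf (nat_lit 0) (nat_lit 3734277784) (nat_lit 152) (nat_lit 10048547599) (nat_lit 152) (nat_lit 742902192) (nat_lit 39) (nat_lit 4) (nat_lit 41) (nat_lit 5) (nat_lit 41) (nat_lit 4) (nat_lit 335) (nat_lit 232) (nat_lit 213)) (XT.lf (nat_lit 0) (nat_lit 3285830970) (nat_lit 228) (nat_lit 2995111309) (nat_lit 76) (nat_lit 8539001907) (nat_lit 38) (nat_lit 5) (nat_lit 41) (nat_lit 5) (nat_lit 39) (nat_lit 4) (nat_lit 336) (nat_lit 232) (nat_lit 212))))) (XT.nd (nat_lit 234) (nat_lit 228) (nat_lit 0) (XT.nd (nat_lit 78) (nat_lit 228) (nat_lit 0) (XT.lf (nat_lit 0) (nat_lit 5000391826) (nat_lit 152) (nat_lit 2396143147) (nat_lit 228) (nat_lit 7726977741) (nat_lit 36) (nat_lit 5) (nat_lit 38) (nat_lit 5) (nat_lit 39) (nat_lit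 4) (nat_lit 337) (nat_lit 232) (nat_lit 211)) (XT.nd (nat_lit 78) (nat_lit 228) (nat_lit 0) (XT.lf (nat_lit 0) (nat_lit 11604911011) (nat_lit 228) (nat_lit 2279228786) (nat_lit 0) (nat_lit 1552844475) (nat_lit 36) (nat_lit 5) (nat_lit 39) (nat_lit 4) (nat_lit 36) (nat_lit 4) (nat_lit 338) (nat_lit 232) (nat_lit 210)) (XT.lf (nat_lit 0) (nat_lit 185865681) (nat_lit 228) (nat_lit 9994350455) (nat_lit 76) (nat_lit 5579326200) (nat_lit 33) (nat_lit 5) (nat_lit 36) (nat_lit 5) (nat_lit 34) (nat_lit 4) (nat_lit 339) (nat_lit 232) (nat_lit 209)))) (XT.nd (nat_lit 156) (nat_lit 152) (nat_lit 0) (XT.nd (nat_lit 78) (nat_lit 76) (nat_lit 0) (XT.lf (nat_lit 0) (nat_lit 4201190551) (nat_lit 228) (nat_lit 2153523739) (nat_lit 76) (nat_lit 9737332805) (nat_lit 33) (nat_lit 5) (nat_lit 36) (nat_lit 5) (nat_lit 34) (nat_lit 4) (nat_lit 340) (nat_lit 232) (nat_lit 208)) (XT.lf (nat_lit 0) (nat_lit 5919658137) (nat_lit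 76) (nat_lit 2406866052) (nat_lit 152) (nat_lit 8108339885) (nat_lit 32) (nat_lit 5) (nat_lit 33) (nat_lit 5) (nat_lit 34) (nat_lit 4) (nat_lit 341) (nat_lit 232) (nat_lit 207))) (XT.nd (nat_lit 78) (nat_lit 152) (nat_lit 0) (XT.lf (nat_lit 0) (nat_lit 12546524066) (nat_lit 152) (nat_lit 2643053142) (nat_lit 0) (nat_lit 1599284028) (nat_lit 32) (nat_lit 5) (nat_lit 34) (nat_lit 4) (nat_lit 32) (nat_lit 4) (nat_lit 342) (nat_lit 232) (nat_lit 206)) (XT.lf (nat_lit 0) (nat_lit 5432139419) (nat_lit 152) (nat_lit 11471976790) (nat_lit 152) (nat_lit 249054529) (nat_lit 30) (nat_lit 4) (nat_lit 32) (nat_lit 5) (nat_lit 32) (nat_lit 4) (nat_lit 343) (nat_lit 232) (nat_lit 205)))))) (XT.nd (nat_lit 546) (nat_lit 380) (nat_lit 0) (XT.nd (nat_lit 234) (nat_lit 304) (nat_lit 0) (XT.nd (nat_lit 78) (nat_lit 76) (nat_lit 0) (XT.lf (nat_lit 0) (nat_lit 3750664335) (nat_lit 228) (nat_lit 3876726302) (nat_lit 76)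 (nat_lit 9901064343) (nat_lit 29) (nat_lit 5) (nat_lit 32) (nat_lit 5) (nat_lit 30) (nat_lit 4) (nat_lit 344) (nat_lit 232) (nat_lit 204)) (XT.nd (nat_lit 78) (nat_lit 0) (nat_lit 0) (XT.lf (nat_lit 0) (nat_lit 4169693563) (nat_lit 76) (nat_lit 3672732743) (nat_lit 152) (nat_lit 10073206059) (nat_lit 28) (nat_lit 5) (nat_lit 29) (nat_lit 5) (nat_lit 30) (nat_lit 4) (nat_lit 345) (nat_lit 232) (nat_lit 203)) (XT.lf (nat_lit 0) (nat_lit 12037602000) (nat_lit 152) (nat_lit 5892947300) (nat_lit 0) (nat_lit 384475664) (nat_lit 28) (nat_lit 5) (nat_lit 30) (nat_lit 4) (nat_lit 28) (nat_lit 4) (nat_lit 346) (nat_lit 232) (nat_lit 202)))) (XT.nd (nat_lit 156) (nat_lit 76) (nat_lit 0) (XT.nd (nat_lit 78) (nat_lit 76) (nat_lit 0) (XT.lf (nat_lit 0) (nat_lit 2090912570) (nat_lit 152) (nat_lit 14263285602) (nat_lit 152) (nat_lit 2372353359) (nat_lit 26) (nat_lit 4) (nat_lit 28) (nat_lit 5) (nat_lit 28) (nat_lit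 4) (nat_lit 347) (nat_lit 232) (nat_lit 201)) (XT.lf (nat_lit 0) (nat_lit 1616993044) (nat_lit 228) (nat_lit 8839315884) (nat_lit 76) (nat_lit 8693677639) (nat_lit 25) (nat_lit 5) (nat_lit 28) (nat_lit 5) (nat_lit 26) (nat_lit 4) (nat_lit 348) (nat_lit 232) (nat_lit 200))) (XT.nd (nat_lit 78) (nat_lit 76) (nat_lit 0) (XT.lf (nat_lit 0) (nat_lit 5619331276) (nat_lit 228) (nat_lit 938724149) (nat_lit 76) (nat_lit 13029152289) (nat_lit 25) (nat_lit 5) (nat_lit 28) (nat_lit 5) (nat_lit 26) (nat_lit 4) (nat_lit 349) (nat_lit 232) (nat_lit 199)) (XT.lf (nat_lit 0) (nat_lit 7237065396) (nat_lit 76) (nat_lit 2516953386) (nat_lit 152) (nat_lit 10283175349) (nat_lit 24) (nat_lit 5) (nat_lit 25) (nat_lit 5) (nat_lit 26) (nat_lit 4) (nat_lit 350) (nat_lit 232) (nat_lit 198))))) (XT.nd (nat_lit 312) (nat_lit 152) (nat_lit 0) (XT.nd (nat_lit 156) (nat_lit 76) (nat_lit 0) (XT.nd (nat_lit 78) (nat_lit 152) (nat_lit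 0) (XT.lf (nat_lit 0) (nat_lit 13981099575) (nat_lit 152) (nat_lit 4942243238) (nat_lit 0) (nat_lit 1578303263) (nat_lit 24) (nat_lit 5) (nat_lit 26) (nat_lit 4) (nat_lit 24) (nat_lit 4) (nat_lit 351) (nat_lit 232) (nat_lit 197)) (XT.lf (nat_lit 0) (nat_lit 3086385220) (nat_lit 152) (nat_lit 15247820510) (nat_lit 152) (nat_lit 2645865495) (nat_lit 22) (nat_lit 4) (nat_lit 24) (nat_lit 5) (nat_lit 24) (nat_lit 4) (nat_lit 352) (nat_lit 232) (nat_lit 196))) (XT.nd (nat_lit 78) (nat_lit 0) (nat_lit 0) (XT.lf (nat_lit 0) (nat_lit 1313935708) (nat_lit 228) (nat_lit 10128023492) (nat_lit 76) (nat_lit 10030663357) (nat_lit 21) (nat_lit 5) (nat_lit 24) (nat_lit 5) (nat_lit 22) (nat_lit 4) (nat_lit 353) (nat_lit 232) (nat_lit 195)) (XT.lf (nat_lit 0) (nat_lit 5285687164) (nat_lit 228) (nat_lit 2253094215) (nat_lit 76) (nat_lit 14442007758) (nat_lit 21) (nat_lit 5) (nat_lit 24) (nat_lit 5) (nat_lit 22) (nat_lit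 4) (nat_lit 354) (nat_lit 232) (nat_lit 194)))) (XT.nd (nat_lit 156) (nat_lit 76) (nat_lit 0) (XT.nd (nat_lit 78) (nat_lit 0) (nat_lit 0) (XT.lf (nat_lit 0) (nat_lit 5878119797) (nat_lit 76) (nat_lit 3502873987) (nat_lit 152) (nat_lit 13123089097) (nat_lit 20) (nat_lit 5) (nat_lit 21) (nat_lit 5) (nat_lit 22) (nat_lit 4) (nat_lit 355) (nat_lit 232) (nat_lit 193)) (XT.lf (nat_lit 0) (nat_lit 13576533234) (nat_lit 152) (nat_lit 8844339953) (nat_lit 0) (nat_lit 622894872) (nat_lit 20) (nat_lit 5) (nat_lit 22) (nat_lit 4) (nat_lit 20) (nat_lit 4) (nat_lit 356) (nat_lit 232) (nat_lit 192))) (XT.nd (nat_lit 78) (nat_lit 76) (nat_lit 0) (XT.lf (nat_lit 0) (nat_lit 17882241003) (nat_lit 152) (nat_lit 956076792) (nat_lit 0) (nat_lit 4761810362) (nat_lit 20) (nat_lit 5) (nat_lit 22) (nat_lit 4) (nat_lit 20) (nat_lit 4) (nat_lit 357) (nat_lit 232) (nat_lit 191)) (XT.lf (nat_lit 0) (nat_lit 7220284581) (nat_lit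 76) (nat_lit 15117328802) (nat_lit 76) (nat_lit 1834963910) (nat_lit 19) (nat_lit 4) (nat_lit 20) (nat_lit 5) (nat_lit 20) (nat_lit 4) (nat_lit 358) (nat_lit 232) (nat_lit 190))))))))
noncomputable def xc42 : XT := (XT.nd (nat_lit 2184) (nat_lit 304) (nat_lit 0) (XT.nd (nat_lit 1092) (nat_lit 304) (nat_lit 0) (XT.nd (nat_lit 546) (nat_lit 228) (nat_lit 0) (XT.nd (nat_lit 234) (nat_lit 76) (nat_lit 0) (XT.nd (nat_lit 78) (nat_lit 76) (nat_lit 0) (XT.lf (nat_lit 0) (nat_lit 2083130812) (nat_lit 152) (nat_lit 9210827061) (nat_lit 76) (nat_lit 13468802540) (nat_lit 18) (nat_lit 5) (nat_lit 20) (nat_lit 5) (nat_lit 19) (nat_lit 4) (nat_lit 359) (nat_lit 232) (nat_lit 189)) (XT.nd (nat_lit 78) (nat_lit 76) (nat_lit 0) (XT.lf (nat_lit 0) (nat_lit 6034479505) (nat_lit 152) (nat_lit 1342227777) (nat_lit 76) (nat_lit 17994830875) (nat_lit 18) (nat_lit 5) (nat_lit 20) (nat_lit 5) (nat_lit 19) (nat_lit 4) (nat_lit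 360) (nat_lit 232) (nat_lit 188)) (XT.lf (nat_lit 0) (nat_lit 6810925091) (nat_lit 76) (nat_lit 3312887246) (nat_lit 152) (nat_lit 15874195171) (nat_lit 17) (nat_lit 5) (nat_lit 18) (nat_lit 5) (nat_lit 19) (nat_lit 4) (nat_lit 361) (nat_lit 232) (nat_lit 187)))) (XT.nd (nat_lit 156) (nat_lit 76) (nat_lit 0) (XT.nd (nat_lit 78) (nat_lit 0) (nat_lit 0) (XT.lf (nat_lit 0) (nat_lit 14312047441) (nat_lit 152) (nat_lit 11499794262) (nat_lit 0) (nat_lit 832153811) (nat_lit 17) (nat_lit 5) (nat_lit 19) (nat_lit 4) (nat_lit 17) (nat_lit 4) (nat_lit 362) (nat_lit 232) (nat_lit 186)) (XT.lf (nat_lit 0) (nat_lit 18614209955) (nat_lit 152) (nat_lit 3696816773) (nat_lit 0) (nat_lit 4998698940) (nat_lit 17) (nat_lit 5) (nat_lit 19) (nat_lit 4) (nat_lit 17) (nat_lit 4) (nat_lit 363) (nat_lit 232) (nat_lit 185))) (XT.nd (nat_lit 78) (nat_lit 0) (nat_lit 0) (XT.lf (nat_lit 0) (nat_lit 4345306260) (nat_lit 76) (nat_lit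 18698677035) (nat_lit 76) (nat_lit 4951498654) (nat_lit 16) (nat_lit 4) (nat_lit 17) (nat_lit 5) (nat_lit 17) (nat_lit 4) (nat_lit 364) (nat_lit 232) (nat_lit 184)) (XT.lf (nat_lit 0) (nat_lit 12625519477) (nat_lit 76) (nat_lit 14975737151) (nat_lit 76) (nat_lit 1100726377) (nat_lit 16) (nat_lit 4) (nat_lit 17) (nat_lit 5) (nat_lit 17) (nat_lit 4) (nat_lit 365) (nat_lit 232) (nat_lit 183))))) (XT.nd (nat_lit 234) (nat_lit 76) (nat_lit 0) (XT.nd (nat_lit 78) (nat_lit 76) (nat_lit 0) (XT.lf (nat_lit 0) (nat_lit 2767751585) (nat_lit 152) (nat_lit 8380584174) (nat_lit 76) (nat_lit 18281783664) (nat_lit 15) (nat_lit 5) (nat_lit 17) (nat_lit 5) (nat_lit 16) (nat_lit 4) (nat_lit 366) (nat_lit 232) (nat_lit 182)) (XT.nd (nat_lit 78) (nat_lit 76) (nat_lit 0) (XT.lf (nat_lit 0) (nat_lit 6689480854) (nat_lit 152) (nat_lit 539968049) (nat_lit 76) (nat_lit 22951553887) (nat_lit 15) (nat_lit 5) (nat_lit 17) (nat_lit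 5) (nat_lit 16) (nat_lit 4) (nat_lit 367) (nat_lit 232) (nat_lit 181)) (XT.lf (nat_lit 0) (nat_lit 7611341410) (nat_lit 76) (nat_lit 3151190778) (nat_lit 152) (nat_lit 20190879508) (nat_lit 14) (nat_lit 5) (nat_lit 15) (nat_lit 5) (nat_lit 16) (nat_lit 4) (nat_lit 368) (nat_lit 232) (nat_lit 180)))) (XT.nd (nat_lit 156) (nat_lit 76) (nat_lit 0) (XT.nd (nat_lit 78) (nat_lit 0) (nat_lit 0) (XT.lf (nat_lit 0) (nat_lit 14934009578) (nat_lit 152) (nat_lit 15813905610) (nat_lit 0) (nat_lit 1001799522) (nat_lit 14) (nat_lit 5) (nat_lit 16) (nat_lit 4) (nat_lit 14) (nat_lit 4) (nat_lit 369) (nat_lit 232) (nat_lit 179)) (XT.lf (nat_lit 0) (nat_lit 19223617889) (nat_lit 152) (nat_lit 8162157732) (nat_lit 0) (nat_lit 5184350216) (nat_lit 14) (nat_lit 5) (nat_lit 16) (nat_lit 4) (nat_lit 14) (nat_lit 4) (nat_lit 370) (nat_lit 232) (nat_lit 178))) (XT.nd (nat_lit 78) (nat_lit 76) (nat_lit 0) (XT.lf (nat_lit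 0) (nat_lit 23604814148) (nat_lit 152) (nat_lit 349849485) (nat_lit 0) (nat_lit 9461607041) (nat_lit 14) (nat_lit 5) (nat_lit 16) (nat_lit 4) (nat_lit 14) (nat_lit 4) (nat_lit 371) (nat_lit 232) (nat_lit 177)) (XT.lf (nat_lit 0) (nat_lit 7781694303) (nat_lit 76) (nat_lit 20374534687) (nat_lit 76) (nat_lit 6130415508) (nat_lit 13) (nat_lit 4) (nat_lit 14) (nat_lit 5) (nat_lit 14) (nat_lit 4) (nat_lit 372) (nat_lit 232) (nat_lit 176)))))) (XT.nd (nat_lit 546) (nat_lit 152) (nat_lit 0) (XT.nd (nat_lit 234) (nat_lit 76) (nat_lit 0) (XT.nd (nat_lit 78) (nat_lit 76) (nat_lit 0) (XT.lf (nat_lit 0) (nat_lit 16098030080) (nat_lit 76) (nat_lit 16714080835) (nat_lit 76) (nat_lit 2371988771) (nat_lit 13) (nat_lit 4) (nat_lit 14) (nat_lit 5) (nat_lit 14) (nat_lit 4) (nat_lit 373) (nat_lit 232) (nat_lit 175)) (XT.nd (nat_lit 78) (nat_lit 0) (nat_lit 0) (XT.lf (nat_lit 0) (nat_lit 1435015333) (nat_lit 152) (nat_lit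 11524130243) (nat_lit 76) (nat_lit 23149955681) (nat_lit 12) (nat_lit 5) (nat_lit 14) (nat_lit 5) (nat_lit 13) (nat_lit 4) (nat_lit 374) (nat_lit 232) (nat_lit 174)) (XT.lf (nat_lit 0) (nat_lit 5274651225) (nat_lit 152) (nat_lit 3822018223) (nat_lit 76) (nat_lit 27965503203) (nat_lit 12) (nat_lit 5) (nat_lit 14) (nat_lit 5) (nat_lit 13) (nat_lit 4) (nat_lit 375) (nat_lit 232) (nat_lit 173)))) (XT.nd (nat_lit 156) (nat_lit 0) (nat_lit 0) (XT.nd (nat_lit 78) (nat_lit 0) (nat_lit 0) (XT.lf (nat_lit 0) (nat_lit 4130396369) (nat_lit 76) (nat_lit 5105867496) (nat_lit 152) (nat_lit 28807375700) (nat_lit 11) (nat_lit 5) (nat_lit 12) (nat_lit 5) (nat_lit 13) (nat_lit 4) (nat_lit 376) (nat_lit 232) (nat_lit 172)) (XT.lf (nat_lit 0) (nat_lit 12338972895) (nat_lit 76) (nat_lit 983805338) (nat_lit 152) (nat_lit 25731597458) (nat_lit 11) (nat_lit 5) (nat_lit 12) (nat_lit 5) (nat_lit 13) (nat_lit 4) (nat_lit 377)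 (nat_lit 232) (nat_lit 171))) (XT.nd (nat_lit 78) (nat_lit 0) (nat_lit 0) (XT.lf (nat_lit 0) (nat_lit 17531386522) (nat_lit 152) (nat_lit 19392662302) (nat_lit 0) (nat_lit 3171406726) (nat_lit 11) (nat_lit 5) (nat_lit 13) (nat_lit 4) (nat_lit 11) (nat_lit 4) (nat_lit 378) (nat_lit 232) (nat_lit 170)) (XT.lf (nat_lit 0) (nat_lit 21845064517) (nat_lit 152) (nat_lit 11917921560) (nat_lit 0) (nat_lit 7405423800) (nat_lit 11) (nat_lit 5) (nat_lit 13) (nat_lit 4) (nat_lit 11) (nat_lit 4) (nat_lit 379) (nat_lit 232) (nat_lit 169))))) (XT.nd (nat_lit 234) (nat_lit 76) (nat_lit 0) (XT.nd (nat_lit 78) (nat_lit 76) (nat_lit 0) (XT.lf (nat_lit 0) (nat_lit 26258124511) (nat_lit 152) (nat_lit 4275192304) (nat_lit 0) (nat_lit 11741143093) (nat_lit 11) (nat_lit 5) (nat_lit 13) (nat_lit 4) (nat_lit 11) (nat_lit 4) (nat_lit 380) (nat_lit 232) (nat_lit 168)) (XT.nd (nat_lit 78) (nat_lit 0) (nat_lit 0) (XT.lf (nat_lit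 0) (nat_lit 3612700373) (nat_lit 76) (nat_lit 27196449688) (nat_lit 76) (nat_lit 12604380213) (nat_lit 10) (nat_lit 4) (nat_lit 11) (nat_lit 5) (nat_lit 11) (nat_lit 4) (nat_lit 381) (nat_lit 232) (nat_lit 167)) (XT.lf (nat_lit 0) (nat_lit 11770787274) (nat_lit 76) (nat_lit 23740265725) (nat_lit 76) (nat_lit 9075295221) (nat_lit 10) (nat_lit 4) (nat_lit 11) (nat_lit 5) (nat_lit 11) (nat_lit 4) (nat_lit 382) (nat_lit 232) (nat_lit 166)))) (XT.nd (nat_lit 156) (nat_lit 76) (nat_lit 0) (XT.nd (nat_lit 78) (nat_lit 0) (nat_lit 0) (XT.lf (nat_lit 0) (nat_lit 20121112115) (nat_lit 76) (nat_lit 20204916018) (nat_lit 76) (nat_lit 5469167818) (nat_lit 10) (nat_lit 4) (nat_lit 11) (nat_lit 5) (nat_lit 11) (nat_lit 4) (nat_lit 383) (nat_lit 232) (nat_lit 165)) (XT.lf (nat_lit 0) (nat_lit 28670971295) (nat_lit 76) (nat_lit 16587311427) (nat_lit 76) (nat_lit 1782847017) (nat_lit 10) (nat_lit 4) (nat_lit 11)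 (nat_lit 5) (nat_lit 11) (nat_lit 4) (nat_lit 384) (nat_lit 232) (nat_lit 164))) (XT.nd (nat_lit 78) (nat_lit 0) (nat_lit 0) (XT.lf (nat_lit 0) (nat_lit 1948116892) (nat_lit 152) (nat_lit 10916501885) (nat_lit 76) (nat_lit 35460046512) (nat_lit 9) (nat_lit 5) (nat_lit 11) (nat_lit 5) (nat_lit 10) (nat_lit 4) (nat_lit 385) (nat_lit 232) (nat_lit 163)) (XT.lf (nat_lit 0) (nat_lit 5729307440) (nat_lit 152) (nat_lit 3305456692) (nat_lit 76) (nat_lit 40612194343) (nat_lit 9) (nat_lit 5) (nat_lit 11) (nat_lit 5) (nat_lit 10) (nat_lit 4) (nat_lit 386) (nat_lit 232) (nat_lit 162))))))) (XT.nd (nat_lit 1092) (nat_lit 152) (nat_lit 0) (XT.nd (nat_lit 546) (nat_lit 76) (nat_lit 0) (XT.nd (nat_lit 234) (nat_lit 0) (nat_lit 0) (XT.nd (nat_lit 78) (nat_lit 0) (nat_lit 0) (XT.lf (nat_lit 0) (nat_lit 4576060808) (nat_lit 76) (nat_lit 5066745433) (nat_lit 152) (nat_lit 41365552954) (nat_lit 8) (nat_lit 5) (nat_lit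 9) (nat_lit 5) (nat_lit 10) (nat_lit 4) (nat_lit 387) (nat_lit 232) (nat_lit 161)) (XT.nd (nat_lit 78) (nat_lit 0) (nat_lit 0) (XT.lf (nat_lit 0) (nat_lit 12715090276) (nat_lit 76) (nat_lit 967165685) (nat_lit 152) (nat_lit 38728094370) (nat_lit 8) (nat_lit 5) (nat_lit 9) (nat_lit 5) (nat_lit 10) (nat_lit 4) (nat_lit 388) (nat_lit 232) (nat_lit 160)) (XT.lf (nat_lit 0) (nat_lit 17849868681) (nat_lit 152) (nat_lit 32833259604) (nat_lit 0) (nat_lit 3171068164) (nat_lit 8) (nat_lit 5) (nat_lit 10) (nat_lit 4) (nat_lit 8) (nat_lit 4) (nat_lit 389) (nat_lit 232) (nat_lit 159)))) (XT.nd (nat_lit 156) (nat_lit 0) (nat_lit 0) (XT.nd (nat_lit 78) (nat_lit 0) (nat_lit 0) (XT.lf (nat_lit 0) (nat_lit 22128480436) (nat_lit 152) (nat_lit 25819495542) (nat_lit 0) (nat_lit 7393807351) (nat_lit 8) (nat_lit 5) (nat_lit 10) (nat_lit 4) (nat_lit 8) (nat_lit 4) (nat_lit 390) (nat_lit 232) (nat_lit 158)) (XT.lf (nat_lit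 0) (nat_lit 26512532830) (nat_lit 152) (nat_lit 18638542350) (nat_lit 0) (nat_lit 11723614534) (nat_lit 8) (nat_lit 5) (nat_lit 10) (nat_lit 4) (nat_lit 8) (nat_lit 4) (nat_lit 391) (nat_lit 232) (nat_lit 157))) (XT.nd (nat_lit 78) (nat_lit 0) (nat_lit 0) (XT.lf (nat_lit 0) (nat_lit 31005856588) (nat_lit 152) (nat_lit 11284125408) (nat_lit 0) (nat_lit 16164273039) (nat_lit 8) (nat_lit 5) (nat_lit 10) (nat_lit 4) (nat_lit 8) (nat_lit 4) (nat_lit 392) (nat_lit 232) (nat_lit 156)) (XT.lf (nat_lit 0) (nat_lit 35612377917) (nat_lit 152) (nat_lit 3749818527) (nat_lit 0) (nat_lit 20719663054) (nat_lit 8) (nat_lit 5) (nat_lit 10) (nat_lit 4) (nat_lit 8) (nat_lit 4) (nat_lit 393) (nat_lit 232) (nat_lit 155))))) (XT.nd (nat_lit 234) (nat_lit 0) (nat_lit 0) (XT.nd (nat_lit 78) (nat_lit 0) (nat_lit 0) (XT.lf (nat_lit 0) (nat_lit 4049991590) (nat_lit 76) (nat_lit 36325061338) (nat_lit 76) (nat_lit 21382704422)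 (nat_lit 7) (nat_lit 4) (nat_lit 8) (nat_lit 5) (nat_lit 8) (nat_lit 4) (nat_lit 394) (nat_lit 232) (nat_lit 154)) (XT.nd (nat_lit 78) (nat_lit 0) (nat_lit 0) (XT.lf (nat_lit 0) (nat_lit 12121495525) (nat_lit 76) (nat_lit 33176239880) (nat_lit 76) (nat_lit 18185686796) (nat_lit 7) (nat_lit 4) (nat_lit 8) (nat_lit 5) (nat_lit 8) (nat_lit 4) (nat_lit 395) (nat_lit 232) (nat_lit 153)) (XT.lf (nat_lit 0) (nat_lit 20397117308) (nat_lit 76) (nat_lit 29950846487) (nat_lit 76) (nat_lit 14913501008) (nat_lit 7) (nat_lit 4) (nat_lit 8) (nat_lit 5) (nat_lit 8) (nat_lit 4) (nat_lit 396) (nat_lit 232) (nat_lit 152)))) (XT.nd (nat_lit 156) (nat_lit 0) (nat_lit 0) (XT.nd (nat_lit 78) (nat_lit 0) (nat_lit 0) (XT.lf (nat_lit 0) (nat_lit 28884088062) (nat_lit 76) (nat_lit 26646062854) (nat_lit 76) (nat_lit 11563287865) (nat_lit 7) (nat_lit 4) (nat_lit 8) (nat_lit 5) (nat_lit 8) (nat_lit 4) (nat_lit 397) (nat_lit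 232) (nat_lit 151)) (XT.lf (nat_lit 0) (nat_lit 37589823589) (nat_lit 76) (nat_lit 23259001307) (nat_lit 76) (nat_lit 8132119998) (nat_lit 7) (nat_lit 4) (nat_lit 8) (nat_lit 5) (nat_lit 8) (nat_lit 4) (nat_lit 398) (nat_lit 232) (nat_lit 150))) (XT.nd (nat_lit 78) (nat_lit 0) (nat_lit 0) (XT.lf (nat_lit 0) (nat_lit 46521930842) (nat_lit 76) (nat_lit 19786702278) (nat_lit 76) (nat_lit 4616999298) (nat_lit 7) (nat_lit 4) (nat_lit 8) (nat_lit 5) (nat_lit 8) (nat_lit 4) (nat_lit 399) (nat_lit 232) (nat_lit 149)) (XT.lf (nat_lit 0) (nat_lit 55688214574) (nat_lit 76) (nat_lit 16226131718) (nat_lit 76) (nat_lit 1014854300) (nat_lit 7) (nat_lit 4) (nat_lit 8) (nat_lit 5) (nat_lit 8) (nat_lit 4) (nat_lit 400) (nat_lit 232) (nat_lit 148)))))) (XT.nd (nat_lit 546) (nat_lit 0) (nat_lit 0) (XT.nd (nat_lit 234) (nat_lit 0) (nat_lit 0) (XT.nd (nat_lit 78) (nat_lit 76) (nat_lit 0) (XT.lf (nat_lit 0) (nat_lit 2625215562)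 (nat_lit 152) (nat_lit 9922453357) (nat_lit 76) (nat_lit 62444959067) (nat_lit 6) (nat_lit 5) (nat_lit 8) (nat_lit 5) (nat_lit 7) (nat_lit 4) (nat_lit 401) (nat_lit 232) (nat_lit 147)) (XT.nd (nat_lit 78) (nat_lit 76) (nat_lit 0) (XT.lf (nat_lit 0) (nat_lit 6337057527) (nat_lit 152) (nat_lit 2426602061) (nat_lit 76) (nat_lit 68354511208) (nat_lit 6) (nat_lit 5) (nat_lit 8) (nat_lit 5) (nat_lit 7) (nat_lit 4) (nat_lit 402) (nat_lit 232) (nat_lit 146)) (XT.lf (nat_lit 0) (nat_lit 5367614534) (nat_lit 76) (nat_lit 4827700675) (nat_lit 152) (nat_lit 69111115841) (nat_lit 5) (nat_lit 5) (nat_lit 6) (nat_lit 5) (nat_lit 7) (nat_lit 4) (nat_lit 403) (nat_lit 232) (nat_lit 145)))) (XT.nd (nat_lit 156) (nat_lit 0) (nat_lit 0) (XT.nd (nat_lit 78) (nat_lit 0) (nat_lit 0) (XT.lf (nat_lit 0) (nat_lit 13414455251) (nat_lit 76) (nat_lit 763017134) (nat_lit 152) (nat_lit 67382625063) (nat_lit 5) (nat_lit 5) (nat_lit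 6) (nat_lit 5) (nat_lit 7) (nat_lit 4) (nat_lit 404) (nat_lit 232) (nat_lit 144)) (XT.lf (nat_lit 0) (nat_lit 18295992003) (nat_lit 152) (nat_lit 62241969360) (nat_lit 0) (nat_lit 3342908345) (nat_lit 5) (nat_lit 5) (nat_lit 7) (nat_lit 4) (nat_lit 5) (nat_lit 4) (nat_lit 405) (nat_lit 232) (nat_lit 143))) (XT.nd (nat_lit 78) (nat_lit 0) (nat_lit 0) (XT.lf (nat_lit 0) (nat_lit 22530076128) (nat_lit 152) (nat_lit 56198242814) (nat_lit 0) (nat_lit 7543188648) (nat_lit 5) (nat_lit 5) (nat_lit 7) (nat_lit 4) (nat_lit 5) (nat_lit 4) (nat_lit 406) (nat_lit 232) (nat_lit 142)) (XT.lf (nat_lit 0) (nat_lit 26876089858) (nat_lit 152) (nat_lit 50001847046) (nat_lit 0) (nat_lit 11856383133) (nat_lit 5) (nat_lit 5) (nat_lit 7) (nat_lit 4) (nat_lit 5) (nat_lit 4) (nat_lit 407) (nat_lit 232) (nat_lit 141))))) (XT.nd (nat_lit 312) (nat_lit 0) (nat_lit 0) (XT.nd (nat_lit 156) (nat_lit 0) (nat_lit 0) (XT.nd (nat_lit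 78) (nat_lit 0) (nat_lit 0) (XT.lf (nat_lit 0) (nat_lit 31337830680) (nat_lit 152) (nat_lit 43647367731) (nat_lit 0) (nat_lit 16286260612) (nat_lit 5) (nat_lit 5) (nat_lit 7) (nat_lit 4) (nat_lit 5) (nat_lit 4) (nat_lit 408) (nat_lit 232) (nat_lit 140)) (XT.lf (nat_lit 0) (nat_lit 35919197205) (nat_lit 152) (nat_lit 37129252410) (nat_lit 0) (nat_lit 20836691850) (nat_lit 5) (nat_lit 5) (nat_lit 7) (nat_lit 4) (nat_lit 5) (nat_lit 4) (nat_lit 409) (nat_lit 232) (nat_lit 139))) (XT.nd (nat_lit 78) (nat_lit 0) (nat_lit 0) (XT.lf (nat_lit 0) (nat_lit 40624192566) (nat_lit 152) (nat_lit 30441805643) (nat_lit 0) (nat_lit 25511652953) (nat_lit 5) (nat_lit 5) (nat_lit 7) (nat_lit 4) (nat_lit 5) (nat_lit 4) (nat_lit 410) (nat_lit 232) (nat_lit 138)) (XT.lf (nat_lit 0) (nat_lit 45456927926) (nat_lit 152) (nat_lit 23579184030) (nat_lit 0) (nat_lit 30315228839) (nat_lit 5) (nat_lit 5) (nat_lit 7) (nat_lit 4)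 (nat_lit 5) (nat_lit 4) (nat_lit 411) (nat_lit 232) (nat_lit 137)))) (XT.nd (nat_lit 33072) (nat_lit 0) (nat_lit 5320) (XT.nd (nat_lit 32994) (nat_lit 0) (nat_lit 5852) (XT.lf (nat_lit 0) (nat_lit 50421626062) (nat_lit 152) (nat_lit 16535391104) (nat_lit 0) (nat_lit 35251616807) (nat_lit 5) (nat_lit 5) (nat_lit 7) (nat_lit 4) (nat_lit 5) (nat_lit 4) (nat_lit 412) (nat_lit 232) (nat_lit 136)) (XT.lf (nat_lit 0) (nat_lit 3637968321) (nat_lit 304) (nat_lit 694247349) (nat_lit 304) (nat_lit 694247349) (nat_lit 82) (nat_lit 4) (nat_lit 86) (nat_lit 5) (nat_lit 86) (nat_lit 4) (nat_lit 314) (nat_lit 233) (nat_lit 233))) (XT.nd (nat_lit 78) (nat_lit 228) (nat_lit 0) (XT.lf (nat_lit 0) (nat_lit 2661402911) (nat_lit 304) (nat_lit 5658834818) (nat_lit 0) (nat_lit 1885671055) (nat_lit 78) (nat_lit 5) (nat_lit 82) (nat_lit 4) (nat_lit 78) (nat_lit 4) (nat_lit 315) (nat_lit 233) (nat_lit 232)) (XT.lf (nat_lit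 0) (nat_lit 1642852041) (nat_lit 228) (nat_lit 5125127046) (nat_lit 228) (nat_lit 3596257465) (nat_lit 75) (nat_lit 4) (nat_lit 78) (nat_lit 5) (nat_lit 78) (nat_lit 4) (nat_lit 316) (nat_lit 233) (nat_lit 231))))))))
noncomputable def xc43 : XT := (XT.nd (nat_lit 2184) (nat_lit 1216) (nat_lit 0) (XT.nd (nat_lit 1092) (nat_lit 1292) (nat_lit 0) (XT.nd (nat_lit 546) (nat_lit 1064) (nat_lit 0) (XT.nd (nat_lit 234) (nat_lit 608) (nat_lit 0) (XT.nd (nat_lit 78) (nat_lit 456) (nat_lit 0) (XT.lf (nat_lit 0) (nat_lit 424579591) (nat_lit 304) (nat_lit 1398174685) (nat_lit 76) (nat_lit 8705581731) (nat_lit 74) (nat_lit 5) (nat_lit 78) (nat_lit 5) (nat_lit 75) (nat_lit 4) (nat_lit 317) (nat_lit 233) (nat_lit 230)) (XT.nd (nat_lit 78) (nat_lit 228) (nat_lit 0) (XT.lf (nat_lit 0) (nat_lit 4476230670) (nat_lit 304) (nat_lit 4627881938) (nat_lit 0) (nat_lit 1592759026) (nat_lit 71) (nat_lit 5) (nat_lit 75) (nat_lit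 4) (nat_lit 71) (nat_lit 4) (nat_lit 318) (nat_lit 233) (nat_lit 229)) (XT.lf (nat_lit 0) (nat_lit 2811805929) (nat_lit 228) (nat_lit 5806140291) (nat_lit 228) (nat_lit 2253515533) (nat_lit 68) (nat_lit 4) (nat_lit 71) (nat_lit 5) (nat_lit 71) (nat_lit 4) (nat_lit 319) (nat_lit 233) (nat_lit 228)))) (XT.nd (nat_lit 156) (nat_lit 304) (nat_lit 0) (XT.nd (nat_lit 78) (nat_lit 228) (nat_lit 0) (XT.lf (nat_lit 0) (nat_lit 1753578186) (nat_lit 304) (nat_lit 642524256) (nat_lit 76) (nat_lit 8656007956) (nat_lit 67) (nat_lit 5) (nat_lit 71) (nat_lit 5) (nat_lit 68) (nat_lit 4) (nat_lit 320) (nat_lit 233) (nat_lit 227)) (XT.lf (nat_lit 0) (nat_lit 5825869605) (nat_lit 304) (nat_lit 4278372011) (nat_lit 0) (nat_lit 1133608477) (nat_lit 64) (nat_lit 5) (nat_lit 68) (nat_lit 4) (nat_lit 64) (nat_lit 4) (nat_lit 321) (nat_lit 233) (nat_lit 226))) (XT.nd (nat_lit 78) (nat_lit 76) (nat_lit 0) (XT.lf (nat_lit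 0) (nat_lit 3273139623) (nat_lit 228) (nat_lit 6721813263) (nat_lit 228) (nat_lit 1435018261) (nat_lit 61) (nat_lit 4) (nat_lit 64) (nat_lit 5) (nat_lit 64) (nat_lit 4) (nat_lit 322) (nat_lit 233) (nat_lit 225)) (XT.lf (nat_lit 0) (nat_lit 2566138586) (nat_lit 304) (nat_lit 654751026) (nat_lit 76) (nat_lit 8407539401) (nat_lit 60) (nat_lit 5) (nat_lit 64) (nat_lit 5) (nat_lit 61) (nat_lit 4) (nat_lit 323) (nat_lit 233) (nat_lit 224))))) (XT.nd (nat_lit 234) (nat_lit 608) (nat_lit 0) (XT.nd (nat_lit 78) (nat_lit 304) (nat_lit 0) (XT.lf (nat_lit 0) (nat_lit 6646064257) (nat_lit 228) (nat_lit 4778000958) (nat_lit 0) (nat_lit 408765661) (nat_lit 58) (nat_lit 5) (nat_lit 61) (nat_lit 4) (nat_lit 58) (nat_lit 4) (nat_lit 324) (nat_lit 233) (nat_lit 223)) (XT.nd (nat_lit 78) (nat_lit 76) (nat_lit 0) (XT.lf (nat_lit 0) (nat_lit 2851989807) (nat_lit 228) (nat_lit 7978740737) (nat_lit 228) (nat_lit 1213206493)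 (nat_lit 55) (nat_lit 4) (nat_lit 58) (nat_lit 5) (nat_lit 58) (nat_lit 4) (nat_lit 325) (nat_lit 233) (nat_lit 222)) (XT.lf (nat_lit 0) (nat_lit 2788724945) (nat_lit 304) (nat_lit 1617272746) (nat_lit 76) (nat_lit 7855627721) (nat_lit 54) (nat_lit 5) (nat_lit 58) (nat_lit 5) (nat_lit 55) (nat_lit 4) (nat_lit 326) (nat_lit 233) (nat_lit 221)))) (XT.nd (nat_lit 156) (nat_lit 228) (nat_lit 0) (XT.nd (nat_lit 78) (nat_lit 228) (nat_lit 0) (XT.lf (nat_lit 0) (nat_lit 6158819868) (nat_lit 152) (nat_lit 705769793) (nat_lit 228) (nat_lit 5621585550) (nat_lit 52) (nat_lit 5) (nat_lit 54) (nat_lit 5) (nat_lit 55) (nat_lit 4) (nat_lit 327) (nat_lit 233) (nat_lit 220)) (XT.lf (nat_lit 0) (nat_lit 1346025507) (nat_lit 228) (nat_lit 9695619956) (nat_lit 228) (nat_lit 1676486372) (nat_lit 49) (nat_lit 4) (nat_lit 52) (nat_lit 5) (nat_lit 52) (nat_lit 4) (nat_lit 328) (nat_lit 233) (nat_lit 219))) (XT.nd (nat_lit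 78) (nat_lit 152) (nat_lit 0) (XT.lf (nat_lit 0) (nat_lit 2331771929) (nat_lit 304) (nat_lit 3741297277) (nat_lit 76) (nat_lit 6883583684) (nat_lit 48) (nat_lit 5) (nat_lit 52) (nat_lit 5) (nat_lit 49) (nat_lit 4) (nat_lit 329) (nat_lit 233) (nat_lit 218)) (XT.lf (nat_lit 0) (nat_lit 4049880563) (nat_lit 152) (nat_lit 2337835641) (nat_lit 228) (nat_lit 6815315966) (nat_lit 46) (nat_lit 5) (nat_lit 48) (nat_lit 5) (nat_lit 49) (nat_lit 4) (nat_lit 330) (nat_lit 233) (nat_lit 217)))))) (XT.nd (nat_lit 546) (nat_lit 532) (nat_lit 0) (XT.nd (nat_lit 234) (nat_lit 380) (nat_lit 0) (XT.nd (nat_lit 78) (nat_lit 380) (nat_lit 0) (XT.lf (nat_lit 0) (nat_lit 10540716862) (nat_lit 228) (nat_lit 1450594978) (nat_lit 0) (nat_lit 1466263218) (nat_lit 46) (nat_lit 5) (nat_lit 49) (nat_lit 4) (nat_lit 46) (nat_lit 4) (nat_lit 331) (nat_lit 233) (nat_lit 216)) (XT.nd (nat_lit 78) (nat_lit 152) (nat_lit 0) (XT.lf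 (nat_lit 0) (nat_lit 1087378216) (nat_lit 228) (nat_lit 7271924503) (nat_lit 76) (nat_lit 5359858511) (nat_lit 43) (nat_lit 5) (nat_lit 46) (nat_lit 5) (nat_lit 44) (nat_lit 4) (nat_lit 332) (nat_lit 233) (nat_lit 215)) (XT.lf (nat_lit 0) (nat_lit 475879472) (nat_lit 152) (nat_lit 4621775052) (nat_lit 228) (nat_lit 8891768627) (nat_lit 41) (nat_lit 5) (nat_lit 43) (nat_lit 5) (nat_lit 44) (nat_lit 4) (nat_lit 333) (nat_lit 233) (nat_lit 214)))) (XT.nd (nat_lit 156) (nat_lit 228) (nat_lit 0) (XT.nd (nat_lit 78) (nat_lit 152) (nat_lit 0) (XT.lf (nat_lit 0) (nat_lit 8478474001) (nat_lit 152) (nat_lit 749329882) (nat_lit 228) (nat_lit 5040031932) (nat_lit 41) (nat_lit 5) (nat_lit 43) (nat_lit 5) (nat_lit 44) (nat_lit 4) (nat_lit 334) (nat_lit 233) (nat_lit 213)) (XT.lf (nat_lit 0) (nat_lit 2050716803) (nat_lit 152) (nat_lit 11409782580) (nat_lit 152) (nat_lit 1094771184) (nat_lit 39) (nat_lit 4) (nat_lit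 41) (nat_lit 5) (nat_lit 41) (nat_lit 4) (nat_lit 335) (nat_lit 233) (nat_lit 212))) (XT.nd (nat_lit 78) (nat_lit 152) (nat_lit 0) (XT.lf (nat_lit 0) (nat_lit 2905347233) (nat_lit 228) (nat_lit 4766382503) (nat_lit 76) (nat_lit 7178936790) (nat_lit 38) (nat_lit 5) (nat_lit 41) (nat_lit 5) (nat_lit 39) (nat_lit 4) (nat_lit 336) (nat_lit 233) (nat_lit 211)) (XT.lf (nat_lit 0) (nat_lit 3132922690) (nat_lit 152) (nat_lit 3830729742) (nat_lit 228) (nat_lit 8192167641) (nat_lit 36) (nat_lit 5) (nat_lit 38) (nat_lit 5) (nat_lit 39) (nat_lit 4) (nat_lit 337) (nat_lit 233) (nat_lit 210))))) (XT.nd (nat_lit 234) (nat_lit 304) (nat_lit 0) (XT.nd (nat_lit 78) (nat_lit 228) (nat_lit 0) (XT.lf (nat_lit 0) (nat_lit 11123983501) (nat_lit 228) (nat_lit 4225177429) (nat_lit 0) (nat_lit 121584724) (nat_lit 36) (nat_lit 5) (nat_lit 39) (nat_lit 4) (nat_lit 36) (nat_lit 4) (nat_lit 338) (nat_lit 233) (nat_lit 209))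 (XT.nd (nat_lit 78) (nat_lit 76) (nat_lit 0) (XT.lf (nat_lit 0) (nat_lit 3723017517) (nat_lit 152) (nat_lit 11692310948) (nat_lit 152) (nat_lit 379629400) (nat_lit 34) (nat_lit 4) (nat_lit 36) (nat_lit 5) (nat_lit 36) (nat_lit 4) (nat_lit 339) (nat_lit 233) (nat_lit 208)) (XT.lf (nat_lit 0) (nat_lit 3609923921) (nat_lit 228) (nat_lit 4285781394) (nat_lit 76) (nat_lit 8232873770) (nat_lit 33) (nat_lit 5) (nat_lit 36) (nat_lit 5) (nat_lit 34) (nat_lit 4) (nat_lit 340) (nat_lit 233) (nat_lit 207)))) (XT.nd (nat_lit 156) (nat_lit 228) (nat_lit 0) (XT.nd (nat_lit 78) (nat_lit 0) (nat_lit 0) (XT.lf (nat_lit 0) (nat_lit 3687219118) (nat_lit 76) (nat_lit 3994365780) (nat_lit 152) (nat_lit 8791432607) (nat_lit 32) (nat_lit 5) (nat_lit 33) (nat_lit 5) (nat_lit 34) (nat_lit 4) (nat_lit 341) (nat_lit 233) (nat_lit 206)) (XT.lf (nat_lit 0) (nat_lit 11854277893) (nat_lit 152) (nat_lit 4955181172) (nat_lit 0)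 (nat_lit 18985741) (nat_lit 32) (nat_lit 5) (nat_lit 34) (nat_lit 4) (nat_lit 32) (nat_lit 4) (nat_lit 342) (nat_lit 233) (nat_lit 205))) (XT.nd (nat_lit 78) (nat_lit 76) (nat_lit 0) (XT.lf (nat_lit 0) (nat_lit 3017756728) (nat_lit 152) (nat_lit 13139791324) (nat_lit 152) (nat_lit 1036846530) (nat_lit 30) (nat_lit 4) (nat_lit 32) (nat_lit 5) (nat_lit 32) (nat_lit 4) (nat_lit 343) (nat_lit 233) (nat_lit 204)) (XT.lf (nat_lit 0) (nat_lit 2947198513) (nat_lit 228) (nat_lit 6379988747) (nat_lit 76) (nat_lit 8243660146) (nat_lit 29) (nat_lit 5) (nat_lit 32) (nat_lit 5) (nat_lit 30) (nat_lit 4) (nat_lit 344) (nat_lit 233) (nat_lit 203))))))) (XT.nd (nat_lit 1092) (nat_lit 456) (nat_lit 0) (XT.nd (nat_lit 546) (nat_lit 380) (nat_lit 0) (XT.nd (nat_lit 234) (nat_lit 304) (nat_lit 0) (XT.nd (nat_lit 78) (nat_lit 0) (nat_lit 0) (XT.lf (nat_lit 0) (nat_lit 1561924096) (nat_lit 76) (nat_lit 5421826698) (nat_lit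 152) (nat_lit 10975940002) (nat_lit 28) (nat_lit 5) (nat_lit 29) (nat_lit 5) (nat_lit 30) (nat_lit 4) (nat_lit 345) (nat_lit 233) (nat_lit 202)) (XT.nd (nat_lit 78) (nat_lit 0) (nat_lit 0) (XT.lf (nat_lit 0) (nat_lit 9765096289) (nat_lit 76) (nat_lit 1380286169) (nat_lit 152) (nat_lit 7214716690) (nat_lit 28) (nat_lit 5) (nat_lit 29) (nat_lit 5) (nat_lit 30) (nat_lit 4) (nat_lit 346) (nat_lit 233) (nat_lit 201)) (XT.lf (nat_lit 0) (nat_lit 15399486272) (nat_lit 152) (nat_lit 690882736) (nat_lit 0) (nat_lit 2683140633) (nat_lit 28) (nat_lit 5) (nat_lit 30) (nat_lit 4) (nat_lit 28) (nat_lit 4) (nat_lit 347) (nat_lit 233) (nat_lit 200)))) (XT.nd (nat_lit 156) (nat_lit 76) (nat_lit 0) (XT.nd (nat_lit 78) (nat_lit 0) (nat_lit 0) (XT.lf (nat_lit 0) (nat_lit 598961504) (nat_lit 228) (nat_lit 11724608660) (nat_lit 76) (nat_lit 6874749236) (nat_lit 25) (nat_lit 5) (nat_lit 28) (nat_lit 5) (nat_lit 26) (nat_lit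 4) (nat_lit 348) (nat_lit 233) (nat_lit 199)) (XT.lf (nat_lit 0) (nat_lit 4573079060) (nat_lit 228) (nat_lit 3874776115) (nat_lit 76) (nat_lit 11188540372) (nat_lit 25) (nat_lit 5) (nat_lit 28) (nat_lit 5) (nat_lit 26) (nat_lit 4) (nat_lit 349) (nat_lit 233) (nat_lit 198))) (XT.nd (nat_lit 78) (nat_lit 0) (nat_lit 0) (XT.lf (nat_lit 0) (nat_lit 4192318689) (nat_lit 76) (nat_lit 4458781194) (nat_lit 152) (nat_lit 11436990216) (nat_lit 24) (nat_lit 5) (nat_lit 25) (nat_lit 5) (nat_lit 26) (nat_lit 4) (nat_lit 350) (nat_lit 233) (nat_lit 197)) (XT.lf (nat_lit 0) (nat_lit 12481796278) (nat_lit 76) (nat_lit 353841070) (nat_lit 152) (nat_lit 7718188894) (nat_lit 24) (nat_lit 5) (nat_lit 25) (nat_lit 5) (nat_lit 26) (nat_lit 4) (nat_lit 351) (nat_lit 233) (nat_lit 196))))) (XT.nd (nat_lit 234) (nat_lit 152) (nat_lit 0) (XT.nd (nat_lit 78) (nat_lit 228) (nat_lit 0) (XT.lf (nat_lit 0) (nat_lit 17129189840)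 (nat_lit 152) (nat_lit 148196322) (nat_lit 0) (nat_lit 3756659507) (nat_lit 24) (nat_lit 5) (nat_lit 26) (nat_lit 4) (nat_lit 24) (nat_lit 4) (nat_lit 352) (nat_lit 233) (nat_lit 195)) (XT.nd (nat_lit 78) (nat_lit 0) (nat_lit 0) (XT.lf (nat_lit 0) (nat_lit 51609801) (nat_lit 228) (nat_lit 13455488615) (nat_lit 76) (nat_lit 8020705969) (nat_lit 21) (nat_lit 5) (nat_lit 24) (nat_lit 5) (nat_lit 22) (nat_lit 4) (nat_lit 353) (nat_lit 233) (nat_lit 194)) (XT.lf (nat_lit 0) (nat_lit 3997695512) (nat_lit 228) (nat_lit 5627193048) (nat_lit 76) (nat_lit 12411859395) (nat_lit 21) (nat_lit 5) (nat_lit 24) (nat_lit 5) (nat_lit 22) (nat_lit 4) (nat_lit 354) (nat_lit 233) (nat_lit 193)))) (XT.nd (nat_lit 156) (nat_lit 76) (nat_lit 0) (XT.nd (nat_lit 78) (nat_lit 0) (nat_lit 0) (XT.lf (nat_lit 0) (nat_lit 2390693264) (nat_lit 76) (nat_lit 5643867391) (nat_lit 152) (nat_lit 14527241101) (nat_lit 20) (nat_lit 5)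 (nat_lit 21) (nat_lit 5) (nat_lit 22) (nat_lit 4) (nat_lit 355) (nat_lit 233) (nat_lit 192)) (XT.lf (nat_lit 0) (nat_lit 10673460021) (nat_lit 76) (nat_lit 1525909897) (nat_lit 152) (nat_lit 10903045537) (nat_lit 20) (nat_lit 5) (nat_lit 21) (nat_lit 5) (nat_lit 22) (nat_lit 4) (nat_lit 356) (nat_lit 233) (nat_lit 191))) (XT.nd (nat_lit 78) (nat_lit 76) (nat_lit 0) (XT.lf (nat_lit 0) (nat_lit 16466314923) (nat_lit 152) (nat_lit 4570085103) (nat_lit 0) (nat_lit 2623544833) (nat_lit 20) (nat_lit 5) (nat_lit 22) (nat_lit 4) (nat_lit 20) (nat_lit 4) (nat_lit 357) (nat_lit 233) (nat_lit 190)) (XT.lf (nat_lit 0) (nat_lit 3490721580) (nat_lit 76) (nat_lit 17371721887) (nat_lit 76) (nat_lit 3371734078) (nat_lit 19) (nat_lit 4) (nat_lit 20) (nat_lit 5) (nat_lit 20) (nat_lit 4) (nat_lit 358) (nat_lit 233) (nat_lit 189)))))) (XT.nd (nat_lit 546) (nat_lit 228) (nat_lit 0) (XT.nd (nat_lit 234) (nat_lit 76) (nat_lit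 0) (XT.nd (nat_lit 78) (nat_lit 76) (nat_lit 0) (XT.lf (nat_lit 0) (nat_lit 552994913) (nat_lit 152) (nat_lit 13030046697) (nat_lit 76) (nat_lit 11242468714) (nat_lit 18) (nat_lit 5) (nat_lit 20) (nat_lit 5) (nat_lit 19) (nat_lit 4) (nat_lit 359) (nat_lit 233) (nat_lit 188)) (XT.nd (nat_lit 78) (nat_lit 76) (nat_lit 0) (XT.lf (nat_lit 0) (nat_lit 4481670158) (nat_lit 152) (nat_lit 5203028730) (nat_lit 76) (nat_lit 15750275089) (nat_lit 18) (nat_lit 5) (nat_lit 20) (nat_lit 5) (nat_lit 19) (nat_lit 4) (nat_lit 360) (nat_lit 233) (nat_lit 187)) (XT.lf (nat_lit 0) (nat_lit 2832112971) (nat_lit 76) (nat_lit 5678630185) (nat_lit 152) (nat_lit 17552513505) (nat_lit 17) (nat_lit 5) (nat_lit 18) (nat_lit 5) (nat_lit 19) (nat_lit 4) (nat_lit 361) (nat_lit 233) (nat_lit 186)))) (XT.nd (nat_lit 156) (nat_lit 76) (nat_lit 0) (XT.nd (nat_lit 78) (nat_lit 0) (nat_lit 0) (XT.lf (nat_lit 0) (nat_lit 11133817829)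 (nat_lit 76) (nat_lit 1535245901) (nat_lit 152) (nat_lit 14041083752) (nat_lit 17) (nat_lit 5) (nat_lit 18) (nat_lit 5) (nat_lit 19) (nat_lit 4) (nat_lit 362) (nat_lit 233) (nat_lit 185)) (XT.lf (nat_lit 0) (nat_lit 16935176014) (nat_lit 152) (nat_lit 7797873435) (nat_lit 0) (nat_lit 2643914917) (nat_lit 17) (nat_lit 5) (nat_lit 19) (nat_lit 4) (nat_lit 17) (nat_lit 4) (nat_lit 363) (nat_lit 233) (nat_lit 184))) (XT.nd (nat_lit 78) (nat_lit 0) (nat_lit 0) (XT.lf (nat_lit 0) (nat_lit 123736625) (nat_lit 76) (nat_lit 21179960080) (nat_lit 76) (nat_lit 6760866590) (nat_lit 16) (nat_lit 4) (nat_lit 17) (nat_lit 5) (nat_lit 17) (nat_lit 4) (nat_lit 364) (nat_lit 233) (nat_lit 183)) (XT.lf (nat_lit 0) (nat_lit 8366188770) (nat_lit 76) (nat_lit 17474348055) (nat_lit 76) (nat_lit 2931145445) (nat_lit 16) (nat_lit 4) (nat_lit 17) (nat_lit 5) (nat_lit 17) (nat_lit 4) (nat_lit 365) (nat_lit 233) (nat_lit 182)))))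 (XT.nd (nat_lit 312) (nat_lit 76) (nat_lit 0) (XT.nd (nat_lit 156) (nat_lit 76) (nat_lit 0) (XT.nd (nat_lit 78) (nat_lit 0) (nat_lit 0) (XT.lf (nat_lit 0) (nat_lit 953011412) (nat_lit 152) (nat_lit 12729083733) (nat_lit 76) (nat_lit 15818857211) (nat_lit 15) (nat_lit 5) (nat_lit 17) (nat_lit 5) (nat_lit 16) (nat_lit 4) (nat_lit 366) (nat_lit 233) (nat_lit 181)) (XT.lf (nat_lit 0) (nat_lit 4855285172) (nat_lit 152) (nat_lit 4924452748) (nat_lit 76) (nat_lit 20472685972) (nat_lit 15) (nat_lit 5) (nat_lit 17) (nat_lit 5) (nat_lit 16) (nat_lit 4) (nat_lit 367) (nat_lit 233) (nat_lit 180))) (XT.nd (nat_lit 78) (nat_lit 0) (nat_lit 0) (XT.lf (nat_lit 0) (nat_lit 3103964525) (nat_lit 76) (nat_lit 5762155474) (nat_lit 152) (nat_lit 22160583667) (nat_lit 14) (nat_lit 5) (nat_lit 15) (nat_lit 5) (nat_lit 16) (nat_lit 4) (nat_lit 368) (nat_lit 233) (nat_lit 179)) (XT.lf (nat_lit 0) (nat_lit 11403953918) (nat_lit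 76) (nat_lit 1605150681) (nat_lit 152) (nat_lit 18814761111) (nat_lit 14) (nat_lit 5) (nat_lit 15) (nat_lit 5) (nat_lit 16) (nat_lit 4) (nat_lit 369) (nat_lit 233) (nat_lit 178)))) (XT.nd (nat_lit 156) (nat_lit 76) (nat_lit 0) (XT.nd (nat_lit 78) (nat_lit 0) (nat_lit 0) (XT.lf (nat_lit 0) (nat_lit 17265007209) (nat_lit 152) (nat_lit 12786720465) (nat_lit 0) (nat_lit 2593564455) (nat_lit 14) (nat_lit 5) (nat_lit 16) (nat_lit 4) (nat_lit 14) (nat_lit 4) (nat_lit 370) (nat_lit 233) (nat_lit 177)) (XT.lf (nat_lit 0) (nat_lit 21628459769) (nat_lit 152) (nat_lit 5007408567) (nat_lit 0) (nat_lit 6856104943) (nat_lit 14) (nat_lit 5) (nat_lit 16) (nat_lit 4) (nat_lit 14) (nat_lit 4) (nat_lit 371) (nat_lit 233) (nat_lit 176))) (XT.nd (nat_lit 78) (nat_lit 0) (nat_lit 0) (XT.lf (nat_lit 0) (nat_lit 2998767807) (nat_lit 76) (nat_lit 23117903497) (nat_lit 76) (nat_lit 8247575786) (nat_lit 13) (nat_lit 4) (nat_lit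 14) (nat_lit 5) (nat_lit 14) (nat_lit 4) (nat_lit 372) (nat_lit 233) (nat_lit 175)) (XT.lf (nat_lit 0) (nat_lit 11283382364) (nat_lit 76) (nat_lit 19472140802) (nat_lit 76) (nat_lit 4506693785) (nat_lit 13) (nat_lit 4) (nat_lit 14) (nat_lit 5) (nat_lit 14) (nat_lit 4) (nat_lit 373) (nat_lit 233) (nat_lit 174))))))))
noncomputable def xc44 : XT := (XT.nd (nat_lit 2184) (nat_lit 152) (nat_lit 0) (XT.nd (nat_lit 1092) (nat_lit 152) (nat_lit 0) (XT.nd (nat_lit 546) (nat_lit 152) (nat_lit 0) (XT.nd (nat_lit 234) (nat_lit 76) (nat_lit 0) (XT.nd (nat_lit 78) (nat_lit 76) (nat_lit 0) (XT.lf (nat_lit 0) (nat_lit 19754016838) (nat_lit 76) (nat_lit 15745959644) (nat_lit 76) (nat_lit 688163786) (nat_lit 13) (nat_lit 4) (nat_lit 14) (nat_lit 5) (nat_lit 14) (nat_lit 4) (nat_lit 374) (nat_lit 233) (nat_lit 173)) (XT.nd (nat_lit 78) (nat_lit 0) (nat_lit 0) (XT.lf (nat_lit 0) (nat_lit 3148685770) (nat_lit 152)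 (nat_lit 8755622811) (nat_lit 76) (nat_lit 25237591432) (nat_lit 12) (nat_lit 5) (nat_lit 14) (nat_lit 5) (nat_lit 13) (nat_lit 4) (nat_lit 375) (nat_lit 233) (nat_lit 172)) (XT.lf (nat_lit 0) (nat_lit 7054851904) (nat_lit 152) (nat_lit 913153198) (nat_lit 76) (nat_lit 30157028572) (nat_lit 12) (nat_lit 5) (nat_lit 14) (nat_lit 5) (nat_lit 13) (nat_lit 4) (nat_lit 376) (nat_lit 233) (nat_lit 171)))) (XT.nd (nat_lit 156) (nat_lit 0) (nat_lit 0) (XT.nd (nat_lit 78) (nat_lit 0) (nat_lit 0) (XT.lf (nat_lit 0) (nat_lit 7248191424) (nat_lit 76) (nat_lit 3868658950) (nat_lit 152) (nat_lit 28019658157) (nat_lit 11) (nat_lit 5) (nat_lit 12) (nat_lit 5) (nat_lit 13) (nat_lit 4) (nat_lit 377) (nat_lit 233) (nat_lit 170)) (XT.lf (nat_lit 0) (nat_lit 15282491632) (nat_lit 152) (nat_lit 24566388157) (nat_lit 0) (nat_lit 330000772) (nat_lit 11) (nat_lit 5) (nat_lit 13) (nat_lit 4) (nat_lit 11) (nat_lit 4) (nat_lit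 378) (nat_lit 233) (nat_lit 169))) (XT.nd (nat_lit 78) (nat_lit 0) (nat_lit 0) (XT.lf (nat_lit 0) (nat_lit 19581377340) (nat_lit 152) (nat_lit 17119358602) (nat_lit 0) (nat_lit 4551545780) (nat_lit 11) (nat_lit 5) (nat_lit 13) (nat_lit 4) (nat_lit 11) (nat_lit 4) (nat_lit 379) (nat_lit 233) (nat_lit 168)) (XT.lf (nat_lit 0) (nat_lit 23980075891) (nat_lit 152) (nat_lit 9503533411) (nat_lit 0) (nat_lit 8875156273) (nat_lit 11) (nat_lit 5) (nat_lit 13) (nat_lit 4) (nat_lit 11) (nat_lit 4) (nat_lit 380) (nat_lit 233) (nat_lit 167))))) (XT.nd (nat_lit 234) (nat_lit 76) (nat_lit 0) (XT.nd (nat_lit 78) (nat_lit 76) (nat_lit 0) (XT.lf (nat_lit 0) (nat_lit 28482430808) (nat_lit 152) (nat_lit 1712257981) (nat_lit 0) (nat_lit 13304610162) (nat_lit 11) (nat_lit 5) (nat_lit 13) (nat_lit 4) (nat_lit 11) (nat_lit 4) (nat_lit 381) (nat_lit 233) (nat_lit 166)) (XT.nd (nat_lit 78) (nat_lit 0) (nat_lit 0) (XT.lf (nat_lit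 0) (nat_lit 6385887260) (nat_lit 76) (nat_lit 26767873982) (nat_lit 76) (nat_lit 11519275639) (nat_lit 10) (nat_lit 4) (nat_lit 11) (nat_lit 5) (nat_lit 11) (nat_lit 4) (nat_lit 382) (nat_lit 233) (nat_lit 165)) (XT.lf (nat_lit 0) (nat_lit 14711101063) (nat_lit 76) (nat_lit 23244251175) (nat_lit 76) (nat_lit 7926936622) (nat_lit 10) (nat_lit 4) (nat_lit 11) (nat_lit 5) (nat_lit 11) (nat_lit 4) (nat_lit 383) (nat_lit 233) (nat_lit 164)))) (XT.nd (nat_lit 156) (nat_lit 76) (nat_lit 0) (XT.nd (nat_lit 78) (nat_lit 0) (nat_lit 0) (XT.lf (nat_lit 0) (nat_lit 23236580595) (nat_lit 76) (nat_lit 19638031924) (nat_lit 76) (nat_lit 4254002603) (nat_lit 10) (nat_lit 4) (nat_lit 11) (nat_lit 5) (nat_lit 11) (nat_lit 4) (nat_lit 384) (nat_lit 233) (nat_lit 163)) (XT.lf (nat_lit 0) (nat_lit 31969775305) (nat_lit 76) (nat_lit 15946065164) (nat_lit 76) (nat_lit 497264224) (nat_lit 10) (nat_lit 4) (nat_lit 11) (nat_lit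 5) (nat_lit 11) (nat_lit 4) (nat_lit 385) (nat_lit 233) (nat_lit 162))) (XT.nd (nat_lit 78) (nat_lit 0) (nat_lit 0) (XT.lf (nat_lit 0) (nat_lit 3281257641) (nat_lit 152) (nat_lit 8850732994) (nat_lit 76) (nat_lit 37603924229) (nat_lit 9) (nat_lit 5) (nat_lit 11) (nat_lit 5) (nat_lit 10) (nat_lit 4) (nat_lit 386) (nat_lit 233) (nat_lit 161)) (XT.lf (nat_lit 0) (nat_lit 7138756801) (nat_lit 152) (nat_lit 1081063161) (nat_lit 76) (nat_lit 42879177961) (nat_lit 9) (nat_lit 5) (nat_lit 11) (nat_lit 5) (nat_lit 10) (nat_lit 4) (nat_lit 387) (nat_lit 233) (nat_lit 160)))))) (XT.nd (nat_lit 546) (nat_lit 76) (nat_lit 0) (XT.nd (nat_lit 234) (nat_lit 0) (nat_lit 0) (XT.nd (nat_lit 78) (nat_lit 0) (nat_lit 0) (XT.lf (nat_lit 0) (nat_lit 7014119890) (nat_lit 76) (nat_lit 4141611422) (nat_lit 152) (nat_lit 41345934285) (nat_lit 8) (nat_lit 5) (nat_lit 9) (nat_lit 5) (nat_lit 10) (nat_lit 4) (nat_lit 388) (nat_lit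 233) (nat_lit 159)) (XT.nd (nat_lit 78) (nat_lit 0) (nat_lit 0) (XT.lf (nat_lit 0) (nat_lit 15281201119) (nat_lit 152) (nat_lit 38616961825) (nat_lit 0) (nat_lit 48615274) (nat_lit 8) (nat_lit 5) (nat_lit 10) (nat_lit 4) (nat_lit 8) (nat_lit 4) (nat_lit 389) (nat_lit 233) (nat_lit 158)) (XT.lf (nat_lit 0) (nat_lit 19548523360) (nat_lit 152) (nat_lit 31624490272) (nat_lit 0) (nat_lit 4261692304) (nat_lit 8) (nat_lit 5) (nat_lit 10) (nat_lit 4) (nat_lit 8) (nat_lit 4) (nat_lit 390) (nat_lit 233) (nat_lit 157)))) (XT.nd (nat_lit 156) (nat_lit 0) (nat_lit 0) (XT.nd (nat_lit 78) (nat_lit 0) (nat_lit 0) (XT.lf (nat_lit 0) (nat_lit 23921615060) (nat_lit 152) (nat_lit 24464209418) (nat_lit 0) (nat_lit 8582118751) (nat_lit 8) (nat_lit 5) (nat_lit 10) (nat_lit 4) (nat_lit 8) (nat_lit 4) (nat_lit 391) (nat_lit 233) (nat_lit 156)) (XT.lf (nat_lit 0) (nat_lit 28404297370) (nat_lit 152) (nat_lit 17129862707)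 (nat_lit 0) (nat_lit 13013669746) (nat_lit 8) (nat_lit 5) (nat_lit 10) (nat_lit 4) (nat_lit 8) (nat_lit 4) (nat_lit 392) (nat_lit 233) (nat_lit 155))) (XT.nd (nat_lit 78) (nat_lit 0) (nat_lit 0) (XT.lf (nat_lit 0) (nat_lit 33000487194) (nat_lit 152) (nat_lit 9615041488) (nat_lit 0) (nat_lit 17560217518) (nat_lit 8) (nat_lit 5) (nat_lit 10) (nat_lit 4) (nat_lit 8) (nat_lit 4) (nat_lit 393) (nat_lit 233) (nat_lit 154)) (XT.lf (nat_lit 0) (nat_lit 37714200621) (nat_lit 152) (nat_lit 1913179411) (nat_lit 0) (nat_lit 22225734778) (nat_lit 8) (nat_lit 5) (nat_lit 10) (nat_lit 4) (nat_lit 8) (nat_lit 4) (nat_lit 394) (nat_lit 233) (nat_lit 153))))) (XT.nd (nat_lit 234) (nat_lit 0) (nat_lit 0) (XT.nd (nat_lit 78) (nat_lit 0) (nat_lit 0) (XT.lf (nat_lit 0) (nat_lit 6101515856) (nat_lit 76) (nat_lit 36506692077) (nat_lit 76) (nat_lit 20971433839) (nat_lit 7) (nat_lit 4) (nat_lit 8) (nat_lit 5) (nat_lit 8)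 (nat_lit 4) (nat_lit 395) (nat_lit 233) (nat_lit 152)) (XT.nd (nat_lit 78) (nat_lit 0) (nat_lit 0) (XT.lf (nat_lit 0) (nat_lit 14358950604) (nat_lit 76) (nat_lit 33289856104) (nat_lit 76) (nat_lit 17709168355) (nat_lit 7) (nat_lit 4) (nat_lit 8) (nat_lit 5) (nat_lit 8) (nat_lit 4) (nat_lit 396) (nat_lit 233) (nat_lit 151)) (XT.lf (nat_lit 0) (nat_lit 22828264043) (nat_lit 76) (nat_lit 29993380646) (nat_lit 76) (nat_lit 14368586577) (nat_lit 7) (nat_lit 4) (nat_lit 8) (nat_lit 5) (nat_lit 8) (nat_lit 4) (nat_lit 397) (nat_lit 233) (nat_lit 150)))) (XT.nd (nat_lit 156) (nat_lit 0) (nat_lit 0) (XT.nd (nat_lit 78) (nat_lit 0) (nat_lit 0) (XT.lf (nat_lit 0) (nat_lit 31516856545) (nat_lit 76) (nat_lit 26614385289) (nat_lit 76) (nat_lit 10946769548) (nat_lit 7) (nat_lit 4) (nat_lit 8) (nat_lit 5) (nat_lit 8) (nat_lit 4) (nat_lit 398) (nat_lit 233) (nat_lit 149)) (XT.lf (nat_lit 0) (nat_lit 40432320084)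 (nat_lit 76) (nat_lit 23149917510) (nat_lit 76) (nat_lit 7440727333) (nat_lit 7) (nat_lit 4) (nat_lit 8) (nat_lit 5) (nat_lit 8) (nat_lit 4) (nat_lit 399) (nat_lit 233) (nat_lit 148))) (XT.nd (nat_lit 78) (nat_lit 0) (nat_lit 0) (XT.lf (nat_lit 0) (nat_lit 49582444871) (nat_lit 76) (nat_lit 19596950107) (nat_lit 76) (nat_lit 3847396398) (nat_lit 7) (nat_lit 4) (nat_lit 8) (nat_lit 5) (nat_lit 8) (nat_lit 4) (nat_lit 400) (nat_lit 233) (nat_lit 147)) (XT.lf (nat_lit 0) (nat_lit 58975226160) (nat_lit 76) (nat_lit 15952378544) (nat_lit 76) (nat_lit 163636940) (nat_lit 7) (nat_lit 4) (nat_lit 8) (nat_lit 5) (nat_lit 8) (nat_lit 4) (nat_lit 401) (nat_lit 233) (nat_lit 146))))))) (XT.nd (nat_lit 33852) (nat_lit 0) (nat_lit 3268) (XT.nd (nat_lit 546) (nat_lit 0) (nat_lit 0) (XT.nd (nat_lit 234) (nat_lit 0) (nat_lit 0) (XT.nd (nat_lit 78) (nat_lit 76) (nat_lit 0) (XT.lf (nat_lit 0) (nat_lit 3543252192)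 (nat_lit 152) (nat_lit 8633986152) (nat_lit 76) (nat_lit 65039839145) (nat_lit 6) (nat_lit 5) (nat_lit 8) (nat_lit 5) (nat_lit 7) (nat_lit 4) (nat_lit 402) (nat_lit 233) (nat_lit 145)) (XT.nd (nat_lit 78) (nat_lit 76) (nat_lit 0) (XT.lf (nat_lit 0) (nat_lit 7342004363) (nat_lit 152) (nat_lit 959457593) (nat_lit 76) (nat_lit 71105662375) (nat_lit 6) (nat_lit 5) (nat_lit 8) (nat_lit 5) (nat_lit 7) (nat_lit 4) (nat_lit 403) (nat_lit 233) (nat_lit 144)) (XT.lf (nat_lit 0) (nat_lit 7053488025) (nat_lit 76) (nat_lit 4253446434) (nat_lit 152) (nat_lit 70354374463) (nat_lit 5) (nat_lit 5) (nat_lit 6) (nat_lit 5) (nat_lit 7) (nat_lit 4) (nat_lit 404) (nat_lit 233) (nat_lit 143)))) (XT.nd (nat_lit 156) (nat_lit 0) (nat_lit 0) (XT.nd (nat_lit 78) (nat_lit 0) (nat_lit 0) (XT.lf (nat_lit 0) (nat_lit 15297321000) (nat_lit 76) (nat_lit 87766617) (nat_lit 152) (nat_lit 68598205898) (nat_lit 5) (nat_lit 5) (nat_lit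 6) (nat_lit 5) (nat_lit 7) (nat_lit 4) (nat_lit 405) (nat_lit 233) (nat_lit 142)) (XT.lf (nat_lit 0) (nat_lit 19610893141) (nat_lit 152) (nat_lit 62655511946) (nat_lit 0) (nat_lit 4107775970) (nat_lit 5) (nat_lit 5) (nat_lit 7) (nat_lit 4) (nat_lit 5) (nat_lit 4) (nat_lit 406) (nat_lit 233) (nat_lit 141))) (XT.nd (nat_lit 78) (nat_lit 0) (nat_lit 0) (XT.lf (nat_lit 0) (nat_lit 23949688487) (nat_lit 152) (nat_lit 56472814861) (nat_lit 0) (nat_lit 8414707971) (nat_lit 5) (nat_lit 5) (nat_lit 7) (nat_lit 4) (nat_lit 5) (nat_lit 4) (nat_lit 407) (nat_lit 233) (nat_lit 140)) (XT.lf (nat_lit 0) (nat_lit 28404421170) (nat_lit 152) (nat_lit 50131635238) (nat_lit 0) (nat_lit 12838505369) (nat_lit 5) (nat_lit 5) (nat_lit 7) (nat_lit 4) (nat_lit 5) (nat_lit 4) (nat_lit 408) (nat_lit 233) (nat_lit 139))))) (XT.nd (nat_lit 234) (nat_lit 0) (nat_lit 0) (XT.nd (nat_lit 78) (nat_lit 0) (nat_lit 0) (XT.lf (nat_lit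 0) (nat_lit 32978983675) (nat_lit 152) (nat_lit 43626432238) (nat_lit 0) (nat_lit 17383033616) (nat_lit 5) (nat_lit 5) (nat_lit 7) (nat_lit 4) (nat_lit 5) (nat_lit 4) (nat_lit 409) (nat_lit 233) (nat_lit 138)) (XT.nd (nat_lit 78) (nat_lit 0) (nat_lit 0) (XT.lf (nat_lit 0) (nat_lit 37677373193) (nat_lit 152) (nat_lit 36951521706) (nat_lit 0) (nat_lit 22052263660) (nat_lit 5) (nat_lit 5) (nat_lit 7) (nat_lit 4) (nat_lit 5) (nat_lit 4) (nat_lit 410) (nat_lit 233) (nat_lit 137)) (XT.lf (nat_lit 0) (nat_lit 42503695113) (nat_lit 152) (nat_lit 30101071195) (nat_lit 0) (nat_lit 26850275410) (nat_lit 5) (nat_lit 5) (nat_lit 7) (nat_lit 4) (nat_lit 5) (nat_lit 4) (nat_lit 411) (nat_lit 233) (nat_lit 136)))) (XT.nd (nat_lit 32916) (nat_lit 0) (nat_lit 5852) (XT.nd (nat_lit 32838) (nat_lit 0) (nat_lit 6156) (XT.lf (nat_lit 0) (nat_lit 47462166608) (nat_lit 152) (nat_lit 23069094873) (nat_lit 0) (nat_lit 31781261305)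 (nat_lit 5) (nat_lit 5) (nat_lit 7) (nat_lit 4) (nat_lit 5) (nat_lit 4) (nat_lit 412) (nat_lit 233) (nat_lit 135)) (XT.lf (nat_lit 0) (nat_lit 651482791) (nat_lit 304) (nat_lit 3577054600) (nat_lit 0) (nat_lit 651482791) (nat_lit 86) (nat_lit 5) (nat_lit 90) (nat_lit 4) (nat_lit 86) (nat_lit 4) (nat_lit 312) (nat_lit 234) (nat_lit 234))) (XT.nd (nat_lit 78) (nat_lit 304) (nat_lit 0) (XT.lf (nat_lit 0) (nat_lit 5323578341) (nat_lit 304) (nat_lit 80454116) (nat_lit 0) (nat_lit 4500604415) (nat_lit 86) (nat_lit 5) (nat_lit 90) (nat_lit 4) (nat_lit 86) (nat_lit 4) (nat_lit 313) (nat_lit 234) (nat_lit 233)) (XT.lf (nat_lit 0) (nat_lit 7205183459) (nat_lit 304) (nat_lit 2235575694) (nat_lit 304) (nat_lit 613597956) (nat_lit 82) (nat_lit 4) (nat_lit 86) (nat_lit 5) (nat_lit 86) (nat_lit 4) (nat_lit 314) (nat_lit 234) (nat_lit 232)))))) (XT.nd (nat_lit 546) (nat_lit 1216) (nat_lit 0) (XT.nd (nat_lit 234)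 (nat_lit 760) (nat_lit 0) (XT.nd (nat_lit 78) (nat_lit 304) (nat_lit 0) (XT.lf (nat_lit 0) (nat_lit 3365636365) (nat_lit 304) (nat_lit 5805413191) (nat_lit 0) (nat_lit 1037762973) (nat_lit 78) (nat_lit 5) (nat_lit 82) (nat_lit 4) (nat_lit 78) (nat_lit 4) (nat_lit 315) (nat_lit 234) (nat_lit 231)) (XT.nd (nat_lit 78) (nat_lit 76) (nat_lit 0) (XT.lf (nat_lit 0) (nat_lit 1421858280) (nat_lit 228) (nat_lit 6002904783) (nat_lit 228) (nat_lit 2943829716) (nat_lit 75) (nat_lit 4) (nat_lit 78) (nat_lit 5) (nat_lit 78) (nat_lit 4) (nat_lit 316) (nat_lit 234) (nat_lit 230)) (XT.lf (nat_lit 0) (nat_lit 1019133953) (nat_lit 304) (nat_lit 1700137679) (nat_lit 76) (nat_lit 7814614054) (nat_lit 74) (nat_lit 5) (nat_lit 78) (nat_lit 5) (nat_lit 75) (nat_lit 4) (nat_lit 317) (nat_lit 234) (nat_lit 229)))) (XT.nd (nat_lit 156) (nat_lit 304) (nat_lit 0) (XT.nd (nat_lit 78) (nat_lit 228) (nat_lit 0) (XT.lf (nat_lit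 0) (nat_lit 5014438734) (nat_lit 304) (nat_lit 5003617386) (nat_lit 0) (nat_lit 686082120) (nat_lit 71) (nat_lit 5) (nat_lit 75) (nat_lit 4) (nat_lit 71) (nat_lit 4) (nat_lit 318) (nat_lit 234) (nat_lit 228)) (XT.lf (nat_lit 0) (nat_lit 2358514957) (nat_lit 228) (nat_lit 6749846393) (nat_lit 228) (nat_lit 1771826562) (nat_lit 68) (nat_lit 4) (nat_lit 71) (nat_lit 5) (nat_lit 71) (nat_lit 4) (nat_lit 319) (nat_lit 234) (nat_lit 227))) (XT.nd (nat_lit 78) (nat_lit 228) (nat_lit 0) (XT.lf (nat_lit 0) (nat_lit 2182594621) (nat_lit 304) (nat_lit 1178093735) (nat_lit 76) (nat_lit 7701331769) (nat_lit 67) (nat_lit 5) (nat_lit 71) (nat_lit 5) (nat_lit 68) (nat_lit 4) (nat_lit 320) (nat_lit 234) (nat_lit 226)) (XT.lf (nat_lit 0) (nat_lit 6197396620) (nat_lit 304) (nat_lit 4894647568) (nat_lit 0) (nat_lit 157463893) (nat_lit 64) (nat_lit 5) (nat_lit 68) (nat_lit 4) (nat_lit 64) (nat_lit 4) (nat_lit 321) (nat_lit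 234) (nat_lit 225))))) (XT.nd (nat_lit 312) (nat_lit 532) (nat_lit 0) (XT.nd (nat_lit 156) (nat_lit 380) (nat_lit 0) (XT.nd (nat_lit 78) (nat_lit 76) (nat_lit 0) (XT.lf (nat_lit 0) (nat_lit 2575974302) (nat_lit 228) (nat_lit 7742139397) (nat_lit 228) (nat_lit 1124989316) (nat_lit 61) (nat_lit 4) (nat_lit 64) (nat_lit 5) (nat_lit 64) (nat_lit 4) (nat_lit 322) (nat_lit 234) (nat_lit 224)) (XT.lf (nat_lit 0) (nat_lit 2828597571) (nat_lit 304) (nat_lit 1435502207) (nat_lit 76) (nat_lit 7378638878) (nat_lit 60) (nat_lit 5) (nat_lit 64) (nat_lit 5) (nat_lit 61) (nat_lit 4) (nat_lit 323) (nat_lit 234) (nat_lit 223))) (XT.nd (nat_lit 78) (nat_lit 228) (nat_lit 0) (XT.lf (nat_lit 0) (nat_lit 6195855691) (nat_lit 152) (nat_lit 660052528) (nat_lit 228) (nat_lit 4992831701) (nat_lit 58) (nat_lit 5) (nat_lit 60) (nat_lit 5) (nat_lit 61) (nat_lit 4) (nat_lit 324) (nat_lit 234) (nat_lit 222)) (XT.lf (nat_lit 0)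 (nat_lit 1899017317) (nat_lit 228) (nat_lit 9086050187) (nat_lit 228) (nat_lit 1076464126) (nat_lit 55) (nat_lit 4) (nat_lit 58) (nat_lit 5) (nat_lit 58) (nat_lit 4) (nat_lit 325) (nat_lit 234) (nat_lit 221)))) (XT.nd (nat_lit 156) (nat_lit 304) (nat_lit 0) (XT.nd (nat_lit 78) (nat_lit 152) (nat_lit 0) (XT.lf (nat_lit 0) (nat_lit 2882925695) (nat_lit 304) (nat_lit 2655159658) (nat_lit 76) (nat_lit 6742310589) (nat_lit 54) (nat_lit 5) (nat_lit 58) (nat_lit 5) (nat_lit 55) (nat_lit 4) (nat_lit 326) (nat_lit 234) (nat_lit 220)) (XT.lf (nat_lit 0) (nat_lit 5034918706) (nat_lit 152) (nat_lit 1874356157) (nat_lit 228) (nat_lit 5597174959) (nat_lit 52) (nat_lit 5) (nat_lit 54) (nat_lit 5) (nat_lit 55) (nat_lit 4) (nat_lit 327) (nat_lit 234) (nat_lit 219))) (XT.nd (nat_lit 78) (nat_lit 76) (nat_lit 0) (XT.lf (nat_lit 0) (nat_lit 124878208) (nat_lit 228) (nat_lit 10900043701) (nat_lit 228) (nat_lit 1715344869)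 (nat_lit 49) (nat_lit 4) (nat_lit 52) (nat_lit 5) (nat_lit 52) (nat_lit 4) (nat_lit 328) (nat_lit 234) (nat_lit 218)) (XT.lf (nat_lit 0) (nat_lit 2255348554) (nat_lit 304) (nat_lit 5048730305) (nat_lit 76) (nat_lit 5675886908) (nat_lit 48) (nat_lit 5) (nat_lit 52) (nat_lit 5) (nat_lit 49) (nat_lit 4) (nat_lit 329) (nat_lit 234) (nat_lit 217))))))))
noncomputable def xc45 : XT := (XT.nd (nat_lit 2184) (nat_lit 836) (nat_lit 0) (XT.nd (nat_lit 1092) (nat_lit 760) (nat_lit 0) (XT.nd (nat_lit 546) (nat_lit 608) (nat_lit 0) (XT.nd (nat_lit 234) (nat_lit 380) (nat_lit 0) (XT.nd (nat_lit 78) (nat_lit 228) (nat_lit 0) (XT.lf (nat_lit 0) (nat_lit 2652535330) (nat_lit 152) (nat_lit 3608118424) (nat_lit 228) (nat_lit 6967227004) (nat_lit 46) (nat_lit 5) (nat_lit 48) (nat_lit 5) (nat_lit 49) (nat_lit 4) (nat_lit 330) (nat_lit 234) (nat_lit 216)) (XT.nd (nat_lit 78) (nat_lit 228) (nat_lit 0) (XT.lf (nat_lit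 0) (nat_lit 10364480849) (nat_lit 228) (nat_lit 2923483198) (nat_lit 0) (nat_lit 195950860) (nat_lit 46) (nat_lit 5) (nat_lit 49) (nat_lit 4) (nat_lit 46) (nat_lit 4) (nat_lit 331) (nat_lit 234) (nat_lit 215)) (XT.lf (nat_lit 0) (nat_lit 837310771) (nat_lit 228) (nat_lit 8861846053) (nat_lit 76) (nat_lit 4047961144) (nat_lit 43) (nat_lit 5) (nat_lit 46) (nat_lit 5) (nat_lit 44) (nat_lit 4) (nat_lit 332) (nat_lit 234) (nat_lit 214)))) (XT.nd (nat_lit 156) (nat_lit 228) (nat_lit 0) (XT.nd (nat_lit 78) (nat_lit 152) (nat_lit 0) (XT.lf (nat_lit 0) (nat_lit 4807224755) (nat_lit 228) (nat_lit 1184529335) (nat_lit 76) (nat_lit 8026851363) (nat_lit 43) (nat_lit 5) (nat_lit 46) (nat_lit 5) (nat_lit 44) (nat_lit 4) (nat_lit 333) (nat_lit 234) (nat_lit 213)) (XT.lf (nat_lit 0) (nat_lit 6733889613) (nat_lit 152) (nat_lit 2156543420) (nat_lit 228) (nat_lit 5408007583) (nat_lit 41) (nat_lit 5) (nat_lit 43) (nat_lit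 5) (nat_lit 44) (nat_lit 4) (nat_lit 334) (nat_lit 234) (nat_lit 212))) (XT.nd (nat_lit 78) (nat_lit 76) (nat_lit 0) (XT.lf (nat_lit 0) (nat_lit 193164068) (nat_lit 152) (nat_lit 12864046594) (nat_lit 152) (nat_lit 1530656092) (nat_lit 39) (nat_lit 4) (nat_lit 41) (nat_lit 5) (nat_lit 41) (nat_lit 4) (nat_lit 335) (nat_lit 234) (nat_lit 211)) (XT.lf (nat_lit 0) (nat_lit 2443520461) (nat_lit 228) (nat_lit 6712098326) (nat_lit 76) (nat_lit 5728816107) (nat_lit 38) (nat_lit 5) (nat_lit 41) (nat_lit 5) (nat_lit 39) (nat_lit 4) (nat_lit 336) (nat_lit 234) (nat_lit 210))))) (XT.nd (nat_lit 234) (nat_lit 304) (nat_lit 0) (XT.nd (nat_lit 78) (nat_lit 152) (nat_lit 0) (XT.lf (nat_lit 0) (nat_lit 1089312265) (nat_lit 152) (nat_lit 5359424739) (nat_lit 228) (nat_lit 8742456771) (nat_lit 36) (nat_lit 5) (nat_lit 38) (nat_lit 5) (nat_lit 39) (nat_lit 4) (nat_lit 337) (nat_lit 234) (nat_lit 209)) (XT.nd (nat_lit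 78) (nat_lit 152) (nat_lit 0) (XT.lf (nat_lit 0) (nat_lit 9145737955) (nat_lit 152) (nat_lit 1429115769) (nat_lit 228) (nat_lit 4932304367) (nat_lit 36) (nat_lit 5) (nat_lit 38) (nat_lit 5) (nat_lit 39) (nat_lit 4) (nat_lit 338) (nat_lit 234) (nat_lit 208)) (XT.lf (nat_lit 0) (nat_lit 1500625274) (nat_lit 152) (nat_lit 13298184409) (nat_lit 152) (nat_lit 1034594237) (nat_lit 34) (nat_lit 4) (nat_lit 36) (nat_lit 5) (nat_lit 36) (nat_lit 4) (nat_lit 339) (nat_lit 234) (nat_lit 207)))) (XT.nd (nat_lit 156) (nat_lit 152) (nat_lit 0) (XT.nd (nat_lit 78) (nat_lit 76) (nat_lit 0) (XT.lf (nat_lit 0) (nat_lit 2935526717) (nat_lit 228) (nat_lit 6596942207) (nat_lit 76) (nat_lit 6635722749) (nat_lit 33) (nat_lit 5) (nat_lit 36) (nat_lit 5) (nat_lit 34) (nat_lit 4) (nat_lit 340) (nat_lit 234) (nat_lit 206)) (XT.lf (nat_lit 0) (nat_lit 1273998319) (nat_lit 76) (nat_lit 5678717174) (nat_lit 152) (nat_lit 9561559698)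 (nat_lit 32) (nat_lit 5) (nat_lit 33) (nat_lit 5) (nat_lit 34) (nat_lit 4) (nat_lit 341) (nat_lit 234) (nat_lit 205))) (XT.nd (nat_lit 78) (nat_lit 152) (nat_lit 0) (XT.lf (nat_lit 0) (nat_lit 9405804112) (nat_lit 76) (nat_lit 1688531093) (nat_lit 152) (nat_lit 5776310100) (nat_lit 32) (nat_lit 5) (nat_lit 33) (nat_lit 5) (nat_lit 34) (nat_lit 4) (nat_lit 342) (nat_lit 234) (nat_lit 204)) (XT.lf (nat_lit 0) (nat_lit 420103021) (nat_lit 152) (nat_lit 14906093672) (nat_lit 152) (nat_lit 1912550955) (nat_lit 30) (nat_lit 4) (nat_lit 32) (nat_lit 5) (nat_lit 32) (nat_lit 4) (nat_lit 343) (nat_lit 234) (nat_lit 203)))))) (XT.nd (nat_lit 546) (nat_lit 304) (nat_lit 0) (XT.nd (nat_lit 234) (nat_lit 304) (nat_lit 0) (XT.nd (nat_lit 78) (nat_lit 76) (nat_lit 0) (XT.lf (nat_lit 0) (nat_lit 2058440021) (nat_lit 228) (nat_lit 9067197760) (nat_lit 76) (nat_lit 6490729205) (nat_lit 29) (nat_lit 5) (nat_lit 32)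 (nat_lit 5) (nat_lit 30) (nat_lit 4) (nat_lit 344) (nat_lit 234) (nat_lit 202)) (XT.nd (nat_lit 78) (nat_lit 76) (nat_lit 0) (XT.lf (nat_lit 0) (nat_lit 6050713847) (nat_lit 228) (nat_lit 1207821979) (nat_lit 76) (nat_lit 10748012335) (nat_lit 29) (nat_lit 5) (nat_lit 32) (nat_lit 5) (nat_lit 30) (nat_lit 4) (nat_lit 345) (nat_lit 234) (nat_lit 201)) (XT.lf (nat_lit 0) (nat_lit 6919764265) (nat_lit 76) (nat_lit 3251832415) (nat_lit 152) (nat_lit 8236591454) (nat_lit 28) (nat_lit 5) (nat_lit 29) (nat_lit 5) (nat_lit 30) (nat_lit 4) (nat_lit 346) (nat_lit 234) (nat_lit 200)))) (XT.nd (nat_lit 156) (nat_lit 152) (nat_lit 0) (XT.nd (nat_lit 78) (nat_lit 152) (nat_lit 0) (XT.lf (nat_lit 0) (nat_lit 14379433277) (nat_lit 152) (nat_lit 3616999384) (nat_lit 0) (nat_lit 826562872) (nat_lit 28) (nat_lit 5) (nat_lit 30) (nat_lit 4) (nat_lit 28) (nat_lit 4) (nat_lit 347) (nat_lit 234) (nat_lit 199)) (XT.lf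 (nat_lit 0) (nat_lit 4445217808) (nat_lit 152) (nat_lit 14287483734) (nat_lit 152) (nat_lit 516987237) (nat_lit 26) (nat_lit 4) (nat_lit 28) (nat_lit 5) (nat_lit 28) (nat_lit 4) (nat_lit 348) (nat_lit 234) (nat_lit 198))) (XT.nd (nat_lit 78) (nat_lit 76) (nat_lit 0) (XT.lf (nat_lit 0) (nat_lit 3439819887) (nat_lit 228) (nat_lit 6998949594) (nat_lit 76) (nat_lit 9249974629) (nat_lit 25) (nat_lit 5) (nat_lit 28) (nat_lit 5) (nat_lit 26) (nat_lit 4) (nat_lit 349) (nat_lit 234) (nat_lit 197)) (XT.lf (nat_lit 0) (nat_lit 957170410) (nat_lit 76) (nat_lit 6502971383) (nat_lit 152) (nat_lit 12682035736) (nat_lit 24) (nat_lit 5) (nat_lit 25) (nat_lit 5) (nat_lit 26) (nat_lit 4) (nat_lit 350) (nat_lit 234) (nat_lit 196))))) (XT.nd (nat_lit 234) (nat_lit 152) (nat_lit 0) (XT.nd (nat_lit 78) (nat_lit 152) (nat_lit 0) (XT.lf (nat_lit 0) (nat_lit 9199271668) (nat_lit 76) (nat_lit 2419126263) (nat_lit 152) (nat_lit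 8990311849) (nat_lit 24) (nat_lit 5) (nat_lit 25) (nat_lit 5) (nat_lit 26) (nat_lit 4) (nat_lit 351) (nat_lit 234) (nat_lit 195)) (XT.nd (nat_lit 78) (nat_lit 152) (nat_lit 0) (XT.lf (nat_lit 0) (nat_lit 15866384916) (nat_lit 152) (nat_lit 3512324173) (nat_lit 0) (nat_lit 1711594529) (nat_lit 24) (nat_lit 5) (nat_lit 26) (nat_lit 4) (nat_lit 24) (nat_lit 4) (nat_lit 352) (nat_lit 234) (nat_lit 194)) (XT.lf (nat_lit 0) (nat_lit 4595640444) (nat_lit 152) (nat_lit 15663622386) (nat_lit 152) (nat_lit 1326573573) (nat_lit 22) (nat_lit 4) (nat_lit 24) (nat_lit 5) (nat_lit 24) (nat_lit 4) (nat_lit 353) (nat_lit 234) (nat_lit 193)))) (XT.nd (nat_lit 156) (nat_lit 76) (nat_lit 0) (XT.nd (nat_lit 78) (nat_lit 0) (nat_lit 0) (XT.lf (nat_lit 0) (nat_lit 2620480166) (nat_lit 228) (nat_lit 9194424003) (nat_lit 76) (nat_lit 10281012718) (nat_lit 21) (nat_lit 5) (nat_lit 24) (nat_lit 5) (nat_lit 22) (nat_lit 4)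 (nat_lit 354) (nat_lit 234) (nat_lit 192)) (XT.lf (nat_lit 0) (nat_lit 6610172077) (nat_lit 228) (nat_lit 1267145471) (nat_lit 76) (nat_lit 14745074953) (nat_lit 21) (nat_lit 5) (nat_lit 24) (nat_lit 5) (nat_lit 22) (nat_lit 4) (nat_lit 355) (nat_lit 234) (nat_lit 191))) (XT.nd (nat_lit 78) (nat_lit 0) (nat_lit 0) (XT.lf (nat_lit 0) (nat_lit 6946876810) (nat_lit 76) (nat_lit 3791775346) (nat_lit 152) (nat_lit 12425450342) (nat_lit 20) (nat_lit 5) (nat_lit 21) (nat_lit 5) (nat_lit 22) (nat_lit 4) (nat_lit 356) (nat_lit 234) (nat_lit 190)) (XT.lf (nat_lit 0) (nat_lit 14960423280) (nat_lit 152) (nat_lit 8379351954) (nat_lit 0) (nat_lit 383218117) (nat_lit 20) (nat_lit 5) (nat_lit 22) (nat_lit 4) (nat_lit 20) (nat_lit 4) (nat_lit 357) (nat_lit 234) (nat_lit 189))))))) (XT.nd (nat_lit 1092) (nat_lit 380) (nat_lit 0) (XT.nd (nat_lit 546) (nat_lit 228) (nat_lit 0) (XT.nd (nat_lit 234) (nat_lit 76) (nat_lit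 0) (XT.nd (nat_lit 78) (nat_lit 152) (nat_lit 0) (XT.lf (nat_lit 0) (nat_lit 19300285228) (nat_lit 152) (nat_lit 428193359) (nat_lit 0) (nat_lit 4570441502) (nat_lit 20) (nat_lit 5) (nat_lit 22) (nat_lit 4) (nat_lit 20) (nat_lit 4) (nat_lit 358) (nat_lit 234) (nat_lit 188)) (XT.nd (nat_lit 78) (nat_lit 76) (nat_lit 0) (XT.lf (nat_lit 0) (nat_lit 7832486599) (nat_lit 76) (nat_lit 15968385300) (nat_lit 76) (nat_lit 1090348795) (nat_lit 19) (nat_lit 4) (nat_lit 20) (nat_lit 5) (nat_lit 20) (nat_lit 4) (nat_lit 359) (nat_lit 234) (nat_lit 187)) (XT.lf (nat_lit 0) (nat_lit 2837590024) (nat_lit 152) (nat_lit 9261605241) (nat_lit 76) (nat_lit 13402469447) (nat_lit 18) (nat_lit 5) (nat_lit 20) (nat_lit 5) (nat_lit 19) (nat_lit 4) (nat_lit 360) (nat_lit 234) (nat_lit 186)))) (XT.nd (nat_lit 156) (nat_lit 0) (nat_lit 0) (XT.nd (nat_lit 78) (nat_lit 76) (nat_lit 0) (XT.lf (nat_lit 0) (nat_lit 6818067120) (nat_lit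 152) (nat_lit 1320922643) (nat_lit 76) (nat_lit 17992420888) (nat_lit 18) (nat_lit 5) (nat_lit 20) (nat_lit 5) (nat_lit 19) (nat_lit 4) (nat_lit 361) (nat_lit 234) (nat_lit 185)) (XT.lf (nat_lit 0) (nat_lit 6915683142) (nat_lit 76) (nat_lit 4026631845) (nat_lit 152) (nat_lit 15837013888) (nat_lit 17) (nat_lit 5) (nat_lit 18) (nat_lit 5) (nat_lit 19) (nat_lit 4) (nat_lit 362) (nat_lit 234) (nat_lit 184))) (XT.nd (nat_lit 78) (nat_lit 0) (nat_lit 0) (XT.lf (nat_lit 0) (nat_lit 15163806207) (nat_lit 152) (nat_lit 12099375734) (nat_lit 0) (nat_lit 184307519) (nat_lit 17) (nat_lit 5) (nat_lit 19) (nat_lit 4) (nat_lit 17) (nat_lit 4) (nat_lit 363) (nat_lit 234) (nat_lit 183)) (XT.lf (nat_lit 0) (nat_lit 19511067235) (nat_lit 152) (nat_lit 4217204439) (nat_lit 0) (nat_lit 4407459428) (nat_lit 17) (nat_lit 5) (nat_lit 19) (nat_lit 4) (nat_lit 17) (nat_lit 4) (nat_lit 364) (nat_lit 234) (nat_lit 182)))))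 (XT.nd (nat_lit 234) (nat_lit 76) (nat_lit 0) (XT.nd (nat_lit 78) (nat_lit 76) (nat_lit 0) (XT.lf (nat_lit 0) (nat_lit 3904655832) (nat_lit 76) (nat_lit 20082068309) (nat_lit 76) (nat_lit 4857966211) (nat_lit 16) (nat_lit 4) (nat_lit 17) (nat_lit 5) (nat_lit 17) (nat_lit 4) (nat_lit 365) (nat_lit 234) (nat_lit 181)) (XT.nd (nat_lit 78) (nat_lit 76) (nat_lit 0) (XT.lf (nat_lit 0) (nat_lit 12284365800) (nat_lit 76) (nat_lit 16315772115) (nat_lit 76) (nat_lit 974685268) (nat_lit 16) (nat_lit 4) (nat_lit 17) (nat_lit 5) (nat_lit 17) (nat_lit 4) (nat_lit 366) (nat_lit 234) (nat_lit 180)) (XT.lf (nat_lit 0) (nat_lit 2927719269) (nat_lit 152) (nat_lit 9511394156) (nat_lit 76) (nat_lit 17888033411) (nat_lit 15) (nat_lit 5) (nat_lit 17) (nat_lit 5) (nat_lit 16) (nat_lit 4) (nat_lit 367) (nat_lit 234) (nat_lit 179)))) (XT.nd (nat_lit 156) (nat_lit 0) (nat_lit 0) (XT.nd (nat_lit 78) (nat_lit 76) (nat_lit 0)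 (XT.lf (nat_lit 0) (nat_lit 6890378207) (nat_lit 152) (nat_lit 1577465855) (nat_lit 76) (nat_lit 22635032069) (nat_lit 15) (nat_lit 5) (nat_lit 17) (nat_lit 5) (nat_lit 16) (nat_lit 4) (nat_lit 368) (nat_lit 234) (nat_lit 178)) (XT.lf (nat_lit 0) (nat_lit 6657541971) (nat_lit 76) (nat_lit 4342228081) (nat_lit 152) (nat_lit 20901280030) (nat_lit 14) (nat_lit 5) (nat_lit 15) (nat_lit 5) (nat_lit 16) (nat_lit 4) (nat_lit 369) (nat_lit 234) (nat_lit 177))) (XT.nd (nat_lit 78) (nat_lit 0) (nat_lit 0) (XT.lf (nat_lit 0) (nat_lit 15105740991) (nat_lit 76) (nat_lit 106905146) (nat_lit 152) (nat_lit 17511125161) (nat_lit 14) (nat_lit 5) (nat_lit 15) (nat_lit 5) (nat_lit 16) (nat_lit 4) (nat_lit 370) (nat_lit 234) (nat_lit 176)) (XT.lf (nat_lit 0) (nat_lit 19557844167) (nat_lit 152) (nat_lit 9869726063) (nat_lit 0) (nat_lit 4143433739) (nat_lit 14) (nat_lit 5) (nat_lit 16) (nat_lit 4) (nat_lit 14) (nat_lit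 4) (nat_lit 371) (nat_lit 234) (nat_lit 175)))))) (XT.nd (nat_lit 546) (nat_lit 152) (nat_lit 0) (XT.nd (nat_lit 234) (nat_lit 152) (nat_lit 0) (XT.nd (nat_lit 78) (nat_lit 76) (nat_lit 0) (XT.lf (nat_lit 0) (nat_lit 24000504573) (nat_lit 152) (nat_lit 1953168673) (nat_lit 0) (nat_lit 8490974839) (nat_lit 14) (nat_lit 5) (nat_lit 16) (nat_lit 4) (nat_lit 14) (nat_lit 4) (nat_lit 372) (nat_lit 234) (nat_lit 174)) (XT.nd (nat_lit 78) (nat_lit 0) (nat_lit 0) (XT.lf (nat_lit 0) (nat_lit 6261776697) (nat_lit 76) (nat_lit 22341896985) (nat_lit 76) (nat_lit 6740018411) (nat_lit 13) (nat_lit 4) (nat_lit 14) (nat_lit 5) (nat_lit 14) (nat_lit 4) (nat_lit 373) (nat_lit 234) (nat_lit 173)) (XT.lf (nat_lit 0) (nat_lit 14702510879) (nat_lit 76) (nat_lit 18629563651) (nat_lit 76) (nat_lit 2938026008) (nat_lit 13) (nat_lit 4) (nat_lit 14) (nat_lit 5) (nat_lit 14) (nat_lit 4) (nat_lit 374) (nat_lit 234) (nat_lit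 172)))) (XT.nd (nat_lit 156) (nat_lit 76) (nat_lit 0) (XT.nd (nat_lit 78) (nat_lit 0) (nat_lit 0) (XT.lf (nat_lit 0) (nat_lit 926983853) (nat_lit 152) (nat_lit 13896808059) (nat_lit 76) (nat_lit 22401192814) (nat_lit 12) (nat_lit 5) (nat_lit 14) (nat_lit 5) (nat_lit 13) (nat_lit 4) (nat_lit 375) (nat_lit 234) (nat_lit 171)) (XT.lf (nat_lit 0) (nat_lit 4817865900) (nat_lit 152) (nat_lit 6082829775) (nat_lit 76) (nat_lit 27307884488) (nat_lit 12) (nat_lit 5) (nat_lit 14) (nat_lit 5) (nat_lit 13) (nat_lit 4) (nat_lit 376) (nat_lit 234) (nat_lit 170))) (XT.nd (nat_lit 78) (nat_lit 0) (nat_lit 0) (XT.lf (nat_lit 0) (nat_lit 1947416143) (nat_lit 76) (nat_lit 6866655011) (nat_lit 152) (nat_lit 30407960821) (nat_lit 11) (nat_lit 5) (nat_lit 12) (nat_lit 5) (nat_lit 13) (nat_lit 4) (nat_lit 377) (nat_lit 234) (nat_lit 169)) (XT.lf (nat_lit 0) (nat_lit 10287659190) (nat_lit 76) (nat_lit 2674147909) (nat_lit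 152) (nat_lit 27303137133) (nat_lit 11) (nat_lit 5) (nat_lit 12) (nat_lit 5) (nat_lit 13) (nat_lit 4) (nat_lit 378) (nat_lit 234) (nat_lit 168))))) (XT.nd (nat_lit 312) (nat_lit 76) (nat_lit 0) (XT.nd (nat_lit 156) (nat_lit 76) (nat_lit 0) (XT.nd (nat_lit 78) (nat_lit 0) (nat_lit 0) (XT.lf (nat_lit 0) (nat_lit 17220625820) (nat_lit 152) (nat_lit 22531454007) (nat_lit 0) (nat_lit 1587470555) (nat_lit 11) (nat_lit 5) (nat_lit 13) (nat_lit 4) (nat_lit 11) (nat_lit 4) (nat_lit 379) (nat_lit 234) (nat_lit 167)) (XT.lf (nat_lit 0) (nat_lit 21605381223) (nat_lit 152) (nat_lit 14941749268) (nat_lit 0) (nat_lit 5899324930) (nat_lit 11) (nat_lit 5) (nat_lit 13) (nat_lit 4) (nat_lit 11) (nat_lit 4) (nat_lit 380) (nat_lit 234) (nat_lit 166))) (XT.nd (nat_lit 78) (nat_lit 76) (nat_lit 0) (XT.lf (nat_lit 0) (nat_lit 26094199102) (nat_lit 152) (nat_lit 7175833499) (nat_lit 0) (nat_lit 10317365113) (nat_lit 11)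 (nat_lit 5) (nat_lit 13) (nat_lit 4) (nat_lit 11) (nat_lit 4) (nat_lit 381) (nat_lit 234) (nat_lit 165)) (XT.lf (nat_lit 0) (nat_lit 788464839) (nat_lit 76) (nat_lit 29910116093) (nat_lit 76) (nat_lit 14064565893) (nat_lit 10) (nat_lit 4) (nat_lit 11) (nat_lit 5) (nat_lit 11) (nat_lit 4) (nat_lit 382) (nat_lit 234) (nat_lit 164)))) (XT.nd (nat_lit 156) (nat_lit 76) (nat_lit 0) (XT.nd (nat_lit 78) (nat_lit 0) (nat_lit 0) (XT.lf (nat_lit 0) (nat_lit 9089298995) (nat_lit 76) (nat_lit 26397878627) (nat_lit 76) (nat_lit 10485613659) (nat_lit 10) (nat_lit 4) (nat_lit 11) (nat_lit 5) (nat_lit 11) (nat_lit 4) (nat_lit 383) (nat_lit 234) (nat_lit 163)) (XT.lf (nat_lit 0) (nat_lit 17591108966) (nat_lit 76) (nat_lit 22802713104) (nat_lit 76) (nat_lit 6825676517) (nat_lit 10) (nat_lit 4) (nat_lit 11) (nat_lit 5) (nat_lit 11) (nat_lit 4) (nat_lit 384) (nat_lit 234) (nat_lit 162))) (XT.nd (nat_lit 78) (nat_lit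 76) (nat_lit 0) (XT.lf (nat_lit 0) (nat_lit 26301323519) (nat_lit 76) (nat_lit 19121478118) (nat_lit 76) (nat_lit 3081556465) (nat_lit 10) (nat_lit 4) (nat_lit 11) (nat_lit 5) (nat_lit 11) (nat_lit 4) (nat_lit 385) (nat_lit 234) (nat_lit 161)) (XT.lf (nat_lit 0) (nat_lit 735382504) (nat_lit 152) (nat_lit 14608148631) (nat_lit 76) (nat_lit 34484745095) (nat_lit 9) (nat_lit 5) (nat_lit 11) (nat_lit 5) (nat_lit 10) (nat_lit 4) (nat_lit 386) (nat_lit 234) (nat_lit 160))))))))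
noncomputable def xc46 : XT := (XT.nd (nat_lit 34788) (nat_lit 0) (nat_lit 2128) (XT.nd (nat_lit 1092) (nat_lit 152) (nat_lit 0) (XT.nd (nat_lit 546) (nat_lit 76) (nat_lit 0) (XT.nd (nat_lit 234) (nat_lit 0) (nat_lit 0) (XT.nd (nat_lit 78) (nat_lit 76) (nat_lit 0) (XT.lf (nat_lit 0) (nat_lit 4581219776) (nat_lit 152) (nat_lit 6860374177) (nat_lit 76) (nat_lit 39750117477) (nat_lit 9) (nat_lit 5) (nat_lit 11) (nat_lit 5) (nat_lit 10) (nat_lit 4) (nat_lit 387) (nat_lit 234) (nat_lit 159)) (XT.nd (nat_lit 78) (nat_lit 0) (nat_lit 0) (XT.lf (nat_lit 0) (nat_lit 1098108536) (nat_lit 76) (nat_lit 7431895209) (nat_lit 152) (nat_lit 44066423291) (nat_lit 8) (nat_lit 5) (nat_lit 9) (nat_lit 5) (nat_lit 10) (nat_lit 4) (nat_lit 388) (nat_lit 234) (nat_lit 158)) (XT.lf (nat_lit 0) (nat_lit 9393246718) (nat_lit 76) (nat_lit 3250555425) (nat_lit 152) (nat_lit 41398089807) (nat_lit 8) (nat_lit 5) (nat_lit 9)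 (nat_lit 5) (nat_lit 10) (nat_lit 4) (nat_lit 389) (nat_lit 234) (nat_lit 157)))) (XT.nd (nat_lit 156) (nat_lit 0) (nat_lit 0) (XT.nd (nat_lit 78) (nat_lit 0) (nat_lit 0) (XT.lf (nat_lit 0) (nat_lit 16868917364) (nat_lit 152) (nat_lit 37645599690) (nat_lit 0) (nat_lit 1016570912) (nat_lit 8) (nat_lit 5) (nat_lit 10) (nat_lit 4) (nat_lit 8) (nat_lit 4) (nat_lit 390) (nat_lit 234) (nat_lit 156)) (XT.lf (nat_lit 0) (nat_lit 21231367615) (nat_lit 152) (nat_lit 30505389067) (nat_lit 0) (nat_lit 5327889849) (nat_lit 8) (nat_lit 5) (nat_lit 10) (nat_lit 4) (nat_lit 8) (nat_lit 4) (nat_lit 391) (nat_lit 234) (nat_lit 155))) (XT.nd (nat_lit 78) (nat_lit 0) (nat_lit 0) (XT.lf (nat_lit 0) (nat_lit 25703718420) (nat_lit 152) (nat_lit 23190528017) (nat_lit 0) (nat_lit 9750598602) (nat_lit 8) (nat_lit 5) (nat_lit 10) (nat_lit 4) (nat_lit 8) (nat_lit 4) (nat_lit 392) (nat_lit 234) (nat_lit 154)) (XT.lf (nat_lit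 0) (nat_lit 30289877657) (nat_lit 152) (nat_lit 15694624916) (nat_lit 0) (nat_lit 14288561672) (nat_lit 8) (nat_lit 5) (nat_lit 10) (nat_lit 4) (nat_lit 8) (nat_lit 4) (nat_lit 393) (nat_lit 234) (nat_lit 153))))) (XT.nd (nat_lit 234) (nat_lit 0) (nat_lit 0) (XT.nd (nat_lit 78) (nat_lit 76) (nat_lit 0) (XT.lf (nat_lit 0) (nat_lit 34993852651) (nat_lit 152) (nat_lit 8011129943) (nat_lit 0) (nat_lit 18945744270) (nat_lit 8) (nat_lit 5) (nat_lit 10) (nat_lit 4) (nat_lit 8) (nat_lit 4) (nat_lit 394) (nat_lit 234) (nat_lit 152)) (XT.nd (nat_lit 78) (nat_lit 76) (nat_lit 0) (XT.lf (nat_lit 0) (nat_lit 39819753671) (nat_lit 152) (nat_lit 133329367) (nat_lit 0) (nat_lit 23726215779) (nat_lit 8) (nat_lit 5) (nat_lit 10) (nat_lit 4) (nat_lit 8) (nat_lit 4) (nat_lit 395) (nat_lit 234) (nat_lit 151)) (XT.lf (nat_lit 0) (nat_lit 8103794548) (nat_lit 76) (nat_lit 36745901605) (nat_lit 76) (nat_lit 20608257392)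 (nat_lit 7) (nat_lit 4) (nat_lit 8) (nat_lit 5) (nat_lit 8) (nat_lit 4) (nat_lit 396) (nat_lit 234) (nat_lit 150)))) (XT.nd (nat_lit 156) (nat_lit 0) (nat_lit 0) (XT.nd (nat_lit 78) (nat_lit 0) (nat_lit 0) (XT.lf (nat_lit 0) (nat_lit 16555964963) (nat_lit 76) (nat_lit 33457492336) (nat_lit 76) (nat_lit 17277026453) (nat_lit 7) (nat_lit 4) (nat_lit 8) (nat_lit 5) (nat_lit 8) (nat_lit 4) (nat_lit 397) (nat_lit 234) (nat_lit 149)) (XT.lf (nat_lit 0) (nat_lit 25227913751) (nat_lit 76) (nat_lit 30086328230) (nat_lit 76) (nat_lit 13864287909) (nat_lit 7) (nat_lit 4) (nat_lit 8) (nat_lit 5) (nat_lit 8) (nat_lit 4) (nat_lit 398) (nat_lit 234) (nat_lit 148))) (XT.nd (nat_lit 78) (nat_lit 0) (nat_lit 0) (XT.lf (nat_lit 0) (nat_lit 34127218346) (nat_lit 76) (nat_lit 26629463608) (nat_lit 76) (nat_lit 10367059757) (nat_lit 7) (nat_lit 4) (nat_lit 8) (nat_lit 5) (nat_lit 8) (nat_lit 4) (nat_lit 399) (nat_lit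 234) (nat_lit 147)) (XT.lf (nat_lit 0) (nat_lit 43261654836) (nat_lit 76) (nat_lit 23083877910) (nat_lit 76) (nat_lit 6782286164) (nat_lit 7) (nat_lit 4) (nat_lit 8) (nat_lit 5) (nat_lit 8) (nat_lit 4) (nat_lit 400) (nat_lit 234) (nat_lit 146)))))) (XT.nd (nat_lit 546) (nat_lit 0) (nat_lit 0) (XT.nd (nat_lit 234) (nat_lit 76) (nat_lit 0) (XT.nd (nat_lit 78) (nat_lit 76) (nat_lit 0) (XT.lf (nat_lit 0) (nat_lit 52639204770) (nat_lit 76) (nat_lit 19446473052) (nat_lit 76) (nat_lit 3106834806) (nat_lit 7) (nat_lit 4) (nat_lit 8) (nat_lit 5) (nat_lit 8) (nat_lit 4) (nat_lit 401) (nat_lit 234) (nat_lit 145)) (XT.nd (nat_lit 78) (nat_lit 0) (nat_lit 0) (XT.lf (nat_lit 0) (nat_lit 649578001) (nat_lit 152) (nat_lit 15057933252) (nat_lit 76) (nat_lit 61611924658) (nat_lit 6) (nat_lit 5) (nat_lit 8) (nat_lit 5) (nat_lit 7) (nat_lit 4) (nat_lit 402) (nat_lit 234) (nat_lit 144)) (XT.lf (nat_lit 0) (nat_lit 4440651806)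 (nat_lit 152) (nat_lit 7397915902) (nat_lit 76) (nat_lit 67671146776) (nat_lit 6) (nat_lit 5) (nat_lit 8) (nat_lit 5) (nat_lit 7) (nat_lit 4) (nat_lit 403) (nat_lit 234) (nat_lit 143)))) (XT.nd (nat_lit 156) (nat_lit 0) (nat_lit 0) (XT.nd (nat_lit 78) (nat_lit 0) (nat_lit 0) (XT.lf (nat_lit 0) (nat_lit 472522830) (nat_lit 76) (nat_lit 7862344084) (nat_lit 152) (nat_lit 73431154951) (nat_lit 5) (nat_lit 5) (nat_lit 6) (nat_lit 5) (nat_lit 7) (nat_lit 4) (nat_lit 404) (nat_lit 234) (nat_lit 142)) (XT.lf (nat_lit 0) (nat_lit 8702405376) (nat_lit 76) (nat_lit 3703243000) (nat_lit 152) (nat_lit 71682580535) (nat_lit 5) (nat_lit 5) (nat_lit 6) (nat_lit 5) (nat_lit 7) (nat_lit 4) (nat_lit 405) (nat_lit 234) (nat_lit 141))) (XT.nd (nat_lit 78) (nat_lit 0) (nat_lit 0) (XT.lf (nat_lit 0) (nat_lit 16589481345) (nat_lit 152) (nat_lit 69334307478) (nat_lit 0) (nat_lit 556588070) (nat_lit 5) (nat_lit 5) (nat_lit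 7) (nat_lit 4) (nat_lit 5) (nat_lit 4) (nat_lit 406) (nat_lit 234) (nat_lit 140)) (XT.lf (nat_lit 0) (nat_lit 20921268552) (nat_lit 152) (nat_lit 63164910085) (nat_lit 0) (nat_lit 4857439990) (nat_lit 5) (nat_lit 5) (nat_lit 7) (nat_lit 4) (nat_lit 5) (nat_lit 4) (nat_lit 407) (nat_lit 234) (nat_lit 139))))) (XT.nd (nat_lit 234) (nat_lit 0) (nat_lit 0) (XT.nd (nat_lit 78) (nat_lit 0) (nat_lit 0) (XT.lf (nat_lit 0) (nat_lit 25369197216) (nat_lit 152) (nat_lit 56836642783) (nat_lit 0) (nat_lit 9275334397) (nat_lit 5) (nat_lit 5) (nat_lit 7) (nat_lit 4) (nat_lit 5) (nat_lit 4) (nat_lit 408) (nat_lit 234) (nat_lit 138)) (XT.nd (nat_lit 78) (nat_lit 0) (nat_lit 0) (XT.lf (nat_lit 0) (nat_lit 29937153878) (nat_lit 152) (nat_lit 50343976018) (nat_lit 0) (nat_lit 13814131584) (nat_lit 5) (nat_lit 5) (nat_lit 7) (nat_lit 4) (nat_lit 5) (nat_lit 4) (nat_lit 409) (nat_lit 234) (nat_lit 137)) (XT.lf (nat_lit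 0) (nat_lit 34629129955) (nat_lit 152) (nat_lit 43681236588) (nat_lit 0) (nat_lit 18477797493) (nat_lit 5) (nat_lit 5) (nat_lit 7) (nat_lit 4) (nat_lit 5) (nat_lit 4) (nat_lit 410) (nat_lit 234) (nat_lit 136)))) (XT.nd (nat_lit 32760) (nat_lit 0) (nat_lit 6460) (XT.nd (nat_lit 78) (nat_lit 0) (nat_lit 0) (XT.lf (nat_lit 0) (nat_lit 39449225233) (nat_lit 152) (nat_lit 36842602680) (nat_lit 0) (nat_lit 23270407170) (nat_lit 5) (nat_lit 5) (nat_lit 7) (nat_lit 4) (nat_lit 5) (nat_lit 4) (nat_lit 411) (nat_lit 234) (nat_lit 135)) (XT.lf (nat_lit 0) (nat_lit 44401651446) (nat_lit 152) (nat_lit 29822098789) (nat_lit 0) (nat_lit 28196148333) (nat_lit 5) (nat_lit 5) (nat_lit 7) (nat_lit 4) (nat_lit 5) (nat_lit 4) (nat_lit 412) (nat_lit 234) (nat_lit 134))) (XT.nd (nat_lit 78) (nat_lit 304) (nat_lit 0) (XT.lf (nat_lit 0) (nat_lit 1892590897) (nat_lit 380) (nat_lit 956418043) (nat_lit 0) (nat_lit 1892590897)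 (nat_lit 94) (nat_lit 5) (nat_lit 99) (nat_lit 4) (nat_lit 94) (nat_lit 4) (nat_lit 310) (nat_lit 235) (nat_lit 235)) (XT.lf (nat_lit 0) (nat_lit 5124354888) (nat_lit 304) (nat_lit 2684312746) (nat_lit 304) (nat_lit 1811219708) (nat_lit 90) (nat_lit 4) (nat_lit 94) (nat_lit 5) (nat_lit 94) (nat_lit 4) (nat_lit 311) (nat_lit 235) (nat_lit 234))))))) (XT.nd (nat_lit 1092) (nat_lit 1672) (nat_lit 0) (XT.nd (nat_lit 546) (nat_lit 1216) (nat_lit 0) (XT.nd (nat_lit 234) (nat_lit 760) (nat_lit 0) (XT.nd (nat_lit 78) (nat_lit 380) (nat_lit 0) (XT.lf (nat_lit 0) (nat_lit 2103283756) (nat_lit 304) (nat_lit 7225562910) (nat_lit 0) (nat_lit 432646686) (nat_lit 86) (nat_lit 5) (nat_lit 90) (nat_lit 4) (nat_lit 86) (nat_lit 4) (nat_lit 312) (nat_lit 235) (nat_lit 233)) (XT.nd (nat_lit 78) (nat_lit 380) (nat_lit 0) (XT.lf (nat_lit 0) (nat_lit 6077930525) (nat_lit 304) (nat_lit 221280359) (nat_lit 0) (nat_lit 3608289643)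 (nat_lit 86) (nat_lit 5) (nat_lit 90) (nat_lit 4) (nat_lit 86) (nat_lit 4) (nat_lit 313) (nat_lit 235) (nat_lit 232)) (XT.lf (nat_lit 0) (nat_lit 88039468) (nat_lit 380) (nat_lit 3066652618) (nat_lit 76) (nat_lit 6903933594) (nat_lit 81) (nat_lit 5) (nat_lit 86) (nat_lit 5) (nat_lit 82) (nat_lit 4) (nat_lit 314) (nat_lit 235) (nat_lit 231)))) (XT.nd (nat_lit 156) (nat_lit 304) (nat_lit 0) (XT.nd (nat_lit 78) (nat_lit 228) (nat_lit 0) (XT.lf (nat_lit 0) (nat_lit 3998986767) (nat_lit 304) (nat_lit 6098698014) (nat_lit 0) (nat_lit 116937773) (nat_lit 78) (nat_lit 5) (nat_lit 82) (nat_lit 4) (nat_lit 78) (nat_lit 4) (nat_lit 315) (nat_lit 235) (nat_lit 230)) (XT.lf (nat_lit 0) (nat_lit 1053320793) (nat_lit 228) (nat_lit 6957245062) (nat_lit 228) (nat_lit 2365291531) (nat_lit 75) (nat_lit 4) (nat_lit 78) (nat_lit 5) (nat_lit 78) (nat_lit 4) (nat_lit 316) (nat_lit 235) (nat_lit 229))) (XT.nd (nat_lit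 78) (nat_lit 228) (nat_lit 0) (XT.lf (nat_lit 0) (nat_lit 1542555423) (nat_lit 304) (nat_lit 2149793727) (nat_lit 76) (nat_lit 6849975664) (nat_lit 74) (nat_lit 5) (nat_lit 78) (nat_lit 5) (nat_lit 75) (nat_lit 4) (nat_lit 317) (nat_lit 235) (nat_lit 228)) (XT.lf (nat_lit 0) (nat_lit 5181220699) (nat_lit 228) (nat_lit 302303956) (nat_lit 304) (nat_lit 5230708545) (nat_lit 71) (nat_lit 5) (nat_lit 74) (nat_lit 5) (nat_lit 75) (nat_lit 4) (nat_lit 318) (nat_lit 235) (nat_lit 227))))) (XT.nd (nat_lit 234) (nat_lit 684) (nat_lit 0) (XT.nd (nat_lit 78) (nat_lit 304) (nat_lit 0) (XT.lf (nat_lit 0) (nat_lit 1753511051) (nat_lit 228) (nat_lit 7773044114) (nat_lit 228) (nat_lit 1365279484) (nat_lit 68) (nat_lit 4) (nat_lit 71) (nat_lit 5) (nat_lit 71) (nat_lit 4) (nat_lit 319) (nat_lit 235) (nat_lit 226)) (XT.nd (nat_lit 78) (nat_lit 228) (nat_lit 0) (XT.lf (nat_lit 0) (nat_lit 2539195833) (nat_lit 304)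 (nat_lit 1865566978) (nat_lit 76) (nat_lit 6670070771) (nat_lit 67) (nat_lit 5) (nat_lit 71) (nat_lit 5) (nat_lit 68) (nat_lit 4) (nat_lit 320) (nat_lit 235) (nat_lit 225)) (XT.lf (nat_lit 0) (nat_lit 5589036688) (nat_lit 228) (nat_lit 915251530) (nat_lit 304) (nat_lit 4759547500) (nat_lit 64) (nat_lit 5) (nat_lit 67) (nat_lit 5) (nat_lit 68) (nat_lit 4) (nat_lit 321) (nat_lit 235) (nat_lit 224)))) (XT.nd (nat_lit 156) (nat_lit 380) (nat_lit 0) (XT.nd (nat_lit 78) (nat_lit 76) (nat_lit 0) (XT.lf (nat_lit 0) (nat_lit 1722643455) (nat_lit 228) (nat_lit 8844910055) (nat_lit 228) (nat_lit 891622920) (nat_lit 61) (nat_lit 4) (nat_lit 64) (nat_lit 5) (nat_lit 64) (nat_lit 4) (nat_lit 322) (nat_lit 235) (nat_lit 223)) (XT.lf (nat_lit 0) (nat_lit 3017099296) (nat_lit 304) (nat_lit 2372658278) (nat_lit 76) (nat_lit 6270217474) (nat_lit 60) (nat_lit 5) (nat_lit 64) (nat_lit 5) (nat_lit 61) (nat_lit 4) (nat_lit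 323) (nat_lit 235) (nat_lit 222))) (XT.nd (nat_lit 78) (nat_lit 228) (nat_lit 0) (XT.lf (nat_lit 0) (nat_lit 5175182069) (nat_lit 152) (nat_lit 1820279786) (nat_lit 228) (nat_lit 4872003239) (nat_lit 58) (nat_lit 5) (nat_lit 60) (nat_lit 5) (nat_lit 61) (nat_lit 4) (nat_lit 324) (nat_lit 235) (nat_lit 221)) (XT.lf (nat_lit 0) (nat_lit 785114575) (nat_lit 228) (nat_lit 10278809713) (nat_lit 228) (nat_lit 1018173169) (nat_lit 55) (nat_lit 4) (nat_lit 58) (nat_lit 5) (nat_lit 58) (nat_lit 4) (nat_lit 325) (nat_lit 235) (nat_lit 220)))))) (XT.nd (nat_lit 546) (nat_lit 760) (nat_lit 0) (XT.nd (nat_lit 234) (nat_lit 684) (nat_lit 0) (XT.nd (nat_lit 78) (nat_lit 152) (nat_lit 0) (XT.lf (nat_lit 0) (nat_lit 2901367263) (nat_lit 304) (nat_lit 3854271446) (nat_lit 76) (nat_lit 5546486220) (nat_lit 54) (nat_lit 5) (nat_lit 58) (nat_lit 5) (nat_lit 55) (nat_lit 4) (nat_lit 326) (nat_lit 235) (nat_lit 219))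 (XT.nd (nat_lit 78) (nat_lit 0) (nat_lit 0) (XT.lf (nat_lit 0) (nat_lit 3748487615) (nat_lit 152) (nat_lit 3129278461) (nat_lit 228) (nat_lit 5651929313) (nat_lit 52) (nat_lit 5) (nat_lit 54) (nat_lit 5) (nat_lit 55) (nat_lit 4) (nat_lit 327) (nat_lit 235) (nat_lit 218)) (XT.lf (nat_lit 0) (nat_lit 10942831993) (nat_lit 228) (nat_lit 1237672884) (nat_lit 0) (nat_lit 584542448) (nat_lit 52) (nat_lit 5) (nat_lit 55) (nat_lit 4) (nat_lit 52) (nat_lit 4) (nat_lit 328) (nat_lit 235) (nat_lit 217)))) (XT.nd (nat_lit 156) (nat_lit 228) (nat_lit 0) (XT.nd (nat_lit 78) (nat_lit 152) (nat_lit 0) (XT.lf (nat_lit 0) (nat_lit 2101102392) (nat_lit 304) (nat_lit 6522555607) (nat_lit 76) (nat_lit 4382619505) (nat_lit 48) (nat_lit 5) (nat_lit 52) (nat_lit 5) (nat_lit 49) (nat_lit 4) (nat_lit 329) (nat_lit 235) (nat_lit 216)) (XT.lf (nat_lit 0) (nat_lit 1087347213) (nat_lit 152) (nat_lit 4967891592) (nat_lit 228)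 (nat_lit 7200504809) (nat_lit 46) (nat_lit 5) (nat_lit 48) (nat_lit 5) (nat_lit 49) (nat_lit 4) (nat_lit 330) (nat_lit 235) (nat_lit 215))) (XT.nd (nat_lit 78) (nat_lit 228) (nat_lit 0) (XT.lf (nat_lit 0) (nat_lit 8936998234) (nat_lit 152) (nat_lit 1184496561) (nat_lit 228) (nat_lit 3391425691) (nat_lit 46) (nat_lit 5) (nat_lit 48) (nat_lit 5) (nat_lit 49) (nat_lit 4) (nat_lit 331) (nat_lit 235) (nat_lit 214)) (XT.lf (nat_lit 0) (nat_lit 507091908) (nat_lit 228) (nat_lit 10623703554) (nat_lit 76) (nat_lit 2647327258) (nat_lit 43) (nat_lit 5) (nat_lit 46) (nat_lit 5) (nat_lit 44) (nat_lit 4) (nat_lit 332) (nat_lit 235) (nat_lit 213))))) (XT.nd (nat_lit 312) (nat_lit 380) (nat_lit 0) (XT.nd (nat_lit 156) (nat_lit 228) (nat_lit 0) (XT.nd (nat_lit 78) (nat_lit 152) (nat_lit 0) (XT.lf (nat_lit 0) (nat_lit 4442260379) (nat_lit 228) (nat_lit 3005805413) (nat_lit 76) (nat_lit 6602601044) (nat_lit 43) (nat_lit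 5) (nat_lit 46) (nat_lit 5) (nat_lit 44) (nat_lit 4) (nat_lit 333) (nat_lit 235) (nat_lit 212)) (XT.lf (nat_lit 0) (nat_lit 4817530528) (nat_lit 152) (nat_lit 3655783404) (nat_lit 228) (nat_lit 5858766557) (nat_lit 41) (nat_lit 5) (nat_lit 43) (nat_lit 5) (nat_lit 44) (nat_lit 4) (nat_lit 334) (nat_lit 235) (nat_lit 211))) (XT.nd (nat_lit 78) (nat_lit 228) (nat_lit 0) (XT.lf (nat_lit 0) (nat_lit 12590294069) (nat_lit 228) (nat_lit 1804098430) (nat_lit 0) (nat_lit 228621500) (nat_lit 41) (nat_lit 5) (nat_lit 44) (nat_lit 4) (nat_lit 41) (nat_lit 4) (nat_lit 335) (nat_lit 235) (nat_lit 210)) (XT.lf (nat_lit 0) (nat_lit 1899947114) (nat_lit 228) (nat_lit 8833958919) (nat_lit 76) (nat_lit 4187372762) (nat_lit 38) (nat_lit 5) (nat_lit 41) (nat_lit 5) (nat_lit 39) (nat_lit 4) (nat_lit 336) (nat_lit 235) (nat_lit 209)))) (XT.nd (nat_lit 156) (nat_lit 228) (nat_lit 0) (XT.nd (nat_lit 78) (nat_lit 152) (nat_lit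 0) (XT.lf (nat_lit 0) (nat_lit 5862222403) (nat_lit 228) (nat_lit 1110131336) (nat_lit 76) (nat_lit 8256984481) (nat_lit 38) (nat_lit 5) (nat_lit 41) (nat_lit 5) (nat_lit 39) (nat_lit 4) (nat_lit 337) (nat_lit 235) (nat_lit 208)) (XT.lf (nat_lit 0) (nat_lit 6868426181) (nat_lit 152) (nat_lit 3076968777) (nat_lit 228) (nat_lit 5601207850) (nat_lit 36) (nat_lit 5) (nat_lit 38) (nat_lit 5) (nat_lit 39) (nat_lit 4) (nat_lit 338) (nat_lit 235) (nat_lit 207))) (XT.nd (nat_lit 78) (nat_lit 228) (nat_lit 0) (XT.lf (nat_lit 0) (nat_lit 14107737782) (nat_lit 228) (nat_lit 884447621) (nat_lit 0) (nat_lit 882523225) (nat_lit 36) (nat_lit 5) (nat_lit 39) (nat_lit 4) (nat_lit 36) (nat_lit 4) (nat_lit 339) (nat_lit 235) (nat_lit 206)) (XT.lf (nat_lit 0) (nat_lit 2177409658) (nat_lit 228) (nat_lit 9089025639) (nat_lit 76) (nat_lit 4944484172) (nat_lit 33) (nat_lit 5) (nat_lit 36) (nat_lit 5) (nat_lit 34) (nat_lit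 4) (nat_lit 340) (nat_lit 235) (nat_lit 205))))))))
noncomputable def xc47 : XT := (XT.nd (nat_lit 2184) (nat_lit 608) (nat_lit 0) (XT.nd (nat_lit 1092) (nat_lit 456) (nat_lit 0) (XT.nd (nat_lit 546) (nat_lit 532) (nat_lit 0) (XT.nd (nat_lit 234) (nat_lit 304) (nat_lit 0) (XT.nd (nat_lit 78) (nat_lit 76) (nat_lit 0) (XT.lf (nat_lit 0) (nat_lit 6151988055) (nat_lit 228) (nat_lit 1296313716) (nat_lit 76) (nat_lit 9109990143) (nat_lit 33) (nat_lit 5) (nat_lit 36) (nat_lit 5) (nat_lit 34) (nat_lit 4) (nat_lit 341) (nat_lit 235) (nat_lit 204)) (XT.nd (nat_lit 78) (nat_lit 0) (nat_lit 0) (XT.lf (nat_lit 0) (nat_lit 6756847802) (nat_lit 76) (nat_lit 3494063485) (nat_lit 152) (nat_lit 6665041941) (nat_lit 32) (nat_lit 5) (nat_lit 33) (nat_lit 5) (nat_lit 34) (nat_lit 4) (nat_lit 342) (nat_lit 235) (nat_lit 203)) (XT.lf (nat_lit 0) (nat_lit 14432051187) (nat_lit 152) (nat_lit 2316979071) (nat_lit 0) (nat_lit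 536556965) (nat_lit 32) (nat_lit 5) (nat_lit 34) (nat_lit 4) (nat_lit 32) (nat_lit 4) (nat_lit 343) (nat_lit 235) (nat_lit 202)))) (XT.nd (nat_lit 156) (nat_lit 76) (nat_lit 0) (XT.nd (nat_lit 78) (nat_lit 0) (nat_lit 0) (XT.lf (nat_lit 0) (nat_lit 1083612274) (nat_lit 228) (nat_lit 11940701388) (nat_lit 76) (nat_lit 4640739831) (nat_lit 29) (nat_lit 5) (nat_lit 32) (nat_lit 5) (nat_lit 30) (nat_lit 4) (nat_lit 344) (nat_lit 235) (nat_lit 201)) (XT.lf (nat_lit 0) (nat_lit 5047474171) (nat_lit 228) (nat_lit 4131867643) (nat_lit 76) (nat_lit 8876754366) (nat_lit 29) (nat_lit 5) (nat_lit 32) (nat_lit 5) (nat_lit 30) (nat_lit 4) (nat_lit 345) (nat_lit 235) (nat_lit 200))) (XT.nd (nat_lit 78) (nat_lit 0) (nat_lit 0) (XT.lf (nat_lit 0) (nat_lit 3887477831) (nat_lit 76) (nat_lit 5224146585) (nat_lit 152) (nat_lit 9347822606) (nat_lit 28) (nat_lit 5) (nat_lit 29) (nat_lit 5) (nat_lit 30) (nat_lit 4) (nat_lit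 346) (nat_lit 235) (nat_lit 199)) (XT.lf (nat_lit 0) (nat_lit 12133467520) (nat_lit 76) (nat_lit 1150641903) (nat_lit 152) (nat_lit 5591214178) (nat_lit 28) (nat_lit 5) (nat_lit 29) (nat_lit 5) (nat_lit 30) (nat_lit 4) (nat_lit 347) (nat_lit 235) (nat_lit 198))))) (XT.nd (nat_lit 234) (nat_lit 304) (nat_lit 0) (XT.nd (nat_lit 78) (nat_lit 76) (nat_lit 0) (XT.lf (nat_lit 0) (nat_lit 1220723795) (nat_lit 152) (nat_lit 16347943843) (nat_lit 152) (nat_lit 1735418889) (nat_lit 26) (nat_lit 4) (nat_lit 28) (nat_lit 5) (nat_lit 28) (nat_lit 4) (nat_lit 348) (nat_lit 235) (nat_lit 197)) (XT.nd (nat_lit 78) (nat_lit 0) (nat_lit 0) (XT.lf (nat_lit 0) (nat_lit 2218563531) (nat_lit 228) (nat_lit 10313974448) (nat_lit 76) (nat_lit 7211761167) (nat_lit 25) (nat_lit 5) (nat_lit 28) (nat_lit 5) (nat_lit 26) (nat_lit 4) (nat_lit 349) (nat_lit 235) (nat_lit 196)) (XT.lf (nat_lit 0) (nat_lit 6203858614) (nat_lit 228)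 (nat_lit 2422984134) (nat_lit 76) (nat_lit 11571948291) (nat_lit 25) (nat_lit 5) (nat_lit 28) (nat_lit 5) (nat_lit 26) (nat_lit 4) (nat_lit 350) (nat_lit 235) (nat_lit 195)))) (XT.nd (nat_lit 156) (nat_lit 228) (nat_lit 0) (XT.nd (nat_lit 78) (nat_lit 0) (nat_lit 0) (XT.lf (nat_lit 0) (nat_lit 5724898549) (nat_lit 76) (nat_lit 4587945605) (nat_lit 152) (nat_lit 10353964698) (nat_lit 24) (nat_lit 5) (nat_lit 25) (nat_lit 5) (nat_lit 26) (nat_lit 4) (nat_lit 351) (nat_lit 235) (nat_lit 194)) (XT.lf (nat_lit 0) (nat_lit 14076233339) (nat_lit 76) (nat_lit 443044790) (nat_lit 152) (nat_lit 6630378379) (nat_lit 24) (nat_lit 5) (nat_lit 25) (nat_lit 5) (nat_lit 26) (nat_lit 4) (nat_lit 352) (nat_lit 235) (nat_lit 193))) (XT.nd (nat_lit 78) (nat_lit 76) (nat_lit 0) (XT.lf (nat_lit 0) (nat_lit 923239458) (nat_lit 152) (nat_lit 17925119696) (nat_lit 152) (nat_lit 2798751064) (nat_lit 22) (nat_lit 4) (nat_lit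 24) (nat_lit 5) (nat_lit 24) (nat_lit 4) (nat_lit 353) (nat_lit 235) (nat_lit 192)) (XT.lf (nat_lit 0) (nat_lit 1152837734) (nat_lit 228) (nat_lit 12957904078) (nat_lit 76) (nat_lit 8047605822) (nat_lit 21) (nat_lit 5) (nat_lit 24) (nat_lit 5) (nat_lit 22) (nat_lit 4) (nat_lit 354) (nat_lit 235) (nat_lit 191)))))) (XT.nd (nat_lit 546) (nat_lit 228) (nat_lit 0) (XT.nd (nat_lit 234) (nat_lit 152) (nat_lit 0) (XT.nd (nat_lit 78) (nat_lit 76) (nat_lit 0) (XT.lf (nat_lit 0) (nat_lit 5119041852) (nat_lit 228) (nat_lit 5073301996) (nat_lit 76) (nat_lit 12493190455) (nat_lit 21) (nat_lit 5) (nat_lit 24) (nat_lit 5) (nat_lit 22) (nat_lit 4) (nat_lit 355) (nat_lit 235) (nat_lit 190)) (XT.nd (nat_lit 78) (nat_lit 0) (nat_lit 0) (XT.lf (nat_lit 0) (nat_lit 3022712252) (nat_lit 76) (nat_lit 6164284526) (nat_lit 152) (nat_lit 14042069512) (nat_lit 20) (nat_lit 5) (nat_lit 21) (nat_lit 5) (nat_lit 22) (nat_lit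 4) (nat_lit 356) (nat_lit 235) (nat_lit 189)) (XT.lf (nat_lit 0) (nat_lit 11382319355) (nat_lit 76) (nat_lit 2000157631) (nat_lit 152) (nat_lit 10406274939) (nat_lit 20) (nat_lit 5) (nat_lit 21) (nat_lit 5) (nat_lit 22) (nat_lit 4) (nat_lit 357) (nat_lit 235) (nat_lit 188)))) (XT.nd (nat_lit 156) (nat_lit 76) (nat_lit 0) (XT.nd (nat_lit 78) (nat_lit 76) (nat_lit 0) (XT.lf (nat_lit 0) (nat_lit 17681062054) (nat_lit 152) (nat_lit 4476369118) (nat_lit 0) (nat_lit 2208491674) (nat_lit 20) (nat_lit 5) (nat_lit 22) (nat_lit 4) (nat_lit 20) (nat_lit 4) (nat_lit 358) (nat_lit 235) (nat_lit 187)) (XT.lf (nat_lit 0) (nat_lit 3663817636) (nat_lit 76) (nat_lit 18456351388) (nat_lit 76) (nat_lit 2839904524) (nat_lit 19) (nat_lit 4) (nat_lit 20) (nat_lit 5) (nat_lit 20) (nat_lit 4) (nat_lit 359) (nat_lit 235) (nat_lit 186))) (XT.nd (nat_lit 78) (nat_lit 0) (nat_lit 0) (XT.lf (nat_lit 0) (nat_lit 1100802529) (nat_lit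 152) (nat_lit 13521503637) (nat_lit 76) (nat_lit 10949362469) (nat_lit 18) (nat_lit 5) (nat_lit 20) (nat_lit 5) (nat_lit 19) (nat_lit 4) (nat_lit 360) (nat_lit 235) (nat_lit 185)) (XT.lf (nat_lit 0) (nat_lit 5060530207) (nat_lit 152) (nat_lit 5618873836) (nat_lit 76) (nat_lit 15522638236) (nat_lit 18) (nat_lit 5) (nat_lit 20) (nat_lit 5) (nat_lit 19) (nat_lit 4) (nat_lit 361) (nat_lit 235) (nat_lit 184))))) (XT.nd (nat_lit 234) (nat_lit 152) (nat_lit 0) (XT.nd (nat_lit 78) (nat_lit 0) (nat_lit 0) (XT.lf (nat_lit 0) (nat_lit 2494514564) (nat_lit 76) (nat_lit 6627619468) (nat_lit 152) (nat_lit 17729710862) (nat_lit 17) (nat_lit 5) (nat_lit 18) (nat_lit 5) (nat_lit 19) (nat_lit 4) (nat_lit 362) (nat_lit 235) (nat_lit 183)) (XT.nd (nat_lit 78) (nat_lit 0) (nat_lit 0) (XT.lf (nat_lit 0) (nat_lit 10892224032) (nat_lit 76) (nat_lit 2429684316) (nat_lit 152) (nat_lit 14198753560) (nat_lit 17) (nat_lit 5)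 (nat_lit 18) (nat_lit 5) (nat_lit 19) (nat_lit 4) (nat_lit 363) (nat_lit 235) (nat_lit 182)) (XT.lf (nat_lit 0) (nat_lit 17626328103) (nat_lit 152) (nat_lit 8758856813) (nat_lit 0) (nat_lit 1825008651) (nat_lit 17) (nat_lit 5) (nat_lit 19) (nat_lit 4) (nat_lit 17) (nat_lit 4) (nat_lit 364) (nat_lit 235) (nat_lit 181)))) (XT.nd (nat_lit 156) (nat_lit 76) (nat_lit 0) (XT.nd (nat_lit 78) (nat_lit 76) (nat_lit 0) (XT.lf (nat_lit 0) (nat_lit 22045532951) (nat_lit 152) (nat_lit 748089317) (nat_lit 0) (nat_lit 6127228750) (nat_lit 17) (nat_lit 5) (nat_lit 19) (nat_lit 4) (nat_lit 17) (nat_lit 4) (nat_lit 365) (nat_lit 235) (nat_lit 180)) (XT.lf (nat_lit 0) (nat_lit 7582175476) (nat_lit 76) (nat_lit 19050737755) (nat_lit 76) (nat_lit 3018856128) (nat_lit 16) (nat_lit 4) (nat_lit 17) (nat_lit 5) (nat_lit 17) (nat_lit 4) (nat_lit 366) (nat_lit 235) (nat_lit 179))) (XT.nd (nat_lit 78) (nat_lit 0) (nat_lit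 0) (XT.lf (nat_lit 0) (nat_lit 905098862) (nat_lit 152) (nat_lit 14304800281) (nat_lit 76) (nat_lit 15195337769) (nat_lit 15) (nat_lit 5) (nat_lit 17) (nat_lit 5) (nat_lit 16) (nat_lit 4) (nat_lit 367) (nat_lit 235) (nat_lit 178)) (XT.lf (nat_lit 0) (nat_lit 4849953254) (nat_lit 152) (nat_lit 6403803481) (nat_lit 76) (nat_lit 19927747731) (nat_lit 15) (nat_lit 5) (nat_lit 17) (nat_lit 5) (nat_lit 16) (nat_lit 4) (nat_lit 368) (nat_lit 235) (nat_lit 177))))))) (XT.nd (nat_lit 1092) (nat_lit 304) (nat_lit 0) (XT.nd (nat_lit 546) (nat_lit 152) (nat_lit 0) (XT.nd (nat_lit 234) (nat_lit 76) (nat_lit 0) (XT.nd (nat_lit 78) (nat_lit 0) (nat_lit 0) (XT.lf (nat_lit 0) (nat_lit 1702542120) (nat_lit 76) (nat_lit 7191886521) (nat_lit 152) (nat_lit 23087201270) (nat_lit 14) (nat_lit 5) (nat_lit 15) (nat_lit 5) (nat_lit 16) (nat_lit 4) (nat_lit 369) (nat_lit 235) (nat_lit 176)) (XT.nd (nat_lit 78) (nat_lit 0)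 (nat_lit 0) (XT.lf (nat_lit 0) (nat_lit 10119082264) (nat_lit 76) (nat_lit 2971135645) (nat_lit 152) (nat_lit 19714649708) (nat_lit 14) (nat_lit 5) (nat_lit 15) (nat_lit 5) (nat_lit 16) (nat_lit 4) (nat_lit 370) (nat_lit 235) (nat_lit 175)) (XT.lf (nat_lit 0) (nat_lit 17391158065) (nat_lit 152) (nat_lit 14941050598) (nat_lit 0) (nat_lit 1321223134) (nat_lit 14) (nat_lit 5) (nat_lit 16) (nat_lit 4) (nat_lit 14) (nat_lit 4) (nat_lit 371) (nat_lit 235) (nat_lit 174)))) (XT.nd (nat_lit 156) (nat_lit 0) (nat_lit 0) (XT.nd (nat_lit 78) (nat_lit 76) (nat_lit 0) (XT.lf (nat_lit 0) (nat_lit 21817580473) (nat_lit 152) (nat_lit 7054689542) (nat_lit 0) (nat_lit 5655296701) (nat_lit 14) (nat_lit 5) (nat_lit 16) (nat_lit 4) (nat_lit 14) (nat_lit 4) (nat_lit 372) (nat_lit 235) (nat_lit 173)) (XT.lf (nat_lit 0) (nat_lit 1028825267) (nat_lit 76) (nat_lit 25325856937) (nat_lit 76) (nat_lit 9073914097) (nat_lit 13)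 (nat_lit 4) (nat_lit 14) (nat_lit 5) (nat_lit 14) (nat_lit 4) (nat_lit 373) (nat_lit 235) (nat_lit 172))) (XT.nd (nat_lit 78) (nat_lit 0) (nat_lit 0) (XT.lf (nat_lit 0) (nat_lit 9440530041) (nat_lit 76) (nat_lit 21626968093) (nat_lit 76) (nat_lit 5287977613) (nat_lit 13) (nat_lit 4) (nat_lit 14) (nat_lit 5) (nat_lit 14) (nat_lit 4) (nat_lit 374) (nat_lit 235) (nat_lit 171)) (XT.lf (nat_lit 0) (nat_lit 18047372655) (nat_lit 76) (nat_lit 17843609977) (nat_lit 76) (nat_lit 1420107225) (nat_lit 13) (nat_lit 4) (nat_lit 14) (nat_lit 5) (nat_lit 14) (nat_lit 4) (nat_lit 375) (nat_lit 235) (nat_lit 170))))) (XT.nd (nat_lit 234) (nat_lit 0) (nat_lit 0) (XT.nd (nat_lit 78) (nat_lit 76) (nat_lit 0) (XT.lf (nat_lit 0) (nat_lit 2483647307) (nat_lit 152) (nat_lit 11463749465) (nat_lit 76) (nat_lit 24348146378) (nat_lit 12) (nat_lit 5) (nat_lit 14) (nat_lit 5) (nat_lit 13) (nat_lit 4) (nat_lit 376) (nat_lit 235)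 (nat_lit 169)) (XT.nd (nat_lit 78) (nat_lit 76) (nat_lit 0) (XT.lf (nat_lit 0) (nat_lit 6446726089) (nat_lit 152) (nat_lit 3498360460) (nat_lit 76) (nat_lit 29364905276) (nat_lit 12) (nat_lit 5) (nat_lit 14) (nat_lit 5) (nat_lit 13) (nat_lit 4) (nat_lit 377) (nat_lit 235) (nat_lit 168)) (XT.lf (nat_lit 0) (nat_lit 4745665834) (nat_lit 76) (nat_lit 5800255818) (nat_lit 152) (nat_lit 29808441618) (nat_lit 11) (nat_lit 5) (nat_lit 12) (nat_lit 5) (nat_lit 13) (nat_lit 4) (nat_lit 378) (nat_lit 235) (nat_lit 167)))) (XT.nd (nat_lit 156) (nat_lit 0) (nat_lit 0) (XT.nd (nat_lit 78) (nat_lit 0) (nat_lit 0) (XT.lf (nat_lit 0) (nat_lit 13256315380) (nat_lit 76) (nat_lit 1519033663) (nat_lit 152) (nat_lit 26654505007) (nat_lit 11) (nat_lit 5) (nat_lit 12) (nat_lit 5) (nat_lit 13) (nat_lit 4) (nat_lit 379) (nat_lit 235) (nat_lit 166)) (XT.lf (nat_lit 0) (nat_lit 19131965529) (nat_lit 152) (nat_lit 20594591712)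 (nat_lit 0) (nat_lit 2811048823) (nat_lit 11) (nat_lit 5) (nat_lit 13) (nat_lit 4) (nat_lit 11) (nat_lit 4) (nat_lit 380) (nat_lit 235) (nat_lit 165))) (XT.nd (nat_lit 78) (nat_lit 0) (nat_lit 0) (XT.lf (nat_lit 0) (nat_lit 23607640654) (nat_lit 152) (nat_lit 12853296974) (nat_lit 0) (nat_lit 7218007737) (nat_lit 11) (nat_lit 5) (nat_lit 13) (nat_lit 4) (nat_lit 11) (nat_lit 4) (nat_lit 381) (nat_lit 235) (nat_lit 164)) (XT.lf (nat_lit 0) (nat_lit 28191683322) (nat_lit 152) (nat_lit 4928288337) (nat_lit 0) (nat_lit 11735335638) (nat_lit 11) (nat_lit 5) (nat_lit 13) (nat_lit 4) (nat_lit 11) (nat_lit 4) (nat_lit 382) (nat_lit 235) (nat_lit 163)))))) (XT.nd (nat_lit 546) (nat_lit 76) (nat_lit 0) (XT.nd (nat_lit 234) (nat_lit 152) (nat_lit 0) (XT.nd (nat_lit 78) (nat_lit 0) (nat_lit 0) (XT.lf (nat_lit 0) (nat_lit 3250793655) (nat_lit 76) (nat_lit 29668553970) (nat_lit 76) (nat_lit 13147434667) (nat_lit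 10) (nat_lit 4) (nat_lit 11) (nat_lit 5) (nat_lit 11) (nat_lit 4) (nat_lit 383) (nat_lit 235) (nat_lit 162)) (XT.nd (nat_lit 78) (nat_lit 0) (nat_lit 0) (XT.lf (nat_lit 0) (nat_lit 11729623470) (nat_lit 76) (nat_lit 26084120222) (nat_lit 76) (nat_lit 9500115853) (nat_lit 10) (nat_lit 4) (nat_lit 11) (nat_lit 5) (nat_lit 11) (nat_lit 4) (nat_lit 384) (nat_lit 235) (nat_lit 161)) (XT.lf (nat_lit 0) (nat_lit 20417527192) (nat_lit 76) (nat_lit 22413304435) (nat_lit 76) (nat_lit 5768246603) (nat_lit 10) (nat_lit 4) (nat_lit 11) (nat_lit 5) (nat_lit 11) (nat_lit 4) (nat_lit 385) (nat_lit 235) (nat_lit 160)))) (XT.nd (nat_lit 156) (nat_lit 76) (nat_lit 0) (XT.nd (nat_lit 78) (nat_lit 76) (nat_lit 0) (XT.lf (nat_lit 0) (nat_lit 29322096193) (nat_lit 76) (nat_lit 18652899101) (nat_lit 76) (nat_lit 1948566062) (nat_lit 10) (nat_lit 4) (nat_lit 11) (nat_lit 5) (nat_lit 11) (nat_lit 4) (nat_lit 386) (nat_lit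 235) (nat_lit 159)) (XT.lf (nat_lit 0) (nat_lit 1923972529) (nat_lit 152) (nat_lit 12856217549) (nat_lit 76) (nat_lit 36507710285) (nat_lit 9) (nat_lit 5) (nat_lit 11) (nat_lit 5) (nat_lit 10) (nat_lit 4) (nat_lit 387) (nat_lit 235) (nat_lit 158))) (XT.nd (nat_lit 78) (nat_lit 76) (nat_lit 0) (XT.lf (nat_lit 0) (nat_lit 5851208358) (nat_lit 152) (nat_lit 4939801382) (nat_lit 76) (nat_lit 41902254824) (nat_lit 9) (nat_lit 5) (nat_lit 11) (nat_lit 5) (nat_lit 10) (nat_lit 4) (nat_lit 388) (nat_lit 235) (nat_lit 157)) (XT.lf (nat_lit 0) (nat_lit 3236588910) (nat_lit 76) (nat_lit 6669119696) (nat_lit 152) (nat_lit 44234801906) (nat_lit 8) (nat_lit 5) (nat_lit 9) (nat_lit 5) (nat_lit 10) (nat_lit 4) (nat_lit 389) (nat_lit 235) (nat_lit 156))))) (XT.nd (nat_lit 312) (nat_lit 76) (nat_lit 0) (XT.nd (nat_lit 156) (nat_lit 0) (nat_lit 0) (XT.nd (nat_lit 78) (nat_lit 0) (nat_lit 0) (XT.lf (nat_lit 0) (nat_lit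 11719254914) (nat_lit 76) (nat_lit 2391050371) (nat_lit 152) (nat_lit 41520018827) (nat_lit 8) (nat_lit 5) (nat_lit 9) (nat_lit 5) (nat_lit 10) (nat_lit 4) (nat_lit 390) (nat_lit 235) (nat_lit 155)) (XT.lf (nat_lit 0) (nat_lit 18439439793) (nat_lit 152) (nat_lit 36767359997) (nat_lit 0) (nat_lit 1958084328) (nat_lit 8) (nat_lit 5) (nat_lit 10) (nat_lit 4) (nat_lit 8) (nat_lit 4) (nat_lit 391) (nat_lit 235) (nat_lit 154))) (XT.nd (nat_lit 78) (nat_lit 0) (nat_lit 0) (XT.lf (nat_lit 0) (nat_lit 22901760011) (nat_lit 152) (nat_lit 29471417066) (nat_lit 0) (nat_lit 6372208378) (nat_lit 8) (nat_lit 5) (nat_lit 10) (nat_lit 4) (nat_lit 8) (nat_lit 4) (nat_lit 392) (nat_lit 235) (nat_lit 153)) (XT.lf (nat_lit 0) (nat_lit 27478180814) (nat_lit 152) (nat_lit 21993881069) (nat_lit 0) (nat_lit 10901836786) (nat_lit 8) (nat_lit 5) (nat_lit 10) (nat_lit 4) (nat_lit 8) (nat_lit 4) (nat_lit 393) (nat_lit 235)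 (nat_lit 152)))) (XT.nd (nat_lit 156) (nat_lit 76) (nat_lit 0) (XT.nd (nat_lit 78) (nat_lit 0) (nat_lit 0) (XT.lf (nat_lit 0) (nat_lit 32172701018) (nat_lit 152) (nat_lit 14328218237) (nat_lit 0) (nat_lit 15550927479) (nat_lit 8) (nat_lit 5) (nat_lit 10) (nat_lit 4) (nat_lit 8) (nat_lit 4) (nat_lit 394) (nat_lit 235) (nat_lit 151)) (XT.lf (nat_lit 0) (nat_lit 36989422629) (nat_lit 152) (nat_lit 6467730418) (nat_lit 0) (nat_lit 20323542770) (nat_lit 8) (nat_lit 5) (nat_lit 10) (nat_lit 4) (nat_lit 8) (nat_lit 4) (nat_lit 395) (nat_lit 235) (nat_lit 150))) (XT.nd (nat_lit 78) (nat_lit 0) (nat_lit 0) (XT.lf (nat_lit 0) (nat_lit 1626183471) (nat_lit 76) (nat_lit 40322002834) (nat_lit 76) (nat_lit 23613301304) (nat_lit 7) (nat_lit 4) (nat_lit 8) (nat_lit 5) (nat_lit 8) (nat_lit 4) (nat_lit 396) (nat_lit 235) (nat_lit 149)) (XT.lf (nat_lit 0) (nat_lit 10061710172) (nat_lit 76) (nat_lit 37041424817) (nat_lit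 76) (nat_lit 20291148849) (nat_lit 7) (nat_lit 4) (nat_lit 8) (nat_lit 5) (nat_lit 8) (nat_lit 4) (nat_lit 397) (nat_lit 235) (nat_lit 148))))))))
noncomputable def xc48 : XT := (XT.nd (nat_lit 34632) (nat_lit 0) (nat_lit 1520) (XT.nd (nat_lit 1092) (nat_lit 0) (nat_lit 0) (XT.nd (nat_lit 546) (nat_lit 76) (nat_lit 0) (XT.nd (nat_lit 234) (nat_lit 76) (nat_lit 0) (XT.nd (nat_lit 78) (nat_lit 0) (nat_lit 0) (XT.lf (nat_lit 0) (nat_lit 18717500016) (nat_lit 76) (nat_lit 33677863867) (nat_lit 76) (nat_lit 16887224368) (nat_lit 7) (nat_lit 4) (nat_lit 8) (nat_lit 5) (nat_lit 8) (nat_lit 4) (nat_lit 398) (nat_lit 235) (nat_lit 147)) (XT.nd (nat_lit 78) (nat_lit 0) (nat_lit 0) (XT.lf (nat_lit 0) (nat_lit 27601116314) (nat_lit 76) (nat_lit 30228380951) (nat_lit 76) (nat_lit 13398553558) (nat_lit 7) (nat_lit 4) (nat_lit 8) (nat_lit 5) (nat_lit 8) (nat_lit 4) (nat_lit 399) (nat_lit 235) (nat_lit 146)) (XT.lf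 (nat_lit 0) (nat_lit 36720321449) (nat_lit 76) (nat_lit 26689961958) (nat_lit 76) (nat_lit 9822088065) (nat_lit 7) (nat_lit 4) (nat_lit 8) (nat_lit 5) (nat_lit 8) (nat_lit 4) (nat_lit 400) (nat_lit 235) (nat_lit 145)))) (XT.nd (nat_lit 156) (nat_lit 76) (nat_lit 0) (XT.nd (nat_lit 78) (nat_lit 0) (nat_lit 0) (XT.lf (nat_lit 0) (nat_lit 46083083659) (nat_lit 76) (nat_lit 23059515065) (nat_lit 76) (nat_lit 6154702823) (nat_lit 7) (nat_lit 4) (nat_lit 8) (nat_lit 5) (nat_lit 8) (nat_lit 4) (nat_lit 401) (nat_lit 235) (nat_lit 144)) (XT.lf (nat_lit 0) (nat_lit 55697583999) (nat_lit 76) (nat_lit 19333868036) (nat_lit 76) (nat_lit 2393193320) (nat_lit 7) (nat_lit 4) (nat_lit 8) (nat_lit 5) (nat_lit 8) (nat_lit 4) (nat_lit 402) (nat_lit 235) (nat_lit 143))) (XT.nd (nat_lit 78) (nat_lit 0) (nat_lit 0) (XT.lf (nat_lit 0) (nat_lit 1437125582) (nat_lit 152) (nat_lit 14058127720) (nat_lit 76) (nat_lit 64120585754)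 (nat_lit 6) (nat_lit 5) (nat_lit 8) (nat_lit 5) (nat_lit 7) (nat_lit 4) (nat_lit 403) (nat_lit 235) (nat_lit 142)) (XT.lf (nat_lit 0) (nat_lit 5319560915) (nat_lit 152) (nat_lit 6210587816) (nat_lit 76) (nat_lit 70342352400) (nat_lit 6) (nat_lit 5) (nat_lit 8) (nat_lit 5) (nat_lit 7) (nat_lit 4) (nat_lit 404) (nat_lit 235) (nat_lit 141))))) (XT.nd (nat_lit 234) (nat_lit 0) (nat_lit 0) (XT.nd (nat_lit 78) (nat_lit 0) (nat_lit 0) (XT.lf (nat_lit 0) (nat_lit 1882147748) (nat_lit 76) (nat_lit 7440149527) (nat_lit 152) (nat_lit 74874453520) (nat_lit 5) (nat_lit 5) (nat_lit 6) (nat_lit 5) (nat_lit 7) (nat_lit 4) (nat_lit 405) (nat_lit 235) (nat_lit 140)) (XT.nd (nat_lit 78) (nat_lit 0) (nat_lit 0) (XT.lf (nat_lit 0) (nat_lit 10318282618) (nat_lit 76) (nat_lit 3175442348) (nat_lit 152) (nat_lit 73095547195) (nat_lit 5) (nat_lit 5) (nat_lit 6) (nat_lit 5) (nat_lit 7) (nat_lit 4) (nat_lit 406) (nat_lit 235)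 (nat_lit 139)) (XT.lf (nat_lit 0) (nat_lit 17788183860) (nat_lit 152) (nat_lit 70083980178) (nat_lit 0) (nat_lit 1181470898) (nat_lit 5) (nat_lit 5) (nat_lit 7) (nat_lit 4) (nat_lit 5) (nat_lit 4) (nat_lit 407) (nat_lit 235) (nat_lit 138)))) (XT.nd (nat_lit 156) (nat_lit 0) (nat_lit 0) (XT.nd (nat_lit 78) (nat_lit 0) (nat_lit 0) (XT.lf (nat_lit 0) (nat_lit 22229506681) (nat_lit 152) (nat_lit 63768249111) (nat_lit 0) (nat_lit 5593634245) (nat_lit 5) (nat_lit 5) (nat_lit 7) (nat_lit 4) (nat_lit 5) (nat_lit 4) (nat_lit 408) (nat_lit 235) (nat_lit 137)) (XT.lf (nat_lit 0) (nat_lit 26791049902) (nat_lit 152) (nat_lit 57287753448) (nat_lit 0) (nat_lit 10126867297) (nat_lit 5) (nat_lit 5) (nat_lit 7) (nat_lit 4) (nat_lit 5) (nat_lit 4) (nat_lit 409) (nat_lit 235) (nat_lit 136))) (XT.nd (nat_lit 78) (nat_lit 0) (nat_lit 0) (XT.lf (nat_lit 0) (nat_lit 31476799338) (nat_lit 152) (nat_lit 50636830622) (nat_lit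 0) (nat_lit 14785131132) (nat_lit 5) (nat_lit 5) (nat_lit 7) (nat_lit 4) (nat_lit 5) (nat_lit 4) (nat_lit 410) (nat_lit 235) (nat_lit 135)) (XT.lf (nat_lit 0) (nat_lit 36290849333) (nat_lit 152) (nat_lit 43809669144) (nat_lit 0) (nat_lit 19572496078) (nat_lit 5) (nat_lit 5) (nat_lit 7) (nat_lit 4) (nat_lit 5) (nat_lit 4) (nat_lit 411) (nat_lit 235) (nat_lit 134)))))) (XT.nd (nat_lit 32994) (nat_lit 0) (nat_lit 4712) (XT.nd (nat_lit 32682) (nat_lit 0) (nat_lit 6156) (XT.nd (nat_lit 32526) (nat_lit 0) (nat_lit 6764) (XT.lf (nat_lit 0) (nat_lit 41237406339) (nat_lit 152) (nat_lit 36800303536) (nat_lit 0) (nat_lit 24493145270) (nat_lit 5) (nat_lit 5) (nat_lit 7) (nat_lit 4) (nat_lit 5) (nat_lit 4) (nat_lit 412) (nat_lit 235) (nat_lit 133)) (XT.nd (nat_lit 78) (nat_lit 380) (nat_lit 0) (XT.lf (nat_lit 0) (nat_lit 1493923879) (nat_lit 304) (nat_lit 1558583522) (nat_lit 304) (nat_lit 1558583522) (nat_lit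 99) (nat_lit 4) (nat_lit 103) (nat_lit 5) (nat_lit 103) (nat_lit 4) (nat_lit 308) (nat_lit 236) (nat_lit 236)) (XT.lf (nat_lit 0) (nat_lit 567087564) (nat_lit 304) (nat_lit 168553799) (nat_lit 380) (nat_lit 8616195964) (nat_lit 94) (nat_lit 5) (nat_lit 98) (nat_lit 5) (nat_lit 99) (nat_lit 4) (nat_lit 309) (nat_lit 236) (nat_lit 235)))) (XT.nd (nat_lit 156) (nat_lit 304) (nat_lit 0) (XT.nd (nat_lit 78) (nat_lit 304) (nat_lit 0) (XT.lf (nat_lit 0) (nat_lit 4637801372) (nat_lit 380) (nat_lit 1981410413) (nat_lit 0) (nat_lit 2865422504) (nat_lit 94) (nat_lit 5) (nat_lit 99) (nat_lit 4) (nat_lit 94) (nat_lit 4) (nat_lit 310) (nat_lit 236) (nat_lit 234)) (XT.lf (nat_lit 0) (nat_lit 4986513766) (nat_lit 304) (nat_lit 3628141390) (nat_lit 304) (nat_lit 1008099378) (nat_lit 90) (nat_lit 4) (nat_lit 94) (nat_lit 5) (nat_lit 94) (nat_lit 4) (nat_lit 311) (nat_lit 236) (nat_lit 233))) (XT.nd (nat_lit 78) (nat_lit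 0) (nat_lit 0) (XT.lf (nat_lit 0) (nat_lit 2320732931) (nat_lit 228) (nat_lit 518552226) (nat_lit 304) (nat_lit 6926418889) (nat_lit 86) (nat_lit 5) (nat_lit 89) (nat_lit 5) (nat_lit 90) (nat_lit 4) (nat_lit 312) (nat_lit 236) (nat_lit 232)) (XT.lf (nat_lit 0) (nat_lit 6764320109) (nat_lit 304) (nat_lit 503055896) (nat_lit 0) (nat_lit 2645854332) (nat_lit 86) (nat_lit 5) (nat_lit 90) (nat_lit 4) (nat_lit 86) (nat_lit 4) (nat_lit 313) (nat_lit 236) (nat_lit 231))))) (XT.nd (nat_lit 234) (nat_lit 608) (nat_lit 0) (XT.nd (nat_lit 78) (nat_lit 456) (nat_lit 0) (XT.lf (nat_lit 0) (nat_lit 708194208) (nat_lit 380) (nat_lit 3433969259) (nat_lit 76) (nat_lit 5923441423) (nat_lit 81) (nat_lit 5) (nat_lit 86) (nat_lit 5) (nat_lit 82) (nat_lit 4) (nat_lit 314) (nat_lit 236) (nat_lit 230)) (XT.nd (nat_lit 78) (nat_lit 228) (nat_lit 0) (XT.lf (nat_lit 0) (nat_lit 3675536250) (nat_lit 228) (nat_lit 895075289)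 (nat_lit 304) (nat_lit 5652474277) (nat_lit 78) (nat_lit 5) (nat_lit 81) (nat_lit 5) (nat_lit 82) (nat_lit 4) (nat_lit 315) (nat_lit 236) (nat_lit 229)) (XT.lf (nat_lit 0) (nat_lit 536917559) (nat_lit 228) (nat_lit 7988981773) (nat_lit 228) (nat_lit 1860137390) (nat_lit 75) (nat_lit 4) (nat_lit 78) (nat_lit 5) (nat_lit 78) (nat_lit 4) (nat_lit 316) (nat_lit 236) (nat_lit 228)))) (XT.nd (nat_lit 156) (nat_lit 304) (nat_lit 0) (XT.nd (nat_lit 78) (nat_lit 228) (nat_lit 0) (XT.lf (nat_lit 0) (nat_lit 1995301361) (nat_lit 304) (nat_lit 2747535732) (nat_lit 76) (nat_lit 5810823671) (nat_lit 74) (nat_lit 5) (nat_lit 78) (nat_lit 5) (nat_lit 75) (nat_lit 4) (nat_lit 317) (nat_lit 236) (nat_lit 227)) (XT.lf (nat_lit 0) (nat_lit 4505928908) (nat_lit 228) (nat_lit 1382538885) (nat_lit 304) (nat_lit 4838560455) (nat_lit 71) (nat_lit 5) (nat_lit 74) (nat_lit 5) (nat_lit 75) (nat_lit 4) (nat_lit 318) (nat_lit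 236) (nat_lit 226))) (XT.nd (nat_lit 78) (nat_lit 76) (nat_lit 0) (XT.lf (nat_lit 0) (nat_lit 996265566) (nat_lit 228) (nat_lit 8876627511) (nat_lit 228) (nat_lit 1033519064) (nat_lit 68) (nat_lit 4) (nat_lit 71) (nat_lit 5) (nat_lit 71) (nat_lit 4) (nat_lit 319) (nat_lit 236) (nat_lit 225)) (XT.lf (nat_lit 0) (nat_lit 2823693414) (nat_lit 304) (nat_lit 2705544689) (nat_lit 76) (nat_lit 5561323859) (nat_lit 67) (nat_lit 5) (nat_lit 71) (nat_lit 5) (nat_lit 68) (nat_lit 4) (nat_lit 320) (nat_lit 236) (nat_lit 224))))))) (XT.nd (nat_lit 1092) (nat_lit 1216) (nat_lit 0) (XT.nd (nat_lit 546) (nat_lit 836) (nat_lit 0) (XT.nd (nat_lit 234) (nat_lit 608) (nat_lit 0) (XT.nd (nat_lit 78) (nat_lit 304) (nat_lit 0) (XT.lf (nat_lit 0) (nat_lit 4668013041) (nat_lit 228) (nat_lit 2072318346) (nat_lit 304) (nat_lit 4540708569) (nat_lit 64) (nat_lit 5) (nat_lit 67) (nat_lit 5) (nat_lit 68) (nat_lit 4) (nat_lit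 321) (nat_lit 236) (nat_lit 223)) (XT.nd (nat_lit 78) (nat_lit 76) (nat_lit 0) (XT.lf (nat_lit 0) (nat_lit 712401454) (nat_lit 228) (nat_lit 10031088823) (nat_lit 228) (nat_lit 734715160) (nat_lit 61) (nat_lit 4) (nat_lit 64) (nat_lit 5) (nat_lit 64) (nat_lit 4) (nat_lit 322) (nat_lit 236) (nat_lit 222)) (XT.lf (nat_lit 0) (nat_lit 3131808471) (nat_lit 304) (nat_lit 3467038113) (nat_lit 76) (nat_lit 5081306665) (nat_lit 60) (nat_lit 5) (nat_lit 64) (nat_lit 5) (nat_lit 61) (nat_lit 4) (nat_lit 323) (nat_lit 236) (nat_lit 221)))) (XT.nd (nat_lit 156) (nat_lit 456) (nat_lit 0) (XT.nd (nat_lit 78) (nat_lit 0) (nat_lit 0) (XT.lf (nat_lit 0) (nat_lit 3996044931) (nat_lit 152) (nat_lit 3064794666) (nat_lit 228) (nat_lit 4828303386) (nat_lit 58) (nat_lit 5) (nat_lit 60) (nat_lit 5) (nat_lit 61) (nat_lit 4) (nat_lit 324) (nat_lit 236) (nat_lit 220)) (XT.lf (nat_lit 0) (nat_lit 11072086628) (nat_lit 228)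 (nat_lit 481116570) (nat_lit 0) (nat_lit 552307781) (nat_lit 58) (nat_lit 5) (nat_lit 61) (nat_lit 4) (nat_lit 58) (nat_lit 4) (nat_lit 325) (nat_lit 236) (nat_lit 219))) (XT.nd (nat_lit 78) (nat_lit 152) (nat_lit 0) (XT.lf (nat_lit 0) (nat_lit 2844065763) (nat_lit 304) (nat_lit 5215655877) (nat_lit 76) (nat_lit 4267109719) (nat_lit 54) (nat_lit 5) (nat_lit 58) (nat_lit 5) (nat_lit 55) (nat_lit 4) (nat_lit 326) (nat_lit 236) (nat_lit 218)) (XT.lf (nat_lit 0) (nat_lit 2298402531) (nat_lit 152) (nat_lit 4471633241) (nat_lit 228) (nat_lit 5785896456) (nat_lit 52) (nat_lit 5) (nat_lit 54) (nat_lit 5) (nat_lit 55) (nat_lit 4) (nat_lit 327) (nat_lit 236) (nat_lit 217))))) (XT.nd (nat_lit 234) (nat_lit 532) (nat_lit 0) (XT.nd (nat_lit 78) (nat_lit 304) (nat_lit 0) (XT.lf (nat_lit 0) (nat_lit 10023380018) (nat_lit 152) (nat_lit 769989018) (nat_lit 228) (nat_lit 1999184142) (nat_lit 52) (nat_lit 5) (nat_lit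 54) (nat_lit 5) (nat_lit 55) (nat_lit 4) (nat_lit 328) (nat_lit 236) (nat_lit 216)) (XT.nd (nat_lit 78) (nat_lit 0) (nat_lit 0) (XT.lf (nat_lit 0) (nat_lit 1868898666) (nat_lit 304) (nat_lit 8164060993) (nat_lit 76) (nat_lit 3002651433) (nat_lit 48) (nat_lit 5) (nat_lit 52) (nat_lit 5) (nat_lit 49) (nat_lit 4) (nat_lit 329) (nat_lit 236) (nat_lit 215)) (XT.lf (nat_lit 0) (nat_lit 5777511725) (nat_lit 304) (nat_lit 634425123) (nat_lit 76) (nat_lit 6874521643) (nat_lit 48) (nat_lit 5) (nat_lit 52) (nat_lit 5) (nat_lit 49) (nat_lit 4) (nat_lit 330) (nat_lit 236) (nat_lit 214)))) (XT.nd (nat_lit 156) (nat_lit 152) (nat_lit 0) (XT.nd (nat_lit 78) (nat_lit 228) (nat_lit 0) (XT.lf (nat_lit 0) (nat_lit 7144129614) (nat_lit 152) (nat_lit 2658806578) (nat_lit 228) (nat_lit 3741939252) (nat_lit 46) (nat_lit 5) (nat_lit 48) (nat_lit 5) (nat_lit 49) (nat_lit 4) (nat_lit 331) (nat_lit 236) (nat_lit 213)) (XT.lf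 (nat_lit 0) (nat_lit 96433086) (nat_lit 228) (nat_lit 12559036492) (nat_lit 76) (nat_lit 1156732996) (nat_lit 43) (nat_lit 5) (nat_lit 46) (nat_lit 5) (nat_lit 44) (nat_lit 4) (nat_lit 332) (nat_lit 236) (nat_lit 212))) (XT.nd (nat_lit 78) (nat_lit 152) (nat_lit 0) (XT.lf (nat_lit 0) (nat_lit 3997868048) (nat_lit 228) (nat_lit 4998826290) (nat_lit 76) (nat_lit 5089078207) (nat_lit 43) (nat_lit 5) (nat_lit 46) (nat_lit 5) (nat_lit 44) (nat_lit 4) (nat_lit 333) (nat_lit 236) (nat_lit 211)) (XT.lf (nat_lit 0) (nat_lit 2727722256) (nat_lit 152) (nat_lit 5248359850) (nat_lit 228) (nat_lit 6392702723) (nat_lit 41) (nat_lit 5) (nat_lit 43) (nat_lit 5) (nat_lit 44) (nat_lit 4) (nat_lit 334) (nat_lit 236) (nat_lit 210)))))) (XT.nd (nat_lit 546) (nat_lit 608) (nat_lit 0) (XT.nd (nat_lit 234) (nat_lit 380) (nat_lit 0) (XT.nd (nat_lit 78) (nat_lit 228) (nat_lit 0) (XT.lf (nat_lit 0) (nat_lit 10675957314) (nat_lit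 152) (nat_lit 1382533373) (nat_lit 228) (nat_lit 2602277854) (nat_lit 41) (nat_lit 5) (nat_lit 43) (nat_lit 5) (nat_lit 44) (nat_lit 4) (nat_lit 335) (nat_lit 236) (nat_lit 209)) (XT.nd (nat_lit 78) (nat_lit 0) (nat_lit 0) (XT.lf (nat_lit 0) (nat_lit 1274152225) (nat_lit 228) (nat_lit 11133818334) (nat_lit 76) (nat_lit 2553259864) (nat_lit 38) (nat_lit 5) (nat_lit 41) (nat_lit 5) (nat_lit 39) (nat_lit 4) (nat_lit 336) (nat_lit 236) (nat_lit 208)) (XT.lf (nat_lit 0) (nat_lit 5204903127) (nat_lit 228) (nat_lit 3464676774) (nat_lit 76) (nat_lit 6600667625) (nat_lit 38) (nat_lit 5) (nat_lit 41) (nat_lit 5) (nat_lit 39) (nat_lit 4) (nat_lit 337) (nat_lit 236) (nat_lit 207)))) (XT.nd (nat_lit 156) (nat_lit 228) (nat_lit 0) (XT.nd (nat_lit 78) (nat_lit 0) (nat_lit 0) (XT.lf (nat_lit 0) (nat_lit 4412870788) (nat_lit 152) (nat_lit 4820994394) (nat_lit 228) (nat_lit 6355284849) (nat_lit 36) (nat_lit 5) (nat_lit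 38) (nat_lit 5) (nat_lit 39) (nat_lit 4) (nat_lit 338) (nat_lit 236) (nat_lit 206)) (XT.lf (nat_lit 0) (nat_lit 12491044664) (nat_lit 152) (nat_lit 866291033) (nat_lit 228) (nat_lit 2561097584) (nat_lit 36) (nat_lit 5) (nat_lit 38) (nat_lit 5) (nat_lit 39) (nat_lit 4) (nat_lit 339) (nat_lit 236) (nat_lit 205))) (XT.nd (nat_lit 78) (nat_lit 0) (nat_lit 0) (XT.lf (nat_lit 0) (nat_lit 1334910313) (nat_lit 228) (nat_lit 11764209239) (nat_lit 76) (nat_lit 3157680259) (nat_lit 33) (nat_lit 5) (nat_lit 36) (nat_lit 5) (nat_lit 34) (nat_lit 4) (nat_lit 340) (nat_lit 236) (nat_lit 204)) (XT.lf (nat_lit 0) (nat_lit 5280009168) (nat_lit 228) (nat_lit 4023311208) (nat_lit 76) (nat_lit 7301746572) (nat_lit 33) (nat_lit 5) (nat_lit 36) (nat_lit 5) (nat_lit 34) (nat_lit 4) (nat_lit 341) (nat_lit 236) (nat_lit 203))))) (XT.nd (nat_lit 312) (nat_lit 304) (nat_lit 0) (XT.nd (nat_lit 156) (nat_lit 228) (nat_lit 0)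 (XT.nd (nat_lit 78) (nat_lit 0) (nat_lit 0) (XT.lf (nat_lit 0) (nat_lit 3924271802) (nat_lit 76) (nat_lit 5398811231) (nat_lit 152) (nat_lit 7641330716) (nat_lit 32) (nat_lit 5) (nat_lit 33) (nat_lit 5) (nat_lit 34) (nat_lit 4) (nat_lit 342) (nat_lit 236) (nat_lit 202)) (XT.lf (nat_lit 0) (nat_lit 12091638761) (nat_lit 76) (nat_lit 1379057693) (nat_lit 152) (nat_lit 3864366798) (nat_lit 32) (nat_lit 5) (nat_lit 33) (nat_lit 5) (nat_lit 34) (nat_lit 4) (nat_lit 343) (nat_lit 236) (nat_lit 201))) (XT.nd (nat_lit 78) (nat_lit 0) (nat_lit 0) (XT.lf (nat_lit 0) (nat_lit 21863481) (nat_lit 228) (nat_lit 15003010459) (nat_lit 76) (nat_lit 2692075529) (nat_lit 29) (nat_lit 5) (nat_lit 32) (nat_lit 5) (nat_lit 30) (nat_lit 4) (nat_lit 344) (nat_lit 236) (nat_lit 200)) (XT.lf (nat_lit 0) (nat_lit 3958140982) (nat_lit 228) (nat_lit 7243246654) (nat_lit 76) (nat_lit 6907440944) (nat_lit 29) (nat_lit 5) (nat_lit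 32) (nat_lit 5) (nat_lit 30) (nat_lit 4) (nat_lit 345) (nat_lit 236) (nat_lit 199)))) (XT.nd (nat_lit 156) (nat_lit 228) (nat_lit 0) (XT.nd (nat_lit 78) (nat_lit 0) (nat_lit 0) (XT.lf (nat_lit 0) (nat_lit 665587417) (nat_lit 76) (nat_lit 7298952060) (nat_lit 152) (nat_lit 10549381126) (nat_lit 28) (nat_lit 5) (nat_lit 29) (nat_lit 5) (nat_lit 30) (nat_lit 4) (nat_lit 346) (nat_lit 236) (nat_lit 198)) (XT.lf (nat_lit 0) (nat_lit 8864403455) (nat_lit 76) (nat_lit 3246166629) (nat_lit 152) (nat_lit 6820029110) (nat_lit 28) (nat_lit 5) (nat_lit 29) (nat_lit 5) (nat_lit 30) (nat_lit 4) (nat_lit 347) (nat_lit 236) (nat_lit 197))) (XT.nd (nat_lit 78) (nat_lit 228) (nat_lit 0) (XT.lf (nat_lit 0) (nat_lit 16337373240) (nat_lit 152) (nat_lit 2153678062) (nat_lit 0) (nat_lit 870051605) (nat_lit 28) (nat_lit 5) (nat_lit 30) (nat_lit 4) (nat_lit 28) (nat_lit 4) (nat_lit 348) (nat_lit 236) (nat_lit 196)) (XT.lf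 (nat_lit 0) (nat_lit 908242875) (nat_lit 228) (nat_lit 13822747301) (nat_lit 76) (nat_lit 5072119024) (nat_lit 25) (nat_lit 5) (nat_lit 28) (nat_lit 5) (nat_lit 26) (nat_lit 4) (nat_lit 349) (nat_lit 236) (nat_lit 195))))))))
noncomputable def xc49 : XT := (XT.nd (nat_lit 2184) (nat_lit 532) (nat_lit 0) (XT.nd (nat_lit 1092) (nat_lit 380) (nat_lit 0) (XT.nd (nat_lit 546) (nat_lit 304) (nat_lit 0) (XT.nd (nat_lit 234) (nat_lit 228) (nat_lit 0) (XT.nd (nat_lit 78) (nat_lit 76) (nat_lit 0) (XT.lf (nat_lit 0) (nat_lit 4868464253) (nat_lit 228) (nat_lit 5976855868) (nat_lit 76) (nat_lit 9413040627) (nat_lit 25) (nat_lit 5) (nat_lit 28) (nat_lit 5) (nat_lit 26) (nat_lit 4) (nat_lit 350) (nat_lit 236) (nat_lit 194)) (XT.nd (nat_lit 78) (nat_lit 0) (nat_lit 0) (XT.lf (nat_lit 0) (nat_lit 2055641063) (nat_lit 76) (nat_lit 6862194180) (nat_lit 152) (nat_lit 11810338983) (nat_lit 24) (nat_lit 5) (nat_lit 25)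 (nat_lit 5) (nat_lit 26) (nat_lit 4) (nat_lit 351) (nat_lit 236) (nat_lit 193)) (XT.lf (nat_lit 0) (nat_lit 10363619799) (nat_lit 76) (nat_lit 2736598283) (nat_lit 152) (nat_lit 8111532352) (nat_lit 24) (nat_lit 5) (nat_lit 25) (nat_lit 5) (nat_lit 26) (nat_lit 4) (nat_lit 352) (nat_lit 236) (nat_lit 192)))) (XT.nd (nat_lit 156) (nat_lit 76) (nat_lit 0) (XT.nd (nat_lit 78) (nat_lit 152) (nat_lit 0) (XT.lf (nat_lit 0) (nat_lit 17374846542) (nat_lit 152) (nat_lit 2890057117) (nat_lit 0) (nat_lit 1445940875) (nat_lit 24) (nat_lit 5) (nat_lit 26) (nat_lit 4) (nat_lit 24) (nat_lit 4) (nat_lit 353) (nat_lit 236) (nat_lit 191)) (XT.lf (nat_lit 0) (nat_lit 5299068002) (nat_lit 152) (nat_lit 16510302564) (nat_lit 152) (nat_lit 414604619) (nat_lit 22) (nat_lit 4) (nat_lit 24) (nat_lit 5) (nat_lit 24) (nat_lit 4) (nat_lit 354) (nat_lit 236) (nat_lit 190))) (XT.nd (nat_lit 78) (nat_lit 0) (nat_lit 0) (XT.lf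 (nat_lit 0) (nat_lit 3536886246) (nat_lit 228) (nat_lit 9077753116) (nat_lit 76) (nat_lit 10137332401) (nat_lit 21) (nat_lit 5) (nat_lit 24) (nat_lit 5) (nat_lit 22) (nat_lit 4) (nat_lit 355) (nat_lit 236) (nat_lit 189)) (XT.lf (nat_lit 0) (nat_lit 7553645516) (nat_lit 228) (nat_lit 1080949518) (nat_lit 76) (nat_lit 14662450638) (nat_lit 21) (nat_lit 5) (nat_lit 24) (nat_lit 5) (nat_lit 22) (nat_lit 4) (nat_lit 356) (nat_lit 236) (nat_lit 188))))) (XT.nd (nat_lit 234) (nat_lit 228) (nat_lit 0) (XT.nd (nat_lit 78) (nat_lit 0) (nat_lit 0) (XT.lf (nat_lit 0) (nat_lit 7217312300) (nat_lit 76) (nat_lit 4499338329) (nat_lit 152) (nat_lit 12141060808) (nat_lit 20) (nat_lit 5) (nat_lit 21) (nat_lit 5) (nat_lit 22) (nat_lit 4) (nat_lit 357) (nat_lit 236) (nat_lit 187)) (XT.nd (nat_lit 78) (nat_lit 0) (nat_lit 0) (XT.lf (nat_lit 0) (nat_lit 15708176003) (nat_lit 76) (nat_lit 264167474) (nat_lit 152) (nat_lit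 8463831353) (nat_lit 20) (nat_lit 5) (nat_lit 21) (nat_lit 5) (nat_lit 22) (nat_lit 4) (nat_lit 358) (nat_lit 236) (nat_lit 186)) (XT.lf (nat_lit 0) (nat_lit 20352907880) (nat_lit 152) (nat_lit 694774251) (nat_lit 0) (nat_lit 3984405217) (nat_lit 20) (nat_lit 5) (nat_lit 22) (nat_lit 4) (nat_lit 20) (nat_lit 4) (nat_lit 359) (nat_lit 236) (nat_lit 185)))) (XT.nd (nat_lit 156) (nat_lit 76) (nat_lit 0) (XT.nd (nat_lit 78) (nat_lit 76) (nat_lit 0) (XT.lf (nat_lit 0) (nat_lit 7651227067) (nat_lit 76) (nat_lit 17248862565) (nat_lit 76) (nat_lit 744742516) (nat_lit 19) (nat_lit 4) (nat_lit 20) (nat_lit 5) (nat_lit 20) (nat_lit 4) (nat_lit 360) (nat_lit 236) (nat_lit 184)) (XT.lf (nat_lit 0) (nat_lit 3209372704) (nat_lit 152) (nat_lit 10120760822) (nat_lit 76) (nat_lit 12945896455) (nat_lit 18) (nat_lit 5) (nat_lit 20) (nat_lit 5) (nat_lit 19) (nat_lit 4) (nat_lit 361) (nat_lit 236) (nat_lit 183))) (XT.nd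 (nat_lit 78) (nat_lit 76) (nat_lit 0) (XT.lf (nat_lit 0) (nat_lit 7227439414) (nat_lit 152) (nat_lit 2091917795) (nat_lit 76) (nat_lit 17607786423) (nat_lit 18) (nat_lit 5) (nat_lit 20) (nat_lit 5) (nat_lit 19) (nat_lit 4) (nat_lit 362) (nat_lit 236) (nat_lit 182)) (XT.lf (nat_lit 0) (nat_lit 6228641647) (nat_lit 76) (nat_lit 5158733019) (nat_lit 152) (nat_lit 16209785931) (nat_lit 17) (nat_lit 5) (nat_lit 18) (nat_lit 5) (nat_lit 19) (nat_lit 4) (nat_lit 363) (nat_lit 236) (nat_lit 181)))))) (XT.nd (nat_lit 546) (nat_lit 152) (nat_lit 0) (XT.nd (nat_lit 234) (nat_lit 152) (nat_lit 0) (XT.nd (nat_lit 78) (nat_lit 76) (nat_lit 0) (XT.lf (nat_lit 0) (nat_lit 14771701089) (nat_lit 76) (nat_lit 883434037) (nat_lit 152) (nat_lit 12632661548) (nat_lit 17) (nat_lit 5) (nat_lit 18) (nat_lit 5) (nat_lit 19) (nat_lit 4) (nat_lit 364) (nat_lit 236) (nat_lit 180)) (XT.nd (nat_lit 78) (nat_lit 76) (nat_lit 0)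 (XT.lf (nat_lit 0) (nat_lit 20047480761) (nat_lit 152) (nat_lit 5530718386) (nat_lit 0) (nat_lit 3421065260) (nat_lit 17) (nat_lit 5) (nat_lit 19) (nat_lit 4) (nat_lit 17) (nat_lit 4) (nat_lit 365) (nat_lit 236) (nat_lit 179)) (XT.lf (nat_lit 0) (nat_lit 2670812486) (nat_lit 76) (nat_lit 21899005387) (nat_lit 76) (nat_lit 5162320541) (nat_lit 16) (nat_lit 4) (nat_lit 17) (nat_lit 5) (nat_lit 17) (nat_lit 4) (nat_lit 366) (nat_lit 236) (nat_lit 178)))) (XT.nd (nat_lit 156) (nat_lit 76) (nat_lit 0) (XT.nd (nat_lit 78) (nat_lit 76) (nat_lit 0) (XT.lf (nat_lit 0) (nat_lit 11165640333) (nat_lit 76) (nat_lit 18082253662) (nat_lit 76) (nat_lit 1238511199) (nat_lit 16) (nat_lit 4) (nat_lit 17) (nat_lit 5) (nat_lit 17) (nat_lit 4) (nat_lit 367) (nat_lit 236) (nat_lit 177)) (XT.lf (nat_lit 0) (nat_lit 2713225039) (nat_lit 152) (nat_lit 11439835066) (nat_lit 76) (nat_lit 17110492386) (nat_lit 15) (nat_lit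 5) (nat_lit 17) (nat_lit 5) (nat_lit 16) (nat_lit 4) (nat_lit 368) (nat_lit 236) (nat_lit 176))) (XT.nd (nat_lit 78) (nat_lit 76) (nat_lit 0) (XT.lf (nat_lit 0) (nat_lit 6724552057) (nat_lit 152) (nat_lit 3397753291) (nat_lit 76) (nat_lit 21942370924) (nat_lit 15) (nat_lit 5) (nat_lit 17) (nat_lit 5) (nat_lit 16) (nat_lit 4) (nat_lit 369) (nat_lit 236) (nat_lit 175)) (XT.lf (nat_lit 0) (nat_lit 4920428127) (nat_lit 76) (nat_lit 5950012750) (nat_lit 152) (nat_lit 22018973889) (nat_lit 14) (nat_lit 5) (nat_lit 15) (nat_lit 5) (nat_lit 16) (nat_lit 4) (nat_lit 370) (nat_lit 236) (nat_lit 174))))) (XT.nd (nat_lit 234) (nat_lit 152) (nat_lit 0) (XT.nd (nat_lit 78) (nat_lit 0) (nat_lit 0) (XT.lf (nat_lit 0) (nat_lit 13497227298) (nat_lit 76) (nat_lit 1645094601) (nat_lit 152) (nat_lit 18596532482) (nat_lit 14) (nat_lit 5) (nat_lit 15) (nat_lit 5) (nat_lit 16) (nat_lit 4) (nat_lit 371) (nat_lit 236) (nat_lit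 173)) (XT.nd (nat_lit 78) (nat_lit 0) (nat_lit 0) (XT.lf (nat_lit 0) (nat_lit 19537165605) (nat_lit 152) (nat_lit 12368769201) (nat_lit 0) (nat_lit 2708005410) (nat_lit 14) (nat_lit 5) (nat_lit 16) (nat_lit 4) (nat_lit 14) (nat_lit 4) (nat_lit 372) (nat_lit 236) (nat_lit 172)) (XT.lf (nat_lit 0) (nat_lit 24049071768) (nat_lit 152) (nat_lit 4333793418) (nat_lit 0) (nat_lit 7132863934) (nat_lit 14) (nat_lit 5) (nat_lit 16) (nat_lit 4) (nat_lit 14) (nat_lit 4) (nat_lit 373) (nat_lit 236) (nat_lit 171)))) (XT.nd (nat_lit 156) (nat_lit 76) (nat_lit 0) (XT.nd (nat_lit 78) (nat_lit 0) (nat_lit 0) (XT.lf (nat_lit 0) (nat_lit 3963476475) (nat_lit 76) (nat_lit 24740792061) (nat_lit 76) (nat_lit 7740071956) (nat_lit 13) (nat_lit 4) (nat_lit 14) (nat_lit 5) (nat_lit 14) (nat_lit 4) (nat_lit 374) (nat_lit 236) (nat_lit 170)) (XT.lf (nat_lit 0) (nat_lit 12542956087) (nat_lit 76) (nat_lit 20970106666) (nat_lit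 76) (nat_lit 3887335812) (nat_lit 13) (nat_lit 4) (nat_lit 14) (nat_lit 5) (nat_lit 14) (nat_lit 4) (nat_lit 375) (nat_lit 236) (nat_lit 169))) (XT.nd (nat_lit 78) (nat_lit 0) (nat_lit 0) (XT.lf (nat_lit 0) (nat_lit 50156518) (nat_lit 152) (nat_lit 17060614042) (nat_lit 76) (nat_lit 21275228063) (nat_lit 12) (nat_lit 5) (nat_lit 14) (nat_lit 5) (nat_lit 13) (nat_lit 4) (nat_lit 376) (nat_lit 236) (nat_lit 168)) (XT.lf (nat_lit 0) (nat_lit 3999248194) (nat_lit 152) (nat_lit 9121298640) (nat_lit 76) (nat_lit 26280323054) (nat_lit 12) (nat_lit 5) (nat_lit 14) (nat_lit 5) (nat_lit 13) (nat_lit 4) (nat_lit 377) (nat_lit 236) (nat_lit 167))))))) (XT.nd (nat_lit 1092) (nat_lit 228) (nat_lit 0) (XT.nd (nat_lit 546) (nat_lit 152) (nat_lit 0) (XT.nd (nat_lit 234) (nat_lit 76) (nat_lit 0) (XT.nd (nat_lit 78) (nat_lit 76) (nat_lit 0) (XT.lf (nat_lit 0) (nat_lit 8039245801) (nat_lit 152) (nat_lit 995191556)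 (nat_lit 76) (nat_lit 31412582807) (nat_lit 12) (nat_lit 5) (nat_lit 14) (nat_lit 5) (nat_lit 13) (nat_lit 4) (nat_lit 378) (nat_lit 236) (nat_lit 166)) (XT.nd (nat_lit 78) (nat_lit 0) (nat_lit 0) (XT.lf (nat_lit 0) (nat_lit 7470585726) (nat_lit 76) (nat_lit 4774905548) (nat_lit 152) (nat_lit 29277717934) (nat_lit 11) (nat_lit 5) (nat_lit 12) (nat_lit 5) (nat_lit 13) (nat_lit 4) (nat_lit 379) (nat_lit 236) (nat_lit 165)) (XT.lf (nat_lit 0) (nat_lit 16161334858) (nat_lit 76) (nat_lit 400179484) (nat_lit 152) (nat_lit 26070667407) (nat_lit 11) (nat_lit 5) (nat_lit 12) (nat_lit 5) (nat_lit 13) (nat_lit 4) (nat_lit 380) (nat_lit 236) (nat_lit 164)))) (XT.nd (nat_lit 156) (nat_lit 76) (nat_lit 0) (XT.nd (nat_lit 78) (nat_lit 0) (nat_lit 0) (XT.lf (nat_lit 0) (nat_lit 21020582742) (nat_lit 152) (nat_lit 18749609297) (nat_lit 0) (nat_lit 4003829860) (nat_lit 11) (nat_lit 5) (nat_lit 13) (nat_lit 4) (nat_lit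 11) (nat_lit 4) (nat_lit 381) (nat_lit 236) (nat_lit 163)) (XT.lf (nat_lit 0) (nat_lit 25592237104) (nat_lit 152) (nat_lit 10847808342) (nat_lit 0) (nat_lit 8510712603) (nat_lit 11) (nat_lit 5) (nat_lit 13) (nat_lit 4) (nat_lit 11) (nat_lit 4) (nat_lit 382) (nat_lit 236) (nat_lit 162))) (XT.nd (nat_lit 78) (nat_lit 76) (nat_lit 0) (XT.lf (nat_lit 0) (nat_lit 30276625308) (nat_lit 152) (nat_lit 2754692773) (nat_lit 0) (nat_lit 13132215740) (nat_lit 11) (nat_lit 5) (nat_lit 13) (nat_lit 4) (nat_lit 11) (nat_lit 4) (nat_lit 383) (nat_lit 236) (nat_lit 161)) (XT.lf (nat_lit 0) (nat_lit 5647002422) (nat_lit 76) (nat_lit 29485120528) (nat_lit 76) (nat_lit 12279657497) (nat_lit 10) (nat_lit 4) (nat_lit 11) (nat_lit 5) (nat_lit 11) (nat_lit 4) (nat_lit 384) (nat_lit 236) (nat_lit 160))))) (XT.nd (nat_lit 234) (nat_lit 152) (nat_lit 0) (XT.nd (nat_lit 78) (nat_lit 0) (nat_lit 0) (XT.lf (nat_lit 0) (nat_lit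 14313245143) (nat_lit 76) (nat_lit 25824420468) (nat_lit 76) (nat_lit 8559682231) (nat_lit 10) (nat_lit 4) (nat_lit 11) (nat_lit 5) (nat_lit 11) (nat_lit 4) (nat_lit 385) (nat_lit 236) (nat_lit 159)) (XT.nd (nat_lit 78) (nat_lit 0) (nat_lit 0) (XT.lf (nat_lit 0) (nat_lit 23196784045) (nat_lit 76) (nat_lit 22073836228) (nat_lit 76) (nat_lit 4751549247) (nat_lit 10) (nat_lit 4) (nat_lit 11) (nat_lit 5) (nat_lit 11) (nat_lit 4) (nat_lit 386) (nat_lit 236) (nat_lit 158)) (XT.lf (nat_lit 0) (nat_lit 32305381445) (nat_lit 76) (nat_lit 18230090598) (nat_lit 76) (nat_lit 851931049) (nat_lit 10) (nat_lit 4) (nat_lit 11) (nat_lit 5) (nat_lit 11) (nat_lit 4) (nat_lit 387) (nat_lit 236) (nat_lit 157)))) (XT.nd (nat_lit 156) (nat_lit 76) (nat_lit 0) (XT.nd (nat_lit 78) (nat_lit 0) (nat_lit 0) (XT.lf (nat_lit 0) (nat_lit 3081256743) (nat_lit 152) (nat_lit 11177453571) (nat_lit 76) (nat_lit 38534624916) (nat_lit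 9) (nat_lit 5) (nat_lit 11) (nat_lit 5) (nat_lit 10) (nat_lit 4) (nat_lit 388) (nat_lit 236) (nat_lit 156)) (XT.lf (nat_lit 0) (nat_lit 7094283481) (nat_lit 152) (nat_lit 3083674545) (nat_lit 76) (nat_lit 44063869384) (nat_lit 9) (nat_lit 5) (nat_lit 11) (nat_lit 5) (nat_lit 10) (nat_lit 4) (nat_lit 389) (nat_lit 236) (nat_lit 155))) (XT.nd (nat_lit 78) (nat_lit 0) (nat_lit 0) (XT.lf (nat_lit 0) (nat_lit 5318357251) (nat_lit 76) (nat_lit 5940045989) (nat_lit 152) (nat_lit 44474454046) (nat_lit 8) (nat_lit 5) (nat_lit 9) (nat_lit 5) (nat_lit 10) (nat_lit 4) (nat_lit 390) (nat_lit 236) (nat_lit 154)) (XT.lf (nat_lit 0) (nat_lit 13997697293) (nat_lit 76) (nat_lit 1560697126) (nat_lit 152) (nat_lit 41709899084) (nat_lit 8) (nat_lit 5) (nat_lit 9) (nat_lit 5) (nat_lit 10) (nat_lit 4) (nat_lit 391) (nat_lit 236) (nat_lit 153)))))) (XT.nd (nat_lit 546) (nat_lit 152) (nat_lit 0) (XT.nd (nat_lit 234) (nat_lit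 76) (nat_lit 0) (XT.nd (nat_lit 78) (nat_lit 0) (nat_lit 0) (XT.lf (nat_lit 0) (nat_lit 19995973828) (nat_lit 152) (nat_lit 35978018008) (nat_lit 0) (nat_lit 2875547083) (nat_lit 8) (nat_lit 5) (nat_lit 10) (nat_lit 4) (nat_lit 8) (nat_lit 4) (nat_lit 392) (nat_lit 236) (nat_lit 152)) (XT.nd (nat_lit 78) (nat_lit 0) (nat_lit 0) (XT.lf (nat_lit 0) (nat_lit 24562939842) (nat_lit 152) (nat_lit 28518314152) (nat_lit 0) (nat_lit 7397083587) (nat_lit 8) (nat_lit 5) (nat_lit 10) (nat_lit 4) (nat_lit 8) (nat_lit 4) (nat_lit 393) (nat_lit 236) (nat_lit 151)) (XT.lf (nat_lit 0) (nat_lit 29248280637) (nat_lit 152) (nat_lit 20869964078) (nat_lit 0) (nat_lit 12038318062) (nat_lit 8) (nat_lit 5) (nat_lit 10) (nat_lit 4) (nat_lit 8) (nat_lit 4) (nat_lit 394) (nat_lit 236) (nat_lit 150)))) (XT.nd (nat_lit 156) (nat_lit 76) (nat_lit 0) (XT.nd (nat_lit 78) (nat_lit 0) (nat_lit 0) (XT.lf (nat_lit 0) (nat_lit 34056090202)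 (nat_lit 152) (nat_lit 13026284761) (nat_lit 0) (nat_lit 16803305956) (nat_lit 8) (nat_lit 5) (nat_lit 10) (nat_lit 4) (nat_lit 8) (nat_lit 4) (nat_lit 395) (nat_lit 236) (nat_lit 149)) (XT.lf (nat_lit 0) (nat_lit 38990569535) (nat_lit 152) (nat_lit 4980422503) (nat_lit 0) (nat_lit 21696210852) (nat_lit 8) (nat_lit 5) (nat_lit 10) (nat_lit 4) (nat_lit 8) (nat_lit 4) (nat_lit 396) (nat_lit 236) (nat_lit 148))) (XT.nd (nat_lit 78) (nat_lit 0) (nat_lit 0) (XT.lf (nat_lit 0) (nat_lit 3339825079) (nat_lit 76) (nat_lit 40748309680) (nat_lit 76) (nat_lit 23413587465) (nat_lit 7) (nat_lit 4) (nat_lit 8) (nat_lit 5) (nat_lit 8) (nat_lit 4) (nat_lit 397) (nat_lit 236) (nat_lit 147)) (XT.lf (nat_lit 0) (nat_lit 11979926627) (nat_lit 76) (nat_lit 37392130436) (nat_lit 76) (nat_lit 20018220326) (nat_lit 7) (nat_lit 4) (nat_lit 8) (nat_lit 5) (nat_lit 8) (nat_lit 4) (nat_lit 398) (nat_lit 236) (nat_lit 146)))))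 (XT.nd (nat_lit 312) (nat_lit 152) (nat_lit 0) (XT.nd (nat_lit 156) (nat_lit 0) (nat_lit 0) (XT.nd (nat_lit 78) (nat_lit 0) (nat_lit 0) (XT.lf (nat_lit 0) (nat_lit 20848311569) (nat_lit 76) (nat_lit 33949814224) (nat_lit 76) (nat_lit 16537857615) (nat_lit 7) (nat_lit 4) (nat_lit 8) (nat_lit 5) (nat_lit 8) (nat_lit 4) (nat_lit 399) (nat_lit 236) (nat_lit 145)) (XT.lf (nat_lit 0) (nat_lit 29952728981) (nat_lit 76) (nat_lit 30418353197) (nat_lit 76) (nat_lit 12969458238) (nat_lit 7) (nat_lit 4) (nat_lit 8) (nat_lit 5) (nat_lit 8) (nat_lit 4) (nat_lit 400) (nat_lit 236) (nat_lit 144))) (XT.nd (nat_lit 78) (nat_lit 0) (nat_lit 0) (XT.lf (nat_lit 0) (nat_lit 39301134178) (nat_lit 76) (nat_lit 26794661610) (nat_lit 76) (nat_lit 9309904176) (nat_lit 7) (nat_lit 4) (nat_lit 8) (nat_lit 5) (nat_lit 8) (nat_lit 4) (nat_lit 401) (nat_lit 236) (nat_lit 143)) (XT.lf (nat_lit 0) (nat_lit 48901695669) (nat_lit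 76) (nat_lit 23075573131) (nat_lit 76) (nat_lit 5555997761) (nat_lit 7) (nat_lit 4) (nat_lit 8) (nat_lit 5) (nat_lit 8) (nat_lit 4) (nat_lit 402) (nat_lit 236) (nat_lit 142)))) (XT.nd (nat_lit 156) (nat_lit 76) (nat_lit 0) (XT.nd (nat_lit 78) (nat_lit 76) (nat_lit 0) (XT.lf (nat_lit 0) (nat_lit 58762802295) (nat_lit 76) (nat_lit 19257838072) (nat_lit 76) (nat_lit 1704458880) (nat_lit 7) (nat_lit 4) (nat_lit 8) (nat_lit 5) (nat_lit 8) (nat_lit 4) (nat_lit 403) (nat_lit 236) (nat_lit 141)) (XT.lf (nat_lit 0) (nat_lit 2204209791) (nat_lit 152) (nat_lit 13111652559) (nat_lit 76) (nat_lit 66666602569) (nat_lit 6) (nat_lit 5) (nat_lit 8) (nat_lit 5) (nat_lit 7) (nat_lit 4) (nat_lit 404) (nat_lit 236) (nat_lit 140))) (XT.nd (nat_lit 78) (nat_lit 76) (nat_lit 0) (XT.lf (nat_lit 0) (nat_lit 6182031666) (nat_lit 152) (nat_lit 5068537497) (nat_lit 76) (nat_lit 73056894081) (nat_lit 6) (nat_lit 5) (nat_lit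 8) (nat_lit 5) (nat_lit 7) (nat_lit 4) (nat_lit 405) (nat_lit 236) (nat_lit 139)) (XT.lf (nat_lit 0) (nat_lit 3253956919) (nat_lit 76) (nat_lit 7043064749) (nat_lit 152) (nat_lit 76404657265) (nat_lit 5) (nat_lit 5) (nat_lit 6) (nat_lit 5) (nat_lit 7) (nat_lit 4) (nat_lit 406) (nat_lit 236) (nat_lit 138))))))))
noncomputable def xc50 : XT := (XT.nd (nat_lit 34476) (nat_lit 0) (nat_lit 1216) (XT.nd (nat_lit 33384) (nat_lit 0) (nat_lit 3572) (XT.nd (nat_lit 32838) (nat_lit 0) (nat_lit 6156) (XT.nd (nat_lit 234) (nat_lit 0) (nat_lit 0) (XT.nd (nat_lit 78) (nat_lit 0) (nat_lit 0) (XT.lf (nat_lit 0) (nat_lit 11904864823) (nat_lit 76) (nat_lit 2668483033) (nat_lit 152) (nat_lit 74593238989) (nat_lit 5) (nat_lit 5) (nat_lit 6) (nat_lit 5) (nat_lit 7) (nat_lit 4) (nat_lit 407) (nat_lit 236) (nat_lit 137)) (XT.nd (nat_lit 78) (nat_lit 0) (nat_lit 0) (XT.lf (nat_lit 0) (nat_lit 18982606145) (nat_lit 152)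 (nat_lit 70932510966) (nat_lit 0) (nat_lit 1790187893) (nat_lit 5) (nat_lit 5) (nat_lit 7) (nat_lit 4) (nat_lit 5) (nat_lit 4) (nat_lit 408) (nat_lit 236) (nat_lit 136)) (XT.lf (nat_lit 0) (nat_lit 23537922725) (nat_lit 152) (nat_lit 64463831907) (nat_lit 0) (nat_lit 6318018873) (nat_lit 5) (nat_lit 5) (nat_lit 7) (nat_lit 4) (nat_lit 5) (nat_lit 4) (nat_lit 409) (nat_lit 236) (nat_lit 135)))) (XT.nd (nat_lit 156) (nat_lit 0) (nat_lit 0) (XT.nd (nat_lit 78) (nat_lit 0) (nat_lit 0) (XT.lf (nat_lit 0) (nat_lit 28217626879) (nat_lit 152) (nat_lit 57824381511) (nat_lit 0) (nat_lit 10971037977) (nat_lit 5) (nat_lit 5) (nat_lit 7) (nat_lit 4) (nat_lit 5) (nat_lit 4) (nat_lit 410) (nat_lit 236) (nat_lit 134)) (XT.lf (nat_lit 0) (nat_lit 33025807667) (nat_lit 152) (nat_lit 51008358316) (nat_lit 0) (nat_lit 15753310951) (nat_lit 5) (nat_lit 5) (nat_lit 7) (nat_lit 4) (nat_lit 5) (nat_lit 4) (nat_lit 411)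 (nat_lit 236) (nat_lit 133))) (XT.nd (nat_lit 32370) (nat_lit 0) (nat_lit 7828) (XT.lf (nat_lit 0) (nat_lit 37966666415) (nat_lit 152) (nat_lit 44009806574) (nat_lit 0) (nat_lit 20669016479) (nat_lit 5) (nat_lit 5) (nat_lit 7) (nat_lit 4) (nat_lit 5) (nat_lit 4) (nat_lit 412) (nat_lit 236) (nat_lit 132)) (XT.lf (nat_lit 0) (nat_lit 3789594308) (nat_lit 380) (nat_lit 349331416) (nat_lit 380) (nat_lit 349331416) (nat_lit 108) (nat_lit 4) (nat_lit 113) (nat_lit 5) (nat_lit 113) (nat_lit 4) (nat_lit 306) (nat_lit 237) (nat_lit 237))))) (XT.nd (nat_lit 234) (nat_lit 608) (nat_lit 0) (XT.nd (nat_lit 78) (nat_lit 684) (nat_lit 0) (XT.lf (nat_lit 0) (nat_lit 3128586145) (nat_lit 380) (nat_lit 3794532733) (nat_lit 0) (nat_lit 2174533808) (nat_lit 103) (nat_lit 5) (nat_lit 108) (nat_lit 4) (nat_lit 103) (nat_lit 4) (nat_lit 307) (nat_lit 237) (nat_lit 236)) (XT.nd (nat_lit 78) (nat_lit 380) (nat_lit 0) (XT.lf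 (nat_lit 0) (nat_lit 2920809399) (nat_lit 304) (nat_lit 4091563379) (nat_lit 304) (nat_lit 2211246638) (nat_lit 99) (nat_lit 4) (nat_lit 103) (nat_lit 5) (nat_lit 103) (nat_lit 4) (nat_lit 308) (nat_lit 237) (nat_lit 235)) (XT.lf (nat_lit 0) (nat_lit 421020804) (nat_lit 304) (nat_lit 1155640956) (nat_lit 380) (nat_lit 7777803178) (nat_lit 94) (nat_lit 5) (nat_lit 98) (nat_lit 5) (nat_lit 99) (nat_lit 4) (nat_lit 309) (nat_lit 237) (nat_lit 234)))) (XT.nd (nat_lit 156) (nat_lit 304) (nat_lit 0) (XT.nd (nat_lit 78) (nat_lit 304) (nat_lit 0) (XT.lf (nat_lit 0) (nat_lit 5424026242) (nat_lit 380) (nat_lit 2187193316) (nat_lit 0) (nat_lit 1877719825) (nat_lit 94) (nat_lit 5) (nat_lit 99) (nat_lit 4) (nat_lit 94) (nat_lit 4) (nat_lit 310) (nat_lit 237) (nat_lit 233)) (XT.lf (nat_lit 0) (nat_lit 4710711078) (nat_lit 304) (nat_lit 4643530344) (nat_lit 304) (nat_lit 274250001) (nat_lit 90) (nat_lit 4) (nat_lit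 94) (nat_lit 5) (nat_lit 94) (nat_lit 4) (nat_lit 311) (nat_lit 237) (nat_lit 232))) (XT.nd (nat_lit 78) (nat_lit 0) (nat_lit 0) (XT.lf (nat_lit 0) (nat_lit 1960197521) (nat_lit 228) (nat_lit 1551369806) (nat_lit 304) (nat_lit 6261110161) (nat_lit 86) (nat_lit 5) (nat_lit 89) (nat_lit 5) (nat_lit 90) (nat_lit 4) (nat_lit 312) (nat_lit 237) (nat_lit 231)) (XT.lf (nat_lit 0) (nat_lit 7383346852) (nat_lit 304) (nat_lit 926026941) (nat_lit 0) (nat_lit 1612457521) (nat_lit 86) (nat_lit 5) (nat_lit 90) (nat_lit 4) (nat_lit 86) (nat_lit 4) (nat_lit 313) (nat_lit 237) (nat_lit 230)))))) (XT.nd (nat_lit 546) (nat_lit 1140) (nat_lit 0) (XT.nd (nat_lit 234) (nat_lit 836) (nat_lit 0) (XT.nd (nat_lit 78) (nat_lit 228) (nat_lit 0) (XT.lf (nat_lit 0) (nat_lit 1259381652) (nat_lit 380) (nat_lit 3945546250) (nat_lit 76) (nat_lit 4870549883) (nat_lit 81) (nat_lit 5) (nat_lit 86) (nat_lit 5) (nat_lit 82) (nat_lit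 4) (nat_lit 314) (nat_lit 237) (nat_lit 229)) (XT.nd (nat_lit 78) (nat_lit 0) (nat_lit 0) (XT.lf (nat_lit 0) (nat_lit 3088785475) (nat_lit 228) (nat_lit 1985490888) (nat_lit 304) (nat_lit 5160135363) (nat_lit 78) (nat_lit 5) (nat_lit 81) (nat_lit 5) (nat_lit 82) (nat_lit 4) (nat_lit 315) (nat_lit 237) (nat_lit 228)) (XT.lf (nat_lit 0) (nat_lit 8972442300) (nat_lit 304) (nat_lit 125308758) (nat_lit 0) (nat_lit 1301351766) (nat_lit 78) (nat_lit 5) (nat_lit 82) (nat_lit 4) (nat_lit 78) (nat_lit 4) (nat_lit 316) (nat_lit 237) (nat_lit 227)))) (XT.nd (nat_lit 156) (nat_lit 304) (nat_lit 0) (XT.nd (nat_lit 78) (nat_lit 228) (nat_lit 0) (XT.lf (nat_lit 0) (nat_lit 2377767369) (nat_lit 304) (nat_lit 3493885991) (nat_lit 76) (nat_lit 4696250081) (nat_lit 74) (nat_lit 5) (nat_lit 78) (nat_lit 5) (nat_lit 75) (nat_lit 4) (nat_lit 317) (nat_lit 237) (nat_lit 226)) (XT.lf (nat_lit 0) (nat_lit 3680983505) (nat_lit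 228) (nat_lit 2541912181) (nat_lit 304) (nat_lit 4519840668) (nat_lit 71) (nat_lit 5) (nat_lit 74) (nat_lit 5) (nat_lit 75) (nat_lit 4) (nat_lit 318) (nat_lit 237) (nat_lit 225))) (XT.nd (nat_lit 78) (nat_lit 76) (nat_lit 0) (XT.lf (nat_lit 0) (nat_lit 86116831) (nat_lit 228) (nat_lit 10061560879) (nat_lit 228) (nat_lit 776255413) (nat_lit 68) (nat_lit 4) (nat_lit 71) (nat_lit 5) (nat_lit 71) (nat_lit 4) (nat_lit 319) (nat_lit 237) (nat_lit 224)) (XT.lf (nat_lit 0) (nat_lit 3036335955) (nat_lit 304) (nat_lit 3698760829) (nat_lit 76) (nat_lit 4374122226) (nat_lit 67) (nat_lit 5) (nat_lit 71) (nat_lit 5) (nat_lit 68) (nat_lit 4) (nat_lit 320) (nat_lit 237) (nat_lit 223))))) (XT.nd (nat_lit 234) (nat_lit 608) (nat_lit 0) (XT.nd (nat_lit 78) (nat_lit 304) (nat_lit 0) (XT.lf (nat_lit 0) (nat_lit 3592574871) (nat_lit 228) (nat_lit 3311613743) (nat_lit 304) (nat_lit 4396993525) (nat_lit 64) (nat_lit 5)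 (nat_lit 67) (nat_lit 5) (nat_lit 68) (nat_lit 4) (nat_lit 321) (nat_lit 237) (nat_lit 222)) (XT.nd (nat_lit 78) (nat_lit 304) (nat_lit 0) (XT.lf (nat_lit 0) (nat_lit 10850457569) (nat_lit 304) (nat_lit 446743368) (nat_lit 0) (nat_lit 202874332) (nat_lit 64) (nat_lit 5) (nat_lit 68) (nat_lit 4) (nat_lit 64) (nat_lit 4) (nat_lit 322) (nat_lit 237) (nat_lit 221)) (XT.lf (nat_lit 0) (nat_lit 3172825326) (nat_lit 304) (nat_lit 4719597966) (nat_lit 76) (nat_lit 3810867596) (nat_lit 60) (nat_lit 5) (nat_lit 64) (nat_lit 5) (nat_lit 61) (nat_lit 4) (nat_lit 323) (nat_lit 237) (nat_lit 220)))) (XT.nd (nat_lit 156) (nat_lit 456) (nat_lit 0) (XT.nd (nat_lit 78) (nat_lit 0) (nat_lit 0) (XT.lf (nat_lit 0) (nat_lit 2657413965) (nat_lit 152) (nat_lit 4394684608) (nat_lit 228) (nat_lit 4861693959) (nat_lit 58) (nat_lit 5) (nat_lit 60) (nat_lit 5) (nat_lit 61) (nat_lit 4) (nat_lit 324) (nat_lit 237) (nat_lit 219))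 (XT.lf (nat_lit 0) (nat_lit 10231978808) (nat_lit 152) (nat_lit 789565720) (nat_lit 228) (nat_lit 1109888644) (nat_lit 58) (nat_lit 5) (nat_lit 60) (nat_lit 5) (nat_lit 61) (nat_lit 4) (nat_lit 325) (nat_lit 237) (nat_lit 218))) (XT.nd (nat_lit 78) (nat_lit 152) (nat_lit 0) (XT.lf (nat_lit 0) (nat_lit 2710971127) (nat_lit 304) (nat_lit 6740502510) (nat_lit 76) (nat_lit 2903063183) (nat_lit 54) (nat_lit 5) (nat_lit 58) (nat_lit 5) (nat_lit 55) (nat_lit 4) (nat_lit 326) (nat_lit 237) (nat_lit 217)) (XT.lf (nat_lit 0) (nat_lit 683396388) (nat_lit 152) (nat_lit 5902593427) (nat_lit 228) (nat_lit 5999193448) (nat_lit 52) (nat_lit 5) (nat_lit 54) (nat_lit 5) (nat_lit 55) (nat_lit 4) (nat_lit 327) (nat_lit 237) (nat_lit 216))))))) (XT.nd (nat_lit 1092) (nat_lit 912) (nat_lit 0) (XT.nd (nat_lit 546) (nat_lit 608) (nat_lit 0) (XT.nd (nat_lit 234) (nat_lit 532) (nat_lit 0) (XT.nd (nat_lit 78) (nat_lit 304)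 (nat_lit 0) (XT.lf (nat_lit 0) (nat_lit 8350303902) (nat_lit 152) (nat_lit 2224065930) (nat_lit 228) (nat_lit 2248499515) (nat_lit 52) (nat_lit 5) (nat_lit 54) (nat_lit 5) (nat_lit 55) (nat_lit 4) (nat_lit 328) (nat_lit 237) (nat_lit 215)) (XT.nd (nat_lit 78) (nat_lit 0) (nat_lit 0) (XT.lf (nat_lit 0) (nat_lit 1558534479) (nat_lit 304) (nat_lit 9974680788) (nat_lit 76) (nat_lit 1534776896) (nat_lit 48) (nat_lit 5) (nat_lit 52) (nat_lit 5) (nat_lit 49) (nat_lit 4) (nat_lit 329) (nat_lit 237) (nat_lit 214)) (XT.lf (nat_lit 0) (nat_lit 5433097918) (nat_lit 304) (nat_lit 2502373937) (nat_lit 76) (nat_lit 5384404329) (nat_lit 48) (nat_lit 5) (nat_lit 52) (nat_lit 5) (nat_lit 49) (nat_lit 4) (nat_lit 330) (nat_lit 237) (nat_lit 213)))) (XT.nd (nat_lit 156) (nat_lit 380) (nat_lit 0) (XT.nd (nat_lit 78) (nat_lit 0) (nat_lit 0) (XT.lf (nat_lit 0) (nat_lit 5182237985) (nat_lit 152) (nat_lit 4224367614) (nat_lit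 228) (nat_lit 4173259734) (nat_lit 46) (nat_lit 5) (nat_lit 48) (nat_lit 5) (nat_lit 49) (nat_lit 4) (nat_lit 331) (nat_lit 237) (nat_lit 212)) (XT.lf (nat_lit 0) (nat_lit 13036803945) (nat_lit 152) (nat_lit 421555258) (nat_lit 228) (nat_lit 390552692) (nat_lit 46) (nat_lit 5) (nat_lit 48) (nat_lit 5) (nat_lit 49) (nat_lit 4) (nat_lit 332) (nat_lit 237) (nat_lit 211))) (XT.nd (nat_lit 78) (nat_lit 152) (nat_lit 0) (XT.lf (nat_lit 0) (nat_lit 3473659460) (nat_lit 228) (nat_lit 7165333440) (nat_lit 76) (nat_lit 3484960356) (nat_lit 43) (nat_lit 5) (nat_lit 46) (nat_lit 5) (nat_lit 44) (nat_lit 4) (nat_lit 333) (nat_lit 237) (nat_lit 210)) (XT.lf (nat_lit 0) (nat_lit 462638753) (nat_lit 152) (nat_lit 6935664330) (nat_lit 228) (nat_lit 7010282626) (nat_lit 41) (nat_lit 5) (nat_lit 43) (nat_lit 5) (nat_lit 44) (nat_lit 4) (nat_lit 334) (nat_lit 237) (nat_lit 209))))) (XT.nd (nat_lit 234) (nat_lit 380)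 (nat_lit 0) (XT.nd (nat_lit 78) (nat_lit 228) (nat_lit 0) (XT.lf (nat_lit 0) (nat_lit 8357030497) (nat_lit 152) (nat_lit 3092292652) (nat_lit 228) (nat_lit 3252200601) (nat_lit 41) (nat_lit 5) (nat_lit 43) (nat_lit 5) (nat_lit 44) (nat_lit 4) (nat_lit 335) (nat_lit 237) (nat_lit 208)) (XT.nd (nat_lit 78) (nat_lit 0) (nat_lit 0) (XT.lf (nat_lit 0) (nat_lit 565588985) (nat_lit 228) (nat_lit 13613686157) (nat_lit 76) (nat_lit 825049546) (nat_lit 38) (nat_lit 5) (nat_lit 41) (nat_lit 5) (nat_lit 39) (nat_lit 4) (nat_lit 336) (nat_lit 237) (nat_lit 207)) (XT.lf (nat_lit 0) (nat_lit 4465733685) (nat_lit 228) (nat_lit 5997637823) (nat_lit 76) (nat_lit 4850900068) (nat_lit 38) (nat_lit 5) (nat_lit 41) (nat_lit 5) (nat_lit 39) (nat_lit 4) (nat_lit 337) (nat_lit 237) (nat_lit 206)))) (XT.nd (nat_lit 156) (nat_lit 228) (nat_lit 0) (XT.nd (nat_lit 78) (nat_lit 0) (nat_lit 0) (XT.lf (nat_lit 0) (nat_lit 1776926143)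 (nat_lit 152) (nat_lit 6662716526) (nat_lit 228) (nat_lit 7195194265) (nat_lit 36) (nat_lit 5) (nat_lit 38) (nat_lit 5) (nat_lit 39) (nat_lit 4) (nat_lit 338) (nat_lit 237) (nat_lit 205)) (XT.lf (nat_lit 0) (nat_lit 9804058559) (nat_lit 152) (nat_lit 2729714704) (nat_lit 228) (nat_lit 3431238053) (nat_lit 36) (nat_lit 5) (nat_lit 38) (nat_lit 5) (nat_lit 39) (nat_lit 4) (nat_lit 339) (nat_lit 237) (nat_lit 204))) (XT.nd (nat_lit 78) (nat_lit 0) (nat_lit 0) (XT.lf (nat_lit 0) (nat_lit 407292517) (nat_lit 228) (nat_lit 14624830546) (nat_lit 76) (nat_lit 1273749724) (nat_lit 33) (nat_lit 5) (nat_lit 36) (nat_lit 5) (nat_lit 34) (nat_lit 4) (nat_lit 340) (nat_lit 237) (nat_lit 203)) (XT.lf (nat_lit 0) (nat_lit 4323770457) (nat_lit 228) (nat_lit 6934237263) (nat_lit 76) (nat_lit 5397000837) (nat_lit 33) (nat_lit 5) (nat_lit 36) (nat_lit 5) (nat_lit 34) (nat_lit 4) (nat_lit 341) (nat_lit 237) (nat_lit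 202)))))) (XT.nd (nat_lit 546) (nat_lit 532) (nat_lit 0) (XT.nd (nat_lit 234) (nat_lit 304) (nat_lit 0) (XT.nd (nat_lit 78) (nat_lit 0) (nat_lit 0) (XT.lf (nat_lit 0) (nat_lit 905601045) (nat_lit 76) (nat_lit 7404438671) (nat_lit 152) (nat_lit 8706029494) (nat_lit 32) (nat_lit 5) (nat_lit 33) (nat_lit 5) (nat_lit 34) (nat_lit 4) (nat_lit 342) (nat_lit 237) (nat_lit 201)) (XT.nd (nat_lit 78) (nat_lit 0) (nat_lit 0) (XT.lf (nat_lit 0) (nat_lit 9024607262) (nat_lit 76) (nat_lit 3405603046) (nat_lit 152) (nat_lit 4957341122) (nat_lit 32) (nat_lit 5) (nat_lit 33) (nat_lit 5) (nat_lit 34) (nat_lit 4) (nat_lit 343) (nat_lit 237) (nat_lit 200)) (XT.lf (nat_lit 0) (nat_lit 16626359060) (nat_lit 152) (nat_lit 486407947) (nat_lit 0) (nat_lit 658858505) (nat_lit 32) (nat_lit 5) (nat_lit 34) (nat_lit 4) (nat_lit 32) (nat_lit 4) (nat_lit 344) (nat_lit 237) (nat_lit 199)))) (XT.nd (nat_lit 156) (nat_lit 76) (nat_lit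 0) (XT.nd (nat_lit 78) (nat_lit 0) (nat_lit 0) (XT.lf (nat_lit 0) (nat_lit 2781762433) (nat_lit 228) (nat_lit 10544677690) (nat_lit 76) (nat_lit 4838351308) (nat_lit 29) (nat_lit 5) (nat_lit 32) (nat_lit 5) (nat_lit 30) (nat_lit 4) (nat_lit 345) (nat_lit 237) (nat_lit 198)) (XT.lf (nat_lit 0) (nat_lit 6755761957) (nat_lit 228) (nat_lit 2695084749) (nat_lit 76) (nat_lit 9120017097) (nat_lit 29) (nat_lit 5) (nat_lit 32) (nat_lit 5) (nat_lit 30) (nat_lit 4) (nat_lit 346) (nat_lit 237) (nat_lit 197))) (XT.nd (nat_lit 78) (nat_lit 0) (nat_lit 0) (XT.lf (nat_lit 0) (nat_lit 5404294155) (nat_lit 76) (nat_lit 5445392123) (nat_lit 152) (nat_lit 8139427439) (nat_lit 28) (nat_lit 5) (nat_lit 29) (nat_lit 5) (nat_lit 30) (nat_lit 4) (nat_lit 347) (nat_lit 237) (nat_lit 196)) (XT.lf (nat_lit 0) (nat_lit 13711635670) (nat_lit 76) (nat_lit 1331388037) (nat_lit 152) (nat_lit 4377605594) (nat_lit 28) (nat_lit 5)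 (nat_lit 29) (nat_lit 5) (nat_lit 30) (nat_lit 4) (nat_lit 348) (nat_lit 237) (nat_lit 195))))) (XT.nd (nat_lit 312) (nat_lit 228) (nat_lit 0) (XT.nd (nat_lit 156) (nat_lit 76) (nat_lit 0) (XT.nd (nat_lit 78) (nat_lit 76) (nat_lit 0) (XT.lf (nat_lit 0) (nat_lit 2331920454) (nat_lit 152) (nat_lit 17031075914) (nat_lit 152) (nat_lit 502084498) (nat_lit 26) (nat_lit 4) (nat_lit 28) (nat_lit 5) (nat_lit 28) (nat_lit 4) (nat_lit 349) (nat_lit 237) (nat_lit 194)) (XT.lf (nat_lit 0) (nat_lit 3443590953) (nat_lit 228) (nat_lit 9726227959) (nat_lit 76) (nat_lit 7151395822) (nat_lit 25) (nat_lit 5) (nat_lit 28) (nat_lit 5) (nat_lit 26) (nat_lit 4) (nat_lit 350) (nat_lit 237) (nat_lit 193))) (XT.nd (nat_lit 78) (nat_lit 76) (nat_lit 0) (XT.lf (nat_lit 0) (nat_lit 7449567493) (nat_lit 228) (nat_lit 1776354009) (nat_lit 76) (nat_lit 11566415562) (nat_lit 25) (nat_lit 5) (nat_lit 28) (nat_lit 5) (nat_lit 26)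 (nat_lit 4) (nat_lit 351) (nat_lit 237) (nat_lit 192)) (XT.lf (nat_lit 0) (nat_lit 6454178541) (nat_lit 76) (nat_lit 5137005937) (nat_lit 152) (nat_lit 9685958583) (nat_lit 24) (nat_lit 5) (nat_lit 25) (nat_lit 5) (nat_lit 26) (nat_lit 4) (nat_lit 352) (nat_lit 237) (nat_lit 191)))) (XT.nd (nat_lit 156) (nat_lit 76) (nat_lit 0) (XT.nd (nat_lit 78) (nat_lit 152) (nat_lit 0) (XT.lf (nat_lit 0) (nat_lit 14885080087) (nat_lit 76) (nat_lit 943886456) (nat_lit 152) (nat_lit 5948382624) (nat_lit 24) (nat_lit 5) (nat_lit 25) (nat_lit 5) (nat_lit 26) (nat_lit 4) (nat_lit 353) (nat_lit 237) (nat_lit 190)) (XT.lf (nat_lit 0) (nat_lit 1185484587) (nat_lit 152) (nat_lit 19007210466) (nat_lit 152) (nat_lit 2099915052) (nat_lit 22) (nat_lit 4) (nat_lit 24) (nat_lit 5) (nat_lit 24) (nat_lit 4) (nat_lit 354) (nat_lit 237) (nat_lit 189))) (XT.nd (nat_lit 78) (nat_lit 0) (nat_lit 0) (XT.lf (nat_lit 0) (nat_lit 1862322792)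 (nat_lit 228) (nat_lit 13283997864) (nat_lit 76) (nat_lit 7675442273) (nat_lit 21) (nat_lit 5) (nat_lit 24) (nat_lit 5) (nat_lit 22) (nat_lit 4) (nat_lit 355) (nat_lit 237) (nat_lit 188)) (XT.lf (nat_lit 0) (nat_lit 5857587404) (nat_lit 228) (nat_lit 5326249264) (nat_lit 76) (nat_lit 12183650887) (nat_lit 21) (nat_lit 5) (nat_lit 24) (nat_lit 5) (nat_lit 22) (nat_lit 4) (nat_lit 356) (nat_lit 237) (nat_lit 187))))))))
noncomputable def xc51 : XT := (XT.nd (nat_lit 2184) (nat_lit 456) (nat_lit 0) (XT.nd (nat_lit 1092) (nat_lit 304) (nat_lit 0) (XT.nd (nat_lit 546) (nat_lit 152) (nat_lit 0) (XT.nd (nat_lit 234) (nat_lit 228) (nat_lit 0) (XT.nd (nat_lit 78) (nat_lit 0) (nat_lit 0) (XT.lf (nat_lit 0) (nat_lit 2848850659) (nat_lit 76) (nat_lit 7108880934) (nat_lit 152) (nat_lit 13972313262) (nat_lit 20) (nat_lit 5) (nat_lit 21) (nat_lit 5) (nat_lit 22) (nat_lit 4) (nat_lit 357) (nat_lit 237) (nat_lit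 186)) (XT.nd (nat_lit 78) (nat_lit 0) (nat_lit 0) (XT.lf (nat_lit 0) (nat_lit 11302168628) (nat_lit 76) (nat_lit 2890634124) (nat_lit 152) (nat_lit 10316329686) (nat_lit 20) (nat_lit 5) (nat_lit 21) (nat_lit 5) (nat_lit 22) (nat_lit 4) (nat_lit 358) (nat_lit 237) (nat_lit 185)) (XT.lf (nat_lit 0) (nat_lit 18527940947) (nat_lit 152) (nat_lit 5185392263) (nat_lit 0) (nat_lit 1393079911) (nat_lit 20) (nat_lit 5) (nat_lit 22) (nat_lit 4) (nat_lit 20) (nat_lit 4) (nat_lit 359) (nat_lit 237) (nat_lit 184)))) (XT.nd (nat_lit 156) (nat_lit 76) (nat_lit 0) (XT.nd (nat_lit 78) (nat_lit 76) (nat_lit 0) (XT.lf (nat_lit 0) (nat_lit 3034698486) (nat_lit 76) (nat_lit 19976456051) (nat_lit 76) (nat_lit 2709927650) (nat_lit 19) (nat_lit 4) (nat_lit 20) (nat_lit 5) (nat_lit 20) (nat_lit 4) (nat_lit 360) (nat_lit 237) (nat_lit 183)) (XT.lf (nat_lit 0) (nat_lit 1262977095) (nat_lit 152) (nat_lit 14830517290) (nat_lit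 76) (nat_lit 10259944024) (nat_lit 18) (nat_lit 5) (nat_lit 20) (nat_lit 5) (nat_lit 19) (nat_lit 4) (nat_lit 361) (nat_lit 237) (nat_lit 182))) (XT.nd (nat_lit 78) (nat_lit 76) (nat_lit 0) (XT.lf (nat_lit 0) (nat_lit 5262055148) (nat_lit 152) (nat_lit 6836497961) (nat_lit 76) (nat_lit 14906573388) (nat_lit 18) (nat_lit 5) (nat_lit 20) (nat_lit 5) (nat_lit 19) (nat_lit 4) (nat_lit 362) (nat_lit 237) (nat_lit 181)) (XT.lf (nat_lit 0) (nat_lit 1355152742) (nat_lit 76) (nat_lit 8001555113) (nat_lit 152) (nat_lit 18320398723) (nat_lit 17) (nat_lit 5) (nat_lit 18) (nat_lit 5) (nat_lit 19) (nat_lit 4) (nat_lit 363) (nat_lit 237) (nat_lit 180))))) (XT.nd (nat_lit 234) (nat_lit 152) (nat_lit 0) (XT.nd (nat_lit 78) (nat_lit 0) (nat_lit 0) (XT.lf (nat_lit 0) (nat_lit 9864734232) (nat_lit 76) (nat_lit 3741513642) (nat_lit 152) (nat_lit 14762045898) (nat_lit 17) (nat_lit 5) (nat_lit 18) (nat_lit 5) (nat_lit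 19) (nat_lit 4) (nat_lit 364) (nat_lit 237) (nat_lit 179)) (XT.nd (nat_lit 78) (nat_lit 0) (nat_lit 0) (XT.lf (nat_lit 0) (nat_lit 17953287759) (nat_lit 152) (nat_lit 10523604269) (nat_lit 0) (nat_lit 604233022) (nat_lit 17) (nat_lit 5) (nat_lit 19) (nat_lit 4) (nat_lit 17) (nat_lit 4) (nat_lit 365) (nat_lit 237) (nat_lit 178)) (XT.lf (nat_lit 0) (nat_lit 22432638631) (nat_lit 152) (nat_lit 2406127984) (nat_lit 0) (nat_lit 4976526277) (nat_lit 17) (nat_lit 5) (nat_lit 19) (nat_lit 4) (nat_lit 17) (nat_lit 4) (nat_lit 366) (nat_lit 237) (nat_lit 177)))) (XT.nd (nat_lit 156) (nat_lit 0) (nat_lit 0) (XT.nd (nat_lit 78) (nat_lit 76) (nat_lit 0) (XT.lf (nat_lit 0) (nat_lit 6009188893) (nat_lit 76) (nat_lit 21060823874) (nat_lit 76) (nat_lit 3500772087) (nat_lit 16) (nat_lit 4) (nat_lit 17) (nat_lit 5) (nat_lit 17) (nat_lit 4) (nat_lit 367) (nat_lit 237) (nat_lit 176)) (XT.lf (nat_lit 0) (nat_lit 478326518)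 (nat_lit 152) (nat_lit 16689961027) (nat_lit 76) (nat_lit 14180804353) (nat_lit 15) (nat_lit 5) (nat_lit 17) (nat_lit 5) (nat_lit 16) (nat_lit 4) (nat_lit 368) (nat_lit 237) (nat_lit 175))) (XT.nd (nat_lit 78) (nat_lit 0) (nat_lit 0) (XT.lf (nat_lit 0) (nat_lit 4473359854) (nat_lit 152) (nat_lit 8678016240) (nat_lit 76) (nat_lit 18999332168) (nat_lit 15) (nat_lit 5) (nat_lit 17) (nat_lit 5) (nat_lit 16) (nat_lit 4) (nat_lit 369) (nat_lit 237) (nat_lit 174)) (XT.lf (nat_lit 0) (nat_lit 8556131399) (nat_lit 152) (nat_lit 485109309) (nat_lit 76) (nat_lit 23936103227) (nat_lit 15) (nat_lit 5) (nat_lit 17) (nat_lit 5) (nat_lit 16) (nat_lit 4) (nat_lit 370) (nat_lit 237) (nat_lit 173)))))) (XT.nd (nat_lit 546) (nat_lit 76) (nat_lit 0) (XT.nd (nat_lit 234) (nat_lit 152) (nat_lit 0) (XT.nd (nat_lit 78) (nat_lit 0) (nat_lit 0) (XT.lf (nat_lit 0) (nat_lit 8053062879) (nat_lit 76) (nat_lit 4754556711) (nat_lit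 152) (nat_lit 21019779302) (nat_lit 14) (nat_lit 5) (nat_lit 15) (nat_lit 5) (nat_lit 16) (nat_lit 4) (nat_lit 371) (nat_lit 237) (nat_lit 172)) (XT.nd (nat_lit 78) (nat_lit 0) (nat_lit 0) (XT.lf (nat_lit 0) (nat_lit 16800223640) (nat_lit 76) (nat_lit 360509167) (nat_lit 152) (nat_lit 17543007287) (nat_lit 14) (nat_lit 5) (nat_lit 15) (nat_lit 5) (nat_lit 16) (nat_lit 4) (nat_lit 372) (nat_lit 237) (nat_lit 171)) (XT.lf (nat_lit 0) (nat_lit 21654313467) (nat_lit 152) (nat_lit 9892709160) (nat_lit 0) (nat_lit 4059059487) (nat_lit 14) (nat_lit 5) (nat_lit 16) (nat_lit 4) (nat_lit 14) (nat_lit 4) (nat_lit 373) (nat_lit 237) (nat_lit 170)))) (XT.nd (nat_lit 156) (nat_lit 76) (nat_lit 0) (XT.nd (nat_lit 78) (nat_lit 76) (nat_lit 0) (XT.lf (nat_lit 0) (nat_lit 26256983624) (nat_lit 152) (nat_lit 1699610020) (nat_lit 0) (nat_lit 8579678896) (nat_lit 14) (nat_lit 5) (nat_lit 16) (nat_lit 4) (nat_lit 14)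 (nat_lit 4) (nat_lit 374) (nat_lit 237) (nat_lit 169)) (XT.lf (nat_lit 0) (nat_lit 6819477998) (nat_lit 76) (nat_lit 24215374590) (nat_lit 76) (nat_lit 6458408941) (nat_lit 13) (nat_lit 4) (nat_lit 14) (nat_lit 5) (nat_lit 14) (nat_lit 4) (nat_lit 375) (nat_lit 237) (nat_lit 168))) (XT.nd (nat_lit 78) (nat_lit 76) (nat_lit 0) (XT.lf (nat_lit 0) (nat_lit 15576620720) (nat_lit 76) (nat_lit 20368490223) (nat_lit 76) (nat_lit 2534183873) (nat_lit 13) (nat_lit 4) (nat_lit 14) (nat_lit 5) (nat_lit 14) (nat_lit 4) (nat_lit 376) (nat_lit 237) (nat_lit 167)) (XT.lf (nat_lit 0) (nat_lit 1450779143) (nat_lit 152) (nat_lit 14964312746) (nat_lit 76) (nat_lit 23080215277) (nat_lit 12) (nat_lit 5) (nat_lit 14) (nat_lit 5) (nat_lit 13) (nat_lit 4) (nat_lit 377) (nat_lit 237) (nat_lit 166))))) (XT.nd (nat_lit 234) (nat_lit 0) (nat_lit 0) (XT.nd (nat_lit 78) (nat_lit 76) (nat_lit 0) (XT.lf (nat_lit 0) (nat_lit 5477592562)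 (nat_lit 152) (nat_lit 6862782533) (nat_lit 76) (nat_lit 28201480680) (nat_lit 12) (nat_lit 5) (nat_lit 14) (nat_lit 5) (nat_lit 13) (nat_lit 4) (nat_lit 378) (nat_lit 237) (nat_lit 165)) (XT.nd (nat_lit 78) (nat_lit 0) (nat_lit 0) (XT.lf (nat_lit 0) (nat_lit 1461882262) (nat_lit 76) (nat_lit 8151396257) (nat_lit 152) (nat_lit 32006885812) (nat_lit 11) (nat_lit 5) (nat_lit 12) (nat_lit 5) (nat_lit 13) (nat_lit 4) (nat_lit 379) (nat_lit 237) (nat_lit 164)) (XT.lf (nat_lit 0) (nat_lit 10129004285) (nat_lit 76) (nat_lit 3787642822) (nat_lit 152) (nat_lit 28812872045) (nat_lit 11) (nat_lit 5) (nat_lit 12) (nat_lit 5) (nat_lit 13) (nat_lit 4) (nat_lit 380) (nat_lit 237) (nat_lit 163)))) (XT.nd (nat_lit 156) (nat_lit 0) (nat_lit 0) (XT.nd (nat_lit 78) (nat_lit 0) (nat_lit 0) (XT.lf (nat_lit 0) (nat_lit 18330764830) (nat_lit 152) (nat_lit 24869922585) (nat_lit 0) (nat_lit 672022975) (nat_lit 11) (nat_lit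 5) (nat_lit 13) (nat_lit 4) (nat_lit 11) (nat_lit 4) (nat_lit 381) (nat_lit 237) (nat_lit 162)) (XT.lf (nat_lit 0) (nat_lit 22890391709) (nat_lit 152) (nat_lit 16990653361) (nat_lit 0) (nat_lit 5168764788) (nat_lit 11) (nat_lit 5) (nat_lit 13) (nat_lit 4) (nat_lit 11) (nat_lit 4) (nat_lit 382) (nat_lit 237) (nat_lit 161))) (XT.nd (nat_lit 78) (nat_lit 0) (nat_lit 0) (XT.lf (nat_lit 0) (nat_lit 27563102746) (nat_lit 152) (nat_lit 8919413259) (nat_lit 0) (nat_lit 9780422362) (nat_lit 11) (nat_lit 5) (nat_lit 13) (nat_lit 4) (nat_lit 11) (nat_lit 4) (nat_lit 383) (nat_lit 237) (nat_lit 160)) (XT.lf (nat_lit 0) (nat_lit 32352980892) (nat_lit 152) (nat_lit 649149737) (nat_lit 0) (nat_lit 14511025301) (nat_lit 11) (nat_lit 5) (nat_lit 13) (nat_lit 4) (nat_lit 11) (nat_lit 4) (nat_lit 384) (nat_lit 237) (nat_lit 159))))))) (XT.nd (nat_lit 1092) (nat_lit 152) (nat_lit 0) (XT.nd (nat_lit 546) (nat_lit 76)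 (nat_lit 0) (XT.nd (nat_lit 234) (nat_lit 152) (nat_lit 0) (XT.nd (nat_lit 78) (nat_lit 0) (nat_lit 0) (XT.lf (nat_lit 0) (nat_lit 7983143532) (nat_lit 76) (nat_lit 29357806803) (nat_lit 76) (nat_lit 11458302468) (nat_lit 10) (nat_lit 4) (nat_lit 11) (nat_lit 5) (nat_lit 11) (nat_lit 4) (nat_lit 385) (nat_lit 237) (nat_lit 158)) (XT.nd (nat_lit 78) (nat_lit 0) (nat_lit 0) (XT.lf (nat_lit 0) (nat_lit 16846264863) (nat_lit 76) (nat_lit 25616757606) (nat_lit 76) (nat_lit 7661380703) (nat_lit 10) (nat_lit 4) (nat_lit 11) (nat_lit 5) (nat_lit 11) (nat_lit 4) (nat_lit 386) (nat_lit 237) (nat_lit 157)) (XT.lf (nat_lit 0) (nat_lit 25935039378) (nat_lit 76) (nat_lit 21782269299) (nat_lit 76) (nat_lit 3772647185) (nat_lit 10) (nat_lit 4) (nat_lit 11) (nat_lit 5) (nat_lit 11) (nat_lit 4) (nat_lit 387) (nat_lit 237) (nat_lit 156)))) (XT.nd (nat_lit 156) (nat_lit 76) (nat_lit 0) (XT.nd (nat_lit 78) (nat_lit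 0) (nat_lit 0) (XT.lf (nat_lit 0) (nat_lit 207172861) (nat_lit 152) (nat_lit 17641726458) (nat_lit 76) (nat_lit 35048143823) (nat_lit 9) (nat_lit 5) (nat_lit 11) (nat_lit 5) (nat_lit 10) (nat_lit 4) (nat_lit 388) (nat_lit 237) (nat_lit 155)) (XT.lf (nat_lit 0) (nat_lit 4210139952) (nat_lit 152) (nat_lit 9566834577) (nat_lit 76) (nat_lit 40568864552) (nat_lit 9) (nat_lit 5) (nat_lit 11) (nat_lit 5) (nat_lit 10) (nat_lit 4) (nat_lit 389) (nat_lit 237) (nat_lit 154))) (XT.nd (nat_lit 78) (nat_lit 76) (nat_lit 0) (XT.lf (nat_lit 0) (nat_lit 8313369759) (nat_lit 152) (nat_lit 1286920121) (nat_lit 76) (nat_lit 46238407687) (nat_lit 9) (nat_lit 5) (nat_lit 11) (nat_lit 5) (nat_lit 10) (nat_lit 4) (nat_lit 390) (nat_lit 237) (nat_lit 153)) (XT.lf (nat_lit 0) (nat_lit 7348650427) (nat_lit 76) (nat_lit 5242436926) (nat_lit 152) (nat_lit 44783716495) (nat_lit 8) (nat_lit 5) (nat_lit 9) (nat_lit 5) (nat_lit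 10) (nat_lit 4) (nat_lit 391) (nat_lit 237) (nat_lit 152))))) (XT.nd (nat_lit 234) (nat_lit 76) (nat_lit 0) (XT.nd (nat_lit 78) (nat_lit 0) (nat_lit 0) (XT.lf (nat_lit 0) (nat_lit 16233883026) (nat_lit 76) (nat_lit 757216640) (nat_lit 152) (nat_lit 41966078414) (nat_lit 8) (nat_lit 5) (nat_lit 9) (nat_lit 5) (nat_lit 10) (nat_lit 4) (nat_lit 392) (nat_lit 237) (nat_lit 151)) (XT.nd (nat_lit 78) (nat_lit 0) (nat_lit 0) (XT.lf (nat_lit 0) (nat_lit 21541607442) (nat_lit 152) (nat_lit 35273625125) (nat_lit 0) (nat_lit 3771239668) (nat_lit 8) (nat_lit 5) (nat_lit 10) (nat_lit 4) (nat_lit 8) (nat_lit 4) (nat_lit 393) (nat_lit 237) (nat_lit 150)) (XT.lf (nat_lit 0) (nat_lit 26218036191) (nat_lit 152) (nat_lit 27642083554) (nat_lit 0) (nat_lit 8404846747) (nat_lit 8) (nat_lit 5) (nat_lit 10) (nat_lit 4) (nat_lit 8) (nat_lit 4) (nat_lit 394) (nat_lit 237) (nat_lit 149)))) (XT.nd (nat_lit 156) (nat_lit 76)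 (nat_lit 0) (XT.nd (nat_lit 78) (nat_lit 0) (nat_lit 0) (XT.lf (nat_lit 0) (nat_lit 31017193284) (nat_lit 152) (nat_lit 19814723172) (nat_lit 0) (nat_lit 13162429402) (nat_lit 8) (nat_lit 5) (nat_lit 10) (nat_lit 4) (nat_lit 8) (nat_lit 4) (nat_lit 395) (nat_lit 237) (nat_lit 148)) (XT.lf (nat_lit 0) (nat_lit 35943272158) (nat_lit 152) (nat_lit 11784704539) (nat_lit 0) (nat_lit 18048144745) (nat_lit 8) (nat_lit 5) (nat_lit 10) (nat_lit 4) (nat_lit 8) (nat_lit 4) (nat_lit 396) (nat_lit 237) (nat_lit 147))) (XT.nd (nat_lit 78) (nat_lit 76) (nat_lit 0) (XT.lf (nat_lit 0) (nat_lit 41000577155) (nat_lit 152) (nat_lit 3545011134) (nat_lit 0) (nat_lit 23066261848) (nat_lit 8) (nat_lit 5) (nat_lit 10) (nat_lit 4) (nat_lit 8) (nat_lit 4) (nat_lit 397) (nat_lit 237) (nat_lit 146)) (XT.lf (nat_lit 0) (nat_lit 5009306384) (nat_lit 76) (nat_lit 41232373412) (nat_lit 76) (nat_lit 23260011605) (nat_lit 7) (nat_lit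 4) (nat_lit 8) (nat_lit 5) (nat_lit 8) (nat_lit 4) (nat_lit 398) (nat_lit 237) (nat_lit 145)))))) (XT.nd (nat_lit 546) (nat_lit 76) (nat_lit 0) (XT.nd (nat_lit 234) (nat_lit 76) (nat_lit 0) (XT.nd (nat_lit 78) (nat_lit 0) (nat_lit 0) (XT.lf (nat_lit 0) (nat_lit 13862903603) (nat_lit 76) (nat_lit 37797015166) (nat_lit 76) (nat_lit 19787715009) (nat_lit 7) (nat_lit 4) (nat_lit 8) (nat_lit 5) (nat_lit 8) (nat_lit 4) (nat_lit 399) (nat_lit 237) (nat_lit 144)) (XT.nd (nat_lit 78) (nat_lit 0) (nat_lit 0) (XT.lf (nat_lit 0) (nat_lit 22952964001) (nat_lit 76) (nat_lit 34272309444) (nat_lit 76) (nat_lit 16227146813) (nat_lit 7) (nat_lit 4) (nat_lit 8) (nat_lit 5) (nat_lit 8) (nat_lit 4) (nat_lit 400) (nat_lit 237) (nat_lit 143)) (XT.lf (nat_lit 0) (nat_lit 32287430350) (nat_lit 76) (nat_lit 30655176407) (nat_lit 76) (nat_lit 12575195839) (nat_lit 7) (nat_lit 4) (nat_lit 8) (nat_lit 5) (nat_lit 8) (nat_lit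 4) (nat_lit 401) (nat_lit 237) (nat_lit 142)))) (XT.nd (nat_lit 156) (nat_lit 76) (nat_lit 0) (XT.nd (nat_lit 78) (nat_lit 0) (nat_lit 0) (XT.lf (nat_lit 0) (nat_lit 41874458980) (nat_lit 76) (nat_lit 26942455453) (nat_lit 76) (nat_lit 8828671063) (nat_lit 7) (nat_lit 4) (nat_lit 8) (nat_lit 5) (nat_lit 8) (nat_lit 4) (nat_lit 402) (nat_lit 237) (nat_lit 141)) (XT.lf (nat_lit 0) (nat_lit 51722426905) (nat_lit 76) (nat_lit 23130902456) (nat_lit 76) (nat_lit 4984298821) (nat_lit 7) (nat_lit 4) (nat_lit 8) (nat_lit 5) (nat_lit 8) (nat_lit 4) (nat_lit 403) (nat_lit 237) (nat_lit 140))) (XT.nd (nat_lit 78) (nat_lit 76) (nat_lit 0) (XT.lf (nat_lit 0) (nat_lit 61839939147) (nat_lit 76) (nat_lit 19217186934) (nat_lit 76) (nat_lit 1038719955) (nat_lit 7) (nat_lit 4) (nat_lit 8) (nat_lit 5) (nat_lit 8) (nat_lit 4) (nat_lit 404) (nat_lit 237) (nat_lit 139)) (XT.lf (nat_lit 0) (nat_lit 2952747661) (nat_lit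 152) (nat_lit 12215324511) (nat_lit 76) (nat_lit 69253271626) (nat_lit 6) (nat_lit 5) (nat_lit 8) (nat_lit 5) (nat_lit 7) (nat_lit 4) (nat_lit 405) (nat_lit 237) (nat_lit 138))))) (XT.nd (nat_lit 312) (nat_lit 0) (nat_lit 0) (XT.nd (nat_lit 156) (nat_lit 0) (nat_lit 0) (XT.nd (nat_lit 78) (nat_lit 76) (nat_lit 0) (XT.lf (nat_lit 0) (nat_lit 7030028128) (nat_lit 152) (nat_lit 3968479423) (nat_lit 76) (nat_lit 75818184379) (nat_lit 6) (nat_lit 5) (nat_lit 8) (nat_lit 5) (nat_lit 7) (nat_lit 4) (nat_lit 406) (nat_lit 237) (nat_lit 137)) (XT.lf (nat_lit 0) (nat_lit 4591414196) (nat_lit 76) (nat_lit 6669674568) (nat_lit 152) (nat_lit 78021870166) (nat_lit 5) (nat_lit 5) (nat_lit 6) (nat_lit 5) (nat_lit 7) (nat_lit 4) (nat_lit 407) (nat_lit 237) (nat_lit 136))) (XT.nd (nat_lit 78) (nat_lit 0) (nat_lit 0) (XT.lf (nat_lit 0) (nat_lit 13465737535) (nat_lit 76) (nat_lit 2180884977) (nat_lit 152) (nat_lit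 76175767404) (nat_lit 5) (nat_lit 5) (nat_lit 6) (nat_lit 5) (nat_lit 7) (nat_lit 4) (nat_lit 408) (nat_lit 237) (nat_lit 135)) (XT.lf (nat_lit 0) (nat_lit 20174929809) (nat_lit 152) (nat_lit 71878481753) (nat_lit 0) (nat_lit 2384258191) (nat_lit 5) (nat_lit 5) (nat_lit 7) (nat_lit 4) (nat_lit 5) (nat_lit 4) (nat_lit 409) (nat_lit 237) (nat_lit 134)))) (XT.nd (nat_lit 156) (nat_lit 0) (nat_lit 0) (XT.nd (nat_lit 78) (nat_lit 0) (nat_lit 0) (XT.lf (nat_lit 0) (nat_lit 24848764756) (nat_lit 152) (nat_lit 65250169640) (nat_lit 0) (nat_lit 7032185323) (nat_lit 5) (nat_lit 5) (nat_lit 7) (nat_lit 4) (nat_lit 5) (nat_lit 4) (nat_lit 410) (nat_lit 237) (nat_lit 133)) (XT.lf (nat_lit 0) (nat_lit 29651247286) (nat_lit 152) (nat_lit 58444960311) (nat_lit 0) (nat_lit 11809514635) (nat_lit 5) (nat_lit 5) (nat_lit 7) (nat_lit 4) (nat_lit 5) (nat_lit 4) (nat_lit 411) (nat_lit 237) (nat_lit 132))) (XT.nd (nat_lit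 32214) (nat_lit 0) (nat_lit 8208) (XT.lf (nat_lit 0) (nat_lit 34586573743) (nat_lit 152) (nat_lit 51456907468) (nat_lit 0) (nat_lit 16720420491) (nat_lit 5) (nat_lit 5) (nat_lit 7) (nat_lit 4) (nat_lit 5) (nat_lit 4) (nat_lit 412) (nat_lit 237) (nat_lit 131)) (XT.lf (nat_lit 0) (nat_lit 790428606) (nat_lit 456) (nat_lit 2791214293) (nat_lit 0) (nat_lit 790428606) (nat_lit 113) (nat_lit 5) (nat_lit 119) (nat_lit 4) (nat_lit 113) (nat_lit 4) (nat_lit 304) (nat_lit 238) (nat_lit 238))))))))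
noncomputable def xc52 : XT := (XT.nd (nat_lit 2184) (nat_lit 2052) (nat_lit 0) (XT.nd (nat_lit 1092) (nat_lit 1900) (nat_lit 0) (XT.nd (nat_lit 546) (nat_lit 1368) (nat_lit 0) (XT.nd (nat_lit 234) (nat_lit 1064) (nat_lit 0) (XT.nd (nat_lit 78) (nat_lit 380) (nat_lit 0) (XT.lf (nat_lit 0) (nat_lit 877314021) (nat_lit 380) (nat_lit 4496781548) (nat_lit 380) (nat_lit 3484627425) (nat_lit 108) (nat_lit 4) (nat_lit 113) (nat_lit 5) (nat_lit 113) (nat_lit 4) (nat_lit 305) (nat_lit 238) (nat_lit 237)) (XT.nd (nat_lit 78) (nat_lit 304) (nat_lit 0) (XT.lf (nat_lit 0) (nat_lit 260765487) (nat_lit 456) (nat_lit 1465474091) (nat_lit 76) (nat_lit 7251620388) (nat_lit 107) (nat_lit 5) (nat_lit 113) (nat_lit 5) (nat_lit 108) (nat_lit 4) (nat_lit 306) (nat_lit 238) (nat_lit 236)) (XT.lf (nat_lit 0) (nat_lit 4017778653) (nat_lit 380) (nat_lit 3927965041) (nat_lit 0) (nat_lit 1154788005) (nat_lit 103) (nat_lit 5)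 (nat_lit 108) (nat_lit 4) (nat_lit 103) (nat_lit 4) (nat_lit 307) (nat_lit 238) (nat_lit 235)))) (XT.nd (nat_lit 156) (nat_lit 380) (nat_lit 0) (XT.nd (nat_lit 78) (nat_lit 380) (nat_lit 0) (XT.lf (nat_lit 0) (nat_lit 2719635739) (nat_lit 304) (nat_lit 5135287053) (nat_lit 304) (nat_lit 1373010576) (nat_lit 99) (nat_lit 4) (nat_lit 103) (nat_lit 5) (nat_lit 103) (nat_lit 4) (nat_lit 308) (nat_lit 238) (nat_lit 234)) (XT.lf (nat_lit 0) (nat_lit 137840676) (nat_lit 304) (nat_lit 2213494393) (nat_lit 380) (nat_lit 7008651882) (nat_lit 94) (nat_lit 5) (nat_lit 98) (nat_lit 5) (nat_lit 99) (nat_lit 4) (nat_lit 309) (nat_lit 238) (nat_lit 233))) (XT.nd (nat_lit 78) (nat_lit 380) (nat_lit 0) (XT.lf (nat_lit 0) (nat_lit 6144543397) (nat_lit 380) (nat_lit 2530364604) (nat_lit 0) (nat_lit 821210718) (nat_lit 94) (nat_lit 5) (nat_lit 99) (nat_lit 4) (nat_lit 94) (nat_lit 4) (nat_lit 310) (nat_lit 238) (nat_lit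 232)) (XT.lf (nat_lit 0) (nat_lit 383340423) (nat_lit 380) (nat_lit 5344155432) (nat_lit 76) (nat_lit 3909494423) (nat_lit 89) (nat_lit 5) (nat_lit 94) (nat_lit 5) (nat_lit 90) (nat_lit 4) (nat_lit 311) (nat_lit 238) (nat_lit 231))))) (XT.nd (nat_lit 234) (nat_lit 760) (nat_lit 0) (XT.nd (nat_lit 78) (nat_lit 380) (nat_lit 0) (XT.lf (nat_lit 0) (nat_lit 1458378068) (nat_lit 228) (nat_lit 2658097998) (nat_lit 304) (nat_lit 5666070959) (nat_lit 86) (nat_lit 5) (nat_lit 89) (nat_lit 5) (nat_lit 90) (nat_lit 4) (nat_lit 312) (nat_lit 238) (nat_lit 230)) (XT.nd (nat_lit 78) (nat_lit 380) (nat_lit 0) (XT.lf (nat_lit 0) (nat_lit 7935551649) (nat_lit 304) (nat_lit 1490563078) (nat_lit 0) (nat_lit 507196240) (nat_lit 86) (nat_lit 5) (nat_lit 90) (nat_lit 4) (nat_lit 86) (nat_lit 4) (nat_lit 313) (nat_lit 238) (nat_lit 229)) (XT.lf (nat_lit 0) (nat_lit 1742083421) (nat_lit 380) (nat_lit 4601830602) (nat_lit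 76) (nat_lit 3744338973) (nat_lit 81) (nat_lit 5) (nat_lit 86) (nat_lit 5) (nat_lit 82) (nat_lit 4) (nat_lit 314) (nat_lit 238) (nat_lit 228)))) (XT.nd (nat_lit 156) (nat_lit 532) (nat_lit 0) (XT.nd (nat_lit 78) (nat_lit 0) (nat_lit 0) (XT.lf (nat_lit 0) (nat_lit 2356340361) (nat_lit 228) (nat_lit 3152934523) (nat_lit 304) (nat_lit 4739369688) (nat_lit 78) (nat_lit 5) (nat_lit 81) (nat_lit 5) (nat_lit 82) (nat_lit 4) (nat_lit 315) (nat_lit 238) (nat_lit 227)) (XT.lf (nat_lit 0) (nat_lit 9355947830) (nat_lit 304) (nat_lit 923050147) (nat_lit 0) (nat_lit 135908249) (nat_lit 78) (nat_lit 5) (nat_lit 82) (nat_lit 4) (nat_lit 78) (nat_lit 4) (nat_lit 316) (nat_lit 238) (nat_lit 226))) (XT.nd (nat_lit 78) (nat_lit 228) (nat_lit 0) (XT.lf (nat_lit 0) (nat_lit 2690287641) (nat_lit 304) (nat_lit 4389496657) (nat_lit 76) (nat_lit 3505280993) (nat_lit 74) (nat_lit 5) (nat_lit 78) (nat_lit 5) (nat_lit 75) (nat_lit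 4) (nat_lit 317) (nat_lit 238) (nat_lit 225)) (XT.lf (nat_lit 0) (nat_lit 2705663665) (nat_lit 228) (nat_lit 3781436888) (nat_lit 304) (nat_lit 4274270690) (nat_lit 71) (nat_lit 5) (nat_lit 74) (nat_lit 5) (nat_lit 75) (nat_lit 4) (nat_lit 318) (nat_lit 238) (nat_lit 224)))))) (XT.nd (nat_lit 546) (nat_lit 912) (nat_lit 0) (XT.nd (nat_lit 234) (nat_lit 456) (nat_lit 0) (XT.nd (nat_lit 78) (nat_lit 532) (nat_lit 0) (XT.lf (nat_lit 0) (nat_lit 9981692112) (nat_lit 228) (nat_lit 382532737) (nat_lit 304) (nat_lit 579795787) (nat_lit 71) (nat_lit 5) (nat_lit 74) (nat_lit 5) (nat_lit 75) (nat_lit 4) (nat_lit 319) (nat_lit 238) (nat_lit 223)) (XT.nd (nat_lit 78) (nat_lit 228) (nat_lit 0) (XT.lf (nat_lit 0) (nat_lit 3177309259) (nat_lit 304) (nat_lit 4846083258) (nat_lit 76) (nat_lit 3107428510) (nat_lit 67) (nat_lit 5) (nat_lit 71) (nat_lit 5) (nat_lit 68) (nat_lit 4) (nat_lit 320) (nat_lit 238) (nat_lit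 222)) (XT.lf (nat_lit 0) (nat_lit 2361782477) (nat_lit 228) (nat_lit 4634220601) (nat_lit 304) (nat_lit 4328276793) (nat_lit 64) (nat_lit 5) (nat_lit 67) (nat_lit 5) (nat_lit 68) (nat_lit 4) (nat_lit 321) (nat_lit 238) (nat_lit 221)))) (XT.nd (nat_lit 156) (nat_lit 152) (nat_lit 0) (XT.nd (nat_lit 78) (nat_lit 304) (nat_lit 0) (XT.lf (nat_lit 0) (nat_lit 9765718236) (nat_lit 228) (nat_lit 1137758440) (nat_lit 304) (nat_lit 620880523) (nat_lit 64) (nat_lit 5) (nat_lit 67) (nat_lit 5) (nat_lit 68) (nat_lit 4) (nat_lit 322) (nat_lit 238) (nat_lit 220)) (XT.lf (nat_lit 0) (nat_lit 3140185702) (nat_lit 304) (nat_lit 6131432307) (nat_lit 76) (nat_lit 2457790176) (nat_lit 60) (nat_lit 5) (nat_lit 64) (nat_lit 5) (nat_lit 61) (nat_lit 4) (nat_lit 323) (nat_lit 238) (nat_lit 219))) (XT.nd (nat_lit 78) (nat_lit 0) (nat_lit 0) (XT.lf (nat_lit 0) (nat_lit 1158119491) (nat_lit 152) (nat_lit 5811111651) (nat_lit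 228) (nat_lit 4972204132) (nat_lit 58) (nat_lit 5) (nat_lit 60) (nat_lit 5) (nat_lit 61) (nat_lit 4) (nat_lit 324) (nat_lit 238) (nat_lit 218)) (XT.lf (nat_lit 0) (nat_lit 8675051460) (nat_lit 152) (nat_lit 2228299141) (nat_lit 228) (nat_lit 1256803182) (nat_lit 58) (nat_lit 5) (nat_lit 60) (nat_lit 5) (nat_lit 61) (nat_lit 4) (nat_lit 325) (nat_lit 238) (nat_lit 217))))) (XT.nd (nat_lit 234) (nat_lit 456) (nat_lit 0) (XT.nd (nat_lit 78) (nat_lit 152) (nat_lit 0) (XT.lf (nat_lit 0) (nat_lit 2501967057) (nat_lit 304) (nat_lit 8430143736) (nat_lit 76) (nat_lit 1453154728) (nat_lit 54) (nat_lit 5) (nat_lit 58) (nat_lit 5) (nat_lit 55) (nat_lit 4) (nat_lit 326) (nat_lit 238) (nat_lit 216)) (XT.nd (nat_lit 78) (nat_lit 152) (nat_lit 0) (XT.lf (nat_lit 0) (nat_lit 6336021479) (nat_lit 304) (nat_lit 1076517181) (nat_lit 76) (nat_lit 5204618770) (nat_lit 54) (nat_lit 5) (nat_lit 58) (nat_lit 5) (nat_lit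 55) (nat_lit 4) (nat_lit 327) (nat_lit 238) (nat_lit 215)) (XT.lf (nat_lit 0) (nat_lit 6512586915) (nat_lit 152) (nat_lit 3767325299) (nat_lit 228) (nat_lit 2576282033) (nat_lit 52) (nat_lit 5) (nat_lit 54) (nat_lit 5) (nat_lit 55) (nat_lit 4) (nat_lit 328) (nat_lit 238) (nat_lit 214)))) (XT.nd (nat_lit 156) (nat_lit 152) (nat_lit 0) (XT.nd (nat_lit 78) (nat_lit 0) (nat_lit 0) (XT.lf (nat_lit 0) (nat_lit 1147226872) (nat_lit 228) (nat_lit 22730264) (nat_lit 304) (nat_lit 11933485319) (nat_lit 48) (nat_lit 5) (nat_lit 51) (nat_lit 5) (nat_lit 52) (nat_lit 5) (nat_lit 329) (nat_lit 238) (nat_lit 213)) (XT.lf (nat_lit 0) (nat_lit 5011244195) (nat_lit 304) (nat_lit 4539349477) (nat_lit 76) (nat_lit 3805745788) (nat_lit 48) (nat_lit 5) (nat_lit 52) (nat_lit 5) (nat_lit 49) (nat_lit 4) (nat_lit 330) (nat_lit 238) (nat_lit 212))) (XT.nd (nat_lit 78) (nat_lit 0) (nat_lit 0) (XT.lf (nat_lit 0) (nat_lit 3049609074)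 (nat_lit 152) (nat_lit 5882547636) (nat_lit 228) (nat_lit 4685764019) (nat_lit 46) (nat_lit 5) (nat_lit 48) (nat_lit 5) (nat_lit 49) (nat_lit 4) (nat_lit 331) (nat_lit 238) (nat_lit 211)) (XT.lf (nat_lit 0) (nat_lit 10850666720) (nat_lit 152) (nat_lit 2101569014) (nat_lit 228) (nat_lit 935695645) (nat_lit 46) (nat_lit 5) (nat_lit 48) (nat_lit 5) (nat_lit 49) (nat_lit 4) (nat_lit 332) (nat_lit 238) (nat_lit 210))))))) (XT.nd (nat_lit 1092) (nat_lit 760) (nat_lit 0) (XT.nd (nat_lit 546) (nat_lit 532) (nat_lit 0) (XT.nd (nat_lit 234) (nat_lit 380) (nat_lit 0) (XT.nd (nat_lit 78) (nat_lit 152) (nat_lit 0) (XT.lf (nat_lit 0) (nat_lit 2869176568) (nat_lit 228) (nat_lit 9507219928) (nat_lit 76) (nat_lit 1788845836) (nat_lit 43) (nat_lit 5) (nat_lit 46) (nat_lit 5) (nat_lit 44) (nat_lit 4) (nat_lit 333) (nat_lit 238) (nat_lit 209)) (XT.nd (nat_lit 78) (nat_lit 152) (nat_lit 0) (XT.lf (nat_lit 0) (nat_lit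 6758502086) (nat_lit 228) (nat_lit 1941068119) (nat_lit 76) (nat_lit 5751376798) (nat_lit 43) (nat_lit 5) (nat_lit 46) (nat_lit 5) (nat_lit 44) (nat_lit 4) (nat_lit 334) (nat_lit 238) (nat_lit 208)) (XT.lf (nat_lit 0) (nat_lit 5862417501) (nat_lit 152) (nat_lit 4897600286) (nat_lit 228) (nat_lit 3985364693) (nat_lit 41) (nat_lit 5) (nat_lit 43) (nat_lit 5) (nat_lit 44) (nat_lit 4) (nat_lit 335) (nat_lit 238) (nat_lit 207)))) (XT.nd (nat_lit 156) (nat_lit 152) (nat_lit 0) (XT.nd (nat_lit 78) (nat_lit 228) (nat_lit 0) (XT.lf (nat_lit 0) (nat_lit 13836770137) (nat_lit 152) (nat_lit 1004348836) (nat_lit 228) (nat_lit 208770103) (nat_lit 41) (nat_lit 5) (nat_lit 43) (nat_lit 5) (nat_lit 44) (nat_lit 4) (nat_lit 336) (nat_lit 238) (nat_lit 206)) (XT.lf (nat_lit 0) (nat_lit 3644068201) (nat_lit 228) (nat_lit 8711227751) (nat_lit 76) (nat_lit 3006152885) (nat_lit 38) (nat_lit 5) (nat_lit 41) (nat_lit 5)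 (nat_lit 39) (nat_lit 4) (nat_lit 337) (nat_lit 238) (nat_lit 205))) (XT.nd (nat_lit 78) (nat_lit 152) (nat_lit 0) (XT.lf (nat_lit 0) (nat_lit 7572047004) (nat_lit 228) (nat_lit 1021383471) (nat_lit 76) (nat_lit 7089972558) (nat_lit 38) (nat_lit 5) (nat_lit 41) (nat_lit 5) (nat_lit 39) (nat_lit 4) (nat_lit 338) (nat_lit 238) (nat_lit 204)) (XT.lf (nat_lit 0) (nat_lit 6935866595) (nat_lit 152) (nat_lit 4691812078) (nat_lit 228) (nat_lit 4387064324) (nat_lit 36) (nat_lit 5) (nat_lit 38) (nat_lit 5) (nat_lit 39) (nat_lit 4) (nat_lit 339) (nat_lit 238) (nat_lit 203))))) (XT.nd (nat_lit 234) (nat_lit 304) (nat_lit 0) (XT.nd (nat_lit 78) (nat_lit 228) (nat_lit 0) (XT.lf (nat_lit 0) (nat_lit 15055105236) (nat_lit 152) (nat_lit 704046976) (nat_lit 228) (nat_lit 598266681) (nat_lit 36) (nat_lit 5) (nat_lit 38) (nat_lit 5) (nat_lit 39) (nat_lit 4) (nat_lit 340) (nat_lit 238) (nat_lit 202)) (XT.nd (nat_lit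 78) (nat_lit 0) (nat_lit 0) (XT.lf (nat_lit 0) (nat_lit 3282436375) (nat_lit 228) (nat_lit 10031635411) (nat_lit 76) (nat_lit 3394088595) (nat_lit 33) (nat_lit 5) (nat_lit 36) (nat_lit 5) (nat_lit 34) (nat_lit 4) (nat_lit 341) (nat_lit 238) (nat_lit 201)) (XT.lf (nat_lit 0) (nat_lit 7233022486) (nat_lit 228) (nat_lit 2256885691) (nat_lit 76) (nat_lit 7580392783) (nat_lit 33) (nat_lit 5) (nat_lit 36) (nat_lit 5) (nat_lit 34) (nat_lit 4) (nat_lit 342) (nat_lit 238) (nat_lit 200)))) (XT.nd (nat_lit 156) (nat_lit 228) (nat_lit 0) (XT.nd (nat_lit 78) (nat_lit 0) (nat_lit 0) (XT.lf (nat_lit 0) (nat_lit 5770251897) (nat_lit 76) (nat_lit 5534171325) (nat_lit 152) (nat_lit 6138832209) (nat_lit 32) (nat_lit 5) (nat_lit 33) (nat_lit 5) (nat_lit 34) (nat_lit 4) (nat_lit 343) (nat_lit 238) (nat_lit 199)) (XT.lf (nat_lit 0) (nat_lit 13991930743) (nat_lit 76) (nat_lit 1476314335) (nat_lit 152) (nat_lit 2360063133)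 (nat_lit 32) (nat_lit 5) (nat_lit 33) (nat_lit 5) (nat_lit 34) (nat_lit 4) (nat_lit 344) (nat_lit 238) (nat_lit 198))) (XT.nd (nat_lit 78) (nat_lit 0) (nat_lit 0) (XT.lf (nat_lit 0) (nat_lit 1517310622) (nat_lit 228) (nat_lit 14039045498) (nat_lit 76) (nat_lit 2667677516) (nat_lit 29) (nat_lit 5) (nat_lit 32) (nat_lit 5) (nat_lit 30) (nat_lit 4) (nat_lit 345) (nat_lit 238) (nat_lit 197)) (XT.lf (nat_lit 0) (nat_lit 5466066515) (nat_lit 228) (nat_lit 6234358502) (nat_lit 76) (nat_lit 6930446434) (nat_lit 29) (nat_lit 5) (nat_lit 32) (nat_lit 5) (nat_lit 30) (nat_lit 4) (nat_lit 346) (nat_lit 238) (nat_lit 196)))))) (XT.nd (nat_lit 546) (nat_lit 380) (nat_lit 0) (XT.nd (nat_lit 234) (nat_lit 304) (nat_lit 0) (XT.nd (nat_lit 78) (nat_lit 0) (nat_lit 0) (XT.lf (nat_lit 0) (nat_lit 1750116224) (nat_lit 76) (nat_lit 7750240040) (nat_lit 152) (nat_lit 9550562037) (nat_lit 28) (nat_lit 5) (nat_lit 29) (nat_lit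 5) (nat_lit 30) (nat_lit 4) (nat_lit 347) (nat_lit 238) (nat_lit 195)) (XT.nd (nat_lit 78) (nat_lit 0) (nat_lit 0) (XT.lf (nat_lit 0) (nat_lit 10014287165) (nat_lit 76) (nat_lit 3655197003) (nat_lit 152) (nat_lit 5813683671) (nat_lit 28) (nat_lit 5) (nat_lit 29) (nat_lit 5) (nat_lit 30) (nat_lit 4) (nat_lit 348) (nat_lit 238) (nat_lit 194)) (XT.lf (nat_lit 0) (nat_lit 17921021762) (nat_lit 152) (nat_lit 1493581680) (nat_lit 0) (nat_lit 515076459) (nat_lit 28) (nat_lit 5) (nat_lit 30) (nat_lit 4) (nat_lit 28) (nat_lit 4) (nat_lit 349) (nat_lit 238) (nat_lit 193)))) (XT.nd (nat_lit 156) (nat_lit 76) (nat_lit 0) (XT.nd (nat_lit 78) (nat_lit 0) (nat_lit 0) (XT.lf (nat_lit 0) (nat_lit 1927993680) (nat_lit 228) (nat_lit 13674376556) (nat_lit 76) (nat_lit 4785037683) (nat_lit 25) (nat_lit 5) (nat_lit 28) (nat_lit 5) (nat_lit 26) (nat_lit 4) (nat_lit 350) (nat_lit 238) (nat_lit 192)) (XT.lf (nat_lit 0)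 (nat_lit 5911024228) (nat_lit 228) (nat_lit 5765774472) (nat_lit 76) (nat_lit 9182426742) (nat_lit 25) (nat_lit 5) (nat_lit 28) (nat_lit 5) (nat_lit 26) (nat_lit 4) (nat_lit 351) (nat_lit 238) (nat_lit 191))) (XT.nd (nat_lit 78) (nat_lit 0) (nat_lit 0) (XT.lf (nat_lit 0) (nat_lit 2344493548) (nat_lit 76) (nat_lit 7646365196) (nat_lit 152) (nat_lit 11355032783) (nat_lit 24) (nat_lit 5) (nat_lit 25) (nat_lit 5) (nat_lit 26) (nat_lit 4) (nat_lit 352) (nat_lit 238) (nat_lit 190)) (XT.lf (nat_lit 0) (nat_lit 10735718163) (nat_lit 76) (nat_lit 3470912450) (nat_lit 152) (nat_lit 7640133750) (nat_lit 24) (nat_lit 5) (nat_lit 25) (nat_lit 5) (nat_lit 26) (nat_lit 4) (nat_lit 353) (nat_lit 238) (nat_lit 189))))) (XT.nd (nat_lit 312) (nat_lit 152) (nat_lit 0) (XT.nd (nat_lit 156) (nat_lit 0) (nat_lit 0) (XT.nd (nat_lit 78) (nat_lit 228) (nat_lit 0) (XT.lf (nat_lit 0) (nat_lit 18513138200) (nat_lit 152) (nat_lit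 3071138010) (nat_lit 0) (nat_lit 779471953) (nat_lit 24) (nat_lit 5) (nat_lit 26) (nat_lit 4) (nat_lit 24) (nat_lit 4) (nat_lit 354) (nat_lit 238) (nat_lit 188)) (XT.lf (nat_lit 0) (nat_lit 93888279) (nat_lit 228) (nat_lit 17695711601) (nat_lit 76) (nat_lit 5105368905) (nat_lit 21) (nat_lit 5) (nat_lit 24) (nat_lit 5) (nat_lit 22) (nat_lit 4) (nat_lit 355) (nat_lit 238) (nat_lit 187))) (XT.nd (nat_lit 78) (nat_lit 0) (nat_lit 0) (XT.lf (nat_lit 0) (nat_lit 4068284292) (nat_lit 228) (nat_lit 9775880475) (nat_lit 76) (nat_lit 9597160409) (nat_lit 21) (nat_lit 5) (nat_lit 24) (nat_lit 5) (nat_lit 22) (nat_lit 4) (nat_lit 356) (nat_lit 238) (nat_lit 186)) (XT.lf (nat_lit 0) (nat_lit 8120782809) (nat_lit 228) (nat_lit 1693184970) (nat_lit 76) (nat_lit 14191349606) (nat_lit 21) (nat_lit 5) (nat_lit 24) (nat_lit 5) (nat_lit 22) (nat_lit 4) (nat_lit 357) (nat_lit 238) (nat_lit 185)))) (XT.nd (nat_lit 156)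 (nat_lit 76) (nat_lit 0) (XT.nd (nat_lit 78) (nat_lit 0) (nat_lit 0) (XT.lf (nat_lit 0) (nat_lit 6689983129) (nat_lit 76) (nat_lit 5629249929) (nat_lit 152) (nat_lit 12266275916) (nat_lit 20) (nat_lit 5) (nat_lit 21) (nat_lit 5) (nat_lit 22) (nat_lit 4) (nat_lit 358) (nat_lit 238) (nat_lit 184)) (XT.lf (nat_lit 0) (nat_lit 15287512280) (nat_lit 76) (nat_lit 1333763407) (nat_lit 152) (nat_lit 8562512059) (nat_lit 20) (nat_lit 5) (nat_lit 21) (nat_lit 5) (nat_lit 22) (nat_lit 4) (nat_lit 359) (nat_lit 238) (nat_lit 183))) (XT.nd (nat_lit 78) (nat_lit 76) (nat_lit 0) (XT.lf (nat_lit 0) (nat_lit 21043476305) (nat_lit 152) (nat_lit 1757363673) (nat_lit 0) (nat_lit 2999452293) (nat_lit 20) (nat_lit 5) (nat_lit 22) (nat_lit 4) (nat_lit 20) (nat_lit 4) (nat_lit 360) (nat_lit 238) (nat_lit 182)) (XT.lf (nat_lit 0) (nat_lit 6674196559) (nat_lit 76) (nat_lit 18964021127) (nat_lit 76) (nat_lit 795887996) (nat_lit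 19) (nat_lit 4) (nat_lit 20) (nat_lit 5) (nat_lit 20) (nat_lit 4) (nat_lit 361) (nat_lit 238) (nat_lit 181))))))))
noncomputable def xc53 : XT := (XT.nd (nat_lit 2184) (nat_lit 304) (nat_lit 0) (XT.nd (nat_lit 1092) (nat_lit 304) (nat_lit 0) (XT.nd (nat_lit 546) (nat_lit 228) (nat_lit 0) (XT.nd (nat_lit 234) (nat_lit 76) (nat_lit 0) (XT.nd (nat_lit 78) (nat_lit 76) (nat_lit 0) (XT.lf (nat_lit 0) (nat_lit 3200285110) (nat_lit 152) (nat_lit 11792048648) (nat_lit 76) (nat_lit 12094247237) (nat_lit 18) (nat_lit 5) (nat_lit 20) (nat_lit 5) (nat_lit 19) (nat_lit 4) (nat_lit 362) (nat_lit 238) (nat_lit 180)) (XT.nd (nat_lit 78) (nat_lit 76) (nat_lit 0) (XT.lf (nat_lit 0) (nat_lit 7264012630) (nat_lit 152) (nat_lit 3659666530) (nat_lit 76) (nat_lit 16835814174) (nat_lit 18) (nat_lit 5) (nat_lit 20) (nat_lit 5) (nat_lit 19) (nat_lit 4) (nat_lit 363) (nat_lit 238) (nat_lit 179)) (XT.lf (nat_lit 0) (nat_lit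 4744577553) (nat_lit 76) (nat_lit 6715406263) (nat_lit 152) (nat_lit 16992308151) (nat_lit 17) (nat_lit 5) (nat_lit 18) (nat_lit 5) (nat_lit 19) (nat_lit 4) (nat_lit 364) (nat_lit 238) (nat_lit 178)))) (XT.nd (nat_lit 156) (nat_lit 76) (nat_lit 0) (XT.nd (nat_lit 78) (nat_lit 0) (nat_lit 0) (XT.lf (nat_lit 0) (nat_lit 13411909491) (nat_lit 76) (nat_lit 2372015844) (nat_lit 152) (nat_lit 13381895106) (nat_lit 17) (nat_lit 5) (nat_lit 18) (nat_lit 5) (nat_lit 19) (nat_lit 4) (nat_lit 365) (nat_lit 238) (nat_lit 177)) (XT.lf (nat_lit 0) (nat_lit 20223666438) (nat_lit 152) (nat_lit 7644640598) (nat_lit 0) (nat_lit 2032873663) (nat_lit 17) (nat_lit 5) (nat_lit 19) (nat_lit 4) (nat_lit 17) (nat_lit 4) (nat_lit 366) (nat_lit 238) (nat_lit 176))) (XT.nd (nat_lit 78) (nat_lit 0) (nat_lit 0) (XT.lf (nat_lit 0) (nat_lit 635716399) (nat_lit 76) (nat_lit 24157352136) (nat_lit 76) (nat_lit 5865647290) (nat_lit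 16) (nat_lit 4) (nat_lit 17) (nat_lit 5) (nat_lit 17) (nat_lit 4) (nat_lit 367) (nat_lit 238) (nat_lit 175)) (XT.lf (nat_lit 0) (nat_lit 9260679597) (nat_lit 76) (nat_lit 20283324738) (nat_lit 76) (nat_lit 1893647007) (nat_lit 16) (nat_lit 4) (nat_lit 17) (nat_lit 5) (nat_lit 17) (nat_lit 4) (nat_lit 368) (nat_lit 238) (nat_lit 174))))) (XT.nd (nat_lit 234) (nat_lit 76) (nat_lit 0) (XT.nd (nat_lit 78) (nat_lit 76) (nat_lit 0) (XT.lf (nat_lit 0) (nat_lit 2122519093) (nat_lit 152) (nat_lit 14176083277) (nat_lit 76) (nat_lit 15941689659) (nat_lit 15) (nat_lit 5) (nat_lit 17) (nat_lit 5) (nat_lit 16) (nat_lit 4) (nat_lit 369) (nat_lit 238) (nat_lit 173)) (XT.nd (nat_lit 78) (nat_lit 76) (nat_lit 0) (XT.lf (nat_lit 0) (nat_lit 6189932280) (nat_lit 152) (nat_lit 6011583347) (nat_lit 76) (nat_lit 20865876381) (nat_lit 15) (nat_lit 5) (nat_lit 17) (nat_lit 5) (nat_lit 16) (nat_lit 4) (nat_lit 370) (nat_lit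 238) (nat_lit 172)) (XT.lf (nat_lit 0) (nat_lit 2388472669) (nat_lit 76) (nat_lit 7983585269) (nat_lit 152) (nat_lit 23547473356) (nat_lit 14) (nat_lit 5) (nat_lit 15) (nat_lit 5) (nat_lit 16) (nat_lit 4) (nat_lit 371) (nat_lit 238) (nat_lit 171)))) (XT.nd (nat_lit 156) (nat_lit 76) (nat_lit 0) (XT.nd (nat_lit 78) (nat_lit 0) (nat_lit 0) (XT.lf (nat_lit 0) (nat_lit 11108324205) (nat_lit 76) (nat_lit 3602107711) (nat_lit 152) (nat_lit 20085886109) (nat_lit 14) (nat_lit 5) (nat_lit 15) (nat_lit 5) (nat_lit 16) (nat_lit 4) (nat_lit 372) (nat_lit 238) (nat_lit 170)) (XT.lf (nat_lit 0) (nat_lit 19158425097) (nat_lit 152) (nat_lit 15672855350) (nat_lit 0) (nat_lit 868750478) (nat_lit 14) (nat_lit 5) (nat_lit 16) (nat_lit 4) (nat_lit 14) (nat_lit 4) (nat_lit 373) (nat_lit 238) (nat_lit 169))) (XT.nd (nat_lit 78) (nat_lit 76) (nat_lit 0) (XT.lf (nat_lit 0) (nat_lit 23747088214) (nat_lit 152) (nat_lit 7505803832)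 (nat_lit 0) (nat_lit 5377752673) (nat_lit 14) (nat_lit 5) (nat_lit 16) (nat_lit 4) (nat_lit 14) (nat_lit 4) (nat_lit 374) (nat_lit 238) (nat_lit 168)) (XT.lf (nat_lit 0) (nat_lit 871937289) (nat_lit 76) (nat_lit 27582249421) (nat_lit 76) (nat_lit 9135573180) (nat_lit 13) (nat_lit 4) (nat_lit 14) (nat_lit 5) (nat_lit 14) (nat_lit 4) (nat_lit 375) (nat_lit 238) (nat_lit 167)))))) (XT.nd (nat_lit 546) (nat_lit 152) (nat_lit 0) (XT.nd (nat_lit 234) (nat_lit 76) (nat_lit 0) (XT.nd (nat_lit 78) (nat_lit 76) (nat_lit 0) (XT.lf (nat_lit 0) (nat_lit 9604038988) (nat_lit 76) (nat_lit 23746962388) (nat_lit 76) (nat_lit 5225198089) (nat_lit 13) (nat_lit 4) (nat_lit 14) (nat_lit 5) (nat_lit 14) (nat_lit 4) (nat_lit 376) (nat_lit 238) (nat_lit 166)) (XT.nd (nat_lit 78) (nat_lit 76) (nat_lit 0) (XT.lf (nat_lit 0) (nat_lit 18548751041) (nat_lit 76) (nat_lit 19819473628) (nat_lit 76) (nat_lit 1224808302) (nat_lit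 13) (nat_lit 4) (nat_lit 14) (nat_lit 5) (nat_lit 14) (nat_lit 4) (nat_lit 377) (nat_lit 238) (nat_lit 165)) (XT.lf (nat_lit 0) (nat_lit 2813105355) (nat_lit 152) (nat_lit 12954839151) (nat_lit 76) (nat_lit 24872377012) (nat_lit 12) (nat_lit 5) (nat_lit 14) (nat_lit 5) (nat_lit 13) (nat_lit 4) (nat_lit 378) (nat_lit 238) (nat_lit 164)))) (XT.nd (nat_lit 156) (nat_lit 0) (nat_lit 0) (XT.nd (nat_lit 78) (nat_lit 76) (nat_lit 0) (XT.lf (nat_lit 0) (nat_lit 6922311443) (nat_lit 152) (nat_lit 4681867003) (nat_lit 76) (nat_lit 30115248670) (nat_lit 12) (nat_lit 5) (nat_lit 14) (nat_lit 5) (nat_lit 13) (nat_lit 4) (nat_lit 379) (nat_lit 238) (nat_lit 163)) (XT.lf (nat_lit 0) (nat_lit 3869137746) (nat_lit 76) (nat_lit 7298355725) (nat_lit 152) (nat_lit 31663036632) (nat_lit 11) (nat_lit 5) (nat_lit 12) (nat_lit 5) (nat_lit 13) (nat_lit 4) (nat_lit 380) (nat_lit 238) (nat_lit 162))) (XT.nd (nat_lit 78) (nat_lit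 0) (nat_lit 0) (XT.lf (nat_lit 0) (nat_lit 12727436565) (nat_lit 76) (nat_lit 2835658107) (nat_lit 152) (nat_lit 28411184659) (nat_lit 11) (nat_lit 5) (nat_lit 12) (nat_lit 5) (nat_lit 13) (nat_lit 4) (nat_lit 381) (nat_lit 238) (nat_lit 161)) (XT.lf (nat_lit 0) (nat_lit 20083786304) (nat_lit 152) (nat_lit 23362190928) (nat_lit 0) (nat_lit 1706572045) (nat_lit 11) (nat_lit 5) (nat_lit 13) (nat_lit 4) (nat_lit 11) (nat_lit 4) (nat_lit 382) (nat_lit 238) (nat_lit 160))))) (XT.nd (nat_lit 234) (nat_lit 76) (nat_lit 0) (XT.nd (nat_lit 78) (nat_lit 76) (nat_lit 0) (XT.lf (nat_lit 0) (nat_lit 24745160286) (nat_lit 152) (nat_lit 15312189143) (nat_lit 0) (nat_lit 6308670820) (nat_lit 11) (nat_lit 5) (nat_lit 13) (nat_lit 4) (nat_lit 11) (nat_lit 4) (nat_lit 383) (nat_lit 238) (nat_lit 159)) (XT.nd (nat_lit 78) (nat_lit 76) (nat_lit 0) (XT.lf (nat_lit 0) (nat_lit 29524031581) (nat_lit 152) (nat_lit 7062545346)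 (nat_lit 0) (nat_lit 11029993371) (nat_lit 11) (nat_lit 5) (nat_lit 13) (nat_lit 4) (nat_lit 11) (nat_lit 4) (nat_lit 384) (nat_lit 238) (nat_lit 158)) (XT.lf (nat_lit 0) (nat_lit 1421691203) (nat_lit 76) (nat_lit 33016550865) (nat_lit 76) (nat_lit 14466640088) (nat_lit 10) (nat_lit 4) (nat_lit 11) (nat_lit 5) (nat_lit 11) (nat_lit 4) (nat_lit 385) (nat_lit 238) (nat_lit 157)))) (XT.nd (nat_lit 156) (nat_lit 76) (nat_lit 0) (XT.nd (nat_lit 78) (nat_lit 0) (nat_lit 0) (XT.lf (nat_lit 0) (nat_lit 10264989649) (nat_lit 76) (nat_lit 29284758991) (nat_lit 76) (nat_lit 10680603003) (nat_lit 10) (nat_lit 4) (nat_lit 11) (nat_lit 5) (nat_lit 11) (nat_lit 4) (nat_lit 386) (nat_lit 238) (nat_lit 156)) (XT.lf (nat_lit 0) (nat_lit 19334518645) (nat_lit 76) (nat_lit 25459258377) (nat_lit 76) (nat_lit 6802437135) (nat_lit 10) (nat_lit 4) (nat_lit 11) (nat_lit 5) (nat_lit 11) (nat_lit 4) (nat_lit 387) (nat_lit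 238) (nat_lit 155))) (XT.nd (nat_lit 78) (nat_lit 76) (nat_lit 0) (XT.lf (nat_lit 0) (nat_lit 28638203022) (nat_lit 76) (nat_lit 21536706352) (nat_lit 76) (nat_lit 2828753796) (nat_lit 10) (nat_lit 4) (nat_lit 11) (nat_lit 5) (nat_lit 11) (nat_lit 4) (nat_lit 388) (nat_lit 238) (nat_lit 154)) (XT.lf (nat_lit 0) (nat_lit 1219645821) (nat_lit 152) (nat_lit 16281713591) (nat_lit 76) (nat_lit 36952210360) (nat_lit 9) (nat_lit 5) (nat_lit 11) (nat_lit 5) (nat_lit 10) (nat_lit 4) (nat_lit 389) (nat_lit 238) (nat_lit 153))))))) (XT.nd (nat_lit 1092) (nat_lit 152) (nat_lit 0) (XT.nd (nat_lit 546) (nat_lit 76) (nat_lit 0) (XT.nd (nat_lit 234) (nat_lit 0) (nat_lit 0) (XT.nd (nat_lit 78) (nat_lit 76) (nat_lit 0) (XT.lf (nat_lit 0) (nat_lit 5313393445) (nat_lit 152) (nat_lit 8019602080) (nat_lit 76) (nat_lit 42613719053) (nat_lit 9) (nat_lit 5) (nat_lit 11) (nat_lit 5) (nat_lit 10) (nat_lit 4) (nat_lit 390)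 (nat_lit 238) (nat_lit 152)) (XT.nd (nat_lit 78) (nat_lit 0) (nat_lit 0) (XT.lf (nat_lit 0) (nat_lit 464346488) (nat_lit 76) (nat_lit 9051382407) (nat_lit 152) (nat_lit 47969355230) (nat_lit 8) (nat_lit 5) (nat_lit 9) (nat_lit 5) (nat_lit 10) (nat_lit 4) (nat_lit 391) (nat_lit 238) (nat_lit 151)) (XT.lf (nat_lit 0) (nat_lit 9332464128) (nat_lit 76) (nat_lit 4574174694) (nat_lit 152) (nat_lit 45161094356) (nat_lit 8) (nat_lit 5) (nat_lit 9) (nat_lit 5) (nat_lit 10) (nat_lit 4) (nat_lit 392) (nat_lit 238) (nat_lit 150)))) (XT.nd (nat_lit 156) (nat_lit 0) (nat_lit 0) (XT.nd (nat_lit 78) (nat_lit 0) (nat_lit 0) (XT.lf (nat_lit 0) (nat_lit 18411543615) (nat_lit 152) (nat_lit 42265716688) (nat_lit 0) (nat_lit 21136818) (nat_lit 8) (nat_lit 5) (nat_lit 10) (nat_lit 4) (nat_lit 8) (nat_lit 4) (nat_lit 393) (nat_lit 238) (nat_lit 149)) (XT.lf (nat_lit 0) (nat_lit 23079319892) (nat_lit 152) (nat_lit 34650494051)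 (nat_lit 0) (nat_lit 4647338657) (nat_lit 8) (nat_lit 5) (nat_lit 10) (nat_lit 4) (nat_lit 8) (nat_lit 4) (nat_lit 394) (nat_lit 238) (nat_lit 148))) (XT.nd (nat_lit 78) (nat_lit 0) (nat_lit 0) (XT.lf (nat_lit 0) (nat_lit 27870076526) (nat_lit 152) (nat_lit 26838977295) (nat_lit 0) (nat_lit 9397731760) (nat_lit 8) (nat_lit 5) (nat_lit 10) (nat_lit 4) (nat_lit 8) (nat_lit 4) (nat_lit 395) (nat_lit 238) (nat_lit 147)) (XT.lf (nat_lit 0) (nat_lit 32787999616) (nat_lit 152) (nat_lit 18824340823) (nat_lit 0) (nat_lit 14276466954) (nat_lit 8) (nat_lit 5) (nat_lit 10) (nat_lit 4) (nat_lit 8) (nat_lit 4) (nat_lit 396) (nat_lit 238) (nat_lit 146))))) (XT.nd (nat_lit 234) (nat_lit 0) (nat_lit 0) (XT.nd (nat_lit 78) (nat_lit 76) (nat_lit 0) (XT.lf (nat_lit 0) (nat_lit 37837386375) (nat_lit 152) (nat_lit 10599581555) (nat_lit 0) (nat_lit 19287807214) (nat_lit 8) (nat_lit 5) (nat_lit 10) (nat_lit 4) (nat_lit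 8) (nat_lit 4) (nat_lit 397) (nat_lit 238) (nat_lit 145)) (XT.nd (nat_lit 78) (nat_lit 76) (nat_lit 0) (XT.lf (nat_lit 0) (nat_lit 43022648889) (nat_lit 152) (nat_lit 2157512808) (nat_lit 0) (nat_lit 24436131379) (nat_lit 8) (nat_lit 5) (nat_lit 10) (nat_lit 4) (nat_lit 8) (nat_lit 4) (nat_lit 398) (nat_lit 238) (nat_lit 144)) (XT.lf (nat_lit 0) (nat_lit 6638788661) (nat_lit 76) (nat_lit 41773345407) (nat_lit 76) (nat_lit 23150965422) (nat_lit 7) (nat_lit 4) (nat_lit 8) (nat_lit 5) (nat_lit 8) (nat_lit 4) (nat_lit 399) (nat_lit 238) (nat_lit 143)))) (XT.nd (nat_lit 156) (nat_lit 0) (nat_lit 0) (XT.nd (nat_lit 78) (nat_lit 0) (nat_lit 0) (XT.lf (nat_lit 0) (nat_lit 15714910212) (nat_lit 76) (nat_lit 38255198235) (nat_lit 76) (nat_lit 19598000314) (nat_lit 7) (nat_lit 4) (nat_lit 8) (nat_lit 5) (nat_lit 8) (nat_lit 4) (nat_lit 400) (nat_lit 238) (nat_lit 142)) (XT.lf (nat_lit 0) (nat_lit 25035843698)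 (nat_lit 76) (nat_lit 34644432722) (nat_lit 76) (nat_lit 15953430978) (nat_lit 7) (nat_lit 4) (nat_lit 8) (nat_lit 5) (nat_lit 8) (nat_lit 4) (nat_lit 401) (nat_lit 238) (nat_lit 141))) (XT.nd (nat_lit 78) (nat_lit 0) (nat_lit 0) (XT.lf (nat_lit 0) (nat_lit 34609733627) (nat_lit 76) (nat_lit 30937893830) (nat_lit 76) (nat_lit 12214072842) (nat_lit 7) (nat_lit 4) (nat_lit 8) (nat_lit 5) (nat_lit 8) (nat_lit 4) (nat_lit 402) (nat_lit 238) (nat_lit 140)) (XT.lf (nat_lit 0) (nat_lit 44444945532) (nat_lit 76) (nat_lit 27132342836) (nat_lit 76) (nat_lit 8376658503) (nat_lit 7) (nat_lit 4) (nat_lit 8) (nat_lit 5) (nat_lit 8) (nat_lit 4) (nat_lit 403) (nat_lit 238) (nat_lit 139)))))) (XT.nd (nat_lit 546) (nat_lit 0) (nat_lit 0) (XT.nd (nat_lit 234) (nat_lit 76) (nat_lit 0) (XT.nd (nat_lit 78) (nat_lit 76) (nat_lit 0) (XT.lf (nat_lit 0) (nat_lit 54550073287) (nat_lit 76) (nat_lit 23224454500) (nat_lit 76)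 (nat_lit 4437834881) (nat_lit 7) (nat_lit 4) (nat_lit 8) (nat_lit 5) (nat_lit 8) (nat_lit 4) (nat_lit 404) (nat_lit 238) (nat_lit 138)) (XT.nd (nat_lit 78) (nat_lit 76) (nat_lit 0) (XT.lf (nat_lit 0) (nat_lit 64933946617) (nat_lit 76) (nat_lit 19210814163) (nat_lit 76) (nat_lit 394160286) (nat_lit 7) (nat_lit 4) (nat_lit 8) (nat_lit 5) (nat_lit 8) (nat_lit 4) (nat_lit 405) (nat_lit 238) (nat_lit 137)) (XT.lf (nat_lit 0) (nat_lit 3684568452) (nat_lit 152) (nat_lit 11366139393) (nat_lit 76) (nat_lit 71883863440) (nat_lit 6) (nat_lit 5) (nat_lit 8) (nat_lit 5) (nat_lit 7) (nat_lit 4) (nat_lit 406) (nat_lit 238) (nat_lit 136)))) (XT.nd (nat_lit 156) (nat_lit 0) (nat_lit 0) (XT.nd (nat_lit 78) (nat_lit 76) (nat_lit 0) (XT.lf (nat_lit 0) (nat_lit 7865432234) (nat_lit 152) (nat_lit 2907296084) (nat_lit 76) (nat_lit 78629616964) (nat_lit 6) (nat_lit 5) (nat_lit 8) (nat_lit 5) (nat_lit 7) (nat_lit 4) (nat_lit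 407) (nat_lit 238) (nat_lit 135)) (XT.lf (nat_lit 0) (nat_lit 5897823386) (nat_lit 76) (nat_lit 6318645829) (nat_lit 152) (nat_lit 79726343014) (nat_lit 5) (nat_lit 5) (nat_lit 6) (nat_lit 5) (nat_lit 7) (nat_lit 4) (nat_lit 408) (nat_lit 238) (nat_lit 134))) (XT.nd (nat_lit 78) (nat_lit 0) (nat_lit 0) (XT.lf (nat_lit 0) (nat_lit 15004337587) (nat_lit 76) (nat_lit 1711244559) (nat_lit 152) (nat_lit 77843386779) (nat_lit 5) (nat_lit 5) (nat_lit 6) (nat_lit 5) (nat_lit 7) (nat_lit 4) (nat_lit 409) (nat_lit 238) (nat_lit 133)) (XT.lf (nat_lit 0) (nat_lit 21367269305) (nat_lit 152) (nat_lit 72920683561) (nat_lit 0) (nat_lit 2965131455) (nat_lit 5) (nat_lit 5) (nat_lit 7) (nat_lit 4) (nat_lit 5) (nat_lit 4) (nat_lit 410) (nat_lit 238) (nat_lit 132))))) (XT.nd (nat_lit 32292) (nat_lit 0) (nat_lit 7448) (XT.nd (nat_lit 32136) (nat_lit 0) (nat_lit 8664) (XT.nd (nat_lit 78) (nat_lit 0) (nat_lit 0) (XT.lf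 (nat_lit 0) (nat_lit 26164219545) (nat_lit 152) (nat_lit 66125973132) (nat_lit 0) (nat_lit 7737661095) (nat_lit 5) (nat_lit 5) (nat_lit 7) (nat_lit 4) (nat_lit 5) (nat_lit 4) (nat_lit 411) (nat_lit 238) (nat_lit 131)) (XT.lf (nat_lit 0) (nat_lit 31094174846) (nat_lit 152) (nat_lit 59148113395) (nat_lit 0) (nat_lit 12643907076) (nat_lit 5) (nat_lit 5) (nat_lit 7) (nat_lit 4) (nat_lit 5) (nat_lit 4) (nat_lit 412) (nat_lit 238) (nat_lit 130))) (XT.nd (nat_lit 78) (nat_lit 380) (nat_lit 0) (XT.lf (nat_lit 0) (nat_lit 1868043234) (nat_lit 456) (nat_lit 526686767) (nat_lit 0) (nat_lit 1868043234) (nat_lit 124) (nat_lit 5) (nat_lit 130) (nat_lit 4) (nat_lit 124) (nat_lit 4) (nat_lit 302) (nat_lit 239) (nat_lit 239)) (XT.lf (nat_lit 0) (nat_lit 5336597741) (nat_lit 380) (nat_lit 2185385524) (nat_lit 380) (nat_lit 1111591214) (nat_lit 119) (nat_lit 4) (nat_lit 124) (nat_lit 5) (nat_lit 124) (nat_lit 4) (nat_lit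 303) (nat_lit 239) (nat_lit 238)))) (XT.nd (nat_lit 156) (nat_lit 380) (nat_lit 0) (XT.nd (nat_lit 78) (nat_lit 380) (nat_lit 0) (XT.lf (nat_lit 0) (nat_lit 2576514215) (nat_lit 456) (nat_lit 5647233449) (nat_lit 0) (nat_lit 521841343) (nat_lit 113) (nat_lit 5) (nat_lit 119) (nat_lit 4) (nat_lit 113) (nat_lit 4) (nat_lit 304) (nat_lit 239) (nat_lit 237)) (XT.lf (nat_lit 0) (nat_lit 747049895) (nat_lit 380) (nat_lit 5575953656) (nat_lit 380) (nat_lit 2538606878) (nat_lit 108) (nat_lit 4) (nat_lit 113) (nat_lit 5) (nat_lit 113) (nat_lit 4) (nat_lit 305) (nat_lit 239) (nat_lit 236))) (XT.nd (nat_lit 78) (nat_lit 304) (nat_lit 0) (XT.lf (nat_lit 0) (nat_lit 1143074833) (nat_lit 456) (nat_lit 1670957202) (nat_lit 76) (nat_lit 6167836817) (nat_lit 107) (nat_lit 5) (nat_lit 113) (nat_lit 5) (nat_lit 108) (nat_lit 4) (nat_lit 306) (nat_lit 239) (nat_lit 235)) (XT.lf (nat_lit 0) (nat_lit 4842888297) (nat_lit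 380) (nat_lit 4194946248) (nat_lit 0) (nat_lit 68457696) (nat_lit 103) (nat_lit 5) (nat_lit 108) (nat_lit 4) (nat_lit 103) (nat_lit 4) (nat_lit 307) (nat_lit 239) (nat_lit 234))))))))
noncomputable def xc54 : XT := (XT.nd (nat_lit 2184) (nat_lit 1748) (nat_lit 0) (XT.nd (nat_lit 1092) (nat_lit 1748) (nat_lit 0) (XT.nd (nat_lit 546) (nat_lit 1292) (nat_lit 0) (XT.nd (nat_lit 234) (nat_lit 988) (nat_lit 0) (XT.nd (nat_lit 78) (nat_lit 380) (nat_lit 0) (XT.lf (nat_lit 0) (nat_lit 2384150998) (nat_lit 304) (nat_lit 6249250059) (nat_lit 304) (nat_lit 601726420) (nat_lit 99) (nat_lit 4) (nat_lit 103) (nat_lit 5) (nat_lit 103) (nat_lit 4) (nat_lit 308) (nat_lit 239) (nat_lit 233)) (XT.nd (nat_lit 78) (nat_lit 304) (nat_lit 0) (XT.lf (nat_lit 0) (nat_lit 3063055677) (nat_lit 380) (nat_lit 277183758) (nat_lit 76) (nat_lit 6028087232) (nat_lit 98) (nat_lit 5) (nat_lit 103) (nat_lit 5) (nat_lit 99) (nat_lit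 4) (nat_lit 309) (nat_lit 239) (nat_lit 232)) (XT.lf (nat_lit 0) (nat_lit 6491874251) (nat_lit 304) (nat_lit 311098636) (nat_lit 380) (nat_lit 2703115970) (nat_lit 94) (nat_lit 5) (nat_lit 98) (nat_lit 5) (nat_lit 99) (nat_lit 4) (nat_lit 310) (nat_lit 239) (nat_lit 231)))) (XT.nd (nat_lit 156) (nat_lit 380) (nat_lit 0) (XT.nd (nat_lit 78) (nat_lit 228) (nat_lit 0) (XT.lf (nat_lit 0) (nat_lit 968858647) (nat_lit 380) (nat_lit 5913959198) (nat_lit 76) (nat_lit 2765494056) (nat_lit 89) (nat_lit 5) (nat_lit 94) (nat_lit 5) (nat_lit 90) (nat_lit 4) (nat_lit 311) (nat_lit 239) (nat_lit 230)) (XT.lf (nat_lit 0) (nat_lit 814836087) (nat_lit 228) (nat_lit 3839703846) (nat_lit 304) (nat_lit 5140781346) (nat_lit 86) (nat_lit 5) (nat_lit 89) (nat_lit 5) (nat_lit 90) (nat_lit 4) (nat_lit 312) (nat_lit 239) (nat_lit 229))) (XT.nd (nat_lit 78) (nat_lit 380) (nat_lit 0) (XT.lf (nat_lit 0) (nat_lit 7743747012)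 (nat_lit 228) (nat_lit 684247404) (nat_lit 304) (nat_lit 1519487592) (nat_lit 86) (nat_lit 5) (nat_lit 89) (nat_lit 5) (nat_lit 90) (nat_lit 4) (nat_lit 313) (nat_lit 239) (nat_lit 228)) (XT.lf (nat_lit 0) (nat_lit 2156721292) (nat_lit 380) (nat_lit 5403395766) (nat_lit 76) (nat_lit 2543824625) (nat_lit 81) (nat_lit 5) (nat_lit 86) (nat_lit 5) (nat_lit 82) (nat_lit 4) (nat_lit 314) (nat_lit 239) (nat_lit 227))))) (XT.nd (nat_lit 234) (nat_lit 760) (nat_lit 0) (XT.nd (nat_lit 78) (nat_lit 304) (nat_lit 0) (XT.lf (nat_lit 0) (nat_lit 1477560910) (nat_lit 228) (nat_lit 4398426289) (nat_lit 304) (nat_lit 4389809592) (nat_lit 78) (nat_lit 5) (nat_lit 81) (nat_lit 5) (nat_lit 82) (nat_lit 4) (nat_lit 315) (nat_lit 239) (nat_lit 226)) (XT.nd (nat_lit 78) (nat_lit 304) (nat_lit 0) (XT.lf (nat_lit 0) (nat_lit 8554971783) (nat_lit 228) (nat_lit 1127455854) (nat_lit 304) (nat_lit 750862797) (nat_lit 78) (nat_lit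 5) (nat_lit 81) (nat_lit 5) (nat_lit 82) (nat_lit 4) (nat_lit 316) (nat_lit 239) (nat_lit 225)) (XT.lf (nat_lit 0) (nat_lit 2933135252) (nat_lit 304) (nat_lit 5435150300) (nat_lit 76) (nat_lit 2236875754) (nat_lit 74) (nat_lit 5) (nat_lit 78) (nat_lit 5) (nat_lit 75) (nat_lit 4) (nat_lit 317) (nat_lit 239) (nat_lit 224)))) (XT.nd (nat_lit 156) (nat_lit 532) (nat_lit 0) (XT.nd (nat_lit 78) (nat_lit 0) (nat_lit 0) (XT.lf (nat_lit 0) (nat_lit 1579117166) (nat_lit 228) (nat_lit 5102196086) (nat_lit 304) (nat_lit 4101635947) (nat_lit 71) (nat_lit 5) (nat_lit 74) (nat_lit 5) (nat_lit 75) (nat_lit 4) (nat_lit 318) (nat_lit 239) (nat_lit 223)) (XT.lf (nat_lit 0) (nat_lit 8796813285) (nat_lit 228) (nat_lit 1724358821) (nat_lit 304) (nat_lit 445566674) (nat_lit 71) (nat_lit 5) (nat_lit 74) (nat_lit 5) (nat_lit 75) (nat_lit 4) (nat_lit 319) (nat_lit 239) (nat_lit 222))) (XT.nd (nat_lit 78) (nat_lit 228) (nat_lit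 0) (XT.lf (nat_lit 0) (nat_lit 3246736508) (nat_lit 304) (nat_lit 6148514489) (nat_lit 76) (nat_lit 1760135891) (nat_lit 67) (nat_lit 5) (nat_lit 71) (nat_lit 5) (nat_lit 68) (nat_lit 4) (nat_lit 320) (nat_lit 239) (nat_lit 221)) (XT.lf (nat_lit 0) (nat_lit 974560407) (nat_lit 228) (nat_lit 6041294595) (nat_lit 304) (nat_lit 4334498329) (nat_lit 64) (nat_lit 5) (nat_lit 67) (nat_lit 5) (nat_lit 68) (nat_lit 4) (nat_lit 321) (nat_lit 239) (nat_lit 220)))))) (XT.nd (nat_lit 546) (nat_lit 836) (nat_lit 0) (XT.nd (nat_lit 234) (nat_lit 608) (nat_lit 0) (XT.nd (nat_lit 78) (nat_lit 304) (nat_lit 0) (XT.lf (nat_lit 0) (nat_lit 8321340921) (nat_lit 228) (nat_lit 2566253321) (nat_lit 304) (nat_lit 663928196) (nat_lit 64) (nat_lit 5) (nat_lit 67) (nat_lit 5) (nat_lit 68) (nat_lit 4) (nat_lit 322) (nat_lit 239) (nat_lit 219)) (XT.nd (nat_lit 78) (nat_lit 0) (nat_lit 0) (XT.lf (nat_lit 0) (nat_lit 3033861079)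 (nat_lit 304) (nat_lit 7703774777) (nat_lit 76) (nat_lit 1020892103) (nat_lit 60) (nat_lit 5) (nat_lit 64) (nat_lit 5) (nat_lit 61) (nat_lit 4) (nat_lit 323) (nat_lit 239) (nat_lit 218)) (XT.lf (nat_lit 0) (nat_lit 6817001471) (nat_lit 304) (nat_lit 493330310) (nat_lit 76) (nat_lit 4661618490) (nat_lit 60) (nat_lit 5) (nat_lit 64) (nat_lit 5) (nat_lit 61) (nat_lit 4) (nat_lit 324) (nat_lit 239) (nat_lit 217)))) (XT.nd (nat_lit 156) (nat_lit 152) (nat_lit 0) (XT.nd (nat_lit 78) (nat_lit 304) (nat_lit 0) (XT.lf (nat_lit 0) (nat_lit 6957829170) (nat_lit 152) (nat_lit 3754157617) (nat_lit 228) (nat_lit 1479873561) (nat_lit 58) (nat_lit 5) (nat_lit 60) (nat_lit 5) (nat_lit 61) (nat_lit 4) (nat_lit 325) (nat_lit 239) (nat_lit 216)) (XT.lf (nat_lit 0) (nat_lit 2132141324) (nat_lit 228) (nat_lit 85551983) (nat_lit 304) (nat_lit 10201326335) (nat_lit 54) (nat_lit 5) (nat_lit 57) (nat_lit 5) (nat_lit 58)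 (nat_lit 5) (nat_lit 326) (nat_lit 239) (nat_lit 215))) (XT.nd (nat_lit 78) (nat_lit 152) (nat_lit 0) (XT.lf (nat_lit 0) (nat_lit 6017532106) (nat_lit 304) (nat_lit 2987707850) (nat_lit 76) (nat_lit 3646714118) (nat_lit 54) (nat_lit 5) (nat_lit 58) (nat_lit 5) (nat_lit 55) (nat_lit 4) (nat_lit 327) (nat_lit 239) (nat_lit 214)) (XT.lf (nat_lit 0) (nat_lit 4508623286) (nat_lit 152) (nat_lit 5401115605) (nat_lit 228) (nat_lit 2982818107) (nat_lit 52) (nat_lit 5) (nat_lit 54) (nat_lit 5) (nat_lit 55) (nat_lit 4) (nat_lit 328) (nat_lit 239) (nat_lit 213))))) (XT.nd (nat_lit 234) (nat_lit 380) (nat_lit 0) (XT.nd (nat_lit 78) (nat_lit 380) (nat_lit 0) (XT.lf (nat_lit 0) (nat_lit 728007483) (nat_lit 228) (nat_lit 965378313) (nat_lit 76) (nat_lit 11447851737) (nat_lit 51) (nat_lit 5) (nat_lit 54) (nat_lit 5) (nat_lit 52) (nat_lit 5) (nat_lit 329) (nat_lit 239) (nat_lit 212)) (XT.nd (nat_lit 78) (nat_lit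 152) (nat_lit 0) (XT.lf (nat_lit 0) (nat_lit 4511581946) (nat_lit 304) (nat_lit 6747131625) (nat_lit 76) (nat_lit 2137166611) (nat_lit 48) (nat_lit 5) (nat_lit 52) (nat_lit 5) (nat_lit 49) (nat_lit 4) (nat_lit 330) (nat_lit 239) (nat_lit 211)) (XT.lf (nat_lit 0) (nat_lit 744379418) (nat_lit 152) (nat_lit 7634795540) (nat_lit 228) (nat_lit 5279899928) (nat_lit 46) (nat_lit 5) (nat_lit 48) (nat_lit 5) (nat_lit 49) (nat_lit 4) (nat_lit 331) (nat_lit 239) (nat_lit 210)))) (XT.nd (nat_lit 156) (nat_lit 152) (nat_lit 0) (XT.nd (nat_lit 78) (nat_lit 228) (nat_lit 0) (XT.lf (nat_lit 0) (nat_lit 8493487244) (nat_lit 152) (nat_lit 3875014718) (nat_lit 228) (nat_lit 1561519580) (nat_lit 46) (nat_lit 5) (nat_lit 48) (nat_lit 5) (nat_lit 49) (nat_lit 4) (nat_lit 332) (nat_lit 239) (nat_lit 209)) (XT.lf (nat_lit 0) (nat_lit 2183136240) (nat_lit 152) (nat_lit 762270) (nat_lit 228) (nat_lit 12025777119) (nat_lit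 43) (nat_lit 5) (nat_lit 45) (nat_lit 5) (nat_lit 46) (nat_lit 5) (nat_lit 333) (nat_lit 239) (nat_lit 208))) (XT.nd (nat_lit 78) (nat_lit 152) (nat_lit 0) (XT.lf (nat_lit 0) (nat_lit 6043244915) (nat_lit 228) (nat_lit 4511635240) (nat_lit 76) (nat_lit 3941411823) (nat_lit 43) (nat_lit 5) (nat_lit 46) (nat_lit 5) (nat_lit 44) (nat_lit 4) (nat_lit 334) (nat_lit 239) (nat_lit 207)) (XT.lf (nat_lit 0) (nat_lit 3189938567) (nat_lit 152) (nat_lit 6800033726) (nat_lit 228) (nat_lit 4802410760) (nat_lit 41) (nat_lit 5) (nat_lit 43) (nat_lit 5) (nat_lit 44) (nat_lit 4) (nat_lit 335) (nat_lit 239) (nat_lit 206))))))) (XT.nd (nat_lit 1092) (nat_lit 760) (nat_lit 0) (XT.nd (nat_lit 546) (nat_lit 380) (nat_lit 0) (XT.nd (nat_lit 234) (nat_lit 380) (nat_lit 0) (XT.nd (nat_lit 78) (nat_lit 228) (nat_lit 0) (XT.lf (nat_lit 0) (nat_lit 11115016943) (nat_lit 152) (nat_lit 2927331599) (nat_lit 228) (nat_lit 1055414454)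 (nat_lit 41) (nat_lit 5) (nat_lit 43) (nat_lit 5) (nat_lit 44) (nat_lit 4) (nat_lit 336) (nat_lit 239) (nat_lit 205)) (XT.nd (nat_lit 78) (nat_lit 0) (nat_lit 0) (XT.lf (nat_lit 0) (nat_lit 2739188714) (nat_lit 228) (nat_lit 11607817656) (nat_lit 76) (nat_lit 1064814162) (nat_lit 38) (nat_lit 5) (nat_lit 41) (nat_lit 5) (nat_lit 39) (nat_lit 4) (nat_lit 337) (nat_lit 239) (nat_lit 204)) (XT.lf (nat_lit 0) (nat_lit 6639158507) (nat_lit 228) (nat_lit 3966561199) (nat_lit 76) (nat_lit 5128905906) (nat_lit 38) (nat_lit 5) (nat_lit 41) (nat_lit 5) (nat_lit 39) (nat_lit 4) (nat_lit 338) (nat_lit 239) (nat_lit 203)))) (XT.nd (nat_lit 156) (nat_lit 228) (nat_lit 0) (XT.nd (nat_lit 78) (nat_lit 0) (nat_lit 0) (XT.lf (nat_lit 0) (nat_lit 3883962584) (nat_lit 152) (nat_lit 6754297611) (nat_lit 228) (nat_lit 5429411587) (nat_lit 36) (nat_lit 5) (nat_lit 38) (nat_lit 5) (nat_lit 39) (nat_lit 4) (nat_lit 339)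 (nat_lit 239) (nat_lit 202)) (XT.lf (nat_lit 0) (nat_lit 11956491059) (nat_lit 152) (nat_lit 2786392491) (nat_lit 228) (nat_lit 1668279639) (nat_lit 36) (nat_lit 5) (nat_lit 38) (nat_lit 5) (nat_lit 39) (nat_lit 4) (nat_lit 340) (nat_lit 239) (nat_lit 201))) (XT.nd (nat_lit 78) (nat_lit 0) (nat_lit 0) (XT.lf (nat_lit 0) (nat_lit 2155097018) (nat_lit 228) (nat_lit 13318212116) (nat_lit 76) (nat_lit 1291259729) (nat_lit 33) (nat_lit 5) (nat_lit 36) (nat_lit 5) (nat_lit 34) (nat_lit 4) (nat_lit 341) (nat_lit 239) (nat_lit 200)) (XT.lf (nat_lit 0) (nat_lit 6079490937) (nat_lit 228) (nat_lit 5589498366) (nat_lit 76) (nat_lit 5458515059) (nat_lit 33) (nat_lit 5) (nat_lit 36) (nat_lit 5) (nat_lit 34) (nat_lit 4) (nat_lit 342) (nat_lit 239) (nat_lit 199))))) (XT.nd (nat_lit 234) (nat_lit 76) (nat_lit 0) (XT.nd (nat_lit 78) (nat_lit 228) (nat_lit 0) (XT.lf (nat_lit 0) (nat_lit 2325729057) (nat_lit 76) (nat_lit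 7766622444) (nat_lit 152) (nat_lit 7409872429) (nat_lit 32) (nat_lit 5) (nat_lit 33) (nat_lit 5) (nat_lit 34) (nat_lit 4) (nat_lit 343) (nat_lit 239) (nat_lit 198)) (XT.nd (nat_lit 78) (nat_lit 228) (nat_lit 0) (XT.lf (nat_lit 0) (nat_lit 10503150972) (nat_lit 76) (nat_lit 3727908308) (nat_lit 152) (nat_lit 3656979483) (nat_lit 32) (nat_lit 5) (nat_lit 33) (nat_lit 5) (nat_lit 34) (nat_lit 4) (nat_lit 344) (nat_lit 239) (nat_lit 197)) (XT.lf (nat_lit 0) (nat_lit 163680687) (nat_lit 228) (nat_lit 17729403408) (nat_lit 76) (nat_lit 393522862) (nat_lit 29) (nat_lit 5) (nat_lit 32) (nat_lit 5) (nat_lit 30) (nat_lit 4) (nat_lit 345) (nat_lit 239) (nat_lit 196)))) (XT.nd (nat_lit 156) (nat_lit 76) (nat_lit 0) (XT.nd (nat_lit 78) (nat_lit 0) (nat_lit 0) (XT.lf (nat_lit 0) (nat_lit 4087928202) (nat_lit 228) (nat_lit 9968314417) (nat_lit 76) (nat_lit 4637945304) (nat_lit 29) (nat_lit 5) (nat_lit 32) (nat_lit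 5) (nat_lit 30) (nat_lit 4) (nat_lit 346) (nat_lit 239) (nat_lit 195)) (XT.lf (nat_lit 0) (nat_lit 8081600221) (nat_lit 228) (nat_lit 2060318922) (nat_lit 76) (nat_lit 8973541831) (nat_lit 29) (nat_lit 5) (nat_lit 32) (nat_lit 5) (nat_lit 30) (nat_lit 4) (nat_lit 347) (nat_lit 239) (nat_lit 194))) (XT.nd (nat_lit 78) (nat_lit 0) (nat_lit 0) (XT.lf (nat_lit 0) (nat_lit 6120934454) (nat_lit 76) (nat_lit 6086090072) (nat_lit 152) (nat_lit 7342004538) (nat_lit 28) (nat_lit 5) (nat_lit 29) (nat_lit 5) (nat_lit 30) (nat_lit 4) (nat_lit 348) (nat_lit 239) (nat_lit 193)) (XT.lf (nat_lit 0) (nat_lit 14507254366) (nat_lit 76) (nat_lit 1923438185) (nat_lit 152) (nat_lit 3565691889) (nat_lit 28) (nat_lit 5) (nat_lit 29) (nat_lit 5) (nat_lit 30) (nat_lit 4) (nat_lit 349) (nat_lit 239) (nat_lit 192)))))) (XT.nd (nat_lit 546) (nat_lit 228) (nat_lit 0) (XT.nd (nat_lit 234) (nat_lit 304) (nat_lit 0) (XT.nd (nat_lit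 78) (nat_lit 0) (nat_lit 0) (XT.lf (nat_lit 0) (nat_lit 320348126) (nat_lit 228) (nat_lit 17824751499) (nat_lit 76) (nat_lit 2311898518) (nat_lit 25) (nat_lit 5) (nat_lit 28) (nat_lit 5) (nat_lit 26) (nat_lit 4) (nat_lit 350) (nat_lit 239) (nat_lit 191)) (XT.nd (nat_lit 78) (nat_lit 0) (nat_lit 0) (XT.lf (nat_lit 0) (nat_lit 4281101012) (nat_lit 228) (nat_lit 9956219187) (nat_lit 76) (nat_lit 6692170411) (nat_lit 25) (nat_lit 5) (nat_lit 28) (nat_lit 5) (nat_lit 26) (nat_lit 4) (nat_lit 351) (nat_lit 239) (nat_lit 190)) (XT.lf (nat_lit 0) (nat_lit 8316770024) (nat_lit 228) (nat_lit 1930603371) (nat_lit 76) (nat_lit 11170114687) (nat_lit 25) (nat_lit 5) (nat_lit 28) (nat_lit 5) (nat_lit 26) (nat_lit 4) (nat_lit 352) (nat_lit 239) (nat_lit 189)))) (XT.nd (nat_lit 156) (nat_lit 228) (nat_lit 0) (XT.nd (nat_lit 78) (nat_lit 0) (nat_lit 0) (XT.lf (nat_lit 0) (nat_lit 6383677157) (nat_lit 76) (nat_lit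 6108568127) (nat_lit 152) (nat_lit 9427330766) (nat_lit 24) (nat_lit 5) (nat_lit 25) (nat_lit 5) (nat_lit 26) (nat_lit 4) (nat_lit 353) (nat_lit 239) (nat_lit 188)) (XT.lf (nat_lit 0) (nat_lit 14911040973) (nat_lit 76) (nat_lit 1859323295) (nat_lit 152) (nat_lit 5667053295) (nat_lit 24) (nat_lit 5) (nat_lit 25) (nat_lit 5) (nat_lit 26) (nat_lit 4) (nat_lit 354) (nat_lit 239) (nat_lit 187))) (XT.nd (nat_lit 78) (nat_lit 76) (nat_lit 0) (XT.lf (nat_lit 0) (nat_lit 637030926) (nat_lit 152) (nat_lit 20528913545) (nat_lit 152) (nat_lit 1805188250) (nat_lit 22) (nat_lit 4) (nat_lit 24) (nat_lit 5) (nat_lit 24) (nat_lit 4) (nat_lit 355) (nat_lit 239) (nat_lit 186)) (XT.lf (nat_lit 0) (nat_lit 2184172710) (nat_lit 228) (nat_lit 14433731177) (nat_lit 76) (nat_lit 6900719165) (nat_lit 21) (nat_lit 5) (nat_lit 24) (nat_lit 5) (nat_lit 22) (nat_lit 4) (nat_lit 356) (nat_lit 239) (nat_lit 185))))) (XT.nd (nat_lit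 312) (nat_lit 152) (nat_lit 0) (XT.nd (nat_lit 156) (nat_lit 0) (nat_lit 0) (XT.nd (nat_lit 78) (nat_lit 76) (nat_lit 0) (XT.lf (nat_lit 0) (nat_lit 6217000571) (nat_lit 228) (nat_lit 6386776527) (nat_lit 76) (nat_lit 11479433660) (nat_lit 21) (nat_lit 5) (nat_lit 24) (nat_lit 5) (nat_lit 22) (nat_lit 4) (nat_lit 357) (nat_lit 239) (nat_lit 184)) (XT.lf (nat_lit 0) (nat_lit 1867589441) (nat_lit 76) (nat_lit 8482407856) (nat_lit 152) (nat_lit 14315373879) (nat_lit 20) (nat_lit 5) (nat_lit 21) (nat_lit 5) (nat_lit 22) (nat_lit 4) (nat_lit 358) (nat_lit 239) (nat_lit 183))) (XT.nd (nat_lit 78) (nat_lit 0) (nat_lit 0) (XT.lf (nat_lit 0) (nat_lit 10430758927) (nat_lit 76) (nat_lit 4202409233) (nat_lit 152) (nat_lit 10631053011) (nat_lit 20) (nat_lit 5) (nat_lit 21) (nat_lit 5) (nat_lit 22) (nat_lit 4) (nat_lit 359) (nat_lit 239) (nat_lit 182)) (XT.lf (nat_lit 0) (nat_lit 19009326952) (nat_lit 152) (nat_lit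 6700744213) (nat_lit 0) (nat_lit 172040708) (nat_lit 20) (nat_lit 5) (nat_lit 22) (nat_lit 4) (nat_lit 20) (nat_lit 4) (nat_lit 360) (nat_lit 239) (nat_lit 181)))) (XT.nd (nat_lit 156) (nat_lit 0) (nat_lit 0) (XT.nd (nat_lit 78) (nat_lit 76) (nat_lit 0) (XT.lf (nat_lit 0) (nat_lit 1598995182) (nat_lit 76) (nat_lit 21938358428) (nat_lit 76) (nat_lit 2980577893) (nat_lit 19) (nat_lit 4) (nat_lit 20) (nat_lit 5) (nat_lit 20) (nat_lit 4) (nat_lit 361) (nat_lit 239) (nat_lit 180)) (XT.lf (nat_lit 0) (nat_lit 1040327751) (nat_lit 152) (nat_lit 16962899947) (nat_lit 76) (nat_lit 9168350598) (nat_lit 18) (nat_lit 5) (nat_lit 20) (nat_lit 5) (nat_lit 19) (nat_lit 4) (nat_lit 362) (nat_lit 239) (nat_lit 179))) (XT.nd (nat_lit 78) (nat_lit 0) (nat_lit 0) (XT.lf (nat_lit 0) (nat_lit 5086677961) (nat_lit 152) (nat_lit 8862386447) (nat_lit 76) (nat_lit 13895951921) (nat_lit 18) (nat_lit 5) (nat_lit 20) (nat_lit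 5) (nat_lit 19) (nat_lit 4) (nat_lit 363) (nat_lit 239) (nat_lit 178)) (XT.lf (nat_lit 0) (nat_lit 9220170191) (nat_lit 152) (nat_lit 581666565) (nat_lit 76) (nat_lit 18737856820) (nat_lit 18) (nat_lit 5) (nat_lit 20) (nat_lit 5) (nat_lit 19) (nat_lit 4) (nat_lit 364) (nat_lit 239) (nat_lit 177))))))))
noncomputable def xc55 : XT := (XT.nd (nat_lit 2184) (nat_lit 228) (nat_lit 0) (XT.nd (nat_lit 1092) (nat_lit 304) (nat_lit 0) (XT.nd (nat_lit 546) (nat_lit 228) (nat_lit 0) (XT.nd (nat_lit 234) (nat_lit 152) (nat_lit 0) (XT.nd (nat_lit 78) (nat_lit 0) (nat_lit 0) (XT.lf (nat_lit 0) (nat_lit 8043451998) (nat_lit 76) (nat_lit 5478282814) (nat_lit 152) (nat_lit 15732162668) (nat_lit 17) (nat_lit 5) (nat_lit 18) (nat_lit 5) (nat_lit 19) (nat_lit 4) (nat_lit 365) (nat_lit 239) (nat_lit 176)) (XT.nd (nat_lit 78) (nat_lit 0) (nat_lit 0) (XT.lf (nat_lit 0) (nat_lit 16878865920) (nat_lit 76) (nat_lit 1046491235)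 (nat_lit 152) (nat_lit 12064988147) (nat_lit 17) (nat_lit 5) (nat_lit 18) (nat_lit 5) (nat_lit 19) (nat_lit 4) (nat_lit 366) (nat_lit 239) (nat_lit 175)) (XT.lf (nat_lit 0) (nat_lit 22462745218) (nat_lit 152) (nat_lit 4862695247) (nat_lit 0) (nat_lit 3423404269) (nat_lit 17) (nat_lit 5) (nat_lit 19) (nat_lit 4) (nat_lit 17) (nat_lit 4) (nat_lit 367) (nat_lit 239) (nat_lit 174)))) (XT.nd (nat_lit 156) (nat_lit 76) (nat_lit 0) (XT.nd (nat_lit 78) (nat_lit 0) (nat_lit 0) (XT.lf (nat_lit 0) (nat_lit 3636550062) (nat_lit 76) (nat_lit 23513797116) (nat_lit 76) (nat_lit 4379336861) (nat_lit 16) (nat_lit 4) (nat_lit 17) (nat_lit 5) (nat_lit 17) (nat_lit 4) (nat_lit 368) (nat_lit 239) (nat_lit 173)) (XT.lf (nat_lit 0) (nat_lit 12433414714) (nat_lit 76) (nat_lit 19563401583) (nat_lit 76) (nat_lit 336592488) (nat_lit 16) (nat_lit 4) (nat_lit 17) (nat_lit 5) (nat_lit 17) (nat_lit 4) (nat_lit 369) (nat_lit 239)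 (nat_lit 172))) (XT.nd (nat_lit 78) (nat_lit 0) (nat_lit 0) (XT.lf (nat_lit 0) (nat_lit 3722477803) (nat_lit 152) (nat_lit 11759838222) (nat_lit 76) (nat_lit 17678740589) (nat_lit 15) (nat_lit 5) (nat_lit 17) (nat_lit 5) (nat_lit 16) (nat_lit 4) (nat_lit 370) (nat_lit 239) (nat_lit 171)) (XT.lf (nat_lit 0) (nat_lit 7867167275) (nat_lit 152) (nat_lit 3433166234) (nat_lit 76) (nat_lit 22713988828) (nat_lit 15) (nat_lit 5) (nat_lit 17) (nat_lit 5) (nat_lit 16) (nat_lit 4) (nat_lit 371) (nat_lit 239) (nat_lit 170))))) (XT.nd (nat_lit 234) (nat_lit 152) (nat_lit 0) (XT.nd (nat_lit 78) (nat_lit 0) (nat_lit 0) (XT.lf (nat_lit 0) (nat_lit 5191844751) (nat_lit 76) (nat_lit 6965728069) (nat_lit 152) (nat_lit 22734978555) (nat_lit 14) (nat_lit 5) (nat_lit 15) (nat_lit 5) (nat_lit 16) (nat_lit 4) (nat_lit 372) (nat_lit 239) (nat_lit 169)) (XT.nd (nat_lit 78) (nat_lit 0) (nat_lit 0) (XT.lf (nat_lit 0) (nat_lit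 14093727234) (nat_lit 76) (nat_lit 2489428459) (nat_lit 152) (nat_lit 19213784050) (nat_lit 14) (nat_lit 5) (nat_lit 15) (nat_lit 5) (nat_lit 16) (nat_lit 4) (nat_lit 373) (nat_lit 239) (nat_lit 168)) (XT.lf (nat_lit 0) (nat_lit 21134289833) (nat_lit 152) (nat_lit 13537520037) (nat_lit 0) (nat_lit 2056872605) (nat_lit 14) (nat_lit 5) (nat_lit 16) (nat_lit 4) (nat_lit 14) (nat_lit 4) (nat_lit 374) (nat_lit 239) (nat_lit 167)))) (XT.nd (nat_lit 156) (nat_lit 76) (nat_lit 0) (XT.nd (nat_lit 78) (nat_lit 76) (nat_lit 0) (XT.lf (nat_lit 0) (nat_lit 25819803756) (nat_lit 152) (nat_lit 5201345934) (nat_lit 0) (nat_lit 6667298470) (nat_lit 14) (nat_lit 5) (nat_lit 16) (nat_lit 4) (nat_lit 14) (nat_lit 4) (nat_lit 375) (nat_lit 239) (nat_lit 166)) (XT.lf (nat_lit 0) (nat_lit 3402927108) (nat_lit 76) (nat_lit 27249645602) (nat_lit 76) (nat_lit 8024239288) (nat_lit 13) (nat_lit 4) (nat_lit 14) (nat_lit 5)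 (nat_lit 14) (nat_lit 4) (nat_lit 376) (nat_lit 239) (nat_lit 165))) (XT.nd (nat_lit 78) (nat_lit 76) (nat_lit 0) (XT.lf (nat_lit 0) (nat_lit 12324035594) (nat_lit 76) (nat_lit 23333088443) (nat_lit 76) (nat_lit 4036904432) (nat_lit 13) (nat_lit 4) (nat_lit 14) (nat_lit 5) (nat_lit 14) (nat_lit 4) (nat_lit 377) (nat_lit 239) (nat_lit 164)) (XT.lf (nat_lit 0) (nat_lit 43455986) (nat_lit 152) (nat_lit 19276684567) (nat_lit 76) (nat_lit 21422362878) (nat_lit 12) (nat_lit 5) (nat_lit 14) (nat_lit 5) (nat_lit 13) (nat_lit 4) (nat_lit 378) (nat_lit 239) (nat_lit 163)))))) (XT.nd (nat_lit 546) (nat_lit 228) (nat_lit 0) (XT.nd (nat_lit 234) (nat_lit 0) (nat_lit 0) (XT.nd (nat_lit 78) (nat_lit 76) (nat_lit 0) (XT.lf (nat_lit 0) (nat_lit 4140596675) (nat_lit 152) (nat_lit 11026203737) (nat_lit 76) (nat_lit 26655173147) (nat_lit 12) (nat_lit 5) (nat_lit 14) (nat_lit 5) (nat_lit 13) (nat_lit 4) (nat_lit 379)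 (nat_lit 239) (nat_lit 162)) (XT.nd (nat_lit 78) (nat_lit 76) (nat_lit 0) (XT.lf (nat_lit 0) (nat_lit 8336872203) (nat_lit 152) (nat_lit 2572536033) (nat_lit 76) (nat_lit 32025137998) (nat_lit 12) (nat_lit 5) (nat_lit 14) (nat_lit 5) (nat_lit 13) (nat_lit 4) (nat_lit 380) (nat_lit 239) (nat_lit 161)) (XT.lf (nat_lit 0) (nat_lit 6212942122) (nat_lit 76) (nat_lit 6482729698) (nat_lit 152) (nat_lit 31383730111) (nat_lit 11) (nat_lit 5) (nat_lit 12) (nat_lit 5) (nat_lit 13) (nat_lit 4) (nat_lit 381) (nat_lit 239) (nat_lit 160)))) (XT.nd (nat_lit 156) (nat_lit 0) (nat_lit 0) (XT.nd (nat_lit 78) (nat_lit 0) (nat_lit 0) (XT.lf (nat_lit 0) (nat_lit 15272104559) (nat_lit 76) (nat_lit 1916284453) (nat_lit 152) (nat_lit 28070124451) (nat_lit 11) (nat_lit 5) (nat_lit 12) (nat_lit 5) (nat_lit 13) (nat_lit 4) (nat_lit 382) (nat_lit 239) (nat_lit 159)) (XT.lf (nat_lit 0) (nat_lit 21820335646) (nat_lit 152) (nat_lit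 21938606346) (nat_lit 0) (nat_lit 2713927545) (nat_lit 11) (nat_lit 5) (nat_lit 13) (nat_lit 4) (nat_lit 11) (nat_lit 4) (nat_lit 383) (nat_lit 239) (nat_lit 158))) (XT.nd (nat_lit 78) (nat_lit 0) (nat_lit 0) (XT.lf (nat_lit 0) (nat_lit 26588520679) (nat_lit 152) (nat_lit 13708981700) (nat_lit 0) (nat_lit 7426240011) (nat_lit 11) (nat_lit 5) (nat_lit 13) (nat_lit 4) (nat_lit 11) (nat_lit 4) (nat_lit 384) (nat_lit 239) (nat_lit 157)) (XT.lf (nat_lit 0) (nat_lit 31478689989) (nat_lit 152) (nat_lit 5271923535) (nat_lit 0) (nat_lit 12262164110) (nat_lit 11) (nat_lit 5) (nat_lit 13) (nat_lit 4) (nat_lit 11) (nat_lit 4) (nat_lit 385) (nat_lit 239) (nat_lit 156))))) (XT.nd (nat_lit 234) (nat_lit 152) (nat_lit 0) (XT.nd (nat_lit 78) (nat_lit 0) (nat_lit 0) (XT.lf (nat_lit 0) (nat_lit 3447207776) (nat_lit 76) (nat_lit 33081045434) (nat_lit 76) (nat_lit 13811854302) (nat_lit 10) (nat_lit 4) (nat_lit 11) (nat_lit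 5) (nat_lit 11) (nat_lit 4) (nat_lit 386) (nat_lit 239) (nat_lit 155)) (XT.nd (nat_lit 78) (nat_lit 0) (nat_lit 0) (XT.lf (nat_lit 0) (nat_lit 12498051802) (nat_lit 76) (nat_lit 29264270735) (nat_lit 76) (nat_lit 9943948289) (nat_lit 10) (nat_lit 4) (nat_lit 11) (nat_lit 5) (nat_lit 11) (nat_lit 4) (nat_lit 387) (nat_lit 239) (nat_lit 154)) (XT.lf (nat_lit 0) (nat_lit 21783595431) (nat_lit 76) (nat_lit 25350190472) (nat_lit 76) (nat_lit 5980225973) (nat_lit 10) (nat_lit 4) (nat_lit 11) (nat_lit 5) (nat_lit 11) (nat_lit 4) (nat_lit 388) (nat_lit 239) (nat_lit 153)))) (XT.nd (nat_lit 156) (nat_lit 76) (nat_lit 0) (XT.nd (nat_lit 78) (nat_lit 76) (nat_lit 0) (XT.lf (nat_lit 0) (nat_lit 31311952245) (nat_lit 76) (nat_lit 21335384575) (nat_lit 76) (nat_lit 1917223909) (nat_lit 10) (nat_lit 4) (nat_lit 11) (nat_lit 5) (nat_lit 11) (nat_lit 4) (nat_lit 389) (nat_lit 239) (nat_lit 152)) (XT.lf (nat_lit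 0) (nat_lit 2204729656) (nat_lit 152) (nat_lit 14989351858) (nat_lit 76) (nat_lit 38864454889) (nat_lit 9) (nat_lit 5) (nat_lit 11) (nat_lit 5) (nat_lit 10) (nat_lit 4) (nat_lit 390) (nat_lit 239) (nat_lit 151))) (XT.nd (nat_lit 78) (nat_lit 76) (nat_lit 0) (XT.lf (nat_lit 0) (nat_lit 6393663657) (nat_lit 152) (nat_lit 6531245346) (nat_lit 76) (nat_lit 44672400740) (nat_lit 9) (nat_lit 5) (nat_lit 11) (nat_lit 5) (nat_lit 10) (nat_lit 4) (nat_lit 391) (nat_lit 239) (nat_lit 150)) (XT.lf (nat_lit 0) (nat_lit 2190271240) (nat_lit 76) (nat_lit 8521433258) (nat_lit 152) (nat_lit 48470442068) (nat_lit 8) (nat_lit 5) (nat_lit 9) (nat_lit 5) (nat_lit 10) (nat_lit 4) (nat_lit 392) (nat_lit 239) (nat_lit 149))))))) (XT.nd (nat_lit 1092) (nat_lit 76) (nat_lit 0) (XT.nd (nat_lit 546) (nat_lit 152) (nat_lit 0) (XT.nd (nat_lit 234) (nat_lit 0) (nat_lit 0) (XT.nd (nat_lit 78) (nat_lit 0) (nat_lit 0) (XT.lf (nat_lit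 0) (nat_lit 11274568496) (nat_lit 76) (nat_lit 3933253700) (nat_lit 152) (nat_lit 45605253575) (nat_lit 8) (nat_lit 5) (nat_lit 9) (nat_lit 5) (nat_lit 10) (nat_lit 4) (nat_lit 393) (nat_lit 239) (nat_lit 148)) (XT.nd (nat_lit 78) (nat_lit 0) (nat_lit 0) (XT.lf (nat_lit 0) (nat_lit 19829389174) (nat_lit 152) (nat_lit 41901319424) (nat_lit 0) (nat_lit 762510532) (nat_lit 8) (nat_lit 5) (nat_lit 10) (nat_lit 4) (nat_lit 8) (nat_lit 4) (nat_lit 394) (nat_lit 239) (nat_lit 147)) (XT.lf (nat_lit 0) (nat_lit 24611990023) (nat_lit 152) (nat_lit 34105184829) (nat_lit 0) (nat_lit 5505923487) (nat_lit 8) (nat_lit 5) (nat_lit 10) (nat_lit 4) (nat_lit 8) (nat_lit 4) (nat_lit 395) (nat_lit 239) (nat_lit 146)))) (XT.nd (nat_lit 156) (nat_lit 0) (nat_lit 0) (XT.nd (nat_lit 78) (nat_lit 0) (nat_lit 0) (XT.lf (nat_lit 0) (nat_lit 29521994874) (nat_lit 152) (nat_lit 26105482494) (nat_lit 0) (nat_lit 10377881839)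 (nat_lit 8) (nat_lit 5) (nat_lit 10) (nat_lit 4) (nat_lit 8) (nat_lit 4) (nat_lit 396) (nat_lit 239) (nat_lit 145)) (XT.lf (nat_lit 0) (nat_lit 34563694024) (nat_lit 152) (nat_lit 17895222388) (nat_lit 0) (nat_lit 15382642639) (nat_lit 8) (nat_lit 5) (nat_lit 10) (nat_lit 4) (nat_lit 8) (nat_lit 4) (nat_lit 397) (nat_lit 239) (nat_lit 144))) (XT.nd (nat_lit 78) (nat_lit 0) (nat_lit 0) (XT.lf (nat_lit 0) (nat_lit 39741492840) (nat_lit 152) (nat_lit 9467230497) (nat_lit 0) (nat_lit 20524578980) (nat_lit 8) (nat_lit 5) (nat_lit 10) (nat_lit 4) (nat_lit 8) (nat_lit 4) (nat_lit 398) (nat_lit 239) (nat_lit 143)) (XT.lf (nat_lit 0) (nat_lit 45059915612) (nat_lit 152) (nat_lit 814142556) (nat_lit 0) (nat_lit 25808183816) (nat_lit 8) (nat_lit 5) (nat_lit 10) (nat_lit 4) (nat_lit 8) (nat_lit 4) (nat_lit 399) (nat_lit 239) (nat_lit 142))))) (XT.nd (nat_lit 234) (nat_lit 76) (nat_lit 0) (XT.nd (nat_lit 78)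 (nat_lit 0) (nat_lit 0) (XT.lf (nat_lit 0) (nat_lit 8232243098) (nat_lit 76) (nat_lit 42370499764) (nat_lit 76) (nat_lit 23084964146) (nat_lit 7) (nat_lit 4) (nat_lit 8) (nat_lit 5) (nat_lit 8) (nat_lit 4) (nat_lit 400) (nat_lit 239) (nat_lit 141)) (XT.nd (nat_lit 78) (nat_lit 0) (nat_lit 0) (XT.lf (nat_lit 0) (nat_lit 17540037884) (nat_lit 76) (nat_lit 38765916313) (nat_lit 76) (nat_lit 19447561450) (nat_lit 7) (nat_lit 4) (nat_lit 8) (nat_lit 5) (nat_lit 8) (nat_lit 4) (nat_lit 401) (nat_lit 239) (nat_lit 140)) (XT.lf (nat_lit 0) (nat_lit 27101171792) (nat_lit 76) (nat_lit 35065379423) (nat_lit 76) (nat_lit 15715161216) (nat_lit 7) (nat_lit 4) (nat_lit 8) (nat_lit 5) (nat_lit 8) (nat_lit 4) (nat_lit 402) (nat_lit 239) (nat_lit 139)))) (XT.nd (nat_lit 156) (nat_lit 76) (nat_lit 0) (XT.nd (nat_lit 78) (nat_lit 0) (nat_lit 0) (XT.lf (nat_lit 0) (nat_lit 36923999211) (nat_lit 76) (nat_lit 31265655615)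 (nat_lit 76) (nat_lit 11884502122) (nat_lit 7) (nat_lit 4) (nat_lit 8) (nat_lit 5) (nat_lit 8) (nat_lit 4) (nat_lit 403) (nat_lit 239) (nat_lit 138)) (XT.lf (nat_lit 0) (nat_lit 47017103194) (nat_lit 76) (nat_lit 27363424742) (nat_lit 76) (nat_lit 7952236991) (nat_lit 7) (nat_lit 4) (nat_lit 8) (nat_lit 5) (nat_lit 8) (nat_lit 4) (nat_lit 404) (nat_lit 239) (nat_lit 137))) (XT.nd (nat_lit 78) (nat_lit 76) (nat_lit 0) (XT.lf (nat_lit 0) (nat_lit 57389302958) (nat_lit 76) (nat_lit 23355277088) (nat_lit 76) (nat_lit 3914929862) (nat_lit 7) (nat_lit 4) (nat_lit 8) (nat_lit 5) (nat_lit 8) (nat_lit 4) (nat_lit 405) (nat_lit 239) (nat_lit 136)) (XT.lf (nat_lit 0) (nat_lit 226440398) (nat_lit 152) (nat_lit 19008983385) (nat_lit 76) (nat_lit 67820934588) (nat_lit 6) (nat_lit 5) (nat_lit 8) (nat_lit 5) (nat_lit 7) (nat_lit 4) (nat_lit 406) (nat_lit 239) (nat_lit 135)))))) (XT.nd (nat_lit 32370) (nat_lit 0)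 (nat_lit 7068) (XT.nd (nat_lit 234) (nat_lit 0) (nat_lit 0) (XT.nd (nat_lit 78) (nat_lit 76) (nat_lit 0) (XT.lf (nat_lit 0) (nat_lit 4401419352) (nat_lit 152) (nat_lit 10561261709) (nat_lit 76) (nat_lit 74561628910) (nat_lit 6) (nat_lit 5) (nat_lit 8) (nat_lit 5) (nat_lit 7) (nat_lit 4) (nat_lit 407) (nat_lit 239) (nat_lit 134)) (XT.nd (nat_lit 78) (nat_lit 76) (nat_lit 0) (XT.lf (nat_lit 0) (nat_lit 8690049421) (nat_lit 152) (nat_lit 1882027718) (nat_lit 76) (nat_lit 81494573014) (nat_lit 6) (nat_lit 5) (nat_lit 8) (nat_lit 5) (nat_lit 7) (nat_lit 4) (nat_lit 408) (nat_lit 239) (nat_lit 133)) (XT.lf (nat_lit 0) (nat_lit 7176338598) (nat_lit 76) (nat_lit 5988722710) (nat_lit 152) (nat_lit 81518469569) (nat_lit 5) (nat_lit 5) (nat_lit 6) (nat_lit 5) (nat_lit 7) (nat_lit 4) (nat_lit 409) (nat_lit 239) (nat_lit 132)))) (XT.nd (nat_lit 156) (nat_lit 0) (nat_lit 0) (XT.nd (nat_lit 78) (nat_lit 0) (nat_lit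 0) (XT.lf (nat_lit 0) (nat_lit 16523963356) (nat_lit 76) (nat_lit 1258229960) (nat_lit 152) (nat_lit 79596490581) (nat_lit 5) (nat_lit 5) (nat_lit 6) (nat_lit 5) (nat_lit 7) (nat_lit 4) (nat_lit 410) (nat_lit 239) (nat_lit 131)) (XT.lf (nat_lit 0) (nat_lit 22561677525) (nat_lit 152) (nat_lit 74058108342) (nat_lit 0) (nat_lit 3534192401) (nat_lit 5) (nat_lit 5) (nat_lit 7) (nat_lit 4) (nat_lit 5) (nat_lit 4) (nat_lit 411) (nat_lit 239) (nat_lit 130))) (XT.nd (nat_lit 31902) (nat_lit 0) (nat_lit 9500) (XT.lf (nat_lit 0) (nat_lit 27486418113) (nat_lit 152) (nat_lit 67090144825) (nat_lit 0) (nat_lit 8435914231) (nat_lit 5) (nat_lit 5) (nat_lit 7) (nat_lit 4) (nat_lit 5) (nat_lit 4) (nat_lit 412) (nat_lit 239) (nat_lit 129)) (XT.lf (nat_lit 0) (nat_lit 1654413396) (nat_lit 456) (nat_lit 1252783478) (nat_lit 456) (nat_lit 1252783478) (nat_lit 130) (nat_lit 4) (nat_lit 136) (nat_lit 5) (nat_lit 136) (nat_lit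 4) (nat_lit 300) (nat_lit 240) (nat_lit 240))))) (XT.nd (nat_lit 312) (nat_lit 1140) (nat_lit 0) (XT.nd (nat_lit 156) (nat_lit 836) (nat_lit 0) (XT.nd (nat_lit 78) (nat_lit 0) (nat_lit 0) (XT.lf (nat_lit 0) (nat_lit 1124905240) (nat_lit 456) (nat_lit 7278193339) (nat_lit 0) (nat_lit 18897101) (nat_lit 124) (nat_lit 5) (nat_lit 130) (nat_lit 4) (nat_lit 124) (nat_lit 4) (nat_lit 301) (nat_lit 240) (nat_lit 239)) (XT.lf (nat_lit 0) (nat_lit 4795736532) (nat_lit 456) (nat_lit 1115309183) (nat_lit 0) (nat_lit 2615934083) (nat_lit 124) (nat_lit 5) (nat_lit 130) (nat_lit 4) (nat_lit 124) (nat_lit 4) (nat_lit 302) (nat_lit 240) (nat_lit 238))) (XT.nd (nat_lit 78) (nat_lit 456) (nat_lit 0) (XT.lf (nat_lit 0) (nat_lit 5212101013) (nat_lit 380) (nat_lit 3323327736) (nat_lit 380) (nat_lit 101006539) (nat_lit 119) (nat_lit 4) (nat_lit 124) (nat_lit 5) (nat_lit 124) (nat_lit 4) (nat_lit 303) (nat_lit 240) (nat_lit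 237)) (XT.lf (nat_lit 0) (nat_lit 2902150036) (nat_lit 380) (nat_lit 613428957) (nat_lit 456) (nat_lit 5234172358) (nat_lit 113) (nat_lit 5) (nat_lit 118) (nat_lit 5) (nat_lit 119) (nat_lit 4) (nat_lit 304) (nat_lit 240) (nat_lit 236)))) (XT.nd (nat_lit 156) (nat_lit 684) (nat_lit 0) (XT.nd (nat_lit 78) (nat_lit 76) (nat_lit 0) (XT.lf (nat_lit 0) (nat_lit 486407821) (nat_lit 380) (nat_lit 6723086714) (nat_lit 380) (nat_lit 1657893289) (nat_lit 108) (nat_lit 4) (nat_lit 113) (nat_lit 5) (nat_lit 113) (nat_lit 4) (nat_lit 305) (nat_lit 240) (nat_lit 235)) (XT.lf (nat_lit 0) (nat_lit 1962669584) (nat_lit 456) (nat_lit 2007238572) (nat_lit 76) (nat_lit 5018837764) (nat_lit 107) (nat_lit 5) (nat_lit 113) (nat_lit 5) (nat_lit 108) (nat_lit 4) (nat_lit 306) (nat_lit 240) (nat_lit 234))) (XT.nd (nat_lit 78) (nat_lit 380) (nat_lit 0) (XT.lf (nat_lit 0) (nat_lit 4508269231) (nat_lit 304) (nat_lit 1107008054)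 (nat_lit 380) (nat_lit 3499342824) (nat_lit 103) (nat_lit 5) (nat_lit 107) (nat_lit 5) (nat_lit 108) (nat_lit 4) (nat_lit 307) (nat_lit 240) (nat_lit 233)) (XT.lf (nat_lit 0) (nat_lit 101264406) (nat_lit 380) (nat_lit 7332138785) (nat_lit 76) (nat_lit 1811775054) (nat_lit 98) (nat_lit 5) (nat_lit 103) (nat_lit 5) (nat_lit 99) (nat_lit 4) (nat_lit 308) (nat_lit 240) (nat_lit 232))))))))
noncomputable def xc56 : XT := (XT.nd (nat_lit 2184) (nat_lit 1824) (nat_lit 0) (XT.nd (nat_lit 1092) (nat_lit 1748) (nat_lit 0) (XT.nd (nat_lit 546) (nat_lit 1064) (nat_lit 0) (XT.nd (nat_lit 234) (nat_lit 836) (nat_lit 0) (XT.nd (nat_lit 78) (nat_lit 684) (nat_lit 0) (XT.lf (nat_lit 0) (nat_lit 3712374550) (nat_lit 380) (nat_lit 824559120) (nat_lit 76) (nat_lit 4842559832) (nat_lit 98) (nat_lit 5) (nat_lit 103) (nat_lit 5) (nat_lit 99) (nat_lit 4) (nat_lit 309) (nat_lit 240) (nat_lit 231)) (XT.nd (nat_lit 78) (nat_lit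 380) (nat_lit 0) (XT.lf (nat_lit 0) (nat_lit 5873768592) (nat_lit 304) (nat_lit 1531872718) (nat_lit 380) (nat_lit 2113044658) (nat_lit 94) (nat_lit 5) (nat_lit 98) (nat_lit 5) (nat_lit 99) (nat_lit 4) (nat_lit 310) (nat_lit 240) (nat_lit 230)) (XT.lf (nat_lit 0) (nat_lit 1488167895) (nat_lit 380) (nat_lit 6625053274) (nat_lit 76) (nat_lit 1549324109) (nat_lit 89) (nat_lit 5) (nat_lit 94) (nat_lit 5) (nat_lit 90) (nat_lit 4) (nat_lit 311) (nat_lit 240) (nat_lit 229)))) (XT.nd (nat_lit 156) (nat_lit 608) (nat_lit 0) (XT.nd (nat_lit 78) (nat_lit 0) (nat_lit 0) (XT.lf (nat_lit 0) (nat_lit 29009261) (nat_lit 228) (nat_lit 5097219821) (nat_lit 304) (nat_lit 4684782331) (nat_lit 86) (nat_lit 5) (nat_lit 89) (nat_lit 5) (nat_lit 90) (nat_lit 4) (nat_lit 312) (nat_lit 240) (nat_lit 228)) (XT.lf (nat_lit 0) (nat_lit 6899104084) (nat_lit 228) (nat_lit 1961114831) (nat_lit 304) (nat_lit 1104164499) (nat_lit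 86) (nat_lit 5) (nat_lit 89) (nat_lit 5) (nat_lit 90) (nat_lit 4) (nat_lit 313) (nat_lit 240) (nat_lit 227))) (XT.nd (nat_lit 78) (nat_lit 228) (nat_lit 0) (XT.lf (nat_lit 0) (nat_lit 2503657572) (nat_lit 380) (nat_lit 6350942140) (nat_lit 76) (nat_lit 1267957844) (nat_lit 81) (nat_lit 5) (nat_lit 86) (nat_lit 5) (nat_lit 82) (nat_lit 4) (nat_lit 314) (nat_lit 240) (nat_lit 226)) (XT.lf (nat_lit 0) (nat_lit 451679255) (nat_lit 228) (nat_lit 5723054480) (nat_lit 304) (nat_lit 4111149635) (nat_lit 78) (nat_lit 5) (nat_lit 81) (nat_lit 5) (nat_lit 82) (nat_lit 4) (nat_lit 315) (nat_lit 240) (nat_lit 225))))) (XT.nd (nat_lit 234) (nat_lit 532) (nat_lit 0) (XT.nd (nat_lit 78) (nat_lit 532) (nat_lit 0) (XT.lf (nat_lit 0) (nat_lit 7471345223) (nat_lit 228) (nat_lit 2472061889) (nat_lit 304) (nat_lit 511127198) (nat_lit 78) (nat_lit 5) (nat_lit 81) (nat_lit 5) (nat_lit 82) (nat_lit 4) (nat_lit 316) (nat_lit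 240) (nat_lit 224)) (XT.nd (nat_lit 78) (nat_lit 228) (nat_lit 0) (XT.lf (nat_lit 0) (nat_lit 3106522400) (nat_lit 304) (nat_lit 6631760601) (nat_lit 76) (nat_lit 889926050) (nat_lit 74) (nat_lit 5) (nat_lit 78) (nat_lit 5) (nat_lit 75) (nat_lit 4) (nat_lit 317) (nat_lit 240) (nat_lit 223)) (XT.lf (nat_lit 0) (nat_lit 300359647) (nat_lit 228) (nat_lit 6505343838) (nat_lit 304) (nat_lit 4001785592) (nat_lit 71) (nat_lit 5) (nat_lit 74) (nat_lit 5) (nat_lit 75) (nat_lit 4) (nat_lit 318) (nat_lit 240) (nat_lit 222)))) (XT.nd (nat_lit 156) (nat_lit 228) (nat_lit 0) (XT.nd (nat_lit 78) (nat_lit 304) (nat_lit 0) (XT.lf (nat_lit 0) (nat_lit 7461422439) (nat_lit 228) (nat_lit 3147959859) (nat_lit 304) (nat_lit 383003339) (nat_lit 71) (nat_lit 5) (nat_lit 74) (nat_lit 5) (nat_lit 75) (nat_lit 4) (nat_lit 319) (nat_lit 240) (nat_lit 221)) (XT.lf (nat_lit 0) (nat_lit 3244678365) (nat_lit 304) (nat_lit 7607192570)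 (nat_lit 76) (nat_lit 331067125) (nat_lit 67) (nat_lit 5) (nat_lit 71) (nat_lit 5) (nat_lit 68) (nat_lit 4) (nat_lit 320) (nat_lit 240) (nat_lit 220))) (XT.nd (nat_lit 78) (nat_lit 228) (nat_lit 0) (XT.lf (nat_lit 0) (nat_lit 6969243840) (nat_lit 304) (nat_lit 559174798) (nat_lit 76) (nat_lit 3850842202) (nat_lit 67) (nat_lit 5) (nat_lit 71) (nat_lit 5) (nat_lit 68) (nat_lit 4) (nat_lit 321) (nat_lit 240) (nat_lit 219)) (XT.lf (nat_lit 0) (nat_lit 6720986510) (nat_lit 228) (nat_lit 4079820911) (nat_lit 304) (nat_lit 780846968) (nat_lit 64) (nat_lit 5) (nat_lit 67) (nat_lit 5) (nat_lit 68) (nat_lit 4) (nat_lit 322) (nat_lit 240) (nat_lit 218)))))) (XT.nd (nat_lit 546) (nat_lit 760) (nat_lit 0) (XT.nd (nat_lit 234) (nat_lit 532) (nat_lit 0) (XT.nd (nat_lit 78) (nat_lit 152) (nat_lit 0) (XT.lf (nat_lit 0) (nat_lit 2347616440) (nat_lit 228) (nat_lit 511054680) (nat_lit 304) (nat_lit 8931857158) (nat_lit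 60) (nat_lit 5) (nat_lit 63) (nat_lit 5) (nat_lit 64) (nat_lit 5) (nat_lit 323) (nat_lit 240) (nat_lit 217)) (XT.nd (nat_lit 78) (nat_lit 152) (nat_lit 0) (XT.lf (nat_lit 0) (nat_lit 6603139240) (nat_lit 304) (nat_lit 2282417180) (nat_lit 76) (nat_lit 3119571884) (nat_lit 60) (nat_lit 5) (nat_lit 64) (nat_lit 5) (nat_lit 61) (nat_lit 4) (nat_lit 324) (nat_lit 240) (nat_lit 216)) (XT.lf (nat_lit 0) (nat_lit 5078811451) (nat_lit 152) (nat_lit 5368474423) (nat_lit 228) (nat_lit 1779294699) (nat_lit 58) (nat_lit 5) (nat_lit 60) (nat_lit 5) (nat_lit 61) (nat_lit 4) (nat_lit 325) (nat_lit 240) (nat_lit 215)))) (XT.nd (nat_lit 156) (nat_lit 228) (nat_lit 0) (XT.nd (nat_lit 78) (nat_lit 0) (nat_lit 0) (XT.lf (nat_lit 0) (nat_lit 128780412) (nat_lit 228) (nat_lit 1743411960) (nat_lit 304) (nat_lit 10583207576) (nat_lit 54) (nat_lit 5) (nat_lit 57) (nat_lit 5) (nat_lit 58) (nat_lit 5) (nat_lit 326) (nat_lit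 240) (nat_lit 214)) (XT.lf (nat_lit 0) (nat_lit 5623674180) (nat_lit 304) (nat_lit 5065181115) (nat_lit 76) (nat_lit 2000945382) (nat_lit 54) (nat_lit 5) (nat_lit 58) (nat_lit 5) (nat_lit 55) (nat_lit 4) (nat_lit 327) (nat_lit 240) (nat_lit 213))) (XT.nd (nat_lit 78) (nat_lit 76) (nat_lit 0) (XT.lf (nat_lit 0) (nat_lit 2336661978) (nat_lit 152) (nat_lit 7126864431) (nat_lit 228) (nat_lit 3468462965) (nat_lit 52) (nat_lit 5) (nat_lit 54) (nat_lit 5) (nat_lit 55) (nat_lit 4) (nat_lit 328) (nat_lit 240) (nat_lit 212)) (XT.lf (nat_lit 0) (nat_lit 220461912) (nat_lit 228) (nat_lit 3224336836) (nat_lit 76) (nat_lit 9736966796) (nat_lit 51) (nat_lit 5) (nat_lit 54) (nat_lit 5) (nat_lit 52) (nat_lit 5) (nat_lit 329) (nat_lit 240) (nat_lit 211))))) (XT.nd (nat_lit 234) (nat_lit 380) (nat_lit 0) (XT.nd (nat_lit 78) (nat_lit 152) (nat_lit 0) (XT.lf (nat_lit 0) (nat_lit 3933674571) (nat_lit 304) (nat_lit 9127649511)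 (nat_lit 76) (nat_lit 377208815) (nat_lit 48) (nat_lit 5) (nat_lit 52) (nat_lit 5) (nat_lit 49) (nat_lit 4) (nat_lit 330) (nat_lit 240) (nat_lit 210)) (XT.nd (nat_lit 78) (nat_lit 152) (nat_lit 0) (XT.lf (nat_lit 0) (nat_lit 7763859508) (nat_lit 304) (nat_lit 1701600082) (nat_lit 76) (nat_lit 4237403701) (nat_lit 48) (nat_lit 5) (nat_lit 52) (nat_lit 5) (nat_lit 49) (nat_lit 4) (nat_lit 331) (nat_lit 240) (nat_lit 209)) (XT.lf (nat_lit 0) (nat_lit 5963205847) (nat_lit 152) (nat_lit 5743441981) (nat_lit 228) (nat_lit 2268571334) (nat_lit 46) (nat_lit 5) (nat_lit 48) (nat_lit 5) (nat_lit 49) (nat_lit 4) (nat_lit 332) (nat_lit 240) (nat_lit 208)))) (XT.nd (nat_lit 156) (nat_lit 152) (nat_lit 0) (XT.nd (nat_lit 78) (nat_lit 152) (nat_lit 0) (XT.lf (nat_lit 0) (nat_lit 1440372090) (nat_lit 228) (nat_lit 477709858) (nat_lit 76) (nat_lit 12338515659) (nat_lit 45) (nat_lit 5) (nat_lit 48) (nat_lit 5) (nat_lit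 46) (nat_lit 5) (nat_lit 333) (nat_lit 240) (nat_lit 207)) (XT.lf (nat_lit 0) (nat_lit 5247459424) (nat_lit 228) (nat_lit 7260336485) (nat_lit 76) (nat_lit 2036997767) (nat_lit 43) (nat_lit 5) (nat_lit 46) (nat_lit 5) (nat_lit 44) (nat_lit 4) (nat_lit 334) (nat_lit 240) (nat_lit 206))) (XT.nd (nat_lit 78) (nat_lit 0) (nat_lit 0) (XT.lf (nat_lit 0) (nat_lit 337258519) (nat_lit 152) (nat_lit 8801255295) (nat_lit 228) (nat_lit 5704052725) (nat_lit 41) (nat_lit 5) (nat_lit 43) (nat_lit 5) (nat_lit 44) (nat_lit 4) (nat_lit 335) (nat_lit 240) (nat_lit 205)) (XT.lf (nat_lit 0) (nat_lit 8214497808) (nat_lit 152) (nat_lit 4948503966) (nat_lit 228) (nat_lit 1985792617) (nat_lit 41) (nat_lit 5) (nat_lit 43) (nat_lit 5) (nat_lit 44) (nat_lit 4) (nat_lit 336) (nat_lit 240) (nat_lit 204))))))) (XT.nd (nat_lit 1092) (nat_lit 836) (nat_lit 0) (XT.nd (nat_lit 546) (nat_lit 380) (nat_lit 0) (XT.nd (nat_lit 234) (nat_lit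 228) (nat_lit 0) (XT.nd (nat_lit 78) (nat_lit 152) (nat_lit 0) (XT.lf (nat_lit 0) (nat_lit 765648442) (nat_lit 152) (nat_lit 994213095) (nat_lit 228) (nat_lit 13705282427) (nat_lit 38) (nat_lit 5) (nat_lit 40) (nat_lit 5) (nat_lit 41) (nat_lit 5) (nat_lit 337) (nat_lit 240) (nat_lit 203)) (XT.nd (nat_lit 78) (nat_lit 152) (nat_lit 0) (XT.lf (nat_lit 0) (nat_lit 5623081133) (nat_lit 228) (nat_lit 7095854724) (nat_lit 76) (nat_lit 3070125999) (nat_lit 38) (nat_lit 5) (nat_lit 41) (nat_lit 5) (nat_lit 39) (nat_lit 4) (nat_lit 338) (nat_lit 240) (nat_lit 202)) (XT.lf (nat_lit 0) (nat_lit 645679815) (nat_lit 152) (nat_lit 8918973473) (nat_lit 228) (nat_lit 6559190629) (nat_lit 36) (nat_lit 5) (nat_lit 38) (nat_lit 5) (nat_lit 39) (nat_lit 4) (nat_lit 339) (nat_lit 240) (nat_lit 201)))) (XT.nd (nat_lit 156) (nat_lit 0) (nat_lit 0) (XT.nd (nat_lit 78) (nat_lit 228) (nat_lit 0) (XT.lf (nat_lit 0) (nat_lit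 8672858613) (nat_lit 152) (nat_lit 4970349889) (nat_lit 228) (nat_lit 2824918580) (nat_lit 36) (nat_lit 5) (nat_lit 38) (nat_lit 5) (nat_lit 39) (nat_lit 4) (nat_lit 340) (nat_lit 240) (nat_lit 200)) (XT.lf (nat_lit 0) (nat_lit 18221375) (nat_lit 152) (nat_lit 931500105) (nat_lit 228) (nat_lit 15874293186) (nat_lit 33) (nat_lit 5) (nat_lit 35) (nat_lit 5) (nat_lit 36) (nat_lit 5) (nat_lit 341) (nat_lit 240) (nat_lit 199))) (XT.nd (nat_lit 78) (nat_lit 0) (nat_lit 0) (XT.lf (nat_lit 0) (nat_lit 4839731939) (nat_lit 228) (nat_lit 9112820511) (nat_lit 76) (nat_lit 3235438110) (nat_lit 33) (nat_lit 5) (nat_lit 36) (nat_lit 5) (nat_lit 34) (nat_lit 4) (nat_lit 342) (nat_lit 240) (nat_lit 198)) (XT.lf (nat_lit 0) (nat_lit 8805547520) (nat_lit 228) (nat_lit 1286369755) (nat_lit 76) (nat_lit 7472212831) (nat_lit 33) (nat_lit 5) (nat_lit 36) (nat_lit 5) (nat_lit 34) (nat_lit 4) (nat_lit 343) (nat_lit 240)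 (nat_lit 197))))) (XT.nd (nat_lit 234) (nat_lit 76) (nat_lit 0) (XT.nd (nat_lit 78) (nat_lit 228) (nat_lit 0) (XT.lf (nat_lit 0) (nat_lit 6822482985) (nat_lit 76) (nat_lit 6084778246) (nat_lit 152) (nat_lit 5043801910) (nat_lit 32) (nat_lit 5) (nat_lit 33) (nat_lit 5) (nat_lit 34) (nat_lit 4) (nat_lit 344) (nat_lit 240) (nat_lit 196)) (XT.nd (nat_lit 78) (nat_lit 228) (nat_lit 0) (XT.lf (nat_lit 0) (nat_lit 15116286333) (nat_lit 76) (nat_lit 1980674808) (nat_lit 152) (nat_lit 1253711496) (nat_lit 32) (nat_lit 5) (nat_lit 33) (nat_lit 5) (nat_lit 34) (nat_lit 4) (nat_lit 345) (nat_lit 240) (nat_lit 195)) (XT.lf (nat_lit 0) (nat_lit 2620142817) (nat_lit 228) (nat_lit 13900215175) (nat_lit 76) (nat_lit 2240510551) (nat_lit 29) (nat_lit 5) (nat_lit 32) (nat_lit 5) (nat_lit 30) (nat_lit 4) (nat_lit 346) (nat_lit 240) (nat_lit 194)))) (XT.nd (nat_lit 156) (nat_lit 0) (nat_lit 0) (XT.nd (nat_lit 78) (nat_lit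 76) (nat_lit 0) (XT.lf (nat_lit 0) (nat_lit 6590713339) (nat_lit 228) (nat_lit 6033314981) (nat_lit 76) (nat_lit 6558813764) (nat_lit 29) (nat_lit 5) (nat_lit 32) (nat_lit 5) (nat_lit 30) (nat_lit 4) (nat_lit 347) (nat_lit 240) (nat_lit 193)) (XT.lf (nat_lit 0) (nat_lit 2028175577) (nat_lit 76) (nat_lit 8626191327) (nat_lit 152) (nat_lit 8963903621) (nat_lit 28) (nat_lit 5) (nat_lit 29) (nat_lit 5) (nat_lit 30) (nat_lit 4) (nat_lit 348) (nat_lit 240) (nat_lit 192))) (XT.nd (nat_lit 78) (nat_lit 0) (nat_lit 0) (XT.lf (nat_lit 0) (nat_lit 10374988299) (nat_lit 76) (nat_lit 4480891486) (nat_lit 152) (nat_lit 5210417789) (nat_lit 28) (nat_lit 5) (nat_lit 29) (nat_lit 5) (nat_lit 30) (nat_lit 4) (nat_lit 349) (nat_lit 240) (nat_lit 191)) (XT.lf (nat_lit 0) (nat_lit 18894341717) (nat_lit 76) (nat_lit 245431342) (nat_lit 152) (nat_lit 1389316156) (nat_lit 28) (nat_lit 5) (nat_lit 29) (nat_lit 5) (nat_lit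 30) (nat_lit 4) (nat_lit 350) (nat_lit 240) (nat_lit 190)))))) (XT.nd (nat_lit 546) (nat_lit 304) (nat_lit 0) (XT.nd (nat_lit 234) (nat_lit 228) (nat_lit 0) (XT.nd (nat_lit 78) (nat_lit 76) (nat_lit 0) (XT.lf (nat_lit 0) (nat_lit 2558373638) (nat_lit 228) (nat_lit 14351349708) (nat_lit 76) (nat_lit 4093470616) (nat_lit 25) (nat_lit 5) (nat_lit 28) (nat_lit 5) (nat_lit 26) (nat_lit 4) (nat_lit 351) (nat_lit 240) (nat_lit 189)) (XT.nd (nat_lit 78) (nat_lit 76) (nat_lit 0) (XT.lf (nat_lit 0) (nat_lit 6573043817) (nat_lit 228) (nat_lit 6363503496) (nat_lit 76) (nat_lit 8555280322) (nat_lit 25) (nat_lit 5) (nat_lit 28) (nat_lit 5) (nat_lit 26) (nat_lit 4) (nat_lit 352) (nat_lit 240) (nat_lit 188)) (XT.lf (nat_lit 0) (nat_lit 1825154315) (nat_lit 76) (nat_lit 8859158237) (nat_lit 152) (nat_lit 11311535302) (nat_lit 24) (nat_lit 5) (nat_lit 25) (nat_lit 5) (nat_lit 26) (nat_lit 4) (nat_lit 353) (nat_lit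 240) (nat_lit 187)))) (XT.nd (nat_lit 156) (nat_lit 228) (nat_lit 0) (XT.nd (nat_lit 78) (nat_lit 0) (nat_lit 0) (XT.lf (nat_lit 0) (nat_lit 10316208117) (nat_lit 76) (nat_lit 4626080969) (nat_lit 152) (nat_lit 7572010430) (nat_lit 24) (nat_lit 5) (nat_lit 25) (nat_lit 5) (nat_lit 26) (nat_lit 4) (nat_lit 354) (nat_lit 240) (nat_lit 186)) (XT.lf (nat_lit 0) (nat_lit 18990431081) (nat_lit 76) (nat_lit 297875612) (nat_lit 152) (nat_lit 3761200565) (nat_lit 24) (nat_lit 5) (nat_lit 25) (nat_lit 5) (nat_lit 26) (nat_lit 4) (nat_lit 355) (nat_lit 240) (nat_lit 185))) (XT.nd (nat_lit 78) (nat_lit 0) (nat_lit 0) (XT.lf (nat_lit 0) (nat_lit 203606349) (nat_lit 228) (nat_lit 19303871337) (nat_lit 76) (nat_lit 4091971040) (nat_lit 21) (nat_lit 5) (nat_lit 24) (nat_lit 5) (nat_lit 22) (nat_lit 4) (nat_lit 356) (nat_lit 240) (nat_lit 184)) (XT.lf (nat_lit 0) (nat_lit 4217336484) (nat_lit 228) (nat_lit 11291616548)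 (nat_lit 76) (nat_lit 8655661554) (nat_lit 21) (nat_lit 5) (nat_lit 24) (nat_lit 5) (nat_lit 22) (nat_lit 4) (nat_lit 357) (nat_lit 240) (nat_lit 183))))) (XT.nd (nat_lit 312) (nat_lit 228) (nat_lit 0) (XT.nd (nat_lit 156) (nat_lit 0) (nat_lit 0) (XT.nd (nat_lit 78) (nat_lit 76) (nat_lit 0) (XT.lf (nat_lit 0) (nat_lit 8313839318) (nat_lit 228) (nat_lit 3107383159) (nat_lit 76) (nat_lit 13326652412) (nat_lit 21) (nat_lit 5) (nat_lit 24) (nat_lit 5) (nat_lit 22) (nat_lit 4) (nat_lit 358) (nat_lit 240) (nat_lit 182)) (XT.lf (nat_lit 0) (nat_lit 5360584410) (nat_lit 76) (nat_lit 7187639126) (nat_lit 152) (nat_lit 12799969869) (nat_lit 20) (nat_lit 5) (nat_lit 21) (nat_lit 5) (nat_lit 22) (nat_lit 4) (nat_lit 359) (nat_lit 240) (nat_lit 181))) (XT.nd (nat_lit 78) (nat_lit 0) (nat_lit 0) (XT.lf (nat_lit 0) (nat_lit 14080543137) (nat_lit 76) (nat_lit 2824364067) (nat_lit 152) (nat_lit 9061765935) (nat_lit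 20) (nat_lit 5) (nat_lit 21) (nat_lit 5) (nat_lit 22) (nat_lit 4) (nat_lit 360) (nat_lit 240) (nat_lit 180)) (XT.lf (nat_lit 0) (nat_lit 21373007243) (nat_lit 152) (nat_lit 3622273713) (nat_lit 0) (nat_lit 1609014252) (nat_lit 20) (nat_lit 5) (nat_lit 22) (nat_lit 4) (nat_lit 20) (nat_lit 4) (nat_lit 361) (nat_lit 240) (nat_lit 179)))) (XT.nd (nat_lit 156) (nat_lit 76) (nat_lit 0) (XT.nd (nat_lit 78) (nat_lit 76) (nat_lit 0) (XT.lf (nat_lit 0) (nat_lit 4894305973) (nat_lit 76) (nat_lit 21121549190) (nat_lit 76) (nat_lit 1243978774) (nat_lit 19) (nat_lit 4) (nat_lit 20) (nat_lit 5) (nat_lit 20) (nat_lit 4) (nat_lit 362) (nat_lit 240) (nat_lit 178)) (XT.lf (nat_lit 0) (nat_lit 2809774766) (nat_lit 152) (nat_lit 14283996985) (nat_lit 76) (nat_lit 10840369336) (nat_lit 18) (nat_lit 5) (nat_lit 20) (nat_lit 5) (nat_lit 19) (nat_lit 4) (nat_lit 363) (nat_lit 240) (nat_lit 177))) (XT.nd (nat_lit 78) (nat_lit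 76) (nat_lit 0) (XT.lf (nat_lit 0) (nat_lit 6926887215) (nat_lit 152) (nat_lit 6033316331) (nat_lit 76) (nat_lit 15669110304) (nat_lit 18) (nat_lit 5) (nat_lit 20) (nat_lit 5) (nat_lit 19) (nat_lit 4) (nat_lit 364) (nat_lit 240) (nat_lit 176)) (XT.lf (nat_lit 0) (nat_lit 2453558987) (nat_lit 76) (nat_lit 8705256677) (nat_lit 152) (nat_lit 18186795177) (nat_lit 17) (nat_lit 5) (nat_lit 18) (nat_lit 5) (nat_lit 19) (nat_lit 4) (nat_lit 365) (nat_lit 240) (nat_lit 175))))))))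
noncomputable def xc57 : XT := (XT.nd (nat_lit 2184) (nat_lit 228) (nat_lit 0) (XT.nd (nat_lit 1092) (nat_lit 304) (nat_lit 0) (XT.nd (nat_lit 546) (nat_lit 228) (nat_lit 0) (XT.nd (nat_lit 234) (nat_lit 152) (nat_lit 0) (XT.nd (nat_lit 78) (nat_lit 0) (nat_lit 0) (XT.lf (nat_lit 0) (nat_lit 11260094533) (nat_lit 76) (nat_lit 4286626361) (nat_lit 152) (nat_lit 14535813167) (nat_lit 17) (nat_lit 5) (nat_lit 18) (nat_lit 5) (nat_lit 19) (nat_lit 4) (nat_lit 366) (nat_lit 240) (nat_lit 174)) (XT.nd (nat_lit 78) (nat_lit 0) (nat_lit 0) (XT.lf (nat_lit 0) (nat_lit 20037580635) (nat_lit 152) (nat_lit 10570885212) (nat_lit 0) (nat_lit 233967268) (nat_lit 17) (nat_lit 5) (nat_lit 19) (nat_lit 4) (nat_lit 17) (nat_lit 4) (nat_lit 367) (nat_lit 240) (nat_lit 173)) (XT.lf (nat_lit 0) (nat_lit 24675291715) (nat_lit 152) (nat_lit 2170151588) (nat_lit 0) (nat_lit 4779329507) (nat_lit 17) (nat_lit 5) (nat_lit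 19) (nat_lit 4) (nat_lit 17) (nat_lit 4) (nat_lit 368) (nat_lit 240) (nat_lit 172)))) (XT.nd (nat_lit 156) (nat_lit 0) (nat_lit 0) (XT.nd (nat_lit 78) (nat_lit 76) (nat_lit 0) (XT.lf (nat_lit 0) (nat_lit 6556243389) (nat_lit 76) (nat_lit 22929480061) (nat_lit 76) (nat_lit 2943858783) (nat_lit 16) (nat_lit 4) (nat_lit 17) (nat_lit 5) (nat_lit 17) (nat_lit 4) (nat_lit 369) (nat_lit 240) (nat_lit 171)) (XT.lf (nat_lit 0) (nat_lit 1151611938) (nat_lit 152) (nat_lit 17734896680) (nat_lit 76) (nat_lit 14371910976) (nat_lit 15) (nat_lit 5) (nat_lit 17) (nat_lit 5) (nat_lit 16) (nat_lit 4) (nat_lit 370) (nat_lit 240) (nat_lit 170))) (XT.nd (nat_lit 78) (nat_lit 0) (nat_lit 0) (XT.lf (nat_lit 0) (nat_lit 5282246337) (nat_lit 152) (nat_lit 9434221122) (nat_lit 76) (nat_lit 19395642764) (nat_lit 15) (nat_lit 5) (nat_lit 17) (nat_lit 5) (nat_lit 16) (nat_lit 4) (nat_lit 371) (nat_lit 240) (nat_lit 169)) (XT.lf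 (nat_lit 0) (nat_lit 9509098992) (nat_lit 152) (nat_lit 935760981) (nat_lit 76) (nat_lit 24547389034) (nat_lit 15) (nat_lit 5) (nat_lit 17) (nat_lit 5) (nat_lit 16) (nat_lit 4) (nat_lit 372) (nat_lit 240) (nat_lit 168))))) (XT.nd (nat_lit 234) (nat_lit 152) (nat_lit 0) (XT.nd (nat_lit 78) (nat_lit 0) (nat_lit 0) (XT.lf (nat_lit 0) (nat_lit 7922506213) (nat_lit 76) (nat_lit 5989513033) (nat_lit 152) (nat_lit 21985301075) (nat_lit 14) (nat_lit 5) (nat_lit 15) (nat_lit 5) (nat_lit 16) (nat_lit 4) (nat_lit 373) (nat_lit 240) (nat_lit 167)) (XT.nd (nat_lit 78) (nat_lit 0) (nat_lit 0) (XT.lf (nat_lit 0) (nat_lit 17016447905) (nat_lit 76) (nat_lit 1413444441) (nat_lit 152) (nat_lit 18400171516) (nat_lit 14) (nat_lit 5) (nat_lit 15) (nat_lit 5) (nat_lit 16) (nat_lit 4) (nat_lit 374) (nat_lit 240) (nat_lit 166)) (XT.lf (nat_lit 0) (nat_lit 23089000951) (nat_lit 152) (nat_lit 11487692227) (nat_lit 0) (nat_lit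 3213931420) (nat_lit 14) (nat_lit 5) (nat_lit 16) (nat_lit 4) (nat_lit 14) (nat_lit 4) (nat_lit 375) (nat_lit 240) (nat_lit 165)))) (XT.nd (nat_lit 156) (nat_lit 76) (nat_lit 0) (XT.nd (nat_lit 78) (nat_lit 76) (nat_lit 0) (XT.lf (nat_lit 0) (nat_lit 27876613814) (nat_lit 152) (nat_lit 2972965525) (nat_lit 0) (nat_lit 7930766587) (nat_lit 14) (nat_lit 5) (nat_lit 16) (nat_lit 4) (nat_lit 14) (nat_lit 4) (nat_lit 376) (nat_lit 240) (nat_lit 164)) (XT.lf (nat_lit 0) (nat_lit 5866059034) (nat_lit 76) (nat_lit 26973656507) (nat_lit 76) (nat_lit 6959093069) (nat_lit 13) (nat_lit 4) (nat_lit 14) (nat_lit 5) (nat_lit 14) (nat_lit 4) (nat_lit 377) (nat_lit 240) (nat_lit 163))) (XT.nd (nat_lit 78) (nat_lit 76) (nat_lit 0) (XT.lf (nat_lit 0) (nat_lit 14986032500) (nat_lit 76) (nat_lit 22971451521) (nat_lit 76) (nat_lit 2890173315) (nat_lit 13) (nat_lit 4) (nat_lit 14) (nat_lit 5) (nat_lit 14) (nat_lit 4)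 (nat_lit 378) (nat_lit 240) (nat_lit 162)) (XT.lf (nat_lit 0) (nat_lit 1251651083) (nat_lit 152) (nat_lit 17605198125) (nat_lit 76) (nat_lit 23071465633) (nat_lit 12) (nat_lit 5) (nat_lit 14) (nat_lit 5) (nat_lit 13) (nat_lit 4) (nat_lit 379) (nat_lit 240) (nat_lit 161)))))) (XT.nd (nat_lit 546) (nat_lit 228) (nat_lit 0) (XT.nd (nat_lit 234) (nat_lit 0) (nat_lit 0) (XT.nd (nat_lit 78) (nat_lit 76) (nat_lit 0) (XT.lf (nat_lit 0) (nat_lit 5436553814) (nat_lit 152) (nat_lit 9172730646) (nat_lit 76) (nat_lit 28431946661) (nat_lit 12) (nat_lit 5) (nat_lit 14) (nat_lit 5) (nat_lit 13) (nat_lit 4) (nat_lit 380) (nat_lit 240) (nat_lit 160)) (XT.nd (nat_lit 78) (nat_lit 76) (nat_lit 0) (XT.lf (nat_lit 0) (nat_lit 9724589281) (nat_lit 152) (nat_lit 529072111) (nat_lit 76) (nat_lit 33934550700) (nat_lit 12) (nat_lit 5) (nat_lit 14) (nat_lit 5) (nat_lit 13) (nat_lit 4) (nat_lit 381) (nat_lit 240) (nat_lit 159))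 (XT.lf (nat_lit 0) (nat_lit 8499179801) (nat_lit 76) (nat_lit 5702023825) (nat_lit 152) (nat_lit 31166605367) (nat_lit 11) (nat_lit 5) (nat_lit 12) (nat_lit 5) (nat_lit 13) (nat_lit 4) (nat_lit 382) (nat_lit 240) (nat_lit 158)))) (XT.nd (nat_lit 156) (nat_lit 0) (nat_lit 0) (XT.nd (nat_lit 78) (nat_lit 0) (nat_lit 0) (XT.lf (nat_lit 0) (nat_lit 17768956448) (nat_lit 76) (nat_lit 1026988750) (nat_lit 152) (nat_lit 27787338236) (nat_lit 11) (nat_lit 5) (nat_lit 12) (nat_lit 5) (nat_lit 13) (nat_lit 4) (nat_lit 383) (nat_lit 240) (nat_lit 157)) (XT.lf (nat_lit 0) (nat_lit 23543883176) (nat_lit 152) (nat_lit 20594266365) (nat_lit 0) (nat_lit 3696616310) (nat_lit 11) (nat_lit 5) (nat_lit 13) (nat_lit 4) (nat_lit 11) (nat_lit 4) (nat_lit 384) (nat_lit 240) (nat_lit 156))) (XT.nd (nat_lit 78) (nat_lit 0) (nat_lit 0) (XT.lf (nat_lit 0) (nat_lit 28423979659) (nat_lit 152) (nat_lit 12176078169) (nat_lit 0)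 (nat_lit 8524047540) (nat_lit 11) (nat_lit 5) (nat_lit 13) (nat_lit 4) (nat_lit 11) (nat_lit 4) (nat_lit 385) (nat_lit 240) (nat_lit 155)) (XT.lf (nat_lit 0) (nat_lit 33430626767) (nat_lit 152) (nat_lit 3542534656) (nat_lit 0) (nat_lit 13479563333) (nat_lit 11) (nat_lit 5) (nat_lit 13) (nat_lit 4) (nat_lit 11) (nat_lit 4) (nat_lit 386) (nat_lit 240) (nat_lit 154))))) (XT.nd (nat_lit 234) (nat_lit 152) (nat_lit 0) (XT.nd (nat_lit 78) (nat_lit 0) (nat_lit 0) (XT.lf (nat_lit 0) (nat_lit 5419665235) (nat_lit 76) (nat_lit 33200631141) (nat_lit 76) (nat_lit 13199925654) (nat_lit 10) (nat_lit 4) (nat_lit 11) (nat_lit 5) (nat_lit 11) (nat_lit 4) (nat_lit 387) (nat_lit 240) (nat_lit 153)) (XT.nd (nat_lit 78) (nat_lit 0) (nat_lit 0) (XT.lf (nat_lit 0) (nat_lit 14687596488) (nat_lit 76) (nat_lit 29294775889) (nat_lit 76) (nat_lit 9245874236) (nat_lit 10) (nat_lit 4) (nat_lit 11) (nat_lit 5) (nat_lit 11) (nat_lit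 4) (nat_lit 388) (nat_lit 240) (nat_lit 152)) (XT.lf (nat_lit 0) (nat_lit 24198853907) (nat_lit 76) (nat_lit 25287955441) (nat_lit 76) (nat_lit 5192261392) (nat_lit 10) (nat_lit 4) (nat_lit 11) (nat_lit 5) (nat_lit 11) (nat_lit 4) (nat_lit 389) (nat_lit 240) (nat_lit 151)))) (XT.nd (nat_lit 156) (nat_lit 76) (nat_lit 0) (XT.nd (nat_lit 78) (nat_lit 76) (nat_lit 0) (XT.lf (nat_lit 0) (nat_lit 33961748301) (nat_lit 76) (nat_lit 21176668690) (nat_lit 76) (nat_lit 1035545130) (nat_lit 10) (nat_lit 4) (nat_lit 11) (nat_lit 5) (nat_lit 11) (nat_lit 4) (nat_lit 390) (nat_lit 240) (nat_lit 150)) (XT.lf (nat_lit 0) (nat_lit 3164918545) (nat_lit 152) (nat_lit 13760445233) (nat_lit 76) (nat_lit 40787932336) (nat_lit 9) (nat_lit 5) (nat_lit 11) (nat_lit 5) (nat_lit 10) (nat_lit 4) (nat_lit 391) (nat_lit 240) (nat_lit 149))) (XT.nd (nat_lit 78) (nat_lit 76) (nat_lit 0) (XT.lf (nat_lit 0) (nat_lit 7453480362)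 (nat_lit 152) (nat_lit 5097486414) (nat_lit 76) (nat_lit 46748052180) (nat_lit 9) (nat_lit 5) (nat_lit 11) (nat_lit 5) (nat_lit 10) (nat_lit 4) (nat_lit 392) (nat_lit 240) (nat_lit 148)) (XT.lf (nat_lit 0) (nat_lit 3869698255) (nat_lit 76) (nat_lit 8021594475) (nat_lit 152) (nat_lit 49040406193) (nat_lit 8) (nat_lit 5) (nat_lit 9) (nat_lit 5) (nat_lit 10) (nat_lit 4) (nat_lit 393) (nat_lit 240) (nat_lit 147))))))) (XT.nd (nat_lit 1092) (nat_lit 76) (nat_lit 0) (XT.nd (nat_lit 546) (nat_lit 76) (nat_lit 0) (XT.nd (nat_lit 234) (nat_lit 76) (nat_lit 0) (XT.nd (nat_lit 78) (nat_lit 0) (nat_lit 0) (XT.lf (nat_lit 0) (nat_lit 13179522908) (nat_lit 76) (nat_lit 3317773854) (nat_lit 152) (nat_lit 46115013962) (nat_lit 8) (nat_lit 5) (nat_lit 9) (nat_lit 5) (nat_lit 10) (nat_lit 4) (nat_lit 394) (nat_lit 240) (nat_lit 146)) (XT.nd (nat_lit 78) (nat_lit 0) (nat_lit 0) (XT.lf (nat_lit 0) (nat_lit 21240086901)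 (nat_lit 152) (nat_lit 41619694886) (nat_lit 0) (nat_lit 1483603975) (nat_lit 8) (nat_lit 5) (nat_lit 10) (nat_lit 4) (nat_lit 8) (nat_lit 4) (nat_lit 395) (nat_lit 240) (nat_lit 145)) (XT.lf (nat_lit 0) (nat_lit 26142404143) (nat_lit 152) (nat_lit 33634491714) (nat_lit 0) (nat_lit 6348982868) (nat_lit 8) (nat_lit 5) (nat_lit 10) (nat_lit 4) (nat_lit 8) (nat_lit 4) (nat_lit 396) (nat_lit 240) (nat_lit 144)))) (XT.nd (nat_lit 156) (nat_lit 76) (nat_lit 0) (XT.nd (nat_lit 78) (nat_lit 0) (nat_lit 0) (XT.lf (nat_lit 0) (nat_lit 31176639594) (nat_lit 152) (nat_lit 25438308464) (nat_lit 0) (nat_lit 11347355844) (nat_lit 8) (nat_lit 5) (nat_lit 10) (nat_lit 4) (nat_lit 8) (nat_lit 4) (nat_lit 397) (nat_lit 240) (nat_lit 143)) (XT.lf (nat_lit 0) (nat_lit 36347192100) (nat_lit 152) (nat_lit 17023983423) (nat_lit 0) (nat_lit 16483090413) (nat_lit 8) (nat_lit 5) (nat_lit 10) (nat_lit 4) (nat_lit 8) (nat_lit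 4) (nat_lit 398) (nat_lit 240) (nat_lit 142))) (XT.nd (nat_lit 78) (nat_lit 76) (nat_lit 0) (XT.lf (nat_lit 0) (nat_lit 41658579621) (nat_lit 152) (nat_lit 8384164270) (nat_lit 0) (nat_lit 21760674112) (nat_lit 8) (nat_lit 5) (nat_lit 10) (nat_lit 4) (nat_lit 8) (nat_lit 4) (nat_lit 399) (nat_lit 240) (nat_lit 141)) (XT.lf (nat_lit 0) (nat_lit 498424408) (nat_lit 76) (nat_lit 46621809925) (nat_lit 76) (nat_lit 26691085171) (nat_lit 7) (nat_lit 4) (nat_lit 8) (nat_lit 5) (nat_lit 8) (nat_lit 4) (nat_lit 400) (nat_lit 240) (nat_lit 140))))) (XT.nd (nat_lit 234) (nat_lit 76) (nat_lit 0) (XT.nd (nat_lit 78) (nat_lit 0) (nat_lit 0) (XT.lf (nat_lit 0) (nat_lit 9793463173) (nat_lit 76) (nat_lit 43023228476) (nat_lit 76) (nat_lit 23060640378) (nat_lit 7) (nat_lit 4) (nat_lit 8) (nat_lit 5) (nat_lit 8) (nat_lit 4) (nat_lit 401) (nat_lit 240) (nat_lit 139)) (XT.nd (nat_lit 78) (nat_lit 0) (nat_lit 0) (XT.lf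 (nat_lit 0) (nat_lit 19342212595) (nat_lit 76) (nat_lit 39328518773) (nat_lit 76) (nat_lit 19334995389) (nat_lit 7) (nat_lit 4) (nat_lit 8) (nat_lit 5) (nat_lit 8) (nat_lit 4) (nat_lit 402) (nat_lit 240) (nat_lit 138)) (XT.lf (nat_lit 0) (nat_lit 29153016242) (nat_lit 76) (nat_lit 35534452428) (nat_lit 76) (nat_lit 15510894785) (nat_lit 7) (nat_lit 4) (nat_lit 8) (nat_lit 5) (nat_lit 8) (nat_lit 4) (nat_lit 403) (nat_lit 240) (nat_lit 137)))) (XT.nd (nat_lit 156) (nat_lit 76) (nat_lit 0) (XT.nd (nat_lit 78) (nat_lit 0) (nat_lit 0) (XT.lf (nat_lit 0) (nat_lit 39234446659) (nat_lit 76) (nat_lit 31637714237) (nat_lit 76) (nat_lit 11584997121) (nat_lit 7) (nat_lit 4) (nat_lit 8) (nat_lit 5) (nat_lit 8) (nat_lit 4) (nat_lit 404) (nat_lit 240) (nat_lit 136)) (XT.lf (nat_lit 0) (nat_lit 49595312865) (nat_lit 76) (nat_lit 27634899284) (nat_lit 76) (nat_lit 7553871999) (nat_lit 7) (nat_lit 4) (nat_lit 8)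 (nat_lit 5) (nat_lit 8) (nat_lit 4) (nat_lit 405) (nat_lit 240) (nat_lit 135))) (XT.nd (nat_lit 78) (nat_lit 76) (nat_lit 0) (XT.lf (nat_lit 0) (nat_lit 60244668042) (nat_lit 76) (nat_lit 23522509963) (nat_lit 76) (nat_lit 3413997077) (nat_lit 7) (nat_lit 4) (nat_lit 8) (nat_lit 5) (nat_lit 8) (nat_lit 4) (nat_lit 406) (nat_lit 240) (nat_lit 134)) (XT.lf (nat_lit 0) (nat_lit 821887830) (nat_lit 152) (nat_lit 18466765638) (nat_lit 76) (nat_lit 70361630167) (nat_lit 6) (nat_lit 5) (nat_lit 8) (nat_lit 5) (nat_lit 7) (nat_lit 4) (nat_lit 407) (nat_lit 240) (nat_lit 133)))))) (XT.nd (nat_lit 32214) (nat_lit 0) (nat_lit 7448) (XT.nd (nat_lit 234) (nat_lit 0) (nat_lit 0) (XT.nd (nat_lit 78) (nat_lit 76) (nat_lit 0) (XT.lf (nat_lit 0) (nat_lit 5104970885) (nat_lit 152) (nat_lit 9798014853) (nat_lit 76) (nat_lit 77289805487) (nat_lit 6) (nat_lit 5) (nat_lit 8) (nat_lit 5) (nat_lit 7) (nat_lit 4) (nat_lit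 408) (nat_lit 240) (nat_lit 132)) (XT.nd (nat_lit 78) (nat_lit 76) (nat_lit 0) (XT.lf (nat_lit 0) (nat_lit 9505613964) (nat_lit 152) (nat_lit 889862620) (nat_lit 76) (nat_lit 84416427398) (nat_lit 6) (nat_lit 5) (nat_lit 8) (nat_lit 5) (nat_lit 7) (nat_lit 4) (nat_lit 409) (nat_lit 240) (nat_lit 131)) (XT.lf (nat_lit 0) (nat_lit 8429974039) (nat_lit 76) (nat_lit 5678722319) (nat_lit 152) (nat_lit 83398783072) (nat_lit 5) (nat_lit 5) (nat_lit 6) (nat_lit 5) (nat_lit 7) (nat_lit 4) (nat_lit 410) (nat_lit 240) (nat_lit 130)))) (XT.nd (nat_lit 31824) (nat_lit 0) (nat_lit 9956) (XT.nd (nat_lit 78) (nat_lit 0) (nat_lit 0) (XT.lf (nat_lit 0) (nat_lit 18027784473) (nat_lit 76) (nat_lit 820576789) (nat_lit 152) (nat_lit 81435608032) (nat_lit 5) (nat_lit 5) (nat_lit 6) (nat_lit 5) (nat_lit 7) (nat_lit 4) (nat_lit 411) (nat_lit 240) (nat_lit 129)) (XT.lf (nat_lit 0) (nat_lit 23760151135) (nat_lit 152) (nat_lit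 75289941398) (nat_lit 0) (nat_lit 4092765069) (nat_lit 5) (nat_lit 5) (nat_lit 7) (nat_lit 4) (nat_lit 5) (nat_lit 4) (nat_lit 412) (nat_lit 240) (nat_lit 128))) (XT.nd (nat_lit 78) (nat_lit 456) (nat_lit 0) (XT.lf (nat_lit 0) (nat_lit 3749109153) (nat_lit 456) (nat_lit 157330358) (nat_lit 456) (nat_lit 157330358) (nat_lit 142) (nat_lit 4) (nat_lit 148) (nat_lit 5) (nat_lit 148) (nat_lit 4) (nat_lit 298) (nat_lit 241) (nat_lit 241)) (XT.lf (nat_lit 0) (nat_lit 3288640902) (nat_lit 456) (nat_lit 2818345671) (nat_lit 0) (nat_lit 2115276867) (nat_lit 136) (nat_lit 5) (nat_lit 142) (nat_lit 4) (nat_lit 136) (nat_lit 4) (nat_lit 299) (nat_lit 241) (nat_lit 240))))) (XT.nd (nat_lit 312) (nat_lit 1140) (nat_lit 0) (XT.nd (nat_lit 156) (nat_lit 456) (nat_lit 0) (XT.nd (nat_lit 78) (nat_lit 456) (nat_lit 0) (XT.lf (nat_lit 0) (nat_lit 3248560560) (nat_lit 456) (nat_lit 3692696383) (nat_lit 456) (nat_lit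 1380143965) (nat_lit 130) (nat_lit 4) (nat_lit 136) (nat_lit 5) (nat_lit 136) (nat_lit 4) (nat_lit 300) (nat_lit 241) (nat_lit 239)) (XT.lf (nat_lit 0) (nat_lit 1009379941) (nat_lit 380) (nat_lit 1171871536) (nat_lit 456) (nat_lit 6243315917) (nat_lit 124) (nat_lit 5) (nat_lit 129) (nat_lit 5) (nat_lit 130) (nat_lit 4) (nat_lit 301) (nat_lit 241) (nat_lit 238))) (XT.nd (nat_lit 78) (nat_lit 456) (nat_lit 0) (XT.lf (nat_lit 0) (nat_lit 5795810182) (nat_lit 456) (nat_lit 1301170250) (nat_lit 0) (nat_lit 1434300601) (nat_lit 124) (nat_lit 5) (nat_lit 130) (nat_lit 4) (nat_lit 124) (nat_lit 4) (nat_lit 302) (nat_lit 241) (nat_lit 237)) (XT.lf (nat_lit 0) (nat_lit 830718605) (nat_lit 456) (nat_lit 3687304934) (nat_lit 76) (nat_lit 4123891540) (nat_lit 118) (nat_lit 5) (nat_lit 124) (nat_lit 5) (nat_lit 119) (nat_lit 4) (nat_lit 303) (nat_lit 241) (nat_lit 236)))) (XT.nd (nat_lit 156) (nat_lit 380) (nat_lit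 0) (XT.nd (nat_lit 78) (nat_lit 380) (nat_lit 0) (XT.lf (nat_lit 0) (nat_lit 2573076650) (nat_lit 380) (nat_lit 1825649586) (nat_lit 456) (nat_lit 4357911821) (nat_lit 113) (nat_lit 5) (nat_lit 118) (nat_lit 5) (nat_lit 119) (nat_lit 4) (nat_lit 304) (nat_lit 241) (nat_lit 235)) (XT.lf (nat_lit 0) (nat_lit 95160052) (nat_lit 380) (nat_lit 7939183071) (nat_lit 380) (nat_lit 841717102) (nat_lit 108) (nat_lit 4) (nat_lit 113) (nat_lit 5) (nat_lit 113) (nat_lit 4) (nat_lit 305) (nat_lit 241) (nat_lit 234))) (XT.nd (nat_lit 78) (nat_lit 304) (nat_lit 0) (XT.lf (nat_lit 0) (nat_lit 2720265891) (nat_lit 456) (nat_lit 2474612039) (nat_lit 76) (nat_lit 3803619251) (nat_lit 107) (nat_lit 5) (nat_lit 113) (nat_lit 5) (nat_lit 108) (nat_lit 4) (nat_lit 306) (nat_lit 241) (nat_lit 233)) (XT.lf (nat_lit 0) (nat_lit 3972570793) (nat_lit 304) (nat_lit 2353742324) (nat_lit 380) (nat_lit 2799488682) (nat_lit 103)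 (nat_lit 5) (nat_lit 107) (nat_lit 5) (nat_lit 108) (nat_lit 4) (nat_lit 307) (nat_lit 241) (nat_lit 232))))))))
noncomputable def xc58 : XT := (XT.nd (nat_lit 2184) (nat_lit 1900) (nat_lit 0) (XT.nd (nat_lit 1092) (nat_lit 1824) (nat_lit 0) (XT.nd (nat_lit 546) (nat_lit 1064) (nat_lit 0) (XT.nd (nat_lit 234) (nat_lit 988) (nat_lit 0) (XT.nd (nat_lit 78) (nat_lit 304) (nat_lit 0) (XT.lf (nat_lit 0) (nat_lit 728132741) (nat_lit 380) (nat_lit 7956364302) (nat_lit 76) (nat_lit 573472632) (nat_lit 98) (nat_lit 5) (nat_lit 103) (nat_lit 5) (nat_lit 99) (nat_lit 4) (nat_lit 308) (nat_lit 241) (nat_lit 231)) (XT.nd (nat_lit 78) (nat_lit 304) (nat_lit 0) (XT.lf (nat_lit 0) (nat_lit 4298534045) (nat_lit 380) (nat_lit 1507453466) (nat_lit 76) (nat_lit 3587549449) (nat_lit 98) (nat_lit 5) (nat_lit 103) (nat_lit 5) (nat_lit 99) (nat_lit 4) (nat_lit 309) (nat_lit 241) (nat_lit 230)) (XT.lf (nat_lit 0) (nat_lit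 5119189664) (nat_lit 304) (nat_lit 2825834522) (nat_lit 380) (nat_lit 1589138409) (nat_lit 94) (nat_lit 5) (nat_lit 98) (nat_lit 5) (nat_lit 99) (nat_lit 4) (nat_lit 310) (nat_lit 241) (nat_lit 229)))) (XT.nd (nat_lit 156) (nat_lit 608) (nat_lit 0) (XT.nd (nat_lit 78) (nat_lit 0) (nat_lit 0) (XT.lf (nat_lit 0) (nat_lit 1941721931) (nat_lit 380) (nat_lit 7478059003) (nat_lit 76) (nat_lit 259921909) (nat_lit 89) (nat_lit 5) (nat_lit 94) (nat_lit 5) (nat_lit 90) (nat_lit 4) (nat_lit 311) (nat_lit 241) (nat_lit 228)) (XT.lf (nat_lit 0) (nat_lit 5540604991) (nat_lit 380) (nat_lit 882230930) (nat_lit 76) (nat_lit 3406535735) (nat_lit 89) (nat_lit 5) (nat_lit 94) (nat_lit 5) (nat_lit 90) (nat_lit 4) (nat_lit 312) (nat_lit 241) (nat_lit 227))) (XT.nd (nat_lit 78) (nat_lit 380) (nat_lit 0) (XT.lf (nat_lit 0) (nat_lit 5913202756) (nat_lit 228) (nat_lit 3314427551) (nat_lit 304) (nat_lit 756548823) (nat_lit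 86) (nat_lit 5) (nat_lit 89) (nat_lit 5) (nat_lit 90) (nat_lit 4) (nat_lit 313) (nat_lit 241) (nat_lit 226)) (XT.lf (nat_lit 0) (nat_lit 2697967171) (nat_lit 304) (nat_lit 86055453) (nat_lit 380) (nat_lit 7360069439) (nat_lit 81) (nat_lit 5) (nat_lit 85) (nat_lit 5) (nat_lit 86) (nat_lit 5) (nat_lit 314) (nat_lit 241) (nat_lit 225))))) (XT.nd (nat_lit 234) (nat_lit 532) (nat_lit 0) (XT.nd (nat_lit 78) (nat_lit 532) (nat_lit 0) (XT.lf (nat_lit 0) (nat_lit 6412717772) (nat_lit 380) (nat_lit 708108262) (nat_lit 76) (nat_lit 3187887560) (nat_lit 81) (nat_lit 5) (nat_lit 86) (nat_lit 5) (nat_lit 82) (nat_lit 4) (nat_lit 315) (nat_lit 241) (nat_lit 224)) (XT.nd (nat_lit 78) (nat_lit 304) (nat_lit 0) (XT.lf (nat_lit 0) (nat_lit 6241401949) (nat_lit 228) (nat_lit 3896379912) (nat_lit 304) (nat_lit 340914531) (nat_lit 78) (nat_lit 5) (nat_lit 81) (nat_lit 5) (nat_lit 82) (nat_lit 4) (nat_lit 316) (nat_lit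 241) (nat_lit 223)) (XT.lf (nat_lit 0) (nat_lit 2668435451) (nat_lit 228) (nat_lit 547427343) (nat_lit 304) (nat_lit 7438208002) (nat_lit 74) (nat_lit 5) (nat_lit 77) (nat_lit 5) (nat_lit 78) (nat_lit 5) (nat_lit 317) (nat_lit 241) (nat_lit 222)))) (XT.nd (nat_lit 156) (nat_lit 304) (nat_lit 0) (XT.nd (nat_lit 78) (nat_lit 228) (nat_lit 0) (XT.lf (nat_lit 0) (nat_lit 6871258786) (nat_lit 304) (nat_lit 1109642196) (nat_lit 76) (nat_lit 2853784970) (nat_lit 74) (nat_lit 5) (nat_lit 78) (nat_lit 5) (nat_lit 75) (nat_lit 4) (nat_lit 318) (nat_lit 241) (nat_lit 221)) (XT.lf (nat_lit 0) (nat_lit 5974352725) (nat_lit 228) (nat_lit 4654579774) (nat_lit 304) (nat_lit 392051115) (nat_lit 71) (nat_lit 5) (nat_lit 74) (nat_lit 5) (nat_lit 75) (nat_lit 4) (nat_lit 319) (nat_lit 241) (nat_lit 220))) (XT.nd (nat_lit 78) (nat_lit 0) (nat_lit 0) (XT.lf (nat_lit 0) (nat_lit 1978180492) (nat_lit 228) (nat_lit 1204531232)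 (nat_lit 304) (nat_lit 8030439533) (nat_lit 67) (nat_lit 5) (nat_lit 70) (nat_lit 5) (nat_lit 71) (nat_lit 5) (nat_lit 320) (nat_lit 241) (nat_lit 219)) (XT.lf (nat_lit 0) (nat_lit 6861538364) (nat_lit 304) (nat_lit 2229782012) (nat_lit 76) (nat_lit 2319544997) (nat_lit 67) (nat_lit 5) (nat_lit 71) (nat_lit 5) (nat_lit 68) (nat_lit 4) (nat_lit 321) (nat_lit 241) (nat_lit 218)))))) (XT.nd (nat_lit 546) (nat_lit 836) (nat_lit 0) (XT.nd (nat_lit 234) (nat_lit 456) (nat_lit 0) (XT.nd (nat_lit 78) (nat_lit 304) (nat_lit 0) (XT.lf (nat_lit 0) (nat_lit 4963256636) (nat_lit 228) (nat_lit 5679783745) (nat_lit 304) (nat_lit 971739000) (nat_lit 64) (nat_lit 5) (nat_lit 67) (nat_lit 5) (nat_lit 68) (nat_lit 4) (nat_lit 322) (nat_lit 241) (nat_lit 217)) (XT.nd (nat_lit 78) (nat_lit 0) (nat_lit 0) (XT.lf (nat_lit 0) (nat_lit 468956808) (nat_lit 228) (nat_lit 2151444945) (nat_lit 304) (nat_lit 9204857182) (nat_lit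 60) (nat_lit 5) (nat_lit 63) (nat_lit 5) (nat_lit 64) (nat_lit 5) (nat_lit 323) (nat_lit 241) (nat_lit 216)) (XT.lf (nat_lit 0) (nat_lit 6316325025) (nat_lit 304) (nat_lit 4233303479) (nat_lit 76) (nat_lit 1491703835) (nat_lit 60) (nat_lit 5) (nat_lit 64) (nat_lit 5) (nat_lit 61) (nat_lit 4) (nat_lit 324) (nat_lit 241) (nat_lit 215)))) (XT.nd (nat_lit 156) (nat_lit 228) (nat_lit 0) (XT.nd (nat_lit 78) (nat_lit 76) (nat_lit 0) (XT.lf (nat_lit 0) (nat_lit 3036356445) (nat_lit 152) (nat_lit 7072660128) (nat_lit 228) (nat_lit 2155328225) (nat_lit 58) (nat_lit 5) (nat_lit 60) (nat_lit 5) (nat_lit 61) (nat_lit 4) (nat_lit 325) (nat_lit 241) (nat_lit 214)) (XT.lf (nat_lit 0) (nat_lit 1470545057) (nat_lit 228) (nat_lit 2002189938) (nat_lit 76) (nat_lit 9021541753) (nat_lit 57) (nat_lit 5) (nat_lit 60) (nat_lit 5) (nat_lit 58) (nat_lit 5) (nat_lit 326) (nat_lit 241) (nat_lit 213))) (XT.nd (nat_lit 78) (nat_lit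 0) (nat_lit 0) (XT.lf (nat_lit 0) (nat_lit 5154103555) (nat_lit 304) (nat_lit 7310752245) (nat_lit 76) (nat_lit 265874511) (nat_lit 54) (nat_lit 5) (nat_lit 58) (nat_lit 5) (nat_lit 55) (nat_lit 4) (nat_lit 327) (nat_lit 241) (nat_lit 212)) (XT.lf (nat_lit 0) (nat_lit 8940934810) (nat_lit 304) (nat_lit 5093469) (nat_lit 76) (nat_lit 4028496051) (nat_lit 54) (nat_lit 5) (nat_lit 58) (nat_lit 5) (nat_lit 55) (nat_lit 4) (nat_lit 328) (nat_lit 241) (nat_lit 211))))) (XT.nd (nat_lit 234) (nat_lit 380) (nat_lit 0) (XT.nd (nat_lit 78) (nat_lit 304) (nat_lit 0) (XT.lf (nat_lit 0) (nat_lit 7567706455) (nat_lit 152) (nat_lit 5286180955) (nat_lit 228) (nat_lit 371398224) (nat_lit 52) (nat_lit 5) (nat_lit 54) (nat_lit 5) (nat_lit 55) (nat_lit 4) (nat_lit 329) (nat_lit 241) (nat_lit 210)) (XT.nd (nat_lit 78) (nat_lit 0) (nat_lit 0) (XT.lf (nat_lit 0) (nat_lit 1786450350) (nat_lit 228) (nat_lit 1505034061) (nat_lit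 304) (nat_lit 10192416446) (nat_lit 48) (nat_lit 5) (nat_lit 51) (nat_lit 5) (nat_lit 52) (nat_lit 5) (nat_lit 330) (nat_lit 241) (nat_lit 209)) (XT.lf (nat_lit 0) (nat_lit 7077830540) (nat_lit 304) (nat_lit 4306386286) (nat_lit 76) (nat_lit 2365342644) (nat_lit 48) (nat_lit 5) (nat_lit 52) (nat_lit 5) (nat_lit 49) (nat_lit 4) (nat_lit 331) (nat_lit 241) (nat_lit 208)))) (XT.nd (nat_lit 156) (nat_lit 152) (nat_lit 0) (XT.nd (nat_lit 78) (nat_lit 76) (nat_lit 0) (XT.lf (nat_lit 0) (nat_lit 3257611603) (nat_lit 152) (nat_lit 7708483410) (nat_lit 228) (nat_lit 3057468718) (nat_lit 46) (nat_lit 5) (nat_lit 48) (nat_lit 5) (nat_lit 49) (nat_lit 4) (nat_lit 332) (nat_lit 241) (nat_lit 207)) (XT.lf (nat_lit 0) (nat_lit 638435777) (nat_lit 228) (nat_lit 3272184574) (nat_lit 76) (nat_lit 10395414268) (nat_lit 45) (nat_lit 5) (nat_lit 48) (nat_lit 5) (nat_lit 46) (nat_lit 5) (nat_lit 333) (nat_lit 241) (nat_lit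 206))) (XT.nd (nat_lit 78) (nat_lit 0) (nat_lit 0) (XT.lf (nat_lit 0) (nat_lit 4370450264) (nat_lit 228) (nat_lit 10189573631) (nat_lit 76) (nat_lit 36470577) (nat_lit 43) (nat_lit 5) (nat_lit 46) (nat_lit 5) (nat_lit 44) (nat_lit 4) (nat_lit 334) (nat_lit 241) (nat_lit 205)) (XT.lf (nat_lit 0) (nat_lit 8230834290) (nat_lit 228) (nat_lit 2645465328) (nat_lit 76) (nat_lit 4018899089) (nat_lit 43) (nat_lit 5) (nat_lit 46) (nat_lit 5) (nat_lit 44) (nat_lit 4) (nat_lit 335) (nat_lit 241) (nat_lit 204))))))) (XT.nd (nat_lit 1092) (nat_lit 760) (nat_lit 0) (XT.nd (nat_lit 546) (nat_lit 380) (nat_lit 0) (XT.nd (nat_lit 234) (nat_lit 380) (nat_lit 0) (XT.nd (nat_lit 78) (nat_lit 228) (nat_lit 0) (XT.lf (nat_lit 0) (nat_lit 5132678298) (nat_lit 152) (nat_lit 7069632010) (nat_lit 228) (nat_lit 3000717543) (nat_lit 41) (nat_lit 5) (nat_lit 43) (nat_lit 5) (nat_lit 44) (nat_lit 4) (nat_lit 336) (nat_lit 241)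 (nat_lit 203)) (XT.nd (nat_lit 78) (nat_lit 152) (nat_lit 0) (XT.lf (nat_lit 0) (nat_lit 730823505) (nat_lit 228) (nat_lit 2421220798) (nat_lit 76) (nat_lit 12368653647) (nat_lit 40) (nat_lit 5) (nat_lit 43) (nat_lit 5) (nat_lit 41) (nat_lit 5) (nat_lit 337) (nat_lit 241) (nat_lit 202)) (XT.lf (nat_lit 0) (nat_lit 4522927046) (nat_lit 228) (nat_lit 10411998382) (nat_lit 76) (nat_lit 911833902) (nat_lit 38) (nat_lit 5) (nat_lit 41) (nat_lit 5) (nat_lit 39) (nat_lit 4) (nat_lit 338) (nat_lit 241) (nat_lit 201)))) (XT.nd (nat_lit 156) (nat_lit 228) (nat_lit 0) (XT.nd (nat_lit 78) (nat_lit 152) (nat_lit 0) (XT.lf (nat_lit 0) (nat_lit 8432660320) (nat_lit 228) (nat_lit 2727528122) (nat_lit 76) (nat_lit 5022317829) (nat_lit 38) (nat_lit 5) (nat_lit 41) (nat_lit 5) (nat_lit 39) (nat_lit 4) (nat_lit 339) (nat_lit 241) (nat_lit 200)) (XT.lf (nat_lit 0) (nat_lit 5201338706) (nat_lit 152) (nat_lit 7257827482)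 (nat_lit 228) (nat_lit 4069194160) (nat_lit 36) (nat_lit 5) (nat_lit 38) (nat_lit 5) (nat_lit 39) (nat_lit 4) (nat_lit 340) (nat_lit 241) (nat_lit 199))) (XT.nd (nat_lit 78) (nat_lit 228) (nat_lit 0) (XT.lf (nat_lit 0) (nat_lit 13337207961) (nat_lit 152) (nat_lit 3246921361) (nat_lit 228) (nat_lit 301149450) (nat_lit 36) (nat_lit 5) (nat_lit 38) (nat_lit 5) (nat_lit 39) (nat_lit 4) (nat_lit 341) (nat_lit 241) (nat_lit 198)) (XT.lf (nat_lit 0) (nat_lit 3512662206) (nat_lit 228) (nat_lit 12829930755) (nat_lit 76) (nat_lit 909219440) (nat_lit 33) (nat_lit 5) (nat_lit 36) (nat_lit 5) (nat_lit 34) (nat_lit 4) (nat_lit 342) (nat_lit 241) (nat_lit 197))))) (XT.nd (nat_lit 234) (nat_lit 304) (nat_lit 0) (XT.nd (nat_lit 78) (nat_lit 76) (nat_lit 0) (XT.lf (nat_lit 0) (nat_lit 7454508222) (nat_lit 228) (nat_lit 5045609435) (nat_lit 76) (nat_lit 5128561758) (nat_lit 33) (nat_lit 5) (nat_lit 36) (nat_lit 5)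 (nat_lit 34) (nat_lit 4) (nat_lit 343) (nat_lit 241) (nat_lit 196)) (XT.nd (nat_lit 78) (nat_lit 0) (nat_lit 0) (XT.lf (nat_lit 0) (nat_lit 2946710663) (nat_lit 76) (nat_lit 8548983552) (nat_lit 152) (nat_lit 6521742200) (nat_lit 32) (nat_lit 5) (nat_lit 33) (nat_lit 5) (nat_lit 34) (nat_lit 4) (nat_lit 344) (nat_lit 241) (nat_lit 195)) (XT.lf (nat_lit 0) (nat_lit 11200012651) (nat_lit 76) (nat_lit 4462398537) (nat_lit 152) (nat_lit 2755332112) (nat_lit 32) (nat_lit 5) (nat_lit 33) (nat_lit 5) (nat_lit 34) (nat_lit 4) (nat_lit 345) (nat_lit 241) (nat_lit 194)))) (XT.nd (nat_lit 156) (nat_lit 76) (nat_lit 0) (XT.nd (nat_lit 78) (nat_lit 0) (nat_lit 0) (XT.lf (nat_lit 0) (nat_lit 794809757) (nat_lit 152) (nat_lit 269205846) (nat_lit 228) (nat_lit 17766878342) (nat_lit 29) (nat_lit 5) (nat_lit 31) (nat_lit 5) (nat_lit 32) (nat_lit 5) (nat_lit 346) (nat_lit 241) (nat_lit 193)) (XT.lf (nat_lit 0) (nat_lit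 5009569715) (nat_lit 228) (nat_lit 10206494573) (nat_lit 76) (nat_lit 4037560917) (nat_lit 29) (nat_lit 5) (nat_lit 32) (nat_lit 5) (nat_lit 30) (nat_lit 4) (nat_lit 347) (nat_lit 241) (nat_lit 192))) (XT.nd (nat_lit 78) (nat_lit 76) (nat_lit 0) (XT.lf (nat_lit 0) (nat_lit 9031951839) (nat_lit 228) (nat_lit 2223317287) (nat_lit 76) (nat_lit 8435029680) (nat_lit 29) (nat_lit 5) (nat_lit 32) (nat_lit 5) (nat_lit 30) (nat_lit 4) (nat_lit 348) (nat_lit 241) (nat_lit 191)) (XT.lf (nat_lit 0) (nat_lit 6040890565) (nat_lit 76) (nat_lit 7149267077) (nat_lit 152) (nat_lit 6949474239) (nat_lit 28) (nat_lit 5) (nat_lit 29) (nat_lit 5) (nat_lit 30) (nat_lit 4) (nat_lit 349) (nat_lit 241) (nat_lit 190)))))) (XT.nd (nat_lit 546) (nat_lit 456) (nat_lit 0) (XT.nd (nat_lit 234) (nat_lit 76) (nat_lit 0) (XT.nd (nat_lit 78) (nat_lit 228) (nat_lit 0) (XT.lf (nat_lit 0) (nat_lit 14523004667) (nat_lit 76) (nat_lit 2930162901)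 (nat_lit 152) (nat_lit 3149889070) (nat_lit 28) (nat_lit 5) (nat_lit 29) (nat_lit 5) (nat_lit 30) (nat_lit 4) (nat_lit 350) (nat_lit 241) (nat_lit 189)) (XT.nd (nat_lit 78) (nat_lit 0) (nat_lit 0) (XT.lf (nat_lit 0) (nat_lit 741336812) (nat_lit 228) (nat_lit 18955006440) (nat_lit 76) (nat_lit 1384056650) (nat_lit 25) (nat_lit 5) (nat_lit 28) (nat_lit 5) (nat_lit 26) (nat_lit 4) (nat_lit 351) (nat_lit 241) (nat_lit 188)) (XT.lf (nat_lit 0) (nat_lit 4735619775) (nat_lit 228) (nat_lit 11003829746) (nat_lit 76) (nat_lit 5830201724) (nat_lit 25) (nat_lit 5) (nat_lit 28) (nat_lit 5) (nat_lit 26) (nat_lit 4) (nat_lit 352) (nat_lit 241) (nat_lit 187)))) (XT.nd (nat_lit 156) (nat_lit 0) (nat_lit 0) (XT.nd (nat_lit 78) (nat_lit 76) (nat_lit 0) (XT.lf (nat_lit 0) (nat_lit 8809550595) (nat_lit 228) (nat_lit 2886388743) (nat_lit 76) (nat_lit 10378858139) (nat_lit 25) (nat_lit 5) (nat_lit 28) (nat_lit 5) (nat_lit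 26) (nat_lit 4) (nat_lit 353) (nat_lit 241) (nat_lit 186)) (XT.lf (nat_lit 0) (nat_lit 5511967823) (nat_lit 76) (nat_lit 7507705602) (nat_lit 152) (nat_lit 9575017031) (nat_lit 24) (nat_lit 5) (nat_lit 25) (nat_lit 5) (nat_lit 26) (nat_lit 4) (nat_lit 354) (nat_lit 241) (nat_lit 185))) (XT.nd (nat_lit 78) (nat_lit 0) (nat_lit 0) (XT.lf (nat_lit 0) (nat_lit 14151965117) (nat_lit 76) (nat_lit 3194739727) (nat_lit 152) (nat_lit 5783768481) (nat_lit 24) (nat_lit 5) (nat_lit 25) (nat_lit 5) (nat_lit 26) (nat_lit 4) (nat_lit 355) (nat_lit 241) (nat_lit 184)) (XT.lf (nat_lit 0) (nat_lit 21777831946) (nat_lit 152) (nat_lit 711459449) (nat_lit 0) (nat_lit 1193820660) (nat_lit 24) (nat_lit 5) (nat_lit 26) (nat_lit 4) (nat_lit 24) (nat_lit 4) (nat_lit 356) (nat_lit 241) (nat_lit 183))))) (XT.nd (nat_lit 312) (nat_lit 152) (nat_lit 0) (XT.nd (nat_lit 156) (nat_lit 76) (nat_lit 0) (XT.nd (nat_lit 78) (nat_lit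 0) (nat_lit 0) (XT.lf (nat_lit 0) (nat_lit 2120043270) (nat_lit 228) (nat_lit 16411990812) (nat_lit 76) (nat_lit 5717565913) (nat_lit 21) (nat_lit 5) (nat_lit 24) (nat_lit 5) (nat_lit 22) (nat_lit 4) (nat_lit 357) (nat_lit 241) (nat_lit 182)) (XT.lf (nat_lit 0) (nat_lit 6198544667) (nat_lit 228) (nat_lit 8260465370) (nat_lit 76) (nat_lit 10374395228) (nat_lit 21) (nat_lit 5) (nat_lit 24) (nat_lit 5) (nat_lit 22) (nat_lit 4) (nat_lit 358) (nat_lit 241) (nat_lit 181))) (XT.nd (nat_lit 78) (nat_lit 0) (nat_lit 0) (XT.lf (nat_lit 0) (nat_lit 72558479) (nat_lit 76) (nat_lit 10292061541) (nat_lit 152) (nat_lit 15071157805) (nat_lit 20) (nat_lit 5) (nat_lit 21) (nat_lit 5) (nat_lit 22) (nat_lit 4) (nat_lit 359) (nat_lit 241) (nat_lit 180)) (XT.lf (nat_lit 0) (nat_lit 8761073245) (nat_lit 76) (nat_lit 5942960104) (nat_lit 152) (nat_lit 11350746960) (nat_lit 20) (nat_lit 5) (nat_lit 21) (nat_lit 5) (nat_lit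 22) (nat_lit 4) (nat_lit 360) (nat_lit 241) (nat_lit 179)))) (XT.nd (nat_lit 156) (nat_lit 152) (nat_lit 0) (XT.nd (nat_lit 78) (nat_lit 0) (nat_lit 0) (XT.lf (nat_lit 0) (nat_lit 17648271376) (nat_lit 76) (nat_lit 1491320042) (nat_lit 152) (nat_lit 7553791724) (nat_lit 20) (nat_lit 5) (nat_lit 21) (nat_lit 5) (nat_lit 22) (nat_lit 4) (nat_lit 361) (nat_lit 241) (nat_lit 178)) (XT.lf (nat_lit 0) (nat_lit 23704649419) (nat_lit 152) (nat_lit 639705402) (nat_lit 0) (nat_lit 3006905119) (nat_lit 20) (nat_lit 5) (nat_lit 22) (nat_lit 4) (nat_lit 20) (nat_lit 4) (nat_lit 362) (nat_lit 241) (nat_lit 177))) (XT.nd (nat_lit 78) (nat_lit 0) (nat_lit 0) (XT.lf (nat_lit 0) (nat_lit 431313519) (nat_lit 152) (nat_lit 19929235472) (nat_lit 76) (nat_lit 7666396494) (nat_lit 18) (nat_lit 5) (nat_lit 20) (nat_lit 5) (nat_lit 19) (nat_lit 4) (nat_lit 363) (nat_lit 241) (nat_lit 176)) (XT.lf (nat_lit 0) (nat_lit 4532523267)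 (nat_lit 152) (nat_lit 11707719118) (nat_lit 76) (nat_lit 12482356946) (nat_lit 18) (nat_lit 5) (nat_lit 20) (nat_lit 5) (nat_lit 19) (nat_lit 4) (nat_lit 364) (nat_lit 241) (nat_lit 175))))))))
noncomputable def xc59 : XT := (XT.nd (nat_lit 2184) (nat_lit 304) (nat_lit 0) (XT.nd (nat_lit 1092) (nat_lit 304) (nat_lit 0) (XT.nd (nat_lit 546) (nat_lit 152) (nat_lit 0) (XT.nd (nat_lit 234) (nat_lit 152) (nat_lit 0) (XT.nd (nat_lit 78) (nat_lit 76) (nat_lit 0) (XT.lf (nat_lit 0) (nat_lit 8725427091) (nat_lit 152) (nat_lit 3297036426) (nat_lit 76) (nat_lit 17417607428) (nat_lit 18) (nat_lit 5) (nat_lit 20) (nat_lit 5) (nat_lit 19) (nat_lit 4) (nat_lit 365) (nat_lit 241) (nat_lit 174)) (XT.nd (nat_lit 78) (nat_lit 0) (nat_lit 0) (XT.lf (nat_lit 0) (nat_lit 5415844373) (nat_lit 76) (nat_lit 7649904730) (nat_lit 152) (nat_lit 17112676332) (nat_lit 17) (nat_lit 5) (nat_lit 18) (nat_lit 5) (nat_lit 19) (nat_lit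 4) (nat_lit 366) (nat_lit 241) (nat_lit 173)) (XT.lf (nat_lit 0) (nat_lit 14402439715) (nat_lit 76) (nat_lit 3137060446) (nat_lit 152) (nat_lit 13399341251) (nat_lit 17) (nat_lit 5) (nat_lit 18) (nat_lit 5) (nat_lit 19) (nat_lit 4) (nat_lit 367) (nat_lit 241) (nat_lit 172)))) (XT.nd (nat_lit 156) (nat_lit 76) (nat_lit 0) (XT.nd (nat_lit 78) (nat_lit 76) (nat_lit 0) (XT.lf (nat_lit 0) (nat_lit 22132556735) (nat_lit 152) (nat_lit 8132259811) (nat_lit 0) (nat_lit 1457707751) (nat_lit 17) (nat_lit 5) (nat_lit 19) (nat_lit 4) (nat_lit 17) (nat_lit 4) (nat_lit 368) (nat_lit 241) (nat_lit 171)) (XT.lf (nat_lit 0) (nat_lit 448992665) (nat_lit 76) (nat_lit 26421212318) (nat_lit 76) (nat_lit 5659315694) (nat_lit 16) (nat_lit 4) (nat_lit 17) (nat_lit 5) (nat_lit 17) (nat_lit 4) (nat_lit 369) (nat_lit 241) (nat_lit 170))) (XT.nd (nat_lit 78) (nat_lit 76) (nat_lit 0) (XT.lf (nat_lit 0) (nat_lit 9402187760) (nat_lit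 76) (nat_lit 22401669328) (nat_lit 76) (nat_lit 1555260433) (nat_lit 16) (nat_lit 4) (nat_lit 17) (nat_lit 5) (nat_lit 17) (nat_lit 4) (nat_lit 370) (nat_lit 241) (nat_lit 169)) (XT.lf (nat_lit 0) (nat_lit 2592076996) (nat_lit 152) (nat_lit 15666543341) (nat_lit 76) (nat_lit 15955048846) (nat_lit 15) (nat_lit 5) (nat_lit 17) (nat_lit 5) (nat_lit 16) (nat_lit 4) (nat_lit 371) (nat_lit 241) (nat_lit 168))))) (XT.nd (nat_lit 234) (nat_lit 76) (nat_lit 0) (XT.nd (nat_lit 78) (nat_lit 76) (nat_lit 0) (XT.lf (nat_lit 0) (nat_lit 6805681396) (nat_lit 152) (nat_lit 7192587329) (nat_lit 76) (nat_lit 21095939757) (nat_lit 15) (nat_lit 5) (nat_lit 17) (nat_lit 5) (nat_lit 16) (nat_lit 4) (nat_lit 372) (nat_lit 241) (nat_lit 167)) (XT.nd (nat_lit 78) (nat_lit 0) (nat_lit 0) (XT.lf (nat_lit 0) (nat_lit 1516892860) (nat_lit 76) (nat_lit 9617271733) (nat_lit 152) (nat_lit 24867351292) (nat_lit 14) (nat_lit 5)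 (nat_lit 15) (nat_lit 5) (nat_lit 16) (nat_lit 4) (nat_lit 373) (nat_lit 241) (nat_lit 166)) (XT.lf (nat_lit 0) (nat_lit 10587277374) (nat_lit 76) (nat_lit 5052046121) (nat_lit 152) (nat_lit 21295320247) (nat_lit 14) (nat_lit 5) (nat_lit 15) (nat_lit 5) (nat_lit 16) (nat_lit 4) (nat_lit 374) (nat_lit 241) (nat_lit 165)))) (XT.nd (nat_lit 156) (nat_lit 76) (nat_lit 0) (XT.nd (nat_lit 78) (nat_lit 0) (nat_lit 0) (XT.lf (nat_lit 0) (nat_lit 19883345201) (nat_lit 76) (nat_lit 371233888) (nat_lit 152) (nat_lit 17641943788) (nat_lit 14) (nat_lit 5) (nat_lit 15) (nat_lit 5) (nat_lit 16) (nat_lit 4) (nat_lit 375) (nat_lit 241) (nat_lit 164)) (XT.lf (nat_lit 0) (nat_lit 25026540829) (nat_lit 152) (nat_lit 9517351355) (nat_lit 0) (nat_lit 4342824278) (nat_lit 14) (nat_lit 5) (nat_lit 16) (nat_lit 4) (nat_lit 14) (nat_lit 4) (nat_lit 376) (nat_lit 241) (nat_lit 163))) (XT.nd (nat_lit 78) (nat_lit 76) (nat_lit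 0) (XT.lf (nat_lit 0) (nat_lit 29921523733) (nat_lit 152) (nat_lit 814609211) (nat_lit 0) (nat_lit 9171092414) (nat_lit 14) (nat_lit 5) (nat_lit 16) (nat_lit 4) (nat_lit 14) (nat_lit 4) (nat_lit 377) (nat_lit 241) (nat_lit 162)) (XT.lf (nat_lit 0) (nat_lit 8267551327) (nat_lit 76) (nat_lit 26752157877) (nat_lit 76) (nat_lit 5936954939) (nat_lit 13) (nat_lit 4) (nat_lit 14) (nat_lit 5) (nat_lit 14) (nat_lit 4) (nat_lit 378) (nat_lit 241) (nat_lit 161)))))) (XT.nd (nat_lit 546) (nat_lit 152) (nat_lit 0) (XT.nd (nat_lit 234) (nat_lit 76) (nat_lit 0) (XT.nd (nat_lit 78) (nat_lit 76) (nat_lit 0) (XT.lf (nat_lit 0) (nat_lit 17596303302) (nat_lit 76) (nat_lit 22659907371) (nat_lit 76) (nat_lit 1781819367) (nat_lit 13) (nat_lit 4) (nat_lit 14) (nat_lit 5) (nat_lit 14) (nat_lit 4) (nat_lit 379) (nat_lit 241) (nat_lit 160)) (XT.nd (nat_lit 78) (nat_lit 0) (nat_lit 0) (XT.lf (nat_lit 0) (nat_lit 2426811527)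 (nat_lit 152) (nat_lit 16012714065) (nat_lit 76) (nat_lit 24712268164) (nat_lit 12) (nat_lit 5) (nat_lit 14) (nat_lit 5) (nat_lit 13) (nat_lit 4) (nat_lit 380) (nat_lit 241) (nat_lit 159)) (XT.lf (nat_lit 0) (nat_lit 6704127043) (nat_lit 152) (nat_lit 7389038776) (nat_lit 76) (nat_lit 30205932791) (nat_lit 12) (nat_lit 5) (nat_lit 14) (nat_lit 5) (nat_lit 13) (nat_lit 4) (nat_lit 381) (nat_lit 241) (nat_lit 158)))) (XT.nd (nat_lit 156) (nat_lit 0) (nat_lit 0) (XT.nd (nat_lit 78) (nat_lit 0) (nat_lit 0) (XT.lf (nat_lit 0) (nat_lit 1482899017) (nat_lit 76) (nat_lit 9619989866) (nat_lit 152) (nat_lit 34378144416) (nat_lit 11) (nat_lit 5) (nat_lit 12) (nat_lit 5) (nat_lit 13) (nat_lit 4) (nat_lit 382) (nat_lit 241) (nat_lit 157)) (XT.lf (nat_lit 0) (nat_lit 10733464663) (nat_lit 76) (nat_lit 4953876542) (nat_lit 152) (nat_lit 31009477364) (nat_lit 11) (nat_lit 5) (nat_lit 12) (nat_lit 5) (nat_lit 13)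 (nat_lit 4) (nat_lit 383) (nat_lit 241) (nat_lit 156))) (XT.nd (nat_lit 78) (nat_lit 0) (nat_lit 0) (XT.lf (nat_lit 0) (nat_lit 20223684820) (nat_lit 76) (nat_lit 165363463) (nat_lit 152) (nat_lit 27560641719) (nat_lit 11) (nat_lit 5) (nat_lit 12) (nat_lit 5) (nat_lit 13) (nat_lit 4) (nat_lit 384) (nat_lit 241) (nat_lit 155)) (XT.lf (nat_lit 0) (nat_lit 25257775749) (nat_lit 152) (nat_lit 19324547771) (nat_lit 0) (nat_lit 4657049098) (nat_lit 11) (nat_lit 5) (nat_lit 13) (nat_lit 4) (nat_lit 11) (nat_lit 4) (nat_lit 385) (nat_lit 241) (nat_lit 154))))) (XT.nd (nat_lit 234) (nat_lit 76) (nat_lit 0) (XT.nd (nat_lit 78) (nat_lit 76) (nat_lit 0) (XT.lf (nat_lit 0) (nat_lit 30254928251) (nat_lit 152) (nat_lit 10708791015) (nat_lit 0) (nat_lit 9604559548) (nat_lit 11) (nat_lit 5) (nat_lit 13) (nat_lit 4) (nat_lit 11) (nat_lit 4) (nat_lit 386) (nat_lit 241) (nat_lit 153)) (XT.nd (nat_lit 78) (nat_lit 76)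 (nat_lit 0) (XT.lf (nat_lit 0) (nat_lit 35383282659) (nat_lit 152) (nat_lit 1869617007) (nat_lit 0) (nat_lit 14684717788) (nat_lit 11) (nat_lit 5) (nat_lit 13) (nat_lit 4) (nat_lit 11) (nat_lit 4) (nat_lit 387) (nat_lit 241) (nat_lit 152)) (XT.lf (nat_lit 0) (nat_lit 7344005806) (nat_lit 76) (nat_lit 33373909330) (nat_lit 76) (nat_lit 12628552064) (nat_lit 10) (nat_lit 4) (nat_lit 11) (nat_lit 5) (nat_lit 11) (nat_lit 4) (nat_lit 388) (nat_lit 241) (nat_lit 151)))) (XT.nd (nat_lit 156) (nat_lit 76) (nat_lit 0) (XT.nd (nat_lit 78) (nat_lit 0) (nat_lit 0) (XT.lf (nat_lit 0) (nat_lit 16838661871) (nat_lit 76) (nat_lit 29374841744) (nat_lit 76) (nat_lit 8584054967) (nat_lit 10) (nat_lit 4) (nat_lit 11) (nat_lit 5) (nat_lit 11) (nat_lit 4) (nat_lit 389) (nat_lit 241) (nat_lit 150)) (XT.lf (nat_lit 0) (nat_lit 26585438446) (nat_lit 76) (nat_lit 25271082043) (nat_lit 76) (nat_lit 4436188946) (nat_lit 10)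 (nat_lit 4) (nat_lit 11) (nat_lit 5) (nat_lit 11) (nat_lit 4) (nat_lit 390) (nat_lit 241) (nat_lit 149))) (XT.nd (nat_lit 78) (nat_lit 76) (nat_lit 0) (XT.lf (nat_lit 0) (nat_lit 36592852130) (nat_lit 76) (nat_lit 21059044420) (nat_lit 76) (nat_lit 181329652) (nat_lit 10) (nat_lit 4) (nat_lit 11) (nat_lit 5) (nat_lit 11) (nat_lit 4) (nat_lit 391) (nat_lit 241) (nat_lit 148)) (XT.lf (nat_lit 0) (nat_lit 4102591145) (nat_lit 152) (nat_lit 12591029180) (nat_lit 76) (nat_lit 42725627994) (nat_lit 9) (nat_lit 5) (nat_lit 11) (nat_lit 5) (nat_lit 10) (nat_lit 4) (nat_lit 392) (nat_lit 241) (nat_lit 147))))))) (XT.nd (nat_lit 1092) (nat_lit 152) (nat_lit 0) (XT.nd (nat_lit 546) (nat_lit 76) (nat_lit 0) (XT.nd (nat_lit 234) (nat_lit 0) (nat_lit 0) (XT.nd (nat_lit 78) (nat_lit 76) (nat_lit 0) (XT.lf (nat_lit 0) (nat_lit 8495264427) (nat_lit 152) (nat_lit 3714265948) (nat_lit 76) (nat_lit 48843753636) (nat_lit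 9) (nat_lit 5) (nat_lit 11) (nat_lit 5) (nat_lit 10) (nat_lit 4) (nat_lit 393) (nat_lit 241) (nat_lit 146)) (XT.nd (nat_lit 78) (nat_lit 0) (nat_lit 0) (XT.lf (nat_lit 0) (nat_lit 5506874015) (nat_lit 76) (nat_lit 7550128273) (nat_lit 152) (nat_lit 49678223019) (nat_lit 8) (nat_lit 5) (nat_lit 9) (nat_lit 5) (nat_lit 10) (nat_lit 4) (nat_lit 394) (nat_lit 241) (nat_lit 145)) (XT.lf (nat_lit 0) (nat_lit 15051689966) (nat_lit 76) (nat_lit 2725934219) (nat_lit 152) (nat_lit 46689342673) (nat_lit 8) (nat_lit 5) (nat_lit 9) (nat_lit 5) (nat_lit 10) (nat_lit 4) (nat_lit 395) (nat_lit 241) (nat_lit 144)))) (XT.nd (nat_lit 156) (nat_lit 0) (nat_lit 0) (XT.nd (nat_lit 78) (nat_lit 0) (nat_lit 0) (XT.lf (nat_lit 0) (nat_lit 22646274381) (nat_lit 152) (nat_lit 41417947228) (nat_lit 0) (nat_lit 2186249644) (nat_lit 8) (nat_lit 5) (nat_lit 10) (nat_lit 4) (nat_lit 8) (nat_lit 4) (nat_lit 396) (nat_lit 241) (nat_lit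 143)) (XT.lf (nat_lit 0) (nat_lit 27673263523) (nat_lit 152) (nat_lit 33235430829) (nat_lit 0) (nat_lit 7178420849) (nat_lit 8) (nat_lit 5) (nat_lit 10) (nat_lit 4) (nat_lit 8) (nat_lit 4) (nat_lit 397) (nat_lit 241) (nat_lit 142))) (XT.nd (nat_lit 78) (nat_lit 0) (nat_lit 0) (XT.lf (nat_lit 0) (nat_lit 32836780777) (nat_lit 152) (nat_lit 24834374576) (nat_lit 0) (nat_lit 12308134281) (nat_lit 8) (nat_lit 5) (nat_lit 10) (nat_lit 4) (nat_lit 8) (nat_lit 4) (nat_lit 398) (nat_lit 241) (nat_lit 141)) (XT.lf (nat_lit 0) (nat_lit 38141337956) (nat_lit 152) (nat_lit 16207437740) (nat_lit 0) (nat_lit 17579872215) (nat_lit 8) (nat_lit 5) (nat_lit 10) (nat_lit 4) (nat_lit 8) (nat_lit 4) (nat_lit 399) (nat_lit 241) (nat_lit 140))))) (XT.nd (nat_lit 234) (nat_lit 0) (nat_lit 0) (XT.nd (nat_lit 78) (nat_lit 76) (nat_lit 0) (XT.lf (nat_lit 0) (nat_lit 43591570109) (nat_lit 152) (nat_lit 7347082221) (nat_lit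 0) (nat_lit 22998241024) (nat_lit 8) (nat_lit 5) (nat_lit 10) (nat_lit 4) (nat_lit 8) (nat_lit 4) (nat_lit 400) (nat_lit 241) (nat_lit 139)) (XT.nd (nat_lit 78) (nat_lit 0) (nat_lit 0) (XT.lf (nat_lit 0) (nat_lit 1789350715) (nat_lit 76) (nat_lit 47420089193) (nat_lit 76) (nat_lit 26795824822) (nat_lit 7) (nat_lit 4) (nat_lit 8) (nat_lit 5) (nat_lit 8) (nat_lit 4) (nat_lit 401) (nat_lit 241) (nat_lit 138)) (XT.lf (nat_lit 0) (nat_lit 11326076365) (nat_lit 76) (nat_lit 43731036952) (nat_lit 76) (nat_lit 23076738323) (nat_lit 7) (nat_lit 4) (nat_lit 8) (nat_lit 5) (nat_lit 8) (nat_lit 4) (nat_lit 402) (nat_lit 241) (nat_lit 137)))) (XT.nd (nat_lit 156) (nat_lit 0) (nat_lit 0) (XT.nd (nat_lit 78) (nat_lit 0) (nat_lit 0) (XT.lf (nat_lit 0) (nat_lit 21125206445) (nat_lit 76) (nat_lit 39942463289) (nat_lit 76) (nat_lit 19259005186) (nat_lit 7) (nat_lit 4) (nat_lit 8) (nat_lit 5) (nat_lit 8) (nat_lit 4)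 (nat_lit 403) (nat_lit 241) (nat_lit 136)) (XT.lf (nat_lit 0) (nat_lit 31195303304) (nat_lit 76) (nat_lit 36051057800) (nat_lit 76) (nat_lit 15339289527) (nat_lit 7) (nat_lit 4) (nat_lit 8) (nat_lit 5) (nat_lit 8) (nat_lit 4) (nat_lit 404) (nat_lit 241) (nat_lit 135))) (XT.nd (nat_lit 78) (nat_lit 0) (nat_lit 0) (XT.lf (nat_lit 0) (nat_lit 41545166054) (nat_lit 76) (nat_lit 32053420226) (nat_lit 76) (nat_lit 11314166353) (nat_lit 7) (nat_lit 4) (nat_lit 8) (nat_lit 5) (nat_lit 8) (nat_lit 4) (nat_lit 405) (nat_lit 241) (nat_lit 134)) (XT.lf (nat_lit 0) (nat_lit 52183838265) (nat_lit 76) (nat_lit 27946057488) (nat_lit 76) (nat_lit 7180118565) (nat_lit 7) (nat_lit 4) (nat_lit 8) (nat_lit 5) (nat_lit 8) (nat_lit 4) (nat_lit 406) (nat_lit 241) (nat_lit 133)))))) (XT.nd (nat_lit 32058) (nat_lit 0) (nat_lit 8208) (XT.nd (nat_lit 234) (nat_lit 76) (nat_lit 0) (XT.nd (nat_lit 78) (nat_lit 76) (nat_lit 0)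 (XT.lf (nat_lit 0) (nat_lit 63120615864) (nat_lit 76) (nat_lit 23725380626) (nat_lit 76) (nat_lit 2933533889) (nat_lit 7) (nat_lit 4) (nat_lit 8) (nat_lit 5) (nat_lit 8) (nat_lit 4) (nat_lit 407) (nat_lit 241) (nat_lit 132)) (XT.nd (nat_lit 78) (nat_lit 0) (nat_lit 0) (XT.lf (nat_lit 0) (nat_lit 1401407525) (nat_lit 152) (nat_lit 17972142678) (nat_lit 76) (nat_lit 72949496265) (nat_lit 6) (nat_lit 5) (nat_lit 8) (nat_lit 5) (nat_lit 7) (nat_lit 4) (nat_lit 408) (nat_lit 241) (nat_lit 131)) (XT.lf (nat_lit 0) (nat_lit 5796822011) (nat_lit 152) (nat_lit 9073871872) (nat_lit 76) (nat_lit 80071623141) (nat_lit 6) (nat_lit 5) (nat_lit 8) (nat_lit 5) (nat_lit 7) (nat_lit 4) (nat_lit 409) (nat_lit 241) (nat_lit 130)))) (XT.nd (nat_lit 156) (nat_lit 0) (nat_lit 0) (XT.nd (nat_lit 78) (nat_lit 0) (nat_lit 0) (XT.lf (nat_lit 0) (nat_lit 73302406) (nat_lit 76) (nat_lit 10241196255) (nat_lit 152) (nat_lit 87325956897)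 (nat_lit 5) (nat_lit 5) (nat_lit 6) (nat_lit 5) (nat_lit 7) (nat_lit 4) (nat_lit 410) (nat_lit 241) (nat_lit 129)) (XT.lf (nat_lit 0) (nat_lit 9661613276) (nat_lit 76) (nat_lit 5387530522) (nat_lit 152) (nat_lit 85367953102) (nat_lit 5) (nat_lit 5) (nat_lit 6) (nat_lit 5) (nat_lit 7) (nat_lit 4) (nat_lit 411) (nat_lit 241) (nat_lit 128))) (XT.nd (nat_lit 31590) (nat_lit 0) (nat_lit 10868) (XT.lf (nat_lit 0) (nat_lit 19518851032) (nat_lit 76) (nat_lit 397083930) (nat_lit 152) (nat_lit 83361401067) (nat_lit 5) (nat_lit 5) (nat_lit 6) (nat_lit 5) (nat_lit 7) (nat_lit 4) (nat_lit 412) (nat_lit 241) (nat_lit 127)) (XT.lf (nat_lit 0) (nat_lit 904939497) (nat_lit 532) (nat_lit 2163127181) (nat_lit 0) (nat_lit 904939497) (nat_lit 148) (nat_lit 5) (nat_lit 155) (nat_lit 4) (nat_lit 148) (nat_lit 4) (nat_lit 296) (nat_lit 242) (nat_lit 242))))) (XT.nd (nat_lit 312) (nat_lit 1292) (nat_lit 0) (XT.nd (nat_lit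 156) (nat_lit 836) (nat_lit 0) (XT.nd (nat_lit 78) (nat_lit 76) (nat_lit 0) (XT.lf (nat_lit 0) (nat_lit 1484038361) (nat_lit 456) (nat_lit 3898068879) (nat_lit 456) (nat_lit 2653246974) (nat_lit 142) (nat_lit 4) (nat_lit 148) (nat_lit 5) (nat_lit 148) (nat_lit 4) (nat_lit 297) (nat_lit 242) (nat_lit 241)) (XT.lf (nat_lit 0) (nat_lit 865401971) (nat_lit 532) (nat_lit 696620857) (nat_lit 76) (nat_lit 6566693460) (nat_lit 141) (nat_lit 5) (nat_lit 148) (nat_lit 5) (nat_lit 142) (nat_lit 4) (nat_lit 298) (nat_lit 242) (nat_lit 240))) (XT.nd (nat_lit 78) (nat_lit 456) (nat_lit 0) (XT.lf (nat_lit 0) (nat_lit 4403985164) (nat_lit 456) (nat_lit 2938298820) (nat_lit 0) (nat_lit 882867790) (nat_lit 136) (nat_lit 5) (nat_lit 142) (nat_lit 4) (nat_lit 136) (nat_lit 4) (nat_lit 299) (nat_lit 242) (nat_lit 239)) (XT.lf (nat_lit 0) (nat_lit 3067709203) (nat_lit 456) (nat_lit 4942569545) (nat_lit 456) (nat_lit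 315444031) (nat_lit 130) (nat_lit 4) (nat_lit 136) (nat_lit 5) (nat_lit 136) (nat_lit 4) (nat_lit 300) (nat_lit 242) (nat_lit 238)))) (XT.nd (nat_lit 156) (nat_lit 836) (nat_lit 0) (XT.nd (nat_lit 78) (nat_lit 0) (nat_lit 0) (XT.lf (nat_lit 0) (nat_lit 751204381) (nat_lit 380) (nat_lit 2427181926) (nat_lit 456) (nat_lit 5251640935) (nat_lit 124) (nat_lit 5) (nat_lit 129) (nat_lit 5) (nat_lit 130) (nat_lit 4) (nat_lit 301) (nat_lit 242) (nat_lit 237)) (XT.lf (nat_lit 0) (nat_lit 6737181269) (nat_lit 456) (nat_lit 1611119137) (nat_lit 0) (nat_lit 190153529) (nat_lit 124) (nat_lit 5) (nat_lit 130) (nat_lit 4) (nat_lit 124) (nat_lit 4) (nat_lit 302) (nat_lit 242) (nat_lit 236))) (XT.nd (nat_lit 78) (nat_lit 380) (nat_lit 0) (XT.lf (nat_lit 0) (nat_lit 1700174772) (nat_lit 456) (nat_lit 4078346857) (nat_lit 76) (nat_lit 2871730159) (nat_lit 118) (nat_lit 5) (nat_lit 124) (nat_lit 5) (nat_lit 119) (nat_lit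 4) (nat_lit 303) (nat_lit 242) (nat_lit 235)) (XT.lf (nat_lit 0) (nat_lit 2116117433) (nat_lit 380) (nat_lit 3105494101) (nat_lit 456) (nat_lit 3544797093) (nat_lit 113) (nat_lit 5) (nat_lit 118) (nat_lit 5) (nat_lit 119) (nat_lit 4) (nat_lit 304) (nat_lit 242) (nat_lit 234))))))))
noncomputable def xc60 : XT := (XT.nd (nat_lit 2184) (nat_lit 1976) (nat_lit 0) (XT.nd (nat_lit 1092) (nat_lit 2128) (nat_lit 0) (XT.nd (nat_lit 546) (nat_lit 1140) (nat_lit 0) (XT.nd (nat_lit 234) (nat_lit 1064) (nat_lit 0) (XT.nd (nat_lit 78) (nat_lit 760) (nat_lit 0) (XT.lf (nat_lit 0) (nat_lit 8465441427) (nat_lit 380) (nat_lit 340203801) (nat_lit 456) (nat_lit 81768727) (nat_lit 113) (nat_lit 5) (nat_lit 118) (nat_lit 5) (nat_lit 119) (nat_lit 4) (nat_lit 305) (nat_lit 242) (nat_lit 233)) (XT.nd (nat_lit 78) (nat_lit 304) (nat_lit 0) (XT.lf (nat_lit 0) (nat_lit 3416525730) (nat_lit 456) (nat_lit 3073485987) (nat_lit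 76) (nat_lit 2521119434) (nat_lit 107) (nat_lit 5) (nat_lit 113) (nat_lit 5) (nat_lit 108) (nat_lit 4) (nat_lit 306) (nat_lit 242) (nat_lit 232)) (XT.lf (nat_lit 0) (nat_lit 3304473883) (nat_lit 304) (nat_lit 3671472051) (nat_lit 380) (nat_lit 2163921286) (nat_lit 103) (nat_lit 5) (nat_lit 107) (nat_lit 5) (nat_lit 108) (nat_lit 4) (nat_lit 307) (nat_lit 242) (nat_lit 231)))) (XT.nd (nat_lit 156) (nat_lit 684) (nat_lit 0) (XT.nd (nat_lit 78) (nat_lit 0) (nat_lit 0) (XT.lf (nat_lit 0) (nat_lit 547841054) (nat_lit 304) (nat_lit 750541795) (nat_lit 380) (nat_lit 7975087179) (nat_lit 98) (nat_lit 5) (nat_lit 102) (nat_lit 5) (nat_lit 103) (nat_lit 5) (nat_lit 308) (nat_lit 242) (nat_lit 230)) (XT.lf (nat_lit 0) (nat_lit 4822046341) (nat_lit 380) (nat_lit 2326463500) (nat_lit 76) (nat_lit 2261959475) (nat_lit 98) (nat_lit 5) (nat_lit 103) (nat_lit 5) (nat_lit 99) (nat_lit 4) (nat_lit 309) (nat_lit 242)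 (nat_lit 229))) (XT.nd (nat_lit 78) (nat_lit 380) (nat_lit 0) (XT.lf (nat_lit 0) (nat_lit 4227478128) (nat_lit 304) (nat_lit 4194114693) (nat_lit 380) (nat_lit 1130939439) (nat_lit 94) (nat_lit 5) (nat_lit 98) (nat_lit 5) (nat_lit 99) (nat_lit 4) (nat_lit 310) (nat_lit 242) (nat_lit 228)) (XT.lf (nat_lit 0) (nat_lit 1214931248) (nat_lit 304) (nat_lit 1125807769) (nat_lit 380) (nat_lit 7358735913) (nat_lit 89) (nat_lit 5) (nat_lit 93) (nat_lit 5) (nat_lit 94) (nat_lit 5) (nat_lit 311) (nat_lit 242) (nat_lit 227))))) (XT.nd (nat_lit 234) (nat_lit 532) (nat_lit 0) (XT.nd (nat_lit 78) (nat_lit 608) (nat_lit 0) (XT.lf (nat_lit 0) (nat_lit 5891033840) (nat_lit 380) (nat_lit 1933882382) (nat_lit 76) (nat_lit 2025711705) (nat_lit 89) (nat_lit 5) (nat_lit 94) (nat_lit 5) (nat_lit 90) (nat_lit 4) (nat_lit 312) (nat_lit 242) (nat_lit 226)) (XT.nd (nat_lit 78) (nat_lit 380) (nat_lit 0) (XT.lf (nat_lit 0) (nat_lit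 4785181562) (nat_lit 228) (nat_lit 4745368071) (nat_lit 304) (nat_lit 476336821) (nat_lit 86) (nat_lit 5) (nat_lit 89) (nat_lit 5) (nat_lit 90) (nat_lit 4) (nat_lit 313) (nat_lit 242) (nat_lit 225)) (XT.lf (nat_lit 0) (nat_lit 1465927830) (nat_lit 304) (nat_lit 1544497882) (nat_lit 380) (nat_lit 7157767382) (nat_lit 81) (nat_lit 5) (nat_lit 85) (nat_lit 5) (nat_lit 86) (nat_lit 5) (nat_lit 314) (nat_lit 242) (nat_lit 224)))) (XT.nd (nat_lit 156) (nat_lit 304) (nat_lit 0) (XT.nd (nat_lit 78) (nat_lit 228) (nat_lit 0) (XT.lf (nat_lit 0) (nat_lit 6588973281) (nat_lit 380) (nat_lit 2005198216) (nat_lit 76) (nat_lit 1740171133) (nat_lit 81) (nat_lit 5) (nat_lit 86) (nat_lit 5) (nat_lit 82) (nat_lit 4) (nat_lit 315) (nat_lit 242) (nat_lit 223)) (XT.lf (nat_lit 0) (nat_lit 4864067252) (nat_lit 228) (nat_lit 5401654474) (nat_lit 304) (nat_lit 240076064) (nat_lit 78) (nat_lit 5) (nat_lit 81) (nat_lit 5)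 (nat_lit 82) (nat_lit 4) (nat_lit 316) (nat_lit 242) (nat_lit 222))) (XT.nd (nat_lit 78) (nat_lit 0) (nat_lit 0) (XT.lf (nat_lit 0) (nat_lit 1180432289) (nat_lit 228) (nat_lit 2085071452) (nat_lit 304) (nat_lit 7417137845) (nat_lit 74) (nat_lit 5) (nat_lit 77) (nat_lit 5) (nat_lit 78) (nat_lit 5) (nat_lit 317) (nat_lit 242) (nat_lit 221)) (XT.lf (nat_lit 0) (nat_lit 6871521241) (nat_lit 304) (nat_lit 2665346253) (nat_lit 76) (nat_lit 1327891551) (nat_lit 74) (nat_lit 5) (nat_lit 78) (nat_lit 5) (nat_lit 75) (nat_lit 4) (nat_lit 318) (nat_lit 242) (nat_lit 220)))))) (XT.nd (nat_lit 546) (nat_lit 912) (nat_lit 0) (XT.nd (nat_lit 234) (nat_lit 684) (nat_lit 0) (XT.nd (nat_lit 78) (nat_lit 304) (nat_lit 0) (XT.lf (nat_lit 0) (nat_lit 4334304764) (nat_lit 228) (nat_lit 6245535030) (nat_lit 304) (nat_lit 472717906) (nat_lit 71) (nat_lit 5) (nat_lit 74) (nat_lit 5) (nat_lit 75) (nat_lit 4) (nat_lit 319)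 (nat_lit 242) (nat_lit 219)) (XT.nd (nat_lit 78) (nat_lit 0) (nat_lit 0) (XT.lf (nat_lit 0) (nat_lit 220523085) (nat_lit 228) (nat_lit 2832743223) (nat_lit 304) (nat_lit 8193012051) (nat_lit 67) (nat_lit 5) (nat_lit 70) (nat_lit 5) (nat_lit 71) (nat_lit 5) (nat_lit 320) (nat_lit 242) (nat_lit 218)) (XT.lf (nat_lit 0) (nat_lit 6683276391) (nat_lit 304) (nat_lit 4057738171) (nat_lit 76) (nat_lit 704461025) (nat_lit 67) (nat_lit 5) (nat_lit 71) (nat_lit 5) (nat_lit 68) (nat_lit 4) (nat_lit 321) (nat_lit 242) (nat_lit 217)))) (XT.nd (nat_lit 156) (nat_lit 380) (nat_lit 0) (XT.nd (nat_lit 78) (nat_lit 76) (nat_lit 0) (XT.lf (nat_lit 0) (nat_lit 3046615419) (nat_lit 228) (nat_lit 7367539849) (nat_lit 304) (nat_lit 1236771091) (nat_lit 64) (nat_lit 5) (nat_lit 67) (nat_lit 5) (nat_lit 68) (nat_lit 4) (nat_lit 322) (nat_lit 242) (nat_lit 216)) (XT.lf (nat_lit 0) (nat_lit 2323952423) (nat_lit 304) (nat_lit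 1541871978) (nat_lit 76) (nat_lit 7996772644) (nat_lit 63) (nat_lit 5) (nat_lit 67) (nat_lit 5) (nat_lit 64) (nat_lit 5) (nat_lit 323) (nat_lit 242) (nat_lit 215))) (XT.nd (nat_lit 78) (nat_lit 152) (nat_lit 0) (XT.lf (nat_lit 0) (nat_lit 5730644163) (nat_lit 228) (nat_lit 227854324) (nat_lit 304) (nat_lit 6122029816) (nat_lit 60) (nat_lit 5) (nat_lit 63) (nat_lit 5) (nat_lit 64) (nat_lit 5) (nat_lit 324) (nat_lit 242) (nat_lit 214)) (XT.lf (nat_lit 0) (nat_lit 828679482) (nat_lit 152) (nat_lit 8868203826) (nat_lit 228) (nat_lit 2608302713) (nat_lit 58) (nat_lit 5) (nat_lit 60) (nat_lit 5) (nat_lit 61) (nat_lit 4) (nat_lit 325) (nat_lit 242) (nat_lit 213))))) (XT.nd (nat_lit 234) (nat_lit 608) (nat_lit 0) (XT.nd (nat_lit 78) (nat_lit 228) (nat_lit 0) (XT.lf (nat_lit 0) (nat_lit 995619789) (nat_lit 228) (nat_lit 4296696394) (nat_lit 76) (nat_lit 7243871247) (nat_lit 57) (nat_lit 5) (nat_lit 60) (nat_lit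 5) (nat_lit 58) (nat_lit 5) (nat_lit 326) (nat_lit 242) (nat_lit 212)) (XT.nd (nat_lit 78) (nat_lit 0) (nat_lit 0) (XT.lf (nat_lit 0) (nat_lit 3032642260) (nat_lit 228) (nat_lit 1591061924) (nat_lit 304) (nat_lit 8150615725) (nat_lit 54) (nat_lit 5) (nat_lit 57) (nat_lit 5) (nat_lit 58) (nat_lit 5) (nat_lit 327) (nat_lit 242) (nat_lit 211)) (XT.lf (nat_lit 0) (nat_lit 8365571714) (nat_lit 304) (nat_lit 2469838813) (nat_lit 76) (nat_lit 2184066579) (nat_lit 54) (nat_lit 5) (nat_lit 58) (nat_lit 5) (nat_lit 55) (nat_lit 4) (nat_lit 328) (nat_lit 242) (nat_lit 210)))) (XT.nd (nat_lit 156) (nat_lit 380) (nat_lit 0) (XT.nd (nat_lit 78) (nat_lit 76) (nat_lit 0) (XT.lf (nat_lit 0) (nat_lit 5005275158) (nat_lit 152) (nat_lit 7219812192) (nat_lit 228) (nat_lit 1046768019) (nat_lit 52) (nat_lit 5) (nat_lit 54) (nat_lit 5) (nat_lit 55) (nat_lit 4) (nat_lit 329) (nat_lit 242) (nat_lit 209)) (XT.lf (nat_lit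 0) (nat_lit 2583406301) (nat_lit 228) (nat_lit 898719431) (nat_lit 76) (nat_lit 10049929294) (nat_lit 51) (nat_lit 5) (nat_lit 54) (nat_lit 5) (nat_lit 52) (nat_lit 5) (nat_lit 330) (nat_lit 242) (nat_lit 208))) (XT.nd (nat_lit 78) (nat_lit 152) (nat_lit 0) (XT.lf (nat_lit 0) (nat_lit 6313333182) (nat_lit 304) (nat_lit 7086780743) (nat_lit 76) (nat_lit 399304965) (nat_lit 48) (nat_lit 5) (nat_lit 52) (nat_lit 5) (nat_lit 49) (nat_lit 4) (nat_lit 331) (nat_lit 242) (nat_lit 207)) (XT.lf (nat_lit 0) (nat_lit 374340400) (nat_lit 152) (nat_lit 9771856032) (nat_lit 228) (nat_lit 3928901062) (nat_lit 46) (nat_lit 5) (nat_lit 48) (nat_lit 5) (nat_lit 49) (nat_lit 4) (nat_lit 332) (nat_lit 242) (nat_lit 206))))))) (XT.nd (nat_lit 1092) (nat_lit 912) (nat_lit 0) (XT.nd (nat_lit 546) (nat_lit 456) (nat_lit 0) (XT.nd (nat_lit 234) (nat_lit 380) (nat_lit 0) (XT.nd (nat_lit 78) (nat_lit 228) (nat_lit 0) (XT.lf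 (nat_lit 0) (nat_lit 8110869051) (nat_lit 152) (nat_lit 5999273894) (nat_lit 228) (nat_lit 248444842) (nat_lit 46) (nat_lit 5) (nat_lit 48) (nat_lit 5) (nat_lit 49) (nat_lit 4) (nat_lit 333) (nat_lit 242) (nat_lit 205)) (XT.nd (nat_lit 78) (nat_lit 0) (nat_lit 0) (XT.lf (nat_lit 0) (nat_lit 1328712012) (nat_lit 152) (nat_lit 2102953986) (nat_lit 228) (nat_lit 11219167100) (nat_lit 43) (nat_lit 5) (nat_lit 45) (nat_lit 5) (nat_lit 46) (nat_lit 5) (nat_lit 334) (nat_lit 242) (nat_lit 204)) (XT.lf (nat_lit 0) (nat_lit 7245205601) (nat_lit 228) (nat_lit 5803337295) (nat_lit 76) (nat_lit 1902410704) (nat_lit 43) (nat_lit 5) (nat_lit 46) (nat_lit 5) (nat_lit 44) (nat_lit 4) (nat_lit 335) (nat_lit 242) (nat_lit 203)))) (XT.nd (nat_lit 156) (nat_lit 228) (nat_lit 0) (XT.nd (nat_lit 78) (nat_lit 0) (nat_lit 0) (XT.lf (nat_lit 0) (nat_lit 1866865560) (nat_lit 152) (nat_lit 9292569144) (nat_lit 228) (nat_lit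 4101076062) (nat_lit 41) (nat_lit 5) (nat_lit 43) (nat_lit 5) (nat_lit 44) (nat_lit 4) (nat_lit 336) (nat_lit 242) (nat_lit 202)) (XT.lf (nat_lit 0) (nat_lit 9797264758) (nat_lit 152) (nat_lit 5400619129) (nat_lit 228) (nat_lit 381287883) (nat_lit 41) (nat_lit 5) (nat_lit 43) (nat_lit 5) (nat_lit 44) (nat_lit 4) (nat_lit 337) (nat_lit 242) (nat_lit 201))) (XT.nd (nat_lit 78) (nat_lit 0) (nat_lit 0) (XT.lf (nat_lit 0) (nat_lit 1976267971) (nat_lit 152) (nat_lit 1374681253) (nat_lit 228) (nat_lit 12556422797) (nat_lit 38) (nat_lit 5) (nat_lit 40) (nat_lit 5) (nat_lit 41) (nat_lit 5) (nat_lit 338) (nat_lit 242) (nat_lit 200)) (XT.lf (nat_lit 0) (nat_lit 7222582579) (nat_lit 228) (nat_lit 6276589164) (nat_lit 76) (nat_lit 2745099647) (nat_lit 38) (nat_lit 5) (nat_lit 41) (nat_lit 5) (nat_lit 39) (nat_lit 4) (nat_lit 339) (nat_lit 242) (nat_lit 199))))) (XT.nd (nat_lit 234) (nat_lit 76) (nat_lit 0) (XT.nd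 (nat_lit 78) (nat_lit 228) (nat_lit 0) (XT.lf (nat_lit 0) (nat_lit 1538897970) (nat_lit 152) (nat_lit 9650824038) (nat_lit 228) (nat_lit 5402193609) (nat_lit 36) (nat_lit 5) (nat_lit 38) (nat_lit 5) (nat_lit 39) (nat_lit 4) (nat_lit 340) (nat_lit 242) (nat_lit 198)) (XT.nd (nat_lit 78) (nat_lit 228) (nat_lit 0) (XT.lf (nat_lit 0) (nat_lit 9633265847) (nat_lit 152) (nat_lit 5657563254) (nat_lit 228) (nat_lit 1658729511) (nat_lit 36) (nat_lit 5) (nat_lit 38) (nat_lit 5) (nat_lit 39) (nat_lit 4) (nat_lit 341) (nat_lit 242) (nat_lit 197)) (XT.lf (nat_lit 0) (nat_lit 559577628) (nat_lit 152) (nat_lit 1552467806) (nat_lit 228) (nat_lit 15206532524) (nat_lit 33) (nat_lit 5) (nat_lit 35) (nat_lit 5) (nat_lit 36) (nat_lit 5) (nat_lit 342) (nat_lit 242) (nat_lit 196)))) (XT.nd (nat_lit 156) (nat_lit 76) (nat_lit 0) (XT.nd (nat_lit 78) (nat_lit 0) (nat_lit 0) (XT.lf (nat_lit 0) (nat_lit 6015696757) (nat_lit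 228) (nat_lit 9000658104) (nat_lit 76) (nat_lit 2680244086) (nat_lit 33) (nat_lit 5) (nat_lit 36) (nat_lit 5) (nat_lit 34) (nat_lit 4) (nat_lit 343) (nat_lit 242) (nat_lit 195)) (XT.lf (nat_lit 0) (nat_lit 10005963551) (nat_lit 228) (nat_lit 1105549977) (nat_lit 76) (nat_lit 6975377895) (nat_lit 33) (nat_lit 5) (nat_lit 36) (nat_lit 5) (nat_lit 34) (nat_lit 4) (nat_lit 344) (nat_lit 242) (nat_lit 194))) (XT.nd (nat_lit 78) (nat_lit 0) (nat_lit 0) (XT.lf (nat_lit 0) (nat_lit 7086427688) (nat_lit 76) (nat_lit 7053100576) (nat_lit 152) (nat_lit 4348672277) (nat_lit 32) (nat_lit 5) (nat_lit 33) (nat_lit 5) (nat_lit 34) (nat_lit 4) (nat_lit 345) (nat_lit 242) (nat_lit 193)) (XT.lf (nat_lit 0) (nat_lit 15469329248) (nat_lit 76) (nat_lit 2894957403) (nat_lit 152) (nat_lit 538261794) (nat_lit 32) (nat_lit 5) (nat_lit 33) (nat_lit 5) (nat_lit 34) (nat_lit 4) (nat_lit 346) (nat_lit 242) (nat_lit 192))))))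 (XT.nd (nat_lit 546) (nat_lit 380) (nat_lit 0) (XT.nd (nat_lit 234) (nat_lit 228) (nat_lit 0) (XT.nd (nat_lit 78) (nat_lit 76) (nat_lit 0) (XT.lf (nat_lit 0) (nat_lit 3336787766) (nat_lit 228) (nat_lit 14583504166) (nat_lit 76) (nat_lit 1407580252) (nat_lit 29) (nat_lit 5) (nat_lit 32) (nat_lit 5) (nat_lit 30) (nat_lit 4) (nat_lit 347) (nat_lit 242) (nat_lit 191)) (XT.nd (nat_lit 78) (nat_lit 76) (nat_lit 0) (XT.lf (nat_lit 0) (nat_lit 7338028748) (nat_lit 228) (nat_lit 6637934903) (nat_lit 76) (nat_lit 5789223185) (nat_lit 29) (nat_lit 5) (nat_lit 32) (nat_lit 5) (nat_lit 30) (nat_lit 4) (nat_lit 348) (nat_lit 242) (nat_lit 190)) (XT.lf (nat_lit 0) (nat_lit 1501174087) (nat_lit 76) (nat_lit 9930896551) (nat_lit 152) (nat_lit 8784380804) (nat_lit 28) (nat_lit 5) (nat_lit 29) (nat_lit 5) (nat_lit 30) (nat_lit 4) (nat_lit 349) (nat_lit 242) (nat_lit 189)))) (XT.nd (nat_lit 156) (nat_lit 228) (nat_lit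 0) (XT.nd (nat_lit 78) (nat_lit 0) (nat_lit 0) (XT.lf (nat_lit 0) (nat_lit 9947133513) (nat_lit 76) (nat_lit 5727671955) (nat_lit 152) (nat_lit 5005685405) (nat_lit 28) (nat_lit 5) (nat_lit 29) (nat_lit 5) (nat_lit 30) (nat_lit 4) (nat_lit 350) (nat_lit 242) (nat_lit 188)) (XT.lf (nat_lit 0) (nat_lit 18575215420) (nat_lit 76) (nat_lit 1429647268) (nat_lit 152) (nat_lit 1154800246) (nat_lit 28) (nat_lit 5) (nat_lit 29) (nat_lit 5) (nat_lit 30) (nat_lit 4) (nat_lit 351) (nat_lit 242) (nat_lit 187))) (XT.nd (nat_lit 78) (nat_lit 0) (nat_lit 0) (XT.lf (nat_lit 0) (nat_lit 2802892380) (nat_lit 228) (nat_lit 15855636776) (nat_lit 76) (nat_lit 2992497757) (nat_lit 25) (nat_lit 5) (nat_lit 28) (nat_lit 5) (nat_lit 26) (nat_lit 4) (nat_lit 352) (nat_lit 242) (nat_lit 186)) (XT.lf (nat_lit 0) (nat_lit 6857606294) (nat_lit 228) (nat_lit 7772760310) (nat_lit 76) (nat_lit 7526388754) (nat_lit 25) (nat_lit 5)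 (nat_lit 28) (nat_lit 5) (nat_lit 26) (nat_lit 4) (nat_lit 353) (nat_lit 242) (nat_lit 185))))) (XT.nd (nat_lit 312) (nat_lit 152) (nat_lit 0) (XT.nd (nat_lit 156) (nat_lit 152) (nat_lit 0) (XT.nd (nat_lit 78) (nat_lit 0) (nat_lit 0) (XT.lf (nat_lit 0) (nat_lit 494122211) (nat_lit 76) (nat_lit 10506715121) (nat_lit 152) (nat_lit 11677823300) (nat_lit 24) (nat_lit 5) (nat_lit 25) (nat_lit 5) (nat_lit 26) (nat_lit 4) (nat_lit 354) (nat_lit 242) (nat_lit 184)) (XT.lf (nat_lit 0) (nat_lit 9100890699) (nat_lit 76) (nat_lit 6208544857) (nat_lit 152) (nat_lit 7905566318) (nat_lit 24) (nat_lit 5) (nat_lit 25) (nat_lit 5) (nat_lit 26) (nat_lit 4) (nat_lit 355) (nat_lit 242) (nat_lit 183))) (XT.nd (nat_lit 78) (nat_lit 152) (nat_lit 0) (XT.lf (nat_lit 0) (nat_lit 17900372460) (nat_lit 76) (nat_lit 1810589769) (nat_lit 152) (nat_lit 4057571609) (nat_lit 24) (nat_lit 5) (nat_lit 25) (nat_lit 5) (nat_lit 26)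 (nat_lit 4) (nat_lit 356) (nat_lit 242) (nat_lit 182)) (XT.lf (nat_lit 0) (nat_lit 2585093174) (nat_lit 152) (nat_lit 21674887139) (nat_lit 152) (nat_lit 78238371) (nat_lit 22) (nat_lit 4) (nat_lit 24) (nat_lit 5) (nat_lit 24) (nat_lit 4) (nat_lit 357) (nat_lit 242) (nat_lit 181)))) (XT.nd (nat_lit 156) (nat_lit 76) (nat_lit 0) (XT.nd (nat_lit 78) (nat_lit 0) (nat_lit 0) (XT.lf (nat_lit 0) (nat_lit 3984312614) (nat_lit 228) (nat_lit 13632603280) (nat_lit 76) (nat_lit 7305659714) (nat_lit 21) (nat_lit 5) (nat_lit 24) (nat_lit 5) (nat_lit 22) (nat_lit 4) (nat_lit 358) (nat_lit 242) (nat_lit 180)) (XT.lf (nat_lit 0) (nat_lit 8132722411) (nat_lit 228) (nat_lit 5331825684) (nat_lit 76) (nat_lit 12060934680) (nat_lit 21) (nat_lit 5) (nat_lit 24) (nat_lit 5) (nat_lit 22) (nat_lit 4) (nat_lit 359) (nat_lit 242) (nat_lit 179))) (XT.nd (nat_lit 78) (nat_lit 0) (nat_lit 0) (XT.lf (nat_lit 0) (nat_lit 3220047178)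 (nat_lit 76) (nat_lit 9183048440) (nat_lit 152) (nat_lit 13743465349) (nat_lit 20) (nat_lit 5) (nat_lit 21) (nat_lit 5) (nat_lit 22) (nat_lit 4) (nat_lit 360) (nat_lit 242) (nat_lit 178)) (XT.lf (nat_lit 0) (nat_lit 12077606360) (nat_lit 76) (nat_lit 4744768375) (nat_lit 152) (nat_lit 9963281806) (nat_lit 20) (nat_lit 5) (nat_lit 21) (nat_lit 5) (nat_lit 22) (nat_lit 4) (nat_lit 361) (nat_lit 242) (nat_lit 177))))))))
noncomputable def xc61 : XT := (XT.nd (nat_lit 2184) (nat_lit 380) (nat_lit 0) (XT.nd (nat_lit 1092) (nat_lit 304) (nat_lit 0) (XT.nd (nat_lit 546) (nat_lit 228) (nat_lit 0) (XT.nd (nat_lit 234) (nat_lit 76) (nat_lit 0) (XT.nd (nat_lit 78) (nat_lit 152) (nat_lit 0) (XT.lf (nat_lit 0) (nat_lit 21142477689) (nat_lit 76) (nat_lit 199670777) (nat_lit 152) (nat_lit 6102747647) (nat_lit 20) (nat_lit 5) (nat_lit 21) (nat_lit 5) (nat_lit 22) (nat_lit 4) (nat_lit 362) (nat_lit 242) (nat_lit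 176)) (XT.nd (nat_lit 78) (nat_lit 76) (nat_lit 0) (XT.lf (nat_lit 0) (nat_lit 2299767073) (nat_lit 76) (nat_lit 23731541696) (nat_lit 76) (nat_lit 2091598671) (nat_lit 19) (nat_lit 4) (nat_lit 20) (nat_lit 5) (nat_lit 20) (nat_lit 4) (nat_lit 363) (nat_lit 242) (nat_lit 175)) (XT.lf (nat_lit 0) (nat_lit 2034986184) (nat_lit 152) (nat_lit 17609833141) (nat_lit 76) (nat_lit 9174812204) (nat_lit 18) (nat_lit 5) (nat_lit 20) (nat_lit 5) (nat_lit 19) (nat_lit 4) (nat_lit 364) (nat_lit 242) (nat_lit 174)))) (XT.nd (nat_lit 156) (nat_lit 76) (nat_lit 0) (XT.nd (nat_lit 78) (nat_lit 0) (nat_lit 0) (XT.lf (nat_lit 0) (nat_lit 6212900188) (nat_lit 152) (nat_lit 9226640599) (nat_lit 76) (nat_lit 14098015824) (nat_lit 18) (nat_lit 5) (nat_lit 20) (nat_lit 5) (nat_lit 19) (nat_lit 4) (nat_lit 365) (nat_lit 242) (nat_lit 173)) (XT.lf (nat_lit 0) (nat_lit 10486608567) (nat_lit 152) (nat_lit 646131896) (nat_lit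 76) (nat_lit 19145172710) (nat_lit 18) (nat_lit 5) (nat_lit 20) (nat_lit 5) (nat_lit 19) (nat_lit 4) (nat_lit 366) (nat_lit 242) (nat_lit 172))) (XT.nd (nat_lit 78) (nat_lit 0) (nat_lit 0) (XT.lf (nat_lit 0) (nat_lit 8301176350) (nat_lit 76) (nat_lit 6638465264) (nat_lit 152) (nat_lit 16099312631) (nat_lit 17) (nat_lit 5) (nat_lit 18) (nat_lit 5) (nat_lit 19) (nat_lit 4) (nat_lit 367) (nat_lit 242) (nat_lit 171)) (XT.lf (nat_lit 0) (nat_lit 17478063049) (nat_lit 76) (nat_lit 2026379436) (nat_lit 152) (nat_lit 12319045769) (nat_lit 17) (nat_lit 5) (nat_lit 18) (nat_lit 5) (nat_lit 19) (nat_lit 4) (nat_lit 368) (nat_lit 242) (nat_lit 170))))) (XT.nd (nat_lit 234) (nat_lit 152) (nat_lit 0) (XT.nd (nat_lit 78) (nat_lit 76) (nat_lit 0) (XT.lf (nat_lit 0) (nat_lit 24204629092) (nat_lit 152) (nat_lit 5778667084) (nat_lit 0) (nat_lit 2648315659) (nat_lit 17) (nat_lit 5) (nat_lit 19) (nat_lit 4) (nat_lit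 17) (nat_lit 4) (nat_lit 369) (nat_lit 242) (nat_lit 169)) (XT.nd (nat_lit 78) (nat_lit 0) (nat_lit 0) (XT.lf (nat_lit 0) (nat_lit 3034556687) (nat_lit 76) (nat_lit 26033562149) (nat_lit 76) (nat_lit 4395197967) (nat_lit 16) (nat_lit 4) (nat_lit 17) (nat_lit 5) (nat_lit 17) (nat_lit 4) (nat_lit 370) (nat_lit 242) (nat_lit 168)) (XT.lf (nat_lit 0) (nat_lit 12181432269) (nat_lit 76) (nat_lit 21927810147) (nat_lit 76) (nat_lit 209785044) (nat_lit 16) (nat_lit 4) (nat_lit 17) (nat_lit 5) (nat_lit 17) (nat_lit 4) (nat_lit 371) (nat_lit 242) (nat_lit 167)))) (XT.nd (nat_lit 156) (nat_lit 76) (nat_lit 0) (XT.nd (nat_lit 78) (nat_lit 0) (nat_lit 0) (XT.lf (nat_lit 0) (nat_lit 3995050635) (nat_lit 152) (nat_lit 13685413013) (nat_lit 76) (nat_lit 17519552457) (nat_lit 15) (nat_lit 5) (nat_lit 17) (nat_lit 5) (nat_lit 16) (nat_lit 4) (nat_lit 372) (nat_lit 242) (nat_lit 166)) (XT.lf (nat_lit 0) (nat_lit 8296464779)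 (nat_lit 152) (nat_lit 5028630359) (nat_lit 76) (nat_lit 22783043333) (nat_lit 15) (nat_lit 5) (nat_lit 17) (nat_lit 5) (nat_lit 16) (nat_lit 4) (nat_lit 373) (nat_lit 242) (nat_lit 165))) (XT.nd (nat_lit 78) (nat_lit 0) (nat_lit 0) (XT.lf (nat_lit 0) (nat_lit 3918803505) (nat_lit 76) (nat_lit 8821175999) (nat_lit 152) (nat_lit 24303138957) (nat_lit 14) (nat_lit 5) (nat_lit 15) (nat_lit 5) (nat_lit 16) (nat_lit 4) (nat_lit 374) (nat_lit 242) (nat_lit 164)) (XT.lf (nat_lit 0) (nat_lit 13192666433) (nat_lit 76) (nat_lit 4150584315) (nat_lit 152) (nat_lit 20662109104) (nat_lit 14) (nat_lit 5) (nat_lit 15) (nat_lit 5) (nat_lit 16) (nat_lit 4) (nat_lit 375) (nat_lit 242) (nat_lit 163)))))) (XT.nd (nat_lit 546) (nat_lit 152) (nat_lit 0) (XT.nd (nat_lit 234) (nat_lit 76) (nat_lit 0) (XT.nd (nat_lit 78) (nat_lit 76) (nat_lit 0) (XT.lf (nat_lit 0) (nat_lit 22067152384) (nat_lit 152) (nat_lit 16302352144)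 (nat_lit 0) (nat_lit 627493358) (nat_lit 14) (nat_lit 5) (nat_lit 16) (nat_lit 4) (nat_lit 14) (nat_lit 4) (nat_lit 376) (nat_lit 242) (nat_lit 162)) (XT.nd (nat_lit 78) (nat_lit 76) (nat_lit 0) (XT.lf (nat_lit 0) (nat_lit 26950746282) (nat_lit 152) (nat_lit 7620789100) (nat_lit 0) (nat_lit 5446315638) (nat_lit 14) (nat_lit 5) (nat_lit 16) (nat_lit 4) (nat_lit 14) (nat_lit 4) (nat_lit 377) (nat_lit 242) (nat_lit 161)) (XT.lf (nat_lit 0) (nat_lit 1304943649) (nat_lit 76) (nat_lit 30666001972) (nat_lit 76) (nat_lit 9098686261) (nat_lit 13) (nat_lit 4) (nat_lit 14) (nat_lit 5) (nat_lit 14) (nat_lit 4) (nat_lit 378) (nat_lit 242) (nat_lit 160)))) (XT.nd (nat_lit 156) (nat_lit 76) (nat_lit 0) (XT.nd (nat_lit 78) (nat_lit 0) (nat_lit 0) (XT.lf (nat_lit 0) (nat_lit 10613334981) (nat_lit 76) (nat_lit 26583181162) (nat_lit 76) (nat_lit 4954811987) (nat_lit 13) (nat_lit 4) (nat_lit 14) (nat_lit 5) (nat_lit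 14) (nat_lit 4) (nat_lit 379) (nat_lit 242) (nat_lit 159)) (XT.lf (nat_lit 0) (nat_lit 20160849793) (nat_lit 76) (nat_lit 22396460465) (nat_lit 76) (nat_lit 708816084) (nat_lit 13) (nat_lit 4) (nat_lit 14) (nat_lit 5) (nat_lit 14) (nat_lit 4) (nat_lit 380) (nat_lit 242) (nat_lit 158))) (XT.nd (nat_lit 78) (nat_lit 0) (nat_lit 0) (XT.lf (nat_lit 0) (nat_lit 3571923265) (nat_lit 152) (nat_lit 14494188895) (nat_lit 76) (nat_lit 26347837889) (nat_lit 12) (nat_lit 5) (nat_lit 14) (nat_lit 5) (nat_lit 13) (nat_lit 4) (nat_lit 381) (nat_lit 242) (nat_lit 157)) (XT.lf (nat_lit 0) (nat_lit 7946325992) (nat_lit 152) (nat_lit 5670023928) (nat_lit 76) (nat_lit 31980267745) (nat_lit 12) (nat_lit 5) (nat_lit 14) (nat_lit 5) (nat_lit 13) (nat_lit 4) (nat_lit 382) (nat_lit 242) (nat_lit 156))))) (XT.nd (nat_lit 234) (nat_lit 76) (nat_lit 0) (XT.nd (nat_lit 78) (nat_lit 0) (nat_lit 0) (XT.lf (nat_lit 0) (nat_lit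 3449045666) (nat_lit 76) (nat_lit 9016154614) (nat_lit 152) (nat_lit 34349172084) (nat_lit 11) (nat_lit 5) (nat_lit 12) (nat_lit 5) (nat_lit 13) (nat_lit 4) (nat_lit 383) (nat_lit 242) (nat_lit 155)) (XT.nd (nat_lit 78) (nat_lit 0) (nat_lit 0) (XT.lf (nat_lit 0) (nat_lit 12921157611) (nat_lit 76) (nat_lit 4236051141) (nat_lit 152) (nat_lit 30910328030) (nat_lit 11) (nat_lit 5) (nat_lit 12) (nat_lit 5) (nat_lit 13) (nat_lit 4) (nat_lit 384) (nat_lit 242) (nat_lit 154)) (XT.lf (nat_lit 0) (nat_lit 21977311672) (nat_lit 152) (nat_lit 26723578576) (nat_lit 0) (nat_lit 657789855) (nat_lit 11) (nat_lit 5) (nat_lit 13) (nat_lit 4) (nat_lit 11) (nat_lit 4) (nat_lit 385) (nat_lit 242) (nat_lit 153)))) (XT.nd (nat_lit 156) (nat_lit 76) (nat_lit 0) (XT.nd (nat_lit 78) (nat_lit 0) (nat_lit 0) (XT.lf (nat_lit 0) (nat_lit 26965246110) (nat_lit 152) (nat_lit 18125090515) (nat_lit 0) (nat_lit 5597528126) (nat_lit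 11) (nat_lit 5) (nat_lit 13) (nat_lit 4) (nat_lit 11) (nat_lit 4) (nat_lit 386) (nat_lit 242) (nat_lit 152)) (XT.lf (nat_lit 0) (nat_lit 32084650942) (nat_lit 152) (nat_lit 9302682232) (nat_lit 0) (nat_lit 10670140563) (nat_lit 11) (nat_lit 5) (nat_lit 13) (nat_lit 4) (nat_lit 11) (nat_lit 4) (nat_lit 387) (nat_lit 242) (nat_lit 151))) (XT.nd (nat_lit 78) (nat_lit 76) (nat_lit 0) (XT.lf (nat_lit 0) (nat_lit 37339999434) (nat_lit 152) (nat_lit 248644825) (nat_lit 0) (nat_lit 15880059544) (nat_lit 11) (nat_lit 5) (nat_lit 13) (nat_lit 4) (nat_lit 11) (nat_lit 4) (nat_lit 388) (nat_lit 242) (nat_lit 150)) (XT.lf (nat_lit 0) (nat_lit 9224944901) (nat_lit 76) (nat_lit 33599614549) (nat_lit 76) (nat_lit 12095568338) (nat_lit 10) (nat_lit 4) (nat_lit 11) (nat_lit 5) (nat_lit 11) (nat_lit 4) (nat_lit 389) (nat_lit 242) (nat_lit 149))))))) (XT.nd (nat_lit 1092) (nat_lit 152) (nat_lit 0) (XT.nd (nat_lit 546)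 (nat_lit 76) (nat_lit 0) (XT.nd (nat_lit 234) (nat_lit 76) (nat_lit 0) (XT.nd (nat_lit 78) (nat_lit 76) (nat_lit 0) (XT.lf (nat_lit 0) (nat_lit 18956073107) (nat_lit 76) (nat_lit 29503162665) (nat_lit 76) (nat_lit 7956294784) (nat_lit 10) (nat_lit 4) (nat_lit 11) (nat_lit 5) (nat_lit 11) (nat_lit 4) (nat_lit 390) (nat_lit 242) (nat_lit 148)) (XT.nd (nat_lit 78) (nat_lit 76) (nat_lit 0) (XT.lf (nat_lit 0) (nat_lit 28948294201) (nat_lit 76) (nat_lit 25298220009) (nat_lit 76) (nat_lit 3709777690) (nat_lit 10) (nat_lit 4) (nat_lit 11) (nat_lit 5) (nat_lit 11) (nat_lit 4) (nat_lit 391) (nat_lit 242) (nat_lit 147)) (XT.lf (nat_lit 0) (nat_lit 635054658) (nat_lit 152) (nat_lit 20339644893) (nat_lit 76) (nat_lit 38568871784) (nat_lit 9) (nat_lit 5) (nat_lit 11) (nat_lit 5) (nat_lit 10) (nat_lit 4) (nat_lit 392) (nat_lit 242) (nat_lit 146)))) (XT.nd (nat_lit 156) (nat_lit 76) (nat_lit 0) (XT.nd (nat_lit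 78) (nat_lit 0) (nat_lit 0) (XT.lf (nat_lit 0) (nat_lit 5020018058) (nat_lit 152) (nat_lit 11477357086) (nat_lit 76) (nat_lit 44680464689) (nat_lit 9) (nat_lit 5) (nat_lit 11) (nat_lit 5) (nat_lit 10) (nat_lit 4) (nat_lit 393) (nat_lit 242) (nat_lit 145)) (XT.lf (nat_lit 0) (nat_lit 9521335155) (nat_lit 152) (nat_lit 2377729879) (nat_lit 76) (nat_lit 50962530183) (nat_lit 9) (nat_lit 5) (nat_lit 11) (nat_lit 5) (nat_lit 10) (nat_lit 4) (nat_lit 394) (nat_lit 242) (nat_lit 144))) (XT.nd (nat_lit 78) (nat_lit 0) (nat_lit 0) (XT.lf (nat_lit 0) (nat_lit 7105848557) (nat_lit 76) (nat_lit 7105396344) (nat_lit 152) (nat_lit 50383014653) (nat_lit 8) (nat_lit 5) (nat_lit 9) (nat_lit 5) (nat_lit 10) (nat_lit 4) (nat_lit 395) (nat_lit 242) (nat_lit 143)) (XT.lf (nat_lit 0) (nat_lit 16895248745) (nat_lit 76) (nat_lit 2156027024) (nat_lit 152) (nat_lit 47327348141) (nat_lit 8) (nat_lit 5) (nat_lit 9) (nat_lit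 5) (nat_lit 10) (nat_lit 4) (nat_lit 396) (nat_lit 242) (nat_lit 142))))) (XT.nd (nat_lit 234) (nat_lit 76) (nat_lit 0) (XT.nd (nat_lit 78) (nat_lit 0) (nat_lit 0) (XT.lf (nat_lit 0) (nat_lit 24050504609) (nat_lit 152) (nat_lit 41293402503) (nat_lit 0) (nat_lit 2872194895) (nat_lit 8) (nat_lit 5) (nat_lit 10) (nat_lit 4) (nat_lit 8) (nat_lit 4) (nat_lit 397) (nat_lit 242) (nat_lit 141)) (XT.nd (nat_lit 78) (nat_lit 0) (nat_lit 0) (XT.lf (nat_lit 0) (nat_lit 29207191522) (nat_lit 152) (nat_lit 32905228568) (nat_lit 0) (nat_lit 7996062563) (nat_lit 8) (nat_lit 5) (nat_lit 10) (nat_lit 4) (nat_lit 8) (nat_lit 4) (nat_lit 398) (nat_lit 242) (nat_lit 140)) (XT.lf (nat_lit 0) (nat_lit 34505117301) (nat_lit 152) (nat_lit 24290798836) (nat_lit 0) (nat_lit 13262124998) (nat_lit 8) (nat_lit 5) (nat_lit 10) (nat_lit 4) (nat_lit 8) (nat_lit 4) (nat_lit 399) (nat_lit 242) (nat_lit 139)))) (XT.nd (nat_lit 156)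 (nat_lit 76) (nat_lit 0) (XT.nd (nat_lit 78) (nat_lit 0) (nat_lit 0) (XT.lf (nat_lit 0) (nat_lit 39948911202) (nat_lit 152) (nat_lit 15442586137) (nat_lit 0) (nat_lit 18674983613) (nat_lit 8) (nat_lit 5) (nat_lit 10) (nat_lit 4) (nat_lit 8) (nat_lit 4) (nat_lit 400) (nat_lit 242) (nat_lit 138)) (XT.lf (nat_lit 0) (nat_lit 45543329938) (nat_lit 152) (nat_lit 6352859023) (nat_lit 0) (nat_lit 24239368091) (nat_lit 8) (nat_lit 5) (nat_lit 10) (nat_lit 4) (nat_lit 8) (nat_lit 4) (nat_lit 401) (nat_lit 242) (nat_lit 137))) (XT.nd (nat_lit 78) (nat_lit 0) (nat_lit 0) (XT.lf (nat_lit 0) (nat_lit 3045758709) (nat_lit 76) (nat_lit 48276780822) (nat_lit 76) (nat_lit 26943659501) (nat_lit 7) (nat_lit 4) (nat_lit 8) (nat_lit 5) (nat_lit 8) (nat_lit 4) (nat_lit 402) (nat_lit 242) (nat_lit 136)) (XT.lf (nat_lit 0) (nat_lit 12833555231) (nat_lit 76) (nat_lit 44493539860) (nat_lit 76) (nat_lit 23132108370) (nat_lit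 7) (nat_lit 4) (nat_lit 8) (nat_lit 5) (nat_lit 8) (nat_lit 4) (nat_lit 403) (nat_lit 242) (nat_lit 135)))))) (XT.nd (nat_lit 546) (nat_lit 76) (nat_lit 0) (XT.nd (nat_lit 234) (nat_lit 76) (nat_lit 0) (XT.nd (nat_lit 78) (nat_lit 0) (nat_lit 0) (XT.lf (nat_lit 0) (nat_lit 22892648634) (nat_lit 76) (nat_lit 40607311750) (nat_lit 76) (nat_lit 19218394660) (nat_lit 7) (nat_lit 4) (nat_lit 8) (nat_lit 5) (nat_lit 8) (nat_lit 4) (nat_lit 404) (nat_lit 242) (nat_lit 134)) (XT.nd (nat_lit 78) (nat_lit 0) (nat_lit 0) (XT.lf (nat_lit 0) (nat_lit 33231828418) (nat_lit 76) (nat_lit 36614700759) (nat_lit 76) (nat_lit 15199098619) (nat_lit 7) (nat_lit 4) (nat_lit 8) (nat_lit 5) (nat_lit 8) (nat_lit 4) (nat_lit 405) (nat_lit 242) (nat_lit 133)) (XT.lf (nat_lit 0) (nat_lit 43860128817) (nat_lit 76) (nat_lit 32512218197) (nat_lit 76) (nat_lit 11070708243) (nat_lit 7) (nat_lit 4) (nat_lit 8) (nat_lit 5) (nat_lit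 8) (nat_lit 4) (nat_lit 406) (nat_lit 242) (nat_lit 132)))) (XT.nd (nat_lit 156) (nat_lit 76) (nat_lit 0) (XT.nd (nat_lit 78) (nat_lit 0) (nat_lit 0) (XT.lf (nat_lit 0) (nat_lit 54786836696) (nat_lit 76) (nat_lit 28296279372) (nat_lit 76) (nat_lit 6829616199) (nat_lit 7) (nat_lit 4) (nat_lit 8) (nat_lit 5) (nat_lit 8) (nat_lit 4) (nat_lit 407) (nat_lit 242) (nat_lit 131)) (XT.lf (nat_lit 0) (nat_lit 66021499663) (nat_lit 76) (nat_lit 23963200452) (nat_lit 76) (nat_lit 2472116679) (nat_lit 7) (nat_lit 4) (nat_lit 8) (nat_lit 5) (nat_lit 8) (nat_lit 4) (nat_lit 408) (nat_lit 242) (nat_lit 130))) (XT.nd (nat_lit 78) (nat_lit 0) (nat_lit 0) (XT.lf (nat_lit 0) (nat_lit 1966461402) (nat_lit 152) (nat_lit 17522876447) (nat_lit 76) (nat_lit 75587615609) (nat_lit 6) (nat_lit 5) (nat_lit 8) (nat_lit 5) (nat_lit 7) (nat_lit 4) (nat_lit 409) (nat_lit 242) (nat_lit 129)) (XT.lf (nat_lit 0) (nat_lit 6478504973)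 (nat_lit 152) (nat_lit 8386446755) (nat_lit 76) (nat_lit 82910310141) (nat_lit 6) (nat_lit 5) (nat_lit 8) (nat_lit 5) (nat_lit 7) (nat_lit 4) (nat_lit 410) (nat_lit 242) (nat_lit 128))))) (XT.nd (nat_lit 31668) (nat_lit 0) (nat_lit 9956) (XT.nd (nat_lit 31512) (nat_lit 0) (nat_lit 11400) (XT.nd (nat_lit 78) (nat_lit 0) (nat_lit 0) (XT.lf (nat_lit 0) (nat_lit 1025734503) (nat_lit 76) (nat_lit 10100321981) (nat_lit 152) (nat_lit 89428460398) (nat_lit 5) (nat_lit 5) (nat_lit 6) (nat_lit 5) (nat_lit 7) (nat_lit 4) (nat_lit 411) (nat_lit 242) (nat_lit 127)) (XT.lf (nat_lit 0) (nat_lit 10874018010) (nat_lit 76) (nat_lit 5114098028) (nat_lit 152) (nat_lit 87426782758) (nat_lit 5) (nat_lit 5) (nat_lit 6) (nat_lit 5) (nat_lit 7) (nat_lit 4) (nat_lit 412) (nat_lit 242) (nat_lit 126))) (XT.nd (nat_lit 78) (nat_lit 532) (nat_lit 0) (XT.lf (nat_lit 0) (nat_lit 1935314034) (nat_lit 608) (nat_lit 17758228) (nat_lit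 0) (nat_lit 1935314034) (nat_lit 162) (nat_lit 5) (nat_lit 170) (nat_lit 4) (nat_lit 162) (nat_lit 4) (nat_lit 294) (nat_lit 243) (nat_lit 243)) (XT.lf (nat_lit 0) (nat_lit 5690257835) (nat_lit 532) (nat_lit 1745415975) (nat_lit 532) (nat_lit 424784416) (nat_lit 155) (nat_lit 4) (nat_lit 162) (nat_lit 5) (nat_lit 162) (nat_lit 4) (nat_lit 295) (nat_lit 243) (nat_lit 242)))) (XT.nd (nat_lit 156) (nat_lit 456) (nat_lit 0) (XT.nd (nat_lit 78) (nat_lit 456) (nat_lit 0) (XT.lf (nat_lit 0) (nat_lit 3045125626) (nat_lit 532) (nat_lit 4384206534) (nat_lit 0) (nat_lit 518137159) (nat_lit 148) (nat_lit 5) (nat_lit 155) (nat_lit 4) (nat_lit 148) (nat_lit 4) (nat_lit 296) (nat_lit 243) (nat_lit 241)) (XT.lf (nat_lit 0) (nat_lit 1367548816) (nat_lit 456) (nat_lit 5203131955) (nat_lit 456) (nat_lit 1467578532) (nat_lit 142) (nat_lit 4) (nat_lit 148) (nat_lit 5) (nat_lit 148) (nat_lit 4) (nat_lit 297) (nat_lit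 243) (nat_lit 240))) (XT.nd (nat_lit 78) (nat_lit 380) (nat_lit 0) (XT.lf (nat_lit 0) (nat_lit 1982682857) (nat_lit 532) (nat_lit 884071256) (nat_lit 76) (nat_lit 5265928050) (nat_lit 141) (nat_lit 5) (nat_lit 148) (nat_lit 5) (nat_lit 142) (nat_lit 4) (nat_lit 298) (nat_lit 243) (nat_lit 239)) (XT.lf (nat_lit 0) (nat_lit 5048484240) (nat_lit 380) (nat_lit 417816292) (nat_lit 456) (nat_lit 2764509945) (nat_lit 136) (nat_lit 5) (nat_lit 141) (nat_lit 5) (nat_lit 142) (nat_lit 4) (nat_lit 299) (nat_lit 243) (nat_lit 238))))))))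
noncomputable def xc62 : XT := (XT.nd (nat_lit 2184) (nat_lit 2280) (nat_lit 0) (XT.nd (nat_lit 1092) (nat_lit 2432) (nat_lit 0) (XT.nd (nat_lit 546) (nat_lit 1596) (nat_lit 0) (XT.nd (nat_lit 234) (nat_lit 1292) (nat_lit 0) (XT.nd (nat_lit 78) (nat_lit 380) (nat_lit 0) (XT.lf (nat_lit 0) (nat_lit 676009255) (nat_lit 532) (nat_lit 5573442939) (nat_lit 76) (nat_lit 2083279072) (nat_lit 129) (nat_lit 5) (nat_lit 136) (nat_lit 5) (nat_lit 130) (nat_lit 4) (nat_lit 300) (nat_lit 243) (nat_lit 237)) (XT.nd (nat_lit 78) (nat_lit 0) (nat_lit 0) (XT.lf (nat_lit 0) (nat_lit 369240896) (nat_lit 380) (nat_lit 3747754853) (nat_lit 456) (nat_lit 4321389806) (nat_lit 124) (nat_lit 5) (nat_lit 129) (nat_lit 5) (nat_lit 130) (nat_lit 4) (nat_lit 301) (nat_lit 243) (nat_lit 236)) (XT.lf (nat_lit 0) (nat_lit 6491792587) (nat_lit 380) (nat_lit 1139836568) (nat_lit 456) (nat_lit 916546910) (nat_lit 124) (nat_lit 5)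 (nat_lit 129) (nat_lit 5) (nat_lit 130) (nat_lit 4) (nat_lit 302) (nat_lit 243) (nat_lit 235)))) (XT.nd (nat_lit 156) (nat_lit 456) (nat_lit 0) (XT.nd (nat_lit 78) (nat_lit 380) (nat_lit 0) (XT.lf (nat_lit 0) (nat_lit 2510092681) (nat_lit 456) (nat_lit 4596830795) (nat_lit 76) (nat_lit 1554558352) (nat_lit 118) (nat_lit 5) (nat_lit 124) (nat_lit 5) (nat_lit 119) (nat_lit 4) (nat_lit 303) (nat_lit 243) (nat_lit 234)) (XT.lf (nat_lit 0) (nat_lit 1530873102) (nat_lit 380) (nat_lit 4454080811) (nat_lit 456) (nat_lit 2794117684) (nat_lit 113) (nat_lit 5) (nat_lit 118) (nat_lit 5) (nat_lit 119) (nat_lit 4) (nat_lit 304) (nat_lit 243) (nat_lit 233))) (XT.nd (nat_lit 78) (nat_lit 380) (nat_lit 0) (XT.lf (nat_lit 0) (nat_lit 615141185) (nat_lit 456) (nat_lit 1081951384) (nat_lit 76) (nat_lit 7204046573) (nat_lit 112) (nat_lit 5) (nat_lit 118) (nat_lit 5) (nat_lit 113) (nat_lit 5) (nat_lit 305) (nat_lit 243)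 (nat_lit 232)) (XT.lf (nat_lit 0) (nat_lit 4052057485) (nat_lit 456) (nat_lit 3804383704) (nat_lit 76) (nat_lit 1170217685) (nat_lit 107) (nat_lit 5) (nat_lit 113) (nat_lit 5) (nat_lit 108) (nat_lit 4) (nat_lit 306) (nat_lit 243) (nat_lit 231))))) (XT.nd (nat_lit 234) (nat_lit 912) (nat_lit 0) (XT.nd (nat_lit 78) (nat_lit 380) (nat_lit 0) (XT.lf (nat_lit 0) (nat_lit 2503394725) (nat_lit 304) (nat_lit 5061348649) (nat_lit 380) (nat_lit 1592085285) (nat_lit 103) (nat_lit 5) (nat_lit 107) (nat_lit 5) (nat_lit 108) (nat_lit 4) (nat_lit 307) (nat_lit 243) (nat_lit 230)) (XT.nd (nat_lit 78) (nat_lit 304) (nat_lit 0) (XT.lf (nat_lit 0) (nat_lit 1814967399) (nat_lit 380) (nat_lit 341204029) (nat_lit 76) (nat_lit 7135447789) (nat_lit 102) (nat_lit 5) (nat_lit 107) (nat_lit 5) (nat_lit 103) (nat_lit 5) (nat_lit 308) (nat_lit 243) (nat_lit 229)) (XT.lf (nat_lit 0) (nat_lit 5283368876) (nat_lit 380) (nat_lit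 3282304863) (nat_lit 76) (nat_lit 864631626) (nat_lit 98) (nat_lit 5) (nat_lit 103) (nat_lit 5) (nat_lit 99) (nat_lit 4) (nat_lit 309) (nat_lit 243) (nat_lit 228)))) (XT.nd (nat_lit 156) (nat_lit 228) (nat_lit 0) (XT.nd (nat_lit 78) (nat_lit 380) (nat_lit 0) (XT.lf (nat_lit 0) (nat_lit 3197854816) (nat_lit 304) (nat_lit 5637908815) (nat_lit 380) (nat_lit 738047382) (nat_lit 94) (nat_lit 5) (nat_lit 98) (nat_lit 5) (nat_lit 99) (nat_lit 4) (nat_lit 310) (nat_lit 243) (nat_lit 227)) (XT.lf (nat_lit 0) (nat_lit 84260787) (nat_lit 304) (nat_lit 2593764559) (nat_lit 380) (nat_lit 7044079743) (nat_lit 89) (nat_lit 5) (nat_lit 93) (nat_lit 5) (nat_lit 94) (nat_lit 5) (nat_lit 311) (nat_lit 243) (nat_lit 226))) (XT.nd (nat_lit 78) (nat_lit 228) (nat_lit 0) (XT.lf (nat_lit 0) (nat_lit 6177542976) (nat_lit 380) (nat_lit 3127430090) (nat_lit 76) (nat_lit 569834102) (nat_lit 89) (nat_lit 5) (nat_lit 94) (nat_lit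 5) (nat_lit 90) (nat_lit 4) (nat_lit 312) (nat_lit 243) (nat_lit 225)) (XT.lf (nat_lit 0) (nat_lit 3514054850) (nat_lit 228) (nat_lit 6255186725) (nat_lit 304) (nat_lit 263283648) (nat_lit 86) (nat_lit 5) (nat_lit 89) (nat_lit 5) (nat_lit 90) (nat_lit 4) (nat_lit 313) (nat_lit 243) (nat_lit 224)))))) (XT.nd (nat_lit 546) (nat_lit 1216) (nat_lit 0) (XT.nd (nat_lit 234) (nat_lit 608) (nat_lit 0) (XT.nd (nat_lit 78) (nat_lit 228) (nat_lit 0) (XT.lf (nat_lit 0) (nat_lit 87224742) (nat_lit 304) (nat_lit 3083408962) (nat_lit 380) (nat_lit 7024620931) (nat_lit 81) (nat_lit 5) (nat_lit 85) (nat_lit 5) (nat_lit 86) (nat_lit 5) (nat_lit 314) (nat_lit 243) (nat_lit 223)) (XT.nd (nat_lit 78) (nat_lit 228) (nat_lit 0) (XT.lf (nat_lit 0) (nat_lit 6699312457) (nat_lit 380) (nat_lit 3449537873) (nat_lit 76) (nat_lit 214072798) (nat_lit 81) (nat_lit 5) (nat_lit 86) (nat_lit 5) (nat_lit 82) (nat_lit 4) (nat_lit 315)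 (nat_lit 243) (nat_lit 222)) (XT.lf (nat_lit 0) (nat_lit 3338137635) (nat_lit 228) (nat_lit 6989200862) (nat_lit 304) (nat_lit 208523686) (nat_lit 78) (nat_lit 5) (nat_lit 81) (nat_lit 5) (nat_lit 82) (nat_lit 4) (nat_lit 316) (nat_lit 243) (nat_lit 221)))) (XT.nd (nat_lit 156) (nat_lit 304) (nat_lit 0) (XT.nd (nat_lit 78) (nat_lit 228) (nat_lit 0) (XT.lf (nat_lit 0) (nat_lit 3251184447) (nat_lit 304) (nat_lit 450900911) (nat_lit 76) (nat_lit 7011990153) (nat_lit 77) (nat_lit 5) (nat_lit 81) (nat_lit 5) (nat_lit 78) (nat_lit 5) (nat_lit 317) (nat_lit 243) (nat_lit 220)) (XT.lf (nat_lit 0) (nat_lit 6521023295) (nat_lit 228) (nat_lit 285323244) (nat_lit 304) (nat_lit 4091392431) (nat_lit 74) (nat_lit 5) (nat_lit 77) (nat_lit 5) (nat_lit 78) (nat_lit 5) (nat_lit 318) (nat_lit 243) (nat_lit 219))) (XT.nd (nat_lit 78) (nat_lit 76) (nat_lit 0) (XT.lf (nat_lit 0) (nat_lit 2539845504) (nat_lit 228) (nat_lit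 7922215783) (nat_lit 304) (nat_lit 625074200) (nat_lit 71) (nat_lit 5) (nat_lit 74) (nat_lit 5) (nat_lit 75) (nat_lit 4) (nat_lit 319) (nat_lit 243) (nat_lit 218)) (XT.lf (nat_lit 0) (nat_lit 2869280665) (nat_lit 304) (nat_lit 1662335676) (nat_lit 76) (nat_lit 6750340425) (nat_lit 70) (nat_lit 5) (nat_lit 74) (nat_lit 5) (nat_lit 71) (nat_lit 5) (nat_lit 320) (nat_lit 243) (nat_lit 217))))) (XT.nd (nat_lit 234) (nat_lit 684) (nat_lit 0) (XT.nd (nat_lit 78) (nat_lit 304) (nat_lit 0) (XT.lf (nat_lit 0) (nat_lit 5428425365) (nat_lit 228) (nat_lit 1015639743) (nat_lit 304) (nat_lit 5038763725) (nat_lit 67) (nat_lit 5) (nat_lit 70) (nat_lit 5) (nat_lit 71) (nat_lit 5) (nat_lit 321) (nat_lit 243) (nat_lit 216)) (XT.nd (nat_lit 78) (nat_lit 76) (nat_lit 0) (XT.lf (nat_lit 0) (nat_lit 969388123) (nat_lit 228) (nat_lit 9144563961) (nat_lit 304) (nat_lit 1576174823) (nat_lit 64) (nat_lit 5) (nat_lit 67) (nat_lit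 5) (nat_lit 68) (nat_lit 4) (nat_lit 322) (nat_lit 243) (nat_lit 215)) (XT.lf (nat_lit 0) (nat_lit 1960025011) (nat_lit 304) (nat_lit 3704976300) (nat_lit 76) (nat_lit 6237845097) (nat_lit 63) (nat_lit 5) (nat_lit 67) (nat_lit 5) (nat_lit 64) (nat_lit 5) (nat_lit 323) (nat_lit 243) (nat_lit 214)))) (XT.nd (nat_lit 156) (nat_lit 456) (nat_lit 0) (XT.nd (nat_lit 78) (nat_lit 0) (nat_lit 0) (XT.lf (nat_lit 0) (nat_lit 3475040387) (nat_lit 228) (nat_lit 2067608959) (nat_lit 304) (nat_lit 6579702027) (nat_lit 60) (nat_lit 5) (nat_lit 63) (nat_lit 5) (nat_lit 64) (nat_lit 5) (nat_lit 324) (nat_lit 243) (nat_lit 213)) (XT.lf (nat_lit 0) (nat_lit 9225388487) (nat_lit 304) (nat_lit 1515977551) (nat_lit 76) (nat_lit 1607328012) (nat_lit 60) (nat_lit 5) (nat_lit 64) (nat_lit 5) (nat_lit 61) (nat_lit 4) (nat_lit 325) (nat_lit 243) (nat_lit 212))) (XT.nd (nat_lit 78) (nat_lit 228) (nat_lit 0) (XT.lf (nat_lit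 0) (nat_lit 445763671) (nat_lit 228) (nat_lit 6759256832) (nat_lit 76) (nat_lit 5376185249) (nat_lit 57) (nat_lit 5) (nat_lit 60) (nat_lit 5) (nat_lit 58) (nat_lit 5) (nat_lit 326) (nat_lit 243) (nat_lit 211)) (XT.lf (nat_lit 0) (nat_lit 472674969) (nat_lit 228) (nat_lit 3547542651) (nat_lit 304) (nat_lit 8800743792) (nat_lit 54) (nat_lit 5) (nat_lit 57) (nat_lit 5) (nat_lit 58) (nat_lit 5) (nat_lit 327) (nat_lit 243) (nat_lit 210))))))) (XT.nd (nat_lit 1092) (nat_lit 912) (nat_lit 0) (XT.nd (nat_lit 546) (nat_lit 684) (nat_lit 0) (XT.nd (nat_lit 234) (nat_lit 456) (nat_lit 0) (XT.nd (nat_lit 78) (nat_lit 228) (nat_lit 0) (XT.lf (nat_lit 0) (nat_lit 7714472953) (nat_lit 304) (nat_lit 5105324406) (nat_lit 76) (nat_lit 247763464) (nat_lit 54) (nat_lit 5) (nat_lit 58) (nat_lit 5) (nat_lit 55) (nat_lit 4) (nat_lit 328) (nat_lit 243) (nat_lit 209)) (XT.nd (nat_lit 78) (nat_lit 76) (nat_lit 0) (XT.lf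 (nat_lit 0) (nat_lit 2270122032) (nat_lit 152) (nat_lit 9249608275) (nat_lit 228) (nat_lit 1801849974) (nat_lit 52) (nat_lit 5) (nat_lit 54) (nat_lit 5) (nat_lit 55) (nat_lit 4) (nat_lit 329) (nat_lit 243) (nat_lit 208)) (XT.lf (nat_lit 0) (nat_lit 1815180306) (nat_lit 228) (nat_lit 3722747642) (nat_lit 76) (nat_lit 8044918766) (nat_lit 51) (nat_lit 5) (nat_lit 54) (nat_lit 5) (nat_lit 52) (nat_lit 5) (nat_lit 330) (nat_lit 243) (nat_lit 207)))) (XT.nd (nat_lit 156) (nat_lit 228) (nat_lit 0) (XT.nd (nat_lit 78) (nat_lit 0) (nat_lit 0) (XT.lf (nat_lit 0) (nat_lit 3790484937) (nat_lit 228) (nat_lit 1695512795) (nat_lit 304) (nat_lit 8365998435) (nat_lit 48) (nat_lit 5) (nat_lit 51) (nat_lit 5) (nat_lit 52) (nat_lit 5) (nat_lit 331) (nat_lit 243) (nat_lit 206)) (XT.lf (nat_lit 0) (nat_lit 9272085204) (nat_lit 304) (nat_lit 2636652567) (nat_lit 76) (nat_lit 2220352220) (nat_lit 48) (nat_lit 5) (nat_lit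 52) (nat_lit 5) (nat_lit 49) (nat_lit 4) (nat_lit 332) (nat_lit 243) (nat_lit 205))) (XT.nd (nat_lit 78) (nat_lit 76) (nat_lit 0) (XT.lf (nat_lit 0) (nat_lit 5002589156) (nat_lit 152) (nat_lit 8181066064) (nat_lit 228) (nat_lit 1230507959) (nat_lit 46) (nat_lit 5) (nat_lit 48) (nat_lit 5) (nat_lit 49) (nat_lit 4) (nat_lit 333) (nat_lit 243) (nat_lit 204)) (XT.lf (nat_lit 0) (nat_lit 2429973710) (nat_lit 228) (nat_lit 1895666985) (nat_lit 76) (nat_lit 10382225717) (nat_lit 45) (nat_lit 5) (nat_lit 48) (nat_lit 5) (nat_lit 46) (nat_lit 5) (nat_lit 334) (nat_lit 243) (nat_lit 203))))) (XT.nd (nat_lit 234) (nat_lit 380) (nat_lit 0) (XT.nd (nat_lit 78) (nat_lit 152) (nat_lit 0) (XT.lf (nat_lit 0) (nat_lit 5861116214) (nat_lit 152) (nat_lit 319479400) (nat_lit 228) (nat_lit 8829289446) (nat_lit 43) (nat_lit 5) (nat_lit 45) (nat_lit 5) (nat_lit 46) (nat_lit 5) (nat_lit 335) (nat_lit 243) (nat_lit 202))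 (XT.nd (nat_lit 78) (nat_lit 152) (nat_lit 0) (XT.lf (nat_lit 0) (nat_lit 10048707334) (nat_lit 228) (nat_lit 1554849474) (nat_lit 76) (nat_lit 3717279244) (nat_lit 43) (nat_lit 5) (nat_lit 46) (nat_lit 5) (nat_lit 44) (nat_lit 4) (nat_lit 336) (nat_lit 243) (nat_lit 201)) (XT.lf (nat_lit 0) (nat_lit 6302100761) (nat_lit 152) (nat_lit 7745033750) (nat_lit 228) (nat_lit 1593573211) (nat_lit 41) (nat_lit 5) (nat_lit 43) (nat_lit 5) (nat_lit 44) (nat_lit 4) (nat_lit 337) (nat_lit 243) (nat_lit 200)))) (XT.nd (nat_lit 156) (nat_lit 152) (nat_lit 0) (XT.nd (nat_lit 78) (nat_lit 152) (nat_lit 0) (XT.lf (nat_lit 0) (nat_lit 2119018461) (nat_lit 228) (nat_lit 1649102409) (nat_lit 76) (nat_lit 12202445176) (nat_lit 40) (nat_lit 5) (nat_lit 43) (nat_lit 5) (nat_lit 41) (nat_lit 5) (nat_lit 338) (nat_lit 243) (nat_lit 199)) (XT.lf (nat_lit 0) (nat_lit 5927156046) (nat_lit 228) (nat_lit 10017203972) (nat_lit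 76) (nat_lit 365019427) (nat_lit 38) (nat_lit 5) (nat_lit 41) (nat_lit 5) (nat_lit 39) (nat_lit 4) (nat_lit 339) (nat_lit 243) (nat_lit 198))) (XT.nd (nat_lit 78) (nat_lit 152) (nat_lit 0) (XT.lf (nat_lit 0) (nat_lit 9856045543) (nat_lit 228) (nat_lit 2272437816) (nat_lit 76) (nat_lit 4529696701) (nat_lit 38) (nat_lit 5) (nat_lit 41) (nat_lit 5) (nat_lit 39) (nat_lit 4) (nat_lit 340) (nat_lit 243) (nat_lit 197)) (XT.lf (nat_lit 0) (nat_lit 5736411492) (nat_lit 152) (nat_lit 8175301136) (nat_lit 228) (nat_lit 3105482258) (nat_lit 36) (nat_lit 5) (nat_lit 38) (nat_lit 5) (nat_lit 39) (nat_lit 4) (nat_lit 341) (nat_lit 243) (nat_lit 196)))))) (XT.nd (nat_lit 546) (nat_lit 380) (nat_lit 0) (XT.nd (nat_lit 234) (nat_lit 304) (nat_lit 0) (XT.nd (nat_lit 78) (nat_lit 152) (nat_lit 0) (XT.lf (nat_lit 0) (nat_lit 665427579) (nat_lit 228) (nat_lit 3441504589) (nat_lit 76) (nat_lit 13280550304) (nat_lit 35)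 (nat_lit 5) (nat_lit 38) (nat_lit 5) (nat_lit 36) (nat_lit 5) (nat_lit 342) (nat_lit 243) (nat_lit 195)) (XT.nd (nat_lit 78) (nat_lit 0) (nat_lit 0) (XT.lf (nat_lit 0) (nat_lit 4487855911) (nat_lit 228) (nat_lit 13154971630) (nat_lit 76) (nat_lit 125120509) (nat_lit 33) (nat_lit 5) (nat_lit 36) (nat_lit 5) (nat_lit 34) (nat_lit 4) (nat_lit 343) (nat_lit 243) (nat_lit 194)) (XT.lf (nat_lit 0) (nat_lit 8456187157) (nat_lit 228) (nat_lit 5298417904) (nat_lit 76) (nat_lit 4404301199) (nat_lit 33) (nat_lit 5) (nat_lit 36) (nat_lit 5) (nat_lit 34) (nat_lit 4) (nat_lit 344) (nat_lit 243) (nat_lit 193)))) (XT.nd (nat_lit 156) (nat_lit 228) (nat_lit 0) (XT.nd (nat_lit 78) (nat_lit 0) (nat_lit 0) (XT.lf (nat_lit 0) (nat_lit 2771937051) (nat_lit 76) (nat_lit 9755044648) (nat_lit 152) (nat_lit 6035124231) (nat_lit 32) (nat_lit 5) (nat_lit 33) (nat_lit 5) (nat_lit 34) (nat_lit 4) (nat_lit 345) (nat_lit 243)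 (nat_lit 192)) (XT.lf (nat_lit 0) (nat_lit 11117774129) (nat_lit 76) (nat_lit 5612933312) (nat_lit 152) (nat_lit 2246384600) (nat_lit 32) (nat_lit 5) (nat_lit 33) (nat_lit 5) (nat_lit 34) (nat_lit 4) (nat_lit 346) (nat_lit 243) (nat_lit 191))) (XT.nd (nat_lit 78) (nat_lit 0) (nat_lit 0) (XT.lf (nat_lit 0) (nat_lit 224014580) (nat_lit 152) (nat_lit 1359964066) (nat_lit 228) (nat_lit 17821277072) (nat_lit 29) (nat_lit 5) (nat_lit 31) (nat_lit 5) (nat_lit 32) (nat_lit 5) (nat_lit 347) (nat_lit 243) (nat_lit 190)) (XT.lf (nat_lit 0) (nat_lit 5551621440) (nat_lit 228) (nat_lit 11259111711) (nat_lit 76) (nat_lit 3032851777) (nat_lit 29) (nat_lit 5) (nat_lit 32) (nat_lit 5) (nat_lit 30) (nat_lit 4) (nat_lit 348) (nat_lit 243) (nat_lit 189))))) (XT.nd (nat_lit 312) (nat_lit 76) (nat_lit 0) (XT.nd (nat_lit 156) (nat_lit 228) (nat_lit 0) (XT.nd (nat_lit 78) (nat_lit 76) (nat_lit 0) (XT.lf (nat_lit 0) (nat_lit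 9611305572) (nat_lit 228) (nat_lit 3184745202) (nat_lit 76) (nat_lit 7499835916) (nat_lit 29) (nat_lit 5) (nat_lit 32) (nat_lit 5) (nat_lit 30) (nat_lit 4) (nat_lit 349) (nat_lit 243) (nat_lit 188)) (XT.lf (nat_lit 0) (nat_lit 5162729923) (nat_lit 76) (nat_lit 8640402928) (nat_lit 152) (nat_lit 6958326732) (nat_lit 28) (nat_lit 5) (nat_lit 29) (nat_lit 5) (nat_lit 30) (nat_lit 4) (nat_lit 350) (nat_lit 243) (nat_lit 187))) (XT.nd (nat_lit 78) (nat_lit 228) (nat_lit 0) (XT.lf (nat_lit 0) (nat_lit 13756732580) (nat_lit 76) (nat_lit 4357346269) (nat_lit 152) (nat_lit 3127132185) (nat_lit 28) (nat_lit 5) (nat_lit 29) (nat_lit 5) (nat_lit 30) (nat_lit 4) (nat_lit 351) (nat_lit 243) (nat_lit 186)) (XT.lf (nat_lit 0) (nat_lit 773172843) (nat_lit 228) (nat_lit 20923164028) (nat_lit 76) (nat_lit 39688872) (nat_lit 25) (nat_lit 5) (nat_lit 28) (nat_lit 5) (nat_lit 26) (nat_lit 4) (nat_lit 352) (nat_lit 243)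 (nat_lit 185)))) (XT.nd (nat_lit 156) (nat_lit 76) (nat_lit 0) (XT.nd (nat_lit 78) (nat_lit 0) (nat_lit 0) (XT.lf (nat_lit 0) (nat_lit 4809229565) (nat_lit 228) (nat_lit 12873845366) (nat_lit 76) (nat_lit 4559244512) (nat_lit 25) (nat_lit 5) (nat_lit 28) (nat_lit 5) (nat_lit 26) (nat_lit 4) (nat_lit 353) (nat_lit 243) (nat_lit 184)) (XT.lf (nat_lit 0) (nat_lit 8929597020) (nat_lit 228) (nat_lit 4649185340) (nat_lit 76) (nat_lit 9186133642) (nat_lit 25) (nat_lit 5) (nat_lit 28) (nat_lit 5) (nat_lit 26) (nat_lit 4) (nat_lit 354) (nat_lit 243) (nat_lit 183))) (XT.nd (nat_lit 78) (nat_lit 0) (nat_lit 0) (XT.lf (nat_lit 0) (nat_lit 3832794266) (nat_lit 76) (nat_lit 9341924425) (nat_lit 152) (nat_lit 10128448072) (nat_lit 24) (nat_lit 5) (nat_lit 25) (nat_lit 5) (nat_lit 26) (nat_lit 4) (nat_lit 355) (nat_lit 243) (nat_lit 182)) (XT.lf (nat_lit 0) (nat_lit 12600954691) (nat_lit 76) (nat_lit 4957915621)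 (nat_lit 152) (nat_lit 6298354737) (nat_lit 24) (nat_lit 5) (nat_lit 25) (nat_lit 5) (nat_lit 26) (nat_lit 4) (nat_lit 356) (nat_lit 243) (nat_lit 181))))))))
noncomputable def xc63 : XT := (XT.nd (nat_lit 2184) (nat_lit 456) (nat_lit 0) (XT.nd (nat_lit 1092) (nat_lit 456) (nat_lit 0) (XT.nd (nat_lit 546) (nat_lit 228) (nat_lit 0) (XT.nd (nat_lit 234) (nat_lit 76) (nat_lit 0) (XT.nd (nat_lit 78) (nat_lit 228) (nat_lit 0) (XT.lf (nat_lit 0) (nat_lit 21570429528) (nat_lit 76) (nat_lit 469872917) (nat_lit 152) (nat_lit 2388639951) (nat_lit 24) (nat_lit 5) (nat_lit 25) (nat_lit 5) (nat_lit 26) (nat_lit 4) (nat_lit 357) (nat_lit 243) (nat_lit 180)) (XT.nd (nat_lit 78) (nat_lit 0) (nat_lit 0) (XT.lf (nat_lit 0) (nat_lit 1669208395) (nat_lit 228) (nat_lit 19228490991) (nat_lit 76) (nat_lit 4117764449) (nat_lit 21) (nat_lit 5) (nat_lit 24) (nat_lit 5) (nat_lit 22) (nat_lit 4) (nat_lit 358) (nat_lit 243)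 (nat_lit 179)) (XT.lf (nat_lit 0) (nat_lit 5801144327) (nat_lit 228) (nat_lit 10957645799) (nat_lit 76) (nat_lit 8860079597) (nat_lit 21) (nat_lit 5) (nat_lit 24) (nat_lit 5) (nat_lit 22) (nat_lit 4) (nat_lit 359) (nat_lit 243) (nat_lit 178)))) (XT.nd (nat_lit 156) (nat_lit 0) (nat_lit 0) (XT.nd (nat_lit 78) (nat_lit 76) (nat_lit 0) (XT.lf (nat_lit 0) (nat_lit 10024570427) (nat_lit 228) (nat_lit 2497668241) (nat_lit 76) (nat_lit 13719122033) (nat_lit 21) (nat_lit 5) (nat_lit 24) (nat_lit 5) (nat_lit 22) (nat_lit 4) (nat_lit 360) (nat_lit 243) (nat_lit 177)) (XT.lf (nat_lit 0) (nat_lit 6281406766) (nat_lit 76) (nat_lit 8122151027) (nat_lit 152) (nat_lit 12478111481) (nat_lit 20) (nat_lit 5) (nat_lit 21) (nat_lit 5) (nat_lit 22) (nat_lit 4) (nat_lit 361) (nat_lit 243) (nat_lit 176))) (XT.nd (nat_lit 78) (nat_lit 0) (nat_lit 0) (XT.lf (nat_lit 0) (nat_lit 15318340543) (nat_lit 76) (nat_lit 3589646508)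 (nat_lit 152) (nat_lit 8633386252) (nat_lit 20) (nat_lit 5) (nat_lit 21) (nat_lit 5) (nat_lit 22) (nat_lit 4) (nat_lit 362) (nat_lit 243) (nat_lit 175)) (XT.lf (nat_lit 0) (nat_lit 23527438992) (nat_lit 152) (nat_lit 3660594719) (nat_lit 0) (nat_lit 1033446172) (nat_lit 20) (nat_lit 5) (nat_lit 22) (nat_lit 4) (nat_lit 20) (nat_lit 4) (nat_lit 363) (nat_lit 243) (nat_lit 174))))) (XT.nd (nat_lit 234) (nat_lit 76) (nat_lit 0) (XT.nd (nat_lit 78) (nat_lit 76) (nat_lit 0) (XT.lf (nat_lit 0) (nat_lit 5169944903) (nat_lit 76) (nat_lit 23171174502) (nat_lit 76) (nat_lit 579208796) (nat_lit 19) (nat_lit 4) (nat_lit 20) (nat_lit 5) (nat_lit 20) (nat_lit 4) (nat_lit 364) (nat_lit 243) (nat_lit 173)) (XT.nd (nat_lit 78) (nat_lit 0) (nat_lit 0) (XT.lf (nat_lit 0) (nat_lit 3595454433) (nat_lit 152) (nat_lit 15388312512) (nat_lit 76) (nat_lit 10655093628) (nat_lit 18) (nat_lit 5) (nat_lit 20) (nat_lit 5) (nat_lit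 19) (nat_lit 4) (nat_lit 365) (nat_lit 243) (nat_lit 172)) (XT.lf (nat_lit 0) (nat_lit 7855033468) (nat_lit 152) (nat_lit 6833715911) (nat_lit 76) (nat_lit 15690895191) (nat_lit 18) (nat_lit 5) (nat_lit 20) (nat_lit 5) (nat_lit 19) (nat_lit 4) (nat_lit 366) (nat_lit 243) (nat_lit 171)))) (XT.nd (nat_lit 156) (nat_lit 0) (nat_lit 0) (XT.nd (nat_lit 78) (nat_lit 0) (nat_lit 0) (XT.lf (nat_lit 0) (nat_lit 1964789218) (nat_lit 76) (nat_lit 10268650258) (nat_lit 152) (nat_lit 18909488429) (nat_lit 17) (nat_lit 5) (nat_lit 18) (nat_lit 5) (nat_lit 19) (nat_lit 4) (nat_lit 367) (nat_lit 243) (nat_lit 170)) (XT.lf (nat_lit 0) (nat_lit 11116765177) (nat_lit 76) (nat_lit 5667917452) (nat_lit 152) (nat_lit 15143189369) (nat_lit 17) (nat_lit 5) (nat_lit 18) (nat_lit 5) (nat_lit 19) (nat_lit 4) (nat_lit 368) (nat_lit 243) (nat_lit 169))) (XT.nd (nat_lit 78) (nat_lit 0) (nat_lit 0) (XT.lf (nat_lit 0) (nat_lit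 20494204490) (nat_lit 76) (nat_lit 951538032) (nat_lit 152) (nat_lit 11291430112) (nat_lit 17) (nat_lit 5) (nat_lit 18) (nat_lit 5) (nat_lit 19) (nat_lit 4) (nat_lit 369) (nat_lit 243) (nat_lit 168)) (XT.lf (nat_lit 0) (nat_lit 26258033169) (nat_lit 152) (nat_lit 3503577175) (nat_lit 0) (nat_lit 3808806391) (nat_lit 17) (nat_lit 5) (nat_lit 19) (nat_lit 4) (nat_lit 17) (nat_lit 4) (nat_lit 370) (nat_lit 243) (nat_lit 167)))))) (XT.nd (nat_lit 546) (nat_lit 228) (nat_lit 0) (XT.nd (nat_lit 234) (nat_lit 76) (nat_lit 0) (XT.nd (nat_lit 78) (nat_lit 76) (nat_lit 0) (XT.lf (nat_lit 0) (nat_lit 5550038898) (nat_lit 76) (nat_lit 25702035751) (nat_lit 76) (nat_lit 3175468273) (nat_lit 16) (nat_lit 4) (nat_lit 17) (nat_lit 5) (nat_lit 17) (nat_lit 4) (nat_lit 371) (nat_lit 243) (nat_lit 166)) (XT.nd (nat_lit 78) (nat_lit 0) (nat_lit 0) (XT.lf (nat_lit 0) (nat_lit 1074750817) (nat_lit 152) (nat_lit 20419911377)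 (nat_lit 76) (nat_lit 13815102136) (nat_lit 15) (nat_lit 5) (nat_lit 17) (nat_lit 5) (nat_lit 16) (nat_lit 4) (nat_lit 372) (nat_lit 243) (nat_lit 165)) (XT.lf (nat_lit 0) (nat_lit 5364040931) (nat_lit 152) (nat_lit 11785553471) (nat_lit 76) (nat_lit 19068658821) (nat_lit 15) (nat_lit 5) (nat_lit 17) (nat_lit 5) (nat_lit 16) (nat_lit 4) (nat_lit 373) (nat_lit 243) (nat_lit 164)))) (XT.nd (nat_lit 156) (nat_lit 0) (nat_lit 0) (XT.nd (nat_lit 78) (nat_lit 76) (nat_lit 0) (XT.lf (nat_lit 0) (nat_lit 9758114817) (nat_lit 152) (nat_lit 2936361180) (nat_lit 76) (nat_lit 24460243167) (nat_lit 15) (nat_lit 5) (nat_lit 17) (nat_lit 5) (nat_lit 16) (nat_lit 4) (nat_lit 374) (nat_lit 243) (nat_lit 163)) (XT.lf (nat_lit 0) (nat_lit 6257504248) (nat_lit 76) (nat_lit 8063458667) (nat_lit 152) (nat_lit 23797212980) (nat_lit 14) (nat_lit 5) (nat_lit 15) (nat_lit 5) (nat_lit 16) (nat_lit 4) (nat_lit 375) (nat_lit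 243) (nat_lit 162))) (XT.nd (nat_lit 78) (nat_lit 0) (nat_lit 0) (XT.lf (nat_lit 0) (nat_lit 15744889763) (nat_lit 76) (nat_lit 3282526493) (nat_lit 152) (nat_lit 20082923691) (nat_lit 14) (nat_lit 5) (nat_lit 15) (nat_lit 5) (nat_lit 16) (nat_lit 4) (nat_lit 376) (nat_lit 243) (nat_lit 161)) (XT.lf (nat_lit 0) (nat_lit 23868399215) (nat_lit 152) (nat_lit 14672895722) (nat_lit 0) (nat_lit 1591178966) (nat_lit 14) (nat_lit 5) (nat_lit 16) (nat_lit 4) (nat_lit 14) (nat_lit 4) (nat_lit 377) (nat_lit 243) (nat_lit 160))))) (XT.nd (nat_lit 234) (nat_lit 152) (nat_lit 0) (XT.nd (nat_lit 78) (nat_lit 76) (nat_lit 0) (XT.lf (nat_lit 0) (nat_lit 28865319408) (nat_lit 152) (nat_lit 5792590456) (nat_lit 0) (nat_lit 6527045696) (nat_lit 14) (nat_lit 5) (nat_lit 16) (nat_lit 4) (nat_lit 14) (nat_lit 4) (nat_lit 378) (nat_lit 243) (nat_lit 159)) (XT.nd (nat_lit 78) (nat_lit 0) (nat_lit 0) (XT.lf (nat_lit 0) (nat_lit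 3380749351) (nat_lit 76) (nat_lit 30642737904) (nat_lit 76) (nat_lit 8245188985) (nat_lit 13) (nat_lit 4) (nat_lit 14) (nat_lit 5) (nat_lit 14) (nat_lit 4) (nat_lit 379) (nat_lit 243) (nat_lit 158)) (XT.lf (nat_lit 0) (nat_lit 12909072304) (nat_lit 76) (nat_lit 26464905599) (nat_lit 76) (nat_lit 4009807935) (nat_lit 13) (nat_lit 4) (nat_lit 14) (nat_lit 5) (nat_lit 14) (nat_lit 4) (nat_lit 380) (nat_lit 243) (nat_lit 157)))) (XT.nd (nat_lit 156) (nat_lit 76) (nat_lit 0) (XT.nd (nat_lit 78) (nat_lit 0) (nat_lit 0) (XT.lf (nat_lit 0) (nat_lit 325241072) (nat_lit 152) (nat_lit 21850730853) (nat_lit 76) (nat_lit 22356894844) (nat_lit 12) (nat_lit 5) (nat_lit 14) (nat_lit 5) (nat_lit 13) (nat_lit 4) (nat_lit 381) (nat_lit 243) (nat_lit 156)) (XT.lf (nat_lit 0) (nat_lit 4689833524) (nat_lit 152) (nat_lit 13044853386) (nat_lit 76) (nat_lit 27981143871) (nat_lit 12) (nat_lit 5) (nat_lit 14) (nat_lit 5)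 (nat_lit 13) (nat_lit 4) (nat_lit 382) (nat_lit 243) (nat_lit 155))) (XT.nd (nat_lit 78) (nat_lit 76) (nat_lit 0) (XT.lf (nat_lit 0) (nat_lit 9166028938) (nat_lit 152) (nat_lit 4010841950) (nat_lit 76) (nat_lit 33757996987) (nat_lit 12) (nat_lit 5) (nat_lit 14) (nat_lit 5) (nat_lit 13) (nat_lit 4) (nat_lit 383) (nat_lit 243) (nat_lit 154)) (XT.lf (nat_lit 0) (nat_lit 5363865587) (nat_lit 76) (nat_lit 8445433721) (nat_lit 152) (nat_lit 34380197097) (nat_lit 11) (nat_lit 5) (nat_lit 12) (nat_lit 5) (nat_lit 13) (nat_lit 4) (nat_lit 384) (nat_lit 243) (nat_lit 153))))))) (XT.nd (nat_lit 1092) (nat_lit 228) (nat_lit 0) (XT.nd (nat_lit 546) (nat_lit 152) (nat_lit 0) (XT.nd (nat_lit 234) (nat_lit 76) (nat_lit 0) (XT.nd (nat_lit 78) (nat_lit 0) (nat_lit 0) (XT.lf (nat_lit 0) (nat_lit 15067383166) (nat_lit 76) (nat_lit 3546428276) (nat_lit 152) (nat_lit 30867297920) (nat_lit 11) (nat_lit 5) (nat_lit 12)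 (nat_lit 5) (nat_lit 13) (nat_lit 4) (nat_lit 385) (nat_lit 243) (nat_lit 152)) (XT.nd (nat_lit 78) (nat_lit 0) (nat_lit 0) (XT.lf (nat_lit 0) (nat_lit 23558705866) (nat_lit 152) (nat_lit 25797913420) (nat_lit 0) (nat_lit 1454967779) (nat_lit 11) (nat_lit 5) (nat_lit 13) (nat_lit 4) (nat_lit 11) (nat_lit 4) (nat_lit 386) (nat_lit 243) (nat_lit 151)) (XT.lf (nat_lit 0) (nat_lit 28669421789) (nat_lit 152) (nat_lit 16991782538) (nat_lit 0) (nat_lit 6520254192) (nat_lit 11) (nat_lit 5) (nat_lit 13) (nat_lit 4) (nat_lit 11) (nat_lit 4) (nat_lit 387) (nat_lit 243) (nat_lit 150)))) (XT.nd (nat_lit 156) (nat_lit 0) (nat_lit 0) (XT.nd (nat_lit 78) (nat_lit 76) (nat_lit 0) (XT.lf (nat_lit 0) (nat_lit 33916334446) (nat_lit 152) (nat_lit 7953548434) (nat_lit 0) (nat_lit 11723060529) (nat_lit 11) (nat_lit 5) (nat_lit 13) (nat_lit 4) (nat_lit 11) (nat_lit 4) (nat_lit 388) (nat_lit 243) (nat_lit 149)) (XT.lf (nat_lit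 0) (nat_lit 1351050234) (nat_lit 76) (nat_lit 37965965406) (nat_lit 76) (nat_lit 15729869818) (nat_lit 10) (nat_lit 4) (nat_lit 11) (nat_lit 5) (nat_lit 11) (nat_lit 4) (nat_lit 389) (nat_lit 243) (nat_lit 148))) (XT.nd (nat_lit 78) (nat_lit 0) (nat_lit 0) (XT.lf (nat_lit 0) (nat_lit 11066985850) (nat_lit 76) (nat_lit 33876608489) (nat_lit 76) (nat_lit 11598938464) (nat_lit 10) (nat_lit 4) (nat_lit 11) (nat_lit 5) (nat_lit 11) (nat_lit 4) (nat_lit 390) (nat_lit 243) (nat_lit 147)) (XT.lf (nat_lit 0) (nat_lit 21044456856) (nat_lit 76) (nat_lit 29678554151) (nat_lit 76) (nat_lit 7360520594) (nat_lit 10) (nat_lit 4) (nat_lit 11) (nat_lit 5) (nat_lit 11) (nat_lit 4) (nat_lit 391) (nat_lit 243) (nat_lit 146))))) (XT.nd (nat_lit 234) (nat_lit 76) (nat_lit 0) (XT.nd (nat_lit 78) (nat_lit 76) (nat_lit 0) (XT.lf (nat_lit 0) (nat_lit 31292181430) (nat_lit 76) (nat_lit 25368134188) (nat_lit 76) (nat_lit 3010912736)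 (nat_lit 10) (nat_lit 4) (nat_lit 11) (nat_lit 5) (nat_lit 11) (nat_lit 4) (nat_lit 392) (nat_lit 243) (nat_lit 145)) (XT.nd (nat_lit 78) (nat_lit 0) (nat_lit 0) (XT.lf (nat_lit 0) (nat_lit 1425319092) (nat_lit 152) (nat_lit 19501870192) (nat_lit 76) (nat_lit 40379401874) (nat_lit 9) (nat_lit 5) (nat_lit 11) (nat_lit 5) (nat_lit 10) (nat_lit 4) (nat_lit 393) (nat_lit 243) (nat_lit 144)) (XT.lf (nat_lit 0) (nat_lit 5919368886) (nat_lit 152) (nat_lit 10415887461) (nat_lit 76) (nat_lit 46655309637) (nat_lit 9) (nat_lit 5) (nat_lit 11) (nat_lit 5) (nat_lit 10) (nat_lit 4) (nat_lit 394) (nat_lit 243) (nat_lit 143)))) (XT.nd (nat_lit 156) (nat_lit 0) (nat_lit 0) (XT.nd (nat_lit 78) (nat_lit 76) (nat_lit 0) (XT.lf (nat_lit 0) (nat_lit 10533917235) (nat_lit 152) (nat_lit 1084216787) (nat_lit 76) (nat_lit 53107358522) (nat_lit 9) (nat_lit 5) (nat_lit 11) (nat_lit 5) (nat_lit 10) (nat_lit 4) (nat_lit 395)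 (nat_lit 243) (nat_lit 142)) (XT.lf (nat_lit 0) (nat_lit 8670488169) (nat_lit 76) (nat_lit 6685854136) (nat_lit 152) (nat_lit 51154044110) (nat_lit 8) (nat_lit 5) (nat_lit 9) (nat_lit 5) (nat_lit 10) (nat_lit 4) (nat_lit 396) (nat_lit 243) (nat_lit 141))) (XT.nd (nat_lit 78) (nat_lit 0) (nat_lit 0) (XT.lf (nat_lit 0) (nat_lit 18714207328) (nat_lit 76) (nat_lit 1606432012) (nat_lit 152) (nat_lit 48028274427) (nat_lit 8) (nat_lit 5) (nat_lit 9) (nat_lit 5) (nat_lit 10) (nat_lit 4) (nat_lit 397) (nat_lit 243) (nat_lit 140)) (XT.lf (nat_lit 0) (nat_lit 25455252847) (nat_lit 152) (nat_lit 41243597601) (nat_lit 0) (nat_lit 3543107431) (nat_lit 8) (nat_lit 5) (nat_lit 10) (nat_lit 4) (nat_lit 8) (nat_lit 4) (nat_lit 398) (nat_lit 243) (nat_lit 139)))))) (XT.nd (nat_lit 546) (nat_lit 152) (nat_lit 0) (XT.nd (nat_lit 234) (nat_lit 76) (nat_lit 0) (XT.nd (nat_lit 78) (nat_lit 0) (nat_lit 0) (XT.lf (nat_lit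 0) (nat_lit 30746740374) (nat_lit 152) (nat_lit 32641310690) (nat_lit 0) (nat_lit 8803659672) (nat_lit 8) (nat_lit 5) (nat_lit 10) (nat_lit 4) (nat_lit 8) (nat_lit 4) (nat_lit 399) (nat_lit 243) (nat_lit 138)) (XT.nd (nat_lit 78) (nat_lit 0) (nat_lit 0) (XT.lf (nat_lit 0) (nat_lit 36184283545) (nat_lit 152) (nat_lit 23804887136) (nat_lit 0) (nat_lit 14211168585) (nat_lit 8) (nat_lit 5) (nat_lit 10) (nat_lit 4) (nat_lit 8) (nat_lit 4) (nat_lit 400) (nat_lit 243) (nat_lit 137)) (XT.lf (nat_lit 0) (nat_lit 41772633611) (nat_lit 152) (nat_lit 14726605794) (nat_lit 0) (nat_lit 19770359176) (nat_lit 8) (nat_lit 5) (nat_lit 10) (nat_lit 4) (nat_lit 8) (nat_lit 4) (nat_lit 401) (nat_lit 243) (nat_lit 136)))) (XT.nd (nat_lit 156) (nat_lit 0) (nat_lit 0) (XT.nd (nat_lit 78) (nat_lit 76) (nat_lit 0) (XT.lf (nat_lit 0) (nat_lit 47516673596) (nat_lit 152) (nat_lit 5398534185) (nat_lit 0) (nat_lit 25486088993)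 (nat_lit 8) (nat_lit 5) (nat_lit 10) (nat_lit 4) (nat_lit 8) (nat_lit 4) (nat_lit 402) (nat_lit 243) (nat_lit 135)) (XT.lf (nat_lit 0) (nat_lit 4270817465) (nat_lit 76) (nat_lit 49191658809) (nat_lit 76) (nat_lit 27133588605) (nat_lit 7) (nat_lit 4) (nat_lit 8) (nat_lit 5) (nat_lit 8) (nat_lit 4) (nat_lit 403) (nat_lit 243) (nat_lit 134))) (XT.nd (nat_lit 78) (nat_lit 0) (nat_lit 0) (XT.lf (nat_lit 0) (nat_lit 14319227902) (nat_lit 76) (nat_lit 45310457281) (nat_lit 76) (nat_lit 23225702028) (nat_lit 7) (nat_lit 4) (nat_lit 8) (nat_lit 5) (nat_lit 8) (nat_lit 4) (nat_lit 404) (nat_lit 243) (nat_lit 133)) (XT.lf (nat_lit 0) (nat_lit 24648035874) (nat_lit 76) (nat_lit 41322726467) (nat_lit 76) (nat_lit 19212063399) (nat_lit 7) (nat_lit 4) (nat_lit 8) (nat_lit 5) (nat_lit 8) (nat_lit 4) (nat_lit 405) (nat_lit 243) (nat_lit 132))))) (XT.nd (nat_lit 312) (nat_lit 152) (nat_lit 0) (XT.nd (nat_lit 156)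 (nat_lit 0) (nat_lit 0) (XT.nd (nat_lit 78) (nat_lit 0) (nat_lit 0) (XT.lf (nat_lit 0) (nat_lit 35266266553) (nat_lit 76) (nat_lit 37224981941) (nat_lit 76) (nat_lit 15089165655) (nat_lit 7) (nat_lit 4) (nat_lit 8) (nat_lit 5) (nat_lit 8) (nat_lit 4) (nat_lit 406) (nat_lit 243) (nat_lit 131)) (XT.lf (nat_lit 0) (nat_lit 46183198004) (nat_lit 76) (nat_lit 33013643151) (nat_lit 76) (nat_lit 10853406264) (nat_lit 7) (nat_lit 4) (nat_lit 8) (nat_lit 5) (nat_lit 8) (nat_lit 4) (nat_lit 407) (nat_lit 243) (nat_lit 130))) (XT.nd (nat_lit 78) (nat_lit 0) (nat_lit 0) (XT.lf (nat_lit 0) (nat_lit 57408369295) (nat_lit 76) (nat_lit 28685030285) (nat_lit 76) (nat_lit 6501084077) (nat_lit 7) (nat_lit 4) (nat_lit 8) (nat_lit 5) (nat_lit 8) (nat_lit 4) (nat_lit 408) (nat_lit 243) (nat_lit 129)) (XT.lf (nat_lit 0) (nat_lit 68951588826) (nat_lit 76) (nat_lit 24235361060) (nat_lit 76) (nat_lit 2028396094) (nat_lit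 7) (nat_lit 4) (nat_lit 8) (nat_lit 5) (nat_lit 8) (nat_lit 4) (nat_lit 409) (nat_lit 243) (nat_lit 128)))) (XT.nd (nat_lit 156) (nat_lit 76) (nat_lit 0) (XT.nd (nat_lit 78) (nat_lit 0) (nat_lit 0) (XT.lf (nat_lit 0) (nat_lit 2518443886) (nat_lit 152) (nat_lit 17116872184) (nat_lit 76) (nat_lit 78279067675) (nat_lit 6) (nat_lit 5) (nat_lit 8) (nat_lit 5) (nat_lit 7) (nat_lit 4) (nat_lit 410) (nat_lit 243) (nat_lit 127)) (XT.lf (nat_lit 0) (nat_lit 7151489872) (nat_lit 152) (nat_lit 7733486219) (nat_lit 76) (nat_lit 85809098667) (nat_lit 6) (nat_lit 5) (nat_lit 8) (nat_lit 5) (nat_lit 7) (nat_lit 4) (nat_lit 411) (nat_lit 243) (nat_lit 126))) (XT.nd (nat_lit 31278) (nat_lit 0) (nat_lit 12540) (XT.lf (nat_lit 0) (nat_lit 1952192300) (nat_lit 76) (nat_lit 9980944835) (nat_lit 152) (nat_lit 91623732717) (nat_lit 5) (nat_lit 5) (nat_lit 6) (nat_lit 5) (nat_lit 7) (nat_lit 4) (nat_lit 412) (nat_lit 243)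 (nat_lit 125)) (XT.lf (nat_lit 0) (nat_lit 2112365653) (nat_lit 532) (nat_lit 848467656) (nat_lit 532) (nat_lit 848467656) (nat_lit 170) (nat_lit 4) (nat_lit 177) (nat_lit 5) (nat_lit 177) (nat_lit 4) (nat_lit 292) (nat_lit 244) (nat_lit 244))))))))
noncomputable def xc64 : XT := (XT.nd (nat_lit 2184) (nat_lit 3116) (nat_lit 0) (XT.nd (nat_lit 1092) (nat_lit 2812) (nat_lit 0) (XT.nd (nat_lit 546) (nat_lit 2204) (nat_lit 0) (XT.nd (nat_lit 234) (nat_lit 1368) (nat_lit 0) (XT.nd (nat_lit 78) (nat_lit 608) (nat_lit 0) (XT.lf (nat_lit 0) (nat_lit 1730906767) (nat_lit 608) (nat_lit 5595227470) (nat_lit 0) (nat_lit 370656262) (nat_lit 162) (nat_lit 5) (nat_lit 170) (nat_lit 4) (nat_lit 162) (nat_lit 4) (nat_lit 293) (nat_lit 244) (nat_lit 243)) (XT.nd (nat_lit 78) (nat_lit 608) (nat_lit 0) (XT.lf (nat_lit 0) (nat_lit 5184266033) (nat_lit 608) (nat_lit 90573342) (nat_lit 0) (nat_lit 2503383969) (nat_lit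 162) (nat_lit 5) (nat_lit 170) (nat_lit 4) (nat_lit 162) (nat_lit 4) (nat_lit 294) (nat_lit 244) (nat_lit 242)) (XT.lf (nat_lit 0) (nat_lit 823259194) (nat_lit 608) (nat_lit 2291832461) (nat_lit 76) (nat_lit 4748015598) (nat_lit 154) (nat_lit 5) (nat_lit 162) (nat_lit 5) (nat_lit 155) (nat_lit 4) (nat_lit 295) (nat_lit 244) (nat_lit 241)))) (XT.nd (nat_lit 156) (nat_lit 456) (nat_lit 0) (XT.nd (nat_lit 78) (nat_lit 456) (nat_lit 0) (XT.lf (nat_lit 0) (nat_lit 3385334028) (nat_lit 456) (nat_lit 847771665) (nat_lit 532) (nat_lit 3718491318) (nat_lit 148) (nat_lit 5) (nat_lit 154) (nat_lit 5) (nat_lit 155) (nat_lit 4) (nat_lit 296) (nat_lit 244) (nat_lit 240)) (XT.lf (nat_lit 0) (nat_lit 1134467939) (nat_lit 456) (nat_lit 6569576549) (nat_lit 456) (nat_lit 340027532) (nat_lit 142) (nat_lit 4) (nat_lit 148) (nat_lit 5) (nat_lit 148) (nat_lit 4) (nat_lit 297) (nat_lit 244) (nat_lit 239))) (XT.nd (nat_lit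 78) (nat_lit 380) (nat_lit 0) (XT.lf (nat_lit 0) (nat_lit 3044298369) (nat_lit 532) (nat_lit 1188811709) (nat_lit 76) (nat_lit 3906421491) (nat_lit 141) (nat_lit 5) (nat_lit 148) (nat_lit 5) (nat_lit 142) (nat_lit 4) (nat_lit 298) (nat_lit 244) (nat_lit 238)) (XT.lf (nat_lit 0) (nat_lit 4683210001) (nat_lit 380) (nat_lit 1798541496) (nat_lit 456) (nat_lit 1757335908) (nat_lit 136) (nat_lit 5) (nat_lit 141) (nat_lit 5) (nat_lit 142) (nat_lit 4) (nat_lit 299) (nat_lit 244) (nat_lit 237))))) (XT.nd (nat_lit 234) (nat_lit 1292) (nat_lit 0) (XT.nd (nat_lit 78) (nat_lit 380) (nat_lit 0) (XT.lf (nat_lit 0) (nat_lit 1603542068) (nat_lit 532) (nat_lit 6015236639) (nat_lit 76) (nat_lit 723778810) (nat_lit 129) (nat_lit 5) (nat_lit 136) (nat_lit 5) (nat_lit 130) (nat_lit 4) (nat_lit 300) (nat_lit 244) (nat_lit 236)) (XT.nd (nat_lit 78) (nat_lit 380) (nat_lit 0) (XT.lf (nat_lit 0) (nat_lit 4999215378) (nat_lit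 532) (nat_lit 134173943) (nat_lit 76) (nat_lit 3316220852) (nat_lit 129) (nat_lit 5) (nat_lit 136) (nat_lit 5) (nat_lit 130) (nat_lit 4) (nat_lit 301) (nat_lit 244) (nat_lit 235)) (XT.lf (nat_lit 0) (nat_lit 5931824992) (nat_lit 380) (nat_lit 2539643018) (nat_lit 456) (nat_lit 89241934) (nat_lit 124) (nat_lit 5) (nat_lit 129) (nat_lit 5) (nat_lit 130) (nat_lit 4) (nat_lit 302) (nat_lit 244) (nat_lit 234)))) (XT.nd (nat_lit 156) (nat_lit 456) (nat_lit 0) (XT.nd (nat_lit 78) (nat_lit 380) (nat_lit 0) (XT.lf (nat_lit 0) (nat_lit 3261180026) (nat_lit 456) (nat_lit 5243209793) (nat_lit 76) (nat_lit 171225193) (nat_lit 118) (nat_lit 5) (nat_lit 124) (nat_lit 5) (nat_lit 119) (nat_lit 4) (nat_lit 303) (nat_lit 244) (nat_lit 233)) (XT.lf (nat_lit 0) (nat_lit 816832277) (nat_lit 380) (nat_lit 5872588094) (nat_lit 456) (nat_lit 2105217662) (nat_lit 113) (nat_lit 5) (nat_lit 118) (nat_lit 5) (nat_lit 119)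 (nat_lit 4) (nat_lit 304) (nat_lit 244) (nat_lit 232))) (XT.nd (nat_lit 78) (nat_lit 380) (nat_lit 0) (XT.lf (nat_lit 0) (nat_lit 1251067570) (nat_lit 456) (nat_lit 1872201720) (nat_lit 76) (nat_lit 5794456184) (nat_lit 112) (nat_lit 5) (nat_lit 118) (nat_lit 5) (nat_lit 113) (nat_lit 5) (nat_lit 305) (nat_lit 244) (nat_lit 231)) (XT.lf (nat_lit 0) (nat_lit 4374622877) (nat_lit 380) (nat_lit 255247189) (nat_lit 456) (nat_lit 4415150242) (nat_lit 107) (nat_lit 5) (nat_lit 112) (nat_lit 5) (nat_lit 113) (nat_lit 5) (nat_lit 306) (nat_lit 244) (nat_lit 230)))))) (XT.nd (nat_lit 546) (nat_lit 1216) (nat_lit 0) (XT.nd (nat_lit 234) (nat_lit 912) (nat_lit 0) (XT.nd (nat_lit 78) (nat_lit 380) (nat_lit 0) (XT.lf (nat_lit 0) (nat_lit 1568633349) (nat_lit 304) (nat_lit 6524586573) (nat_lit 380) (nat_lit 1083481017) (nat_lit 103) (nat_lit 5) (nat_lit 107) (nat_lit 5) (nat_lit 108) (nat_lit 4) (nat_lit 307)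 (nat_lit 244) (nat_lit 229)) (XT.nd (nat_lit 78) (nat_lit 304) (nat_lit 0) (XT.lf (nat_lit 0) (nat_lit 2275951153) (nat_lit 380) (nat_lit 1353947377) (nat_lit 76) (nat_lit 5682606169) (nat_lit 102) (nat_lit 5) (nat_lit 107) (nat_lit 5) (nat_lit 103) (nat_lit 5) (nat_lit 308) (nat_lit 244) (nat_lit 228)) (XT.lf (nat_lit 0) (nat_lit 5071133755) (nat_lit 304) (nat_lit 617708787) (nat_lit 380) (nat_lit 3764041762) (nat_lit 98) (nat_lit 5) (nat_lit 102) (nat_lit 5) (nat_lit 103) (nat_lit 5) (nat_lit 309) (nat_lit 244) (nat_lit 227)))) (XT.nd (nat_lit 156) (nat_lit 532) (nat_lit 0) (XT.nd (nat_lit 78) (nat_lit 76) (nat_lit 0) (XT.lf (nat_lit 0) (nat_lit 2029420059) (nat_lit 304) (nat_lit 7158478457) (nat_lit 380) (nat_lit 410118933) (nat_lit 94) (nat_lit 5) (nat_lit 98) (nat_lit 5) (nat_lit 99) (nat_lit 4) (nat_lit 310) (nat_lit 244) (nat_lit 226)) (XT.lf (nat_lit 0) (nat_lit 2962754190) (nat_lit 380)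 (nat_lit 1165534383) (nat_lit 76) (nat_lit 5619058166) (nat_lit 93) (nat_lit 5) (nat_lit 98) (nat_lit 5) (nat_lit 94) (nat_lit 5) (nat_lit 311) (nat_lit 244) (nat_lit 225))) (XT.nd (nat_lit 78) (nat_lit 228) (nat_lit 0) (XT.lf (nat_lit 0) (nat_lit 5428295504) (nat_lit 304) (nat_lit 981522233) (nat_lit 380) (nat_lit 3491829717) (nat_lit 89) (nat_lit 5) (nat_lit 93) (nat_lit 5) (nat_lit 94) (nat_lit 5) (nat_lit 312) (nat_lit 244) (nat_lit 224)) (XT.lf (nat_lit 0) (nat_lit 2098711928) (nat_lit 228) (nat_lit 7845202775) (nat_lit 304) (nat_lit 117203142) (nat_lit 86) (nat_lit 5) (nat_lit 89) (nat_lit 5) (nat_lit 90) (nat_lit 4) (nat_lit 313) (nat_lit 244) (nat_lit 223))))) (XT.nd (nat_lit 234) (nat_lit 608) (nat_lit 0) (XT.nd (nat_lit 78) (nat_lit 532) (nat_lit 0) (XT.lf (nat_lit 0) (nat_lit 3278622471) (nat_lit 304) (nat_lit 1411259943) (nat_lit 76) (nat_lit 5535002843) (nat_lit 85) (nat_lit 5) (nat_lit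 89) (nat_lit 5) (nat_lit 86) (nat_lit 5) (nat_lit 314) (nat_lit 244) (nat_lit 222)) (XT.nd (nat_lit 78) (nat_lit 228) (nat_lit 0) (XT.lf (nat_lit 0) (nat_lit 5338036927) (nat_lit 304) (nat_lit 1419439303) (nat_lit 380) (nat_lit 3636594494) (nat_lit 81) (nat_lit 5) (nat_lit 85) (nat_lit 5) (nat_lit 86) (nat_lit 5) (nat_lit 315) (nat_lit 244) (nat_lit 221)) (XT.lf (nat_lit 0) (nat_lit 1662279764) (nat_lit 228) (nat_lit 8660406254) (nat_lit 304) (nat_lit 246229828) (nat_lit 78) (nat_lit 5) (nat_lit 81) (nat_lit 5) (nat_lit 82) (nat_lit 4) (nat_lit 316) (nat_lit 244) (nat_lit 220)))) (XT.nd (nat_lit 156) (nat_lit 304) (nat_lit 0) (XT.nd (nat_lit 78) (nat_lit 228) (nat_lit 0) (XT.lf (nat_lit 0) (nat_lit 3181292792) (nat_lit 304) (nat_lit 2209936789) (nat_lit 76) (nat_lit 5356918443) (nat_lit 77) (nat_lit 5) (nat_lit 81) (nat_lit 5) (nat_lit 78) (nat_lit 5) (nat_lit 317) (nat_lit 244) (nat_lit 219)) (XT.lf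 (nat_lit 0) (nat_lit 4676987324) (nat_lit 228) (nat_lit 2009779136) (nat_lit 304) (nat_lit 4246555424) (nat_lit 74) (nat_lit 5) (nat_lit 77) (nat_lit 5) (nat_lit 78) (nat_lit 5) (nat_lit 318) (nat_lit 244) (nat_lit 218))) (XT.nd (nat_lit 78) (nat_lit 76) (nat_lit 0) (XT.lf (nat_lit 0) (nat_lit 589406970) (nat_lit 228) (nat_lit 9686087094) (nat_lit 304) (nat_lit 849253123) (nat_lit 71) (nat_lit 5) (nat_lit 74) (nat_lit 5) (nat_lit 75) (nat_lit 4) (nat_lit 319) (nat_lit 244) (nat_lit 217)) (XT.lf (nat_lit 0) (nat_lit 2617939807) (nat_lit 304) (nat_lit 3697729079) (nat_lit 76) (nat_lit 5004928393) (nat_lit 70) (nat_lit 5) (nat_lit 74) (nat_lit 5) (nat_lit 71) (nat_lit 5) (nat_lit 320) (nat_lit 244) (nat_lit 216))))))) (XT.nd (nat_lit 1092) (nat_lit 1216) (nat_lit 0) (XT.nd (nat_lit 546) (nat_lit 912) (nat_lit 0) (XT.nd (nat_lit 234) (nat_lit 456) (nat_lit 0) (XT.nd (nat_lit 78) (nat_lit 304) (nat_lit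 0) (XT.lf (nat_lit 0) (nat_lit 3303510803) (nat_lit 228) (nat_lit 2838169532) (nat_lit 304) (nat_lit 5381337872) (nat_lit 67) (nat_lit 5) (nat_lit 70) (nat_lit 5) (nat_lit 71) (nat_lit 5) (nat_lit 321) (nat_lit 244) (nat_lit 215)) (XT.nd (nat_lit 78) (nat_lit 304) (nat_lit 0) (XT.lf (nat_lit 0) (nat_lit 9754378844) (nat_lit 304) (nat_lit 1245453340) (nat_lit 76) (nat_lit 732216786) (nat_lit 67) (nat_lit 5) (nat_lit 71) (nat_lit 5) (nat_lit 68) (nat_lit 4) (nat_lit 322) (nat_lit 244) (nat_lit 214)) (XT.lf (nat_lit 0) (nat_lit 1523793621) (nat_lit 304) (nat_lit 6031397286) (nat_lit 76) (nat_lit 4390986522) (nat_lit 63) (nat_lit 5) (nat_lit 67) (nat_lit 5) (nat_lit 64) (nat_lit 5) (nat_lit 323) (nat_lit 244) (nat_lit 213)))) (XT.nd (nat_lit 156) (nat_lit 228) (nat_lit 0) (XT.nd (nat_lit 78) (nat_lit 0) (nat_lit 0) (XT.lf (nat_lit 0) (nat_lit 1054309901) (nat_lit 228) (nat_lit 3999479791) (nat_lit 304)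 (nat_lit 7113487140) (nat_lit 60) (nat_lit 5) (nat_lit 63) (nat_lit 5) (nat_lit 64) (nat_lit 5) (nat_lit 324) (nat_lit 244) (nat_lit 212)) (XT.lf (nat_lit 0) (nat_lit 8381606039) (nat_lit 228) (nat_lit 310213008) (nat_lit 304) (nat_lit 3703156888) (nat_lit 60) (nat_lit 5) (nat_lit 63) (nat_lit 5) (nat_lit 64) (nat_lit 5) (nat_lit 325) (nat_lit 244) (nat_lit 211))) (XT.nd (nat_lit 78) (nat_lit 76) (nat_lit 0) (XT.lf (nat_lit 0) (nat_lit 3235535412) (nat_lit 152) (nat_lit 9210706615) (nat_lit 228) (nat_lit 183076231) (nat_lit 58) (nat_lit 5) (nat_lit 60) (nat_lit 5) (nat_lit 61) (nat_lit 4) (nat_lit 326) (nat_lit 244) (nat_lit 210)) (XT.lf (nat_lit 0) (nat_lit 3362229393) (nat_lit 228) (nat_lit 2215385349) (nat_lit 76) (nat_lit 7292507444) (nat_lit 57) (nat_lit 5) (nat_lit 60) (nat_lit 5) (nat_lit 58) (nat_lit 5) (nat_lit 327) (nat_lit 244) (nat_lit 209))))) (XT.nd (nat_lit 234) (nat_lit 456) (nat_lit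 0) (XT.nd (nat_lit 78) (nat_lit 228) (nat_lit 0) (XT.lf (nat_lit 0) (nat_lit 5186968630) (nat_lit 228) (nat_lit 1817572595) (nat_lit 304) (nat_lit 6113752124) (nat_lit 54) (nat_lit 5) (nat_lit 57) (nat_lit 5) (nat_lit 58) (nat_lit 5) (nat_lit 328) (nat_lit 244) (nat_lit 208)) (XT.nd (nat_lit 78) (nat_lit 228) (nat_lit 0) (XT.lf (nat_lit 0) (nat_lit 10743353395) (nat_lit 304) (nat_lit 627651368) (nat_lit 76) (nat_lit 2003314455) (nat_lit 54) (nat_lit 5) (nat_lit 58) (nat_lit 5) (nat_lit 55) (nat_lit 4) (nat_lit 329) (nat_lit 244) (nat_lit 207)) (XT.lf (nat_lit 0) (nat_lit 968962708) (nat_lit 228) (nat_lit 6722961961) (nat_lit 76) (nat_lit 5944910809) (nat_lit 51) (nat_lit 5) (nat_lit 54) (nat_lit 5) (nat_lit 52) (nat_lit 5) (nat_lit 330) (nat_lit 244) (nat_lit 206)))) (XT.nd (nat_lit 156) (nat_lit 228) (nat_lit 0) (XT.nd (nat_lit 78) (nat_lit 0) (nat_lit 0) (XT.lf (nat_lit 0) (nat_lit 685945425)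 (nat_lit 228) (nat_lit 3897713903) (nat_lit 304) (nat_lit 9324021175) (nat_lit 48) (nat_lit 5) (nat_lit 51) (nat_lit 5) (nat_lit 52) (nat_lit 5) (nat_lit 331) (nat_lit 244) (nat_lit 205)) (XT.lf (nat_lit 0) (nat_lit 8322481697) (nat_lit 304) (nat_lit 5819645431) (nat_lit 76) (nat_lit 44076751) (nat_lit 48) (nat_lit 5) (nat_lit 52) (nat_lit 5) (nat_lit 49) (nat_lit 4) (nat_lit 332) (nat_lit 244) (nat_lit 204))) (XT.nd (nat_lit 78) (nat_lit 76) (nat_lit 0) (XT.lf (nat_lit 0) (nat_lit 1712741337) (nat_lit 152) (nat_lit 10464350231) (nat_lit 228) (nat_lit 2295905564) (nat_lit 46) (nat_lit 5) (nat_lit 48) (nat_lit 5) (nat_lit 49) (nat_lit 4) (nat_lit 333) (nat_lit 244) (nat_lit 203)) (XT.lf (nat_lit 0) (nat_lit 1360103358) (nat_lit 228) (nat_lit 5276860848) (nat_lit 76) (nat_lit 8130811886) (nat_lit 45) (nat_lit 5) (nat_lit 48) (nat_lit 5) (nat_lit 46) (nat_lit 5) (nat_lit 334) (nat_lit 244) (nat_lit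 202)))))) (XT.nd (nat_lit 546) (nat_lit 532) (nat_lit 0) (XT.nd (nat_lit 234) (nat_lit 380) (nat_lit 0) (XT.nd (nat_lit 78) (nat_lit 152) (nat_lit 0) (XT.lf (nat_lit 0) (nat_lit 2370295769) (nat_lit 152) (nat_lit 2682346901) (nat_lit 228) (nat_lit 10018904854) (nat_lit 43) (nat_lit 5) (nat_lit 45) (nat_lit 5) (nat_lit 46) (nat_lit 5) (nat_lit 335) (nat_lit 244) (nat_lit 201)) (XT.nd (nat_lit 78) (nat_lit 152) (nat_lit 0) (XT.lf (nat_lit 0) (nat_lit 8873671257) (nat_lit 228) (nat_lit 5126294050) (nat_lit 76) (nat_lit 1383955708) (nat_lit 43) (nat_lit 5) (nat_lit 46) (nat_lit 5) (nat_lit 44) (nat_lit 4) (nat_lit 336) (nat_lit 244) (nat_lit 200)) (XT.lf (nat_lit 0) (nat_lit 2618311019) (nat_lit 152) (nat_lit 10194716571) (nat_lit 228) (nat_lit 2892546935) (nat_lit 41) (nat_lit 5) (nat_lit 43) (nat_lit 5) (nat_lit 44) (nat_lit 4) (nat_lit 337) (nat_lit 244) (nat_lit 199)))) (XT.nd (nat_lit 156) (nat_lit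 152) (nat_lit 0) (XT.nd (nat_lit 78) (nat_lit 152) (nat_lit 0) (XT.lf (nat_lit 0) (nat_lit 821795896) (nat_lit 228) (nat_lit 5425815678) (nat_lit 76) (nat_lit 9788912921) (nat_lit 40) (nat_lit 5) (nat_lit 43) (nat_lit 5) (nat_lit 41) (nat_lit 5) (nat_lit 338) (nat_lit 244) (nat_lit 198)) (XT.lf (nat_lit 0) (nat_lit 2403838414) (nat_lit 152) (nat_lit 2162194719) (nat_lit 228) (nat_lit 11811230663) (nat_lit 38) (nat_lit 5) (nat_lit 40) (nat_lit 5) (nat_lit 41) (nat_lit 5) (nat_lit 339) (nat_lit 244) (nat_lit 197))) (XT.nd (nat_lit 78) (nat_lit 152) (nat_lit 0) (XT.lf (nat_lit 0) (nat_lit 8451364403) (nat_lit 228) (nat_lit 6247381234) (nat_lit 76) (nat_lit 2028634150) (nat_lit 38) (nat_lit 5) (nat_lit 41) (nat_lit 5) (nat_lit 39) (nat_lit 4) (nat_lit 340) (nat_lit 244) (nat_lit 196)) (XT.lf (nat_lit 0) (nat_lit 1643239877) (nat_lit 152) (nat_lit 10802334971) (nat_lit 228) (nat_lit 4642671844) (nat_lit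 36) (nat_lit 5) (nat_lit 38) (nat_lit 5) (nat_lit 39) (nat_lit 4) (nat_lit 341) (nat_lit 244) (nat_lit 195))))) (XT.nd (nat_lit 312) (nat_lit 304) (nat_lit 0) (XT.nd (nat_lit 156) (nat_lit 0) (nat_lit 0) (XT.nd (nat_lit 78) (nat_lit 228) (nat_lit 0) (XT.lf (nat_lit 0) (nat_lit 9821546143) (nat_lit 152) (nat_lit 6756833501) (nat_lit 228) (nat_lit 881013434) (nat_lit 36) (nat_lit 5) (nat_lit 38) (nat_lit 5) (nat_lit 39) (nat_lit 4) (nat_lit 342) (nat_lit 244) (nat_lit 194)) (XT.lf (nat_lit 0) (nat_lit 304969730) (nat_lit 152) (nat_lit 2589573511) (nat_lit 228) (nat_lit 14947499050) (nat_lit 33) (nat_lit 5) (nat_lit 35) (nat_lit 5) (nat_lit 36) (nat_lit 5) (nat_lit 343) (nat_lit 244) (nat_lit 193))) (XT.nd (nat_lit 78) (nat_lit 0) (nat_lit 0) (XT.lf (nat_lit 0) (nat_lit 6816685275) (nat_lit 228) (nat_lit 9693057728) (nat_lit 76) (nat_lit 1724650620) (nat_lit 33) (nat_lit 5) (nat_lit 36) (nat_lit 5)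 (nat_lit 34) (nat_lit 4) (nat_lit 344) (nat_lit 244) (nat_lit 192)) (XT.lf (nat_lit 0) (nat_lit 10840157905) (nat_lit 228) (nat_lit 1713134469) (nat_lit 76) (nat_lit 6085727804) (nat_lit 33) (nat_lit 5) (nat_lit 36) (nat_lit 5) (nat_lit 34) (nat_lit 4) (nat_lit 345) (nat_lit 244) (nat_lit 191)))) (XT.nd (nat_lit 156) (nat_lit 228) (nat_lit 0) (XT.nd (nat_lit 78) (nat_lit 0) (nat_lit 0) (XT.lf (nat_lit 0) (nat_lit 6562622939) (nat_lit 76) (nat_lit 8444045229) (nat_lit 152) (nat_lit 4048461603) (nat_lit 32) (nat_lit 5) (nat_lit 33) (nat_lit 5) (nat_lit 34) (nat_lit 4) (nat_lit 346) (nat_lit 244) (nat_lit 190)) (XT.lf (nat_lit 0) (nat_lit 15050848883) (nat_lit 76) (nat_lit 4224378827) (nat_lit 152) (nat_lit 209197152) (nat_lit 32) (nat_lit 5) (nat_lit 33) (nat_lit 5) (nat_lit 34) (nat_lit 4) (nat_lit 347) (nat_lit 244) (nat_lit 189))) (XT.nd (nat_lit 78) (nat_lit 0) (nat_lit 0) (XT.lf (nat_lit 0) (nat_lit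 3671168977) (nat_lit 228) (nat_lit 16090885634) (nat_lit 76) (nat_lit 163506978) (nat_lit 29) (nat_lit 5) (nat_lit 32) (nat_lit 5) (nat_lit 30) (nat_lit 4) (nat_lit 348) (nat_lit 244) (nat_lit 188)) (XT.lf (nat_lit 0) (nat_lit 7711505968) (nat_lit 228) (nat_lit 8050935793) (nat_lit 76) (nat_lit 4616008239) (nat_lit 29) (nat_lit 5) (nat_lit 32) (nat_lit 5) (nat_lit 30) (nat_lit 4) (nat_lit 349) (nat_lit 244) (nat_lit 187))))))))
noncomputable def xc65 : XT := (XT.nd (nat_lit 2184) (nat_lit 532) (nat_lit 0) (XT.nd (nat_lit 1092) (nat_lit 456) (nat_lit 0) (XT.nd (nat_lit 546) (nat_lit 304) (nat_lit 0) (XT.nd (nat_lit 234) (nat_lit 304) (nat_lit 0) (XT.nd (nat_lit 78) (nat_lit 0) (nat_lit 0) (XT.lf (nat_lit 0) (nat_lit 165613348) (nat_lit 76) (nat_lit 11670900926) (nat_lit 152) (nat_lit 9009519242) (nat_lit 28) (nat_lit 5) (nat_lit 29) (nat_lit 5) (nat_lit 30) (nat_lit 4) (nat_lit 350) (nat_lit 244)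 (nat_lit 186)) (XT.nd (nat_lit 78) (nat_lit 0) (nat_lit 0) (XT.lf (nat_lit 0) (nat_lit 8726529356) (nat_lit 76) (nat_lit 7402376332) (nat_lit 152) (nat_lit 5197441794) (nat_lit 28) (nat_lit 5) (nat_lit 29) (nat_lit 5) (nat_lit 30) (nat_lit 4) (nat_lit 351) (nat_lit 244) (nat_lit 185)) (XT.lf (nat_lit 0) (nat_lit 17479063233) (nat_lit 76) (nat_lit 3034436867) (nat_lit 152) (nat_lit 1308679412) (nat_lit 28) (nat_lit 5) (nat_lit 29) (nat_lit 5) (nat_lit 30) (nat_lit 4) (nat_lit 352) (nat_lit 244) (nat_lit 184)))) (XT.nd (nat_lit 156) (nat_lit 76) (nat_lit 0) (XT.nd (nat_lit 78) (nat_lit 0) (nat_lit 0) (XT.lf (nat_lit 0) (nat_lit 2662630566) (nat_lit 228) (nat_lit 18194101170) (nat_lit 76) (nat_lit 1474832764) (nat_lit 25) (nat_lit 5) (nat_lit 28) (nat_lit 5) (nat_lit 26) (nat_lit 4) (nat_lit 353) (nat_lit 244) (nat_lit 183)) (XT.lf (nat_lit 0) (nat_lit 6765411828) (nat_lit 228) (nat_lit 10001072592)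 (nat_lit 76) (nat_lit 6088209446) (nat_lit 25) (nat_lit 5) (nat_lit 28) (nat_lit 5) (nat_lit 26) (nat_lit 4) (nat_lit 354) (nat_lit 244) (nat_lit 182))) (XT.nd (nat_lit 78) (nat_lit 76) (nat_lit 0) (XT.lf (nat_lit 0) (nat_lit 10956616364) (nat_lit 228) (nat_lit 1624594750) (nat_lit 76) (nat_lit 10813356097) (nat_lit 25) (nat_lit 5) (nat_lit 28) (nat_lit 5) (nat_lit 26) (nat_lit 4) (nat_lit 355) (nat_lit 244) (nat_lit 181)) (XT.lf (nat_lit 0) (nat_lit 7080823988) (nat_lit 76) (nat_lit 8227147613) (nat_lit 152) (nat_lit 8641642709) (nat_lit 24) (nat_lit 5) (nat_lit 25) (nat_lit 5) (nat_lit 26) (nat_lit 4) (nat_lit 356) (nat_lit 244) (nat_lit 180))))) (XT.nd (nat_lit 234) (nat_lit 76) (nat_lit 0) (XT.nd (nat_lit 78) (nat_lit 228) (nat_lit 0) (XT.lf (nat_lit 0) (nat_lit 16020775462) (nat_lit 76) (nat_lit 3752250618) (nat_lit 152) (nat_lit 4748801685) (nat_lit 24) (nat_lit 5) (nat_lit 25) (nat_lit 5)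 (nat_lit 26) (nat_lit 4) (nat_lit 357) (nat_lit 244) (nat_lit 179)) (XT.nd (nat_lit 78) (nat_lit 76) (nat_lit 0) (XT.lf (nat_lit 0) (nat_lit 51571680) (nat_lit 152) (nat_lit 24296665898) (nat_lit 152) (nat_lit 763693302) (nat_lit 22) (nat_lit 4) (nat_lit 24) (nat_lit 5) (nat_lit 24) (nat_lit 4) (nat_lit 358) (nat_lit 244) (nat_lit 178)) (XT.lf (nat_lit 0) (nat_lit 3367150991) (nat_lit 228) (nat_lit 16811233508) (nat_lit 76) (nat_lit 5537656696) (nat_lit 21) (nat_lit 5) (nat_lit 24) (nat_lit 5) (nat_lit 22) (nat_lit 4) (nat_lit 359) (nat_lit 244) (nat_lit 177)))) (XT.nd (nat_lit 156) (nat_lit 0) (nat_lit 0) (XT.nd (nat_lit 78) (nat_lit 76) (nat_lit 0) (XT.lf (nat_lit 0) (nat_lit 7575048894) (nat_lit 228) (nat_lit 8379470111) (nat_lit 76) (nat_lit 10384483260) (nat_lit 21) (nat_lit 5) (nat_lit 24) (nat_lit 5) (nat_lit 22) (nat_lit 4) (nat_lit 360) (nat_lit 244) (nat_lit 176)) (XT.lf (nat_lit 0) (nat_lit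 254607953) (nat_lit 76) (nat_lit 11626419109) (nat_lit 152) (nat_lit 15100478174) (nat_lit 20) (nat_lit 5) (nat_lit 21) (nat_lit 5) (nat_lit 22) (nat_lit 4) (nat_lit 361) (nat_lit 244) (nat_lit 175))) (XT.nd (nat_lit 78) (nat_lit 0) (nat_lit 0) (XT.lf (nat_lit 0) (nat_lit 9264417893) (nat_lit 76) (nat_lit 7106140880) (nat_lit 152) (nat_lit 11271101420) (nat_lit 20) (nat_lit 5) (nat_lit 21) (nat_lit 5) (nat_lit 22) (nat_lit 4) (nat_lit 362) (nat_lit 244) (nat_lit 174)) (XT.lf (nat_lit 0) (nat_lit 18491064472) (nat_lit 76) (nat_lit 2474350779) (nat_lit 152) (nat_lit 7357093271) (nat_lit 20) (nat_lit 5) (nat_lit 21) (nat_lit 5) (nat_lit 22) (nat_lit 4) (nat_lit 363) (nat_lit 244) (nat_lit 173)))))) (XT.nd (nat_lit 546) (nat_lit 228) (nat_lit 0) (XT.nd (nat_lit 234) (nat_lit 76) (nat_lit 0) (XT.nd (nat_lit 78) (nat_lit 152) (nat_lit 0) (XT.lf (nat_lit 0) (nat_lit 25691460871) (nat_lit 152) (nat_lit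 1103884782) (nat_lit 0) (nat_lit 2228644003) (nat_lit 20) (nat_lit 5) (nat_lit 22) (nat_lit 4) (nat_lit 20) (nat_lit 4) (nat_lit 364) (nat_lit 244) (nat_lit 172)) (XT.nd (nat_lit 78) (nat_lit 0) (nat_lit 0) (XT.lf (nat_lit 0) (nat_lit 870802737) (nat_lit 152) (nat_lit 21787436151) (nat_lit 76) (nat_lit 7085832461) (nat_lit 18) (nat_lit 5) (nat_lit 20) (nat_lit 5) (nat_lit 19) (nat_lit 4) (nat_lit 365) (nat_lit 244) (nat_lit 171)) (XT.lf (nat_lit 0) (nat_lit 5116663963) (nat_lit 152) (nat_lit 13257996930) (nat_lit 76) (nat_lit 12110609438) (nat_lit 18) (nat_lit 5) (nat_lit 20) (nat_lit 5) (nat_lit 19) (nat_lit 4) (nat_lit 366) (nat_lit 244) (nat_lit 170)))) (XT.nd (nat_lit 156) (nat_lit 0) (nat_lit 0) (XT.nd (nat_lit 78) (nat_lit 76) (nat_lit 0) (XT.lf (nat_lit 0) (nat_lit 9462864955) (nat_lit 152) (nat_lit 4522256556) (nat_lit 76) (nat_lit 17264401659) (nat_lit 18) (nat_lit 5) (nat_lit 20) (nat_lit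 5) (nat_lit 19) (nat_lit 4) (nat_lit 367) (nat_lit 244) (nat_lit 169)) (XT.lf (nat_lit 0) (nat_lit 4515532445) (nat_lit 76) (nat_lit 9441076980) (nat_lit 152) (nat_lit 18079586053) (nat_lit 17) (nat_lit 5) (nat_lit 18) (nat_lit 5) (nat_lit 19) (nat_lit 4) (nat_lit 368) (nat_lit 244) (nat_lit 168))) (XT.nd (nat_lit 78) (nat_lit 0) (nat_lit 0) (XT.lf (nat_lit 0) (nat_lit 13869490996) (nat_lit 76) (nat_lit 4735398872) (nat_lit 152) (nat_lit 14240992789) (nat_lit 17) (nat_lit 5) (nat_lit 18) (nat_lit 5) (nat_lit 19) (nat_lit 4) (nat_lit 369) (nat_lit 244) (nat_lit 167)) (XT.lf (nat_lit 0) (nat_lit 23368300624) (nat_lit 152) (nat_lit 10223700174) (nat_lit 0) (nat_lit 88595422) (nat_lit 17) (nat_lit 5) (nat_lit 19) (nat_lit 4) (nat_lit 17) (nat_lit 4) (nat_lit 370) (nat_lit 244) (nat_lit 166))))) (XT.nd (nat_lit 234) (nat_lit 76) (nat_lit 0) (XT.nd (nat_lit 78) (nat_lit 152) (nat_lit 0) (XT.lf (nat_lit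 0) (nat_lit 28296848915) (nat_lit 152) (nat_lit 1300785611) (nat_lit 0) (nat_lit 4942055655) (nat_lit 17) (nat_lit 5) (nat_lit 19) (nat_lit 4) (nat_lit 17) (nat_lit 4) (nat_lit 371) (nat_lit 244) (nat_lit 165)) (XT.nd (nat_lit 78) (nat_lit 76) (nat_lit 0) (XT.lf (nat_lit 0) (nat_lit 8001812485) (nat_lit 76) (nat_lit 25424427521) (nat_lit 76) (nat_lit 1996733233) (nat_lit 16) (nat_lit 4) (nat_lit 17) (nat_lit 5) (nat_lit 17) (nat_lit 4) (nat_lit 372) (nat_lit 244) (nat_lit 164)) (XT.lf (nat_lit 0) (nat_lit 2319749436) (nat_lit 152) (nat_lit 18789380628) (nat_lit 76) (nat_lit 15223263735) (nat_lit 15) (nat_lit 5) (nat_lit 17) (nat_lit 5) (nat_lit 16) (nat_lit 4) (nat_lit 373) (nat_lit 244) (nat_lit 163)))) (XT.nd (nat_lit 156) (nat_lit 76) (nat_lit 0) (XT.nd (nat_lit 78) (nat_lit 0) (nat_lit 0) (XT.lf (nat_lit 0) (nat_lit 6702395261) (nat_lit 152) (nat_lit 9961325814) (nat_lit 76) (nat_lit 20605484152)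 (nat_lit 15) (nat_lit 5) (nat_lit 17) (nat_lit 5) (nat_lit 16) (nat_lit 4) (nat_lit 374) (nat_lit 244) (nat_lit 162)) (XT.lf (nat_lit 0) (nat_lit 11193997196) (nat_lit 152) (nat_lit 910088654) (nat_lit 76) (nat_lit 26130716061) (nat_lit 15) (nat_lit 5) (nat_lit 17) (nat_lit 5) (nat_lit 16) (nat_lit 4) (nat_lit 375) (nat_lit 244) (nat_lit 161))) (XT.nd (nat_lit 78) (nat_lit 0) (nat_lit 0) (XT.lf (nat_lit 0) (nat_lit 8538863684) (nat_lit 76) (nat_lit 7341697037) (nat_lit 152) (nat_lit 23347004431) (nat_lit 14) (nat_lit 5) (nat_lit 15) (nat_lit 5) (nat_lit 16) (nat_lit 4) (nat_lit 376) (nat_lit 244) (nat_lit 160)) (XT.lf (nat_lit 0) (nat_lit 18249891125) (nat_lit 76) (nat_lit 2445404822) (nat_lit 152) (nat_lit 19555193015) (nat_lit 14) (nat_lit 5) (nat_lit 15) (nat_lit 5) (nat_lit 16) (nat_lit 4) (nat_lit 377) (nat_lit 244) (nat_lit 159))))))) (XT.nd (nat_lit 1092) (nat_lit 228) (nat_lit 0) (XT.nd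 (nat_lit 546) (nat_lit 152) (nat_lit 0) (XT.nd (nat_lit 234) (nat_lit 76) (nat_lit 0) (XT.nd (nat_lit 78) (nat_lit 76) (nat_lit 0) (XT.lf (nat_lit 0) (nat_lit 25658286860) (nat_lit 152) (nat_lit 13116167723) (nat_lit 0) (nat_lit 2529536266) (nat_lit 14) (nat_lit 5) (nat_lit 16) (nat_lit 4) (nat_lit 14) (nat_lit 4) (nat_lit 378) (nat_lit 244) (nat_lit 158)) (XT.nd (nat_lit 78) (nat_lit 76) (nat_lit 0) (XT.lf (nat_lit 0) (nat_lit 30773837892) (nat_lit 152) (nat_lit 4027615868) (nat_lit 0) (nat_lit 7587538554) (nat_lit 14) (nat_lit 5) (nat_lit 16) (nat_lit 4) (nat_lit 14) (nat_lit 4) (nat_lit 379) (nat_lit 244) (nat_lit 157)) (XT.lf (nat_lit 0) (nat_lit 5401916758) (nat_lit 76) (nat_lit 30672921985) (nat_lit 76) (nat_lit 7430750080) (nat_lit 13) (nat_lit 4) (nat_lit 14) (nat_lit 5) (nat_lit 14) (nat_lit 4) (nat_lit 380) (nat_lit 244) (nat_lit 156)))) (XT.nd (nat_lit 156) (nat_lit 0) (nat_lit 0) (XT.nd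 (nat_lit 78) (nat_lit 76) (nat_lit 0) (XT.lf (nat_lit 0) (nat_lit 15160174499) (nat_lit 76) (nat_lit 26395650771) (nat_lit 76) (nat_lit 3099233654) (nat_lit 13) (nat_lit 4) (nat_lit 14) (nat_lit 5) (nat_lit 14) (nat_lit 4) (nat_lit 381) (nat_lit 244) (nat_lit 155)) (XT.lf (nat_lit 0) (nat_lit 1316311470) (nat_lit 152) (nat_lit 20676970083) (nat_lit 76) (nat_lit 23845922898) (nat_lit 12) (nat_lit 5) (nat_lit 14) (nat_lit 5) (nat_lit 13) (nat_lit 4) (nat_lit 382) (nat_lit 244) (nat_lit 154))) (XT.nd (nat_lit 78) (nat_lit 0) (nat_lit 0) (XT.lf (nat_lit 0) (nat_lit 5783259759) (nat_lit 152) (nat_lit 11660196371) (nat_lit 76) (nat_lit 29615064798) (nat_lit 12) (nat_lit 5) (nat_lit 14) (nat_lit 5) (nat_lit 13) (nat_lit 4) (nat_lit 383) (nat_lit 244) (nat_lit 153)) (XT.lf (nat_lit 0) (nat_lit 10365991582) (nat_lit 152) (nat_lit 2406892823) (nat_lit 76) (nat_lit 35542083120) (nat_lit 12) (nat_lit 5) (nat_lit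 14) (nat_lit 5) (nat_lit 13) (nat_lit 4) (nat_lit 384) (nat_lit 244) (nat_lit 152))))) (XT.nd (nat_lit 234) (nat_lit 76) (nat_lit 0) (XT.nd (nat_lit 78) (nat_lit 0) (nat_lit 0) (XT.lf (nat_lit 0) (nat_lit 7232151289) (nat_lit 76) (nat_lit 7905879839) (nat_lit 152) (nat_lit 34469525387) (nat_lit 11) (nat_lit 5) (nat_lit 12) (nat_lit 5) (nat_lit 13) (nat_lit 4) (nat_lit 385) (nat_lit 244) (nat_lit 151)) (XT.nd (nat_lit 78) (nat_lit 0) (nat_lit 0) (XT.lf (nat_lit 0) (nat_lit 17177045180) (nat_lit 76) (nat_lit 2882998898) (nat_lit 152) (nat_lit 30878678388) (nat_lit 11) (nat_lit 5) (nat_lit 12) (nat_lit 5) (nat_lit 13) (nat_lit 4) (nat_lit 386) (nat_lit 244) (nat_lit 150)) (XT.lf (nat_lit 0) (nat_lit 25134611018) (nat_lit 152) (nat_lit 24943636558) (nat_lit 0) (nat_lit 2231432562) (nat_lit 11) (nat_lit 5) (nat_lit 13) (nat_lit 4) (nat_lit 11) (nat_lit 4) (nat_lit 387) (nat_lit 244) (nat_lit 149))))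 (XT.nd (nat_lit 156) (nat_lit 76) (nat_lit 0) (XT.nd (nat_lit 78) (nat_lit 0) (nat_lit 0) (XT.lf (nat_lit 0) (nat_lit 30373333545) (nat_lit 152) (nat_lit 15920745466) (nat_lit 0) (nat_lit 7427333419) (nat_lit 11) (nat_lit 5) (nat_lit 13) (nat_lit 4) (nat_lit 11) (nat_lit 4) (nat_lit 388) (nat_lit 244) (nat_lit 148)) (XT.lf (nat_lit 0) (nat_lit 35753076035) (nat_lit 152) (nat_lit 6657406782) (nat_lit 0) (nat_lit 12765501472) (nat_lit 11) (nat_lit 5) (nat_lit 13) (nat_lit 4) (nat_lit 11) (nat_lit 4) (nat_lit 389) (nat_lit 244) (nat_lit 147))) (XT.nd (nat_lit 78) (nat_lit 0) (nat_lit 0) (XT.lf (nat_lit 0) (nat_lit 2911283296) (nat_lit 76) (nat_lit 38395240974) (nat_lit 76) (nat_lit 15367302879) (nat_lit 10) (nat_lit 4) (nat_lit 11) (nat_lit 5) (nat_lit 11) (nat_lit 4) (nat_lit 390) (nat_lit 244) (nat_lit 146)) (XT.lf (nat_lit 0) (nat_lit 12874433828) (nat_lit 76) (nat_lit 34203874323) (nat_lit 76)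 (nat_lit 11136748333) (nat_lit 10) (nat_lit 4) (nat_lit 11) (nat_lit 5) (nat_lit 11) (nat_lit 4) (nat_lit 391) (nat_lit 244) (nat_lit 145)))))) (XT.nd (nat_lit 546) (nat_lit 76) (nat_lit 0) (XT.nd (nat_lit 234) (nat_lit 76) (nat_lit 0) (XT.nd (nat_lit 78) (nat_lit 76) (nat_lit 0) (XT.lf (nat_lit 0) (nat_lit 23108255030) (nat_lit 76) (nat_lit 29899947260) (nat_lit 76) (nat_lit 6794774771) (nat_lit 10) (nat_lit 4) (nat_lit 11) (nat_lit 5) (nat_lit 11) (nat_lit 4) (nat_lit 392) (nat_lit 244) (nat_lit 144)) (XT.nd (nat_lit 78) (nat_lit 76) (nat_lit 0) (XT.lf (nat_lit 0) (nat_lit 33621689076) (nat_lit 76) (nat_lit 25479699072) (nat_lit 76) (nat_lit 2337588233) (nat_lit 10) (nat_lit 4) (nat_lit 11) (nat_lit 5) (nat_lit 11) (nat_lit 4) (nat_lit 393) (nat_lit 244) (nat_lit 143)) (XT.lf (nat_lit 0) (nat_lit 2195020690) (nat_lit 152) (nat_lit 18722081310) (nat_lit 76) (nat_lit 42206736365) (nat_lit 9) (nat_lit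 5) (nat_lit 11) (nat_lit 5) (nat_lit 10) (nat_lit 4) (nat_lit 394) (nat_lit 244) (nat_lit 142)))) (XT.nd (nat_lit 156) (nat_lit 0) (nat_lit 0) (XT.nd (nat_lit 78) (nat_lit 76) (nat_lit 0) (XT.lf (nat_lit 0) (nat_lit 6802718909) (nat_lit 152) (nat_lit 9403271863) (nat_lit 76) (nat_lit 48652980998) (nat_lit 9) (nat_lit 5) (nat_lit 11) (nat_lit 5) (nat_lit 10) (nat_lit 4) (nat_lit 395) (nat_lit 244) (nat_lit 141)) (XT.lf (nat_lit 0) (nat_lit 173132448) (nat_lit 76) (nat_lit 11363679137) (nat_lit 152) (nat_lit 55109705329) (nat_lit 8) (nat_lit 5) (nat_lit 9) (nat_lit 5) (nat_lit 10) (nat_lit 4) (nat_lit 396) (nat_lit 244) (nat_lit 140))) (XT.nd (nat_lit 78) (nat_lit 0) (nat_lit 0) (XT.lf (nat_lit 0) (nat_lit 10204487397) (nat_lit 76) (nat_lit 6290045466) (nat_lit 152) (nat_lit 51990709940) (nat_lit 8) (nat_lit 5) (nat_lit 9) (nat_lit 5) (nat_lit 10) (nat_lit 4) (nat_lit 397) (nat_lit 244) (nat_lit 139))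 (XT.lf (nat_lit 0) (nat_lit 20512414697) (nat_lit 76) (nat_lit 1075611094) (nat_lit 152) (nat_lit 48791495967) (nat_lit 8) (nat_lit 5) (nat_lit 9) (nat_lit 5) (nat_lit 10) (nat_lit 4) (nat_lit 398) (nat_lit 244) (nat_lit 138))))) (XT.nd (nat_lit 312) (nat_lit 76) (nat_lit 0) (XT.nd (nat_lit 156) (nat_lit 0) (nat_lit 0) (XT.nd (nat_lit 78) (nat_lit 0) (nat_lit 0) (XT.lf (nat_lit 0) (nat_lit 26862923157) (nat_lit 152) (nat_lit 41266269864) (nat_lit 0) (nat_lit 4200580490) (nat_lit 8) (nat_lit 5) (nat_lit 10) (nat_lit 4) (nat_lit 8) (nat_lit 4) (nat_lit 399) (nat_lit 244) (nat_lit 137)) (XT.lf (nat_lit 0) (nat_lit 32294397658) (nat_lit 152) (nat_lit 32441292083) (nat_lit 0) (nat_lit 9602895517) (nat_lit 8) (nat_lit 5) (nat_lit 10) (nat_lit 4) (nat_lit 8) (nat_lit 4) (nat_lit 400) (nat_lit 244) (nat_lit 136))) (XT.nd (nat_lit 78) (nat_lit 0) (nat_lit 0) (XT.lf (nat_lit 0) (nat_lit 37876855811) (nat_lit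 152) (nat_lit 23374123142) (nat_lit 0) (nat_lit 15157043501) (nat_lit 8) (nat_lit 5) (nat_lit 10) (nat_lit 4) (nat_lit 8) (nat_lit 4) (nat_lit 401) (nat_lit 244) (nat_lit 135)) (XT.lf (nat_lit 0) (nat_lit 43615175493) (nat_lit 152) (nat_lit 14056840270) (nat_lit 0) (nat_lit 20867877582) (nat_lit 8) (nat_lit 5) (nat_lit 10) (nat_lit 4) (nat_lit 8) (nat_lit 4) (nat_lit 402) (nat_lit 244) (nat_lit 134)))) (XT.nd (nat_lit 156) (nat_lit 0) (nat_lit 0) (XT.nd (nat_lit 78) (nat_lit 76) (nat_lit 0) (XT.lf (nat_lit 0) (nat_lit 49514370769) (nat_lit 152) (nat_lit 4481302154) (nat_lit 0) (nat_lit 26740387808) (nat_lit 8) (nat_lit 5) (nat_lit 10) (nat_lit 4) (nat_lit 8) (nat_lit 4) (nat_lit 403) (nat_lit 244) (nat_lit 133)) (XT.lf (nat_lit 0) (nat_lit 5467549770) (nat_lit 76) (nat_lit 50164603937) (nat_lit 76) (nat_lit 27364713162) (nat_lit 7) (nat_lit 4) (nat_lit 8) (nat_lit 5) (nat_lit 8) (nat_lit 4) (nat_lit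 404) (nat_lit 244) (nat_lit 132))) (XT.nd (nat_lit 78) (nat_lit 0) (nat_lit 0) (XT.lf (nat_lit 0) (nat_lit 15786288022) (nat_lit 76) (nat_lit 46181611159) (nat_lit 76) (nat_lit 23356567166) (nat_lit 7) (nat_lit 4) (nat_lit 8) (nat_lit 5) (nat_lit 8) (nat_lit 4) (nat_lit 405) (nat_lit 244) (nat_lit 131)) (XT.lf (nat_lit 0) (nat_lit 26394742273) (nat_lit 76) (nat_lit 42088466668) (nat_lit 76) (nat_lit 19239002075) (nat_lit 7) (nat_lit 4) (nat_lit 8) (nat_lit 5) (nat_lit 8) (nat_lit 4) (nat_lit 406) (nat_lit 244) (nat_lit 130))))))))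
noncomputable def xc66 : XT := (XT.nd (nat_lit 33228) (nat_lit 0) (nat_lit 2432) (XT.nd (nat_lit 32136) (nat_lit 0) (nat_lit 6612) (XT.nd (nat_lit 31590) (nat_lit 0) (nat_lit 10260) (XT.nd (nat_lit 234) (nat_lit 76) (nat_lit 0) (XT.nd (nat_lit 78) (nat_lit 0) (nat_lit 0) (XT.lf (nat_lit 0) (nat_lit 37302182048) (nat_lit 76) (nat_lit 37881593931) (nat_lit 76) (nat_lit 15008420017) (nat_lit 7) (nat_lit 4) (nat_lit 8) (nat_lit 5) (nat_lit 8) (nat_lit 4) (nat_lit 407) (nat_lit 244) (nat_lit 129)) (XT.nd (nat_lit 78) (nat_lit 0) (nat_lit 0) (XT.lf (nat_lit 0) (nat_lit 48518138117) (nat_lit 76) (nat_lit 33557317039) (nat_lit 76) (nat_lit 10661124367) (nat_lit 7) (nat_lit 4) (nat_lit 8) (nat_lit 5) (nat_lit 8) (nat_lit 4) (nat_lit 408) (nat_lit 244) (nat_lit 128)) (XT.lf (nat_lit 0) (nat_lit 60052410833) (nat_lit 76) (nat_lit 29111857498) (nat_lit 76) (nat_lit 6193316517) (nat_lit 7) (nat_lit 4) (nat_lit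 8) (nat_lit 5) (nat_lit 8) (nat_lit 4) (nat_lit 409) (nat_lit 244) (nat_lit 127)))) (XT.nd (nat_lit 156) (nat_lit 0) (nat_lit 0) (XT.nd (nat_lit 78) (nat_lit 76) (nat_lit 0) (XT.lf (nat_lit 0) (nat_lit 71915078684) (nat_lit 76) (nat_lit 24541330925) (nat_lit 76) (nat_lit 1601092557) (nat_lit 7) (nat_lit 4) (nat_lit 8) (nat_lit 5) (nat_lit 8) (nat_lit 4) (nat_lit 410) (nat_lit 244) (nat_lit 126)) (XT.lf (nat_lit 0) (nat_lit 3058686280) (nat_lit 152) (nat_lit 16752170642) (nat_lit 76) (nat_lit 81026934095) (nat_lit 6) (nat_lit 5) (nat_lit 8) (nat_lit 5) (nat_lit 7) (nat_lit 4) (nat_lit 411) (nat_lit 244) (nat_lit 125))) (XT.nd (nat_lit 31122) (nat_lit 0) (nat_lit 12996) (XT.lf (nat_lit 0) (nat_lit 7817189012) (nat_lit 152) (nat_lit 7112861964) (nat_lit 76) (nat_lit 88771230258) (nat_lit 6) (nat_lit 5) (nat_lit 8) (nat_lit 5) (nat_lit 7) (nat_lit 4) (nat_lit 412) (nat_lit 244) (nat_lit 124)) (XT.lf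 (nat_lit 0) (nat_lit 234716958) (nat_lit 608) (nat_lit 3266506191) (nat_lit 0) (nat_lit 234716958) (nat_lit 177) (nat_lit 5) (nat_lit 185) (nat_lit 4) (nat_lit 177) (nat_lit 4) (nat_lit 290) (nat_lit 245) (nat_lit 245))))) (XT.nd (nat_lit 234) (nat_lit 1596) (nat_lit 0) (XT.nd (nat_lit 78) (nat_lit 1140) (nat_lit 0) (XT.lf (nat_lit 0) (nat_lit 3869671223) (nat_lit 608) (nat_lit 1247770244) (nat_lit 0) (nat_lit 2426581461) (nat_lit 177) (nat_lit 5) (nat_lit 185) (nat_lit 4) (nat_lit 177) (nat_lit 4) (nat_lit 291) (nat_lit 245) (nat_lit 244)) (XT.nd (nat_lit 78) (nat_lit 608) (nat_lit 0) (XT.lf (nat_lit 0) (nat_lit 4171520572) (nat_lit 532) (nat_lit 3146345705) (nat_lit 532) (nat_lit 302197923) (nat_lit 170) (nat_lit 4) (nat_lit 177) (nat_lit 5) (nat_lit 177) (nat_lit 4) (nat_lit 292) (nat_lit 245) (nat_lit 243)) (XT.lf (nat_lit 0) (nat_lit 1982194176) (nat_lit 532) (nat_lit 1065388317) (nat_lit 608)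 (nat_lit 4651845795) (nat_lit 162) (nat_lit 5) (nat_lit 169) (nat_lit 5) (nat_lit 170) (nat_lit 4) (nat_lit 293) (nat_lit 245) (nat_lit 242)))) (XT.nd (nat_lit 156) (nat_lit 988) (nat_lit 0) (XT.nd (nat_lit 78) (nat_lit 608) (nat_lit 0) (XT.lf (nat_lit 0) (nat_lit 6445445702) (nat_lit 608) (nat_lit 255792108) (nat_lit 0) (nat_lit 1081339055) (nat_lit 162) (nat_lit 5) (nat_lit 170) (nat_lit 4) (nat_lit 162) (nat_lit 4) (nat_lit 294) (nat_lit 245) (nat_lit 241)) (XT.lf (nat_lit 0) (nat_lit 2008990269) (nat_lit 608) (nat_lit 2530678303) (nat_lit 76) (nat_lit 3328874785) (nat_lit 154) (nat_lit 5) (nat_lit 162) (nat_lit 5) (nat_lit 155) (nat_lit 4) (nat_lit 295) (nat_lit 245) (nat_lit 240))) (XT.nd (nat_lit 78) (nat_lit 532) (nat_lit 0) (XT.lf (nat_lit 0) (nat_lit 3088391395) (nat_lit 456) (nat_lit 2283965699) (nat_lit 532) (nat_lit 2586116947) (nat_lit 148) (nat_lit 5) (nat_lit 154) (nat_lit 5) (nat_lit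 155) (nat_lit 4) (nat_lit 296) (nat_lit 245) (nat_lit 239)) (XT.lf (nat_lit 0) (nat_lit 716138699) (nat_lit 532) (nat_lit 7275226345) (nat_lit 76) (nat_lit 61221771) (nat_lit 141) (nat_lit 5) (nat_lit 148) (nat_lit 5) (nat_lit 142) (nat_lit 4) (nat_lit 297) (nat_lit 245) (nat_lit 238)))))) (XT.nd (nat_lit 546) (nat_lit 1900) (nat_lit 0) (XT.nd (nat_lit 234) (nat_lit 836) (nat_lit 0) (XT.nd (nat_lit 78) (nat_lit 912) (nat_lit 0) (XT.lf (nat_lit 0) (nat_lit 4051176132) (nat_lit 532) (nat_lit 1611108495) (nat_lit 76) (nat_lit 2486985865) (nat_lit 141) (nat_lit 5) (nat_lit 148) (nat_lit 5) (nat_lit 142) (nat_lit 4) (nat_lit 298) (nat_lit 245) (nat_lit 237)) (XT.nd (nat_lit 78) (nat_lit 532) (nat_lit 0) (XT.lf (nat_lit 0) (nat_lit 4199626298) (nat_lit 380) (nat_lit 3242943481) (nat_lit 456) (nat_lit 807679678) (nat_lit 136) (nat_lit 5) (nat_lit 141) (nat_lit 5) (nat_lit 142) (nat_lit 4) (nat_lit 299)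 (nat_lit 245) (nat_lit 236)) (XT.lf (nat_lit 0) (nat_lit 1767488354) (nat_lit 456) (nat_lit 713490473) (nat_lit 532) (nat_lit 5874116502) (nat_lit 129) (nat_lit 5) (nat_lit 135) (nat_lit 5) (nat_lit 136) (nat_lit 5) (nat_lit 300) (nat_lit 245) (nat_lit 235)))) (XT.nd (nat_lit 156) (nat_lit 380) (nat_lit 0) (XT.nd (nat_lit 78) (nat_lit 456) (nat_lit 0) (XT.lf (nat_lit 0) (nat_lit 5829246238) (nat_lit 532) (nat_lit 752516763) (nat_lit 76) (nat_lit 1881844998) (nat_lit 129) (nat_lit 5) (nat_lit 136) (nat_lit 5) (nat_lit 130) (nat_lit 4) (nat_lit 301) (nat_lit 245) (nat_lit 234)) (XT.lf (nat_lit 0) (nat_lit 666186552) (nat_lit 456) (nat_lit 3333790791) (nat_lit 76) (nat_lit 4575949167) (nat_lit 123) (nat_lit 5) (nat_lit 129) (nat_lit 5) (nat_lit 124) (nat_lit 5) (nat_lit 302) (nat_lit 245) (nat_lit 233))) (XT.nd (nat_lit 78) (nat_lit 0) (nat_lit 0) (XT.lf (nat_lit 0) (nat_lit 2661694822) (nat_lit 380)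 (nat_lit 1304942179) (nat_lit 456) (nat_lit 4725650370) (nat_lit 118) (nat_lit 5) (nat_lit 123) (nat_lit 5) (nat_lit 124) (nat_lit 5) (nat_lit 303) (nat_lit 245) (nat_lit 232)) (XT.lf (nat_lit 0) (nat_lit 7335882436) (nat_lit 456) (nat_lit 26109332) (nat_lit 76) (nat_lit 1451122090) (nat_lit 118) (nat_lit 5) (nat_lit 124) (nat_lit 5) (nat_lit 119) (nat_lit 4) (nat_lit 304) (nat_lit 245) (nat_lit 231))))) (XT.nd (nat_lit 234) (nat_lit 760) (nat_lit 0) (XT.nd (nat_lit 78) (nat_lit 684) (nat_lit 0) (XT.lf (nat_lit 0) (nat_lit 1828161691) (nat_lit 456) (nat_lit 2792628036) (nat_lit 76) (nat_lit 4316421297) (nat_lit 112) (nat_lit 5) (nat_lit 118) (nat_lit 5) (nat_lit 113) (nat_lit 5) (nat_lit 305) (nat_lit 245) (nat_lit 230)) (XT.nd (nat_lit 78) (nat_lit 304) (nat_lit 0) (XT.lf (nat_lit 0) (nat_lit 3383944943) (nat_lit 380) (nat_lit 1776234750) (nat_lit 456) (nat_lit 3905760463) (nat_lit 107) (nat_lit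 5) (nat_lit 112) (nat_lit 5) (nat_lit 113) (nat_lit 5) (nat_lit 306) (nat_lit 245) (nat_lit 229)) (XT.lf (nat_lit 0) (nat_lit 499372972) (nat_lit 304) (nat_lit 8062464380) (nat_lit 380) (nat_lit 637664069) (nat_lit 103) (nat_lit 5) (nat_lit 107) (nat_lit 5) (nat_lit 108) (nat_lit 4) (nat_lit 307) (nat_lit 245) (nat_lit 228)))) (XT.nd (nat_lit 156) (nat_lit 380) (nat_lit 0) (XT.nd (nat_lit 78) (nat_lit 304) (nat_lit 0) (XT.lf (nat_lit 0) (nat_lit 2676470729) (nat_lit 380) (nat_lit 2501964262) (nat_lit 76) (nat_lit 4157867717) (nat_lit 102) (nat_lit 5) (nat_lit 107) (nat_lit 5) (nat_lit 103) (nat_lit 5) (nat_lit 308) (nat_lit 245) (nat_lit 227)) (XT.lf (nat_lit 0) (nat_lit 3849105096) (nat_lit 304) (nat_lit 2192978215) (nat_lit 380) (nat_lit 3436044700) (nat_lit 98) (nat_lit 5) (nat_lit 102) (nat_lit 5) (nat_lit 103) (nat_lit 5) (nat_lit 309) (nat_lit 245) (nat_lit 226))) (XT.nd (nat_lit 78) (nat_lit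 76) (nat_lit 0) (XT.lf (nat_lit 0) (nat_lit 721152894) (nat_lit 304) (nat_lit 8757152271) (nat_lit 380) (nat_lit 146867552) (nat_lit 94) (nat_lit 5) (nat_lit 98) (nat_lit 5) (nat_lit 99) (nat_lit 4) (nat_lit 310) (nat_lit 245) (nat_lit 225)) (XT.lf (nat_lit 0) (nat_lit 3185926281) (nat_lit 380) (nat_lit 2554319874) (nat_lit 76) (nat_lit 4035253221) (nat_lit 93) (nat_lit 5) (nat_lit 98) (nat_lit 5) (nat_lit 94) (nat_lit 5) (nat_lit 311) (nat_lit 245) (nat_lit 224))))))) (XT.nd (nat_lit 1092) (nat_lit 1672) (nat_lit 0) (XT.nd (nat_lit 546) (nat_lit 1064) (nat_lit 0) (XT.nd (nat_lit 234) (nat_lit 836) (nat_lit 0) (XT.nd (nat_lit 78) (nat_lit 304) (nat_lit 0) (XT.lf (nat_lit 0) (nat_lit 3961536295) (nat_lit 304) (nat_lit 2623429578) (nat_lit 380) (nat_lit 3346299222) (nat_lit 89) (nat_lit 5) (nat_lit 93) (nat_lit 5) (nat_lit 94) (nat_lit 5) (nat_lit 312) (nat_lit 245) (nat_lit 223)) (XT.nd (nat_lit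 78) (nat_lit 76) (nat_lit 0) (XT.lf (nat_lit 0) (nat_lit 537916089) (nat_lit 228) (nat_lit 9516805553) (nat_lit 304) (nat_lit 37967659) (nat_lit 86) (nat_lit 5) (nat_lit 89) (nat_lit 5) (nat_lit 90) (nat_lit 4) (nat_lit 313) (nat_lit 245) (nat_lit 222)) (XT.lf (nat_lit 0) (nat_lit 3322911079) (nat_lit 304) (nat_lit 3054333421) (nat_lit 76) (nat_lit 3880213609) (nat_lit 85) (nat_lit 5) (nat_lit 89) (nat_lit 5) (nat_lit 86) (nat_lit 5) (nat_lit 314) (nat_lit 245) (nat_lit 221)))) (XT.nd (nat_lit 156) (nat_lit 532) (nat_lit 0) (XT.nd (nat_lit 78) (nat_lit 0) (nat_lit 0) (XT.lf (nat_lit 0) (nat_lit 3612808194) (nat_lit 304) (nat_lit 3139944822) (nat_lit 380) (nat_lit 3675382493) (nat_lit 81) (nat_lit 5) (nat_lit 85) (nat_lit 5) (nat_lit 86) (nat_lit 5) (nat_lit 315) (nat_lit 245) (nat_lit 220)) (XT.lf (nat_lit 0) (nat_lit 10253346020) (nat_lit 380) (nat_lit 161751532) (nat_lit 76) (nat_lit 189842532)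 (nat_lit 81) (nat_lit 5) (nat_lit 86) (nat_lit 5) (nat_lit 82) (nat_lit 4) (nat_lit 316) (nat_lit 245) (nat_lit 219))) (XT.nd (nat_lit 78) (nat_lit 228) (nat_lit 0) (XT.lf (nat_lit 0) (nat_lit 3044420669) (nat_lit 304) (nat_lit 4121246852) (nat_lit 76) (nat_lit 3619561789) (nat_lit 77) (nat_lit 5) (nat_lit 81) (nat_lit 5) (nat_lit 78) (nat_lit 5) (nat_lit 317) (nat_lit 245) (nat_lit 218)) (XT.lf (nat_lit 0) (nat_lit 2679102684) (nat_lit 228) (nat_lit 3820555285) (nat_lit 304) (nat_lit 4472271463) (nat_lit 74) (nat_lit 5) (nat_lit 77) (nat_lit 5) (nat_lit 78) (nat_lit 5) (nat_lit 318) (nat_lit 245) (nat_lit 217))))) (XT.nd (nat_lit 234) (nat_lit 532) (nat_lit 0) (XT.nd (nat_lit 78) (nat_lit 532) (nat_lit 0) (XT.lf (nat_lit 0) (nat_lit 9672286376) (nat_lit 228) (nat_lit 365803877) (nat_lit 304) (nat_lit 1126791955) (nat_lit 74) (nat_lit 5) (nat_lit 77) (nat_lit 5) (nat_lit 78) (nat_lit 5) (nat_lit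 319) (nat_lit 245) (nat_lit 216)) (XT.nd (nat_lit 78) (nat_lit 228) (nat_lit 0) (XT.lf (nat_lit 0) (nat_lit 2296904314) (nat_lit 304) (nat_lit 5891738820) (nat_lit 76) (nat_lit 3173654120) (nat_lit 70) (nat_lit 5) (nat_lit 74) (nat_lit 5) (nat_lit 71) (nat_lit 5) (nat_lit 320) (nat_lit 245) (nat_lit 215)) (XT.lf (nat_lit 0) (nat_lit 1018250686) (nat_lit 228) (nat_lit 4750700689) (nat_lit 304) (nat_lit 5797334647) (nat_lit 67) (nat_lit 5) (nat_lit 70) (nat_lit 5) (nat_lit 71) (nat_lit 5) (nat_lit 321) (nat_lit 245) (nat_lit 214)))) (XT.nd (nat_lit 156) (nat_lit 228) (nat_lit 0) (XT.nd (nat_lit 78) (nat_lit 304) (nat_lit 0) (XT.lf (nat_lit 0) (nat_lit 8162530165) (nat_lit 228) (nat_lit 1182636685) (nat_lit 304) (nat_lit 2431260962) (nat_lit 67) (nat_lit 5) (nat_lit 70) (nat_lit 5) (nat_lit 71) (nat_lit 5) (nat_lit 322) (nat_lit 245) (nat_lit 213)) (XT.lf (nat_lit 0) (nat_lit 1014877082) (nat_lit 304)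 (nat_lit 8523167730) (nat_lit 76) (nat_lit 2454583159) (nat_lit 63) (nat_lit 5) (nat_lit 67) (nat_lit 5) (nat_lit 64) (nat_lit 5) (nat_lit 323) (nat_lit 245) (nat_lit 212))) (XT.nd (nat_lit 78) (nat_lit 228) (nat_lit 0) (XT.lf (nat_lit 0) (nat_lit 4506234866) (nat_lit 304) (nat_lit 1503735217) (nat_lit 76) (nat_lit 6204931574) (nat_lit 63) (nat_lit 5) (nat_lit 67) (nat_lit 5) (nat_lit 64) (nat_lit 5) (nat_lit 324) (nat_lit 245) (nat_lit 211)) (XT.lf (nat_lit 0) (nat_lit 5748380402) (nat_lit 228) (nat_lit 2353032903) (nat_lit 304) (nat_lit 4342487677) (nat_lit 60) (nat_lit 5) (nat_lit 63) (nat_lit 5) (nat_lit 64) (nat_lit 5) (nat_lit 325) (nat_lit 245) (nat_lit 210)))))) (XT.nd (nat_lit 546) (nat_lit 760) (nat_lit 0) (XT.nd (nat_lit 234) (nat_lit 456) (nat_lit 0) (XT.nd (nat_lit 78) (nat_lit 304) (nat_lit 0) (XT.lf (nat_lit 0) (nat_lit 474536394) (nat_lit 152) (nat_lit 11307672917) (nat_lit 228)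 (nat_lit 898257069) (nat_lit 58) (nat_lit 5) (nat_lit 60) (nat_lit 5) (nat_lit 61) (nat_lit 4) (nat_lit 326) (nat_lit 245) (nat_lit 209)) (XT.nd (nat_lit 78) (nat_lit 228) (nat_lit 0) (XT.lf (nat_lit 0) (nat_lit 2633647843) (nat_lit 228) (nat_lit 5065386426) (nat_lit 76) (nat_lit 5223276421) (nat_lit 57) (nat_lit 5) (nat_lit 60) (nat_lit 5) (nat_lit 58) (nat_lit 5) (nat_lit 327) (nat_lit 245) (nat_lit 208)) (XT.lf (nat_lit 0) (nat_lit 2235956767) (nat_lit 228) (nat_lit 3985076300) (nat_lit 304) (nat_lit 6951109638) (nat_lit 54) (nat_lit 5) (nat_lit 57) (nat_lit 5) (nat_lit 58) (nat_lit 5) (nat_lit 328) (nat_lit 245) (nat_lit 207)))) (XT.nd (nat_lit 156) (nat_lit 228) (nat_lit 0) (XT.nd (nat_lit 78) (nat_lit 228) (nat_lit 0) (XT.lf (nat_lit 0) (nat_lit 9772885363) (nat_lit 228) (nat_lit 141120099) (nat_lit 304) (nat_lit 3515550981) (nat_lit 54) (nat_lit 5) (nat_lit 57) (nat_lit 5) (nat_lit 58) (nat_lit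 5) (nat_lit 329) (nat_lit 245) (nat_lit 206)) (XT.lf (nat_lit 0) (nat_lit 44014094) (nat_lit 228) (nat_lit 9901983934) (nat_lit 76) (nat_lit 3748070465) (nat_lit 51) (nat_lit 5) (nat_lit 54) (nat_lit 5) (nat_lit 52) (nat_lit 5) (nat_lit 330) (nat_lit 245) (nat_lit 205))) (XT.nd (nat_lit 78) (nat_lit 228) (nat_lit 0) (XT.lf (nat_lit 0) (nat_lit 3626604294) (nat_lit 228) (nat_lit 2548932149) (nat_lit 76) (nat_lit 7790351866) (nat_lit 51) (nat_lit 5) (nat_lit 54) (nat_lit 5) (nat_lit 52) (nat_lit 5) (nat_lit 331) (nat_lit 245) (nat_lit 204)) (XT.lf (nat_lit 0) (nat_lit 5039343256) (nat_lit 228) (nat_lit 2275487898) (nat_lit 304) (nat_lit 6931109658) (nat_lit 48) (nat_lit 5) (nat_lit 51) (nat_lit 5) (nat_lit 52) (nat_lit 5) (nat_lit 332) (nat_lit 245) (nat_lit 203))))) (XT.nd (nat_lit 312) (nat_lit 380) (nat_lit 0) (XT.nd (nat_lit 156) (nat_lit 152) (nat_lit 0) (XT.nd (nat_lit 78) (nat_lit 228) (nat_lit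 0) (XT.lf (nat_lit 0) (nat_lit 11106505557) (nat_lit 304) (nat_lit 1727174862) (nat_lit 76) (nat_lit 1700952643) (nat_lit 48) (nat_lit 5) (nat_lit 52) (nat_lit 5) (nat_lit 49) (nat_lit 4) (nat_lit 333) (nat_lit 245) (nat_lit 202)) (XT.lf (nat_lit 0) (nat_lit 208347713) (nat_lit 228) (nat_lit 8843751975) (nat_lit 76) (nat_lit 5778897972) (nat_lit 45) (nat_lit 5) (nat_lit 48) (nat_lit 5) (nat_lit 46) (nat_lit 5) (nat_lit 334) (nat_lit 245) (nat_lit 201))) (XT.nd (nat_lit 78) (nat_lit 152) (nat_lit 0) (XT.lf (nat_lit 0) (nat_lit 3854289969) (nat_lit 228) (nat_lit 1283147493) (nat_lit 76) (nat_lit 9998739545) (nat_lit 45) (nat_lit 5) (nat_lit 48) (nat_lit 5) (nat_lit 46) (nat_lit 5) (nat_lit 335) (nat_lit 245) (nat_lit 200)) (XT.lf (nat_lit 0) (nat_lit 6552717752) (nat_lit 152) (nat_lit 1072950392) (nat_lit 228) (nat_lit 7824381581) (nat_lit 43) (nat_lit 5) (nat_lit 45) (nat_lit 5) (nat_lit 46) (nat_lit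 5) (nat_lit 336) (nat_lit 245) (nat_lit 199)))) (XT.nd (nat_lit 156) (nat_lit 228) (nat_lit 0) (XT.nd (nat_lit 78) (nat_lit 152) (nat_lit 0) (XT.lf (nat_lit 0) (nat_lit 11506570937) (nat_lit 228) (nat_lit 1232788406) (nat_lit 76) (nat_lit 3034106929) (nat_lit 43) (nat_lit 5) (nat_lit 46) (nat_lit 5) (nat_lit 44) (nat_lit 4) (nat_lit 337) (nat_lit 245) (nat_lit 198)) (XT.lf (nat_lit 0) (nat_lit 6704475457) (nat_lit 152) (nat_lit 8829223446) (nat_lit 228) (nat_lit 572011057) (nat_lit 41) (nat_lit 5) (nat_lit 43) (nat_lit 5) (nat_lit 44) (nat_lit 4) (nat_lit 338) (nat_lit 245) (nat_lit 197))) (XT.nd (nat_lit 78) (nat_lit 152) (nat_lit 0) (XT.lf (nat_lit 0) (nat_lit 3138039048) (nat_lit 228) (nat_lit 1651205343) (nat_lit 76) (nat_lit 11658738930) (nat_lit 40) (nat_lit 5) (nat_lit 43) (nat_lit 5) (nat_lit 41) (nat_lit 5) (nat_lit 339) (nat_lit 245) (nat_lit 196)) (XT.lf (nat_lit 0) (nat_lit 6374736560)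 (nat_lit 152) (nat_lit 590599010) (nat_lit 228) (nat_lit 9834513165) (nat_lit 38) (nat_lit 5) (nat_lit 40) (nat_lit 5) (nat_lit 41) (nat_lit 5) (nat_lit 340) (nat_lit 245) (nat_lit 195))))))))
noncomputable def xc67 : XT := (XT.nd (nat_lit 2184) (nat_lit 760) (nat_lit 0) (XT.nd (nat_lit 1092) (nat_lit 532) (nat_lit 0) (XT.nd (nat_lit 546) (nat_lit 532) (nat_lit 0) (XT.nd (nat_lit 234) (nat_lit 228) (nat_lit 0) (XT.nd (nat_lit 78) (nat_lit 228) (nat_lit 0) (XT.lf (nat_lit 0) (nat_lit 10916606415) (nat_lit 228) (nat_lit 2598117914) (nat_lit 76) (nat_lit 3647287633) (nat_lit 38) (nat_lit 5) (nat_lit 41) (nat_lit 5) (nat_lit 39) (nat_lit 4) (nat_lit 341) (nat_lit 245) (nat_lit 194)) (XT.nd (nat_lit 78) (nat_lit 76) (nat_lit 0) (XT.lf (nat_lit 0) (nat_lit 5491607273) (nat_lit 152) (nat_lit 9511136409) (nat_lit 228) (nat_lit 2531822590) (nat_lit 36) (nat_lit 5) (nat_lit 38) (nat_lit 5) (nat_lit 39) (nat_lit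 4) (nat_lit 342) (nat_lit 245) (nat_lit 193)) (XT.lf (nat_lit 0) (nat_lit 1252226067) (nat_lit 228) (nat_lit 4126445458) (nat_lit 76) (nat_lit 12539739101) (nat_lit 35) (nat_lit 5) (nat_lit 38) (nat_lit 5) (nat_lit 36) (nat_lit 5) (nat_lit 343) (nat_lit 245) (nat_lit 192)))) (XT.nd (nat_lit 156) (nat_lit 76) (nat_lit 0) (XT.nd (nat_lit 78) (nat_lit 0) (nat_lit 0) (XT.lf (nat_lit 0) (nat_lit 4009346391) (nat_lit 152) (nat_lit 1087129089) (nat_lit 228) (nat_lit 13216630485) (nat_lit 33) (nat_lit 5) (nat_lit 35) (nat_lit 5) (nat_lit 36) (nat_lit 5) (nat_lit 344) (nat_lit 245) (nat_lit 191)) (XT.lf (nat_lit 0) (nat_lit 9089423826) (nat_lit 228) (nat_lit 6348668904) (nat_lit 76) (nat_lit 3280562535) (nat_lit 33) (nat_lit 5) (nat_lit 36) (nat_lit 5) (nat_lit 34) (nat_lit 4) (nat_lit 345) (nat_lit 245) (nat_lit 190))) (XT.nd (nat_lit 78) (nat_lit 0) (nat_lit 0) (XT.lf (nat_lit 0) (nat_lit 1799895450) (nat_lit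 76) (nat_lit 11390766939) (nat_lit 152) (nat_lit 5946067434) (nat_lit 32) (nat_lit 5) (nat_lit 33) (nat_lit 5) (nat_lit 34) (nat_lit 4) (nat_lit 346) (nat_lit 245) (nat_lit 189)) (XT.lf (nat_lit 0) (nat_lit 10254202142) (nat_lit 76) (nat_lit 7185771941) (nat_lit 152) (nat_lit 2126634882) (nat_lit 32) (nat_lit 5) (nat_lit 33) (nat_lit 5) (nat_lit 34) (nat_lit 4) (nat_lit 347) (nat_lit 245) (nat_lit 188))))) (XT.nd (nat_lit 234) (nat_lit 304) (nat_lit 0) (XT.nd (nat_lit 78) (nat_lit 152) (nat_lit 0) (XT.lf (nat_lit 0) (nat_lit 1733788680) (nat_lit 152) (nat_lit 1132246029) (nat_lit 76) (nat_lit 17143990925) (nat_lit 31) (nat_lit 5) (nat_lit 33) (nat_lit 5) (nat_lit 32) (nat_lit 5) (nat_lit 348) (nat_lit 245) (nat_lit 187)) (XT.nd (nat_lit 78) (nat_lit 0) (nat_lit 0) (XT.lf (nat_lit 0) (nat_lit 5716581604) (nat_lit 228) (nat_lit 13130943009) (nat_lit 76) (nat_lit 1617121807) (nat_lit 29) (nat_lit 5)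 (nat_lit 32) (nat_lit 5) (nat_lit 30) (nat_lit 4) (nat_lit 349) (nat_lit 245) (nat_lit 186)) (XT.lf (nat_lit 0) (nat_lit 9821761398) (nat_lit 228) (nat_lit 4950066591) (nat_lit 76) (nat_lit 6161002680) (nat_lit 29) (nat_lit 5) (nat_lit 32) (nat_lit 5) (nat_lit 30) (nat_lit 4) (nat_lit 350) (nat_lit 245) (nat_lit 185)))) (XT.nd (nat_lit 156) (nat_lit 228) (nat_lit 0) (XT.nd (nat_lit 78) (nat_lit 0) (nat_lit 0) (XT.lf (nat_lit 0) (nat_lit 3480210424) (nat_lit 76) (nat_lit 10567398163) (nat_lit 152) (nat_lit 7367538081) (nat_lit 28) (nat_lit 5) (nat_lit 29) (nat_lit 5) (nat_lit 30) (nat_lit 4) (nat_lit 351) (nat_lit 245) (nat_lit 184)) (XT.lf (nat_lit 0) (nat_lit 12201556960) (nat_lit 76) (nat_lit 6213156564) (nat_lit 152) (nat_lit 3496795399) (nat_lit 28) (nat_lit 5) (nat_lit 29) (nat_lit 5) (nat_lit 30) (nat_lit 4) (nat_lit 352) (nat_lit 245) (nat_lit 183))) (XT.nd (nat_lit 78) (nat_lit 152) (nat_lit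 0) (XT.lf (nat_lit 0) (nat_lit 445685004) (nat_lit 152) (nat_lit 1305098931) (nat_lit 76) (nat_lit 20672892031) (nat_lit 27) (nat_lit 5) (nat_lit 29) (nat_lit 5) (nat_lit 28) (nat_lit 5) (nat_lit 353) (nat_lit 245) (nat_lit 182)) (XT.lf (nat_lit 0) (nat_lit 4501640916) (nat_lit 228) (nat_lit 15575858054) (nat_lit 76) (nat_lit 2870716192) (nat_lit 25) (nat_lit 5) (nat_lit 28) (nat_lit 5) (nat_lit 26) (nat_lit 4) (nat_lit 354) (nat_lit 245) (nat_lit 181)))))) (XT.nd (nat_lit 546) (nat_lit 228) (nat_lit 0) (XT.nd (nat_lit 234) (nat_lit 228) (nat_lit 0) (XT.nd (nat_lit 78) (nat_lit 76) (nat_lit 0) (XT.lf (nat_lit 0) (nat_lit 8676268778) (nat_lit 228) (nat_lit 7229195886) (nat_lit 76) (nat_lit 7583126064) (nat_lit 25) (nat_lit 5) (nat_lit 28) (nat_lit 5) (nat_lit 26) (nat_lit 4) (nat_lit 355) (nat_lit 245) (nat_lit 180)) (XT.nd (nat_lit 78) (nat_lit 0) (nat_lit 0) (XT.lf (nat_lit 0) (nat_lit 1335156937)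 (nat_lit 76) (nat_lit 11621142355) (nat_lit 152) (nat_lit 11089483056) (nat_lit 24) (nat_lit 5) (nat_lit 25) (nat_lit 5) (nat_lit 26) (nat_lit 4) (nat_lit 356) (nat_lit 245) (nat_lit 179)) (XT.lf (nat_lit 0) (nat_lit 10246444951) (nat_lit 76) (nat_lit 7159008186) (nat_lit 152) (nat_lit 7213024325) (nat_lit 24) (nat_lit 5) (nat_lit 25) (nat_lit 5) (nat_lit 26) (nat_lit 4) (nat_lit 357) (nat_lit 245) (nat_lit 178)))) (XT.nd (nat_lit 156) (nat_lit 0) (nat_lit 0) (XT.nd (nat_lit 78) (nat_lit 228) (nat_lit 0) (XT.lf (nat_lit 0) (nat_lit 19368579544) (nat_lit 76) (nat_lit 2588163908) (nat_lit 152) (nat_lit 3252559264) (nat_lit 24) (nat_lit 5) (nat_lit 25) (nat_lit 5) (nat_lit 26) (nat_lit 4) (nat_lit 358) (nat_lit 245) (nat_lit 177)) (XT.lf (nat_lit 0) (nat_lit 828615614) (nat_lit 228) (nat_lit 22897703596) (nat_lit 76) (nat_lit 2090762887) (nat_lit 21) (nat_lit 5) (nat_lit 24) (nat_lit 5) (nat_lit 22)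 (nat_lit 4) (nat_lit 359) (nat_lit 245) (nat_lit 176))) (XT.nd (nat_lit 78) (nat_lit 0) (nat_lit 0) (XT.lf (nat_lit 0) (nat_lit 5021437596) (nat_lit 228) (nat_lit 14493332589) (nat_lit 76) (nat_lit 6925729382) (nat_lit 21) (nat_lit 5) (nat_lit 24) (nat_lit 5) (nat_lit 22) (nat_lit 4) (nat_lit 360) (nat_lit 245) (nat_lit 175)) (XT.lf (nat_lit 0) (nat_lit 9310331501) (nat_lit 228) (nat_lit 5890817396) (nat_lit 76) (nat_lit 11882370170) (nat_lit 21) (nat_lit 5) (nat_lit 24) (nat_lit 5) (nat_lit 22) (nat_lit 4) (nat_lit 361) (nat_lit 245) (nat_lit 174))))) (XT.nd (nat_lit 234) (nat_lit 152) (nat_lit 0) (XT.nd (nat_lit 78) (nat_lit 0) (nat_lit 0) (XT.lf (nat_lit 0) (nat_lit 2975419905) (nat_lit 76) (nat_lit 10752226558) (nat_lit 152) (nat_lit 14018197950) (nat_lit 20) (nat_lit 5) (nat_lit 21) (nat_lit 5) (nat_lit 22) (nat_lit 4) (nat_lit 362) (nat_lit 245) (nat_lit 173)) (XT.nd (nat_lit 78) (nat_lit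 0) (nat_lit 0) (XT.lf (nat_lit 0) (nat_lit 12176499666) (nat_lit 76) (nat_lit 6131960908) (nat_lit 152) (nat_lit 10118657211) (nat_lit 20) (nat_lit 5) (nat_lit 21) (nat_lit 5) (nat_lit 22) (nat_lit 4) (nat_lit 363) (nat_lit 245) (nat_lit 172)) (XT.lf (nat_lit 0) (nat_lit 21603222849) (nat_lit 76) (nat_lit 1395800527) (nat_lit 152) (nat_lit 6130643689) (nat_lit 20) (nat_lit 5) (nat_lit 21) (nat_lit 5) (nat_lit 22) (nat_lit 4) (nat_lit 364) (nat_lit 245) (nat_lit 171)))) (XT.nd (nat_lit 156) (nat_lit 0) (nat_lit 0) (XT.nd (nat_lit 78) (nat_lit 76) (nat_lit 0) (XT.lf (nat_lit 0) (nat_lit 1403851039) (nat_lit 76) (nat_lit 26446340470) (nat_lit 76) (nat_lit 2002511880) (nat_lit 19) (nat_lit 4) (nat_lit 20) (nat_lit 5) (nat_lit 20) (nat_lit 4) (nat_lit 365) (nat_lit 245) (nat_lit 170)) (XT.lf (nat_lit 0) (nat_lit 2269107303) (nat_lit 152) (nat_lit 19924588403) (nat_lit 76) (nat_lit 8401187048) (nat_lit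 18) (nat_lit 5) (nat_lit 20) (nat_lit 5) (nat_lit 19) (nat_lit 4) (nat_lit 366) (nat_lit 245) (nat_lit 169))) (XT.nd (nat_lit 78) (nat_lit 0) (nat_lit 0) (XT.lf (nat_lit 0) (nat_lit 6602377944) (nat_lit 152) (nat_lit 11212561273) (nat_lit 76) (nat_lit 13544587540) (nat_lit 18) (nat_lit 5) (nat_lit 20) (nat_lit 5) (nat_lit 19) (nat_lit 4) (nat_lit 367) (nat_lit 245) (nat_lit 168)) (XT.lf (nat_lit 0) (nat_lit 11040162614) (nat_lit 152) (nat_lit 2285909141) (nat_lit 76) (nat_lit 18821809261) (nat_lit 18) (nat_lit 5) (nat_lit 20) (nat_lit 5) (nat_lit 19) (nat_lit 4) (nat_lit 368) (nat_lit 245) (nat_lit 167))))))) (XT.nd (nat_lit 1092) (nat_lit 380) (nat_lit 0) (XT.nd (nat_lit 546) (nat_lit 152) (nat_lit 0) (XT.nd (nat_lit 234) (nat_lit 152) (nat_lit 0) (XT.nd (nat_lit 78) (nat_lit 0) (nat_lit 0) (XT.lf (nat_lit 0) (nat_lit 6999758480) (nat_lit 76) (nat_lit 8653866470) (nat_lit 152) (nat_lit 17304990856)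 (nat_lit 17) (nat_lit 5) (nat_lit 18) (nat_lit 5) (nat_lit 19) (nat_lit 4) (nat_lit 369) (nat_lit 245) (nat_lit 166)) (XT.nd (nat_lit 78) (nat_lit 0) (nat_lit 0) (XT.lf (nat_lit 0) (nat_lit 16565925301) (nat_lit 76) (nat_lit 3838195965) (nat_lit 152) (nat_lit 13389598516) (nat_lit 17) (nat_lit 5) (nat_lit 18) (nat_lit 5) (nat_lit 19) (nat_lit 4) (nat_lit 370) (nat_lit 245) (nat_lit 165)) (XT.lf (nat_lit 0) (nat_lit 25283985324) (nat_lit 152) (nat_lit 8289732656) (nat_lit 0) (nat_lit 1080559180) (nat_lit 17) (nat_lit 5) (nat_lit 19) (nat_lit 4) (nat_lit 17) (nat_lit 4) (nat_lit 371) (nat_lit 245) (nat_lit 164)))) (XT.nd (nat_lit 156) (nat_lit 76) (nat_lit 0) (XT.nd (nat_lit 78) (nat_lit 0) (nat_lit 0) (XT.lf (nat_lit 0) (nat_lit 852237078) (nat_lit 76) (nat_lit 29480967472) (nat_lit 76) (nat_lit 5206763631) (nat_lit 16) (nat_lit 4) (nat_lit 17) (nat_lit 5) (nat_lit 17) (nat_lit 4) (nat_lit 372) (nat_lit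 245) (nat_lit 163)) (XT.lf (nat_lit 0) (nat_lit 10395955294) (nat_lit 76) (nat_lit 25198688952) (nat_lit 76) (nat_lit 855768900) (nat_lit 16) (nat_lit 4) (nat_lit 17) (nat_lit 5) (nat_lit 17) (nat_lit 4) (nat_lit 373) (nat_lit 245) (nat_lit 162))) (XT.nd (nat_lit 78) (nat_lit 0) (nat_lit 0) (XT.lf (nat_lit 0) (nat_lit 3532480853) (nat_lit 152) (nat_lit 17238698686) (nat_lit 76) (nat_lit 16616627246) (nat_lit 15) (nat_lit 5) (nat_lit 17) (nat_lit 5) (nat_lit 16) (nat_lit 4) (nat_lit 374) (nat_lit 245) (nat_lit 161)) (XT.lf (nat_lit 0) (nat_lit 8013310744) (nat_lit 152) (nat_lit 8207385626) (nat_lit 76) (nat_lit 22133032754) (nat_lit 15) (nat_lit 5) (nat_lit 17) (nat_lit 5) (nat_lit 16) (nat_lit 4) (nat_lit 375) (nat_lit 245) (nat_lit 160))))) (XT.nd (nat_lit 234) (nat_lit 76) (nat_lit 0) (XT.nd (nat_lit 78) (nat_lit 0) (nat_lit 0) (XT.lf (nat_lit 0) (nat_lit 1076607428) (nat_lit 76) (nat_lit 11541076774)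 (nat_lit 152) (nat_lit 26731276285) (nat_lit 14) (nat_lit 5) (nat_lit 15) (nat_lit 5) (nat_lit 16) (nat_lit 4) (nat_lit 376) (nat_lit 245) (nat_lit 159)) (XT.nd (nat_lit 78) (nat_lit 0) (nat_lit 0) (XT.lf (nat_lit 0) (nat_lit 10768480728) (nat_lit 76) (nat_lit 6653600894) (nat_lit 152) (nat_lit 22950115160) (nat_lit 14) (nat_lit 5) (nat_lit 15) (nat_lit 5) (nat_lit 16) (nat_lit 4) (nat_lit 377) (nat_lit 245) (nat_lit 158)) (XT.lf (nat_lit 0) (nat_lit 20713359833) (nat_lit 76) (nat_lit 1636876623) (nat_lit 152) (nat_lit 19076509578) (nat_lit 14) (nat_lit 5) (nat_lit 15) (nat_lit 5) (nat_lit 16) (nat_lit 4) (nat_lit 378) (nat_lit 245) (nat_lit 157)))) (XT.nd (nat_lit 156) (nat_lit 76) (nat_lit 0) (XT.nd (nat_lit 78) (nat_lit 0) (nat_lit 0) (XT.lf (nat_lit 0) (nat_lit 27440228573) (nat_lit 152) (nat_lit 11627368966) (nat_lit 0) (nat_lit 3444918943) (nat_lit 14) (nat_lit 5) (nat_lit 16) (nat_lit 4)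 (nat_lit 14) (nat_lit 4) (nat_lit 379) (nat_lit 245) (nat_lit 156)) (XT.lf (nat_lit 0) (nat_lit 32679764783) (nat_lit 152) (nat_lit 2320984356) (nat_lit 0) (nat_lit 8630209943) (nat_lit 14) (nat_lit 5) (nat_lit 16) (nat_lit 4) (nat_lit 14) (nat_lit 4) (nat_lit 380) (nat_lit 245) (nat_lit 155))) (XT.nd (nat_lit 78) (nat_lit 0) (nat_lit 0) (XT.lf (nat_lit 0) (nat_lit 7373517974) (nat_lit 76) (nat_lit 30755049454) (nat_lit 76) (nat_lit 6652829360) (nat_lit 13) (nat_lit 4) (nat_lit 14) (nat_lit 5) (nat_lit 14) (nat_lit 4) (nat_lit 381) (nat_lit 245) (nat_lit 154)) (XT.lf (nat_lit 0) (nat_lit 17371818291) (nat_lit 76) (nat_lit 26373869623) (nat_lit 76) (nat_lit 2220518215) (nat_lit 13) (nat_lit 4) (nat_lit 14) (nat_lit 5) (nat_lit 14) (nat_lit 4) (nat_lit 382) (nat_lit 245) (nat_lit 153)))))) (XT.nd (nat_lit 546) (nat_lit 228) (nat_lit 0) (XT.nd (nat_lit 234) (nat_lit 76) (nat_lit 0) (XT.nd (nat_lit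 78) (nat_lit 0) (nat_lit 0) (XT.lf (nat_lit 0) (nat_lit 2280782590) (nat_lit 152) (nat_lit 19573004801) (nat_lit 76) (nat_lit 25332646809) (nat_lit 12) (nat_lit 5) (nat_lit 14) (nat_lit 5) (nat_lit 13) (nat_lit 4) (nat_lit 383) (nat_lit 245) (nat_lit 152)) (XT.nd (nat_lit 78) (nat_lit 0) (nat_lit 0) (XT.lf (nat_lit 0) (nat_lit 6854798111) (nat_lit 152) (nat_lit 10335949461) (nat_lit 76) (nat_lit 31252396571) (nat_lit 12) (nat_lit 5) (nat_lit 14) (nat_lit 5) (nat_lit 13) (nat_lit 4) (nat_lit 384) (nat_lit 245) (nat_lit 151)) (XT.lf (nat_lit 0) (nat_lit 11548855367) (nat_lit 152) (nat_lit 853805626) (nat_lit 76) (nat_lit 37335413409) (nat_lit 12) (nat_lit 5) (nat_lit 14) (nat_lit 5) (nat_lit 13) (nat_lit 4) (nat_lit 385) (nat_lit 245) (nat_lit 150)))) (XT.nd (nat_lit 156) (nat_lit 0) (nat_lit 0) (XT.nd (nat_lit 78) (nat_lit 0) (nat_lit 0) (XT.lf (nat_lit 0) (nat_lit 9058475555) (nat_lit 76) (nat_lit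 7395656015) (nat_lit 152) (nat_lit 34615612635) (nat_lit 11) (nat_lit 5) (nat_lit 12) (nat_lit 5) (nat_lit 13) (nat_lit 4) (nat_lit 386) (nat_lit 245) (nat_lit 149)) (XT.lf (nat_lit 0) (nat_lit 19254841707) (nat_lit 76) (nat_lit 2243857584) (nat_lit 152) (nat_lit 30942904261) (nat_lit 11) (nat_lit 5) (nat_lit 12) (nat_lit 5) (nat_lit 13) (nat_lit 4) (nat_lit 387) (nat_lit 245) (nat_lit 148))) (XT.nd (nat_lit 78) (nat_lit 0) (nat_lit 0) (XT.lf (nat_lit 0) (nat_lit 26707900904) (nat_lit 152) (nat_lit 24157197550) (nat_lit 0) (nat_lit 2989124666) (nat_lit 11) (nat_lit 5) (nat_lit 13) (nat_lit 4) (nat_lit 11) (nat_lit 4) (nat_lit 388) (nat_lit 245) (nat_lit 147)) (XT.lf (nat_lit 0) (nat_lit 32079923411) (nat_lit 152) (nat_lit 14908321126) (nat_lit 0) (nat_lit 8320783642) (nat_lit 11) (nat_lit 5) (nat_lit 13) (nat_lit 4) (nat_lit 11) (nat_lit 4) (nat_lit 389) (nat_lit 245) (nat_lit 146))))) (XT.nd (nat_lit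 312) (nat_lit 152) (nat_lit 0) (XT.nd (nat_lit 156) (nat_lit 0) (nat_lit 0) (XT.nd (nat_lit 78) (nat_lit 76) (nat_lit 0) (XT.lf (nat_lit 0) (nat_lit 37597891482) (nat_lit 152) (nat_lit 5410481700) (nat_lit 0) (nat_lit 13799563818) (nat_lit 11) (nat_lit 5) (nat_lit 13) (nat_lit 4) (nat_lit 11) (nat_lit 4) (nat_lit 390) (nat_lit 245) (nat_lit 145)) (XT.lf (nat_lit 0) (nat_lit 4431086264) (nat_lit 76) (nat_lit 38878134687) (nat_lit 76) (nat_lit 15041760524) (nat_lit 10) (nat_lit 4) (nat_lit 11) (nat_lit 5) (nat_lit 11) (nat_lit 4) (nat_lit 391) (nat_lit 245) (nat_lit 144))) (XT.nd (nat_lit 78) (nat_lit 0) (nat_lit 0) (XT.lf (nat_lit 0) (nat_lit 14651409046) (nat_lit 76) (nat_lit 34580511411) (nat_lit 76) (nat_lit 10707198898) (nat_lit 10) (nat_lit 4) (nat_lit 11) (nat_lit 5) (nat_lit 11) (nat_lit 4) (nat_lit 392) (nat_lit 245) (nat_lit 143)) (XT.lf (nat_lit 0) (nat_lit 25151737830) (nat_lit 76) (nat_lit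 30166383404) (nat_lit 76) (nat_lit 6257208417) (nat_lit 10) (nat_lit 4) (nat_lit 11) (nat_lit 5) (nat_lit 11) (nat_lit 4) (nat_lit 393) (nat_lit 245) (nat_lit 142)))) (XT.nd (nat_lit 156) (nat_lit 76) (nat_lit 0) (XT.nd (nat_lit 78) (nat_lit 76) (nat_lit 0) (XT.lf (nat_lit 0) (nat_lit 35941247659) (nat_lit 76) (nat_lit 25631893662) (nat_lit 76) (nat_lit 1687900738) (nat_lit 10) (nat_lit 4) (nat_lit 11) (nat_lit 5) (nat_lit 11) (nat_lit 4) (nat_lit 394) (nat_lit 245) (nat_lit 141)) (XT.lf (nat_lit 0) (nat_lit 2946083891) (nat_lit 152) (nat_lit 17997246447) (nat_lit 76) (nat_lit 44053532700) (nat_lit 9) (nat_lit 5) (nat_lit 11) (nat_lit 5) (nat_lit 10) (nat_lit 4) (nat_lit 395) (nat_lit 245) (nat_lit 140))) (XT.nd (nat_lit 78) (nat_lit 76) (nat_lit 0) (XT.lf (nat_lit 0) (nat_lit 7672055408) (nat_lit 152) (nat_lit 8436343512) (nat_lit 76) (nat_lit 50676254160) (nat_lit 9) (nat_lit 5) (nat_lit 11) (nat_lit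 5) (nat_lit 10) (nat_lit 4) (nat_lit 396) (nat_lit 245) (nat_lit 139)) (XT.lf (nat_lit 0) (nat_lit 1415107571) (nat_lit 76) (nat_lit 11125575634) (nat_lit 152) (nat_lit 56085369796) (nat_lit 8) (nat_lit 5) (nat_lit 9) (nat_lit 5) (nat_lit 10) (nat_lit 4) (nat_lit 397) (nat_lit 245) (nat_lit 138))))))))
noncomputable def xc68 : XT := (XT.nd (nat_lit 33072) (nat_lit 0) (nat_lit 3648) (XT.nd (nat_lit 1092) (nat_lit 76) (nat_lit 0) (XT.nd (nat_lit 546) (nat_lit 76) (nat_lit 0) (XT.nd (nat_lit 234) (nat_lit 0) (nat_lit 0) (XT.nd (nat_lit 78) (nat_lit 0) (nat_lit 0) (XT.lf (nat_lit 0) (nat_lit 11711380417) (nat_lit 76) (nat_lit 5916597434) (nat_lit 152) (nat_lit 52892541245) (nat_lit 8) (nat_lit 5) (nat_lit 9) (nat_lit 5) (nat_lit 10) (nat_lit 4) (nat_lit 398) (nat_lit 245) (nat_lit 137)) (XT.nd (nat_lit 78) (nat_lit 0) (nat_lit 0) (XT.lf (nat_lit 0) (nat_lit 22293571990) (nat_lit 76) (nat_lit 562103315)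 (nat_lit 152) (nat_lit 49616512698) (nat_lit 8) (nat_lit 5) (nat_lit 9) (nat_lit 5) (nat_lit 10) (nat_lit 4) (nat_lit 399) (nat_lit 245) (nat_lit 136)) (XT.lf (nat_lit 0) (nat_lit 28275854612) (nat_lit 152) (nat_lit 41359347351) (nat_lit 0) (nat_lit 4846137764) (nat_lit 8) (nat_lit 5) (nat_lit 10) (nat_lit 4) (nat_lit 8) (nat_lit 4) (nat_lit 400) (nat_lit 245) (nat_lit 135)))) (XT.nd (nat_lit 156) (nat_lit 0) (nat_lit 0) (XT.nd (nat_lit 78) (nat_lit 0) (nat_lit 0) (XT.lf (nat_lit 0) (nat_lit 33852592462) (nat_lit 152) (nat_lit 32302967148) (nat_lit 0) (nat_lit 10395390013) (nat_lit 8) (nat_lit 5) (nat_lit 10) (nat_lit 4) (nat_lit 8) (nat_lit 4) (nat_lit 401) (nat_lit 245) (nat_lit 134)) (XT.lf (nat_lit 0) (nat_lit 39585358451) (nat_lit 152) (nat_lit 22996158780) (nat_lit 0) (nat_lit 16101470952) (nat_lit 8) (nat_lit 5) (nat_lit 10) (nat_lit 4) (nat_lit 8) (nat_lit 4) (nat_lit 402) (nat_lit 245)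 (nat_lit 133))) (XT.nd (nat_lit 78) (nat_lit 0) (nat_lit 0) (XT.lf (nat_lit 0) (nat_lit 45479161792) (nat_lit 152) (nat_lit 13430790084) (nat_lit 0) (nat_lit 21969366478) (nat_lit 8) (nat_lit 5) (nat_lit 10) (nat_lit 4) (nat_lit 8) (nat_lit 4) (nat_lit 403) (nat_lit 245) (nat_lit 132)) (XT.lf (nat_lit 0) (nat_lit 51539152410) (nat_lit 152) (nat_lit 3598502972) (nat_lit 0) (nat_lit 28004203878) (nat_lit 8) (nat_lit 5) (nat_lit 10) (nat_lit 4) (nat_lit 8) (nat_lit 4) (nat_lit 404) (nat_lit 245) (nat_lit 131))))) (XT.nd (nat_lit 234) (nat_lit 0) (nat_lit 0) (XT.nd (nat_lit 78) (nat_lit 0) (nat_lit 0) (XT.lf (nat_lit 0) (nat_lit 6638841586) (nat_lit 76) (nat_lit 51195600463) (nat_lit 76) (nat_lit 27636231331) (nat_lit 7) (nat_lit 4) (nat_lit 8) (nat_lit 5) (nat_lit 8) (nat_lit 4) (nat_lit 405) (nat_lit 245) (nat_lit 130)) (XT.nd (nat_lit 78) (nat_lit 0) (nat_lit 0) (XT.lf (nat_lit 0) (nat_lit 17237804161)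 (nat_lit 76) (nat_lit 47106922026) (nat_lit 76) (nat_lit 23523843573) (nat_lit 7) (nat_lit 4) (nat_lit 8) (nat_lit 5) (nat_lit 8) (nat_lit 4) (nat_lit 406) (nat_lit 245) (nat_lit 129)) (XT.lf (nat_lit 0) (nat_lit 28136028714) (nat_lit 76) (nat_lit 42904385262) (nat_lit 76) (nat_lit 19298288052) (nat_lit 7) (nat_lit 4) (nat_lit 8) (nat_lit 5) (nat_lit 8) (nat_lit 4) (nat_lit 407) (nat_lit 245) (nat_lit 128)))) (XT.nd (nat_lit 156) (nat_lit 0) (nat_lit 0) (XT.nd (nat_lit 78) (nat_lit 0) (nat_lit 0) (XT.lf (nat_lit 0) (nat_lit 39343037968) (nat_lit 76) (nat_lit 38584318054) (nat_lit 76) (nat_lit 14955872534) (nat_lit 7) (nat_lit 4) (nat_lit 8) (nat_lit 5) (nat_lit 8) (nat_lit 4) (nat_lit 408) (nat_lit 245) (nat_lit 127)) (XT.lf (nat_lit 0) (nat_lit 50868624454) (nat_lit 76) (nat_lit 34142945584) (nat_lit 76) (nat_lit 10492802677) (nat_lit 7) (nat_lit 4) (nat_lit 8) (nat_lit 5) (nat_lit 8) (nat_lit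 4) (nat_lit 409) (nat_lit 245) (nat_lit 126))) (XT.nd (nat_lit 78) (nat_lit 0) (nat_lit 0) (XT.lf (nat_lit 0) (nat_lit 62722859073) (nat_lit 76) (nat_lit 29576387042) (nat_lit 76) (nat_lit 5905178711) (nat_lit 7) (nat_lit 4) (nat_lit 8) (nat_lit 5) (nat_lit 8) (nat_lit 4) (nat_lit 410) (nat_lit 245) (nat_lit 125)) (XT.lf (nat_lit 0) (nat_lit 74916099895) (nat_lit 76) (nat_lit 24880652230) (nat_lit 76) (nat_lit 1188992031) (nat_lit 7) (nat_lit 4) (nat_lit 8) (nat_lit 5) (nat_lit 8) (nat_lit 4) (nat_lit 411) (nat_lit 245) (nat_lit 124)))))) (XT.nd (nat_lit 31434) (nat_lit 0) (nat_lit 9348) (XT.nd (nat_lit 31122) (nat_lit 0) (nat_lit 11856) (XT.nd (nat_lit 30966) (nat_lit 0) (nat_lit 13604) (XT.lf (nat_lit 0) (nat_lit 3588460892) (nat_lit 152) (nat_lit 16426940770) (nat_lit 76) (nat_lit 83834303896) (nat_lit 6) (nat_lit 5) (nat_lit 8) (nat_lit 5) (nat_lit 7) (nat_lit 4) (nat_lit 412) (nat_lit 245)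 (nat_lit 123)) (XT.nd (nat_lit 78) (nat_lit 608) (nat_lit 0) (XT.lf (nat_lit 0) (nat_lit 1309631906) (nat_lit 836) (nat_lit 1048213195) (nat_lit 0) (nat_lit 1309631906) (nat_lit 193) (nat_lit 5) (nat_lit 204) (nat_lit 4) (nat_lit 193) (nat_lit 4) (nat_lit 288) (nat_lit 246) (nat_lit 246)) (XT.lf (nat_lit 0) (nat_lit 3079594604) (nat_lit 608) (nat_lit 2926812403) (nat_lit 608) (nat_lit 1395838476) (nat_lit 185) (nat_lit 4) (nat_lit 193) (nat_lit 5) (nat_lit 193) (nat_lit 4) (nat_lit 289) (nat_lit 246) (nat_lit 245)))) (XT.nd (nat_lit 156) (nat_lit 1140) (nat_lit 0) (XT.nd (nat_lit 78) (nat_lit 0) (nat_lit 0) (XT.lf (nat_lit 0) (nat_lit 876306192) (nat_lit 532) (nat_lit 1041754188) (nat_lit 608) (nat_lit 5555009745) (nat_lit 177) (nat_lit 5) (nat_lit 184) (nat_lit 5) (nat_lit 185) (nat_lit 4) (nat_lit 290) (nat_lit 246) (nat_lit 244)) (XT.lf (nat_lit 0) (nat_lit 5261905099) (nat_lit 608) (nat_lit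 1353680220) (nat_lit 0) (nat_lit 931374863) (nat_lit 177) (nat_lit 5) (nat_lit 185) (nat_lit 4) (nat_lit 177) (nat_lit 4) (nat_lit 291) (nat_lit 246) (nat_lit 243))) (XT.nd (nat_lit 78) (nat_lit 532) (nat_lit 0) (XT.lf (nat_lit 0) (nat_lit 1018808872) (nat_lit 608) (nat_lit 3622598730) (nat_lit 76) (nat_lit 2982745029) (nat_lit 169) (nat_lit 5) (nat_lit 177) (nat_lit 5) (nat_lit 170) (nat_lit 4) (nat_lit 292) (nat_lit 246) (nat_lit 242)) (XT.lf (nat_lit 0) (nat_lit 1749598957) (nat_lit 532) (nat_lit 2566170135) (nat_lit 608) (nat_lit 3389119026) (nat_lit 162) (nat_lit 5) (nat_lit 169) (nat_lit 5) (nat_lit 170) (nat_lit 4) (nat_lit 293) (nat_lit 246) (nat_lit 241))))) (XT.nd (nat_lit 234) (nat_lit 1444) (nat_lit 0) (XT.nd (nat_lit 78) (nat_lit 1064) (nat_lit 0) (XT.lf (nat_lit 0) (nat_lit 7254513450) (nat_lit 532) (nat_lit 404645324) (nat_lit 608) (nat_lit 130561493) (nat_lit 162) (nat_lit 5) (nat_lit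 169) (nat_lit 5) (nat_lit 170) (nat_lit 4) (nat_lit 294) (nat_lit 246) (nat_lit 240)) (XT.nd (nat_lit 78) (nat_lit 456) (nat_lit 0) (XT.lf (nat_lit 0) (nat_lit 3141733958) (nat_lit 608) (nat_lit 2882863333) (nat_lit 76) (nat_lit 1852296500) (nat_lit 154) (nat_lit 5) (nat_lit 162) (nat_lit 5) (nat_lit 155) (nat_lit 4) (nat_lit 295) (nat_lit 246) (nat_lit 239)) (XT.lf (nat_lit 0) (nat_lit 2677407591) (nat_lit 456) (nat_lit 3781387923) (nat_lit 532) (nat_lit 1509463297) (nat_lit 148) (nat_lit 5) (nat_lit 154) (nat_lit 5) (nat_lit 155) (nat_lit 4) (nat_lit 296) (nat_lit 246) (nat_lit 238)))) (XT.nd (nat_lit 156) (nat_lit 912) (nat_lit 0) (XT.nd (nat_lit 78) (nat_lit 0) (nat_lit 0) (XT.lf (nat_lit 0) (nat_lit 286101555) (nat_lit 456) (nat_lit 1438293691) (nat_lit 532) (nat_lit 6339130073) (nat_lit 141) (nat_lit 5) (nat_lit 147) (nat_lit 5) (nat_lit 148) (nat_lit 5) (nat_lit 297) (nat_lit 246) (nat_lit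 237)) (XT.lf (nat_lit 0) (nat_lit 5004195942) (nat_lit 532) (nat_lit 2151330611) (nat_lit 76) (nat_lit 1006380889) (nat_lit 141) (nat_lit 5) (nat_lit 148) (nat_lit 5) (nat_lit 142) (nat_lit 4) (nat_lit 298) (nat_lit 246) (nat_lit 236))) (XT.nd (nat_lit 78) (nat_lit 456) (nat_lit 0) (XT.lf (nat_lit 0) (nat_lit 83624253) (nat_lit 456) (nat_lit 4667815650) (nat_lit 76) (nat_lit 3512841889) (nat_lit 135) (nat_lit 5) (nat_lit 141) (nat_lit 5) (nat_lit 136) (nat_lit 5) (nat_lit 299) (nat_lit 246) (nat_lit 235)) (XT.lf (nat_lit 0) (nat_lit 1078405988) (nat_lit 456) (nat_lit 2231549746) (nat_lit 532) (nat_lit 5060373838) (nat_lit 129) (nat_lit 5) (nat_lit 135) (nat_lit 5) (nat_lit 136) (nat_lit 5) (nat_lit 300) (nat_lit 246) (nat_lit 234))))))) (XT.nd (nat_lit 1092) (nat_lit 2356) (nat_lit 0) (XT.nd (nat_lit 546) (nat_lit 1672) (nat_lit 0) (XT.nd (nat_lit 234) (nat_lit 836) (nat_lit 0) (XT.nd (nat_lit 78)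 (nat_lit 836) (nat_lit 0) (XT.lf (nat_lit 0) (nat_lit 6604264229) (nat_lit 532) (nat_lit 1493533083) (nat_lit 76) (nat_lit 382700432) (nat_lit 129) (nat_lit 5) (nat_lit 136) (nat_lit 5) (nat_lit 130) (nat_lit 4) (nat_lit 301) (nat_lit 246) (nat_lit 233)) (XT.nd (nat_lit 78) (nat_lit 380) (nat_lit 0) (XT.lf (nat_lit 0) (nat_lit 1363057948) (nat_lit 456) (nat_lit 4165480817) (nat_lit 76) (nat_lit 3065487380) (nat_lit 123) (nat_lit 5) (nat_lit 129) (nat_lit 5) (nat_lit 124) (nat_lit 5) (nat_lit 302) (nat_lit 246) (nat_lit 232)) (XT.lf (nat_lit 0) (nat_lit 1762355769) (nat_lit 380) (nat_lit 2854520989) (nat_lit 456) (nat_lit 4094942814) (nat_lit 118) (nat_lit 5) (nat_lit 123) (nat_lit 5) (nat_lit 124) (nat_lit 5) (nat_lit 303) (nat_lit 246) (nat_lit 231)))) (XT.nd (nat_lit 156) (nat_lit 380) (nat_lit 0) (XT.nd (nat_lit 78) (nat_lit 456) (nat_lit 0) (XT.lf (nat_lit 0) (nat_lit 7852710451) (nat_lit 380)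 (nat_lit 81827951) (nat_lit 456) (nat_lit 899687808) (nat_lit 118) (nat_lit 5) (nat_lit 123) (nat_lit 5) (nat_lit 124) (nat_lit 5) (nat_lit 304) (nat_lit 246) (nat_lit 230)) (XT.lf (nat_lit 0) (nat_lit 2346927807) (nat_lit 456) (nat_lit 3844034586) (nat_lit 76) (nat_lit 2768650423) (nat_lit 112) (nat_lit 5) (nat_lit 118) (nat_lit 5) (nat_lit 113) (nat_lit 5) (nat_lit 305) (nat_lit 246) (nat_lit 229))) (XT.nd (nat_lit 78) (nat_lit 0) (nat_lit 0) (XT.lf (nat_lit 0) (nat_lit 2261192632) (nat_lit 380) (nat_lit 3370784388) (nat_lit 456) (nat_lit 3457803860) (nat_lit 107) (nat_lit 5) (nat_lit 112) (nat_lit 5) (nat_lit 113) (nat_lit 5) (nat_lit 306) (nat_lit 246) (nat_lit 228)) (XT.lf (nat_lit 0) (nat_lit 8529002753) (nat_lit 380) (nat_lit 453138200) (nat_lit 456) (nat_lit 242775004) (nat_lit 107) (nat_lit 5) (nat_lit 112) (nat_lit 5) (nat_lit 113) (nat_lit 5) (nat_lit 307) (nat_lit 246) (nat_lit 227)))))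 (XT.nd (nat_lit 234) (nat_lit 912) (nat_lit 0) (XT.nd (nat_lit 78) (nat_lit 380) (nat_lit 0) (XT.lf (nat_lit 0) (nat_lit 3016876095) (nat_lit 380) (nat_lit 3786257807) (nat_lit 76) (nat_lit 2559900137) (nat_lit 102) (nat_lit 5) (nat_lit 107) (nat_lit 5) (nat_lit 103) (nat_lit 5) (nat_lit 308) (nat_lit 246) (nat_lit 226)) (XT.nd (nat_lit 78) (nat_lit 76) (nat_lit 0) (XT.lf (nat_lit 0) (nat_lit 2489577819) (nat_lit 304) (nat_lit 3845345241) (nat_lit 380) (nat_lit 3171389789) (nat_lit 98) (nat_lit 5) (nat_lit 102) (nat_lit 5) (nat_lit 103) (nat_lit 5) (nat_lit 309) (nat_lit 246) (nat_lit 225)) (XT.lf (nat_lit 0) (nat_lit 65645190) (nat_lit 380) (nat_lit 722104452) (nat_lit 76) (nat_lit 8867094272) (nat_lit 97) (nat_lit 5) (nat_lit 102) (nat_lit 5) (nat_lit 98) (nat_lit 5) (nat_lit 310) (nat_lit 246) (nat_lit 224)))) (XT.nd (nat_lit 156) (nat_lit 304) (nat_lit 0) (XT.nd (nat_lit 78) (nat_lit 304) (nat_lit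 0) (XT.lf (nat_lit 0) (nat_lit 3346926660) (nat_lit 380) (nat_lit 4084953416) (nat_lit 76) (nat_lit 2374731822) (nat_lit 93) (nat_lit 5) (nat_lit 98) (nat_lit 5) (nat_lit 94) (nat_lit 5) (nat_lit 311) (nat_lit 246) (nat_lit 223)) (XT.lf (nat_lit 0) (nat_lit 2351572022) (nat_lit 304) (nat_lit 4345981794) (nat_lit 380) (nat_lit 3266299753) (nat_lit 89) (nat_lit 5) (nat_lit 93) (nat_lit 5) (nat_lit 94) (nat_lit 5) (nat_lit 312) (nat_lit 246) (nat_lit 222))) (XT.nd (nat_lit 78) (nat_lit 304) (nat_lit 0) (XT.lf (nat_lit 0) (nat_lit 8968617865) (nat_lit 304) (nat_lit 1155492488) (nat_lit 380) (nat_lit 2486290) (nat_lit 89) (nat_lit 5) (nat_lit 93) (nat_lit 5) (nat_lit 94) (nat_lit 5) (nat_lit 313) (nat_lit 246) (nat_lit 221)) (XT.lf (nat_lit 0) (nat_lit 3302699772) (nat_lit 304) (nat_lit 4845133456) (nat_lit 76) (nat_lit 2145193579) (nat_lit 85) (nat_lit 5) (nat_lit 89) (nat_lit 5) (nat_lit 86) (nat_lit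 5) (nat_lit 314) (nat_lit 246) (nat_lit 220)))))) (XT.nd (nat_lit 546) (nat_lit 1216) (nat_lit 0) (XT.nd (nat_lit 234) (nat_lit 532) (nat_lit 0) (XT.nd (nat_lit 78) (nat_lit 304) (nat_lit 0) (XT.lf (nat_lit 0) (nat_lit 1738353289) (nat_lit 304) (nat_lit 4944686644) (nat_lit 380) (nat_lit 3782170276) (nat_lit 81) (nat_lit 5) (nat_lit 85) (nat_lit 5) (nat_lit 86) (nat_lit 5) (nat_lit 315) (nat_lit 246) (nat_lit 219)) (XT.nd (nat_lit 78) (nat_lit 304) (nat_lit 0) (XT.lf (nat_lit 0) (nat_lit 8524034726) (nat_lit 304) (nat_lit 1626722532) (nat_lit 380) (nat_lit 492264135) (nat_lit 81) (nat_lit 5) (nat_lit 85) (nat_lit 5) (nat_lit 86) (nat_lit 5) (nat_lit 316) (nat_lit 246) (nat_lit 218)) (XT.lf (nat_lit 0) (nat_lit 2840448481) (nat_lit 304) (nat_lit 6186501178) (nat_lit 76) (nat_lit 1798402111) (nat_lit 77) (nat_lit 5) (nat_lit 81) (nat_lit 5) (nat_lit 78) (nat_lit 5) (nat_lit 317) (nat_lit 246) (nat_lit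 217)))) (XT.nd (nat_lit 156) (nat_lit 304) (nat_lit 0) (XT.nd (nat_lit 78) (nat_lit 0) (nat_lit 0) (XT.lf (nat_lit 0) (nat_lit 525623654) (nat_lit 228) (nat_lit 5719233921) (nat_lit 304) (nat_lit 4768737777) (nat_lit 74) (nat_lit 5) (nat_lit 77) (nat_lit 5) (nat_lit 78) (nat_lit 5) (nat_lit 318) (nat_lit 246) (nat_lit 216)) (XT.lf (nat_lit 0) (nat_lit 7473057738) (nat_lit 228) (nat_lit 2280542202) (nat_lit 304) (nat_lit 1453856955) (nat_lit 74) (nat_lit 5) (nat_lit 77) (nat_lit 5) (nat_lit 78) (nat_lit 5) (nat_lit 319) (nat_lit 246) (nat_lit 215))) (XT.nd (nat_lit 78) (nat_lit 0) (nat_lit 0) (XT.lf (nat_lit 0) (nat_lit 1905893671) (nat_lit 304) (nat_lit 8246281996) (nat_lit 76) (nat_lit 1254917463) (nat_lit 70) (nat_lit 5) (nat_lit 74) (nat_lit 5) (nat_lit 71) (nat_lit 5) (nat_lit 320) (nat_lit 246) (nat_lit 214)) (XT.lf (nat_lit 0) (nat_lit 5339292342) (nat_lit 304) (nat_lit 1401460014) (nat_lit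 76) (nat_lit 4871505529) (nat_lit 70) (nat_lit 5) (nat_lit 74) (nat_lit 5) (nat_lit 71) (nat_lit 5) (nat_lit 321) (nat_lit 246) (nat_lit 213))))) (XT.nd (nat_lit 312) (nat_lit 456) (nat_lit 0) (XT.nd (nat_lit 156) (nat_lit 228) (nat_lit 0) (XT.nd (nat_lit 78) (nat_lit 304) (nat_lit 0) (XT.lf (nat_lit 0) (nat_lit 5670073971) (nat_lit 228) (nat_lit 3203243133) (nat_lit 304) (nat_lit 2950364350) (nat_lit 67) (nat_lit 5) (nat_lit 70) (nat_lit 5) (nat_lit 71) (nat_lit 5) (nat_lit 322) (nat_lit 246) (nat_lit 212)) (XT.lf (nat_lit 0) (nat_lit 432830709) (nat_lit 304) (nat_lit 11182464908) (nat_lit 76) (nat_lit 426943006) (nat_lit 63) (nat_lit 5) (nat_lit 67) (nat_lit 5) (nat_lit 64) (nat_lit 5) (nat_lit 323) (nat_lit 246) (nat_lit 211))) (XT.nd (nat_lit 78) (nat_lit 228) (nat_lit 0) (XT.lf (nat_lit 0) (nat_lit 3896515080) (nat_lit 304) (nat_lit 4207402580) (nat_lit 76) (nat_lit 4161439543) (nat_lit 63)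 (nat_lit 5) (nat_lit 67) (nat_lit 5) (nat_lit 64) (nat_lit 5) (nat_lit 324) (nat_lit 246) (nat_lit 210)) (XT.lf (nat_lit 0) (nat_lit 2946969573) (nat_lit 228) (nat_lit 4490927680) (nat_lit 304) (nat_lit 5058087428) (nat_lit 60) (nat_lit 5) (nat_lit 63) (nat_lit 5) (nat_lit 64) (nat_lit 5) (nat_lit 325) (nat_lit 246) (nat_lit 209)))) (XT.nd (nat_lit 156) (nat_lit 228) (nat_lit 0) (XT.nd (nat_lit 78) (nat_lit 228) (nat_lit 0) (XT.lf (nat_lit 0) (nat_lit 10315629819) (nat_lit 228) (nat_lit 758592991) (nat_lit 304) (nat_lit 1659675233) (nat_lit 60) (nat_lit 5) (nat_lit 63) (nat_lit 5) (nat_lit 64) (nat_lit 5) (nat_lit 326) (nat_lit 246) (nat_lit 208)) (XT.lf (nat_lit 0) (nat_lit 1829292704) (nat_lit 228) (nat_lit 8089042144) (nat_lit 76) (nat_lit 3059373987) (nat_lit 57) (nat_lit 5) (nat_lit 60) (nat_lit 5) (nat_lit 58) (nat_lit 5) (nat_lit 327) (nat_lit 246) (nat_lit 207))) (XT.nd (nat_lit 78) (nat_lit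 228) (nat_lit 0) (XT.lf (nat_lit 0) (nat_lit 5369398451) (nat_lit 228) (nat_lit 873491604) (nat_lit 76) (nat_lit 6986081854) (nat_lit 57) (nat_lit 5) (nat_lit 60) (nat_lit 5) (nat_lit 58) (nat_lit 5) (nat_lit 328) (nat_lit 246) (nat_lit 206)) (XT.lf (nat_lit 0) (nat_lit 6604305057) (nat_lit 228) (nat_lit 2424065799) (nat_lit 304) (nat_lit 4459047096) (nat_lit 54) (nat_lit 5) (nat_lit 57) (nat_lit 5) (nat_lit 58) (nat_lit 5) (nat_lit 329) (nat_lit 246) (nat_lit 205))))))))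
noncomputable def xc69 : XT := (XT.nd (nat_lit 2184) (nat_lit 988) (nat_lit 0) (XT.nd (nat_lit 1092) (nat_lit 912) (nat_lit 0) (XT.nd (nat_lit 546) (nat_lit 532) (nat_lit 0) (XT.nd (nat_lit 234) (nat_lit 380) (nat_lit 0) (XT.nd (nat_lit 78) (nat_lit 304) (nat_lit 0) (XT.lf (nat_lit 0) (nat_lit 482305518) (nat_lit 152) (nat_lit 12292418701) (nat_lit 228) (nat_lit 979589055) (nat_lit 52) (nat_lit 5) (nat_lit 54) (nat_lit 5) (nat_lit 55) (nat_lit 4) (nat_lit 330) (nat_lit 246) (nat_lit 204)) (XT.nd (nat_lit 78) (nat_lit 228) (nat_lit 0) (XT.lf (nat_lit 0) (nat_lit 2597346851) (nat_lit 228) (nat_lit 5950772897) (nat_lit 76) (nat_lit 5479050184) (nat_lit 51) (nat_lit 5) (nat_lit 54) (nat_lit 5) (nat_lit 52) (nat_lit 5) (nat_lit 331) (nat_lit 246) (nat_lit 203)) (XT.lf (nat_lit 0) (nat_lit 1528970119) (nat_lit 228) (nat_lit 4698811578) (nat_lit 304) (nat_lit 8081185431) (nat_lit 48) (nat_lit 5) (nat_lit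 51) (nat_lit 5) (nat_lit 52) (nat_lit 5) (nat_lit 332) (nat_lit 246) (nat_lit 202)))) (XT.nd (nat_lit 156) (nat_lit 228) (nat_lit 0) (XT.nd (nat_lit 78) (nat_lit 152) (nat_lit 0) (XT.lf (nat_lit 0) (nat_lit 9274621460) (nat_lit 228) (nat_lit 704429864) (nat_lit 304) (nat_lit 4619830814) (nat_lit 48) (nat_lit 5) (nat_lit 51) (nat_lit 5) (nat_lit 52) (nat_lit 5) (nat_lit 333) (nat_lit 246) (nat_lit 201)) (XT.lf (nat_lit 0) (nat_lit 2287765676) (nat_lit 152) (nat_lit 11562793836) (nat_lit 228) (nat_lit 1046724989) (nat_lit 46) (nat_lit 5) (nat_lit 48) (nat_lit 5) (nat_lit 49) (nat_lit 4) (nat_lit 334) (nat_lit 246) (nat_lit 200))) (XT.nd (nat_lit 78) (nat_lit 152) (nat_lit 0) (XT.lf (nat_lit 0) (nat_lit 2596523882) (nat_lit 228) (nat_lit 5077977950) (nat_lit 76) (nat_lit 7528967147) (nat_lit 45) (nat_lit 5) (nat_lit 48) (nat_lit 5) (nat_lit 46) (nat_lit 5) (nat_lit 335) (nat_lit 246) (nat_lit 199))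 (XT.lf (nat_lit 0) (nat_lit 2643620943) (nat_lit 152) (nat_lit 3664259087) (nat_lit 228) (nat_lit 9211271759) (nat_lit 43) (nat_lit 5) (nat_lit 45) (nat_lit 5) (nat_lit 46) (nat_lit 5) (nat_lit 336) (nat_lit 246) (nat_lit 198))))) (XT.nd (nat_lit 234) (nat_lit 304) (nat_lit 0) (XT.nd (nat_lit 78) (nat_lit 228) (nat_lit 0) (XT.lf (nat_lit 0) (nat_lit 10141571756) (nat_lit 228) (nat_lit 5224216559) (nat_lit 76) (nat_lit 478205510) (nat_lit 43) (nat_lit 5) (nat_lit 46) (nat_lit 5) (nat_lit 44) (nat_lit 4) (nat_lit 337) (nat_lit 246) (nat_lit 197)) (XT.nd (nat_lit 78) (nat_lit 76) (nat_lit 0) (XT.lf (nat_lit 0) (nat_lit 2595845441) (nat_lit 152) (nat_lit 11511707360) (nat_lit 228) (nat_lit 2070528009) (nat_lit 41) (nat_lit 5) (nat_lit 43) (nat_lit 5) (nat_lit 44) (nat_lit 4) (nat_lit 338) (nat_lit 246) (nat_lit 196)) (XT.lf (nat_lit 0) (nat_lit 1647169422) (nat_lit 228) (nat_lit 5854904368) (nat_lit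 76) (nat_lit 9019368724) (nat_lit 40) (nat_lit 5) (nat_lit 43) (nat_lit 5) (nat_lit 41) (nat_lit 5) (nat_lit 339) (nat_lit 246) (nat_lit 195)))) (XT.nd (nat_lit 156) (nat_lit 152) (nat_lit 0) (XT.nd (nat_lit 78) (nat_lit 0) (nat_lit 0) (XT.lf (nat_lit 0) (nat_lit 2050636613) (nat_lit 152) (nat_lit 3361298255) (nat_lit 228) (nat_lit 11463257128) (nat_lit 38) (nat_lit 5) (nat_lit 40) (nat_lit 5) (nat_lit 41) (nat_lit 5) (nat_lit 340) (nat_lit 246) (nat_lit 194)) (XT.lf (nat_lit 0) (nat_lit 9315730724) (nat_lit 228) (nat_lit 7007081369) (nat_lit 76) (nat_lit 915975278) (nat_lit 38) (nat_lit 5) (nat_lit 41) (nat_lit 5) (nat_lit 39) (nat_lit 4) (nat_lit 341) (nat_lit 246) (nat_lit 193))) (XT.nd (nat_lit 78) (nat_lit 0) (nat_lit 0) (XT.lf (nat_lit 0) (nat_lit 959097347) (nat_lit 152) (nat_lit 12378967081) (nat_lit 228) (nat_lit 4275199028) (nat_lit 36) (nat_lit 5) (nat_lit 38) (nat_lit 5) (nat_lit 39)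 (nat_lit 4) (nat_lit 342) (nat_lit 246) (nat_lit 192)) (XT.lf (nat_lit 0) (nat_lit 9237343520) (nat_lit 152) (nat_lit 8273924917) (nat_lit 228) (nat_lit 486814492) (nat_lit 36) (nat_lit 5) (nat_lit 38) (nat_lit 5) (nat_lit 39) (nat_lit 4) (nat_lit 343) (nat_lit 246) (nat_lit 191)))))) (XT.nd (nat_lit 546) (nat_lit 380) (nat_lit 0) (XT.nd (nat_lit 234) (nat_lit 304) (nat_lit 0) (XT.nd (nat_lit 78) (nat_lit 152) (nat_lit 0) (XT.lf (nat_lit 0) (nat_lit 3308797852) (nat_lit 228) (nat_lit 732646230) (nat_lit 76) (nat_lit 14353225687) (nat_lit 35) (nat_lit 5) (nat_lit 38) (nat_lit 5) (nat_lit 36) (nat_lit 5) (nat_lit 344) (nat_lit 246) (nat_lit 190)) (XT.nd (nat_lit 78) (nat_lit 0) (nat_lit 0) (XT.lf (nat_lit 0) (nat_lit 7246604141) (nat_lit 228) (nat_lit 11192807197) (nat_lit 76) (nat_lit 362468806) (nat_lit 33) (nat_lit 5) (nat_lit 36) (nat_lit 5) (nat_lit 34) (nat_lit 4) (nat_lit 345) (nat_lit 246)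 (nat_lit 189)) (XT.lf (nat_lit 0) (nat_lit 11311619212) (nat_lit 228) (nat_lit 3112622650) (nat_lit 76) (nat_lit 4796806159) (nat_lit 33) (nat_lit 5) (nat_lit 36) (nat_lit 5) (nat_lit 34) (nat_lit 4) (nat_lit 346) (nat_lit 246) (nat_lit 188)))) (XT.nd (nat_lit 156) (nat_lit 228) (nat_lit 0) (XT.nd (nat_lit 78) (nat_lit 0) (nat_lit 0) (XT.lf (nat_lit 0) (nat_lit 5246805435) (nat_lit 76) (nat_lit 10264922331) (nat_lit 152) (nat_lit 4140681915) (nat_lit 32) (nat_lit 5) (nat_lit 33) (nat_lit 5) (nat_lit 34) (nat_lit 4) (nat_lit 347) (nat_lit 246) (nat_lit 187)) (XT.lf (nat_lit 0) (nat_lit 13855918616) (nat_lit 76) (nat_lit 5976522170) (nat_lit 152) (nat_lit 264446024) (nat_lit 32) (nat_lit 5) (nat_lit 33) (nat_lit 5) (nat_lit 34) (nat_lit 4) (nat_lit 348) (nat_lit 246) (nat_lit 186))) (XT.nd (nat_lit 78) (nat_lit 0) (nat_lit 0) (XT.lf (nat_lit 0) (nat_lit 2110204136) (nat_lit 152) (nat_lit 1529285635)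 (nat_lit 228) (nat_lit 16914620486) (nat_lit 29) (nat_lit 5) (nat_lit 31) (nat_lit 5) (nat_lit 32) (nat_lit 5) (nat_lit 349) (nat_lit 246) (nat_lit 185)) (XT.lf (nat_lit 0) (nat_lit 7712263762) (nat_lit 228) (nat_lit 10279825401) (nat_lit 76) (nat_lit 3031183223) (nat_lit 29) (nat_lit 5) (nat_lit 32) (nat_lit 5) (nat_lit 30) (nat_lit 4) (nat_lit 350) (nat_lit 246) (nat_lit 184))))) (XT.nd (nat_lit 234) (nat_lit 304) (nat_lit 0) (XT.nd (nat_lit 78) (nat_lit 76) (nat_lit 0) (XT.lf (nat_lit 0) (nat_lit 11887467356) (nat_lit 228) (nat_lit 1948038589) (nat_lit 76) (nat_lit 7671607286) (nat_lit 29) (nat_lit 5) (nat_lit 32) (nat_lit 5) (nat_lit 30) (nat_lit 4) (nat_lit 351) (nat_lit 246) (nat_lit 183)) (XT.nd (nat_lit 78) (nat_lit 0) (nat_lit 0) (XT.lf (nat_lit 0) (nat_lit 6704259186) (nat_lit 76) (nat_lit 9514234615) (nat_lit 152) (nat_lit 5786069418) (nat_lit 28) (nat_lit 5) (nat_lit 29) (nat_lit 5)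 (nat_lit 30) (nat_lit 4) (nat_lit 352) (nat_lit 246) (nat_lit 182)) (XT.lf (nat_lit 0) (nat_lit 15596382746) (nat_lit 76) (nat_lit 5069274082) (nat_lit 152) (nat_lit 1851704305) (nat_lit 28) (nat_lit 5) (nat_lit 29) (nat_lit 5) (nat_lit 30) (nat_lit 4) (nat_lit 353) (nat_lit 246) (nat_lit 181)))) (XT.nd (nat_lit 156) (nat_lit 76) (nat_lit 0) (XT.nd (nat_lit 78) (nat_lit 0) (nat_lit 0) (XT.lf (nat_lit 0) (nat_lit 1662411139) (nat_lit 152) (nat_lit 478494674) (nat_lit 228) (nat_lit 20904517807) (nat_lit 25) (nat_lit 5) (nat_lit 27) (nat_lit 5) (nat_lit 28) (nat_lit 5) (nat_lit 354) (nat_lit 246) (nat_lit 180)) (XT.lf (nat_lit 0) (nat_lit 6294840235) (nat_lit 228) (nat_lit 13060697986) (nat_lit 76) (nat_lit 4230886547) (nat_lit 25) (nat_lit 5) (nat_lit 28) (nat_lit 5) (nat_lit 26) (nat_lit 4) (nat_lit 355) (nat_lit 246) (nat_lit 179))) (XT.nd (nat_lit 78) (nat_lit 76) (nat_lit 0) (XT.lf (nat_lit 0)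 (nat_lit 10546411300) (nat_lit 228) (nat_lit 4550503015) (nat_lit 76) (nat_lit 9047560495) (nat_lit 25) (nat_lit 5) (nat_lit 28) (nat_lit 5) (nat_lit 26) (nat_lit 4) (nat_lit 356) (nat_lit 246) (nat_lit 178)) (XT.lf (nat_lit 0) (nat_lit 4242392464) (nat_lit 76) (nat_lit 10693122397) (nat_lit 152) (nat_lit 9783461077) (nat_lit 24) (nat_lit 5) (nat_lit 25) (nat_lit 5) (nat_lit 26) (nat_lit 4) (nat_lit 357) (nat_lit 246) (nat_lit 177))))))) (XT.nd (nat_lit 1092) (nat_lit 456) (nat_lit 0) (XT.nd (nat_lit 546) (nat_lit 228) (nat_lit 0) (XT.nd (nat_lit 234) (nat_lit 76) (nat_lit 0) (XT.nd (nat_lit 78) (nat_lit 228) (nat_lit 0) (XT.lf (nat_lit 0) (nat_lit 13337508997) (nat_lit 76) (nat_lit 6134308306) (nat_lit 152) (nat_lit 5838437899) (nat_lit 24) (nat_lit 5) (nat_lit 25) (nat_lit 5) (nat_lit 26) (nat_lit 4) (nat_lit 358) (nat_lit 246) (nat_lit 176)) (XT.nd (nat_lit 78) (nat_lit 228) (nat_lit 0) (XT.lf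 (nat_lit 0) (nat_lit 22652229841) (nat_lit 76) (nat_lit 1462439772) (nat_lit 152) (nat_lit 1805498027) (nat_lit 24) (nat_lit 5) (nat_lit 25) (nat_lit 5) (nat_lit 26) (nat_lit 4) (nat_lit 359) (nat_lit 246) (nat_lit 175)) (XT.lf (nat_lit 0) (nat_lit 2361505222) (nat_lit 228) (nat_lit 20844597885) (nat_lit 76) (nat_lit 3339838186) (nat_lit 21) (nat_lit 5) (nat_lit 24) (nat_lit 5) (nat_lit 22) (nat_lit 4) (nat_lit 360) (nat_lit 246) (nat_lit 174)))) (XT.nd (nat_lit 156) (nat_lit 76) (nat_lit 0) (XT.nd (nat_lit 78) (nat_lit 0) (nat_lit 0) (XT.lf (nat_lit 0) (nat_lit 6636188627) (nat_lit 228) (nat_lit 12267902646) (nat_lit 76) (nat_lit 8285299722) (nat_lit 21) (nat_lit 5) (nat_lit 24) (nat_lit 5) (nat_lit 22) (nat_lit 4) (nat_lit 361) (nat_lit 246) (nat_lit 173)) (XT.lf (nat_lit 0) (nat_lit 11011105430) (nat_lit 228) (nat_lit 3484794421) (nat_lit 76) (nat_lit 13357092206) (nat_lit 21) (nat_lit 5) (nat_lit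 24) (nat_lit 5) (nat_lit 22) (nat_lit 4) (nat_lit 362) (nat_lit 246) (nat_lit 172))) (XT.nd (nat_lit 78) (nat_lit 0) (nat_lit 0) (XT.lf (nat_lit 0) (nat_lit 5622108944) (nat_lit 76) (nat_lit 9922012579) (nat_lit 152) (nat_lit 12991581509) (nat_lit 20) (nat_lit 5) (nat_lit 21) (nat_lit 5) (nat_lit 22) (nat_lit 4) (nat_lit 363) (nat_lit 246) (nat_lit 171)) (XT.lf (nat_lit 0) (nat_lit 15024732950) (nat_lit 76) (nat_lit 5196715099) (nat_lit 152) (nat_lit 9017204908) (nat_lit 20) (nat_lit 5) (nat_lit 21) (nat_lit 5) (nat_lit 22) (nat_lit 4) (nat_lit 364) (nat_lit 246) (nat_lit 170))))) (XT.nd (nat_lit 234) (nat_lit 76) (nat_lit 0) (XT.nd (nat_lit 78) (nat_lit 152) (nat_lit 0) (XT.lf (nat_lit 0) (nat_lit 24661939238) (nat_lit 76) (nat_lit 351068100) (nat_lit 152) (nat_lit 4950473661) (nat_lit 20) (nat_lit 5) (nat_lit 21) (nat_lit 5) (nat_lit 22) (nat_lit 4) (nat_lit 365) (nat_lit 246) (nat_lit 169)) (XT.nd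 (nat_lit 78) (nat_lit 76) (nat_lit 0) (XT.lf (nat_lit 0) (nat_lit 3862293201) (nat_lit 76) (nat_lit 26142221930) (nat_lit 76) (nat_lit 703859503) (nat_lit 19) (nat_lit 4) (nat_lit 20) (nat_lit 5) (nat_lit 20) (nat_lit 4) (nat_lit 366) (nat_lit 246) (nat_lit 168)) (XT.lf (nat_lit 0) (nat_lit 3630592232) (nat_lit 152) (nat_lit 18150310943) (nat_lit 76) (nat_lit 9692698211) (nat_lit 18) (nat_lit 5) (nat_lit 20) (nat_lit 5) (nat_lit 19) (nat_lit 4) (nat_lit 367) (nat_lit 246) (nat_lit 167)))) (XT.nd (nat_lit 156) (nat_lit 76) (nat_lit 0) (XT.nd (nat_lit 78) (nat_lit 0) (nat_lit 0) (XT.lf (nat_lit 0) (nat_lit 8056188806) (nat_lit 152) (nat_lit 9246010818) (nat_lit 76) (nat_lit 14960124731) (nat_lit 18) (nat_lit 5) (nat_lit 20) (nat_lit 5) (nat_lit 19) (nat_lit 4) (nat_lit 368) (nat_lit 246) (nat_lit 166)) (XT.lf (nat_lit 0) (nat_lit 12590532079) (nat_lit 152) (nat_lit 118634674) (nat_lit 76) (nat_lit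 20366268942) (nat_lit 18) (nat_lit 5) (nat_lit 20) (nat_lit 5) (nat_lit 19) (nat_lit 4) (nat_lit 369) (nat_lit 246) (nat_lit 165))) (XT.nd (nat_lit 78) (nat_lit 0) (nat_lit 0) (XT.lf (nat_lit 0) (nat_lit 9423682860) (nat_lit 76) (nat_lit 7904487442) (nat_lit 152) (nat_lit 16582758002) (nat_lit 17) (nat_lit 5) (nat_lit 18) (nat_lit 5) (nat_lit 19) (nat_lit 4) (nat_lit 370) (nat_lit 246) (nat_lit 164)) (XT.lf (nat_lit 0) (nat_lit 19212351240) (nat_lit 76) (nat_lit 2973735026) (nat_lit 152) (nat_lit 12586060666) (nat_lit 17) (nat_lit 5) (nat_lit 18) (nat_lit 5) (nat_lit 19) (nat_lit 4) (nat_lit 371) (nat_lit 246) (nat_lit 163)))))) (XT.nd (nat_lit 546) (nat_lit 228) (nat_lit 0) (XT.nd (nat_lit 234) (nat_lit 76) (nat_lit 0) (XT.nd (nat_lit 78) (nat_lit 152) (nat_lit 0) (XT.lf (nat_lit 0) (nat_lit 27187415508) (nat_lit 152) (nat_lit 6426370225) (nat_lit 0) (nat_lit 2045491645) (nat_lit 17) (nat_lit 5)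 (nat_lit 19) (nat_lit 4) (nat_lit 17) (nat_lit 4) (nat_lit 372) (nat_lit 246) (nat_lit 162)) (XT.nd (nat_lit 78) (nat_lit 76) (nat_lit 0) (XT.lf (nat_lit 0) (nat_lit 2969152185) (nat_lit 76) (nat_lit 29405715530) (nat_lit 76) (nat_lit 4197076900) (nat_lit 16) (nat_lit 4) (nat_lit 17) (nat_lit 5) (nat_lit 17) (nat_lit 4) (nat_lit 373) (nat_lit 246) (nat_lit 161)) (XT.lf (nat_lit 0) (nat_lit 245601764) (nat_lit 152) (nat_lit 24774838667) (nat_lit 76) (nat_lit 12490187038) (nat_lit 15) (nat_lit 5) (nat_lit 17) (nat_lit 5) (nat_lit 16) (nat_lit 4) (nat_lit 374) (nat_lit 246) (nat_lit 160)))) (XT.nd (nat_lit 156) (nat_lit 76) (nat_lit 0) (XT.nd (nat_lit 78) (nat_lit 0) (nat_lit 0) (XT.lf (nat_lit 0) (nat_lit 4715973361) (nat_lit 152) (nat_lit 15762869393) (nat_lit 76) (nat_lit 17998023225) (nat_lit 15) (nat_lit 5) (nat_lit 17) (nat_lit 5) (nat_lit 16) (nat_lit 4) (nat_lit 375) (nat_lit 246) (nat_lit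 159)) (XT.lf (nat_lit 0) (nat_lit 9299844127) (nat_lit 152) (nat_lit 6518665200) (nat_lit 76) (nat_lit 23654205447) (nat_lit 15) (nat_lit 5) (nat_lit 17) (nat_lit 5) (nat_lit 16) (nat_lit 4) (nat_lit 376) (nat_lit 246) (nat_lit 158))) (XT.nd (nat_lit 78) (nat_lit 0) (nat_lit 0) (XT.lf (nat_lit 0) (nat_lit 3024877626) (nat_lit 76) (nat_lit 11005418734) (nat_lit 152) (nat_lit 26467875347) (nat_lit 14) (nat_lit 5) (nat_lit 15) (nat_lit 5) (nat_lit 16) (nat_lit 4) (nat_lit 377) (nat_lit 246) (nat_lit 157)) (XT.lf (nat_lit 0) (nat_lit 12951702116) (nat_lit 76) (nat_lit 5997004704) (nat_lit 152) (nat_lit 22604308685) (nat_lit 14) (nat_lit 5) (nat_lit 15) (nat_lit 5) (nat_lit 16) (nat_lit 4) (nat_lit 378) (nat_lit 246) (nat_lit 156))))) (XT.nd (nat_lit 312) (nat_lit 152) (nat_lit 0) (XT.nd (nat_lit 156) (nat_lit 76) (nat_lit 0) (XT.nd (nat_lit 78) (nat_lit 0) (nat_lit 0) (XT.lf (nat_lit 0) (nat_lit 23140747974)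 (nat_lit 76) (nat_lit 854716691) (nat_lit 152) (nat_lit 18644620468) (nat_lit 14) (nat_lit 5) (nat_lit 15) (nat_lit 5) (nat_lit 16) (nat_lit 4) (nat_lit 379) (nat_lit 246) (nat_lit 155)) (XT.lf (nat_lit 0) (nat_lit 29217524513) (nat_lit 152) (nat_lit 10201957037) (nat_lit 0) (nat_lit 4339572562) (nat_lit 14) (nat_lit 5) (nat_lit 16) (nat_lit 4) (nat_lit 14) (nat_lit 4) (nat_lit 380) (nat_lit 246) (nat_lit 154))) (XT.nd (nat_lit 78) (nat_lit 76) (nat_lit 0) (XT.lf (nat_lit 0) (nat_lit 34586457807) (nat_lit 152) (nat_lit 668057578) (nat_lit 0) (nat_lit 9657374542) (nat_lit 14) (nat_lit 5) (nat_lit 16) (nat_lit 4) (nat_lit 14) (nat_lit 4) (nat_lit 381) (nat_lit 246) (nat_lit 153)) (XT.lf (nat_lit 0) (nat_lit 9300392016) (nat_lit 76) (nat_lit 30887748831) (nat_lit 76) (nat_lit 5909023514) (nat_lit 13) (nat_lit 4) (nat_lit 14) (nat_lit 5) (nat_lit 14) (nat_lit 4) (nat_lit 382) (nat_lit 246) (nat_lit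 152)))) (XT.nd (nat_lit 156) (nat_lit 76) (nat_lit 0) (XT.nd (nat_lit 78) (nat_lit 76) (nat_lit 0) (XT.lf (nat_lit 0) (nat_lit 19548961677) (nat_lit 76) (nat_lit 26398141919) (nat_lit 76) (nat_lit 1371220435) (nat_lit 13) (nat_lit 4) (nat_lit 14) (nat_lit 5) (nat_lit 14) (nat_lit 4) (nat_lit 383) (nat_lit 246) (nat_lit 151)) (XT.lf (nat_lit 0) (nat_lit 3221090106) (nat_lit 152) (nat_lit 18534900963) (nat_lit 76) (nat_lit 26819694009) (nat_lit 12) (nat_lit 5) (nat_lit 14) (nat_lit 5) (nat_lit 13) (nat_lit 4) (nat_lit 384) (nat_lit 246) (nat_lit 150))) (XT.nd (nat_lit 78) (nat_lit 76) (nat_lit 0) (XT.lf (nat_lit 0) (nat_lit 7906931412) (nat_lit 152) (nat_lit 9068072622) (nat_lit 76) (nat_lit 32895859531) (nat_lit 12) (nat_lit 5) (nat_lit 14) (nat_lit 5) (nat_lit 13) (nat_lit 4) (nat_lit 385) (nat_lit 246) (nat_lit 149)) (XT.lf (nat_lit 0) (nat_lit 665563197) (nat_lit 76) (nat_lit 12057989959) (nat_lit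 152) (nat_lit 38481641544) (nat_lit 11) (nat_lit 5) (nat_lit 12) (nat_lit 5) (nat_lit 13) (nat_lit 4) (nat_lit 386) (nat_lit 246) (nat_lit 148))))))))
noncomputable def xc70 : XT := (XT.nd (nat_lit 32916) (nat_lit 0) (nat_lit 5624) (XT.nd (nat_lit 1092) (nat_lit 76) (nat_lit 0) (XT.nd (nat_lit 546) (nat_lit 152) (nat_lit 0) (XT.nd (nat_lit 234) (nat_lit 76) (nat_lit 0) (XT.nd (nat_lit 78) (nat_lit 0) (nat_lit 0) (XT.lf (nat_lit 0) (nat_lit 10847205716) (nat_lit 76) (nat_lit 6913029306) (nat_lit 152) (nat_lit 34817057248) (nat_lit 11) (nat_lit 5) (nat_lit 12) (nat_lit 5) (nat_lit 13) (nat_lit 4) (nat_lit 387) (nat_lit 246) (nat_lit 147)) (XT.nd (nat_lit 78) (nat_lit 0) (nat_lit 0) (XT.lf (nat_lit 0) (nat_lit 21305279089) (nat_lit 76) (nat_lit 1627196234) (nat_lit 152) (nat_lit 31058546956) (nat_lit 11) (nat_lit 5) (nat_lit 12) (nat_lit 5) (nat_lit 13) (nat_lit 4) (nat_lit 388) (nat_lit 246) (nat_lit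 146)) (XT.lf (nat_lit 0) (nat_lit 28281361096) (nat_lit 152) (nat_lit 23435266191) (nat_lit 0) (nat_lit 3729895708) (nat_lit 11) (nat_lit 5) (nat_lit 13) (nat_lit 4) (nat_lit 11) (nat_lit 4) (nat_lit 389) (nat_lit 246) (nat_lit 145)))) (XT.nd (nat_lit 156) (nat_lit 76) (nat_lit 0) (XT.nd (nat_lit 78) (nat_lit 0) (nat_lit 0) (XT.lf (nat_lit 0) (nat_lit 33792052342) (nat_lit 152) (nat_lit 13951058832) (nat_lit 0) (nat_lit 9202540454) (nat_lit 11) (nat_lit 5) (nat_lit 13) (nat_lit 4) (nat_lit 11) (nat_lit 4) (nat_lit 390) (nat_lit 246) (nat_lit 144)) (XT.lf (nat_lit 0) (nat_lit 39453722622) (nat_lit 152) (nat_lit 4209192337) (nat_lit 0) (nat_lit 14827272385) (nat_lit 11) (nat_lit 5) (nat_lit 13) (nat_lit 4) (nat_lit 11) (nat_lit 4) (nat_lit 391) (nat_lit 246) (nat_lit 143))) (XT.nd (nat_lit 78) (nat_lit 0) (nat_lit 0) (XT.lf (nat_lit 0) (nat_lit 5914254001) (nat_lit 76) (nat_lit 39413916454) (nat_lit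 76) (nat_lit 14751603742) (nat_lit 10) (nat_lit 4) (nat_lit 11) (nat_lit 5) (nat_lit 11) (nat_lit 4) (nat_lit 392) (nat_lit 246) (nat_lit 142)) (XT.lf (nat_lit 0) (nat_lit 16401859229) (nat_lit 76) (nat_lit 35005730371) (nat_lit 76) (nat_lit 10308599722) (nat_lit 10) (nat_lit 4) (nat_lit 11) (nat_lit 5) (nat_lit 11) (nat_lit 4) (nat_lit 393) (nat_lit 246) (nat_lit 141))))) (XT.nd (nat_lit 234) (nat_lit 76) (nat_lit 0) (XT.nd (nat_lit 78) (nat_lit 76) (nat_lit 0) (XT.lf (nat_lit 0) (nat_lit 27179016092) (nat_lit 76) (nat_lit 30477009487) (nat_lit 76) (nat_lit 5746075016) (nat_lit 10) (nat_lit 4) (nat_lit 11) (nat_lit 5) (nat_lit 11) (nat_lit 4) (nat_lit 394) (nat_lit 246) (nat_lit 140)) (XT.nd (nat_lit 78) (nat_lit 76) (nat_lit 0) (XT.lf (nat_lit 0) (nat_lit 38255141523) (nat_lit 76) (nat_lit 25823796666) (nat_lit 76) (nat_lit 1060042951) (nat_lit 10) (nat_lit 4) (nat_lit 11) (nat_lit 5) (nat_lit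 11) (nat_lit 4) (nat_lit 395) (nat_lit 246) (nat_lit 139)) (XT.lf (nat_lit 0) (nat_lit 3680344981) (nat_lit 152) (nat_lit 17324516746) (nat_lit 76) (nat_lit 45922404441) (nat_lit 9) (nat_lit 5) (nat_lit 11) (nat_lit 5) (nat_lit 10) (nat_lit 4) (nat_lit 396) (nat_lit 246) (nat_lit 138)))) (XT.nd (nat_lit 156) (nat_lit 0) (nat_lit 0) (XT.nd (nat_lit 78) (nat_lit 76) (nat_lit 0) (XT.lf (nat_lit 0) (nat_lit 8529283647) (nat_lit 152) (nat_lit 7512106542) (nat_lit 76) (nat_lit 52727867765) (nat_lit 9) (nat_lit 5) (nat_lit 11) (nat_lit 5) (nat_lit 10) (nat_lit 4) (nat_lit 397) (nat_lit 246) (nat_lit 137)) (XT.lf (nat_lit 0) (nat_lit 2623345650) (nat_lit 76) (nat_lit 10913566790) (nat_lit 152) (nat_lit 57129202742) (nat_lit 8) (nat_lit 5) (nat_lit 9) (nat_lit 5) (nat_lit 10) (nat_lit 4) (nat_lit 398) (nat_lit 246) (nat_lit 136))) (XT.nd (nat_lit 78) (nat_lit 0) (nat_lit 0) (XT.lf (nat_lit 0) (nat_lit 13194551782)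 (nat_lit 76) (nat_lit 5564215636) (nat_lit 152) (nat_lit 53859193067) (nat_lit 8) (nat_lit 5) (nat_lit 9) (nat_lit 5) (nat_lit 10) (nat_lit 4) (nat_lit 399) (nat_lit 246) (nat_lit 135)) (XT.lf (nat_lit 0) (nat_lit 24061243182) (nat_lit 76) (nat_lit 64520083) (nat_lit 152) (nat_lit 50502945539) (nat_lit 8) (nat_lit 5) (nat_lit 9) (nat_lit 5) (nat_lit 10) (nat_lit 4) (nat_lit 400) (nat_lit 246) (nat_lit 134)))))) (XT.nd (nat_lit 546) (nat_lit 0) (nat_lit 0) (XT.nd (nat_lit 234) (nat_lit 76) (nat_lit 0) (XT.nd (nat_lit 78) (nat_lit 0) (nat_lit 0) (XT.lf (nat_lit 0) (nat_lit 29696327215) (nat_lit 152) (nat_lit 41520939716) (nat_lit 0) (nat_lit 5481238043) (nat_lit 8) (nat_lit 5) (nat_lit 10) (nat_lit 4) (nat_lit 8) (nat_lit 4) (nat_lit 401) (nat_lit 246) (nat_lit 133)) (XT.nd (nat_lit 78) (nat_lit 0) (nat_lit 0) (XT.lf (nat_lit 0) (nat_lit 35423701270) (nat_lit 152) (nat_lit 32224300768) (nat_lit 0)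 (nat_lit 11182704282) (nat_lit 8) (nat_lit 5) (nat_lit 10) (nat_lit 4) (nat_lit 8) (nat_lit 4) (nat_lit 402) (nat_lit 246) (nat_lit 132)) (XT.lf (nat_lit 0) (nat_lit 41312269722) (nat_lit 152) (nat_lit 22668805296) (nat_lit 0) (nat_lit 17046119517) (nat_lit 8) (nat_lit 5) (nat_lit 10) (nat_lit 4) (nat_lit 8) (nat_lit 4) (nat_lit 403) (nat_lit 246) (nat_lit 131)))) (XT.nd (nat_lit 156) (nat_lit 76) (nat_lit 0) (XT.nd (nat_lit 78) (nat_lit 0) (nat_lit 0) (XT.lf (nat_lit 0) (nat_lit 47367177925) (nat_lit 152) (nat_lit 12846103838) (nat_lit 0) (nat_lit 23076607119) (nat_lit 8) (nat_lit 5) (nat_lit 10) (nat_lit 4) (nat_lit 8) (nat_lit 4) (nat_lit 404) (nat_lit 246) (nat_lit 130)) (XT.lf (nat_lit 0) (nat_lit 53593716574) (nat_lit 152) (nat_lit 2747613451) (nat_lit 0) (nat_lit 29279436448) (nat_lit 8) (nat_lit 5) (nat_lit 10) (nat_lit 4) (nat_lit 8) (nat_lit 4) (nat_lit 405) (nat_lit 246) (nat_lit 129)))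 (XT.nd (nat_lit 78) (nat_lit 0) (nat_lit 0) (XT.lf (nat_lit 0) (nat_lit 7787451007) (nat_lit 76) (nat_lit 52284733071) (nat_lit 76) (nat_lit 27947434186) (nat_lit 7) (nat_lit 4) (nat_lit 8) (nat_lit 5) (nat_lit 8) (nat_lit 4) (nat_lit 406) (nat_lit 246) (nat_lit 128)) (XT.lf (nat_lit 0) (nat_lit 18676728744) (nat_lit 76) (nat_lit 48086405991) (nat_lit 76) (nat_lit 23726758797) (nat_lit 7) (nat_lit 4) (nat_lit 8) (nat_lit 5) (nat_lit 8) (nat_lit 4) (nat_lit 407) (nat_lit 246) (nat_lit 127))))) (XT.nd (nat_lit 234) (nat_lit 0) (nat_lit 0) (XT.nd (nat_lit 78) (nat_lit 0) (nat_lit 0) (XT.lf (nat_lit 0) (nat_lit 29875051769) (nat_lit 76) (nat_lit 43770425854) (nat_lit 76) (nat_lit 19389081273) (nat_lit 7) (nat_lit 4) (nat_lit 8) (nat_lit 5) (nat_lit 8) (nat_lit 4) (nat_lit 408) (nat_lit 246) (nat_lit 126)) (XT.nd (nat_lit 78) (nat_lit 0) (nat_lit 0) (XT.lf (nat_lit 0) (nat_lit 41392205023) (nat_lit 76)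 (nat_lit 39333021414) (nat_lit 76) (nat_lit 14930611409) (nat_lit 7) (nat_lit 4) (nat_lit 8) (nat_lit 5) (nat_lit 8) (nat_lit 4) (nat_lit 409) (nat_lit 246) (nat_lit 125)) (XT.lf (nat_lit 0) (nat_lit 53238252038) (nat_lit 76) (nat_lit 34770315329) (nat_lit 76) (nat_lit 10347453456) (nat_lit 7) (nat_lit 4) (nat_lit 8) (nat_lit 5) (nat_lit 8) (nat_lit 4) (nat_lit 410) (nat_lit 246) (nat_lit 124)))) (XT.nd (nat_lit 30888) (nat_lit 0) (nat_lit 14136) (XT.nd (nat_lit 78) (nat_lit 0) (nat_lit 0) (XT.lf (nat_lit 0) (nat_lit 65423543729) (nat_lit 76) (nat_lit 30078320767) (nat_lit 76) (nat_lit 5635602711) (nat_lit 7) (nat_lit 4) (nat_lit 8) (nat_lit 5) (nat_lit 8) (nat_lit 4) (nat_lit 411) (nat_lit 246) (nat_lit 123)) (XT.lf (nat_lit 0) (nat_lit 77958727439) (nat_lit 76) (nat_lit 25252937928) (nat_lit 76) (nat_lit 790942024) (nat_lit 7) (nat_lit 4) (nat_lit 8) (nat_lit 5) (nat_lit 8) (nat_lit 4) (nat_lit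 412) (nat_lit 246) (nat_lit 122))) (XT.nd (nat_lit 78) (nat_lit 836) (nat_lit 0) (XT.lf (nat_lit 0) (nat_lit 1167672321) (nat_lit 1140) (nat_lit 1218392297) (nat_lit 1140) (nat_lit 1218392297) (nat_lit 204) (nat_lit 4) (nat_lit 219) (nat_lit 5) (nat_lit 219) (nat_lit 4) (nat_lit 286) (nat_lit 247) (nat_lit 247)) (XT.lf (nat_lit 0) (nat_lit 100867144) (nat_lit 760) (nat_lit 748924670) (nat_lit 836) (nat_lit 6421686942) (nat_lit 193) (nat_lit 5) (nat_lit 203) (nat_lit 5) (nat_lit 204) (nat_lit 4) (nat_lit 287) (nat_lit 247) (nat_lit 246))))))) (XT.nd (nat_lit 1092) (nat_lit 3648) (nat_lit 0) (XT.nd (nat_lit 546) (nat_lit 2432) (nat_lit 0) (XT.nd (nat_lit 234) (nat_lit 1216) (nat_lit 0) (XT.nd (nat_lit 78) (nat_lit 1216) (nat_lit 0) (XT.lf (nat_lit 0) (nat_lit 4148560433) (nat_lit 836) (nat_lit 2147199134) (nat_lit 0) (nat_lit 1040683360) (nat_lit 193) (nat_lit 5) (nat_lit 204) (nat_lit 4) (nat_lit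 193) (nat_lit 4) (nat_lit 288) (nat_lit 247) (nat_lit 245)) (XT.nd (nat_lit 78) (nat_lit 532) (nat_lit 0) (XT.lf (nat_lit 0) (nat_lit 81667931) (nat_lit 684) (nat_lit 4428473627) (nat_lit 76) (nat_lit 2895043796) (nat_lit 184) (nat_lit 5) (nat_lit 193) (nat_lit 5) (nat_lit 185) (nat_lit 4) (nat_lit 289) (nat_lit 247) (nat_lit 244)) (XT.lf (nat_lit 0) (nat_lit 703923300) (nat_lit 532) (nat_lit 2616900634) (nat_lit 608) (nat_lit 4156264246) (nat_lit 177) (nat_lit 5) (nat_lit 184) (nat_lit 5) (nat_lit 185) (nat_lit 4) (nat_lit 290) (nat_lit 247) (nat_lit 243)))) (XT.nd (nat_lit 156) (nat_lit 608) (nat_lit 0) (XT.nd (nat_lit 78) (nat_lit 608) (nat_lit 0) (XT.lf (nat_lit 0) (nat_lit 5981011476) (nat_lit 532) (nat_lit 629539649) (nat_lit 608) (nat_lit 942104583) (nat_lit 177) (nat_lit 5) (nat_lit 184) (nat_lit 5) (nat_lit 185) (nat_lit 4) (nat_lit 291) (nat_lit 247) (nat_lit 242)) (XT.lf (nat_lit 0) (nat_lit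 2282656610) (nat_lit 608) (nat_lit 3908593309) (nat_lit 76) (nat_lit 1439848719) (nat_lit 169) (nat_lit 5) (nat_lit 177) (nat_lit 5) (nat_lit 170) (nat_lit 4) (nat_lit 292) (nat_lit 247) (nat_lit 241))) (XT.nd (nat_lit 78) (nat_lit 76) (nat_lit 0) (XT.lf (nat_lit 0) (nat_lit 1407317034) (nat_lit 532) (nat_lit 4125623765) (nat_lit 608) (nat_lit 2180342975) (nat_lit 162) (nat_lit 5) (nat_lit 169) (nat_lit 5) (nat_lit 170) (nat_lit 4) (nat_lit 293) (nat_lit 247) (nat_lit 240)) (XT.lf (nat_lit 0) (nat_lit 1014111655) (nat_lit 608) (nat_lit 946274264) (nat_lit 76) (nat_lit 5838757496) (nat_lit 161) (nat_lit 5) (nat_lit 169) (nat_lit 5) (nat_lit 162) (nat_lit 5) (nat_lit 294) (nat_lit 247) (nat_lit 239))))) (XT.nd (nat_lit 234) (nat_lit 1368) (nat_lit 0) (XT.nd (nat_lit 78) (nat_lit 532) (nat_lit 0) (XT.lf (nat_lit 0) (nat_lit 4222480036) (nat_lit 608) (nat_lit 3348695283) (nat_lit 76) (nat_lit 316990528)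 (nat_lit 154) (nat_lit 5) (nat_lit 162) (nat_lit 5) (nat_lit 155) (nat_lit 4) (nat_lit 295) (nat_lit 247) (nat_lit 238)) (XT.nd (nat_lit 78) (nat_lit 76) (nat_lit 0) (XT.lf (nat_lit 0) (nat_lit 2152023505) (nat_lit 456) (nat_lit 5341346763) (nat_lit 532) (nat_lit 487589601) (nat_lit 148) (nat_lit 5) (nat_lit 154) (nat_lit 5) (nat_lit 155) (nat_lit 4) (nat_lit 296) (nat_lit 247) (nat_lit 237)) (XT.lf (nat_lit 0) (nat_lit 2682744074) (nat_lit 532) (nat_lit 317060030) (nat_lit 76) (nat_lit 5077476465) (nat_lit 147) (nat_lit 5) (nat_lit 154) (nat_lit 5) (nat_lit 148) (nat_lit 5) (nat_lit 297) (nat_lit 247) (nat_lit 236)))) (XT.nd (nat_lit 156) (nat_lit 456) (nat_lit 0) (XT.nd (nat_lit 78) (nat_lit 456) (nat_lit 0) (XT.lf (nat_lit 0) (nat_lit 5362083877) (nat_lit 456) (nat_lit 547368296) (nat_lit 532) (nat_lit 2267843438) (nat_lit 141) (nat_lit 5) (nat_lit 147) (nat_lit 5) (nat_lit 148) (nat_lit 5) (nat_lit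 298) (nat_lit 247) (nat_lit 235)) (XT.lf (nat_lit 0) (nat_lit 904350660) (nat_lit 456) (nat_lit 5414400100) (nat_lit 76) (nat_lit 1962253733) (nat_lit 135) (nat_lit 5) (nat_lit 141) (nat_lit 5) (nat_lit 136) (nat_lit 5) (nat_lit 299) (nat_lit 247) (nat_lit 234))) (XT.nd (nat_lit 78) (nat_lit 0) (nat_lit 0) (XT.lf (nat_lit 0) (nat_lit 266780415) (nat_lit 456) (nat_lit 3817320851) (nat_lit 532) (nat_lit 4304385168) (nat_lit 129) (nat_lit 5) (nat_lit 135) (nat_lit 5) (nat_lit 136) (nat_lit 5) (nat_lit 300) (nat_lit 247) (nat_lit 233)) (XT.lf (nat_lit 0) (nat_lit 6130482615) (nat_lit 456) (nat_lit 1206057298) (nat_lit 532) (nat_lit 1163406454) (nat_lit 129) (nat_lit 5) (nat_lit 135) (nat_lit 5) (nat_lit 136) (nat_lit 5) (nat_lit 301) (nat_lit 247) (nat_lit 232)))))) (XT.nd (nat_lit 546) (nat_lit 1596) (nat_lit 0) (XT.nd (nat_lit 234) (nat_lit 1216) (nat_lit 0) (XT.nd (nat_lit 78) (nat_lit 380) (nat_lit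 0) (XT.lf (nat_lit 0) (nat_lit 2003722603) (nat_lit 456) (nat_lit 5123823900) (nat_lit 76) (nat_lit 1487503895) (nat_lit 123) (nat_lit 5) (nat_lit 129) (nat_lit 5) (nat_lit 124) (nat_lit 5) (nat_lit 302) (nat_lit 247) (nat_lit 231)) (XT.nd (nat_lit 78) (nat_lit 0) (nat_lit 0) (XT.lf (nat_lit 0) (nat_lit 735331269) (nat_lit 380) (nat_lit 4475457520) (nat_lit 456) (nat_lit 3523490253) (nat_lit 118) (nat_lit 5) (nat_lit 123) (nat_lit 5) (nat_lit 124) (nat_lit 5) (nat_lit 303) (nat_lit 247) (nat_lit 230)) (XT.lf (nat_lit 0) (nat_lit 6777522349) (nat_lit 380) (nat_lit 1714659053) (nat_lit 456) (nat_lit 365624037) (nat_lit 118) (nat_lit 5) (nat_lit 123) (nat_lit 5) (nat_lit 124) (nat_lit 5) (nat_lit 304) (nat_lit 247) (nat_lit 229)))) (XT.nd (nat_lit 156) (nat_lit 380) (nat_lit 0) (XT.nd (nat_lit 78) (nat_lit 380) (nat_lit 0) (XT.lf (nat_lit 0) (nat_lit 2807819208) (nat_lit 456) (nat_lit 5027340076) (nat_lit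 76) (nat_lit 1149791143) (nat_lit 112) (nat_lit 5) (nat_lit 118) (nat_lit 5) (nat_lit 113) (nat_lit 5) (nat_lit 305) (nat_lit 247) (nat_lit 228)) (XT.lf (nat_lit 0) (nat_lit 1005384897) (nat_lit 380) (nat_lit 5040289401) (nat_lit 456) (nat_lit 3070889015) (nat_lit 107) (nat_lit 5) (nat_lit 112) (nat_lit 5) (nat_lit 113) (nat_lit 5) (nat_lit 306) (nat_lit 247) (nat_lit 227))) (XT.nd (nat_lit 78) (nat_lit 304) (nat_lit 0) (XT.lf (nat_lit 0) (nat_lit 106401010) (nat_lit 456) (nat_lit 2028137718) (nat_lit 76) (nat_lit 7118193213) (nat_lit 106) (nat_lit 5) (nat_lit 112) (nat_lit 5) (nat_lit 107) (nat_lit 5) (nat_lit 307) (nat_lit 247) (nat_lit 226)) (XT.lf (nat_lit 0) (nat_lit 3297464694) (nat_lit 380) (nat_lit 5207950209) (nat_lit 76) (nat_lit 887307147) (nat_lit 102) (nat_lit 5) (nat_lit 107) (nat_lit 5) (nat_lit 103) (nat_lit 5) (nat_lit 308) (nat_lit 247) (nat_lit 225))))) (XT.nd (nat_lit 312) (nat_lit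 608) (nat_lit 0) (XT.nd (nat_lit 156) (nat_lit 608) (nat_lit 0) (XT.nd (nat_lit 78) (nat_lit 76) (nat_lit 0) (XT.lf (nat_lit 0) (nat_lit 991363986) (nat_lit 304) (nat_lit 5576253683) (nat_lit 380) (nat_lit 2969845776) (nat_lit 98) (nat_lit 5) (nat_lit 102) (nat_lit 5) (nat_lit 103) (nat_lit 5) (nat_lit 309) (nat_lit 247) (nat_lit 224)) (XT.lf (nat_lit 0) (nat_lit 229938599) (nat_lit 380) (nat_lit 2300915915) (nat_lit 76) (nat_lit 7156105694) (nat_lit 97) (nat_lit 5) (nat_lit 102) (nat_lit 5) (nat_lit 98) (nat_lit 5) (nat_lit 310) (nat_lit 247) (nat_lit 223))) (XT.nd (nat_lit 78) (nat_lit 304) (nat_lit 0) (XT.lf (nat_lit 0) (nat_lit 3445896007) (nat_lit 380) (nat_lit 5758772457) (nat_lit 76) (nat_lit 636043028) (nat_lit 93) (nat_lit 5) (nat_lit 98) (nat_lit 5) (nat_lit 94) (nat_lit 5) (nat_lit 311) (nat_lit 247) (nat_lit 222)) (XT.lf (nat_lit 0) (nat_lit 596995922) (nat_lit 304) (nat_lit 6150684022)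 (nat_lit 380) (nat_lit 3251761408) (nat_lit 89) (nat_lit 5) (nat_lit 93) (nat_lit 5) (nat_lit 94) (nat_lit 5) (nat_lit 312) (nat_lit 247) (nat_lit 221)))) (XT.nd (nat_lit 156) (nat_lit 304) (nat_lit 0) (XT.nd (nat_lit 78) (nat_lit 304) (nat_lit 0) (XT.lf (nat_lit 0) (nat_lit 7167978874) (nat_lit 304) (nat_lit 2974769036) (nat_lit 380) (nat_lit 20403398) (nat_lit 89) (nat_lit 5) (nat_lit 93) (nat_lit 5) (nat_lit 94) (nat_lit 5) (nat_lit 313) (nat_lit 247) (nat_lit 220)) (XT.lf (nat_lit 0) (nat_lit 3217970889) (nat_lit 304) (nat_lit 6785224823) (nat_lit 76) (nat_lit 328426717) (nat_lit 85) (nat_lit 5) (nat_lit 89) (nat_lit 5) (nat_lit 86) (nat_lit 5) (nat_lit 314) (nat_lit 247) (nat_lit 219))) (XT.nd (nat_lit 78) (nat_lit 304) (nat_lit 0) (XT.lf (nat_lit 0) (nat_lit 6551034558) (nat_lit 304) (nat_lit 281365926) (nat_lit 76) (nat_lit 3672843981) (nat_lit 85) (nat_lit 5) (nat_lit 89) (nat_lit 5) (nat_lit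 86) (nat_lit 5) (nat_lit 315) (nat_lit 247) (nat_lit 218)) (XT.lf (nat_lit 0) (nat_lit 6453457564) (nat_lit 304) (nat_lit 3532424686) (nat_lit 380) (nat_lit 698179236) (nat_lit 81) (nat_lit 5) (nat_lit 85) (nat_lit 5) (nat_lit 86) (nat_lit 5) (nat_lit 316) (nat_lit 247) (nat_lit 217))))))))
noncomputable def xc71 : XT := (XT.nd (nat_lit 2184) (nat_lit 1368) (nat_lit 0) (XT.nd (nat_lit 1092) (nat_lit 1444) (nat_lit 0) (XT.nd (nat_lit 546) (nat_lit 988) (nat_lit 0) (XT.nd (nat_lit 234) (nat_lit 532) (nat_lit 0) (XT.nd (nat_lit 78) (nat_lit 228) (nat_lit 0) (XT.lf (nat_lit 0) (nat_lit 2459953984) (nat_lit 228) (nat_lit 110304328) (nat_lit 304) (nat_lit 8298260340) (nat_lit 77) (nat_lit 5) (nat_lit 80) (nat_lit 5) (nat_lit 81) (nat_lit 5) (nat_lit 317) (nat_lit 247) (nat_lit 216)) (XT.nd (nat_lit 78) (nat_lit 228) (nat_lit 0) (XT.lf (nat_lit 0) (nat_lit 5939304334) (nat_lit 304) (nat_lit 1750493201)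 (nat_lit 76) (nat_lit 3368043662) (nat_lit 77) (nat_lit 5) (nat_lit 81) (nat_lit 5) (nat_lit 78) (nat_lit 5) (nat_lit 318) (nat_lit 247) (nat_lit 215)) (XT.lf (nat_lit 0) (nat_lit 5117685541) (nat_lit 228) (nat_lit 4284374297) (nat_lit 304) (nat_lit 1851040054) (nat_lit 74) (nat_lit 5) (nat_lit 77) (nat_lit 5) (nat_lit 78) (nat_lit 5) (nat_lit 319) (nat_lit 247) (nat_lit 214)))) (XT.nd (nat_lit 156) (nat_lit 228) (nat_lit 0) (XT.nd (nat_lit 78) (nat_lit 0) (nat_lit 0) (XT.lf (nat_lit 0) (nat_lit 684004673) (nat_lit 228) (nat_lit 767943485) (nat_lit 304) (nat_lit 10002854431) (nat_lit 70) (nat_lit 5) (nat_lit 73) (nat_lit 5) (nat_lit 74) (nat_lit 5) (nat_lit 320) (nat_lit 247) (nat_lit 213)) (XT.lf (nat_lit 0) (nat_lit 4849945140) (nat_lit 304) (nat_lit 3962572426) (nat_lit 76) (nat_lit 2848527886) (nat_lit 70) (nat_lit 5) (nat_lit 74) (nat_lit 5) (nat_lit 71) (nat_lit 5) (nat_lit 321) (nat_lit 247)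 (nat_lit 212))) (XT.nd (nat_lit 78) (nat_lit 0) (nat_lit 0) (XT.lf (nat_lit 0) (nat_lit 3014443128) (nat_lit 228) (nat_lit 5316795586) (nat_lit 304) (nat_lit 3542827830) (nat_lit 67) (nat_lit 5) (nat_lit 70) (nat_lit 5) (nat_lit 71) (nat_lit 5) (nat_lit 322) (nat_lit 247) (nat_lit 211)) (XT.lf (nat_lit 0) (nat_lit 10196171821) (nat_lit 228) (nat_lit 1706373534) (nat_lit 304) (nat_lit 191396408) (nat_lit 67) (nat_lit 5) (nat_lit 70) (nat_lit 5) (nat_lit 71) (nat_lit 5) (nat_lit 323) (nat_lit 247) (nat_lit 210))))) (XT.nd (nat_lit 234) (nat_lit 456) (nat_lit 0) (XT.nd (nat_lit 78) (nat_lit 228) (nat_lit 0) (XT.lf (nat_lit 0) (nat_lit 3213962898) (nat_lit 304) (nat_lit 7079627999) (nat_lit 76) (nat_lit 2025400704) (nat_lit 63) (nat_lit 5) (nat_lit 67) (nat_lit 5) (nat_lit 64) (nat_lit 5) (nat_lit 324) (nat_lit 247) (nat_lit 209)) (XT.nd (nat_lit 78) (nat_lit 228) (nat_lit 0) (XT.lf (nat_lit 0) (nat_lit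 6700932152) (nat_lit 304) (nat_lit 24584990) (nat_lit 76) (nat_lit 5825748174) (nat_lit 63) (nat_lit 5) (nat_lit 67) (nat_lit 5) (nat_lit 64) (nat_lit 5) (nat_lit 325) (nat_lit 247) (nat_lit 208)) (XT.lf (nat_lit 0) (nat_lit 7302172841) (nat_lit 228) (nat_lit 3009120657) (nat_lit 304) (nat_lit 2478677552) (nat_lit 60) (nat_lit 5) (nat_lit 63) (nat_lit 5) (nat_lit 64) (nat_lit 5) (nat_lit 326) (nat_lit 247) (nat_lit 207)))) (XT.nd (nat_lit 156) (nat_lit 228) (nat_lit 0) (XT.nd (nat_lit 78) (nat_lit 0) (nat_lit 0) (XT.lf (nat_lit 0) (nat_lit 948461143) (nat_lit 228) (nat_lit 11288994533) (nat_lit 76) (nat_lit 798909351) (nat_lit 57) (nat_lit 5) (nat_lit 60) (nat_lit 5) (nat_lit 58) (nat_lit 5) (nat_lit 327) (nat_lit 247) (nat_lit 206)) (XT.lf (nat_lit 0) (nat_lit 4463531848) (nat_lit 228) (nat_lit 4114377083) (nat_lit 76) (nat_lit 4710482527) (nat_lit 57) (nat_lit 5) (nat_lit 60) (nat_lit 5) (nat_lit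 58) (nat_lit 5) (nat_lit 328) (nat_lit 247) (nat_lit 205))) (XT.nd (nat_lit 78) (nat_lit 0) (nat_lit 0) (XT.lf (nat_lit 0) (nat_lit 3258387816) (nat_lit 228) (nat_lit 4807647567) (nat_lit 304) (nat_lit 5482508130) (nat_lit 54) (nat_lit 5) (nat_lit 57) (nat_lit 5) (nat_lit 58) (nat_lit 5) (nat_lit 329) (nat_lit 247) (nat_lit 204)) (XT.lf (nat_lit 0) (nat_lit 10856793325) (nat_lit 228) (nat_lit 912696162) (nat_lit 304) (nat_lit 2047247925) (nat_lit 54) (nat_lit 5) (nat_lit 57) (nat_lit 5) (nat_lit 58) (nat_lit 5) (nat_lit 330) (nat_lit 247) (nat_lit 203)))))) (XT.nd (nat_lit 546) (nat_lit 608) (nat_lit 0) (XT.nd (nat_lit 234) (nat_lit 380) (nat_lit 0) (XT.nd (nat_lit 78) (nat_lit 228) (nat_lit 0) (XT.lf (nat_lit 0) (nat_lit 1488393921) (nat_lit 228) (nat_lit 9535934569) (nat_lit 76) (nat_lit 3067448242) (nat_lit 51) (nat_lit 5) (nat_lit 54) (nat_lit 5) (nat_lit 52) (nat_lit 5) (nat_lit 331) (nat_lit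 247) (nat_lit 202)) (XT.nd (nat_lit 78) (nat_lit 228) (nat_lit 0) (XT.lf (nat_lit 0) (nat_lit 5080783644) (nat_lit 228) (nat_lit 2124893639) (nat_lit 76) (nat_lit 7169048614) (nat_lit 51) (nat_lit 5) (nat_lit 54) (nat_lit 5) (nat_lit 52) (nat_lit 5) (nat_lit 332) (nat_lit 247) (nat_lit 201)) (XT.lf (nat_lit 0) (nat_lit 5539982820) (nat_lit 228) (nat_lit 3248200516) (nat_lit 304) (nat_lit 5877783971) (nat_lit 48) (nat_lit 5) (nat_lit 51) (nat_lit 5) (nat_lit 52) (nat_lit 5) (nat_lit 333) (nat_lit 247) (nat_lit 200)))) (XT.nd (nat_lit 156) (nat_lit 152) (nat_lit 0) (XT.nd (nat_lit 78) (nat_lit 228) (nat_lit 0) (XT.lf (nat_lit 0) (nat_lit 12590737034) (nat_lit 304) (nat_lit 1572049638) (nat_lit 76) (nat_lit 803661641) (nat_lit 48) (nat_lit 5) (nat_lit 52) (nat_lit 5) (nat_lit 49) (nat_lit 4) (nat_lit 334) (nat_lit 247) (nat_lit 199)) (XT.lf (nat_lit 0) (nat_lit 1255460656) (nat_lit 228) (nat_lit 9063764482)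 (nat_lit 76) (nat_lit 4954940641) (nat_lit 45) (nat_lit 5) (nat_lit 48) (nat_lit 5) (nat_lit 46) (nat_lit 5) (nat_lit 335) (nat_lit 247) (nat_lit 198))) (XT.nd (nat_lit 78) (nat_lit 152) (nat_lit 0) (XT.lf (nat_lit 0) (nat_lit 4919613055) (nat_lit 228) (nat_lit 1430631566) (nat_lit 76) (nat_lit 9241029238) (nat_lit 45) (nat_lit 5) (nat_lit 48) (nat_lit 5) (nat_lit 46) (nat_lit 5) (nat_lit 336) (nat_lit 247) (nat_lit 197)) (XT.lf (nat_lit 0) (nat_lit 6485363473) (nat_lit 152) (nat_lit 2227719247) (nat_lit 228) (nat_lit 7204248727) (nat_lit 43) (nat_lit 5) (nat_lit 45) (nat_lit 5) (nat_lit 46) (nat_lit 5) (nat_lit 337) (nat_lit 247) (nat_lit 196))))) (XT.nd (nat_lit 234) (nat_lit 380) (nat_lit 0) (XT.nd (nat_lit 78) (nat_lit 228) (nat_lit 0) (XT.lf (nat_lit 0) (nat_lit 12611675104) (nat_lit 228) (nat_lit 1677095283) (nat_lit 76) (nat_lit 1964678336) (nat_lit 43) (nat_lit 5) (nat_lit 46) (nat_lit 5)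 (nat_lit 44) (nat_lit 4) (nat_lit 338) (nat_lit 247) (nat_lit 195)) (XT.nd (nat_lit 78) (nat_lit 0) (nat_lit 0) (XT.lf (nat_lit 0) (nat_lit 69014388) (nat_lit 228) (nat_lit 10257839343) (nat_lit 76) (nat_lit 6271545046) (nat_lit 40) (nat_lit 5) (nat_lit 43) (nat_lit 5) (nat_lit 41) (nat_lit 5) (nat_lit 339) (nat_lit 247) (nat_lit 194)) (XT.lf (nat_lit 0) (nat_lit 3793713315) (nat_lit 228) (nat_lit 2427286635) (nat_lit 76) (nat_lit 10732358202) (nat_lit 40) (nat_lit 5) (nat_lit 43) (nat_lit 5) (nat_lit 41) (nat_lit 5) (nat_lit 340) (nat_lit 247) (nat_lit 193)))) (XT.nd (nat_lit 156) (nat_lit 228) (nat_lit 0) (XT.nd (nat_lit 78) (nat_lit 0) (nat_lit 0) (XT.lf (nat_lit 0) (nat_lit 5680094450) (nat_lit 152) (nat_lit 1964543063) (nat_lit 228) (nat_lit 9673909834) (nat_lit 38) (nat_lit 5) (nat_lit 40) (nat_lit 5) (nat_lit 41) (nat_lit 5) (nat_lit 341) (nat_lit 247) (nat_lit 192)) (XT.lf (nat_lit 0) (nat_lit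 11619222442) (nat_lit 228) (nat_lit 3706183756) (nat_lit 76) (nat_lit 2369057142) (nat_lit 38) (nat_lit 5) (nat_lit 41) (nat_lit 5) (nat_lit 39) (nat_lit 4) (nat_lit 342) (nat_lit 247) (nat_lit 191))) (XT.nd (nat_lit 78) (nat_lit 76) (nat_lit 0) (XT.lf (nat_lit 0) (nat_lit 4464557674) (nat_lit 152) (nat_lit 11272136496) (nat_lit 228) (nat_lit 2344267838) (nat_lit 36) (nat_lit 5) (nat_lit 38) (nat_lit 5) (nat_lit 39) (nat_lit 4) (nat_lit 343) (nat_lit 247) (nat_lit 190)) (XT.lf (nat_lit 0) (nat_lit 1468564593) (nat_lit 228) (nat_lit 5603603207) (nat_lit 76) (nat_lit 11406494276) (nat_lit 35) (nat_lit 5) (nat_lit 38) (nat_lit 5) (nat_lit 36) (nat_lit 5) (nat_lit 344) (nat_lit 247) (nat_lit 189))))))) (XT.nd (nat_lit 1092) (nat_lit 532) (nat_lit 0) (XT.nd (nat_lit 546) (nat_lit 380) (nat_lit 0) (XT.nd (nat_lit 234) (nat_lit 228) (nat_lit 0) (XT.nd (nat_lit 78) (nat_lit 76) (nat_lit 0) (XT.lf (nat_lit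 0) (nat_lit 2612012542) (nat_lit 152) (nat_lit 2724263364) (nat_lit 228) (nat_lit 13551706011) (nat_lit 33) (nat_lit 5) (nat_lit 35) (nat_lit 5) (nat_lit 36) (nat_lit 5) (nat_lit 345) (nat_lit 247) (nat_lit 188)) (XT.nd (nat_lit 78) (nat_lit 76) (nat_lit 0) (XT.lf (nat_lit 0) (nat_lit 9356733014) (nat_lit 228) (nat_lit 8201886247) (nat_lit 76) (nat_lit 1749873693) (nat_lit 33) (nat_lit 5) (nat_lit 36) (nat_lit 5) (nat_lit 34) (nat_lit 4) (nat_lit 346) (nat_lit 247) (nat_lit 187)) (XT.lf (nat_lit 0) (nat_lit 24283366) (nat_lit 76) (nat_lit 13464520517) (nat_lit 152) (nat_lit 6253098096) (nat_lit 32) (nat_lit 5) (nat_lit 33) (nat_lit 5) (nat_lit 34) (nat_lit 4) (nat_lit 347) (nat_lit 247) (nat_lit 186)))) (XT.nd (nat_lit 156) (nat_lit 152) (nat_lit 0) (XT.nd (nat_lit 78) (nat_lit 76) (nat_lit 0) (XT.lf (nat_lit 0) (nat_lit 8602355627) (nat_lit 76) (nat_lit 9189546769) (nat_lit 152) (nat_lit 2395011202)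 (nat_lit 32) (nat_lit 5) (nat_lit 33) (nat_lit 5) (nat_lit 34) (nat_lit 4) (nat_lit 348) (nat_lit 247) (nat_lit 185)) (XT.lf (nat_lit 0) (nat_lit 1512938472) (nat_lit 152) (nat_lit 3284569387) (nat_lit 76) (nat_lit 15848376134) (nat_lit 31) (nat_lit 5) (nat_lit 33) (nat_lit 5) (nat_lit 32) (nat_lit 5) (nat_lit 349) (nat_lit 247) (nat_lit 184))) (XT.nd (nat_lit 78) (nat_lit 0) (nat_lit 0) (XT.lf (nat_lit 0) (nat_lit 5283725624) (nat_lit 152) (nat_lit 223004166) (nat_lit 228) (nat_lit 15610691351) (nat_lit 29) (nat_lit 5) (nat_lit 31) (nat_lit 5) (nat_lit 32) (nat_lit 5) (nat_lit 350) (nat_lit 247) (nat_lit 183)) (XT.lf (nat_lit 0) (nat_lit 9663100719) (nat_lit 228) (nat_lit 7529453174) (nat_lit 76) (nat_lit 4409278453) (nat_lit 29) (nat_lit 5) (nat_lit 32) (nat_lit 5) (nat_lit 30) (nat_lit 4) (nat_lit 351) (nat_lit 247) (nat_lit 182))))) (XT.nd (nat_lit 234) (nat_lit 304) (nat_lit 0) (XT.nd (nat_lit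 78) (nat_lit 0) (nat_lit 0) (XT.lf (nat_lit 0) (nat_lit 982366448) (nat_lit 76) (nat_lit 12940555457) (nat_lit 152) (nat_lit 8178501808) (nat_lit 28) (nat_lit 5) (nat_lit 29) (nat_lit 5) (nat_lit 30) (nat_lit 4) (nat_lit 352) (nat_lit 247) (nat_lit 181)) (XT.nd (nat_lit 78) (nat_lit 0) (nat_lit 0) (XT.lf (nat_lit 0) (nat_lit 9845949173) (nat_lit 76) (nat_lit 8508130412) (nat_lit 152) (nat_lit 4260627272) (nat_lit 28) (nat_lit 5) (nat_lit 29) (nat_lit 5) (nat_lit 30) (nat_lit 4) (nat_lit 353) (nat_lit 247) (nat_lit 180)) (XT.lf (nat_lit 0) (nat_lit 18919188997) (nat_lit 76) (nat_lit 3967438479) (nat_lit 152) (nat_lit 257717347) (nat_lit 28) (nat_lit 5) (nat_lit 29) (nat_lit 5) (nat_lit 30) (nat_lit 4) (nat_lit 354) (nat_lit 247) (nat_lit 179)))) (XT.nd (nat_lit 156) (nat_lit 76) (nat_lit 0) (XT.nd (nat_lit 78) (nat_lit 0) (nat_lit 0) (XT.lf (nat_lit 0) (nat_lit 3810249875) (nat_lit 228) (nat_lit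 19124196538) (nat_lit 76) (nat_lit 753708404) (nat_lit 25) (nat_lit 5) (nat_lit 28) (nat_lit 5) (nat_lit 26) (nat_lit 4) (nat_lit 355) (nat_lit 247) (nat_lit 178)) (XT.lf (nat_lit 0) (nat_lit 8046650936) (nat_lit 228) (nat_lit 10641287132) (nat_lit 76) (nat_lit 5558726395) (nat_lit 25) (nat_lit 5) (nat_lit 28) (nat_lit 5) (nat_lit 26) (nat_lit 4) (nat_lit 356) (nat_lit 247) (nat_lit 177))) (XT.nd (nat_lit 78) (nat_lit 76) (nat_lit 0) (XT.lf (nat_lit 0) (nat_lit 12380245866) (nat_lit 228) (nat_lit 1957666850) (nat_lit 76) (nat_lit 10484922506) (nat_lit 25) (nat_lit 5) (nat_lit 28) (nat_lit 5) (nat_lit 26) (nat_lit 4) (nat_lit 357) (nat_lit 247) (nat_lit 176)) (XT.lf (nat_lit 0) (nat_lit 7072257148) (nat_lit 76) (nat_lit 9810547015) (nat_lit 152) (nat_lit 8532326894) (nat_lit 24) (nat_lit 5) (nat_lit 25) (nat_lit 5) (nat_lit 26) (nat_lit 4) (nat_lit 358) (nat_lit 247) (nat_lit 175)))))) (XT.nd (nat_lit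 546) (nat_lit 228) (nat_lit 0) (XT.nd (nat_lit 234) (nat_lit 76) (nat_lit 0) (XT.nd (nat_lit 78) (nat_lit 228) (nat_lit 0) (XT.lf (nat_lit 0) (nat_lit 16361510879) (nat_lit 76) (nat_lit 5150018086) (nat_lit 152) (nat_lit 4513942477) (nat_lit 24) (nat_lit 5) (nat_lit 25) (nat_lit 5) (nat_lit 26) (nat_lit 4) (nat_lit 359) (nat_lit 247) (nat_lit 174)) (XT.nd (nat_lit 78) (nat_lit 228) (nat_lit 0) (XT.lf (nat_lit 0) (nat_lit 25879249758) (nat_lit 76) (nat_lit 372022219) (nat_lit 152) (nat_lit 403693493) (nat_lit 24) (nat_lit 5) (nat_lit 25) (nat_lit 5) (nat_lit 26) (nat_lit 4) (nat_lit 360) (nat_lit 247) (nat_lit 173)) (XT.lf (nat_lit 0) (nat_lit 3853814363) (nat_lit 228) (nat_lit 18887188325) (nat_lit 76) (nat_lit 4558284263) (nat_lit 21) (nat_lit 5) (nat_lit 24) (nat_lit 5) (nat_lit 22) (nat_lit 4) (nat_lit 361) (nat_lit 247) (nat_lit 172)))) (XT.nd (nat_lit 156) (nat_lit 76) (nat_lit 0) (XT.nd (nat_lit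 78) (nat_lit 0) (nat_lit 0) (XT.lf (nat_lit 0) (nat_lit 8215336406) (nat_lit 228) (nat_lit 10128417884) (nat_lit 76) (nat_lit 9619539229) (nat_lit 21) (nat_lit 5) (nat_lit 24) (nat_lit 5) (nat_lit 22) (nat_lit 4) (nat_lit 362) (nat_lit 247) (nat_lit 171)) (XT.lf (nat_lit 0) (nat_lit 12681304729) (nat_lit 228) (nat_lit 1154851029) (nat_lit 76) (nat_lit 14811863726) (nat_lit 21) (nat_lit 5) (nat_lit 24) (nat_lit 5) (nat_lit 22) (nat_lit 4) (nat_lit 363) (nat_lit 247) (nat_lit 170))) (XT.nd (nat_lit 78) (nat_lit 0) (nat_lit 0) (XT.lf (nat_lit 0) (nat_lit 8201391916) (nat_lit 76) (nat_lit 9133066514) (nat_lit 152) (nat_lit 12017239615) (nat_lit 20) (nat_lit 5) (nat_lit 21) (nat_lit 5) (nat_lit 22) (nat_lit 4) (nat_lit 364) (nat_lit 247) (nat_lit 169)) (XT.lf (nat_lit 0) (nat_lit 17815882417) (nat_lit 76) (nat_lit 4297658841) (nat_lit 152) (nat_lit 7963362474) (nat_lit 20) (nat_lit 5) (nat_lit 21) (nat_lit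 5) (nat_lit 22) (nat_lit 4) (nat_lit 365) (nat_lit 247) (nat_lit 168))))) (XT.nd (nat_lit 312) (nat_lit 76) (nat_lit 0) (XT.nd (nat_lit 156) (nat_lit 0) (nat_lit 0) (XT.nd (nat_lit 78) (nat_lit 152) (nat_lit 0) (XT.lf (nat_lit 0) (nat_lit 27017776652) (nat_lit 152) (nat_lit 3156941807) (nat_lit 0) (nat_lit 649700333) (nat_lit 20) (nat_lit 5) (nat_lit 22) (nat_lit 4) (nat_lit 20) (nat_lit 4) (nat_lit 366) (nat_lit 247) (nat_lit 167)) (XT.lf (nat_lit 0) (nat_lit 544911114) (nat_lit 152) (nat_lit 25341567677) (nat_lit 76) (nat_lit 5705367945) (nat_lit 18) (nat_lit 5) (nat_lit 20) (nat_lit 5) (nat_lit 19) (nat_lit 4) (nat_lit 367) (nat_lit 247) (nat_lit 166))) (XT.nd (nat_lit 78) (nat_lit 0) (nat_lit 0) (XT.lf (nat_lit 0) (nat_lit 4958674586) (nat_lit 152) (nat_lit 16458968530) (nat_lit 76) (nat_lit 10963284561) (nat_lit 18) (nat_lit 5) (nat_lit 20) (nat_lit 5) (nat_lit 19) (nat_lit 4) (nat_lit 368)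 (nat_lit 247) (nat_lit 165)) (XT.lf (nat_lit 0) (nat_lit 9481529409) (nat_lit 152) (nat_lit 7352661297) (nat_lit 76) (nat_lit 16360195855) (nat_lit 18) (nat_lit 5) (nat_lit 20) (nat_lit 5) (nat_lit 19) (nat_lit 4) (nat_lit 369) (nat_lit 247) (nat_lit 164)))) (XT.nd (nat_lit 156) (nat_lit 0) (nat_lit 0) (XT.nd (nat_lit 78) (nat_lit 0) (nat_lit 0) (XT.lf (nat_lit 0) (nat_lit 2024822571) (nat_lit 76) (nat_lit 12112068856) (nat_lit 152) (nat_lit 19895458837) (nat_lit 17) (nat_lit 5) (nat_lit 18) (nat_lit 5) (nat_lit 19) (nat_lit 4) (nat_lit 370) (nat_lit 247) (nat_lit 163)) (XT.lf (nat_lit 0) (nat_lit 11793236240) (nat_lit 76) (nat_lit 7190547485) (nat_lit 152) (nat_lit 15910118602) (nat_lit 17) (nat_lit 5) (nat_lit 18) (nat_lit 5) (nat_lit 19) (nat_lit 4) (nat_lit 371) (nat_lit 247) (nat_lit 162))) (XT.nd (nat_lit 78) (nat_lit 0) (nat_lit 0) (XT.lf (nat_lit 0) (nat_lit 21814782840) (nat_lit 76) (nat_lit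 2139573698) (nat_lit 152) (nat_lit 11827601573) (nat_lit 17) (nat_lit 5) (nat_lit 18) (nat_lit 5) (nat_lit 19) (nat_lit 4) (nat_lit 372) (nat_lit 247) (nat_lit 161)) (XT.lf (nat_lit 0) (nat_lit 29082226044) (nat_lit 152) (nat_lit 4628347485) (nat_lit 0) (nat_lit 2985841868) (nat_lit 17) (nat_lit 5) (nat_lit 19) (nat_lit 4) (nat_lit 17) (nat_lit 4) (nat_lit 373) (nat_lit 247) (nat_lit 160))))))))
noncomputable def xc72 : XT := (XT.nd (nat_lit 2184) (nat_lit 76) (nat_lit 0) (XT.nd (nat_lit 1092) (nat_lit 228) (nat_lit 0) (XT.nd (nat_lit 546) (nat_lit 228) (nat_lit 0) (XT.nd (nat_lit 234) (nat_lit 76) (nat_lit 0) (XT.nd (nat_lit 78) (nat_lit 76) (nat_lit 0) (XT.lf (nat_lit 0) (nat_lit 5029522815) (nat_lit 76) (nat_lit 29383295644) (nat_lit 76) (nat_lit 3224026401) (nat_lit 16) (nat_lit 4) (nat_lit 17) (nat_lit 5) (nat_lit 17) (nat_lit 4) (nat_lit 374) (nat_lit 247) (nat_lit 159)) (XT.nd (nat_lit 78)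 (nat_lit 0) (nat_lit 0) (XT.lf (nat_lit 0) (nat_lit 1299103878) (nat_lit 152) (nat_lit 23583141832) (nat_lit 76) (nat_lit 13722074360) (nat_lit 15) (nat_lit 5) (nat_lit 17) (nat_lit 5) (nat_lit 16) (nat_lit 4) (nat_lit 375) (nat_lit 247) (nat_lit 158)) (XT.lf (nat_lit 0) (nat_lit 5873116698) (nat_lit 152) (nat_lit 14357171013) (nat_lit 76) (nat_lit 19370179175) (nat_lit 15) (nat_lit 5) (nat_lit 17) (nat_lit 5) (nat_lit 16) (nat_lit 4) (nat_lit 376) (nat_lit 247) (nat_lit 157)))) (XT.nd (nat_lit 156) (nat_lit 0) (nat_lit 0) (XT.nd (nat_lit 78) (nat_lit 76) (nat_lit 0) (XT.lf (nat_lit 0) (nat_lit 10564921137) (nat_lit 152) (nat_lit 4890356748) (nat_lit 76) (nat_lit 25171807584) (nat_lit 15) (nat_lit 5) (nat_lit 17) (nat_lit 5) (nat_lit 16) (nat_lit 4) (nat_lit 377) (nat_lit 247) (nat_lit 156)) (XT.lf (nat_lit 0) (nat_lit 4921611301) (nat_lit 76) (nat_lit 10504315065) (nat_lit 152) (nat_lit 26257727210)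 (nat_lit 14) (nat_lit 5) (nat_lit 15) (nat_lit 5) (nat_lit 16) (nat_lit 4) (nat_lit 378) (nat_lit 247) (nat_lit 155))) (XT.nd (nat_lit 78) (nat_lit 0) (nat_lit 0) (XT.lf (nat_lit 0) (nat_lit 15093638953) (nat_lit 76) (nat_lit 5369860252) (nat_lit 152) (nat_lit 22307501637) (nat_lit 14) (nat_lit 5) (nat_lit 15) (nat_lit 5) (nat_lit 16) (nat_lit 4) (nat_lit 379) (nat_lit 247) (nat_lit 154)) (XT.lf (nat_lit 0) (nat_lit 25537286697) (nat_lit 76) (nat_lit 96810044) (nat_lit 152) (nat_lit 18257418977) (nat_lit 14) (nat_lit 5) (nat_lit 15) (nat_lit 5) (nat_lit 16) (nat_lit 4) (nat_lit 380) (nat_lit 247) (nat_lit 153))))) (XT.nd (nat_lit 234) (nat_lit 152) (nat_lit 0) (XT.nd (nat_lit 78) (nat_lit 76) (nat_lit 0) (XT.lf (nat_lit 0) (nat_lit 30993370714) (nat_lit 152) (nat_lit 8835630982) (nat_lit 0) (nat_lit 5215641585) (nat_lit 14) (nat_lit 5) (nat_lit 16) (nat_lit 4) (nat_lit 14) (nat_lit 4) (nat_lit 381)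 (nat_lit 247) (nat_lit 152)) (XT.nd (nat_lit 78) (nat_lit 0) (nat_lit 0) (XT.lf (nat_lit 0) (nat_lit 954195006) (nat_lit 76) (nat_lit 35552155507) (nat_lit 76) (nat_lit 9726230211) (nat_lit 13) (nat_lit 4) (nat_lit 14) (nat_lit 5) (nat_lit 14) (nat_lit 4) (nat_lit 382) (nat_lit 247) (nat_lit 151)) (XT.lf (nat_lit 0) (nat_lit 11187159929) (nat_lit 76) (nat_lit 31069775671) (nat_lit 76) (nat_lit 5197057979) (nat_lit 13) (nat_lit 4) (nat_lit 14) (nat_lit 5) (nat_lit 14) (nat_lit 4) (nat_lit 383) (nat_lit 247) (nat_lit 150)))) (XT.nd (nat_lit 156) (nat_lit 76) (nat_lit 0) (XT.nd (nat_lit 78) (nat_lit 76) (nat_lit 0) (XT.lf (nat_lit 0) (nat_lit 21696358830) (nat_lit 76) (nat_lit 26467168094) (nat_lit 76) (nat_lit 549020892) (nat_lit 13) (nat_lit 4) (nat_lit 14) (nat_lit 5) (nat_lit 14) (nat_lit 4) (nat_lit 384) (nat_lit 247) (nat_lit 149)) (XT.lf (nat_lit 0) (nat_lit 4139557137) (nat_lit 152) (nat_lit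 17558952534) (nat_lit 76) (nat_lit 28309615958) (nat_lit 12) (nat_lit 5) (nat_lit 14) (nat_lit 5) (nat_lit 13) (nat_lit 4) (nat_lit 385) (nat_lit 247) (nat_lit 148))) (XT.nd (nat_lit 78) (nat_lit 76) (nat_lit 0) (XT.lf (nat_lit 0) (nat_lit 8942036759) (nat_lit 152) (nat_lit 7852740570) (nat_lit 76) (nat_lit 34548105346) (nat_lit 12) (nat_lit 5) (nat_lit 14) (nat_lit 5) (nat_lit 13) (nat_lit 4) (nat_lit 386) (nat_lit 247) (nat_lit 147)) (XT.lf (nat_lit 0) (nat_lit 2158322224) (nat_lit 76) (nat_lit 11735752580) (nat_lit 152) (nat_lit 38823446357) (nat_lit 11) (nat_lit 5) (nat_lit 12) (nat_lit 5) (nat_lit 13) (nat_lit 4) (nat_lit 387) (nat_lit 247) (nat_lit 146)))))) (XT.nd (nat_lit 546) (nat_lit 152) (nat_lit 0) (XT.nd (nat_lit 234) (nat_lit 76) (nat_lit 0) (XT.nd (nat_lit 78) (nat_lit 0) (nat_lit 0) (XT.lf (nat_lit 0) (nat_lit 12602517161) (nat_lit 76) (nat_lit 6456364771) (nat_lit 152) (nat_lit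 35072593788) (nat_lit 11) (nat_lit 5) (nat_lit 12) (nat_lit 5) (nat_lit 13) (nat_lit 4) (nat_lit 388) (nat_lit 247) (nat_lit 145)) (XT.nd (nat_lit 78) (nat_lit 0) (nat_lit 0) (XT.lf (nat_lit 0) (nat_lit 23332685300) (nat_lit 76) (nat_lit 1031298126) (nat_lit 152) (nat_lit 31224308046) (nat_lit 11) (nat_lit 5) (nat_lit 12) (nat_lit 5) (nat_lit 13) (nat_lit 4) (nat_lit 389) (nat_lit 247) (nat_lit 144)) (XT.lf (nat_lit 0) (nat_lit 29857696325) (nat_lit 152) (nat_lit 22774720363) (nat_lit 0) (nat_lit 4455514232) (nat_lit 11) (nat_lit 5) (nat_lit 13) (nat_lit 4) (nat_lit 11) (nat_lit 4) (nat_lit 390) (nat_lit 247) (nat_lit 143)))) (XT.nd (nat_lit 156) (nat_lit 76) (nat_lit 0) (XT.nd (nat_lit 78) (nat_lit 0) (nat_lit 0) (XT.lf (nat_lit 0) (nat_lit 35512507501) (nat_lit 152) (nat_lit 13045703400) (nat_lit 0) (nat_lit 10074462933) (nat_lit 11) (nat_lit 5) (nat_lit 13) (nat_lit 4) (nat_lit 11) (nat_lit 4)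 (nat_lit 391) (nat_lit 247) (nat_lit 142)) (XT.lf (nat_lit 0) (nat_lit 41323444581) (nat_lit 152) (nat_lit 3050140731) (nat_lit 0) (nat_lit 15850582076) (nat_lit 11) (nat_lit 5) (nat_lit 13) (nat_lit 4) (nat_lit 11) (nat_lit 4) (nat_lit 392) (nat_lit 247) (nat_lit 141))) (XT.nd (nat_lit 78) (nat_lit 0) (nat_lit 0) (XT.lf (nat_lit 0) (nat_lit 7364407748) (nat_lit 76) (nat_lit 40001968529) (nat_lit 76) (nat_lit 14495302201) (nat_lit 10) (nat_lit 4) (nat_lit 11) (nat_lit 5) (nat_lit 11) (nat_lit 4) (nat_lit 393) (nat_lit 247) (nat_lit 140)) (XT.lf (nat_lit 0) (nat_lit 18129571440) (nat_lit 76) (nat_lit 35478848477) (nat_lit 76) (nat_lit 9939362905) (nat_lit 10) (nat_lit 4) (nat_lit 11) (nat_lit 5) (nat_lit 11) (nat_lit 4) (nat_lit 394) (nat_lit 247) (nat_lit 139))))) (XT.nd (nat_lit 234) (nat_lit 76) (nat_lit 0) (XT.nd (nat_lit 78) (nat_lit 76) (nat_lit 0) (XT.lf (nat_lit 0) (nat_lit 29194053016) (nat_lit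 76) (nat_lit 30831073358) (nat_lit 76) (nat_lit 5259724442) (nat_lit 10) (nat_lit 4) (nat_lit 11) (nat_lit 5) (nat_lit 11) (nat_lit 4) (nat_lit 395) (nat_lit 247) (nat_lit 138)) (XT.nd (nat_lit 78) (nat_lit 76) (nat_lit 0) (XT.lf (nat_lit 0) (nat_lit 40567520469) (nat_lit 76) (nat_lit 26054582010) (nat_lit 76) (nat_lit 452297808) (nat_lit 10) (nat_lit 4) (nat_lit 11) (nat_lit 5) (nat_lit 11) (nat_lit 4) (nat_lit 396) (nat_lit 247) (nat_lit 137)) (XT.lf (nat_lit 0) (nat_lit 4399557833) (nat_lit 152) (nat_lit 16701216058) (nat_lit 76) (nat_lit 47815927040) (nat_lit 9) (nat_lit 5) (nat_lit 11) (nat_lit 5) (nat_lit 10) (nat_lit 4) (nat_lit 397) (nat_lit 247) (nat_lit 136)))) (XT.nd (nat_lit 156) (nat_lit 0) (nat_lit 0) (XT.nd (nat_lit 78) (nat_lit 76) (nat_lit 0) (XT.lf (nat_lit 0) (nat_lit 9376232546) (nat_lit 152) (nat_lit 6627725864) (nat_lit 76) (nat_lit 54810529494) (nat_lit 9) (nat_lit 5) (nat_lit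 11) (nat_lit 5) (nat_lit 10) (nat_lit 4) (nat_lit 398) (nat_lit 247) (nat_lit 135)) (XT.lf (nat_lit 0) (nat_lit 3800910051) (nat_lit 76) (nat_lit 10726527463) (nat_lit 152) (nat_lit 58241016284) (nat_lit 8) (nat_lit 5) (nat_lit 9) (nat_lit 5) (nat_lit 10) (nat_lit 4) (nat_lit 399) (nat_lit 247) (nat_lit 134))) (XT.nd (nat_lit 78) (nat_lit 0) (nat_lit 0) (XT.lf (nat_lit 0) (nat_lit 14657246619) (nat_lit 76) (nat_lit 5231679648) (nat_lit 152) (nat_lit 54890442121) (nat_lit 8) (nat_lit 5) (nat_lit 9) (nat_lit 5) (nat_lit 10) (nat_lit 4) (nat_lit 400) (nat_lit 247) (nat_lit 133)) (XT.lf (nat_lit 0) (nat_lit 25404428384) (nat_lit 152) (nat_lit 51036095384) (nat_lit 0) (nat_lit 410293672) (nat_lit 8) (nat_lit 5) (nat_lit 10) (nat_lit 4) (nat_lit 8) (nat_lit 4) (nat_lit 401) (nat_lit 247) (nat_lit 132))))))) (XT.nd (nat_lit 31668) (nat_lit 0) (nat_lit 9272) (XT.nd (nat_lit 546) (nat_lit 0) (nat_lit 0)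 (XT.nd (nat_lit 234) (nat_lit 76) (nat_lit 0) (XT.nd (nat_lit 78) (nat_lit 0) (nat_lit 0) (XT.lf (nat_lit 0) (nat_lit 31126567550) (nat_lit 152) (nat_lit 41749329660) (nat_lit 0) (nat_lit 6107279620) (nat_lit 8) (nat_lit 5) (nat_lit 10) (nat_lit 4) (nat_lit 8) (nat_lit 4) (nat_lit 402) (nat_lit 247) (nat_lit 131)) (XT.nd (nat_lit 78) (nat_lit 0) (nat_lit 0) (XT.lf (nat_lit 0) (nat_lit 37010053588) (nat_lit 152) (nat_lit 32203419843) (nat_lit 0) (nat_lit 11966345057) (nat_lit 8) (nat_lit 5) (nat_lit 10) (nat_lit 4) (nat_lit 8) (nat_lit 4) (nat_lit 403) (nat_lit 247) (nat_lit 130)) (XT.lf (nat_lit 0) (nat_lit 43060027406) (nat_lit 152) (nat_lit 22390024845) (nat_lit 0) (nat_lit 17992609555) (nat_lit 8) (nat_lit 5) (nat_lit 10) (nat_lit 4) (nat_lit 8) (nat_lit 4) (nat_lit 404) (nat_lit 247) (nat_lit 129)))) (XT.nd (nat_lit 156) (nat_lit 76) (nat_lit 0) (XT.nd (nat_lit 78) (nat_lit 0) (nat_lit 0) (XT.lf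 (nat_lit 0) (nat_lit 49281775391) (nat_lit 152) (nat_lit 12300569856) (nat_lit 0) (nat_lit 24191338782) (nat_lit 8) (nat_lit 5) (nat_lit 10) (nat_lit 4) (nat_lit 8) (nat_lit 4) (nat_lit 405) (nat_lit 247) (nat_lit 128)) (XT.lf (nat_lit 0) (nat_lit 55680734021) (nat_lit 152) (nat_lit 1926238847) (nat_lit 0) (nat_lit 30567949103) (nat_lit 8) (nat_lit 5) (nat_lit 10) (nat_lit 4) (nat_lit 8) (nat_lit 4) (nat_lit 406) (nat_lit 247) (nat_lit 127))) (XT.nd (nat_lit 78) (nat_lit 0) (nat_lit 0) (XT.lf (nat_lit 0) (nat_lit 8916016730) (nat_lit 76) (nat_lit 53432184096) (nat_lit 76) (nat_lit 28297701791) (nat_lit 7) (nat_lit 4) (nat_lit 8) (nat_lit 5) (nat_lit 8) (nat_lit 4) (nat_lit 407) (nat_lit 247) (nat_lit 126)) (XT.lf (nat_lit 0) (nat_lit 20105906523) (nat_lit 76) (nat_lit 49120171990) (nat_lit 76) (nat_lit 23964624260) (nat_lit 7) (nat_lit 4) (nat_lit 8) (nat_lit 5) (nat_lit 8) (nat_lit 4) (nat_lit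 408) (nat_lit 247) (nat_lit 125))))) (XT.nd (nat_lit 234) (nat_lit 0) (nat_lit 0) (XT.nd (nat_lit 78) (nat_lit 0) (nat_lit 0) (XT.lf (nat_lit 0) (nat_lit 31614872172) (nat_lit 76) (nat_lit 44686620007) (nat_lit 76) (nat_lit 19510620409) (nat_lit 7) (nat_lit 4) (nat_lit 8) (nat_lit 5) (nat_lit 8) (nat_lit 4) (nat_lit 409) (nat_lit 247) (nat_lit 124)) (XT.nd (nat_lit 78) (nat_lit 0) (nat_lit 0) (XT.lf (nat_lit 0) (nat_lit 43452970057) (nat_lit 76) (nat_lit 40127654171) (nat_lit 76) (nat_lit 14931798390) (nat_lit 7) (nat_lit 4) (nat_lit 8) (nat_lit 5) (nat_lit 8) (nat_lit 4) (nat_lit 410) (nat_lit 247) (nat_lit 123)) (XT.lf (nat_lit 0) (nat_lit 55630544147) (nat_lit 76) (nat_lit 35439290919) (nat_lit 76) (nat_lit 10224157291) (nat_lit 7) (nat_lit 4) (nat_lit 8) (nat_lit 5) (nat_lit 8) (nat_lit 4) (nat_lit 411) (nat_lit 247) (nat_lit 122)))) (XT.nd (nat_lit 30732) (nat_lit 0) (nat_lit 14972) (XT.nd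 (nat_lit 30654) (nat_lit 0) (nat_lit 17252) (XT.lf (nat_lit 0) (nat_lit 68158235039) (nat_lit 76) (nat_lit 30617433623) (nat_lit 76) (nat_lit 5383583639) (nat_lit 7) (nat_lit 4) (nat_lit 8) (nat_lit 5) (nat_lit 8) (nat_lit 4) (nat_lit 412) (nat_lit 247) (nat_lit 121)) (XT.lf (nat_lit 0) (nat_lit 3392144193) (nat_lit 988) (nat_lit 77340848) (nat_lit 988) (nat_lit 77340848) (nat_lit 234) (nat_lit 4) (nat_lit 247) (nat_lit 5) (nat_lit 247) (nat_lit 4) (nat_lit 284) (nat_lit 248) (nat_lit 248))) (XT.nd (nat_lit 78) (nat_lit 1140) (nat_lit 0) (XT.lf (nat_lit 0) (nat_lit 3108702330) (nat_lit 1140) (nat_lit 2605630591) (nat_lit 0) (nat_lit 1435765783) (nat_lit 219) (nat_lit 5) (nat_lit 234) (nat_lit 4) (nat_lit 219) (nat_lit 4) (nat_lit 285) (nat_lit 248) (nat_lit 247)) (XT.lf (nat_lit 0) (nat_lit 2286584121) (nat_lit 1140) (nat_lit 4110490327) (nat_lit 1140) (nat_lit 813343540) (nat_lit 204) (nat_lit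 4) (nat_lit 219) (nat_lit 5) (nat_lit 219) (nat_lit 4) (nat_lit 286) (nat_lit 248) (nat_lit 246)))))) (XT.nd (nat_lit 546) (nat_lit 2508) (nat_lit 0) (XT.nd (nat_lit 234) (nat_lit 1672) (nat_lit 0) (XT.nd (nat_lit 78) (nat_lit 1444) (nat_lit 0) (XT.lf (nat_lit 0) (nat_lit 2393467920) (nat_lit 1216) (nat_lit 15310053) (nat_lit 76) (nat_lit 4865240062) (nat_lit 203) (nat_lit 5) (nat_lit 219) (nat_lit 5) (nat_lit 204) (nat_lit 4) (nat_lit 287) (nat_lit 248) (nat_lit 245)) (XT.nd (nat_lit 78) (nat_lit 684) (nat_lit 0) (XT.lf (nat_lit 0) (nat_lit 5035405933) (nat_lit 760) (nat_lit 600273767) (nat_lit 836) (nat_lit 1705058159) (nat_lit 193) (nat_lit 5) (nat_lit 203) (nat_lit 5) (nat_lit 204) (nat_lit 4) (nat_lit 288) (nat_lit 248) (nat_lit 244)) (XT.lf (nat_lit 0) (nat_lit 1482373185) (nat_lit 684) (nat_lit 4652341961) (nat_lit 76) (nat_lit 1275988604) (nat_lit 184) (nat_lit 5) (nat_lit 193) (nat_lit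 5) (nat_lit 185) (nat_lit 4) (nat_lit 289) (nat_lit 248) (nat_lit 243)))) (XT.nd (nat_lit 156) (nat_lit 1064) (nat_lit 0) (XT.nd (nat_lit 78) (nat_lit 76) (nat_lit 0) (XT.lf (nat_lit 0) (nat_lit 426308893) (nat_lit 532) (nat_lit 4248039107) (nat_lit 608) (nat_lit 2809727959) (nat_lit 177) (nat_lit 5) (nat_lit 184) (nat_lit 5) (nat_lit 185) (nat_lit 4) (nat_lit 290) (nat_lit 248) (nat_lit 242)) (XT.lf (nat_lit 0) (nat_lit 352379876) (nat_lit 608) (nat_lit 1908918786) (nat_lit 76) (nat_lit 5299603843) (nat_lit 176) (nat_lit 5) (nat_lit 184) (nat_lit 5) (nat_lit 177) (nat_lit 5) (nat_lit 291) (nat_lit 248) (nat_lit 241))) (XT.nd (nat_lit 78) (nat_lit 532) (nat_lit 0) (XT.lf (nat_lit 0) (nat_lit 3335515241) (nat_lit 532) (nat_lit 162392365) (nat_lit 608) (nat_lit 4143041002) (nat_lit 169) (nat_lit 5) (nat_lit 176) (nat_lit 5) (nat_lit 177) (nat_lit 5) (nat_lit 292) (nat_lit 248) (nat_lit 240)) (XT.lf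 (nat_lit 0) (nat_lit 955049326) (nat_lit 532) (nat_lit 5745111839) (nat_lit 608) (nat_lit 1024461428) (nat_lit 162) (nat_lit 5) (nat_lit 169) (nat_lit 5) (nat_lit 170) (nat_lit 4) (nat_lit 293) (nat_lit 248) (nat_lit 239))))) (XT.nd (nat_lit 312) (nat_lit 1368) (nat_lit 0) (XT.nd (nat_lit 156) (nat_lit 532) (nat_lit 0) (XT.nd (nat_lit 78) (nat_lit 532) (nat_lit 0) (XT.lf (nat_lit 0) (nat_lit 2105629000) (nat_lit 608) (nat_lit 1469560190) (nat_lit 76) (nat_lit 4236259155) (nat_lit 161) (nat_lit 5) (nat_lit 169) (nat_lit 5) (nat_lit 162) (nat_lit 5) (nat_lit 294) (nat_lit 248) (nat_lit 238)) (XT.lf (nat_lit 0) (nat_lit 3960879007) (nat_lit 532) (nat_lit 1303827021) (nat_lit 608) (nat_lit 2637287354) (nat_lit 154) (nat_lit 5) (nat_lit 161) (nat_lit 5) (nat_lit 162) (nat_lit 5) (nat_lit 295) (nat_lit 248) (nat_lit 237))) (XT.nd (nat_lit 78) (nat_lit 0) (nat_lit 0) (XT.lf (nat_lit 0) (nat_lit 471022760)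 (nat_lit 532) (nat_lit 6489426125) (nat_lit 76) (nat_lit 1036000896) (nat_lit 147) (nat_lit 5) (nat_lit 154) (nat_lit 5) (nat_lit 148) (nat_lit 5) (nat_lit 296) (nat_lit 248) (nat_lit 236)) (XT.lf (nat_lit 0) (nat_lit 3592196907) (nat_lit 532) (nat_lit 1030460773) (nat_lit 76) (nat_lit 3471201678) (nat_lit 147) (nat_lit 5) (nat_lit 154) (nat_lit 5) (nat_lit 148) (nat_lit 5) (nat_lit 297) (nat_lit 248) (nat_lit 235)))) (XT.nd (nat_lit 156) (nat_lit 456) (nat_lit 0) (XT.nd (nat_lit 78) (nat_lit 456) (nat_lit 0) (XT.lf (nat_lit 0) (nat_lit 4586733870) (nat_lit 456) (nat_lit 2186227802) (nat_lit 532) (nat_lit 1422329999) (nat_lit 141) (nat_lit 5) (nat_lit 147) (nat_lit 5) (nat_lit 148) (nat_lit 5) (nat_lit 298) (nat_lit 248) (nat_lit 234)) (XT.lf (nat_lit 0) (nat_lit 1670977422) (nat_lit 456) (nat_lit 6283264954) (nat_lit 76) (nat_lit 346422715) (nat_lit 135) (nat_lit 5) (nat_lit 141) (nat_lit 5) (nat_lit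 136) (nat_lit 5) (nat_lit 299) (nat_lit 248) (nat_lit 233))) (XT.nd (nat_lit 78) (nat_lit 456) (nat_lit 0) (XT.lf (nat_lit 0) (nat_lit 4810514024) (nat_lit 456) (nat_lit 655060561) (nat_lit 76) (nat_lit 2943814531) (nat_lit 135) (nat_lit 5) (nat_lit 141) (nat_lit 5) (nat_lit 136) (nat_lit 5) (nat_lit 300) (nat_lit 248) (nat_lit 232)) (XT.lf (nat_lit 0) (nat_lit 5148302708) (nat_lit 456) (nat_lit 2871220146) (nat_lit 532) (nat_lit 502663714) (nat_lit 129) (nat_lit 5) (nat_lit 135) (nat_lit 5) (nat_lit 136) (nat_lit 5) (nat_lit 301) (nat_lit 248) (nat_lit 231))))))))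
noncomputable def xc73 : XT := (XT.nd (nat_lit 2184) (nat_lit 2508) (nat_lit 0) (XT.nd (nat_lit 1092) (nat_lit 2128) (nat_lit 0) (XT.nd (nat_lit 546) (nat_lit 1292) (nat_lit 0) (XT.nd (nat_lit 234) (nat_lit 1140) (nat_lit 0) (XT.nd (nat_lit 78) (nat_lit 456) (nat_lit 0) (XT.lf (nat_lit 0) (nat_lit 2427750786) (nat_lit 380) (nat_lit 162552082) (nat_lit 456) (nat_lit 6048667896) (nat_lit 123) (nat_lit 5) (nat_lit 128) (nat_lit 5) (nat_lit 129) (nat_lit 5) (nat_lit 302) (nat_lit 248) (nat_lit 230)) (XT.nd (nat_lit 78) (nat_lit 456) (nat_lit 0) (XT.lf (nat_lit 0) (nat_lit 5752931998) (nat_lit 456) (nat_lit 412074976) (nat_lit 76) (nat_lit 2594557234) (nat_lit 123) (nat_lit 5) (nat_lit 129) (nat_lit 5) (nat_lit 124) (nat_lit 5) (nat_lit 303) (nat_lit 248) (nat_lit 229)) (XT.lf (nat_lit 0) (nat_lit 108611478) (nat_lit 456) (nat_lit 3310209542) (nat_lit 76) (nat_lit 5465445982) (nat_lit 117) (nat_lit 5)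 (nat_lit 123) (nat_lit 5) (nat_lit 118) (nat_lit 5) (nat_lit 304) (nat_lit 248) (nat_lit 228)))) (XT.nd (nat_lit 156) (nat_lit 760) (nat_lit 0) (XT.nd (nat_lit 78) (nat_lit 0) (nat_lit 0) (XT.lf (nat_lit 0) (nat_lit 2664198727) (nat_lit 380) (nat_lit 552349407) (nat_lit 456) (nat_lit 5796538574) (nat_lit 112) (nat_lit 5) (nat_lit 117) (nat_lit 5) (nat_lit 118) (nat_lit 5) (nat_lit 305) (nat_lit 248) (nat_lit 227)) (XT.lf (nat_lit 0) (nat_lit 6405329788) (nat_lit 456) (nat_lit 377071112) (nat_lit 76) (nat_lit 2363799054) (nat_lit 112) (nat_lit 5) (nat_lit 118) (nat_lit 5) (nat_lit 113) (nat_lit 5) (nat_lit 306) (nat_lit 248) (nat_lit 226))) (XT.nd (nat_lit 78) (nat_lit 304) (nat_lit 0) (XT.lf (nat_lit 0) (nat_lit 392337748) (nat_lit 456) (nat_lit 3497824949) (nat_lit 76) (nat_lit 5393266519) (nat_lit 106) (nat_lit 5) (nat_lit 112) (nat_lit 5) (nat_lit 107) (nat_lit 5) (nat_lit 307) (nat_lit 248)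 (nat_lit 225)) (XT.lf (nat_lit 0) (nat_lit 2648410783) (nat_lit 304) (nat_lit 878515747) (nat_lit 380) (nat_lit 5898212808) (nat_lit 102) (nat_lit 5) (nat_lit 106) (nat_lit 5) (nat_lit 107) (nat_lit 5) (nat_lit 308) (nat_lit 248) (nat_lit 224))))) (XT.nd (nat_lit 234) (nat_lit 608) (nat_lit 0) (XT.nd (nat_lit 78) (nat_lit 684) (nat_lit 0) (XT.lf (nat_lit 0) (nat_lit 6746588338) (nat_lit 380) (nat_lit 634223234) (nat_lit 76) (nat_lit 2190608909) (nat_lit 102) (nat_lit 5) (nat_lit 107) (nat_lit 5) (nat_lit 103) (nat_lit 5) (nat_lit 309) (nat_lit 248) (nat_lit 223)) (XT.nd (nat_lit 78) (nat_lit 304) (nat_lit 0) (XT.lf (nat_lit 0) (nat_lit 333495720) (nat_lit 380) (nat_lit 4020727284) (nat_lit 76) (nat_lit 5367834804) (nat_lit 97) (nat_lit 5) (nat_lit 102) (nat_lit 5) (nat_lit 98) (nat_lit 5) (nat_lit 310) (nat_lit 248) (nat_lit 222)) (XT.lf (nat_lit 0) (nat_lit 2288649157) (nat_lit 304) (nat_lit 1205863136)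 (nat_lit 380) (nat_lit 6382967916) (nat_lit 93) (nat_lit 5) (nat_lit 97) (nat_lit 5) (nat_lit 98) (nat_lit 5) (nat_lit 311) (nat_lit 248) (nat_lit 221)))) (XT.nd (nat_lit 156) (nat_lit 304) (nat_lit 0) (XT.nd (nat_lit 78) (nat_lit 304) (nat_lit 0) (XT.lf (nat_lit 0) (nat_lit 6747920260) (nat_lit 380) (nat_lit 1278284756) (nat_lit 76) (nat_lit 2011478555) (nat_lit 93) (nat_lit 5) (nat_lit 98) (nat_lit 5) (nat_lit 94) (nat_lit 5) (nat_lit 312) (nat_lit 248) (nat_lit 220)) (XT.lf (nat_lit 0) (nat_lit 5222536568) (nat_lit 304) (nat_lit 4877348026) (nat_lit 380) (nat_lit 102823621) (nat_lit 89) (nat_lit 5) (nat_lit 93) (nat_lit 5) (nat_lit 94) (nat_lit 5) (nat_lit 313) (nat_lit 248) (nat_lit 219))) (XT.nd (nat_lit 78) (nat_lit 0) (nat_lit 0) (XT.lf (nat_lit 0) (nat_lit 1481105122) (nat_lit 228) (nat_lit 1602953844) (nat_lit 304) (nat_lit 7288757478) (nat_lit 85) (nat_lit 5) (nat_lit 88) (nat_lit 5) (nat_lit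 89) (nat_lit 5) (nat_lit 314) (nat_lit 248) (nat_lit 218)) (XT.lf (nat_lit 0) (nat_lit 6372037970) (nat_lit 304) (nat_lit 2416818914) (nat_lit 76) (nat_lit 1758953883) (nat_lit 85) (nat_lit 5) (nat_lit 89) (nat_lit 5) (nat_lit 86) (nat_lit 5) (nat_lit 315) (nat_lit 248) (nat_lit 217)))))) (XT.nd (nat_lit 546) (nat_lit 760) (nat_lit 0) (XT.nd (nat_lit 234) (nat_lit 760) (nat_lit 0) (XT.nd (nat_lit 78) (nat_lit 304) (nat_lit 0) (XT.lf (nat_lit 0) (nat_lit 4231564861) (nat_lit 304) (nat_lit 5525150866) (nat_lit 380) (nat_lit 971436329) (nat_lit 81) (nat_lit 5) (nat_lit 85) (nat_lit 5) (nat_lit 86) (nat_lit 5) (nat_lit 316) (nat_lit 248) (nat_lit 216)) (XT.nd (nat_lit 78) (nat_lit 0) (nat_lit 0) (XT.lf (nat_lit 0) (nat_lit 107442347) (nat_lit 228) (nat_lit 2143595415) (nat_lit 304) (nat_lit 8663207205) (nat_lit 77) (nat_lit 5) (nat_lit 80) (nat_lit 5) (nat_lit 81) (nat_lit 5) (nat_lit 317) (nat_lit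 248) (nat_lit 215)) (XT.lf (nat_lit 0) (nat_lit 5572140347) (nat_lit 304) (nat_lit 4172736272) (nat_lit 76) (nat_lit 1360146741) (nat_lit 77) (nat_lit 5) (nat_lit 81) (nat_lit 5) (nat_lit 78) (nat_lit 5) (nat_lit 318) (nat_lit 248) (nat_lit 214)))) (XT.nd (nat_lit 156) (nat_lit 456) (nat_lit 0) (XT.nd (nat_lit 78) (nat_lit 76) (nat_lit 0) (XT.lf (nat_lit 0) (nat_lit 2604111693) (nat_lit 228) (nat_lit 6379051082) (nat_lit 304) (nat_lit 2318688305) (nat_lit 74) (nat_lit 5) (nat_lit 77) (nat_lit 5) (nat_lit 78) (nat_lit 5) (nat_lit 319) (nat_lit 248) (nat_lit 213)) (XT.lf (nat_lit 0) (nat_lit 959394629) (nat_lit 304) (nat_lit 1929602285) (nat_lit 76) (nat_lit 8615728702) (nat_lit 73) (nat_lit 5) (nat_lit 77) (nat_lit 5) (nat_lit 74) (nat_lit 5) (nat_lit 320) (nat_lit 248) (nat_lit 212))) (XT.nd (nat_lit 78) (nat_lit 228) (nat_lit 0) (XT.lf (nat_lit 0) (nat_lit 4290694134) (nat_lit 304) (nat_lit 6687194153)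 (nat_lit 76) (nat_lit 735096704) (nat_lit 70) (nat_lit 5) (nat_lit 74) (nat_lit 5) (nat_lit 71) (nat_lit 5) (nat_lit 321) (nat_lit 248) (nat_lit 211)) (XT.lf (nat_lit 0) (nat_lit 193317181) (nat_lit 228) (nat_lit 7525140839) (nat_lit 304) (nat_lit 4209169088) (nat_lit 67) (nat_lit 5) (nat_lit 70) (nat_lit 5) (nat_lit 71) (nat_lit 5) (nat_lit 322) (nat_lit 248) (nat_lit 210))))) (XT.nd (nat_lit 234) (nat_lit 456) (nat_lit 0) (XT.nd (nat_lit 78) (nat_lit 304) (nat_lit 0) (XT.lf (nat_lit 0) (nat_lit 7333998393) (nat_lit 228) (nat_lit 3929729655) (nat_lit 304) (nat_lit 884570070) (nat_lit 67) (nat_lit 5) (nat_lit 70) (nat_lit 5) (nat_lit 71) (nat_lit 5) (nat_lit 323) (nat_lit 248) (nat_lit 209)) (XT.nd (nat_lit 78) (nat_lit 0) (nat_lit 0) (XT.lf (nat_lit 0) (nat_lit 2250859909) (nat_lit 228) (nat_lit 209132311) (nat_lit 304) (nat_lit 9915799181) (nat_lit 63) (nat_lit 5) (nat_lit 66) (nat_lit 5) (nat_lit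 67) (nat_lit 5) (nat_lit 324) (nat_lit 248) (nat_lit 208)) (XT.lf (nat_lit 0) (nat_lit 5919626075) (nat_lit 304) (nat_lit 3108483182) (nat_lit 76) (nat_lit 3580789369) (nat_lit 63) (nat_lit 5) (nat_lit 67) (nat_lit 5) (nat_lit 64) (nat_lit 5) (nat_lit 325) (nat_lit 248) (nat_lit 207)))) (XT.nd (nat_lit 156) (nat_lit 152) (nat_lit 0) (XT.nd (nat_lit 78) (nat_lit 76) (nat_lit 0) (XT.lf (nat_lit 0) (nat_lit 4116692112) (nat_lit 228) (nat_lit 5358087051) (nat_lit 304) (nat_lit 3374494499) (nat_lit 60) (nat_lit 5) (nat_lit 63) (nat_lit 5) (nat_lit 64) (nat_lit 5) (nat_lit 326) (nat_lit 248) (nat_lit 206)) (XT.lf (nat_lit 0) (nat_lit 20918965) (nat_lit 304) (nat_lit 1554524930) (nat_lit 76) (nat_lit 11521970559) (nat_lit 59) (nat_lit 5) (nat_lit 63) (nat_lit 5) (nat_lit 60) (nat_lit 5) (nat_lit 327) (nat_lit 248) (nat_lit 205))) (XT.nd (nat_lit 78) (nat_lit 0) (nat_lit 0) (XT.lf (nat_lit 0) (nat_lit 3481148338)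 (nat_lit 228) (nat_lit 7533163082) (nat_lit 76) (nat_lit 2336786652) (nat_lit 57) (nat_lit 5) (nat_lit 60) (nat_lit 5) (nat_lit 58) (nat_lit 5) (nat_lit 328) (nat_lit 248) (nat_lit 204)) (XT.lf (nat_lit 0) (nat_lit 7028732329) (nat_lit 228) (nat_lit 262564429) (nat_lit 76) (nat_lit 6321612556) (nat_lit 57) (nat_lit 5) (nat_lit 60) (nat_lit 5) (nat_lit 58) (nat_lit 5) (nat_lit 329) (nat_lit 248) (nat_lit 203))))))) (XT.nd (nat_lit 1092) (nat_lit 1064) (nat_lit 0) (XT.nd (nat_lit 546) (nat_lit 532) (nat_lit 0) (XT.nd (nat_lit 234) (nat_lit 456) (nat_lit 0) (XT.nd (nat_lit 78) (nat_lit 228) (nat_lit 0) (XT.lf (nat_lit 0) (nat_lit 7292410437) (nat_lit 228) (nat_lit 3413923974) (nat_lit 304) (nat_lit 3175555623) (nat_lit 54) (nat_lit 5) (nat_lit 57) (nat_lit 5) (nat_lit 58) (nat_lit 5) (nat_lit 330) (nat_lit 248) (nat_lit 202)) (XT.nd (nat_lit 78) (nat_lit 0) (nat_lit 0) (XT.lf (nat_lit 0) (nat_lit 298776515)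 (nat_lit 228) (nat_lit 13307549828) (nat_lit 76) (nat_lit 553438816) (nat_lit 51) (nat_lit 5) (nat_lit 54) (nat_lit 5) (nat_lit 52) (nat_lit 5) (nat_lit 331) (nat_lit 248) (nat_lit 201)) (XT.lf (nat_lit 0) (nat_lit 3868498541) (nat_lit 228) (nat_lit 5934243241) (nat_lit 76) (nat_lit 4640662878) (nat_lit 51) (nat_lit 5) (nat_lit 54) (nat_lit 5) (nat_lit 52) (nat_lit 5) (nat_lit 332) (nat_lit 248) (nat_lit 200)))) (XT.nd (nat_lit 156) (nat_lit 228) (nat_lit 0) (XT.nd (nat_lit 78) (nat_lit 0) (nat_lit 0) (XT.lf (nat_lit 0) (nat_lit 1617455293) (nat_lit 228) (nat_lit 5898729735) (nat_lit 304) (nat_lit 7220262446) (nat_lit 48) (nat_lit 5) (nat_lit 51) (nat_lit 5) (nat_lit 52) (nat_lit 5) (nat_lit 333) (nat_lit 248) (nat_lit 199)) (XT.lf (nat_lit 0) (nat_lit 9443710440) (nat_lit 228) (nat_lit 1845434062) (nat_lit 304) (nat_lit 3748681518) (nat_lit 48) (nat_lit 5) (nat_lit 51) (nat_lit 5) (nat_lit 52)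 (nat_lit 5) (nat_lit 334) (nat_lit 248) (nat_lit 198))) (XT.nd (nat_lit 78) (nat_lit 76) (nat_lit 0) (XT.lf (nat_lit 0) (nat_lit 2102621981) (nat_lit 152) (nat_lit 13072200915) (nat_lit 228) (nat_lit 173456267) (nat_lit 46) (nat_lit 5) (nat_lit 48) (nat_lit 5) (nat_lit 49) (nat_lit 4) (nat_lit 335) (nat_lit 248) (nat_lit 197)) (XT.lf (nat_lit 0) (nat_lit 3472923948) (nat_lit 228) (nat_lit 5646662152) (nat_lit 76) (nat_lit 6546494761) (nat_lit 45) (nat_lit 5) (nat_lit 48) (nat_lit 5) (nat_lit 46) (nat_lit 5) (nat_lit 336) (nat_lit 248) (nat_lit 196))))) (XT.nd (nat_lit 234) (nat_lit 228) (nat_lit 0) (XT.nd (nat_lit 78) (nat_lit 152) (nat_lit 0) (XT.lf (nat_lit 0) (nat_lit 2149971390) (nat_lit 152) (nat_lit 5054207064) (nat_lit 228) (nat_lit 8789835080) (nat_lit 43) (nat_lit 5) (nat_lit 45) (nat_lit 5) (nat_lit 46) (nat_lit 5) (nat_lit 337) (nat_lit 248) (nat_lit 195)) (XT.nd (nat_lit 78) (nat_lit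 152) (nat_lit 0) (XT.lf (nat_lit 0) (nat_lit 10226379182) (nat_lit 152) (nat_lit 836856778) (nat_lit 228) (nat_lit 5268089276) (nat_lit 43) (nat_lit 5) (nat_lit 45) (nat_lit 5) (nat_lit 46) (nat_lit 5) (nat_lit 338) (nat_lit 248) (nat_lit 194)) (XT.lf (nat_lit 0) (nat_lit 1798927165) (nat_lit 152) (nat_lit 13249917770) (nat_lit 228) (nat_lit 1629604476) (nat_lit 41) (nat_lit 5) (nat_lit 43) (nat_lit 5) (nat_lit 44) (nat_lit 4) (nat_lit 339) (nat_lit 248) (nat_lit 193)))) (XT.nd (nat_lit 156) (nat_lit 0) (nat_lit 0) (XT.nd (nat_lit 78) (nat_lit 152) (nat_lit 0) (XT.lf (nat_lit 0) (nat_lit 2107132209) (nat_lit 228) (nat_lit 7067259121) (nat_lit 76) (nat_lit 7860087919) (nat_lit 40) (nat_lit 5) (nat_lit 43) (nat_lit 5) (nat_lit 41) (nat_lit 5) (nat_lit 340) (nat_lit 248) (nat_lit 192)) (XT.lf (nat_lit 0) (nat_lit 914155961) (nat_lit 152) (nat_lit 4978901217) (nat_lit 228) (nat_lit 11508568685) (nat_lit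 38) (nat_lit 5) (nat_lit 40) (nat_lit 5) (nat_lit 41) (nat_lit 5) (nat_lit 341) (nat_lit 248) (nat_lit 191))) (XT.nd (nat_lit 78) (nat_lit 0) (nat_lit 0) (XT.lf (nat_lit 0) (nat_lit 9213621742) (nat_lit 152) (nat_lit 611853246) (nat_lit 228) (nat_lit 7953339111) (nat_lit 38) (nat_lit 5) (nat_lit 40) (nat_lit 5) (nat_lit 41) (nat_lit 5) (nat_lit 342) (nat_lit 248) (nat_lit 190)) (XT.lf (nat_lit 0) (nat_lit 13875631895) (nat_lit 228) (nat_lit 507811295) (nat_lit 76) (nat_lit 3783896040) (nat_lit 38) (nat_lit 5) (nat_lit 41) (nat_lit 5) (nat_lit 39) (nat_lit 4) (nat_lit 343) (nat_lit 248) (nat_lit 189)))))) (XT.nd (nat_lit 546) (nat_lit 532) (nat_lit 0) (XT.nd (nat_lit 234) (nat_lit 152) (nat_lit 0) (XT.nd (nat_lit 78) (nat_lit 228) (nat_lit 0) (XT.lf (nat_lit 0) (nat_lit 7875605731) (nat_lit 152) (nat_lit 10216955698) (nat_lit 228) (nat_lit 473614479) (nat_lit 36) (nat_lit 5) (nat_lit 38) (nat_lit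 5) (nat_lit 39) (nat_lit 4) (nat_lit 344) (nat_lit 248) (nat_lit 188)) (XT.nd (nat_lit 78) (nat_lit 152) (nat_lit 0) (XT.lf (nat_lit 0) (nat_lit 3360297120) (nat_lit 228) (nat_lit 2552615783) (nat_lit 76) (nat_lit 13064017097) (nat_lit 35) (nat_lit 5) (nat_lit 38) (nat_lit 5) (nat_lit 36) (nat_lit 5) (nat_lit 345) (nat_lit 248) (nat_lit 187)) (XT.lf (nat_lit 0) (nat_lit 5877908679) (nat_lit 152) (nat_lit 1442955842) (nat_lit 228) (nat_lit 12078379443) (nat_lit 33) (nat_lit 5) (nat_lit 35) (nat_lit 5) (nat_lit 36) (nat_lit 5) (nat_lit 346) (nat_lit 248) (nat_lit 186)))) (XT.nd (nat_lit 156) (nat_lit 76) (nat_lit 0) (XT.nd (nat_lit 78) (nat_lit 76) (nat_lit 0) (XT.lf (nat_lit 0) (nat_lit 11421515266) (nat_lit 228) (nat_lit 5312204154) (nat_lit 76) (nat_lit 3099882227) (nat_lit 33) (nat_lit 5) (nat_lit 36) (nat_lit 5) (nat_lit 34) (nat_lit 4) (nat_lit 347) (nat_lit 248) (nat_lit 185)) (XT.lf (nat_lit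 0) (nat_lit 3130008011) (nat_lit 76) (nat_lit 12525423869) (nat_lit 152) (nat_lit 4625262719) (nat_lit 32) (nat_lit 5) (nat_lit 33) (nat_lit 5) (nat_lit 34) (nat_lit 4) (nat_lit 348) (nat_lit 248) (nat_lit 184))) (XT.nd (nat_lit 78) (nat_lit 76) (nat_lit 0) (XT.lf (nat_lit 0) (nat_lit 11874985659) (nat_lit 76) (nat_lit 8161318353) (nat_lit 152) (nat_lit 704309771) (nat_lit 32) (nat_lit 5) (nat_lit 33) (nat_lit 5) (nat_lit 34) (nat_lit 4) (nat_lit 349) (nat_lit 248) (nat_lit 183)) (XT.lf (nat_lit 0) (nat_lit 3236149960) (nat_lit 152) (nat_lit 422403691) (nat_lit 76) (nat_lit 17555818022) (nat_lit 31) (nat_lit 5) (nat_lit 33) (nat_lit 5) (nat_lit 32) (nat_lit 5) (nat_lit 350) (nat_lit 248) (nat_lit 182))))) (XT.nd (nat_lit 312) (nat_lit 304) (nat_lit 0) (XT.nd (nat_lit 156) (nat_lit 76) (nat_lit 0) (XT.nd (nat_lit 78) (nat_lit 0) (nat_lit 0) (XT.lf (nat_lit 0) (nat_lit 7339111145) (nat_lit 228) (nat_lit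 13336821733) (nat_lit 76) (nat_lit 1024457515) (nat_lit 29) (nat_lit 5) (nat_lit 32) (nat_lit 5) (nat_lit 30) (nat_lit 4) (nat_lit 351) (nat_lit 248) (nat_lit 181)) (XT.lf (nat_lit 0) (nat_lit 11573758228) (nat_lit 228) (nat_lit 4872155518) (nat_lit 76) (nat_lit 5754828306) (nat_lit 29) (nat_lit 5) (nat_lit 32) (nat_lit 5) (nat_lit 30) (nat_lit 4) (nat_lit 352) (nat_lit 248) (nat_lit 180))) (XT.nd (nat_lit 78) (nat_lit 0) (nat_lit 0) (XT.lf (nat_lit 0) (nat_lit 3866752210) (nat_lit 76) (nat_lit 12074858295) (nat_lit 152) (nat_lit 6774318776) (nat_lit 28) (nat_lit 5) (nat_lit 29) (nat_lit 5) (nat_lit 30) (nat_lit 4) (nat_lit 353) (nat_lit 248) (nat_lit 179)) (XT.lf (nat_lit 0) (nat_lit 12913089559) (nat_lit 76) (nat_lit 7545982260) (nat_lit 152) (nat_lit 2786952802) (nat_lit 28) (nat_lit 5) (nat_lit 29) (nat_lit 5) (nat_lit 30) (nat_lit 4) (nat_lit 354) (nat_lit 248) (nat_lit 178)))) (XT.nd (nat_lit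 156) (nat_lit 76) (nat_lit 0) (XT.nd (nat_lit 78) (nat_lit 152) (nat_lit 0) (XT.lf (nat_lit 0) (nat_lit 1264238165) (nat_lit 152) (nat_lit 1627523098) (nat_lit 76) (nat_lit 20900791156) (nat_lit 27) (nat_lit 5) (nat_lit 29) (nat_lit 5) (nat_lit 28) (nat_lit 5) (nat_lit 355) (nat_lit 248) (nat_lit 177)) (XT.lf (nat_lit 0) (nat_lit 5441999599) (nat_lit 228) (nat_lit 16968571178) (nat_lit 76) (nat_lit 1942254852) (nat_lit 25) (nat_lit 5) (nat_lit 28) (nat_lit 5) (nat_lit 26) (nat_lit 4) (nat_lit 356) (nat_lit 248) (nat_lit 176))) (XT.nd (nat_lit 78) (nat_lit 76) (nat_lit 0) (XT.lf (nat_lit 0) (nat_lit 9761295345) (nat_lit 228) (nat_lit 8310670158) (nat_lit 76) (nat_lit 6857464105) (nat_lit 25) (nat_lit 5) (nat_lit 28) (nat_lit 5) (nat_lit 26) (nat_lit 4) (nat_lit 357) (nat_lit 248) (nat_lit 175)) (XT.lf (nat_lit 0) (nat_lit 567349505) (nat_lit 76) (nat_lit 13620092283) (nat_lit 152) (nat_lit 11336580133)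 (nat_lit 24) (nat_lit 5) (nat_lit 25) (nat_lit 5) (nat_lit 26) (nat_lit 4) (nat_lit 358) (nat_lit 248) (nat_lit 174))))))))
noncomputable def xc74 : XT := (XT.nd (nat_lit 2184) (nat_lit 380) (nat_lit 0) (XT.nd (nat_lit 1092) (nat_lit 380) (nat_lit 0) (XT.nd (nat_lit 546) (nat_lit 228) (nat_lit 0) (XT.nd (nat_lit 234) (nat_lit 76) (nat_lit 0) (XT.nd (nat_lit 78) (nat_lit 228) (nat_lit 0) (XT.lf (nat_lit 0) (nat_lit 9831877884) (nat_lit 76) (nat_lit 8970572679) (nat_lit 152) (nat_lit 7332327226) (nat_lit 24) (nat_lit 5) (nat_lit 25) (nat_lit 5) (nat_lit 26) (nat_lit 4) (nat_lit 359) (nat_lit 248) (nat_lit 173)) (XT.nd (nat_lit 78) (nat_lit 228) (nat_lit 0) (XT.lf (nat_lit 0) (nat_lit 19325611566) (nat_lit 76) (nat_lit 4203265476) (nat_lit 152) (nat_lit 3235798155) (nat_lit 24) (nat_lit 5) (nat_lit 25) (nat_lit 5) (nat_lit 26) (nat_lit 4) (nat_lit 360) (nat_lit 248) (nat_lit 172)) (XT.lf (nat_lit 0)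 (nat_lit 960777508) (nat_lit 228) (nat_lit 25754458275) (nat_lit 76) (nat_lit 698067178) (nat_lit 21) (nat_lit 5) (nat_lit 24) (nat_lit 5) (nat_lit 22) (nat_lit 4) (nat_lit 361) (nat_lit 248) (nat_lit 171)))) (XT.nd (nat_lit 156) (nat_lit 76) (nat_lit 0) (XT.nd (nat_lit 78) (nat_lit 0) (nat_lit 0) (XT.lf (nat_lit 0) (nat_lit 5309294930) (nat_lit 228) (nat_lit 17019316750) (nat_lit 76) (nat_lit 5749091544) (nat_lit 21) (nat_lit 5) (nat_lit 24) (nat_lit 5) (nat_lit 22) (nat_lit 4) (nat_lit 362) (nat_lit 248) (nat_lit 170)) (XT.lf (nat_lit 0) (nat_lit 9762637407) (nat_lit 228) (nat_lit 8068690590) (nat_lit 76) (nat_lit 10931483419) (nat_lit 21) (nat_lit 5) (nat_lit 24) (nat_lit 5) (nat_lit 22) (nat_lit 4) (nat_lit 363) (nat_lit 248) (nat_lit 169))) (XT.nd (nat_lit 78) (nat_lit 0) (nat_lit 0) (XT.lf (nat_lit 0) (nat_lit 1127237604) (nat_lit 76) (nat_lit 13208294302) (nat_lit 152) (nat_lit 15133369199)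 (nat_lit 20) (nat_lit 5) (nat_lit 21) (nat_lit 5) (nat_lit 22) (nat_lit 4) (nat_lit 364) (nat_lit 248) (nat_lit 168)) (XT.lf (nat_lit 0) (nat_lit 10719673944) (nat_lit 76) (nat_lit 8382827722) (nat_lit 152) (nat_lit 11091971773) (nat_lit 20) (nat_lit 5) (nat_lit 21) (nat_lit 5) (nat_lit 22) (nat_lit 4) (nat_lit 365) (nat_lit 248) (nat_lit 167))))) (XT.nd (nat_lit 234) (nat_lit 76) (nat_lit 0) (XT.nd (nat_lit 78) (nat_lit 152) (nat_lit 0) (XT.lf (nat_lit 0) (nat_lit 20556417404) (nat_lit 76) (nat_lit 3432189783) (nat_lit 152) (nat_lit 6953928367) (nat_lit 20) (nat_lit 5) (nat_lit 21) (nat_lit 5) (nat_lit 22) (nat_lit 4) (nat_lit 366) (nat_lit 248) (nat_lit 166)) (XT.nd (nat_lit 78) (nat_lit 152) (nat_lit 0) (XT.lf (nat_lit 0) (nat_lit 29013958944) (nat_lit 152) (nat_lit 1083518960) (nat_lit 0) (nat_lit 1615787965) (nat_lit 20) (nat_lit 5) (nat_lit 22) (nat_lit 4) (nat_lit 20) (nat_lit 4) (nat_lit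 367) (nat_lit 248) (nat_lit 165)) (XT.lf (nat_lit 0) (nat_lit 1744913386) (nat_lit 152) (nat_lit 23931084862) (nat_lit 76) (nat_lit 6827796364) (nat_lit 18) (nat_lit 5) (nat_lit 20) (nat_lit 5) (nat_lit 19) (nat_lit 4) (nat_lit 368) (nat_lit 248) (nat_lit 164)))) (XT.nd (nat_lit 156) (nat_lit 76) (nat_lit 0) (XT.nd (nat_lit 78) (nat_lit 0) (nat_lit 0) (XT.lf (nat_lit 0) (nat_lit 6256614376) (nat_lit 152) (nat_lit 14845232881) (nat_lit 76) (nat_lit 12215743662) (nat_lit 18) (nat_lit 5) (nat_lit 20) (nat_lit 5) (nat_lit 19) (nat_lit 4) (nat_lit 369) (nat_lit 248) (nat_lit 163)) (XT.lf (nat_lit 0) (nat_lit 10881683595) (nat_lit 152) (nat_lit 5527120063) (nat_lit 76) (nat_lit 17747662473) (nat_lit 18) (nat_lit 5) (nat_lit 20) (nat_lit 5) (nat_lit 19) (nat_lit 4) (nat_lit 370) (nat_lit 248) (nat_lit 162))) (XT.nd (nat_lit 78) (nat_lit 0) (nat_lit 0) (XT.lf (nat_lit 0) (nat_lit 4111628310) (nat_lit 76)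 (nat_lit 11552057543) (nat_lit 152) (nat_lit 19356281688) (nat_lit 17) (nat_lit 5) (nat_lit 18) (nat_lit 5) (nat_lit 19) (nat_lit 4) (nat_lit 371) (nat_lit 248) (nat_lit 161)) (XT.lf (nat_lit 0) (nat_lit 14114082902) (nat_lit 76) (nat_lit 6509784901) (nat_lit 152) (nat_lit 15284469816) (nat_lit 17) (nat_lit 5) (nat_lit 18) (nat_lit 5) (nat_lit 19) (nat_lit 4) (nat_lit 372) (nat_lit 248) (nat_lit 160)))))) (XT.nd (nat_lit 546) (nat_lit 152) (nat_lit 0) (XT.nd (nat_lit 234) (nat_lit 152) (nat_lit 0) (XT.nd (nat_lit 78) (nat_lit 76) (nat_lit 0) (XT.lf (nat_lit 0) (nat_lit 24378983193) (nat_lit 76) (nat_lit 1333392940) (nat_lit 152) (nat_lit 11111602102) (nat_lit 17) (nat_lit 5) (nat_lit 18) (nat_lit 5) (nat_lit 19) (nat_lit 4) (nat_lit 373) (nat_lit 248) (nat_lit 159)) (XT.nd (nat_lit 78) (nat_lit 76) (nat_lit 0) (XT.lf (nat_lit 0) (nat_lit 30971931086) (nat_lit 152) (nat_lit 2890664921) (nat_lit 0)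 (nat_lit 3903945236) (nat_lit 17) (nat_lit 5) (nat_lit 19) (nat_lit 4) (nat_lit 17) (nat_lit 4) (nat_lit 374) (nat_lit 248) (nat_lit 158)) (XT.lf (nat_lit 0) (nat_lit 7038544105) (nat_lit 76) (nat_lit 29412130406) (nat_lit 76) (nat_lit 2284869349) (nat_lit 16) (nat_lit 4) (nat_lit 17) (nat_lit 5) (nat_lit 17) (nat_lit 4) (nat_lit 375) (nat_lit 248) (nat_lit 157)))) (XT.nd (nat_lit 156) (nat_lit 76) (nat_lit 0) (XT.nd (nat_lit 78) (nat_lit 0) (nat_lit 0) (XT.lf (nat_lit 0) (nat_lit 2324158680) (nat_lit 152) (nat_lit 22466767679) (nat_lit 76) (nat_lit 14941712565) (nat_lit 15) (nat_lit 5) (nat_lit 17) (nat_lit 5) (nat_lit 16) (nat_lit 4) (nat_lit 376) (nat_lit 248) (nat_lit 156)) (XT.lf (nat_lit 0) (nat_lit 7006671059) (nat_lit 152) (nat_lit 13017140116) (nat_lit 76) (nat_lit 20735727243) (nat_lit 15) (nat_lit 5) (nat_lit 17) (nat_lit 5) (nat_lit 16) (nat_lit 4) (nat_lit 377) (nat_lit 248) (nat_lit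 155))) (XT.nd (nat_lit 78) (nat_lit 76) (nat_lit 0) (XT.lf (nat_lit 0) (nat_lit 11811345334) (nat_lit 152) (nat_lit 3317896549) (nat_lit 76) (nat_lit 26688556659) (nat_lit 15) (nat_lit 5) (nat_lit 17) (nat_lit 5) (nat_lit 16) (nat_lit 4) (nat_lit 378) (nat_lit 248) (nat_lit 154)) (XT.lf (nat_lit 0) (nat_lit 6771575924) (nat_lit 76) (nat_lit 10035896369) (nat_lit 152) (nat_lit 26098918921) (nat_lit 14) (nat_lit 5) (nat_lit 15) (nat_lit 5) (nat_lit 16) (nat_lit 4) (nat_lit 379) (nat_lit 248) (nat_lit 153))))) (XT.nd (nat_lit 234) (nat_lit 152) (nat_lit 0) (XT.nd (nat_lit 78) (nat_lit 0) (nat_lit 0) (XT.lf (nat_lit 0) (nat_lit 17199182377) (nat_lit 76) (nat_lit 4770229703) (nat_lit 152) (nat_lit 22057755711) (nat_lit 14) (nat_lit 5) (nat_lit 15) (nat_lit 5) (nat_lit 16) (nat_lit 4) (nat_lit 380) (nat_lit 248) (nat_lit 152)) (XT.nd (nat_lit 78) (nat_lit 0) (nat_lit 0) (XT.lf (nat_lit 0) (nat_lit 27275287795)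 (nat_lit 152) (nat_lit 17280222846) (nat_lit 0) (nat_lit 626388572) (nat_lit 14) (nat_lit 5) (nat_lit 16) (nat_lit 4) (nat_lit 14) (nat_lit 4) (nat_lit 381) (nat_lit 248) (nat_lit 151)) (XT.lf (nat_lit 0) (nat_lit 32770867628) (nat_lit 152) (nat_lit 7524316872) (nat_lit 0) (nat_lit 6075176010) (nat_lit 14) (nat_lit 5) (nat_lit 16) (nat_lit 4) (nat_lit 14) (nat_lit 4) (nat_lit 382) (nat_lit 248) (nat_lit 150)))) (XT.nd (nat_lit 156) (nat_lit 76) (nat_lit 0) (XT.nd (nat_lit 78) (nat_lit 0) (nat_lit 0) (XT.lf (nat_lit 0) (nat_lit 2543749159) (nat_lit 76) (nat_lit 35895802090) (nat_lit 76) (nat_lit 9154680962) (nat_lit 13) (nat_lit 4) (nat_lit 14) (nat_lit 5) (nat_lit 14) (nat_lit 4) (nat_lit 383) (nat_lit 248) (nat_lit 149)) (XT.lf (nat_lit 0) (nat_lit 13038239099) (nat_lit 76) (nat_lit 31300006726) (nat_lit 76) (nat_lit 4514779277) (nat_lit 13) (nat_lit 4) (nat_lit 14) (nat_lit 5) (nat_lit 14) (nat_lit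 4) (nat_lit 384) (nat_lit 248) (nat_lit 148))) (XT.nd (nat_lit 78) (nat_lit 0) (nat_lit 0) (XT.lf (nat_lit 0) (nat_lit 243440661) (nat_lit 152) (nat_lit 26333864575) (nat_lit 76) (nat_lit 23572675293) (nat_lit 12) (nat_lit 5) (nat_lit 14) (nat_lit 5) (nat_lit 13) (nat_lit 4) (nat_lit 385) (nat_lit 248) (nat_lit 147)) (XT.lf (nat_lit 0) (nat_lit 5038401526) (nat_lit 152) (nat_lit 16641668458) (nat_lit 76) (nat_lit 29804894756) (nat_lit 12) (nat_lit 5) (nat_lit 14) (nat_lit 5) (nat_lit 13) (nat_lit 4) (nat_lit 386) (nat_lit 248) (nat_lit 146))))))) (XT.nd (nat_lit 1092) (nat_lit 76) (nat_lit 0) (XT.nd (nat_lit 546) (nat_lit 228) (nat_lit 0) (XT.nd (nat_lit 234) (nat_lit 0) (nat_lit 0) (XT.nd (nat_lit 78) (nat_lit 76) (nat_lit 0) (XT.lf (nat_lit 0) (nat_lit 9962392692) (nat_lit 152) (nat_lit 6686329921) (nat_lit 76) (nat_lit 36211723573) (nat_lit 12) (nat_lit 5) (nat_lit 14) (nat_lit 5) (nat_lit 13)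 (nat_lit 4) (nat_lit 387) (nat_lit 248) (nat_lit 145)) (XT.nd (nat_lit 78) (nat_lit 0) (nat_lit 0) (XT.lf (nat_lit 0) (nat_lit 3611319729) (nat_lit 76) (nat_lit 11443111163) (nat_lit 152) (nat_lit 39222154430) (nat_lit 11) (nat_lit 5) (nat_lit 12) (nat_lit 5) (nat_lit 13) (nat_lit 4) (nat_lit 388) (nat_lit 248) (nat_lit 144)) (XT.lf (nat_lit 0) (nat_lit 14328406110) (nat_lit 76) (nat_lit 6024119797) (nat_lit 152) (nat_lit 35381086826) (nat_lit 11) (nat_lit 5) (nat_lit 12) (nat_lit 5) (nat_lit 13) (nat_lit 4) (nat_lit 389) (nat_lit 248) (nat_lit 143)))) (XT.nd (nat_lit 156) (nat_lit 0) (nat_lit 0) (XT.nd (nat_lit 78) (nat_lit 0) (nat_lit 0) (XT.lf (nat_lit 0) (nat_lit 25341222591) (nat_lit 76) (nat_lit 454532296) (nat_lit 152) (nat_lit 31439013234) (nat_lit 11) (nat_lit 5) (nat_lit 12) (nat_lit 5) (nat_lit 13) (nat_lit 4) (nat_lit 390) (nat_lit 248) (nat_lit 142)) (XT.lf (nat_lit 0) (nat_lit 31439537496)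 (nat_lit 152) (nat_lit 22172634598) (nat_lit 0) (nat_lit 5167671179) (nat_lit 11) (nat_lit 5) (nat_lit 13) (nat_lit 4) (nat_lit 11) (nat_lit 4) (nat_lit 391) (nat_lit 248) (nat_lit 141))) (XT.nd (nat_lit 78) (nat_lit 0) (nat_lit 0) (XT.lf (nat_lit 0) (nat_lit 37244009212) (nat_lit 152) (nat_lit 12189183845) (nat_lit 0) (nat_lit 10938339073) (nat_lit 11) (nat_lit 5) (nat_lit 13) (nat_lit 4) (nat_lit 11) (nat_lit 4) (nat_lit 392) (nat_lit 248) (nat_lit 140)) (XT.lf (nat_lit 0) (nat_lit 43209872662) (nat_lit 152) (nat_lit 1930100627) (nat_lit 0) (nat_lit 16871383278) (nat_lit 11) (nat_lit 5) (nat_lit 13) (nat_lit 4) (nat_lit 11) (nat_lit 4) (nat_lit 393) (nat_lit 248) (nat_lit 139))))) (XT.nd (nat_lit 234) (nat_lit 152) (nat_lit 0) (XT.nd (nat_lit 78) (nat_lit 0) (nat_lit 0) (XT.lf (nat_lit 0) (nat_lit 8785006422) (nat_lit 76) (nat_lit 40641781172) (nat_lit 76) (nat_lit 14271428443) (nat_lit 10) (nat_lit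 4) (nat_lit 11) (nat_lit 5) (nat_lit 11) (nat_lit 4) (nat_lit 394) (nat_lit 248) (nat_lit 138)) (XT.nd (nat_lit 78) (nat_lit 0) (nat_lit 0) (XT.lf (nat_lit 0) (nat_lit 19838183283) (nat_lit 76) (nat_lit 35999285375) (nat_lit 76) (nat_lit 9597997361) (nat_lit 10) (nat_lit 4) (nat_lit 11) (nat_lit 5) (nat_lit 11) (nat_lit 4) (nat_lit 395) (nat_lit 248) (nat_lit 137)) (XT.lf (nat_lit 0) (nat_lit 31200675286) (nat_lit 76) (nat_lit 31227919582) (nat_lit 76) (nat_lit 4796597310) (nat_lit 10) (nat_lit 4) (nat_lit 11) (nat_lit 5) (nat_lit 11) (nat_lit 4) (nat_lit 396) (nat_lit 248) (nat_lit 136)))) (XT.nd (nat_lit 156) (nat_lit 76) (nat_lit 0) (XT.nd (nat_lit 78) (nat_lit 0) (nat_lit 0) (XT.lf (nat_lit 0) (nat_lit 134294385) (nat_lit 152) (nat_lit 26187864143) (nat_lit 76) (nat_lit 42746760325) (nat_lit 9) (nat_lit 5) (nat_lit 11) (nat_lit 5) (nat_lit 10) (nat_lit 4) (nat_lit 397) (nat_lit 248) (nat_lit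 135)) (XT.lf (nat_lit 0) (nat_lit 5105399315) (nat_lit 152) (nat_lit 16124831303) (nat_lit 76) (nat_lit 49736643391) (nat_lit 9) (nat_lit 5) (nat_lit 11) (nat_lit 5) (nat_lit 10) (nat_lit 4) (nat_lit 398) (nat_lit 248) (nat_lit 134))) (XT.nd (nat_lit 78) (nat_lit 76) (nat_lit 0) (XT.lf (nat_lit 0) (nat_lit 10214660054) (nat_lit 152) (nat_lit 5780517604) (nat_lit 76) (nat_lit 56926921630) (nat_lit 9) (nat_lit 5) (nat_lit 11) (nat_lit 5) (nat_lit 10) (nat_lit 4) (nat_lit 399) (nat_lit 248) (nat_lit 133)) (XT.lf (nat_lit 0) (nat_lit 4950722094) (nat_lit 76) (nat_lit 10563408279) (nat_lit 152) (nat_lit 59420745086) (nat_lit 8) (nat_lit 5) (nat_lit 9) (nat_lit 5) (nat_lit 10) (nat_lit 4) (nat_lit 400) (nat_lit 248) (nat_lit 132)))))) (XT.nd (nat_lit 546) (nat_lit 76) (nat_lit 0) (XT.nd (nat_lit 234) (nat_lit 0) (nat_lit 0) (XT.nd (nat_lit 78) (nat_lit 0) (nat_lit 0) (XT.lf (nat_lit 0) (nat_lit 16102580272)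 (nat_lit 76) (nat_lit 4917838768) (nat_lit 152) (nat_lit 55986182873) (nat_lit 8) (nat_lit 5) (nat_lit 9) (nat_lit 5) (nat_lit 10) (nat_lit 4) (nat_lit 401) (nat_lit 248) (nat_lit 131)) (XT.nd (nat_lit 78) (nat_lit 0) (nat_lit 0) (XT.lf (nat_lit 0) (nat_lit 26690202516) (nat_lit 152) (nat_lit 51579568297) (nat_lit 0) (nat_lit 870762129) (nat_lit 8) (nat_lit 5) (nat_lit 10) (nat_lit 4) (nat_lit 8) (nat_lit 4) (nat_lit 402) (nat_lit 248) (nat_lit 130)) (XT.lf (nat_lit 0) (nat_lit 32568754169) (nat_lit 152) (nat_lit 42042964940) (nat_lit 0) (nat_lit 6725604461) (nat_lit 8) (nat_lit 5) (nat_lit 10) (nat_lit 4) (nat_lit 8) (nat_lit 4) (nat_lit 403) (nat_lit 248) (nat_lit 129)))) (XT.nd (nat_lit 156) (nat_lit 0) (nat_lit 0) (XT.nd (nat_lit 78) (nat_lit 0) (nat_lit 0) (XT.lf (nat_lit 0) (nat_lit 38613937323) (nat_lit 152) (nat_lit 32238605341) (nat_lit 0) (nat_lit 12747768858) (nat_lit 8) (nat_lit 5) (nat_lit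 10) (nat_lit 4) (nat_lit 8) (nat_lit 4) (nat_lit 404) (nat_lit 248) (nat_lit 128)) (XT.lf (nat_lit 0) (nat_lit 44831034178) (nat_lit 152) (nat_lit 22157922583) (nat_lit 0) (nat_lit 18942517404) (nat_lit 8) (nat_lit 5) (nat_lit 10) (nat_lit 4) (nat_lit 8) (nat_lit 4) (nat_lit 405) (nat_lit 248) (nat_lit 127))) (XT.nd (nat_lit 78) (nat_lit 0) (nat_lit 0) (XT.lf (nat_lit 0) (nat_lit 51225477148) (nat_lit 152) (nat_lit 11792108304) (nat_lit 0) (nat_lit 25315262987) (nat_lit 8) (nat_lit 5) (nat_lit 10) (nat_lit 4) (nat_lit 8) (nat_lit 4) (nat_lit 406) (nat_lit 248) (nat_lit 126)) (XT.lf (nat_lit 0) (nat_lit 57802853610) (nat_lit 152) (nat_lit 1132104996) (nat_lit 0) (nat_lit 31871574024) (nat_lit 8) (nat_lit 5) (nat_lit 10) (nat_lit 4) (nat_lit 8) (nat_lit 4) (nat_lit 407) (nat_lit 248) (nat_lit 125))))) (XT.nd (nat_lit 312) (nat_lit 0) (nat_lit 0) (XT.nd (nat_lit 156) (nat_lit 0) (nat_lit 0) (XT.nd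 (nat_lit 78) (nat_lit 0) (nat_lit 0) (XT.lf (nat_lit 0) (nat_lit 10027066082) (nat_lit 76) (nat_lit 54638230997) (nat_lit 76) (nat_lit 28686499543) (nat_lit 7) (nat_lit 4) (nat_lit 8) (nat_lit 5) (nat_lit 8) (nat_lit 4) (nat_lit 408) (nat_lit 248) (nat_lit 124)) (XT.lf (nat_lit 0) (nat_lit 21528082602) (nat_lit 76) (nat_lit 50208419263) (nat_lit 76) (nat_lit 24236831627) (nat_lit 7) (nat_lit 4) (nat_lit 8) (nat_lit 5) (nat_lit 8) (nat_lit 4) (nat_lit 409) (nat_lit 248) (nat_lit 123))) (XT.nd (nat_lit 78) (nat_lit 0) (nat_lit 0) (XT.lf (nat_lit 0) (nat_lit 33358462885) (nat_lit 76) (nat_lit 45653084737) (nat_lit 76) (nat_lit 19662219253) (nat_lit 7) (nat_lit 4) (nat_lit 8) (nat_lit 5) (nat_lit 8) (nat_lit 4) (nat_lit 410) (nat_lit 248) (nat_lit 122)) (XT.lf (nat_lit 0) (nat_lit 45528544157) (nat_lit 76) (nat_lit 40968247029) (nat_lit 76) (nat_lit 14958665188) (nat_lit 7) (nat_lit 4) (nat_lit 8) (nat_lit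 5) (nat_lit 8) (nat_lit 4) (nat_lit 411) (nat_lit 248) (nat_lit 121)))) (XT.nd (nat_lit 30576) (nat_lit 0) (nat_lit 17176) (XT.nd (nat_lit 30498) (nat_lit 0) (nat_lit 18240) (XT.lf (nat_lit 0) (nat_lit 58048960469) (nat_lit 76) (nat_lit 36149812592) (nat_lit 76) (nat_lit 10122059530) (nat_lit 7) (nat_lit 4) (nat_lit 8) (nat_lit 5) (nat_lit 8) (nat_lit 4) (nat_lit 412) (nat_lit 248) (nat_lit 120)) (XT.lf (nat_lit 0) (nat_lit 1071592965) (nat_lit 988) (nat_lit 1350398424) (nat_lit 0) (nat_lit 1071592965) (nat_lit 247) (nat_lit 5) (nat_lit 260) (nat_lit 4) (nat_lit 247) (nat_lit 4) (nat_lit 282) (nat_lit 249) (nat_lit 249))) (XT.nd (nat_lit 78) (nat_lit 76) (nat_lit 0) (XT.lf (nat_lit 0) (nat_lit 1967590928) (nat_lit 988) (nat_lit 3423244608) (nat_lit 988) (nat_lit 1648426225) (nat_lit 234) (nat_lit 4) (nat_lit 247) (nat_lit 5) (nat_lit 247) (nat_lit 4) (nat_lit 283) (nat_lit 249) (nat_lit 248)) (XT.lf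 (nat_lit 0) (nat_lit 1540020012) (nat_lit 1064) (nat_lit 371702400) (nat_lit 76) (nat_lit 5182983559) (nat_lit 233) (nat_lit 5) (nat_lit 247) (nat_lit 5) (nat_lit 234) (nat_lit 4) (nat_lit 284) (nat_lit 249) (nat_lit 247))))))))
noncomputable def xc75 : XT := (XT.nd (nat_lit 2184) (nat_lit 4028) (nat_lit 0) (XT.nd (nat_lit 1092) (nat_lit 3648) (nat_lit 0) (XT.nd (nat_lit 546) (nat_lit 2660) (nat_lit 0) (XT.nd (nat_lit 234) (nat_lit 2052) (nat_lit 0) (XT.nd (nat_lit 78) (nat_lit 1216) (nat_lit 0) (XT.lf (nat_lit 0) (nat_lit 4447563588) (nat_lit 1064) (nat_lit 290585752) (nat_lit 1140) (nat_lit 2414890453) (nat_lit 219) (nat_lit 5) (nat_lit 233) (nat_lit 5) (nat_lit 234) (nat_lit 4) (nat_lit 285) (nat_lit 249) (nat_lit 246)) (XT.nd (nat_lit 78) (nat_lit 0) (nat_lit 0) (XT.lf (nat_lit 0) (nat_lit 746396624) (nat_lit 1216) (nat_lit 5081989428) (nat_lit 76) (nat_lit 1386326184) (nat_lit 203) (nat_lit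 5) (nat_lit 219) (nat_lit 5) (nat_lit 204) (nat_lit 4) (nat_lit 286) (nat_lit 249) (nat_lit 245)) (XT.lf (nat_lit 0) (nat_lit 3891592968) (nat_lit 1216) (nat_lit 228214778) (nat_lit 76) (nat_lit 3159701251) (nat_lit 203) (nat_lit 5) (nat_lit 219) (nat_lit 5) (nat_lit 204) (nat_lit 4) (nat_lit 287) (nat_lit 249) (nat_lit 244)))) (XT.nd (nat_lit 156) (nat_lit 608) (nat_lit 0) (XT.nd (nat_lit 78) (nat_lit 684) (nat_lit 0) (XT.lf (nat_lit 0) (nat_lit 4771793284) (nat_lit 760) (nat_lit 2315065948) (nat_lit 836) (nat_lit 260835187) (nat_lit 193) (nat_lit 5) (nat_lit 203) (nat_lit 5) (nat_lit 204) (nat_lit 4) (nat_lit 288) (nat_lit 249) (nat_lit 243)) (XT.lf (nat_lit 0) (nat_lit 2434169658) (nat_lit 608) (nat_lit 404457273) (nat_lit 684) (nat_lit 4580464458) (nat_lit 184) (nat_lit 5) (nat_lit 192) (nat_lit 5) (nat_lit 193) (nat_lit 5) (nat_lit 289) (nat_lit 249) (nat_lit 242))) (XT.nd (nat_lit 78) (nat_lit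 76) (nat_lit 0) (XT.lf (nat_lit 0) (nat_lit 43220396) (nat_lit 532) (nat_lit 5936594873) (nat_lit 608) (nat_lit 1514224299) (nat_lit 177) (nat_lit 5) (nat_lit 184) (nat_lit 5) (nat_lit 185) (nat_lit 4) (nat_lit 290) (nat_lit 249) (nat_lit 241)) (XT.lf (nat_lit 0) (nat_lit 1579729897) (nat_lit 608) (nat_lit 2361787873) (nat_lit 76) (nat_lit 3630310327) (nat_lit 176) (nat_lit 5) (nat_lit 184) (nat_lit 5) (nat_lit 177) (nat_lit 5) (nat_lit 291) (nat_lit 249) (nat_lit 240))))) (XT.nd (nat_lit 234) (nat_lit 1520) (nat_lit 0) (XT.nd (nat_lit 78) (nat_lit 608) (nat_lit 0) (XT.lf (nat_lit 0) (nat_lit 2826733714) (nat_lit 532) (nat_lit 1852008246) (nat_lit 608) (nat_lit 2974575641) (nat_lit 169) (nat_lit 5) (nat_lit 176) (nat_lit 5) (nat_lit 177) (nat_lit 5) (nat_lit 292) (nat_lit 249) (nat_lit 239)) (XT.nd (nat_lit 78) (nat_lit 0) (nat_lit 0) (XT.lf (nat_lit 0) (nat_lit 77983580) (nat_lit 608) (nat_lit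 7347278381) (nat_lit 76) (nat_lit 313629586) (nat_lit 161) (nat_lit 5) (nat_lit 169) (nat_lit 5) (nat_lit 162) (nat_lit 5) (nat_lit 293) (nat_lit 249) (nat_lit 238)) (XT.lf (nat_lit 0) (nat_lit 3147492020) (nat_lit 608) (nat_lit 2104266800) (nat_lit 76) (nat_lit 2574924643) (nat_lit 161) (nat_lit 5) (nat_lit 169) (nat_lit 5) (nat_lit 162) (nat_lit 5) (nat_lit 294) (nat_lit 249) (nat_lit 237)))) (XT.nd (nat_lit 156) (nat_lit 456) (nat_lit 0) (XT.nd (nat_lit 78) (nat_lit 532) (nat_lit 0) (XT.lf (nat_lit 0) (nat_lit 3266849037) (nat_lit 532) (nat_lit 2993639776) (nat_lit 608) (nat_lit 1658164677) (nat_lit 154) (nat_lit 5) (nat_lit 161) (nat_lit 5) (nat_lit 162) (nat_lit 5) (nat_lit 295) (nat_lit 249) (nat_lit 236)) (XT.lf (nat_lit 0) (nat_lit 735983085) (nat_lit 456) (nat_lit 638266600) (nat_lit 532) (nat_lit 6640321672) (nat_lit 147) (nat_lit 5) (nat_lit 153) (nat_lit 5) (nat_lit 154) (nat_lit 5)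 (nat_lit 296) (nat_lit 249) (nat_lit 235))) (XT.nd (nat_lit 78) (nat_lit 456) (nat_lit 0) (XT.lf (nat_lit 0) (nat_lit 4450798228) (nat_lit 532) (nat_lit 1860306905) (nat_lit 76) (nat_lit 1802253541) (nat_lit 147) (nat_lit 5) (nat_lit 154) (nat_lit 5) (nat_lit 148) (nat_lit 5) (nat_lit 297) (nat_lit 249) (nat_lit 234)) (XT.lf (nat_lit 0) (nat_lit 3694011794) (nat_lit 456) (nat_lit 3891600688) (nat_lit 532) (nat_lit 630594859) (nat_lit 141) (nat_lit 5) (nat_lit 147) (nat_lit 5) (nat_lit 148) (nat_lit 5) (nat_lit 298) (nat_lit 249) (nat_lit 233)))))) (XT.nd (nat_lit 546) (nat_lit 1444) (nat_lit 0) (XT.nd (nat_lit 234) (nat_lit 1216) (nat_lit 0) (XT.nd (nat_lit 78) (nat_lit 532) (nat_lit 0) (XT.lf (nat_lit 0) (nat_lit 1034619731) (nat_lit 380) (nat_lit 1362653330) (nat_lit 456) (nat_lit 5925614741) (nat_lit 135) (nat_lit 5) (nat_lit 140) (nat_lit 5) (nat_lit 141) (nat_lit 5) (nat_lit 299) (nat_lit 249)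 (nat_lit 232)) (XT.nd (nat_lit 78) (nat_lit 532) (nat_lit 0) (XT.lf (nat_lit 0) (nat_lit 5487158049) (nat_lit 456) (nat_lit 1693343929) (nat_lit 76) (nat_lit 1252634023) (nat_lit 135) (nat_lit 5) (nat_lit 141) (nat_lit 5) (nat_lit 136) (nat_lit 5) (nat_lit 300) (nat_lit 249) (nat_lit 231)) (XT.lf (nat_lit 0) (nat_lit 100703333) (nat_lit 532) (nat_lit 4504906378) (nat_lit 76) (nat_lit 3941711011) (nat_lit 128) (nat_lit 5) (nat_lit 135) (nat_lit 5) (nat_lit 129) (nat_lit 5) (nat_lit 301) (nat_lit 249) (nat_lit 230)))) (XT.nd (nat_lit 156) (nat_lit 836) (nat_lit 0) (XT.nd (nat_lit 78) (nat_lit 0) (nat_lit 0) (XT.lf (nat_lit 0) (nat_lit 1223068610) (nat_lit 380) (nat_lit 1913951742) (nat_lit 456) (nat_lit 5528376521) (nat_lit 123) (nat_lit 5) (nat_lit 128) (nat_lit 5) (nat_lit 129) (nat_lit 5) (nat_lit 302) (nat_lit 249) (nat_lit 229)) (XT.lf (nat_lit 0) (nat_lit 6248050798) (nat_lit 456) (nat_lit 1672196044)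 (nat_lit 76) (nat_lit 867322200) (nat_lit 123) (nat_lit 5) (nat_lit 129) (nat_lit 5) (nat_lit 124) (nat_lit 5) (nat_lit 303) (nat_lit 249) (nat_lit 228))) (XT.nd (nat_lit 78) (nat_lit 380) (nat_lit 0) (XT.lf (nat_lit 0) (nat_lit 519579109) (nat_lit 456) (nat_lit 4674268335) (nat_lit 76) (nat_lit 3719729622) (nat_lit 117) (nat_lit 5) (nat_lit 123) (nat_lit 5) (nat_lit 118) (nat_lit 5) (nat_lit 304) (nat_lit 249) (nat_lit 227)) (XT.lf (nat_lit 0) (nat_lit 1227329081) (nat_lit 380) (nat_lit 2352826254) (nat_lit 456) (nat_lit 5463690406) (nat_lit 112) (nat_lit 5) (nat_lit 117) (nat_lit 5) (nat_lit 118) (nat_lit 5) (nat_lit 305) (nat_lit 249) (nat_lit 226))))) (XT.nd (nat_lit 234) (nat_lit 684) (nat_lit 0) (XT.nd (nat_lit 78) (nat_lit 760) (nat_lit 0) (XT.lf (nat_lit 0) (nat_lit 6718523349) (nat_lit 456) (nat_lit 1872634198) (nat_lit 76) (nat_lit 587341180) (nat_lit 112) (nat_lit 5) (nat_lit 118) (nat_lit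 5) (nat_lit 113) (nat_lit 5) (nat_lit 306) (nat_lit 249) (nat_lit 225)) (XT.nd (nat_lit 78) (nat_lit 304) (nat_lit 0) (XT.lf (nat_lit 0) (nat_lit 620022471) (nat_lit 456) (nat_lit 5103925389) (nat_lit 76) (nat_lit 3593156756) (nat_lit 106) (nat_lit 5) (nat_lit 112) (nat_lit 5) (nat_lit 107) (nat_lit 5) (nat_lit 307) (nat_lit 249) (nat_lit 224)) (XT.lf (nat_lit 0) (nat_lit 965312560) (nat_lit 304) (nat_lit 2741157354) (nat_lit 380) (nat_lit 5753814078) (nat_lit 102) (nat_lit 5) (nat_lit 106) (nat_lit 5) (nat_lit 107) (nat_lit 5) (nat_lit 308) (nat_lit 249) (nat_lit 223)))) (XT.nd (nat_lit 156) (nat_lit 304) (nat_lit 0) (XT.nd (nat_lit 78) (nat_lit 380) (nat_lit 0) (XT.lf (nat_lit 0) (nat_lit 6876657221) (nat_lit 380) (nat_lit 2379132739) (nat_lit 76) (nat_lit 352283695) (nat_lit 102) (nat_lit 5) (nat_lit 107) (nat_lit 5) (nat_lit 103) (nat_lit 5) (nat_lit 309) (nat_lit 249) (nat_lit 222)) (XT.lf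 (nat_lit 0) (nat_lit 376407040) (nat_lit 380) (nat_lit 5883041307) (nat_lit 76) (nat_lit 3500719033) (nat_lit 97) (nat_lit 5) (nat_lit 102) (nat_lit 5) (nat_lit 98) (nat_lit 5) (nat_lit 310) (nat_lit 249) (nat_lit 221))) (XT.nd (nat_lit 78) (nat_lit 0) (nat_lit 0) (XT.lf (nat_lit 0) (nat_lit 344928056) (nat_lit 304) (nat_lit 3143320855) (nat_lit 380) (nat_lit 6428838336) (nat_lit 93) (nat_lit 5) (nat_lit 97) (nat_lit 5) (nat_lit 98) (nat_lit 5) (nat_lit 311) (nat_lit 249) (nat_lit 220)) (XT.lf (nat_lit 0) (nat_lit 6692891309) (nat_lit 380) (nat_lit 3286837448) (nat_lit 76) (nat_lit 99046398) (nat_lit 93) (nat_lit 5) (nat_lit 98) (nat_lit 5) (nat_lit 94) (nat_lit 5) (nat_lit 312) (nat_lit 249) (nat_lit 219))))))) (XT.nd (nat_lit 1092) (nat_lit 1520) (nat_lit 0) (XT.nd (nat_lit 546) (nat_lit 1292) (nat_lit 0) (XT.nd (nat_lit 234) (nat_lit 608) (nat_lit 0) (XT.nd (nat_lit 78) (nat_lit 304) (nat_lit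 0) (XT.lf (nat_lit 0) (nat_lit 3130591046) (nat_lit 304) (nat_lit 6864891906) (nat_lit 380) (nat_lit 249818976) (nat_lit 89) (nat_lit 5) (nat_lit 93) (nat_lit 5) (nat_lit 94) (nat_lit 5) (nat_lit 313) (nat_lit 249) (nat_lit 218)) (XT.nd (nat_lit 78) (nat_lit 228) (nat_lit 0) (XT.lf (nat_lit 0) (nat_lit 2896572974) (nat_lit 380) (nat_lit 723676197) (nat_lit 76) (nat_lit 6796523895) (nat_lit 88) (nat_lit 5) (nat_lit 93) (nat_lit 5) (nat_lit 89) (nat_lit 5) (nat_lit 314) (nat_lit 249) (nat_lit 217)) (XT.lf (nat_lit 0) (nat_lit 5887235697) (nat_lit 228) (nat_lit 244296275) (nat_lit 304) (nat_lit 4461845188) (nat_lit 85) (nat_lit 5) (nat_lit 88) (nat_lit 5) (nat_lit 89) (nat_lit 5) (nat_lit 315) (nat_lit 249) (nat_lit 216)))) (XT.nd (nat_lit 156) (nat_lit 228) (nat_lit 0) (XT.nd (nat_lit 78) (nat_lit 76) (nat_lit 0) (XT.lf (nat_lit 0) (nat_lit 1856415159) (nat_lit 304) (nat_lit 7606642290) (nat_lit 380)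 (nat_lit 1312274182) (nat_lit 81) (nat_lit 5) (nat_lit 85) (nat_lit 5) (nat_lit 86) (nat_lit 5) (nat_lit 316) (nat_lit 249) (nat_lit 215)) (XT.lf (nat_lit 0) (nat_lit 1887971570) (nat_lit 380) (nat_lit 2355696596) (nat_lit 76) (nat_lit 6718738590) (nat_lit 80) (nat_lit 5) (nat_lit 85) (nat_lit 5) (nat_lit 81) (nat_lit 5) (nat_lit 317) (nat_lit 249) (nat_lit 214))) (XT.nd (nat_lit 78) (nat_lit 0) (nat_lit 0) (XT.lf (nat_lit 0) (nat_lit 4394422218) (nat_lit 228) (nat_lit 750786980) (nat_lit 304) (nat_lit 6009908933) (nat_lit 77) (nat_lit 5) (nat_lit 80) (nat_lit 5) (nat_lit 81) (nat_lit 5) (nat_lit 318) (nat_lit 249) (nat_lit 213)) (XT.lf (nat_lit 0) (nat_lit 8497214263) (nat_lit 304) (nat_lit 68496911) (nat_lit 76) (nat_lit 2788021736) (nat_lit 77) (nat_lit 5) (nat_lit 81) (nat_lit 5) (nat_lit 78) (nat_lit 5) (nat_lit 319) (nat_lit 249) (nat_lit 212))))) (XT.nd (nat_lit 234) (nat_lit 760) (nat_lit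 0) (XT.nd (nat_lit 78) (nat_lit 228) (nat_lit 0) (XT.lf (nat_lit 0) (nat_lit 404725076) (nat_lit 304) (nat_lit 4691493514) (nat_lit 76) (nat_lit 6461379569) (nat_lit 73) (nat_lit 5) (nat_lit 77) (nat_lit 5) (nat_lit 74) (nat_lit 5) (nat_lit 320) (nat_lit 249) (nat_lit 211)) (XT.nd (nat_lit 78) (nat_lit 0) (nat_lit 0) (XT.lf (nat_lit 0) (nat_lit 2175565428) (nat_lit 228) (nat_lit 1499903217) (nat_lit 304) (nat_lit 8092220701) (nat_lit 70) (nat_lit 5) (nat_lit 73) (nat_lit 5) (nat_lit 74) (nat_lit 5) (nat_lit 321) (nat_lit 249) (nat_lit 210)) (XT.lf (nat_lit 0) (nat_lit 7061314223) (nat_lit 304) (nat_lit 2741213408) (nat_lit 76) (nat_lit 2181076074) (nat_lit 70) (nat_lit 5) (nat_lit 74) (nat_lit 5) (nat_lit 71) (nat_lit 5) (nat_lit 322) (nat_lit 249) (nat_lit 209)))) (XT.nd (nat_lit 156) (nat_lit 456) (nat_lit 0) (XT.nd (nat_lit 78) (nat_lit 76) (nat_lit 0) (XT.lf (nat_lit 0) (nat_lit 4305060358)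 (nat_lit 228) (nat_lit 6249370988) (nat_lit 304) (nat_lit 1651422223) (nat_lit 67) (nat_lit 5) (nat_lit 70) (nat_lit 5) (nat_lit 71) (nat_lit 5) (nat_lit 323) (nat_lit 249) (nat_lit 208)) (XT.lf (nat_lit 0) (nat_lit 1661668899) (nat_lit 304) (nat_lit 911382682) (nat_lit 76) (nat_lit 9861922918) (nat_lit 66) (nat_lit 5) (nat_lit 70) (nat_lit 5) (nat_lit 67) (nat_lit 5) (nat_lit 324) (nat_lit 249) (nat_lit 207))) (XT.nd (nat_lit 78) (nat_lit 228) (nat_lit 0) (XT.lf (nat_lit 0) (nat_lit 5064968255) (nat_lit 304) (nat_lit 6364925658) (nat_lit 76) (nat_lit 1239890900) (nat_lit 63) (nat_lit 5) (nat_lit 67) (nat_lit 5) (nat_lit 64) (nat_lit 5) (nat_lit 325) (nat_lit 249) (nat_lit 206)) (XT.lf (nat_lit 0) (nat_lit 756404203) (nat_lit 228) (nat_lit 7807544667) (nat_lit 304) (nat_lit 4347908827) (nat_lit 60) (nat_lit 5) (nat_lit 63) (nat_lit 5) (nat_lit 64) (nat_lit 5) (nat_lit 326) (nat_lit 249) (nat_lit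 205)))))) (XT.nd (nat_lit 546) (nat_lit 836) (nat_lit 0) (XT.nd (nat_lit 234) (nat_lit 456) (nat_lit 0) (XT.nd (nat_lit 78) (nat_lit 228) (nat_lit 0) (XT.lf (nat_lit 0) (nat_lit 8144913981) (nat_lit 228) (nat_lit 4039471274) (nat_lit 304) (nat_lit 976337904) (nat_lit 60) (nat_lit 5) (nat_lit 63) (nat_lit 5) (nat_lit 64) (nat_lit 5) (nat_lit 327) (nat_lit 249) (nat_lit 204)) (XT.nd (nat_lit 78) (nat_lit 0) (nat_lit 0) (XT.lf (nat_lit 0) (nat_lit 2282925418) (nat_lit 152) (nat_lit 139808031) (nat_lit 228) (nat_lit 10994372778) (nat_lit 57) (nat_lit 5) (nat_lit 59) (nat_lit 5) (nat_lit 60) (nat_lit 5) (nat_lit 328) (nat_lit 249) (nat_lit 203)) (XT.lf (nat_lit 0) (nat_lit 5946062910) (nat_lit 228) (nat_lit 3899697812) (nat_lit 76) (nat_lit 3833895643) (nat_lit 57) (nat_lit 5) (nat_lit 60) (nat_lit 5) (nat_lit 58) (nat_lit 5) (nat_lit 329) (nat_lit 249) (nat_lit 202)))) (XT.nd (nat_lit 156) (nat_lit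 228) (nat_lit 0) (XT.nd (nat_lit 78) (nat_lit 0) (nat_lit 0) (XT.lf (nat_lit 0) (nat_lit 3545798642) (nat_lit 228) (nat_lit 6019608316) (nat_lit 304) (nat_lit 4384988803) (nat_lit 54) (nat_lit 5) (nat_lit 57) (nat_lit 5) (nat_lit 58) (nat_lit 5) (nat_lit 330) (nat_lit 249) (nat_lit 201)) (XT.lf (nat_lit 0) (nat_lit 11221495680) (nat_lit 228) (nat_lit 2066673467) (nat_lit 304) (nat_lit 941264604) (nat_lit 54) (nat_lit 5) (nat_lit 57) (nat_lit 5) (nat_lit 58) (nat_lit 5) (nat_lit 331) (nat_lit 249) (nat_lit 200))) (XT.nd (nat_lit 78) (nat_lit 0) (nat_lit 0) (XT.lf (nat_lit 0) (nat_lit 2575169716) (nat_lit 228) (nat_lit 9932242959) (nat_lit 76) (nat_lit 2008091678) (nat_lit 51) (nat_lit 5) (nat_lit 54) (nat_lit 5) (nat_lit 52) (nat_lit 5) (nat_lit 332) (nat_lit 249) (nat_lit 199)) (XT.lf (nat_lit 0) (nat_lit 6185941755) (nat_lit 228) (nat_lit 2447675040) (nat_lit 76) (nat_lit 6176047520) (nat_lit 51)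 (nat_lit 5) (nat_lit 54) (nat_lit 5) (nat_lit 52) (nat_lit 5) (nat_lit 333) (nat_lit 249) (nat_lit 198))))) (XT.nd (nat_lit 312) (nat_lit 380) (nat_lit 0) (XT.nd (nat_lit 156) (nat_lit 228) (nat_lit 0) (XT.nd (nat_lit 78) (nat_lit 0) (nat_lit 0) (XT.lf (nat_lit 0) (nat_lit 5294647044) (nat_lit 228) (nat_lit 4619174666) (nat_lit 304) (nat_lit 5198582968) (nat_lit 48) (nat_lit 5) (nat_lit 51) (nat_lit 5) (nat_lit 52) (nat_lit 5) (nat_lit 334) (nat_lit 249) (nat_lit 197)) (XT.lf (nat_lit 0) (nat_lit 13250000483) (nat_lit 228) (nat_lit 486702947) (nat_lit 304) (nat_lit 1688047447) (nat_lit 48) (nat_lit 5) (nat_lit 51) (nat_lit 5) (nat_lit 52) (nat_lit 5) (nat_lit 335) (nat_lit 249) (nat_lit 196))) (XT.nd (nat_lit 78) (nat_lit 0) (nat_lit 0) (XT.lf (nat_lit 0) (nat_lit 1941136511) (nat_lit 228) (nat_lit 10059741291) (nat_lit 76) (nat_lit 3743522721) (nat_lit 45) (nat_lit 5) (nat_lit 48) (nat_lit 5) (nat_lit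 46) (nat_lit 5) (nat_lit 336) (nat_lit 249) (nat_lit 195)) (XT.lf (nat_lit 0) (nat_lit 5631781732) (nat_lit 228) (nat_lit 2338811319) (nat_lit 76) (nat_lit 8102966802) (nat_lit 45) (nat_lit 5) (nat_lit 48) (nat_lit 5) (nat_lit 46) (nat_lit 5) (nat_lit 337) (nat_lit 249) (nat_lit 194)))) (XT.nd (nat_lit 156) (nat_lit 228) (nat_lit 0) (XT.nd (nat_lit 78) (nat_lit 0) (nat_lit 0) (XT.lf (nat_lit 0) (nat_lit 5657630536) (nat_lit 152) (nat_lit 3790596338) (nat_lit 228) (nat_lit 6963931188) (nat_lit 43) (nat_lit 5) (nat_lit 45) (nat_lit 5) (nat_lit 46) (nat_lit 5) (nat_lit 338) (nat_lit 249) (nat_lit 193)) (XT.lf (nat_lit 0) (nat_lit 13368912561) (nat_lit 228) (nat_lit 2890263328) (nat_lit 76) (nat_lit 502061945) (nat_lit 43) (nat_lit 5) (nat_lit 46) (nat_lit 5) (nat_lit 44) (nat_lit 4) (nat_lit 339) (nat_lit 249) (nat_lit 192))) (XT.nd (nat_lit 78) (nat_lit 0) (nat_lit 0) (XT.lf (nat_lit 0) (nat_lit 331005863)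 (nat_lit 228) (nat_lit 11913350495) (nat_lit 76) (nat_lit 4874861166) (nat_lit 40) (nat_lit 5) (nat_lit 43) (nat_lit 5) (nat_lit 41) (nat_lit 5) (nat_lit 340) (nat_lit 249) (nat_lit 191)) (XT.lf (nat_lit 0) (nat_lit 4089516115) (nat_lit 228) (nat_lit 3981779107) (nat_lit 76) (nat_lit 9415898588) (nat_lit 40) (nat_lit 5) (nat_lit 43) (nat_lit 5) (nat_lit 41) (nat_lit 5) (nat_lit 341) (nat_lit 249) (nat_lit 190))))))))
noncomputable def xc76 : XT := (XT.nd (nat_lit 2184) (nat_lit 684) (nat_lit 0) (XT.nd (nat_lit 1092) (nat_lit 760) (nat_lit 0) (XT.nd (nat_lit 546) (nat_lit 380) (nat_lit 0) (XT.nd (nat_lit 234) (nat_lit 228) (nat_lit 0) (XT.nd (nat_lit 78) (nat_lit 152) (nat_lit 0) (XT.lf (nat_lit 0) (nat_lit 4206750018) (nat_lit 152) (nat_lit 3757757468) (nat_lit 228) (nat_lit 9901604370) (nat_lit 38) (nat_lit 5) (nat_lit 40) (nat_lit 5) (nat_lit 41) (nat_lit 5) (nat_lit 342) (nat_lit 249) (nat_lit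 189)) (XT.nd (nat_lit 78) (nat_lit 152) (nat_lit 0) (XT.lf (nat_lit 0) (nat_lit 11966446120) (nat_lit 228) (nat_lit 5602927094) (nat_lit 76) (nat_lit 686717134) (nat_lit 38) (nat_lit 5) (nat_lit 41) (nat_lit 5) (nat_lit 39) (nat_lit 4) (nat_lit 343) (nat_lit 249) (nat_lit 188)) (XT.lf (nat_lit 0) (nat_lit 2648206214) (nat_lit 152) (nat_lit 13467466190) (nat_lit 228) (nat_lit 2541292335) (nat_lit 36) (nat_lit 5) (nat_lit 38) (nat_lit 5) (nat_lit 39) (nat_lit 4) (nat_lit 344) (nat_lit 249) (nat_lit 187)))) (XT.nd (nat_lit 156) (nat_lit 0) (nat_lit 0) (XT.nd (nat_lit 78) (nat_lit 152) (nat_lit 0) (XT.lf (nat_lit 0) (nat_lit 1315556063) (nat_lit 228) (nat_lit 7881262573) (nat_lit 76) (nat_lit 9872025034) (nat_lit 35) (nat_lit 5) (nat_lit 38) (nat_lit 5) (nat_lit 36) (nat_lit 5) (nat_lit 345) (nat_lit 249) (nat_lit 186)) (XT.lf (nat_lit 0) (nat_lit 413174536) (nat_lit 152) (nat_lit 4793514635) (nat_lit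 228) (nat_lit 14286557546) (nat_lit 33) (nat_lit 5) (nat_lit 35) (nat_lit 5) (nat_lit 36) (nat_lit 5) (nat_lit 346) (nat_lit 249) (nat_lit 185))) (XT.nd (nat_lit 78) (nat_lit 0) (nat_lit 0) (XT.lf (nat_lit 0) (nat_lit 9058804108) (nat_lit 152) (nat_lit 201452904) (nat_lit 228) (nat_lit 10668765751) (nat_lit 33) (nat_lit 5) (nat_lit 35) (nat_lit 5) (nat_lit 36) (nat_lit 5) (nat_lit 347) (nat_lit 249) (nat_lit 184)) (XT.lf (nat_lit 0) (nat_lit 13445827479) (nat_lit 228) (nat_lit 2515835826) (nat_lit 76) (nat_lit 4415908501) (nat_lit 33) (nat_lit 5) (nat_lit 36) (nat_lit 5) (nat_lit 34) (nat_lit 4) (nat_lit 348) (nat_lit 249) (nat_lit 183))))) (XT.nd (nat_lit 234) (nat_lit 76) (nat_lit 0) (XT.nd (nat_lit 78) (nat_lit 228) (nat_lit 0) (XT.lf (nat_lit 0) (nat_lit 6150664915) (nat_lit 76) (nat_lit 11635249868) (nat_lit 152) (nat_lit 3052805292) (nat_lit 32) (nat_lit 5) (nat_lit 33) (nat_lit 5) (nat_lit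 34) (nat_lit 4) (nat_lit 349) (nat_lit 249) (nat_lit 182)) (XT.nd (nat_lit 78) (nat_lit 152) (nat_lit 0) (XT.lf (nat_lit 0) (nat_lit 917671557) (nat_lit 152) (nat_lit 6250154889) (nat_lit 76) (nat_lit 14145808312) (nat_lit 31) (nat_lit 5) (nat_lit 33) (nat_lit 5) (nat_lit 32) (nat_lit 5) (nat_lit 350) (nat_lit 249) (nat_lit 181)) (XT.lf (nat_lit 0) (nat_lit 2402552985) (nat_lit 152) (nat_lit 2535285693) (nat_lit 228) (nat_lit 16864303689) (nat_lit 29) (nat_lit 5) (nat_lit 31) (nat_lit 5) (nat_lit 32) (nat_lit 5) (nat_lit 351) (nat_lit 249) (nat_lit 180)))) (XT.nd (nat_lit 156) (nat_lit 76) (nat_lit 0) (XT.nd (nat_lit 78) (nat_lit 0) (nat_lit 0) (XT.lf (nat_lit 0) (nat_lit 9132842234) (nat_lit 228) (nat_lit 10937721286) (nat_lit 76) (nat_lit 2233124735) (nat_lit 29) (nat_lit 5) (nat_lit 32) (nat_lit 5) (nat_lit 30) (nat_lit 4) (nat_lit 352) (nat_lit 249) (nat_lit 179)) (XT.lf (nat_lit 0) (nat_lit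 13448696951) (nat_lit 228) (nat_lit 2300645331) (nat_lit 76) (nat_lit 7071097907) (nat_lit 29) (nat_lit 5) (nat_lit 32) (nat_lit 5) (nat_lit 30) (nat_lit 4) (nat_lit 353) (nat_lit 249) (nat_lit 178))) (XT.nd (nat_lit 78) (nat_lit 0) (nat_lit 0) (XT.lf (nat_lit 0) (nat_lit 6673785757) (nat_lit 76) (nat_lit 11255170001) (nat_lit 152) (nat_lit 5422700487) (nat_lit 28) (nat_lit 5) (nat_lit 29) (nat_lit 5) (nat_lit 30) (nat_lit 4) (nat_lit 354) (nat_lit 249) (nat_lit 177)) (XT.lf (nat_lit 0) (nat_lit 15913133684) (nat_lit 76) (nat_lit 6624852949) (nat_lit 152) (nat_lit 1361000365) (nat_lit 28) (nat_lit 5) (nat_lit 29) (nat_lit 5) (nat_lit 30) (nat_lit 4) (nat_lit 355) (nat_lit 249) (nat_lit 176)))))) (XT.nd (nat_lit 546) (nat_lit 228) (nat_lit 0) (XT.nd (nat_lit 234) (nat_lit 304) (nat_lit 0) (XT.nd (nat_lit 78) (nat_lit 0) (nat_lit 0) (XT.lf (nat_lit 0) (nat_lit 906940116) (nat_lit 152) (nat_lit 1840937479)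 (nat_lit 228) (nat_lit 21714642585) (nat_lit 25) (nat_lit 5) (nat_lit 27) (nat_lit 5) (nat_lit 28) (nat_lit 5) (nat_lit 356) (nat_lit 249) (nat_lit 175)) (XT.nd (nat_lit 78) (nat_lit 0) (nat_lit 0) (XT.lf (nat_lit 0) (nat_lit 7035594422) (nat_lit 228) (nat_lit 14904952985) (nat_lit 76) (nat_lit 3099528243) (nat_lit 25) (nat_lit 5) (nat_lit 28) (nat_lit 5) (nat_lit 26) (nat_lit 4) (nat_lit 357) (nat_lit 249) (nat_lit 174)) (XT.lf (nat_lit 0) (nat_lit 11442808803) (nat_lit 228) (nat_lit 6062247225) (nat_lit 76) (nat_lit 8130183898) (nat_lit 25) (nat_lit 5) (nat_lit 28) (nat_lit 5) (nat_lit 26) (nat_lit 4) (nat_lit 358) (nat_lit 249) (nat_lit 173)))) (XT.nd (nat_lit 156) (nat_lit 228) (nat_lit 0) (XT.nd (nat_lit 78) (nat_lit 0) (nat_lit 0) (XT.lf (nat_lit 0) (nat_lit 3057625350) (nat_lit 76) (nat_lit 12927441900) (nat_lit 152) (nat_lit 10263114940) (nat_lit 24) (nat_lit 5) (nat_lit 25) (nat_lit 5)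 (nat_lit 26) (nat_lit 4) (nat_lit 359) (nat_lit 249) (nat_lit 172)) (XT.lf (nat_lit 0) (nat_lit 12528053017) (nat_lit 76) (nat_lit 8170512042) (nat_lit 152) (nat_lit 6179906172) (nat_lit 24) (nat_lit 5) (nat_lit 25) (nat_lit 5) (nat_lit 26) (nat_lit 4) (nat_lit 360) (nat_lit 249) (nat_lit 171))) (XT.nd (nat_lit 78) (nat_lit 228) (nat_lit 0) (XT.lf (nat_lit 0) (nat_lit 22236660298) (nat_lit 76) (nat_lit 3291326725) (nat_lit 152) (nat_lit 2000453778) (nat_lit 24) (nat_lit 5) (nat_lit 25) (nat_lit 5) (nat_lit 26) (nat_lit 4) (nat_lit 361) (nat_lit 249) (nat_lit 170)) (XT.lf (nat_lit 0) (nat_lit 2290441743) (nat_lit 228) (nat_lit 24163512193) (nat_lit 76) (nat_lit 1742367206) (nat_lit 21) (nat_lit 5) (nat_lit 24) (nat_lit 5) (nat_lit 22) (nat_lit 4) (nat_lit 362) (nat_lit 249) (nat_lit 169))))) (XT.nd (nat_lit 234) (nat_lit 152) (nat_lit 0) (XT.nd (nat_lit 78) (nat_lit 76) (nat_lit 0) (XT.lf (nat_lit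 0) (nat_lit 6731526117) (nat_lit 228) (nat_lit 15235158553) (nat_lit 76) (nat_lit 6915115759) (nat_lit 21) (nat_lit 5) (nat_lit 24) (nat_lit 5) (nat_lit 22) (nat_lit 4) (nat_lit 363) (nat_lit 249) (nat_lit 168)) (XT.nd (nat_lit 78) (nat_lit 76) (nat_lit 0) (XT.lf (nat_lit 0) (nat_lit 11281683848) (nat_lit 228) (nat_lit 6082850630) (nat_lit 76) (nat_lit 12224040997) (nat_lit 21) (nat_lit 5) (nat_lit 24) (nat_lit 5) (nat_lit 22) (nat_lit 4) (nat_lit 364) (nat_lit 249) (nat_lit 167)) (XT.lf (nat_lit 0) (nat_lit 3367113247) (nat_lit 76) (nat_lit 12610144308) (nat_lit 152) (nat_lit 14339035294) (nat_lit 20) (nat_lit 5) (nat_lit 21) (nat_lit 5) (nat_lit 22) (nat_lit 4) (nat_lit 365) (nat_lit 249) (nat_lit 166)))) (XT.nd (nat_lit 156) (nat_lit 152) (nat_lit 0) (XT.nd (nat_lit 78) (nat_lit 0) (nat_lit 0) (XT.lf (nat_lit 0) (nat_lit 13183068545) (nat_lit 76) (nat_lit 7668876803) (nat_lit 152) (nat_lit 10212755216)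 (nat_lit 20) (nat_lit 5) (nat_lit 21) (nat_lit 5) (nat_lit 22) (nat_lit 4) (nat_lit 366) (nat_lit 249) (nat_lit 165)) (XT.lf (nat_lit 0) (nat_lit 23252531658) (nat_lit 76) (nat_lit 2597839214) (nat_lit 152) (nat_lit 5985870771) (nat_lit 20) (nat_lit 5) (nat_lit 21) (nat_lit 5) (nat_lit 22) (nat_lit 4) (nat_lit 367) (nat_lit 249) (nat_lit 164))) (XT.nd (nat_lit 78) (nat_lit 76) (nat_lit 0) (XT.lf (nat_lit 0) (nat_lit 946108971) (nat_lit 76) (nat_lit 30064951209) (nat_lit 76) (nat_lit 1619505314) (nat_lit 19) (nat_lit 4) (nat_lit 20) (nat_lit 5) (nat_lit 20) (nat_lit 4) (nat_lit 368) (nat_lit 249) (nat_lit 163)) (XT.lf (nat_lit 0) (nat_lit 2912969091) (nat_lit 152) (nat_lit 22602896335) (nat_lit 76) (nat_lit 7929290998) (nat_lit 18) (nat_lit 5) (nat_lit 20) (nat_lit 5) (nat_lit 19) (nat_lit 4) (nat_lit 369) (nat_lit 249) (nat_lit 162))))))) (XT.nd (nat_lit 1092) (nat_lit 380) (nat_lit 0) (XT.nd (nat_lit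 546) (nat_lit 152) (nat_lit 0) (XT.nd (nat_lit 234) (nat_lit 76) (nat_lit 0) (XT.nd (nat_lit 78) (nat_lit 76) (nat_lit 0) (XT.lf (nat_lit 0) (nat_lit 7527524751) (nat_lit 152) (nat_lit 13304064555) (nat_lit 76) (nat_lit 13452760382) (nat_lit 18) (nat_lit 5) (nat_lit 20) (nat_lit 5) (nat_lit 19) (nat_lit 4) (nat_lit 370) (nat_lit 249) (nat_lit 161)) (XT.nd (nat_lit 78) (nat_lit 76) (nat_lit 0) (XT.lf (nat_lit 0) (nat_lit 12259796185) (nat_lit 152) (nat_lit 3764268313) (nat_lit 76) (nat_lit 19125281095) (nat_lit 18) (nat_lit 5) (nat_lit 20) (nat_lit 5) (nat_lit 19) (nat_lit 4) (nat_lit 371) (nat_lit 249) (nat_lit 160)) (XT.lf (nat_lit 0) (nat_lit 6144734028) (nat_lit 76) (nat_lit 11028251299) (nat_lit 152) (nat_lit 18866142621) (nat_lit 17) (nat_lit 5) (nat_lit 18) (nat_lit 5) (nat_lit 19) (nat_lit 4) (nat_lit 372) (nat_lit 249) (nat_lit 159)))) (XT.nd (nat_lit 156) (nat_lit 76) (nat_lit 0) (XT.nd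 (nat_lit 78) (nat_lit 0) (nat_lit 0) (XT.lf (nat_lit 0) (nat_lit 16391638271) (nat_lit 76) (nat_lit 5860061002) (nat_lit 152) (nat_lit 14703365544) (nat_lit 17) (nat_lit 5) (nat_lit 18) (nat_lit 5) (nat_lit 19) (nat_lit 4) (nat_lit 373) (nat_lit 249) (nat_lit 158)) (XT.lf (nat_lit 0) (nat_lit 26910481701) (nat_lit 76) (nat_lit 552989441) (nat_lit 152) (nat_lit 10435592528) (nat_lit 17) (nat_lit 5) (nat_lit 18) (nat_lit 5) (nat_lit 19) (nat_lit 4) (nat_lit 374) (nat_lit 249) (nat_lit 157))) (XT.nd (nat_lit 78) (nat_lit 76) (nat_lit 0) (XT.lf (nat_lit 0) (nat_lit 32859933642) (nat_lit 152) (nat_lit 1208572551) (nat_lit 0) (nat_lit 4802030803) (nat_lit 17) (nat_lit 5) (nat_lit 19) (nat_lit 4) (nat_lit 17) (nat_lit 4) (nat_lit 375) (nat_lit 249) (nat_lit 156)) (XT.lf (nat_lit 0) (nat_lit 9001171449) (nat_lit 76) (nat_lit 29490776618) (nat_lit 76) (nat_lit 1377001211) (nat_lit 16) (nat_lit 4) (nat_lit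 17) (nat_lit 5) (nat_lit 17) (nat_lit 4) (nat_lit 376) (nat_lit 249) (nat_lit 155))))) (XT.nd (nat_lit 234) (nat_lit 76) (nat_lit 0) (XT.nd (nat_lit 78) (nat_lit 0) (nat_lit 0) (XT.lf (nat_lit 0) (nat_lit 3323360004) (nat_lit 152) (nat_lit 21421599808) (nat_lit 76) (nat_lit 16151558789) (nat_lit 15) (nat_lit 5) (nat_lit 17) (nat_lit 5) (nat_lit 16) (nat_lit 4) (nat_lit 377) (nat_lit 249) (nat_lit 154)) (XT.nd (nat_lit 78) (nat_lit 0) (nat_lit 0) (XT.lf (nat_lit 0) (nat_lit 8119275622) (nat_lit 152) (nat_lit 11738556358) (nat_lit 76) (nat_lit 22097211534) (nat_lit 15) (nat_lit 5) (nat_lit 17) (nat_lit 5) (nat_lit 16) (nat_lit 4) (nat_lit 378) (nat_lit 249) (nat_lit 153)) (XT.lf (nat_lit 0) (nat_lit 13041806500) (nat_lit 152) (nat_lit 1796949988) (nat_lit 76) (nat_lit 28207089547) (nat_lit 15) (nat_lit 5) (nat_lit 17) (nat_lit 5) (nat_lit 16) (nat_lit 4) (nat_lit 379) (nat_lit 249) (nat_lit 152))))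 (XT.nd (nat_lit 156) (nat_lit 0) (nat_lit 0) (XT.nd (nat_lit 78) (nat_lit 0) (nat_lit 0) (XT.lf (nat_lit 0) (nat_lit 8579319567) (nat_lit 76) (nat_lit 9598403981) (nat_lit 152) (nat_lit 25989681657) (nat_lit 14) (nat_lit 5) (nat_lit 15) (nat_lit 5) (nat_lit 16) (nat_lit 4) (nat_lit 380) (nat_lit 249) (nat_lit 151)) (XT.lf (nat_lit 0) (nat_lit 19273018398) (nat_lit 76) (nat_lit 4196279041) (nat_lit 152) (nat_lit 21853270100) (nat_lit 14) (nat_lit 5) (nat_lit 15) (nat_lit 5) (nat_lit 16) (nat_lit 4) (nat_lit 381) (nat_lit 249) (nat_lit 150))) (XT.nd (nat_lit 78) (nat_lit 0) (nat_lit 0) (XT.lf (nat_lit 0) (nat_lit 28916552052) (nat_lit 152) (nat_lit 16268160562) (nat_lit 0) (nat_lit 1327767780) (nat_lit 14) (nat_lit 5) (nat_lit 16) (nat_lit 4) (nat_lit 14) (nat_lit 4) (nat_lit 382) (nat_lit 249) (nat_lit 149)) (XT.lf (nat_lit 0) (nat_lit 34553028243) (nat_lit 152) (nat_lit 6264154175) (nat_lit 0) (nat_lit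 6920137650) (nat_lit 14) (nat_lit 5) (nat_lit 16) (nat_lit 4) (nat_lit 14) (nat_lit 4) (nat_lit 383) (nat_lit 249) (nat_lit 148)))))) (XT.nd (nat_lit 546) (nat_lit 152) (nat_lit 0) (XT.nd (nat_lit 234) (nat_lit 76) (nat_lit 0) (XT.nd (nat_lit 78) (nat_lit 76) (nat_lit 0) (XT.lf (nat_lit 0) (nat_lit 4091386267) (nat_lit 76) (nat_lit 36291256526) (nat_lit 76) (nat_lit 8615544263) (nat_lit 13) (nat_lit 4) (nat_lit 14) (nat_lit 5) (nat_lit 14) (nat_lit 4) (nat_lit 384) (nat_lit 249) (nat_lit 147)) (XT.nd (nat_lit 78) (nat_lit 76) (nat_lit 0) (XT.lf (nat_lit 0) (nat_lit 14857856789) (nat_lit 76) (nat_lit 31577434474) (nat_lit 76) (nat_lit 3860147773) (nat_lit 13) (nat_lit 4) (nat_lit 14) (nat_lit 5) (nat_lit 14) (nat_lit 4) (nat_lit 385) (nat_lit 249) (nat_lit 146)) (XT.lf (nat_lit 0) (nat_lit 1002838711) (nat_lit 152) (nat_lit 25721887647) (nat_lit 76) (nat_lit 24907030619) (nat_lit 12) (nat_lit 5)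 (nat_lit 14) (nat_lit 5) (nat_lit 13) (nat_lit 4) (nat_lit 386) (nat_lit 249) (nat_lit 145)))) (XT.nd (nat_lit 156) (nat_lit 76) (nat_lit 0) (XT.nd (nat_lit 78) (nat_lit 0) (nat_lit 0) (XT.lf (nat_lit 0) (nat_lit 5919742727) (nat_lit 152) (nat_lit 15779760389) (nat_lit 76) (nat_lit 31307949431) (nat_lit 12) (nat_lit 5) (nat_lit 14) (nat_lit 5) (nat_lit 13) (nat_lit 4) (nat_lit 387) (nat_lit 249) (nat_lit 144)) (XT.lf (nat_lit 0) (nat_lit 10970185983) (nat_lit 152) (nat_lit 5565407079) (nat_lit 76) (nat_lit 37889247933) (nat_lit 12) (nat_lit 5) (nat_lit 14) (nat_lit 5) (nat_lit 13) (nat_lit 4) (nat_lit 388) (nat_lit 249) (nat_lit 143))) (XT.nd (nat_lit 78) (nat_lit 0) (nat_lit 0) (XT.lf (nat_lit 0) (nat_lit 5028216053) (nat_lit 76) (nat_lit 11178699724) (nat_lit 152) (nat_lit 39676795009) (nat_lit 11) (nat_lit 5) (nat_lit 12) (nat_lit 5) (nat_lit 13) (nat_lit 4) (nat_lit 389) (nat_lit 249) (nat_lit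 142)) (XT.lf (nat_lit 0) (nat_lit 16028701724) (nat_lit 76) (nat_lit 5614838756) (nat_lit 152) (nat_lit 35741525205) (nat_lit 11) (nat_lit 5) (nat_lit 12) (nat_lit 5) (nat_lit 13) (nat_lit 4) (nat_lit 390) (nat_lit 249) (nat_lit 141))))) (XT.nd (nat_lit 312) (nat_lit 152) (nat_lit 0) (XT.nd (nat_lit 156) (nat_lit 0) (nat_lit 0) (XT.nd (nat_lit 78) (nat_lit 0) (nat_lit 0) (XT.lf (nat_lit 0) (nat_lit 27231253701) (nat_lit 152) (nat_lit 31597960921) (nat_lit 0) (nat_lit 102609635) (nat_lit 11) (nat_lit 5) (nat_lit 13) (nat_lit 4) (nat_lit 11) (nat_lit 4) (nat_lit 391) (nat_lit 249) (nat_lit 140)) (XT.lf (nat_lit 0) (nat_lit 33029448364) (nat_lit 152) (nat_lit 21626269309) (nat_lit 0) (nat_lit 5867985054) (nat_lit 11) (nat_lit 5) (nat_lit 13) (nat_lit 4) (nat_lit 11) (nat_lit 4) (nat_lit 392) (nat_lit 249) (nat_lit 139))) (XT.nd (nat_lit 78) (nat_lit 0) (nat_lit 0) (XT.lf (nat_lit 0) (nat_lit 38989217588)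 (nat_lit 152) (nat_lit 11378602733) (nat_lit 0) (nat_lit 11795890934) (nat_lit 11) (nat_lit 5) (nat_lit 13) (nat_lit 4) (nat_lit 11) (nat_lit 4) (nat_lit 393) (nat_lit 249) (nat_lit 138)) (XT.lf (nat_lit 0) (nat_lit 45115768940) (nat_lit 152) (nat_lit 846006920) (nat_lit 0) (nat_lit 17891506999) (nat_lit 11) (nat_lit 5) (nat_lit 13) (nat_lit 4) (nat_lit 11) (nat_lit 4) (nat_lit 394) (nat_lit 249) (nat_lit 137)))) (XT.nd (nat_lit 156) (nat_lit 76) (nat_lit 0) (XT.nd (nat_lit 78) (nat_lit 0) (nat_lit 0) (XT.lf (nat_lit 0) (nat_lit 10179357294) (nat_lit 76) (nat_lit 41332948630) (nat_lit 76) (nat_lit 14078652431) (nat_lit 10) (nat_lit 4) (nat_lit 11) (nat_lit 5) (nat_lit 11) (nat_lit 4) (nat_lit 395) (nat_lit 249) (nat_lit 136)) (XT.lf (nat_lit 0) (nat_lit 21531193519) (nat_lit 76) (nat_lit 36566559104) (nat_lit 76) (nat_lit 9283103432) (nat_lit 10) (nat_lit 4) (nat_lit 11) (nat_lit 5) (nat_lit 11)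 (nat_lit 4) (nat_lit 396) (nat_lit 249) (nat_lit 135))) (XT.nd (nat_lit 78) (nat_lit 76) (nat_lit 0) (XT.lf (nat_lit 0) (nat_lit 33202583639) (nat_lit 76) (nat_lit 31666985488) (nat_lit 76) (nat_lit 4355219647) (nat_lit 10) (nat_lit 4) (nat_lit 11) (nat_lit 5) (nat_lit 11) (nat_lit 4) (nat_lit 397) (nat_lit 249) (nat_lit 134)) (XT.lf (nat_lit 0) (nat_lit 695463748) (nat_lit 152) (nat_lit 25927460032) (nat_lit 76) (nat_lit 44501239386) (nat_lit 9) (nat_lit 5) (nat_lit 11) (nat_lit 5) (nat_lit 10) (nat_lit 4) (nat_lit 398) (nat_lit 249) (nat_lit 133))))))))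
noncomputable def xc77 : XT := (XT.nd (nat_lit 32448) (nat_lit 0) (nat_lit 4788) (XT.nd (nat_lit 31356) (nat_lit 0) (nat_lit 12236) (XT.nd (nat_lit 546) (nat_lit 76) (nat_lit 0) (XT.nd (nat_lit 234) (nat_lit 0) (nat_lit 0) (XT.nd (nat_lit 78) (nat_lit 76) (nat_lit 0) (XT.lf (nat_lit 0) (nat_lit 5799474433) (nat_lit 152) (nat_lit 15593003392) (nat_lit 76) (nat_lit 51687069150) (nat_lit 9) (nat_lit 5) (nat_lit 11) (nat_lit 5) (nat_lit 10) (nat_lit 4) (nat_lit 399) (nat_lit 249) (nat_lit 132)) (XT.nd (nat_lit 78) (nat_lit 76) (nat_lit 0) (XT.lf (nat_lit 0) (nat_lit 11046258242) (nat_lit 152) (nat_lit 4967940074) (nat_lit 76) (nat_lit 59079706423) (nat_lit 9) (nat_lit 5) (nat_lit 11) (nat_lit 5) (nat_lit 10) (nat_lit 4) (nat_lit 400) (nat_lit 249) (nat_lit 131)) (XT.lf (nat_lit 0) (nat_lit 6075570217) (nat_lit 76) (nat_lit 10423231626) (nat_lit 152) (nat_lit 60668442670) (nat_lit 8) (nat_lit 5) (nat_lit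 9) (nat_lit 5) (nat_lit 10) (nat_lit 4) (nat_lit 401) (nat_lit 249) (nat_lit 130)))) (XT.nd (nat_lit 156) (nat_lit 0) (nat_lit 0) (XT.nd (nat_lit 78) (nat_lit 0) (nat_lit 0) (XT.lf (nat_lit 0) (nat_lit 17533547447) (nat_lit 76) (nat_lit 4621608007) (nat_lit 152) (nat_lit 57146423924) (nat_lit 8) (nat_lit 5) (nat_lit 9) (nat_lit 5) (nat_lit 10) (nat_lit 4) (nat_lit 402) (nat_lit 249) (nat_lit 129)) (XT.lf (nat_lit 0) (nat_lit 27984490720) (nat_lit 152) (nat_lit 52196038249) (nat_lit 0) (nat_lit 1319318442) (nat_lit 8) (nat_lit 5) (nat_lit 10) (nat_lit 4) (nat_lit 8) (nat_lit 4) (nat_lit 403) (nat_lit 249) (nat_lit 128))) (XT.nd (nat_lit 78) (nat_lit 0) (nat_lit 0) (XT.lf (nat_lit 0) (nat_lit 34025022744) (nat_lit 152) (nat_lit 42400450881) (nat_lit 0) (nat_lit 7337502158) (nat_lit 8) (nat_lit 5) (nat_lit 10) (nat_lit 4) (nat_lit 8) (nat_lit 4) (nat_lit 404) (nat_lit 249) (nat_lit 127)) (XT.lf (nat_lit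 0) (nat_lit 40237603938) (nat_lit 152) (nat_lit 32328284853) (nat_lit 0) (nat_lit 13528385965) (nat_lit 8) (nat_lit 5) (nat_lit 10) (nat_lit 4) (nat_lit 8) (nat_lit 4) (nat_lit 405) (nat_lit 249) (nat_lit 126))))) (XT.nd (nat_lit 234) (nat_lit 76) (nat_lit 0) (XT.nd (nat_lit 78) (nat_lit 0) (nat_lit 0) (XT.lf (nat_lit 0) (nat_lit 46627662772) (nat_lit 152) (nat_lit 21970739244) (nat_lit 0) (nat_lit 19897379374) (nat_lit 8) (nat_lit 5) (nat_lit 10) (nat_lit 4) (nat_lit 8) (nat_lit 4) (nat_lit 406) (nat_lit 249) (nat_lit 125)) (XT.nd (nat_lit 78) (nat_lit 0) (nat_lit 0) (XT.lf (nat_lit 0) (nat_lit 53200782791) (nat_lit 152) (nat_lit 11318763770) (nat_lit 0) (nat_lit 26450047525) (nat_lit 8) (nat_lit 5) (nat_lit 10) (nat_lit 4) (nat_lit 8) (nat_lit 4) (nat_lit 407) (nat_lit 249) (nat_lit 124)) (XT.lf (nat_lit 0) (nat_lit 59962707498) (nat_lit 152) (nat_lit 363050880) (nat_lit 0) (nat_lit 33192116049)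 (nat_lit 8) (nat_lit 5) (nat_lit 10) (nat_lit 4) (nat_lit 8) (nat_lit 4) (nat_lit 408) (nat_lit 249) (nat_lit 123)))) (XT.nd (nat_lit 156) (nat_lit 0) (nat_lit 0) (XT.nd (nat_lit 78) (nat_lit 0) (nat_lit 0) (XT.lf (nat_lit 0) (nat_lit 11123022612) (nat_lit 76) (nat_lit 55903244057) (nat_lit 76) (nat_lit 29113374761) (nat_lit 7) (nat_lit 4) (nat_lit 8) (nat_lit 5) (nat_lit 8) (nat_lit 4) (nat_lit 409) (nat_lit 249) (nat_lit 122)) (XT.lf (nat_lit 0) (nat_lit 22945910078) (nat_lit 76) (nat_lit 51351435075) (nat_lit 76) (nat_lit 24542849422) (nat_lit 7) (nat_lit 4) (nat_lit 8) (nat_lit 5) (nat_lit 8) (nat_lit 4) (nat_lit 410) (nat_lit 249) (nat_lit 121))) (XT.nd (nat_lit 78) (nat_lit 0) (nat_lit 0) (XT.lf (nat_lit 0) (nat_lit 35108716769) (nat_lit 76) (nat_lit 46670020225) (nat_lit 76) (nat_lit 19843263351) (nat_lit 7) (nat_lit 4) (nat_lit 8) (nat_lit 5) (nat_lit 8) (nat_lit 4) (nat_lit 411) (nat_lit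 249) (nat_lit 120)) (XT.lf (nat_lit 0) (nat_lit 47622070382) (nat_lit 76) (nat_lit 41854908950) (nat_lit 76) (nat_lit 15010510115) (nat_lit 7) (nat_lit 4) (nat_lit 8) (nat_lit 5) (nat_lit 8) (nat_lit 4) (nat_lit 412) (nat_lit 249) (nat_lit 119)))))) (XT.nd (nat_lit 546) (nat_lit 2660) (nat_lit 0) (XT.nd (nat_lit 234) (nat_lit 3344) (nat_lit 0) (XT.nd (nat_lit 78) (nat_lit 988) (nat_lit 0) (XT.lf (nat_lit 0) (nat_lit 1023612793) (nat_lit 836) (nat_lit 1210964793) (nat_lit 836) (nat_lit 1210964793) (nat_lit 260) (nat_lit 4) (nat_lit 271) (nat_lit 5) (nat_lit 271) (nat_lit 4) (nat_lit 280) (nat_lit 250) (nat_lit 250)) (XT.nd (nat_lit 78) (nat_lit 912) (nat_lit 0) (XT.lf (nat_lit 0) (nat_lit 754203346) (nat_lit 912) (nat_lit 351872029) (nat_lit 76) (nat_lit 5832575908) (nat_lit 259) (nat_lit 5) (nat_lit 271) (nat_lit 5) (nat_lit 260) (nat_lit 4) (nat_lit 281) (nat_lit 250) (nat_lit 249)) (XT.lf (nat_lit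 0) (nat_lit 3922302754) (nat_lit 988) (nat_lit 2746983289) (nat_lit 0) (nat_lit 319421436) (nat_lit 247) (nat_lit 5) (nat_lit 260) (nat_lit 4) (nat_lit 247) (nat_lit 4) (nat_lit 282) (nat_lit 250) (nat_lit 248)))) (XT.nd (nat_lit 156) (nat_lit 2280) (nat_lit 0) (XT.nd (nat_lit 78) (nat_lit 0) (nat_lit 0) (XT.lf (nat_lit 0) (nat_lit 77672347) (nat_lit 1064) (nat_lit 5168331095) (nat_lit 76) (nat_lit 1796294969) (nat_lit 233) (nat_lit 5) (nat_lit 247) (nat_lit 5) (nat_lit 234) (nat_lit 4) (nat_lit 283) (nat_lit 250) (nat_lit 247)) (XT.lf (nat_lit 0) (nat_lit 3186862559) (nat_lit 1064) (nat_lit 529611511) (nat_lit 76) (nat_lit 3382270274) (nat_lit 233) (nat_lit 5) (nat_lit 247) (nat_lit 5) (nat_lit 234) (nat_lit 4) (nat_lit 284) (nat_lit 250) (nat_lit 246))) (XT.nd (nat_lit 78) (nat_lit 1216) (nat_lit 0) (XT.lf (nat_lit 0) (nat_lit 4241553737) (nat_lit 1064) (nat_lit 2095740097) (nat_lit 1140) (nat_lit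 821277812) (nat_lit 219) (nat_lit 5) (nat_lit 233) (nat_lit 5) (nat_lit 234) (nat_lit 4) (nat_lit 285) (nat_lit 250) (nat_lit 245)) (XT.lf (nat_lit 0) (nat_lit 1869849456) (nat_lit 1140) (nat_lit 377500880) (nat_lit 1216) (nat_lit 4974339993) (nat_lit 203) (nat_lit 5) (nat_lit 218) (nat_lit 5) (nat_lit 219) (nat_lit 5) (nat_lit 286) (nat_lit 250) (nat_lit 244))))) (XT.nd (nat_lit 234) (nat_lit 1216) (nat_lit 0) (XT.nd (nat_lit 78) (nat_lit 1444) (nat_lit 0) (XT.lf (nat_lit 0) (nat_lit 5344506401) (nat_lit 1216) (nat_lit 540001346) (nat_lit 76) (nat_lit 1403477782) (nat_lit 203) (nat_lit 5) (nat_lit 219) (nat_lit 5) (nat_lit 204) (nat_lit 4) (nat_lit 287) (nat_lit 250) (nat_lit 243)) (XT.nd (nat_lit 78) (nat_lit 608) (nat_lit 0) (XT.lf (nat_lit 0) (nat_lit 1113381035) (nat_lit 836) (nat_lit 2959855903) (nat_lit 76) (nat_lit 3284060364) (nat_lit 192) (nat_lit 5) (nat_lit 203) (nat_lit 5) (nat_lit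 193) (nat_lit 5) (nat_lit 288) (nat_lit 250) (nat_lit 242)) (XT.lf (nat_lit 0) (nat_lit 1994420115) (nat_lit 608) (nat_lit 2166351356) (nat_lit 684) (nat_lit 3269309412) (nat_lit 184) (nat_lit 5) (nat_lit 192) (nat_lit 5) (nat_lit 193) (nat_lit 5) (nat_lit 289) (nat_lit 250) (nat_lit 241)))) (XT.nd (nat_lit 156) (nat_lit 608) (nat_lit 0) (XT.nd (nat_lit 78) (nat_lit 608) (nat_lit 0) (XT.lf (nat_lit 0) (nat_lit 7068134369) (nat_lit 608) (nat_lit 176210029) (nat_lit 684) (nat_lit 262463975) (nat_lit 184) (nat_lit 5) (nat_lit 192) (nat_lit 5) (nat_lit 193) (nat_lit 5) (nat_lit 290) (nat_lit 250) (nat_lit 240)) (XT.lf (nat_lit 0) (nat_lit 2759401775) (nat_lit 608) (nat_lit 2921591120) (nat_lit 76) (nat_lit 1904720820) (nat_lit 176) (nat_lit 5) (nat_lit 184) (nat_lit 5) (nat_lit 177) (nat_lit 5) (nat_lit 291) (nat_lit 250) (nat_lit 239))) (XT.nd (nat_lit 78) (nat_lit 76) (nat_lit 0) (XT.lf (nat_lit 0)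 (nat_lit 2210255832) (nat_lit 532) (nat_lit 3601819472) (nat_lit 608) (nat_lit 1856564605) (nat_lit 169) (nat_lit 5) (nat_lit 176) (nat_lit 5) (nat_lit 177) (nat_lit 5) (nat_lit 292) (nat_lit 250) (nat_lit 238)) (XT.lf (nat_lit 0) (nat_lit 1127211097) (nat_lit 608) (nat_lit 300519686) (nat_lit 76) (nat_lit 6327613538) (nat_lit 168) (nat_lit 5) (nat_lit 176) (nat_lit 5) (nat_lit 169) (nat_lit 5) (nat_lit 293) (nat_lit 250) (nat_lit 237))))))) (XT.nd (nat_lit 1092) (nat_lit 2736) (nat_lit 0) (XT.nd (nat_lit 546) (nat_lit 2204) (nat_lit 0) (XT.nd (nat_lit 234) (nat_lit 1368) (nat_lit 0) (XT.nd (nat_lit 78) (nat_lit 608) (nat_lit 0) (XT.lf (nat_lit 0) (nat_lit 4140611079) (nat_lit 608) (nat_lit 2850948689) (nat_lit 76) (nat_lit 853302307) (nat_lit 161) (nat_lit 5) (nat_lit 169) (nat_lit 5) (nat_lit 162) (nat_lit 5) (nat_lit 294) (nat_lit 250) (nat_lit 236)) (XT.nd (nat_lit 78) (nat_lit 76) (nat_lit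 0) (XT.lf (nat_lit 0) (nat_lit 2459975204) (nat_lit 532) (nat_lit 4747615539) (nat_lit 608) (nat_lit 730663219) (nat_lit 154) (nat_lit 5) (nat_lit 161) (nat_lit 5) (nat_lit 162) (nat_lit 5) (nat_lit 295) (nat_lit 250) (nat_lit 235)) (XT.lf (nat_lit 0) (nat_lit 2238596566) (nat_lit 608) (nat_lit 158574653) (nat_lit 76) (nat_lit 5638123782) (nat_lit 153) (nat_lit 5) (nat_lit 161) (nat_lit 5) (nat_lit 154) (nat_lit 5) (nat_lit 296) (nat_lit 250) (nat_lit 234)))) (XT.nd (nat_lit 156) (nat_lit 380) (nat_lit 0) (XT.nd (nat_lit 78) (nat_lit 532) (nat_lit 0) (XT.lf (nat_lit 0) (nat_lit 5259298274) (nat_lit 532) (nat_lit 2807323534) (nat_lit 76) (nat_lit 69173751) (nat_lit 147) (nat_lit 5) (nat_lit 154) (nat_lit 5) (nat_lit 148) (nat_lit 5) (nat_lit 297) (nat_lit 250) (nat_lit 233)) (XT.lf (nat_lit 0) (nat_lit 105945271) (nat_lit 532) (nat_lit 5557961975) (nat_lit 76) (nat_lit 2576122490) (nat_lit 140) (nat_lit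 5) (nat_lit 147) (nat_lit 5) (nat_lit 141) (nat_lit 5) (nat_lit 298) (nat_lit 250) (nat_lit 232))) (XT.nd (nat_lit 78) (nat_lit 380) (nat_lit 0) (XT.lf (nat_lit 0) (nat_lit 3075530695) (nat_lit 532) (nat_lit 71848351) (nat_lit 76) (nat_lit 5200563246) (nat_lit 140) (nat_lit 5) (nat_lit 147) (nat_lit 5) (nat_lit 141) (nat_lit 5) (nat_lit 299) (nat_lit 250) (nat_lit 231)) (XT.lf (nat_lit 0) (nat_lit 5600528171) (nat_lit 380) (nat_lit 516496839) (nat_lit 456) (nat_lit 2342650818) (nat_lit 135) (nat_lit 5) (nat_lit 140) (nat_lit 5) (nat_lit 141) (nat_lit 5) (nat_lit 300) (nat_lit 250) (nat_lit 230))))) (XT.nd (nat_lit 234) (nat_lit 1292) (nat_lit 0) (XT.nd (nat_lit 78) (nat_lit 380) (nat_lit 0) (XT.lf (nat_lit 0) (nat_lit 640489245) (nat_lit 532) (nat_lit 5766836160) (nat_lit 76) (nat_lit 2167945891) (nat_lit 128) (nat_lit 5) (nat_lit 135) (nat_lit 5) (nat_lit 129) (nat_lit 5) (nat_lit 301) (nat_lit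 250) (nat_lit 229)) (XT.nd (nat_lit 78) (nat_lit 380) (nat_lit 0) (XT.lf (nat_lit 0) (nat_lit 3630815746) (nat_lit 532) (nat_lit 106727701) (nat_lit 76) (nat_lit 4957214478) (nat_lit 128) (nat_lit 5) (nat_lit 135) (nat_lit 5) (nat_lit 129) (nat_lit 5) (nat_lit 302) (nat_lit 250) (nat_lit 228)) (XT.lf (nat_lit 0) (nat_lit 5748642165) (nat_lit 380) (nat_lit 949999170) (nat_lit 456) (nat_lit 2119614773) (nat_lit 123) (nat_lit 5) (nat_lit 128) (nat_lit 5) (nat_lit 129) (nat_lit 5) (nat_lit 303) (nat_lit 250) (nat_lit 227)))) (XT.nd (nat_lit 156) (nat_lit 836) (nat_lit 0) (XT.nd (nat_lit 78) (nat_lit 0) (nat_lit 0) (XT.lf (nat_lit 0) (nat_lit 874772596) (nat_lit 456) (nat_lit 6170136765) (nat_lit 76) (nat_lit 1900957320) (nat_lit 117) (nat_lit 5) (nat_lit 123) (nat_lit 5) (nat_lit 118) (nat_lit 5) (nat_lit 304) (nat_lit 250) (nat_lit 226)) (XT.lf (nat_lit 0) (nat_lit 3890979759) (nat_lit 456) (nat_lit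 335957260) (nat_lit 76) (nat_lit 4850556741) (nat_lit 117) (nat_lit 5) (nat_lit 123) (nat_lit 5) (nat_lit 118) (nat_lit 5) (nat_lit 305) (nat_lit 250) (nat_lit 225))) (XT.nd (nat_lit 78) (nat_lit 456) (nat_lit 0) (XT.lf (nat_lit 0) (nat_lit 5698780832) (nat_lit 380) (nat_lit 1289478700) (nat_lit 456) (nat_lit 2225146401) (nat_lit 112) (nat_lit 5) (nat_lit 117) (nat_lit 5) (nat_lit 118) (nat_lit 5) (nat_lit 306) (nat_lit 250) (nat_lit 224)) (XT.lf (nat_lit 0) (nat_lit 789654127) (nat_lit 456) (nat_lit 6847842426) (nat_lit 76) (nat_lit 1716291012) (nat_lit 106) (nat_lit 5) (nat_lit 112) (nat_lit 5) (nat_lit 107) (nat_lit 5) (nat_lit 307) (nat_lit 250) (nat_lit 223)))))) (XT.nd (nat_lit 546) (nat_lit 1368) (nat_lit 0) (XT.nd (nat_lit 234) (nat_lit 684) (nat_lit 0) (XT.nd (nat_lit 78) (nat_lit 684) (nat_lit 0) (XT.lf (nat_lit 0) (nat_lit 3835790969) (nat_lit 456) (nat_lit 840309623) (nat_lit 76) (nat_lit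 4822099952) (nat_lit 106) (nat_lit 5) (nat_lit 112) (nat_lit 5) (nat_lit 107) (nat_lit 5) (nat_lit 308) (nat_lit 250) (nat_lit 222)) (XT.nd (nat_lit 78) (nat_lit 380) (nat_lit 0) (XT.lf (nat_lit 0) (nat_lit 5367704156) (nat_lit 304) (nat_lit 1596046393) (nat_lit 380) (nat_lit 2683530070) (nat_lit 102) (nat_lit 5) (nat_lit 106) (nat_lit 5) (nat_lit 107) (nat_lit 5) (nat_lit 309) (nat_lit 250) (nat_lit 221)) (XT.lf (nat_lit 0) (nat_lit 358710055) (nat_lit 380) (nat_lit 7889485249) (nat_lit 76) (nat_lit 1553126922) (nat_lit 97) (nat_lit 5) (nat_lit 102) (nat_lit 5) (nat_lit 98) (nat_lit 5) (nat_lit 310) (nat_lit 250) (nat_lit 220)))) (XT.nd (nat_lit 156) (nat_lit 380) (nat_lit 0) (XT.nd (nat_lit 78) (nat_lit 304) (nat_lit 0) (XT.lf (nat_lit 0) (nat_lit 3437633874) (nat_lit 380) (nat_lit 1710458400) (nat_lit 76) (nat_lit 4811158940) (nat_lit 97) (nat_lit 5) (nat_lit 102) (nat_lit 5) (nat_lit 98) (nat_lit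 5) (nat_lit 311) (nat_lit 250) (nat_lit 219)) (XT.lf (nat_lit 0) (nat_lit 4661712063) (nat_lit 304) (nat_lit 1933681989) (nat_lit 380) (nat_lit 3526972484) (nat_lit 93) (nat_lit 5) (nat_lit 97) (nat_lit 5) (nat_lit 98) (nat_lit 5) (nat_lit 312) (nat_lit 250) (nat_lit 218))) (XT.nd (nat_lit 78) (nat_lit 76) (nat_lit 0) (XT.lf (nat_lit 0) (nat_lit 890314394) (nat_lit 304) (nat_lit 8939137365) (nat_lit 380) (nat_lit 461517908) (nat_lit 89) (nat_lit 5) (nat_lit 93) (nat_lit 5) (nat_lit 94) (nat_lit 5) (nat_lit 313) (nat_lit 250) (nat_lit 217)) (XT.lf (nat_lit 0) (nat_lit 2660731501) (nat_lit 380) (nat_lit 3049093760) (nat_lit 76) (nat_lit 4753543972) (nat_lit 88) (nat_lit 5) (nat_lit 93) (nat_lit 5) (nat_lit 89) (nat_lit 5) (nat_lit 314) (nat_lit 250) (nat_lit 216))))) (XT.nd (nat_lit 312) (nat_lit 532) (nat_lit 0) (XT.nd (nat_lit 156) (nat_lit 608) (nat_lit 0) (XT.nd (nat_lit 78) (nat_lit 0) (nat_lit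 0) (XT.lf (nat_lit 0) (nat_lit 3474436555) (nat_lit 228) (nat_lit 2370610594) (nat_lit 304) (nat_lit 4796464091) (nat_lit 85) (nat_lit 5) (nat_lit 88) (nat_lit 5) (nat_lit 89) (nat_lit 5) (nat_lit 315) (nat_lit 250) (nat_lit 215)) (XT.lf (nat_lit 0) (nat_lit 9111130363) (nat_lit 304) (nat_lit 660913443) (nat_lit 76) (nat_lit 1053403244) (nat_lit 85) (nat_lit 5) (nat_lit 89) (nat_lit 5) (nat_lit 86) (nat_lit 5) (nat_lit 316) (nat_lit 250) (nat_lit 214))) (XT.nd (nat_lit 78) (nat_lit 228) (nat_lit 0) (XT.lf (nat_lit 0) (nat_lit 1460195217) (nat_lit 380) (nat_lit 4973326072) (nat_lit 76) (nat_lit 4580141233) (nat_lit 80) (nat_lit 5) (nat_lit 85) (nat_lit 5) (nat_lit 81) (nat_lit 5) (nat_lit 317) (nat_lit 250) (nat_lit 213)) (XT.lf (nat_lit 0) (nat_lit 1684330026) (nat_lit 228) (nat_lit 2980803748) (nat_lit 304) (nat_lit 6542825634) (nat_lit 77) (nat_lit 5) (nat_lit 80) (nat_lit 5) (nat_lit 81) (nat_lit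 5) (nat_lit 318) (nat_lit 250) (nat_lit 212)))) (XT.nd (nat_lit 156) (nat_lit 304) (nat_lit 0) (XT.nd (nat_lit 78) (nat_lit 228) (nat_lit 0) (XT.lf (nat_lit 0) (nat_lit 7969714178) (nat_lit 304) (nat_lit 2849848840) (nat_lit 76) (nat_lit 588449964) (nat_lit 77) (nat_lit 5) (nat_lit 81) (nat_lit 5) (nat_lit 78) (nat_lit 5) (nat_lit 319) (nat_lit 250) (nat_lit 211)) (XT.lf (nat_lit 0) (nat_lit 3994021277) (nat_lit 228) (nat_lit 7396096795) (nat_lit 304) (nat_lit 223481153) (nat_lit 74) (nat_lit 5) (nat_lit 77) (nat_lit 5) (nat_lit 78) (nat_lit 5) (nat_lit 320) (nat_lit 250) (nat_lit 210))) (XT.nd (nat_lit 78) (nat_lit 228) (nat_lit 0) (XT.lf (nat_lit 0) (nat_lit 3005584608) (nat_lit 304) (nat_lit 831653208) (nat_lit 76) (nat_lit 7987912899) (nat_lit 73) (nat_lit 5) (nat_lit 77) (nat_lit 5) (nat_lit 74) (nat_lit 5) (nat_lit 321) (nat_lit 250) (nat_lit 209)) (XT.lf (nat_lit 0) (nat_lit 6202196081) (nat_lit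 228) (nat_lit 134933908) (nat_lit 304) (nat_lit 5705578356) (nat_lit 70) (nat_lit 5) (nat_lit 73) (nat_lit 5) (nat_lit 74) (nat_lit 5) (nat_lit 322) (nat_lit 250) (nat_lit 208))))))))
noncomputable def xc78 : XT := (XT.nd (nat_lit 2184) (nat_lit 1292) (nat_lit 0) (XT.nd (nat_lit 1092) (nat_lit 988) (nat_lit 0) (XT.nd (nat_lit 546) (nat_lit 912) (nat_lit 0) (XT.nd (nat_lit 234) (nat_lit 456) (nat_lit 0) (XT.nd (nat_lit 78) (nat_lit 304) (nat_lit 0) (XT.lf (nat_lit 0) (nat_lit 1106711071) (nat_lit 228) (nat_lit 8667324402) (nat_lit 304) (nat_lit 2492622934) (nat_lit 67) (nat_lit 5) (nat_lit 70) (nat_lit 5) (nat_lit 71) (nat_lit 5) (nat_lit 323) (nat_lit 250) (nat_lit 207)) (XT.nd (nat_lit 78) (nat_lit 228) (nat_lit 0) (XT.lf (nat_lit 0) (nat_lit 812806758) (nat_lit 304) (nat_lit 4200507152) (nat_lit 76) (nat_lit 7483443354) (nat_lit 66) (nat_lit 5) (nat_lit 70) (nat_lit 5) (nat_lit 67) (nat_lit 5)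 (nat_lit 324) (nat_lit 250) (nat_lit 206)) (XT.lf (nat_lit 0) (nat_lit 2925111750) (nat_lit 228) (nat_lit 1222854983) (nat_lit 304) (nat_lit 8585657703) (nat_lit 63) (nat_lit 5) (nat_lit 66) (nat_lit 5) (nat_lit 67) (nat_lit 5) (nat_lit 325) (nat_lit 250) (nat_lit 205)))) (XT.nd (nat_lit 156) (nat_lit 228) (nat_lit 0) (XT.nd (nat_lit 78) (nat_lit 228) (nat_lit 0) (XT.lf (nat_lit 0) (nat_lit 7604745452) (nat_lit 304) (nat_lit 2727347495) (nat_lit 76) (nat_lit 2644882735) (nat_lit 63) (nat_lit 5) (nat_lit 67) (nat_lit 5) (nat_lit 64) (nat_lit 5) (nat_lit 326) (nat_lit 250) (nat_lit 204)) (XT.lf (nat_lit 0) (nat_lit 4570087695) (nat_lit 228) (nat_lit 6605500727) (nat_lit 304) (nat_lit 2051752471) (nat_lit 60) (nat_lit 5) (nat_lit 63) (nat_lit 5) (nat_lit 64) (nat_lit 5) (nat_lit 327) (nat_lit 250) (nat_lit 203))) (XT.nd (nat_lit 78) (nat_lit 152) (nat_lit 0) (XT.lf (nat_lit 0) (nat_lit 1323939111)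 (nat_lit 304) (nat_lit 1428909946) (nat_lit 76) (nat_lit 10732527241) (nat_lit 59) (nat_lit 5) (nat_lit 63) (nat_lit 5) (nat_lit 60) (nat_lit 5) (nat_lit 328) (nat_lit 250) (nat_lit 202)) (XT.lf (nat_lit 0) (nat_lit 4785759489) (nat_lit 228) (nat_lit 7719773295) (nat_lit 76) (nat_lit 1244249857) (nat_lit 57) (nat_lit 5) (nat_lit 60) (nat_lit 5) (nat_lit 58) (nat_lit 5) (nat_lit 329) (nat_lit 250) (nat_lit 201))))) (XT.nd (nat_lit 234) (nat_lit 456) (nat_lit 0) (XT.nd (nat_lit 78) (nat_lit 456) (nat_lit 0) (XT.lf (nat_lit 0) (nat_lit 8349423704) (nat_lit 228) (nat_lit 378777386) (nat_lit 76) (nat_lit 5294001956) (nat_lit 57) (nat_lit 5) (nat_lit 60) (nat_lit 5) (nat_lit 58) (nat_lit 5) (nat_lit 330) (nat_lit 250) (nat_lit 200)) (XT.nd (nat_lit 78) (nat_lit 228) (nat_lit 0) (XT.lf (nat_lit 0) (nat_lit 7254418164) (nat_lit 228) (nat_lit 4792751686) (nat_lit 304) (nat_lit 2254831975) (nat_lit 54) (nat_lit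 5) (nat_lit 57) (nat_lit 5) (nat_lit 58) (nat_lit 5) (nat_lit 331) (nat_lit 250) (nat_lit 199)) (XT.lf (nat_lit 0) (nat_lit 461320470) (nat_lit 152) (nat_lit 745512932) (nat_lit 228) (nat_lit 13384039585) (nat_lit 51) (nat_lit 5) (nat_lit 53) (nat_lit 5) (nat_lit 54) (nat_lit 5) (nat_lit 332) (nat_lit 250) (nat_lit 198)))) (XT.nd (nat_lit 156) (nat_lit 228) (nat_lit 0) (XT.nd (nat_lit 78) (nat_lit 228) (nat_lit 0) (XT.lf (nat_lit 0) (nat_lit 4789694961) (nat_lit 228) (nat_lit 6672350541) (nat_lit 76) (nat_lit 3423834191) (nat_lit 51) (nat_lit 5) (nat_lit 54) (nat_lit 5) (nat_lit 52) (nat_lit 5) (nat_lit 333) (nat_lit 250) (nat_lit 197)) (XT.lf (nat_lit 0) (nat_lit 951698499) (nat_lit 228) (nat_lit 7503989383) (nat_lit 304) (nat_lit 6734797941) (nat_lit 48) (nat_lit 5) (nat_lit 51) (nat_lit 5) (nat_lit 52) (nat_lit 5) (nat_lit 334) (nat_lit 250) (nat_lit 196))) (XT.nd (nat_lit 78) (nat_lit 228) (nat_lit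 0) (XT.lf (nat_lit 0) (nat_lit 8873854154) (nat_lit 228) (nat_lit 3384842977) (nat_lit 304) (nat_lit 3244739956) (nat_lit 48) (nat_lit 5) (nat_lit 51) (nat_lit 5) (nat_lit 52) (nat_lit 5) (nat_lit 335) (nat_lit 250) (nat_lit 195)) (XT.lf (nat_lit 0) (nat_lit 322912288) (nat_lit 228) (nat_lit 14673725071) (nat_lit 76) (nat_lit 829663921) (nat_lit 45) (nat_lit 5) (nat_lit 48) (nat_lit 5) (nat_lit 46) (nat_lit 5) (nat_lit 336) (nat_lit 250) (nat_lit 194)))))) (XT.nd (nat_lit 546) (nat_lit 456) (nat_lit 0) (XT.nd (nat_lit 234) (nat_lit 380) (nat_lit 0) (XT.nd (nat_lit 78) (nat_lit 152) (nat_lit 0) (XT.lf (nat_lit 0) (nat_lit 3994195912) (nat_lit 228) (nat_lit 6985561979) (nat_lit 76) (nat_lit 5176291703) (nat_lit 45) (nat_lit 5) (nat_lit 48) (nat_lit 5) (nat_lit 46) (nat_lit 5) (nat_lit 337) (nat_lit 250) (nat_lit 193)) (XT.nd (nat_lit 78) (nat_lit 0) (nat_lit 0) (XT.lf (nat_lit 0) (nat_lit 885954792)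 (nat_lit 152) (nat_lit 6860020329) (nat_lit 228) (nat_lit 8750620557) (nat_lit 43) (nat_lit 5) (nat_lit 45) (nat_lit 5) (nat_lit 46) (nat_lit 5) (nat_lit 338) (nat_lit 250) (nat_lit 192)) (XT.lf (nat_lit 0) (nat_lit 9072867987) (nat_lit 152) (nat_lit 2570317680) (nat_lit 228) (nat_lit 5203201707) (nat_lit 43) (nat_lit 5) (nat_lit 45) (nat_lit 5) (nat_lit 46) (nat_lit 5) (nat_lit 339) (nat_lit 250) (nat_lit 191)))) (XT.nd (nat_lit 156) (nat_lit 152) (nat_lit 0) (XT.nd (nat_lit 78) (nat_lit 76) (nat_lit 0) (XT.lf (nat_lit 0) (nat_lit 222339032) (nat_lit 152) (nat_lit 15418064745) (nat_lit 228) (nat_lit 1566791419) (nat_lit 41) (nat_lit 5) (nat_lit 43) (nat_lit 5) (nat_lit 44) (nat_lit 4) (nat_lit 340) (nat_lit 250) (nat_lit 190)) (XT.lf (nat_lit 0) (nat_lit 2204207826) (nat_lit 228) (nat_lit 9069296847) (nat_lit 76) (nat_lit 6302668197) (nat_lit 40) (nat_lit 5) (nat_lit 43) (nat_lit 5) (nat_lit 41)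 (nat_lit 5) (nat_lit 341) (nat_lit 250) (nat_lit 189))) (XT.nd (nat_lit 78) (nat_lit 152) (nat_lit 0) (XT.lf (nat_lit 0) (nat_lit 6021203333) (nat_lit 228) (nat_lit 993024556) (nat_lit 76) (nat_lit 10942609716) (nat_lit 40) (nat_lit 5) (nat_lit 43) (nat_lit 5) (nat_lit 41) (nat_lit 5) (nat_lit 342) (nat_lit 250) (nat_lit 188)) (XT.lf (nat_lit 0) (nat_lit 7410687816) (nat_lit 152) (nat_lit 2578652333) (nat_lit 228) (nat_lit 8358496618) (nat_lit 38) (nat_lit 5) (nat_lit 40) (nat_lit 5) (nat_lit 41) (nat_lit 5) (nat_lit 343) (nat_lit 250) (nat_lit 187))))) (XT.nd (nat_lit 234) (nat_lit 228) (nat_lit 0) (XT.nd (nat_lit 78) (nat_lit 228) (nat_lit 0) (XT.lf (nat_lit 0) (nat_lit 14071376760) (nat_lit 228) (nat_lit 2742300531) (nat_lit 76) (nat_lit 1937055978) (nat_lit 38) (nat_lit 5) (nat_lit 41) (nat_lit 5) (nat_lit 39) (nat_lit 4) (nat_lit 344) (nat_lit 250) (nat_lit 186)) (XT.nd (nat_lit 78) (nat_lit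 76) (nat_lit 0) (XT.lf (nat_lit 0) (nat_lit 5726673498) (nat_lit 152) (nat_lit 12596382218) (nat_lit 228) (nat_lit 841258171) (nat_lit 36) (nat_lit 5) (nat_lit 38) (nat_lit 5) (nat_lit 39) (nat_lit 4) (nat_lit 345) (nat_lit 250) (nat_lit 185)) (XT.lf (nat_lit 0) (nat_lit 3045907648) (nat_lit 228) (nat_lit 5171772034) (nat_lit 76) (nat_lit 11371897228) (nat_lit 35) (nat_lit 5) (nat_lit 38) (nat_lit 5) (nat_lit 36) (nat_lit 5) (nat_lit 346) (nat_lit 250) (nat_lit 184)))) (XT.nd (nat_lit 156) (nat_lit 76) (nat_lit 0) (XT.nd (nat_lit 78) (nat_lit 0) (nat_lit 0) (XT.lf (nat_lit 0) (nat_lit 3342616538) (nat_lit 152) (nat_lit 3689949575) (nat_lit 228) (nat_lit 12994799831) (nat_lit 33) (nat_lit 5) (nat_lit 35) (nat_lit 5) (nat_lit 36) (nat_lit 5) (nat_lit 347) (nat_lit 250) (nat_lit 183)) (XT.lf (nat_lit 0) (nat_lit 11168756310) (nat_lit 228) (nat_lit 8324685533) (nat_lit 76) (nat_lit 983960092) (nat_lit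 33) (nat_lit 5) (nat_lit 36) (nat_lit 5) (nat_lit 34) (nat_lit 4) (nat_lit 348) (nat_lit 250) (nat_lit 182))) (XT.nd (nat_lit 78) (nat_lit 0) (nat_lit 0) (XT.lf (nat_lit 0) (nat_lit 198628254) (nat_lit 76) (nat_lit 15237615590) (nat_lit 152) (nat_lit 5504489731) (nat_lit 32) (nat_lit 5) (nat_lit 33) (nat_lit 5) (nat_lit 34) (nat_lit 4) (nat_lit 349) (nat_lit 250) (nat_lit 181)) (XT.lf (nat_lit 0) (nat_lit 9093933720) (nat_lit 76) (nat_lit 10791040593) (nat_lit 152) (nat_lit 1531404902) (nat_lit 32) (nat_lit 5) (nat_lit 33) (nat_lit 5) (nat_lit 34) (nat_lit 4) (nat_lit 350) (nat_lit 250) (nat_lit 180))))))) (XT.nd (nat_lit 1092) (nat_lit 456) (nat_lit 0) (XT.nd (nat_lit 546) (nat_lit 304) (nat_lit 0) (XT.nd (nat_lit 234) (nat_lit 304) (nat_lit 0) (XT.nd (nat_lit 78) (nat_lit 152) (nat_lit 0) (XT.lf (nat_lit 0) (nat_lit 2480647733) (nat_lit 152) (nat_lit 3728197083) (nat_lit 76) (nat_lit 15697628486)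 (nat_lit 31) (nat_lit 5) (nat_lit 33) (nat_lit 5) (nat_lit 32) (nat_lit 5) (nat_lit 351) (nat_lit 250) (nat_lit 179)) (XT.nd (nat_lit 78) (nat_lit 0) (nat_lit 0) (XT.lf (nat_lit 0) (nat_lit 5157528670) (nat_lit 152) (nat_lit 1444959137) (nat_lit 228) (nat_lit 15807731067) (nat_lit 29) (nat_lit 5) (nat_lit 31) (nat_lit 5) (nat_lit 32) (nat_lit 5) (nat_lit 352) (nat_lit 250) (nat_lit 178)) (XT.lf (nat_lit 0) (nat_lit 10890056603) (nat_lit 228) (nat_lit 8627333651) (nat_lit 76) (nat_lit 3410433770) (nat_lit 29) (nat_lit 5) (nat_lit 32) (nat_lit 5) (nat_lit 30) (nat_lit 4) (nat_lit 353) (nat_lit 250) (nat_lit 177)))) (XT.nd (nat_lit 156) (nat_lit 228) (nat_lit 0) (XT.nd (nat_lit 78) (nat_lit 0) (nat_lit 0) (XT.lf (nat_lit 0) (nat_lit 195825773) (nat_lit 76) (nat_lit 15098242738) (nat_lit 152) (nat_lit 8167263481) (nat_lit 28) (nat_lit 5) (nat_lit 29) (nat_lit 5) (nat_lit 30) (nat_lit 4) (nat_lit 354)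 (nat_lit 250) (nat_lit 176)) (XT.lf (nat_lit 0) (nat_lit 9410554124) (nat_lit 76) (nat_lit 10478738907) (nat_lit 152) (nat_lit 4119788276) (nat_lit 28) (nat_lit 5) (nat_lit 29) (nat_lit 5) (nat_lit 30) (nat_lit 4) (nat_lit 355) (nat_lit 250) (nat_lit 175))) (XT.nd (nat_lit 78) (nat_lit 152) (nat_lit 0) (XT.lf (nat_lit 0) (nat_lit 20664405) (nat_lit 152) (nat_lit 5721088381) (nat_lit 76) (nat_lit 18832329177) (nat_lit 27) (nat_lit 5) (nat_lit 29) (nat_lit 5) (nat_lit 28) (nat_lit 5) (nat_lit 356) (nat_lit 250) (nat_lit 174)) (XT.lf (nat_lit 0) (nat_lit 3400593353) (nat_lit 152) (nat_lit 807934423) (nat_lit 228) (nat_lit 20946109262) (nat_lit 25) (nat_lit 5) (nat_lit 27) (nat_lit 5) (nat_lit 28) (nat_lit 5) (nat_lit 357) (nat_lit 250) (nat_lit 173))))) (XT.nd (nat_lit 234) (nat_lit 228) (nat_lit 0) (XT.nd (nat_lit 78) (nat_lit 76) (nat_lit 0) (XT.lf (nat_lit 0) (nat_lit 8594890019) (nat_lit 228) (nat_lit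 12927108334) (nat_lit 76) (nat_lit 4228432411) (nat_lit 25) (nat_lit 5) (nat_lit 28) (nat_lit 5) (nat_lit 26) (nat_lit 4) (nat_lit 358) (nat_lit 250) (nat_lit 172)) (XT.nd (nat_lit 78) (nat_lit 76) (nat_lit 0) (XT.lf (nat_lit 0) (nat_lit 13095052062) (nat_lit 228) (nat_lit 3889752273) (nat_lit 76) (nat_lit 9379835357) (nat_lit 25) (nat_lit 5) (nat_lit 28) (nat_lit 5) (nat_lit 26) (nat_lit 4) (nat_lit 359) (nat_lit 250) (nat_lit 171)) (XT.lf (nat_lit 0) (nat_lit 5480634496) (nat_lit 76) (nat_lit 12277228440) (nat_lit 152) (nat_lit 9238590067) (nat_lit 24) (nat_lit 5) (nat_lit 25) (nat_lit 5) (nat_lit 26) (nat_lit 4) (nat_lit 360) (nat_lit 250) (nat_lit 170)))) (XT.nd (nat_lit 156) (nat_lit 228) (nat_lit 0) (XT.nd (nat_lit 78) (nat_lit 0) (nat_lit 0) (XT.lf (nat_lit 0) (nat_lit 15167273622) (nat_lit 76) (nat_lit 7407824766) (nat_lit 152) (nat_lit 5071693337) (nat_lit 24) (nat_lit 5) (nat_lit 25) (nat_lit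 5) (nat_lit 26) (nat_lit 4) (nat_lit 361) (nat_lit 250) (nat_lit 169)) (XT.lf (nat_lit 0) (nat_lit 25101215461) (nat_lit 76) (nat_lit 2411617364) (nat_lit 152) (nat_lit 804535333) (nat_lit 24) (nat_lit 5) (nat_lit 25) (nat_lit 5) (nat_lit 26) (nat_lit 4) (nat_lit 362) (nat_lit 250) (nat_lit 168))) (XT.nd (nat_lit 78) (nat_lit 0) (nat_lit 0) (XT.lf (nat_lit 0) (nat_lit 3585322314) (nat_lit 228) (nat_lit 22660516881) (nat_lit 76) (nat_lit 2759251298) (nat_lit 21) (nat_lit 5) (nat_lit 24) (nat_lit 5) (nat_lit 22) (nat_lit 4) (nat_lit 363) (nat_lit 250) (nat_lit 167)) (XT.lf (nat_lit 0) (nat_lit 8123925608) (nat_lit 228) (nat_lit 13529202943) (nat_lit 76) (nat_lit 8059086781) (nat_lit 21) (nat_lit 5) (nat_lit 24) (nat_lit 5) (nat_lit 22) (nat_lit 4) (nat_lit 364) (nat_lit 250) (nat_lit 166)))))) (XT.nd (nat_lit 546) (nat_lit 228) (nat_lit 0) (XT.nd (nat_lit 234) (nat_lit 152) (nat_lit 0) (XT.nd (nat_lit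 78) (nat_lit 76) (nat_lit 0) (XT.lf (nat_lit 0) (nat_lit 12775914663) (nat_lit 228) (nat_lit 4165326083) (nat_lit 76) (nat_lit 13500002567) (nat_lit 21) (nat_lit 5) (nat_lit 24) (nat_lit 5) (nat_lit 22) (nat_lit 4) (nat_lit 365) (nat_lit 250) (nat_lit 165)) (XT.nd (nat_lit 78) (nat_lit 0) (nat_lit 0) (XT.lf (nat_lit 0) (nat_lit 5547548376) (nat_lit 76) (nat_lit 12051132375) (nat_lit 152) (nat_lit 13592530906) (nat_lit 20) (nat_lit 5) (nat_lit 21) (nat_lit 5) (nat_lit 22) (nat_lit 4) (nat_lit 366) (nat_lit 250) (nat_lit 164)) (XT.lf (nat_lit 0) (nat_lit 15597416652) (nat_lit 76) (nat_lit 6988927318) (nat_lit 152) (nat_lit 9376734526) (nat_lit 20) (nat_lit 5) (nat_lit 21) (nat_lit 5) (nat_lit 22) (nat_lit 4) (nat_lit 367) (nat_lit 250) (nat_lit 163)))) (XT.nd (nat_lit 156) (nat_lit 76) (nat_lit 0) (XT.nd (nat_lit 78) (nat_lit 76) (nat_lit 0) (XT.lf (nat_lit 0) (nat_lit 25910162025) (nat_lit 76) (nat_lit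 1792263915) (nat_lit 152) (nat_lit 5056317432) (nat_lit 20) (nat_lit 5) (nat_lit 21) (nat_lit 5) (nat_lit 22) (nat_lit 4) (nat_lit 368) (nat_lit 250) (nat_lit 162)) (XT.lf (nat_lit 0) (nat_lit 2939186911) (nat_lit 76) (nat_lit 30074524693) (nat_lit 76) (nat_lit 563320487) (nat_lit 19) (nat_lit 4) (nat_lit 20) (nat_lit 5) (nat_lit 20) (nat_lit 4) (nat_lit 369) (nat_lit 250) (nat_lit 161))) (XT.nd (nat_lit 78) (nat_lit 0) (nat_lit 0) (XT.lf (nat_lit 0) (nat_lit 4052020246) (nat_lit 152) (nat_lit 21352317873) (nat_lit 76) (nat_lit 9012358475) (nat_lit 18) (nat_lit 5) (nat_lit 20) (nat_lit 5) (nat_lit 19) (nat_lit 4) (nat_lit 370) (nat_lit 250) (nat_lit 160)) (XT.lf (nat_lit 0) (nat_lit 8774381642) (nat_lit 152) (nat_lit 11830695858) (nat_lit 76) (nat_lit 14676914793) (nat_lit 18) (nat_lit 5) (nat_lit 20) (nat_lit 5) (nat_lit 19) (nat_lit 4) (nat_lit 371) (nat_lit 250) (nat_lit 159))))) (XT.nd (nat_lit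 312) (nat_lit 152) (nat_lit 0) (XT.nd (nat_lit 156) (nat_lit 0) (nat_lit 0) (XT.nd (nat_lit 78) (nat_lit 76) (nat_lit 0) (XT.lf (nat_lit 0) (nat_lit 13618882447) (nat_lit 152) (nat_lit 2059244291) (nat_lit 76) (nat_lit 20495710983) (nat_lit 18) (nat_lit 5) (nat_lit 20) (nat_lit 5) (nat_lit 19) (nat_lit 4) (nat_lit 372) (nat_lit 250) (nat_lit 158)) (XT.lf (nat_lit 0) (nat_lit 8129205060) (nat_lit 76) (nat_lit 10538693551) (nat_lit 152) (nat_lit 18422769262) (nat_lit 17) (nat_lit 5) (nat_lit 18) (nat_lit 5) (nat_lit 19) (nat_lit 4) (nat_lit 373) (nat_lit 250) (nat_lit 157))) (XT.nd (nat_lit 78) (nat_lit 0) (nat_lit 0) (XT.lf (nat_lit 0) (nat_lit 18631085489) (nat_lit 76) (nat_lit 5239352844) (nat_lit 152) (nat_lit 14164507639) (nat_lit 17) (nat_lit 5) (nat_lit 18) (nat_lit 5) (nat_lit 19) (nat_lit 4) (nat_lit 374) (nat_lit 250) (nat_lit 156)) (XT.lf (nat_lit 0) (nat_lit 29212817243) (nat_lit 152)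 (nat_lit 9595470772) (nat_lit 0) (nat_lit 199756007) (nat_lit 17) (nat_lit 5) (nat_lit 19) (nat_lit 4) (nat_lit 17) (nat_lit 4) (nat_lit 375) (nat_lit 250) (nat_lit 155)))) (XT.nd (nat_lit 156) (nat_lit 76) (nat_lit 0) (XT.nd (nat_lit 78) (nat_lit 0) (nat_lit 0) (XT.lf (nat_lit 0) (nat_lit 430853021) (nat_lit 76) (nat_lit 34322823272) (nat_lit 76) (nat_lit 5255516824) (nat_lit 16) (nat_lit 4) (nat_lit 17) (nat_lit 5) (nat_lit 17) (nat_lit 4) (nat_lit 376) (nat_lit 250) (nat_lit 154)) (XT.lf (nat_lit 0) (nat_lit 10922136011) (nat_lit 76) (nat_lit 29617918900) (nat_lit 76) (nat_lit 497947199) (nat_lit 16) (nat_lit 4) (nat_lit 17) (nat_lit 5) (nat_lit 17) (nat_lit 4) (nat_lit 377) (nat_lit 250) (nat_lit 153))) (XT.nd (nat_lit 78) (nat_lit 0) (nat_lit 0) (XT.lf (nat_lit 0) (nat_lit 4299181610) (nat_lit 152) (nat_lit 20443764345) (nat_lit 76) (nat_lit 17353981741) (nat_lit 15) (nat_lit 5) (nat_lit 17)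 (nat_lit 5) (nat_lit 16) (nat_lit 4) (nat_lit 378) (nat_lit 250) (nat_lit 152)) (XT.lf (nat_lit 0) (nat_lit 9213456615) (nat_lit 152) (nat_lit 10517428138) (nat_lit 76) (nat_lit 23457095053) (nat_lit 15) (nat_lit 5) (nat_lit 17) (nat_lit 5) (nat_lit 16) (nat_lit 4) (nat_lit 379) (nat_lit 250) (nat_lit 151))))))))
noncomputable def xc79 : XT := (XT.nd (nat_lit 2184) (nat_lit 76) (nat_lit 0) (XT.nd (nat_lit 1092) (nat_lit 228) (nat_lit 0) (XT.nd (nat_lit 546) (nat_lit 152) (nat_lit 0) (XT.nd (nat_lit 234) (nat_lit 76) (nat_lit 0) (XT.nd (nat_lit 78) (nat_lit 76) (nat_lit 0) (XT.lf (nat_lit 0) (nat_lit 14258888583) (nat_lit 152) (nat_lit 323397409) (nat_lit 76) (nat_lit 29729969391) (nat_lit 15) (nat_lit 5) (nat_lit 17) (nat_lit 5) (nat_lit 16) (nat_lit 4) (nat_lit 380) (nat_lit 250) (nat_lit 150)) (XT.nd (nat_lit 78) (nat_lit 0) (nat_lit 0) (XT.lf (nat_lit 0) (nat_lit 10349185124) (nat_lit 76) (nat_lit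 9190183720) (nat_lit 152) (nat_lit 25928383483) (nat_lit 14) (nat_lit 5) (nat_lit 15) (nat_lit 5) (nat_lit 16) (nat_lit 4) (nat_lit 381) (nat_lit 250) (nat_lit 149)) (XT.lf (nat_lit 0) (nat_lit 21319641930) (nat_lit 76) (nat_lit 3646271897) (nat_lit 152) (nat_lit 21692374393) (nat_lit 14) (nat_lit 5) (nat_lit 15) (nat_lit 5) (nat_lit 16) (nat_lit 4) (nat_lit 382) (nat_lit 250) (nat_lit 148)))) (XT.nd (nat_lit 156) (nat_lit 76) (nat_lit 0) (XT.nd (nat_lit 78) (nat_lit 0) (nat_lit 0) (XT.lf (nat_lit 0) (nat_lit 30559810348) (nat_lit 152) (nat_lit 15313591588) (nat_lit 0) (nat_lit 2011005046) (nat_lit 14) (nat_lit 5) (nat_lit 16) (nat_lit 4) (nat_lit 14) (nat_lit 4) (nat_lit 383) (nat_lit 250) (nat_lit 147)) (XT.lf (nat_lit 0) (nat_lit 36342785822) (nat_lit 152) (nat_lit 5051482887) (nat_lit 0) (nat_lit 7752406083) (nat_lit 14) (nat_lit 5) (nat_lit 16) (nat_lit 4) (nat_lit 14) (nat_lit 4) (nat_lit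 384) (nat_lit 250) (nat_lit 146))) (XT.nd (nat_lit 78) (nat_lit 0) (nat_lit 0) (XT.lf (nat_lit 0) (nat_lit 5600992436) (nat_lit 76) (nat_lit 36737690869) (nat_lit 76) (nat_lit 8106947598) (nat_lit 13) (nat_lit 4) (nat_lit 14) (nat_lit 5) (nat_lit 14) (nat_lit 4) (nat_lit 385) (nat_lit 250) (nat_lit 145)) (XT.lf (nat_lit 0) (nat_lit 16650062959) (nat_lit 76) (nat_lit 31901162020) (nat_lit 76) (nat_lit 3231230855) (nat_lit 13) (nat_lit 4) (nat_lit 14) (nat_lit 5) (nat_lit 14) (nat_lit 4) (nat_lit 386) (nat_lit 250) (nat_lit 144))))) (XT.nd (nat_lit 234) (nat_lit 76) (nat_lit 0) (XT.nd (nat_lit 78) (nat_lit 0) (nat_lit 0) (XT.lf (nat_lit 0) (nat_lit 1741845383) (nat_lit 152) (nat_lit 25172031536) (nat_lit 76) (nat_lit 26245414190) (nat_lit 12) (nat_lit 5) (nat_lit 14) (nat_lit 5) (nat_lit 13) (nat_lit 4) (nat_lit 387) (nat_lit 250) (nat_lit 143)) (XT.nd (nat_lit 78) (nat_lit 0) (nat_lit 0) (XT.lf (nat_lit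 0) (nat_lit 6785608320) (nat_lit 152) (nat_lit 14970131123) (nat_lit 76) (nat_lit 32821141946) (nat_lit 12) (nat_lit 5) (nat_lit 14) (nat_lit 5) (nat_lit 13) (nat_lit 4) (nat_lit 388) (nat_lit 250) (nat_lit 142)) (XT.lf (nat_lit 0) (nat_lit 11967518078) (nat_lit 152) (nat_lit 4486716788) (nat_lit 76) (nat_lit 39583162295) (nat_lit 12) (nat_lit 5) (nat_lit 14) (nat_lit 5) (nat_lit 13) (nat_lit 4) (nat_lit 389) (nat_lit 250) (nat_lit 141)))) (XT.nd (nat_lit 156) (nat_lit 0) (nat_lit 0) (XT.nd (nat_lit 78) (nat_lit 0) (nat_lit 0) (XT.lf (nat_lit 0) (nat_lit 6412502758) (nat_lit 76) (nat_lit 10941240681) (nat_lit 152) (nat_lit 40186521940) (nat_lit 11) (nat_lit 5) (nat_lit 12) (nat_lit 5) (nat_lit 13) (nat_lit 4) (nat_lit 390) (nat_lit 250) (nat_lit 140)) (XT.lf (nat_lit 0) (nat_lit 17707077555) (nat_lit 76) (nat_lit 5227147963) (nat_lit 152) (nat_lit 36153016671) (nat_lit 11) (nat_lit 5) (nat_lit 12)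 (nat_lit 5) (nat_lit 13) (nat_lit 4) (nat_lit 391) (nat_lit 250) (nat_lit 139))) (XT.nd (nat_lit 78) (nat_lit 0) (nat_lit 0) (XT.lf (nat_lit 0) (nat_lit 28676079412) (nat_lit 152) (nat_lit 31369643121) (nat_lit 0) (nat_lit 635089613) (nat_lit 11) (nat_lit 5) (nat_lit 13) (nat_lit 4) (nat_lit 11) (nat_lit 4) (nat_lit 392) (nat_lit 250) (nat_lit 138)) (XT.lf (nat_lit 0) (nat_lit 34629931912) (nat_lit 152) (nat_lit 21133060663) (nat_lit 0) (nat_lit 6558006828) (nat_lit 11) (nat_lit 5) (nat_lit 13) (nat_lit 4) (nat_lit 11) (nat_lit 4) (nat_lit 393) (nat_lit 250) (nat_lit 137)))))) (XT.nd (nat_lit 546) (nat_lit 76) (nat_lit 0) (XT.nd (nat_lit 234) (nat_lit 76) (nat_lit 0) (XT.nd (nat_lit 78) (nat_lit 76) (nat_lit 0) (XT.lf (nat_lit 0) (nat_lit 40750738871) (nat_lit 152) (nat_lit 10611226129) (nat_lit 0) (nat_lit 12648779528) (nat_lit 11) (nat_lit 5) (nat_lit 13) (nat_lit 4) (nat_lit 11) (nat_lit 4) (nat_lit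 394) (nat_lit 250) (nat_lit 136)) (XT.nd (nat_lit 78) (nat_lit 0) (nat_lit 0) (XT.lf (nat_lit 0) (nat_lit 209135297) (nat_lit 76) (nat_lit 46836723605) (nat_lit 76) (nat_lit 18705604788) (nat_lit 10) (nat_lit 4) (nat_lit 11) (nat_lit 5) (nat_lit 11) (nat_lit 4) (nat_lit 395) (nat_lit 250) (nat_lit 135)) (XT.lf (nat_lit 0) (nat_lit 11550626107) (nat_lit 76) (nat_lit 42075165407) (nat_lit 76) (nat_lit 13915736422) (nat_lit 10) (nat_lit 4) (nat_lit 11) (nat_lit 5) (nat_lit 11) (nat_lit 4) (nat_lit 396) (nat_lit 250) (nat_lit 134)))) (XT.nd (nat_lit 156) (nat_lit 76) (nat_lit 0) (XT.nd (nat_lit 78) (nat_lit 0) (nat_lit 0) (XT.lf (nat_lit 0) (nat_lit 23211972135) (nat_lit 76) (nat_lit 37180282400) (nat_lit 76) (nat_lit 8993367814) (nat_lit 10) (nat_lit 4) (nat_lit 11) (nat_lit 5) (nat_lit 11) (nat_lit 4) (nat_lit 397) (nat_lit 250) (nat_lit 133)) (XT.lf (nat_lit 0) (nat_lit 35203362906) (nat_lit 76)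 (nat_lit 32147797502) (nat_lit 76) (nat_lit 3934197867) (nat_lit 10) (nat_lit 4) (nat_lit 11) (nat_lit 5) (nat_lit 11) (nat_lit 4) (nat_lit 398) (nat_lit 250) (nat_lit 132))) (XT.nd (nat_lit 78) (nat_lit 0) (nat_lit 0) (XT.lf (nat_lit 0) (nat_lit 1241486047) (nat_lit 152) (nat_lit 25719290774) (nat_lit 76) (nat_lit 46281253712) (nat_lit 9) (nat_lit 5) (nat_lit 11) (nat_lit 5) (nat_lit 10) (nat_lit 4) (nat_lit 399) (nat_lit 250) (nat_lit 131)) (XT.lf (nat_lit 0) (nat_lit 6483321176) (nat_lit 152) (nat_lit 15103518680) (nat_lit 76) (nat_lit 53669697869) (nat_lit 9) (nat_lit 5) (nat_lit 11) (nat_lit 5) (nat_lit 10) (nat_lit 4) (nat_lit 400) (nat_lit 250) (nat_lit 130))))) (XT.nd (nat_lit 234) (nat_lit 0) (nat_lit 0) (XT.nd (nat_lit 78) (nat_lit 76) (nat_lit 0) (XT.lf (nat_lit 0) (nat_lit 11872658136) (nat_lit 152) (nat_lit 4187585252) (nat_lit 76) (nat_lit 61271531251) (nat_lit 9) (nat_lit 5) (nat_lit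 11) (nat_lit 5) (nat_lit 10) (nat_lit 4) (nat_lit 401) (nat_lit 250) (nat_lit 129)) (XT.nd (nat_lit 78) (nat_lit 0) (nat_lit 0) (XT.lf (nat_lit 0) (nat_lit 7178118651) (nat_lit 76) (nat_lit 10305087871) (nat_lit 152) (nat_lit 61984278052) (nat_lit 8) (nat_lit 5) (nat_lit 9) (nat_lit 5) (nat_lit 10) (nat_lit 4) (nat_lit 402) (nat_lit 250) (nat_lit 128)) (XT.lf (nat_lit 0) (nat_lit 18953030887) (nat_lit 76) (nat_lit 4341964302) (nat_lit 152) (nat_lit 58371284702) (nat_lit 8) (nat_lit 5) (nat_lit 9) (nat_lit 5) (nat_lit 10) (nat_lit 4) (nat_lit 403) (nat_lit 250) (nat_lit 127)))) (XT.nd (nat_lit 156) (nat_lit 0) (nat_lit 0) (XT.nd (nat_lit 78) (nat_lit 0) (nat_lit 0) (XT.lf (nat_lit 0) (nat_lit 29289273936) (nat_lit 152) (nat_lit 52884440749) (nat_lit 0) (nat_lit 1757082036) (nat_lit 8) (nat_lit 5) (nat_lit 10) (nat_lit 4) (nat_lit 8) (nat_lit 4) (nat_lit 404) (nat_lit 250) (nat_lit 126)) (XT.lf (nat_lit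 0) (nat_lit 35497470994) (nat_lit 152) (nat_lit 42820543390) (nat_lit 0) (nat_lit 7944213670) (nat_lit 8) (nat_lit 5) (nat_lit 10) (nat_lit 4) (nat_lit 8) (nat_lit 4) (nat_lit 405) (nat_lit 250) (nat_lit 125))) (XT.nd (nat_lit 78) (nat_lit 0) (nat_lit 0) (XT.lf (nat_lit 0) (nat_lit 41883273384) (nat_lit 152) (nat_lit 32471025615) (nat_lit 0) (nat_lit 14309564192) (nat_lit 8) (nat_lit 5) (nat_lit 10) (nat_lit 4) (nat_lit 8) (nat_lit 4) (nat_lit 406) (nat_lit 250) (nat_lit 124)) (XT.lf (nat_lit 0) (nat_lit 48452260934) (nat_lit 152) (nat_lit 21826844155) (nat_lit 0) (nat_lit 20858695559) (nat_lit 8) (nat_lit 5) (nat_lit 10) (nat_lit 4) (nat_lit 8) (nat_lit 4) (nat_lit 407) (nat_lit 250) (nat_lit 123))))))) (XT.nd (nat_lit 31200) (nat_lit 0) (nat_lit 9196) (XT.nd (nat_lit 30654) (nat_lit 0) (nat_lit 14896) (XT.nd (nat_lit 234) (nat_lit 0) (nat_lit 0) (XT.nd (nat_lit 78) (nat_lit 76) (nat_lit 0) (XT.lf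 (nat_lit 0) (nat_lit 55210173536) (nat_lit 152) (nat_lit 10878698269) (nat_lit 0) (nat_lit 27597330314) (nat_lit 8) (nat_lit 5) (nat_lit 10) (nat_lit 4) (nat_lit 8) (nat_lit 4) (nat_lit 408) (nat_lit 250) (nat_lit 122)) (XT.nd (nat_lit 78) (nat_lit 0) (nat_lit 0) (XT.lf (nat_lit 0) (nat_lit 390600403) (nat_lit 76) (nat_lit 61776070448) (nat_lit 76) (nat_lit 34144510869) (nat_lit 7) (nat_lit 4) (nat_lit 8) (nat_lit 5) (nat_lit 8) (nat_lit 4) (nat_lit 409) (nat_lit 250) (nat_lit 121)) (XT.lf (nat_lit 0) (nat_lit 12206213288) (nat_lit 76) (nat_lit 57227684324) (nat_lit 76) (nat_lit 29577953524) (nat_lit 7) (nat_lit 4) (nat_lit 8) (nat_lit 5) (nat_lit 8) (nat_lit 4) (nat_lit 410) (nat_lit 250) (nat_lit 120)))) (XT.nd (nat_lit 30264) (nat_lit 0) (nat_lit 20064) (XT.nd (nat_lit 78) (nat_lit 0) (nat_lit 0) (XT.lf (nat_lit 0) (nat_lit 24361957280) (nat_lit 76) (nat_lit 52549592637) (nat_lit 76) (nat_lit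 24882219876) (nat_lit 7) (nat_lit 4) (nat_lit 8) (nat_lit 5) (nat_lit 8) (nat_lit 4) (nat_lit 411) (nat_lit 250) (nat_lit 119)) (XT.lf (nat_lit 0) (nat_lit 36868453904) (nat_lit 76) (nat_lit 47737707734) (nat_lit 76) (nat_lit 20053206855) (nat_lit 7) (nat_lit 4) (nat_lit 8) (nat_lit 5) (nat_lit 8) (nat_lit 4) (nat_lit 412) (nat_lit 250) (nat_lit 118))) (XT.nd (nat_lit 78) (nat_lit 0) (nat_lit 0) (XT.lf (nat_lit 0) (nat_lit 17713148) (nat_lit 836) (nat_lit 3367210525) (nat_lit 0) (nat_lit 17713148) (nat_lit 271) (nat_lit 5) (nat_lit 282) (nat_lit 4) (nat_lit 271) (nat_lit 4) (nat_lit 278) (nat_lit 251) (nat_lit 251)) (XT.lf (nat_lit 0) (nat_lit 3190078146) (nat_lit 836) (nat_lit 2406287411) (nat_lit 0) (nat_lit 1250686179) (nat_lit 271) (nat_lit 5) (nat_lit 282) (nat_lit 4) (nat_lit 271) (nat_lit 4) (nat_lit 279) (nat_lit 251) (nat_lit 250))))) (XT.nd (nat_lit 234) (nat_lit 3344) (nat_lit 0) (XT.nd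 (nat_lit 78) (nat_lit 988) (nat_lit 0) (XT.lf (nat_lit 0) (nat_lit 2003247617) (nat_lit 836) (nat_lit 4355846103) (nat_lit 836) (nat_lit 533549314) (nat_lit 260) (nat_lit 4) (nat_lit 271) (nat_lit 5) (nat_lit 271) (nat_lit 4) (nat_lit 280) (nat_lit 251) (nat_lit 249)) (XT.nd (nat_lit 78) (nat_lit 912) (nat_lit 0) (XT.lf (nat_lit 0) (nat_lit 2557175028) (nat_lit 912) (nat_lit 459294415) (nat_lit 76) (nat_lit 3924722720) (nat_lit 259) (nat_lit 5) (nat_lit 271) (nat_lit 5) (nat_lit 260) (nat_lit 4) (nat_lit 281) (nat_lit 251) (nat_lit 248)) (XT.lf (nat_lit 0) (nat_lit 4092084308) (nat_lit 912) (nat_lit 1581443974) (nat_lit 988) (nat_lit 1319340798) (nat_lit 247) (nat_lit 5) (nat_lit 259) (nat_lit 5) (nat_lit 260) (nat_lit 4) (nat_lit 282) (nat_lit 251) (nat_lit 247)))) (XT.nd (nat_lit 156) (nat_lit 2280) (nat_lit 0) (XT.nd (nat_lit 78) (nat_lit 0) (nat_lit 0) (XT.lf (nat_lit 0) (nat_lit 1670996198)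 (nat_lit 988) (nat_lit 56376606) (nat_lit 1064) (nat_lit 5320545968) (nat_lit 233) (nat_lit 5) (nat_lit 246) (nat_lit 5) (nat_lit 247) (nat_lit 5) (nat_lit 283) (nat_lit 251) (nat_lit 246)) (XT.lf (nat_lit 0) (nat_lit 4790303330) (nat_lit 1064) (nat_lit 781741809) (nat_lit 76) (nat_lit 1533769894) (nat_lit 233) (nat_lit 5) (nat_lit 247) (nat_lit 5) (nat_lit 234) (nat_lit 4) (nat_lit 284) (nat_lit 251) (nat_lit 245))) (XT.nd (nat_lit 78) (nat_lit 1140) (nat_lit 0) (XT.lf (nat_lit 0) (nat_lit 712162183) (nat_lit 1140) (nat_lit 3233346392) (nat_lit 76) (nat_lit 3221403346) (nat_lit 218) (nat_lit 5) (nat_lit 233) (nat_lit 5) (nat_lit 219) (nat_lit 5) (nat_lit 285) (nat_lit 251) (nat_lit 244)) (XT.lf (nat_lit 0) (nat_lit 1495001753) (nat_lit 1140) (nat_lit 2222169998) (nat_lit 1216) (nat_lit 3514107020) (nat_lit 203) (nat_lit 5) (nat_lit 218) (nat_lit 5) (nat_lit 219) (nat_lit 5) (nat_lit 286) (nat_lit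 251) (nat_lit 243)))))) (XT.nd (nat_lit 546) (nat_lit 3040) (nat_lit 0) (XT.nd (nat_lit 234) (nat_lit 1216) (nat_lit 0) (XT.nd (nat_lit 78) (nat_lit 1444) (nat_lit 0) (XT.lf (nat_lit 0) (nat_lit 6344423495) (nat_lit 1140) (nat_lit 413024505) (nat_lit 1216) (nat_lit 541887929) (nat_lit 203) (nat_lit 5) (nat_lit 218) (nat_lit 5) (nat_lit 219) (nat_lit 5) (nat_lit 287) (nat_lit 251) (nat_lit 242)) (XT.nd (nat_lit 78) (nat_lit 608) (nat_lit 0) (XT.lf (nat_lit 0) (nat_lit 2436789159) (nat_lit 836) (nat_lit 3448665773) (nat_lit 76) (nat_lit 1484365946) (nat_lit 192) (nat_lit 5) (nat_lit 203) (nat_lit 5) (nat_lit 193) (nat_lit 5) (nat_lit 288) (nat_lit 251) (nat_lit 241)) (XT.lf (nat_lit 0) (nat_lit 1451613896) (nat_lit 608) (nat_lit 3985838487) (nat_lit 684) (nat_lit 2006604742) (nat_lit 184) (nat_lit 5) (nat_lit 192) (nat_lit 5) (nat_lit 193) (nat_lit 5) (nat_lit 289) (nat_lit 251) (nat_lit 240)))) (XT.nd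 (nat_lit 156) (nat_lit 608) (nat_lit 0) (XT.nd (nat_lit 78) (nat_lit 532) (nat_lit 0) (XT.lf (nat_lit 0) (nat_lit 939557335) (nat_lit 684) (nat_lit 1048917298) (nat_lit 76) (nat_lit 5533304416) (nat_lit 183) (nat_lit 5) (nat_lit 192) (nat_lit 5) (nat_lit 184) (nat_lit 5) (nat_lit 290) (nat_lit 251) (nat_lit 239)) (XT.lf (nat_lit 0) (nat_lit 3892426289) (nat_lit 608) (nat_lit 3588817675) (nat_lit 76) (nat_lit 121327527) (nat_lit 176) (nat_lit 5) (nat_lit 184) (nat_lit 5) (nat_lit 177) (nat_lit 5) (nat_lit 291) (nat_lit 251) (nat_lit 238))) (XT.nd (nat_lit 78) (nat_lit 76) (nat_lit 0) (XT.lf (nat_lit 0) (nat_lit 1485542923) (nat_lit 532) (nat_lit 5413355005) (nat_lit 608) (nat_lit 788030992) (nat_lit 169) (nat_lit 5) (nat_lit 176) (nat_lit 5) (nat_lit 177) (nat_lit 5) (nat_lit 292) (nat_lit 251) (nat_lit 237)) (XT.lf (nat_lit 0) (nat_lit 2135964228) (nat_lit 608) (nat_lit 1097530011) (nat_lit 76)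 (nat_lit 4541041423) (nat_lit 168) (nat_lit 5) (nat_lit 176) (nat_lit 5) (nat_lit 169) (nat_lit 5) (nat_lit 293) (nat_lit 251) (nat_lit 236))))) (XT.nd (nat_lit 312) (nat_lit 1444) (nat_lit 0) (XT.nd (nat_lit 156) (nat_lit 456) (nat_lit 0) (XT.nd (nat_lit 78) (nat_lit 608) (nat_lit 0) (XT.lf (nat_lit 0) (nat_lit 4146349460) (nat_lit 532) (nat_lit 948623238) (nat_lit 608) (nat_lit 2770753809) (nat_lit 161) (nat_lit 5) (nat_lit 168) (nat_lit 5) (nat_lit 169) (nat_lit 5) (nat_lit 294) (nat_lit 251) (nat_lit 235)) (XT.lf (nat_lit 0) (nat_lit 143177935) (nat_lit 608) (nat_lit 6422663158) (nat_lit 76) (nat_lit 1394928721) (nat_lit 153) (nat_lit 5) (nat_lit 161) (nat_lit 5) (nat_lit 154) (nat_lit 5) (nat_lit 295) (nat_lit 251) (nat_lit 234))) (XT.nd (nat_lit 78) (nat_lit 456) (nat_lit 0) (XT.lf (nat_lit 0) (nat_lit 3061305127) (nat_lit 608) (nat_lit 1153483646) (nat_lit 76) (nat_lit 3843955451) (nat_lit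 153) (nat_lit 5) (nat_lit 161) (nat_lit 5) (nat_lit 154) (nat_lit 5) (nat_lit 296) (nat_lit 251) (nat_lit 233)) (XT.lf (nat_lit 0) (nat_lit 4271386382) (nat_lit 456) (nat_lit 1763973509) (nat_lit 532) (nat_lit 2125321034) (nat_lit 147) (nat_lit 5) (nat_lit 153) (nat_lit 5) (nat_lit 154) (nat_lit 5) (nat_lit 297) (nat_lit 251) (nat_lit 232)))) (XT.nd (nat_lit 156) (nat_lit 912) (nat_lit 0) (XT.nd (nat_lit 78) (nat_lit 0) (nat_lit 0) (XT.lf (nat_lit 0) (nat_lit 778762469) (nat_lit 532) (nat_lit 6721280104) (nat_lit 76) (nat_lit 766601558) (nat_lit 140) (nat_lit 5) (nat_lit 147) (nat_lit 5) (nat_lit 141) (nat_lit 5) (nat_lit 298) (nat_lit 251) (nat_lit 231)) (XT.lf (nat_lit 0) (nat_lit 3713365443) (nat_lit 532) (nat_lit 1278322631) (nat_lit 76) (nat_lit 3383951705) (nat_lit 140) (nat_lit 5) (nat_lit 147) (nat_lit 5) (nat_lit 141) (nat_lit 5) (nat_lit 299) (nat_lit 251) (nat_lit 230))) (XT.nd (nat_lit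 78) (nat_lit 532) (nat_lit 0) (XT.lf (nat_lit 0) (nat_lit 4327309637) (nat_lit 380) (nat_lit 2381347623) (nat_lit 456) (nat_lit 1780134769) (nat_lit 135) (nat_lit 5) (nat_lit 140) (nat_lit 5) (nat_lit 141) (nat_lit 5) (nat_lit 300) (nat_lit 251) (nat_lit 229)) (XT.lf (nat_lit 0) (nat_lit 1126974456) (nat_lit 532) (nat_lit 7155943950) (nat_lit 76) (nat_lit 323289259) (nat_lit 128) (nat_lit 5) (nat_lit 135) (nat_lit 5) (nat_lit 129) (nat_lit 5) (nat_lit 301) (nat_lit 251) (nat_lit 228))))))))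
noncomputable def xc80 : XT := (XT.nd (nat_lit 2184) (nat_lit 2432) (nat_lit 0) (XT.nd (nat_lit 1092) (nat_lit 2128) (nat_lit 0) (XT.nd (nat_lit 546) (nat_lit 1596) (nat_lit 0) (XT.nd (nat_lit 234) (nat_lit 836) (nat_lit 0) (XT.nd (nat_lit 78) (nat_lit 836) (nat_lit 0) (XT.lf (nat_lit 0) (nat_lit 4084064420) (nat_lit 532) (nat_lit 1538553994) (nat_lit 76) (nat_lit 3104102847) (nat_lit 128) (nat_lit 5) (nat_lit 135) (nat_lit 5) (nat_lit 129) (nat_lit 5) (nat_lit 302) (nat_lit 251) (nat_lit 227)) (XT.nd (nat_lit 78) (nat_lit 456) (nat_lit 0) (XT.lf (nat_lit 0) (nat_lit 4246020029) (nat_lit 380) (nat_lit 2859157373) (nat_lit 456) (nat_lit 1746472418) (nat_lit 123) (nat_lit 5) (nat_lit 128) (nat_lit 5) (nat_lit 129) (nat_lit 5) (nat_lit 303) (nat_lit 251) (nat_lit 226)) (XT.lf (nat_lit 0) (nat_lit 1174502301) (nat_lit 456) (nat_lit 7799121900) (nat_lit 76) (nat_lit 7539859) (nat_lit 117) (nat_lit 5)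 (nat_lit 123) (nat_lit 5) (nat_lit 118) (nat_lit 5) (nat_lit 304) (nat_lit 251) (nat_lit 225)))) (XT.nd (nat_lit 156) (nat_lit 456) (nat_lit 0) (XT.nd (nat_lit 78) (nat_lit 380) (nat_lit 0) (XT.lf (nat_lit 0) (nat_lit 4159086916) (nat_lit 456) (nat_lit 2007144630) (nat_lit 76) (nat_lit 2947534808) (nat_lit 117) (nat_lit 5) (nat_lit 123) (nat_lit 5) (nat_lit 118) (nat_lit 5) (nat_lit 305) (nat_lit 251) (nat_lit 224)) (XT.lf (nat_lit 0) (nat_lit 3952545070) (nat_lit 380) (nat_lit 3256334229) (nat_lit 456) (nat_lit 2042249613) (nat_lit 112) (nat_lit 5) (nat_lit 117) (nat_lit 5) (nat_lit 118) (nat_lit 5) (nat_lit 306) (nat_lit 251) (nat_lit 223))) (XT.nd (nat_lit 78) (nat_lit 0) (nat_lit 0) (XT.lf (nat_lit 0) (nat_lit 659997111) (nat_lit 380) (nat_lit 243726676) (nat_lit 456) (nat_lit 8489716044) (nat_lit 106) (nat_lit 5) (nat_lit 111) (nat_lit 5) (nat_lit 112) (nat_lit 5) (nat_lit 307) (nat_lit 251)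 (nat_lit 222)) (XT.lf (nat_lit 0) (nat_lit 3917390182) (nat_lit 456) (nat_lit 2765186894) (nat_lit 76) (nat_lit 2856273426) (nat_lit 106) (nat_lit 5) (nat_lit 112) (nat_lit 5) (nat_lit 107) (nat_lit 5) (nat_lit 308) (nat_lit 251) (nat_lit 221))))) (XT.nd (nat_lit 234) (nat_lit 912) (nat_lit 0) (XT.nd (nat_lit 78) (nat_lit 380) (nat_lit 0) (XT.lf (nat_lit 0) (nat_lit 3363306262) (nat_lit 304) (nat_lit 3633525905) (nat_lit 380) (nat_lit 2692576830) (nat_lit 102) (nat_lit 5) (nat_lit 106) (nat_lit 5) (nat_lit 107) (nat_lit 5) (nat_lit 309) (nat_lit 251) (nat_lit 220)) (XT.nd (nat_lit 78) (nat_lit 304) (nat_lit 0) (XT.lf (nat_lit 0) (nat_lit 286995055) (nat_lit 380) (nat_lit 197143624) (nat_lit 76) (nat_lit 9361221455) (nat_lit 101) (nat_lit 5) (nat_lit 106) (nat_lit 5) (nat_lit 102) (nat_lit 5) (nat_lit 310) (nat_lit 251) (nat_lit 219)) (XT.lf (nat_lit 0) (nat_lit 3330572932) (nat_lit 380) (nat_lit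 3903767723) (nat_lit 76) (nat_lit 2770029794) (nat_lit 97) (nat_lit 5) (nat_lit 102) (nat_lit 5) (nat_lit 98) (nat_lit 5) (nat_lit 311) (nat_lit 251) (nat_lit 218)))) (XT.nd (nat_lit 156) (nat_lit 608) (nat_lit 0) (XT.nd (nat_lit 78) (nat_lit 0) (nat_lit 0) (XT.lf (nat_lit 0) (nat_lit 2384171112) (nat_lit 304) (nat_lit 4054365786) (nat_lit 380) (nat_lit 3730463099) (nat_lit 93) (nat_lit 5) (nat_lit 97) (nat_lit 5) (nat_lit 98) (nat_lit 5) (nat_lit 312) (nat_lit 251) (nat_lit 217)) (XT.lf (nat_lit 0) (nat_lit 8860792537) (nat_lit 304) (nat_lit 762605362) (nat_lit 380) (nat_lit 715700877) (nat_lit 93) (nat_lit 5) (nat_lit 97) (nat_lit 5) (nat_lit 98) (nat_lit 5) (nat_lit 313) (nat_lit 251) (nat_lit 216))) (XT.nd (nat_lit 78) (nat_lit 228) (nat_lit 0) (XT.lf (nat_lit 0) (nat_lit 2362091183) (nat_lit 380) (nat_lit 5526081180) (nat_lit 76) (nat_lit 2624900412) (nat_lit 88) (nat_lit 5) (nat_lit 93) (nat_lit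 5) (nat_lit 89) (nat_lit 5) (nat_lit 314) (nat_lit 251) (nat_lit 215)) (XT.lf (nat_lit 0) (nat_lit 908248140) (nat_lit 228) (nat_lit 4586840385) (nat_lit 304) (nat_lit 5197683879) (nat_lit 85) (nat_lit 5) (nat_lit 88) (nat_lit 5) (nat_lit 89) (nat_lit 5) (nat_lit 315) (nat_lit 251) (nat_lit 214)))))) (XT.nd (nat_lit 546) (nat_lit 988) (nat_lit 0) (XT.nd (nat_lit 234) (nat_lit 760) (nat_lit 0) (XT.nd (nat_lit 78) (nat_lit 380) (nat_lit 0) (XT.lf (nat_lit 0) (nat_lit 7570240667) (nat_lit 228) (nat_lit 1154356874) (nat_lit 304) (nat_lit 2153225442) (nat_lit 85) (nat_lit 5) (nat_lit 88) (nat_lit 5) (nat_lit 89) (nat_lit 5) (nat_lit 316) (nat_lit 251) (nat_lit 213)) (XT.nd (nat_lit 78) (nat_lit 0) (nat_lit 0) (XT.lf (nat_lit 0) (nat_lit 966302118) (nat_lit 380) (nat_lit 7749829917) (nat_lit 76) (nat_lit 2351956002) (nat_lit 80) (nat_lit 5) (nat_lit 85) (nat_lit 5) (nat_lit 81) (nat_lit 5) (nat_lit 317)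 (nat_lit 251) (nat_lit 212)) (XT.lf (nat_lit 0) (nat_lit 4129566362) (nat_lit 380) (nat_lit 1163467432) (nat_lit 76) (nat_lit 5970617414) (nat_lit 80) (nat_lit 5) (nat_lit 85) (nat_lit 5) (nat_lit 81) (nat_lit 5) (nat_lit 318) (nat_lit 251) (nat_lit 211)))) (XT.nd (nat_lit 156) (nat_lit 304) (nat_lit 0) (XT.nd (nat_lit 78) (nat_lit 228) (nat_lit 0) (XT.lf (nat_lit 0) (nat_lit 5655104051) (nat_lit 228) (nat_lit 1736760033) (nat_lit 304) (nat_lit 4073124766) (nat_lit 77) (nat_lit 5) (nat_lit 80) (nat_lit 5) (nat_lit 81) (nat_lit 5) (nat_lit 319) (nat_lit 251) (nat_lit 210)) (XT.lf (nat_lit 0) (nat_lit 953787282) (nat_lit 228) (nat_lit 9788064772) (nat_lit 304) (nat_lit 930850651) (nat_lit 74) (nat_lit 5) (nat_lit 77) (nat_lit 5) (nat_lit 78) (nat_lit 5) (nat_lit 320) (nat_lit 251) (nat_lit 209))) (XT.nd (nat_lit 78) (nat_lit 228) (nat_lit 0) (XT.lf (nat_lit 0) (nat_lit 2287624394) (nat_lit 304) (nat_lit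 3961889387) (nat_lit 76) (nat_lit 5635690491) (nat_lit 73) (nat_lit 5) (nat_lit 77) (nat_lit 5) (nat_lit 74) (nat_lit 5) (nat_lit 321) (nat_lit 251) (nat_lit 208)) (XT.lf (nat_lit 0) (nat_lit 2972333284) (nat_lit 228) (nat_lit 2592105536) (nat_lit 304) (nat_lit 6539978860) (nat_lit 70) (nat_lit 5) (nat_lit 73) (nat_lit 5) (nat_lit 74) (nat_lit 5) (nat_lit 322) (nat_lit 251) (nat_lit 207))))) (XT.nd (nat_lit 234) (nat_lit 684) (nat_lit 0) (XT.nd (nat_lit 78) (nat_lit 304) (nat_lit 0) (XT.lf (nat_lit 0) (nat_lit 8943619987) (nat_lit 304) (nat_lit 2219668388) (nat_lit 76) (nat_lit 1166824544) (nat_lit 70) (nat_lit 5) (nat_lit 74) (nat_lit 5) (nat_lit 71) (nat_lit 5) (nat_lit 323) (nat_lit 251) (nat_lit 206)) (XT.nd (nat_lit 78) (nat_lit 76) (nat_lit 0) (XT.lf (nat_lit 0) (nat_lit 4897432499) (nat_lit 228) (nat_lit 7553236899) (nat_lit 304) (nat_lit 111141333) (nat_lit 67) (nat_lit 5) (nat_lit 70) (nat_lit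 5) (nat_lit 71) (nat_lit 5) (nat_lit 324) (nat_lit 251) (nat_lit 205)) (XT.lf (nat_lit 0) (nat_lit 3175375236) (nat_lit 304) (nat_lit 630642320) (nat_lit 76) (nat_lit 8994229066) (nat_lit 66) (nat_lit 5) (nat_lit 70) (nat_lit 5) (nat_lit 67) (nat_lit 5) (nat_lit 325) (nat_lit 251) (nat_lit 204)))) (XT.nd (nat_lit 156) (nat_lit 228) (nat_lit 0) (XT.nd (nat_lit 78) (nat_lit 228) (nat_lit 0) (XT.lf (nat_lit 0) (nat_lit 6578578016) (nat_lit 304) (nat_lit 6373645122) (nat_lit 76) (nat_lit 92993956) (nat_lit 63) (nat_lit 5) (nat_lit 67) (nat_lit 5) (nat_lit 64) (nat_lit 5) (nat_lit 326) (nat_lit 251) (nat_lit 203)) (XT.lf (nat_lit 0) (nat_lit 815498270) (nat_lit 228) (nat_lit 9275985658) (nat_lit 304) (nat_lit 3205848088) (nat_lit 60) (nat_lit 5) (nat_lit 63) (nat_lit 5) (nat_lit 64) (nat_lit 5) (nat_lit 327) (nat_lit 251) (nat_lit 202))) (XT.nd (nat_lit 78) (nat_lit 152) (nat_lit 0) (XT.lf (nat_lit 0)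 (nat_lit 170596961) (nat_lit 304) (nat_lit 5277523602) (nat_lit 76) (nat_lit 8108243621) (nat_lit 59) (nat_lit 5) (nat_lit 63) (nat_lit 5) (nat_lit 60) (nat_lit 5) (nat_lit 328) (nat_lit 251) (nat_lit 201)) (XT.lf (nat_lit 0) (nat_lit 2082582618) (nat_lit 152) (nat_lit 1478437232) (nat_lit 228) (nat_lit 10261903217) (nat_lit 57) (nat_lit 5) (nat_lit 59) (nat_lit 5) (nat_lit 60) (nat_lit 5) (nat_lit 329) (nat_lit 251) (nat_lit 200))))))) (XT.nd (nat_lit 1092) (nat_lit 988) (nat_lit 0) (XT.nd (nat_lit 546) (nat_lit 760) (nat_lit 0) (XT.nd (nat_lit 234) (nat_lit 456) (nat_lit 0) (XT.nd (nat_lit 78) (nat_lit 228) (nat_lit 0) (XT.lf (nat_lit 0) (nat_lit 7089505970) (nat_lit 228) (nat_lit 4419413717) (nat_lit 76) (nat_lit 2587489435) (nat_lit 57) (nat_lit 5) (nat_lit 60) (nat_lit 5) (nat_lit 58) (nat_lit 5) (nat_lit 330) (nat_lit 251) (nat_lit 199)) (XT.nd (nat_lit 78) (nat_lit 0) (nat_lit 0) (XT.lf (nat_lit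 0) (nat_lit 3099420515) (nat_lit 228) (nat_lit 7627535441) (nat_lit 304) (nat_lit 3651070833) (nat_lit 54) (nat_lit 5) (nat_lit 57) (nat_lit 5) (nat_lit 58) (nat_lit 5) (nat_lit 331) (nat_lit 251) (nat_lit 198)) (XT.lf (nat_lit 0) (nat_lit 10867512640) (nat_lit 228) (nat_lit 3609882451) (nat_lit 304) (nat_lit 190601646) (nat_lit 54) (nat_lit 5) (nat_lit 57) (nat_lit 5) (nat_lit 58) (nat_lit 5) (nat_lit 332) (nat_lit 251) (nat_lit 197)))) (XT.nd (nat_lit 156) (nat_lit 228) (nat_lit 0) (XT.nd (nat_lit 78) (nat_lit 0) (nat_lit 0) (XT.lf (nat_lit 0) (nat_lit 3310676654) (nat_lit 228) (nat_lit 11091825051) (nat_lit 76) (nat_lit 563124938) (nat_lit 51) (nat_lit 5) (nat_lit 54) (nat_lit 5) (nat_lit 52) (nat_lit 5) (nat_lit 333) (nat_lit 251) (nat_lit 196)) (XT.lf (nat_lit 0) (nat_lit 6947967913) (nat_lit 228) (nat_lit 3518897052) (nat_lit 76) (nat_lit 4804237748) (nat_lit 51) (nat_lit 5) (nat_lit 54) (nat_lit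 5) (nat_lit 52) (nat_lit 5) (nat_lit 334) (nat_lit 251) (nat_lit 195))) (XT.nd (nat_lit 78) (nat_lit 0) (nat_lit 0) (XT.lf (nat_lit 0) (nat_lit 4300994793) (nat_lit 228) (nat_lit 6396189716) (nat_lit 304) (nat_lit 4888491878) (nat_lit 48) (nat_lit 5) (nat_lit 51) (nat_lit 5) (nat_lit 52) (nat_lit 5) (nat_lit 335) (nat_lit 251) (nat_lit 194)) (XT.lf (nat_lit 0) (nat_lit 12364094379) (nat_lit 228) (nat_lit 2192291811) (nat_lit 304) (nat_lit 1353392833) (nat_lit 48) (nat_lit 5) (nat_lit 51) (nat_lit 5) (nat_lit 52) (nat_lit 5) (nat_lit 336) (nat_lit 251) (nat_lit 193))))) (XT.nd (nat_lit 234) (nat_lit 380) (nat_lit 0) (XT.nd (nat_lit 78) (nat_lit 152) (nat_lit 0) (XT.lf (nat_lit 0) (nat_lit 2269323254) (nat_lit 228) (nat_lit 11836294541) (nat_lit 76) (nat_lit 2136557042) (nat_lit 45) (nat_lit 5) (nat_lit 48) (nat_lit 5) (nat_lit 46) (nat_lit 5) (nat_lit 337) (nat_lit 251) (nat_lit 192)) (XT.nd (nat_lit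 78) (nat_lit 152) (nat_lit 0) (XT.lf (nat_lit 0) (nat_lit 5994335963) (nat_lit 228) (nat_lit 4012951865) (nat_lit 76) (nat_lit 6576243758) (nat_lit 45) (nat_lit 5) (nat_lit 48) (nat_lit 5) (nat_lit 46) (nat_lit 5) (nat_lit 338) (nat_lit 251) (nat_lit 191)) (XT.lf (nat_lit 0) (nat_lit 4063512596) (nat_lit 152) (nat_lit 5770678659) (nat_lit 228) (nat_lit 7100860128) (nat_lit 43) (nat_lit 5) (nat_lit 45) (nat_lit 5) (nat_lit 46) (nat_lit 5) (nat_lit 339) (nat_lit 251) (nat_lit 190)))) (XT.nd (nat_lit 156) (nat_lit 152) (nat_lit 0) (XT.nd (nat_lit 78) (nat_lit 228) (nat_lit 0) (XT.lf (nat_lit 0) (nat_lit 12404257094) (nat_lit 152) (nat_lit 1390007521) (nat_lit 228) (nat_lit 3502716160) (nat_lit 43) (nat_lit 5) (nat_lit 45) (nat_lit 5) (nat_lit 46) (nat_lit 5) (nat_lit 340) (nat_lit 251) (nat_lit 189)) (XT.lf (nat_lit 0) (nat_lit 226697528) (nat_lit 228) (nat_lit 14370681138) (nat_lit 76) (nat_lit 3071525749)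 (nat_lit 40) (nat_lit 5) (nat_lit 43) (nat_lit 5) (nat_lit 41) (nat_lit 5) (nat_lit 341) (nat_lit 251) (nat_lit 188))) (XT.nd (nat_lit 78) (nat_lit 152) (nat_lit 0) (XT.lf (nat_lit 0) (nat_lit 4026646424) (nat_lit 228) (nat_lit 6323698156) (nat_lit 76) (nat_lit 7699742583) (nat_lit 40) (nat_lit 5) (nat_lit 43) (nat_lit 5) (nat_lit 41) (nat_lit 5) (nat_lit 342) (nat_lit 251) (nat_lit 187)) (XT.lf (nat_lit 0) (nat_lit 1944921199) (nat_lit 152) (nat_lit 5980771640) (nat_lit 228) (nat_lit 10517472620) (nat_lit 38) (nat_lit 5) (nat_lit 40) (nat_lit 5) (nat_lit 41) (nat_lit 5) (nat_lit 343) (nat_lit 251) (nat_lit 186)))))) (XT.nd (nat_lit 546) (nat_lit 532) (nat_lit 0) (XT.nd (nat_lit 234) (nat_lit 228) (nat_lit 0) (XT.nd (nat_lit 78) (nat_lit 228) (nat_lit 0) (XT.lf (nat_lit 0) (nat_lit 10534069152) (nat_lit 152) (nat_lit 1438330820) (nat_lit 228) (nat_lit 6874728109) (nat_lit 38) (nat_lit 5) (nat_lit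 40) (nat_lit 5) (nat_lit 41) (nat_lit 5) (nat_lit 344) (nat_lit 251) (nat_lit 185)) (XT.nd (nat_lit 78) (nat_lit 76) (nat_lit 0) (XT.lf (nat_lit 0) (nat_lit 30886948) (nat_lit 152) (nat_lit 16108641334) (nat_lit 228) (nat_lit 3123722990) (nat_lit 36) (nat_lit 5) (nat_lit 38) (nat_lit 5) (nat_lit 39) (nat_lit 4) (nat_lit 345) (nat_lit 251) (nat_lit 184)) (XT.lf (nat_lit 0) (nat_lit 792048368) (nat_lit 228) (nat_lit 10972315636) (nat_lit 76) (nat_lit 7925292217) (nat_lit 35) (nat_lit 5) (nat_lit 38) (nat_lit 5) (nat_lit 36) (nat_lit 5) (nat_lit 346) (nat_lit 251) (nat_lit 183)))) (XT.nd (nat_lit 156) (nat_lit 76) (nat_lit 0) (XT.nd (nat_lit 78) (nat_lit 152) (nat_lit 0) (XT.lf (nat_lit 0) (nat_lit 4731106071) (nat_lit 228) (nat_lit 2550105120) (nat_lit 76) (nat_lit 12847667626) (nat_lit 35) (nat_lit 5) (nat_lit 38) (nat_lit 5) (nat_lit 36) (nat_lit 5) (nat_lit 347) (nat_lit 251) (nat_lit 182)) (XT.lf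 (nat_lit 0) (nat_lit 6192491382) (nat_lit 152) (nat_lit 2624881733) (nat_lit 228) (nat_lit 11763044766) (nat_lit 33) (nat_lit 5) (nat_lit 35) (nat_lit 5) (nat_lit 36) (nat_lit 5) (nat_lit 348) (nat_lit 251) (nat_lit 181))) (XT.nd (nat_lit 78) (nat_lit 76) (nat_lit 0) (XT.lf (nat_lit 0) (nat_lit 13042782304) (nat_lit 228) (nat_lit 5869510368) (nat_lit 76) (nat_lit 2132724422) (nat_lit 33) (nat_lit 5) (nat_lit 36) (nat_lit 5) (nat_lit 34) (nat_lit 4) (nat_lit 349) (nat_lit 251) (nat_lit 180)) (XT.lf (nat_lit 0) (nat_lit 2882984051) (nat_lit 76) (nat_lit 14536232629) (nat_lit 152) (nat_lit 4103620006) (nat_lit 32) (nat_lit 5) (nat_lit 33) (nat_lit 5) (nat_lit 34) (nat_lit 4) (nat_lit 350) (nat_lit 251) (nat_lit 179))))) (XT.nd (nat_lit 312) (nat_lit 304) (nat_lit 0) (XT.nd (nat_lit 156) (nat_lit 152) (nat_lit 0) (XT.nd (nat_lit 78) (nat_lit 76) (nat_lit 0) (XT.lf (nat_lit 0) (nat_lit 11967137120) (nat_lit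 76) (nat_lit 9990003433) (nat_lit 152) (nat_lit 56954412) (nat_lit 32) (nat_lit 5) (nat_lit 33) (nat_lit 5) (nat_lit 34) (nat_lit 4) (nat_lit 351) (nat_lit 251) (nat_lit 178)) (XT.lf (nat_lit 0) (nat_lit 4002372312) (nat_lit 152) (nat_lit 1286114772) (nat_lit 76) (nat_lit 17231283258) (nat_lit 31) (nat_lit 5) (nat_lit 33) (nat_lit 5) (nat_lit 32) (nat_lit 5) (nat_lit 352) (nat_lit 251) (nat_lit 177))) (XT.nd (nat_lit 78) (nat_lit 0) (nat_lit 0) (XT.lf (nat_lit 0) (nat_lit 7841144241) (nat_lit 152) (nat_lit 388878062) (nat_lit 228) (nat_lit 14809155257) (nat_lit 29) (nat_lit 5) (nat_lit 31) (nat_lit 5) (nat_lit 32) (nat_lit 5) (nat_lit 353) (nat_lit 251) (nat_lit 176)) (XT.lf (nat_lit 0) (nat_lit 12614843986) (nat_lit 228) (nat_lit 6399096186) (nat_lit 76) (nat_lit 4559325436) (nat_lit 29) (nat_lit 5) (nat_lit 32) (nat_lit 5) (nat_lit 30) (nat_lit 4) (nat_lit 354) (nat_lit 251) (nat_lit 175)))) (XT.nd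 (nat_lit 156) (nat_lit 228) (nat_lit 0) (XT.nd (nat_lit 78) (nat_lit 0) (nat_lit 0) (XT.lf (nat_lit 0) (nat_lit 2664375103) (nat_lit 76) (nat_lit 14469552939) (nat_lit 152) (nat_lit 6989375342) (nat_lit 28) (nat_lit 5) (nat_lit 29) (nat_lit 5) (nat_lit 30) (nat_lit 4) (nat_lit 355) (nat_lit 251) (nat_lit 174)) (XT.lf (nat_lit 0) (nat_lit 12083816921) (nat_lit 76) (nat_lit 9742967986) (nat_lit 152) (nat_lit 2861919746) (nat_lit 28) (nat_lit 5) (nat_lit 29) (nat_lit 5) (nat_lit 30) (nat_lit 4) (nat_lit 356) (nat_lit 251) (nat_lit 173))) (XT.nd (nat_lit 78) (nat_lit 152) (nat_lit 0) (XT.lf (nat_lit 0) (nat_lit 1336337614) (nat_lit 152) (nat_lit 3544841608) (nat_lit 76) (nat_lit 20390273279) (nat_lit 27) (nat_lit 5) (nat_lit 29) (nat_lit 5) (nat_lit 28) (nat_lit 5) (nat_lit 357) (nat_lit 251) (nat_lit 172)) (XT.lf (nat_lit 0) (nat_lit 5635743254) (nat_lit 228) (nat_lit 20044303276) (nat_lit 76) (nat_lit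 189812167) (nat_lit 25) (nat_lit 5) (nat_lit 28) (nat_lit 5) (nat_lit 26) (nat_lit 4) (nat_lit 358) (nat_lit 251) (nat_lit 171))))))))
noncomputable def xc81 : XT := (XT.nd (nat_lit 2184) (nat_lit 456) (nat_lit 0) (XT.nd (nat_lit 1092) (nat_lit 380) (nat_lit 0) (XT.nd (nat_lit 546) (nat_lit 228) (nat_lit 0) (XT.nd (nat_lit 234) (nat_lit 228) (nat_lit 0) (XT.nd (nat_lit 78) (nat_lit 76) (nat_lit 0) (XT.lf (nat_lit 0) (nat_lit 10123570696) (nat_lit 228) (nat_lit 11029132876) (nat_lit 76) (nat_lit 5331737754) (nat_lit 25) (nat_lit 5) (nat_lit 28) (nat_lit 5) (nat_lit 26) (nat_lit 4) (nat_lit 359) (nat_lit 251) (nat_lit 170)) (XT.nd (nat_lit 78) (nat_lit 76) (nat_lit 0) (XT.lf (nat_lit 0) (nat_lit 14721723018) (nat_lit 228) (nat_lit 1787232503) (nat_lit 76) (nat_lit 10609242429) (nat_lit 25) (nat_lit 5) (nat_lit 28) (nat_lit 5) (nat_lit 26) (nat_lit 4) (nat_lit 360) (nat_lit 251) (nat_lit 169)) (XT.lf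 (nat_lit 0) (nat_lit 7842508885) (nat_lit 76) (nat_lit 11667096131) (nat_lit 152) (nat_lit 8259815711) (nat_lit 24) (nat_lit 5) (nat_lit 25) (nat_lit 5) (nat_lit 26) (nat_lit 4) (nat_lit 361) (nat_lit 251) (nat_lit 168)))) (XT.nd (nat_lit 156) (nat_lit 152) (nat_lit 0) (XT.nd (nat_lit 78) (nat_lit 76) (nat_lit 0) (XT.lf (nat_lit 0) (nat_lit 17755743631) (nat_lit 76) (nat_lit 6680108866) (nat_lit 152) (nat_lit 4004492624) (nat_lit 24) (nat_lit 5) (nat_lit 25) (nat_lit 5) (nat_lit 26) (nat_lit 4) (nat_lit 362) (nat_lit 251) (nat_lit 167)) (XT.lf (nat_lit 0) (nat_lit 348234478) (nat_lit 152) (nat_lit 1209932744) (nat_lit 76) (nat_lit 27573813389) (nat_lit 23) (nat_lit 5) (nat_lit 25) (nat_lit 5) (nat_lit 24) (nat_lit 5) (nat_lit 363) (nat_lit 251) (nat_lit 166))) (XT.nd (nat_lit 78) (nat_lit 0) (nat_lit 0) (XT.lf (nat_lit 0) (nat_lit 4848662282) (nat_lit 228) (nat_lit 21240322322) (nat_lit 76) (nat_lit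 3751269177) (nat_lit 21) (nat_lit 5) (nat_lit 24) (nat_lit 5) (nat_lit 22) (nat_lit 4) (nat_lit 364) (nat_lit 251) (nat_lit 165)) (XT.lf (nat_lit 0) (nat_lit 9489760171) (nat_lit 228) (nat_lit 11896234307) (nat_lit 76) (nat_lit 9183616996) (nat_lit 21) (nat_lit 5) (nat_lit 24) (nat_lit 5) (nat_lit 22) (nat_lit 4) (nat_lit 365) (nat_lit 251) (nat_lit 164))))) (XT.nd (nat_lit 234) (nat_lit 152) (nat_lit 0) (XT.nd (nat_lit 78) (nat_lit 76) (nat_lit 0) (XT.lf (nat_lit 0) (nat_lit 14248625884) (nat_lit 228) (nat_lit 2310824969) (nat_lit 76) (nat_lit 14762048868) (nat_lit 21) (nat_lit 5) (nat_lit 24) (nat_lit 5) (nat_lit 22) (nat_lit 4) (nat_lit 366) (nat_lit 251) (nat_lit 163)) (XT.nd (nat_lit 78) (nat_lit 0) (nat_lit 0) (XT.lf (nat_lit 0) (nat_lit 7674029245) (nat_lit 76) (nat_lit 11529155871) (nat_lit 152) (nat_lit 12891177371) (nat_lit 20) (nat_lit 5) (nat_lit 21) (nat_lit 5) (nat_lit 22) (nat_lit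 4) (nat_lit 367) (nat_lit 251) (nat_lit 162)) (XT.lf (nat_lit 0) (nat_lit 17968304605) (nat_lit 76) (nat_lit 6340817978) (nat_lit 152) (nat_lit 8581211842) (nat_lit 20) (nat_lit 5) (nat_lit 21) (nat_lit 5) (nat_lit 22) (nat_lit 4) (nat_lit 368) (nat_lit 251) (nat_lit 161)))) (XT.nd (nat_lit 156) (nat_lit 0) (nat_lit 0) (XT.nd (nat_lit 78) (nat_lit 152) (nat_lit 0) (XT.lf (nat_lit 0) (nat_lit 28535006162) (nat_lit 76) (nat_lit 1013238474) (nat_lit 152) (nat_lit 4162546061) (nat_lit 20) (nat_lit 5) (nat_lit 21) (nat_lit 5) (nat_lit 22) (nat_lit 4) (nat_lit 369) (nat_lit 251) (nat_lit 160)) (XT.lf (nat_lit 0) (nat_lit 452133229) (nat_lit 152) (nat_lit 29678912472) (nat_lit 76) (nat_lit 4422576790) (nat_lit 18) (nat_lit 5) (nat_lit 20) (nat_lit 5) (nat_lit 19) (nat_lit 4) (nat_lit 370) (nat_lit 251) (nat_lit 159))) (XT.nd (nat_lit 78) (nat_lit 0) (nat_lit 0) (XT.lf (nat_lit 0) (nat_lit 5164873230) (nat_lit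 152) (nat_lit 20174935338) (nat_lit 76) (nat_lit 10079400685) (nat_lit 18) (nat_lit 5) (nat_lit 20) (nat_lit 5) (nat_lit 19) (nat_lit 4) (nat_lit 371) (nat_lit 251) (nat_lit 158)) (XT.lf (nat_lit 0) (nat_lit 10000032874) (nat_lit 152) (nat_lit 10420614723) (nat_lit 76) (nat_lit 15890689670) (nat_lit 18) (nat_lit 5) (nat_lit 20) (nat_lit 5) (nat_lit 19) (nat_lit 4) (nat_lit 372) (nat_lit 251) (nat_lit 157)))))) (XT.nd (nat_lit 546) (nat_lit 152) (nat_lit 0) (XT.nd (nat_lit 234) (nat_lit 152) (nat_lit 0) (XT.nd (nat_lit 78) (nat_lit 76) (nat_lit 0) (XT.lf (nat_lit 0) (nat_lit 14961837059) (nat_lit 152) (nat_lit 407427434) (nat_lit 76) (nat_lit 21861521568) (nat_lit 18) (nat_lit 5) (nat_lit 20) (nat_lit 5) (nat_lit 19) (nat_lit 4) (nat_lit 373) (nat_lit 251) (nat_lit 156)) (XT.nd (nat_lit 78) (nat_lit 0) (nat_lit 0) (XT.lf (nat_lit 0) (nat_lit 10069875455) (nat_lit 76) (nat_lit 10081543690) (nat_lit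 152) (nat_lit 18024035960) (nat_lit 17) (nat_lit 5) (nat_lit 18) (nat_lit 5) (nat_lit 19) (nat_lit 4) (nat_lit 374) (nat_lit 251) (nat_lit 155)) (XT.lf (nat_lit 0) (nat_lit 20837391104) (nat_lit 76) (nat_lit 4645746374) (nat_lit 152) (nat_lit 13665737645) (nat_lit 17) (nat_lit 5) (nat_lit 18) (nat_lit 5) (nat_lit 19) (nat_lit 4) (nat_lit 375) (nat_lit 251) (nat_lit 154)))) (XT.nd (nat_lit 156) (nat_lit 76) (nat_lit 0) (XT.nd (nat_lit 78) (nat_lit 76) (nat_lit 0) (XT.lf (nat_lit 0) (nat_lit 30966680420) (nat_lit 152) (nat_lit 8264621056) (nat_lit 0) (nat_lit 920444315) (nat_lit 17) (nat_lit 5) (nat_lit 19) (nat_lit 4) (nat_lit 17) (nat_lit 4) (nat_lit 376) (nat_lit 251) (nat_lit 153)) (XT.lf (nat_lit 0) (nat_lit 2046622708) (nat_lit 76) (nat_lit 34616992420) (nat_lit 76) (nat_lit 4519625001) (nat_lit 16) (nat_lit 4) (nat_lit 17) (nat_lit 5) (nat_lit 17) (nat_lit 4) (nat_lit 377) (nat_lit 251) (nat_lit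 152))) (XT.nd (nat_lit 78) (nat_lit 0) (nat_lit 0) (XT.lf (nat_lit 0) (nat_lit 347725354) (nat_lit 152) (nat_lit 29441127002) (nat_lit 76) (nat_lit 12454722710) (nat_lit 15) (nat_lit 5) (nat_lit 17) (nat_lit 5) (nat_lit 16) (nat_lit 4) (nat_lit 378) (nat_lit 251) (nat_lit 151)) (XT.lf (nat_lit 0) (nat_lit 5253984946) (nat_lit 152) (nat_lit 19529616196) (nat_lit 76) (nat_lit 18551268351) (nat_lit 15) (nat_lit 5) (nat_lit 17) (nat_lit 5) (nat_lit 16) (nat_lit 4) (nat_lit 379) (nat_lit 251) (nat_lit 150))))) (XT.nd (nat_lit 234) (nat_lit 76) (nat_lit 0) (XT.nd (nat_lit 78) (nat_lit 76) (nat_lit 0) (XT.lf (nat_lit 0) (nat_lit 10291634962) (nat_lit 152) (nat_lit 9349979061) (nat_lit 76) (nat_lit 24817766310) (nat_lit 15) (nat_lit 5) (nat_lit 17) (nat_lit 5) (nat_lit 16) (nat_lit 4) (nat_lit 380) (nat_lit 251) (nat_lit 149)) (XT.nd (nat_lit 78) (nat_lit 0) (nat_lit 0) (XT.lf (nat_lit 0) (nat_lit 1128704318)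 (nat_lit 76) (nat_lit 14347222707) (nat_lit 152) (nat_lit 30141837646) (nat_lit 14) (nat_lit 5) (nat_lit 15) (nat_lit 5) (nat_lit 16) (nat_lit 4) (nat_lit 381) (nat_lit 251) (nat_lit 148)) (XT.lf (nat_lit 0) (nat_lit 12085323765) (nat_lit 76) (nat_lit 8809679993) (nat_lit 152) (nat_lit 25913522552) (nat_lit 14) (nat_lit 5) (nat_lit 15) (nat_lit 5) (nat_lit 16) (nat_lit 4) (nat_lit 382) (nat_lit 251) (nat_lit 147)))) (XT.nd (nat_lit 156) (nat_lit 76) (nat_lit 0) (XT.nd (nat_lit 78) (nat_lit 0) (nat_lit 0) (XT.lf (nat_lit 0) (nat_lit 23343370108) (nat_lit 76) (nat_lit 3118563706) (nat_lit 152) (nat_lit 21573521900) (nat_lit 14) (nat_lit 5) (nat_lit 15) (nat_lit 5) (nat_lit 16) (nat_lit 4) (nat_lit 383) (nat_lit 251) (nat_lit 146)) (XT.lf (nat_lit 0) (nat_lit 32207834495) (nat_lit 152) (nat_lit 14413197479) (nat_lit 0) (nat_lit 2677805395) (nat_lit 14) (nat_lit 5) (nat_lit 16) (nat_lit 4) (nat_lit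 14) (nat_lit 4) (nat_lit 384) (nat_lit 251) (nat_lit 145))) (XT.nd (nat_lit 78) (nat_lit 76) (nat_lit 0) (XT.lf (nat_lit 0) (nat_lit 38143001277) (nat_lit 152) (nat_lit 3882831396) (nat_lit 0) (nat_lit 8573784282) (nat_lit 14) (nat_lit 5) (nat_lit 16) (nat_lit 4) (nat_lit 14) (nat_lit 4) (nat_lit 385) (nat_lit 251) (nat_lit 144)) (XT.lf (nat_lit 0) (nat_lit 7076275089) (nat_lit 76) (nat_lit 37234389083) (nat_lit 76) (nat_lit 7627125588) (nat_lit 13) (nat_lit 4) (nat_lit 14) (nat_lit 5) (nat_lit 14) (nat_lit 4) (nat_lit 386) (nat_lit 251) (nat_lit 143))))))) (XT.nd (nat_lit 1092) (nat_lit 152) (nat_lit 0) (XT.nd (nat_lit 546) (nat_lit 152) (nat_lit 0) (XT.nd (nat_lit 234) (nat_lit 76) (nat_lit 0) (XT.nd (nat_lit 78) (nat_lit 76) (nat_lit 0) (XT.lf (nat_lit 0) (nat_lit 18418742402) (nat_lit 76) (nat_lit 32270398325) (nat_lit 76) (nat_lit 2626196481) (nat_lit 13) (nat_lit 4) (nat_lit 14) (nat_lit 5)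 (nat_lit 14) (nat_lit 4) (nat_lit 387) (nat_lit 251) (nat_lit 142)) (XT.nd (nat_lit 78) (nat_lit 0) (nat_lit 0) (XT.lf (nat_lit 0) (nat_lit 2462327260) (nat_lit 152) (nat_lit 24681539980) (nat_lit 76) (nat_lit 27590013540) (nat_lit 12) (nat_lit 5) (nat_lit 14) (nat_lit 5) (nat_lit 13) (nat_lit 4) (nat_lit 388) (nat_lit 251) (nat_lit 141)) (XT.lf (nat_lit 0) (nat_lit 7637940177) (nat_lit 152) (nat_lit 14209863695) (nat_lit 76) (nat_lit 34346782926) (nat_lit 12) (nat_lit 5) (nat_lit 14) (nat_lit 5) (nat_lit 13) (nat_lit 4) (nat_lit 389) (nat_lit 251) (nat_lit 140)))) (XT.nd (nat_lit 156) (nat_lit 0) (nat_lit 0) (XT.nd (nat_lit 78) (nat_lit 76) (nat_lit 0) (XT.lf (nat_lit 0) (nat_lit 12956411200) (nat_lit 152) (nat_lit 3447171339) (nat_lit 76) (nat_lit 41295906409) (nat_lit 12) (nat_lit 5) (nat_lit 14) (nat_lit 5) (nat_lit 13) (nat_lit 4) (nat_lit 390) (nat_lit 251) (nat_lit 139)) (XT.lf (nat_lit 0)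 (nat_lit 7767513549) (nat_lit 76) (nat_lit 10729540081) (nat_lit 152) (nat_lit 40750608579) (nat_lit 11) (nat_lit 5) (nat_lit 12) (nat_lit 5) (nat_lit 13) (nat_lit 4) (nat_lit 391) (nat_lit 251) (nat_lit 138))) (XT.nd (nat_lit 78) (nat_lit 0) (nat_lit 0) (XT.lf (nat_lit 0) (nat_lit 19367062414) (nat_lit 76) (nat_lit 4859750925) (nat_lit 152) (nat_lit 36614782880) (nat_lit 11) (nat_lit 5) (nat_lit 12) (nat_lit 5) (nat_lit 13) (nat_lit 4) (nat_lit 392) (nat_lit 251) (nat_lit 137)) (XT.lf (nat_lit 0) (nat_lit 30128206549) (nat_lit 152) (nat_lit 31201997729) (nat_lit 0) (nat_lit 1153154168) (nat_lit 11) (nat_lit 5) (nat_lit 13) (nat_lit 4) (nat_lit 11) (nat_lit 4) (nat_lit 393) (nat_lit 251) (nat_lit 136))))) (XT.nd (nat_lit 234) (nat_lit 76) (nat_lit 0) (XT.nd (nat_lit 78) (nat_lit 76) (nat_lit 0) (XT.lf (nat_lit 0) (nat_lit 36243436428) (nat_lit 152) (nat_lit 20690611040) (nat_lit 0) (nat_lit 7239224573)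 (nat_lit 11) (nat_lit 5) (nat_lit 13) (nat_lit 4) (nat_lit 11) (nat_lit 4) (nat_lit 394) (nat_lit 251) (nat_lit 135)) (XT.nd (nat_lit 78) (nat_lit 76) (nat_lit 0) (XT.lf (nat_lit 0) (nat_lit 42531131482) (nat_lit 152) (nat_lit 9884474135) (nat_lit 0) (nat_lit 13498609458) (nat_lit 11) (nat_lit 5) (nat_lit 13) (nat_lit 4) (nat_lit 11) (nat_lit 4) (nat_lit 395) (nat_lit 251) (nat_lit 134)) (XT.lf (nat_lit 0) (nat_lit 1250252166) (nat_lit 76) (nat_lit 47758551836) (nat_lit 76) (nat_lit 18698544211) (nat_lit 10) (nat_lit 4) (nat_lit 11) (nat_lit 5) (nat_lit 11) (nat_lit 4) (nat_lit 396) (nat_lit 251) (nat_lit 133)))) (XT.nd (nat_lit 156) (nat_lit 76) (nat_lit 0) (XT.nd (nat_lit 78) (nat_lit 0) (nat_lit 0) (XT.lf (nat_lit 0) (nat_lit 12901846648) (nat_lit 76) (nat_lit 42868222819) (nat_lit 76) (nat_lit 13781530145) (nat_lit 10) (nat_lit 4) (nat_lit 11) (nat_lit 5) (nat_lit 11) (nat_lit 4) (nat_lit 397)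 (nat_lit 251) (nat_lit 132)) (XT.lf (nat_lit 0) (nat_lit 24883769899) (nat_lit 76) (nat_lit 37840159270) (nat_lit 76) (nat_lit 8727558781) (nat_lit 10) (nat_lit 4) (nat_lit 11) (nat_lit 5) (nat_lit 11) (nat_lit 4) (nat_lit 398) (nat_lit 251) (nat_lit 131))) (XT.nd (nat_lit 78) (nat_lit 76) (nat_lit 0) (XT.lf (nat_lit 0) (nat_lit 37206491560) (nat_lit 76) (nat_lit 32669967736) (nat_lit 76) (nat_lit 3532214028) (nat_lit 10) (nat_lit 4) (nat_lit 11) (nat_lit 5) (nat_lit 11) (nat_lit 4) (nat_lit 399) (nat_lit 251) (nat_lit 130)) (XT.lf (nat_lit 0) (nat_lit 1773742775) (nat_lit 152) (nat_lit 25561476474) (nat_lit 76) (nat_lit 48089124958) (nat_lit 9) (nat_lit 5) (nat_lit 11) (nat_lit 5) (nat_lit 10) (nat_lit 4) (nat_lit 400) (nat_lit 251) (nat_lit 129)))))) (XT.nd (nat_lit 546) (nat_lit 76) (nat_lit 0) (XT.nd (nat_lit 234) (nat_lit 0) (nat_lit 0) (XT.nd (nat_lit 78) (nat_lit 76) (nat_lit 0) (XT.lf (nat_lit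 0) (nat_lit 7158415128) (nat_lit 152) (nat_lit 14654300916) (nat_lit 76) (nat_lit 55687005927) (nat_lit 9) (nat_lit 5) (nat_lit 11) (nat_lit 5) (nat_lit 10) (nat_lit 4) (nat_lit 401) (nat_lit 251) (nat_lit 128)) (XT.nd (nat_lit 78) (nat_lit 76) (nat_lit 0) (XT.lf (nat_lit 0) (nat_lit 12695434304) (nat_lit 152) (nat_lit 3437170748) (nat_lit 76) (nat_lit 63505033617) (nat_lit 9) (nat_lit 5) (nat_lit 11) (nat_lit 5) (nat_lit 10) (nat_lit 4) (nat_lit 402) (nat_lit 251) (nat_lit 127)) (XT.lf (nat_lit 0) (nat_lit 8260915624) (nat_lit 76) (nat_lit 10208131823) (nat_lit 152) (nat_lit 63368532665) (nat_lit 8) (nat_lit 5) (nat_lit 9) (nat_lit 5) (nat_lit 10) (nat_lit 4) (nat_lit 403) (nat_lit 251) (nat_lit 126)))) (XT.nd (nat_lit 156) (nat_lit 0) (nat_lit 0) (XT.nd (nat_lit 78) (nat_lit 0) (nat_lit 0) (XT.lf (nat_lit 0) (nat_lit 20363809594) (nat_lit 76) (nat_lit 4077942955) (nat_lit 152) (nat_lit 59660992439)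 (nat_lit 8) (nat_lit 5) (nat_lit 9) (nat_lit 5) (nat_lit 10) (nat_lit 4) (nat_lit 404) (nat_lit 251) (nat_lit 125)) (XT.lf (nat_lit 0) (nat_lit 30606493482) (nat_lit 152) (nat_lit 53643866188) (nat_lit 0) (nat_lit 2185121146) (nat_lit 8) (nat_lit 5) (nat_lit 10) (nat_lit 4) (nat_lit 8) (nat_lit 4) (nat_lit 405) (nat_lit 251) (nat_lit 124))) (XT.nd (nat_lit 78) (nat_lit 0) (nat_lit 0) (XT.lf (nat_lit 0) (nat_lit 36988163404) (nat_lit 152) (nat_lit 43302142427) (nat_lit 0) (nat_lit 8546934884) (nat_lit 8) (nat_lit 5) (nat_lit 10) (nat_lit 4) (nat_lit 8) (nat_lit 4) (nat_lit 406) (nat_lit 251) (nat_lit 123)) (XT.lf (nat_lit 0) (nat_lit 43553138848) (nat_lit 152) (nat_lit 32665527970) (nat_lit 0) (nat_lit 15092632481) (nat_lit 8) (nat_lit 5) (nat_lit 10) (nat_lit 4) (nat_lit 8) (nat_lit 4) (nat_lit 407) (nat_lit 251) (nat_lit 122))))) (XT.nd (nat_lit 312) (nat_lit 0) (nat_lit 0) (XT.nd (nat_lit 156)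 (nat_lit 76) (nat_lit 0) (XT.nd (nat_lit 78) (nat_lit 0) (nat_lit 0) (XT.lf (nat_lit 0) (nat_lit 50307156201) (nat_lit 152) (nat_lit 21724728690) (nat_lit 0) (nat_lit 21827933478) (nat_lit 8) (nat_lit 5) (nat_lit 10) (nat_lit 4) (nat_lit 8) (nat_lit 4) (nat_lit 408) (nat_lit 251) (nat_lit 121)) (XT.lf (nat_lit 0) (nat_lit 57256117032) (nat_lit 152) (nat_lit 10470184664) (nat_lit 0) (nat_lit 28758723089) (nat_lit 8) (nat_lit 5) (nat_lit 10) (nat_lit 4) (nat_lit 8) (nat_lit 4) (nat_lit 409) (nat_lit 251) (nat_lit 120))) (XT.nd (nat_lit 78) (nat_lit 0) (nat_lit 0) (XT.lf (nat_lit 0) (nat_lit 1129988316) (nat_lit 76) (nat_lit 63286967071) (nat_lit 76) (nat_lit 34771931166) (nat_lit 7) (nat_lit 4) (nat_lit 8) (nat_lit 5) (nat_lit 8) (nat_lit 4) (nat_lit 410) (nat_lit 251) (nat_lit 119)) (XT.lf (nat_lit 0) (nat_lit 13278875318) (nat_lit 76) (nat_lit 58612101756) (nat_lit 76) (nat_lit 30079937734) (nat_lit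 7) (nat_lit 4) (nat_lit 8) (nat_lit 5) (nat_lit 8) (nat_lit 4) (nat_lit 411) (nat_lit 251) (nat_lit 118)))) (XT.nd (nat_lit 30108) (nat_lit 0) (nat_lit 20064) (XT.nd (nat_lit 30030) (nat_lit 0) (nat_lit 21584) (XT.lf (nat_lit 0) (nat_lit 25778714670) (nat_lit 76) (nat_lit 53803349253) (nat_lit 76) (nat_lit 25254555990) (nat_lit 7) (nat_lit 4) (nat_lit 8) (nat_lit 5) (nat_lit 8) (nat_lit 4) (nat_lit 412) (nat_lit 251) (nat_lit 117)) (XT.lf (nat_lit 0) (nat_lit 1268040284) (nat_lit 684) (nat_lit 827766489) (nat_lit 0) (nat_lit 1268040284) (nat_lit 291) (nat_lit 5) (nat_lit 300) (nat_lit 4) (nat_lit 291) (nat_lit 4) (nat_lit 276) (nat_lit 252) (nat_lit 252))) (XT.nd (nat_lit 78) (nat_lit 836) (nat_lit 0) (XT.lf (nat_lit 0) (nat_lit 2550934194) (nat_lit 684) (nat_lit 3135974758) (nat_lit 684) (nat_lit 1078473820) (nat_lit 282) (nat_lit 4) (nat_lit 291) (nat_lit 5) (nat_lit 291) (nat_lit 4) (nat_lit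 277) (nat_lit 252) (nat_lit 251)) (XT.lf (nat_lit 0) (nat_lit 8294875) (nat_lit 760) (nat_lit 1993364996) (nat_lit 836) (nat_lit 4804630892) (nat_lit 271) (nat_lit 5) (nat_lit 281) (nat_lit 5) (nat_lit 282) (nat_lit 4) (nat_lit 278) (nat_lit 252) (nat_lit 250))))))))
noncomputable def xc82 : XT := (XT.nd (nat_lit 2184) (nat_lit 4636) (nat_lit 0) (XT.nd (nat_lit 1092) (nat_lit 4256) (nat_lit 0) (XT.nd (nat_lit 546) (nat_lit 3800) (nat_lit 0) (XT.nd (nat_lit 234) (nat_lit 3116) (nat_lit 0) (XT.nd (nat_lit 78) (nat_lit 912) (nat_lit 0) (XT.lf (nat_lit 0) (nat_lit 4348979437) (nat_lit 760) (nat_lit 746314192) (nat_lit 836) (nat_lit 1754680443) (nat_lit 271) (nat_lit 5) (nat_lit 281) (nat_lit 5) (nat_lit 282) (nat_lit 4) (nat_lit 279) (nat_lit 252) (nat_lit 249)) (XT.nd (nat_lit 78) (nat_lit 0) (nat_lit 0) (XT.lf (nat_lit 0) (nat_lit 1285363498) (nat_lit 912) (nat_lit 5038645547) (nat_lit 76) (nat_lit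 572932132) (nat_lit 259) (nat_lit 5) (nat_lit 271) (nat_lit 5) (nat_lit 260) (nat_lit 4) (nat_lit 280) (nat_lit 252) (nat_lit 248)) (XT.lf (nat_lit 0) (nat_lit 4318531238) (nat_lit 912) (nat_lit 656133419) (nat_lit 76) (nat_lit 1972154477) (nat_lit 259) (nat_lit 5) (nat_lit 271) (nat_lit 5) (nat_lit 260) (nat_lit 4) (nat_lit 281) (nat_lit 252) (nat_lit 247)))) (XT.nd (nat_lit 156) (nat_lit 1140) (nat_lit 0) (XT.nd (nat_lit 78) (nat_lit 988) (nat_lit 0) (XT.lf (nat_lit 0) (nat_lit 379225662) (nat_lit 988) (nat_lit 3154439448) (nat_lit 76) (nat_lit 3466228928) (nat_lit 246) (nat_lit 5) (nat_lit 259) (nat_lit 5) (nat_lit 247) (nat_lit 5) (nat_lit 282) (nat_lit 252) (nat_lit 246)) (XT.lf (nat_lit 0) (nat_lit 1356742921) (nat_lit 988) (nat_lit 1995092237) (nat_lit 1064) (nat_lit 3704241410) (nat_lit 233) (nat_lit 5) (nat_lit 246) (nat_lit 5) (nat_lit 247) (nat_lit 5) (nat_lit 283) (nat_lit 252) (nat_lit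 245))) (XT.nd (nat_lit 78) (nat_lit 1140) (nat_lit 0) (XT.lf (nat_lit 0) (nat_lit 5983933586) (nat_lit 988) (nat_lit 371379731) (nat_lit 1064) (nat_lit 760503799) (nat_lit 233) (nat_lit 5) (nat_lit 246) (nat_lit 5) (nat_lit 247) (nat_lit 5) (nat_lit 284) (nat_lit 252) (nat_lit 244)) (XT.lf (nat_lit 0) (nat_lit 2185800375) (nat_lit 1140) (nat_lit 3655215425) (nat_lit 76) (nat_lit 1337037783) (nat_lit 218) (nat_lit 5) (nat_lit 233) (nat_lit 5) (nat_lit 219) (nat_lit 5) (nat_lit 285) (nat_lit 252) (nat_lit 243))))) (XT.nd (nat_lit 234) (nat_lit 1824) (nat_lit 0) (XT.nd (nat_lit 78) (nat_lit 836) (nat_lit 0) (XT.lf (nat_lit 0) (nat_lit 1021851340) (nat_lit 1140) (nat_lit 4121702403) (nat_lit 1216) (nat_lit 2100339940) (nat_lit 203) (nat_lit 5) (nat_lit 218) (nat_lit 5) (nat_lit 219) (nat_lit 5) (nat_lit 286) (nat_lit 252) (nat_lit 242)) (XT.nd (nat_lit 78) (nat_lit 760) (nat_lit 0) (XT.lf (nat_lit 0)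 (nat_lit 812533956) (nat_lit 1216) (nat_lit 1491589926) (nat_lit 76) (nat_lit 5008897854) (nat_lit 202) (nat_lit 5) (nat_lit 218) (nat_lit 5) (nat_lit 203) (nat_lit 5) (nat_lit 287) (nat_lit 252) (nat_lit 241)) (XT.lf (nat_lit 0) (nat_lit 3341359082) (nat_lit 760) (nat_lit 377909002) (nat_lit 836) (nat_lit 3665974245) (nat_lit 192) (nat_lit 5) (nat_lit 202) (nat_lit 5) (nat_lit 203) (nat_lit 5) (nat_lit 288) (nat_lit 252) (nat_lit 240)))) (XT.nd (nat_lit 156) (nat_lit 1140) (nat_lit 0) (XT.nd (nat_lit 78) (nat_lit 76) (nat_lit 0) (XT.lf (nat_lit 0) (nat_lit 805276705) (nat_lit 608) (nat_lit 5864508510) (nat_lit 684) (nat_lit 791247112) (nat_lit 184) (nat_lit 5) (nat_lit 192) (nat_lit 5) (nat_lit 193) (nat_lit 5) (nat_lit 289) (nat_lit 252) (nat_lit 239)) (XT.lf (nat_lit 0) (nat_lit 2091232883) (nat_lit 684) (nat_lit 1766481295) (nat_lit 76) (nat_lit 3681935107) (nat_lit 183) (nat_lit 5) (nat_lit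 192) (nat_lit 5) (nat_lit 184) (nat_lit 5) (nat_lit 290) (nat_lit 252) (nat_lit 238))) (XT.nd (nat_lit 78) (nat_lit 608) (nat_lit 0) (XT.lf (nat_lit 0) (nat_lit 3240982559) (nat_lit 532) (nat_lit 1755687647) (nat_lit 608) (nat_lit 2625239649) (nat_lit 176) (nat_lit 5) (nat_lit 183) (nat_lit 5) (nat_lit 184) (nat_lit 5) (nat_lit 291) (nat_lit 252) (nat_lit 237)) (XT.lf (nat_lit 0) (nat_lit 227432514) (nat_lit 608) (nat_lit 7058468604) (nat_lit 76) (nat_lit 422232608) (nat_lit 168) (nat_lit 5) (nat_lit 176) (nat_lit 5) (nat_lit 169) (nat_lit 5) (nat_lit 292) (nat_lit 252) (nat_lit 236)))))) (XT.nd (nat_lit 546) (nat_lit 2128) (nat_lit 0) (XT.nd (nat_lit 234) (nat_lit 988) (nat_lit 0) (XT.nd (nat_lit 78) (nat_lit 1140) (nat_lit 0) (XT.lf (nat_lit 0) (nat_lit 3098254741) (nat_lit 608) (nat_lit 2004650766) (nat_lit 76) (nat_lit 2693782924) (nat_lit 168) (nat_lit 5) (nat_lit 176) (nat_lit 5) (nat_lit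 169) (nat_lit 5) (nat_lit 293) (nat_lit 252) (nat_lit 235)) (XT.nd (nat_lit 78) (nat_lit 608) (nat_lit 0) (XT.lf (nat_lit 0) (nat_lit 3179128416) (nat_lit 532) (nat_lit 2832142448) (nat_lit 608) (nat_lit 1878028324) (nat_lit 161) (nat_lit 5) (nat_lit 168) (nat_lit 5) (nat_lit 169) (nat_lit 5) (nat_lit 294) (nat_lit 252) (nat_lit 234)) (XT.lf (nat_lit 0) (nat_lit 490515735) (nat_lit 532) (nat_lit 467672852) (nat_lit 608) (nat_lit 7027743136) (nat_lit 153) (nat_lit 5) (nat_lit 160) (nat_lit 5) (nat_lit 161) (nat_lit 5) (nat_lit 295) (nat_lit 252) (nat_lit 233)))) (XT.nd (nat_lit 156) (nat_lit 532) (nat_lit 0) (XT.nd (nat_lit 78) (nat_lit 456) (nat_lit 0) (XT.lf (nat_lit 0) (nat_lit 3836019522) (nat_lit 608) (nat_lit 2263974911) (nat_lit 76) (nat_lit 1985157324) (nat_lit 153) (nat_lit 5) (nat_lit 161) (nat_lit 5) (nat_lit 154) (nat_lit 5) (nat_lit 296) (nat_lit 252) (nat_lit 232)) (XT.lf (nat_lit 0)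 (nat_lit 3096974230) (nat_lit 456) (nat_lit 3667052925) (nat_lit 532) (nat_lit 1424478381) (nat_lit 147) (nat_lit 5) (nat_lit 153) (nat_lit 5) (nat_lit 154) (nat_lit 5) (nat_lit 297) (nat_lit 252) (nat_lit 231))) (XT.nd (nat_lit 78) (nat_lit 0) (nat_lit 0) (XT.lf (nat_lit 0) (nat_lit 277925901) (nat_lit 456) (nat_lit 1133721937) (nat_lit 532) (nat_lit 6884280854) (nat_lit 140) (nat_lit 5) (nat_lit 146) (nat_lit 5) (nat_lit 147) (nat_lit 5) (nat_lit 298) (nat_lit 252) (nat_lit 230)) (XT.lf (nat_lit 0) (nat_lit 4301389240) (nat_lit 532) (nat_lit 2606046465) (nat_lit 76) (nat_lit 1498867120) (nat_lit 140) (nat_lit 5) (nat_lit 147) (nat_lit 5) (nat_lit 141) (nat_lit 5) (nat_lit 299) (nat_lit 252) (nat_lit 229))))) (XT.nd (nat_lit 234) (nat_lit 1216) (nat_lit 0) (XT.nd (nat_lit 78) (nat_lit 532) (nat_lit 0) (XT.lf (nat_lit 0) (nat_lit 2931673096) (nat_lit 380) (nat_lit 4318617934) (nat_lit 456) (nat_lit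 1270587432) (nat_lit 135) (nat_lit 5) (nat_lit 140) (nat_lit 5) (nat_lit 141) (nat_lit 5) (nat_lit 300) (nat_lit 252) (nat_lit 228)) (XT.nd (nat_lit 78) (nat_lit 456) (nat_lit 0) (XT.lf (nat_lit 0) (nat_lit 1576684922) (nat_lit 456) (nat_lit 48418022) (nat_lit 76) (nat_lit 7014570894) (nat_lit 134) (nat_lit 5) (nat_lit 140) (nat_lit 5) (nat_lit 135) (nat_lit 5) (nat_lit 301) (nat_lit 252) (nat_lit 227)) (XT.lf (nat_lit 0) (nat_lit 4485405532) (nat_lit 532) (nat_lit 3097527850) (nat_lit 76) (nat_lit 1178734130) (nat_lit 128) (nat_lit 5) (nat_lit 135) (nat_lit 5) (nat_lit 129) (nat_lit 5) (nat_lit 302) (nat_lit 252) (nat_lit 226)))) (XT.nd (nat_lit 156) (nat_lit 760) (nat_lit 0) (XT.nd (nat_lit 78) (nat_lit 76) (nat_lit 0) (XT.lf (nat_lit 0) (nat_lit 2614951873) (nat_lit 380) (nat_lit 4844559193) (nat_lit 456) (nat_lit 1428523385) (nat_lit 123) (nat_lit 5) (nat_lit 128) (nat_lit 5) (nat_lit 129) (nat_lit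 5) (nat_lit 303) (nat_lit 252) (nat_lit 225)) (XT.lf (nat_lit 0) (nat_lit 1443678684) (nat_lit 456) (nat_lit 551975820) (nat_lit 76) (nat_lit 7023106084) (nat_lit 122) (nat_lit 5) (nat_lit 128) (nat_lit 5) (nat_lit 123) (nat_lit 5) (nat_lit 304) (nat_lit 252) (nat_lit 224))) (XT.nd (nat_lit 78) (nat_lit 380) (nat_lit 0) (XT.lf (nat_lit 0) (nat_lit 4372913237) (nat_lit 456) (nat_lit 3811642898) (nat_lit 76) (nat_lit 968493013) (nat_lit 117) (nat_lit 5) (nat_lit 123) (nat_lit 5) (nat_lit 118) (nat_lit 5) (nat_lit 305) (nat_lit 252) (nat_lit 223)) (XT.lf (nat_lit 0) (nat_lit 2071562401) (nat_lit 380) (nat_lit 5303254778) (nat_lit 456) (nat_lit 1917056196) (nat_lit 112) (nat_lit 5) (nat_lit 117) (nat_lit 5) (nat_lit 118) (nat_lit 5) (nat_lit 306) (nat_lit 252) (nat_lit 222))))))) (XT.nd (nat_lit 1092) (nat_lit 1976) (nat_lit 0) (XT.nd (nat_lit 546) (nat_lit 1216) (nat_lit 0) (XT.nd (nat_lit 234) (nat_lit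 684) (nat_lit 0) (XT.nd (nat_lit 78) (nat_lit 684) (nat_lit 0) (XT.lf (nat_lit 0) (nat_lit 990498099) (nat_lit 456) (nat_lit 1315815343) (nat_lit 76) (nat_lit 7128937611) (nat_lit 111) (nat_lit 5) (nat_lit 117) (nat_lit 5) (nat_lit 112) (nat_lit 5) (nat_lit 307) (nat_lit 252) (nat_lit 221)) (XT.nd (nat_lit 78) (nat_lit 304) (nat_lit 0) (XT.lf (nat_lit 0) (nat_lit 3942059678) (nat_lit 456) (nat_lit 4829837911) (nat_lit 76) (nat_lit 810650172) (nat_lit 106) (nat_lit 5) (nat_lit 112) (nat_lit 5) (nat_lit 107) (nat_lit 5) (nat_lit 308) (nat_lit 252) (nat_lit 220)) (XT.lf (nat_lit 0) (nat_lit 1217553196) (nat_lit 304) (nat_lit 5754924026) (nat_lit 380) (nat_lit 2762121992) (nat_lit 102) (nat_lit 5) (nat_lit 106) (nat_lit 5) (nat_lit 107) (nat_lit 5) (nat_lit 309) (nat_lit 252) (nat_lit 219)))) (XT.nd (nat_lit 156) (nat_lit 304) (nat_lit 0) (XT.nd (nat_lit 78) (nat_lit 304) (nat_lit 0) (XT.lf (nat_lit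 0) (nat_lit 190564703) (nat_lit 380) (nat_lit 2426847486) (nat_lit 76) (nat_lit 7274026434) (nat_lit 101) (nat_lit 5) (nat_lit 106) (nat_lit 5) (nat_lit 102) (nat_lit 5) (nat_lit 310) (nat_lit 252) (nat_lit 218)) (XT.lf (nat_lit 0) (nat_lit 3163656878) (nat_lit 380) (nat_lit 6243647184) (nat_lit 76) (nat_lit 645279785) (nat_lit 97) (nat_lit 5) (nat_lit 102) (nat_lit 5) (nat_lit 98) (nat_lit 5) (nat_lit 311) (nat_lit 252) (nat_lit 217))) (XT.nd (nat_lit 78) (nat_lit 304) (nat_lit 0) (XT.lf (nat_lit 0) (nat_lit 6221612351) (nat_lit 380) (nat_lit 40861823) (nat_lit 76) (nat_lit 3956259224) (nat_lit 97) (nat_lit 5) (nat_lit 102) (nat_lit 5) (nat_lit 98) (nat_lit 5) (nat_lit 312) (nat_lit 252) (nat_lit 216)) (XT.lf (nat_lit 0) (nat_lit 6396695384) (nat_lit 304) (nat_lit 2982708325) (nat_lit 380) (nat_lit 1010259727) (nat_lit 93) (nat_lit 5) (nat_lit 97) (nat_lit 5) (nat_lit 98) (nat_lit 5) (nat_lit 313)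 (nat_lit 252) (nat_lit 215))))) (XT.nd (nat_lit 234) (nat_lit 608) (nat_lit 0) (XT.nd (nat_lit 78) (nat_lit 228) (nat_lit 0) (XT.lf (nat_lit 0) (nat_lit 2000391074) (nat_lit 380) (nat_lit 8156802816) (nat_lit 76) (nat_lit 408733237) (nat_lit 88) (nat_lit 5) (nat_lit 93) (nat_lit 5) (nat_lit 89) (nat_lit 5) (nat_lit 314) (nat_lit 252) (nat_lit 214)) (XT.nd (nat_lit 78) (nat_lit 228) (nat_lit 0) (XT.lf (nat_lit 0) (nat_lit 5098783475) (nat_lit 380) (nat_lit 1778182527) (nat_lit 76) (nat_lit 3869716446) (nat_lit 88) (nat_lit 5) (nat_lit 93) (nat_lit 5) (nat_lit 89) (nat_lit 5) (nat_lit 315) (nat_lit 252) (nat_lit 213)) (XT.lf (nat_lit 0) (nat_lit 4810807250) (nat_lit 228) (nat_lit 3474569832) (nat_lit 304) (nat_lit 2647660442) (nat_lit 85) (nat_lit 5) (nat_lit 88) (nat_lit 5) (nat_lit 89) (nat_lit 5) (nat_lit 316) (nat_lit 252) (nat_lit 212)))) (XT.nd (nat_lit 156) (nat_lit 228) (nat_lit 0) (XT.nd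 (nat_lit 78) (nat_lit 0) (nat_lit 0) (XT.lf (nat_lit 0) (nat_lit 405860715) (nat_lit 380) (nat_lit 10687634202) (nat_lit 76) (nat_lit 32235938) (nat_lit 80) (nat_lit 5) (nat_lit 85) (nat_lit 5) (nat_lit 81) (nat_lit 5) (nat_lit 317) (nat_lit 252) (nat_lit 211)) (XT.lf (nat_lit 0) (nat_lit 3544383694) (nat_lit 380) (nat_lit 4138578773) (nat_lit 76) (nat_lit 3639089385) (nat_lit 80) (nat_lit 5) (nat_lit 85) (nat_lit 5) (nat_lit 81) (nat_lit 5) (nat_lit 318) (nat_lit 252) (nat_lit 210))) (XT.nd (nat_lit 78) (nat_lit 0) (nat_lit 0) (XT.lf (nat_lit 0) (nat_lit 2583840859) (nat_lit 228) (nat_lit 4169297052) (nat_lit 304) (nat_lit 4771873024) (nat_lit 77) (nat_lit 5) (nat_lit 80) (nat_lit 5) (nat_lit 81) (nat_lit 5) (nat_lit 319) (nat_lit 252) (nat_lit 209)) (XT.lf (nat_lit 0) (nat_lit 9519963247) (nat_lit 228) (nat_lit 531941516) (nat_lit 304) (nat_lit 1682371354) (nat_lit 77) (nat_lit 5) (nat_lit 80)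 (nat_lit 5) (nat_lit 81) (nat_lit 5) (nat_lit 320) (nat_lit 252) (nat_lit 208)))))) (XT.nd (nat_lit 546) (nat_lit 912) (nat_lit 0) (XT.nd (nat_lit 234) (nat_lit 532) (nat_lit 0) (XT.nd (nat_lit 78) (nat_lit 228) (nat_lit 0) (XT.lf (nat_lit 0) (nat_lit 1500047793) (nat_lit 304) (nat_lit 7260331383) (nat_lit 76) (nat_lit 3188150702) (nat_lit 73) (nat_lit 5) (nat_lit 77) (nat_lit 5) (nat_lit 74) (nat_lit 5) (nat_lit 321) (nat_lit 252) (nat_lit 207)) (XT.nd (nat_lit 78) (nat_lit 228) (nat_lit 0) (XT.lf (nat_lit 0) (nat_lit 4725296610) (nat_lit 304) (nat_lit 419643970) (nat_lit 76) (nat_lit 7024363122) (nat_lit 73) (nat_lit 5) (nat_lit 77) (nat_lit 5) (nat_lit 74) (nat_lit 5) (nat_lit 322) (nat_lit 252) (nat_lit 206)) (XT.lf (nat_lit 0) (nat_lit 6686712223) (nat_lit 228) (nat_lit 1379549706) (nat_lit 304) (nat_lit 4329896542) (nat_lit 70) (nat_lit 5) (nat_lit 73) (nat_lit 5) (nat_lit 74) (nat_lit 5)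 (nat_lit 323) (nat_lit 252) (nat_lit 205)))) (XT.nd (nat_lit 156) (nat_lit 228) (nat_lit 0) (XT.nd (nat_lit 78) (nat_lit 76) (nat_lit 0) (XT.lf (nat_lit 0) (nat_lit 1316318296) (nat_lit 228) (nat_lit 10187189060) (nat_lit 304) (nat_lit 1126455721) (nat_lit 67) (nat_lit 5) (nat_lit 70) (nat_lit 5) (nat_lit 71) (nat_lit 5) (nat_lit 324) (nat_lit 252) (nat_lit 204)) (XT.lf (nat_lit 0) (nat_lit 2157840078) (nat_lit 304) (nat_lit 4304976116) (nat_lit 76) (nat_lit 6406548513) (nat_lit 66) (nat_lit 5) (nat_lit 70) (nat_lit 5) (nat_lit 67) (nat_lit 5) (nat_lit 325) (nat_lit 252) (nat_lit 203))) (XT.nd (nat_lit 78) (nat_lit 0) (nat_lit 0) (XT.lf (nat_lit 0) (nat_lit 2890565159) (nat_lit 228) (nat_lit 2611820148) (nat_lit 304) (nat_lit 7613721198) (nat_lit 63) (nat_lit 5) (nat_lit 66) (nat_lit 5) (nat_lit 67) (nat_lit 5) (nat_lit 326) (nat_lit 252) (nat_lit 202)) (XT.lf (nat_lit 0) (nat_lit 8961136372) (nat_lit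 304) (nat_lit 3061210901) (nat_lit 76) (nat_lit 1347510060) (nat_lit 63) (nat_lit 5) (nat_lit 67) (nat_lit 5) (nat_lit 64) (nat_lit 5) (nat_lit 327) (nat_lit 252) (nat_lit 201))))) (XT.nd (nat_lit 312) (nat_lit 456) (nat_lit 0) (XT.nd (nat_lit 156) (nat_lit 152) (nat_lit 0) (XT.nd (nat_lit 78) (nat_lit 76) (nat_lit 0) (XT.lf (nat_lit 0) (nat_lit 4309257347) (nat_lit 228) (nat_lit 8239874461) (nat_lit 304) (nat_lit 1081346617) (nat_lit 60) (nat_lit 5) (nat_lit 63) (nat_lit 5) (nat_lit 64) (nat_lit 5) (nat_lit 328) (nat_lit 252) (nat_lit 200)) (XT.lf (nat_lit 0) (nat_lit 2289640606) (nat_lit 304) (nat_lit 2024469528) (nat_lit 76) (nat_lit 9584465415) (nat_lit 59) (nat_lit 5) (nat_lit 63) (nat_lit 5) (nat_lit 60) (nat_lit 5) (nat_lit 329) (nat_lit 252) (nat_lit 199))) (XT.nd (nat_lit 78) (nat_lit 0) (nat_lit 0) (XT.lf (nat_lit 0) (nat_lit 5522994979) (nat_lit 152) (nat_lit 229681327) (nat_lit 228)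 (nat_lit 8421358815) (nat_lit 57) (nat_lit 5) (nat_lit 59) (nat_lit 5) (nat_lit 60) (nat_lit 5) (nat_lit 330) (nat_lit 252) (nat_lit 198)) (XT.lf (nat_lit 0) (nat_lit 9338362037) (nat_lit 228) (nat_lit 1222791889) (nat_lit 76) (nat_lit 3896061504) (nat_lit 57) (nat_lit 5) (nat_lit 60) (nat_lit 5) (nat_lit 58) (nat_lit 5) (nat_lit 331) (nat_lit 252) (nat_lit 197)))) (XT.nd (nat_lit 156) (nat_lit 152) (nat_lit 0) (XT.nd (nat_lit 78) (nat_lit 76) (nat_lit 0) (XT.lf (nat_lit 0) (nat_lit 6488968113) (nat_lit 228) (nat_lit 6568350062) (nat_lit 304) (nat_lit 1690821125) (nat_lit 54) (nat_lit 5) (nat_lit 57) (nat_lit 5) (nat_lit 58) (nat_lit 5) (nat_lit 332) (nat_lit 252) (nat_lit 196)) (XT.lf (nat_lit 0) (nat_lit 1777795610) (nat_lit 304) (nat_lit 671934518) (nat_lit 76) (nat_lit 12598338685) (nat_lit 53) (nat_lit 5) (nat_lit 57) (nat_lit 5) (nat_lit 54) (nat_lit 5) (nat_lit 333) (nat_lit 252) (nat_lit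 195))) (XT.nd (nat_lit 78) (nat_lit 0) (nat_lit 0) (XT.lf (nat_lit 0) (nat_lit 5365901908) (nat_lit 228) (nat_lit 8168634166) (nat_lit 76) (nat_lit 1820492988) (nat_lit 51) (nat_lit 5) (nat_lit 54) (nat_lit 5) (nat_lit 52) (nat_lit 5) (nat_lit 334) (nat_lit 252) (nat_lit 194)) (XT.lf (nat_lit 0) (nat_lit 9055343799) (nat_lit 228) (nat_lit 463351695) (nat_lit 76) (nat_lit 6152708863) (nat_lit 51) (nat_lit 5) (nat_lit 54) (nat_lit 5) (nat_lit 52) (nat_lit 5) (nat_lit 335) (nat_lit 252) (nat_lit 193))))))))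
noncomputable def xc83 : XT := (XT.nd (nat_lit 2184) (nat_lit 988) (nat_lit 0) (XT.nd (nat_lit 1092) (nat_lit 684) (nat_lit 0) (XT.nd (nat_lit 546) (nat_lit 532) (nat_lit 0) (XT.nd (nat_lit 234) (nat_lit 380) (nat_lit 0) (XT.nd (nat_lit 78) (nat_lit 228) (nat_lit 0) (XT.lf (nat_lit 0) (nat_lit 7560145608) (nat_lit 228) (nat_lit 5331671082) (nat_lit 304) (nat_lit 3104380303) (nat_lit 48) (nat_lit 5) (nat_lit 51) (nat_lit 5) (nat_lit 52) (nat_lit 5) (nat_lit 336) (nat_lit 252) (nat_lit 192)) (XT.nd (nat_lit 78) (nat_lit 152) (nat_lit 0) (XT.lf (nat_lit 0) (nat_lit 471158816) (nat_lit 304) (nat_lit 562333944) (nat_lit 76) (nat_lit 15298053014) (nat_lit 47) (nat_lit 5) (nat_lit 51) (nat_lit 5) (nat_lit 48) (nat_lit 5) (nat_lit 337) (nat_lit 252) (nat_lit 191)) (XT.lf (nat_lit 0) (nat_lit 4162950693) (nat_lit 228) (nat_lit 9101891170) (nat_lit 76) (nat_lit 3409064729) (nat_lit 45) (nat_lit 5) (nat_lit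 48) (nat_lit 5) (nat_lit 46) (nat_lit 5) (nat_lit 338) (nat_lit 252) (nat_lit 190)))) (XT.nd (nat_lit 156) (nat_lit 228) (nat_lit 0) (XT.nd (nat_lit 78) (nat_lit 152) (nat_lit 0) (XT.lf (nat_lit 0) (nat_lit 7946542489) (nat_lit 228) (nat_lit 1133833423) (nat_lit 76) (nat_lit 7946745610) (nat_lit 45) (nat_lit 5) (nat_lit 48) (nat_lit 5) (nat_lit 46) (nat_lit 5) (nat_lit 339) (nat_lit 252) (nat_lit 189)) (XT.lf (nat_lit 0) (nat_lit 7155518039) (nat_lit 152) (nat_lit 4723003204) (nat_lit 228) (nat_lit 5511379527) (nat_lit 43) (nat_lit 5) (nat_lit 45) (nat_lit 5) (nat_lit 46) (nat_lit 5) (nat_lit 340) (nat_lit 252) (nat_lit 188))) (XT.nd (nat_lit 78) (nat_lit 228) (nat_lit 0) (XT.lf (nat_lit 0) (nat_lit 15659977104) (nat_lit 152) (nat_lit 246469092) (nat_lit 228) (nat_lit 1857791427) (nat_lit 43) (nat_lit 5) (nat_lit 45) (nat_lit 5) (nat_lit 46) (nat_lit 5) (nat_lit 341) (nat_lit 252) (nat_lit 187))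 (XT.lf (nat_lit 0) (nat_lit 1938656088) (nat_lit 228) (nat_lit 11872017498) (nat_lit 76) (nat_lit 4336481561) (nat_lit 40) (nat_lit 5) (nat_lit 43) (nat_lit 5) (nat_lit 41) (nat_lit 5) (nat_lit 342) (nat_lit 252) (nat_lit 186))))) (XT.nd (nat_lit 234) (nat_lit 380) (nat_lit 0) (XT.nd (nat_lit 78) (nat_lit 152) (nat_lit 0) (XT.lf (nat_lit 0) (nat_lit 5802938666) (nat_lit 228) (nat_lit 3668958543) (nat_lit 76) (nat_lit 9069385384) (nat_lit 40) (nat_lit 5) (nat_lit 43) (nat_lit 5) (nat_lit 41) (nat_lit 5) (nat_lit 343) (nat_lit 252) (nat_lit 185)) (XT.nd (nat_lit 78) (nat_lit 0) (nat_lit 0) (XT.lf (nat_lit 0) (nat_lit 4819832623) (nat_lit 152) (nat_lit 4977980147) (nat_lit 228) (nat_lit 9148993490) (nat_lit 38) (nat_lit 5) (nat_lit 40) (nat_lit 5) (nat_lit 41) (nat_lit 5) (nat_lit 344) (nat_lit 252) (nat_lit 184)) (XT.lf (nat_lit 0) (nat_lit 13584619176) (nat_lit 152) (nat_lit 333699539) (nat_lit 228)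 (nat_lit 5446015284) (nat_lit 38) (nat_lit 5) (nat_lit 40) (nat_lit 5) (nat_lit 41) (nat_lit 5) (nat_lit 345) (nat_lit 252) (nat_lit 183)))) (XT.nd (nat_lit 156) (nat_lit 152) (nat_lit 0) (XT.nd (nat_lit 78) (nat_lit 76) (nat_lit 0) (XT.lf (nat_lit 0) (nat_lit 2776342700) (nat_lit 152) (nat_lit 15424996162) (nat_lit 228) (nat_lit 1591893320) (nat_lit 36) (nat_lit 5) (nat_lit 38) (nat_lit 5) (nat_lit 39) (nat_lit 4) (nat_lit 346) (nat_lit 252) (nat_lit 182)) (XT.lf (nat_lit 0) (nat_lit 2363209036) (nat_lit 228) (nat_lit 8605543285) (nat_lit 76) (nat_lit 9264617471) (nat_lit 35) (nat_lit 5) (nat_lit 38) (nat_lit 5) (nat_lit 36) (nat_lit 5) (nat_lit 347) (nat_lit 252) (nat_lit 181))) (XT.nd (nat_lit 78) (nat_lit 152) (nat_lit 0) (XT.lf (nat_lit 0) (nat_lit 6375368590) (nat_lit 228) (nat_lit 9189031) (nat_lit 76) (nat_lit 14302579681) (nat_lit 35) (nat_lit 5) (nat_lit 38) (nat_lit 5) (nat_lit 36) (nat_lit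 5) (nat_lit 348) (nat_lit 252) (nat_lit 180)) (XT.lf (nat_lit 0) (nat_lit 8970024393) (nat_lit 152) (nat_lit 1595355653) (nat_lit 228) (nat_lit 10587423470) (nat_lit 33) (nat_lit 5) (nat_lit 35) (nat_lit 5) (nat_lit 36) (nat_lit 5) (nat_lit 349) (nat_lit 252) (nat_lit 179)))))) (XT.nd (nat_lit 546) (nat_lit 304) (nat_lit 0) (XT.nd (nat_lit 234) (nat_lit 228) (nat_lit 0) (XT.nd (nat_lit 78) (nat_lit 152) (nat_lit 0) (XT.lf (nat_lit 0) (nat_lit 14884686289) (nat_lit 228) (nat_lit 3495953176) (nat_lit 76) (nat_lit 3251702410) (nat_lit 33) (nat_lit 5) (nat_lit 36) (nat_lit 5) (nat_lit 34) (nat_lit 4) (nat_lit 350) (nat_lit 252) (nat_lit 178)) (XT.nd (nat_lit 78) (nat_lit 76) (nat_lit 0) (XT.lf (nat_lit 0) (nat_lit 5494119580) (nat_lit 76) (nat_lit 13880311475) (nat_lit 152) (nat_lit 2750619250) (nat_lit 32) (nat_lit 5) (nat_lit 33) (nat_lit 5) (nat_lit 34) (nat_lit 4) (nat_lit 351) (nat_lit 252) (nat_lit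 177)) (XT.lf (nat_lit 0) (nat_lit 1347632310) (nat_lit 152) (nat_lit 7868260711) (nat_lit 76) (nat_lit 13416023108) (nat_lit 31) (nat_lit 5) (nat_lit 33) (nat_lit 5) (nat_lit 32) (nat_lit 5) (nat_lit 352) (nat_lit 252) (nat_lit 176)))) (XT.nd (nat_lit 156) (nat_lit 76) (nat_lit 0) (XT.nd (nat_lit 78) (nat_lit 0) (nat_lit 0) (XT.lf (nat_lit 0) (nat_lit 1104170421) (nat_lit 152) (nat_lit 4393110931) (nat_lit 228) (nat_lit 17656386397) (nat_lit 29) (nat_lit 5) (nat_lit 31) (nat_lit 5) (nat_lit 32) (nat_lit 5) (nat_lit 353) (nat_lit 252) (nat_lit 175)) (XT.lf (nat_lit 0) (nat_lit 9830437437) (nat_lit 228) (nat_lit 13235505135) (nat_lit 76) (nat_lit 623367438) (nat_lit 29) (nat_lit 5) (nat_lit 32) (nat_lit 5) (nat_lit 30) (nat_lit 4) (nat_lit 354) (nat_lit 252) (nat_lit 174))) (XT.nd (nat_lit 78) (nat_lit 76) (nat_lit 0) (XT.lf (nat_lit 0) (nat_lit 14311119152) (nat_lit 228) (nat_lit 4246778871) (nat_lit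 76) (nat_lit 5682605956) (nat_lit 29) (nat_lit 5) (nat_lit 32) (nat_lit 5) (nat_lit 30) (nat_lit 4) (nat_lit 355) (nat_lit 252) (nat_lit 173)) (XT.lf (nat_lit 0) (nat_lit 5065613320) (nat_lit 76) (nat_lit 13884092839) (nat_lit 152) (nat_lit 5857831186) (nat_lit 28) (nat_lit 5) (nat_lit 29) (nat_lit 5) (nat_lit 30) (nat_lit 4) (nat_lit 356) (nat_lit 252) (nat_lit 172))))) (XT.nd (nat_lit 234) (nat_lit 76) (nat_lit 0) (XT.nd (nat_lit 78) (nat_lit 228) (nat_lit 0) (XT.lf (nat_lit 0) (nat_lit 14700027509) (nat_lit 76) (nat_lit 9045405872) (nat_lit 152) (nat_lit 1645616741) (nat_lit 28) (nat_lit 5) (nat_lit 29) (nat_lit 5) (nat_lit 30) (nat_lit 4) (nat_lit 357) (nat_lit 252) (nat_lit 171)) (XT.nd (nat_lit 78) (nat_lit 152) (nat_lit 0) (XT.lf (nat_lit 0) (nat_lit 2615991581) (nat_lit 152) (nat_lit 1438085315) (nat_lit 76) (nat_lit 21937954922) (nat_lit 27) (nat_lit 5) (nat_lit 29) (nat_lit 5) (nat_lit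 28) (nat_lit 5) (nat_lit 358) (nat_lit 252) (nat_lit 170)) (XT.lf (nat_lit 0) (nat_lit 7038634946) (nat_lit 228) (nat_lit 18426420037) (nat_lit 76) (nat_lit 1143518543) (nat_lit 25) (nat_lit 5) (nat_lit 28) (nat_lit 5) (nat_lit 26) (nat_lit 4) (nat_lit 359) (nat_lit 252) (nat_lit 169)))) (XT.nd (nat_lit 156) (nat_lit 0) (nat_lit 0) (XT.nd (nat_lit 78) (nat_lit 76) (nat_lit 0) (XT.lf (nat_lit 0) (nat_lit 11625160723) (nat_lit 228) (nat_lit 9205431777) (nat_lit 76) (nat_lit 6412089897) (nat_lit 25) (nat_lit 5) (nat_lit 28) (nat_lit 5) (nat_lit 26) (nat_lit 4) (nat_lit 360) (nat_lit 252) (nat_lit 168)) (XT.lf (nat_lit 0) (nat_lit 255965806) (nat_lit 76) (nat_lit 16072862514) (nat_lit 152) (nat_lit 11567606637) (nat_lit 24) (nat_lit 5) (nat_lit 25) (nat_lit 5) (nat_lit 26) (nat_lit 4) (nat_lit 361) (nat_lit 252) (nat_lit 167))) (XT.nd (nat_lit 78) (nat_lit 0) (nat_lit 0) (XT.lf (nat_lit 0) (nat_lit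 10149096579) (nat_lit 76) (nat_lit 11094826838) (nat_lit 152) (nat_lit 7323773761) (nat_lit 24) (nat_lit 5) (nat_lit 25) (nat_lit 5) (nat_lit 26) (nat_lit 4) (nat_lit 362) (nat_lit 252) (nat_lit 166)) (XT.lf (nat_lit 0) (nat_lit 20299398879) (nat_lit 76) (nat_lit 5985092542) (nat_lit 152) (nat_lit 2975271655) (nat_lit 24) (nat_lit 5) (nat_lit 25) (nat_lit 5) (nat_lit 26) (nat_lit 4) (nat_lit 363) (nat_lit 252) (nat_lit 165))))))) (XT.nd (nat_lit 1092) (nat_lit 456) (nat_lit 0) (XT.nd (nat_lit 546) (nat_lit 228) (nat_lit 0) (XT.nd (nat_lit 234) (nat_lit 76) (nat_lit 0) (XT.nd (nat_lit 78) (nat_lit 0) (nat_lit 0) (XT.lf (nat_lit 0) (nat_lit 742755365) (nat_lit 152) (nat_lit 717170507) (nat_lit 228) (nat_lit 28512670012) (nat_lit 21) (nat_lit 5) (nat_lit 23) (nat_lit 5) (nat_lit 24) (nat_lit 5) (nat_lit 364) (nat_lit 252) (nat_lit 164)) (XT.nd (nat_lit 78) (nat_lit 0) (nat_lit 0) (XT.lf (nat_lit 0)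 (nat_lit 6083555932) (nat_lit 228) (nat_lit 19898071094) (nat_lit 76) (nat_lit 4720853477) (nat_lit 21) (nat_lit 5) (nat_lit 24) (nat_lit 5) (nat_lit 22) (nat_lit 4) (nat_lit 365) (nat_lit 252) (nat_lit 163)) (XT.lf (nat_lit 0) (nat_lit 10832155677) (nat_lit 228) (nat_lit 10331314640) (nat_lit 76) (nat_lit 10291209219) (nat_lit 21) (nat_lit 5) (nat_lit 24) (nat_lit 5) (nat_lit 22) (nat_lit 4) (nat_lit 366) (nat_lit 252) (nat_lit 162)))) (XT.nd (nat_lit 156) (nat_lit 0) (nat_lit 0) (XT.nd (nat_lit 78) (nat_lit 76) (nat_lit 0) (XT.lf (nat_lit 0) (nat_lit 15702980486) (nat_lit 228) (nat_lit 514317974) (nat_lit 76) (nat_lit 16012758599) (nat_lit 21) (nat_lit 5) (nat_lit 24) (nat_lit 5) (nat_lit 22) (nat_lit 4) (nat_lit 367) (nat_lit 252) (nat_lit 161)) (XT.lf (nat_lit 0) (nat_lit 9751789398) (nat_lit 76) (nat_lit 11042237188) (nat_lit 152) (nat_lit 12232451798) (nat_lit 20) (nat_lit 5) (nat_lit 21)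 (nat_lit 5) (nat_lit 22) (nat_lit 4) (nat_lit 368) (nat_lit 252) (nat_lit 160))) (XT.nd (nat_lit 78) (nat_lit 0) (nat_lit 0) (XT.lf (nat_lit 0) (nat_lit 20301081195) (nat_lit 76) (nat_lit 5722505275) (nat_lit 152) (nat_lit 7823637620) (nat_lit 20) (nat_lit 5) (nat_lit 21) (nat_lit 5) (nat_lit 22) (nat_lit 4) (nat_lit 369) (nat_lit 252) (nat_lit 159)) (XT.lf (nat_lit 0) (nat_lit 31132539310) (nat_lit 76) (nat_lit 258648014) (nat_lit 152) (nat_lit 3301975282) (nat_lit 20) (nat_lit 5) (nat_lit 21) (nat_lit 5) (nat_lit 22) (nat_lit 4) (nat_lit 370) (nat_lit 252) (nat_lit 158))))) (XT.nd (nat_lit 234) (nat_lit 76) (nat_lit 0) (XT.nd (nat_lit 78) (nat_lit 0) (nat_lit 0) (XT.lf (nat_lit 0) (nat_lit 1428117009) (nat_lit 152) (nat_lit 28804277835) (nat_lit 76) (nat_lit 5328721526) (nat_lit 18) (nat_lit 5) (nat_lit 20) (nat_lit 5) (nat_lit 19) (nat_lit 4) (nat_lit 371) (nat_lit 252) (nat_lit 157)) (XT.nd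 (nat_lit 78) (nat_lit 0) (nat_lit 0) (XT.lf (nat_lit 0) (nat_lit 6254207566) (nat_lit 152) (nat_lit 19066589213) (nat_lit 76) (nat_lit 11132721961) (nat_lit 18) (nat_lit 5) (nat_lit 20) (nat_lit 5) (nat_lit 19) (nat_lit 4) (nat_lit 372) (nat_lit 252) (nat_lit 156)) (XT.lf (nat_lit 0) (nat_lit 11207206811) (nat_lit 152) (nat_lit 9069549489) (nat_lit 76) (nat_lit 17096477598) (nat_lit 18) (nat_lit 5) (nat_lit 20) (nat_lit 5) (nat_lit 19) (nat_lit 4) (nat_lit 373) (nat_lit 252) (nat_lit 155)))) (XT.nd (nat_lit 156) (nat_lit 0) (nat_lit 0) (XT.nd (nat_lit 78) (nat_lit 0) (nat_lit 0) (XT.lf (nat_lit 0) (nat_lit 1219370930) (nat_lit 76) (nat_lit 15083793017) (nat_lit 152) (nat_lit 22017549894) (nat_lit 17) (nat_lit 5) (nat_lit 18) (nat_lit 5) (nat_lit 19) (nat_lit 4) (nat_lit 374) (nat_lit 252) (nat_lit 154)) (XT.lf (nat_lit 0) (nat_lit 11971363030) (nat_lit 76) (nat_lit 9655070528) (nat_lit 152) (nat_lit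 17667955852) (nat_lit 17) (nat_lit 5) (nat_lit 18) (nat_lit 5) (nat_lit 19) (nat_lit 4) (nat_lit 375) (nat_lit 252) (nat_lit 153))) (XT.nd (nat_lit 78) (nat_lit 0) (nat_lit 0) (XT.lf (nat_lit 0) (nat_lit 23015319936) (nat_lit 76) (nat_lit 4077429957) (nat_lit 152) (nat_lit 13205029010) (nat_lit 17) (nat_lit 5) (nat_lit 18) (nat_lit 5) (nat_lit 19) (nat_lit 4) (nat_lit 376) (nat_lit 252) (nat_lit 152)) (XT.lf (nat_lit 0) (nat_lit 32722788627) (nat_lit 152) (nat_lit 6986766644) (nat_lit 0) (nat_lit 1621726819) (nat_lit 17) (nat_lit 5) (nat_lit 19) (nat_lit 4) (nat_lit 17) (nat_lit 4) (nat_lit 377) (nat_lit 252) (nat_lit 151)))))) (XT.nd (nat_lit 546) (nat_lit 228) (nat_lit 0) (XT.nd (nat_lit 234) (nat_lit 76) (nat_lit 0) (XT.nd (nat_lit 78) (nat_lit 76) (nat_lit 0) (XT.lf (nat_lit 0) (nat_lit 3618855677) (nat_lit 76) (nat_lit 34962208245) (nat_lit 76) (nat_lit 3812950269) (nat_lit 16) (nat_lit 4)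 (nat_lit 17) (nat_lit 5) (nat_lit 17) (nat_lit 4) (nat_lit 378) (nat_lit 252) (nat_lit 150)) (XT.nd (nat_lit 78) (nat_lit 0) (nat_lit 0) (XT.lf (nat_lit 0) (nat_lit 1159931763) (nat_lit 152) (nat_lit 28841388891) (nat_lit 76) (nat_lit 13485322797) (nat_lit 15) (nat_lit 5) (nat_lit 17) (nat_lit 5) (nat_lit 16) (nat_lit 4) (nat_lit 379) (nat_lit 252) (nat_lit 149)) (XT.lf (nat_lit 0) (nat_lit 6190026483) (nat_lit 152) (nat_lit 18675726118) (nat_lit 76) (nat_lit 19745630096) (nat_lit 15) (nat_lit 5) (nat_lit 17) (nat_lit 5) (nat_lit 16) (nat_lit 4) (nat_lit 380) (nat_lit 252) (nat_lit 148)))) (XT.nd (nat_lit 156) (nat_lit 0) (nat_lit 0) (XT.nd (nat_lit 78) (nat_lit 76) (nat_lit 0) (XT.lf (nat_lit 0) (nat_lit 11356133514) (nat_lit 152) (nat_lit 8232635167) (nat_lit 76) (nat_lit 26181545605) (nat_lit 15) (nat_lit 5) (nat_lit 17) (nat_lit 5) (nat_lit 16) (nat_lit 4) (nat_lit 381) (nat_lit 252) (nat_lit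 147)) (XT.lf (nat_lit 0) (nat_lit 2546704368) (nat_lit 76) (nat_lit 14140543040) (nat_lit 152) (nat_lit 30276469050) (nat_lit 14) (nat_lit 5) (nat_lit 15) (nat_lit 5) (nat_lit 16) (nat_lit 4) (nat_lit 382) (nat_lit 252) (nat_lit 146))) (XT.nd (nat_lit 78) (nat_lit 0) (nat_lit 0) (XT.lf (nat_lit 0) (nat_lit 13791707673) (nat_lit 76) (nat_lit 8455430249) (nat_lit 152) (nat_lit 25943720728) (nat_lit 14) (nat_lit 5) (nat_lit 15) (nat_lit 5) (nat_lit 16) (nat_lit 4) (nat_lit 383) (nat_lit 252) (nat_lit 145)) (XT.lf (nat_lit 0) (nat_lit 25348354895) (nat_lit 76) (nat_lit 2611596206) (nat_lit 152) (nat_lit 21495283383) (nat_lit 14) (nat_lit 5) (nat_lit 15) (nat_lit 5) (nat_lit 16) (nat_lit 4) (nat_lit 384) (nat_lit 252) (nat_lit 144))))) (XT.nd (nat_lit 312) (nat_lit 152) (nat_lit 0) (XT.nd (nat_lit 156) (nat_lit 76) (nat_lit 0) (XT.nd (nat_lit 78) (nat_lit 0) (nat_lit 0) (XT.lf (nat_lit 0) (nat_lit 33863323783)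 (nat_lit 152) (nat_lit 13563849736) (nat_lit 0) (nat_lit 3329795884) (nat_lit 14) (nat_lit 5) (nat_lit 16) (nat_lit 4) (nat_lit 14) (nat_lit 4) (nat_lit 385) (nat_lit 252) (nat_lit 143)) (XT.lf (nat_lit 0) (nat_lit 39956470202) (nat_lit 152) (nat_lit 2754905010) (nat_lit 0) (nat_lit 9386003954) (nat_lit 14) (nat_lit 5) (nat_lit 16) (nat_lit 4) (nat_lit 14) (nat_lit 4) (nat_lit 386) (nat_lit 252) (nat_lit 142))) (XT.nd (nat_lit 78) (nat_lit 0) (nat_lit 0) (XT.lf (nat_lit 0) (nat_lit 8520774558) (nat_lit 76) (nat_lit 37780742546) (nat_lit 76) (nat_lit 7174413823) (nat_lit 13) (nat_lit 4) (nat_lit 14) (nat_lit 5) (nat_lit 14) (nat_lit 4) (nat_lit 387) (nat_lit 252) (nat_lit 141)) (XT.lf (nat_lit 0) (nat_lit 20167626243) (nat_lit 76) (nat_lit 32684453761) (nat_lit 76) (nat_lit 2043307101) (nat_lit 13) (nat_lit 4) (nat_lit 14) (nat_lit 5) (nat_lit 14) (nat_lit 4) (nat_lit 388) (nat_lit 252) (nat_lit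 140)))) (XT.nd (nat_lit 156) (nat_lit 76) (nat_lit 0) (XT.nd (nat_lit 78) (nat_lit 0) (nat_lit 0) (XT.lf (nat_lit 0) (nat_lit 3166064657) (nat_lit 152) (nat_lit 24247839226) (nat_lit 76) (nat_lit 28942963191) (nat_lit 12) (nat_lit 5) (nat_lit 14) (nat_lit 5) (nat_lit 13) (nat_lit 4) (nat_lit 389) (nat_lit 252) (nat_lit 139)) (XT.lf (nat_lit 0) (nat_lit 8478600304) (nat_lit 152) (nat_lit 13496211108) (nat_lit 76) (nat_lit 35887137137) (nat_lit 12) (nat_lit 5) (nat_lit 14) (nat_lit 5) (nat_lit 13) (nat_lit 4) (nat_lit 390) (nat_lit 252) (nat_lit 138))) (XT.nd (nat_lit 78) (nat_lit 76) (nat_lit 0) (XT.lf (nat_lit 0) (nat_lit 13938814140) (nat_lit 152) (nat_lit 2443840364) (nat_lit 76) (nat_lit 43029881390) (nat_lit 12) (nat_lit 5) (nat_lit 14) (nat_lit 5) (nat_lit 13) (nat_lit 4) (nat_lit 391) (nat_lit 252) (nat_lit 137)) (XT.lf (nat_lit 0) (nat_lit 9096434619) (nat_lit 76) (nat_lit 10542483103) (nat_lit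 152) (nat_lit 41368443059) (nat_lit 11) (nat_lit 5) (nat_lit 12) (nat_lit 5) (nat_lit 13) (nat_lit 4) (nat_lit 392) (nat_lit 252) (nat_lit 136))))))))
noncomputable def xc84 : XT := (XT.nd (nat_lit 31980) (nat_lit 0) (nat_lit 7144) (XT.nd (nat_lit 1092) (nat_lit 76) (nat_lit 0) (XT.nd (nat_lit 546) (nat_lit 152) (nat_lit 0) (XT.nd (nat_lit 234) (nat_lit 76) (nat_lit 0) (XT.nd (nat_lit 78) (nat_lit 0) (nat_lit 0) (XT.lf (nat_lit 0) (nat_lit 21012050658) (nat_lit 76) (nat_lit 4511423860) (nat_lit 152) (nat_lit 37126154737) (nat_lit 11) (nat_lit 5) (nat_lit 12) (nat_lit 5) (nat_lit 13) (nat_lit 4) (nat_lit 393) (nat_lit 252) (nat_lit 135)) (XT.nd (nat_lit 78) (nat_lit 0) (nat_lit 0) (XT.lf (nat_lit 0) (nat_lit 31589923190) (nat_lit 152) (nat_lit 31092968882) (nat_lit 0) (nat_lit 1658115337) (nat_lit 11) (nat_lit 5) (nat_lit 13) (nat_lit 4) (nat_lit 11) (nat_lit 4) (nat_lit 394) (nat_lit 252) (nat_lit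 134)) (XT.lf (nat_lit 0) (nat_lit 37872361312) (nat_lit 152) (nat_lit 20296680072) (nat_lit 0) (nat_lit 7913067857) (nat_lit 11) (nat_lit 5) (nat_lit 13) (nat_lit 4) (nat_lit 11) (nat_lit 4) (nat_lit 395) (nat_lit 252) (nat_lit 133)))) (XT.nd (nat_lit 156) (nat_lit 0) (nat_lit 0) (XT.nd (nat_lit 78) (nat_lit 76) (nat_lit 0) (XT.lf (nat_lit 0) (nat_lit 44332911825) (nat_lit 152) (nat_lit 9195911951) (nat_lit 0) (nat_lit 14346933322) (nat_lit 11) (nat_lit 5) (nat_lit 13) (nat_lit 4) (nat_lit 11) (nat_lit 4) (nat_lit 396) (nat_lit 252) (nat_lit 132)) (XT.lf (nat_lit 0) (nat_lit 2263198331) (nat_lit 76) (nat_lit 48735776788) (nat_lit 76) (nat_lit 18723890470) (nat_lit 10) (nat_lit 4) (nat_lit 11) (nat_lit 5) (nat_lit 11) (nat_lit 4) (nat_lit 397) (nat_lit 252) (nat_lit 131))) (XT.nd (nat_lit 78) (nat_lit 0) (nat_lit 0) (XT.lf (nat_lit 0) (nat_lit 14235929814) (nat_lit 76) (nat_lit 43712005812) (nat_lit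 76) (nat_lit 13674966275) (nat_lit 10) (nat_lit 4) (nat_lit 11) (nat_lit 5) (nat_lit 11) (nat_lit 4) (nat_lit 398) (nat_lit 252) (nat_lit 130)) (XT.lf (nat_lit 0) (nat_lit 26549727429) (nat_lit 76) (nat_lit 38545981823) (nat_lit 76) (nat_lit 8484521686) (nat_lit 10) (nat_lit 4) (nat_lit 11) (nat_lit 5) (nat_lit 11) (nat_lit 4) (nat_lit 399) (nat_lit 252) (nat_lit 129))))) (XT.nd (nat_lit 234) (nat_lit 76) (nat_lit 0) (XT.nd (nat_lit 78) (nat_lit 76) (nat_lit 0) (XT.lf (nat_lit 0) (nat_lit 39215350805) (nat_lit 76) (nat_lit 33233190821) (nat_lit 76) (nat_lit 3148021363) (nat_lit 10) (nat_lit 4) (nat_lit 11) (nat_lit 5) (nat_lit 11) (nat_lit 4) (nat_lit 400) (nat_lit 252) (nat_lit 128)) (XT.nd (nat_lit 78) (nat_lit 0) (nat_lit 0) (XT.lf (nat_lit 0) (nat_lit 2293551482) (nat_lit 152) (nat_lit 25452278706) (nat_lit 76) (nat_lit 49927155136) (nat_lit 9) (nat_lit 5) (nat_lit 11) (nat_lit 5) (nat_lit 10)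 (nat_lit 4) (nat_lit 401) (nat_lit 252) (nat_lit 127)) (XT.lf (nat_lit 0) (nat_lit 7826173819) (nat_lit 152) (nat_lit 14243403670) (nat_lit 76) (nat_lit 57741457298) (nat_lit 9) (nat_lit 5) (nat_lit 11) (nat_lit 5) (nat_lit 10) (nat_lit 4) (nat_lit 402) (nat_lit 252) (nat_lit 126)))) (XT.nd (nat_lit 156) (nat_lit 0) (nat_lit 0) (XT.nd (nat_lit 78) (nat_lit 76) (nat_lit 0) (XT.lf (nat_lit 0) (nat_lit 13516109214) (nat_lit 152) (nat_lit 2714532207) (nat_lit 76) (nat_lit 65782845978) (nat_lit 9) (nat_lit 5) (nat_lit 11) (nat_lit 5) (nat_lit 10) (nat_lit 4) (nat_lit 403) (nat_lit 252) (nat_lit 125)) (XT.lf (nat_lit 0) (nat_lit 9326401133) (nat_lit 76) (nat_lit 10131579393) (nat_lit 152) (nat_lit 64821597573) (nat_lit 8) (nat_lit 5) (nat_lit 9) (nat_lit 5) (nat_lit 10) (nat_lit 4) (nat_lit 404) (nat_lit 252) (nat_lit 124))) (XT.nd (nat_lit 78) (nat_lit 0) (nat_lit 0) (XT.lf (nat_lit 0) (nat_lit 21768566639)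 (nat_lit 76) (nat_lit 3828634268) (nat_lit 152) (nat_lit 61015879423) (nat_lit 8) (nat_lit 5) (nat_lit 9) (nat_lit 5) (nat_lit 10) (nat_lit 4) (nat_lit 405) (nat_lit 252) (nat_lit 123)) (XT.lf (nat_lit 0) (nat_lit 31938055549) (nat_lit 152) (nat_lit 54473553760) (nat_lit 0) (nat_lit 2604456144) (nat_lit 8) (nat_lit 5) (nat_lit 10) (nat_lit 4) (nat_lit 8) (nat_lit 4) (nat_lit 406) (nat_lit 252) (nat_lit 122)))))) (XT.nd (nat_lit 30342) (nat_lit 0) (nat_lit 19152) (XT.nd (nat_lit 234) (nat_lit 76) (nat_lit 0) (XT.nd (nat_lit 78) (nat_lit 0) (nat_lit 0) (XT.lf (nat_lit 0) (nat_lit 38499135744) (nat_lit 152) (nat_lit 43844285910) (nat_lit 0) (nat_lit 9146819983) (nat_lit 8) (nat_lit 5) (nat_lit 10) (nat_lit 4) (nat_lit 8) (nat_lit 4) (nat_lit 407) (nat_lit 252) (nat_lit 121)) (XT.nd (nat_lit 78) (nat_lit 0) (nat_lit 0) (XT.lf (nat_lit 0) (nat_lit 45249371303) (nat_lit 152) (nat_lit 32910619257) (nat_lit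 0) (nat_lit 15878884321) (nat_lit 8) (nat_lit 5) (nat_lit 10) (nat_lit 4) (nat_lit 8) (nat_lit 4) (nat_lit 408) (nat_lit 252) (nat_lit 120)) (XT.lf (nat_lit 0) (nat_lit 52194660489) (nat_lit 152) (nat_lit 21663000111) (nat_lit 0) (nat_lit 22806531546) (nat_lit 8) (nat_lit 5) (nat_lit 10) (nat_lit 4) (nat_lit 8) (nat_lit 4) (nat_lit 409) (nat_lit 252) (nat_lit 119)))) (XT.nd (nat_lit 156) (nat_lit 0) (nat_lit 0) (XT.nd (nat_lit 78) (nat_lit 76) (nat_lit 0) (XT.lf (nat_lit 0) (nat_lit 59341072001) (nat_lit 152) (nat_lit 10091600457) (nat_lit 0) (nat_lit 29935814940) (nat_lit 8) (nat_lit 5) (nat_lit 10) (nat_lit 4) (nat_lit 8) (nat_lit 4) (nat_lit 410) (nat_lit 252) (nat_lit 118)) (XT.lf (nat_lit 0) (nat_lit 1849786637) (nat_lit 76) (nat_lit 64862844921) (nat_lit 76) (nat_lit 35440958619) (nat_lit 7) (nat_lit 4) (nat_lit 8) (nat_lit 5) (nat_lit 8) (nat_lit 4) (nat_lit 411) (nat_lit 252) (nat_lit 117)))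 (XT.nd (nat_lit 29874) (nat_lit 0) (nat_lit 22268) (XT.lf (nat_lit 0) (nat_lit 14343162618) (nat_lit 76) (nat_lit 60057133583) (nat_lit 76) (nat_lit 30619102388) (nat_lit 7) (nat_lit 4) (nat_lit 8) (nat_lit 5) (nat_lit 8) (nat_lit 4) (nat_lit 412) (nat_lit 252) (nat_lit 116)) (XT.lf (nat_lit 0) (nat_lit 1771189129) (nat_lit 532) (nat_lit 779447949) (nat_lit 532) (nat_lit 779447949) (nat_lit 300) (nat_lit 4) (nat_lit 307) (nat_lit 5) (nat_lit 307) (nat_lit 4) (nat_lit 274) (nat_lit 253) (nat_lit 253))))) (XT.nd (nat_lit 234) (nat_lit 1672) (nat_lit 0) (XT.nd (nat_lit 78) (nat_lit 760) (nat_lit 0) (XT.lf (nat_lit 0) (nat_lit 915067043) (nat_lit 608) (nat_lit 610977187) (nat_lit 684) (nat_lit 5167325944) (nat_lit 291) (nat_lit 5) (nat_lit 299) (nat_lit 5) (nat_lit 300) (nat_lit 4) (nat_lit 275) (nat_lit 253) (nat_lit 252)) (XT.nd (nat_lit 78) (nat_lit 760) (nat_lit 0) (XT.lf (nat_lit 0) (nat_lit 4604625644)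 (nat_lit 684) (nat_lit 1696771756) (nat_lit 0) (nat_lit 427898740) (nat_lit 291) (nat_lit 5) (nat_lit 300) (nat_lit 4) (nat_lit 291) (nat_lit 4) (nat_lit 276) (nat_lit 253) (nat_lit 251)) (XT.lf (nat_lit 0) (nat_lit 918606319) (nat_lit 760) (nat_lit 4309529802) (nat_lit 76) (nat_lit 1540157768) (nat_lit 281) (nat_lit 5) (nat_lit 291) (nat_lit 5) (nat_lit 282) (nat_lit 4) (nat_lit 277) (nat_lit 253) (nat_lit 250)))) (XT.nd (nat_lit 156) (nat_lit 836) (nat_lit 0) (XT.nd (nat_lit 78) (nat_lit 836) (nat_lit 0) (XT.lf (nat_lit 0) (nat_lit 3928910501) (nat_lit 760) (nat_lit 138004278) (nat_lit 76) (nat_lit 2743514302) (nat_lit 281) (nat_lit 5) (nat_lit 291) (nat_lit 5) (nat_lit 282) (nat_lit 4) (nat_lit 278) (nat_lit 253) (nat_lit 249)) (XT.lf (nat_lit 0) (nat_lit 115562106) (nat_lit 836) (nat_lit 2697145125) (nat_lit 76) (nat_lit 4042914466) (nat_lit 270) (nat_lit 5) (nat_lit 281) (nat_lit 5) (nat_lit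 271) (nat_lit 5) (nat_lit 279) (nat_lit 253) (nat_lit 248))) (XT.nd (nat_lit 78) (nat_lit 0) (nat_lit 0) (XT.lf (nat_lit 0) (nat_lit 1605909005) (nat_lit 836) (nat_lit 1460545915) (nat_lit 912) (nat_lit 3837343537) (nat_lit 259) (nat_lit 5) (nat_lit 270) (nat_lit 5) (nat_lit 271) (nat_lit 5) (nat_lit 280) (nat_lit 253) (nat_lit 247)) (XT.lf (nat_lit 0) (nat_lit 6012705095) (nat_lit 836) (nat_lit 27369016) (nat_lit 912) (nat_lit 915455106) (nat_lit 259) (nat_lit 5) (nat_lit 270) (nat_lit 5) (nat_lit 271) (nat_lit 5) (nat_lit 281) (nat_lit 253) (nat_lit 246))))))) (XT.nd (nat_lit 1092) (nat_lit 4484) (nat_lit 0) (XT.nd (nat_lit 546) (nat_lit 2432) (nat_lit 0) (XT.nd (nat_lit 234) (nat_lit 3040) (nat_lit 0) (XT.nd (nat_lit 78) (nat_lit 1064) (nat_lit 0) (XT.lf (nat_lit 0) (nat_lit 2010195084) (nat_lit 988) (nat_lit 3513588221) (nat_lit 76) (nat_lit 1485842605) (nat_lit 246) (nat_lit 5) (nat_lit 259)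 (nat_lit 5) (nat_lit 247) (nat_lit 5) (nat_lit 282) (nat_lit 253) (nat_lit 245)) (XT.nd (nat_lit 78) (nat_lit 76) (nat_lit 0) (XT.lf (nat_lit 0) (nat_lit 949071954) (nat_lit 988) (nat_lit 3985796154) (nat_lit 1064) (nat_lit 2132439143) (nat_lit 233) (nat_lit 5) (nat_lit 246) (nat_lit 5) (nat_lit 247) (nat_lit 5) (nat_lit 283) (nat_lit 253) (nat_lit 244)) (XT.lf (nat_lit 0) (nat_lit 751860611) (nat_lit 1064) (nat_lit 1599678314) (nat_lit 76) (nat_lit 4776640340) (nat_lit 232) (nat_lit 5) (nat_lit 246) (nat_lit 5) (nat_lit 233) (nat_lit 5) (nat_lit 284) (nat_lit 253) (nat_lit 243)))) (XT.nd (nat_lit 156) (nat_lit 836) (nat_lit 0) (XT.nd (nat_lit 78) (nat_lit 1140) (nat_lit 0) (XT.lf (nat_lit 0) (nat_lit 3011087332) (nat_lit 1064) (nat_lit 611743617) (nat_lit 1140) (nat_lit 3569235843) (nat_lit 218) (nat_lit 5) (nat_lit 232) (nat_lit 5) (nat_lit 233) (nat_lit 5) (nat_lit 285) (nat_lit 253) (nat_lit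 242)) (XT.lf (nat_lit 0) (nat_lit 449984784) (nat_lit 1140) (nat_lit 6077757883) (nat_lit 1216) (nat_lit 731803422) (nat_lit 203) (nat_lit 5) (nat_lit 218) (nat_lit 5) (nat_lit 219) (nat_lit 5) (nat_lit 286) (nat_lit 253) (nat_lit 241))) (XT.nd (nat_lit 78) (nat_lit 760) (nat_lit 0) (XT.lf (nat_lit 0) (nat_lit 2113266669) (nat_lit 1216) (nat_lit 2133556456) (nat_lit 76) (nat_lit 3082740172) (nat_lit 202) (nat_lit 5) (nat_lit 218) (nat_lit 5) (nat_lit 203) (nat_lit 5) (nat_lit 287) (nat_lit 253) (nat_lit 240)) (XT.lf (nat_lit 0) (nat_lit 2645728627) (nat_lit 760) (nat_lit 2327683665) (nat_lit 836) (nat_lit 2429818620) (nat_lit 192) (nat_lit 5) (nat_lit 202) (nat_lit 5) (nat_lit 203) (nat_lit 5) (nat_lit 288) (nat_lit 253) (nat_lit 239))))) (XT.nd (nat_lit 234) (nat_lit 1216) (nat_lit 0) (XT.nd (nat_lit 78) (nat_lit 532) (nat_lit 0) (XT.lf (nat_lit 0) (nat_lit 47878129) (nat_lit 608) (nat_lit 325705455)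 (nat_lit 684) (nat_lit 7107234854) (nat_lit 183) (nat_lit 5) (nat_lit 191) (nat_lit 5) (nat_lit 192) (nat_lit 5) (nat_lit 289) (nat_lit 253) (nat_lit 238)) (XT.nd (nat_lit 78) (nat_lit 532) (nat_lit 0) (XT.lf (nat_lit 0) (nat_lit 3198690601) (nat_lit 684) (nat_lit 2589470027) (nat_lit 76) (nat_lit 1772349755) (nat_lit 183) (nat_lit 5) (nat_lit 192) (nat_lit 5) (nat_lit 184) (nat_lit 5) (nat_lit 290) (nat_lit 253) (nat_lit 237)) (XT.lf (nat_lit 0) (nat_lit 2360690949) (nat_lit 532) (nat_lit 3697303212) (nat_lit 608) (nat_lit 1586204667) (nat_lit 176) (nat_lit 5) (nat_lit 183) (nat_lit 5) (nat_lit 184) (nat_lit 5) (nat_lit 291) (nat_lit 253) (nat_lit 236)))) (XT.nd (nat_lit 156) (nat_lit 608) (nat_lit 0) (XT.nd (nat_lit 78) (nat_lit 532) (nat_lit 0) (XT.lf (nat_lit 0) (nat_lit 1198402471) (nat_lit 608) (nat_lit 311916884) (nat_lit 76) (nat_lit 6221278747) (nat_lit 175) (nat_lit 5) (nat_lit 183) (nat_lit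 5) (nat_lit 176) (nat_lit 5) (nat_lit 292) (nat_lit 253) (nat_lit 235)) (XT.lf (nat_lit 0) (nat_lit 4014923472) (nat_lit 608) (nat_lit 3022674579) (nat_lit 76) (nat_lit 784223934) (nat_lit 168) (nat_lit 5) (nat_lit 176) (nat_lit 5) (nat_lit 169) (nat_lit 5) (nat_lit 293) (nat_lit 253) (nat_lit 234))) (XT.nd (nat_lit 78) (nat_lit 76) (nat_lit 0) (XT.lf (nat_lit 0) (nat_lit 2100021789) (nat_lit 532) (nat_lit 4781918727) (nat_lit 608) (nat_lit 1033911169) (nat_lit 161) (nat_lit 5) (nat_lit 168) (nat_lit 5) (nat_lit 169) (nat_lit 5) (nat_lit 294) (nat_lit 253) (nat_lit 233)) (XT.lf (nat_lit 0) (nat_lit 1745766138) (nat_lit 608) (nat_lit 673202759) (nat_lit 76) (nat_lit 5594510668) (nat_lit 160) (nat_lit 5) (nat_lit 168) (nat_lit 5) (nat_lit 161) (nat_lit 5) (nat_lit 295) (nat_lit 253) (nat_lit 232)))))) (XT.nd (nat_lit 546) (nat_lit 2052) (nat_lit 0) (XT.nd (nat_lit 234) (nat_lit 1368) (nat_lit 0) (XT.nd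 (nat_lit 78) (nat_lit 532) (nat_lit 0) (XT.lf (nat_lit 0) (nat_lit 4563416685) (nat_lit 608) (nat_lit 3491018781) (nat_lit 76) (nat_lit 60105209) (nat_lit 153) (nat_lit 5) (nat_lit 161) (nat_lit 5) (nat_lit 154) (nat_lit 5) (nat_lit 296) (nat_lit 253) (nat_lit 231)) (XT.nd (nat_lit 78) (nat_lit 76) (nat_lit 0) (XT.lf (nat_lit 0) (nat_lit 1804907905) (nat_lit 456) (nat_lit 5640350686) (nat_lit 532) (nat_lit 774055461) (nat_lit 147) (nat_lit 5) (nat_lit 153) (nat_lit 5) (nat_lit 154) (nat_lit 5) (nat_lit 297) (nat_lit 253) (nat_lit 230)) (XT.lf (nat_lit 0) (nat_lit 2013204339) (nat_lit 532) (nat_lit 1096743243) (nat_lit 76) (nat_lit 5217719924) (nat_lit 146) (nat_lit 5) (nat_lit 153) (nat_lit 5) (nat_lit 147) (nat_lit 5) (nat_lit 298) (nat_lit 253) (nat_lit 229)))) (XT.nd (nat_lit 156) (nat_lit 532) (nat_lit 0) (XT.nd (nat_lit 78) (nat_lit 380) (nat_lit 0) (XT.lf (nat_lit 0) (nat_lit 4379170108) (nat_lit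 456) (nat_lit 465419683) (nat_lit 532) (nat_lit 3595234215) (nat_lit 140) (nat_lit 5) (nat_lit 146) (nat_lit 5) (nat_lit 147) (nat_lit 5) (nat_lit 299) (nat_lit 253) (nat_lit 228)) (XT.lf (nat_lit 0) (nat_lit 1412399060) (nat_lit 380) (nat_lit 6330000534) (nat_lit 456) (nat_lit 813563574) (nat_lit 135) (nat_lit 5) (nat_lit 140) (nat_lit 5) (nat_lit 141) (nat_lit 5) (nat_lit 300) (nat_lit 253) (nat_lit 227))) (XT.nd (nat_lit 78) (nat_lit 456) (nat_lit 0) (XT.lf (nat_lit 0) (nat_lit 1992992482) (nat_lit 456) (nat_lit 1646938596) (nat_lit 76) (nat_lit 5035678614) (nat_lit 134) (nat_lit 5) (nat_lit 140) (nat_lit 5) (nat_lit 135) (nat_lit 5) (nat_lit 301) (nat_lit 253) (nat_lit 226)) (XT.lf (nat_lit 0) (nat_lit 4006329549) (nat_lit 456) (nat_lit 836905064) (nat_lit 532) (nat_lit 3956151260) (nat_lit 128) (nat_lit 5) (nat_lit 134) (nat_lit 5) (nat_lit 135) (nat_lit 5) (nat_lit 302) (nat_lit 253) (nat_lit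 225))))) (XT.nd (nat_lit 312) (nat_lit 836) (nat_lit 0) (XT.nd (nat_lit 156) (nat_lit 760) (nat_lit 0) (XT.nd (nat_lit 78) (nat_lit 76) (nat_lit 0) (XT.lf (nat_lit 0) (nat_lit 854012491) (nat_lit 380) (nat_lit 6907939445) (nat_lit 456) (nat_lit 1165489855) (nat_lit 123) (nat_lit 5) (nat_lit 128) (nat_lit 5) (nat_lit 129) (nat_lit 5) (nat_lit 303) (nat_lit 253) (nat_lit 224)) (XT.lf (nat_lit 0) (nat_lit 1671355060) (nat_lit 456) (nat_lit 2394188484) (nat_lit 76) (nat_lit 4993481030) (nat_lit 122) (nat_lit 5) (nat_lit 128) (nat_lit 5) (nat_lit 123) (nat_lit 5) (nat_lit 304) (nat_lit 253) (nat_lit 223))) (XT.nd (nat_lit 78) (nat_lit 380) (nat_lit 0) (XT.lf (nat_lit 0) (nat_lit 3433357984) (nat_lit 380) (nat_lit 1109957162) (nat_lit 456) (nat_lit 4651741237) (nat_lit 117) (nat_lit 5) (nat_lit 122) (nat_lit 5) (nat_lit 123) (nat_lit 5) (nat_lit 305) (nat_lit 253) (nat_lit 222)) (XT.lf (nat_lit 0) (nat_lit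 54189248) (nat_lit 380) (nat_lit 7432028918) (nat_lit 456) (nat_lit 1849456757) (nat_lit 112) (nat_lit 5) (nat_lit 117) (nat_lit 5) (nat_lit 118) (nat_lit 5) (nat_lit 306) (nat_lit 253) (nat_lit 221)))) (XT.nd (nat_lit 156) (nat_lit 380) (nat_lit 0) (XT.nd (nat_lit 78) (nat_lit 380) (nat_lit 0) (XT.lf (nat_lit 0) (nat_lit 1028009657) (nat_lit 456) (nat_lit 3416477684) (nat_lit 76) (nat_lit 5035431721) (nat_lit 111) (nat_lit 5) (nat_lit 117) (nat_lit 5) (nat_lit 112) (nat_lit 5) (nat_lit 307) (nat_lit 253) (nat_lit 220)) (XT.lf (nat_lit 0) (nat_lit 2579969118) (nat_lit 380) (nat_lit 1342759317) (nat_lit 456) (nat_lit 5706214842) (nat_lit 106) (nat_lit 5) (nat_lit 111) (nat_lit 5) (nat_lit 112) (nat_lit 5) (nat_lit 308) (nat_lit 253) (nat_lit 219))) (XT.nd (nat_lit 78) (nat_lit 380) (nat_lit 0) (XT.lf (nat_lit 0) (nat_lit 6900963670) (nat_lit 456) (nat_lit 1050522515) (nat_lit 76) (nat_lit 1831095593)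 (nat_lit 106) (nat_lit 5) (nat_lit 112) (nat_lit 5) (nat_lit 107) (nat_lit 5) (nat_lit 309) (nat_lit 253) (nat_lit 218)) (XT.lf (nat_lit 0) (nat_lit 35579497) (nat_lit 380) (nat_lit 4801152224) (nat_lit 76) (nat_lit 5103878892) (nat_lit 101) (nat_lit 5) (nat_lit 106) (nat_lit 5) (nat_lit 102) (nat_lit 5) (nat_lit 310) (nat_lit 253) (nat_lit 217))))))))
noncomputable def xc85 : XT := (XT.nd (nat_lit 2184) (nat_lit 1824) (nat_lit 0) (XT.nd (nat_lit 1092) (nat_lit 1900) (nat_lit 0) (XT.nd (nat_lit 546) (nat_lit 1140) (nat_lit 0) (XT.nd (nat_lit 234) (nat_lit 608) (nat_lit 0) (XT.nd (nat_lit 78) (nat_lit 304) (nat_lit 0) (XT.lf (nat_lit 0) (nat_lit 1355989297) (nat_lit 304) (nat_lit 1596093191) (nat_lit 380) (nat_lit 7151390772) (nat_lit 97) (nat_lit 5) (nat_lit 101) (nat_lit 5) (nat_lit 102) (nat_lit 5) (nat_lit 311) (nat_lit 253) (nat_lit 216)) (XT.nd (nat_lit 78) (nat_lit 304) (nat_lit 0) (XT.lf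 (nat_lit 0) (nat_lit 5968393994) (nat_lit 380) (nat_lit 2566860550) (nat_lit 76) (nat_lit 1735636757) (nat_lit 97) (nat_lit 5) (nat_lit 102) (nat_lit 5) (nat_lit 98) (nat_lit 5) (nat_lit 312) (nat_lit 253) (nat_lit 215)) (XT.lf (nat_lit 0) (nat_lit 3783287449) (nat_lit 304) (nat_lit 5292240942) (nat_lit 380) (nat_lit 1367831270) (nat_lit 93) (nat_lit 5) (nat_lit 97) (nat_lit 5) (nat_lit 98) (nat_lit 5) (nat_lit 313) (nat_lit 253) (nat_lit 214)))) (XT.nd (nat_lit 156) (nat_lit 228) (nat_lit 0) (XT.nd (nat_lit 78) (nat_lit 304) (nat_lit 0) (XT.lf (nat_lit 0) (nat_lit 1597187465) (nat_lit 380) (nat_lit 334084851) (nat_lit 76) (nat_lit 8690049983) (nat_lit 92) (nat_lit 5) (nat_lit 97) (nat_lit 5) (nat_lit 93) (nat_lit 5) (nat_lit 314) (nat_lit 253) (nat_lit 213)) (XT.lf (nat_lit 0) (nat_lit 4648586841) (nat_lit 380) (nat_lit 4601816524) (nat_lit 76) (nat_lit 1553101080) (nat_lit 88) (nat_lit 5) (nat_lit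 93) (nat_lit 5) (nat_lit 89) (nat_lit 5) (nat_lit 315) (nat_lit 253) (nat_lit 212))) (XT.nd (nat_lit 78) (nat_lit 0) (nat_lit 0) (XT.lf (nat_lit 0) (nat_lit 1894459508) (nat_lit 228) (nat_lit 5888298209) (nat_lit 304) (nat_lit 3208691024) (nat_lit 85) (nat_lit 5) (nat_lit 88) (nat_lit 5) (nat_lit 89) (nat_lit 5) (nat_lit 316) (nat_lit 253) (nat_lit 211)) (XT.lf (nat_lit 0) (nat_lit 8607984391) (nat_lit 228) (nat_lit 2400679145) (nat_lit 304) (nat_lit 176469128) (nat_lit 85) (nat_lit 5) (nat_lit 88) (nat_lit 5) (nat_lit 89) (nat_lit 5) (nat_lit 317) (nat_lit 253) (nat_lit 210))))) (XT.nd (nat_lit 234) (nat_lit 532) (nat_lit 0) (XT.nd (nat_lit 78) (nat_lit 228) (nat_lit 0) (XT.lf (nat_lit 0) (nat_lit 2892883637) (nat_lit 380) (nat_lit 7276470955) (nat_lit 76) (nat_lit 1214343505) (nat_lit 80) (nat_lit 5) (nat_lit 85) (nat_lit 5) (nat_lit 81) (nat_lit 5) (nat_lit 318) (nat_lit 253) (nat_lit 209)) (XT.nd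 (nat_lit 78) (nat_lit 228) (nat_lit 0) (XT.lf (nat_lit 0) (nat_lit 6053479380) (nat_lit 380) (nat_lit 639636842) (nat_lit 76) (nat_lit 4895000404) (nat_lit 80) (nat_lit 5) (nat_lit 85) (nat_lit 5) (nat_lit 81) (nat_lit 5) (nat_lit 319) (nat_lit 253) (nat_lit 208)) (XT.lf (nat_lit 0) (nat_lit 6248934798) (nat_lit 228) (nat_lit 3074064004) (nat_lit 304) (nat_lit 2475274694) (nat_lit 77) (nat_lit 5) (nat_lit 80) (nat_lit 5) (nat_lit 81) (nat_lit 5) (nat_lit 320) (nat_lit 253) (nat_lit 207)))) (XT.nd (nat_lit 156) (nat_lit 228) (nat_lit 0) (XT.nd (nat_lit 78) (nat_lit 0) (nat_lit 0) (XT.lf (nat_lit 0) (nat_lit 642166633) (nat_lit 304) (nat_lit 10729861331) (nat_lit 76) (nat_lit 643154903) (nat_lit 73) (nat_lit 5) (nat_lit 77) (nat_lit 5) (nat_lit 74) (nat_lit 5) (nat_lit 321) (nat_lit 253) (nat_lit 206)) (XT.lf (nat_lit 0) (nat_lit 3845091445) (nat_lit 304) (nat_lit 3923673269) (nat_lit 76) (nat_lit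 4467874752) (nat_lit 73) (nat_lit 5) (nat_lit 77) (nat_lit 5) (nat_lit 74) (nat_lit 5) (nat_lit 322) (nat_lit 253) (nat_lit 205))) (XT.nd (nat_lit 78) (nat_lit 0) (nat_lit 0) (XT.lf (nat_lit 0) (nat_lit 3078784749) (nat_lit 228) (nat_lit 4050916617) (nat_lit 304) (nat_lit 5335496204) (nat_lit 70) (nat_lit 5) (nat_lit 73) (nat_lit 5) (nat_lit 74) (nat_lit 5) (nat_lit 323) (nat_lit 253) (nat_lit 204)) (XT.lf (nat_lit 0) (nat_lit 10304420706) (nat_lit 228) (nat_lit 204686790) (nat_lit 304) (nat_lit 2191642166) (nat_lit 70) (nat_lit 5) (nat_lit 73) (nat_lit 5) (nat_lit 74) (nat_lit 5) (nat_lit 324) (nat_lit 253) (nat_lit 203)))))) (XT.nd (nat_lit 546) (nat_lit 912) (nat_lit 0) (XT.nd (nat_lit 234) (nat_lit 456) (nat_lit 0) (XT.nd (nat_lit 78) (nat_lit 228) (nat_lit 0) (XT.lf (nat_lit 0) (nat_lit 1066354184) (nat_lit 304) (nat_lit 8158179686) (nat_lit 76) (nat_lit 3717348750) (nat_lit 66) (nat_lit 5)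 (nat_lit 70) (nat_lit 5) (nat_lit 67) (nat_lit 5) (nat_lit 325) (nat_lit 253) (nat_lit 202)) (XT.nd (nat_lit 78) (nat_lit 228) (nat_lit 0) (XT.lf (nat_lit 0) (nat_lit 4362345118) (nat_lit 304) (nat_lit 1051871601) (nat_lit 76) (nat_lit 7775875589) (nat_lit 66) (nat_lit 5) (nat_lit 70) (nat_lit 5) (nat_lit 67) (nat_lit 5) (nat_lit 326) (nat_lit 253) (nat_lit 201)) (XT.lf (nat_lit 0) (nat_lit 6326376561) (nat_lit 228) (nat_lit 1450720294) (nat_lit 304) (nat_lit 5668077194) (nat_lit 63) (nat_lit 5) (nat_lit 66) (nat_lit 5) (nat_lit 67) (nat_lit 5) (nat_lit 327) (nat_lit 253) (nat_lit 200)))) (XT.nd (nat_lit 156) (nat_lit 152) (nat_lit 0) (XT.nd (nat_lit 78) (nat_lit 76) (nat_lit 0) (XT.lf (nat_lit 0) (nat_lit 152447675) (nat_lit 228) (nat_lit 11138749745) (nat_lit 304) (nat_lit 2416825181) (nat_lit 60) (nat_lit 5) (nat_lit 63) (nat_lit 5) (nat_lit 64) (nat_lit 5) (nat_lit 328) (nat_lit 253) (nat_lit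 199)) (XT.lf (nat_lit 0) (nat_lit 960302063) (nat_lit 304) (nat_lit 6278132103) (nat_lit 76) (nat_lit 6738678288) (nat_lit 59) (nat_lit 5) (nat_lit 63) (nat_lit 5) (nat_lit 60) (nat_lit 5) (nat_lit 329) (nat_lit 253) (nat_lit 198))) (XT.nd (nat_lit 78) (nat_lit 0) (nat_lit 0) (XT.lf (nat_lit 0) (nat_lit 1152845174) (nat_lit 152) (nat_lit 3209144254) (nat_lit 228) (nat_lit 9892432762) (nat_lit 57) (nat_lit 5) (nat_lit 59) (nat_lit 5) (nat_lit 60) (nat_lit 5) (nat_lit 330) (nat_lit 253) (nat_lit 197)) (XT.lf (nat_lit 0) (nat_lit 7899847464) (nat_lit 228) (nat_lit 5676060148) (nat_lit 76) (nat_lit 963139149) (nat_lit 57) (nat_lit 5) (nat_lit 60) (nat_lit 5) (nat_lit 58) (nat_lit 5) (nat_lit 331) (nat_lit 253) (nat_lit 196))))) (XT.nd (nat_lit 234) (nat_lit 456) (nat_lit 0) (XT.nd (nat_lit 78) (nat_lit 228) (nat_lit 0) (XT.lf (nat_lit 0) (nat_lit 1916006844) (nat_lit 228) (nat_lit 9640210233) (nat_lit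 304) (nat_lit 3275640305) (nat_lit 54) (nat_lit 5) (nat_lit 57) (nat_lit 5) (nat_lit 58) (nat_lit 5) (nat_lit 332) (nat_lit 253) (nat_lit 195)) (XT.nd (nat_lit 78) (nat_lit 152) (nat_lit 0) (XT.lf (nat_lit 0) (nat_lit 205335548) (nat_lit 304) (nat_lit 5343917212) (nat_lit 76) (nat_lit 9583556787) (nat_lit 53) (nat_lit 5) (nat_lit 57) (nat_lit 5) (nat_lit 54) (nat_lit 5) (nat_lit 333) (nat_lit 253) (nat_lit 194)) (XT.lf (nat_lit 0) (nat_lit 2409575790) (nat_lit 152) (nat_lit 1301898022) (nat_lit 228) (nat_lit 11730763404) (nat_lit 51) (nat_lit 5) (nat_lit 53) (nat_lit 5) (nat_lit 54) (nat_lit 5) (nat_lit 334) (nat_lit 253) (nat_lit 193)))) (XT.nd (nat_lit 156) (nat_lit 228) (nat_lit 0) (XT.nd (nat_lit 78) (nat_lit 228) (nat_lit 0) (XT.lf (nat_lit 0) (nat_lit 7370506974) (nat_lit 228) (nat_lit 5344652154) (nat_lit 76) (nat_lit 3044373780) (nat_lit 51) (nat_lit 5) (nat_lit 54) (nat_lit 5) (nat_lit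 52) (nat_lit 5) (nat_lit 335) (nat_lit 253) (nat_lit 192)) (XT.lf (nat_lit 0) (nat_lit 2552201897) (nat_lit 228) (nat_lit 8589265647) (nat_lit 304) (nat_lit 4944831268) (nat_lit 48) (nat_lit 5) (nat_lit 51) (nat_lit 5) (nat_lit 52) (nat_lit 5) (nat_lit 336) (nat_lit 253) (nat_lit 191))) (XT.nd (nat_lit 78) (nat_lit 228) (nat_lit 0) (XT.lf (nat_lit 0) (nat_lit 10737389199) (nat_lit 228) (nat_lit 4307339637) (nat_lit 304) (nat_lit 1377579266) (nat_lit 48) (nat_lit 5) (nat_lit 51) (nat_lit 5) (nat_lit 52) (nat_lit 5) (nat_lit 337) (nat_lit 253) (nat_lit 190)) (XT.lf (nat_lit 0) (nat_lit 2241702733) (nat_lit 228) (nat_lit 14402597939) (nat_lit 76) (nat_lit 123754483) (nat_lit 45) (nat_lit 5) (nat_lit 48) (nat_lit 5) (nat_lit 46) (nat_lit 5) (nat_lit 338) (nat_lit 253) (nat_lit 189))))))) (XT.nd (nat_lit 1092) (nat_lit 836) (nat_lit 0) (XT.nd (nat_lit 546) (nat_lit 456) (nat_lit 0) (XT.nd (nat_lit 234)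 (nat_lit 380) (nat_lit 0) (XT.nd (nat_lit 78) (nat_lit 152) (nat_lit 0) (XT.lf (nat_lit 0) (nat_lit 6008593046) (nat_lit 228) (nat_lit 6462805190) (nat_lit 76) (nat_lit 4650379912) (nat_lit 45) (nat_lit 5) (nat_lit 48) (nat_lit 5) (nat_lit 46) (nat_lit 5) (nat_lit 339) (nat_lit 253) (nat_lit 188)) (XT.nd (nat_lit 78) (nat_lit 0) (nat_lit 0) (XT.lf (nat_lit 0) (nat_lit 1692501396) (nat_lit 152) (nat_lit 8179341514) (nat_lit 228) (nat_lit 7614783166) (nat_lit 43) (nat_lit 5) (nat_lit 45) (nat_lit 5) (nat_lit 46) (nat_lit 5) (nat_lit 340) (nat_lit 253) (nat_lit 187)) (XT.lf (nat_lit 0) (nat_lit 10169787752) (nat_lit 152) (nat_lit 3713976160) (nat_lit 228) (nat_lit 3977685749) (nat_lit 43) (nat_lit 5) (nat_lit 45) (nat_lit 5) (nat_lit 46) (nat_lit 5) (nat_lit 341) (nat_lit 253) (nat_lit 186)))) (XT.nd (nat_lit 156) (nat_lit 152) (nat_lit 0) (XT.nd (nat_lit 78) (nat_lit 76) (nat_lit 0) (XT.lf (nat_lit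 0) (nat_lit 602825846) (nat_lit 152) (nat_lit 17395768594) (nat_lit 228) (nat_lit 249459994) (nat_lit 41) (nat_lit 5) (nat_lit 43) (nat_lit 5) (nat_lit 44) (nat_lit 4) (nat_lit 342) (nat_lit 253) (nat_lit 185)) (XT.lf (nat_lit 0) (nat_lit 3604090382) (nat_lit 228) (nat_lit 9466575539) (nat_lit 76) (nat_lit 5572061953) (nat_lit 40) (nat_lit 5) (nat_lit 43) (nat_lit 5) (nat_lit 41) (nat_lit 5) (nat_lit 343) (nat_lit 253) (nat_lit 184))) (XT.nd (nat_lit 78) (nat_lit 152) (nat_lit 0) (XT.lf (nat_lit 0) (nat_lit 7537487613) (nat_lit 228) (nat_lit 1097859840) (nat_lit 76) (nat_lit 10414754271) (nat_lit 40) (nat_lit 5) (nat_lit 43) (nat_lit 5) (nat_lit 41) (nat_lit 5) (nat_lit 344) (nat_lit 253) (nat_lit 183)) (XT.lf (nat_lit 0) (nat_lit 7619309105) (nat_lit 152) (nat_lit 4012968865) (nat_lit 228) (nat_lit 7836128666) (nat_lit 38) (nat_lit 5) (nat_lit 40) (nat_lit 5) (nat_lit 41) (nat_lit 5) (nat_lit 345)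 (nat_lit 253) (nat_lit 182))))) (XT.nd (nat_lit 234) (nat_lit 228) (nat_lit 0) (XT.nd (nat_lit 78) (nat_lit 228) (nat_lit 0) (XT.lf (nat_lit 0) (nat_lit 15838625135) (nat_lit 228) (nat_lit 3337206686) (nat_lit 76) (nat_lit 723778728) (nat_lit 38) (nat_lit 5) (nat_lit 41) (nat_lit 5) (nat_lit 39) (nat_lit 4) (nat_lit 346) (nat_lit 253) (nat_lit 181)) (XT.nd (nat_lit 78) (nat_lit 76) (nat_lit 0) (XT.lf (nat_lit 0) (nat_lit 5446614924) (nat_lit 152) (nat_lit 14787826722) (nat_lit 228) (nat_lit 107421483) (nat_lit 36) (nat_lit 5) (nat_lit 38) (nat_lit 5) (nat_lit 39) (nat_lit 4) (nat_lit 347) (nat_lit 253) (nat_lit 180)) (XT.lf (nat_lit 0) (nat_lit 3892677479) (nat_lit 228) (nat_lit 6322525853) (nat_lit 76) (nat_lit 10580888059) (nat_lit 35) (nat_lit 5) (nat_lit 38) (nat_lit 5) (nat_lit 36) (nat_lit 5) (nat_lit 348) (nat_lit 253) (nat_lit 179)))) (XT.nd (nat_lit 156) (nat_lit 76) (nat_lit 0) (XT.nd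 (nat_lit 78) (nat_lit 0) (nat_lit 0) (XT.lf (nat_lit 0) (nat_lit 2506617095) (nat_lit 152) (nat_lit 5500197176) (nat_lit 228) (nat_lit 13257224495) (nat_lit 33) (nat_lit 5) (nat_lit 35) (nat_lit 5) (nat_lit 36) (nat_lit 5) (nat_lit 349) (nat_lit 253) (nat_lit 178)) (XT.lf (nat_lit 0) (nat_lit 11682105867) (nat_lit 152) (nat_lit 598563168) (nat_lit 228) (nat_lit 9464276413) (nat_lit 33) (nat_lit 5) (nat_lit 35) (nat_lit 5) (nat_lit 36) (nat_lit 5) (nat_lit 350) (nat_lit 253) (nat_lit 177))) (XT.nd (nat_lit 78) (nat_lit 76) (nat_lit 0) (XT.lf (nat_lit 0) (nat_lit 16698575841) (nat_lit 228) (nat_lit 1197549178) (nat_lit 76) (nat_lit 4343688637) (nat_lit 33) (nat_lit 5) (nat_lit 36) (nat_lit 5) (nat_lit 34) (nat_lit 4) (nat_lit 351) (nat_lit 253) (nat_lit 176)) (XT.lf (nat_lit 0) (nat_lit 8038664166) (nat_lit 76) (nat_lit 13267398421) (nat_lit 152) (nat_lit 1441763187) (nat_lit 32) (nat_lit 5) (nat_lit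 33) (nat_lit 5) (nat_lit 34) (nat_lit 4) (nat_lit 352) (nat_lit 253) (nat_lit 175)))))) (XT.nd (nat_lit 546) (nat_lit 304) (nat_lit 0) (XT.nd (nat_lit 234) (nat_lit 304) (nat_lit 0) (XT.nd (nat_lit 78) (nat_lit 152) (nat_lit 0) (XT.lf (nat_lit 0) (nat_lit 2712550512) (nat_lit 152) (nat_lit 5767102420) (nat_lit 76) (nat_lit 14791048560) (nat_lit 31) (nat_lit 5) (nat_lit 33) (nat_lit 5) (nat_lit 32) (nat_lit 5) (nat_lit 353) (nat_lit 253) (nat_lit 174)) (XT.nd (nat_lit 78) (nat_lit 0) (nat_lit 0) (XT.lf (nat_lit 0) (nat_lit 3451587861) (nat_lit 152) (nat_lit 3518770202) (nat_lit 228) (nat_lit 16838250269) (nat_lit 29) (nat_lit 5) (nat_lit 31) (nat_lit 5) (nat_lit 32) (nat_lit 5) (nat_lit 354) (nat_lit 253) (nat_lit 173)) (XT.lf (nat_lit 0) (nat_lit 11404797014) (nat_lit 228) (nat_lit 11356560385) (nat_lit 76) (nat_lit 1599836187) (nat_lit 29) (nat_lit 5) (nat_lit 32) (nat_lit 5) (nat_lit 30) (nat_lit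 4) (nat_lit 355) (nat_lit 253) (nat_lit 172)))) (XT.nd (nat_lit 156) (nat_lit 228) (nat_lit 0) (XT.nd (nat_lit 78) (nat_lit 76) (nat_lit 0) (XT.lf (nat_lit 0) (nat_lit 15982633749) (nat_lit 228) (nat_lit 2164463884) (nat_lit 76) (nat_lit 6782955713) (nat_lit 29) (nat_lit 5) (nat_lit 32) (nat_lit 5) (nat_lit 30) (nat_lit 4) (nat_lit 356) (nat_lit 253) (nat_lit 171)) (XT.lf (nat_lit 0) (nat_lit 7405636167) (nat_lit 76) (nat_lit 13339595087) (nat_lit 152) (nat_lit 4769332532) (nat_lit 28) (nat_lit 5) (nat_lit 29) (nat_lit 5) (nat_lit 30) (nat_lit 4) (nat_lit 357) (nat_lit 253) (nat_lit 170))) (XT.nd (nat_lit 78) (nat_lit 228) (nat_lit 0) (XT.lf (nat_lit 0) (nat_lit 17265353041) (nat_lit 76) (nat_lit 8383738400) (nat_lit 152) (nat_lit 467573991) (nat_lit 28) (nat_lit 5) (nat_lit 29) (nat_lit 5) (nat_lit 30) (nat_lit 4) (nat_lit 358) (nat_lit 253) (nat_lit 169)) (XT.lf (nat_lit 0) (nat_lit 616869937)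 (nat_lit 152) (nat_lit 3251938926) (nat_lit 228) (nat_lit 22867398103) (nat_lit 25) (nat_lit 5) (nat_lit 27) (nat_lit 5) (nat_lit 28) (nat_lit 5) (nat_lit 359) (nat_lit 253) (nat_lit 168))))) (XT.nd (nat_lit 312) (nat_lit 228) (nat_lit 0) (XT.nd (nat_lit 156) (nat_lit 76) (nat_lit 0) (XT.nd (nat_lit 78) (nat_lit 0) (nat_lit 0) (XT.lf (nat_lit 0) (nat_lit 8412787107) (nat_lit 228) (nat_lit 16887392167) (nat_lit 76) (nat_lit 2071416342) (nat_lit 25) (nat_lit 5) (nat_lit 28) (nat_lit 5) (nat_lit 26) (nat_lit 4) (nat_lit 360) (nat_lit 253) (nat_lit 167)) (XT.lf (nat_lit 0) (nat_lit 13103035072) (nat_lit 228) (nat_lit 7450701070) (nat_lit 76) (nat_lit 7472017878) (nat_lit 25) (nat_lit 5) (nat_lit 28) (nat_lit 5) (nat_lit 26) (nat_lit 4) (nat_lit 361) (nat_lit 253) (nat_lit 166))) (XT.nd (nat_lit 78) (nat_lit 0) (nat_lit 0) (XT.lf (nat_lit 0) (nat_lit 2274627720) (nat_lit 76) (nat_lit 15659628800) (nat_lit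 152) (nat_lit 10765279088) (nat_lit 24) (nat_lit 5) (nat_lit 25) (nat_lit 5) (nat_lit 26) (nat_lit 4) (nat_lit 362) (nat_lit 253) (nat_lit 165)) (XT.lf (nat_lit 0) (nat_lit 12405980096) (nat_lit 76) (nat_lit 10558332235) (nat_lit 152) (nat_lit 6427607607) (nat_lit 24) (nat_lit 5) (nat_lit 25) (nat_lit 5) (nat_lit 26) (nat_lit 4) (nat_lit 363) (nat_lit 253) (nat_lit 164)))) (XT.nd (nat_lit 156) (nat_lit 0) (nat_lit 0) (XT.nd (nat_lit 78) (nat_lit 228) (nat_lit 0) (XT.lf (nat_lit 0) (nat_lit 22803925137) (nat_lit 76) (nat_lit 5320626476) (nat_lit 152) (nat_lit 1981151778) (nat_lit 24) (nat_lit 5) (nat_lit 25) (nat_lit 5) (nat_lit 26) (nat_lit 4) (nat_lit 364) (nat_lit 253) (nat_lit 163)) (XT.lf (nat_lit 0) (nat_lit 2554325651) (nat_lit 228) (nat_lit 28177828341) (nat_lit 76) (nat_lit 107812507) (nat_lit 21) (nat_lit 5) (nat_lit 24) (nat_lit 5) (nat_lit 22) (nat_lit 4) (nat_lit 365) (nat_lit 253) (nat_lit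 162))) (XT.nd (nat_lit 78) (nat_lit 0) (nat_lit 0) (XT.lf (nat_lit 0) (nat_lit 7292958436) (nat_lit 228) (nat_lit 18629181484) (nat_lit 76) (nat_lit 5670327346) (nat_lit 21) (nat_lit 5) (nat_lit 24) (nat_lit 5) (nat_lit 22) (nat_lit 4) (nat_lit 366) (nat_lit 253) (nat_lit 161)) (XT.lf (nat_lit 0) (nat_lit 12154106586) (nat_lit 228) (nat_lit 8829766950) (nat_lit 76) (nat_lit 11384264199) (nat_lit 21) (nat_lit 5) (nat_lit 24) (nat_lit 5) (nat_lit 22) (nat_lit 4) (nat_lit 367) (nat_lit 253) (nat_lit 160))))))))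
noncomputable def xc86 : XT := (XT.nd (nat_lit 2184) (nat_lit 304) (nat_lit 0) (XT.nd (nat_lit 1092) (nat_lit 304) (nat_lit 0) (XT.nd (nat_lit 546) (nat_lit 228) (nat_lit 0) (XT.nd (nat_lit 234) (nat_lit 152) (nat_lit 0) (XT.nd (nat_lit 78) (nat_lit 0) (nat_lit 0) (XT.lf (nat_lit 0) (nat_lit 1253436924) (nat_lit 76) (nat_lit 15900629584) (nat_lit 152) (nat_lit 16013227706) (nat_lit 20) (nat_lit 5) (nat_lit 21) (nat_lit 5) (nat_lit 22) (nat_lit 4) (nat_lit 368) (nat_lit 253) (nat_lit 159)) (XT.nd (nat_lit 78) (nat_lit 0) (nat_lit 0) (XT.lf (nat_lit 0) (nat_lit 11785826043) (nat_lit 76) (nat_lit 10588516690) (nat_lit 152) (nat_lit 11613978190) (nat_lit 20) (nat_lit 5) (nat_lit 21) (nat_lit 5) (nat_lit 22) (nat_lit 4) (nat_lit 369) (nat_lit 253) (nat_lit 158)) (XT.lf (nat_lit 0) (nat_lit 22600873790) (nat_lit 76) (nat_lit 5132056537) (nat_lit 152) (nat_lit 7101601932) (nat_lit 20) (nat_lit 5) (nat_lit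 21) (nat_lit 5) (nat_lit 22) (nat_lit 4) (nat_lit 370) (nat_lit 253) (nat_lit 157)))) (XT.nd (nat_lit 156) (nat_lit 0) (nat_lit 0) (XT.nd (nat_lit 78) (nat_lit 152) (nat_lit 0) (XT.lf (nat_lit 0) (nat_lit 33239063299) (nat_lit 152) (nat_lit 2003189170) (nat_lit 0) (nat_lit 464278603) (nat_lit 20) (nat_lit 5) (nat_lit 22) (nat_lit 4) (nat_lit 20) (nat_lit 4) (nat_lit 371) (nat_lit 253) (nat_lit 156)) (XT.lf (nat_lit 0) (nat_lit 2378133470) (nat_lit 152) (nat_lit 28004722495) (nat_lit 76) (nat_lit 6217650410) (nat_lit 18) (nat_lit 5) (nat_lit 20) (nat_lit 5) (nat_lit 19) (nat_lit 4) (nat_lit 372) (nat_lit 253) (nat_lit 155))) (XT.nd (nat_lit 78) (nat_lit 0) (nat_lit 0) (XT.lf (nat_lit 0) (nat_lit 7322584230) (nat_lit 152) (nat_lit 18023360020) (nat_lit 76) (nat_lit 12174535890) (nat_lit 18) (nat_lit 5) (nat_lit 20) (nat_lit 5) (nat_lit 19) (nat_lit 4) (nat_lit 373) (nat_lit 253) (nat_lit 154)) (XT.lf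 (nat_lit 0) (nat_lit 12398520527) (nat_lit 152) (nat_lit 7773454548) (nat_lit 76) (nat_lit 18296587722) (nat_lit 18) (nat_lit 5) (nat_lit 20) (nat_lit 5) (nat_lit 19) (nat_lit 4) (nat_lit 374) (nat_lit 253) (nat_lit 153))))) (XT.nd (nat_lit 234) (nat_lit 152) (nat_lit 0) (XT.nd (nat_lit 78) (nat_lit 0) (nat_lit 0) (XT.lf (nat_lit 0) (nat_lit 2808759156) (nat_lit 76) (nat_lit 14828618000) (nat_lit 152) (nat_lit 21807395626) (nat_lit 17) (nat_lit 5) (nat_lit 18) (nat_lit 5) (nat_lit 19) (nat_lit 4) (nat_lit 375) (nat_lit 253) (nat_lit 152)) (XT.nd (nat_lit 78) (nat_lit 0) (nat_lit 0) (XT.lf (nat_lit 0) (nat_lit 13838083628) (nat_lit 76) (nat_lit 9257646132) (nat_lit 152) (nat_lit 17352673396) (nat_lit 17) (nat_lit 5) (nat_lit 18) (nat_lit 5) (nat_lit 19) (nat_lit 4) (nat_lit 376) (nat_lit 253) (nat_lit 151)) (XT.lf (nat_lit 0) (nat_lit 25169449153) (nat_lit 76) (nat_lit 3532688281) (nat_lit 152) (nat_lit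 12780479753) (nat_lit 17) (nat_lit 5) (nat_lit 18) (nat_lit 5) (nat_lit 19) (nat_lit 4) (nat_lit 377) (nat_lit 253) (nat_lit 150)))) (XT.nd (nat_lit 156) (nat_lit 76) (nat_lit 0) (XT.nd (nat_lit 78) (nat_lit 76) (nat_lit 0) (XT.lf (nat_lit 0) (nat_lit 34484100710) (nat_lit 152) (nat_lit 5758163362) (nat_lit 0) (nat_lit 2305376432) (nat_lit 17) (nat_lit 5) (nat_lit 19) (nat_lit 4) (nat_lit 17) (nat_lit 4) (nat_lit 378) (nat_lit 253) (nat_lit 149)) (XT.lf (nat_lit 0) (nat_lit 5151527567) (nat_lit 76) (nat_lit 35357578453) (nat_lit 76) (nat_lit 3133424665) (nat_lit 16) (nat_lit 4) (nat_lit 17) (nat_lit 5) (nat_lit 17) (nat_lit 4) (nat_lit 379) (nat_lit 253) (nat_lit 148))) (XT.nd (nat_lit 78) (nat_lit 0) (nat_lit 0) (XT.lf (nat_lit 0) (nat_lit 1950479219) (nat_lit 152) (nat_lit 28308787292) (nat_lit 76) (nat_lit 14509128787) (nat_lit 15) (nat_lit 5) (nat_lit 17) (nat_lit 5) (nat_lit 16) (nat_lit 4)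 (nat_lit 380) (nat_lit 253) (nat_lit 147)) (XT.lf (nat_lit 0) (nat_lit 7109464660) (nat_lit 152) (nat_lit 17878868518) (nat_lit 76) (nat_lit 20939209005) (nat_lit 15) (nat_lit 5) (nat_lit 17) (nat_lit 5) (nat_lit 16) (nat_lit 4) (nat_lit 381) (nat_lit 253) (nat_lit 146)))))) (XT.nd (nat_lit 546) (nat_lit 152) (nat_lit 0) (XT.nd (nat_lit 234) (nat_lit 76) (nat_lit 0) (XT.nd (nat_lit 78) (nat_lit 76) (nat_lit 0) (XT.lf (nat_lit 0) (nat_lit 12409183910) (nat_lit 152) (nat_lit 7162012878) (nat_lit 76) (nat_lit 27550691007) (nat_lit 15) (nat_lit 5) (nat_lit 17) (nat_lit 5) (nat_lit 16) (nat_lit 4) (nat_lit 382) (nat_lit 253) (nat_lit 145)) (XT.nd (nat_lit 78) (nat_lit 0) (nat_lit 0) (XT.lf (nat_lit 0) (nat_lit 3927789183) (nat_lit 76) (nat_lit 13964234920) (nat_lit 152) (nat_lit 30459318947) (nat_lit 14) (nat_lit 5) (nat_lit 15) (nat_lit 5) (nat_lit 16) (nat_lit 4) (nat_lit 383) (nat_lit 253) (nat_lit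 144)) (XT.lf (nat_lit 0) (nat_lit 15472142091) (nat_lit 76) (nat_lit 8126059747) (nat_lit 152) (nat_lit 26017717618) (nat_lit 14) (nat_lit 5) (nat_lit 15) (nat_lit 5) (nat_lit 16) (nat_lit 4) (nat_lit 384) (nat_lit 253) (nat_lit 143)))) (XT.nd (nat_lit 156) (nat_lit 76) (nat_lit 0) (XT.nd (nat_lit 78) (nat_lit 0) (nat_lit 0) (XT.lf (nat_lit 0) (nat_lit 27338595045) (nat_lit 76) (nat_lit 2123892238) (nat_lit 152) (nat_lit 21456341173) (nat_lit 14) (nat_lit 5) (nat_lit 15) (nat_lit 5) (nat_lit 16) (nat_lit 4) (nat_lit 385) (nat_lit 253) (nat_lit 142)) (XT.lf (nat_lit 0) (nat_lit 35528911736) (nat_lit 152) (nat_lit 12762598890) (nat_lit 0) (nat_lit 3968530676) (nat_lit 14) (nat_lit 5) (nat_lit 16) (nat_lit 4) (nat_lit 14) (nat_lit 4) (nat_lit 386) (nat_lit 253) (nat_lit 141))) (XT.nd (nat_lit 78) (nat_lit 76) (nat_lit 0) (XT.lf (nat_lit 0) (nat_lit 41785929589) (nat_lit 152) (nat_lit 1664575134) (nat_lit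 0) (nat_lit 10190730592) (nat_lit 14) (nat_lit 5) (nat_lit 16) (nat_lit 4) (nat_lit 14) (nat_lit 4) (nat_lit 387) (nat_lit 253) (nat_lit 140)) (XT.lf (nat_lit 0) (nat_lit 9937875047) (nat_lit 76) (nat_lit 38376245876) (nat_lit 76) (nat_lit 6747243058) (nat_lit 13) (nat_lit 4) (nat_lit 14) (nat_lit 5) (nat_lit 14) (nat_lit 4) (nat_lit 388) (nat_lit 253) (nat_lit 139))))) (XT.nd (nat_lit 234) (nat_lit 76) (nat_lit 0) (XT.nd (nat_lit 78) (nat_lit 76) (nat_lit 0) (XT.lf (nat_lit 0) (nat_lit 21900302848) (nat_lit 76) (nat_lit 33142735970) (nat_lit 76) (nat_lit 1480913907) (nat_lit 13) (nat_lit 4) (nat_lit 14) (nat_lit 5) (nat_lit 14) (nat_lit 4) (nat_lit 389) (nat_lit 253) (nat_lit 138)) (XT.nd (nat_lit 78) (nat_lit 0) (nat_lit 0) (XT.lf (nat_lit 0) (nat_lit 3854757201) (nat_lit 152) (nat_lit 23868528288) (nat_lit 76) (nat_lit 30306349876) (nat_lit 12) (nat_lit 5) (nat_lit 14) (nat_lit 5) (nat_lit 13)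 (nat_lit 4) (nat_lit 390) (nat_lit 253) (nat_lit 137)) (XT.lf (nat_lit 0) (nat_lit 9309376375) (nat_lit 152) (nat_lit 12826586650) (nat_lit 76) (nat_lit 37444428717) (nat_lit 12) (nat_lit 5) (nat_lit 14) (nat_lit 5) (nat_lit 13) (nat_lit 4) (nat_lit 391) (nat_lit 253) (nat_lit 136)))) (XT.nd (nat_lit 156) (nat_lit 0) (nat_lit 0) (XT.nd (nat_lit 78) (nat_lit 76) (nat_lit 0) (XT.lf (nat_lit 0) (nat_lit 14916607751) (nat_lit 152) (nat_lit 1473941215) (nat_lit 76) (nat_lit 44787454983) (nat_lit 12) (nat_lit 5) (nat_lit 14) (nat_lit 5) (nat_lit 13) (nat_lit 4) (nat_lit 392) (nat_lit 253) (nat_lit 135)) (XT.lf (nat_lit 0) (nat_lit 10402314426) (nat_lit 76) (nat_lit 10379029835) (nat_lit 152) (nat_lit 42039523895) (nat_lit 11) (nat_lit 5) (nat_lit 12) (nat_lit 5) (nat_lit 13) (nat_lit 4) (nat_lit 393) (nat_lit 253) (nat_lit 134))) (XT.nd (nat_lit 78) (nat_lit 0) (nat_lit 0) (XT.lf (nat_lit 0) (nat_lit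 22645311953) (nat_lit 76) (nat_lit 4181011469) (nat_lit 152) (nat_lit 37686568064) (nat_lit 11) (nat_lit 5) (nat_lit 12) (nat_lit 5) (nat_lit 13) (nat_lit 4) (nat_lit 394) (nat_lit 253) (nat_lit 133)) (XT.lf (nat_lit 0) (nat_lit 33063467285) (nat_lit 152) (nat_lit 31040661541) (nat_lit 0) (nat_lit 2151224377) (nat_lit 11) (nat_lit 5) (nat_lit 13) (nat_lit 4) (nat_lit 11) (nat_lit 4) (nat_lit 395) (nat_lit 253) (nat_lit 132))))))) (XT.nd (nat_lit 1092) (nat_lit 76) (nat_lit 0) (XT.nd (nat_lit 546) (nat_lit 76) (nat_lit 0) (XT.nd (nat_lit 234) (nat_lit 76) (nat_lit 0) (XT.nd (nat_lit 78) (nat_lit 76) (nat_lit 0) (XT.lf (nat_lit 0) (nat_lit 39519062636) (nat_lit 152) (nat_lit 19949176195) (nat_lit 0) (nat_lit 8580911913) (nat_lit 11) (nat_lit 5) (nat_lit 13) (nat_lit 4) (nat_lit 11) (nat_lit 4) (nat_lit 396) (nat_lit 253) (nat_lit 131)) (XT.nd (nat_lit 78) (nat_lit 76) (nat_lit 0) (XT.lf (nat_lit 0)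 (nat_lit 46158559845) (nat_lit 152) (nat_lit 8543241466) (nat_lit 0) (nat_lit 15195255904) (nat_lit 11) (nat_lit 5) (nat_lit 13) (nat_lit 4) (nat_lit 11) (nat_lit 4) (nat_lit 397) (nat_lit 253) (nat_lit 130)) (XT.lf (nat_lit 0) (nat_lit 3250538714) (nat_lit 76) (nat_lit 49768467867) (nat_lit 76) (nat_lit 18780743325) (nat_lit 10) (nat_lit 4) (nat_lit 11) (nat_lit 5) (nat_lit 11) (nat_lit 4) (nat_lit 398) (nat_lit 253) (nat_lit 129)))) (XT.nd (nat_lit 156) (nat_lit 76) (nat_lit 0) (XT.nd (nat_lit 78) (nat_lit 0) (nat_lit 0) (XT.lf (nat_lit 0) (nat_lit 15555672207) (nat_lit 76) (nat_lit 44606490039) (nat_lit 76) (nat_lit 13595056177) (nat_lit 10) (nat_lit 4) (nat_lit 11) (nat_lit 5) (nat_lit 11) (nat_lit 4) (nat_lit 399) (nat_lit 253) (nat_lit 128)) (XT.lf (nat_lit 0) (nat_lit 28212883814) (nat_lit 76) (nat_lit 39297627349) (nat_lit 76) (nat_lit 8263174728) (nat_lit 10) (nat_lit 4) (nat_lit 11) (nat_lit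 5) (nat_lit 11) (nat_lit 4) (nat_lit 400) (nat_lit 253) (nat_lit 127))) (XT.nd (nat_lit 78) (nat_lit 76) (nat_lit 0) (XT.lf (nat_lit 0) (nat_lit 41233233234) (nat_lit 76) (nat_lit 33837240984) (nat_lit 76) (nat_lit 2780440055) (nat_lit 10) (nat_lit 4) (nat_lit 11) (nat_lit 5) (nat_lit 11) (nat_lit 4) (nat_lit 401) (nat_lit 253) (nat_lit 126)) (XT.lf (nat_lit 0) (nat_lit 2802169907) (nat_lit 152) (nat_lit 25390093404) (nat_lit 76) (nat_lit 51797631142) (nat_lit 9) (nat_lit 5) (nat_lit 11) (nat_lit 5) (nat_lit 10) (nat_lit 4) (nat_lit 402) (nat_lit 253) (nat_lit 125))))) (XT.nd (nat_lit 234) (nat_lit 0) (nat_lit 0) (XT.nd (nat_lit 78) (nat_lit 76) (nat_lit 0) (XT.lf (nat_lit 0) (nat_lit 8487960860) (nat_lit 152) (nat_lit 13869003194) (nat_lit 76) (nat_lit 59835508155) (nat_lit 9) (nat_lit 5) (nat_lit 11) (nat_lit 5) (nat_lit 10) (nat_lit 4) (nat_lit 403) (nat_lit 253) (nat_lit 124)) (XT.nd (nat_lit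 78) (nat_lit 76) (nat_lit 0) (XT.lf (nat_lit 0) (nat_lit 14336157369) (nat_lit 152) (nat_lit 2017616147) (nat_lit 76) (nat_lit 68107600423) (nat_lit 9) (nat_lit 5) (nat_lit 11) (nat_lit 5) (nat_lit 10) (nat_lit 4) (nat_lit 404) (nat_lit 253) (nat_lit 123)) (XT.lf (nat_lit 0) (nat_lit 10376914290) (nat_lit 76) (nat_lit 10074704469) (nat_lit 152) (nat_lit 66343970948) (nat_lit 8) (nat_lit 5) (nat_lit 9) (nat_lit 5) (nat_lit 10) (nat_lit 4) (nat_lit 405) (nat_lit 253) (nat_lit 122)))) (XT.nd (nat_lit 156) (nat_lit 0) (nat_lit 0) (XT.nd (nat_lit 78) (nat_lit 0) (nat_lit 0) (XT.lf (nat_lit 0) (nat_lit 23169896573) (nat_lit 76) (nat_lit 3593180378) (nat_lit 152) (nat_lit 62436380513) (nat_lit 8) (nat_lit 5) (nat_lit 9) (nat_lit 5) (nat_lit 10) (nat_lit 4) (nat_lit 406) (nat_lit 253) (nat_lit 121)) (XT.lf (nat_lit 0) (nat_lit 33285835505) (nat_lit 152) (nat_lit 55372885820) (nat_lit 0) (nat_lit 3016062694)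 (nat_lit 8) (nat_lit 5) (nat_lit 10) (nat_lit 4) (nat_lit 8) (nat_lit 4) (nat_lit 407) (nat_lit 253) (nat_lit 120))) (XT.nd (nat_lit 78) (nat_lit 0) (nat_lit 0) (XT.lf (nat_lit 0) (nat_lit 40032399419) (nat_lit 152) (nat_lit 44446144047) (nat_lit 0) (nat_lit 9744984646) (nat_lit 8) (nat_lit 5) (nat_lit 10) (nat_lit 4) (nat_lit 8) (nat_lit 4) (nat_lit 408) (nat_lit 253) (nat_lit 119)) (XT.lf (nat_lit 0) (nat_lit 46974123901) (nat_lit 152) (nat_lit 33205248087) (nat_lit 0) (nat_lit 16669581010) (nat_lit 8) (nat_lit 5) (nat_lit 10) (nat_lit 4) (nat_lit 8) (nat_lit 4) (nat_lit 409) (nat_lit 253) (nat_lit 118)))))) (XT.nd (nat_lit 30186) (nat_lit 0) (nat_lit 17176) (XT.nd (nat_lit 29874) (nat_lit 0) (nat_lit 21584) (XT.nd (nat_lit 78) (nat_lit 76) (nat_lit 0) (XT.lf (nat_lit 0) (nat_lit 54117074535) (nat_lit 152) (nat_lit 21640375797) (nat_lit 0) (nat_lit 23795902404) (nat_lit 8) (nat_lit 5) (nat_lit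 10) (nat_lit 4) (nat_lit 8) (nat_lit 4) (nat_lit 410) (nat_lit 253) (nat_lit 117)) (XT.nd (nat_lit 78) (nat_lit 76) (nat_lit 0) (XT.lf (nat_lit 0) (nat_lit 61467492735) (nat_lit 152) (nat_lit 9741421949) (nat_lit 0) (nat_lit 31130175711) (nat_lit 8) (nat_lit 5) (nat_lit 10) (nat_lit 4) (nat_lit 8) (nat_lit 4) (nat_lit 411) (nat_lit 253) (nat_lit 116)) (XT.lf (nat_lit 0) (nat_lit 2551805518) (nat_lit 76) (nat_lit 66504525195) (nat_lit 76) (nat_lit 36151533516) (nat_lit 7) (nat_lit 4) (nat_lit 8) (nat_lit 5) (nat_lit 8) (nat_lit 4) (nat_lit 412) (nat_lit 253) (nat_lit 115)))) (XT.nd (nat_lit 156) (nat_lit 1216) (nat_lit 0) (XT.nd (nat_lit 78) (nat_lit 0) (nat_lit 0) (XT.lf (nat_lit 0) (nat_lit 566299277) (nat_lit 532) (nat_lit 2168377592) (nat_lit 0) (nat_lit 566299277) (nat_lit 307) (nat_lit 5) (nat_lit 314) (nat_lit 4) (nat_lit 307) (nat_lit 4) (nat_lit 272) (nat_lit 254) (nat_lit 254)) (XT.lf (nat_lit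 0) (nat_lit 4204221731) (nat_lit 532) (nat_lit 470158034) (nat_lit 0) (nat_lit 1955934904) (nat_lit 307) (nat_lit 5) (nat_lit 314) (nat_lit 4) (nat_lit 307) (nat_lit 4) (nat_lit 273) (nat_lit 254) (nat_lit 253))) (XT.nd (nat_lit 78) (nat_lit 608) (nat_lit 0) (XT.lf (nat_lit 0) (nat_lit 624016925) (nat_lit 608) (nat_lit 3164335214) (nat_lit 76) (nat_lit 2873260804) (nat_lit 299) (nat_lit 5) (nat_lit 307) (nat_lit 5) (nat_lit 300) (nat_lit 4) (nat_lit 274) (nat_lit 254) (nat_lit 252)) (XT.lf (nat_lit 0) (nat_lit 812788803) (nat_lit 608) (nat_lit 2814356192) (nat_lit 684) (nat_lit 3068841883) (nat_lit 291) (nat_lit 5) (nat_lit 299) (nat_lit 5) (nat_lit 300) (nat_lit 4) (nat_lit 275) (nat_lit 254) (nat_lit 251))))) (XT.nd (nat_lit 312) (nat_lit 2812) (nat_lit 0) (XT.nd (nat_lit 156) (nat_lit 836) (nat_lit 0) (XT.nd (nat_lit 78) (nat_lit 760) (nat_lit 0) (XT.lf (nat_lit 0) (nat_lit 4896193074) (nat_lit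 608) (nat_lit 1756028378) (nat_lit 684) (nat_lit 81375761) (nat_lit 291) (nat_lit 5) (nat_lit 299) (nat_lit 5) (nat_lit 300) (nat_lit 4) (nat_lit 276) (nat_lit 254) (nat_lit 250)) (XT.lf (nat_lit 0) (nat_lit 2267475331) (nat_lit 684) (nat_lit 593279363) (nat_lit 760) (nat_lit 3913163929) (nat_lit 281) (nat_lit 5) (nat_lit 290) (nat_lit 5) (nat_lit 291) (nat_lit 5) (nat_lit 277) (nat_lit 254) (nat_lit 249))) (XT.nd (nat_lit 78) (nat_lit 836) (nat_lit 0) (XT.lf (nat_lit 0) (nat_lit 5818069636) (nat_lit 760) (nat_lit 368718802) (nat_lit 76) (nat_lit 630927554) (nat_lit 281) (nat_lit 5) (nat_lit 291) (nat_lit 5) (nat_lit 282) (nat_lit 4) (nat_lit 278) (nat_lit 254) (nat_lit 248)) (XT.lf (nat_lit 0) (nat_lit 1911615620) (nat_lit 836) (nat_lit 2997990099) (nat_lit 76) (nat_lit 1954301433) (nat_lit 270) (nat_lit 5) (nat_lit 281) (nat_lit 5) (nat_lit 271) (nat_lit 5) (nat_lit 279) (nat_lit 254) (nat_lit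 247)))) (XT.nd (nat_lit 156) (nat_lit 1900) (nat_lit 0) (XT.nd (nat_lit 78) (nat_lit 76) (nat_lit 0) (XT.lf (nat_lit 0) (nat_lit 1259353229) (nat_lit 836) (nat_lit 3554375061) (nat_lit 912) (nat_lit 2099885373) (nat_lit 259) (nat_lit 5) (nat_lit 270) (nat_lit 5) (nat_lit 271) (nat_lit 5) (nat_lit 280) (nat_lit 254) (nat_lit 246)) (XT.lf (nat_lit 0) (nat_lit 760963300) (nat_lit 912) (nat_lit 1346621221) (nat_lit 76) (nat_lit 4858935378) (nat_lit 258) (nat_lit 5) (nat_lit 270) (nat_lit 5) (nat_lit 259) (nat_lit 5) (nat_lit 281) (nat_lit 254) (nat_lit 245))) (XT.nd (nat_lit 78) (nat_lit 988) (nat_lit 0) (XT.lf (nat_lit 0) (nat_lit 3051096258) (nat_lit 912) (nat_lit 554976191) (nat_lit 988) (nat_lit 3416221180) (nat_lit 246) (nat_lit 5) (nat_lit 258) (nat_lit 5) (nat_lit 259) (nat_lit 5) (nat_lit 282) (nat_lit 254) (nat_lit 244)) (XT.lf (nat_lit 0) (nat_lit 447627078) (nat_lit 988) (nat_lit 6030227808)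 (nat_lit 1064) (nat_lit 603765749) (nat_lit 233) (nat_lit 5) (nat_lit 246) (nat_lit 5) (nat_lit 247) (nat_lit 5) (nat_lit 283) (nat_lit 254) (nat_lit 243))))))))
noncomputable def xc87 : XT := (XT.nd (nat_lit 2184) (nat_lit 4256) (nat_lit 0) (XT.nd (nat_lit 1092) (nat_lit 3496) (nat_lit 0) (XT.nd (nat_lit 546) (nat_lit 2736) (nat_lit 0) (XT.nd (nat_lit 234) (nat_lit 2584) (nat_lit 0) (XT.nd (nat_lit 78) (nat_lit 1140) (nat_lit 0) (XT.lf (nat_lit 0) (nat_lit 2208367674) (nat_lit 1064) (nat_lit 2170028628) (nat_lit 76) (nat_lit 2764981168) (nat_lit 232) (nat_lit 5) (nat_lit 246) (nat_lit 5) (nat_lit 233) (nat_lit 5) (nat_lit 284) (nat_lit 254) (nat_lit 242)) (XT.nd (nat_lit 78) (nat_lit 76) (nat_lit 0) (XT.lf (nat_lit 0) (nat_lit 2389879572) (nat_lit 1064) (nat_lit 2642383704) (nat_lit 1140) (nat_lit 2176467910) (nat_lit 218) (nat_lit 5) (nat_lit 232) (nat_lit 5) (nat_lit 233) (nat_lit 5) (nat_lit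 285) (nat_lit 254) (nat_lit 241)) (XT.lf (nat_lit 0) (nat_lit 591315374) (nat_lit 1140) (nat_lit 230537957) (nat_lit 76) (nat_lit 6455919932) (nat_lit 217) (nat_lit 5) (nat_lit 232) (nat_lit 5) (nat_lit 218) (nat_lit 5) (nat_lit 286) (nat_lit 254) (nat_lit 240)))) (XT.nd (nat_lit 156) (nat_lit 684) (nat_lit 0) (XT.nd (nat_lit 78) (nat_lit 760) (nat_lit 0) (XT.lf (nat_lit 0) (nat_lit 3372020955) (nat_lit 1216) (nat_lit 2876164010) (nat_lit 76) (nat_lit 1100946370) (nat_lit 202) (nat_lit 5) (nat_lit 218) (nat_lit 5) (nat_lit 203) (nat_lit 5) (nat_lit 287) (nat_lit 254) (nat_lit 239)) (XT.lf (nat_lit 0) (nat_lit 1848645094) (nat_lit 760) (nat_lit 4337119935) (nat_lit 836) (nat_lit 1238473897) (nat_lit 192) (nat_lit 5) (nat_lit 202) (nat_lit 5) (nat_lit 203) (nat_lit 5) (nat_lit 288) (nat_lit 254) (nat_lit 238))) (XT.nd (nat_lit 78) (nat_lit 608) (nat_lit 0) (XT.lf (nat_lit 0) (nat_lit 1502817332) (nat_lit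 836) (nat_lit 821949526) (nat_lit 76) (nat_lit 5177927121) (nat_lit 191) (nat_lit 5) (nat_lit 202) (nat_lit 5) (nat_lit 192) (nat_lit 5) (nat_lit 289) (nat_lit 254) (nat_lit 237)) (XT.lf (nat_lit 0) (nat_lit 4063787434) (nat_lit 608) (nat_lit 201043289) (nat_lit 684) (nat_lit 3319491873) (nat_lit 183) (nat_lit 5) (nat_lit 191) (nat_lit 5) (nat_lit 192) (nat_lit 5) (nat_lit 290) (nat_lit 254) (nat_lit 236))))) (XT.nd (nat_lit 234) (nat_lit 1596) (nat_lit 0) (XT.nd (nat_lit 78) (nat_lit 608) (nat_lit 0) (XT.lf (nat_lit 0) (nat_lit 1373334972) (nat_lit 532) (nat_lit 5702801068) (nat_lit 608) (nat_lit 593357534) (nat_lit 176) (nat_lit 5) (nat_lit 183) (nat_lit 5) (nat_lit 184) (nat_lit 5) (nat_lit 291) (nat_lit 254) (nat_lit 235)) (XT.nd (nat_lit 78) (nat_lit 532) (nat_lit 0) (XT.lf (nat_lit 0) (nat_lit 2135599648) (nat_lit 608) (nat_lit 1373448159) (nat_lit 76) (nat_lit 4248687144) (nat_lit 175) (nat_lit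 5) (nat_lit 183) (nat_lit 5) (nat_lit 176) (nat_lit 5) (nat_lit 292) (nat_lit 254) (nat_lit 234)) (XT.lf (nat_lit 0) (nat_lit 3685457658) (nat_lit 532) (nat_lit 1212973578) (nat_lit 608) (nat_lit 2951177252) (nat_lit 168) (nat_lit 5) (nat_lit 175) (nat_lit 5) (nat_lit 176) (nat_lit 5) (nat_lit 293) (nat_lit 254) (nat_lit 233)))) (XT.nd (nat_lit 156) (nat_lit 988) (nat_lit 0) (XT.nd (nat_lit 78) (nat_lit 76) (nat_lit 0) (XT.lf (nat_lit 0) (nat_lit 908086671) (nat_lit 532) (nat_lit 6799655763) (nat_lit 608) (nat_lit 237664766) (nat_lit 161) (nat_lit 5) (nat_lit 168) (nat_lit 5) (nat_lit 169) (nat_lit 5) (nat_lit 294) (nat_lit 254) (nat_lit 232)) (XT.lf (nat_lit 0) (nat_lit 2492151895) (nat_lit 608) (nat_lit 1941544946) (nat_lit 76) (nat_lit 3610173975) (nat_lit 160) (nat_lit 5) (nat_lit 168) (nat_lit 5) (nat_lit 161) (nat_lit 5) (nat_lit 295) (nat_lit 254) (nat_lit 231))) (XT.nd (nat_lit 78) (nat_lit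 456) (nat_lit 0) (XT.lf (nat_lit 0) (nat_lit 3291730901) (nat_lit 532) (nat_lit 1971351138) (nat_lit 608) (nat_lit 2883286124) (nat_lit 153) (nat_lit 5) (nat_lit 160) (nat_lit 5) (nat_lit 161) (nat_lit 5) (nat_lit 296) (nat_lit 254) (nat_lit 230)) (XT.lf (nat_lit 0) (nat_lit 394058416) (nat_lit 456) (nat_lit 7685591035) (nat_lit 532) (nat_lit 173483941) (nat_lit 147) (nat_lit 5) (nat_lit 153) (nat_lit 5) (nat_lit 154) (nat_lit 5) (nat_lit 297) (nat_lit 254) (nat_lit 229)))))) (XT.nd (nat_lit 546) (nat_lit 1596) (nat_lit 0) (XT.nd (nat_lit 234) (nat_lit 1368) (nat_lit 0) (XT.nd (nat_lit 78) (nat_lit 456) (nat_lit 0) (XT.lf (nat_lit 0) (nat_lit 2569529621) (nat_lit 532) (nat_lit 2586135333) (nat_lit 76) (nat_lit 3206656197) (nat_lit 146) (nat_lit 5) (nat_lit 153) (nat_lit 5) (nat_lit 147) (nat_lit 5) (nat_lit 298) (nat_lit 254) (nat_lit 228)) (XT.nd (nat_lit 78) (nat_lit 0) (nat_lit 0) (XT.lf (nat_lit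 0) (nat_lit 2821567860) (nat_lit 456) (nat_lit 2532795049) (nat_lit 532) (nat_lit 3121542070) (nat_lit 140) (nat_lit 5) (nat_lit 146) (nat_lit 5) (nat_lit 147) (nat_lit 5) (nat_lit 299) (nat_lit 254) (nat_lit 227)) (XT.lf (nat_lit 0) (nat_lit 8187641538) (nat_lit 532) (nat_lit 227315956) (nat_lit 76) (nat_lit 179052450) (nat_lit 140) (nat_lit 5) (nat_lit 147) (nat_lit 5) (nat_lit 141) (nat_lit 5) (nat_lit 300) (nat_lit 254) (nat_lit 226)))) (XT.nd (nat_lit 156) (nat_lit 456) (nat_lit 0) (XT.nd (nat_lit 78) (nat_lit 456) (nat_lit 0) (XT.lf (nat_lit 0) (nat_lit 2359119193) (nat_lit 456) (nat_lit 3371793754) (nat_lit 76) (nat_lit 2983647927) (nat_lit 134) (nat_lit 5) (nat_lit 140) (nat_lit 5) (nat_lit 135) (nat_lit 5) (nat_lit 301) (nat_lit 254) (nat_lit 225)) (XT.lf (nat_lit 0) (nat_lit 2208914595) (nat_lit 456) (nat_lit 2953196103) (nat_lit 532) (nat_lit 3677671212) (nat_lit 128) (nat_lit 5) (nat_lit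 134) (nat_lit 5) (nat_lit 135) (nat_lit 5) (nat_lit 302) (nat_lit 254) (nat_lit 224))) (XT.nd (nat_lit 78) (nat_lit 456) (nat_lit 0) (XT.lf (nat_lit 0) (nat_lit 7950812616) (nat_lit 456) (nat_lit 72630970) (nat_lit 532) (nat_lit 946142312) (nat_lit 128) (nat_lit 5) (nat_lit 134) (nat_lit 5) (nat_lit 135) (nat_lit 5) (nat_lit 303) (nat_lit 254) (nat_lit 223)) (XT.lf (nat_lit 0) (nat_lit 1846293205) (nat_lit 456) (nat_lit 4369196778) (nat_lit 76) (nat_lit 2886844330) (nat_lit 122) (nat_lit 5) (nat_lit 128) (nat_lit 5) (nat_lit 123) (nat_lit 5) (nat_lit 304) (nat_lit 254) (nat_lit 222))))) (XT.nd (nat_lit 234) (nat_lit 760) (nat_lit 0) (XT.nd (nat_lit 78) (nat_lit 456) (nat_lit 0) (XT.lf (nat_lit 0) (nat_lit 1381225832) (nat_lit 380) (nat_lit 3288811693) (nat_lit 456) (nat_lit 4569799357) (nat_lit 117) (nat_lit 5) (nat_lit 122) (nat_lit 5) (nat_lit 123) (nat_lit 5) (nat_lit 305) (nat_lit 254) (nat_lit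 221)) (XT.nd (nat_lit 78) (nat_lit 456) (nat_lit 0) (XT.lf (nat_lit 0) (nat_lit 7319192206) (nat_lit 380) (nat_lit 246556785) (nat_lit 456) (nat_lit 1816145755) (nat_lit 117) (nat_lit 5) (nat_lit 122) (nat_lit 5) (nat_lit 123) (nat_lit 5) (nat_lit 306) (nat_lit 254) (nat_lit 220)) (XT.lf (nat_lit 0) (nat_lit 1009946942) (nat_lit 456) (nat_lit 5656704360) (nat_lit 76) (nat_lit 2861021913) (nat_lit 111) (nat_lit 5) (nat_lit 117) (nat_lit 5) (nat_lit 112) (nat_lit 5) (nat_lit 307) (nat_lit 254) (nat_lit 219)))) (XT.nd (nat_lit 156) (nat_lit 380) (nat_lit 0) (XT.nd (nat_lit 78) (nat_lit 0) (nat_lit 0) (XT.lf (nat_lit 0) (nat_lit 257820578) (nat_lit 380) (nat_lit 3597405904) (nat_lit 456) (nat_lit 5822975705) (nat_lit 106) (nat_lit 5) (nat_lit 111) (nat_lit 5) (nat_lit 112) (nat_lit 5) (nat_lit 308) (nat_lit 254) (nat_lit 218)) (XT.lf (nat_lit 0) (nat_lit 6392151722) (nat_lit 380) (nat_lit 396682122)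 (nat_lit 456) (nat_lit 3044366628) (nat_lit 106) (nat_lit 5) (nat_lit 111) (nat_lit 5) (nat_lit 112) (nat_lit 5) (nat_lit 309) (nat_lit 254) (nat_lit 217))) (XT.nd (nat_lit 78) (nat_lit 76) (nat_lit 0) (XT.lf (nat_lit 0) (nat_lit 2668988177) (nat_lit 304) (nat_lit 7142238069) (nat_lit 380) (nat_lit 181640443) (nat_lit 102) (nat_lit 5) (nat_lit 106) (nat_lit 5) (nat_lit 107) (nat_lit 5) (nat_lit 310) (nat_lit 254) (nat_lit 216)) (XT.lf (nat_lit 0) (nat_lit 2699526733) (nat_lit 380) (nat_lit 1227534390) (nat_lit 76) (nat_lit 6229906174) (nat_lit 101) (nat_lit 5) (nat_lit 106) (nat_lit 5) (nat_lit 102) (nat_lit 5) (nat_lit 311) (nat_lit 254) (nat_lit 215))))))) (XT.nd (nat_lit 1092) (nat_lit 1672) (nat_lit 0) (XT.nd (nat_lit 546) (nat_lit 988) (nat_lit 0) (XT.nd (nat_lit 234) (nat_lit 912) (nat_lit 0) (XT.nd (nat_lit 78) (nat_lit 380) (nat_lit 0) (XT.lf (nat_lit 0) (nat_lit 5077873804) (nat_lit 304)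 (nat_lit 583477394) (nat_lit 380) (nat_lit 4664687363) (nat_lit 97) (nat_lit 5) (nat_lit 101) (nat_lit 5) (nat_lit 102) (nat_lit 5) (nat_lit 312) (nat_lit 254) (nat_lit 214)) (XT.nd (nat_lit 78) (nat_lit 76) (nat_lit 0) (XT.lf (nat_lit 0) (nat_lit 1018285173) (nat_lit 304) (nat_lit 7693221250) (nat_lit 380) (nat_lit 1788727946) (nat_lit 93) (nat_lit 5) (nat_lit 97) (nat_lit 5) (nat_lit 98) (nat_lit 5) (nat_lit 313) (nat_lit 254) (nat_lit 213)) (XT.lf (nat_lit 0) (nat_lit 1159839209) (nat_lit 380) (nat_lit 3187428901) (nat_lit 76) (nat_lit 6331807252) (nat_lit 92) (nat_lit 5) (nat_lit 97) (nat_lit 5) (nat_lit 93) (nat_lit 5) (nat_lit 314) (nat_lit 254) (nat_lit 212)))) (XT.nd (nat_lit 156) (nat_lit 608) (nat_lit 0) (XT.nd (nat_lit 78) (nat_lit 0) (nat_lit 0) (XT.lf (nat_lit 0) (nat_lit 3272075191) (nat_lit 304) (nat_lit 871678527) (nat_lit 380) (nat_lit 6719544873) (nat_lit 88) (nat_lit 5) (nat_lit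 92) (nat_lit 5) (nat_lit 93) (nat_lit 5) (nat_lit 315) (nat_lit 254) (nat_lit 211)) (XT.lf (nat_lit 0) (nat_lit 7227656130) (nat_lit 380) (nat_lit 1158298414) (nat_lit 76) (nat_lit 2666812452) (nat_lit 88) (nat_lit 5) (nat_lit 93) (nat_lit 5) (nat_lit 89) (nat_lit 5) (nat_lit 316) (nat_lit 254) (nat_lit 210))) (XT.nd (nat_lit 78) (nat_lit 380) (nat_lit 0) (XT.lf (nat_lit 0) (nat_lit 5497752442) (nat_lit 228) (nat_lit 4921133774) (nat_lit 304) (nat_lit 828620563) (nat_lit 85) (nat_lit 5) (nat_lit 88) (nat_lit 5) (nat_lit 89) (nat_lit 5) (nat_lit 317) (nat_lit 254) (nat_lit 209)) (XT.lf (nat_lit 0) (nat_lit 855572578) (nat_lit 304) (nat_lit 1331725701) (nat_lit 380) (nat_lit 9260961485) (nat_lit 80) (nat_lit 5) (nat_lit 84) (nat_lit 5) (nat_lit 85) (nat_lit 5) (nat_lit 318) (nat_lit 254) (nat_lit 208))))) (XT.nd (nat_lit 234) (nat_lit 760) (nat_lit 0) (XT.nd (nat_lit 78) (nat_lit 228) (nat_lit 0)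 (XT.lf (nat_lit 0) (nat_lit 5312450898) (nat_lit 380) (nat_lit 3977192953) (nat_lit 76) (nat_lit 2364112002) (nat_lit 80) (nat_lit 5) (nat_lit 85) (nat_lit 5) (nat_lit 81) (nat_lit 5) (nat_lit 319) (nat_lit 254) (nat_lit 207)) (XT.nd (nat_lit 78) (nat_lit 0) (nat_lit 0) (XT.lf (nat_lit 0) (nat_lit 2811148253) (nat_lit 228) (nat_lit 5715793666) (nat_lit 304) (nat_lit 3338635506) (nat_lit 77) (nat_lit 5) (nat_lit 80) (nat_lit 5) (nat_lit 81) (nat_lit 5) (nat_lit 320) (nat_lit 254) (nat_lit 206)) (XT.lf (nat_lit 0) (nat_lit 9818039861) (nat_lit 228) (nat_lit 2016024862) (nat_lit 304) (nat_lit 249830306) (nat_lit 77) (nat_lit 5) (nat_lit 80) (nat_lit 5) (nat_lit 81) (nat_lit 5) (nat_lit 321) (nat_lit 254) (nat_lit 205)))) (XT.nd (nat_lit 156) (nat_lit 456) (nat_lit 0) (XT.nd (nat_lit 78) (nat_lit 0) (nat_lit 0) (XT.lf (nat_lit 0) (nat_lit 2894482329) (nat_lit 304) (nat_lit 7600817311) (nat_lit 76) (nat_lit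 1812041326) (nat_lit 73) (nat_lit 5) (nat_lit 77) (nat_lit 5) (nat_lit 74) (nat_lit 5) (nat_lit 322) (nat_lit 254) (nat_lit 204)) (XT.lf (nat_lit 0) (nat_lit 6128454573) (nat_lit 304) (nat_lit 690956418) (nat_lit 76) (nat_lit 5718019516) (nat_lit 73) (nat_lit 5) (nat_lit 77) (nat_lit 5) (nat_lit 74) (nat_lit 5) (nat_lit 323) (nat_lit 254) (nat_lit 203))) (XT.nd (nat_lit 78) (nat_lit 228) (nat_lit 0) (XT.lf (nat_lit 0) (nat_lit 6488728017) (nat_lit 228) (nat_lit 2991619448) (nat_lit 304) (nat_lit 3293472477) (nat_lit 70) (nat_lit 5) (nat_lit 73) (nat_lit 5) (nat_lit 74) (nat_lit 5) (nat_lit 324) (nat_lit 254) (nat_lit 202)) (XT.lf (nat_lit 0) (nat_lit 823233652) (nat_lit 228) (nat_lit 12092573568) (nat_lit 304) (nat_lit 102027084) (nat_lit 67) (nat_lit 5) (nat_lit 70) (nat_lit 5) (nat_lit 71) (nat_lit 5) (nat_lit 325) (nat_lit 254) (nat_lit 201)))))) (XT.nd (nat_lit 546) (nat_lit 912) (nat_lit 0)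 (XT.nd (nat_lit 234) (nat_lit 456) (nat_lit 0) (XT.nd (nat_lit 78) (nat_lit 228) (nat_lit 0) (XT.lf (nat_lit 0) (nat_lit 3175791254) (nat_lit 304) (nat_lit 5119183525) (nat_lit 76) (nat_lit 4971714474) (nat_lit 66) (nat_lit 5) (nat_lit 70) (nat_lit 5) (nat_lit 67) (nat_lit 5) (nat_lit 326) (nat_lit 254) (nat_lit 200)) (XT.nd (nat_lit 78) (nat_lit 0) (nat_lit 0) (XT.lf (nat_lit 0) (nat_lit 2146557920) (nat_lit 228) (nat_lit 4384229874) (nat_lit 304) (nat_lit 6992786471) (nat_lit 63) (nat_lit 5) (nat_lit 66) (nat_lit 5) (nat_lit 67) (nat_lit 5) (nat_lit 327) (nat_lit 254) (nat_lit 199)) (XT.lf (nat_lit 0) (nat_lit 9673010583) (nat_lit 228) (nat_lit 325937201) (nat_lit 304) (nat_lit 3788863557) (nat_lit 63) (nat_lit 5) (nat_lit 66) (nat_lit 5) (nat_lit 67) (nat_lit 5) (nat_lit 328) (nat_lit 254) (nat_lit 198)))) (XT.nd (nat_lit 156) (nat_lit 152) (nat_lit 0) (XT.nd (nat_lit 78) (nat_lit 76) (nat_lit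 0) (XT.lf (nat_lit 0) (nat_lit 3331916691) (nat_lit 228) (nat_lit 10270058489) (nat_lit 304) (nat_lit 457095981) (nat_lit 60) (nat_lit 5) (nat_lit 63) (nat_lit 5) (nat_lit 64) (nat_lit 5) (nat_lit 329) (nat_lit 254) (nat_lit 197)) (XT.lf (nat_lit 0) (nat_lit 2923652631) (nat_lit 304) (nat_lit 3344580311) (nat_lit 76) (nat_lit 8069184953) (nat_lit 59) (nat_lit 5) (nat_lit 63) (nat_lit 5) (nat_lit 60) (nat_lit 5) (nat_lit 330) (nat_lit 254) (nat_lit 196))) (XT.nd (nat_lit 78) (nat_lit 0) (nat_lit 0) (XT.lf (nat_lit 0) (nat_lit 4278719463) (nat_lit 152) (nat_lit 2122040645) (nat_lit 228) (nat_lit 8223114032) (nat_lit 57) (nat_lit 5) (nat_lit 59) (nat_lit 5) (nat_lit 60) (nat_lit 5) (nat_lit 331) (nat_lit 254) (nat_lit 195)) (XT.lf (nat_lit 0) (nat_lit 10000227693) (nat_lit 228) (nat_lit 2799648461) (nat_lit 76) (nat_lit 2118524557) (nat_lit 57) (nat_lit 5) (nat_lit 60) (nat_lit 5) (nat_lit 58) (nat_lit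 5) (nat_lit 332) (nat_lit 254) (nat_lit 194))))) (XT.nd (nat_lit 312) (nat_lit 456) (nat_lit 0) (XT.nd (nat_lit 156) (nat_lit 152) (nat_lit 0) (XT.nd (nat_lit 78) (nat_lit 76) (nat_lit 0) (XT.lf (nat_lit 0) (nat_lit 4990310997) (nat_lit 228) (nat_lit 8750703612) (nat_lit 304) (nat_lit 1479765933) (nat_lit 54) (nat_lit 5) (nat_lit 57) (nat_lit 5) (nat_lit 58) (nat_lit 5) (nat_lit 333) (nat_lit 254) (nat_lit 193)) (XT.lf (nat_lit 0) (nat_lit 2014584952) (nat_lit 304) (nat_lit 2538556240) (nat_lit 76) (nat_lit 10978721775) (nat_lit 53) (nat_lit 5) (nat_lit 57) (nat_lit 5) (nat_lit 54) (nat_lit 5) (nat_lit 334) (nat_lit 254) (nat_lit 192))) (XT.nd (nat_lit 78) (nat_lit 0) (nat_lit 0) (XT.lf (nat_lit 0) (nat_lit 5418466273) (nat_lit 152) (nat_lit 183152352) (nat_lit 228) (nat_lit 10249707917) (nat_lit 51) (nat_lit 5) (nat_lit 53) (nat_lit 5) (nat_lit 54) (nat_lit 5) (nat_lit 335) (nat_lit 254) (nat_lit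 191)) (XT.lf (nat_lit 0) (nat_lit 9329418403) (nat_lit 228) (nat_lit 2612126192) (nat_lit 76) (nat_lit 4237850344) (nat_lit 51) (nat_lit 5) (nat_lit 54) (nat_lit 5) (nat_lit 52) (nat_lit 5) (nat_lit 336) (nat_lit 254) (nat_lit 190)))) (XT.nd (nat_lit 156) (nat_lit 152) (nat_lit 0) (XT.nd (nat_lit 78) (nat_lit 76) (nat_lit 0) (XT.lf (nat_lit 0) (nat_lit 5493272054) (nat_lit 228) (nat_lit 7697155677) (nat_lit 304) (nat_lit 3326251501) (nat_lit 48) (nat_lit 5) (nat_lit 51) (nat_lit 5) (nat_lit 52) (nat_lit 5) (nat_lit 337) (nat_lit 254) (nat_lit 189)) (XT.lf (nat_lit 0) (nat_lit 290767392) (nat_lit 304) (nat_lit 3026557284) (nat_lit 76) (nat_lit 13546879244) (nat_lit 47) (nat_lit 5) (nat_lit 51) (nat_lit 5) (nat_lit 48) (nat_lit 5) (nat_lit 338) (nat_lit 254) (nat_lit 188))) (XT.nd (nat_lit 78) (nat_lit 0) (nat_lit 0) (XT.lf (nat_lit 0) (nat_lit 3979588604) (nat_lit 228) (nat_lit 12007352852) (nat_lit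 76) (nat_lit 1233334343) (nat_lit 45) (nat_lit 5) (nat_lit 48) (nat_lit 5) (nat_lit 46) (nat_lit 5) (nat_lit 339) (nat_lit 254) (nat_lit 187)) (XT.lf (nat_lit 0) (nat_lit 7810826361) (nat_lit 228) (nat_lit 3911715535) (nat_lit 76) (nat_lit 5863548810) (nat_lit 45) (nat_lit 5) (nat_lit 48) (nat_lit 5) (nat_lit 46) (nat_lit 5) (nat_lit 340) (nat_lit 254) (nat_lit 186))))))))
noncomputable def xc88 : XT := (XT.nd (nat_lit 2184) (nat_lit 760) (nat_lit 0) (XT.nd (nat_lit 1092) (nat_lit 760) (nat_lit 0) (XT.nd (nat_lit 546) (nat_lit 532) (nat_lit 0) (XT.nd (nat_lit 234) (nat_lit 152) (nat_lit 0) (XT.nd (nat_lit 78) (nat_lit 228) (nat_lit 0) (XT.lf (nat_lit 0) (nat_lit 4461338741) (nat_lit 152) (nat_lit 7307520652) (nat_lit 228) (nat_lit 6193677958) (nat_lit 43) (nat_lit 5) (nat_lit 45) (nat_lit 5) (nat_lit 46) (nat_lit 5) (nat_lit 341) (nat_lit 254) (nat_lit 185)) (XT.nd (nat_lit 78) (nat_lit 228) (nat_lit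 0) (XT.lf (nat_lit 0) (nat_lit 13113776824) (nat_lit 152) (nat_lit 2740734175) (nat_lit 228) (nat_lit 2495512727) (nat_lit 43) (nat_lit 5) (nat_lit 45) (nat_lit 5) (nat_lit 46) (nat_lit 5) (nat_lit 342) (nat_lit 254) (nat_lit 184)) (XT.lf (nat_lit 0) (nat_lit 1308530892) (nat_lit 228) (nat_lit 15490948086) (nat_lit 76) (nat_lit 1948671840) (nat_lit 40) (nat_lit 5) (nat_lit 43) (nat_lit 5) (nat_lit 41) (nat_lit 5) (nat_lit 343) (nat_lit 254) (nat_lit 183)))) (XT.nd (nat_lit 156) (nat_lit 0) (nat_lit 0) (XT.nd (nat_lit 78) (nat_lit 152) (nat_lit 0) (XT.lf (nat_lit 0) (nat_lit 5227223566) (nat_lit 228) (nat_lit 7147497602) (nat_lit 76) (nat_lit 6781250341) (nat_lit 40) (nat_lit 5) (nat_lit 43) (nat_lit 5) (nat_lit 41) (nat_lit 5) (nat_lit 344) (nat_lit 254) (nat_lit 182)) (XT.lf (nat_lit 0) (nat_lit 1424254172) (nat_lit 152) (nat_lit 7823932826) (nat_lit 228) (nat_lit 10328309772) (nat_lit 38) (nat_lit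 5) (nat_lit 40) (nat_lit 5) (nat_lit 41) (nat_lit 5) (nat_lit 345) (nat_lit 254) (nat_lit 181))) (XT.nd (nat_lit 78) (nat_lit 0) (nat_lit 0) (XT.lf (nat_lit 0) (nat_lit 10350368823) (nat_lit 152) (nat_lit 3082975533) (nat_lit 228) (nat_lit 6574997398) (nat_lit 38) (nat_lit 5) (nat_lit 40) (nat_lit 5) (nat_lit 41) (nat_lit 5) (nat_lit 346) (nat_lit 254) (nat_lit 180)) (XT.lf (nat_lit 0) (nat_lit 17733390651) (nat_lit 228) (nat_lit 974700938) (nat_lit 76) (nat_lit 1745381075) (nat_lit 38) (nat_lit 5) (nat_lit 41) (nat_lit 5) (nat_lit 39) (nat_lit 4) (nat_lit 347) (nat_lit 254) (nat_lit 179))))) (XT.nd (nat_lit 234) (nat_lit 152) (nat_lit 0) (XT.nd (nat_lit 78) (nat_lit 152) (nat_lit 0) (XT.lf (nat_lit 0) (nat_lit 1307604424) (nat_lit 228) (nat_lit 12873873402) (nat_lit 76) (nat_lit 6727683304) (nat_lit 35) (nat_lit 5) (nat_lit 38) (nat_lit 5) (nat_lit 36) (nat_lit 5) (nat_lit 348) (nat_lit 254) (nat_lit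 178)) (XT.nd (nat_lit 78) (nat_lit 152) (nat_lit 0) (XT.lf (nat_lit 0) (nat_lit 5384301965) (nat_lit 228) (nat_lit 4116892240) (nat_lit 76) (nat_lit 11877042257) (nat_lit 35) (nat_lit 5) (nat_lit 38) (nat_lit 5) (nat_lit 36) (nat_lit 5) (nat_lit 349) (nat_lit 254) (nat_lit 177)) (XT.lf (nat_lit 0) (nat_lit 4953641571) (nat_lit 152) (nat_lit 4650976728) (nat_lit 228) (nat_lit 12256135637) (nat_lit 33) (nat_lit 5) (nat_lit 35) (nat_lit 5) (nat_lit 36) (nat_lit 5) (nat_lit 350) (nat_lit 254) (nat_lit 176)))) (XT.nd (nat_lit 156) (nat_lit 76) (nat_lit 0) (XT.nd (nat_lit 78) (nat_lit 76) (nat_lit 0) (XT.lf (nat_lit 0) (nat_lit 13970686005) (nat_lit 228) (nat_lit 8025514331) (nat_lit 76) (nat_lit 360981487) (nat_lit 33) (nat_lit 5) (nat_lit 36) (nat_lit 5) (nat_lit 34) (nat_lit 4) (nat_lit 351) (nat_lit 254) (nat_lit 175)) (XT.lf (nat_lit 0) (nat_lit 1052384498) (nat_lit 76) (nat_lit 17446122322) (nat_lit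 152) (nat_lit 4369081470) (nat_lit 32) (nat_lit 5) (nat_lit 33) (nat_lit 5) (nat_lit 34) (nat_lit 4) (nat_lit 352) (nat_lit 254) (nat_lit 174))) (XT.nd (nat_lit 78) (nat_lit 76) (nat_lit 0) (XT.lf (nat_lit 0) (nat_lit 10522939369) (nat_lit 76) (nat_lit 12695185291) (nat_lit 152) (nat_lit 173512038) (nat_lit 32) (nat_lit 5) (nat_lit 33) (nat_lit 5) (nat_lit 34) (nat_lit 4) (nat_lit 353) (nat_lit 254) (nat_lit 173)) (XT.lf (nat_lit 0) (nat_lit 4042385161) (nat_lit 152) (nat_lit 3737074573) (nat_lit 76) (nat_lit 16151496729) (nat_lit 31) (nat_lit 5) (nat_lit 33) (nat_lit 5) (nat_lit 32) (nat_lit 5) (nat_lit 354) (nat_lit 254) (nat_lit 172)))))) (XT.nd (nat_lit 546) (nat_lit 304) (nat_lit 0) (XT.nd (nat_lit 234) (nat_lit 304) (nat_lit 0) (XT.nd (nat_lit 78) (nat_lit 0) (nat_lit 0) (XT.lf (nat_lit 0) (nat_lit 5736577977) (nat_lit 152) (nat_lit 2675955463) (nat_lit 228) (nat_lit 16072940881) (nat_lit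 29) (nat_lit 5) (nat_lit 31) (nat_lit 5) (nat_lit 32) (nat_lit 5) (nat_lit 355) (nat_lit 254) (nat_lit 171)) (XT.nd (nat_lit 78) (nat_lit 0) (nat_lit 0) (XT.lf (nat_lit 0) (nat_lit 12952941916) (nat_lit 228) (nat_lit 9551899573) (nat_lit 76) (nat_lit 2550619212) (nat_lit 29) (nat_lit 5) (nat_lit 32) (nat_lit 5) (nat_lit 30) (nat_lit 4) (nat_lit 356) (nat_lit 254) (nat_lit 170)) (XT.lf (nat_lit 0) (nat_lit 17632987511) (nat_lit 228) (nat_lit 146526321) (nat_lit 76) (nat_lit 7862937530) (nat_lit 29) (nat_lit 5) (nat_lit 32) (nat_lit 5) (nat_lit 30) (nat_lit 4) (nat_lit 357) (nat_lit 254) (nat_lit 169)))) (XT.nd (nat_lit 156) (nat_lit 152) (nat_lit 0) (XT.nd (nat_lit 78) (nat_lit 76) (nat_lit 0) (XT.lf (nat_lit 0) (nat_lit 9690256424) (nat_lit 76) (nat_lit 12833928913) (nat_lit 152) (nat_lit 3720751098) (nat_lit 28) (nat_lit 5) (nat_lit 29) (nat_lit 5) (nat_lit 30) (nat_lit 4) (nat_lit 358) (nat_lit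 254) (nat_lit 168)) (XT.lf (nat_lit 0) (nat_lit 662173071) (nat_lit 152) (nat_lit 7086920902) (nat_lit 76) (nat_lit 19116833689) (nat_lit 27) (nat_lit 5) (nat_lit 29) (nat_lit 5) (nat_lit 28) (nat_lit 5) (nat_lit 359) (nat_lit 254) (nat_lit 167))) (XT.nd (nat_lit 78) (nat_lit 0) (nat_lit 0) (XT.lf (nat_lit 0) (nat_lit 2640821556) (nat_lit 152) (nat_lit 2464665559) (nat_lit 228) (nat_lit 22398852377) (nat_lit 25) (nat_lit 5) (nat_lit 27) (nat_lit 5) (nat_lit 28) (nat_lit 5) (nat_lit 360) (nat_lit 254) (nat_lit 166)) (XT.lf (nat_lit 0) (nat_lit 9761403271) (nat_lit 228) (nat_lit 15422272513) (nat_lit 76) (nat_lit 2975855225) (nat_lit 25) (nat_lit 5) (nat_lit 28) (nat_lit 5) (nat_lit 26) (nat_lit 4) (nat_lit 361) (nat_lit 254) (nat_lit 165))))) (XT.nd (nat_lit 234) (nat_lit 228) (nat_lit 0) (XT.nd (nat_lit 78) (nat_lit 76) (nat_lit 0) (XT.lf (nat_lit 0) (nat_lit 14560429572) (nat_lit 228) (nat_lit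 5759910045) (nat_lit 76) (nat_lit 8513941903) (nat_lit 25) (nat_lit 5) (nat_lit 28) (nat_lit 5) (nat_lit 26) (nat_lit 4) (nat_lit 362) (nat_lit 254) (nat_lit 164)) (XT.nd (nat_lit 78) (nat_lit 0) (nat_lit 0) (XT.lf (nat_lit 0) (nat_lit 4238410843) (nat_lit 76) (nat_lit 15285398821) (nat_lit 152) (nat_lit 10004859435) (nat_lit 24) (nat_lit 5) (nat_lit 25) (nat_lit 5) (nat_lit 26) (nat_lit 4) (nat_lit 363) (nat_lit 254) (nat_lit 163)) (XT.lf (nat_lit 0) (nat_lit 14618493763) (nat_lit 76) (nat_lit 10055646433) (nat_lit 152) (nat_lit 5568612509) (nat_lit 24) (nat_lit 5) (nat_lit 25) (nat_lit 5) (nat_lit 26) (nat_lit 4) (nat_lit 364) (nat_lit 254) (nat_lit 162)))) (XT.nd (nat_lit 156) (nat_lit 0) (nat_lit 0) (XT.nd (nat_lit 78) (nat_lit 228) (nat_lit 0) (XT.lf (nat_lit 0) (nat_lit 25274775186) (nat_lit 76) (nat_lit 4684676562) (nat_lit 152) (nat_lit 1019398636) (nat_lit 24) (nat_lit 5) (nat_lit 25) (nat_lit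 5) (nat_lit 26) (nat_lit 4) (nat_lit 365) (nat_lit 254) (nat_lit 161)) (XT.lf (nat_lit 0) (nat_lit 3627941659) (nat_lit 228) (nat_lit 27211676061) (nat_lit 76) (nat_lit 895365586) (nat_lit 21) (nat_lit 5) (nat_lit 24) (nat_lit 5) (nat_lit 22) (nat_lit 4) (nat_lit 366) (nat_lit 254) (nat_lit 160))) (XT.nd (nat_lit 78) (nat_lit 0) (nat_lit 0) (XT.lf (nat_lit 0) (nat_lit 8479694994) (nat_lit 228) (nat_lit 17429331559) (nat_lit 76) (nat_lit 6601911636) (nat_lit 21) (nat_lit 5) (nat_lit 24) (nat_lit 5) (nat_lit 22) (nat_lit 4) (nat_lit 367) (nat_lit 254) (nat_lit 159)) (XT.lf (nat_lit 0) (nat_lit 13458484934) (nat_lit 228) (nat_lit 7387159600) (nat_lit 76) (nat_lit 12465087727) (nat_lit 21) (nat_lit 5) (nat_lit 24) (nat_lit 5) (nat_lit 22) (nat_lit 4) (nat_lit 368) (nat_lit 254) (nat_lit 158))))))) (XT.nd (nat_lit 1092) (nat_lit 304) (nat_lit 0) (XT.nd (nat_lit 546) (nat_lit 228) (nat_lit 0) (XT.nd (nat_lit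 234) (nat_lit 152) (nat_lit 0) (XT.nd (nat_lit 78) (nat_lit 0) (nat_lit 0) (XT.lf (nat_lit 0) (nat_lit 2981800190) (nat_lit 76) (nat_lit 15615524575) (nat_lit 152) (nat_lit 15536879720) (nat_lit 20) (nat_lit 5) (nat_lit 21) (nat_lit 5) (nat_lit 22) (nat_lit 4) (nat_lit 369) (nat_lit 254) (nat_lit 157)) (XT.nd (nat_lit 78) (nat_lit 0) (nat_lit 0) (XT.lf (nat_lit 0) (nat_lit 13780915541) (nat_lit 76) (nat_lit 10166246078) (nat_lit 152) (nat_lit 11033519073) (nat_lit 20) (nat_lit 5) (nat_lit 21) (nat_lit 5) (nat_lit 22) (nat_lit 4) (nat_lit 370) (nat_lit 254) (nat_lit 156)) (XT.lf (nat_lit 0) (nat_lit 24872603612) (nat_lit 76) (nat_lit 4567643365) (nat_lit 152) (nat_lit 6412826239) (nat_lit 20) (nat_lit 5) (nat_lit 21) (nat_lit 5) (nat_lit 22) (nat_lit 4) (nat_lit 371) (nat_lit 254) (nat_lit 155)))) (XT.nd (nat_lit 156) (nat_lit 0) (nat_lit 0) (XT.nd (nat_lit 78) (nat_lit 152) (nat_lit 0) (XT.lf (nat_lit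 0) (nat_lit 35092773256) (nat_lit 152) (nat_lit 496980807) (nat_lit 0) (nat_lit 1162048501) (nat_lit 20) (nat_lit 5) (nat_lit 22) (nat_lit 4) (nat_lit 20) (nat_lit 4) (nat_lit 372) (nat_lit 254) (nat_lit 154)) (XT.lf (nat_lit 0) (nat_lit 3304574986) (nat_lit 152) (nat_lit 27276682744) (nat_lit 76) (nat_lit 7091395719) (nat_lit 18) (nat_lit 5) (nat_lit 20) (nat_lit 5) (nat_lit 19) (nat_lit 4) (nat_lit 373) (nat_lit 254) (nat_lit 153))) (XT.nd (nat_lit 78) (nat_lit 0) (nat_lit 0) (XT.lf (nat_lit 0) (nat_lit 8372453516) (nat_lit 152) (nat_lit 17041554582) (nat_lit 76) (nat_lit 13206971769) (nat_lit 18) (nat_lit 5) (nat_lit 20) (nat_lit 5) (nat_lit 19) (nat_lit 4) (nat_lit 374) (nat_lit 254) (nat_lit 152)) (XT.lf (nat_lit 0) (nat_lit 13576487559) (nat_lit 152) (nat_lit 6528496787) (nat_lit 76) (nat_lit 19493252152) (nat_lit 18) (nat_lit 5) (nat_lit 20) (nat_lit 5) (nat_lit 19) (nat_lit 4) (nat_lit 375)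 (nat_lit 254) (nat_lit 151))))) (XT.nd (nat_lit 234) (nat_lit 152) (nat_lit 0) (XT.nd (nat_lit 78) (nat_lit 0) (nat_lit 0) (XT.lf (nat_lit 0) (nat_lit 4356691550) (nat_lit 76) (nat_lit 14606411965) (nat_lit 152) (nat_lit 21640917368) (nat_lit 17) (nat_lit 5) (nat_lit 18) (nat_lit 5) (nat_lit 19) (nat_lit 4) (nat_lit 376) (nat_lit 254) (nat_lit 150)) (XT.nd (nat_lit 78) (nat_lit 0) (nat_lit 0) (XT.lf (nat_lit 0) (nat_lit 15674264602) (nat_lit 76) (nat_lit 8887740006) (nat_lit 152) (nat_lit 17076457358) (nat_lit 17) (nat_lit 5) (nat_lit 18) (nat_lit 5) (nat_lit 19) (nat_lit 4) (nat_lit 377) (nat_lit 254) (nat_lit 149)) (XT.lf (nat_lit 0) (nat_lit 27304181622) (nat_lit 76) (nat_lit 3009896590) (nat_lit 152) (nat_lit 12390305563) (nat_lit 17) (nat_lit 5) (nat_lit 18) (nat_lit 5) (nat_lit 19) (nat_lit 4) (nat_lit 378) (nat_lit 254) (nat_lit 148)))) (XT.nd (nat_lit 156) (nat_lit 76) (nat_lit 0) (XT.nd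 (nat_lit 78) (nat_lit 76) (nat_lit 0) (XT.lf (nat_lit 0) (nat_lit 36253498294) (nat_lit 152) (nat_lit 4575260906) (nat_lit 0) (nat_lit 2973084061) (nat_lit 17) (nat_lit 5) (nat_lit 19) (nat_lit 4) (nat_lit 17) (nat_lit 4) (nat_lit 379) (nat_lit 254) (nat_lit 147)) (XT.lf (nat_lit 0) (nat_lit 6648430090) (nat_lit 76) (nat_lit 35802323113) (nat_lit 76) (nat_lit 2479087210) (nat_lit 16) (nat_lit 4) (nat_lit 17) (nat_lit 5) (nat_lit 17) (nat_lit 4) (nat_lit 380) (nat_lit 254) (nat_lit 146))) (XT.nd (nat_lit 78) (nat_lit 0) (nat_lit 0) (XT.lf (nat_lit 0) (nat_lit 2721359986) (nat_lit 152) (nat_lit 27840449567) (nat_lit 76) (nat_lit 15528101685) (nat_lit 15) (nat_lit 5) (nat_lit 17) (nat_lit 5) (nat_lit 16) (nat_lit 4) (nat_lit 381) (nat_lit 254) (nat_lit 145)) (XT.lf (nat_lit 0) (nat_lit 8014366455) (nat_lit 152) (nat_lit 17136009967) (nat_lit 76) (nat_lit 22134083366) (nat_lit 15) (nat_lit 5) (nat_lit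 17) (nat_lit 5) (nat_lit 16) (nat_lit 4) (nat_lit 382) (nat_lit 254) (nat_lit 144)))))) (XT.nd (nat_lit 546) (nat_lit 152) (nat_lit 0) (XT.nd (nat_lit 234) (nat_lit 76) (nat_lit 0) (XT.nd (nat_lit 78) (nat_lit 76) (nat_lit 0) (XT.lf (nat_lit 0) (nat_lit 13452933073) (nat_lit 152) (nat_lit 6134907628) (nat_lit 76) (nat_lit 28927404060) (nat_lit 15) (nat_lit 5) (nat_lit 17) (nat_lit 5) (nat_lit 16) (nat_lit 4) (nat_lit 383) (nat_lit 254) (nat_lit 143)) (XT.nd (nat_lit 78) (nat_lit 0) (nat_lit 0) (XT.lf (nat_lit 0) (nat_lit 5275412361) (nat_lit 76) (nat_lit 13817110114) (nat_lit 152) (nat_lit 30689297805) (nat_lit 14) (nat_lit 5) (nat_lit 15) (nat_lit 5) (nat_lit 16) (nat_lit 4) (nat_lit 384) (nat_lit 254) (nat_lit 142)) (XT.lf (nat_lit 0) (nat_lit 17130276745) (nat_lit 76) (nat_lit 7820276634) (nat_lit 152) (nat_lit 26134364961) (nat_lit 14) (nat_lit 5) (nat_lit 15) (nat_lit 5) (nat_lit 16) (nat_lit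 4) (nat_lit 385) (nat_lit 254) (nat_lit 141)))) (XT.nd (nat_lit 156) (nat_lit 76) (nat_lit 0) (XT.nd (nat_lit 78) (nat_lit 0) (nat_lit 0) (XT.lf (nat_lit 0) (nat_lit 29317947451) (nat_lit 76) (nat_lit 1654050844) (nat_lit 152) (nat_lit 21455483656) (nat_lit 14) (nat_lit 5) (nat_lit 15) (nat_lit 5) (nat_lit 16) (nat_lit 4) (nat_lit 386) (nat_lit 254) (nat_lit 140)) (XT.lf (nat_lit 0) (nat_lit 37207172564) (nat_lit 152) (nat_lit 12006664209) (nat_lit 0) (nat_lit 4595495839) (nat_lit 14) (nat_lit 5) (nat_lit 16) (nat_lit 4) (nat_lit 14) (nat_lit 4) (nat_lit 387) (nat_lit 254) (nat_lit 139))) (XT.nd (nat_lit 78) (nat_lit 76) (nat_lit 0) (XT.lf (nat_lit 0) (nat_lit 43634064250) (nat_lit 152) (nat_lit 608869040) (nat_lit 0) (nat_lit 10989568280) (nat_lit 14) (nat_lit 5) (nat_lit 16) (nat_lit 4) (nat_lit 14) (nat_lit 4) (nat_lit 388) (nat_lit 254) (nat_lit 138)) (XT.lf (nat_lit 0) (nat_lit 11330815005)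 (nat_lit 76) (nat_lit 39020493055) (nat_lit 76) (nat_lit 6344133740) (nat_lit 13) (nat_lit 4) (nat_lit 14) (nat_lit 5) (nat_lit 14) (nat_lit 4) (nat_lit 389) (nat_lit 254) (nat_lit 137))))) (XT.nd (nat_lit 312) (nat_lit 76) (nat_lit 0) (XT.nd (nat_lit 156) (nat_lit 0) (nat_lit 0) (XT.nd (nat_lit 78) (nat_lit 76) (nat_lit 0) (XT.lf (nat_lit 0) (nat_lit 23620228154) (nat_lit 76) (nat_lit 33644746012) (nat_lit 76) (nat_lit 937451412) (nat_lit 13) (nat_lit 4) (nat_lit 14) (nat_lit 5) (nat_lit 14) (nat_lit 4) (nat_lit 390) (nat_lit 254) (nat_lit 136)) (XT.lf (nat_lit 0) (nat_lit 4530029104) (nat_lit 152) (nat_lit 23541369776) (nat_lit 76) (nat_lit 31682217523) (nat_lit 12) (nat_lit 5) (nat_lit 14) (nat_lit 5) (nat_lit 13) (nat_lit 4) (nat_lit 391) (nat_lit 254) (nat_lit 135))) (XT.nd (nat_lit 78) (nat_lit 0) (nat_lit 0) (XT.lf (nat_lit 0) (nat_lit 10131986974) (nat_lit 152) (nat_lit 12198554774) (nat_lit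 76) (nat_lit 39020846191) (nat_lit 12) (nat_lit 5) (nat_lit 14) (nat_lit 5) (nat_lit 13) (nat_lit 4) (nat_lit 392) (nat_lit 254) (nat_lit 134)) (XT.lf (nat_lit 0) (nat_lit 15891610166) (nat_lit 152) (nat_lit 534829863) (nat_lit 76) (nat_lit 46570966606) (nat_lit 12) (nat_lit 5) (nat_lit 14) (nat_lit 5) (nat_lit 13) (nat_lit 4) (nat_lit 393) (nat_lit 254) (nat_lit 133)))) (XT.nd (nat_lit 156) (nat_lit 0) (nat_lit 0) (XT.nd (nat_lit 78) (nat_lit 0) (nat_lit 0) (XT.lf (nat_lit 0) (nat_lit 11688072961) (nat_lit 76) (nat_lit 10238211306) (nat_lit 152) (nat_lit 42763455908) (nat_lit 11) (nat_lit 5) (nat_lit 12) (nat_lit 5) (nat_lit 13) (nat_lit 4) (nat_lit 394) (nat_lit 254) (nat_lit 132)) (XT.lf (nat_lit 0) (nat_lit 24270000537) (nat_lit 76) (nat_lit 3867422954) (nat_lit 152) (nat_lit 38295559567) (nat_lit 11) (nat_lit 5) (nat_lit 12) (nat_lit 5) (nat_lit 13) (nat_lit 4) (nat_lit 395) (nat_lit 254) (nat_lit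 131))) (XT.nd (nat_lit 78) (nat_lit 0) (nat_lit 0) (XT.lf (nat_lit 0) (nat_lit 34551031968) (nat_lit 152) (nat_lit 31043333543) (nat_lit 0) (nat_lit 2633675690) (nat_lit 11) (nat_lit 5) (nat_lit 13) (nat_lit 4) (nat_lit 11) (nat_lit 4) (nat_lit 396) (nat_lit 254) (nat_lit 130)) (XT.lf (nat_lit 0) (nat_lit 41185858461) (nat_lit 152) (nat_lit 19646148720) (nat_lit 0) (nat_lit 9244081583) (nat_lit 11) (nat_lit 5) (nat_lit 13) (nat_lit 4) (nat_lit 11) (nat_lit 4) (nat_lit 397) (nat_lit 254) (nat_lit 129))))))))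
noncomputable def xc89 : XT := (XT.nd (nat_lit 31668) (nat_lit 0) (nat_lit 7068) (XT.nd (nat_lit 1092) (nat_lit 0) (nat_lit 0) (XT.nd (nat_lit 546) (nat_lit 76) (nat_lit 0) (XT.nd (nat_lit 234) (nat_lit 76) (nat_lit 0) (XT.nd (nat_lit 78) (nat_lit 76) (nat_lit 0) (XT.lf (nat_lit 0) (nat_lit 48010524355) (nat_lit 152) (nat_lit 7924293311) (nat_lit 0) (nat_lit 16045038156) (nat_lit 11) (nat_lit 5) (nat_lit 13) (nat_lit 4) (nat_lit 11) (nat_lit 4) (nat_lit 398) (nat_lit 254) (nat_lit 128)) (XT.nd (nat_lit 78) (nat_lit 0) (nat_lit 0) (XT.lf (nat_lit 0) (nat_lit 4214719438) (nat_lit 76) (nat_lit 50856787974) (nat_lit 76) (nat_lit 18868283017) (nat_lit 10) (nat_lit 4) (nat_lit 11) (nat_lit 5) (nat_lit 11) (nat_lit 4) (nat_lit 399) (nat_lit 254) (nat_lit 127)) (XT.lf (nat_lit 0) (nat_lit 16863764278) (nat_lit 76) (nat_lit 45551739178) (nat_lit 76) (nat_lit 13540885913) (nat_lit 10) (nat_lit 4) (nat_lit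 11) (nat_lit 5) (nat_lit 11) (nat_lit 4) (nat_lit 400) (nat_lit 254) (nat_lit 126)))) (XT.nd (nat_lit 156) (nat_lit 76) (nat_lit 0) (XT.nd (nat_lit 78) (nat_lit 0) (nat_lit 0) (XT.lf (nat_lit 0) (nat_lit 29876184799) (nat_lit 76) (nat_lit 40095055624) (nat_lit 76) (nat_lit 8062504971) (nat_lit 10) (nat_lit 4) (nat_lit 11) (nat_lit 5) (nat_lit 11) (nat_lit 4) (nat_lit 401) (nat_lit 254) (nat_lit 125)) (XT.lf (nat_lit 0) (nat_lit 43263351076) (nat_lit 76) (nat_lit 34481969334) (nat_lit 76) (nat_lit 2428353257) (nat_lit 10) (nat_lit 4) (nat_lit 11) (nat_lit 5) (nat_lit 11) (nat_lit 4) (nat_lit 402) (nat_lit 254) (nat_lit 124))) (XT.nd (nat_lit 78) (nat_lit 0) (nat_lit 0) (XT.lf (nat_lit 0) (nat_lit 3300799884) (nat_lit 152) (nat_lit 25373444180) (nat_lit 76) (nat_lit 53702829143) (nat_lit 9) (nat_lit 5) (nat_lit 11) (nat_lit 5) (nat_lit 10) (nat_lit 4) (nat_lit 403) (nat_lit 254) (nat_lit 123)) (XT.lf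 (nat_lit 0) (nat_lit 9145089860) (nat_lit 152) (nat_lit 13529391712) (nat_lit 76) (nat_lit 61971611328) (nat_lit 9) (nat_lit 5) (nat_lit 11) (nat_lit 5) (nat_lit 10) (nat_lit 4) (nat_lit 404) (nat_lit 254) (nat_lit 122))))) (XT.nd (nat_lit 234) (nat_lit 0) (nat_lit 0) (XT.nd (nat_lit 78) (nat_lit 76) (nat_lit 0) (XT.lf (nat_lit 0) (nat_lit 15157009250) (nat_lit 152) (nat_lit 1344473197) (nat_lit 76) (nat_lit 70481933221) (nat_lit 9) (nat_lit 5) (nat_lit 11) (nat_lit 5) (nat_lit 10) (nat_lit 4) (nat_lit 405) (nat_lit 254) (nat_lit 121)) (XT.nd (nat_lit 78) (nat_lit 0) (nat_lit 0) (XT.lf (nat_lit 0) (nat_lit 11414700296) (nat_lit 76) (nat_lit 10036835973) (nat_lit 152) (nat_lit 67936255811) (nat_lit 8) (nat_lit 5) (nat_lit 9) (nat_lit 5) (nat_lit 10) (nat_lit 4) (nat_lit 406) (nat_lit 254) (nat_lit 120)) (XT.lf (nat_lit 0) (nat_lit 24570312478) (nat_lit 76) (nat_lit 3370772265) (nat_lit 152) (nat_lit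 63923030894) (nat_lit 8) (nat_lit 5) (nat_lit 9) (nat_lit 5) (nat_lit 10) (nat_lit 4) (nat_lit 407) (nat_lit 254) (nat_lit 119)))) (XT.nd (nat_lit 156) (nat_lit 0) (nat_lit 0) (XT.nd (nat_lit 78) (nat_lit 0) (nat_lit 0) (XT.lf (nat_lit 0) (nat_lit 34651682028) (nat_lit 152) (nat_lit 56341382647) (nat_lit 0) (nat_lit 3420874734) (nat_lit 8) (nat_lit 5) (nat_lit 10) (nat_lit 4) (nat_lit 8) (nat_lit 4) (nat_lit 408) (nat_lit 254) (nat_lit 118)) (XT.lf (nat_lit 0) (nat_lit 41589945633) (nat_lit 152) (nat_lit 45107014051) (nat_lit 0) (nat_lit 10342509097) (nat_lit 8) (nat_lit 5) (nat_lit 10) (nat_lit 4) (nat_lit 8) (nat_lit 4) (nat_lit 409) (nat_lit 254) (nat_lit 117))) (XT.nd (nat_lit 78) (nat_lit 0) (nat_lit 0) (XT.lf (nat_lit 0) (nat_lit 48729536192) (nat_lit 152) (nat_lit 33548479007) (nat_lit 0) (nat_lit 17465954762) (nat_lit 8) (nat_lit 5) (nat_lit 10) (nat_lit 4) (nat_lit 8) (nat_lit 4) (nat_lit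 410) (nat_lit 254) (nat_lit 116)) (XT.lf (nat_lit 0) (nat_lit 56076692183) (nat_lit 152) (nat_lit 21655677826) (nat_lit 0) (nat_lit 24797436100) (nat_lit 8) (nat_lit 5) (nat_lit 10) (nat_lit 4) (nat_lit 8) (nat_lit 4) (nat_lit 411) (nat_lit 254) (nat_lit 115)))))) (XT.nd (nat_lit 30030) (nat_lit 0) (nat_lit 18088) (XT.nd (nat_lit 29718) (nat_lit 0) (nat_lit 21508) (XT.nd (nat_lit 29562) (nat_lit 0) (nat_lit 23180) (XT.lf (nat_lit 0) (nat_lit 63637833451) (nat_lit 152) (nat_lit 9418218738) (nat_lit 0) (nat_lit 32343359257) (nat_lit 8) (nat_lit 5) (nat_lit 10) (nat_lit 4) (nat_lit 8) (nat_lit 4) (nat_lit 412) (nat_lit 254) (nat_lit 114)) (XT.nd (nat_lit 78) (nat_lit 76) (nat_lit 0) (XT.lf (nat_lit 0) (nat_lit 617201019) (nat_lit 380) (nat_lit 1329573092) (nat_lit 380) (nat_lit 1329573092) (nat_lit 314) (nat_lit 4) (nat_lit 319) (nat_lit 5) (nat_lit 319) (nat_lit 4) (nat_lit 270) (nat_lit 255) (nat_lit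 255)) (XT.lf (nat_lit 0) (nat_lit 397359193) (nat_lit 456) (nat_lit 1578568331) (nat_lit 76) (nat_lit 4600728709) (nat_lit 313) (nat_lit 5) (nat_lit 319) (nat_lit 5) (nat_lit 314) (nat_lit 4) (nat_lit 271) (nat_lit 255) (nat_lit 254)))) (XT.nd (nat_lit 156) (nat_lit 1216) (nat_lit 0) (XT.nd (nat_lit 78) (nat_lit 0) (nat_lit 0) (XT.lf (nat_lit 0) (nat_lit 2215881217) (nat_lit 456) (nat_lit 1191421316) (nat_lit 532) (nat_lit 3195969870) (nat_lit 307) (nat_lit 5) (nat_lit 313) (nat_lit 5) (nat_lit 314) (nat_lit 4) (nat_lit 272) (nat_lit 255) (nat_lit 253)) (XT.lf (nat_lit 0) (nat_lit 6082874697) (nat_lit 456) (nat_lit 336881190) (nat_lit 532) (nat_lit 213740552) (nat_lit 307) (nat_lit 5) (nat_lit 313) (nat_lit 5) (nat_lit 314) (nat_lit 4) (nat_lit 273) (nat_lit 255) (nat_lit 252))) (XT.nd (nat_lit 78) (nat_lit 608) (nat_lit 0) (XT.lf (nat_lit 0) (nat_lit 2738754143) (nat_lit 608) (nat_lit 3306380058)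 (nat_lit 76) (nat_lit 620737441) (nat_lit 299) (nat_lit 5) (nat_lit 307) (nat_lit 5) (nat_lit 300) (nat_lit 4) (nat_lit 274) (nat_lit 255) (nat_lit 251)) (XT.lf (nat_lit 0) (nat_lit 629542979) (nat_lit 608) (nat_lit 5061636768) (nat_lit 684) (nat_lit 1010666126) (nat_lit 291) (nat_lit 5) (nat_lit 299) (nat_lit 5) (nat_lit 300) (nat_lit 4) (nat_lit 275) (nat_lit 255) (nat_lit 250))))) (XT.nd (nat_lit 234) (nat_lit 2584) (nat_lit 0) (XT.nd (nat_lit 78) (nat_lit 760) (nat_lit 0) (XT.lf (nat_lit 0) (nat_lit 1889802437) (nat_lit 684) (nat_lit 2083805876) (nat_lit 76) (nat_lit 2766805197) (nat_lit 290) (nat_lit 5) (nat_lit 299) (nat_lit 5) (nat_lit 291) (nat_lit 5) (nat_lit 276) (nat_lit 255) (nat_lit 249)) (XT.nd (nat_lit 78) (nat_lit 76) (nat_lit 0) (XT.lf (nat_lit 0) (nat_lit 1977452648) (nat_lit 684) (nat_lit 2803091745) (nat_lit 760) (nat_lit 2001733573) (nat_lit 281) (nat_lit 5) (nat_lit 290) (nat_lit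 5) (nat_lit 291) (nat_lit 5) (nat_lit 277) (nat_lit 255) (nat_lit 248)) (XT.lf (nat_lit 0) (nat_lit 841223294) (nat_lit 760) (nat_lit 707427681) (nat_lit 76) (nat_lit 5278812815) (nat_lit 280) (nat_lit 5) (nat_lit 290) (nat_lit 5) (nat_lit 281) (nat_lit 5) (nat_lit 278) (nat_lit 255) (nat_lit 247)))) (XT.nd (nat_lit 156) (nat_lit 988) (nat_lit 0) (XT.nd (nat_lit 78) (nat_lit 836) (nat_lit 0) (XT.lf (nat_lit 0) (nat_lit 3486591875) (nat_lit 760) (nat_lit 184470973) (nat_lit 836) (nat_lit 3204227644) (nat_lit 270) (nat_lit 5) (nat_lit 280) (nat_lit 5) (nat_lit 281) (nat_lit 5) (nat_lit 279) (nat_lit 255) (nat_lit 246)) (XT.lf (nat_lit 0) (nat_lit 824110980) (nat_lit 836) (nat_lit 5698982392) (nat_lit 912) (nat_lit 403470509) (nat_lit 259) (nat_lit 5) (nat_lit 270) (nat_lit 5) (nat_lit 271) (nat_lit 5) (nat_lit 280) (nat_lit 255) (nat_lit 245))) (XT.nd (nat_lit 78) (nat_lit 912) (nat_lit 0) (XT.lf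 (nat_lit 0) (nat_lit 2380586146) (nat_lit 912) (nat_lit 1849493988) (nat_lit 76) (nat_lit 2750272156) (nat_lit 258) (nat_lit 5) (nat_lit 270) (nat_lit 5) (nat_lit 259) (nat_lit 5) (nat_lit 281) (nat_lit 255) (nat_lit 244)) (XT.lf (nat_lit 0) (nat_lit 2500218225) (nat_lit 912) (nat_lit 2677765332) (nat_lit 988) (nat_lit 1859632763) (nat_lit 246) (nat_lit 5) (nat_lit 258) (nat_lit 5) (nat_lit 259) (nat_lit 5) (nat_lit 282) (nat_lit 255) (nat_lit 243))))))) (XT.nd (nat_lit 1092) (nat_lit 3952) (nat_lit 0) (XT.nd (nat_lit 546) (nat_lit 2888) (nat_lit 0) (XT.nd (nat_lit 234) (nat_lit 2052) (nat_lit 0) (XT.nd (nat_lit 78) (nat_lit 2052) (nat_lit 0) (XT.lf (nat_lit 0) (nat_lit 877514065) (nat_lit 988) (nat_lit 163839652) (nat_lit 76) (nat_lit 6057071869) (nat_lit 245) (nat_lit 5) (nat_lit 258) (nat_lit 5) (nat_lit 246) (nat_lit 5) (nat_lit 283) (nat_lit 255) (nat_lit 242)) (XT.nd (nat_lit 78) (nat_lit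 1064) (nat_lit 0) (XT.lf (nat_lit 0) (nat_lit 3625130233) (nat_lit 1064) (nat_lit 2836122407) (nat_lit 76) (nat_lit 700391681) (nat_lit 232) (nat_lit 5) (nat_lit 246) (nat_lit 5) (nat_lit 233) (nat_lit 5) (nat_lit 284) (nat_lit 255) (nat_lit 241)) (XT.lf (nat_lit 0) (nat_lit 1672173532) (nat_lit 1064) (nat_lit 4730047147) (nat_lit 1140) (nat_lit 826233886) (nat_lit 218) (nat_lit 5) (nat_lit 232) (nat_lit 5) (nat_lit 233) (nat_lit 5) (nat_lit 285) (nat_lit 255) (nat_lit 240)))) (XT.nd (nat_lit 156) (nat_lit 836) (nat_lit 0) (XT.nd (nat_lit 78) (nat_lit 1140) (nat_lit 0) (XT.lf (nat_lit 0) (nat_lit 1875662695) (nat_lit 1140) (nat_lit 1019021451) (nat_lit 76) (nat_lit 4403658650) (nat_lit 217) (nat_lit 5) (nat_lit 232) (nat_lit 5) (nat_lit 218) (nat_lit 5) (nat_lit 286) (nat_lit 255) (nat_lit 239)) (XT.lf (nat_lit 0) (nat_lit 3642207345) (nat_lit 1140) (nat_lit 956887539) (nat_lit 1216) (nat_lit 2772372116)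 (nat_lit 202) (nat_lit 5) (nat_lit 217) (nat_lit 5) (nat_lit 218) (nat_lit 5) (nat_lit 287) (nat_lit 255) (nat_lit 238))) (XT.nd (nat_lit 78) (nat_lit 76) (nat_lit 0) (XT.lf (nat_lit 0) (nat_lit 949412003) (nat_lit 760) (nat_lit 6407973631) (nat_lit 836) (nat_lit 90899093) (nat_lit 192) (nat_lit 5) (nat_lit 202) (nat_lit 5) (nat_lit 203) (nat_lit 5) (nat_lit 288) (nat_lit 255) (nat_lit 237)) (XT.lf (nat_lit 0) (nat_lit 2590714046) (nat_lit 836) (nat_lit 1794463396) (nat_lit 76) (nat_lit 3142393808) (nat_lit 191) (nat_lit 5) (nat_lit 202) (nat_lit 5) (nat_lit 192) (nat_lit 5) (nat_lit 289) (nat_lit 255) (nat_lit 236))))) (XT.nd (nat_lit 234) (nat_lit 1672) (nat_lit 0) (XT.nd (nat_lit 78) (nat_lit 608) (nat_lit 0) (XT.lf (nat_lit 0) (nat_lit 3034089392) (nat_lit 608) (nat_lit 2272541150) (nat_lit 684) (nat_lit 2303994818) (nat_lit 183) (nat_lit 5) (nat_lit 191) (nat_lit 5) (nat_lit 192) (nat_lit 5)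 (nat_lit 290) (nat_lit 255) (nat_lit 235)) (XT.nd (nat_lit 78) (nat_lit 0) (nat_lit 0) (XT.lf (nat_lit 0) (nat_lit 273811004) (nat_lit 532) (nat_lit 74160034) (nat_lit 608) (nat_lit 7349721635) (nat_lit 175) (nat_lit 5) (nat_lit 182) (nat_lit 5) (nat_lit 183) (nat_lit 5) (nat_lit 291) (nat_lit 255) (nat_lit 234)) (XT.lf (nat_lit 0) (nat_lit 3029417456) (nat_lit 608) (nat_lit 2544353038) (nat_lit 76) (nat_lit 2213109382) (nat_lit 175) (nat_lit 5) (nat_lit 183) (nat_lit 5) (nat_lit 176) (nat_lit 5) (nat_lit 292) (nat_lit 255) (nat_lit 233)))) (XT.nd (nat_lit 156) (nat_lit 1064) (nat_lit 0) (XT.nd (nat_lit 78) (nat_lit 76) (nat_lit 0) (XT.lf (nat_lit 0) (nat_lit 2453432928) (nat_lit 532) (nat_lit 3292779595) (nat_lit 608) (nat_lit 2133959823) (nat_lit 168) (nat_lit 5) (nat_lit 175) (nat_lit 5) (nat_lit 176) (nat_lit 5) (nat_lit 293) (nat_lit 255) (nat_lit 232)) (XT.lf (nat_lit 0) (nat_lit 514251598)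 (nat_lit 608) (nat_lit 403874708) (nat_lit 76) (nat_lit 7059333044) (nat_lit 167) (nat_lit 5) (nat_lit 175) (nat_lit 5) (nat_lit 168) (nat_lit 5) (nat_lit 294) (nat_lit 255) (nat_lit 231))) (XT.nd (nat_lit 78) (nat_lit 532) (nat_lit 0) (XT.lf (nat_lit 0) (nat_lit 3193282901) (nat_lit 608) (nat_lit 3325190812) (nat_lit 76) (nat_lit 1558799770) (nat_lit 160) (nat_lit 5) (nat_lit 168) (nat_lit 5) (nat_lit 161) (nat_lit 5) (nat_lit 295) (nat_lit 255) (nat_lit 230)) (XT.lf (nat_lit 0) (nat_lit 1842864995) (nat_lit 532) (nat_lit 4075067935) (nat_lit 608) (nat_lit 2263259921) (nat_lit 153) (nat_lit 5) (nat_lit 160) (nat_lit 5) (nat_lit 161) (nat_lit 5) (nat_lit 296) (nat_lit 255) (nat_lit 229)))))) (XT.nd (nat_lit 546) (nat_lit 2052) (nat_lit 0) (XT.nd (nat_lit 234) (nat_lit 912) (nat_lit 0) (XT.nd (nat_lit 78) (nat_lit 912) (nat_lit 0) (XT.lf (nat_lit 0) (nat_lit 396312877) (nat_lit 608) (nat_lit 1133250809)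 (nat_lit 76) (nat_lit 6759542781) (nat_lit 152) (nat_lit 5) (nat_lit 160) (nat_lit 5) (nat_lit 153) (nat_lit 5) (nat_lit 297) (nat_lit 255) (nat_lit 228)) (XT.nd (nat_lit 78) (nat_lit 456) (nat_lit 0) (XT.lf (nat_lit 0) (nat_lit 3078438199) (nat_lit 532) (nat_lit 4196975113) (nat_lit 76) (nat_lit 1124586738) (nat_lit 146) (nat_lit 5) (nat_lit 153) (nat_lit 5) (nat_lit 147) (nat_lit 5) (nat_lit 298) (nat_lit 255) (nat_lit 227)) (XT.lf (nat_lit 0) (nat_lit 1141224224) (nat_lit 456) (nat_lit 4675235026) (nat_lit 532) (nat_lit 2698558864) (nat_lit 140) (nat_lit 5) (nat_lit 146) (nat_lit 5) (nat_lit 147) (nat_lit 5) (nat_lit 299) (nat_lit 255) (nat_lit 226)))) (XT.nd (nat_lit 156) (nat_lit 456) (nat_lit 0) (XT.nd (nat_lit 78) (nat_lit 456) (nat_lit 0) (XT.lf (nat_lit 0) (nat_lit 6651804077) (nat_lit 456) (nat_lit 1966062182) (nat_lit 532) (nat_lit 16241968) (nat_lit 140) (nat_lit 5) (nat_lit 146) (nat_lit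 5) (nat_lit 147) (nat_lit 5) (nat_lit 300) (nat_lit 255) (nat_lit 225)) (XT.lf (nat_lit 0) (nat_lit 2675384973) (nat_lit 456) (nat_lit 5224490652) (nat_lit 76) (nat_lit 856685798) (nat_lit 134) (nat_lit 5) (nat_lit 140) (nat_lit 5) (nat_lit 135) (nat_lit 5) (nat_lit 301) (nat_lit 255) (nat_lit 224))) (XT.nd (nat_lit 78) (nat_lit 0) (nat_lit 0) (XT.lf (nat_lit 0) (nat_lit 282227146) (nat_lit 456) (nat_lit 5148529051) (nat_lit 532) (nat_lit 3452481407) (nat_lit 128) (nat_lit 5) (nat_lit 134) (nat_lit 5) (nat_lit 135) (nat_lit 5) (nat_lit 302) (nat_lit 255) (nat_lit 223)) (XT.lf (nat_lit 0) (nat_lit 5988088033) (nat_lit 456) (nat_lit 2275402427) (nat_lit 532) (nat_lit 750434857) (nat_lit 128) (nat_lit 5) (nat_lit 134) (nat_lit 5) (nat_lit 135) (nat_lit 5) (nat_lit 303) (nat_lit 255) (nat_lit 222))))) (XT.nd (nat_lit 312) (nat_lit 760) (nat_lit 0) (XT.nd (nat_lit 156) (nat_lit 836) (nat_lit 0) (XT.nd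 (nat_lit 78) (nat_lit 0) (nat_lit 0) (XT.lf (nat_lit 0) (nat_lit 1968645979) (nat_lit 456) (nat_lit 6478726438) (nat_lit 76) (nat_lit 701355235) (nat_lit 122) (nat_lit 5) (nat_lit 128) (nat_lit 5) (nat_lit 123) (nat_lit 5) (nat_lit 304) (nat_lit 255) (nat_lit 221)) (XT.lf (nat_lit 0) (nat_lit 4751453483) (nat_lit 456) (nat_lit 791255904) (nat_lit 76) (nat_lit 3744772515) (nat_lit 122) (nat_lit 5) (nat_lit 128) (nat_lit 5) (nat_lit 123) (nat_lit 5) (nat_lit 305) (nat_lit 255) (nat_lit 220))) (XT.nd (nat_lit 78) (nat_lit 456) (nat_lit 0) (XT.lf (nat_lit 0) (nat_lit 5095316474) (nat_lit 380) (nat_lit 2516894401) (nat_lit 456) (nat_lit 1818400407) (nat_lit 117) (nat_lit 5) (nat_lit 122) (nat_lit 5) (nat_lit 123) (nat_lit 5) (nat_lit 306) (nat_lit 255) (nat_lit 219)) (XT.lf (nat_lit 0) (nat_lit 936294172) (nat_lit 456) (nat_lit 8038452852) (nat_lit 76) (nat_lit 603808218) (nat_lit 111) (nat_lit 5) (nat_lit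 117) (nat_lit 5) (nat_lit 112) (nat_lit 5) (nat_lit 307) (nat_lit 255) (nat_lit 218)))) (XT.nd (nat_lit 156) (nat_lit 380) (nat_lit 0) (XT.nd (nat_lit 78) (nat_lit 380) (nat_lit 0) (XT.lf (nat_lit 0) (nat_lit 3752767881) (nat_lit 456) (nat_lit 2164501039) (nat_lit 76) (nat_lit 3812700417) (nat_lit 111) (nat_lit 5) (nat_lit 117) (nat_lit 5) (nat_lit 112) (nat_lit 5) (nat_lit 308) (nat_lit 255) (nat_lit 217)) (XT.lf (nat_lit 0) (nat_lit 3891558623) (nat_lit 380) (nat_lit 2747697037) (nat_lit 456) (nat_lit 3247145889) (nat_lit 106) (nat_lit 5) (nat_lit 111) (nat_lit 5) (nat_lit 112) (nat_lit 5) (nat_lit 309) (nat_lit 255) (nat_lit 216))) (XT.nd (nat_lit 78) (nat_lit 76) (nat_lit 0) (XT.lf (nat_lit 0) (nat_lit 51868003) (nat_lit 304) (nat_lit 9536791916) (nat_lit 380) (nat_lit 459617238) (nat_lit 102) (nat_lit 5) (nat_lit 106) (nat_lit 5) (nat_lit 107) (nat_lit 5) (nat_lit 310) (nat_lit 255) (nat_lit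 215)) (XT.lf (nat_lit 0) (nat_lit 2401881378) (nat_lit 380) (nat_lit 3932425185) (nat_lit 76) (nat_lit 3878922764) (nat_lit 101) (nat_lit 5) (nat_lit 106) (nat_lit 5) (nat_lit 102) (nat_lit 5) (nat_lit 311) (nat_lit 255) (nat_lit 214))))))))
noncomputable def xc90 : XT := (XT.nd (nat_lit 2184) (nat_lit 1976) (nat_lit 0) (XT.nd (nat_lit 1092) (nat_lit 1748) (nat_lit 0) (XT.nd (nat_lit 546) (nat_lit 1064) (nat_lit 0) (XT.nd (nat_lit 234) (nat_lit 608) (nat_lit 0) (XT.nd (nat_lit 78) (nat_lit 380) (nat_lit 0) (XT.lf (nat_lit 0) (nat_lit 2284461597) (nat_lit 304) (nat_lit 3028030233) (nat_lit 380) (nat_lit 5071363254) (nat_lit 97) (nat_lit 5) (nat_lit 101) (nat_lit 5) (nat_lit 102) (nat_lit 5) (nat_lit 312) (nat_lit 255) (nat_lit 213)) (XT.nd (nat_lit 78) (nat_lit 380) (nat_lit 0) (XT.lf (nat_lit 0) (nat_lit 8305290683) (nat_lit 380) (nat_lit 1863637426) (nat_lit 76) (nat_lit 390861018) (nat_lit 97)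 (nat_lit 5) (nat_lit 102) (nat_lit 5) (nat_lit 98) (nat_lit 5) (nat_lit 313) (nat_lit 255) (nat_lit 212)) (XT.lf (nat_lit 0) (nat_lit 660759317) (nat_lit 380) (nat_lit 6196364878) (nat_lit 76) (nat_lit 3882928728) (nat_lit 92) (nat_lit 5) (nat_lit 97) (nat_lit 5) (nat_lit 93) (nat_lit 5) (nat_lit 314) (nat_lit 255) (nat_lit 211)))) (XT.nd (nat_lit 156) (nat_lit 304) (nat_lit 0) (XT.nd (nat_lit 78) (nat_lit 0) (nat_lit 0) (XT.lf (nat_lit 0) (nat_lit 169114889) (nat_lit 304) (nat_lit 3422482453) (nat_lit 380) (nat_lit 7334287160) (nat_lit 88) (nat_lit 5) (nat_lit 92) (nat_lit 5) (nat_lit 93) (nat_lit 5) (nat_lit 315) (nat_lit 255) (nat_lit 210)) (XT.lf (nat_lit 0) (nat_lit 6627990882) (nat_lit 380) (nat_lit 4333074665) (nat_lit 76) (nat_lit 155728213) (nat_lit 88) (nat_lit 5) (nat_lit 93) (nat_lit 5) (nat_lit 89) (nat_lit 5) (nat_lit 316) (nat_lit 255) (nat_lit 209))) (XT.nd (nat_lit 78) (nat_lit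 76) (nat_lit 0) (XT.lf (nat_lit 0) (nat_lit 2226372873) (nat_lit 228) (nat_lit 7539082192) (nat_lit 304) (nat_lit 1547706591) (nat_lit 85) (nat_lit 5) (nat_lit 88) (nat_lit 5) (nat_lit 89) (nat_lit 5) (nat_lit 317) (nat_lit 255) (nat_lit 208)) (XT.lf (nat_lit 0) (nat_lit 1451806670) (nat_lit 304) (nat_lit 2524146902) (nat_lit 76) (nat_lit 7539095829) (nat_lit 84) (nat_lit 5) (nat_lit 88) (nat_lit 5) (nat_lit 85) (nat_lit 5) (nat_lit 318) (nat_lit 255) (nat_lit 207))))) (XT.nd (nat_lit 234) (nat_lit 532) (nat_lit 0) (XT.nd (nat_lit 78) (nat_lit 228) (nat_lit 0) (XT.lf (nat_lit 0) (nat_lit 4237901383) (nat_lit 304) (nat_lit 269254360) (nat_lit 380) (nat_lit 7215497703) (nat_lit 80) (nat_lit 5) (nat_lit 84) (nat_lit 5) (nat_lit 85) (nat_lit 5) (nat_lit 319) (nat_lit 255) (nat_lit 206)) (XT.nd (nat_lit 78) (nat_lit 228) (nat_lit 0) (XT.lf (nat_lit 0) (nat_lit 7670694019) (nat_lit 380) (nat_lit 780859641)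 (nat_lit 76) (nat_lit 3484463387) (nat_lit 80) (nat_lit 5) (nat_lit 85) (nat_lit 5) (nat_lit 81) (nat_lit 5) (nat_lit 320) (nat_lit 255) (nat_lit 205)) (XT.lf (nat_lit 0) (nat_lit 6178625437) (nat_lit 228) (nat_lit 4770509165) (nat_lit 304) (nat_lit 1206073571) (nat_lit 77) (nat_lit 5) (nat_lit 80) (nat_lit 5) (nat_lit 81) (nat_lit 5) (nat_lit 321) (nat_lit 255) (nat_lit 204)))) (XT.nd (nat_lit 156) (nat_lit 228) (nat_lit 0) (XT.nd (nat_lit 78) (nat_lit 0) (nat_lit 0) (XT.lf (nat_lit 0) (nat_lit 917633576) (nat_lit 228) (nat_lit 964274251) (nat_lit 304) (nat_lit 10499284078) (nat_lit 73) (nat_lit 5) (nat_lit 76) (nat_lit 5) (nat_lit 77) (nat_lit 5) (nat_lit 322) (nat_lit 255) (nat_lit 203)) (XT.lf (nat_lit 0) (nat_lit 5086181250) (nat_lit 304) (nat_lit 4576000035) (nat_lit 76) (nat_lit 2950003072) (nat_lit 73) (nat_lit 5) (nat_lit 77) (nat_lit 5) (nat_lit 74) (nat_lit 5) (nat_lit 323) (nat_lit 255)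 (nat_lit 202))) (XT.nd (nat_lit 78) (nat_lit 0) (nat_lit 0) (XT.lf (nat_lit 0) (nat_lit 2495102148) (nat_lit 228) (nat_lit 5884748230) (nat_lit 304) (nat_lit 4470481726) (nat_lit 70) (nat_lit 5) (nat_lit 73) (nat_lit 5) (nat_lit 74) (nat_lit 5) (nat_lit 324) (nat_lit 255) (nat_lit 201)) (XT.lf (nat_lit 0) (nat_lit 9810526934) (nat_lit 228) (nat_lit 1968327531) (nat_lit 304) (nat_lit 1316596933) (nat_lit 70) (nat_lit 5) (nat_lit 73) (nat_lit 5) (nat_lit 74) (nat_lit 5) (nat_lit 325) (nat_lit 255) (nat_lit 200)))))) (XT.nd (nat_lit 546) (nat_lit 760) (nat_lit 0) (XT.nd (nat_lit 234) (nat_lit 456) (nat_lit 0) (XT.nd (nat_lit 78) (nat_lit 228) (nat_lit 0) (XT.lf (nat_lit 0) (nat_lit 1913901041) (nat_lit 304) (nat_lit 9371329909) (nat_lit 76) (nat_lit 2061566897) (nat_lit 66) (nat_lit 5) (nat_lit 70) (nat_lit 5) (nat_lit 67) (nat_lit 5) (nat_lit 326) (nat_lit 255) (nat_lit 199)) (XT.nd (nat_lit 78) (nat_lit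 228) (nat_lit 0) (XT.lf (nat_lit 0) (nat_lit 5229257512) (nat_lit 304) (nat_lit 2177517677) (nat_lit 76) (nat_lit 6198107178) (nat_lit 66) (nat_lit 5) (nat_lit 70) (nat_lit 5) (nat_lit 67) (nat_lit 5) (nat_lit 327) (nat_lit 255) (nat_lit 198)) (XT.lf (nat_lit 0) (nat_lit 5275850507) (nat_lit 228) (nat_lit 3381480361) (nat_lit 304) (nat_lit 5213001179) (nat_lit 63) (nat_lit 5) (nat_lit 66) (nat_lit 5) (nat_lit 67) (nat_lit 5) (nat_lit 328) (nat_lit 255) (nat_lit 197)))) (XT.nd (nat_lit 156) (nat_lit 152) (nat_lit 0) (XT.nd (nat_lit 78) (nat_lit 304) (nat_lit 0) (XT.lf (nat_lit 0) (nat_lit 12180662708) (nat_lit 304) (nat_lit 1212743955) (nat_lit 76) (nat_lit 750585786) (nat_lit 63) (nat_lit 5) (nat_lit 67) (nat_lit 5) (nat_lit 64) (nat_lit 5) (nat_lit 329) (nat_lit 255) (nat_lit 196)) (XT.lf (nat_lit 0) (nat_lit 1416573952) (nat_lit 304) (nat_lit 8013476650) (nat_lit 76) (nat_lit 4993639211) (nat_lit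 59) (nat_lit 5) (nat_lit 63) (nat_lit 5) (nat_lit 60) (nat_lit 5) (nat_lit 330) (nat_lit 255) (nat_lit 195))) (XT.nd (nat_lit 78) (nat_lit 152) (nat_lit 0) (XT.lf (nat_lit 0) (nat_lit 4834853120) (nat_lit 304) (nat_lit 502231553) (nat_lit 76) (nat_lit 9374835124) (nat_lit 59) (nat_lit 5) (nat_lit 63) (nat_lit 5) (nat_lit 60) (nat_lit 5) (nat_lit 331) (nat_lit 255) (nat_lit 194)) (XT.lf (nat_lit 0) (nat_lit 7320917350) (nat_lit 152) (nat_lit 1070254663) (nat_lit 228) (nat_lit 6616577448) (nat_lit 57) (nat_lit 5) (nat_lit 59) (nat_lit 5) (nat_lit 60) (nat_lit 5) (nat_lit 332) (nat_lit 255) (nat_lit 193))))) (XT.nd (nat_lit 234) (nat_lit 304) (nat_lit 0) (XT.nd (nat_lit 78) (nat_lit 456) (nat_lit 0) (XT.lf (nat_lit 0) (nat_lit 12056653419) (nat_lit 228) (nat_lit 11837094) (nat_lit 76) (nat_lit 3243906322) (nat_lit 57) (nat_lit 5) (nat_lit 60) (nat_lit 5) (nat_lit 58) (nat_lit 5) (nat_lit 333) (nat_lit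 255) (nat_lit 192)) (XT.nd (nat_lit 78) (nat_lit 152) (nat_lit 0) (XT.lf (nat_lit 0) (nat_lit 256155090) (nat_lit 304) (nat_lit 7643432981) (nat_lit 76) (nat_lit 7724924484) (nat_lit 53) (nat_lit 5) (nat_lit 57) (nat_lit 5) (nat_lit 54) (nat_lit 5) (nat_lit 334) (nat_lit 255) (nat_lit 191)) (XT.lf (nat_lit 0) (nat_lit 184320234) (nat_lit 152) (nat_lit 3592058699) (nat_lit 228) (nat_lit 12169609161) (nat_lit 51) (nat_lit 5) (nat_lit 53) (nat_lit 5) (nat_lit 54) (nat_lit 5) (nat_lit 335) (nat_lit 255) (nat_lit 190)))) (XT.nd (nat_lit 156) (nat_lit 76) (nat_lit 0) (XT.nd (nat_lit 78) (nat_lit 228) (nat_lit 0) (XT.lf (nat_lit 0) (nat_lit 7455034590) (nat_lit 228) (nat_lit 7935425381) (nat_lit 76) (nat_lit 885078287) (nat_lit 51) (nat_lit 5) (nat_lit 54) (nat_lit 5) (nat_lit 52) (nat_lit 5) (nat_lit 336) (nat_lit 255) (nat_lit 189)) (XT.lf (nat_lit 0) (nat_lit 37035937) (nat_lit 228) (nat_lit 11210660636)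 (nat_lit 304) (nat_lit 5367183628) (nat_lit 48) (nat_lit 5) (nat_lit 51) (nat_lit 5) (nat_lit 52) (nat_lit 5) (nat_lit 337) (nat_lit 255) (nat_lit 188))) (XT.nd (nat_lit 78) (nat_lit 76) (nat_lit 0) (XT.lf (nat_lit 0) (nat_lit 8358140062) (nat_lit 228) (nat_lit 6844284940) (nat_lit 304) (nat_lit 1760543048) (nat_lit 48) (nat_lit 5) (nat_lit 51) (nat_lit 5) (nat_lit 52) (nat_lit 5) (nat_lit 338) (nat_lit 255) (nat_lit 187)) (XT.lf (nat_lit 0) (nat_lit 1884923591) (nat_lit 304) (nat_lit 463692216) (nat_lit 76) (nat_lit 14973269713) (nat_lit 47) (nat_lit 5) (nat_lit 51) (nat_lit 5) (nat_lit 48) (nat_lit 5) (nat_lit 339) (nat_lit 255) (nat_lit 186))))))) (XT.nd (nat_lit 1092) (nat_lit 836) (nat_lit 0) (XT.nd (nat_lit 546) (nat_lit 456) (nat_lit 0) (XT.nd (nat_lit 234) (nat_lit 380) (nat_lit 0) (XT.nd (nat_lit 78) (nat_lit 152) (nat_lit 0) (XT.lf (nat_lit 0) (nat_lit 5673709780) (nat_lit 228) (nat_lit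 9702550320) (nat_lit 76) (nat_lit 2312720295) (nat_lit 45) (nat_lit 5) (nat_lit 48) (nat_lit 5) (nat_lit 46) (nat_lit 5) (nat_lit 340) (nat_lit 255) (nat_lit 185)) (XT.nd (nat_lit 78) (nat_lit 152) (nat_lit 0) (XT.lf (nat_lit 0) (nat_lit 9574018644) (nat_lit 228) (nat_lit 1441665916) (nat_lit 76) (nat_lit 7051480442) (nat_lit 45) (nat_lit 5) (nat_lit 48) (nat_lit 5) (nat_lit 46) (nat_lit 5) (nat_lit 341) (nat_lit 255) (nat_lit 184)) (XT.lf (nat_lit 0) (nat_lit 7157213310) (nat_lit 152) (nat_lit 6473677078) (nat_lit 228) (nat_lit 4824630438) (nat_lit 43) (nat_lit 5) (nat_lit 45) (nat_lit 5) (nat_lit 46) (nat_lit 5) (nat_lit 342) (nat_lit 255) (nat_lit 183)))) (XT.nd (nat_lit 156) (nat_lit 152) (nat_lit 0) (XT.nd (nat_lit 78) (nat_lit 228) (nat_lit 0) (XT.lf (nat_lit 0) (nat_lit 15994602175) (nat_lit 152) (nat_lit 1800558925) (nat_lit 228) (nat_lit 1060807372) (nat_lit 43) (nat_lit 5) (nat_lit 45)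 (nat_lit 5) (nat_lit 46) (nat_lit 5) (nat_lit 343) (nat_lit 255) (nat_lit 182)) (XT.lf (nat_lit 0) (nat_lit 2818670773) (nat_lit 228) (nat_lit 13428419049) (nat_lit 76) (nat_lit 3018808237) (nat_lit 40) (nat_lit 5) (nat_lit 43) (nat_lit 5) (nat_lit 41) (nat_lit 5) (nat_lit 344) (nat_lit 255) (nat_lit 181))) (XT.nd (nat_lit 78) (nat_lit 152) (nat_lit 0) (XT.lf (nat_lit 0) (nat_lit 6812082947) (nat_lit 228) (nat_lit 4908274492) (nat_lit 76) (nat_lit 7966897796) (nat_lit 40) (nat_lit 5) (nat_lit 43) (nat_lit 5) (nat_lit 41) (nat_lit 5) (nat_lit 345) (nat_lit 255) (nat_lit 180)) (XT.lf (nat_lit 0) (nat_lit 3896574462) (nat_lit 152) (nat_lit 7038862075) (nat_lit 228) (nat_lit 9185523019) (nat_lit 38) (nat_lit 5) (nat_lit 40) (nat_lit 5) (nat_lit 41) (nat_lit 5) (nat_lit 346) (nat_lit 255) (nat_lit 179))))) (XT.nd (nat_lit 234) (nat_lit 228) (nat_lit 0) (XT.nd (nat_lit 78) (nat_lit 228) (nat_lit 0) (XT.lf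 (nat_lit 0) (nat_lit 13019707718) (nat_lit 152) (nat_lit 2185378648) (nat_lit 228) (nat_lit 5361921061) (nat_lit 38) (nat_lit 5) (nat_lit 40) (nat_lit 5) (nat_lit 41) (nat_lit 5) (nat_lit 347) (nat_lit 255) (nat_lit 178)) (XT.nd (nat_lit 78) (nat_lit 76) (nat_lit 0) (XT.lf (nat_lit 0) (nat_lit 1343532568) (nat_lit 152) (nat_lit 18272890186) (nat_lit 228) (nat_lit 1409616062) (nat_lit 36) (nat_lit 5) (nat_lit 38) (nat_lit 5) (nat_lit 39) (nat_lit 4) (nat_lit 348) (nat_lit 255) (nat_lit 177)) (XT.lf (nat_lit 0) (nat_lit 2681632714) (nat_lit 228) (nat_lit 10934546508) (nat_lit 76) (nat_lit 7879734731) (nat_lit 35) (nat_lit 5) (nat_lit 38) (nat_lit 5) (nat_lit 36) (nat_lit 5) (nat_lit 349) (nat_lit 255) (nat_lit 176)))) (XT.nd (nat_lit 156) (nat_lit 76) (nat_lit 0) (XT.nd (nat_lit 78) (nat_lit 152) (nat_lit 0) (XT.lf (nat_lit 0) (nat_lit 6841753507) (nat_lit 228) (nat_lit 1982590176) (nat_lit 76) (nat_lit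 13155898115) (nat_lit 35) (nat_lit 5) (nat_lit 38) (nat_lit 5) (nat_lit 36) (nat_lit 5) (nat_lit 350) (nat_lit 255) (nat_lit 175)) (XT.lf (nat_lit 0) (nat_lit 7337924269) (nat_lit 152) (nat_lit 3834500408) (nat_lit 228) (nat_lit 11305311276) (nat_lit 33) (nat_lit 5) (nat_lit 35) (nat_lit 5) (nat_lit 36) (nat_lit 5) (nat_lit 351) (nat_lit 255) (nat_lit 174))) (XT.nd (nat_lit 78) (nat_lit 76) (nat_lit 0) (XT.lf (nat_lit 0) (nat_lit 15641124584) (nat_lit 228) (nat_lit 6066935741) (nat_lit 76) (nat_lit 1281859968) (nat_lit 33) (nat_lit 5) (nat_lit 36) (nat_lit 5) (nat_lit 34) (nat_lit 4) (nat_lit 352) (nat_lit 255) (nat_lit 173)) (XT.lf (nat_lit 0) (nat_lit 3261737856) (nat_lit 76) (nat_lit 17027530183) (nat_lit 152) (nat_lit 3226849016) (nat_lit 32) (nat_lit 5) (nat_lit 33) (nat_lit 5) (nat_lit 34) (nat_lit 4) (nat_lit 353) (nat_lit 255) (nat_lit 172)))))) (XT.nd (nat_lit 546) (nat_lit 456) (nat_lit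 0) (XT.nd (nat_lit 234) (nat_lit 152) (nat_lit 0) (XT.nd (nat_lit 78) (nat_lit 152) (nat_lit 0) (XT.lf (nat_lit 0) (nat_lit 1036865295) (nat_lit 152) (nat_lit 11114165628) (nat_lit 76) (nat_lit 11905643233) (nat_lit 31) (nat_lit 5) (nat_lit 33) (nat_lit 5) (nat_lit 32) (nat_lit 5) (nat_lit 354) (nat_lit 255) (nat_lit 171)) (XT.nd (nat_lit 78) (nat_lit 152) (nat_lit 0) (XT.lf (nat_lit 0) (nat_lit 5340448244) (nat_lit 152) (nat_lit 1772609451) (nat_lit 76) (nat_lit 17500135053) (nat_lit 31) (nat_lit 5) (nat_lit 33) (nat_lit 5) (nat_lit 32) (nat_lit 5) (nat_lit 355) (nat_lit 255) (nat_lit 170)) (XT.lf (nat_lit 0) (nat_lit 7964894074) (nat_lit 152) (nat_lit 1862297049) (nat_lit 228) (nat_lit 15357601635) (nat_lit 29) (nat_lit 5) (nat_lit 31) (nat_lit 5) (nat_lit 32) (nat_lit 5) (nat_lit 356) (nat_lit 255) (nat_lit 169)))) (XT.nd (nat_lit 156) (nat_lit 76) (nat_lit 0) (XT.nd (nat_lit 78) (nat_lit 76)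 (nat_lit 0) (XT.lf (nat_lit 0) (nat_lit 14478301776) (nat_lit 228) (nat_lit 7816251239) (nat_lit 76) (nat_lit 3478102007) (nat_lit 29) (nat_lit 5) (nat_lit 32) (nat_lit 5) (nat_lit 30) (nat_lit 4) (nat_lit 357) (nat_lit 255) (nat_lit 168)) (XT.lf (nat_lit 0) (nat_lit 1848454021) (nat_lit 76) (nat_lit 17434953336) (nat_lit 152) (nat_lit 7094318958) (nat_lit 28) (nat_lit 5) (nat_lit 29) (nat_lit 5) (nat_lit 30) (nat_lit 4) (nat_lit 358) (nat_lit 255) (nat_lit 167))) (XT.nd (nat_lit 78) (nat_lit 76) (nat_lit 0) (XT.lf (nat_lit 0) (nat_lit 11925022153) (nat_lit 76) (nat_lit 12365092480) (nat_lit 152) (nat_lit 2709118460) (nat_lit 28) (nat_lit 5) (nat_lit 29) (nat_lit 5) (nat_lit 30) (nat_lit 4) (nat_lit 359) (nat_lit 255) (nat_lit 166)) (XT.lf (nat_lit 0) (nat_lit 1751296920) (nat_lit 152) (nat_lit 5390487699) (nat_lit 76) (nat_lit 20497717615) (nat_lit 27) (nat_lit 5) (nat_lit 29) (nat_lit 5) (nat_lit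 28) (nat_lit 5) (nat_lit 360) (nat_lit 255) (nat_lit 165))))) (XT.nd (nat_lit 312) (nat_lit 228) (nat_lit 0) (XT.nd (nat_lit 156) (nat_lit 76) (nat_lit 0) (XT.nd (nat_lit 78) (nat_lit 0) (nat_lit 0) (XT.lf (nat_lit 0) (nat_lit 4610370946) (nat_lit 152) (nat_lit 1704566941) (nat_lit 228) (nat_lit 21982527188) (nat_lit 25) (nat_lit 5) (nat_lit 27) (nat_lit 5) (nat_lit 28) (nat_lit 5) (nat_lit 361) (nat_lit 255) (nat_lit 164)) (XT.lf (nat_lit 0) (nat_lit 11087549688) (nat_lit 228) (nat_lit 14026385294) (nat_lit 76) (nat_lit 3859076016) (nat_lit 25) (nat_lit 5) (nat_lit 28) (nat_lit 5) (nat_lit 26) (nat_lit 4) (nat_lit 362) (nat_lit 255) (nat_lit 163))) (XT.nd (nat_lit 78) (nat_lit 76) (nat_lit 0) (XT.lf (nat_lit 0) (nat_lit 16000450535) (nat_lit 228) (nat_lit 4128284633) (nat_lit 76) (nat_lit 9540180678) (nat_lit 25) (nat_lit 5) (nat_lit 28) (nat_lit 5) (nat_lit 26) (nat_lit 4) (nat_lit 363) (nat_lit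 255) (nat_lit 162)) (XT.lf (nat_lit 0) (nat_lit 6152295463) (nat_lit 76) (nat_lit 14948392078) (nat_lit 152) (nat_lit 9283817522) (nat_lit 24) (nat_lit 5) (nat_lit 25) (nat_lit 5) (nat_lit 26) (nat_lit 4) (nat_lit 364) (nat_lit 255) (nat_lit 161)))) (XT.nd (nat_lit 156) (nat_lit 228) (nat_lit 0) (XT.nd (nat_lit 78) (nat_lit 0) (nat_lit 0) (XT.lf (nat_lit 0) (nat_lit 16791740124) (nat_lit 76) (nat_lit 9584919022) (nat_lit 152) (nat_lit 4744226520) (nat_lit 24) (nat_lit 5) (nat_lit 25) (nat_lit 5) (nat_lit 26) (nat_lit 4) (nat_lit 365) (nat_lit 255) (nat_lit 160)) (XT.lf (nat_lit 0) (nat_lit 27717184993) (nat_lit 76) (nat_lit 4075317049) (nat_lit 152) (nat_lit 87413250) (nat_lit 24) (nat_lit 5) (nat_lit 25) (nat_lit 5) (nat_lit 26) (nat_lit 4) (nat_lit 366) (nat_lit 255) (nat_lit 159))) (XT.nd (nat_lit 78) (nat_lit 0) (nat_lit 0) (XT.lf (nat_lit 0) (nat_lit 4676535059) (nat_lit 228) (nat_lit 26320525985)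 (nat_lit 76) (nat_lit 1661522156) (nat_lit 21) (nat_lit 5) (nat_lit 24) (nat_lit 5) (nat_lit 22) (nat_lit 4) (nat_lit 367) (nat_lit 255) (nat_lit 158)) (XT.lf (nat_lit 0) (nat_lit 9646469484) (nat_lit 228) (nat_lit 16294444168) (nat_lit 76) (nat_lit 7517731706) (nat_lit 21) (nat_lit 5) (nat_lit 24) (nat_lit 5) (nat_lit 22) (nat_lit 4) (nat_lit 368) (nat_lit 255) (nat_lit 157))))))))
noncomputable def xc91 : XT := (XT.nd (nat_lit 2184) (nat_lit 228) (nat_lit 0) (XT.nd (nat_lit 1092) (nat_lit 304) (nat_lit 0) (XT.nd (nat_lit 546) (nat_lit 228) (nat_lit 0) (XT.nd (nat_lit 234) (nat_lit 152) (nat_lit 0) (XT.nd (nat_lit 78) (nat_lit 76) (nat_lit 0) (XT.lf (nat_lit 0) (nat_lit 14748048842) (nat_lit 228) (nat_lit 5999291536) (nat_lit 76) (nat_lit 13535897369) (nat_lit 21) (nat_lit 5) (nat_lit 24) (nat_lit 5) (nat_lit 22) (nat_lit 4) (nat_lit 369) (nat_lit 255) (nat_lit 156)) (XT.nd (nat_lit 78) (nat_lit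 0) (nat_lit 0) (XT.lf (nat_lit 0) (nat_lit 4664957804) (nat_lit 76) (nat_lit 15365615445) (nat_lit 152) (nat_lit 15101162361) (nat_lit 20) (nat_lit 5) (nat_lit 21) (nat_lit 5) (nat_lit 22) (nat_lit 4) (nat_lit 370) (nat_lit 255) (nat_lit 155)) (XT.lf (nat_lit 0) (nat_lit 15741628064) (nat_lit 76) (nat_lit 9773782133) (nat_lit 152) (nat_lit 10488967605) (nat_lit 20) (nat_lit 5) (nat_lit 21) (nat_lit 5) (nat_lit 22) (nat_lit 4) (nat_lit 371) (nat_lit 255) (nat_lit 154)))) (XT.nd (nat_lit 156) (nat_lit 76) (nat_lit 0) (XT.nd (nat_lit 78) (nat_lit 76) (nat_lit 0) (XT.lf (nat_lit 0) (nat_lit 27121000222) (nat_lit 76) (nat_lit 4027535455) (nat_lit 152) (nat_lit 5755155648) (nat_lit 20) (nat_lit 5) (nat_lit 21) (nat_lit 5) (nat_lit 22) (nat_lit 4) (nat_lit 372) (nat_lit 255) (nat_lit 153)) (XT.lf (nat_lit 0) (nat_lit 983697019) (nat_lit 76) (nat_lit 35978684602) (nat_lit 76) (nat_lit 867255072) (nat_lit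 19) (nat_lit 4) (nat_lit 20) (nat_lit 5) (nat_lit 20) (nat_lit 4) (nat_lit 373) (nat_lit 255) (nat_lit 152))) (XT.nd (nat_lit 78) (nat_lit 0) (nat_lit 0) (XT.lf (nat_lit 0) (nat_lit 4209723652) (nat_lit 152) (nat_lit 26616821829) (nat_lit 76) (nat_lit 7951904388) (nat_lit 18) (nat_lit 5) (nat_lit 20) (nat_lit 5) (nat_lit 19) (nat_lit 4) (nat_lit 374) (nat_lit 255) (nat_lit 151)) (XT.lf (nat_lit 0) (nat_lit 9406162477) (nat_lit 152) (nat_lit 16117693066) (nat_lit 76) (nat_lit 14232080726) (nat_lit 18) (nat_lit 5) (nat_lit 20) (nat_lit 5) (nat_lit 19) (nat_lit 4) (nat_lit 375) (nat_lit 255) (nat_lit 150))))) (XT.nd (nat_lit 234) (nat_lit 152) (nat_lit 0) (XT.nd (nat_lit 78) (nat_lit 76) (nat_lit 0) (XT.lf (nat_lit 0) (nat_lit 14743525250) (nat_lit 152) (nat_lit 5331042805) (nat_lit 76) (nat_lit 20688632050) (nat_lit 18) (nat_lit 5) (nat_lit 20) (nat_lit 5) (nat_lit 19) (nat_lit 4) (nat_lit 376) (nat_lit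 255) (nat_lit 149)) (XT.nd (nat_lit 78) (nat_lit 0) (nat_lit 0) (XT.lf (nat_lit 0) (nat_lit 5867041291) (nat_lit 76) (nat_lit 14415831984) (nat_lit 152) (nat_lit 21516556307) (nat_lit 17) (nat_lit 5) (nat_lit 18) (nat_lit 5) (nat_lit 19) (nat_lit 4) (nat_lit 377) (nat_lit 255) (nat_lit 148)) (XT.lf (nat_lit 0) (nat_lit 17483957583) (nat_lit 76) (nat_lit 8543913624) (nat_lit 152) (nat_lit 16837694203) (nat_lit 17) (nat_lit 5) (nat_lit 18) (nat_lit 5) (nat_lit 19) (nat_lit 4) (nat_lit 378) (nat_lit 255) (nat_lit 147)))) (XT.nd (nat_lit 156) (nat_lit 152) (nat_lit 0) (XT.nd (nat_lit 78) (nat_lit 0) (nat_lit 0) (XT.lf (nat_lit 0) (nat_lit 29423758570) (nat_lit 76) (nat_lit 2507515252) (nat_lit 152) (nat_lit 12032833297) (nat_lit 17) (nat_lit 5) (nat_lit 18) (nat_lit 5) (nat_lit 19) (nat_lit 4) (nat_lit 379) (nat_lit 255) (nat_lit 146)) (XT.lf (nat_lit 0) (nat_lit 38033792999) (nat_lit 152) (nat_lit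 3434691081) (nat_lit 0) (nat_lit 3626463911) (nat_lit 17) (nat_lit 5) (nat_lit 19) (nat_lit 4) (nat_lit 17) (nat_lit 4) (nat_lit 380) (nat_lit 255) (nat_lit 145))) (XT.nd (nat_lit 78) (nat_lit 76) (nat_lit 0) (XT.lf (nat_lit 0) (nat_lit 8113182924) (nat_lit 76) (nat_lit 36295770039) (nat_lit 76) (nat_lit 1848077420) (nat_lit 16) (nat_lit 4) (nat_lit 17) (nat_lit 5) (nat_lit 17) (nat_lit 4) (nat_lit 381) (nat_lit 255) (nat_lit 144)) (XT.lf (nat_lit 0) (nat_lit 3474474431) (nat_lit 152) (nat_lit 27433697417) (nat_lit 76) (nat_lit 16544137057) (nat_lit 15) (nat_lit 5) (nat_lit 17) (nat_lit 5) (nat_lit 16) (nat_lit 4) (nat_lit 382) (nat_lit 255) (nat_lit 143)))))) (XT.nd (nat_lit 546) (nat_lit 152) (nat_lit 0) (XT.nd (nat_lit 234) (nat_lit 76) (nat_lit 0) (XT.nd (nat_lit 78) (nat_lit 76) (nat_lit 0) (XT.lf (nat_lit 0) (nat_lit 8906713609) (nat_lit 152) (nat_lit 16444298386) (nat_lit 76) (nat_lit 23332273170)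 (nat_lit 15) (nat_lit 5) (nat_lit 17) (nat_lit 5) (nat_lit 16) (nat_lit 4) (nat_lit 383) (nat_lit 255) (nat_lit 142)) (XT.nd (nat_lit 78) (nat_lit 76) (nat_lit 0) (XT.lf (nat_lit 0) (nat_lit 14489449376) (nat_lit 152) (nat_lit 5148283128) (nat_lit 76) (nat_lit 30313835213) (nat_lit 15) (nat_lit 5) (nat_lit 17) (nat_lit 5) (nat_lit 16) (nat_lit 4) (nat_lit 384) (nat_lit 255) (nat_lit 141)) (XT.lf (nat_lit 0) (nat_lit 6592869287) (nat_lit 76) (nat_lit 13698065256) (nat_lit 152) (nat_lit 30965428986) (nat_lit 14) (nat_lit 5) (nat_lit 15) (nat_lit 5) (nat_lit 16) (nat_lit 4) (nat_lit 385) (nat_lit 255) (nat_lit 140)))) (XT.nd (nat_lit 156) (nat_lit 76) (nat_lit 0) (XT.nd (nat_lit 78) (nat_lit 0) (nat_lit 0) (XT.lf (nat_lit 0) (nat_lit 18769616654) (nat_lit 76) (nat_lit 7536867300) (nat_lit 152) (nat_lit 26292621392) (nat_lit 14) (nat_lit 5) (nat_lit 15) (nat_lit 5) (nat_lit 16) (nat_lit 4) (nat_lit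 386) (nat_lit 255) (nat_lit 139)) (XT.lf (nat_lit 0) (nat_lit 31290137920) (nat_lit 76) (nat_lit 1200742629) (nat_lit 152) (nat_lit 21491600090) (nat_lit 14) (nat_lit 5) (nat_lit 15) (nat_lit 5) (nat_lit 16) (nat_lit 4) (nat_lit 387) (nat_lit 255) (nat_lit 138))) (XT.nd (nat_lit 78) (nat_lit 76) (nat_lit 0) (XT.lf (nat_lit 0) (nat_lit 38900627327) (nat_lit 152) (nat_lit 11293423993) (nat_lit 0) (nat_lit 5212113888) (nat_lit 14) (nat_lit 5) (nat_lit 16) (nat_lit 4) (nat_lit 14) (nat_lit 4) (nat_lit 388) (nat_lit 255) (nat_lit 137)) (XT.lf (nat_lit 0) (nat_lit 423299889) (nat_lit 76) (nat_lit 45084282087) (nat_lit 76) (nat_lit 11364833363) (nat_lit 13) (nat_lit 4) (nat_lit 14) (nat_lit 5) (nat_lit 14) (nat_lit 4) (nat_lit 389) (nat_lit 255) (nat_lit 136))))) (XT.nd (nat_lit 234) (nat_lit 76) (nat_lit 0) (XT.nd (nat_lit 78) (nat_lit 76) (nat_lit 0) (XT.lf (nat_lit 0) (nat_lit 12702696950) (nat_lit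 76) (nat_lit 39713173830) (nat_lit 76) (nat_lit 5963690848) (nat_lit 13) (nat_lit 4) (nat_lit 14) (nat_lit 5) (nat_lit 14) (nat_lit 4) (nat_lit 390) (nat_lit 255) (nat_lit 135)) (XT.nd (nat_lit 78) (nat_lit 76) (nat_lit 0) (XT.lf (nat_lit 0) (nat_lit 25330735479) (nat_lit 76) (nat_lit 34190074785) (nat_lit 76) (nat_lit 411432328) (nat_lit 13) (nat_lit 4) (nat_lit 14) (nat_lit 5) (nat_lit 14) (nat_lit 4) (nat_lit 391) (nat_lit 255) (nat_lit 134)) (XT.lf (nat_lit 0) (nat_lit 5193434159) (nat_lit 152) (nat_lit 23264281281) (nat_lit 76) (nat_lit 33072572022) (nat_lit 12) (nat_lit 5) (nat_lit 14) (nat_lit 5) (nat_lit 13) (nat_lit 4) (nat_lit 392) (nat_lit 255) (nat_lit 133)))) (XT.nd (nat_lit 156) (nat_lit 0) (nat_lit 0) (XT.nd (nat_lit 78) (nat_lit 76) (nat_lit 0) (XT.lf (nat_lit 0) (nat_lit 10948086565) (nat_lit 152) (nat_lit 11609822496) (nat_lit 76) (nat_lit 40618547279) (nat_lit 12) (nat_lit 5)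 (nat_lit 14) (nat_lit 5) (nat_lit 13) (nat_lit 4) (nat_lit 393) (nat_lit 255) (nat_lit 132)) (XT.lf (nat_lit 0) (nat_lit 383490977) (nat_lit 76) (nat_lit 16485777127) (nat_lit 152) (nat_lit 48002927581) (nat_lit 11) (nat_lit 5) (nat_lit 12) (nat_lit 5) (nat_lit 13) (nat_lit 4) (nat_lit 394) (nat_lit 255) (nat_lit 131))) (XT.nd (nat_lit 78) (nat_lit 0) (nat_lit 0) (XT.lf (nat_lit 0) (nat_lit 12956510514) (nat_lit 76) (nat_lit 10119125744) (nat_lit 152) (nat_lit 43539946441) (nat_lit 11) (nat_lit 5) (nat_lit 12) (nat_lit 5) (nat_lit 13) (nat_lit 4) (nat_lit 395) (nat_lit 255) (nat_lit 130)) (XT.lf (nat_lit 0) (nat_lit 25889164014) (nat_lit 76) (nat_lit 3569628262) (nat_lit 152) (nat_lit 38952763108) (nat_lit 11) (nat_lit 5) (nat_lit 12) (nat_lit 5) (nat_lit 13) (nat_lit 4) (nat_lit 396) (nat_lit 255) (nat_lit 129))))))) (XT.nd (nat_lit 1092) (nat_lit 0) (nat_lit 0) (XT.nd (nat_lit 546) (nat_lit 152)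 (nat_lit 0) (XT.nd (nat_lit 234) (nat_lit 76) (nat_lit 0) (XT.nd (nat_lit 78) (nat_lit 0) (nat_lit 0) (XT.lf (nat_lit 0) (nat_lit 36054770642) (nat_lit 152) (nat_lit 31099388150) (nat_lit 0) (nat_lit 3106610537) (nat_lit 11) (nat_lit 5) (nat_lit 13) (nat_lit 4) (nat_lit 11) (nat_lit 4) (nat_lit 397) (nat_lit 255) (nat_lit 128)) (XT.nd (nat_lit 78) (nat_lit 0) (nat_lit 0) (XT.lf (nat_lit 0) (nat_lit 42875033938) (nat_lit 152) (nat_lit 19385780367) (nat_lit 0) (nat_lit 9903855074) (nat_lit 11) (nat_lit 5) (nat_lit 13) (nat_lit 4) (nat_lit 11) (nat_lit 4) (nat_lit 398) (nat_lit 255) (nat_lit 127)) (XT.lf (nat_lit 0) (nat_lit 49891228166) (nat_lit 152) (nat_lit 7337019377) (nat_lit 0) (nat_lit 16897700994) (nat_lit 11) (nat_lit 5) (nat_lit 13) (nat_lit 4) (nat_lit 11) (nat_lit 4) (nat_lit 399) (nat_lit 255) (nat_lit 126)))) (XT.nd (nat_lit 156) (nat_lit 0) (nat_lit 0) (XT.nd (nat_lit 78) (nat_lit 0)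 (nat_lit 0) (XT.lf (nat_lit 0) (nat_lit 5158075491) (nat_lit 76) (nat_lit 52000991068) (nat_lit 76) (nat_lit 18985766509) (nat_lit 10) (nat_lit 4) (nat_lit 11) (nat_lit 5) (nat_lit 11) (nat_lit 4) (nat_lit 400) (nat_lit 255) (nat_lit 125)) (XT.lf (nat_lit 0) (nat_lit 18162798052) (nat_lit 76) (nat_lit 46547902475) (nat_lit 76) (nat_lit 13511612491) (nat_lit 10) (nat_lit 4) (nat_lit 11) (nat_lit 5) (nat_lit 11) (nat_lit 4) (nat_lit 401) (nat_lit 255) (nat_lit 124))) (XT.nd (nat_lit 78) (nat_lit 0) (nat_lit 0) (XT.lf (nat_lit 0) (nat_lit 31542490581) (nat_lit 76) (nat_lit 40938306439) (nat_lit 76) (nat_lit 7881564587) (nat_lit 10) (nat_lit 4) (nat_lit 11) (nat_lit 5) (nat_lit 11) (nat_lit 4) (nat_lit 402) (nat_lit 255) (nat_lit 123)) (XT.lf (nat_lit 0) (nat_lit 45308844073) (nat_lit 76) (nat_lit 35167301372) (nat_lit 76) (nat_lit 2090703337) (nat_lit 10) (nat_lit 4) (nat_lit 11) (nat_lit 5) (nat_lit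 11) (nat_lit 4) (nat_lit 403) (nat_lit 255) (nat_lit 122))))) (XT.nd (nat_lit 234) (nat_lit 76) (nat_lit 0) (XT.nd (nat_lit 78) (nat_lit 0) (nat_lit 0) (XT.lf (nat_lit 0) (nat_lit 3790591039) (nat_lit 152) (nat_lit 25400976071) (nat_lit 76) (nat_lit 55645018802) (nat_lit 9) (nat_lit 5) (nat_lit 11) (nat_lit 5) (nat_lit 10) (nat_lit 4) (nat_lit 404) (nat_lit 255) (nat_lit 121)) (XT.nd (nat_lit 78) (nat_lit 0) (nat_lit 0) (XT.lf (nat_lit 0) (nat_lit 9798828147) (nat_lit 152) (nat_lit 13222971099) (nat_lit 76) (nat_lit 64152220624) (nat_lit 9) (nat_lit 5) (nat_lit 11) (nat_lit 5) (nat_lit 10) (nat_lit 4) (nat_lit 405) (nat_lit 255) (nat_lit 120)) (XT.lf (nat_lit 0) (nat_lit 15980055053) (nat_lit 152) (nat_lit 693251700) (nat_lit 76) (nat_lit 72908489233) (nat_lit 9) (nat_lit 5) (nat_lit 11) (nat_lit 5) (nat_lit 10) (nat_lit 4) (nat_lit 406) (nat_lit 255) (nat_lit 119)))) (XT.nd (nat_lit 156) (nat_lit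 0) (nat_lit 0) (XT.nd (nat_lit 78) (nat_lit 0) (nat_lit 0) (XT.lf (nat_lit 0) (nat_lit 12441917041) (nat_lit 76) (nat_lit 10017355107) (nat_lit 152) (nat_lit 69599158016) (nat_lit 8) (nat_lit 5) (nat_lit 9) (nat_lit 5) (nat_lit 10) (nat_lit 4) (nat_lit 407) (nat_lit 255) (nat_lit 118)) (XT.lf (nat_lit 0) (nat_lit 25972252664) (nat_lit 76) (nat_lit 3160646942) (nat_lit 152) (nat_lit 65476464083) (nat_lit 8) (nat_lit 5) (nat_lit 9) (nat_lit 5) (nat_lit 10) (nat_lit 4) (nat_lit 408) (nat_lit 255) (nat_lit 117))) (XT.nd (nat_lit 78) (nat_lit 0) (nat_lit 0) (XT.lf (nat_lit 0) (nat_lit 36037421063) (nat_lit 152) (nat_lit 57378697604) (nat_lit 0) (nat_lit 3819787298) (nat_lit 8) (nat_lit 5) (nat_lit 10) (nat_lit 4) (nat_lit 8) (nat_lit 4) (nat_lit 409) (nat_lit 255) (nat_lit 116)) (XT.lf (nat_lit 0) (nat_lit 43173749413) (nat_lit 152) (nat_lit 45826315228) (nat_lit 0) (nat_lit 10940440993) (nat_lit 8)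 (nat_lit 5) (nat_lit 10) (nat_lit 4) (nat_lit 8) (nat_lit 4) (nat_lit 410) (nat_lit 255) (nat_lit 115)))))) (XT.nd (nat_lit 29874) (nat_lit 0) (nat_lit 19000) (XT.nd (nat_lit 29562) (nat_lit 0) (nat_lit 22724) (XT.nd (nat_lit 78) (nat_lit 0) (nat_lit 0) (XT.lf (nat_lit 0) (nat_lit 50517738211) (nat_lit 152) (nat_lit 33939487509) (nat_lit 0) (nat_lit 18269211680) (nat_lit 8) (nat_lit 5) (nat_lit 10) (nat_lit 4) (nat_lit 8) (nat_lit 4) (nat_lit 411) (nat_lit 255) (nat_lit 114)) (XT.nd (nat_lit 29406) (nat_lit 0) (nat_lit 23636) (XT.lf (nat_lit 0) (nat_lit 58075804534) (nat_lit 152) (nat_lit 21707827900) (nat_lit 0) (nat_lit 25812503139) (nat_lit 8) (nat_lit 5) (nat_lit 10) (nat_lit 4) (nat_lit 8) (nat_lit 4) (nat_lit 412) (nat_lit 255) (nat_lit 113)) (XT.lf (nat_lit 0) (nat_lit 119891330) (nat_lit 380) (nat_lit 3016770523) (nat_lit 0) (nat_lit 119891330) (nat_lit 319) (nat_lit 5) (nat_lit 324) (nat_lit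 4) (nat_lit 319) (nat_lit 4) (nat_lit 268) (nat_lit 256) (nat_lit 256)))) (XT.nd (nat_lit 156) (nat_lit 532) (nat_lit 0) (XT.nd (nat_lit 78) (nat_lit 380) (nat_lit 0) (XT.lf (nat_lit 0) (nat_lit 3270875281) (nat_lit 380) (nat_lit 2446943634) (nat_lit 0) (nat_lit 814111561) (nat_lit 319) (nat_lit 5) (nat_lit 324) (nat_lit 4) (nat_lit 319) (nat_lit 4) (nat_lit 269) (nat_lit 256) (nat_lit 255)) (XT.lf (nat_lit 0) (nat_lit 1197826877) (nat_lit 380) (nat_lit 5099264970) (nat_lit 380) (nat_lit 257293755) (nat_lit 314) (nat_lit 4) (nat_lit 319) (nat_lit 5) (nat_lit 319) (nat_lit 4) (nat_lit 270) (nat_lit 256) (nat_lit 254))) (XT.nd (nat_lit 78) (nat_lit 456) (nat_lit 0) (XT.lf (nat_lit 0) (nat_lit 2700071205) (nat_lit 456) (nat_lit 1676562100) (nat_lit 76) (nat_lit 2202678796) (nat_lit 313) (nat_lit 5) (nat_lit 319) (nat_lit 5) (nat_lit 314) (nat_lit 4) (nat_lit 271) (nat_lit 256) (nat_lit 253)) (XT.lf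 (nat_lit 0) (nat_lit 2079657052) (nat_lit 456) (nat_lit 3578298872) (nat_lit 532) (nat_lit 949620674) (nat_lit 307) (nat_lit 5) (nat_lit 313) (nat_lit 5) (nat_lit 314) (nat_lit 4) (nat_lit 272) (nat_lit 256) (nat_lit 252))))) (XT.nd (nat_lit 312) (nat_lit 2432) (nat_lit 0) (XT.nd (nat_lit 156) (nat_lit 684) (nat_lit 0) (XT.nd (nat_lit 78) (nat_lit 532) (nat_lit 0) (XT.lf (nat_lit 0) (nat_lit 1942761927) (nat_lit 532) (nat_lit 746992547) (nat_lit 76) (nat_lit 3949047093) (nat_lit 306) (nat_lit 5) (nat_lit 313) (nat_lit 5) (nat_lit 307) (nat_lit 5) (nat_lit 273) (nat_lit 256) (nat_lit 251)) (XT.lf (nat_lit 0) (nat_lit 3127437504) (nat_lit 532) (nat_lit 1706550157) (nat_lit 608) (nat_lit 1838919637) (nat_lit 299) (nat_lit 5) (nat_lit 306) (nat_lit 5) (nat_lit 307) (nat_lit 5) (nat_lit 274) (nat_lit 256) (nat_lit 250))) (XT.nd (nat_lit 78) (nat_lit 0) (nat_lit 0) (XT.lf (nat_lit 0) (nat_lit 348775877)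 (nat_lit 608) (nat_lit 646751606) (nat_lit 684) (nat_lit 5714947313) (nat_lit 290) (nat_lit 5) (nat_lit 298) (nat_lit 5) (nat_lit 299) (nat_lit 5) (nat_lit 275) (nat_lit 256) (nat_lit 249)) (XT.lf (nat_lit 0) (nat_lit 3823044650) (nat_lit 684) (nat_lit 2413879397) (nat_lit 76) (nat_lit 513496321) (nat_lit 290) (nat_lit 5) (nat_lit 299) (nat_lit 5) (nat_lit 291) (nat_lit 5) (nat_lit 276) (nat_lit 256) (nat_lit 248)))) (XT.nd (nat_lit 156) (nat_lit 1672) (nat_lit 0) (XT.nd (nat_lit 78) (nat_lit 76) (nat_lit 0) (XT.lf (nat_lit 0) (nat_lit 1603995194) (nat_lit 684) (nat_lit 5060558124) (nat_lit 760) (nat_lit 129278894) (nat_lit 281) (nat_lit 5) (nat_lit 290) (nat_lit 5) (nat_lit 291) (nat_lit 5) (nat_lit 277) (nat_lit 256) (nat_lit 247)) (XT.lf (nat_lit 0) (nat_lit 2631972934) (nat_lit 760) (nat_lit 1147146358) (nat_lit 76) (nat_lit 3060780115) (nat_lit 280) (nat_lit 5) (nat_lit 290) (nat_lit 5) (nat_lit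 281) (nat_lit 5) (nat_lit 278) (nat_lit 256) (nat_lit 246))) (XT.nd (nat_lit 78) (nat_lit 912) (nat_lit 0) (XT.lf (nat_lit 0) (nat_lit 3001774014) (nat_lit 760) (nat_lit 2411526937) (nat_lit 836) (nat_lit 1475944918) (nat_lit 270) (nat_lit 5) (nat_lit 280) (nat_lit 5) (nat_lit 281) (nat_lit 5) (nat_lit 279) (nat_lit 256) (nat_lit 245)) (XT.lf (nat_lit 0) (nat_lit 277884573) (nat_lit 836) (nat_lit 960271475) (nat_lit 912) (nat_lit 5703866009) (nat_lit 258) (nat_lit 5) (nat_lit 269) (nat_lit 5) (nat_lit 270) (nat_lit 5) (nat_lit 280) (nat_lit 256) (nat_lit 244))))))))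
noncomputable def xc92 : XT := (XT.nd (nat_lit 2184) (nat_lit 4560) (nat_lit 0) (XT.nd (nat_lit 1092) (nat_lit 4256) (nat_lit 0) (XT.nd (nat_lit 546) (nat_lit 2660) (nat_lit 0) (XT.nd (nat_lit 234) (nat_lit 3268) (nat_lit 0) (XT.nd (nat_lit 78) (nat_lit 988) (nat_lit 0) (XT.lf (nat_lit 0) (nat_lit 3962692464) (nat_lit 912) (nat_lit 2443081911) (nat_lit 76) (nat_lit 591528099) (nat_lit 258) (nat_lit 5) (nat_lit 270) (nat_lit 5) (nat_lit 259) (nat_lit 5) (nat_lit 281) (nat_lit 256) (nat_lit 243)) (XT.nd (nat_lit 78) (nat_lit 76) (nat_lit 0) (XT.lf (nat_lit 0) (nat_lit 1857926338) (nat_lit 912) (nat_lit 4854808502) (nat_lit 988) (nat_lit 343309548) (nat_lit 246) (nat_lit 5) (nat_lit 258) (nat_lit 5) (nat_lit 259) (nat_lit 5) (nat_lit 282) (nat_lit 256) (nat_lit 242)) (XT.lf (nat_lit 0) (nat_lit 2323468834) (nat_lit 988) (nat_lit 875816893) (nat_lit 76) (nat_lit 3918407981) (nat_lit 245) (nat_lit 5)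 (nat_lit 258) (nat_lit 5) (nat_lit 246) (nat_lit 5) (nat_lit 283) (nat_lit 256) (nat_lit 241)))) (XT.nd (nat_lit 156) (nat_lit 1140) (nat_lit 0) (XT.nd (nat_lit 78) (nat_lit 1140) (nat_lit 0) (XT.lf (nat_lit 0) (nat_lit 3570125674) (nat_lit 988) (nat_lit 1447171660) (nat_lit 1064) (nat_lit 2165281116) (nat_lit 232) (nat_lit 5) (nat_lit 245) (nat_lit 5) (nat_lit 246) (nat_lit 5) (nat_lit 284) (nat_lit 256) (nat_lit 240)) (XT.lf (nat_lit 0) (nat_lit 473227879) (nat_lit 1140) (nat_lit 6398551567) (nat_lit 76) (nat_lit 379335539) (nat_lit 217) (nat_lit 5) (nat_lit 232) (nat_lit 5) (nat_lit 218) (nat_lit 5) (nat_lit 285) (nat_lit 256) (nat_lit 239))) (XT.nd (nat_lit 78) (nat_lit 1140) (nat_lit 0) (XT.lf (nat_lit 0) (nat_lit 3120614504) (nat_lit 1140) (nat_lit 1906200074) (nat_lit 76) (nat_lit 2295149915) (nat_lit 217) (nat_lit 5) (nat_lit 232) (nat_lit 5) (nat_lit 218) (nat_lit 5) (nat_lit 286) (nat_lit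 256) (nat_lit 238)) (XT.lf (nat_lit 0) (nat_lit 2700768715) (nat_lit 1140) (nat_lit 3096959209) (nat_lit 1216) (nat_lit 1598796870) (nat_lit 202) (nat_lit 5) (nat_lit 217) (nat_lit 5) (nat_lit 218) (nat_lit 5) (nat_lit 287) (nat_lit 256) (nat_lit 237))))) (XT.nd (nat_lit 234) (nat_lit 1216) (nat_lit 0) (XT.nd (nat_lit 78) (nat_lit 1368) (nat_lit 0) (XT.lf (nat_lit 0) (nat_lit 1005191684) (nat_lit 1216) (nat_lit 72034264) (nat_lit 76) (nat_lit 6397538942) (nat_lit 201) (nat_lit 5) (nat_lit 217) (nat_lit 5) (nat_lit 202) (nat_lit 5) (nat_lit 288) (nat_lit 256) (nat_lit 236)) (XT.nd (nat_lit 78) (nat_lit 608) (nat_lit 0) (XT.lf (nat_lit 0) (nat_lit 3637764082) (nat_lit 836) (nat_lit 2871447523) (nat_lit 76) (nat_lit 1046274190) (nat_lit 191) (nat_lit 5) (nat_lit 202) (nat_lit 5) (nat_lit 192) (nat_lit 5) (nat_lit 289) (nat_lit 256) (nat_lit 235)) (XT.lf (nat_lit 0) (nat_lit 1898943752) (nat_lit 608)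 (nat_lit 4408680638) (nat_lit 684) (nat_lit 1332338545) (nat_lit 183) (nat_lit 5) (nat_lit 191) (nat_lit 5) (nat_lit 192) (nat_lit 5) (nat_lit 290) (nat_lit 256) (nat_lit 234)))) (XT.nd (nat_lit 156) (nat_lit 608) (nat_lit 0) (XT.nd (nat_lit 78) (nat_lit 532) (nat_lit 0) (XT.lf (nat_lit 0) (nat_lit 1263190566) (nat_lit 684) (nat_lit 941745530) (nat_lit 76) (nat_lit 5522977207) (nat_lit 182) (nat_lit 5) (nat_lit 191) (nat_lit 5) (nat_lit 183) (nat_lit 5) (nat_lit 291) (nat_lit 256) (nat_lit 233)) (XT.lf (nat_lit 0) (nat_lit 3880636901) (nat_lit 608) (nat_lit 3825654643) (nat_lit 76) (nat_lit 112766801) (nat_lit 175) (nat_lit 5) (nat_lit 183) (nat_lit 5) (nat_lit 176) (nat_lit 5) (nat_lit 292) (nat_lit 256) (nat_lit 232))) (XT.nd (nat_lit 78) (nat_lit 76) (nat_lit 0) (XT.lf (nat_lit 0) (nat_lit 1109915814) (nat_lit 532) (nat_lit 5441403828) (nat_lit 608) (nat_lit 1362451276) (nat_lit 168) (nat_lit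 5) (nat_lit 175) (nat_lit 5) (nat_lit 176) (nat_lit 5) (nat_lit 293) (nat_lit 256) (nat_lit 231)) (XT.lf (nat_lit 0) (nat_lit 1237774412) (nat_lit 608) (nat_lit 1824742343) (nat_lit 76) (nat_lit 4949341231) (nat_lit 167) (nat_lit 5) (nat_lit 175) (nat_lit 5) (nat_lit 168) (nat_lit 5) (nat_lit 294) (nat_lit 256) (nat_lit 230)))))) (XT.nd (nat_lit 546) (nat_lit 1748) (nat_lit 0) (XT.nd (nat_lit 234) (nat_lit 1368) (nat_lit 0) (XT.nd (nat_lit 78) (nat_lit 608) (nat_lit 0) (XT.lf (nat_lit 0) (nat_lit 3282698301) (nat_lit 532) (nat_lit 572577460) (nat_lit 608) (nat_lit 4258275875) (nat_lit 160) (nat_lit 5) (nat_lit 167) (nat_lit 5) (nat_lit 168) (nat_lit 5) (nat_lit 295) (nat_lit 256) (nat_lit 229)) (XT.nd (nat_lit 78) (nat_lit 76) (nat_lit 0) (XT.lf (nat_lit 0) (nat_lit 276265124) (nat_lit 532) (nat_lit 6251687168) (nat_lit 608) (nat_lit 1691110555) (nat_lit 153) (nat_lit 5) (nat_lit 160) (nat_lit 5)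 (nat_lit 161) (nat_lit 5) (nat_lit 296) (nat_lit 256) (nat_lit 228)) (XT.lf (nat_lit 0) (nat_lit 926124175) (nat_lit 608) (nat_lit 2779391329) (nat_lit 76) (nat_lit 4622261929) (nat_lit 152) (nat_lit 5) (nat_lit 160) (nat_lit 5) (nat_lit 153) (nat_lit 5) (nat_lit 297) (nat_lit 256) (nat_lit 227)))) (XT.nd (nat_lit 156) (nat_lit 912) (nat_lit 0) (XT.nd (nat_lit 78) (nat_lit 0) (nat_lit 0) (XT.lf (nat_lit 0) (nat_lit 2499662926) (nat_lit 456) (nat_lit 1050812880) (nat_lit 532) (nat_lit 4889958290) (nat_lit 146) (nat_lit 5) (nat_lit 152) (nat_lit 5) (nat_lit 153) (nat_lit 5) (nat_lit 298) (nat_lit 256) (nat_lit 226)) (XT.lf (nat_lit 0) (nat_lit 6237658913) (nat_lit 532) (nat_lit 650385121) (nat_lit 76) (nat_lit 1668962263) (nat_lit 146) (nat_lit 5) (nat_lit 153) (nat_lit 5) (nat_lit 147) (nat_lit 5) (nat_lit 299) (nat_lit 256) (nat_lit 225))) (XT.nd (nat_lit 78) (nat_lit 380) (nat_lit 0) (XT.lf (nat_lit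 0) (nat_lit 319891079) (nat_lit 532) (nat_lit 3868373910) (nat_lit 76) (nat_lit 4488833950) (nat_lit 139) (nat_lit 5) (nat_lit 146) (nat_lit 5) (nat_lit 140) (nat_lit 5) (nat_lit 300) (nat_lit 256) (nat_lit 224)) (XT.lf (nat_lit 0) (nat_lit 1581397156) (nat_lit 380) (nat_lit 1373875544) (nat_lit 456) (nat_lit 5845979139) (nat_lit 134) (nat_lit 5) (nat_lit 139) (nat_lit 5) (nat_lit 140) (nat_lit 5) (nat_lit 301) (nat_lit 256) (nat_lit 223))))) (XT.nd (nat_lit 234) (nat_lit 836) (nat_lit 0) (XT.nd (nat_lit 78) (nat_lit 912) (nat_lit 0) (XT.lf (nat_lit 0) (nat_lit 5666472239) (nat_lit 456) (nat_lit 1740771541) (nat_lit 76) (nat_lit 1522035157) (nat_lit 134) (nat_lit 5) (nat_lit 140) (nat_lit 5) (nat_lit 135) (nat_lit 5) (nat_lit 302) (nat_lit 256) (nat_lit 222)) (XT.nd (nat_lit 78) (nat_lit 456) (nat_lit 0) (XT.lf (nat_lit 0) (nat_lit 3895457068) (nat_lit 456) (nat_lit 4558917389) (nat_lit 532) (nat_lit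 606962168) (nat_lit 128) (nat_lit 5) (nat_lit 134) (nat_lit 5) (nat_lit 135) (nat_lit 5) (nat_lit 303) (nat_lit 256) (nat_lit 221)) (XT.lf (nat_lit 0) (nat_lit 457822004) (nat_lit 380) (nat_lit 1596040402) (nat_lit 456) (nat_lit 7143922456) (nat_lit 122) (nat_lit 5) (nat_lit 127) (nat_lit 5) (nat_lit 128) (nat_lit 5) (nat_lit 304) (nat_lit 256) (nat_lit 220)))) (XT.nd (nat_lit 156) (nat_lit 456) (nat_lit 0) (XT.nd (nat_lit 78) (nat_lit 380) (nat_lit 0) (XT.lf (nat_lit 0) (nat_lit 4794473787) (nat_lit 456) (nat_lit 3072101069) (nat_lit 76) (nat_lit 1471253033) (nat_lit 122) (nat_lit 5) (nat_lit 128) (nat_lit 5) (nat_lit 123) (nat_lit 5) (nat_lit 305) (nat_lit 256) (nat_lit 219)) (XT.lf (nat_lit 0) (nat_lit 2734469814) (nat_lit 380) (nat_lit 4871995610) (nat_lit 456) (nat_lit 1875977041) (nat_lit 117) (nat_lit 5) (nat_lit 122) (nat_lit 5) (nat_lit 123) (nat_lit 5) (nat_lit 306) (nat_lit 256) (nat_lit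 218))) (XT.nd (nat_lit 78) (nat_lit 380) (nat_lit 0) (XT.lf (nat_lit 0) (nat_lit 833147923) (nat_lit 456) (nat_lit 930233454) (nat_lit 76) (nat_lit 7868443396) (nat_lit 116) (nat_lit 5) (nat_lit 122) (nat_lit 5) (nat_lit 117) (nat_lit 5) (nat_lit 307) (nat_lit 256) (nat_lit 217)) (XT.lf (nat_lit 0) (nat_lit 3597900018) (nat_lit 456) (nat_lit 4724359397) (nat_lit 76) (nat_lit 1462551442) (nat_lit 111) (nat_lit 5) (nat_lit 117) (nat_lit 5) (nat_lit 112) (nat_lit 5) (nat_lit 308) (nat_lit 256) (nat_lit 216))))))) (XT.nd (nat_lit 1092) (nat_lit 1900) (nat_lit 0) (XT.nd (nat_lit 546) (nat_lit 1216) (nat_lit 0) (XT.nd (nat_lit 234) (nat_lit 684) (nat_lit 0) (XT.nd (nat_lit 78) (nat_lit 380) (nat_lit 0) (XT.lf (nat_lit 0) (nat_lit 1246585457) (nat_lit 380) (nat_lit 5187561044) (nat_lit 456) (nat_lit 3508623553) (nat_lit 106) (nat_lit 5) (nat_lit 111) (nat_lit 5) (nat_lit 112) (nat_lit 5) (nat_lit 309)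 (nat_lit 256) (nat_lit 215)) (XT.nd (nat_lit 78) (nat_lit 380) (nat_lit 0) (XT.lf (nat_lit 0) (nat_lit 7426161379) (nat_lit 380) (nat_lit 1927468843) (nat_lit 456) (nat_lit 751932226) (nat_lit 106) (nat_lit 5) (nat_lit 111) (nat_lit 5) (nat_lit 112) (nat_lit 5) (nat_lit 310) (nat_lit 256) (nat_lit 214)) (XT.lf (nat_lit 0) (nat_lit 2045851748) (nat_lit 380) (nat_lit 6787506819) (nat_lit 76) (nat_lit 1439340983) (nat_lit 101) (nat_lit 5) (nat_lit 106) (nat_lit 5) (nat_lit 102) (nat_lit 5) (nat_lit 311) (nat_lit 256) (nat_lit 213)))) (XT.nd (nat_lit 156) (nat_lit 380) (nat_lit 0) (XT.nd (nat_lit 78) (nat_lit 304) (nat_lit 0) (XT.lf (nat_lit 0) (nat_lit 4910850105) (nat_lit 380) (nat_lit 648219353) (nat_lit 76) (nat_lit 4885641756) (nat_lit 101) (nat_lit 5) (nat_lit 106) (nat_lit 5) (nat_lit 102) (nat_lit 5) (nat_lit 312) (nat_lit 256) (nat_lit 212)) (XT.lf (nat_lit 0) (nat_lit 5721819340) (nat_lit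 304) (nat_lit 2148364699) (nat_lit 380) (nat_lit 2751482199) (nat_lit 97) (nat_lit 5) (nat_lit 101) (nat_lit 5) (nat_lit 102) (nat_lit 5) (nat_lit 313) (nat_lit 256) (nat_lit 211))) (XT.nd (nat_lit 78) (nat_lit 0) (nat_lit 0) (XT.lf (nat_lit 0) (nat_lit 99511698) (nat_lit 380) (nat_lit 9363521951) (nat_lit 76) (nat_lit 1341274614) (nat_lit 92) (nat_lit 5) (nat_lit 97) (nat_lit 5) (nat_lit 93) (nat_lit 5) (nat_lit 314) (nat_lit 256) (nat_lit 210)) (XT.lf (nat_lit 0) (nat_lit 3006152311) (nat_lit 380) (nat_lit 3033841633) (nat_lit 76) (nat_lit 4950887409) (nat_lit 92) (nat_lit 5) (nat_lit 97) (nat_lit 5) (nat_lit 93) (nat_lit 5) (nat_lit 315) (nat_lit 256) (nat_lit 209))))) (XT.nd (nat_lit 234) (nat_lit 608) (nat_lit 0) (XT.nd (nat_lit 78) (nat_lit 304) (nat_lit 0) (XT.lf (nat_lit 0) (nat_lit 3489774937) (nat_lit 304) (nat_lit 2499276932) (nat_lit 380) (nat_lit 5194358697) (nat_lit 88) (nat_lit 5)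 (nat_lit 92) (nat_lit 5) (nat_lit 93) (nat_lit 5) (nat_lit 316) (nat_lit 256) (nat_lit 208)) (XT.nd (nat_lit 78) (nat_lit 304) (nat_lit 0) (XT.lf (nat_lit 0) (nat_lit 9059420893) (nat_lit 380) (nat_lit 1185420608) (nat_lit 76) (nat_lit 1136964507) (nat_lit 88) (nat_lit 5) (nat_lit 93) (nat_lit 5) (nat_lit 89) (nat_lit 5) (nat_lit 317) (nat_lit 256) (nat_lit 207)) (XT.lf (nat_lit 0) (nat_lit 658941811) (nat_lit 304) (nat_lit 6052907550) (nat_lit 76) (nat_lit 4873080737) (nat_lit 84) (nat_lit 5) (nat_lit 88) (nat_lit 5) (nat_lit 85) (nat_lit 5) (nat_lit 318) (nat_lit 256) (nat_lit 206)))) (XT.nd (nat_lit 156) (nat_lit 304) (nat_lit 0) (XT.nd (nat_lit 78) (nat_lit 0) (nat_lit 0) (XT.lf (nat_lit 0) (nat_lit 607280937) (nat_lit 304) (nat_lit 3051172082) (nat_lit 380) (nat_lit 8135769706) (nat_lit 80) (nat_lit 5) (nat_lit 84) (nat_lit 5) (nat_lit 85) (nat_lit 5) (nat_lit 319) (nat_lit 256) (nat_lit 205))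 (XT.lf (nat_lit 0) (nat_lit 6774529380) (nat_lit 380) (nat_lit 4487551944) (nat_lit 76) (nat_lit 746941915) (nat_lit 80) (nat_lit 5) (nat_lit 85) (nat_lit 5) (nat_lit 81) (nat_lit 5) (nat_lit 320) (nat_lit 256) (nat_lit 204))) (XT.nd (nat_lit 78) (nat_lit 76) (nat_lit 0) (XT.lf (nat_lit 0) (nat_lit 2367224931) (nat_lit 228) (nat_lit 7628990606) (nat_lit 304) (nat_lit 2233714135) (nat_lit 77) (nat_lit 5) (nat_lit 80) (nat_lit 5) (nat_lit 81) (nat_lit 5) (nat_lit 321) (nat_lit 256) (nat_lit 203)) (XT.lf (nat_lit 0) (nat_lit 845471363) (nat_lit 304) (nat_lit 3006963656) (nat_lit 76) (nat_lit 8604652146) (nat_lit 76) (nat_lit 5) (nat_lit 80) (nat_lit 5) (nat_lit 77) (nat_lit 5) (nat_lit 322) (nat_lit 256) (nat_lit 202)))))) (XT.nd (nat_lit 546) (nat_lit 912) (nat_lit 0) (XT.nd (nat_lit 234) (nat_lit 532) (nat_lit 0) (XT.nd (nat_lit 78) (nat_lit 228) (nat_lit 0) (XT.lf (nat_lit 0) (nat_lit 3972375512)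 (nat_lit 304) (nat_lit 8639818980) (nat_lit 76) (nat_lit 78217804) (nat_lit 73) (nat_lit 5) (nat_lit 77) (nat_lit 5) (nat_lit 74) (nat_lit 5) (nat_lit 323) (nat_lit 256) (nat_lit 201)) (XT.nd (nat_lit 78) (nat_lit 228) (nat_lit 0) (XT.lf (nat_lit 0) (nat_lit 7222803309) (nat_lit 304) (nat_lit 1647164667) (nat_lit 76) (nat_lit 4059900567) (nat_lit 73) (nat_lit 5) (nat_lit 77) (nat_lit 5) (nat_lit 74) (nat_lit 5) (nat_lit 324) (nat_lit 256) (nat_lit 200)) (XT.lf (nat_lit 0) (nat_lit 5606010627) (nat_lit 228) (nat_lit 4980668831) (nat_lit 304) (nat_lit 2589373151) (nat_lit 70) (nat_lit 5) (nat_lit 73) (nat_lit 5) (nat_lit 74) (nat_lit 5) (nat_lit 325) (nat_lit 256) (nat_lit 199)))) (XT.nd (nat_lit 156) (nat_lit 228) (nat_lit 0) (XT.nd (nat_lit 78) (nat_lit 228) (nat_lit 0) (XT.lf (nat_lit 0) (nat_lit 588715771) (nat_lit 304) (nat_lit 383569288) (nat_lit 76) (nat_lit 12457808711) (nat_lit 69) (nat_lit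 5) (nat_lit 73) (nat_lit 5) (nat_lit 70) (nat_lit 5) (nat_lit 326) (nat_lit 256) (nat_lit 198)) (XT.lf (nat_lit 0) (nat_lit 3872475859) (nat_lit 304) (nat_lit 6647381114) (nat_lit 76) (nat_lit 3169279213) (nat_lit 66) (nat_lit 5) (nat_lit 70) (nat_lit 5) (nat_lit 67) (nat_lit 5) (nat_lit 327) (nat_lit 256) (nat_lit 197))) (XT.nd (nat_lit 78) (nat_lit 0) (nat_lit 0) (XT.lf (nat_lit 0) (nat_lit 688146852) (nat_lit 228) (nat_lit 6550387531) (nat_lit 304) (nat_lit 6717921642) (nat_lit 63) (nat_lit 5) (nat_lit 66) (nat_lit 5) (nat_lit 67) (nat_lit 5) (nat_lit 328) (nat_lit 256) (nat_lit 196)) (XT.lf (nat_lit 0) (nat_lit 8323084312) (nat_lit 228) (nat_lit 2413760468) (nat_lit 304) (nat_lit 3494031721) (nat_lit 63) (nat_lit 5) (nat_lit 66) (nat_lit 5) (nat_lit 67) (nat_lit 5) (nat_lit 329) (nat_lit 256) (nat_lit 195))))) (XT.nd (nat_lit 312) (nat_lit 456) (nat_lit 0) (XT.nd (nat_lit 156) (nat_lit 152)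 (nat_lit 0) (XT.nd (nat_lit 78) (nat_lit 76) (nat_lit 0) (XT.lf (nat_lit 0) (nat_lit 1631492878) (nat_lit 228) (nat_lit 12707041015) (nat_lit 304) (nat_lit 175061405) (nat_lit 60) (nat_lit 5) (nat_lit 63) (nat_lit 5) (nat_lit 64) (nat_lit 5) (nat_lit 330) (nat_lit 256) (nat_lit 194)) (XT.lf (nat_lit 0) (nat_lit 3229450694) (nat_lit 304) (nat_lit 5396904089) (nat_lit 76) (nat_lit 6176045107) (nat_lit 59) (nat_lit 5) (nat_lit 63) (nat_lit 5) (nat_lit 60) (nat_lit 5) (nat_lit 331) (nat_lit 256) (nat_lit 193))) (XT.nd (nat_lit 78) (nat_lit 0) (nat_lit 0) (XT.lf (nat_lit 0) (nat_lit 2301373529) (nat_lit 152) (nat_lit 4419462466) (nat_lit 228) (nat_lit 8379349946) (nat_lit 57) (nat_lit 5) (nat_lit 59) (nat_lit 5) (nat_lit 60) (nat_lit 5) (nat_lit 332) (nat_lit 256) (nat_lit 192)) (XT.lf (nat_lit 0) (nat_lit 10287115049) (nat_lit 152) (nat_lit 50946333) (nat_lit 228) (nat_lit 5068227749) (nat_lit 57) (nat_lit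 5) (nat_lit 59) (nat_lit 5) (nat_lit 60) (nat_lit 5) (nat_lit 333) (nat_lit 256) (nat_lit 191)))) (XT.nd (nat_lit 156) (nat_lit 152) (nat_lit 0) (XT.nd (nat_lit 78) (nat_lit 76) (nat_lit 0) (XT.lf (nat_lit 0) (nat_lit 2748386417) (nat_lit 228) (nat_lit 11351979041) (nat_lit 304) (nat_lit 1620129136) (nat_lit 54) (nat_lit 5) (nat_lit 57) (nat_lit 5) (nat_lit 58) (nat_lit 5) (nat_lit 334) (nat_lit 256) (nat_lit 190)) (XT.lf (nat_lit 0) (nat_lit 1913921911) (nat_lit 304) (nat_lit 5158720038) (nat_lit 76) (nat_lit 8970336459) (nat_lit 53) (nat_lit 5) (nat_lit 57) (nat_lit 5) (nat_lit 54) (nat_lit 5) (nat_lit 335) (nat_lit 256) (nat_lit 189))) (XT.nd (nat_lit 78) (nat_lit 0) (nat_lit 0) (XT.lf (nat_lit 0) (nat_lit 2877257774) (nat_lit 152) (nat_lit 2640267058) (nat_lit 228) (nat_lit 10857262551) (nat_lit 51) (nat_lit 5) (nat_lit 53) (nat_lit 5) (nat_lit 54) (nat_lit 5) (nat_lit 336) (nat_lit 256) (nat_lit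 188)) (XT.lf (nat_lit 0) (nat_lit 9269015343) (nat_lit 228) (nat_lit 5526106384) (nat_lit 76) (nat_lit 1920249760) (nat_lit 51) (nat_lit 5) (nat_lit 54) (nat_lit 5) (nat_lit 52) (nat_lit 5) (nat_lit 337) (nat_lit 256) (nat_lit 187))))))))
noncomputable def xc93 : XT := (XT.nd (nat_lit 2184) (nat_lit 912) (nat_lit 0) (XT.nd (nat_lit 1092) (nat_lit 684) (nat_lit 0) (XT.nd (nat_lit 546) (nat_lit 684) (nat_lit 0) (XT.nd (nat_lit 234) (nat_lit 228) (nat_lit 0) (XT.nd (nat_lit 78) (nat_lit 228) (nat_lit 0) (XT.lf (nat_lit 0) (nat_lit 2659574050) (nat_lit 228) (nat_lit 10494761613) (nat_lit 304) (nat_lit 3911212730) (nat_lit 48) (nat_lit 5) (nat_lit 51) (nat_lit 5) (nat_lit 52) (nat_lit 5) (nat_lit 338) (nat_lit 256) (nat_lit 186)) (XT.nd (nat_lit 78) (nat_lit 228) (nat_lit 0) (XT.lf (nat_lit 0) (nat_lit 11153959055) (nat_lit 228) (nat_lit 6028041797) (nat_lit 304) (nat_lit 243469625) (nat_lit 48) (nat_lit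 5) (nat_lit 51) (nat_lit 5) (nat_lit 52) (nat_lit 5) (nat_lit 339) (nat_lit 256) (nat_lit 185)) (XT.lf (nat_lit 0) (nat_lit 2064003910) (nat_lit 152) (nat_lit 1391730683) (nat_lit 228) (nat_lit 14339737194) (nat_lit 45) (nat_lit 5) (nat_lit 47) (nat_lit 5) (nat_lit 48) (nat_lit 5) (nat_lit 340) (nat_lit 256) (nat_lit 184)))) (XT.nd (nat_lit 156) (nat_lit 76) (nat_lit 0) (XT.nd (nat_lit 78) (nat_lit 152) (nat_lit 0) (XT.lf (nat_lit 0) (nat_lit 7328258445) (nat_lit 228) (nat_lit 7481586942) (nat_lit 76) (nat_lit 3364650610) (nat_lit 45) (nat_lit 5) (nat_lit 48) (nat_lit 5) (nat_lit 46) (nat_lit 5) (nat_lit 341) (nat_lit 256) (nat_lit 183)) (XT.lf (nat_lit 0) (nat_lit 972943413) (nat_lit 152) (nat_lit 10338752561) (nat_lit 228) (nat_lit 7253364751) (nat_lit 43) (nat_lit 5) (nat_lit 45) (nat_lit 5) (nat_lit 46) (nat_lit 5) (nat_lit 342) (nat_lit 256) (nat_lit 182))) (XT.nd (nat_lit 78) (nat_lit 76)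 (nat_lit 0) (XT.lf (nat_lit 0) (nat_lit 9786892861) (nat_lit 152) (nat_lit 5675268677) (nat_lit 228) (nat_lit 3503766694) (nat_lit 43) (nat_lit 5) (nat_lit 45) (nat_lit 5) (nat_lit 46) (nat_lit 5) (nat_lit 343) (nat_lit 256) (nat_lit 181)) (XT.lf (nat_lit 0) (nat_lit 323838585) (nat_lit 228) (nat_lit 563759484) (nat_lit 76) (nat_lit 18491955939) (nat_lit 42) (nat_lit 5) (nat_lit 45) (nat_lit 5) (nat_lit 43) (nat_lit 5) (nat_lit 344) (nat_lit 256) (nat_lit 180))))) (XT.nd (nat_lit 234) (nat_lit 380) (nat_lit 0) (XT.nd (nat_lit 78) (nat_lit 152) (nat_lit 0) (XT.lf (nat_lit 0) (nat_lit 4289680094) (nat_lit 228) (nat_lit 11449089060) (nat_lit 76) (nat_lit 4062974372) (nat_lit 40) (nat_lit 5) (nat_lit 43) (nat_lit 5) (nat_lit 41) (nat_lit 5) (nat_lit 345) (nat_lit 256) (nat_lit 179)) (XT.nd (nat_lit 78) (nat_lit 152) (nat_lit 0) (XT.lf (nat_lit 0) (nat_lit 8362512618) (nat_lit 228) (nat_lit 2742724124)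 (nat_lit 76) (nat_lit 9131731805) (nat_lit 40) (nat_lit 5) (nat_lit 43) (nat_lit 5) (nat_lit 41) (nat_lit 5) (nat_lit 346) (nat_lit 256) (nat_lit 178)) (XT.lf (nat_lit 0) (nat_lit 6303595803) (nat_lit 152) (nat_lit 6288779246) (nat_lit 228) (nat_lit 8091839914) (nat_lit 38) (nat_lit 5) (nat_lit 40) (nat_lit 5) (nat_lit 41) (nat_lit 5) (nat_lit 347) (nat_lit 256) (nat_lit 177)))) (XT.nd (nat_lit 156) (nat_lit 228) (nat_lit 0) (XT.nd (nat_lit 78) (nat_lit 152) (nat_lit 0) (XT.lf (nat_lit 0) (nat_lit 15633720413) (nat_lit 152) (nat_lit 1317688851) (nat_lit 228) (nat_lit 4193410931) (nat_lit 38) (nat_lit 5) (nat_lit 40) (nat_lit 5) (nat_lit 41) (nat_lit 5) (nat_lit 348) (nat_lit 256) (nat_lit 176)) (XT.lf (nat_lit 0) (nat_lit 3615391894) (nat_lit 152) (nat_lit 17872276819) (nat_lit 228) (nat_lit 130190662) (nat_lit 36) (nat_lit 5) (nat_lit 38) (nat_lit 5) (nat_lit 39) (nat_lit 4) (nat_lit 349) (nat_lit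 256) (nat_lit 175))) (XT.nd (nat_lit 78) (nat_lit 152) (nat_lit 0) (XT.lf (nat_lit 0) (nat_lit 4020258863) (nat_lit 228) (nat_lit 9070535495) (nat_lit 76) (nat_lit 9011801133) (nat_lit 35) (nat_lit 5) (nat_lit 38) (nat_lit 5) (nat_lit 36) (nat_lit 5) (nat_lit 350) (nat_lit 256) (nat_lit 174)) (XT.lf (nat_lit 0) (nat_lit 87847710) (nat_lit 152) (nat_lit 8181534078) (nat_lit 228) (nat_lit 14333158550) (nat_lit 33) (nat_lit 5) (nat_lit 35) (nat_lit 5) (nat_lit 36) (nat_lit 5) (nat_lit 351) (nat_lit 256) (nat_lit 173)))))) (XT.nd (nat_lit 546) (nat_lit 380) (nat_lit 0) (XT.nd (nat_lit 234) (nat_lit 228) (nat_lit 0) (XT.nd (nat_lit 78) (nat_lit 76) (nat_lit 0) (XT.lf (nat_lit 0) (nat_lit 9665398645) (nat_lit 152) (nat_lit 3048408432) (nat_lit 228) (nat_lit 10401649962) (nat_lit 33) (nat_lit 5) (nat_lit 35) (nat_lit 5) (nat_lit 36) (nat_lit 5) (nat_lit 352) (nat_lit 256) (nat_lit 172)) (XT.nd (nat_lit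 78) (nat_lit 76) (nat_lit 0) (XT.lf (nat_lit 0) (nat_lit 17289845549) (nat_lit 228) (nat_lit 4175851137) (nat_lit 76) (nat_lit 2178124267) (nat_lit 33) (nat_lit 5) (nat_lit 36) (nat_lit 5) (nat_lit 34) (nat_lit 4) (nat_lit 353) (nat_lit 256) (nat_lit 171)) (XT.lf (nat_lit 0) (nat_lit 5412358230) (nat_lit 76) (nat_lit 16650453545) (nat_lit 152) (nat_lit 2123442499) (nat_lit 32) (nat_lit 5) (nat_lit 33) (nat_lit 5) (nat_lit 34) (nat_lit 4) (nat_lit 354) (nat_lit 256) (nat_lit 170)))) (XT.nd (nat_lit 156) (nat_lit 0) (nat_lit 0) (XT.nd (nat_lit 78) (nat_lit 152) (nat_lit 0) (XT.lf (nat_lit 0) (nat_lit 2210487302) (nat_lit 152) (nat_lit 9431496073) (nat_lit 76) (nat_lit 13101738183) (nat_lit 31) (nat_lit 5) (nat_lit 33) (nat_lit 5) (nat_lit 32) (nat_lit 5) (nat_lit 355) (nat_lit 256) (nat_lit 169)) (XT.lf (nat_lit 0) (nat_lit 134204400) (nat_lit 152) (nat_lit 6476986227) (nat_lit 228) (nat_lit 18706715684)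 (nat_lit 29) (nat_lit 5) (nat_lit 31) (nat_lit 5) (nat_lit 32) (nat_lit 5) (nat_lit 356) (nat_lit 256) (nat_lit 168))) (XT.nd (nat_lit 78) (nat_lit 0) (nat_lit 0) (XT.lf (nat_lit 0) (nat_lit 10142024285) (nat_lit 152) (nat_lit 1075544528) (nat_lit 228) (nat_lit 14689545188) (nat_lit 29) (nat_lit 5) (nat_lit 31) (nat_lit 5) (nat_lit 32) (nat_lit 5) (nat_lit 357) (nat_lit 256) (nat_lit 167)) (XT.lf (nat_lit 0) (nat_lit 15984167091) (nat_lit 228) (nat_lit 6144616314) (nat_lit 76) (nat_lit 4384560459) (nat_lit 29) (nat_lit 5) (nat_lit 32) (nat_lit 5) (nat_lit 30) (nat_lit 4) (nat_lit 358) (nat_lit 256) (nat_lit 166))))) (XT.nd (nat_lit 234) (nat_lit 228) (nat_lit 0) (XT.nd (nat_lit 78) (nat_lit 76) (nat_lit 0) (XT.lf (nat_lit 0) (nat_lit 3791342629) (nat_lit 76) (nat_lit 17129017179) (nat_lit 152) (nat_lit 6216609527) (nat_lit 28) (nat_lit 5) (nat_lit 29) (nat_lit 5) (nat_lit 30) (nat_lit 4) (nat_lit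 359) (nat_lit 256) (nat_lit 165)) (XT.nd (nat_lit 78) (nat_lit 76) (nat_lit 0) (XT.lf (nat_lit 0) (nat_lit 14115233971) (nat_lit 76) (nat_lit 11931205684) (nat_lit 152) (nat_lit 1731616286) (nat_lit 28) (nat_lit 5) (nat_lit 29) (nat_lit 5) (nat_lit 30) (nat_lit 4) (nat_lit 360) (nat_lit 256) (nat_lit 164)) (XT.lf (nat_lit 0) (nat_lit 2811714663) (nat_lit 152) (nat_lit 3752748254) (nat_lit 76) (nat_lit 21873681205) (nat_lit 27) (nat_lit 5) (nat_lit 29) (nat_lit 5) (nat_lit 28) (nat_lit 5) (nat_lit 361) (nat_lit 256) (nat_lit 163)))) (XT.nd (nat_lit 156) (nat_lit 76) (nat_lit 0) (XT.nd (nat_lit 78) (nat_lit 0) (nat_lit 0) (XT.lf (nat_lit 0) (nat_lit 6530494444) (nat_lit 152) (nat_lit 969542591) (nat_lit 228) (nat_lit 21616184584) (nat_lit 25) (nat_lit 5) (nat_lit 27) (nat_lit 5) (nat_lit 28) (nat_lit 5) (nat_lit 362) (nat_lit 256) (nat_lit 162)) (XT.lf (nat_lit 0) (nat_lit 12394164601) (nat_lit 228)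 (nat_lit 12695310140) (nat_lit 76) (nat_lit 4723217731) (nat_lit 25) (nat_lit 5) (nat_lit 28) (nat_lit 5) (nat_lit 26) (nat_lit 4) (nat_lit 363) (nat_lit 256) (nat_lit 161))) (XT.nd (nat_lit 78) (nat_lit 76) (nat_lit 0) (XT.lf (nat_lit 0) (nat_lit 17426083879) (nat_lit 228) (nat_lit 2551291703) (nat_lit 76) (nat_lit 10552958366) (nat_lit 25) (nat_lit 5) (nat_lit 28) (nat_lit 5) (nat_lit 26) (nat_lit 4) (nat_lit 364) (nat_lit 256) (nat_lit 160)) (XT.lf (nat_lit 0) (nat_lit 8021030879) (nat_lit 76) (nat_lit 14646944031) (nat_lit 152) (nat_lit 8599764704) (nat_lit 24) (nat_lit 5) (nat_lit 25) (nat_lit 5) (nat_lit 26) (nat_lit 4) (nat_lit 365) (nat_lit 256) (nat_lit 159))))))) (XT.nd (nat_lit 1092) (nat_lit 380) (nat_lit 0) (XT.nd (nat_lit 546) (nat_lit 228) (nat_lit 0) (XT.nd (nat_lit 234) (nat_lit 76) (nat_lit 0) (XT.nd (nat_lit 78) (nat_lit 228) (nat_lit 0) (XT.lf (nat_lit 0) (nat_lit 18930605485)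 (nat_lit 76) (nat_lit 9144408525) (nat_lit 152) (nat_lit 3952021913) (nat_lit 24) (nat_lit 5) (nat_lit 25) (nat_lit 5) (nat_lit 26) (nat_lit 4) (nat_lit 366) (nat_lit 256) (nat_lit 158)) (XT.nd (nat_lit 78) (nat_lit 152) (nat_lit 0) (XT.lf (nat_lit 0) (nat_lit 801328386) (nat_lit 152) (nat_lit 2681303836) (nat_lit 76) (nat_lit 29326768813) (nat_lit 23) (nat_lit 5) (nat_lit 25) (nat_lit 5) (nat_lit 24) (nat_lit 5) (nat_lit 367) (nat_lit 256) (nat_lit 157)) (XT.lf (nat_lit 0) (nat_lit 5702640471) (nat_lit 228) (nat_lit 25500658913) (nat_lit 76) (nat_lit 2408224830) (nat_lit 21) (nat_lit 5) (nat_lit 24) (nat_lit 5) (nat_lit 22) (nat_lit 4) (nat_lit 368) (nat_lit 256) (nat_lit 156)))) (XT.nd (nat_lit 156) (nat_lit 76) (nat_lit 0) (XT.nd (nat_lit 78) (nat_lit 0) (nat_lit 0) (XT.lf (nat_lit 0) (nat_lit 10795872656) (nat_lit 228) (nat_lit 15220672783) (nat_lit 76) (nat_lit 8419823861) (nat_lit 21) (nat_lit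 5) (nat_lit 24) (nat_lit 5) (nat_lit 22) (nat_lit 4) (nat_lit 369) (nat_lit 256) (nat_lit 155)) (XT.lf (nat_lit 0) (nat_lit 16025450586) (nat_lit 228) (nat_lit 4662178330) (nat_lit 76) (nat_lit 14598828857) (nat_lit 21) (nat_lit 5) (nat_lit 24) (nat_lit 5) (nat_lit 22) (nat_lit 4) (nat_lit 370) (nat_lit 256) (nat_lit 154))) (XT.nd (nat_lit 78) (nat_lit 0) (nat_lit 0) (XT.lf (nat_lit 0) (nat_lit 6307125040) (nat_lit 76) (nat_lit 15149446697) (nat_lit 152) (nat_lit 14704141853) (nat_lit 20) (nat_lit 5) (nat_lit 21) (nat_lit 5) (nat_lit 22) (nat_lit 4) (nat_lit 371) (nat_lit 256) (nat_lit 153)) (XT.lf (nat_lit 0) (nat_lit 17672341471) (nat_lit 76) (nat_lit 9409580829) (nat_lit 152) (nat_lit 9978340150) (nat_lit 20) (nat_lit 5) (nat_lit 21) (nat_lit 5) (nat_lit 22) (nat_lit 4) (nat_lit 372) (nat_lit 256) (nat_lit 152))))) (XT.nd (nat_lit 234) (nat_lit 76) (nat_lit 0) (XT.nd (nat_lit 78) (nat_lit 152)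 (nat_lit 0) (XT.lf (nat_lit 0) (nat_lit 29350615243) (nat_lit 76) (nat_lit 3510094754) (nat_lit 152) (nat_lit 5126551595) (nat_lit 20) (nat_lit 5) (nat_lit 21) (nat_lit 5) (nat_lit 22) (nat_lit 4) (nat_lit 373) (nat_lit 256) (nat_lit 151)) (XT.nd (nat_lit 78) (nat_lit 76) (nat_lit 0) (XT.lf (nat_lit 0) (nat_lit 2432545162) (nat_lit 76) (nat_lit 36413374416) (nat_lit 76) (nat_lit 95163380) (nat_lit 19) (nat_lit 4) (nat_lit 20) (nat_lit 5) (nat_lit 20) (nat_lit 4) (nat_lit 374) (nat_lit 256) (nat_lit 150)) (XT.lf (nat_lit 0) (nat_lit 5095758425) (nat_lit 152) (nat_lit 26022017598) (nat_lit 76) (nat_lit 8801043854) (nat_lit 18) (nat_lit 5) (nat_lit 20) (nat_lit 5) (nat_lit 19) (nat_lit 4) (nat_lit 375) (nat_lit 256) (nat_lit 149)))) (XT.nd (nat_lit 156) (nat_lit 76) (nat_lit 0) (XT.nd (nat_lit 78) (nat_lit 0) (nat_lit 0) (XT.lf (nat_lit 0) (nat_lit 10425961977) (nat_lit 152) (nat_lit 15248496785) (nat_lit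 76) (nat_lit 15251841530) (nat_lit 18) (nat_lit 5) (nat_lit 20) (nat_lit 5) (nat_lit 19) (nat_lit 4) (nat_lit 376) (nat_lit 256) (nat_lit 148)) (XT.lf (nat_lit 0) (nat_lit 15901961712) (nat_lit 152) (nat_lit 4177646833) (nat_lit 76) (nat_lit 21884823422) (nat_lit 18) (nat_lit 5) (nat_lit 20) (nat_lit 5) (nat_lit 19) (nat_lit 4) (nat_lit 377) (nat_lit 256) (nat_lit 147))) (XT.nd (nat_lit 78) (nat_lit 0) (nat_lit 0) (XT.lf (nat_lit 0) (nat_lit 7343504029) (nat_lit 76) (nat_lit 14255628709) (nat_lit 152) (nat_lit 21432871563) (nat_lit 17) (nat_lit 5) (nat_lit 18) (nat_lit 5) (nat_lit 19) (nat_lit 4) (nat_lit 378) (nat_lit 256) (nat_lit 146)) (XT.lf (nat_lit 0) (nat_lit 19271050582) (nat_lit 76) (nat_lit 8224815271) (nat_lit 152) (nat_lit 16634881890) (nat_lit 17) (nat_lit 5) (nat_lit 18) (nat_lit 5) (nat_lit 19) (nat_lit 4) (nat_lit 379) (nat_lit 256) (nat_lit 145)))))) (XT.nd (nat_lit 546) (nat_lit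 152) (nat_lit 0) (XT.nd (nat_lit 234) (nat_lit 152) (nat_lit 0) (XT.nd (nat_lit 78) (nat_lit 76) (nat_lit 0) (XT.lf (nat_lit 0) (nat_lit 31532271590) (nat_lit 76) (nat_lit 2024084630) (nat_lit 152) (nat_lit 11706494860) (nat_lit 17) (nat_lit 5) (nat_lit 18) (nat_lit 5) (nat_lit 19) (nat_lit 4) (nat_lit 380) (nat_lit 256) (nat_lit 144)) (XT.nd (nat_lit 78) (nat_lit 76) (nat_lit 0) (XT.lf (nat_lit 0) (nat_lit 39827733320) (nat_lit 152) (nat_lit 2333256695) (nat_lit 0) (nat_lit 4267058496) (nat_lit 17) (nat_lit 5) (nat_lit 19) (nat_lit 4) (nat_lit 17) (nat_lit 4) (nat_lit 381) (nat_lit 256) (nat_lit 143)) (XT.lf (nat_lit 0) (nat_lit 9549244950) (nat_lit 76) (nat_lit 36837350496) (nat_lit 76) (nat_lit 1238629172) (nat_lit 16) (nat_lit 4) (nat_lit 17) (nat_lit 5) (nat_lit 17) (nat_lit 4) (nat_lit 382) (nat_lit 256) (nat_lit 142)))) (XT.nd (nat_lit 156) (nat_lit 76) (nat_lit 0) (XT.nd (nat_lit 78) (nat_lit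 0) (nat_lit 0) (XT.lf (nat_lit 0) (nat_lit 4211636975) (nat_lit 152) (nat_lit 27086036611) (nat_lit 76) (nat_lit 17559070201) (nat_lit 15) (nat_lit 5) (nat_lit 17) (nat_lit 5) (nat_lit 16) (nat_lit 4) (nat_lit 383) (nat_lit 256) (nat_lit 141)) (XT.lf (nat_lit 0) (nat_lit 9788408523) (nat_lit 152) (nat_lit 15801052844) (nat_lit 76) (nat_lit 24535745280) (nat_lit 15) (nat_lit 5) (nat_lit 17) (nat_lit 5) (nat_lit 16) (nat_lit 4) (nat_lit 384) (nat_lit 256) (nat_lit 140))) (XT.nd (nat_lit 78) (nat_lit 76) (nat_lit 0) (XT.lf (nat_lit 0) (nat_lit 15520728494) (nat_lit 152) (nat_lit 4199261240) (nat_lit 76) (nat_lit 31712089022) (nat_lit 15) (nat_lit 5) (nat_lit 17) (nat_lit 5) (nat_lit 16) (nat_lit 4) (nat_lit 385) (nat_lit 256) (nat_lit 139)) (XT.lf (nat_lit 0) (nat_lit 7883307411) (nat_lit 76) (nat_lit 13606077474) (nat_lit 152) (nat_lit 31286843780) (nat_lit 14) (nat_lit 5) (nat_lit 15) (nat_lit 5)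 (nat_lit 16) (nat_lit 4) (nat_lit 386) (nat_lit 256) (nat_lit 138))))) (XT.nd (nat_lit 312) (nat_lit 76) (nat_lit 0) (XT.nd (nat_lit 156) (nat_lit 76) (nat_lit 0) (XT.nd (nat_lit 78) (nat_lit 0) (nat_lit 0) (XT.lf (nat_lit 0) (nat_lit 20393532382) (nat_lit 76) (nat_lit 7274692018) (nat_lit 152) (nat_lit 26491547534) (nat_lit 14) (nat_lit 5) (nat_lit 15) (nat_lit 5) (nat_lit 16) (nat_lit 4) (nat_lit 387) (nat_lit 256) (nat_lit 137)) (XT.lf (nat_lit 0) (nat_lit 33258771405) (nat_lit 76) (nat_lit 762705392) (nat_lit 152) (nat_lit 21563675763) (nat_lit 14) (nat_lit 5) (nat_lit 15) (nat_lit 5) (nat_lit 16) (nat_lit 4) (nat_lit 388) (nat_lit 256) (nat_lit 136))) (XT.nd (nat_lit 78) (nat_lit 76) (nat_lit 0) (XT.lf (nat_lit 0) (nat_lit 40611749818) (nat_lit 152) (nat_lit 10620406425) (nat_lit 0) (nat_lit 5819748089) (nat_lit 14) (nat_lit 5) (nat_lit 16) (nat_lit 4) (nat_lit 14) (nat_lit 4) (nat_lit 389)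 (nat_lit 256) (nat_lit 135)) (XT.lf (nat_lit 0) (nat_lit 1437899366) (nat_lit 76) (nat_lit 45972796942) (nat_lit 76) (nat_lit 11151635738) (nat_lit 13) (nat_lit 4) (nat_lit 14) (nat_lit 5) (nat_lit 14) (nat_lit 4) (nat_lit 390) (nat_lit 256) (nat_lit 134)))) (XT.nd (nat_lit 156) (nat_lit 0) (nat_lit 0) (XT.nd (nat_lit 78) (nat_lit 76) (nat_lit 0) (XT.lf (nat_lit 0) (nat_lit 14056496772) (nat_lit 76) (nat_lit 40454070396) (nat_lit 76) (nat_lit 5604599024) (nat_lit 13) (nat_lit 4) (nat_lit 14) (nat_lit 5) (nat_lit 14) (nat_lit 4) (nat_lit 391) (nat_lit 256) (nat_lit 133)) (XT.lf (nat_lit 0) (nat_lit 96634066) (nat_lit 152) (nat_lit 34680789819) (nat_lit 76) (nat_lit 26937434957) (nat_lit 12) (nat_lit 5) (nat_lit 14) (nat_lit 5) (nat_lit 13) (nat_lit 4) (nat_lit 392) (nat_lit 256) (nat_lit 132))) (XT.nd (nat_lit 78) (nat_lit 0) (nat_lit 0) (XT.lf (nat_lit 0) (nat_lit 5846460467) (nat_lit 152) (nat_lit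 23035327272) (nat_lit 76) (nat_lit 34479385787) (nat_lit 12) (nat_lit 5) (nat_lit 14) (nat_lit 5) (nat_lit 13) (nat_lit 4) (nat_lit 393) (nat_lit 256) (nat_lit 131)) (XT.lf (nat_lit 0) (nat_lit 11759270215) (nat_lit 152) (nat_lit 11058231300) (nat_lit 76) (nat_lit 42239663507) (nat_lit 12) (nat_lit 5) (nat_lit 14) (nat_lit 5) (nat_lit 13) (nat_lit 4) (nat_lit 394) (nat_lit 256) (nat_lit 130))))))))
noncomputable def xc94 : XT := (XT.nd (nat_lit 31356) (nat_lit 0) (nat_lit 9044) (XT.nd (nat_lit 1092) (nat_lit 0) (nat_lit 0) (XT.nd (nat_lit 546) (nat_lit 152) (nat_lit 0) (XT.nd (nat_lit 234) (nat_lit 76) (nat_lit 0) (XT.nd (nat_lit 78) (nat_lit 0) (nat_lit 0) (XT.lf (nat_lit 0) (nat_lit 1286059167) (nat_lit 76) (nat_lit 16566533060) (nat_lit 152) (nat_lit 48951352161) (nat_lit 11) (nat_lit 5) (nat_lit 12) (nat_lit 5) (nat_lit 13) (nat_lit 4) (nat_lit 395) (nat_lit 256) (nat_lit 129)) (XT.nd (nat_lit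 78) (nat_lit 0) (nat_lit 0) (XT.lf (nat_lit 0) (nat_lit 14210315985) (nat_lit 76) (nat_lit 10020935069) (nat_lit 152) (nat_lit 44368801876) (nat_lit 11) (nat_lit 5) (nat_lit 12) (nat_lit 5) (nat_lit 13) (nat_lit 4) (nat_lit 396) (nat_lit 256) (nat_lit 128)) (XT.lf (nat_lit 0) (nat_lit 27505751707) (nat_lit 76) (nat_lit 3286654541) (nat_lit 152) (nat_lit 39657906236) (nat_lit 11) (nat_lit 5) (nat_lit 12) (nat_lit 5) (nat_lit 13) (nat_lit 4) (nat_lit 397) (nat_lit 256) (nat_lit 127)))) (XT.nd (nat_lit 156) (nat_lit 76) (nat_lit 0) (XT.nd (nat_lit 78) (nat_lit 0) (nat_lit 0) (XT.lf (nat_lit 0) (nat_lit 37576801842) (nat_lit 152) (nat_lit 31207367062) (nat_lit 0) (nat_lit 3571120546) (nat_lit 11) (nat_lit 5) (nat_lit 13) (nat_lit 4) (nat_lit 11) (nat_lit 4) (nat_lit 398) (nat_lit 256) (nat_lit 126)) (XT.lf (nat_lit 0) (nat_lit 44588846199) (nat_lit 152) (nat_lit 19166380251) (nat_lit 0) (nat_lit 10561467516)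 (nat_lit 11) (nat_lit 5) (nat_lit 13) (nat_lit 4) (nat_lit 11) (nat_lit 4) (nat_lit 399) (nat_lit 256) (nat_lit 125))) (XT.nd (nat_lit 78) (nat_lit 76) (nat_lit 0) (XT.lf (nat_lit 0) (nat_lit 51803073015) (nat_lit 152) (nat_lit 6779485758) (nat_lit 0) (nat_lit 17754628907) (nat_lit 11) (nat_lit 5) (nat_lit 13) (nat_lit 4) (nat_lit 11) (nat_lit 4) (nat_lit 400) (nat_lit 256) (nat_lit 124)) (XT.lf (nat_lit 0) (nat_lit 6082837994) (nat_lit 76) (nat_lit 53201419946) (nat_lit 76) (nat_lit 19132523970) (nat_lit 10) (nat_lit 4) (nat_lit 11) (nat_lit 5) (nat_lit 11) (nat_lit 4) (nat_lit 401) (nat_lit 256) (nat_lit 123))))) (XT.nd (nat_lit 234) (nat_lit 152) (nat_lit 0) (XT.nd (nat_lit 78) (nat_lit 0) (nat_lit 0) (XT.lf (nat_lit 0) (nat_lit 19455274458) (nat_lit 76) (nat_lit 47595212507) (nat_lit 76) (nat_lit 13506460348) (nat_lit 10) (nat_lit 4) (nat_lit 11) (nat_lit 5) (nat_lit 11) (nat_lit 4) (nat_lit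 402) (nat_lit 256) (nat_lit 122)) (XT.nd (nat_lit 78) (nat_lit 0) (nat_lit 0) (XT.lf (nat_lit 0) (nat_lit 33214583225) (nat_lit 76) (nat_lit 41827497339) (nat_lit 76) (nat_lit 7719467332) (nat_lit 10) (nat_lit 4) (nat_lit 11) (nat_lit 5) (nat_lit 11) (nat_lit 4) (nat_lit 403) (nat_lit 256) (nat_lit 121)) (XT.lf (nat_lit 0) (nat_lit 47372786993) (nat_lit 76) (nat_lit 35893234691) (nat_lit 76) (nat_lit 1766488328) (nat_lit 10) (nat_lit 4) (nat_lit 11) (nat_lit 5) (nat_lit 11) (nat_lit 4) (nat_lit 404) (nat_lit 256) (nat_lit 120)))) (XT.nd (nat_lit 156) (nat_lit 76) (nat_lit 0) (XT.nd (nat_lit 78) (nat_lit 0) (nat_lit 0) (XT.lf (nat_lit 0) (nat_lit 4272644297) (nat_lit 152) (nat_lit 25471449660) (nat_lit 76) (nat_lit 57626467382) (nat_lit 9) (nat_lit 5) (nat_lit 11) (nat_lit 5) (nat_lit 10) (nat_lit 4) (nat_lit 405) (nat_lit 256) (nat_lit 119)) (XT.lf (nat_lit 0) (nat_lit 10450400298) (nat_lit 152)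 (nat_lit 12948246938) (nat_lit 76) (nat_lit 66379795025) (nat_lit 9) (nat_lit 5) (nat_lit 11) (nat_lit 5) (nat_lit 10) (nat_lit 4) (nat_lit 406) (nat_lit 256) (nat_lit 118))) (XT.nd (nat_lit 78) (nat_lit 76) (nat_lit 0) (XT.lf (nat_lit 0) (nat_lit 16806648265) (nat_lit 152) (nat_lit 62191683) (nat_lit 76) (nat_lit 75389926223) (nat_lit 9) (nat_lit 5) (nat_lit 11) (nat_lit 5) (nat_lit 10) (nat_lit 4) (nat_lit 407) (nat_lit 256) (nat_lit 117)) (XT.lf (nat_lit 0) (nat_lit 13460641359) (nat_lit 76) (nat_lit 10015692759) (nat_lit 152) (nat_lit 71333484467) (nat_lit 8) (nat_lit 5) (nat_lit 9) (nat_lit 5) (nat_lit 10) (nat_lit 4) (nat_lit 408) (nat_lit 256) (nat_lit 116)))))) (XT.nd (nat_lit 29718) (nat_lit 0) (nat_lit 22040) (XT.nd (nat_lit 234) (nat_lit 0) (nat_lit 0) (XT.nd (nat_lit 78) (nat_lit 0) (nat_lit 0) (XT.lf (nat_lit 0) (nat_lit 27378087047) (nat_lit 76) (nat_lit 2962084796) (nat_lit 152) (nat_lit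 67097410152) (nat_lit 8) (nat_lit 5) (nat_lit 9) (nat_lit 5) (nat_lit 10) (nat_lit 4) (nat_lit 409) (nat_lit 256) (nat_lit 115)) (XT.nd (nat_lit 78) (nat_lit 0) (nat_lit 0) (XT.lf (nat_lit 0) (nat_lit 37444859629) (nat_lit 152) (nat_lit 58484612664) (nat_lit 0) (nat_lit 4213659192) (nat_lit 8) (nat_lit 5) (nat_lit 10) (nat_lit 4) (nat_lit 8) (nat_lit 4) (nat_lit 410) (nat_lit 256) (nat_lit 114)) (XT.lf (nat_lit 0) (nat_lit 44785773482) (nat_lit 152) (nat_lit 46603584424) (nat_lit 0) (nat_lit 11539798180) (nat_lit 8) (nat_lit 5) (nat_lit 10) (nat_lit 4) (nat_lit 8) (nat_lit 4) (nat_lit 411) (nat_lit 256) (nat_lit 113)))) (XT.nd (nat_lit 29328) (nat_lit 0) (nat_lit 23636) (XT.nd (nat_lit 29250) (nat_lit 0) (nat_lit 24244) (XT.lf (nat_lit 0) (nat_lit 52340854422) (nat_lit 152) (nat_lit 34377555376) (nat_lit 0) (nat_lit 19080534591) (nat_lit 8) (nat_lit 5) (nat_lit 10) (nat_lit 4) (nat_lit 8) (nat_lit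 4) (nat_lit 412) (nat_lit 256) (nat_lit 112)) (XT.lf (nat_lit 0) (nat_lit 1609416933) (nat_lit 228) (nat_lit 22020352) (nat_lit 0) (nat_lit 1609416933) (nat_lit 327) (nat_lit 5) (nat_lit 330) (nat_lit 4) (nat_lit 327) (nat_lit 4) (nat_lit 266) (nat_lit 257) (nat_lit 257))) (XT.nd (nat_lit 78) (nat_lit 380) (nat_lit 0) (XT.lf (nat_lit 0) (nat_lit 3436516379) (nat_lit 228) (nat_lit 2833157595) (nat_lit 228) (nat_lit 226776965) (nat_lit 324) (nat_lit 4) (nat_lit 327) (nat_lit 5) (nat_lit 327) (nat_lit 4) (nat_lit 267) (nat_lit 257) (nat_lit 256)) (XT.lf (nat_lit 0) (nat_lit 421422053) (nat_lit 304) (nat_lit 2316641648) (nat_lit 380) (nat_lit 3776105665) (nat_lit 319) (nat_lit 5) (nat_lit 323) (nat_lit 5) (nat_lit 324) (nat_lit 4) (nat_lit 268) (nat_lit 257) (nat_lit 255))))) (XT.nd (nat_lit 234) (nat_lit 1140) (nat_lit 0) (XT.nd (nat_lit 78) (nat_lit 456) (nat_lit 0) (XT.lf (nat_lit 0) (nat_lit 3998651084)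 (nat_lit 304) (nat_lit 1711822840) (nat_lit 380) (nat_lit 824374620) (nat_lit 319) (nat_lit 5) (nat_lit 323) (nat_lit 5) (nat_lit 324) (nat_lit 4) (nat_lit 269) (nat_lit 257) (nat_lit 254)) (XT.nd (nat_lit 78) (nat_lit 0) (nat_lit 0) (XT.lf (nat_lit 0) (nat_lit 1057095690) (nat_lit 380) (nat_lit 1019957482) (nat_lit 456) (nat_lit 4481505353) (nat_lit 313) (nat_lit 5) (nat_lit 318) (nat_lit 5) (nat_lit 319) (nat_lit 5) (nat_lit 270) (nat_lit 257) (nat_lit 253)) (XT.lf (nat_lit 0) (nat_lit 4733251574) (nat_lit 380) (nat_lit 237878862) (nat_lit 456) (nat_lit 1614114965) (nat_lit 313) (nat_lit 5) (nat_lit 318) (nat_lit 5) (nat_lit 319) (nat_lit 5) (nat_lit 271) (nat_lit 257) (nat_lit 252)))) (XT.nd (nat_lit 156) (nat_lit 608) (nat_lit 0) (XT.nd (nat_lit 78) (nat_lit 0) (nat_lit 0) (XT.lf (nat_lit 0) (nat_lit 1235628226) (nat_lit 532) (nat_lit 4759473150) (nat_lit 76) (nat_lit 619736961) (nat_lit 306)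 (nat_lit 5) (nat_lit 313) (nat_lit 5) (nat_lit 307) (nat_lit 5) (nat_lit 272) (nat_lit 257) (nat_lit 251)) (XT.lf (nat_lit 0) (nat_lit 4060758755) (nat_lit 532) (nat_lit 1022920861) (nat_lit 76) (nat_lit 1563650708) (nat_lit 306) (nat_lit 5) (nat_lit 313) (nat_lit 5) (nat_lit 307) (nat_lit 5) (nat_lit 273) (nat_lit 257) (nat_lit 250))) (XT.nd (nat_lit 78) (nat_lit 0) (nat_lit 0) (XT.lf (nat_lit 0) (nat_lit 214352053) (nat_lit 608) (nat_lit 3874007901) (nat_lit 76) (nat_lit 2594600264) (nat_lit 298) (nat_lit 5) (nat_lit 306) (nat_lit 5) (nat_lit 299) (nat_lit 5) (nat_lit 274) (nat_lit 257) (nat_lit 249)) (XT.lf (nat_lit 0) (nat_lit 2962780987) (nat_lit 608) (nat_lit 39132762) (nat_lit 76) (nat_lit 3719660191) (nat_lit 298) (nat_lit 5) (nat_lit 306) (nat_lit 5) (nat_lit 299) (nat_lit 5) (nat_lit 275) (nat_lit 257) (nat_lit 248))))))) (XT.nd (nat_lit 1092) (nat_lit 4864) (nat_lit 0) (XT.nd (nat_lit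 546) (nat_lit 4104) (nat_lit 0) (XT.nd (nat_lit 234) (nat_lit 2660) (nat_lit 0) (XT.nd (nat_lit 78) (nat_lit 760) (nat_lit 0) (XT.lf (nat_lit 0) (nat_lit 3918493017) (nat_lit 608) (nat_lit 1820636103) (nat_lit 684) (nat_lit 1023995848) (nat_lit 290) (nat_lit 5) (nat_lit 298) (nat_lit 5) (nat_lit 299) (nat_lit 5) (nat_lit 276) (nat_lit 257) (nat_lit 247)) (XT.nd (nat_lit 78) (nat_lit 0) (nat_lit 0) (XT.lf (nat_lit 0) (nat_lit 1124407356) (nat_lit 684) (nat_lit 553462085) (nat_lit 760) (nat_lit 5130070478) (nat_lit 280) (nat_lit 5) (nat_lit 289) (nat_lit 5) (nat_lit 290) (nat_lit 5) (nat_lit 277) (nat_lit 257) (nat_lit 246)) (XT.lf (nat_lit 0) (nat_lit 4387427187) (nat_lit 760) (nat_lit 1672403036) (nat_lit 76) (nat_lit 795679166) (nat_lit 280) (nat_lit 5) (nat_lit 290) (nat_lit 5) (nat_lit 281) (nat_lit 5) (nat_lit 278) (nat_lit 257) (nat_lit 245)))) (XT.nd (nat_lit 156) (nat_lit 1824) (nat_lit 0)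 (XT.nd (nat_lit 78) (nat_lit 0) (nat_lit 0) (XT.lf (nat_lit 0) (nat_lit 210149790) (nat_lit 836) (nat_lit 4477646107) (nat_lit 76) (nat_lit 2218502566) (nat_lit 269) (nat_lit 5) (nat_lit 280) (nat_lit 5) (nat_lit 270) (nat_lit 5) (nat_lit 279) (nat_lit 257) (nat_lit 244)) (XT.lf (nat_lit 0) (nat_lit 2850643245) (nat_lit 836) (nat_lit 367058816) (nat_lit 76) (nat_lit 3742350104) (nat_lit 269) (nat_lit 5) (nat_lit 280) (nat_lit 5) (nat_lit 270) (nat_lit 5) (nat_lit 280) (nat_lit 257) (nat_lit 243))) (XT.nd (nat_lit 78) (nat_lit 988) (nat_lit 0) (XT.lf (nat_lit 0) (nat_lit 3873131029) (nat_lit 836) (nat_lit 1651407991) (nat_lit 912) (nat_lit 1492370012) (nat_lit 258) (nat_lit 5) (nat_lit 269) (nat_lit 5) (nat_lit 270) (nat_lit 5) (nat_lit 281) (nat_lit 257) (nat_lit 242)) (XT.lf (nat_lit 0) (nat_lit 1111943551) (nat_lit 988) (nat_lit 5964835968) (nat_lit 76) (nat_lit 487370) (nat_lit 245) (nat_lit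 5) (nat_lit 258) (nat_lit 5) (nat_lit 246) (nat_lit 5) (nat_lit 282) (nat_lit 257) (nat_lit 241))))) (XT.nd (nat_lit 234) (nat_lit 3040) (nat_lit 0) (XT.nd (nat_lit 78) (nat_lit 1064) (nat_lit 0) (XT.lf (nat_lit 0) (nat_lit 3732430962) (nat_lit 988) (nat_lit 1681447982) (nat_lit 76) (nat_lit 1726178391) (nat_lit 245) (nat_lit 5) (nat_lit 258) (nat_lit 5) (nat_lit 246) (nat_lit 5) (nat_lit 283) (nat_lit 257) (nat_lit 240)) (XT.nd (nat_lit 78) (nat_lit 76) (nat_lit 0) (XT.lf (nat_lit 0) (nat_lit 2713197025) (nat_lit 988) (nat_lit 3666386507) (nat_lit 1064) (nat_lit 826809671) (nat_lit 232) (nat_lit 5) (nat_lit 245) (nat_lit 5) (nat_lit 246) (nat_lit 5) (nat_lit 284) (nat_lit 257) (nat_lit 239)) (XT.lf (nat_lit 0) (nat_lit 1735560466) (nat_lit 1064) (nat_lit 88969375) (nat_lit 76) (nat_lit 5451562456) (nat_lit 231) (nat_lit 5) (nat_lit 245) (nat_lit 5) (nat_lit 232) (nat_lit 5) (nat_lit 285) (nat_lit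 257) (nat_lit 238)))) (XT.nd (nat_lit 156) (nat_lit 836) (nat_lit 0) (XT.nd (nat_lit 78) (nat_lit 1140) (nat_lit 0) (XT.lf (nat_lit 0) (nat_lit 4327258623) (nat_lit 1140) (nat_lit 2892849029) (nat_lit 76) (nat_lit 128551340) (nat_lit 217) (nat_lit 5) (nat_lit 232) (nat_lit 5) (nat_lit 218) (nat_lit 5) (nat_lit 286) (nat_lit 257) (nat_lit 237)) (XT.lf (nat_lit 0) (nat_lit 1658946216) (nat_lit 1140) (nat_lit 5299227614) (nat_lit 1216) (nat_lit 466476590) (nat_lit 202) (nat_lit 5) (nat_lit 217) (nat_lit 5) (nat_lit 218) (nat_lit 5) (nat_lit 287) (nat_lit 257) (nat_lit 236))) (XT.nd (nat_lit 78) (nat_lit 760) (nat_lit 0) (XT.lf (nat_lit 0) (nat_lit 2079560864) (nat_lit 1216) (nat_lit 1188125351) (nat_lit 76) (nat_lit 4235996013) (nat_lit 201) (nat_lit 5) (nat_lit 217) (nat_lit 5) (nat_lit 202) (nat_lit 5) (nat_lit 288) (nat_lit 257) (nat_lit 235)) (XT.lf (nat_lit 0) (nat_lit 3521387366) (nat_lit 760)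 (nat_lit 1134399513) (nat_lit 836) (nat_lit 2930347990) (nat_lit 191) (nat_lit 5) (nat_lit 201) (nat_lit 5) (nat_lit 202) (nat_lit 5) (nat_lit 289) (nat_lit 257) (nat_lit 234)))))) (XT.nd (nat_lit 546) (nat_lit 2508) (nat_lit 0) (XT.nd (nat_lit 234) (nat_lit 1140) (nat_lit 0) (XT.nd (nat_lit 78) (nat_lit 608) (nat_lit 0) (XT.lf (nat_lit 0) (nat_lit 657358639) (nat_lit 608) (nat_lit 6611328282) (nat_lit 684) (nat_lit 403674036) (nat_lit 183) (nat_lit 5) (nat_lit 191) (nat_lit 5) (nat_lit 192) (nat_lit 5) (nat_lit 290) (nat_lit 257) (nat_lit 233)) (XT.nd (nat_lit 78) (nat_lit 532) (nat_lit 0) (XT.lf (nat_lit 0) (nat_lit 2139904171) (nat_lit 684) (nat_lit 2259985777) (nat_lit 76) (nat_lit 3361206287) (nat_lit 182) (nat_lit 5) (nat_lit 191) (nat_lit 5) (nat_lit 183) (nat_lit 5) (nat_lit 291) (nat_lit 257) (nat_lit 232)) (XT.lf (nat_lit 0) (nat_lit 2615082769) (nat_lit 532) (nat_lit 2095057976) (nat_lit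 608) (nat_lit 3143553559) (nat_lit 175) (nat_lit 5) (nat_lit 182) (nat_lit 5) (nat_lit 183) (nat_lit 5) (nat_lit 292) (nat_lit 257) (nat_lit 231)))) (XT.nd (nat_lit 156) (nat_lit 532) (nat_lit 0) (XT.nd (nat_lit 78) (nat_lit 608) (nat_lit 0) (XT.lf (nat_lit 0) (nat_lit 7317784623) (nat_lit 608) (nat_lit 339510700) (nat_lit 76) (nat_lit 293038385) (nat_lit 175) (nat_lit 5) (nat_lit 183) (nat_lit 5) (nat_lit 176) (nat_lit 5) (nat_lit 293) (nat_lit 257) (nat_lit 230)) (XT.lf (nat_lit 0) (nat_lit 1918100418) (nat_lit 608) (nat_lit 3359849158) (nat_lit 76) (nat_lit 2771354325) (nat_lit 167) (nat_lit 5) (nat_lit 175) (nat_lit 5) (nat_lit 168) (nat_lit 5) (nat_lit 294) (nat_lit 257) (nat_lit 229))) (XT.nd (nat_lit 78) (nat_lit 0) (nat_lit 0) (XT.lf (nat_lit 0) (nat_lit 1682108293) (nat_lit 532) (nat_lit 2807067166) (nat_lit 608) (nat_lit 3663247519) (nat_lit 160) (nat_lit 5) (nat_lit 167) (nat_lit 5) (nat_lit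 168) (nat_lit 5) (nat_lit 295) (nat_lit 257) (nat_lit 228)) (XT.lf (nat_lit 0) (nat_lit 6875352393) (nat_lit 532) (nat_lit 234119636) (nat_lit 608) (nat_lit 1150065246) (nat_lit 160) (nat_lit 5) (nat_lit 167) (nat_lit 5) (nat_lit 168) (nat_lit 5) (nat_lit 296) (nat_lit 257) (nat_lit 227))))) (XT.nd (nat_lit 312) (nat_lit 912) (nat_lit 0) (XT.nd (nat_lit 156) (nat_lit 532) (nat_lit 0) (XT.nd (nat_lit 78) (nat_lit 456) (nat_lit 0) (XT.lf (nat_lit 0) (nat_lit 1410391029) (nat_lit 608) (nat_lit 4546204153) (nat_lit 76) (nat_lit 2412917144) (nat_lit 152) (nat_lit 5) (nat_lit 160) (nat_lit 5) (nat_lit 153) (nat_lit 5) (nat_lit 297) (nat_lit 257) (nat_lit 226)) (XT.lf (nat_lit 0) (nat_lit 662914065) (nat_lit 456) (nat_lit 3324788746) (nat_lit 532) (nat_lit 4495906370) (nat_lit 146) (nat_lit 5) (nat_lit 152) (nat_lit 5) (nat_lit 153) (nat_lit 5) (nat_lit 298) (nat_lit 257) (nat_lit 225))) (XT.nd (nat_lit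 78) (nat_lit 532) (nat_lit 0) (XT.lf (nat_lit 0) (nat_lit 6052965370) (nat_lit 456) (nat_lit 576705598) (nat_lit 532) (nat_lit 1971895018) (nat_lit 146) (nat_lit 5) (nat_lit 152) (nat_lit 5) (nat_lit 153) (nat_lit 5) (nat_lit 299) (nat_lit 257) (nat_lit 224)) (XT.lf (nat_lit 0) (nat_lit 607530264) (nat_lit 532) (nat_lit 5881962720) (nat_lit 76) (nat_lit 2233682978) (nat_lit 139) (nat_lit 5) (nat_lit 146) (nat_lit 5) (nat_lit 140) (nat_lit 5) (nat_lit 300) (nat_lit 257) (nat_lit 223)))) (XT.nd (nat_lit 156) (nat_lit 532) (nat_lit 0) (XT.nd (nat_lit 78) (nat_lit 380) (nat_lit 0) (XT.lf (nat_lit 0) (nat_lit 3199851039) (nat_lit 532) (nat_lit 496900015) (nat_lit 76) (nat_lit 5151895399) (nat_lit 139) (nat_lit 5) (nat_lit 146) (nat_lit 5) (nat_lit 140) (nat_lit 5) (nat_lit 301) (nat_lit 257) (nat_lit 222)) (XT.lf (nat_lit 0) (nat_lit 5082172761) (nat_lit 380) (nat_lit 781714092) (nat_lit 456) (nat_lit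 3114226623) (nat_lit 134) (nat_lit 5) (nat_lit 139) (nat_lit 5) (nat_lit 140) (nat_lit 5) (nat_lit 302) (nat_lit 257) (nat_lit 221))) (XT.nd (nat_lit 78) (nat_lit 76) (nat_lit 0) (XT.lf (nat_lit 0) (nat_lit 1671091208) (nat_lit 456) (nat_lit 6925171161) (nat_lit 532) (nat_lit 515598882) (nat_lit 128) (nat_lit 5) (nat_lit 134) (nat_lit 5) (nat_lit 135) (nat_lit 5) (nat_lit 303) (nat_lit 257) (nat_lit 220)) (XT.lf (nat_lit 0) (nat_lit 2112587962) (nat_lit 532) (nat_lit 1860408939) (nat_lit 76) (nat_lit 5276234779) (nat_lit 127) (nat_lit 5) (nat_lit 134) (nat_lit 5) (nat_lit 128) (nat_lit 5) (nat_lit 304) (nat_lit 257) (nat_lit 219))))))))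
noncomputable def xc95 : XT := (XT.nd (nat_lit 2184) (nat_lit 2356) (nat_lit 0) (XT.nd (nat_lit 1092) (nat_lit 1976) (nat_lit 0) (XT.nd (nat_lit 546) (nat_lit 1216) (nat_lit 0) (XT.nd (nat_lit 234) (nat_lit 1140) (nat_lit 0) (XT.nd (nat_lit 78) (nat_lit 456) (nat_lit 0) (XT.lf (nat_lit 0) (nat_lit 3892127109) (nat_lit 380) (nat_lit 902406210) (nat_lit 456) (nat_lit 4596523593) (nat_lit 122) (nat_lit 5) (nat_lit 127) (nat_lit 5) (nat_lit 128) (nat_lit 5) (nat_lit 305) (nat_lit 257) (nat_lit 218)) (XT.nd (nat_lit 78) (nat_lit 76) (nat_lit 0) (XT.lf (nat_lit 0) (nat_lit 234589349) (nat_lit 380) (nat_lit 7313918269) (nat_lit 456) (nat_lit 1988925969) (nat_lit 117) (nat_lit 5) (nat_lit 122) (nat_lit 5) (nat_lit 123) (nat_lit 5) (nat_lit 306) (nat_lit 257) (nat_lit 217)) (XT.lf (nat_lit 0) (nat_lit 697247272) (nat_lit 456) (nat_lit 3517161846) (nat_lit 76) (nat_lit 5473214359) (nat_lit 116) (nat_lit 5)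 (nat_lit 122) (nat_lit 5) (nat_lit 117) (nat_lit 5) (nat_lit 307) (nat_lit 257) (nat_lit 216)))) (XT.nd (nat_lit 156) (nat_lit 760) (nat_lit 0) (XT.nd (nat_lit 78) (nat_lit 0) (nat_lit 0) (XT.lf (nat_lit 0) (nat_lit 2403989408) (nat_lit 380) (nat_lit 993570641) (nat_lit 456) (nat_lit 6445002438) (nat_lit 111) (nat_lit 5) (nat_lit 116) (nat_lit 5) (nat_lit 117) (nat_lit 5) (nat_lit 308) (nat_lit 257) (nat_lit 215)) (XT.lf (nat_lit 0) (nat_lit 6188179388) (nat_lit 456) (nat_lit 1514928862) (nat_lit 76) (nat_lit 2298801420) (nat_lit 111) (nat_lit 5) (nat_lit 117) (nat_lit 5) (nat_lit 112) (nat_lit 5) (nat_lit 309) (nat_lit 257) (nat_lit 214))) (XT.nd (nat_lit 78) (nat_lit 380) (nat_lit 0) (XT.lf (nat_lit 0) (nat_lit 4602289814) (nat_lit 380) (nat_lit 4466819812) (nat_lit 456) (nat_lit 1096767658) (nat_lit 106) (nat_lit 5) (nat_lit 111) (nat_lit 5) (nat_lit 112) (nat_lit 5) (nat_lit 310) (nat_lit 257)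 (nat_lit 213)) (XT.lf (nat_lit 0) (nat_lit 529139240) (nat_lit 304) (nat_lit 1112683301) (nat_lit 380) (nat_lit 8693286514) (nat_lit 101) (nat_lit 5) (nat_lit 105) (nat_lit 5) (nat_lit 106) (nat_lit 5) (nat_lit 311) (nat_lit 257) (nat_lit 212))))) (XT.nd (nat_lit 234) (nat_lit 912) (nat_lit 0) (XT.nd (nat_lit 78) (nat_lit 304) (nat_lit 0) (XT.lf (nat_lit 0) (nat_lit 4473161558) (nat_lit 380) (nat_lit 3688046016) (nat_lit 76) (nat_lit 2346939959) (nat_lit 101) (nat_lit 5) (nat_lit 106) (nat_lit 5) (nat_lit 102) (nat_lit 5) (nat_lit 312) (nat_lit 257) (nat_lit 211)) (XT.nd (nat_lit 78) (nat_lit 0) (nat_lit 0) (XT.lf (nat_lit 0) (nat_lit 2589749015) (nat_lit 304) (nat_lit 4790344394) (nat_lit 380) (nat_lit 3306597747) (nat_lit 97) (nat_lit 5) (nat_lit 101) (nat_lit 5) (nat_lit 102) (nat_lit 5) (nat_lit 313) (nat_lit 257) (nat_lit 210)) (XT.lf (nat_lit 0) (nat_lit 9068913542) (nat_lit 304) (nat_lit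 1298020238) (nat_lit 380) (nat_lit 503908886) (nat_lit 97) (nat_lit 5) (nat_lit 101) (nat_lit 5) (nat_lit 102) (nat_lit 5) (nat_lit 314) (nat_lit 257) (nat_lit 209)))) (XT.nd (nat_lit 156) (nat_lit 228) (nat_lit 0) (XT.nd (nat_lit 78) (nat_lit 304) (nat_lit 0) (XT.lf (nat_lit 0) (nat_lit 2360332209) (nat_lit 380) (nat_lit 6393540045) (nat_lit 76) (nat_lit 2305270930) (nat_lit 92) (nat_lit 5) (nat_lit 97) (nat_lit 5) (nat_lit 93) (nat_lit 5) (nat_lit 315) (nat_lit 257) (nat_lit 208)) (XT.lf (nat_lit 0) (nat_lit 31968456) (nat_lit 304) (nat_lit 5256748695) (nat_lit 380) (nat_lit 5964605378) (nat_lit 88) (nat_lit 5) (nat_lit 92) (nat_lit 5) (nat_lit 93) (nat_lit 5) (nat_lit 316) (nat_lit 257) (nat_lit 207))) (XT.nd (nat_lit 78) (nat_lit 228) (nat_lit 0) (XT.lf (nat_lit 0) (nat_lit 6719726552) (nat_lit 304) (nat_lit 1607264954) (nat_lit 380) (nat_lit 3125703571) (nat_lit 88) (nat_lit 5) (nat_lit 92)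 (nat_lit 5) (nat_lit 93) (nat_lit 5) (nat_lit 317) (nat_lit 257) (nat_lit 206)) (XT.lf (nat_lit 0) (nat_lit 1905699832) (nat_lit 228) (nat_lit 9548252909) (nat_lit 304) (nat_lit 204198016) (nat_lit 85) (nat_lit 5) (nat_lit 88) (nat_lit 5) (nat_lit 89) (nat_lit 5) (nat_lit 318) (nat_lit 257) (nat_lit 205)))))) (XT.nd (nat_lit 546) (nat_lit 836) (nat_lit 0) (XT.nd (nat_lit 234) (nat_lit 760) (nat_lit 0) (XT.nd (nat_lit 78) (nat_lit 304) (nat_lit 0) (XT.lf (nat_lit 0) (nat_lit 2773132001) (nat_lit 304) (nat_lit 3132259816) (nat_lit 76) (nat_lit 5962908483) (nat_lit 84) (nat_lit 5) (nat_lit 88) (nat_lit 5) (nat_lit 85) (nat_lit 5) (nat_lit 319) (nat_lit 257) (nat_lit 204)) (XT.nd (nat_lit 78) (nat_lit 0) (nat_lit 0) (XT.lf (nat_lit 0) (nat_lit 3697320258) (nat_lit 304) (nat_lit 2133833928) (nat_lit 380) (nat_lit 6253700928) (nat_lit 80) (nat_lit 5) (nat_lit 84) (nat_lit 5) (nat_lit 85) (nat_lit 5) (nat_lit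 320) (nat_lit 257) (nat_lit 203)) (XT.lf (nat_lit 0) (nat_lit 8990042430) (nat_lit 380) (nat_lit 1587889883) (nat_lit 76) (nat_lit 1729725477) (nat_lit 80) (nat_lit 5) (nat_lit 85) (nat_lit 5) (nat_lit 81) (nat_lit 5) (nat_lit 321) (nat_lit 257) (nat_lit 202)))) (XT.nd (nat_lit 156) (nat_lit 456) (nat_lit 0) (XT.nd (nat_lit 78) (nat_lit 76) (nat_lit 0) (XT.lf (nat_lit 0) (nat_lit 5442782371) (nat_lit 228) (nat_lit 6835868269) (nat_lit 304) (nat_lit 257469558) (nat_lit 77) (nat_lit 5) (nat_lit 80) (nat_lit 5) (nat_lit 81) (nat_lit 5) (nat_lit 322) (nat_lit 257) (nat_lit 201)) (XT.lf (nat_lit 0) (nat_lit 2815869210) (nat_lit 304) (nat_lit 140272538) (nat_lit 76) (nat_lit 9815146776) (nat_lit 76) (nat_lit 5) (nat_lit 80) (nat_lit 5) (nat_lit 77) (nat_lit 5) (nat_lit 323) (nat_lit 257) (nat_lit 200))) (XT.nd (nat_lit 78) (nat_lit 228) (nat_lit 0) (XT.lf (nat_lit 0) (nat_lit 6017795924) (nat_lit 304)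 (nat_lit 5922202511) (nat_lit 76) (nat_lit 1072212303) (nat_lit 73) (nat_lit 5) (nat_lit 77) (nat_lit 5) (nat_lit 74) (nat_lit 5) (nat_lit 324) (nat_lit 257) (nat_lit 199)) (XT.lf (nat_lit 0) (nat_lit 1217281747) (nat_lit 228) (nat_lit 8104051721) (nat_lit 304) (nat_lit 3938882109) (nat_lit 70) (nat_lit 5) (nat_lit 73) (nat_lit 5) (nat_lit 74) (nat_lit 5) (nat_lit 325) (nat_lit 257) (nat_lit 198))))) (XT.nd (nat_lit 234) (nat_lit 532) (nat_lit 0) (XT.nd (nat_lit 78) (nat_lit 304) (nat_lit 0) (XT.lf (nat_lit 0) (nat_lit 8635964359) (nat_lit 228) (nat_lit 4111499165) (nat_lit 304) (nat_lit 767513363) (nat_lit 70) (nat_lit 5) (nat_lit 73) (nat_lit 5) (nat_lit 74) (nat_lit 5) (nat_lit 326) (nat_lit 257) (nat_lit 197)) (XT.nd (nat_lit 78) (nat_lit 0) (nat_lit 0) (XT.lf (nat_lit 0) (nat_lit 2438623271) (nat_lit 304) (nat_lit 11308825173) (nat_lit 76) (nat_lit 29579921) (nat_lit 66) (nat_lit 5) (nat_lit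 70) (nat_lit 5) (nat_lit 67) (nat_lit 5) (nat_lit 327) (nat_lit 257) (nat_lit 196)) (XT.lf (nat_lit 0) (nat_lit 5780673687) (nat_lit 304) (nat_lit 4014218240) (nat_lit 76) (nat_lit 4250185952) (nat_lit 66) (nat_lit 5) (nat_lit 70) (nat_lit 5) (nat_lit 67) (nat_lit 5) (nat_lit 328) (nat_lit 257) (nat_lit 195)))) (XT.nd (nat_lit 156) (nat_lit 304) (nat_lit 0) (XT.nd (nat_lit 78) (nat_lit 0) (nat_lit 0) (XT.lf (nat_lit 0) (nat_lit 3513605132) (nat_lit 228) (nat_lit 5708875562) (nat_lit 304) (nat_lit 5098721919) (nat_lit 63) (nat_lit 5) (nat_lit 66) (nat_lit 5) (nat_lit 67) (nat_lit 5) (nat_lit 329) (nat_lit 257) (nat_lit 194)) (XT.lf (nat_lit 0) (nat_lit 11295897107) (nat_lit 228) (nat_lit 1478383384) (nat_lit 304) (nat_lit 1831146486) (nat_lit 63) (nat_lit 5) (nat_lit 66) (nat_lit 5) (nat_lit 67) (nat_lit 5) (nat_lit 330) (nat_lit 257) (nat_lit 193))) (XT.nd (nat_lit 78) (nat_lit 0) (nat_lit 0) (XT.lf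 (nat_lit 0) (nat_lit 1542020384) (nat_lit 304) (nat_lit 10493068269) (nat_lit 76) (nat_lit 2861538718) (nat_lit 59) (nat_lit 5) (nat_lit 63) (nat_lit 5) (nat_lit 60) (nat_lit 5) (nat_lit 331) (nat_lit 257) (nat_lit 192)) (XT.lf (nat_lit 0) (nat_lit 4995086712) (nat_lit 304) (nat_lit 2865836509) (nat_lit 76) (nat_lit 7334647905) (nat_lit 59) (nat_lit 5) (nat_lit 63) (nat_lit 5) (nat_lit 60) (nat_lit 5) (nat_lit 332) (nat_lit 257) (nat_lit 191))))))) (XT.nd (nat_lit 1092) (nat_lit 912) (nat_lit 0) (XT.nd (nat_lit 546) (nat_lit 608) (nat_lit 0) (XT.nd (nat_lit 234) (nat_lit 456) (nat_lit 0) (XT.nd (nat_lit 78) (nat_lit 228) (nat_lit 0) (XT.lf (nat_lit 0) (nat_lit 5036987724) (nat_lit 152) (nat_lit 3531254137) (nat_lit 228) (nat_lit 6934762462) (nat_lit 57) (nat_lit 5) (nat_lit 59) (nat_lit 5) (nat_lit 60) (nat_lit 5) (nat_lit 333) (nat_lit 257) (nat_lit 190)) (XT.nd (nat_lit 78) (nat_lit 228) (nat_lit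 0) (XT.lf (nat_lit 0) (nat_lit 12255070907) (nat_lit 228) (nat_lit 2644140317) (nat_lit 76) (nat_lit 920270480) (nat_lit 57) (nat_lit 5) (nat_lit 60) (nat_lit 5) (nat_lit 58) (nat_lit 5) (nat_lit 334) (nat_lit 257) (nat_lit 189)) (XT.lf (nat_lit 0) (nat_lit 5433176848) (nat_lit 228) (nat_lit 10675770286) (nat_lit 304) (nat_lit 34828119) (nat_lit 54) (nat_lit 5) (nat_lit 57) (nat_lit 5) (nat_lit 58) (nat_lit 5) (nat_lit 335) (nat_lit 257) (nat_lit 188)))) (XT.nd (nat_lit 156) (nat_lit 228) (nat_lit 0) (XT.nd (nat_lit 78) (nat_lit 152) (nat_lit 0) (XT.lf (nat_lit 0) (nat_lit 3526700270) (nat_lit 304) (nat_lit 2755261324) (nat_lit 76) (nat_lit 10194922320) (nat_lit 53) (nat_lit 5) (nat_lit 57) (nat_lit 5) (nat_lit 54) (nat_lit 5) (nat_lit 336) (nat_lit 257) (nat_lit 187)) (XT.lf (nat_lit 0) (nat_lit 5496715231) (nat_lit 152) (nat_lit 1720744367) (nat_lit 228) (nat_lit 9601837168) (nat_lit 51) (nat_lit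 5) (nat_lit 53) (nat_lit 5) (nat_lit 54) (nat_lit 5) (nat_lit 337) (nat_lit 257) (nat_lit 186))) (XT.nd (nat_lit 78) (nat_lit 228) (nat_lit 0) (XT.lf (nat_lit 0) (nat_lit 11046124088) (nat_lit 228) (nat_lit 3196478361) (nat_lit 76) (nat_lit 2928577514) (nat_lit 51) (nat_lit 5) (nat_lit 54) (nat_lit 5) (nat_lit 52) (nat_lit 5) (nat_lit 338) (nat_lit 257) (nat_lit 185)) (XT.lf (nat_lit 0) (nat_lit 5210307671) (nat_lit 228) (nat_lit 9817787285) (nat_lit 304) (nat_lit 2504384341) (nat_lit 48) (nat_lit 5) (nat_lit 51) (nat_lit 5) (nat_lit 52) (nat_lit 5) (nat_lit 339) (nat_lit 257) (nat_lit 184))))) (XT.nd (nat_lit 234) (nat_lit 380) (nat_lit 0) (XT.nd (nat_lit 78) (nat_lit 152) (nat_lit 0) (XT.lf (nat_lit 0) (nat_lit 1205015732) (nat_lit 304) (nat_lit 4028769724) (nat_lit 76) (nat_lit 12670370885) (nat_lit 47) (nat_lit 5) (nat_lit 51) (nat_lit 5) (nat_lit 48) (nat_lit 5) (nat_lit 340) (nat_lit 257)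 (nat_lit 183)) (XT.nd (nat_lit 78) (nat_lit 0) (nat_lit 0) (XT.lf (nat_lit 0) (nat_lit 4530591885) (nat_lit 152) (nat_lit 460566728) (nat_lit 228) (nat_lit 13294619245) (nat_lit 45) (nat_lit 5) (nat_lit 47) (nat_lit 5) (nat_lit 48) (nat_lit 5) (nat_lit 341) (nat_lit 257) (nat_lit 182)) (XT.lf (nat_lit 0) (nat_lit 8947236533) (nat_lit 228) (nat_lit 5338196028) (nat_lit 76) (nat_lit 4391736520) (nat_lit 45) (nat_lit 5) (nat_lit 48) (nat_lit 5) (nat_lit 46) (nat_lit 5) (nat_lit 342) (nat_lit 257) (nat_lit 181)))) (XT.nd (nat_lit 156) (nat_lit 228) (nat_lit 0) (XT.nd (nat_lit 78) (nat_lit 0) (nat_lit 0) (XT.lf (nat_lit 0) (nat_lit 3346756135) (nat_lit 152) (nat_lit 9685207649) (nat_lit 228) (nat_lit 6048050492) (nat_lit 43) (nat_lit 5) (nat_lit 45) (nat_lit 5) (nat_lit 46) (nat_lit 5) (nat_lit 343) (nat_lit 257) (nat_lit 180)) (XT.lf (nat_lit 0) (nat_lit 12356834034) (nat_lit 152) (nat_lit 4909888398)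 (nat_lit 228) (nat_lit 2227408625) (nat_lit 43) (nat_lit 5) (nat_lit 45) (nat_lit 5) (nat_lit 46) (nat_lit 5) (nat_lit 344) (nat_lit 257) (nat_lit 179))) (XT.nd (nat_lit 78) (nat_lit 0) (nat_lit 0) (XT.lf (nat_lit 0) (nat_lit 1665083595) (nat_lit 228) (nat_lit 18231697133) (nat_lit 76) (nat_lit 23691675) (nat_lit 40) (nat_lit 5) (nat_lit 43) (nat_lit 5) (nat_lit 41) (nat_lit 5) (nat_lit 345) (nat_lit 257) (nat_lit 178)) (XT.lf (nat_lit 0) (nat_lit 5725231839) (nat_lit 228) (nat_lit 9547126195) (nat_lit 76) (nat_lit 5083724841) (nat_lit 40) (nat_lit 5) (nat_lit 43) (nat_lit 5) (nat_lit 41) (nat_lit 5) (nat_lit 346) (nat_lit 257) (nat_lit 177)))))) (XT.nd (nat_lit 546) (nat_lit 380) (nat_lit 0) (XT.nd (nat_lit 234) (nat_lit 380) (nat_lit 0) (XT.nd (nat_lit 78) (nat_lit 152) (nat_lit 0) (XT.lf (nat_lit 0) (nat_lit 9882185417) (nat_lit 228) (nat_lit 644971346) (nat_lit 76) (nat_lit 10278364572) (nat_lit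 40) (nat_lit 5) (nat_lit 43) (nat_lit 5) (nat_lit 41) (nat_lit 5) (nat_lit 347) (nat_lit 257) (nat_lit 176)) (XT.nd (nat_lit 78) (nat_lit 0) (nat_lit 0) (XT.lf (nat_lit 0) (nat_lit 8651365291) (nat_lit 152) (nat_lit 5571373540) (nat_lit 228) (nat_lit 7043946799) (nat_lit 38) (nat_lit 5) (nat_lit 40) (nat_lit 5) (nat_lit 41) (nat_lit 5) (nat_lit 348) (nat_lit 257) (nat_lit 175)) (XT.lf (nat_lit 0) (nat_lit 18198520000) (nat_lit 152) (nat_lit 477540795) (nat_lit 228) (nat_lit 3066156644) (nat_lit 38) (nat_lit 5) (nat_lit 40) (nat_lit 5) (nat_lit 41) (nat_lit 5) (nat_lit 349) (nat_lit 257) (nat_lit 174)))) (XT.nd (nat_lit 156) (nat_lit 152) (nat_lit 0) (XT.nd (nat_lit 78) (nat_lit 0) (nat_lit 0) (XT.lf (nat_lit 0) (nat_lit 1090051551) (nat_lit 228) (nat_lit 16413051122) (nat_lit 76) (nat_lit 4726247774) (nat_lit 35) (nat_lit 5) (nat_lit 38) (nat_lit 5) (nat_lit 36) (nat_lit 5) (nat_lit 350) (nat_lit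 257) (nat_lit 173)) (XT.lf (nat_lit 0) (nat_lit 5326819281) (nat_lit 228) (nat_lit 7276436639) (nat_lit 76) (nat_lit 10126414154) (nat_lit 35) (nat_lit 5) (nat_lit 38) (nat_lit 5) (nat_lit 36) (nat_lit 5) (nat_lit 351) (nat_lit 257) (nat_lit 172))) (XT.nd (nat_lit 78) (nat_lit 0) (nat_lit 0) (XT.lf (nat_lit 0) (nat_lit 2136441053) (nat_lit 152) (nat_lit 7552099530) (nat_lit 228) (nat_lit 13556531314) (nat_lit 33) (nat_lit 5) (nat_lit 35) (nat_lit 5) (nat_lit 36) (nat_lit 5) (nat_lit 352) (nat_lit 257) (nat_lit 171)) (XT.lf (nat_lit 0) (nat_lit 11941727509) (nat_lit 152) (nat_lit 2290462073) (nat_lit 228) (nat_lit 9542221799) (nat_lit 33) (nat_lit 5) (nat_lit 35) (nat_lit 5) (nat_lit 36) (nat_lit 5) (nat_lit 353) (nat_lit 257) (nat_lit 170))))) (XT.nd (nat_lit 312) (nat_lit 76) (nat_lit 0) (XT.nd (nat_lit 156) (nat_lit 228) (nat_lit 0) (XT.nd (nat_lit 78) (nat_lit 76) (nat_lit 0) (XT.lf (nat_lit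 0) (nat_lit 18920320751) (nat_lit 228) (nat_lit 2347037996) (nat_lit 76) (nat_lit 3052034778) (nat_lit 33) (nat_lit 5) (nat_lit 36) (nat_lit 5) (nat_lit 34) (nat_lit 4) (nat_lit 354) (nat_lit 257) (nat_lit 169)) (XT.lf (nat_lit 0) (nat_lit 7509659920) (nat_lit 76) (nat_lit 16313033847) (nat_lit 152) (nat_lit 1055830864) (nat_lit 32) (nat_lit 5) (nat_lit 33) (nat_lit 5) (nat_lit 34) (nat_lit 4) (nat_lit 355) (nat_lit 257) (nat_lit 168))) (XT.nd (nat_lit 78) (nat_lit 152) (nat_lit 0) (XT.lf (nat_lit 0) (nat_lit 3353732873) (nat_lit 152) (nat_lit 7814078505) (nat_lit 76) (nat_lit 14285558216) (nat_lit 31) (nat_lit 5) (nat_lit 33) (nat_lit 5) (nat_lit 32) (nat_lit 5) (nat_lit 356) (nat_lit 257) (nat_lit 167)) (XT.lf (nat_lit 0) (nat_lit 2019961977) (nat_lit 152) (nat_lit 5853216754) (nat_lit 228) (nat_lit 18172009876) (nat_lit 29) (nat_lit 5) (nat_lit 31) (nat_lit 5) (nat_lit 32) (nat_lit 5) (nat_lit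 357) (nat_lit 257) (nat_lit 166)))) (XT.nd (nat_lit 156) (nat_lit 76) (nat_lit 0) (XT.nd (nat_lit 78) (nat_lit 0) (nat_lit 0) (XT.lf (nat_lit 0) (nat_lit 12273208747) (nat_lit 152) (nat_lit 313559349) (nat_lit 228) (nat_lit 14066243895) (nat_lit 29) (nat_lit 5) (nat_lit 31) (nat_lit 5) (nat_lit 32) (nat_lit 5) (nat_lit 358) (nat_lit 257) (nat_lit 165)) (XT.lf (nat_lit 0) (nat_lit 17473698948) (nat_lit 228) (nat_lit 4532251568) (nat_lit 76) (nat_lit 5272167959) (nat_lit 29) (nat_lit 5) (nat_lit 32) (nat_lit 5) (nat_lit 30) (nat_lit 4) (nat_lit 359) (nat_lit 257) (nat_lit 164))) (XT.nd (nat_lit 78) (nat_lit 0) (nat_lit 0) (XT.lf (nat_lit 0) (nat_lit 5684171405) (nat_lit 76) (nat_lit 16861490053) (nat_lit 152) (nat_lit 5375170212) (nat_lit 28) (nat_lit 5) (nat_lit 29) (nat_lit 5) (nat_lit 30) (nat_lit 4) (nat_lit 360) (nat_lit 257) (nat_lit 163)) (XT.lf (nat_lit 0) (nat_lit 16265961376) (nat_lit 76)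 (nat_lit 11530503368) (nat_lit 152) (nat_lit 785567104) (nat_lit 28) (nat_lit 5) (nat_lit 29) (nat_lit 5) (nat_lit 30) (nat_lit 4) (nat_lit 361) (nat_lit 257) (nat_lit 162))))))))
noncomputable def xc96 : XT := (XT.nd (nat_lit 2184) (nat_lit 456) (nat_lit 0) (XT.nd (nat_lit 1092) (nat_lit 304) (nat_lit 0) (XT.nd (nat_lit 546) (nat_lit 380) (nat_lit 0) (XT.nd (nat_lit 234) (nat_lit 152) (nat_lit 0) (XT.nd (nat_lit 78) (nat_lit 152) (nat_lit 0) (XT.lf (nat_lit 0) (nat_lit 3846088570) (nat_lit 152) (nat_lit 2169172650) (nat_lit 76) (nat_lit 23247237350) (nat_lit 27) (nat_lit 5) (nat_lit 29) (nat_lit 5) (nat_lit 28) (nat_lit 5) (nat_lit 362) (nat_lit 257) (nat_lit 161)) (XT.nd (nat_lit 78) (nat_lit 0) (nat_lit 0) (XT.lf (nat_lit 0) (nat_lit 8405938328) (nat_lit 152) (nat_lit 257596389) (nat_lit 228) (nat_lit 21297737876) (nat_lit 25) (nat_lit 5) (nat_lit 27) (nat_lit 5) (nat_lit 28) (nat_lit 5) (nat_lit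 363) (nat_lit 257) (nat_lit 160)) (XT.lf (nat_lit 0) (nat_lit 13684067042) (nat_lit 228) (nat_lit 11424867048) (nat_lit 76) (nat_lit 5570324232) (nat_lit 25) (nat_lit 5) (nat_lit 28) (nat_lit 5) (nat_lit 26) (nat_lit 4) (nat_lit 364) (nat_lit 257) (nat_lit 159)))) (XT.nd (nat_lit 156) (nat_lit 76) (nat_lit 0) (XT.nd (nat_lit 78) (nat_lit 76) (nat_lit 0) (XT.lf (nat_lit 0) (nat_lit 18840203777) (nat_lit 228) (nat_lit 1024624244) (nat_lit 76) (nat_lit 11554411164) (nat_lit 25) (nat_lit 5) (nat_lit 28) (nat_lit 5) (nat_lit 26) (nat_lit 4) (nat_lit 365) (nat_lit 257) (nat_lit 158)) (XT.lf (nat_lit 0) (nat_lit 9849150307) (nat_lit 76) (nat_lit 14379499859) (nat_lit 152) (nat_lit 7950445604) (nat_lit 24) (nat_lit 5) (nat_lit 25) (nat_lit 5) (nat_lit 26) (nat_lit 4) (nat_lit 366) (nat_lit 257) (nat_lit 157))) (XT.nd (nat_lit 78) (nat_lit 76) (nat_lit 0) (XT.lf (nat_lit 0) (nat_lit 21039774623) (nat_lit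 76) (nat_lit 8732476224) (nat_lit 152) (nat_lit 3189697093) (nat_lit 24) (nat_lit 5) (nat_lit 25) (nat_lit 5) (nat_lit 26) (nat_lit 4) (nat_lit 367) (nat_lit 257) (nat_lit 156)) (XT.lf (nat_lit 0) (nat_lit 1663908265) (nat_lit 152) (nat_lit 1248459045) (nat_lit 76) (nat_lit 30855924408) (nat_lit 23) (nat_lit 5) (nat_lit 25) (nat_lit 5) (nat_lit 24) (nat_lit 5) (nat_lit 368) (nat_lit 257) (nat_lit 155))))) (XT.nd (nat_lit 234) (nat_lit 228) (nat_lit 0) (XT.nd (nat_lit 78) (nat_lit 0) (nat_lit 0) (XT.lf (nat_lit 0) (nat_lit 6708679964) (nat_lit 228) (nat_lit 24748586728) (nat_lit 76) (nat_lit 3137326142) (nat_lit 21) (nat_lit 5) (nat_lit 24) (nat_lit 5) (nat_lit 22) (nat_lit 4) (nat_lit 369) (nat_lit 257) (nat_lit 154)) (XT.nd (nat_lit 78) (nat_lit 0) (nat_lit 0) (XT.lf (nat_lit 0) (nat_lit 11930389884) (nat_lit 228) (nat_lit 14204388158) (nat_lit 76) (nat_lit 9310141457) (nat_lit 21) (nat_lit 5)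 (nat_lit 24) (nat_lit 5) (nat_lit 22) (nat_lit 4) (nat_lit 370) (nat_lit 257) (nat_lit 153)) (XT.lf (nat_lit 0) (nat_lit 17293244247) (nat_lit 228) (nat_lit 3372039012) (nat_lit 76) (nat_lit 15655942150) (nat_lit 21) (nat_lit 5) (nat_lit 24) (nat_lit 5) (nat_lit 22) (nat_lit 4) (nat_lit 371) (nat_lit 257) (nat_lit 152)))) (XT.nd (nat_lit 156) (nat_lit 152) (nat_lit 0) (XT.nd (nat_lit 78) (nat_lit 0) (nat_lit 0) (XT.lf (nat_lit 0) (nat_lit 7912323806) (nat_lit 76) (nat_lit 14965663333) (nat_lit 152) (nat_lit 14344007387) (nat_lit 20) (nat_lit 5) (nat_lit 21) (nat_lit 5) (nat_lit 22) (nat_lit 4) (nat_lit 372) (nat_lit 257) (nat_lit 151)) (XT.lf (nat_lit 0) (nat_lit 19577254448) (nat_lit 76) (nat_lit 9072191783) (nat_lit 152) (nat_lit 9499769265) (nat_lit 20) (nat_lit 5) (nat_lit 21) (nat_lit 5) (nat_lit 22) (nat_lit 4) (nat_lit 373) (nat_lit 257) (nat_lit 150))) (XT.nd (nat_lit 78) (nat_lit 152) (nat_lit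 0) (XT.lf (nat_lit 0) (nat_lit 31565835383) (nat_lit 76) (nat_lit 3013769955) (nat_lit 152) (nat_lit 4525084950) (nat_lit 20) (nat_lit 5) (nat_lit 21) (nat_lit 5) (nat_lit 22) (nat_lit 4) (nat_lit 374) (nat_lit 257) (nat_lit 149)) (XT.lf (nat_lit 0) (nat_lit 641509032) (nat_lit 152) (nat_lit 36250124646) (nat_lit 76) (nat_lit 3195395970) (nat_lit 18) (nat_lit 5) (nat_lit 20) (nat_lit 5) (nat_lit 19) (nat_lit 4) (nat_lit 375) (nat_lit 257) (nat_lit 148)))))) (XT.nd (nat_lit 546) (nat_lit 228) (nat_lit 0) (XT.nd (nat_lit 234) (nat_lit 76) (nat_lit 0) (XT.nd (nat_lit 78) (nat_lit 0) (nat_lit 0) (XT.lf (nat_lit 0) (nat_lit 5964761882) (nat_lit 152) (nat_lit 25489350870) (nat_lit 76) (nat_lit 9640607580) (nat_lit 18) (nat_lit 5) (nat_lit 20) (nat_lit 5) (nat_lit 19) (nat_lit 4) (nat_lit 376) (nat_lit 257) (nat_lit 147)) (XT.nd (nat_lit 78) (nat_lit 0) (nat_lit 0) (XT.lf (nat_lit 0) (nat_lit 11434013364)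 (nat_lit 152) (nat_lit 14430876682) (nat_lit 76) (nat_lit 16268166106) (nat_lit 18) (nat_lit 5) (nat_lit 20) (nat_lit 5) (nat_lit 19) (nat_lit 4) (nat_lit 377) (nat_lit 257) (nat_lit 146)) (XT.lf (nat_lit 0) (nat_lit 17054042435) (nat_lit 152) (nat_lit 3065039339) (nat_lit 76) (nat_lit 23083862620) (nat_lit 18) (nat_lit 5) (nat_lit 20) (nat_lit 5) (nat_lit 19) (nat_lit 4) (nat_lit 378) (nat_lit 257) (nat_lit 145)))) (XT.nd (nat_lit 156) (nat_lit 0) (nat_lit 0) (XT.nd (nat_lit 78) (nat_lit 0) (nat_lit 0) (XT.lf (nat_lit 0) (nat_lit 8789609412) (nat_lit 76) (nat_lit 14124641490) (nat_lit 152) (nat_lit 21388534274) (nat_lit 17) (nat_lit 5) (nat_lit 18) (nat_lit 5) (nat_lit 19) (nat_lit 4) (nat_lit 379) (nat_lit 257) (nat_lit 144)) (XT.lf (nat_lit 0) (nat_lit 21039279441) (nat_lit 76) (nat_lit 7929175185) (nat_lit 152) (nat_lit 16466624040) (nat_lit 17) (nat_lit 5) (nat_lit 18) (nat_lit 5) (nat_lit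 19) (nat_lit 4) (nat_lit 380) (nat_lit 257) (nat_lit 143))) (XT.nd (nat_lit 78) (nat_lit 0) (nat_lit 0) (XT.lf (nat_lit 0) (nat_lit 33633674050) (nat_lit 76) (nat_lit 1558220233) (nat_lit 152) (nat_lit 11409821447) (nat_lit 17) (nat_lit 5) (nat_lit 18) (nat_lit 5) (nat_lit 19) (nat_lit 4) (nat_lit 381) (nat_lit 257) (nat_lit 142)) (XT.lf (nat_lit 0) (nat_lit 41638011197) (nat_lit 152) (nat_lit 1267921077) (nat_lit 0) (nat_lit 4896343385) (nat_lit 17) (nat_lit 5) (nat_lit 19) (nat_lit 4) (nat_lit 17) (nat_lit 4) (nat_lit 382) (nat_lit 257) (nat_lit 141))))) (XT.nd (nat_lit 234) (nat_lit 76) (nat_lit 0) (XT.nd (nat_lit 78) (nat_lit 76) (nat_lit 0) (XT.lf (nat_lit 0) (nat_lit 10959924899) (nat_lit 76) (nat_lit 37426595203) (nat_lit 76) (nat_lit 649064915) (nat_lit 16) (nat_lit 4) (nat_lit 17) (nat_lit 5) (nat_lit 17) (nat_lit 4) (nat_lit 383) (nat_lit 257) (nat_lit 140)) (XT.nd (nat_lit 78) (nat_lit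 0) (nat_lit 0) (XT.lf (nat_lit 0) (nat_lit 4934581722) (nat_lit 152) (nat_lit 26795147327) (nat_lit 76) (nat_lit 18574681059) (nat_lit 15) (nat_lit 5) (nat_lit 17) (nat_lit 5) (nat_lit 16) (nat_lit 4) (nat_lit 384) (nat_lit 257) (nat_lit 139)) (XT.lf (nat_lit 0) (nat_lit 10661279844) (nat_lit 152) (nat_lit 15203753961) (nat_lit 76) (nat_lit 25746418369) (nat_lit 15) (nat_lit 5) (nat_lit 17) (nat_lit 5) (nat_lit 16) (nat_lit 4) (nat_lit 385) (nat_lit 257) (nat_lit 138)))) (XT.nd (nat_lit 156) (nat_lit 0) (nat_lit 0) (XT.nd (nat_lit 78) (nat_lit 76) (nat_lit 0) (XT.lf (nat_lit 0) (nat_lit 16548698956) (nat_lit 152) (nat_lit 3285112409) (nat_lit 76) (nat_lit 33124229100) (nat_lit 15) (nat_lit 5) (nat_lit 17) (nat_lit 5) (nat_lit 16) (nat_lit 4) (nat_lit 386) (nat_lit 257) (nat_lit 137)) (XT.lf (nat_lit 0) (nat_lit 9149735981) (nat_lit 76) (nat_lit 13540200282) (nat_lit 152) (nat_lit 31652776764) (nat_lit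 14) (nat_lit 5) (nat_lit 15) (nat_lit 5) (nat_lit 16) (nat_lit 4) (nat_lit 387) (nat_lit 257) (nat_lit 136))) (XT.nd (nat_lit 78) (nat_lit 0) (nat_lit 0) (XT.lf (nat_lit 0) (nat_lit 22005269759) (nat_lit 76) (nat_lit 7032680821) (nat_lit 152) (nat_lit 26730301406) (nat_lit 14) (nat_lit 5) (nat_lit 15) (nat_lit 5) (nat_lit 16) (nat_lit 4) (nat_lit 388) (nat_lit 257) (nat_lit 135)) (XT.lf (nat_lit 0) (nat_lit 35227341738) (nat_lit 76) (nat_lit 338739994) (nat_lit 152) (nat_lit 21670787440) (nat_lit 14) (nat_lit 5) (nat_lit 15) (nat_lit 5) (nat_lit 16) (nat_lit 4) (nat_lit 389) (nat_lit 257) (nat_lit 134))))))) (XT.nd (nat_lit 1092) (nat_lit 152) (nat_lit 0) (XT.nd (nat_lit 546) (nat_lit 76) (nat_lit 0) (XT.nd (nat_lit 234) (nat_lit 152) (nat_lit 0) (XT.nd (nat_lit 78) (nat_lit 76) (nat_lit 0) (XT.lf (nat_lit 0) (nat_lit 42342972208) (nat_lit 152) (nat_lit 9985280954) (nat_lit 0) (nat_lit 6419706526)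 (nat_lit 14) (nat_lit 5) (nat_lit 16) (nat_lit 4) (nat_lit 14) (nat_lit 4) (nat_lit 390) (nat_lit 257) (nat_lit 133)) (XT.nd (nat_lit 78) (nat_lit 0) (nat_lit 0) (XT.lf (nat_lit 0) (nat_lit 2425423641) (nat_lit 76) (nat_lit 46914603522) (nat_lit 76) (nat_lit 10963852238) (nat_lit 13) (nat_lit 4) (nat_lit 14) (nat_lit 5) (nat_lit 14) (nat_lit 4) (nat_lit 391) (nat_lit 257) (nat_lit 132)) (XT.lf (nat_lit 0) (nat_lit 15395072543) (nat_lit 76) (nat_lit 41243054325) (nat_lit 76) (nat_lit 5265617992) (nat_lit 13) (nat_lit 4) (nat_lit 14) (nat_lit 5) (nat_lit 14) (nat_lit 4) (nat_lit 392) (nat_lit 257) (nat_lit 131)))) (XT.nd (nat_lit 156) (nat_lit 76) (nat_lit 0) (XT.nd (nat_lit 78) (nat_lit 0) (nat_lit 0) (XT.lf (nat_lit 0) (nat_lit 582274140) (nat_lit 152) (nat_lit 34821327642) (nat_lit 76) (nat_lit 28148117815) (nat_lit 12) (nat_lit 5) (nat_lit 14) (nat_lit 5) (nat_lit 13) (nat_lit 4) (nat_lit 393)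 (nat_lit 257) (nat_lit 130)) (XT.lf (nat_lit 0) (nat_lit 6490534915) (nat_lit 152) (nat_lit 22852711488) (nat_lit 76) (nat_lit 35904602128) (nat_lit 12) (nat_lit 5) (nat_lit 14) (nat_lit 5) (nat_lit 13) (nat_lit 4) (nat_lit 394) (nat_lit 257) (nat_lit 129))) (XT.nd (nat_lit 78) (nat_lit 76) (nat_lit 0) (XT.lf (nat_lit 0) (nat_lit 12567078062) (nat_lit 152) (nat_lit 10541749498) (nat_lit 76) (nat_lit 43886304642) (nat_lit 12) (nat_lit 5) (nat_lit 14) (nat_lit 5) (nat_lit 13) (nat_lit 4) (nat_lit 395) (nat_lit 257) (nat_lit 128)) (XT.lf (nat_lit 0) (nat_lit 2164553715) (nat_lit 76) (nat_lit 16673466482) (nat_lit 152) (nat_lit 49956452961) (nat_lit 11) (nat_lit 5) (nat_lit 12) (nat_lit 5) (nat_lit 13) (nat_lit 4) (nat_lit 396) (nat_lit 257) (nat_lit 127))))) (XT.nd (nat_lit 234) (nat_lit 76) (nat_lit 0) (XT.nd (nat_lit 78) (nat_lit 0) (nat_lit 0) (XT.lf (nat_lit 0) (nat_lit 15452074759) (nat_lit 76)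 (nat_lit 9942861597) (nat_lit 152) (nat_lit 45249924413) (nat_lit 11) (nat_lit 5) (nat_lit 12) (nat_lit 5) (nat_lit 13) (nat_lit 4) (nat_lit 397) (nat_lit 257) (nat_lit 126)) (XT.nd (nat_lit 78) (nat_lit 0) (nat_lit 0) (XT.lf (nat_lit 0) (nat_lit 29122622602) (nat_lit 76) (nat_lit 3017582794) (nat_lit 152) (nat_lit 40410806997) (nat_lit 11) (nat_lit 5) (nat_lit 12) (nat_lit 5) (nat_lit 13) (nat_lit 4) (nat_lit 398) (nat_lit 257) (nat_lit 125)) (XT.lf (nat_lit 0) (nat_lit 39119213901) (nat_lit 152) (nat_lit 31365943873) (nat_lit 0) (nat_lit 4028251045) (nat_lit 11) (nat_lit 5) (nat_lit 13) (nat_lit 4) (nat_lit 11) (nat_lit 4) (nat_lit 399) (nat_lit 257) (nat_lit 124)))) (XT.nd (nat_lit 156) (nat_lit 76) (nat_lit 0) (XT.nd (nat_lit 78) (nat_lit 0) (nat_lit 0) (XT.lf (nat_lit 0) (nat_lit 46329529064) (nat_lit 152) (nat_lit 18986377289) (nat_lit 0) (nat_lit 11218114341) (nat_lit 11) (nat_lit 5) (nat_lit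 13) (nat_lit 4) (nat_lit 11) (nat_lit 4) (nat_lit 400) (nat_lit 257) (nat_lit 123)) (XT.lf (nat_lit 0) (nat_lit 53748444311) (nat_lit 152) (nat_lit 6249866088) (nat_lit 0) (nat_lit 18617173404) (nat_lit 11) (nat_lit 5) (nat_lit 13) (nat_lit 4) (nat_lit 11) (nat_lit 4) (nat_lit 401) (nat_lit 257) (nat_lit 122))) (XT.nd (nat_lit 78) (nat_lit 0) (nat_lit 0) (XT.lf (nat_lit 0) (nat_lit 6991141060) (nat_lit 76) (nat_lit 54458504251) (nat_lit 76) (nat_lit 19307955497) (nat_lit 10) (nat_lit 4) (nat_lit 11) (nat_lit 5) (nat_lit 11) (nat_lit 4) (nat_lit 402) (nat_lit 257) (nat_lit 121)) (XT.lf (nat_lit 0) (nat_lit 20743610290) (nat_lit 76) (nat_lit 48693983160) (nat_lit 76) (nat_lit 13524718049) (nat_lit 10) (nat_lit 4) (nat_lit 11) (nat_lit 5) (nat_lit 11) (nat_lit 4) (nat_lit 403) (nat_lit 257) (nat_lit 120)))))) (XT.nd (nat_lit 546) (nat_lit 0) (nat_lit 0) (XT.nd (nat_lit 234) (nat_lit 76) (nat_lit 0)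 (XT.nd (nat_lit 78) (nat_lit 76) (nat_lit 0) (XT.lf (nat_lit 0) (nat_lit 34895173730) (nat_lit 76) (nat_lit 42762821558) (nat_lit 76) (nat_lit 7575385227) (nat_lit 10) (nat_lit 4) (nat_lit 11) (nat_lit 5) (nat_lit 11) (nat_lit 4) (nat_lit 404) (nat_lit 257) (nat_lit 119)) (XT.nd (nat_lit 78) (nat_lit 76) (nat_lit 0) (XT.lf (nat_lit 0) (nat_lit 49458196825) (nat_lit 76) (nat_lit 36659836877) (nat_lit 76) (nat_lit 1454758585) (nat_lit 10) (nat_lit 4) (nat_lit 11) (nat_lit 5) (nat_lit 11) (nat_lit 4) (nat_lit 405) (nat_lit 257) (nat_lit 118)) (XT.lf (nat_lit 0) (nat_lit 4748015185) (nat_lit 152) (nat_lit 25583735582) (nat_lit 76) (nat_lit 59649443716) (nat_lit 9) (nat_lit 5) (nat_lit 11) (nat_lit 5) (nat_lit 10) (nat_lit 4) (nat_lit 406) (nat_lit 257) (nat_lit 117)))) (XT.nd (nat_lit 156) (nat_lit 0) (nat_lit 0) (XT.nd (nat_lit 78) (nat_lit 76) (nat_lit 0) (XT.lf (nat_lit 0) (nat_lit 11100991491) (nat_lit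 152) (nat_lit 12703822921) (nat_lit 76) (nat_lit 68656802772) (nat_lit 9) (nat_lit 5) (nat_lit 11) (nat_lit 5) (nat_lit 10) (nat_lit 4) (nat_lit 407) (nat_lit 257) (nat_lit 116)) (XT.lf (nat_lit 0) (nat_lit 561334500) (nat_lit 76) (nat_lit 17082170447) (nat_lit 152) (nat_lit 77372980445) (nat_lit 8) (nat_lit 5) (nat_lit 9) (nat_lit 5) (nat_lit 10) (nat_lit 4) (nat_lit 408) (nat_lit 257) (nat_lit 115))) (XT.nd (nat_lit 78) (nat_lit 0) (nat_lit 0) (XT.lf (nat_lit 0) (nat_lit 14472874972) (nat_lit 76) (nat_lit 10031327082) (nat_lit 152) (nat_lit 73140141570) (nat_lit 8) (nat_lit 5) (nat_lit 9) (nat_lit 5) (nat_lit 10) (nat_lit 4) (nat_lit 409) (nat_lit 257) (nat_lit 114)) (XT.lf (nat_lit 0) (nat_lit 28790123223) (nat_lit 76) (nat_lit 2774407088) (nat_lit 152) (nat_lit 68786694174) (nat_lit 8) (nat_lit 5) (nat_lit 9) (nat_lit 5) (nat_lit 10) (nat_lit 4) (nat_lit 410) (nat_lit 257) (nat_lit 113)))))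 (XT.nd (nat_lit 29328) (nat_lit 0) (nat_lit 23560) (XT.nd (nat_lit 29172) (nat_lit 0) (nat_lit 24244) (XT.nd (nat_lit 78) (nat_lit 0) (nat_lit 0) (XT.lf (nat_lit 0) (nat_lit 38875789482) (nat_lit 152) (nat_lit 59659034286) (nat_lit 0) (nat_lit 4603315527) (nat_lit 8) (nat_lit 5) (nat_lit 10) (nat_lit 4) (nat_lit 8) (nat_lit 4) (nat_lit 411) (nat_lit 257) (nat_lit 112)) (XT.lf (nat_lit 0) (nat_lit 46427971991) (nat_lit 152) (nat_lit 47438471803) (nat_lit 0) (nat_lit 12141571309) (nat_lit 8) (nat_lit 5) (nat_lit 10) (nat_lit 4) (nat_lit 8) (nat_lit 4) (nat_lit 412) (nat_lit 257) (nat_lit 111))) (XT.nd (nat_lit 78) (nat_lit 228) (nat_lit 0) (XT.lf (nat_lit 0) (nat_lit 3091854111) (nat_lit 76) (nat_lit 69072722) (nat_lit 76) (nat_lit 69072722) (nat_lit 330) (nat_lit 4) (nat_lit 331) (nat_lit 5) (nat_lit 331) (nat_lit 4) (nat_lit 264) (nat_lit 258) (nat_lit 258)) (XT.lf (nat_lit 0) (nat_lit 2865179812)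 (nat_lit 228) (nat_lit 3424098838) (nat_lit 0) (nat_lit 180607763) (nat_lit 327) (nat_lit 5) (nat_lit 330) (nat_lit 4) (nat_lit 327) (nat_lit 4) (nat_lit 265) (nat_lit 258) (nat_lit 257)))) (XT.nd (nat_lit 156) (nat_lit 380) (nat_lit 0) (XT.nd (nat_lit 78) (nat_lit 304) (nat_lit 0) (XT.lf (nat_lit 0) (nat_lit 5848446962) (nat_lit 228) (nat_lit 77519328) (nat_lit 0) (nat_lit 557494282) (nat_lit 327) (nat_lit 5) (nat_lit 330) (nat_lit 4) (nat_lit 327) (nat_lit 4) (nat_lit 266) (nat_lit 258) (nat_lit 256)) (XT.lf (nat_lit 0) (nat_lit 2299592007) (nat_lit 304) (nat_lit 3153247536) (nat_lit 76) (nat_lit 1046407688) (nat_lit 323) (nat_lit 5) (nat_lit 327) (nat_lit 5) (nat_lit 324) (nat_lit 4) (nat_lit 267) (nat_lit 258) (nat_lit 255))) (XT.nd (nat_lit 78) (nat_lit 76) (nat_lit 0) (XT.lf (nat_lit 0) (nat_lit 290036575) (nat_lit 304) (nat_lit 4915982935) (nat_lit 380) (nat_lit 1312594984) (nat_lit 319)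 (nat_lit 5) (nat_lit 323) (nat_lit 5) (nat_lit 324) (nat_lit 4) (nat_lit 268) (nat_lit 258) (nat_lit 254)) (XT.lf (nat_lit 0) (nat_lit 1555044070) (nat_lit 380) (nat_lit 2721912659) (nat_lit 76) (nat_lit 2263516611) (nat_lit 318) (nat_lit 5) (nat_lit 323) (nat_lit 5) (nat_lit 319) (nat_lit 5) (nat_lit 269) (nat_lit 258) (nat_lit 253))))))))
noncomputable def xc97 : XT := (XT.nd (nat_lit 2184) (nat_lit 6232) (nat_lit 0) (XT.nd (nat_lit 1092) (nat_lit 7068) (nat_lit 0) (XT.nd (nat_lit 546) (nat_lit 3344) (nat_lit 0) (XT.nd (nat_lit 234) (nat_lit 1292) (nat_lit 0) (XT.nd (nat_lit 78) (nat_lit 532) (nat_lit 0) (XT.lf (nat_lit 0) (nat_lit 825808667) (nat_lit 380) (nat_lit 3561764532) (nat_lit 456) (nat_lit 2178043323) (nat_lit 313) (nat_lit 5) (nat_lit 318) (nat_lit 5) (nat_lit 319) (nat_lit 5) (nat_lit 270) (nat_lit 258) (nat_lit 252)) (XT.nd (nat_lit 78) (nat_lit 456) (nat_lit 0) (XT.lf (nat_lit 0)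 (nat_lit 625892804) (nat_lit 456) (nat_lit 2130851365) (nat_lit 76) (nat_lit 3836942114) (nat_lit 312) (nat_lit 5) (nat_lit 318) (nat_lit 5) (nat_lit 313) (nat_lit 5) (nat_lit 271) (nat_lit 258) (nat_lit 251)) (XT.lf (nat_lit 0) (nat_lit 1527837436) (nat_lit 456) (nat_lit 1858470728) (nat_lit 532) (nat_lit 3238319718) (nat_lit 306) (nat_lit 5) (nat_lit 312) (nat_lit 5) (nat_lit 313) (nat_lit 5) (nat_lit 272) (nat_lit 258) (nat_lit 250)))) (XT.nd (nat_lit 156) (nat_lit 684) (nat_lit 0) (XT.nd (nat_lit 78) (nat_lit 608) (nat_lit 0) (XT.lf (nat_lit 0) (nat_lit 5273836813) (nat_lit 456) (nat_lit 880902417) (nat_lit 532) (nat_lit 504158538) (nat_lit 306) (nat_lit 5) (nat_lit 312) (nat_lit 5) (nat_lit 313) (nat_lit 5) (nat_lit 273) (nat_lit 258) (nat_lit 249)) (XT.lf (nat_lit 0) (nat_lit 2197294792) (nat_lit 608) (nat_lit 4301431589) (nat_lit 76) (nat_lit 197038303) (nat_lit 298) (nat_lit 5) (nat_lit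 306) (nat_lit 5) (nat_lit 299) (nat_lit 5) (nat_lit 274) (nat_lit 258) (nat_lit 248))) (XT.nd (nat_lit 78) (nat_lit 684) (nat_lit 0) (XT.lf (nat_lit 0) (nat_lit 4900304701) (nat_lit 608) (nat_lit 500428138) (nat_lit 76) (nat_lit 1335078524) (nat_lit 298) (nat_lit 5) (nat_lit 306) (nat_lit 5) (nat_lit 299) (nat_lit 5) (nat_lit 275) (nat_lit 258) (nat_lit 247)) (XT.lf (nat_lit 0) (nat_lit 832249431) (nat_lit 684) (nat_lit 3372580923) (nat_lit 76) (nat_lit 2573823828) (nat_lit 289) (nat_lit 5) (nat_lit 298) (nat_lit 5) (nat_lit 290) (nat_lit 5) (nat_lit 276) (nat_lit 258) (nat_lit 246))))) (XT.nd (nat_lit 234) (nat_lit 1824) (nat_lit 0) (XT.nd (nat_lit 78) (nat_lit 836) (nat_lit 0) (XT.lf (nat_lit 0) (nat_lit 541750164) (nat_lit 684) (nat_lit 2923165022) (nat_lit 760) (nat_lit 3359799593) (nat_lit 280) (nat_lit 5) (nat_lit 289) (nat_lit 5) (nat_lit 290) (nat_lit 5) (nat_lit 277) (nat_lit 258) (nat_lit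 245)) (XT.nd (nat_lit 78) (nat_lit 836) (nat_lit 0) (XT.lf (nat_lit 0) (nat_lit 4575317140) (nat_lit 684) (nat_lit 1548689759) (nat_lit 760) (nat_lit 749853870) (nat_lit 280) (nat_lit 5) (nat_lit 289) (nat_lit 5) (nat_lit 290) (nat_lit 5) (nat_lit 278) (nat_lit 258) (nat_lit 244)) (XT.lf (nat_lit 0) (nat_lit 1753820580) (nat_lit 760) (nat_lit 78562227) (nat_lit 836) (nat_lit 5093704479) (nat_lit 269) (nat_lit 5) (nat_lit 279) (nat_lit 5) (nat_lit 280) (nat_lit 5) (nat_lit 279) (nat_lit 258) (nat_lit 243)))) (XT.nd (nat_lit 156) (nat_lit 912) (nat_lit 0) (XT.nd (nat_lit 78) (nat_lit 912) (nat_lit 0) (XT.lf (nat_lit 0) (nat_lit 4431213001) (nat_lit 836) (nat_lit 1095059104) (nat_lit 76) (nat_lit 1454876012) (nat_lit 269) (nat_lit 5) (nat_lit 280) (nat_lit 5) (nat_lit 270) (nat_lit 5) (nat_lit 280) (nat_lit 258) (nat_lit 242)) (XT.lf (nat_lit 0) (nat_lit 18094017) (nat_lit 912) (nat_lit 3942811417)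 (nat_lit 76) (nat_lit 3078565155) (nat_lit 257) (nat_lit 5) (nat_lit 269) (nat_lit 5) (nat_lit 258) (nat_lit 5) (nat_lit 281) (nat_lit 258) (nat_lit 241))) (XT.nd (nat_lit 78) (nat_lit 0) (nat_lit 0) (XT.lf (nat_lit 0) (nat_lit 248548778) (nat_lit 912) (nat_lit 2297115276) (nat_lit 988) (nat_lit 4555215059) (nat_lit 245) (nat_lit 5) (nat_lit 257) (nat_lit 5) (nat_lit 258) (nat_lit 5) (nat_lit 282) (nat_lit 258) (nat_lit 240)) (XT.lf (nat_lit 0) (nat_lit 4578832683) (nat_lit 912) (nat_lit 531911960) (nat_lit 988) (nat_lit 2054637970) (nat_lit 245) (nat_lit 5) (nat_lit 257) (nat_lit 5) (nat_lit 258) (nat_lit 5) (nat_lit 283) (nat_lit 258) (nat_lit 239)))))) (XT.nd (nat_lit 546) (nat_lit 2888) (nat_lit 0) (XT.nd (nat_lit 234) (nat_lit 2052) (nat_lit 0) (XT.nd (nat_lit 78) (nat_lit 1064) (nat_lit 0) (XT.lf (nat_lit 0) (nat_lit 463767321) (nat_lit 1064) (nat_lit 5476802348) (nat_lit 76) (nat_lit 1292609318)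 (nat_lit 231) (nat_lit 5) (nat_lit 245) (nat_lit 5) (nat_lit 232) (nat_lit 5) (nat_lit 284) (nat_lit 258) (nat_lit 238)) (XT.nd (nat_lit 78) (nat_lit 1064) (nat_lit 0) (XT.lf (nat_lit 0) (nat_lit 2973042938) (nat_lit 1064) (nat_lit 1114545093) (nat_lit 76) (nat_lit 3216206964) (nat_lit 231) (nat_lit 5) (nat_lit 245) (nat_lit 5) (nat_lit 232) (nat_lit 5) (nat_lit 285) (nat_lit 258) (nat_lit 237)) (XT.lf (nat_lit 0) (nat_lit 3377433193) (nat_lit 1064) (nat_lit 2139785133) (nat_lit 1140) (nat_lit 1860614228) (nat_lit 217) (nat_lit 5) (nat_lit 231) (nat_lit 5) (nat_lit 232) (nat_lit 5) (nat_lit 286) (nat_lit 258) (nat_lit 236)))) (XT.nd (nat_lit 156) (nat_lit 836) (nat_lit 0) (XT.nd (nat_lit 78) (nat_lit 0) (nat_lit 0) (XT.lf (nat_lit 0) (nat_lit 508588153) (nat_lit 1140) (nat_lit 105799707) (nat_lit 1216) (nat_lit 6841269677) (nat_lit 201) (nat_lit 5) (nat_lit 216) (nat_lit 5) (nat_lit 217) (nat_lit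 5) (nat_lit 287) (nat_lit 258) (nat_lit 235)) (XT.lf (nat_lit 0) (nat_lit 3115494545) (nat_lit 1216) (nat_lit 2407189042) (nat_lit 76) (nat_lit 2012987426) (nat_lit 201) (nat_lit 5) (nat_lit 217) (nat_lit 5) (nat_lit 202) (nat_lit 5) (nat_lit 288) (nat_lit 258) (nat_lit 234))) (XT.nd (nat_lit 78) (nat_lit 76) (nat_lit 0) (XT.lf (nat_lit 0) (nat_lit 2244166056) (nat_lit 760) (nat_lit 3401479867) (nat_lit 836) (nat_lit 1973900110) (nat_lit 191) (nat_lit 5) (nat_lit 201) (nat_lit 5) (nat_lit 202) (nat_lit 5) (nat_lit 289) (nat_lit 258) (nat_lit 233)) (XT.lf (nat_lit 0) (nat_lit 491667646) (nat_lit 836) (nat_lit 694522659) (nat_lit 76) (nat_lit 6520969834) (nat_lit 190) (nat_lit 5) (nat_lit 201) (nat_lit 5) (nat_lit 191) (nat_lit 5) (nat_lit 290) (nat_lit 258) (nat_lit 232))))) (XT.nd (nat_lit 234) (nat_lit 1672) (nat_lit 0) (XT.nd (nat_lit 78) (nat_lit 608) (nat_lit 0) (XT.lf (nat_lit 0) (nat_lit 2976245878)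 (nat_lit 684) (nat_lit 3687404634) (nat_lit 76) (nat_lit 1133698913) (nat_lit 182) (nat_lit 5) (nat_lit 191) (nat_lit 5) (nat_lit 183) (nat_lit 5) (nat_lit 291) (nat_lit 258) (nat_lit 231)) (XT.nd (nat_lit 78) (nat_lit 76) (nat_lit 0) (XT.lf (nat_lit 0) (nat_lit 1125290580) (nat_lit 532) (nat_lit 4374983705) (nat_lit 608) (nat_lit 2391095120) (nat_lit 175) (nat_lit 5) (nat_lit 182) (nat_lit 5) (nat_lit 183) (nat_lit 5) (nat_lit 292) (nat_lit 258) (nat_lit 230)) (XT.lf (nat_lit 0) (nat_lit 83048913) (nat_lit 608) (nat_lit 1898867792) (nat_lit 76) (nat_lit 6007126759) (nat_lit 174) (nat_lit 5) (nat_lit 182) (nat_lit 5) (nat_lit 175) (nat_lit 5) (nat_lit 293) (nat_lit 258) (nat_lit 229)))) (XT.nd (nat_lit 156) (nat_lit 1140) (nat_lit 0) (XT.nd (nat_lit 78) (nat_lit 0) (nat_lit 0) (XT.lf (nat_lit 0) (nat_lit 2555824075) (nat_lit 608) (nat_lit 5010536509) (nat_lit 76) (nat_lit 523469229) (nat_lit 167)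 (nat_lit 5) (nat_lit 175) (nat_lit 5) (nat_lit 168) (nat_lit 5) (nat_lit 294) (nat_lit 258) (nat_lit 228)) (XT.lf (nat_lit 0) (nat_lit 5080593296) (nat_lit 608) (nat_lit 34655394) (nat_lit 76) (nat_lit 3079121062) (nat_lit 167) (nat_lit 5) (nat_lit 175) (nat_lit 5) (nat_lit 168) (nat_lit 5) (nat_lit 295) (nat_lit 258) (nat_lit 227))) (XT.nd (nat_lit 78) (nat_lit 608) (nat_lit 0) (XT.lf (nat_lit 0) (nat_lit 5124972652) (nat_lit 532) (nat_lit 2546002338) (nat_lit 608) (nat_lit 631437270) (nat_lit 160) (nat_lit 5) (nat_lit 167) (nat_lit 5) (nat_lit 168) (nat_lit 5) (nat_lit 296) (nat_lit 258) (nat_lit 226)) (XT.lf (nat_lit 0) (nat_lit 1849536583) (nat_lit 608) (nat_lit 6435233097) (nat_lit 76) (nat_lit 129577931) (nat_lit 152) (nat_lit 5) (nat_lit 160) (nat_lit 5) (nat_lit 153) (nat_lit 5) (nat_lit 297) (nat_lit 258) (nat_lit 225))))))) (XT.nd (nat_lit 1092) (nat_lit 2660) (nat_lit 0) (XT.nd (nat_lit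 546) (nat_lit 1672) (nat_lit 0) (XT.nd (nat_lit 234) (nat_lit 912) (nat_lit 0) (XT.nd (nat_lit 78) (nat_lit 988) (nat_lit 0) (XT.lf (nat_lit 0) (nat_lit 4391947979) (nat_lit 608) (nat_lit 1272152127) (nat_lit 76) (nat_lit 2865419526) (nat_lit 152) (nat_lit 5) (nat_lit 160) (nat_lit 5) (nat_lit 153) (nat_lit 5) (nat_lit 298) (nat_lit 258) (nat_lit 224)) (XT.nd (nat_lit 78) (nat_lit 532) (nat_lit 0) (XT.lf (nat_lit 0) (nat_lit 4059803969) (nat_lit 456) (nat_lit 2933627876) (nat_lit 532) (nat_lit 1655286453) (nat_lit 146) (nat_lit 5) (nat_lit 152) (nat_lit 5) (nat_lit 153) (nat_lit 5) (nat_lit 299) (nat_lit 258) (nat_lit 223)) (XT.lf (nat_lit 0) (nat_lit 746705251) (nat_lit 456) (nat_lit 101514428) (nat_lit 532) (nat_lit 7924135288) (nat_lit 139) (nat_lit 5) (nat_lit 145) (nat_lit 5) (nat_lit 146) (nat_lit 5) (nat_lit 300) (nat_lit 258) (nat_lit 222)))) (XT.nd (nat_lit 156) (nat_lit 532) (nat_lit 0)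 (XT.nd (nat_lit 78) (nat_lit 380) (nat_lit 0) (XT.lf (nat_lit 0) (nat_lit 3412516587) (nat_lit 532) (nat_lit 2672474890) (nat_lit 76) (nat_lit 2813699711) (nat_lit 139) (nat_lit 5) (nat_lit 146) (nat_lit 5) (nat_lit 140) (nat_lit 5) (nat_lit 301) (nat_lit 258) (nat_lit 221)) (XT.lf (nat_lit 0) (nat_lit 2830758176) (nat_lit 380) (nat_lit 3197892010) (nat_lit 456) (nat_lit 3000969378) (nat_lit 134) (nat_lit 5) (nat_lit 139) (nat_lit 5) (nat_lit 140) (nat_lit 5) (nat_lit 302) (nat_lit 258) (nat_lit 220))) (XT.nd (nat_lit 78) (nat_lit 532) (nat_lit 0) (XT.lf (nat_lit 0) (nat_lit 8489736153) (nat_lit 380) (nat_lit 208146269) (nat_lit 456) (nat_lit 467402794) (nat_lit 134) (nat_lit 5) (nat_lit 139) (nat_lit 5) (nat_lit 140) (nat_lit 5) (nat_lit 303) (nat_lit 258) (nat_lit 219)) (XT.lf (nat_lit 0) (nat_lit 2125470603) (nat_lit 532) (nat_lit 4305065410) (nat_lit 76) (nat_lit 2873159147) (nat_lit 127) (nat_lit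 5) (nat_lit 134) (nat_lit 5) (nat_lit 128) (nat_lit 5) (nat_lit 304) (nat_lit 258) (nat_lit 218))))) (XT.nd (nat_lit 234) (nat_lit 836) (nat_lit 0) (XT.nd (nat_lit 78) (nat_lit 456) (nat_lit 0) (XT.lf (nat_lit 0) (nat_lit 1366584412) (nat_lit 380) (nat_lit 3391619017) (nat_lit 456) (nat_lit 4688814916) (nat_lit 122) (nat_lit 5) (nat_lit 127) (nat_lit 5) (nat_lit 128) (nat_lit 5) (nat_lit 305) (nat_lit 258) (nat_lit 217)) (XT.nd (nat_lit 78) (nat_lit 456) (nat_lit 0) (XT.lf (nat_lit 0) (nat_lit 7233106631) (nat_lit 380) (nat_lit 230529010) (nat_lit 456) (nat_lit 2131236592) (nat_lit 122) (nat_lit 5) (nat_lit 127) (nat_lit 5) (nat_lit 128) (nat_lit 5) (nat_lit 306) (nat_lit 258) (nat_lit 216)) (XT.lf (nat_lit 0) (nat_lit 507690767) (nat_lit 456) (nat_lit 6247017855) (nat_lit 76) (nat_lit 2991914974) (nat_lit 116) (nat_lit 5) (nat_lit 122) (nat_lit 5) (nat_lit 117) (nat_lit 5) (nat_lit 307) (nat_lit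 258) (nat_lit 215)))) (XT.nd (nat_lit 156) (nat_lit 456) (nat_lit 0) (XT.nd (nat_lit 78) (nat_lit 380) (nat_lit 0) (XT.lf (nat_lit 0) (nat_lit 3161183207) (nat_lit 456) (nat_lit 404017115) (nat_lit 76) (nat_lit 6337786065) (nat_lit 116) (nat_lit 5) (nat_lit 122) (nat_lit 5) (nat_lit 117) (nat_lit 5) (nat_lit 308) (nat_lit 258) (nat_lit 214)) (XT.lf (nat_lit 0) (nat_lit 5663213191) (nat_lit 380) (nat_lit 238772692) (nat_lit 456) (nat_lit 4161860800) (nat_lit 111) (nat_lit 5) (nat_lit 116) (nat_lit 5) (nat_lit 117) (nat_lit 5) (nat_lit 309) (nat_lit 258) (nat_lit 213))) (XT.nd (nat_lit 78) (nat_lit 76) (nat_lit 0) (XT.lf (nat_lit 0) (nat_lit 1630225795) (nat_lit 380) (nat_lit 7099115465) (nat_lit 456) (nat_lit 1500098353) (nat_lit 106) (nat_lit 5) (nat_lit 111) (nat_lit 5) (nat_lit 112) (nat_lit 5) (nat_lit 310) (nat_lit 258) (nat_lit 212)) (XT.lf (nat_lit 0) (nat_lit 1218696782) (nat_lit 456) (nat_lit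 2543760225) (nat_lit 76) (nat_lit 6637177687) (nat_lit 105) (nat_lit 5) (nat_lit 111) (nat_lit 5) (nat_lit 106) (nat_lit 5) (nat_lit 311) (nat_lit 258) (nat_lit 211)))))) (XT.nd (nat_lit 546) (nat_lit 1368) (nat_lit 0) (XT.nd (nat_lit 234) (nat_lit 684) (nat_lit 0) (XT.nd (nat_lit 78) (nat_lit 304) (nat_lit 0) (XT.lf (nat_lit 0) (nat_lit 3689753163) (nat_lit 304) (nat_lit 290119747) (nat_lit 380) (nat_lit 6594921687) (nat_lit 101) (nat_lit 5) (nat_lit 105) (nat_lit 5) (nat_lit 106) (nat_lit 5) (nat_lit 312) (nat_lit 258) (nat_lit 210)) (XT.nd (nat_lit 78) (nat_lit 304) (nat_lit 0) (XT.lf (nat_lit 0) (nat_lit 6837476357) (nat_lit 380) (nat_lit 685212039) (nat_lit 76) (nat_lit 3232145733) (nat_lit 101) (nat_lit 5) (nat_lit 106) (nat_lit 5) (nat_lit 102) (nat_lit 5) (nat_lit 313) (nat_lit 258) (nat_lit 209)) (XT.lf (nat_lit 0) (nat_lit 5750392575) (nat_lit 304) (nat_lit 4045903851) (nat_lit 380) (nat_lit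 1143545409) (nat_lit 97) (nat_lit 5) (nat_lit 101) (nat_lit 5) (nat_lit 102) (nat_lit 5) (nat_lit 314) (nat_lit 258) (nat_lit 208)))) (XT.nd (nat_lit 156) (nat_lit 304) (nat_lit 0) (XT.nd (nat_lit 78) (nat_lit 0) (nat_lit 0) (XT.lf (nat_lit 0) (nat_lit 1210145637) (nat_lit 304) (nat_lit 446089540) (nat_lit 380) (nat_lit 9474414589) (nat_lit 92) (nat_lit 5) (nat_lit 96) (nat_lit 5) (nat_lit 97) (nat_lit 5) (nat_lit 315) (nat_lit 258) (nat_lit 207)) (XT.lf (nat_lit 0) (nat_lit 4559368361) (nat_lit 380) (nat_lit 3521072927) (nat_lit 76) (nat_lit 3245159642) (nat_lit 92) (nat_lit 5) (nat_lit 97) (nat_lit 5) (nat_lit 93) (nat_lit 5) (nat_lit 316) (nat_lit 258) (nat_lit 206))) (XT.nd (nat_lit 78) (nat_lit 0) (nat_lit 0) (XT.lf (nat_lit 0) (nat_lit 3067158934) (nat_lit 304) (nat_lit 4475625636) (nat_lit 380) (nat_lit 3983848503) (nat_lit 88) (nat_lit 5) (nat_lit 92) (nat_lit 5) (nat_lit 93) (nat_lit 5)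 (nat_lit 317) (nat_lit 258) (nat_lit 205)) (XT.lf (nat_lit 0) (nat_lit 9867174100) (nat_lit 304) (nat_lit 744001814) (nat_lit 380) (nat_lit 1122683381) (nat_lit 88) (nat_lit 5) (nat_lit 92) (nat_lit 5) (nat_lit 93) (nat_lit 5) (nat_lit 318) (nat_lit 258) (nat_lit 204))))) (XT.nd (nat_lit 312) (nat_lit 532) (nat_lit 0) (XT.nd (nat_lit 156) (nat_lit 532) (nat_lit 0) (XT.nd (nat_lit 78) (nat_lit 0) (nat_lit 0) (XT.lf (nat_lit 0) (nat_lit 1827199575) (nat_lit 304) (nat_lit 7031124089) (nat_lit 76) (nat_lit 3087323822) (nat_lit 84) (nat_lit 5) (nat_lit 88) (nat_lit 5) (nat_lit 85) (nat_lit 5) (nat_lit 319) (nat_lit 258) (nat_lit 203)) (XT.lf (nat_lit 0) (nat_lit 4830519509) (nat_lit 304) (nat_lit 302073628) (nat_lit 76) (nat_lit 7031262535) (nat_lit 84) (nat_lit 5) (nat_lit 88) (nat_lit 5) (nat_lit 85) (nat_lit 5) (nat_lit 320) (nat_lit 258) (nat_lit 202))) (XT.nd (nat_lit 78) (nat_lit 228) (nat_lit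 0) (XT.lf (nat_lit 0) (nat_lit 6703725672) (nat_lit 304) (nat_lit 1246889086) (nat_lit 380) (nat_lit 4437219327) (nat_lit 80) (nat_lit 5) (nat_lit 84) (nat_lit 5) (nat_lit 85) (nat_lit 5) (nat_lit 321) (nat_lit 258) (nat_lit 201)) (XT.lf (nat_lit 0) (nat_lit 1248953032) (nat_lit 228) (nat_lit 9919560598) (nat_lit 304) (nat_lit 1449915743) (nat_lit 77) (nat_lit 5) (nat_lit 80) (nat_lit 5) (nat_lit 81) (nat_lit 5) (nat_lit 322) (nat_lit 258) (nat_lit 200)))) (XT.nd (nat_lit 156) (nat_lit 228) (nat_lit 0) (XT.nd (nat_lit 78) (nat_lit 228) (nat_lit 0) (XT.lf (nat_lit 0) (nat_lit 1628363475) (nat_lit 304) (nat_lit 4432812033) (nat_lit 76) (nat_lit 6793326853) (nat_lit 76) (nat_lit 5) (nat_lit 80) (nat_lit 5) (nat_lit 77) (nat_lit 5) (nat_lit 323) (nat_lit 258) (nat_lit 199)) (XT.lf (nat_lit 0) (nat_lit 2695275691) (nat_lit 228) (nat_lit 2064359047) (nat_lit 304) (nat_lit 8337920116) (nat_lit 73) (nat_lit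 5) (nat_lit 76) (nat_lit 5) (nat_lit 77) (nat_lit 5) (nat_lit 324) (nat_lit 258) (nat_lit 198))) (XT.nd (nat_lit 78) (nat_lit 228) (nat_lit 0) (XT.lf (nat_lit 0) (nat_lit 8014004368) (nat_lit 304) (nat_lit 3293938680) (nat_lit 76) (nat_lit 2039101987) (nat_lit 73) (nat_lit 5) (nat_lit 77) (nat_lit 5) (nat_lit 74) (nat_lit 5) (nat_lit 325) (nat_lit 258) (nat_lit 197)) (XT.lf (nat_lit 0) (nat_lit 4032220989) (nat_lit 228) (nat_lit 7358251204) (nat_lit 304) (nat_lit 2212834026) (nat_lit 70) (nat_lit 5) (nat_lit 73) (nat_lit 5) (nat_lit 74) (nat_lit 5) (nat_lit 326) (nat_lit 258) (nat_lit 196))))))))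
noncomputable def xc98 : XT := (XT.nd (nat_lit 2184) (nat_lit 1216) (nat_lit 0) (XT.nd (nat_lit 1092) (nat_lit 1140) (nat_lit 0) (XT.nd (nat_lit 546) (nat_lit 836) (nat_lit 0) (XT.nd (nat_lit 234) (nat_lit 532) (nat_lit 0) (XT.nd (nat_lit 78) (nat_lit 228) (nat_lit 0) (XT.lf (nat_lit 0) (nat_lit 980447957) (nat_lit 304) (nat_lit 2284377068) (nat_lit 76) (nat_lit 10602190644) (nat_lit 69) (nat_lit 5) (nat_lit 73) (nat_lit 5) (nat_lit 70) (nat_lit 5) (nat_lit 327) (nat_lit 258) (nat_lit 195)) (XT.nd (nat_lit 78) (nat_lit 0) (nat_lit 0) (XT.lf (nat_lit 0) (nat_lit 4251610660) (nat_lit 304) (nat_lit 8898008076) (nat_lit 76) (nat_lit 987582234) (nat_lit 66) (nat_lit 5) (nat_lit 70) (nat_lit 5) (nat_lit 67) (nat_lit 5) (nat_lit 328) (nat_lit 258) (nat_lit 194)) (XT.lf (nat_lit 0) (nat_lit 7643247966) (nat_lit 304) (nat_lit 1464662406) (nat_lit 76) (nat_lit 5306929312) (nat_lit 66) (nat_lit 5) (nat_lit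 70) (nat_lit 5) (nat_lit 67) (nat_lit 5) (nat_lit 329) (nat_lit 258) (nat_lit 193)))) (XT.nd (nat_lit 156) (nat_lit 304) (nat_lit 0) (XT.nd (nat_lit 78) (nat_lit 0) (nat_lit 0) (XT.lf (nat_lit 0) (nat_lit 6262819369) (nat_lit 228) (nat_lit 4901705034) (nat_lit 304) (nat_lit 3535463979) (nat_lit 63) (nat_lit 5) (nat_lit 66) (nat_lit 5) (nat_lit 67) (nat_lit 5) (nat_lit 330) (nat_lit 258) (nat_lit 192)) (XT.lf (nat_lit 0) (nat_lit 14201576043) (nat_lit 228) (nat_lit 572796249) (nat_lit 304) (nat_lit 219848261) (nat_lit 63) (nat_lit 5) (nat_lit 66) (nat_lit 5) (nat_lit 67) (nat_lit 5) (nat_lit 331) (nat_lit 258) (nat_lit 191))) (XT.nd (nat_lit 78) (nat_lit 0) (nat_lit 0) (XT.lf (nat_lit 0) (nat_lit 3208429051) (nat_lit 304) (nat_lit 8193321771) (nat_lit 76) (nat_lit 3892357156) (nat_lit 59) (nat_lit 5) (nat_lit 63) (nat_lit 5) (nat_lit 60) (nat_lit 5) (nat_lit 332) (nat_lit 258) (nat_lit 190)) (XT.lf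 (nat_lit 0) (nat_lit 6717898590) (nat_lit 304) (nat_lit 413424667) (nat_lit 76) (nat_lit 8472136154) (nat_lit 59) (nat_lit 5) (nat_lit 63) (nat_lit 5) (nat_lit 60) (nat_lit 5) (nat_lit 333) (nat_lit 258) (nat_lit 189))))) (XT.nd (nat_lit 234) (nat_lit 380) (nat_lit 0) (XT.nd (nat_lit 78) (nat_lit 304) (nat_lit 0) (XT.lf (nat_lit 0) (nat_lit 7701598147) (nat_lit 152) (nat_lit 2674997206) (nat_lit 228) (nat_lit 5544192854) (nat_lit 57) (nat_lit 5) (nat_lit 59) (nat_lit 5) (nat_lit 60) (nat_lit 5) (nat_lit 334) (nat_lit 258) (nat_lit 188)) (XT.nd (nat_lit 78) (nat_lit 304) (nat_lit 0) (XT.lf (nat_lit 0) (nat_lit 14137825403) (nat_lit 228) (nat_lit 246223911) (nat_lit 76) (nat_lit 1863819054) (nat_lit 57) (nat_lit 5) (nat_lit 60) (nat_lit 5) (nat_lit 58) (nat_lit 5) (nat_lit 335) (nat_lit 258) (nat_lit 187)) (XT.lf (nat_lit 0) (nat_lit 1474885981) (nat_lit 304) (nat_lit 8547862480) (nat_lit 76) (nat_lit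 6559346659) (nat_lit 53) (nat_lit 5) (nat_lit 57) (nat_lit 5) (nat_lit 54) (nat_lit 5) (nat_lit 336) (nat_lit 258) (nat_lit 186)))) (XT.nd (nat_lit 156) (nat_lit 228) (nat_lit 0) (XT.nd (nat_lit 78) (nat_lit 152) (nat_lit 0) (XT.lf (nat_lit 0) (nat_lit 5098577912) (nat_lit 304) (nat_lit 426551159) (nat_lit 76) (nat_lit 11401397538) (nat_lit 53) (nat_lit 5) (nat_lit 57) (nat_lit 5) (nat_lit 54) (nat_lit 5) (nat_lit 337) (nat_lit 258) (nat_lit 185)) (XT.lf (nat_lit 0) (nat_lit 8049343830) (nat_lit 152) (nat_lit 830967224) (nat_lit 228) (nat_lit 8399513114) (nat_lit 51) (nat_lit 5) (nat_lit 53) (nat_lit 5) (nat_lit 54) (nat_lit 5) (nat_lit 338) (nat_lit 258) (nat_lit 184))) (XT.nd (nat_lit 78) (nat_lit 228) (nat_lit 0) (XT.lf (nat_lit 0) (nat_lit 12790495164) (nat_lit 228) (nat_lit 940208308) (nat_lit 76) (nat_lit 3912579868) (nat_lit 51) (nat_lit 5) (nat_lit 54) (nat_lit 5) (nat_lit 52) (nat_lit 5)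 (nat_lit 339) (nat_lit 258) (nat_lit 183)) (XT.lf (nat_lit 0) (nat_lit 7695720869) (nat_lit 228) (nat_lit 9177438091) (nat_lit 304) (nat_lit 1142844393) (nat_lit 48) (nat_lit 5) (nat_lit 51) (nat_lit 5) (nat_lit 52) (nat_lit 5) (nat_lit 340) (nat_lit 258) (nat_lit 182)))))) (XT.nd (nat_lit 546) (nat_lit 532) (nat_lit 0) (XT.nd (nat_lit 234) (nat_lit 380) (nat_lit 0) (XT.nd (nat_lit 78) (nat_lit 152) (nat_lit 0) (XT.lf (nat_lit 0) (nat_lit 2608774790) (nat_lit 304) (nat_lit 1860560849) (nat_lit 76) (nat_lit 13930329249) (nat_lit 47) (nat_lit 5) (nat_lit 51) (nat_lit 5) (nat_lit 48) (nat_lit 5) (nat_lit 341) (nat_lit 258) (nat_lit 181)) (XT.nd (nat_lit 78) (nat_lit 0) (nat_lit 0) (XT.lf (nat_lit 0) (nat_lit 6494712270) (nat_lit 228) (nat_lit 11864409135) (nat_lit 76) (nat_lit 434044458) (nat_lit 45) (nat_lit 5) (nat_lit 48) (nat_lit 5) (nat_lit 46) (nat_lit 5) (nat_lit 342) (nat_lit 258) (nat_lit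 180)) (XT.lf (nat_lit 0) (nat_lit 10534468158) (nat_lit 228) (nat_lit 3266427005) (nat_lit 76) (nat_lit 5396470415) (nat_lit 45) (nat_lit 5) (nat_lit 48) (nat_lit 5) (nat_lit 46) (nat_lit 5) (nat_lit 343) (nat_lit 258) (nat_lit 179)))) (XT.nd (nat_lit 156) (nat_lit 228) (nat_lit 0) (XT.nd (nat_lit 78) (nat_lit 0) (nat_lit 0) (XT.lf (nat_lit 0) (nat_lit 5657192204) (nat_lit 152) (nat_lit 9067377141) (nat_lit 228) (nat_lit 4888257959) (nat_lit 43) (nat_lit 5) (nat_lit 45) (nat_lit 5) (nat_lit 46) (nat_lit 5) (nat_lit 344) (nat_lit 258) (nat_lit 178)) (XT.lf (nat_lit 0) (nat_lit 14873202536) (nat_lit 152) (nat_lit 4175256179) (nat_lit 228) (nat_lit 992061906) (nat_lit 43) (nat_lit 5) (nat_lit 45) (nat_lit 5) (nat_lit 46) (nat_lit 5) (nat_lit 345) (nat_lit 258) (nat_lit 177))) (XT.nd (nat_lit 78) (nat_lit 0) (nat_lit 0) (XT.lf (nat_lit 0) (nat_lit 2983833522) (nat_lit 228) (nat_lit 16598613545) (nat_lit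 76) (nat_lit 897083239) (nat_lit 40) (nat_lit 5) (nat_lit 43) (nat_lit 5) (nat_lit 41) (nat_lit 5) (nat_lit 346) (nat_lit 258) (nat_lit 176)) (XT.lf (nat_lit 0) (nat_lit 7128830949) (nat_lit 228) (nat_lit 7717001629) (nat_lit 76) (nat_lit 6083499512) (nat_lit 40) (nat_lit 5) (nat_lit 43) (nat_lit 5) (nat_lit 41) (nat_lit 5) (nat_lit 347) (nat_lit 258) (nat_lit 175))))) (XT.nd (nat_lit 234) (nat_lit 380) (nat_lit 0) (XT.nd (nat_lit 78) (nat_lit 0) (nat_lit 0) (XT.lf (nat_lit 0) (nat_lit 1418246207) (nat_lit 152) (nat_lit 9970001079) (nat_lit 228) (nat_lit 10004687717) (nat_lit 38) (nat_lit 5) (nat_lit 40) (nat_lit 5) (nat_lit 41) (nat_lit 5) (nat_lit 348) (nat_lit 258) (nat_lit 174)) (XT.nd (nat_lit 78) (nat_lit 0) (nat_lit 0) (XT.lf (nat_lit 0) (nat_lit 10945651857) (nat_lit 152) (nat_lit 4884457735) (nat_lit 228) (nat_lit 6038705383) (nat_lit 38) (nat_lit 5) (nat_lit 40) (nat_lit 5) (nat_lit 41)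 (nat_lit 5) (nat_lit 349) (nat_lit 258) (nat_lit 173)) (XT.lf (nat_lit 0) (nat_lit 20385884701) (nat_lit 228) (nat_lit 1642943234) (nat_lit 76) (nat_lit 330732323) (nat_lit 38) (nat_lit 5) (nat_lit 41) (nat_lit 5) (nat_lit 39) (nat_lit 4) (nat_lit 350) (nat_lit 258) (nat_lit 172)))) (XT.nd (nat_lit 156) (nat_lit 152) (nat_lit 0) (XT.nd (nat_lit 78) (nat_lit 0) (nat_lit 0) (XT.lf (nat_lit 0) (nat_lit 2274163439) (nat_lit 228) (nat_lit 14899408753) (nat_lit 76) (nat_lit 5687704127) (nat_lit 35) (nat_lit 5) (nat_lit 38) (nat_lit 5) (nat_lit 36) (nat_lit 5) (nat_lit 351) (nat_lit 258) (nat_lit 171)) (XT.lf (nat_lit 0) (nat_lit 6604497977) (nat_lit 228) (nat_lit 5547124007) (nat_lit 76) (nat_lit 11226001646) (nat_lit 35) (nat_lit 5) (nat_lit 38) (nat_lit 5) (nat_lit 36) (nat_lit 5) (nat_lit 352) (nat_lit 258) (nat_lit 170))) (XT.nd (nat_lit 78) (nat_lit 0) (nat_lit 0) (XT.lf (nat_lit 0) (nat_lit 4129045842)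 (nat_lit 152) (nat_lit 6954003669) (nat_lit 228) (nat_lit 12825870300) (nat_lit 33) (nat_lit 5) (nat_lit 35) (nat_lit 5) (nat_lit 36) (nat_lit 5) (nat_lit 353) (nat_lit 258) (nat_lit 169)) (XT.lf (nat_lit 0) (nat_lit 14172320652) (nat_lit 152) (nat_lit 1558536278) (nat_lit 228) (nat_lit 8724258401) (nat_lit 33) (nat_lit 5) (nat_lit 35) (nat_lit 5) (nat_lit 36) (nat_lit 5) (nat_lit 354) (nat_lit 258) (nat_lit 168))))))) (XT.nd (nat_lit 1092) (nat_lit 532) (nat_lit 0) (XT.nd (nat_lit 546) (nat_lit 304) (nat_lit 0) (XT.nd (nat_lit 234) (nat_lit 228) (nat_lit 0) (XT.nd (nat_lit 78) (nat_lit 152) (nat_lit 0) (XT.lf (nat_lit 0) (nat_lit 20535889499) (nat_lit 228) (nat_lit 575533144) (nat_lit 76) (nat_lit 3905747563) (nat_lit 33) (nat_lit 5) (nat_lit 36) (nat_lit 5) (nat_lit 34) (nat_lit 4) (nat_lit 355) (nat_lit 258) (nat_lit 167)) (XT.nd (nat_lit 78) (nat_lit 76) (nat_lit 0) (XT.lf (nat_lit 0) (nat_lit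 9558807710) (nat_lit 76) (nat_lit 16013534953) (nat_lit 152) (nat_lit 21132984) (nat_lit 32) (nat_lit 5) (nat_lit 33) (nat_lit 5) (nat_lit 34) (nat_lit 4) (nat_lit 356) (nat_lit 258) (nat_lit 166)) (XT.lf (nat_lit 0) (nat_lit 4469455569) (nat_lit 152) (nat_lit 6257226989) (nat_lit 76) (nat_lit 15459499539) (nat_lit 31) (nat_lit 5) (nat_lit 33) (nat_lit 5) (nat_lit 32) (nat_lit 5) (nat_lit 357) (nat_lit 258) (nat_lit 165)))) (XT.nd (nat_lit 156) (nat_lit 76) (nat_lit 0) (XT.nd (nat_lit 78) (nat_lit 0) (nat_lit 0) (XT.lf (nat_lit 0) (nat_lit 3854273200) (nat_lit 152) (nat_lit 5257695280) (nat_lit 228) (nat_lit 17684172455) (nat_lit 29) (nat_lit 5) (nat_lit 31) (nat_lit 5) (nat_lit 32) (nat_lit 5) (nat_lit 358) (nat_lit 258) (nat_lit 164)) (XT.lf (nat_lit 0) (nat_lit 13941855762) (nat_lit 228) (nat_lit 13063720720) (nat_lit 76) (nat_lit 417385312) (nat_lit 29) (nat_lit 5) (nat_lit 32) (nat_lit 5) (nat_lit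 30) (nat_lit 4) (nat_lit 359) (nat_lit 258) (nat_lit 163))) (XT.nd (nat_lit 78) (nat_lit 76) (nat_lit 0) (XT.lf (nat_lit 0) (nat_lit 18949938237) (nat_lit 228) (nat_lit 2974653996) (nat_lit 76) (nat_lit 6143002135) (nat_lit 29) (nat_lit 5) (nat_lit 32) (nat_lit 5) (nat_lit 30) (nat_lit 4) (nat_lit 360) (nat_lit 258) (nat_lit 162)) (XT.lf (nat_lit 0) (nat_lit 7531658088) (nat_lit 76) (nat_lit 16630792535) (nat_lit 152) (nat_lit 4567495541) (nat_lit 28) (nat_lit 5) (nat_lit 29) (nat_lit 5) (nat_lit 30) (nat_lit 4) (nat_lit 361) (nat_lit 258) (nat_lit 161))))) (XT.nd (nat_lit 234) (nat_lit 76) (nat_lit 0) (XT.nd (nat_lit 78) (nat_lit 152) (nat_lit 0) (XT.lf (nat_lit 0) (nat_lit 129006913) (nat_lit 152) (nat_lit 11031019305) (nat_lit 76) (nat_lit 18251748587) (nat_lit 27) (nat_lit 5) (nat_lit 29) (nat_lit 5) (nat_lit 28) (nat_lit 5) (nat_lit 362) (nat_lit 258) (nat_lit 160)) (XT.nd (nat_lit 78) (nat_lit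 152) (nat_lit 0) (XT.lf (nat_lit 0) (nat_lit 4856958518) (nat_lit 152) (nat_lit 635456189) (nat_lit 76) (nat_lit 24620821601) (nat_lit 27) (nat_lit 5) (nat_lit 29) (nat_lit 5) (nat_lit 28) (nat_lit 5) (nat_lit 363) (nat_lit 258) (nat_lit 159)) (XT.lf (nat_lit 0) (nat_lit 9812227681) (nat_lit 228) (nat_lit 20596237624) (nat_lit 76) (nat_lit 424717198) (nat_lit 25) (nat_lit 5) (nat_lit 28) (nat_lit 5) (nat_lit 26) (nat_lit 4) (nat_lit 364) (nat_lit 258) (nat_lit 158)))) (XT.nd (nat_lit 156) (nat_lit 0) (nat_lit 0) (XT.nd (nat_lit 78) (nat_lit 76) (nat_lit 0) (XT.lf (nat_lit 0) (nat_lit 14959965152) (nat_lit 228) (nat_lit 10211102176) (nat_lit 76) (nat_lit 6402350509) (nat_lit 25) (nat_lit 5) (nat_lit 28) (nat_lit 5) (nat_lit 26) (nat_lit 4) (nat_lit 365) (nat_lit 258) (nat_lit 157)) (XT.lf (nat_lit 0) (nat_lit 464884208) (nat_lit 76) (nat_lit 19785165403) (nat_lit 152) (nat_lit 12086178091) (nat_lit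 24) (nat_lit 5) (nat_lit 25) (nat_lit 5) (nat_lit 26) (nat_lit 4) (nat_lit 366) (nat_lit 258) (nat_lit 156))) (XT.nd (nat_lit 78) (nat_lit 0) (nat_lit 0) (XT.lf (nat_lit 0) (nat_lit 11640984984) (nat_lit 76) (nat_lit 14144608586) (nat_lit 152) (nat_lit 7333730353) (nat_lit 24) (nat_lit 5) (nat_lit 25) (nat_lit 5) (nat_lit 26) (nat_lit 4) (nat_lit 367) (nat_lit 258) (nat_lit 155)) (XT.lf (nat_lit 0) (nat_lit 23123744723) (nat_lit 76) (nat_lit 8347580348) (nat_lit 152) (nat_lit 2455068959) (nat_lit 24) (nat_lit 5) (nat_lit 25) (nat_lit 5) (nat_lit 26) (nat_lit 4) (nat_lit 368) (nat_lit 258) (nat_lit 154)))))) (XT.nd (nat_lit 546) (nat_lit 228) (nat_lit 0) (XT.nd (nat_lit 234) (nat_lit 76) (nat_lit 0) (XT.nd (nat_lit 78) (nat_lit 0) (nat_lit 0) (XT.lf (nat_lit 0) (nat_lit 143298675) (nat_lit 152) (nat_lit 2362308712) (nat_lit 228) (nat_lit 32251757978) (nat_lit 21) (nat_lit 5) (nat_lit 23) (nat_lit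 5) (nat_lit 24) (nat_lit 5) (nat_lit 369) (nat_lit 258) (nat_lit 153)) (XT.nd (nat_lit 78) (nat_lit 0) (nat_lit 0) (XT.lf (nat_lit 0) (nat_lit 7696970506) (nat_lit 228) (nat_lit 24061039661) (nat_lit 76) (nat_lit 3850594354) (nat_lit 21) (nat_lit 5) (nat_lit 24) (nat_lit 5) (nat_lit 22) (nat_lit 4) (nat_lit 370) (nat_lit 258) (nat_lit 152)) (XT.lf (nat_lit 0) (nat_lit 13052408515) (nat_lit 228) (nat_lit 13242165756) (nat_lit 76) (nat_lit 10190560679) (nat_lit 21) (nat_lit 5) (nat_lit 24) (nat_lit 5) (nat_lit 22) (nat_lit 4) (nat_lit 371) (nat_lit 258) (nat_lit 151)))) (XT.nd (nat_lit 156) (nat_lit 0) (nat_lit 0) (XT.nd (nat_lit 78) (nat_lit 76) (nat_lit 0) (XT.lf (nat_lit 0) (nat_lit 18553892968) (nat_lit 228) (nat_lit 2125283632) (nat_lit 76) (nat_lit 16709227190) (nat_lit 21) (nat_lit 5) (nat_lit 24) (nat_lit 5) (nat_lit 22) (nat_lit 4) (nat_lit 372) (nat_lit 258) (nat_lit 150)) (XT.lf (nat_lit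 0) (nat_lit 9484395202) (nat_lit 76) (nat_lit 14813005592) (nat_lit 152) (nat_lit 14019064415) (nat_lit 20) (nat_lit 5) (nat_lit 21) (nat_lit 5) (nat_lit 22) (nat_lit 4) (nat_lit 373) (nat_lit 258) (nat_lit 149))) (XT.nd (nat_lit 78) (nat_lit 0) (nat_lit 0) (XT.lf (nat_lit 0) (nat_lit 21460398957) (nat_lit 76) (nat_lit 8760253030) (nat_lit 152) (nat_lit 9051497107) (nat_lit 20) (nat_lit 5) (nat_lit 21) (nat_lit 5) (nat_lit 22) (nat_lit 4) (nat_lit 374) (nat_lit 258) (nat_lit 148)) (XT.lf (nat_lit 0) (nat_lit 33770894789) (nat_lit 76) (nat_lit 2537091300) (nat_lit 152) (nat_lit 3948929501) (nat_lit 20) (nat_lit 5) (nat_lit 21) (nat_lit 5) (nat_lit 22) (nat_lit 4) (nat_lit 375) (nat_lit 258) (nat_lit 147))))) (XT.nd (nat_lit 312) (nat_lit 76) (nat_lit 0) (XT.nd (nat_lit 156) (nat_lit 0) (nat_lit 0) (XT.nd (nat_lit 78) (nat_lit 0) (nat_lit 0) (XT.lf (nat_lit 0) (nat_lit 1356026831) (nat_lit 152) (nat_lit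 36062553379) (nat_lit 76) (nat_lit 3850027179) (nat_lit 18) (nat_lit 5) (nat_lit 20) (nat_lit 5) (nat_lit 19) (nat_lit 4) (nat_lit 376) (nat_lit 258) (nat_lit 146)) (XT.lf (nat_lit 0) (nat_lit 6818726611) (nat_lit 152) (nat_lit 25016094497) (nat_lit 76) (nat_lit 10472320303) (nat_lit 18) (nat_lit 5) (nat_lit 20) (nat_lit 5) (nat_lit 19) (nat_lit 4) (nat_lit 377) (nat_lit 258) (nat_lit 145))) (XT.nd (nat_lit 78) (nat_lit 0) (nat_lit 0) (XT.lf (nat_lit 0) (nat_lit 12432394806) (nat_lit 152) (nat_lit 13661922498) (nat_lit 76) (nat_lit 17282904775) (nat_lit 18) (nat_lit 5) (nat_lit 20) (nat_lit 5) (nat_lit 19) (nat_lit 4) (nat_lit 378) (nat_lit 258) (nat_lit 144)) (XT.lf (nat_lit 0) (nat_lit 18201936563) (nat_lit 152) (nat_lit 1990116262) (nat_lit 76) (nat_lit 24287731591) (nat_lit 18) (nat_lit 5) (nat_lit 20) (nat_lit 5) (nat_lit 19) (nat_lit 4) (nat_lit 379) (nat_lit 258) (nat_lit 143)))) (XT.nd (nat_lit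 156) (nat_lit 0) (nat_lit 0) (XT.nd (nat_lit 78) (nat_lit 0) (nat_lit 0) (XT.lf (nat_lit 0) (nat_lit 10208732008) (nat_lit 76) (nat_lit 14021793799) (nat_lit 152) (nat_lit 21382322044) (nat_lit 17) (nat_lit 5) (nat_lit 18) (nat_lit 5) (nat_lit 19) (nat_lit 4) (nat_lit 380) (nat_lit 258) (nat_lit 142)) (XT.lf (nat_lit 0) (nat_lit 22792238711) (nat_lit 76) (nat_lit 7655800989) (nat_lit 152) (nat_lit 16331624452) (nat_lit 17) (nat_lit 5) (nat_lit 18) (nat_lit 5) (nat_lit 19) (nat_lit 4) (nat_lit 381) (nat_lit 258) (nat_lit 141))) (XT.nd (nat_lit 78) (nat_lit 0) (nat_lit 0) (XT.lf (nat_lit 0) (nat_lit 35731791929) (nat_lit 76) (nat_lit 1108608149) (nat_lit 152) (nat_lit 11141438120) (nat_lit 17) (nat_lit 5) (nat_lit 18) (nat_lit 5) (nat_lit 19) (nat_lit 4) (nat_lit 382) (nat_lit 258) (nat_lit 140)) (XT.lf (nat_lit 0) (nat_lit 43467268299) (nat_lit 152) (nat_lit 235798167) (nat_lit 0) (nat_lit 5515731691)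 (nat_lit 17) (nat_lit 5) (nat_lit 19) (nat_lit 4) (nat_lit 17) (nat_lit 4) (nat_lit 383) (nat_lit 258) (nat_lit 139))))))))
noncomputable def xc99 : XT := (XT.nd (nat_lit 2184) (nat_lit 0) (nat_lit 0) (XT.nd (nat_lit 1092) (nat_lit 228) (nat_lit 0) (XT.nd (nat_lit 546) (nat_lit 228) (nat_lit 0) (XT.nd (nat_lit 234) (nat_lit 76) (nat_lit 0) (XT.nd (nat_lit 78) (nat_lit 76) (nat_lit 0) (XT.lf (nat_lit 0) (nat_lit 12348391418) (nat_lit 76) (nat_lit 38063130632) (nat_lit 76) (nat_lit 77790203) (nat_lit 16) (nat_lit 4) (nat_lit 17) (nat_lit 5) (nat_lit 17) (nat_lit 4) (nat_lit 384) (nat_lit 258) (nat_lit 138)) (XT.nd (nat_lit 78) (nat_lit 0) (nat_lit 0) (XT.lf (nat_lit 0) (nat_lit 5644967780) (nat_lit 152) (nat_lit 26558875079) (nat_lit 76) (nat_lit 19592698899) (nat_lit 15) (nat_lit 5) (nat_lit 17) (nat_lit 5) (nat_lit 16) (nat_lit 4) (nat_lit 385) (nat_lit 258) (nat_lit 137)) (XT.lf (nat_lit 0) (nat_lit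 11527087761) (nat_lit 152) (nat_lit 14650034863) (nat_lit 76) (nat_lit 26966167626) (nat_lit 15) (nat_lit 5) (nat_lit 17) (nat_lit 5) (nat_lit 16) (nat_lit 4) (nat_lit 386) (nat_lit 258) (nat_lit 136)))) (XT.nd (nat_lit 156) (nat_lit 0) (nat_lit 0) (XT.nd (nat_lit 78) (nat_lit 76) (nat_lit 0) (XT.lf (nat_lit 0) (nat_lit 17575227421) (nat_lit 152) (nat_lit 2403246638) (nat_lit 76) (nat_lit 34552282873) (nat_lit 15) (nat_lit 5) (nat_lit 17) (nat_lit 5) (nat_lit 16) (nat_lit 4) (nat_lit 387) (nat_lit 258) (nat_lit 135)) (XT.lf (nat_lit 0) (nat_lit 10395035250) (nat_lit 76) (nat_lit 13499559731) (nat_lit 152) (nat_lit 32062561471) (nat_lit 14) (nat_lit 5) (nat_lit 15) (nat_lit 5) (nat_lit 16) (nat_lit 4) (nat_lit 388) (nat_lit 258) (nat_lit 134))) (XT.nd (nat_lit 78) (nat_lit 0) (nat_lit 0) (XT.lf (nat_lit 0) (nat_lit 23607959104) (nat_lit 76) (nat_lit 6809829634) (nat_lit 152) (nat_lit 27008134142)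 (nat_lit 14) (nat_lit 5) (nat_lit 15) (nat_lit 5) (nat_lit 16) (nat_lit 4) (nat_lit 389) (nat_lit 258) (nat_lit 133)) (XT.lf (nat_lit 0) (nat_lit 37127642260) (nat_lit 152) (nat_lit 21740500499) (nat_lit 0) (nat_lit 70882837) (nat_lit 14) (nat_lit 5) (nat_lit 16) (nat_lit 4) (nat_lit 14) (nat_lit 4) (nat_lit 390) (nat_lit 258) (nat_lit 132))))) (XT.nd (nat_lit 234) (nat_lit 152) (nat_lit 0) (XT.nd (nat_lit 78) (nat_lit 76) (nat_lit 0) (XT.lf (nat_lit 0) (nat_lit 44096690440) (nat_lit 152) (nat_lit 9385850163) (nat_lit 0) (nat_lit 7013245968) (nat_lit 14) (nat_lit 5) (nat_lit 16) (nat_lit 4) (nat_lit 14) (nat_lit 4) (nat_lit 391) (nat_lit 258) (nat_lit 131)) (XT.nd (nat_lit 78) (nat_lit 0) (nat_lit 0) (XT.lf (nat_lit 0) (nat_lit 3388361951) (nat_lit 76) (nat_lit 47909771547) (nat_lit 76) (nat_lit 10800419260) (nat_lit 13) (nat_lit 4) (nat_lit 14) (nat_lit 5) (nat_lit 14) (nat_lit 4) (nat_lit 392)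 (nat_lit 258) (nat_lit 130)) (XT.lf (nat_lit 0) (nat_lit 16721172875) (nat_lit 76) (nat_lit 42080083741) (nat_lit 76) (nat_lit 4945578235) (nat_lit 13) (nat_lit 4) (nat_lit 14) (nat_lit 5) (nat_lit 14) (nat_lit 4) (nat_lit 393) (nat_lit 258) (nat_lit 129)))) (XT.nd (nat_lit 156) (nat_lit 76) (nat_lit 0) (XT.nd (nat_lit 78) (nat_lit 0) (nat_lit 0) (XT.lf (nat_lit 0) (nat_lit 1054772105) (nat_lit 152) (nat_lit 35017738731) (nat_lit 76) (nat_lit 29372012580) (nat_lit 12) (nat_lit 5) (nat_lit 14) (nat_lit 5) (nat_lit 13) (nat_lit 4) (nat_lit 394) (nat_lit 258) (nat_lit 128)) (XT.lf (nat_lit 0) (nat_lit 7127027410) (nat_lit 152) (nat_lit 22714769783) (nat_lit 76) (nat_lit 37350139444) (nat_lit 12) (nat_lit 5) (nat_lit 14) (nat_lit 5) (nat_lit 13) (nat_lit 4) (nat_lit 395) (nat_lit 258) (nat_lit 127))) (XT.nd (nat_lit 78) (nat_lit 76) (nat_lit 0) (XT.lf (nat_lit 0) (nat_lit 13372999577) (nat_lit 152)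 (nat_lit 10058465042) (nat_lit 76) (nat_lit 45560562959) (nat_lit 12) (nat_lit 5) (nat_lit 14) (nat_lit 5) (nat_lit 13) (nat_lit 4) (nat_lit 396) (nat_lit 258) (nat_lit 126)) (XT.lf (nat_lit 0) (nat_lit 3021188670) (nat_lit 76) (nat_lit 16805999094) (nat_lit 152) (nat_lit 51018310124) (nat_lit 11) (nat_lit 5) (nat_lit 12) (nat_lit 5) (nat_lit 13) (nat_lit 4) (nat_lit 397) (nat_lit 258) (nat_lit 125)))))) (XT.nd (nat_lit 546) (nat_lit 152) (nat_lit 0) (XT.nd (nat_lit 234) (nat_lit 76) (nat_lit 0) (XT.nd (nat_lit 78) (nat_lit 0) (nat_lit 0) (XT.lf (nat_lit 0) (nat_lit 16684276170) (nat_lit 76) (nat_lit 9884184938) (nat_lit 152) (nat_lit 46183309110) (nat_lit 11) (nat_lit 5) (nat_lit 12) (nat_lit 5) (nat_lit 13) (nat_lit 4) (nat_lit 398) (nat_lit 258) (nat_lit 124)) (XT.nd (nat_lit 78) (nat_lit 0) (nat_lit 0) (XT.lf (nat_lit 0) (nat_lit 30742552900) (nat_lit 76) (nat_lit 2761544737) (nat_lit 152) (nat_lit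 41211370978) (nat_lit 11) (nat_lit 5) (nat_lit 12) (nat_lit 5) (nat_lit 13) (nat_lit 4) (nat_lit 399) (nat_lit 258) (nat_lit 123)) (XT.lf (nat_lit 0) (nat_lit 40684069423) (nat_lit 152) (nat_lit 31573917947) (nat_lit 0) (nat_lit 4479004207) (nat_lit 11) (nat_lit 5) (nat_lit 13) (nat_lit 4) (nat_lit 11) (nat_lit 4) (nat_lit 400) (nat_lit 258) (nat_lit 122)))) (XT.nd (nat_lit 156) (nat_lit 76) (nat_lit 0) (XT.nd (nat_lit 78) (nat_lit 0) (nat_lit 0) (XT.lf (nat_lit 0) (nat_lit 48099297563) (nat_lit 152) (nat_lit 18844314003) (nat_lit 0) (nat_lit 11874954499) (nat_lit 11) (nat_lit 5) (nat_lit 13) (nat_lit 4) (nat_lit 11) (nat_lit 4) (nat_lit 401) (nat_lit 258) (nat_lit 121)) (XT.lf (nat_lit 0) (nat_lit 55729715724) (nat_lit 152) (nat_lit 5746435270) (nat_lit 0) (nat_lit 19486656304) (nat_lit 11) (nat_lit 5) (nat_lit 13) (nat_lit 4) (nat_lit 11) (nat_lit 4) (nat_lit 402) (nat_lit 258) (nat_lit 120)))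 (XT.nd (nat_lit 78) (nat_lit 0) (nat_lit 0) (XT.lf (nat_lit 0) (nat_lit 7885028300) (nat_lit 76) (nat_lit 55772758678) (nat_lit 76) (nat_lit 19511528037) (nat_lit 10) (nat_lit 4) (nat_lit 11) (nat_lit 5) (nat_lit 11) (nat_lit 4) (nat_lit 403) (nat_lit 258) (nat_lit 119)) (XT.lf (nat_lit 0) (nat_lit 22030144820) (nat_lit 76) (nat_lit 49844607800) (nat_lit 76) (nat_lit 13565735198) (nat_lit 10) (nat_lit 4) (nat_lit 11) (nat_lit 5) (nat_lit 11) (nat_lit 4) (nat_lit 404) (nat_lit 258) (nat_lit 118))))) (XT.nd (nat_lit 234) (nat_lit 76) (nat_lit 0) (XT.nd (nat_lit 78) (nat_lit 76) (nat_lit 0) (XT.lf (nat_lit 0) (nat_lit 36586908769) (nat_lit 76) (nat_lit 43744546151) (nat_lit 76) (nat_lit 7448545431) (nat_lit 10) (nat_lit 4) (nat_lit 11) (nat_lit 5) (nat_lit 11) (nat_lit 4) (nat_lit 405) (nat_lit 258) (nat_lit 117)) (XT.nd (nat_lit 78) (nat_lit 76) (nat_lit 0) (XT.lf (nat_lit 0) (nat_lit 51568039648)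 (nat_lit 76) (nat_lit 37467243581) (nat_lit 76) (nat_lit 1154613621) (nat_lit 10) (nat_lit 4) (nat_lit 11) (nat_lit 5) (nat_lit 11) (nat_lit 4) (nat_lit 406) (nat_lit 258) (nat_lit 116)) (XT.lf (nat_lit 0) (nat_lit 5217716985) (nat_lit 152) (nat_lit 25736809373) (nat_lit 76) (nat_lit 61716222072) (nat_lit 9) (nat_lit 5) (nat_lit 11) (nat_lit 5) (nat_lit 10) (nat_lit 4) (nat_lit 407) (nat_lit 258) (nat_lit 115)))) (XT.nd (nat_lit 156) (nat_lit 0) (nat_lit 0) (XT.nd (nat_lit 78) (nat_lit 76) (nat_lit 0) (XT.lf (nat_lit 0) (nat_lit 11751750696) (nat_lit 152) (nat_lit 12488395593) (nat_lit 76) (nat_lit 70985725345) (nat_lit 9) (nat_lit 5) (nat_lit 11) (nat_lit 5) (nat_lit 10) (nat_lit 4) (nat_lit 408) (nat_lit 258) (nat_lit 114)) (XT.lf (nat_lit 0) (nat_lit 1168868100) (nat_lit 76) (nat_lit 17318095308) (nat_lit 152) (nat_lit 79370531576) (nat_lit 8) (nat_lit 5) (nat_lit 9) (nat_lit 5) (nat_lit 10)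 (nat_lit 4) (nat_lit 409) (nat_lit 258) (nat_lit 113))) (XT.nd (nat_lit 78) (nat_lit 0) (nat_lit 0) (XT.lf (nat_lit 0) (nat_lit 15480550119) (nat_lit 76) (nat_lit 10063781212) (nat_lit 152) (nat_lit 75020133893) (nat_lit 8) (nat_lit 5) (nat_lit 9) (nat_lit 5) (nat_lit 10) (nat_lit 4) (nat_lit 410) (nat_lit 258) (nat_lit 112)) (XT.lf (nat_lit 0) (nat_lit 30210612257) (nat_lit 76) (nat_lit 2596973589) (nat_lit 152) (nat_lit 70545234879) (nat_lit 8) (nat_lit 5) (nat_lit 9) (nat_lit 5) (nat_lit 10) (nat_lit 4) (nat_lit 411) (nat_lit 258) (nat_lit 111))))))) (XT.nd (nat_lit 29952) (nat_lit 0) (nat_lit 13908) (XT.nd (nat_lit 29406) (nat_lit 0) (nat_lit 22040) (XT.nd (nat_lit 29094) (nat_lit 0) (nat_lit 23940) (XT.nd (nat_lit 28938) (nat_lit 0) (nat_lit 24472) (XT.lf (nat_lit 0) (nat_lit 40331990647) (nat_lit 152) (nat_lit 60901989631) (nat_lit 0) (nat_lit 4989550123) (nat_lit 8) (nat_lit 5) (nat_lit 10)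 (nat_lit 4) (nat_lit 8) (nat_lit 4) (nat_lit 412) (nat_lit 258) (nat_lit 110)) (XT.nd (nat_lit 78) (nat_lit 76) (nat_lit 0) (XT.lf (nat_lit 0) (nat_lit 1541119420) (nat_lit 76) (nat_lit 140931700) (nat_lit 0) (nat_lit 1541119420) (nat_lit 331) (nat_lit 5) (nat_lit 332) (nat_lit 0) (nat_lit 331) (nat_lit 4) (nat_lit 262) (nat_lit 259) (nat_lit 259)) (XT.lf (nat_lit 0) (nat_lit 2915812962) (nat_lit 76) (nat_lit 3192227346) (nat_lit 76) (nat_lit 344164858) (nat_lit 330) (nat_lit 4) (nat_lit 331) (nat_lit 5) (nat_lit 331) (nat_lit 4) (nat_lit 263) (nat_lit 259) (nat_lit 258)))) (XT.nd (nat_lit 156) (nat_lit 304) (nat_lit 0) (XT.nd (nat_lit 78) (nat_lit 152) (nat_lit 0) (XT.lf (nat_lit 0) (nat_lit 2600506276) (nat_lit 152) (nat_lit 334143956) (nat_lit 76) (nat_lit 3526369781) (nat_lit 329) (nat_lit 5) (nat_lit 331) (nat_lit 5) (nat_lit 330) (nat_lit 4) (nat_lit 264) (nat_lit 259) (nat_lit 257)) (XT.lf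 (nat_lit 0) (nat_lit 2955760651) (nat_lit 152) (nat_lit 2587837574) (nat_lit 228) (nat_lit 929098745) (nat_lit 327) (nat_lit 5) (nat_lit 329) (nat_lit 5) (nat_lit 330) (nat_lit 4) (nat_lit 265) (nat_lit 259) (nat_lit 256))) (XT.nd (nat_lit 78) (nat_lit 228) (nat_lit 0) (XT.lf (nat_lit 0) (nat_lit 1942835123) (nat_lit 228) (nat_lit 217991628) (nat_lit 76) (nat_lit 4326691540) (nat_lit 326) (nat_lit 5) (nat_lit 329) (nat_lit 5) (nat_lit 327) (nat_lit 5) (nat_lit 266) (nat_lit 259) (nat_lit 255)) (XT.lf (nat_lit 0) (nat_lit 3170003519) (nat_lit 228) (nat_lit 1635883962) (nat_lit 304) (nat_lit 1699103796) (nat_lit 323) (nat_lit 5) (nat_lit 326) (nat_lit 5) (nat_lit 327) (nat_lit 5) (nat_lit 267) (nat_lit 259) (nat_lit 254))))) (XT.nd (nat_lit 234) (nat_lit 1064) (nat_lit 0) (XT.nd (nat_lit 78) (nat_lit 456) (nat_lit 0) (XT.lf (nat_lit 0) (nat_lit 66371882) (nat_lit 304) (nat_lit 1038757357) (nat_lit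 380) (nat_lit 5420765259) (nat_lit 318) (nat_lit 5) (nat_lit 322) (nat_lit 5) (nat_lit 323) (nat_lit 5) (nat_lit 268) (nat_lit 259) (nat_lit 253)) (XT.nd (nat_lit 78) (nat_lit 456) (nat_lit 0) (XT.lf (nat_lit 0) (nat_lit 3557363557) (nat_lit 304) (nat_lit 332412589) (nat_lit 380) (nat_lit 2659406605) (nat_lit 318) (nat_lit 5) (nat_lit 322) (nat_lit 5) (nat_lit 323) (nat_lit 5) (nat_lit 269) (nat_lit 259) (nat_lit 252)) (XT.lf (nat_lit 0) (nat_lit 89221421) (nat_lit 456) (nat_lit 6055961860) (nat_lit 76) (nat_lit 430857684) (nat_lit 312) (nat_lit 5) (nat_lit 318) (nat_lit 5) (nat_lit 313) (nat_lit 5) (nat_lit 270) (nat_lit 259) (nat_lit 251)))) (XT.nd (nat_lit 156) (nat_lit 608) (nat_lit 0) (XT.nd (nat_lit 78) (nat_lit 456) (nat_lit 0) (XT.lf (nat_lit 0) (nat_lit 2802109850) (nat_lit 456) (nat_lit 2500841173) (nat_lit 76) (nat_lit 1302067211) (nat_lit 312) (nat_lit 5) (nat_lit 318) (nat_lit 5) (nat_lit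 313) (nat_lit 5) (nat_lit 271) (nat_lit 259) (nat_lit 250)) (XT.lf (nat_lit 0) (nat_lit 1117907527) (nat_lit 456) (nat_lit 4393544924) (nat_lit 532) (nat_lit 1126116478) (nat_lit 306) (nat_lit 5) (nat_lit 312) (nat_lit 5) (nat_lit 313) (nat_lit 5) (nat_lit 272) (nat_lit 259) (nat_lit 249))) (XT.nd (nat_lit 78) (nat_lit 532) (nat_lit 0) (XT.lf (nat_lit 0) (nat_lit 1530073164) (nat_lit 532) (nat_lit 1856016954) (nat_lit 76) (nat_lit 3286755255) (nat_lit 305) (nat_lit 5) (nat_lit 312) (nat_lit 5) (nat_lit 306) (nat_lit 5) (nat_lit 273) (nat_lit 259) (nat_lit 248)) (XT.lf (nat_lit 0) (nat_lit 1878743465) (nat_lit 532) (nat_lit 2290802322) (nat_lit 608) (nat_lit 2541655785) (nat_lit 298) (nat_lit 5) (nat_lit 305) (nat_lit 5) (nat_lit 306) (nat_lit 5) (nat_lit 274) (nat_lit 259) (nat_lit 247)))))) (XT.nd (nat_lit 546) (nat_lit 5016) (nat_lit 0) (XT.nd (nat_lit 234) (nat_lit 2432) (nat_lit 0) (XT.nd (nat_lit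 78) (nat_lit 608) (nat_lit 0) (XT.lf (nat_lit 0) (nat_lit 62948060) (nat_lit 608) (nat_lit 1053676119) (nat_lit 76) (nat_lit 5636335202) (nat_lit 297) (nat_lit 5) (nat_lit 305) (nat_lit 5) (nat_lit 298) (nat_lit 5) (nat_lit 275) (nat_lit 259) (nat_lit 246)) (XT.nd (nat_lit 78) (nat_lit 0) (nat_lit 0) (XT.lf (nat_lit 0) (nat_lit 2635058601) (nat_lit 684) (nat_lit 3994502203) (nat_lit 76) (nat_lit 167571336) (nat_lit 289) (nat_lit 5) (nat_lit 298) (nat_lit 5) (nat_lit 290) (nat_lit 5) (nat_lit 276) (nat_lit 259) (nat_lit 245)) (XT.lf (nat_lit 0) (nat_lit 5220170286) (nat_lit 684) (nat_lit 123262230) (nat_lit 76) (nat_lit 1501249383) (nat_lit 289) (nat_lit 5) (nat_lit 298) (nat_lit 5) (nat_lit 290) (nat_lit 5) (nat_lit 277) (nat_lit 259) (nat_lit 244)))) (XT.nd (nat_lit 156) (nat_lit 912) (nat_lit 0) (XT.nd (nat_lit 78) (nat_lit 760) (nat_lit 0) (XT.lf (nat_lit 0) (nat_lit 923092087) (nat_lit 760)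 (nat_lit 3028566670) (nat_lit 76) (nat_lit 2943237281) (nat_lit 279) (nat_lit 5) (nat_lit 289) (nat_lit 5) (nat_lit 280) (nat_lit 5) (nat_lit 278) (nat_lit 259) (nat_lit 243)) (XT.lf (nat_lit 0) (nat_lit 969148103) (nat_lit 760) (nat_lit 2473333486) (nat_lit 836) (nat_lit 3505928400) (nat_lit 269) (nat_lit 5) (nat_lit 279) (nat_lit 5) (nat_lit 280) (nat_lit 5) (nat_lit 279) (nat_lit 259) (nat_lit 242))) (XT.nd (nat_lit 78) (nat_lit 912) (nat_lit 0) (XT.lf (nat_lit 0) (nat_lit 5084293333) (nat_lit 760) (nat_lit 902961689) (nat_lit 836) (nat_lit 1017893066) (nat_lit 269) (nat_lit 5) (nat_lit 279) (nat_lit 5) (nat_lit 280) (nat_lit 5) (nat_lit 280) (nat_lit 259) (nat_lit 241)) (XT.lf (nat_lit 0) (nat_lit 1464071371) (nat_lit 912) (nat_lit 4848902349) (nat_lit 76) (nat_lit 751792478) (nat_lit 257) (nat_lit 5) (nat_lit 269) (nat_lit 5) (nat_lit 258) (nat_lit 5) (nat_lit 281) (nat_lit 259) (nat_lit 240)))))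 (XT.nd (nat_lit 312) (nat_lit 3040) (nat_lit 0) (XT.nd (nat_lit 156) (nat_lit 1064) (nat_lit 0) (XT.nd (nat_lit 78) (nat_lit 912) (nat_lit 0) (XT.lf (nat_lit 0) (nat_lit 3951084221) (nat_lit 912) (nat_lit 695062653) (nat_lit 76) (nat_lit 2481295413) (nat_lit 257) (nat_lit 5) (nat_lit 269) (nat_lit 5) (nat_lit 258) (nat_lit 5) (nat_lit 282) (nat_lit 259) (nat_lit 239)) (XT.lf (nat_lit 0) (nat_lit 3589038023) (nat_lit 912) (nat_lit 2882945184) (nat_lit 988) (nat_lit 721337397) (nat_lit 245) (nat_lit 5) (nat_lit 257) (nat_lit 5) (nat_lit 258) (nat_lit 5) (nat_lit 283) (nat_lit 259) (nat_lit 238))) (XT.nd (nat_lit 78) (nat_lit 0) (nat_lit 0) (XT.lf (nat_lit 0) (nat_lit 685545301) (nat_lit 988) (nat_lit 1025728408) (nat_lit 1064) (nat_lit 5551298606) (nat_lit 231) (nat_lit 5) (nat_lit 244) (nat_lit 5) (nat_lit 245) (nat_lit 5) (nat_lit 284) (nat_lit 259) (nat_lit 237)) (XT.lf (nat_lit 0) (nat_lit 4174805432)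 (nat_lit 1064) (nat_lit 2237940655) (nat_lit 76) (nat_lit 921859734) (nat_lit 231) (nat_lit 5) (nat_lit 245) (nat_lit 5) (nat_lit 232) (nat_lit 5) (nat_lit 285) (nat_lit 259) (nat_lit 236)))) (XT.nd (nat_lit 156) (nat_lit 1900) (nat_lit 0) (XT.nd (nat_lit 78) (nat_lit 76) (nat_lit 0) (XT.lf (nat_lit 0) (nat_lit 2198972864) (nat_lit 1064) (nat_lit 4473841070) (nat_lit 1140) (nat_lit 737258313) (nat_lit 217) (nat_lit 5) (nat_lit 231) (nat_lit 5) (nat_lit 232) (nat_lit 5) (nat_lit 286) (nat_lit 259) (nat_lit 235)) (XT.lf (nat_lit 0) (nat_lit 1676425203) (nat_lit 1140) (nat_lit 755317143) (nat_lit 76) (nat_lit 5057054215) (nat_lit 216) (nat_lit 5) (nat_lit 231) (nat_lit 5) (nat_lit 217) (nat_lit 5) (nat_lit 287) (nat_lit 259) (nat_lit 234))) (XT.nd (nat_lit 78) (nat_lit 760) (nat_lit 0) (XT.lf (nat_lit 0) (nat_lit 3837707560) (nat_lit 1140) (nat_lit 278871030) (nat_lit 1216) (nat_lit 3454100186) (nat_lit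 201) (nat_lit 5) (nat_lit 216) (nat_lit 5) (nat_lit 217) (nat_lit 5) (nat_lit 288) (nat_lit 259) (nat_lit 233)) (XT.lf (nat_lit 0) (nat_lit 861823643) (nat_lit 760) (nat_lit 5736124908) (nat_lit 836) (nat_lit 1058107662) (nat_lit 191) (nat_lit 5) (nat_lit 201) (nat_lit 5) (nat_lit 202) (nat_lit 5) (nat_lit 289) (nat_lit 259) (nat_lit 232))))))))
noncomputable def xc100 : XT := (XT.nd (nat_lit 2184) (nat_lit 3800) (nat_lit 0) (XT.nd (nat_lit 1092) (nat_lit 3192) (nat_lit 0) (XT.nd (nat_lit 546) (nat_lit 1976) (nat_lit 0) (XT.nd (nat_lit 234) (nat_lit 1672) (nat_lit 0) (XT.nd (nat_lit 78) (nat_lit 608) (nat_lit 0) (XT.lf (nat_lit 0) (nat_lit 1357069899) (nat_lit 836) (nat_lit 2154812450) (nat_lit 76) (nat_lit 4232536201) (nat_lit 190) (nat_lit 5) (nat_lit 201) (nat_lit 5) (nat_lit 191) (nat_lit 5) (nat_lit 290) (nat_lit 259) (nat_lit 231)) (XT.nd (nat_lit 78) (nat_lit 0) (nat_lit 0) (XT.lf (nat_lit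 0) (nat_lit 2599726406) (nat_lit 608) (nat_lit 1184607231) (nat_lit 684) (nat_lit 4052029299) (nat_lit 182) (nat_lit 5) (nat_lit 190) (nat_lit 5) (nat_lit 191) (nat_lit 5) (nat_lit 291) (nat_lit 259) (nat_lit 230)) (XT.lf (nat_lit 0) (nat_lit 6255199281) (nat_lit 684) (nat_lit 466844775) (nat_lit 76) (nat_lit 1209968369) (nat_lit 182) (nat_lit 5) (nat_lit 191) (nat_lit 5) (nat_lit 183) (nat_lit 5) (nat_lit 292) (nat_lit 259) (nat_lit 229)))) (XT.nd (nat_lit 156) (nat_lit 532) (nat_lit 0) (XT.nd (nat_lit 78) (nat_lit 532) (nat_lit 0) (XT.lf (nat_lit 0) (nat_lit 748072191) (nat_lit 608) (nat_lit 3580554168) (nat_lit 76) (nat_lit 3701946394) (nat_lit 174) (nat_lit 5) (nat_lit 182) (nat_lit 5) (nat_lit 175) (nat_lit 5) (nat_lit 293) (nat_lit 259) (nat_lit 228)) (XT.lf (nat_lit 0) (nat_lit 1337085501) (nat_lit 532) (nat_lit 1832027686) (nat_lit 608) (nat_lit 4963829626) (nat_lit 167) (nat_lit 5) (nat_lit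 174) (nat_lit 5) (nat_lit 175) (nat_lit 5) (nat_lit 294) (nat_lit 259) (nat_lit 227))) (XT.nd (nat_lit 78) (nat_lit 532) (nat_lit 0) (XT.lf (nat_lit 0) (nat_lit 5647013229) (nat_lit 608) (nat_lit 1834649459) (nat_lit 76) (nat_lit 757256905) (nat_lit 167) (nat_lit 5) (nat_lit 175) (nat_lit 5) (nat_lit 168) (nat_lit 5) (nat_lit 295) (nat_lit 259) (nat_lit 226)) (XT.lf (nat_lit 0) (nat_lit 3257187852) (nat_lit 532) (nat_lit 4933846365) (nat_lit 608) (nat_lit 157348574) (nat_lit 160) (nat_lit 5) (nat_lit 167) (nat_lit 5) (nat_lit 168) (nat_lit 5) (nat_lit 296) (nat_lit 259) (nat_lit 225))))) (XT.nd (nat_lit 234) (nat_lit 912) (nat_lit 0) (XT.nd (nat_lit 78) (nat_lit 988) (nat_lit 0) (XT.lf (nat_lit 0) (nat_lit 2265884862) (nat_lit 608) (nat_lit 8160013) (nat_lit 76) (nat_lit 6187619382) (nat_lit 159) (nat_lit 5) (nat_lit 167) (nat_lit 5) (nat_lit 160) (nat_lit 5) (nat_lit 297) (nat_lit 259) (nat_lit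 224)) (XT.nd (nat_lit 78) (nat_lit 456) (nat_lit 0) (XT.lf (nat_lit 0) (nat_lit 4758658817) (nat_lit 608) (nat_lit 3317185090) (nat_lit 76) (nat_lit 502508829) (nat_lit 152) (nat_lit 5) (nat_lit 160) (nat_lit 5) (nat_lit 153) (nat_lit 5) (nat_lit 298) (nat_lit 259) (nat_lit 223)) (XT.lf (nat_lit 0) (nat_lit 1942248623) (nat_lit 456) (nat_lit 5370648398) (nat_lit 532) (nat_lit 1386098290) (nat_lit 146) (nat_lit 5) (nat_lit 152) (nat_lit 5) (nat_lit 153) (nat_lit 5) (nat_lit 299) (nat_lit 259) (nat_lit 222)))) (XT.nd (nat_lit 156) (nat_lit 380) (nat_lit 0) (XT.nd (nat_lit 78) (nat_lit 456) (nat_lit 0) (XT.lf (nat_lit 0) (nat_lit 1078286341) (nat_lit 532) (nat_lit 1469737189) (nat_lit 76) (nat_lit 6275571894) (nat_lit 145) (nat_lit 5) (nat_lit 152) (nat_lit 5) (nat_lit 146) (nat_lit 5) (nat_lit 300) (nat_lit 259) (nat_lit 221)) (XT.lf (nat_lit 0) (nat_lit 3578253812) (nat_lit 532) (nat_lit 4978087211)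 (nat_lit 76) (nat_lit 395544792) (nat_lit 139) (nat_lit 5) (nat_lit 146) (nat_lit 5) (nat_lit 140) (nat_lit 5) (nat_lit 301) (nat_lit 259) (nat_lit 220))) (XT.nd (nat_lit 78) (nat_lit 0) (nat_lit 0) (XT.lf (nat_lit 0) (nat_lit 447665956) (nat_lit 380) (nat_lit 5698318335) (nat_lit 456) (nat_lit 2938305571) (nat_lit 134) (nat_lit 5) (nat_lit 139) (nat_lit 5) (nat_lit 140) (nat_lit 5) (nat_lit 302) (nat_lit 259) (nat_lit 219)) (XT.lf (nat_lit 0) (nat_lit 6075970444) (nat_lit 380) (nat_lit 2714198434) (nat_lit 456) (nat_lit 430560957) (nat_lit 134) (nat_lit 5) (nat_lit 139) (nat_lit 5) (nat_lit 140) (nat_lit 5) (nat_lit 303) (nat_lit 259) (nat_lit 218)))))) (XT.nd (nat_lit 546) (nat_lit 1444) (nat_lit 0) (XT.nd (nat_lit 234) (nat_lit 836) (nat_lit 0) (XT.nd (nat_lit 78) (nat_lit 380) (nat_lit 0) (XT.lf (nat_lit 0) (nat_lit 2088120721) (nat_lit 532) (nat_lit 6887217272) (nat_lit 76) (nat_lit 386016924)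 (nat_lit 127) (nat_lit 5) (nat_lit 134) (nat_lit 5) (nat_lit 128) (nat_lit 5) (nat_lit 304) (nat_lit 259) (nat_lit 217)) (XT.nd (nat_lit 78) (nat_lit 380) (nat_lit 0) (XT.lf (nat_lit 0) (nat_lit 4683507909) (nat_lit 532) (nat_lit 1272917725) (nat_lit 76) (nat_lit 3549393787) (nat_lit 127) (nat_lit 5) (nat_lit 134) (nat_lit 5) (nat_lit 128) (nat_lit 5) (nat_lit 305) (nat_lit 259) (nat_lit 216)) (XT.lf (nat_lit 0) (nat_lit 4537888457) (nat_lit 380) (nat_lit 2814775950) (nat_lit 456) (nat_lit 2302117510) (nat_lit 122) (nat_lit 5) (nat_lit 127) (nat_lit 5) (nat_lit 128) (nat_lit 5) (nat_lit 306) (nat_lit 259) (nat_lit 215)))) (XT.nd (nat_lit 156) (nat_lit 380) (nat_lit 0) (XT.nd (nat_lit 78) (nat_lit 0) (nat_lit 0) (XT.lf (nat_lit 0) (nat_lit 264312774) (nat_lit 456) (nat_lit 9122186791) (nat_lit 76) (nat_lit 422377113) (nat_lit 116) (nat_lit 5) (nat_lit 122) (nat_lit 5) (nat_lit 117) (nat_lit 5) (nat_lit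 307) (nat_lit 259) (nat_lit 214)) (XT.lf (nat_lit 0) (nat_lit 2894784127) (nat_lit 456) (nat_lit 3309516171) (nat_lit 76) (nat_lit 3761648418) (nat_lit 116) (nat_lit 5) (nat_lit 122) (nat_lit 5) (nat_lit 117) (nat_lit 5) (nat_lit 308) (nat_lit 259) (nat_lit 213))) (XT.nd (nat_lit 78) (nat_lit 0) (nat_lit 0) (XT.lf (nat_lit 0) (nat_lit 2669856241) (nat_lit 380) (nat_lit 2914606013) (nat_lit 456) (nat_lit 4543898565) (nat_lit 111) (nat_lit 5) (nat_lit 116) (nat_lit 5) (nat_lit 117) (nat_lit 5) (nat_lit 309) (nat_lit 259) (nat_lit 212)) (XT.lf (nat_lit 0) (nat_lit 8348376289) (nat_lit 456) (nat_lit 1463501084) (nat_lit 76) (nat_lit 483997161) (nat_lit 111) (nat_lit 5) (nat_lit 117) (nat_lit 5) (nat_lit 112) (nat_lit 5) (nat_lit 310) (nat_lit 259) (nat_lit 211))))) (XT.nd (nat_lit 234) (nat_lit 684) (nat_lit 0) (XT.nd (nat_lit 78) (nat_lit 304) (nat_lit 0) (XT.lf (nat_lit 0) (nat_lit 743615718) (nat_lit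 456) (nat_lit 5758963227) (nat_lit 76) (nat_lit 3964728576) (nat_lit 105) (nat_lit 5) (nat_lit 111) (nat_lit 5) (nat_lit 106) (nat_lit 5) (nat_lit 311) (nat_lit 259) (nat_lit 210)) (XT.nd (nat_lit 78) (nat_lit 0) (nat_lit 0) (XT.lf (nat_lit 0) (nat_lit 380927761) (nat_lit 304) (nat_lit 3070774674) (nat_lit 380) (nat_lit 7192373726) (nat_lit 101) (nat_lit 5) (nat_lit 105) (nat_lit 5) (nat_lit 106) (nat_lit 5) (nat_lit 312) (nat_lit 259) (nat_lit 209)) (XT.lf (nat_lit 0) (nat_lit 6261561627) (nat_lit 380) (nat_lit 4065928595) (nat_lit 76) (nat_lit 498073386) (nat_lit 101) (nat_lit 5) (nat_lit 106) (nat_lit 5) (nat_lit 102) (nat_lit 5) (nat_lit 313) (nat_lit 259) (nat_lit 208)))) (XT.nd (nat_lit 156) (nat_lit 304) (nat_lit 0) (XT.nd (nat_lit 78) (nat_lit 76) (nat_lit 0) (XT.lf (nat_lit 0) (nat_lit 2273341822) (nat_lit 304) (nat_lit 6893213521) (nat_lit 380) (nat_lit 1845645896) (nat_lit 97) (nat_lit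 5) (nat_lit 101) (nat_lit 5) (nat_lit 102) (nat_lit 5) (nat_lit 314) (nat_lit 259) (nat_lit 207)) (XT.lf (nat_lit 0) (nat_lit 935909642) (nat_lit 380) (nat_lit 2384753089) (nat_lit 76) (nat_lit 7883520943) (nat_lit 96) (nat_lit 5) (nat_lit 101) (nat_lit 5) (nat_lit 97) (nat_lit 5) (nat_lit 315) (nat_lit 259) (nat_lit 206))) (XT.nd (nat_lit 78) (nat_lit 0) (nat_lit 0) (XT.lf (nat_lit 0) (nat_lit 3767744520) (nat_lit 380) (nat_lit 7238679886) (nat_lit 76) (nat_lit 394863230) (nat_lit 92) (nat_lit 5) (nat_lit 97) (nat_lit 5) (nat_lit 93) (nat_lit 5) (nat_lit 316) (nat_lit 259) (nat_lit 205)) (XT.lf (nat_lit 0) (nat_lit 6702206708) (nat_lit 380) (nat_lit 738333619) (nat_lit 76) (nat_lit 4163261519) (nat_lit 92) (nat_lit 5) (nat_lit 97) (nat_lit 5) (nat_lit 93) (nat_lit 5) (nat_lit 317) (nat_lit 259) (nat_lit 204))))))) (XT.nd (nat_lit 1092) (nat_lit 1596) (nat_lit 0) (XT.nd (nat_lit 546) (nat_lit 988)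 (nat_lit 0) (XT.nd (nat_lit 234) (nat_lit 608) (nat_lit 0) (XT.nd (nat_lit 78) (nat_lit 304) (nat_lit 0) (XT.lf (nat_lit 0) (nat_lit 6019227829) (nat_lit 304) (nat_lit 3724961310) (nat_lit 380) (nat_lit 2067644252) (nat_lit 88) (nat_lit 5) (nat_lit 92) (nat_lit 5) (nat_lit 93) (nat_lit 5) (nat_lit 318) (nat_lit 259) (nat_lit 203)) (XT.nd (nat_lit 78) (nat_lit 0) (nat_lit 0) (XT.lf (nat_lit 0) (nat_lit 813991642) (nat_lit 304) (nat_lit 11104568893) (nat_lit 76) (nat_lit 107946457) (nat_lit 84) (nat_lit 5) (nat_lit 88) (nat_lit 5) (nat_lit 85) (nat_lit 5) (nat_lit 319) (nat_lit 259) (nat_lit 202)) (XT.lf (nat_lit 0) (nat_lit 3798708327) (nat_lit 304) (nat_lit 4403073362) (nat_lit 76) (nat_lit 4043503534) (nat_lit 84) (nat_lit 5) (nat_lit 88) (nat_lit 5) (nat_lit 85) (nat_lit 5) (nat_lit 320) (nat_lit 259) (nat_lit 201)))) (XT.nd (nat_lit 156) (nat_lit 304) (nat_lit 0) (XT.nd (nat_lit 78) (nat_lit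 0) (nat_lit 0) (XT.lf (nat_lit 0) (nat_lit 2493823218) (nat_lit 304) (nat_lit 4366450793) (nat_lit 380) (nat_lit 5610757111) (nat_lit 80) (nat_lit 5) (nat_lit 84) (nat_lit 5) (nat_lit 85) (nat_lit 5) (nat_lit 321) (nat_lit 259) (nat_lit 200)) (XT.lf (nat_lit 0) (nat_lit 9634110518) (nat_lit 304) (nat_lit 387924884) (nat_lit 380) (nat_lit 2681286393) (nat_lit 80) (nat_lit 5) (nat_lit 84) (nat_lit 5) (nat_lit 85) (nat_lit 5) (nat_lit 322) (nat_lit 259) (nat_lit 199))) (XT.nd (nat_lit 78) (nat_lit 0) (nat_lit 0) (XT.lf (nat_lit 0) (nat_lit 369109469) (nat_lit 304) (nat_lit 8909043161) (nat_lit 76) (nat_lit 3663165226) (nat_lit 76) (nat_lit 5) (nat_lit 80) (nat_lit 5) (nat_lit 77) (nat_lit 5) (nat_lit 323) (nat_lit 259) (nat_lit 198)) (XT.lf (nat_lit 0) (nat_lit 3457195752) (nat_lit 304) (nat_lit 1859813996) (nat_lit 76) (nat_lit 7868666454) (nat_lit 76) (nat_lit 5) (nat_lit 80) (nat_lit 5) (nat_lit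 77) (nat_lit 5) (nat_lit 324) (nat_lit 259) (nat_lit 197))))) (XT.nd (nat_lit 234) (nat_lit 532) (nat_lit 0) (XT.nd (nat_lit 78) (nat_lit 228) (nat_lit 0) (XT.lf (nat_lit 0) (nat_lit 5455587120) (nat_lit 228) (nat_lit 1200730458) (nat_lit 304) (nat_lit 6780516245) (nat_lit 73) (nat_lit 5) (nat_lit 76) (nat_lit 5) (nat_lit 77) (nat_lit 5) (nat_lit 325) (nat_lit 259) (nat_lit 196)) (XT.nd (nat_lit 78) (nat_lit 228) (nat_lit 0) (XT.lf (nat_lit 0) (nat_lit 9965871917) (nat_lit 304) (nat_lit 747898789) (nat_lit 76) (nat_lit 2981341420) (nat_lit 73) (nat_lit 5) (nat_lit 77) (nat_lit 5) (nat_lit 74) (nat_lit 5) (nat_lit 326) (nat_lit 259) (nat_lit 195)) (XT.lf (nat_lit 0) (nat_lit 6772115689) (nat_lit 228) (nat_lit 6646844844) (nat_lit 304) (nat_lit 540869961) (nat_lit 70) (nat_lit 5) (nat_lit 73) (nat_lit 5) (nat_lit 74) (nat_lit 5) (nat_lit 327) (nat_lit 259) (nat_lit 194)))) (XT.nd (nat_lit 156) (nat_lit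 228) (nat_lit 0) (XT.nd (nat_lit 78) (nat_lit 0) (nat_lit 0) (XT.lf (nat_lit 0) (nat_lit 228039459) (nat_lit 228) (nat_lit 2438798101) (nat_lit 304) (nat_lit 11565563384) (nat_lit 66) (nat_lit 5) (nat_lit 69) (nat_lit 5) (nat_lit 70) (nat_lit 5) (nat_lit 328) (nat_lit 259) (nat_lit 193)) (XT.lf (nat_lit 0) (nat_lit 6019114387) (nat_lit 304) (nat_lit 6572732414) (nat_lit 76) (nat_lit 1919382304) (nat_lit 66) (nat_lit 5) (nat_lit 70) (nat_lit 5) (nat_lit 67) (nat_lit 5) (nat_lit 329) (nat_lit 259) (nat_lit 192))) (XT.nd (nat_lit 78) (nat_lit 0) (nat_lit 0) (XT.lf (nat_lit 0) (nat_lit 1028175600) (nat_lit 228) (nat_lit 8446442973) (nat_lit 304) (nat_lit 5323740775) (nat_lit 63) (nat_lit 5) (nat_lit 66) (nat_lit 5) (nat_lit 67) (nat_lit 5) (nat_lit 330) (nat_lit 259) (nat_lit 191)) (XT.lf (nat_lit 0) (nat_lit 8942744748) (nat_lit 228) (nat_lit 4126485664) (nat_lit 304) (nat_lit 2023826325) (nat_lit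 63) (nat_lit 5) (nat_lit 66) (nat_lit 5) (nat_lit 67) (nat_lit 5) (nat_lit 331) (nat_lit 259) (nat_lit 190)))))) (XT.nd (nat_lit 546) (nat_lit 684) (nat_lit 0) (XT.nd (nat_lit 234) (nat_lit 456) (nat_lit 0) (XT.nd (nat_lit 78) (nat_lit 152) (nat_lit 0) (XT.lf (nat_lit 0) (nat_lit 1337179645) (nat_lit 304) (nat_lit 13730645426) (nat_lit 76) (nat_lit 328721191) (nat_lit 59) (nat_lit 5) (nat_lit 63) (nat_lit 5) (nat_lit 60) (nat_lit 5) (nat_lit 332) (nat_lit 259) (nat_lit 189)) (XT.nd (nat_lit 78) (nat_lit 152) (nat_lit 0) (XT.lf (nat_lit 0) (nat_lit 4831826852) (nat_lit 304) (nat_lit 5974668087) (nat_lit 76) (nat_lit 4899854872) (nat_lit 59) (nat_lit 5) (nat_lit 63) (nat_lit 5) (nat_lit 60) (nat_lit 5) (nat_lit 333) (nat_lit 259) (nat_lit 188)) (XT.lf (nat_lit 0) (nat_lit 2005989822) (nat_lit 152) (nat_lit 6415393507) (nat_lit 228) (nat_lit 7604376714) (nat_lit 57) (nat_lit 5) (nat_lit 59) (nat_lit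 5) (nat_lit 60) (nat_lit 5) (nat_lit 334) (nat_lit 259) (nat_lit 187)))) (XT.nd (nat_lit 156) (nat_lit 228) (nat_lit 0) (XT.nd (nat_lit 78) (nat_lit 228) (nat_lit 0) (XT.lf (nat_lit 0) (nat_lit 10301861655) (nat_lit 152) (nat_lit 1848286471) (nat_lit 228) (nat_lit 4203673053) (nat_lit 57) (nat_lit 5) (nat_lit 59) (nat_lit 5) (nat_lit 60) (nat_lit 5) (nat_lit 335) (nat_lit 259) (nat_lit 186)) (XT.lf (nat_lit 0) (nat_lit 2122850704) (nat_lit 228) (nat_lit 13887644893) (nat_lit 304) (nat_lit 680650791) (nat_lit 54) (nat_lit 5) (nat_lit 57) (nat_lit 5) (nat_lit 58) (nat_lit 5) (nat_lit 336) (nat_lit 259) (nat_lit 185))) (XT.nd (nat_lit 78) (nat_lit 152) (nat_lit 0) (XT.lf (nat_lit 0) (nat_lit 2942507933) (nat_lit 304) (nat_lit 6463164370) (nat_lit 76) (nat_lit 7630522737) (nat_lit 53) (nat_lit 5) (nat_lit 57) (nat_lit 5) (nat_lit 54) (nat_lit 5) (nat_lit 337) (nat_lit 259) (nat_lit 184)) (XT.lf (nat_lit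 0) (nat_lit 1870090115) (nat_lit 152) (nat_lit 4781339422) (nat_lit 228) (nat_lit 10740253643) (nat_lit 51) (nat_lit 5) (nat_lit 53) (nat_lit 5) (nat_lit 54) (nat_lit 5) (nat_lit 338) (nat_lit 259) (nat_lit 183))))) (XT.nd (nat_lit 312) (nat_lit 228) (nat_lit 0) (XT.nd (nat_lit 156) (nat_lit 228) (nat_lit 0) (XT.nd (nat_lit 78) (nat_lit 228) (nat_lit 0) (XT.lf (nat_lit 0) (nat_lit 10510325370) (nat_lit 228) (nat_lit 7215512590) (nat_lit 76) (nat_lit 30849094) (nat_lit 51) (nat_lit 5) (nat_lit 54) (nat_lit 5) (nat_lit 52) (nat_lit 5) (nat_lit 339) (nat_lit 259) (nat_lit 182)) (XT.lf (nat_lit 0) (nat_lit 1273578081) (nat_lit 228) (nat_lit 13244750449) (nat_lit 304) (nat_lit 3613324232) (nat_lit 48) (nat_lit 5) (nat_lit 51) (nat_lit 5) (nat_lit 52) (nat_lit 5) (nat_lit 340) (nat_lit 259) (nat_lit 181))) (XT.nd (nat_lit 78) (nat_lit 152) (nat_lit 0) (XT.lf (nat_lit 0) (nat_lit 173615641) (nat_lit 304)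 (nat_lit 8396175699) (nat_lit 76) (nat_lit 9946627548) (nat_lit 47) (nat_lit 5) (nat_lit 51) (nat_lit 5) (nat_lit 48) (nat_lit 5) (nat_lit 341) (nat_lit 259) (nat_lit 180)) (XT.lf (nat_lit 0) (nat_lit 246094385) (nat_lit 152) (nat_lit 3732411516) (nat_lit 228) (nat_lit 14933850758) (nat_lit 45) (nat_lit 5) (nat_lit 47) (nat_lit 5) (nat_lit 48) (nat_lit 5) (nat_lit 342) (nat_lit 259) (nat_lit 179)))) (XT.nd (nat_lit 156) (nat_lit 228) (nat_lit 0) (XT.nd (nat_lit 78) (nat_lit 0) (nat_lit 0) (XT.lf (nat_lit 0) (nat_lit 7969956094) (nat_lit 228) (nat_lit 10053433735) (nat_lit 76) (nat_lit 1294620937) (nat_lit 45) (nat_lit 5) (nat_lit 48) (nat_lit 5) (nat_lit 46) (nat_lit 5) (nat_lit 343) (nat_lit 259) (nat_lit 178)) (XT.lf (nat_lit 0) (nat_lit 12093611383) (nat_lit 228) (nat_lit 1260625957) (nat_lit 76) (nat_lit 6381233600) (nat_lit 45) (nat_lit 5) (nat_lit 48) (nat_lit 5) (nat_lit 46) (nat_lit 5) (nat_lit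 344) (nat_lit 259) (nat_lit 177))) (XT.nd (nat_lit 78) (nat_lit 76) (nat_lit 0) (XT.lf (nat_lit 0) (nat_lit 7910076399) (nat_lit 152) (nat_lit 8483156833) (nat_lit 228) (nat_lit 3770663972) (nat_lit 43) (nat_lit 5) (nat_lit 45) (nat_lit 5) (nat_lit 46) (nat_lit 5) (nat_lit 345) (nat_lit 259) (nat_lit 176)) (XT.lf (nat_lit 0) (nat_lit 201583481) (nat_lit 228) (nat_lit 3265592239) (nat_lit 76) (nat_lit 17138273152) (nat_lit 42) (nat_lit 5) (nat_lit 45) (nat_lit 5) (nat_lit 43) (nat_lit 5) (nat_lit 346) (nat_lit 259) (nat_lit 175))))))))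
noncomputable def xc101 : XT := (XT.nd (nat_lit 2184) (nat_lit 684) (nat_lit 0) (XT.nd (nat_lit 1092) (nat_lit 684) (nat_lit 0) (XT.nd (nat_lit 546) (nat_lit 456) (nat_lit 0) (XT.nd (nat_lit 234) (nat_lit 228) (nat_lit 0) (XT.nd (nat_lit 78) (nat_lit 152) (nat_lit 0) (XT.lf (nat_lit 0) (nat_lit 4269311785) (nat_lit 228) (nat_lit 15041680348) (nat_lit 76) (nat_lit 1746581101) (nat_lit 40) (nat_lit 5) (nat_lit 43) (nat_lit 5) (nat_lit 41) (nat_lit 5) (nat_lit 347) (nat_lit 259) (nat_lit 174)) (XT.nd (nat_lit 78) (nat_lit 152) (nat_lit 0) (XT.lf (nat_lit 0) (nat_lit 8503825254) (nat_lit 228) (nat_lit 5953471287) (nat_lit 76) (nat_lit 7064631065) (nat_lit 40) (nat_lit 5) (nat_lit 43) (nat_lit 5) (nat_lit 41) (nat_lit 5) (nat_lit 348) (nat_lit 259) (nat_lit 173)) (XT.lf (nat_lit 0) (nat_lit 3436274766) (nat_lit 152) (nat_lit 9439919547) (nat_lit 228) (nat_lit 9123702310) (nat_lit 38) (nat_lit 5) (nat_lit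 40) (nat_lit 5) (nat_lit 41) (nat_lit 5) (nat_lit 349) (nat_lit 259) (nat_lit 172)))) (XT.nd (nat_lit 156) (nat_lit 76) (nat_lit 0) (XT.nd (nat_lit 78) (nat_lit 152) (nat_lit 0) (XT.lf (nat_lit 0) (nat_lit 13191964298) (nat_lit 152) (nat_lit 4225960822) (nat_lit 228) (nat_lit 5073142236) (nat_lit 38) (nat_lit 5) (nat_lit 40) (nat_lit 5) (nat_lit 41) (nat_lit 5) (nat_lit 350) (nat_lit 259) (nat_lit 171)) (XT.lf (nat_lit 0) (nat_lit 199047264) (nat_lit 152) (nat_lit 21888337718) (nat_lit 228) (nat_lit 909852040) (nat_lit 36) (nat_lit 5) (nat_lit 38) (nat_lit 5) (nat_lit 39) (nat_lit 4) (nat_lit 351) (nat_lit 259) (nat_lit 170))) (XT.nd (nat_lit 78) (nat_lit 0) (nat_lit 0) (XT.lf (nat_lit 0) (nat_lit 3427703020) (nat_lit 228) (nat_lit 13455511665) (nat_lit 76) (nat_lit 6630951822) (nat_lit 35) (nat_lit 5) (nat_lit 38) (nat_lit 5) (nat_lit 36) (nat_lit 5) (nat_lit 352) (nat_lit 259) (nat_lit 169)) (XT.lf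 (nat_lit 0) (nat_lit 7856336486) (nat_lit 228) (nat_lit 3877732533) (nat_lit 76) (nat_lit 12312894871) (nat_lit 35) (nat_lit 5) (nat_lit 38) (nat_lit 5) (nat_lit 36) (nat_lit 5) (nat_lit 353) (nat_lit 259) (nat_lit 168))))) (XT.nd (nat_lit 234) (nat_lit 228) (nat_lit 0) (XT.nd (nat_lit 78) (nat_lit 76) (nat_lit 0) (XT.lf (nat_lit 0) (nat_lit 6070724321) (nat_lit 152) (nat_lit 6385303723) (nat_lit 228) (nat_lit 12138578397) (nat_lit 33) (nat_lit 5) (nat_lit 35) (nat_lit 5) (nat_lit 36) (nat_lit 5) (nat_lit 354) (nat_lit 259) (nat_lit 167)) (XT.nd (nat_lit 78) (nat_lit 76) (nat_lit 0) (XT.lf (nat_lit 0) (nat_lit 16362351538) (nat_lit 152) (nat_lit 850612700) (nat_lit 228) (nat_lit 7945143423) (nat_lit 33) (nat_lit 5) (nat_lit 35) (nat_lit 5) (nat_lit 36) (nat_lit 5) (nat_lit 355) (nat_lit 259) (nat_lit 166)) (XT.lf (nat_lit 0) (nat_lit 1166138910) (nat_lit 76) (nat_lit 20984838898) (nat_lit 152) (nat_lit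 3586391834) (nat_lit 32) (nat_lit 5) (nat_lit 33) (nat_lit 5) (nat_lit 34) (nat_lit 4) (nat_lit 356) (nat_lit 259) (nat_lit 165)))) (XT.nd (nat_lit 156) (nat_lit 152) (nat_lit 0) (XT.nd (nat_lit 78) (nat_lit 0) (nat_lit 0) (XT.lf (nat_lit 0) (nat_lit 964202156) (nat_lit 152) (nat_lit 14776397892) (nat_lit 76) (nat_lit 10590794315) (nat_lit 31) (nat_lit 5) (nat_lit 33) (nat_lit 5) (nat_lit 32) (nat_lit 5) (nat_lit 357) (nat_lit 259) (nat_lit 164)) (XT.lf (nat_lit 0) (nat_lit 5560378439) (nat_lit 152) (nat_lit 4756496375) (nat_lit 76) (nat_lit 16625871552) (nat_lit 31) (nat_lit 5) (nat_lit 33) (nat_lit 5) (nat_lit 32) (nat_lit 5) (nat_lit 358) (nat_lit 259) (nat_lit 163))) (XT.nd (nat_lit 78) (nat_lit 0) (nat_lit 0) (XT.lf (nat_lit 0) (nat_lit 5641795413) (nat_lit 152) (nat_lit 4688573489) (nat_lit 228) (nat_lit 17240998206) (nat_lit 29) (nat_lit 5) (nat_lit 31) (nat_lit 5) (nat_lit 32) (nat_lit 5)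 (nat_lit 359) (nat_lit 259) (nat_lit 162)) (XT.lf (nat_lit 0) (nat_lit 15284410774) (nat_lit 228) (nat_lit 11811394362) (nat_lit 76) (nat_lit 1121818654) (nat_lit 29) (nat_lit 5) (nat_lit 32) (nat_lit 5) (nat_lit 30) (nat_lit 4) (nat_lit 360) (nat_lit 259) (nat_lit 161)))))) (XT.nd (nat_lit 546) (nat_lit 304) (nat_lit 0) (XT.nd (nat_lit 234) (nat_lit 228) (nat_lit 0) (XT.nd (nat_lit 78) (nat_lit 152) (nat_lit 0) (XT.lf (nat_lit 0) (nat_lit 20415814384) (nat_lit 228) (nat_lit 1467546062) (nat_lit 76) (nat_lit 6999051211) (nat_lit 29) (nat_lit 5) (nat_lit 32) (nat_lit 5) (nat_lit 30) (nat_lit 4) (nat_lit 361) (nat_lit 259) (nat_lit 160)) (XT.nd (nat_lit 78) (nat_lit 76) (nat_lit 0) (XT.lf (nat_lit 0) (nat_lit 9338304918) (nat_lit 76) (nat_lit 16435454627) (nat_lit 152) (nat_lit 3791211163) (nat_lit 28) (nat_lit 5) (nat_lit 29) (nat_lit 5) (nat_lit 30) (nat_lit 4) (nat_lit 362) (nat_lit 259) (nat_lit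 159)) (XT.lf (nat_lit 0) (nat_lit 1002282257) (nat_lit 152) (nat_lit 9809724991) (nat_lit 76) (nat_lit 19455773987) (nat_lit 27) (nat_lit 5) (nat_lit 29) (nat_lit 5) (nat_lit 28) (nat_lit 5) (nat_lit 363) (nat_lit 259) (nat_lit 158)))) (XT.nd (nat_lit 156) (nat_lit 76) (nat_lit 0) (XT.nd (nat_lit 78) (nat_lit 0) (nat_lit 0) (XT.lf (nat_lit 0) (nat_lit 869460898) (nat_lit 152) (nat_lit 4985646823) (nat_lit 228) (nat_lit 25135695512) (nat_lit 25) (nat_lit 5) (nat_lit 27) (nat_lit 5) (nat_lit 28) (nat_lit 5) (nat_lit 364) (nat_lit 259) (nat_lit 157)) (XT.lf (nat_lit 0) (nat_lit 10946765481) (nat_lit 228) (nat_lit 19702949137) (nat_lit 76) (nat_lit 1083008763) (nat_lit 25) (nat_lit 5) (nat_lit 28) (nat_lit 5) (nat_lit 26) (nat_lit 4) (nat_lit 365) (nat_lit 259) (nat_lit 156))) (XT.nd (nat_lit 78) (nat_lit 76) (nat_lit 0) (XT.lf (nat_lit 0) (nat_lit 16224464077) (nat_lit 228) (nat_lit 9050274450) (nat_lit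 76) (nat_lit 7221168645) (nat_lit 25) (nat_lit 5) (nat_lit 28) (nat_lit 5) (nat_lit 26) (nat_lit 4) (nat_lit 366) (nat_lit 259) (nat_lit 155)) (XT.lf (nat_lit 0) (nat_lit 1931607596) (nat_lit 76) (nat_lit 19731850201) (nat_lit 152) (nat_lit 11618444387) (nat_lit 24) (nat_lit 5) (nat_lit 25) (nat_lit 5) (nat_lit 26) (nat_lit 4) (nat_lit 367) (nat_lit 259) (nat_lit 154))))) (XT.nd (nat_lit 234) (nat_lit 76) (nat_lit 0) (XT.nd (nat_lit 78) (nat_lit 228) (nat_lit 0) (XT.lf (nat_lit 0) (nat_lit 13400677507) (nat_lit 76) (nat_lit 13940917559) (nat_lit 152) (nat_lit 6747607267) (nat_lit 24) (nat_lit 5) (nat_lit 25) (nat_lit 5) (nat_lit 26) (nat_lit 4) (nat_lit 368) (nat_lit 259) (nat_lit 153)) (XT.nd (nat_lit 78) (nat_lit 228) (nat_lit 0) (XT.lf (nat_lit 0) (nat_lit 25186838592) (nat_lit 76) (nat_lit 7988270589) (nat_lit 152) (nat_lit 1746065691) (nat_lit 24) (nat_lit 5) (nat_lit 25) (nat_lit 5) (nat_lit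 26) (nat_lit 4) (nat_lit 369) (nat_lit 259) (nat_lit 152)) (XT.lf (nat_lit 0) (nat_lit 1518889631) (nat_lit 152) (nat_lit 1820099628) (nat_lit 228) (nat_lit 32438141731) (nat_lit 21) (nat_lit 5) (nat_lit 23) (nat_lit 5) (nat_lit 24) (nat_lit 5) (nat_lit 370) (nat_lit 259) (nat_lit 151)))) (XT.nd (nat_lit 156) (nat_lit 76) (nat_lit 0) (XT.nd (nat_lit 78) (nat_lit 0) (nat_lit 0) (XT.lf (nat_lit 0) (nat_lit 8669731015) (nat_lit 228) (nat_lit 23434954301) (nat_lit 76) (nat_lit 4549718960) (nat_lit 21) (nat_lit 5) (nat_lit 24) (nat_lit 5) (nat_lit 22) (nat_lit 4) (nat_lit 371) (nat_lit 259) (nat_lit 150)) (XT.lf (nat_lit 0) (nat_lit 14164224842) (nat_lit 228) (nat_lit 12330773884) (nat_lit 76) (nat_lit 11062886019) (nat_lit 21) (nat_lit 5) (nat_lit 24) (nat_lit 5) (nat_lit 22) (nat_lit 4) (nat_lit 372) (nat_lit 259) (nat_lit 149))) (XT.nd (nat_lit 78) (nat_lit 76) (nat_lit 0) (XT.lf (nat_lit 0) (nat_lit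 19809775845) (nat_lit 228) (nat_lit 918501515) (nat_lit 76) (nat_lit 17760609364) (nat_lit 21) (nat_lit 5) (nat_lit 24) (nat_lit 5) (nat_lit 22) (nat_lit 4) (nat_lit 373) (nat_lit 259) (nat_lit 148)) (XT.lf (nat_lit 0) (nat_lit 11027011403) (nat_lit 76) (nat_lit 14690304005) (nat_lit 152) (nat_lit 13727728351) (nat_lit 20) (nat_lit 5) (nat_lit 21) (nat_lit 5) (nat_lit 22) (nat_lit 4) (nat_lit 374) (nat_lit 259) (nat_lit 147))))))) (XT.nd (nat_lit 1092) (nat_lit 304) (nat_lit 0) (XT.nd (nat_lit 546) (nat_lit 152) (nat_lit 0) (XT.nd (nat_lit 234) (nat_lit 76) (nat_lit 0) (XT.nd (nat_lit 78) (nat_lit 152) (nat_lit 0) (XT.lf (nat_lit 0) (nat_lit 23325652037) (nat_lit 76) (nat_lit 8472486103) (nat_lit 152) (nat_lit 8631869208) (nat_lit 20) (nat_lit 5) (nat_lit 21) (nat_lit 5) (nat_lit 22) (nat_lit 4) (nat_lit 375) (nat_lit 259) (nat_lit 146)) (XT.nd (nat_lit 78) (nat_lit 152) (nat_lit 0) (XT.lf (nat_lit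 0) (nat_lit 35969886791) (nat_lit 76) (nat_lit 2078665671) (nat_lit 152) (nat_lit 3396355821) (nat_lit 20) (nat_lit 5) (nat_lit 21) (nat_lit 5) (nat_lit 22) (nat_lit 4) (nat_lit 376) (nat_lit 259) (nat_lit 145)) (XT.lf (nat_lit 0) (nat_lit 2052068677) (nat_lit 152) (nat_lit 35942549496) (nat_lit 76) (nat_lit 4492221680) (nat_lit 18) (nat_lit 5) (nat_lit 20) (nat_lit 5) (nat_lit 19) (nat_lit 4) (nat_lit 377) (nat_lit 259) (nat_lit 144)))) (XT.nd (nat_lit 156) (nat_lit 76) (nat_lit 0) (XT.nd (nat_lit 78) (nat_lit 0) (nat_lit 0) (XT.lf (nat_lit 0) (nat_lit 7659561265) (nat_lit 152) (nat_lit 24599703075) (nat_lit 76) (nat_lit 11297843004) (nat_lit 18) (nat_lit 5) (nat_lit 20) (nat_lit 5) (nat_lit 19) (nat_lit 4) (nat_lit 378) (nat_lit 259) (nat_lit 143)) (XT.lf (nat_lit 0) (nat_lit 13423107286) (nat_lit 152) (nat_lit 12938892545) (nat_lit 76) (nat_lit 18297851231) (nat_lit 18) (nat_lit 5) (nat_lit 20)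 (nat_lit 5) (nat_lit 19) (nat_lit 4) (nat_lit 379) (nat_lit 259) (nat_lit 142))) (XT.nd (nat_lit 78) (nat_lit 76) (nat_lit 0) (XT.lf (nat_lit 0) (nat_lit 19347742851) (nat_lit 152) (nat_lit 949928849) (nat_lit 76) (nat_lit 25498362872) (nat_lit 18) (nat_lit 5) (nat_lit 20) (nat_lit 5) (nat_lit 19) (nat_lit 4) (nat_lit 380) (nat_lit 259) (nat_lit 141)) (XT.lf (nat_lit 0) (nat_lit 11604101625) (nat_lit 76) (nat_lit 13946088922) (nat_lit 152) (nat_lit 21413113735) (nat_lit 17) (nat_lit 5) (nat_lit 18) (nat_lit 5) (nat_lit 19) (nat_lit 4) (nat_lit 381) (nat_lit 259) (nat_lit 140))))) (XT.nd (nat_lit 234) (nat_lit 76) (nat_lit 0) (XT.nd (nat_lit 78) (nat_lit 76) (nat_lit 0) (XT.lf (nat_lit 0) (nat_lit 24533391947) (nat_lit 76) (nat_lit 7403573377) (nat_lit 152) (nat_lit 16228681952) (nat_lit 17) (nat_lit 5) (nat_lit 18) (nat_lit 5) (nat_lit 19) (nat_lit 4) (nat_lit 382) (nat_lit 259) (nat_lit 139)) (XT.nd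 (nat_lit 78) (nat_lit 76) (nat_lit 0) (XT.lf (nat_lit 0) (nat_lit 37830334108) (nat_lit 76) (nat_lit 674000722) (nat_lit 152) (nat_lit 10900058707) (nat_lit 17) (nat_lit 5) (nat_lit 18) (nat_lit 5) (nat_lit 19) (nat_lit 4) (nat_lit 383) (nat_lit 259) (nat_lit 138)) (XT.lf (nat_lit 0) (nat_lit 781098888) (nat_lit 76) (nat_lit 44544511550) (nat_lit 76) (nat_lit 5352987840) (nat_lit 16) (nat_lit 4) (nat_lit 17) (nat_lit 5) (nat_lit 17) (nat_lit 4) (nat_lit 384) (nat_lit 259) (nat_lit 137)))) (XT.nd (nat_lit 156) (nat_lit 0) (nat_lit 0) (XT.nd (nat_lit 78) (nat_lit 0) (nat_lit 0) (XT.lf (nat_lit 0) (nat_lit 467409117) (nat_lit 152) (nat_lit 38274546544) (nat_lit 76) (nat_lit 13245553576) (nat_lit 15) (nat_lit 5) (nat_lit 17) (nat_lit 5) (nat_lit 16) (nat_lit 4) (nat_lit 385) (nat_lit 259) (nat_lit 136)) (XT.lf (nat_lit 0) (nat_lit 6344384310) (nat_lit 152) (nat_lit 26375222189) (nat_lit 76) (nat_lit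 20614806765) (nat_lit 15) (nat_lit 5) (nat_lit 17) (nat_lit 5) (nat_lit 16) (nat_lit 4) (nat_lit 386) (nat_lit 259) (nat_lit 135))) (XT.nd (nat_lit 78) (nat_lit 0) (nat_lit 0) (XT.lf (nat_lit 0) (nat_lit 12387529031) (nat_lit 152) (nat_lit 14137672664) (nat_lit 76) (nat_lit 28196829257) (nat_lit 15) (nat_lit 5) (nat_lit 17) (nat_lit 5) (nat_lit 16) (nat_lit 4) (nat_lit 387) (nat_lit 259) (nat_lit 134)) (XT.lf (nat_lit 0) (nat_lit 18602123697) (nat_lit 152) (nat_lit 1551204965) (nat_lit 76) (nat_lit 35998246118) (nat_lit 15) (nat_lit 5) (nat_lit 17) (nat_lit 5) (nat_lit 16) (nat_lit 4) (nat_lit 388) (nat_lit 259) (nat_lit 133)))))) (XT.nd (nat_lit 546) (nat_lit 76) (nat_lit 0) (XT.nd (nat_lit 234) (nat_lit 152) (nat_lit 0) (XT.nd (nat_lit 78) (nat_lit 0) (nat_lit 0) (XT.lf (nat_lit 0) (nat_lit 11621965194) (nat_lit 76) (nat_lit 13483350783) (nat_lit 152) (nat_lit 32515626367) (nat_lit 14) (nat_lit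 5) (nat_lit 15) (nat_lit 5) (nat_lit 16) (nat_lit 4) (nat_lit 389) (nat_lit 259) (nat_lit 132)) (XT.nd (nat_lit 78) (nat_lit 0) (nat_lit 0) (XT.lf (nat_lit 0) (nat_lit 25204623980) (nat_lit 76) (nat_lit 6605196621) (nat_lit 152) (nat_lit 27324385984) (nat_lit 14) (nat_lit 5) (nat_lit 15) (nat_lit 5) (nat_lit 16) (nat_lit 4) (nat_lit 390) (nat_lit 259) (nat_lit 131)) (XT.lf (nat_lit 0) (nat_lit 38710820135) (nat_lit 152) (nat_lit 21519910446) (nat_lit 0) (nat_lit 462279464) (nat_lit 14) (nat_lit 5) (nat_lit 16) (nat_lit 4) (nat_lit 14) (nat_lit 4) (nat_lit 391) (nat_lit 259) (nat_lit 130)))) (XT.nd (nat_lit 156) (nat_lit 76) (nat_lit 0) (XT.nd (nat_lit 78) (nat_lit 76) (nat_lit 0) (XT.lf (nat_lit 0) (nat_lit 45875269413) (nat_lit 152) (nat_lit 8820042107) (nat_lit 0) (nat_lit 7601575524) (nat_lit 14) (nat_lit 5) (nat_lit 16) (nat_lit 4) (nat_lit 14) (nat_lit 4) (nat_lit 392) (nat_lit 259) (nat_lit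 129)) (XT.lf (nat_lit 0) (nat_lit 4329088689) (nat_lit 76) (nat_lit 48958460602) (nat_lit 76) (nat_lit 10660346112) (nat_lit 13) (nat_lit 4) (nat_lit 14) (nat_lit 5) (nat_lit 14) (nat_lit 4) (nat_lit 393) (nat_lit 259) (nat_lit 128))) (XT.nd (nat_lit 78) (nat_lit 76) (nat_lit 0) (XT.lf (nat_lit 0) (nat_lit 18037444837) (nat_lit 76) (nat_lit 42965200727) (nat_lit 76) (nat_lit 4643376917) (nat_lit 13) (nat_lit 4) (nat_lit 14) (nat_lit 5) (nat_lit 14) (nat_lit 4) (nat_lit 394) (nat_lit 259) (nat_lit 127)) (XT.lf (nat_lit 0) (nat_lit 1515324441) (nat_lit 152) (nat_lit 35268733952) (nat_lit 76) (nat_lit 30610842134) (nat_lit 12) (nat_lit 5) (nat_lit 14) (nat_lit 5) (nat_lit 13) (nat_lit 4) (nat_lit 395) (nat_lit 259) (nat_lit 126))))) (XT.nd (nat_lit 312) (nat_lit 0) (nat_lit 0) (XT.nd (nat_lit 156) (nat_lit 76) (nat_lit 0) (XT.nd (nat_lit 78) (nat_lit 0) (nat_lit 0) (XT.lf (nat_lit 0) (nat_lit 7757254904)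 (nat_lit 152) (nat_lit 22619963419) (nat_lit 76) (nat_lit 38817895256) (nat_lit 12) (nat_lit 5) (nat_lit 14) (nat_lit 5) (nat_lit 13) (nat_lit 4) (nat_lit 396) (nat_lit 259) (nat_lit 125)) (XT.lf (nat_lit 0) (nat_lit 14178477595) (nat_lit 152) (nat_lit 9606578744) (nat_lit 76) (nat_lit 47264517351) (nat_lit 12) (nat_lit 5) (nat_lit 14) (nat_lit 5) (nat_lit 13) (nat_lit 4) (nat_lit 397) (nat_lit 259) (nat_lit 124))) (XT.nd (nat_lit 78) (nat_lit 0) (nat_lit 0) (XT.lf (nat_lit 0) (nat_lit 3858075950) (nat_lit 76) (nat_lit 16963613526) (nat_lit 152) (nat_lit 52137099199) (nat_lit 11) (nat_lit 5) (nat_lit 12) (nat_lit 5) (nat_lit 13) (nat_lit 4) (nat_lit 398) (nat_lit 259) (nat_lit 123)) (XT.lf (nat_lit 0) (nat_lit 17909320591) (nat_lit 76) (nat_lit 9844239087) (nat_lit 152) (nat_lit 47169041171) (nat_lit 11) (nat_lit 5) (nat_lit 12) (nat_lit 5) (nat_lit 13) (nat_lit 4) (nat_lit 399) (nat_lit 259) (nat_lit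 122)))) (XT.nd (nat_lit 156) (nat_lit 0) (nat_lit 0) (XT.nd (nat_lit 78) (nat_lit 0) (nat_lit 0) (XT.lf (nat_lit 0) (nat_lit 32368243211) (nat_lit 76) (nat_lit 2517719818) (nat_lit 152) (nat_lit 42059588600) (nat_lit 11) (nat_lit 5) (nat_lit 12) (nat_lit 5) (nat_lit 13) (nat_lit 4) (nat_lit 400) (nat_lit 259) (nat_lit 121)) (XT.lf (nat_lit 0) (nat_lit 42273409591) (nat_lit 152) (nat_lit 31830208685) (nat_lit 0) (nat_lit 4924342031) (nat_lit 11) (nat_lit 5) (nat_lit 13) (nat_lit 4) (nat_lit 11) (nat_lit 4) (nat_lit 401) (nat_lit 259) (nat_lit 120))) (XT.nd (nat_lit 78) (nat_lit 0) (nat_lit 0) (XT.lf (nat_lit 0) (nat_lit 49900352300) (nat_lit 152) (nat_lit 18738840704) (nat_lit 0) (nat_lit 12533113520) (nat_lit 11) (nat_lit 5) (nat_lit 13) (nat_lit 4) (nat_lit 11) (nat_lit 4) (nat_lit 402) (nat_lit 259) (nat_lit 119)) (XT.lf (nat_lit 0) (nat_lit 57749253614) (nat_lit 152) (nat_lit 5267563553) (nat_lit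 0) (nat_lit 20364372872) (nat_lit 11) (nat_lit 5) (nat_lit 13) (nat_lit 4) (nat_lit 11) (nat_lit 4) (nat_lit 403) (nat_lit 259) (nat_lit 118))))))))
noncomputable def xc102 : XT := (XT.nd (nat_lit 30888) (nat_lit 0) (nat_lit 8588) (XT.nd (nat_lit 29796) (nat_lit 0) (nat_lit 20596) (XT.nd (nat_lit 546) (nat_lit 0) (nat_lit 0) (XT.nd (nat_lit 234) (nat_lit 152) (nat_lit 0) (XT.nd (nat_lit 78) (nat_lit 0) (nat_lit 0) (XT.lf (nat_lit 0) (nat_lit 8766458976) (nat_lit 76) (nat_lit 57144781385) (nat_lit 76) (nat_lit 19742772526) (nat_lit 10) (nat_lit 4) (nat_lit 11) (nat_lit 5) (nat_lit 11) (nat_lit 4) (nat_lit 404) (nat_lit 259) (nat_lit 117)) (XT.nd (nat_lit 78) (nat_lit 0) (nat_lit 0) (XT.lf (nat_lit 0) (nat_lit 23317146084) (nat_lit 76) (nat_lit 51047557632) (nat_lit 76) (nat_lit 13628919532) (nat_lit 10) (nat_lit 4) (nat_lit 11) (nat_lit 5) (nat_lit 11) (nat_lit 4) (nat_lit 405) (nat_lit 259) (nat_lit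 116)) (XT.lf (nat_lit 0) (nat_lit 38292377118) (nat_lit 76) (nat_lit 44773010301) (nat_lit 76) (nat_lit 7338227308) (nat_lit 10) (nat_lit 4) (nat_lit 11) (nat_lit 5) (nat_lit 11) (nat_lit 4) (nat_lit 406) (nat_lit 259) (nat_lit 115)))) (XT.nd (nat_lit 156) (nat_lit 76) (nat_lit 0) (XT.nd (nat_lit 78) (nat_lit 76) (nat_lit 0) (XT.lf (nat_lit 0) (nat_lit 53705237233) (nat_lit 76) (nat_lit 38315656778) (nat_lit 76) (nat_lit 865199130) (nat_lit 10) (nat_lit 4) (nat_lit 11) (nat_lit 5) (nat_lit 11) (nat_lit 4) (nat_lit 407) (nat_lit 259) (nat_lit 114)) (XT.lf (nat_lit 0) (nat_lit 5682723699) (nat_lit 152) (nat_lit 25929746648) (nat_lit 76) (nat_lit 63829085909) (nat_lit 9) (nat_lit 5) (nat_lit 11) (nat_lit 5) (nat_lit 10) (nat_lit 4) (nat_lit 408) (nat_lit 259) (nat_lit 113))) (XT.nd (nat_lit 78) (nat_lit 76) (nat_lit 0) (XT.lf (nat_lit 0) (nat_lit 12403793707) (nat_lit 152) (nat_lit 12300749397) (nat_lit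 76) (nat_lit 73369061352) (nat_lit 9) (nat_lit 5) (nat_lit 11) (nat_lit 5) (nat_lit 10) (nat_lit 4) (nat_lit 409) (nat_lit 259) (nat_lit 112)) (XT.lf (nat_lit 0) (nat_lit 1760719480) (nat_lit 76) (nat_lit 17576972456) (nat_lit 152) (nat_lit 81446587403) (nat_lit 8) (nat_lit 5) (nat_lit 9) (nat_lit 5) (nat_lit 10) (nat_lit 4) (nat_lit 410) (nat_lit 259) (nat_lit 111))))) (XT.nd (nat_lit 28938) (nat_lit 0) (nat_lit 24396) (XT.nd (nat_lit 78) (nat_lit 0) (nat_lit 0) (XT.lf (nat_lit 0) (nat_lit 16485534911) (nat_lit 76) (nat_lit 10112621142) (nat_lit 152) (nat_lit 76974563035) (nat_lit 8) (nat_lit 5) (nat_lit 9) (nat_lit 5) (nat_lit 10) (nat_lit 4) (nat_lit 411) (nat_lit 259) (nat_lit 110)) (XT.nd (nat_lit 28782) (nat_lit 0) (nat_lit 24624) (XT.lf (nat_lit 0) (nat_lit 31641754207) (nat_lit 76) (nat_lit 2429180364) (nat_lit 152) (nat_lit 72374043503) (nat_lit 8) (nat_lit 5) (nat_lit 9) (nat_lit 5) (nat_lit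 10) (nat_lit 4) (nat_lit 412) (nat_lit 259) (nat_lit 109)) (XT.lf (nat_lit 0) (nat_lit 1073741823) (nat_lit 0) (nat_lit 0) (nat_lit 0) (nat_lit 0) (nat_lit 332) (nat_lit 0) (nat_lit 1) (nat_lit 0) (nat_lit 1) (nat_lit 0) (nat_lit 260) (nat_lit 260) (nat_lit 260)))) (XT.nd (nat_lit 156) (nat_lit 152) (nat_lit 0) (XT.nd (nat_lit 78) (nat_lit 0) (nat_lit 0) (XT.lf (nat_lit 0) (nat_lit 2992464895) (nat_lit 76) (nat_lit 3392013192) (nat_lit 0) (nat_lit 58960533) (nat_lit 331) (nat_lit 5) (nat_lit 332) (nat_lit 0) (nat_lit 331) (nat_lit 4) (nat_lit 261) (nat_lit 260) (nat_lit 259)) (XT.lf (nat_lit 0) (nat_lit 5958499967) (nat_lit 76) (nat_lit 312738246) (nat_lit 0) (nat_lit 176933118) (nat_lit 331) (nat_lit 5) (nat_lit 332) (nat_lit 0) (nat_lit 331) (nat_lit 4) (nat_lit 262) (nat_lit 260) (nat_lit 258))) (XT.nd (nat_lit 78) (nat_lit 0) (nat_lit 0) (XT.lf (nat_lit 0) (nat_lit 2424055200) (nat_lit 152)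 (nat_lit 3625844003) (nat_lit 76) (nat_lit 405218091) (nat_lit 329) (nat_lit 5) (nat_lit 331) (nat_lit 5) (nat_lit 330) (nat_lit 4) (nat_lit 263) (nat_lit 260) (nat_lit 257)) (XT.lf (nat_lit 0) (nat_lit 5307126436) (nat_lit 152) (nat_lit 457781443) (nat_lit 76) (nat_lit 700674898) (nat_lit 329) (nat_lit 5) (nat_lit 331) (nat_lit 5) (nat_lit 330) (nat_lit 4) (nat_lit 264) (nat_lit 260) (nat_lit 256)))))) (XT.nd (nat_lit 546) (nat_lit 2508) (nat_lit 0) (XT.nd (nat_lit 234) (nat_lit 760) (nat_lit 0) (XT.nd (nat_lit 78) (nat_lit 304) (nat_lit 0) (XT.lf (nat_lit 0) (nat_lit 1682929479) (nat_lit 228) (nat_lit 3696415254) (nat_lit 76) (nat_lit 1099164123) (nat_lit 326) (nat_lit 5) (nat_lit 329) (nat_lit 5) (nat_lit 327) (nat_lit 5) (nat_lit 265) (nat_lit 260) (nat_lit 255)) (XT.nd (nat_lit 78) (nat_lit 304) (nat_lit 0) (XT.lf (nat_lit 0) (nat_lit 4484103938) (nat_lit 228) (nat_lit 437227772) (nat_lit 76)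 (nat_lit 1573404010) (nat_lit 326) (nat_lit 5) (nat_lit 329) (nat_lit 5) (nat_lit 327) (nat_lit 5) (nat_lit 266) (nat_lit 260) (nat_lit 254)) (XT.lf (nat_lit 0) (nat_lit 764495374) (nat_lit 304) (nat_lit 3605521555) (nat_lit 76) (nat_lit 2143664940) (nat_lit 322) (nat_lit 5) (nat_lit 326) (nat_lit 5) (nat_lit 323) (nat_lit 5) (nat_lit 267) (nat_lit 260) (nat_lit 253)))) (XT.nd (nat_lit 156) (nat_lit 456) (nat_lit 0) (XT.nd (nat_lit 78) (nat_lit 304) (nat_lit 0) (XT.lf (nat_lit 0) (nat_lit 3484460277) (nat_lit 304) (nat_lit 252515882) (nat_lit 76) (nat_lit 2798738890) (nat_lit 322) (nat_lit 5) (nat_lit 326) (nat_lit 5) (nat_lit 323) (nat_lit 5) (nat_lit 268) (nat_lit 260) (nat_lit 252)) (XT.lf (nat_lit 0) (nat_lit 3203025476) (nat_lit 304) (nat_lit 3014309239) (nat_lit 380) (nat_lit 343305806) (nat_lit 318) (nat_lit 5) (nat_lit 322) (nat_lit 5) (nat_lit 323) (nat_lit 5) (nat_lit 269) (nat_lit 260)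 (nat_lit 251))) (XT.nd (nat_lit 78) (nat_lit 0) (nat_lit 0) (XT.lf (nat_lit 0) (nat_lit 97457149) (nat_lit 380) (nat_lit 2205926314) (nat_lit 456) (nat_lit 4285228880) (nat_lit 312) (nat_lit 5) (nat_lit 317) (nat_lit 5) (nat_lit 318) (nat_lit 5) (nat_lit 270) (nat_lit 260) (nat_lit 250)) (XT.lf (nat_lit 0) (nat_lit 3660071061) (nat_lit 380) (nat_lit 1300363748) (nat_lit 456) (nat_lit 1658906829) (nat_lit 312) (nat_lit 5) (nat_lit 317) (nat_lit 5) (nat_lit 318) (nat_lit 5) (nat_lit 271) (nat_lit 260) (nat_lit 249))))) (XT.nd (nat_lit 234) (nat_lit 1444) (nat_lit 0) (XT.nd (nat_lit 78) (nat_lit 532) (nat_lit 0) (XT.lf (nat_lit 0) (nat_lit 618885750) (nat_lit 456) (nat_lit 318567397) (nat_lit 532) (nat_lit 5716035229) (nat_lit 305) (nat_lit 5) (nat_lit 311) (nat_lit 5) (nat_lit 312) (nat_lit 5) (nat_lit 272) (nat_lit 260) (nat_lit 248)) (XT.nd (nat_lit 78) (nat_lit 532) (nat_lit 0) (XT.lf (nat_lit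 0) (nat_lit 3523370216) (nat_lit 532) (nat_lit 2410398049) (nat_lit 76) (nat_lit 756191134) (nat_lit 305) (nat_lit 5) (nat_lit 312) (nat_lit 5) (nat_lit 306) (nat_lit 5) (nat_lit 273) (nat_lit 260) (nat_lit 247)) (XT.lf (nat_lit 0) (nat_lit 1281962444) (nat_lit 532) (nat_lit 4831225595) (nat_lit 608) (nat_lit 616685540) (nat_lit 298) (nat_lit 5) (nat_lit 305) (nat_lit 5) (nat_lit 306) (nat_lit 5) (nat_lit 274) (nat_lit 260) (nat_lit 246)))) (XT.nd (nat_lit 156) (nat_lit 760) (nat_lit 0) (XT.nd (nat_lit 78) (nat_lit 608) (nat_lit 0) (XT.lf (nat_lit 0) (nat_lit 1906933345) (nat_lit 608) (nat_lit 1719014795) (nat_lit 76) (nat_lit 3146495199) (nat_lit 297) (nat_lit 5) (nat_lit 305) (nat_lit 5) (nat_lit 298) (nat_lit 5) (nat_lit 275) (nat_lit 260) (nat_lit 245)) (XT.lf (nat_lit 0) (nat_lit 2094667865) (nat_lit 608) (nat_lit 2333754389) (nat_lit 684) (nat_lit 2389775030) (nat_lit 289) (nat_lit 5) (nat_lit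 297) (nat_lit 5) (nat_lit 298) (nat_lit 5) (nat_lit 276) (nat_lit 260) (nat_lit 244))) (XT.nd (nat_lit 78) (nat_lit 684) (nat_lit 0) (XT.lf (nat_lit 0) (nat_lit 90011397) (nat_lit 684) (nat_lit 871562857) (nat_lit 76) (nat_lit 5905835868) (nat_lit 288) (nat_lit 5) (nat_lit 297) (nat_lit 5) (nat_lit 289) (nat_lit 5) (nat_lit 277) (nat_lit 260) (nat_lit 243)) (XT.lf (nat_lit 0) (nat_lit 2548590794) (nat_lit 760) (nat_lit 3853137776) (nat_lit 76) (nat_lit 517204175) (nat_lit 279) (nat_lit 5) (nat_lit 289) (nat_lit 5) (nat_lit 280) (nat_lit 5) (nat_lit 278) (nat_lit 260) (nat_lit 242))))))) (XT.nd (nat_lit 1092) (nat_lit 4636) (nat_lit 0) (XT.nd (nat_lit 546) (nat_lit 3724) (nat_lit 0) (XT.nd (nat_lit 234) (nat_lit 1976) (nat_lit 0) (XT.nd (nat_lit 78) (nat_lit 912) (nat_lit 0) (XT.lf (nat_lit 0) (nat_lit 96351817) (nat_lit 760) (nat_lit 4923751178) (nat_lit 836) (nat_lit 1953835585) (nat_lit 269) (nat_lit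 5) (nat_lit 279) (nat_lit 5) (nat_lit 280) (nat_lit 5) (nat_lit 279) (nat_lit 260) (nat_lit 241)) (XT.nd (nat_lit 78) (nat_lit 836) (nat_lit 0) (XT.lf (nat_lit 0) (nat_lit 484705933) (nat_lit 836) (nat_lit 2856032585) (nat_lit 76) (nat_lit 3691008573) (nat_lit 268) (nat_lit 5) (nat_lit 279) (nat_lit 5) (nat_lit 269) (nat_lit 5) (nat_lit 280) (nat_lit 260) (nat_lit 240)) (XT.lf (nat_lit 0) (nat_lit 1228279496) (nat_lit 836) (nat_lit 1663659657) (nat_lit 912) (nat_lit 4200829413) (nat_lit 257) (nat_lit 5) (nat_lit 268) (nat_lit 5) (nat_lit 269) (nat_lit 5) (nat_lit 281) (nat_lit 260) (nat_lit 239)))) (XT.nd (nat_lit 156) (nat_lit 988) (nat_lit 0) (XT.nd (nat_lit 78) (nat_lit 988) (nat_lit 0) (XT.lf (nat_lit 0) (nat_lit 5325903594) (nat_lit 912) (nat_lit 1726376112) (nat_lit 76) (nat_lit 104805770) (nat_lit 257) (nat_lit 5) (nat_lit 269) (nat_lit 5) (nat_lit 258) (nat_lit 5) (nat_lit 282) (nat_lit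 260) (nat_lit 238)) (XT.lf (nat_lit 0) (nat_lit 564769331) (nat_lit 988) (nat_lit 4724148850) (nat_lit 76) (nat_lit 1935319127) (nat_lit 244) (nat_lit 5) (nat_lit 257) (nat_lit 5) (nat_lit 245) (nat_lit 5) (nat_lit 283) (nat_lit 260) (nat_lit 237))) (XT.nd (nat_lit 78) (nat_lit 988) (nat_lit 0) (XT.lf (nat_lit 0) (nat_lit 2941098075) (nat_lit 988) (nat_lit 485879470) (nat_lit 76) (nat_lit 3867614830) (nat_lit 244) (nat_lit 5) (nat_lit 257) (nat_lit 5) (nat_lit 245) (nat_lit 5) (nat_lit 284) (nat_lit 260) (nat_lit 236)) (XT.lf (nat_lit 0) (nat_lit 3893938650) (nat_lit 988) (nat_lit 1462013145) (nat_lit 1064) (nat_lit 2012178288) (nat_lit 231) (nat_lit 5) (nat_lit 244) (nat_lit 5) (nat_lit 245) (nat_lit 5) (nat_lit 285) (nat_lit 260) (nat_lit 235))))) (XT.nd (nat_lit 234) (nat_lit 1444) (nat_lit 0) (XT.nd (nat_lit 78) (nat_lit 1140) (nat_lit 0) (XT.lf (nat_lit 0) (nat_lit 341553249) (nat_lit 1140)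 (nat_lit 6528095248) (nat_lit 76) (nat_lit 575695105) (nat_lit 216) (nat_lit 5) (nat_lit 231) (nat_lit 5) (nat_lit 217) (nat_lit 5) (nat_lit 286) (nat_lit 260) (nat_lit 234)) (XT.nd (nat_lit 78) (nat_lit 1140) (nat_lit 0) (XT.lf (nat_lit 0) (nat_lit 2707346326) (nat_lit 1140) (nat_lit 2110936395) (nat_lit 76) (nat_lit 2706617841) (nat_lit 216) (nat_lit 5) (nat_lit 231) (nat_lit 5) (nat_lit 217) (nat_lit 5) (nat_lit 287) (nat_lit 260) (nat_lit 233)) (XT.lf (nat_lit 0) (nat_lit 2423881597) (nat_lit 1140) (nat_lit 2677499523) (nat_lit 1216) (nat_lit 2506824188) (nat_lit 201) (nat_lit 5) (nat_lit 216) (nat_lit 5) (nat_lit 217) (nat_lit 5) (nat_lit 288) (nat_lit 260) (nat_lit 232)))) (XT.nd (nat_lit 156) (nat_lit 608) (nat_lit 0) (XT.nd (nat_lit 78) (nat_lit 836) (nat_lit 0) (XT.lf (nat_lit 0) (nat_lit 7076471328) (nat_lit 1140) (nat_lit 447381691) (nat_lit 1216) (nat_lit 171534502) (nat_lit 201) (nat_lit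 5) (nat_lit 216) (nat_lit 5) (nat_lit 217) (nat_lit 5) (nat_lit 289) (nat_lit 260) (nat_lit 231)) (XT.lf (nat_lit 0) (nat_lit 2184341826) (nat_lit 836) (nat_lit 3723228513) (nat_lit 76) (nat_lit 1877219547) (nat_lit 190) (nat_lit 5) (nat_lit 201) (nat_lit 5) (nat_lit 191) (nat_lit 5) (nat_lit 290) (nat_lit 260) (nat_lit 230))) (XT.nd (nat_lit 78) (nat_lit 0) (nat_lit 0) (XT.lf (nat_lit 0) (nat_lit 968722875) (nat_lit 608) (nat_lit 3596551468) (nat_lit 684) (nat_lit 3312884491) (nat_lit 182) (nat_lit 5) (nat_lit 190) (nat_lit 5) (nat_lit 191) (nat_lit 5) (nat_lit 291) (nat_lit 260) (nat_lit 229)) (XT.lf (nat_lit 0) (nat_lit 5815923288) (nat_lit 608) (nat_lit 1178301259) (nat_lit 684) (nat_lit 980874855) (nat_lit 182) (nat_lit 5) (nat_lit 190) (nat_lit 5) (nat_lit 191) (nat_lit 5) (nat_lit 292) (nat_lit 260) (nat_lit 228)))))) (XT.nd (nat_lit 546) (nat_lit 2356) (nat_lit 0) (XT.nd (nat_lit 234) (nat_lit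 1140) (nat_lit 0) (XT.nd (nat_lit 78) (nat_lit 532) (nat_lit 0) (XT.lf (nat_lit 0) (nat_lit 1372543775) (nat_lit 608) (nat_lit 5377057444) (nat_lit 76) (nat_lit 1325626100) (nat_lit 174) (nat_lit 5) (nat_lit 182) (nat_lit 5) (nat_lit 175) (nat_lit 5) (nat_lit 293) (nat_lit 260) (nat_lit 227)) (XT.nd (nat_lit 78) (nat_lit 532) (nat_lit 0) (XT.lf (nat_lit 0) (nat_lit 3751795836) (nat_lit 608) (nat_lit 516293149) (nat_lit 76) (nat_lit 3910792827) (nat_lit 174) (nat_lit 5) (nat_lit 182) (nat_lit 5) (nat_lit 175) (nat_lit 5) (nat_lit 294) (nat_lit 260) (nat_lit 226)) (XT.lf (nat_lit 0) (nat_lit 4517780831) (nat_lit 532) (nat_lit 1671042992) (nat_lit 608) (nat_lit 2097290798) (nat_lit 167) (nat_lit 5) (nat_lit 174) (nat_lit 5) (nat_lit 175) (nat_lit 5) (nat_lit 295) (nat_lit 260) (nat_lit 225)))) (XT.nd (nat_lit 156) (nat_lit 532) (nat_lit 0) (XT.nd (nat_lit 78) (nat_lit 0) (nat_lit 0) (XT.lf (nat_lit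 0) (nat_lit 267295390) (nat_lit 608) (nat_lit 7129743633) (nat_lit 76) (nat_lit 1000371399) (nat_lit 159) (nat_lit 5) (nat_lit 167) (nat_lit 5) (nat_lit 160) (nat_lit 5) (nat_lit 296) (nat_lit 260) (nat_lit 224)) (XT.lf (nat_lit 0) (nat_lit 2660097389) (nat_lit 608) (nat_lit 2078925377) (nat_lit 76) (nat_lit 3772471911) (nat_lit 159) (nat_lit 5) (nat_lit 167) (nat_lit 5) (nat_lit 160) (nat_lit 5) (nat_lit 297) (nat_lit 260) (nat_lit 223))) (XT.nd (nat_lit 78) (nat_lit 0) (nat_lit 0) (XT.lf (nat_lit 0) (nat_lit 3123861227) (nat_lit 532) (nat_lit 1976925607) (nat_lit 608) (nat_lit 3528985394) (nat_lit 152) (nat_lit 5) (nat_lit 159) (nat_lit 5) (nat_lit 160) (nat_lit 5) (nat_lit 298) (nat_lit 260) (nat_lit 222)) (XT.lf (nat_lit 0) (nat_lit 7591244329) (nat_lit 608) (nat_lit 295666615) (nat_lit 76) (nat_lit 865443045) (nat_lit 152) (nat_lit 5) (nat_lit 160) (nat_lit 5) (nat_lit 153) (nat_lit 5) (nat_lit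 299) (nat_lit 260) (nat_lit 221))))) (XT.nd (nat_lit 312) (nat_lit 988) (nat_lit 0) (XT.nd (nat_lit 156) (nat_lit 380) (nat_lit 0) (XT.nd (nat_lit 78) (nat_lit 456) (nat_lit 0) (XT.lf (nat_lit 0) (nat_lit 1270043760) (nat_lit 532) (nat_lit 3799651949) (nat_lit 76) (nat_lit 3808083024) (nat_lit 145) (nat_lit 5) (nat_lit 152) (nat_lit 5) (nat_lit 146) (nat_lit 5) (nat_lit 300) (nat_lit 260) (nat_lit 220)) (XT.lf (nat_lit 0) (nat_lit 1571272060) (nat_lit 456) (nat_lit 2146569614) (nat_lit 532) (nat_lit 5289816115) (nat_lit 139) (nat_lit 5) (nat_lit 145) (nat_lit 5) (nat_lit 146) (nat_lit 5) (nat_lit 301) (nat_lit 260) (nat_lit 219))) (XT.nd (nat_lit 78) (nat_lit 380) (nat_lit 0) (XT.lf (nat_lit 0) (nat_lit 6235881978) (nat_lit 532) (nat_lit 2028808935) (nat_lit 76) (nat_lit 876884520) (nat_lit 139) (nat_lit 5) (nat_lit 146) (nat_lit 5) (nat_lit 140) (nat_lit 5) (nat_lit 302) (nat_lit 260) (nat_lit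 218)) (XT.lf (nat_lit 0) (nat_lit 3529338190) (nat_lit 380) (nat_lit 5306519986) (nat_lit 456) (nat_lit 443505707) (nat_lit 134) (nat_lit 5) (nat_lit 139) (nat_lit 5) (nat_lit 140) (nat_lit 5) (nat_lit 303) (nat_lit 260) (nat_lit 217)))) (XT.nd (nat_lit 156) (nat_lit 456) (nat_lit 0) (XT.nd (nat_lit 78) (nat_lit 456) (nat_lit 0) (XT.lf (nat_lit 0) (nat_lit 2023958967) (nat_lit 456) (nat_lit 204870218) (nat_lit 76) (nat_lit 7192728549) (nat_lit 133) (nat_lit 5) (nat_lit 139) (nat_lit 5) (nat_lit 134) (nat_lit 5) (nat_lit 304) (nat_lit 260) (nat_lit 216)) (XT.lf (nat_lit 0) (nat_lit 4572388797) (nat_lit 532) (nat_lit 4024610832) (nat_lit 76) (nat_lit 970451670) (nat_lit 127) (nat_lit 5) (nat_lit 134) (nat_lit 5) (nat_lit 128) (nat_lit 5) (nat_lit 305) (nat_lit 260) (nat_lit 215))) (XT.nd (nat_lit 78) (nat_lit 76) (nat_lit 0) (XT.lf (nat_lit 0) (nat_lit 1701933713) (nat_lit 380) (nat_lit 5489531164)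 (nat_lit 456) (nat_lit 2526471078) (nat_lit 122) (nat_lit 5) (nat_lit 127) (nat_lit 5) (nat_lit 128) (nat_lit 5) (nat_lit 306) (nat_lit 260) (nat_lit 214)) (XT.lf (nat_lit 0) (nat_lit 10883309) (nat_lit 456) (nat_lit 2248588318) (nat_lit 76) (nat_lit 7613646016) (nat_lit 121) (nat_lit 5) (nat_lit 127) (nat_lit 5) (nat_lit 122) (nat_lit 5) (nat_lit 307) (nat_lit 260) (nat_lit 213))))))))
noncomputable def xc103 : XT := (XT.nd (nat_lit 2184) (nat_lit 2280) (nat_lit 0) (XT.nd (nat_lit 1092) (nat_lit 2052) (nat_lit 0) (XT.nd (nat_lit 546) (nat_lit 1292) (nat_lit 0) (XT.nd (nat_lit 234) (nat_lit 760) (nat_lit 0) (XT.nd (nat_lit 78) (nat_lit 380) (nat_lit 0) (XT.lf (nat_lit 0) (nat_lit 2575021417) (nat_lit 456) (nat_lit 6361957036) (nat_lit 76) (nat_lit 1095219295) (nat_lit 116) (nat_lit 5) (nat_lit 122) (nat_lit 5) (nat_lit 117) (nat_lit 5) (nat_lit 308) (nat_lit 260) (nat_lit 212)) (XT.nd (nat_lit 78)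 (nat_lit 380) (nat_lit 0) (XT.lf (nat_lit 0) (nat_lit 5217335671) (nat_lit 456) (nat_lit 463272181) (nat_lit 76) (nat_lit 4515440461) (nat_lit 116) (nat_lit 5) (nat_lit 122) (nat_lit 5) (nat_lit 117) (nat_lit 5) (nat_lit 309) (nat_lit 260) (nat_lit 211)) (XT.lf (nat_lit 0) (nat_lit 5666603663) (nat_lit 380) (nat_lit 2284019409) (nat_lit 456) (nat_lit 2413874787) (nat_lit 111) (nat_lit 5) (nat_lit 116) (nat_lit 5) (nat_lit 117) (nat_lit 5) (nat_lit 310) (nat_lit 260) (nat_lit 210)))) (XT.nd (nat_lit 156) (nat_lit 304) (nat_lit 0) (XT.nd (nat_lit 78) (nat_lit 0) (nat_lit 0) (XT.lf (nat_lit 0) (nat_lit 211077819) (nat_lit 456) (nat_lit 9129604576) (nat_lit 76) (nat_lit 1197656861) (nat_lit 105) (nat_lit 5) (nat_lit 111) (nat_lit 5) (nat_lit 106) (nat_lit 5) (nat_lit 311) (nat_lit 260) (nat_lit 209)) (XT.lf (nat_lit 0) (nat_lit 2894839761) (nat_lit 456) (nat_lit 3025355889) (nat_lit 76) (nat_lit 4795657577)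 (nat_lit 105) (nat_lit 5) (nat_lit 111) (nat_lit 5) (nat_lit 106) (nat_lit 5) (nat_lit 312) (nat_lit 260) (nat_lit 208))) (XT.nd (nat_lit 78) (nat_lit 0) (nat_lit 0) (XT.lf (nat_lit 0) (nat_lit 3270237943) (nat_lit 304) (nat_lit 2379587853) (nat_lit 380) (nat_lit 5249176208) (nat_lit 101) (nat_lit 5) (nat_lit 105) (nat_lit 5) (nat_lit 106) (nat_lit 5) (nat_lit 313) (nat_lit 260) (nat_lit 207)) (XT.lf (nat_lit 0) (nat_lit 8490284149) (nat_lit 380) (nat_lit 1338635448) (nat_lit 76) (nat_lit 1258670793) (nat_lit 101) (nat_lit 5) (nat_lit 106) (nat_lit 5) (nat_lit 102) (nat_lit 5) (nat_lit 314) (nat_lit 260) (nat_lit 206))))) (XT.nd (nat_lit 234) (nat_lit 608) (nat_lit 0) (XT.nd (nat_lit 78) (nat_lit 304) (nat_lit 0) (XT.lf (nat_lit 0) (nat_lit 165961239) (nat_lit 380) (nat_lit 6119588938) (nat_lit 76) (nat_lit 4995241930) (nat_lit 96) (nat_lit 5) (nat_lit 101) (nat_lit 5) (nat_lit 97) (nat_lit 5) (nat_lit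 315) (nat_lit 260) (nat_lit 205)) (XT.nd (nat_lit 78) (nat_lit 0) (nat_lit 0) (XT.lf (nat_lit 0) (nat_lit 329911536) (nat_lit 304) (nat_lit 2608004820) (nat_lit 380) (nat_lit 8541789552) (nat_lit 92) (nat_lit 5) (nat_lit 96) (nat_lit 5) (nat_lit 97) (nat_lit 5) (nat_lit 316) (nat_lit 260) (nat_lit 204)) (XT.lf (nat_lit 0) (nat_lit 5828405299) (nat_lit 380) (nat_lit 4651596112) (nat_lit 76) (nat_lit 1203550959) (nat_lit 92) (nat_lit 5) (nat_lit 97) (nat_lit 5) (nat_lit 93) (nat_lit 5) (nat_lit 317) (nat_lit 260) (nat_lit 203)))) (XT.nd (nat_lit 156) (nat_lit 304) (nat_lit 0) (XT.nd (nat_lit 78) (nat_lit 0) (nat_lit 0) (XT.lf (nat_lit 0) (nat_lit 2001132836) (nat_lit 304) (nat_lit 6812277586) (nat_lit 380) (nat_lit 3079895487) (nat_lit 88) (nat_lit 5) (nat_lit 92) (nat_lit 5) (nat_lit 93) (nat_lit 5) (nat_lit 318) (nat_lit 260) (nat_lit 202)) (XT.lf (nat_lit 0) (nat_lit 8895679985) (nat_lit 304) (nat_lit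 3002575834) (nat_lit 380) (nat_lit 210812513) (nat_lit 88) (nat_lit 5) (nat_lit 92) (nat_lit 5) (nat_lit 93) (nat_lit 5) (nat_lit 319) (nat_lit 260) (nat_lit 201))) (XT.nd (nat_lit 78) (nat_lit 0) (nat_lit 0) (XT.lf (nat_lit 0) (nat_lit 2699278154) (nat_lit 304) (nat_lit 8681410378) (nat_lit 76) (nat_lit 949592615) (nat_lit 84) (nat_lit 5) (nat_lit 88) (nat_lit 5) (nat_lit 85) (nat_lit 5) (nat_lit 320) (nat_lit 260) (nat_lit 200)) (XT.lf (nat_lit 0) (nat_lit 5719336337) (nat_lit 304) (nat_lit 1859150435) (nat_lit 76) (nat_lit 4978796760) (nat_lit 84) (nat_lit 5) (nat_lit 88) (nat_lit 5) (nat_lit 85) (nat_lit 5) (nat_lit 321) (nat_lit 260) (nat_lit 199)))))) (XT.nd (nat_lit 546) (nat_lit 912) (nat_lit 0) (XT.nd (nat_lit 234) (nat_lit 532) (nat_lit 0) (XT.nd (nat_lit 78) (nat_lit 304) (nat_lit 0) (XT.lf (nat_lit 0) (nat_lit 5218417600) (nat_lit 304) (nat_lit 3627181333) (nat_lit 380) (nat_lit 3945051171)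 (nat_lit 80) (nat_lit 5) (nat_lit 84) (nat_lit 5) (nat_lit 85) (nat_lit 5) (nat_lit 322) (nat_lit 260) (nat_lit 198)) (XT.nd (nat_lit 78) (nat_lit 304) (nat_lit 0) (XT.lf (nat_lit 0) (nat_lit 12054663587) (nat_lit 380) (nat_lit 540042759) (nat_lit 76) (nat_lit 436662448) (nat_lit 80) (nat_lit 5) (nat_lit 85) (nat_lit 5) (nat_lit 81) (nat_lit 5) (nat_lit 323) (nat_lit 260) (nat_lit 197)) (XT.lf (nat_lit 0) (nat_lit 2108320008) (nat_lit 304) (nat_lit 6549147079) (nat_lit 76) (nat_lit 4619215324) (nat_lit 76) (nat_lit 5) (nat_lit 80) (nat_lit 5) (nat_lit 77) (nat_lit 5) (nat_lit 324) (nat_lit 260) (nat_lit 196)))) (XT.nd (nat_lit 156) (nat_lit 304) (nat_lit 0) (XT.nd (nat_lit 78) (nat_lit 0) (nat_lit 0) (XT.lf (nat_lit 0) (nat_lit 647678053) (nat_lit 228) (nat_lit 4597262609) (nat_lit 304) (nat_lit 8284784118) (nat_lit 73) (nat_lit 5) (nat_lit 76) (nat_lit 5) (nat_lit 77) (nat_lit 5) (nat_lit 325)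 (nat_lit 260) (nat_lit 195)) (XT.lf (nat_lit 0) (nat_lit 8144896320) (nat_lit 228) (nat_lit 364323904) (nat_lit 304) (nat_lit 5280150533) (nat_lit 73) (nat_lit 5) (nat_lit 76) (nat_lit 5) (nat_lit 77) (nat_lit 5) (nat_lit 326) (nat_lit 260) (nat_lit 194))) (XT.nd (nat_lit 78) (nat_lit 76) (nat_lit 0) (XT.lf (nat_lit 0) (nat_lit 1756981666) (nat_lit 228) (nat_lit 10137958926) (nat_lit 304) (nat_lit 2161178737) (nat_lit 70) (nat_lit 5) (nat_lit 73) (nat_lit 5) (nat_lit 74) (nat_lit 5) (nat_lit 327) (nat_lit 260) (nat_lit 193)) (XT.lf (nat_lit 0) (nat_lit 1060361405) (nat_lit 304) (nat_lit 4896536763) (nat_lit 76) (nat_lit 8372801068) (nat_lit 69) (nat_lit 5) (nat_lit 73) (nat_lit 5) (nat_lit 70) (nat_lit 5) (nat_lit 328) (nat_lit 260) (nat_lit 192))))) (XT.nd (nat_lit 234) (nat_lit 456) (nat_lit 0) (XT.nd (nat_lit 78) (nat_lit 228) (nat_lit 0) (XT.lf (nat_lit 0) (nat_lit 2711810919) (nat_lit 228)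 (nat_lit 1618634270) (nat_lit 304) (nat_lit 10280556377) (nat_lit 66) (nat_lit 5) (nat_lit 69) (nat_lit 5) (nat_lit 70) (nat_lit 5) (nat_lit 329) (nat_lit 260) (nat_lit 191)) (XT.nd (nat_lit 78) (nat_lit 228) (nat_lit 0) (XT.lf (nat_lit 0) (nat_lit 7745503076) (nat_lit 304) (nat_lit 4326502280) (nat_lit 76) (nat_lit 2827347979) (nat_lit 66) (nat_lit 5) (nat_lit 70) (nat_lit 5) (nat_lit 67) (nat_lit 5) (nat_lit 330) (nat_lit 260) (nat_lit 190)) (XT.lf (nat_lit 0) (nat_lit 3478477954) (nat_lit 228) (nat_lit 7804427990) (nat_lit 304) (nat_lit 3912868947) (nat_lit 63) (nat_lit 5) (nat_lit 66) (nat_lit 5) (nat_lit 67) (nat_lit 5) (nat_lit 331) (nat_lit 260) (nat_lit 189)))) (XT.nd (nat_lit 156) (nat_lit 152) (nat_lit 0) (XT.nd (nat_lit 78) (nat_lit 304) (nat_lit 0) (XT.lf (nat_lit 0) (nat_lit 11560014553) (nat_lit 228) (nat_lit 3380951815) (nat_lit 304) (nat_lit 559702231) (nat_lit 63) (nat_lit 5) (nat_lit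 66) (nat_lit 5) (nat_lit 67) (nat_lit 5) (nat_lit 332) (nat_lit 260) (nat_lit 188)) (XT.lf (nat_lit 0) (nat_lit 2859960014) (nat_lit 304) (nat_lit 11749891646) (nat_lit 76) (nat_lit 1203366324) (nat_lit 59) (nat_lit 5) (nat_lit 63) (nat_lit 5) (nat_lit 60) (nat_lit 5) (nat_lit 333) (nat_lit 260) (nat_lit 187))) (XT.nd (nat_lit 78) (nat_lit 152) (nat_lit 0) (XT.lf (nat_lit 0) (nat_lit 6416262220) (nat_lit 304) (nat_lit 3830924496) (nat_lit 76) (nat_lit 5886446147) (nat_lit 59) (nat_lit 5) (nat_lit 63) (nat_lit 5) (nat_lit 60) (nat_lit 5) (nat_lit 334) (nat_lit 260) (nat_lit 186)) (XT.lf (nat_lit 0) (nat_lit 4366378801) (nat_lit 152) (nat_lit 5727310991) (nat_lit 228) (nat_lit 6369551136) (nat_lit 57) (nat_lit 5) (nat_lit 59) (nat_lit 5) (nat_lit 60) (nat_lit 5) (nat_lit 335) (nat_lit 260) (nat_lit 185))))))) (XT.nd (nat_lit 1092) (nat_lit 988) (nat_lit 0) (XT.nd (nat_lit 546) (nat_lit 532) (nat_lit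 0) (XT.nd (nat_lit 234) (nat_lit 456) (nat_lit 0) (XT.nd (nat_lit 78) (nat_lit 304) (nat_lit 0) (XT.lf (nat_lit 0) (nat_lit 12844130402) (nat_lit 152) (nat_lit 1048837666) (nat_lit 228) (nat_lit 2909436760) (nat_lit 57) (nat_lit 5) (nat_lit 59) (nat_lit 5) (nat_lit 60) (nat_lit 5) (nat_lit 336) (nat_lit 260) (nat_lit 184)) (XT.nd (nat_lit 78) (nat_lit 0) (nat_lit 0) (XT.lf (nat_lit 0) (nat_lit 694527930) (nat_lit 304) (nat_lit 12725659822) (nat_lit 76) (nat_lit 3729795267) (nat_lit 53) (nat_lit 5) (nat_lit 57) (nat_lit 5) (nat_lit 54) (nat_lit 5) (nat_lit 337) (nat_lit 260) (nat_lit 183)) (XT.lf (nat_lit 0) (nat_lit 4372450975) (nat_lit 304) (nat_lit 4450315984) (nat_lit 76) (nat_lit 8683640209) (nat_lit 53) (nat_lit 5) (nat_lit 57) (nat_lit 5) (nat_lit 54) (nat_lit 5) (nat_lit 338) (nat_lit 260) (nat_lit 182)))) (XT.nd (nat_lit 156) (nat_lit 304) (nat_lit 0) (XT.nd (nat_lit 78) (nat_lit 0) (nat_lit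 0) (XT.lf (nat_lit 0) (nat_lit 4111301396) (nat_lit 152) (nat_lit 4063265728) (nat_lit 228) (nat_lit 9698553186) (nat_lit 51) (nat_lit 5) (nat_lit 53) (nat_lit 5) (nat_lit 54) (nat_lit 5) (nat_lit 339) (nat_lit 260) (nat_lit 181)) (XT.lf (nat_lit 0) (nat_lit 12118718724) (nat_lit 228) (nat_lit 5279414333) (nat_lit 76) (nat_lit 851874215) (nat_lit 51) (nat_lit 5) (nat_lit 54) (nat_lit 5) (nat_lit 52) (nat_lit 5) (nat_lit 340) (nat_lit 260) (nat_lit 180))) (XT.nd (nat_lit 78) (nat_lit 76) (nat_lit 0) (XT.lf (nat_lit 0) (nat_lit 3443245493) (nat_lit 228) (nat_lit 12786542754) (nat_lit 304) (nat_lit 2406966039) (nat_lit 48) (nat_lit 5) (nat_lit 51) (nat_lit 5) (nat_lit 52) (nat_lit 5) (nat_lit 341) (nat_lit 260) (nat_lit 179)) (XT.lf (nat_lit 0) (nat_lit 1430379701) (nat_lit 304) (nat_lit 6553235852) (nat_lit 76) (nat_lit 11050211235) (nat_lit 47) (nat_lit 5) (nat_lit 51) (nat_lit 5) (nat_lit 48) (nat_lit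 5) (nat_lit 342) (nat_lit 260) (nat_lit 178))))) (XT.nd (nat_lit 234) (nat_lit 228) (nat_lit 0) (XT.nd (nat_lit 78) (nat_lit 152) (nat_lit 0) (XT.lf (nat_lit 0) (nat_lit 2327764834) (nat_lit 152) (nat_lit 3005138081) (nat_lit 228) (nat_lit 14109250859) (nat_lit 45) (nat_lit 5) (nat_lit 47) (nat_lit 5) (nat_lit 48) (nat_lit 5) (nat_lit 343) (nat_lit 260) (nat_lit 177)) (XT.nd (nat_lit 78) (nat_lit 152) (nat_lit 0) (XT.lf (nat_lit 0) (nat_lit 9415956894) (nat_lit 228) (nat_lit 8312518438) (nat_lit 76) (nat_lit 2132361577) (nat_lit 45) (nat_lit 5) (nat_lit 48) (nat_lit 5) (nat_lit 46) (nat_lit 5) (nat_lit 344) (nat_lit 260) (nat_lit 176)) (XT.lf (nat_lit 0) (nat_lit 698207287) (nat_lit 152) (nat_lit 12936673661) (nat_lit 228) (nat_lit 6656807938) (nat_lit 43) (nat_lit 5) (nat_lit 45) (nat_lit 5) (nat_lit 46) (nat_lit 5) (nat_lit 345) (nat_lit 260) (nat_lit 175)))) (XT.nd (nat_lit 156) (nat_lit 152)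 (nat_lit 0) (XT.nd (nat_lit 78) (nat_lit 76) (nat_lit 0) (XT.lf (nat_lit 0) (nat_lit 10110964729) (nat_lit 152) (nat_lit 7930561688) (nat_lit 228) (nat_lit 2692114811) (nat_lit 43) (nat_lit 5) (nat_lit 45) (nat_lit 5) (nat_lit 46) (nat_lit 5) (nat_lit 346) (nat_lit 260) (nat_lit 174)) (XT.lf (nat_lit 0) (nat_lit 1342014795) (nat_lit 228) (nat_lit 1434138765) (nat_lit 76) (nat_lit 18412976698) (nat_lit 42) (nat_lit 5) (nat_lit 45) (nat_lit 5) (nat_lit 43) (nat_lit 5) (nat_lit 347) (nat_lit 260) (nat_lit 173))) (XT.nd (nat_lit 78) (nat_lit 0) (nat_lit 0) (XT.lf (nat_lit 0) (nat_lit 5524701213) (nat_lit 228) (nat_lit 13555998340) (nat_lit 76) (nat_lit 2574344134) (nat_lit 40) (nat_lit 5) (nat_lit 43) (nat_lit 5) (nat_lit 41) (nat_lit 5) (nat_lit 348) (nat_lit 260) (nat_lit 172)) (XT.lf (nat_lit 0) (nat_lit 9853415812) (nat_lit 228) (nat_lit 4251558514) (nat_lit 76) (nat_lit 8029352133) (nat_lit 40)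 (nat_lit 5) (nat_lit 43) (nat_lit 5) (nat_lit 41) (nat_lit 5) (nat_lit 349) (nat_lit 260) (nat_lit 171)))))) (XT.nd (nat_lit 546) (nat_lit 456) (nat_lit 0) (XT.nd (nat_lit 234) (nat_lit 152) (nat_lit 0) (XT.nd (nat_lit 78) (nat_lit 228) (nat_lit 0) (XT.lf (nat_lit 0) (nat_lit 5401443480) (nat_lit 152) (nat_lit 8941533982) (nat_lit 228) (nat_lit 8284088807) (nat_lit 38) (nat_lit 5) (nat_lit 40) (nat_lit 5) (nat_lit 41) (nat_lit 5) (nat_lit 350) (nat_lit 260) (nat_lit 170)) (XT.nd (nat_lit 78) (nat_lit 228) (nat_lit 0) (XT.lf (nat_lit 0) (nat_lit 15395568345) (nat_lit 152) (nat_lit 3593921054) (nat_lit 228) (nat_lit 4144438860) (nat_lit 38) (nat_lit 5) (nat_lit 40) (nat_lit 5) (nat_lit 41) (nat_lit 5) (nat_lit 351) (nat_lit 260) (nat_lit 169)) (XT.lf (nat_lit 0) (nat_lit 134843093) (nat_lit 228) (nat_lit 21637321820) (nat_lit 76) (nat_lit 1883271023) (nat_lit 35) (nat_lit 5) (nat_lit 38) (nat_lit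 5) (nat_lit 36) (nat_lit 5) (nat_lit 352) (nat_lit 260) (nat_lit 168)))) (XT.nd (nat_lit 156) (nat_lit 152) (nat_lit 0) (XT.nd (nat_lit 78) (nat_lit 0) (nat_lit 0) (XT.lf (nat_lit 0) (nat_lit 4553547285) (nat_lit 228) (nat_lit 12076841874) (nat_lit 76) (nat_lit 7558145595) (nat_lit 35) (nat_lit 5) (nat_lit 38) (nat_lit 5) (nat_lit 36) (nat_lit 5) (nat_lit 353) (nat_lit 260) (nat_lit 167)) (XT.lf (nat_lit 0) (nat_lit 9085243255) (nat_lit 228) (nat_lit 2263642043) (nat_lit 76) (nat_lit 13389335328) (nat_lit 35) (nat_lit 5) (nat_lit 38) (nat_lit 5) (nat_lit 36) (nat_lit 5) (nat_lit 354) (nat_lit 260) (nat_lit 166))) (XT.nd (nat_lit 78) (nat_lit 0) (nat_lit 0) (XT.lf (nat_lit 0) (nat_lit 7966303591) (nat_lit 152) (nat_lit 5844164130) (nat_lit 228) (nat_lit 11492208827) (nat_lit 33) (nat_lit 5) (nat_lit 35) (nat_lit 5) (nat_lit 36) (nat_lit 5) (nat_lit 355) (nat_lit 260) (nat_lit 165)) (XT.lf (nat_lit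 0) (nat_lit 18516773094) (nat_lit 152) (nat_lit 164773116) (nat_lit 228) (nat_lit 7202403626) (nat_lit 33) (nat_lit 5) (nat_lit 35) (nat_lit 5) (nat_lit 36) (nat_lit 5) (nat_lit 356) (nat_lit 260) (nat_lit 164))))) (XT.nd (nat_lit 312) (nat_lit 152) (nat_lit 0) (XT.nd (nat_lit 156) (nat_lit 152) (nat_lit 0) (XT.nd (nat_lit 78) (nat_lit 76) (nat_lit 0) (XT.lf (nat_lit 0) (nat_lit 2870211506) (nat_lit 76) (nat_lit 20892438044) (nat_lit 152) (nat_lit 2718101410) (nat_lit 32) (nat_lit 5) (nat_lit 33) (nat_lit 5) (nat_lit 34) (nat_lit 4) (nat_lit 357) (nat_lit 260) (nat_lit 163)) (XT.lf (nat_lit 0) (nat_lit 1922098320) (nat_lit 152) (nat_lit 13580420486) (nat_lit 76) (nat_lit 11590641471) (nat_lit 31) (nat_lit 5) (nat_lit 33) (nat_lit 5) (nat_lit 32) (nat_lit 5) (nat_lit 358) (nat_lit 260) (nat_lit 162))) (XT.nd (nat_lit 78) (nat_lit 152) (nat_lit 0) (XT.lf (nat_lit 0) (nat_lit 6629102511) (nat_lit 152)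 (nat_lit 3307667633) (nat_lit 76) (nat_lit 17786903356) (nat_lit 31) (nat_lit 5) (nat_lit 33) (nat_lit 5) (nat_lit 32) (nat_lit 5) (nat_lit 359) (nat_lit 260) (nat_lit 161)) (XT.lf (nat_lit 0) (nat_lit 7386969736) (nat_lit 152) (nat_lit 4144102360) (nat_lit 228) (nat_lit 16840423060) (nat_lit 29) (nat_lit 5) (nat_lit 31) (nat_lit 5) (nat_lit 32) (nat_lit 5) (nat_lit 360) (nat_lit 260) (nat_lit 160)))) (XT.nd (nat_lit 156) (nat_lit 152) (nat_lit 0) (XT.nd (nat_lit 78) (nat_lit 0) (nat_lit 0) (XT.lf (nat_lit 0) (nat_lit 16614183874) (nat_lit 228) (nat_lit 10615884199) (nat_lit 76) (nat_lit 1807666430) (nat_lit 29) (nat_lit 5) (nat_lit 32) (nat_lit 5) (nat_lit 30) (nat_lit 4) (nat_lit 361) (nat_lit 260) (nat_lit 159)) (XT.lf (nat_lit 0) (nat_lit 21874153647) (nat_lit 228) (nat_lit 6861770) (nat_lit 76) (nat_lit 7842220044) (nat_lit 29) (nat_lit 5) (nat_lit 32) (nat_lit 5) (nat_lit 30) (nat_lit 4) (nat_lit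 362) (nat_lit 260) (nat_lit 158))) (XT.nd (nat_lit 78) (nat_lit 76) (nat_lit 0) (XT.lf (nat_lit 0) (nat_lit 11108412673) (nat_lit 76) (nat_lit 16274110043) (nat_lit 152) (nat_lit 3044065941) (nat_lit 28) (nat_lit 5) (nat_lit 29) (nat_lit 5) (nat_lit 30) (nat_lit 4) (nat_lit 363) (nat_lit 260) (nat_lit 157)) (XT.lf (nat_lit 0) (nat_lit 1851848451) (nat_lit 152) (nat_lit 8640895906) (nat_lit 76) (nat_lit 20658235916) (nat_lit 27) (nat_lit 5) (nat_lit 29) (nat_lit 5) (nat_lit 28) (nat_lit 5) (nat_lit 364) (nat_lit 260) (nat_lit 156))))))))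
noncomputable def xc104 : XT := (XT.nd (nat_lit 2184) (nat_lit 456) (nat_lit 0) (XT.nd (nat_lit 1092) (nat_lit 304) (nat_lit 0) (XT.nd (nat_lit 546) (nat_lit 228) (nat_lit 0) (XT.nd (nat_lit 234) (nat_lit 304) (nat_lit 0) (XT.nd (nat_lit 78) (nat_lit 0) (nat_lit 0) (XT.lf (nat_lit 0) (nat_lit 2344321237) (nat_lit 152) (nat_lit 4495995101) (nat_lit 228) (nat_lit 25055682129) (nat_lit 25) (nat_lit 5) (nat_lit 27) (nat_lit 5) (nat_lit 28) (nat_lit 5) (nat_lit 365) (nat_lit 260) (nat_lit 155)) (XT.nd (nat_lit 78) (nat_lit 0) (nat_lit 0) (XT.lf (nat_lit 0) (nat_lit 12067110164) (nat_lit 228) (nat_lit 18869609659) (nat_lit 76) (nat_lit 1723991861) (nat_lit 25) (nat_lit 5) (nat_lit 28) (nat_lit 5) (nat_lit 26) (nat_lit 4) (nat_lit 366) (nat_lit 260) (nat_lit 154)) (XT.lf (nat_lit 0) (nat_lit 17480073454) (nat_lit 228) (nat_lit 7938842923) (nat_lit 76) (nat_lit 8028573447) (nat_lit 25) (nat_lit 5) (nat_lit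 28) (nat_lit 5) (nat_lit 26) (nat_lit 4) (nat_lit 367) (nat_lit 260) (nat_lit 153)))) (XT.nd (nat_lit 156) (nat_lit 228) (nat_lit 0) (XT.nd (nat_lit 78) (nat_lit 0) (nat_lit 0) (XT.lf (nat_lit 0) (nat_lit 3358937351) (nat_lit 76) (nat_lit 19714068538) (nat_lit 152) (nat_lit 11184342382) (nat_lit 24) (nat_lit 5) (nat_lit 25) (nat_lit 5) (nat_lit 26) (nat_lit 4) (nat_lit 368) (nat_lit 260) (nat_lit 152)) (XT.lf (nat_lit 0) (nat_lit 15132194460) (nat_lit 76) (nat_lit 13767167251) (nat_lit 152) (nat_lit 6190175935) (nat_lit 24) (nat_lit 5) (nat_lit 25) (nat_lit 5) (nat_lit 26) (nat_lit 4) (nat_lit 369) (nat_lit 260) (nat_lit 151))) (XT.nd (nat_lit 78) (nat_lit 228) (nat_lit 0) (XT.lf (nat_lit 0) (nat_lit 27233217175) (nat_lit 76) (nat_lit 7653182944) (nat_lit 152) (nat_lit 1060719943) (nat_lit 24) (nat_lit 5) (nat_lit 25) (nat_lit 5) (nat_lit 26) (nat_lit 4) (nat_lit 370) (nat_lit 260) (nat_lit 150))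 (XT.lf (nat_lit 0) (nat_lit 2857030546) (nat_lit 152) (nat_lit 1296817477) (nat_lit 228) (nat_lit 32674959293) (nat_lit 21) (nat_lit 5) (nat_lit 23) (nat_lit 5) (nat_lit 24) (nat_lit 5) (nat_lit 371) (nat_lit 260) (nat_lit 149))))) (XT.nd (nat_lit 234) (nat_lit 152) (nat_lit 0) (XT.nd (nat_lit 78) (nat_lit 76) (nat_lit 0) (XT.lf (nat_lit 0) (nat_lit 9629089034) (nat_lit 228) (nat_lit 22867462304) (nat_lit 76) (nat_lit 5236315887) (nat_lit 21) (nat_lit 5) (nat_lit 24) (nat_lit 5) (nat_lit 22) (nat_lit 4) (nat_lit 372) (nat_lit 260) (nat_lit 148)) (XT.nd (nat_lit 78) (nat_lit 76) (nat_lit 0) (XT.lf (nat_lit 0) (nat_lit 15268050703) (nat_lit 228) (nat_lit 11467162512) (nat_lit 76) (nat_lit 11928855472) (nat_lit 21) (nat_lit 5) (nat_lit 24) (nat_lit 5) (nat_lit 22) (nat_lit 4) (nat_lit 373) (nat_lit 260) (nat_lit 147)) (XT.lf (nat_lit 0) (nat_lit 256556170) (nat_lit 76) (nat_lit 20809104480) (nat_lit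 152) (nat_lit 18557864710) (nat_lit 20) (nat_lit 5) (nat_lit 21) (nat_lit 5) (nat_lit 22) (nat_lit 4) (nat_lit 374) (nat_lit 260) (nat_lit 146)))) (XT.nd (nat_lit 156) (nat_lit 152) (nat_lit 0) (XT.nd (nat_lit 78) (nat_lit 0) (nat_lit 0) (XT.lf (nat_lit 0) (nat_lit 12543686903) (nat_lit 76) (nat_lit 14596474758) (nat_lit 152) (nat_lit 13468518636) (nat_lit 20) (nat_lit 5) (nat_lit 21) (nat_lit 5) (nat_lit 22) (nat_lit 4) (nat_lit 375) (nat_lit 260) (nat_lit 145)) (XT.lf (nat_lit 0) (nat_lit 25176746994) (nat_lit 76) (nat_lit 8207691397) (nat_lit 152) (nat_lit 8239328618) (nat_lit 20) (nat_lit 5) (nat_lit 21) (nat_lit 5) (nat_lit 22) (nat_lit 4) (nat_lit 376) (nat_lit 260) (nat_lit 144))) (XT.nd (nat_lit 78) (nat_lit 152) (nat_lit 0) (XT.lf (nat_lit 0) (nat_lit 38166775040) (nat_lit 76) (nat_lit 1637171963) (nat_lit 152) (nat_lit 2865725462) (nat_lit 20) (nat_lit 5) (nat_lit 21) (nat_lit 5) (nat_lit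 22) (nat_lit 4) (nat_lit 377) (nat_lit 260) (nat_lit 143)) (XT.lf (nat_lit 0) (nat_lit 2731371374) (nat_lit 152) (nat_lit 35887938353) (nat_lit 76) (nat_lit 5123447643) (nat_lit 18) (nat_lit 5) (nat_lit 20) (nat_lit 5) (nat_lit 19) (nat_lit 4) (nat_lit 378) (nat_lit 260) (nat_lit 142)))))) (XT.nd (nat_lit 546) (nat_lit 152) (nat_lit 0) (XT.nd (nat_lit 234) (nat_lit 76) (nat_lit 0) (XT.nd (nat_lit 78) (nat_lit 76) (nat_lit 0) (XT.lf (nat_lit 0) (nat_lit 8489096293) (nat_lit 152) (nat_lit 24237803266) (nat_lit 76) (nat_lit 12118777627) (nat_lit 18) (nat_lit 5) (nat_lit 20) (nat_lit 5) (nat_lit 19) (nat_lit 4) (nat_lit 379) (nat_lit 260) (nat_lit 141)) (XT.nd (nat_lit 78) (nat_lit 76) (nat_lit 0) (XT.lf (nat_lit 0) (nat_lit 14408080301) (nat_lit 152) (nat_lit 12259204078) (nat_lit 76) (nat_lit 19314747285) (nat_lit 18) (nat_lit 5) (nat_lit 20) (nat_lit 5) (nat_lit 19) (nat_lit 4) (nat_lit 380) (nat_lit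 260) (nat_lit 140)) (XT.lf (nat_lit 0) (nat_lit 59486749) (nat_lit 76) (nat_lit 20434580401) (nat_lit 152) (nat_lit 26658729431) (nat_lit 17) (nat_lit 5) (nat_lit 18) (nat_lit 5) (nat_lit 19) (nat_lit 4) (nat_lit 381) (nat_lit 260) (nat_lit 139)))) (XT.nd (nat_lit 156) (nat_lit 76) (nat_lit 0) (XT.nd (nat_lit 78) (nat_lit 0) (nat_lit 0) (XT.lf (nat_lit 0) (nat_lit 12978813095) (nat_lit 76) (nat_lit 13896605918) (nat_lit 152) (nat_lit 21479884590) (nat_lit 17) (nat_lit 5) (nat_lit 18) (nat_lit 5) (nat_lit 19) (nat_lit 4) (nat_lit 382) (nat_lit 260) (nat_lit 138)) (XT.lf (nat_lit 0) (nat_lit 26266081494) (nat_lit 76) (nat_lit 7171442062) (nat_lit 152) (nat_lit 16156685560) (nat_lit 17) (nat_lit 5) (nat_lit 18) (nat_lit 5) (nat_lit 19) (nat_lit 4) (nat_lit 383) (nat_lit 260) (nat_lit 137))) (XT.nd (nat_lit 78) (nat_lit 76) (nat_lit 0) (XT.lf (nat_lit 0) (nat_lit 39932902178) (nat_lit 76) (nat_lit 253212475)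 (nat_lit 152) (nat_lit 10684481001) (nat_lit 17) (nat_lit 5) (nat_lit 18) (nat_lit 5) (nat_lit 19) (nat_lit 4) (nat_lit 384) (nat_lit 260) (nat_lit 136)) (XT.lf (nat_lit 0) (nat_lit 1774278893) (nat_lit 76) (nat_lit 45435847893) (nat_lit 76) (nat_lit 4972960597) (nat_lit 16) (nat_lit 4) (nat_lit 17) (nat_lit 5) (nat_lit 17) (nat_lit 4) (nat_lit 385) (nat_lit 260) (nat_lit 135))))) (XT.nd (nat_lit 234) (nat_lit 76) (nat_lit 0) (XT.nd (nat_lit 78) (nat_lit 0) (nat_lit 0) (XT.lf (nat_lit 0) (nat_lit 996060028) (nat_lit 152) (nat_lit 38470919695) (nat_lit 76) (nat_lit 14064596785) (nat_lit 15) (nat_lit 5) (nat_lit 17) (nat_lit 5) (nat_lit 16) (nat_lit 4) (nat_lit 386) (nat_lit 260) (nat_lit 134)) (XT.nd (nat_lit 78) (nat_lit 0) (nat_lit 0) (XT.lf (nat_lit 0) (nat_lit 7034355293) (nat_lit 152) (nat_lit 26242339782) (nat_lit 76) (nat_lit 21642645727) (nat_lit 15) (nat_lit 5) (nat_lit 17) (nat_lit 5) (nat_lit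 16) (nat_lit 4) (nat_lit 387) (nat_lit 260) (nat_lit 133)) (XT.lf (nat_lit 0) (nat_lit 13244241750) (nat_lit 152) (nat_lit 13664580443) (nat_lit 76) (nat_lit 29440204774) (nat_lit 15) (nat_lit 5) (nat_lit 17) (nat_lit 5) (nat_lit 16) (nat_lit 4) (nat_lit 388) (nat_lit 260) (nat_lit 132)))) (XT.nd (nat_lit 156) (nat_lit 0) (nat_lit 0) (XT.nd (nat_lit 78) (nat_lit 76) (nat_lit 0) (XT.lf (nat_lit 0) (nat_lit 19631145513) (nat_lit 152) (nat_lit 726651404) (nat_lit 76) (nat_lit 37464087327) (nat_lit 15) (nat_lit 5) (nat_lit 17) (nat_lit 5) (nat_lit 16) (nat_lit 4) (nat_lit 389) (nat_lit 260) (nat_lit 131)) (XT.lf (nat_lit 0) (nat_lit 12833173764) (nat_lit 76) (nat_lit 13490833925) (nat_lit 152) (nat_lit 33011491097) (nat_lit 14) (nat_lit 5) (nat_lit 15) (nat_lit 5) (nat_lit 16) (nat_lit 4) (nat_lit 390) (nat_lit 260) (nat_lit 130))) (XT.nd (nat_lit 78) (nat_lit 0) (nat_lit 0) (XT.lf (nat_lit 0) (nat_lit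 26798189510) (nat_lit 76) (nat_lit 6417898751) (nat_lit 152) (nat_lit 27678482553) (nat_lit 14) (nat_lit 5) (nat_lit 15) (nat_lit 5) (nat_lit 16) (nat_lit 4) (nat_lit 391) (nat_lit 260) (nat_lit 129)) (XT.lf (nat_lit 0) (nat_lit 40314550816) (nat_lit 152) (nat_lit 21342805273) (nat_lit 0) (nat_lit 843072292) (nat_lit 14) (nat_lit 5) (nat_lit 16) (nat_lit 4) (nat_lit 14) (nat_lit 4) (nat_lit 392) (nat_lit 260) (nat_lit 128))))))) (XT.nd (nat_lit 1092) (nat_lit 152) (nat_lit 0) (XT.nd (nat_lit 546) (nat_lit 76) (nat_lit 0) (XT.nd (nat_lit 234) (nat_lit 152) (nat_lit 0) (XT.nd (nat_lit 78) (nat_lit 76) (nat_lit 0) (XT.lf (nat_lit 0) (nat_lit 47681047958) (nat_lit 152) (nat_lit 8285903092) (nat_lit 0) (nat_lit 8185860113) (nat_lit 14) (nat_lit 5) (nat_lit 16) (nat_lit 4) (nat_lit 14) (nat_lit 4) (nat_lit 393) (nat_lit 260) (nat_lit 127)) (XT.nd (nat_lit 78) (nat_lit 0) (nat_lit 0) (XT.lf (nat_lit 0)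 (nat_lit 5249870841) (nat_lit 76) (nat_lit 50060917793) (nat_lit 76) (nat_lit 10542711190) (nat_lit 13) (nat_lit 4) (nat_lit 14) (nat_lit 5) (nat_lit 14) (nat_lit 4) (nat_lit 394) (nat_lit 260) (nat_lit 126)) (XT.lf (nat_lit 0) (nat_lit 19346441475) (nat_lit 76) (nat_lit 43898528956) (nat_lit 76) (nat_lit 4357974044) (nat_lit 13) (nat_lit 4) (nat_lit 14) (nat_lit 5) (nat_lit 14) (nat_lit 4) (nat_lit 395) (nat_lit 260) (nat_lit 125)))) (XT.nd (nat_lit 156) (nat_lit 76) (nat_lit 0) (XT.nd (nat_lit 78) (nat_lit 0) (nat_lit 0) (XT.lf (nat_lit 0) (nat_lit 1965072205) (nat_lit 152) (nat_lit 35573155720) (nat_lit 76) (nat_lit 31866304902) (nat_lit 12) (nat_lit 5) (nat_lit 14) (nat_lit 5) (nat_lit 13) (nat_lit 4) (nat_lit 396) (nat_lit 260) (nat_lit 124)) (XT.lf (nat_lit 0) (nat_lit 8382485203) (nat_lit 152) (nat_lit 22566872759) (nat_lit 76) (nat_lit 40309750078) (nat_lit 12) (nat_lit 5) (nat_lit 14) (nat_lit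 5) (nat_lit 13) (nat_lit 4) (nat_lit 397) (nat_lit 260) (nat_lit 123))) (XT.nd (nat_lit 78) (nat_lit 76) (nat_lit 0) (XT.lf (nat_lit 0) (nat_lit 14984912168) (nat_lit 152) (nat_lit 9184397890) (nat_lit 76) (nat_lit 49000237303) (nat_lit 12) (nat_lit 5) (nat_lit 14) (nat_lit 5) (nat_lit 13) (nat_lit 4) (nat_lit 398) (nat_lit 260) (nat_lit 122)) (XT.lf (nat_lit 0) (nat_lit 4677231953) (nat_lit 76) (nat_lit 17145850671) (nat_lit 152) (nat_lit 53313088668) (nat_lit 11) (nat_lit 5) (nat_lit 12) (nat_lit 5) (nat_lit 13) (nat_lit 4) (nat_lit 399) (nat_lit 260) (nat_lit 121))))) (XT.nd (nat_lit 234) (nat_lit 76) (nat_lit 0) (XT.nd (nat_lit 78) (nat_lit 0) (nat_lit 0) (XT.lf (nat_lit 0) (nat_lit 19129526155) (nat_lit 76) (nat_lit 9822409695) (nat_lit 152) (nat_lit 48207293468) (nat_lit 11) (nat_lit 5) (nat_lit 12) (nat_lit 5) (nat_lit 13) (nat_lit 4) (nat_lit 400) (nat_lit 260) (nat_lit 120)) (XT.nd (nat_lit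 78) (nat_lit 0) (nat_lit 0) (XT.lf (nat_lit 0) (nat_lit 34002325406) (nat_lit 76) (nat_lit 2285332418) (nat_lit 152) (nat_lit 42955532628) (nat_lit 11) (nat_lit 5) (nat_lit 12) (nat_lit 5) (nat_lit 13) (nat_lit 4) (nat_lit 401) (nat_lit 260) (nat_lit 119)) (XT.lf (nat_lit 0) (nat_lit 43889258296) (nat_lit 152) (nat_lit 32133850170) (nat_lit 0) (nat_lit 5365189171) (nat_lit 11) (nat_lit 5) (nat_lit 13) (nat_lit 4) (nat_lit 11) (nat_lit 4) (nat_lit 402) (nat_lit 260) (nat_lit 118)))) (XT.nd (nat_lit 156) (nat_lit 76) (nat_lit 0) (XT.nd (nat_lit 78) (nat_lit 0) (nat_lit 0) (XT.lf (nat_lit 0) (nat_lit 51734883663) (nat_lit 152) (nat_lit 18668710027) (nat_lit 0) (nat_lit 13193686420) (nat_lit 11) (nat_lit 5) (nat_lit 13) (nat_lit 4) (nat_lit 11) (nat_lit 4) (nat_lit 403) (nat_lit 260) (nat_lit 117)) (XT.lf (nat_lit 0) (nat_lit 59809421313) (nat_lit 152) (nat_lit 4811710947) (nat_lit 0) (nat_lit 21251594830)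 (nat_lit 11) (nat_lit 5) (nat_lit 13) (nat_lit 4) (nat_lit 11) (nat_lit 4) (nat_lit 404) (nat_lit 260) (nat_lit 116))) (XT.nd (nat_lit 78) (nat_lit 0) (nat_lit 0) (XT.lf (nat_lit 0) (nat_lit 9637313832) (nat_lit 76) (nat_lit 58575252592) (nat_lit 76) (nat_lit 20001281215) (nat_lit 10) (nat_lit 4) (nat_lit 11) (nat_lit 5) (nat_lit 11) (nat_lit 4) (nat_lit 405) (nat_lit 260) (nat_lit 115)) (XT.lf (nat_lit 0) (nat_lit 24606816861) (nat_lit 76) (nat_lit 52303380250) (nat_lit 76) (nat_lit 13713734219) (nat_lit 10) (nat_lit 4) (nat_lit 11) (nat_lit 5) (nat_lit 11) (nat_lit 4) (nat_lit 406) (nat_lit 260) (nat_lit 114)))))) (XT.nd (nat_lit 29328) (nat_lit 0) (nat_lit 23484) (XT.nd (nat_lit 234) (nat_lit 76) (nat_lit 0) (XT.nd (nat_lit 78) (nat_lit 76) (nat_lit 0) (XT.lf (nat_lit 0) (nat_lit 40014115805) (nat_lit 76) (nat_lit 45848623803) (nat_lit 76) (nat_lit 7243759662) (nat_lit 10) (nat_lit 4) (nat_lit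 11) (nat_lit 5) (nat_lit 11) (nat_lit 4) (nat_lit 407) (nat_lit 260) (nat_lit 113)) (XT.nd (nat_lit 78) (nat_lit 76) (nat_lit 0) (XT.lf (nat_lit 0) (nat_lit 55872673353) (nat_lit 76) (nat_lit 39205343173) (nat_lit 76) (nat_lit 585704167) (nat_lit 10) (nat_lit 4) (nat_lit 11) (nat_lit 5) (nat_lit 11) (nat_lit 4) (nat_lit 408) (nat_lit 260) (nat_lit 112)) (XT.lf (nat_lit 0) (nat_lit 6143972875) (nat_lit 152) (nat_lit 26161718598) (nat_lit 76) (nat_lit 65990331542) (nat_lit 9) (nat_lit 5) (nat_lit 11) (nat_lit 5) (nat_lit 10) (nat_lit 4) (nat_lit 409) (nat_lit 260) (nat_lit 111)))) (XT.nd (nat_lit 156) (nat_lit 0) (nat_lit 0) (XT.nd (nat_lit 78) (nat_lit 76) (nat_lit 0) (XT.lf (nat_lit 0) (nat_lit 13058206028) (nat_lit 152) (nat_lit 12139752024) (nat_lit 76) (nat_lit 75809330334) (nat_lit 9) (nat_lit 5) (nat_lit 11) (nat_lit 5) (nat_lit 10) (nat_lit 4) (nat_lit 410) (nat_lit 260) (nat_lit 110)) (XT.lf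 (nat_lit 0) (nat_lit 2338364646) (nat_lit 76) (nat_lit 17858579197) (nat_lit 152) (nat_lit 83602436603) (nat_lit 8) (nat_lit 5) (nat_lit 9) (nat_lit 5) (nat_lit 10) (nat_lit 4) (nat_lit 411) (nat_lit 260) (nat_lit 109))) (XT.nd (nat_lit 28860) (nat_lit 0) (nat_lit 24548) (XT.lf (nat_lit 0) (nat_lit 17489638416) (nat_lit 76) (nat_lit 10177453725) (nat_lit 152) (nat_lit 79004626701) (nat_lit 8) (nat_lit 5) (nat_lit 9) (nat_lit 5) (nat_lit 10) (nat_lit 4) (nat_lit 412) (nat_lit 260) (nat_lit 108)) (XT.lf (nat_lit 0) (nat_lit 1481563501) (nat_lit 0) (nat_lit 1481563501) (nat_lit 76) (nat_lit 260022757) (nat_lit 331) (nat_lit 5) (nat_lit 331) (nat_lit 3) (nat_lit 332) (nat_lit 0) (nat_lit 261) (nat_lit 261) (nat_lit 258))))) (XT.nd (nat_lit 312) (nat_lit 608) (nat_lit 0) (XT.nd (nat_lit 156) (nat_lit 228) (nat_lit 0) (XT.nd (nat_lit 78) (nat_lit 0) (nat_lit 0) (XT.lf (nat_lit 0) (nat_lit 2335946288)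 (nat_lit 228) (nat_lit 455349585) (nat_lit 228) (nat_lit 3660869006) (nat_lit 328) (nat_lit 3) (nat_lit 331) (nat_lit 3) (nat_lit 331) (nat_lit 5) (nat_lit 262) (nat_lit 261) (nat_lit 257)) (XT.lf (nat_lit 76) (nat_lit 2652460848) (nat_lit 0) (nat_lit 2528837849) (nat_lit 228) (nat_lit 1279538868) (nat_lit 329) (nat_lit 5) (nat_lit 328) (nat_lit 3) (nat_lit 331) (nat_lit 5) (nat_lit 263) (nat_lit 261) (nat_lit 256))) (XT.nd (nat_lit 78) (nat_lit 0) (nat_lit 0) (XT.lf (nat_lit 0) (nat_lit 1504896093) (nat_lit 228) (nat_lit 681904269) (nat_lit 304) (nat_lit 4285853243) (nat_lit 325) (nat_lit 5) (nat_lit 328) (nat_lit 3) (nat_lit 329) (nat_lit 5) (nat_lit 264) (nat_lit 261) (nat_lit 255)) (XT.lf (nat_lit 76) (nat_lit 2517261236) (nat_lit 0) (nat_lit 1747342296) (nat_lit 304) (nat_lit 2222508852) (nat_lit 326) (nat_lit 5) (nat_lit 325) (nat_lit 5) (nat_lit 329) (nat_lit 5) (nat_lit 265) (nat_lit 261)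 (nat_lit 254)))) (XT.nd (nat_lit 156) (nat_lit 304) (nat_lit 0) (XT.nd (nat_lit 78) (nat_lit 0) (nat_lit 0) (XT.lf (nat_lit 0) (nat_lit 494850013) (nat_lit 304) (nat_lit 740570563) (nat_lit 380) (nat_lit 5269544048) (nat_lit 321) (nat_lit 5) (nat_lit 325) (nat_lit 5) (nat_lit 326) (nat_lit 5) (nat_lit 266) (nat_lit 261) (nat_lit 253)) (XT.lf (nat_lit 76) (nat_lit 2555917247) (nat_lit 0) (nat_lit 615387228) (nat_lit 380) (nat_lit 3353896184) (nat_lit 322) (nat_lit 5) (nat_lit 321) (nat_lit 5) (nat_lit 326) (nat_lit 5) (nat_lit 267) (nat_lit 261) (nat_lit 252))) (XT.nd (nat_lit 78) (nat_lit 380) (nat_lit 0) (XT.lf (nat_lit 0) (nat_lit 5836349540) (nat_lit 304) (nat_lit 640193319) (nat_lit 76) (nat_lit 72422622) (nat_lit 322) (nat_lit 5) (nat_lit 326) (nat_lit 5) (nat_lit 323) (nat_lit 5) (nat_lit 268) (nat_lit 261) (nat_lit 251)) (XT.lf (nat_lit 0) (nat_lit 1904143630) (nat_lit 380) (nat_lit 3816096576)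 (nat_lit 76) (nat_lit 854722154) (nat_lit 317) (nat_lit 5) (nat_lit 322) (nat_lit 5) (nat_lit 318) (nat_lit 5) (nat_lit 269) (nat_lit 261) (nat_lit 250))))))))
noncomputable def xc105 : XT := (XT.nd (nat_lit 2184) (nat_lit 6536) (nat_lit 0) (XT.nd (nat_lit 1092) (nat_lit 6460) (nat_lit 0) (XT.nd (nat_lit 546) (nat_lit 3420) (nat_lit 0) (XT.nd (nat_lit 234) (nat_lit 1216) (nat_lit 0) (XT.nd (nat_lit 78) (nat_lit 912) (nat_lit 0) (XT.lf (nat_lit 0) (nat_lit 4496192222) (nat_lit 380) (nat_lit 395916836) (nat_lit 76) (nat_lit 1712241282) (nat_lit 317) (nat_lit 5) (nat_lit 322) (nat_lit 5) (nat_lit 318) (nat_lit 5) (nat_lit 270) (nat_lit 261) (nat_lit 249)) (XT.nd (nat_lit 78) (nat_lit 456) (nat_lit 0) (XT.lf (nat_lit 0) (nat_lit 457686600) (nat_lit 456) (nat_lit 3511717438) (nat_lit 76) (nat_lit 2667109651) (nat_lit 311) (nat_lit 5) (nat_lit 317) (nat_lit 5) (nat_lit 312) (nat_lit 5) (nat_lit 271) (nat_lit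 261) (nat_lit 248)) (XT.lf (nat_lit 0) (nat_lit 9081892) (nat_lit 456) (nat_lit 2961638311) (nat_lit 532) (nat_lit 3701060873) (nat_lit 305) (nat_lit 5) (nat_lit 311) (nat_lit 5) (nat_lit 312) (nat_lit 5) (nat_lit 272) (nat_lit 261) (nat_lit 247)))) (XT.nd (nat_lit 156) (nat_lit 608) (nat_lit 0) (XT.nd (nat_lit 78) (nat_lit 608) (nat_lit 0) (XT.lf (nat_lit 0) (nat_lit 3648171766) (nat_lit 456) (nat_lit 1856991050) (nat_lit 532) (nat_lit 1204701854) (nat_lit 305) (nat_lit 5) (nat_lit 311) (nat_lit 5) (nat_lit 312) (nat_lit 5) (nat_lit 273) (nat_lit 261) (nat_lit 246)) (XT.lf (nat_lit 0) (nat_lit 586174665) (nat_lit 532) (nat_lit 671511514) (nat_lit 608) (nat_lit 5493607134) (nat_lit 297) (nat_lit 5) (nat_lit 304) (nat_lit 5) (nat_lit 305) (nat_lit 5) (nat_lit 274) (nat_lit 261) (nat_lit 245))) (XT.nd (nat_lit 78) (nat_lit 608) (nat_lit 0) (XT.lf (nat_lit 0) (nat_lit 3720659186) (nat_lit 608) (nat_lit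 2466162917) (nat_lit 76) (nat_lit 608384034) (nat_lit 297) (nat_lit 5) (nat_lit 305) (nat_lit 5) (nat_lit 298) (nat_lit 5) (nat_lit 275) (nat_lit 261) (nat_lit 244)) (XT.lf (nat_lit 0) (nat_lit 1302481104) (nat_lit 608) (nat_lit 4891122741) (nat_lit 684) (nat_lit 648873281) (nat_lit 289) (nat_lit 5) (nat_lit 297) (nat_lit 5) (nat_lit 298) (nat_lit 5) (nat_lit 276) (nat_lit 261) (nat_lit 243))))) (XT.nd (nat_lit 234) (nat_lit 2660) (nat_lit 0) (XT.nd (nat_lit 78) (nat_lit 684) (nat_lit 0) (XT.lf (nat_lit 0) (nat_lit 1756469153) (nat_lit 684) (nat_lit 1734917009) (nat_lit 76) (nat_lit 3401073176) (nat_lit 288) (nat_lit 5) (nat_lit 297) (nat_lit 5) (nat_lit 289) (nat_lit 5) (nat_lit 277) (nat_lit 261) (nat_lit 242)) (XT.nd (nat_lit 78) (nat_lit 0) (nat_lit 0) (XT.lf (nat_lit 0) (nat_lit 2160623803) (nat_lit 684) (nat_lit 2001308942) (nat_lit 760) (nat_lit 2783698255) (nat_lit 279) (nat_lit 5) (nat_lit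 288) (nat_lit 5) (nat_lit 289) (nat_lit 5) (nat_lit 278) (nat_lit 261) (nat_lit 241)) (XT.lf (nat_lit 0) (nat_lit 6149749929) (nat_lit 684) (nat_lit 429320581) (nat_lit 760) (nat_lit 423251504) (nat_lit 279) (nat_lit 5) (nat_lit 288) (nat_lit 5) (nat_lit 289) (nat_lit 5) (nat_lit 279) (nat_lit 261) (nat_lit 240)))) (XT.nd (nat_lit 156) (nat_lit 988) (nat_lit 0) (XT.nd (nat_lit 78) (nat_lit 836) (nat_lit 0) (XT.lf (nat_lit 0) (nat_lit 1934922902) (nat_lit 836) (nat_lit 3891855871) (nat_lit 76) (nat_lit 1234476211) (nat_lit 268) (nat_lit 5) (nat_lit 279) (nat_lit 5) (nat_lit 269) (nat_lit 5) (nat_lit 280) (nat_lit 261) (nat_lit 239)) (XT.lf (nat_lit 0) (nat_lit 141349122) (nat_lit 836) (nat_lit 4153531863) (nat_lit 912) (nat_lit 2828863096) (nat_lit 257) (nat_lit 5) (nat_lit 268) (nat_lit 5) (nat_lit 269) (nat_lit 5) (nat_lit 281) (nat_lit 261) (nat_lit 238))) (XT.nd (nat_lit 78) (nat_lit 988) (nat_lit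 0) (XT.lf (nat_lit 0) (nat_lit 4315233272) (nat_lit 836) (nat_lit 2376545806) (nat_lit 912) (nat_lit 497441834) (nat_lit 257) (nat_lit 5) (nat_lit 268) (nat_lit 5) (nat_lit 269) (nat_lit 5) (nat_lit 282) (nat_lit 261) (nat_lit 237)) (XT.lf (nat_lit 0) (nat_lit 1304967860) (nat_lit 912) (nat_lit 502522102) (nat_lit 988) (nat_lit 5450493140) (nat_lit 244) (nat_lit 5) (nat_lit 256) (nat_lit 5) (nat_lit 257) (nat_lit 5) (nat_lit 283) (nat_lit 261) (nat_lit 236)))))) (XT.nd (nat_lit 546) (nat_lit 2356) (nat_lit 0) (XT.nd (nat_lit 234) (nat_lit 3040) (nat_lit 0) (XT.nd (nat_lit 78) (nat_lit 1064) (nat_lit 0) (XT.lf (nat_lit 0) (nat_lit 4144408942) (nat_lit 988) (nat_lit 1740252312) (nat_lit 76) (nat_lit 1444903071) (nat_lit 244) (nat_lit 5) (nat_lit 257) (nat_lit 5) (nat_lit 245) (nat_lit 5) (nat_lit 284) (nat_lit 261) (nat_lit 235)) (XT.nd (nat_lit 78) (nat_lit 76) (nat_lit 0) (XT.lf (nat_lit 0) (nat_lit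 2584561752) (nat_lit 988) (nat_lit 3928542324) (nat_lit 1064) (nat_lit 891425300) (nat_lit 231) (nat_lit 5) (nat_lit 244) (nat_lit 5) (nat_lit 245) (nat_lit 5) (nat_lit 285) (nat_lit 261) (nat_lit 234)) (XT.lf (nat_lit 0) (nat_lit 1392678602) (nat_lit 1064) (nat_lit 481366399) (nat_lit 76) (nat_lit 5608847564) (nat_lit 230) (nat_lit 5) (nat_lit 244) (nat_lit 5) (nat_lit 231) (nat_lit 5) (nat_lit 286) (nat_lit 261) (nat_lit 233)))) (XT.nd (nat_lit 156) (nat_lit 836) (nat_lit 0) (XT.nd (nat_lit 78) (nat_lit 1140) (nat_lit 0) (XT.lf (nat_lit 0) (nat_lit 3703163175) (nat_lit 1140) (nat_lit 3569378509) (nat_lit 76) (nat_lit 291606070) (nat_lit 216) (nat_lit 5) (nat_lit 231) (nat_lit 5) (nat_lit 217) (nat_lit 5) (nat_lit 287) (nat_lit 261) (nat_lit 232)) (XT.lf (nat_lit 0) (nat_lit 906095926) (nat_lit 1140) (nat_lit 5144931542) (nat_lit 1216) (nat_lit 1597847982) (nat_lit 201) (nat_lit 5) (nat_lit 216)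 (nat_lit 5) (nat_lit 217) (nat_lit 5) (nat_lit 288) (nat_lit 261) (nat_lit 231))) (XT.nd (nat_lit 78) (nat_lit 760) (nat_lit 0) (XT.lf (nat_lit 0) (nat_lit 691765432) (nat_lit 1216) (nat_lit 2214553728) (nat_lit 76) (nat_lit 4830500091) (nat_lit 200) (nat_lit 5) (nat_lit 216) (nat_lit 5) (nat_lit 201) (nat_lit 5) (nat_lit 289) (nat_lit 261) (nat_lit 230)) (XT.lf (nat_lit 0) (nat_lit 2421644100) (nat_lit 760) (nat_lit 557925304) (nat_lit 836) (nat_lit 4848579124) (nat_lit 190) (nat_lit 5) (nat_lit 200) (nat_lit 5) (nat_lit 201) (nat_lit 5) (nat_lit 290) (nat_lit 261) (nat_lit 229))))) (XT.nd (nat_lit 234) (nat_lit 1140) (nat_lit 0) (XT.nd (nat_lit 78) (nat_lit 1216) (nat_lit 0) (XT.lf (nat_lit 0) (nat_lit 5316066634) (nat_lit 836) (nat_lit 757957963) (nat_lit 76) (nat_lit 1848859554) (nat_lit 190) (nat_lit 5) (nat_lit 201) (nat_lit 5) (nat_lit 191) (nat_lit 5) (nat_lit 291) (nat_lit 261) (nat_lit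 228)) (XT.nd (nat_lit 78) (nat_lit 608) (nat_lit 0) (XT.lf (nat_lit 0) (nat_lit 4044585620) (nat_lit 608) (nat_lit 3663822585) (nat_lit 684) (nat_lit 312547412) (nat_lit 182) (nat_lit 5) (nat_lit 190) (nat_lit 5) (nat_lit 191) (nat_lit 5) (nat_lit 292) (nat_lit 261) (nat_lit 227)) (XT.lf (nat_lit 0) (nat_lit 821749507) (nat_lit 532) (nat_lit 1146278543) (nat_lit 608) (nat_lit 6154687567) (nat_lit 174) (nat_lit 5) (nat_lit 181) (nat_lit 5) (nat_lit 182) (nat_lit 5) (nat_lit 293) (nat_lit 261) (nat_lit 226)))) (XT.nd (nat_lit 156) (nat_lit 608) (nat_lit 0) (XT.nd (nat_lit 78) (nat_lit 532) (nat_lit 0) (XT.lf (nat_lit 0) (nat_lit 4308168126) (nat_lit 608) (nat_lit 2459070484) (nat_lit 76) (nat_lit 1460334729) (nat_lit 174) (nat_lit 5) (nat_lit 182) (nat_lit 5) (nat_lit 175) (nat_lit 5) (nat_lit 294) (nat_lit 261) (nat_lit 225)) (XT.lf (nat_lit 0) (nat_lit 2506744033) (nat_lit 532) (nat_lit 4191845760)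 (nat_lit 608) (nat_lit 1637643543) (nat_lit 167) (nat_lit 5) (nat_lit 174) (nat_lit 5) (nat_lit 175) (nat_lit 5) (nat_lit 295) (nat_lit 261) (nat_lit 224))) (XT.nd (nat_lit 78) (nat_lit 532) (nat_lit 0) (XT.lf (nat_lit 0) (nat_lit 668833712) (nat_lit 608) (nat_lit 842037292) (nat_lit 76) (nat_lit 6938027102) (nat_lit 166) (nat_lit 5) (nat_lit 174) (nat_lit 5) (nat_lit 167) (nat_lit 5) (nat_lit 296) (nat_lit 261) (nat_lit 223)) (XT.lf (nat_lit 0) (nat_lit 3012211213) (nat_lit 608) (nat_lit 4272327686) (nat_lit 76) (nat_lit 1279952733) (nat_lit 159) (nat_lit 5) (nat_lit 167) (nat_lit 5) (nat_lit 160) (nat_lit 5) (nat_lit 297) (nat_lit 261) (nat_lit 222))))))) (XT.nd (nat_lit 1092) (nat_lit 2888) (nat_lit 0) (XT.nd (nat_lit 546) (nat_lit 1672) (nat_lit 0) (XT.nd (nat_lit 234) (nat_lit 912) (nat_lit 0) (XT.nd (nat_lit 78) (nat_lit 532) (nat_lit 0) (XT.lf (nat_lit 0) (nat_lit 857288320) (nat_lit 532)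 (nat_lit 4548034286) (nat_lit 608) (nat_lit 3278899685) (nat_lit 152) (nat_lit 5) (nat_lit 159) (nat_lit 5) (nat_lit 160) (nat_lit 5) (nat_lit 298) (nat_lit 261) (nat_lit 221)) (XT.nd (nat_lit 78) (nat_lit 532) (nat_lit 0) (XT.lf (nat_lit 0) (nat_lit 6170195890) (nat_lit 532) (nat_lit 1691784806) (nat_lit 608) (nat_lit 945862351) (nat_lit 152) (nat_lit 5) (nat_lit 159) (nat_lit 5) (nat_lit 160) (nat_lit 5) (nat_lit 299) (nat_lit 261) (nat_lit 220)) (XT.lf (nat_lit 0) (nat_lit 1416481704) (nat_lit 532) (nat_lit 6259645783) (nat_lit 76) (nat_lit 1259040083) (nat_lit 145) (nat_lit 5) (nat_lit 152) (nat_lit 5) (nat_lit 146) (nat_lit 5) (nat_lit 300) (nat_lit 261) (nat_lit 219)))) (XT.nd (nat_lit 156) (nat_lit 456) (nat_lit 0) (XT.nd (nat_lit 78) (nat_lit 456) (nat_lit 0) (XT.lf (nat_lit 0) (nat_lit 3824749650) (nat_lit 532) (nat_lit 948165596) (nat_lit 76) (nat_lit 4293340171) (nat_lit 145) (nat_lit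 5) (nat_lit 152) (nat_lit 5) (nat_lit 146) (nat_lit 5) (nat_lit 301) (nat_lit 261) (nat_lit 218)) (XT.lf (nat_lit 0) (nat_lit 4554812839) (nat_lit 456) (nat_lit 1746095998) (nat_lit 532) (nat_lit 2900542884) (nat_lit 139) (nat_lit 5) (nat_lit 145) (nat_lit 5) (nat_lit 146) (nat_lit 5) (nat_lit 302) (nat_lit 261) (nat_lit 217))) (XT.nd (nat_lit 78) (nat_lit 76) (nat_lit 0) (XT.lf (nat_lit 0) (nat_lit 847614178) (nat_lit 380) (nat_lit 7987376059) (nat_lit 456) (nat_lit 506248356) (nat_lit 134) (nat_lit 5) (nat_lit 139) (nat_lit 5) (nat_lit 140) (nat_lit 5) (nat_lit 303) (nat_lit 261) (nat_lit 216)) (XT.lf (nat_lit 0) (nat_lit 1939271015) (nat_lit 456) (nat_lit 2976417867) (nat_lit 76) (nat_lit 4568477084) (nat_lit 133) (nat_lit 5) (nat_lit 139) (nat_lit 5) (nat_lit 134) (nat_lit 5) (nat_lit 304) (nat_lit 261) (nat_lit 215))))) (XT.nd (nat_lit 234) (nat_lit 836) (nat_lit 0) (XT.nd (nat_lit 78) (nat_lit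 380) (nat_lit 0) (XT.lf (nat_lit 0) (nat_lit 2697661120) (nat_lit 456) (nat_lit 1730586893) (nat_lit 532) (nat_lit 5203614849) (nat_lit 127) (nat_lit 5) (nat_lit 133) (nat_lit 5) (nat_lit 134) (nat_lit 5) (nat_lit 305) (nat_lit 261) (nat_lit 214)) (XT.nd (nat_lit 78) (nat_lit 380) (nat_lit 0) (XT.lf (nat_lit 0) (nat_lit 6992173765) (nat_lit 532) (nat_lit 1252312152) (nat_lit 76) (nat_lit 1539535282) (nat_lit 127) (nat_lit 5) (nat_lit 134) (nat_lit 5) (nat_lit 128) (nat_lit 5) (nat_lit 306) (nat_lit 261) (nat_lit 213)) (XT.lf (nat_lit 0) (nat_lit 4617665621) (nat_lit 380) (nat_lit 5033209622) (nat_lit 456) (nat_lit 289371090) (nat_lit 122) (nat_lit 5) (nat_lit 127) (nat_lit 5) (nat_lit 128) (nat_lit 5) (nat_lit 307) (nat_lit 261) (nat_lit 212)))) (XT.nd (nat_lit 156) (nat_lit 380) (nat_lit 0) (XT.nd (nat_lit 78) (nat_lit 0) (nat_lit 0) (XT.lf (nat_lit 0) (nat_lit 520983048) (nat_lit 380) (nat_lit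 1696944694) (nat_lit 456) (nat_lit 7883374267) (nat_lit 116) (nat_lit 5) (nat_lit 121) (nat_lit 5) (nat_lit 122) (nat_lit 5) (nat_lit 308) (nat_lit 261) (nat_lit 211)) (XT.lf (nat_lit 0) (nat_lit 4822862370) (nat_lit 456) (nat_lit 3693078392) (nat_lit 76) (nat_lit 1750350234) (nat_lit 116) (nat_lit 5) (nat_lit 122) (nat_lit 5) (nat_lit 117) (nat_lit 5) (nat_lit 309) (nat_lit 261) (nat_lit 210))) (XT.nd (nat_lit 78) (nat_lit 0) (nat_lit 0) (XT.lf (nat_lit 0) (nat_lit 2345033741) (nat_lit 380) (nat_lit 5158733132) (nat_lit 456) (nat_lit 2932561696) (nat_lit 111) (nat_lit 5) (nat_lit 116) (nat_lit 5) (nat_lit 117) (nat_lit 5) (nat_lit 310) (nat_lit 261) (nat_lit 209)) (XT.lf (nat_lit 0) (nat_lit 8585825767) (nat_lit 380) (nat_lit 1675732768) (nat_lit 456) (nat_lit 350047526) (nat_lit 111) (nat_lit 5) (nat_lit 116) (nat_lit 5) (nat_lit 117) (nat_lit 5) (nat_lit 311) (nat_lit 261) (nat_lit 208))))))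 (XT.nd (nat_lit 546) (nat_lit 1444) (nat_lit 0) (XT.nd (nat_lit 234) (nat_lit 684) (nat_lit 0) (XT.nd (nat_lit 78) (nat_lit 304) (nat_lit 0) (XT.lf (nat_lit 0) (nat_lit 2284318476) (nat_lit 456) (nat_lit 6581768214) (nat_lit 76) (nat_lit 1924836221) (nat_lit 105) (nat_lit 5) (nat_lit 111) (nat_lit 5) (nat_lit 106) (nat_lit 5) (nat_lit 312) (nat_lit 261) (nat_lit 207)) (XT.nd (nat_lit 78) (nat_lit 304) (nat_lit 0) (XT.lf (nat_lit 0) (nat_lit 4988392063) (nat_lit 456) (nat_lit 376578217) (nat_lit 76) (nat_lit 5610643474) (nat_lit 105) (nat_lit 5) (nat_lit 111) (nat_lit 5) (nat_lit 106) (nat_lit 5) (nat_lit 313) (nat_lit 261) (nat_lit 206)) (XT.lf (nat_lit 0) (nat_lit 6081025211) (nat_lit 304) (nat_lit 1712630629) (nat_lit 380) (nat_lit 3371616402) (nat_lit 101) (nat_lit 5) (nat_lit 105) (nat_lit 5) (nat_lit 106) (nat_lit 5) (nat_lit 314) (nat_lit 261) (nat_lit 205)))) (XT.nd (nat_lit 156) (nat_lit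 304) (nat_lit 0) (XT.nd (nat_lit 78) (nat_lit 76) (nat_lit 0) (XT.lf (nat_lit 0) (nat_lit 1332926886) (nat_lit 304) (nat_lit 9348599757) (nat_lit 380) (nat_lit 679168484) (nat_lit 97) (nat_lit 5) (nat_lit 101) (nat_lit 5) (nat_lit 102) (nat_lit 5) (nat_lit 315) (nat_lit 261) (nat_lit 204)) (XT.lf (nat_lit 0) (nat_lit 2084297468) (nat_lit 380) (nat_lit 3604371309) (nat_lit 76) (nat_lit 5871801329) (nat_lit 96) (nat_lit 5) (nat_lit 101) (nat_lit 5) (nat_lit 97) (nat_lit 5) (nat_lit 316) (nat_lit 261) (nat_lit 203))) (XT.nd (nat_lit 78) (nat_lit 0) (nat_lit 0) (XT.lf (nat_lit 0) (nat_lit 3012155304) (nat_lit 304) (nat_lit 1897215308) (nat_lit 380) (nat_lit 6856921104) (nat_lit 92) (nat_lit 5) (nat_lit 96) (nat_lit 5) (nat_lit 97) (nat_lit 5) (nat_lit 317) (nat_lit 261) (nat_lit 202)) (XT.lf (nat_lit 0) (nat_lit 7839084060) (nat_lit 380) (nat_lit 2147874912) (nat_lit 76) (nat_lit 1990757339) (nat_lit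 92) (nat_lit 5) (nat_lit 97) (nat_lit 5) (nat_lit 93) (nat_lit 5) (nat_lit 318) (nat_lit 261) (nat_lit 201))))) (XT.nd (nat_lit 312) (nat_lit 532) (nat_lit 0) (XT.nd (nat_lit 156) (nat_lit 532) (nat_lit 0) (XT.nd (nat_lit 78) (nat_lit 76) (nat_lit 0) (XT.lf (nat_lit 0) (nat_lit 4678521502) (nat_lit 304) (nat_lit 6206806772) (nat_lit 380) (nat_lit 1309320442) (nat_lit 88) (nat_lit 5) (nat_lit 92) (nat_lit 5) (nat_lit 93) (nat_lit 5) (nat_lit 319) (nat_lit 261) (nat_lit 200)) (XT.lf (nat_lit 0) (nat_lit 1560516367) (nat_lit 380) (nat_lit 730126992) (nat_lit 76) (nat_lit 10127396911) (nat_lit 87) (nat_lit 5) (nat_lit 92) (nat_lit 5) (nat_lit 88) (nat_lit 5) (nat_lit 320) (nat_lit 261) (nat_lit 199))) (XT.nd (nat_lit 78) (nat_lit 304) (nat_lit 0) (XT.lf (nat_lit 0) (nat_lit 4534301896) (nat_lit 304) (nat_lit 6343779750) (nat_lit 76) (nat_lit 1768360122) (nat_lit 84) (nat_lit 5) (nat_lit 88) (nat_lit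 5) (nat_lit 85) (nat_lit 5) (nat_lit 321) (nat_lit 261) (nat_lit 198)) (XT.lf (nat_lit 0) (nat_lit 619565926) (nat_lit 304) (nat_lit 6980262844) (nat_lit 380) (nat_lit 5281812255) (nat_lit 80) (nat_lit 5) (nat_lit 84) (nat_lit 5) (nat_lit 85) (nat_lit 5) (nat_lit 322) (nat_lit 261) (nat_lit 197)))) (XT.nd (nat_lit 156) (nat_lit 228) (nat_lit 0) (XT.nd (nat_lit 78) (nat_lit 304) (nat_lit 0) (XT.lf (nat_lit 0) (nat_lit 7872641620) (nat_lit 304) (nat_lit 2915690443) (nat_lit 380) (nat_lit 2334654799) (nat_lit 80) (nat_lit 5) (nat_lit 84) (nat_lit 5) (nat_lit 85) (nat_lit 5) (nat_lit 323) (nat_lit 261) (nat_lit 196)) (XT.lf (nat_lit 0) (nat_lit 685920237) (nat_lit 304) (nat_lit 11429415568) (nat_lit 76) (nat_lit 1256094452) (nat_lit 76) (nat_lit 5) (nat_lit 80) (nat_lit 5) (nat_lit 77) (nat_lit 5) (nat_lit 324) (nat_lit 261) (nat_lit 195))) (XT.nd (nat_lit 78) (nat_lit 228) (nat_lit 0) (XT.lf (nat_lit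 0) (nat_lit 3800504715) (nat_lit 304) (nat_lit 4269264269) (nat_lit 76) (nat_lit 5555374158) (nat_lit 76) (nat_lit 5) (nat_lit 80) (nat_lit 5) (nat_lit 77) (nat_lit 5) (nat_lit 325) (nat_lit 261) (nat_lit 194)) (XT.lf (nat_lit 0) (nat_lit 3119187604) (nat_lit 228) (nat_lit 3888162558) (nat_lit 304) (nat_lit 6879171137) (nat_lit 73) (nat_lit 5) (nat_lit 76) (nat_lit 5) (nat_lit 77) (nat_lit 5) (nat_lit 326) (nat_lit 261) (nat_lit 193))))))))
noncomputable def xc106 : XT := (XT.nd (nat_lit 2184) (nat_lit 1368) (nat_lit 0) (XT.nd (nat_lit 1092) (nat_lit 1216) (nat_lit 0) (XT.nd (nat_lit 546) (nat_lit 836) (nat_lit 0) (XT.nd (nat_lit 234) (nat_lit 532) (nat_lit 0) (XT.nd (nat_lit 78) (nat_lit 304) (nat_lit 0) (XT.lf (nat_lit 0) (nat_lit 10327106494) (nat_lit 304) (nat_lit 3389781718) (nat_lit 76) (nat_lit 438369470) (nat_lit 73) (nat_lit 5) (nat_lit 77) (nat_lit 5) (nat_lit 74) (nat_lit 5) (nat_lit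 327) (nat_lit 261) (nat_lit 192)) (XT.nd (nat_lit 78) (nat_lit 76) (nat_lit 0) (XT.lf (nat_lit 0) (nat_lit 4206381296) (nat_lit 228) (nat_lit 9589044830) (nat_lit 304) (nat_lit 635178432) (nat_lit 70) (nat_lit 5) (nat_lit 73) (nat_lit 5) (nat_lit 74) (nat_lit 5) (nat_lit 328) (nat_lit 261) (nat_lit 191)) (XT.lf (nat_lit 0) (nat_lit 2606534124) (nat_lit 304) (nat_lit 2685572239) (nat_lit 76) (nat_lit 9421214807) (nat_lit 69) (nat_lit 5) (nat_lit 73) (nat_lit 5) (nat_lit 70) (nat_lit 5) (nat_lit 329) (nat_lit 261) (nat_lit 190)))) (XT.nd (nat_lit 156) (nat_lit 304) (nat_lit 0) (XT.nd (nat_lit 78) (nat_lit 0) (nat_lit 0) (XT.lf (nat_lit 0) (nat_lit 5127909593) (nat_lit 228) (nat_lit 825146193) (nat_lit 304) (nat_lit 9050681138) (nat_lit 66) (nat_lit 5) (nat_lit 69) (nat_lit 5) (nat_lit 70) (nat_lit 5) (nat_lit 330) (nat_lit 261) (nat_lit 189)) (XT.lf (nat_lit 0) (nat_lit 9434947307) (nat_lit 304) (nat_lit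 2153147092) (nat_lit 76) (nat_lit 3713737091) (nat_lit 66) (nat_lit 5) (nat_lit 70) (nat_lit 5) (nat_lit 67) (nat_lit 5) (nat_lit 331) (nat_lit 261) (nat_lit 188))) (XT.nd (nat_lit 78) (nat_lit 76) (nat_lit 0) (XT.lf (nat_lit 0) (nat_lit 5863402644) (nat_lit 228) (nat_lit 7194552656) (nat_lit 304) (nat_lit 2549828914) (nat_lit 63) (nat_lit 5) (nat_lit 66) (nat_lit 5) (nat_lit 67) (nat_lit 5) (nat_lit 332) (nat_lit 261) (nat_lit 187)) (XT.lf (nat_lit 0) (nat_lit 844016022) (nat_lit 304) (nat_lit 1810416028) (nat_lit 76) (nat_lit 13268422032) (nat_lit 62) (nat_lit 5) (nat_lit 66) (nat_lit 5) (nat_lit 63) (nat_lit 5) (nat_lit 333) (nat_lit 261) (nat_lit 186))))) (XT.nd (nat_lit 234) (nat_lit 456) (nat_lit 0) (XT.nd (nat_lit 78) (nat_lit 152) (nat_lit 0) (XT.lf (nat_lit 0) (nat_lit 4343312759) (nat_lit 304) (nat_lit 9847064479) (nat_lit 76) (nat_lit 2054608700) (nat_lit 59) (nat_lit 5) (nat_lit 63)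 (nat_lit 5) (nat_lit 60) (nat_lit 5) (nat_lit 334) (nat_lit 261) (nat_lit 185)) (XT.nd (nat_lit 78) (nat_lit 152) (nat_lit 0) (XT.lf (nat_lit 0) (nat_lit 7965598576) (nat_lit 304) (nat_lit 1756217360) (nat_lit 76) (nat_lit 6854438935) (nat_lit 59) (nat_lit 5) (nat_lit 63) (nat_lit 5) (nat_lit 60) (nat_lit 5) (nat_lit 335) (nat_lit 261) (nat_lit 184)) (XT.lf (nat_lit 0) (nat_lit 6665538027) (nat_lit 152) (nat_lit 5069132845) (nat_lit 228) (nat_lit 5181660501) (nat_lit 57) (nat_lit 5) (nat_lit 59) (nat_lit 5) (nat_lit 60) (nat_lit 5) (nat_lit 336) (nat_lit 261) (nat_lit 183)))) (XT.nd (nat_lit 156) (nat_lit 152) (nat_lit 0) (XT.nd (nat_lit 78) (nat_lit 304) (nat_lit 0) (XT.lf (nat_lit 0) (nat_lit 15334471656) (nat_lit 152) (nat_lit 274480004) (nat_lit 228) (nat_lit 1657907077) (nat_lit 57) (nat_lit 5) (nat_lit 59) (nat_lit 5) (nat_lit 60) (nat_lit 5) (nat_lit 337) (nat_lit 261) (nat_lit 182)) (XT.lf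 (nat_lit 0) (nat_lit 2017953868) (nat_lit 304) (nat_lit 10964960378) (nat_lit 76) (nat_lit 4641885037) (nat_lit 53) (nat_lit 5) (nat_lit 57) (nat_lit 5) (nat_lit 54) (nat_lit 5) (nat_lit 338) (nat_lit 261) (nat_lit 181))) (XT.nd (nat_lit 78) (nat_lit 152) (nat_lit 0) (XT.lf (nat_lit 0) (nat_lit 5768275088) (nat_lit 304) (nat_lit 2503758241) (nat_lit 76) (nat_lit 9721038650) (nat_lit 53) (nat_lit 5) (nat_lit 57) (nat_lit 5) (nat_lit 54) (nat_lit 5) (nat_lit 339) (nat_lit 261) (nat_lit 180)) (XT.lf (nat_lit 0) (nat_lit 6294314845) (nat_lit 152) (nat_lit 3373104244) (nat_lit 228) (nat_lit 8703895619) (nat_lit 51) (nat_lit 5) (nat_lit 53) (nat_lit 5) (nat_lit 54) (nat_lit 5) (nat_lit 340) (nat_lit 261) (nat_lit 179)))))) (XT.nd (nat_lit 546) (nat_lit 608) (nat_lit 0) (XT.nd (nat_lit 234) (nat_lit 304) (nat_lit 0) (XT.nd (nat_lit 78) (nat_lit 304) (nat_lit 0) (XT.lf (nat_lit 0) (nat_lit 13701135589)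 (nat_lit 228) (nat_lit 3408799087) (nat_lit 76) (nat_lit 1650453015) (nat_lit 51) (nat_lit 5) (nat_lit 54) (nat_lit 5) (nat_lit 52) (nat_lit 5) (nat_lit 341) (nat_lit 261) (nat_lit 178)) (XT.nd (nat_lit 78) (nat_lit 76) (nat_lit 0) (XT.lf (nat_lit 0) (nat_lit 5555648401) (nat_lit 228) (nat_lit 12363700909) (nat_lit 304) (nat_lit 1239889582) (nat_lit 48) (nat_lit 5) (nat_lit 51) (nat_lit 5) (nat_lit 52) (nat_lit 5) (nat_lit 342) (nat_lit 261) (nat_lit 177)) (XT.lf (nat_lit 0) (nat_lit 2653002272) (nat_lit 304) (nat_lit 4775259340) (nat_lit 76) (nat_lit 12140681528) (nat_lit 47) (nat_lit 5) (nat_lit 51) (nat_lit 5) (nat_lit 48) (nat_lit 5) (nat_lit 343) (nat_lit 261) (nat_lit 176)))) (XT.nd (nat_lit 156) (nat_lit 152) (nat_lit 0) (XT.nd (nat_lit 78) (nat_lit 0) (nat_lit 0) (XT.lf (nat_lit 0) (nat_lit 4352812801) (nat_lit 152) (nat_lit 2304222584) (nat_lit 228) (nat_lit 13332966295) (nat_lit 45) (nat_lit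 5) (nat_lit 47) (nat_lit 5) (nat_lit 48) (nat_lit 5) (nat_lit 344) (nat_lit 261) (nat_lit 175)) (XT.lf (nat_lit 0) (nat_lit 10836056599) (nat_lit 228) (nat_lit 6636624588) (nat_lit 76) (nat_lit 2949374194) (nat_lit 45) (nat_lit 5) (nat_lit 48) (nat_lit 5) (nat_lit 46) (nat_lit 5) (nat_lit 345) (nat_lit 261) (nat_lit 174))) (XT.nd (nat_lit 78) (nat_lit 0) (nat_lit 0) (XT.lf (nat_lit 0) (nat_lit 2625547718) (nat_lit 152) (nat_lit 12541191491) (nat_lit 228) (nat_lit 5699551904) (nat_lit 43) (nat_lit 5) (nat_lit 45) (nat_lit 5) (nat_lit 46) (nat_lit 5) (nat_lit 346) (nat_lit 261) (nat_lit 173)) (XT.lf (nat_lit 0) (nat_lit 12265161839) (nat_lit 152) (nat_lit 7407718947) (nat_lit 228) (nat_lit 1649615856) (nat_lit 43) (nat_lit 5) (nat_lit 45) (nat_lit 5) (nat_lit 46) (nat_lit 5) (nat_lit 347) (nat_lit 261) (nat_lit 172))))) (XT.nd (nat_lit 234) (nat_lit 380) (nat_lit 0) (XT.nd (nat_lit 78) (nat_lit 0)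 (nat_lit 0) (XT.lf (nat_lit 0) (nat_lit 348298191) (nat_lit 152) (nat_lit 2106590641) (nat_lit 228) (nat_lit 19337312224) (nat_lit 40) (nat_lit 5) (nat_lit 42) (nat_lit 5) (nat_lit 43) (nat_lit 5) (nat_lit 348) (nat_lit 261) (nat_lit 171)) (XT.nd (nat_lit 78) (nat_lit 0) (nat_lit 0) (XT.lf (nat_lit 0) (nat_lit 6753040113) (nat_lit 228) (nat_lit 12136933716) (nat_lit 76) (nat_lit 3382430901) (nat_lit 40) (nat_lit 5) (nat_lit 43) (nat_lit 5) (nat_lit 41) (nat_lit 5) (nat_lit 349) (nat_lit 261) (nat_lit 170)) (XT.lf (nat_lit 0) (nat_lit 11180666698) (nat_lit 228) (nat_lit 2606537722) (nat_lit 76) (nat_lit 8979802059) (nat_lit 40) (nat_lit 5) (nat_lit 43) (nat_lit 5) (nat_lit 41) (nat_lit 5) (nat_lit 350) (nat_lit 261) (nat_lit 169)))) (XT.nd (nat_lit 156) (nat_lit 228) (nat_lit 0) (XT.nd (nat_lit 78) (nat_lit 0) (nat_lit 0) (XT.lf (nat_lit 0) (nat_lit 7318676219) (nat_lit 152) (nat_lit 8473062921)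 (nat_lit 228) (nat_lit 7483196284) (nat_lit 38) (nat_lit 5) (nat_lit 40) (nat_lit 5) (nat_lit 41) (nat_lit 5) (nat_lit 351) (nat_lit 261) (nat_lit 168)) (XT.lf (nat_lit 0) (nat_lit 17561502807) (nat_lit 152) (nat_lit 2986479384) (nat_lit 228) (nat_lit 3249922329) (nat_lit 38) (nat_lit 5) (nat_lit 40) (nat_lit 5) (nat_lit 41) (nat_lit 5) (nat_lit 352) (nat_lit 261) (nat_lit 167))) (XT.nd (nat_lit 78) (nat_lit 0) (nat_lit 0) (XT.lf (nat_lit 0) (nat_lit 1132105061) (nat_lit 228) (nat_lit 20556019008) (nat_lit 76) (nat_lit 2646822764) (nat_lit 35) (nat_lit 5) (nat_lit 38) (nat_lit 5) (nat_lit 36) (nat_lit 5) (nat_lit 353) (nat_lit 261) (nat_lit 166)) (XT.lf (nat_lit 0) (nat_lit 5654441737) (nat_lit 228) (nat_lit 10759125318) (nat_lit 76) (nat_lit 8471349779) (nat_lit 35) (nat_lit 5) (nat_lit 38) (nat_lit 5) (nat_lit 36) (nat_lit 5) (nat_lit 354) (nat_lit 261) (nat_lit 165))))))) (XT.nd (nat_lit 1092)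 (nat_lit 608) (nat_lit 0) (XT.nd (nat_lit 546) (nat_lit 304) (nat_lit 0) (XT.nd (nat_lit 234) (nat_lit 304) (nat_lit 0) (XT.nd (nat_lit 78) (nat_lit 152) (nat_lit 0) (XT.lf (nat_lit 0) (nat_lit 10294002528) (nat_lit 228) (nat_lit 700462166) (nat_lit 76) (nat_lit 14457481228) (nat_lit 35) (nat_lit 5) (nat_lit 38) (nat_lit 5) (nat_lit 36) (nat_lit 5) (nat_lit 355) (nat_lit 261) (nat_lit 164)) (XT.nd (nat_lit 78) (nat_lit 0) (nat_lit 0) (XT.lf (nat_lit 0) (nat_lit 9820390767) (nat_lit 152) (nat_lit 5328850253) (nat_lit 228) (nat_lit 10884456548) (nat_lit 33) (nat_lit 5) (nat_lit 35) (nat_lit 5) (nat_lit 36) (nat_lit 5) (nat_lit 356) (nat_lit 261) (nat_lit 163)) (XT.lf (nat_lit 0) (nat_lit 20144339926) (nat_lit 228) (nat_lit 5997707713) (nat_lit 76) (nat_lit 491034254) (nat_lit 33) (nat_lit 5) (nat_lit 36) (nat_lit 5) (nat_lit 34) (nat_lit 4) (nat_lit 357) (nat_lit 261) (nat_lit 162)))) (XT.nd (nat_lit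 156) (nat_lit 152) (nat_lit 0) (XT.nd (nat_lit 78) (nat_lit 76) (nat_lit 0) (XT.lf (nat_lit 0) (nat_lit 4529593777) (nat_lit 76) (nat_lit 20838707819) (nat_lit 152) (nat_lit 1879781902) (nat_lit 32) (nat_lit 5) (nat_lit 33) (nat_lit 5) (nat_lit 34) (nat_lit 4) (nat_lit 358) (nat_lit 261) (nat_lit 161)) (XT.lf (nat_lit 0) (nat_lit 2855404686) (nat_lit 152) (nat_lit 12442664524) (nat_lit 76) (nat_lit 12581327373) (nat_lit 31) (nat_lit 5) (nat_lit 33) (nat_lit 5) (nat_lit 32) (nat_lit 5) (nat_lit 359) (nat_lit 261) (nat_lit 160))) (XT.nd (nat_lit 78) (nat_lit 152) (nat_lit 0) (XT.lf (nat_lit 0) (nat_lit 7678114824) (nat_lit 152) (nat_lit 1906733995) (nat_lit 76) (nat_lit 18944749929) (nat_lit 31) (nat_lit 5) (nat_lit 33) (nat_lit 5) (nat_lit 32) (nat_lit 5) (nat_lit 360) (nat_lit 261) (nat_lit 159)) (XT.lf (nat_lit 0) (nat_lit 9094035008) (nat_lit 152) (nat_lit 3622626266) (nat_lit 228) (nat_lit 16480516426)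 (nat_lit 29) (nat_lit 5) (nat_lit 31) (nat_lit 5) (nat_lit 32) (nat_lit 5) (nat_lit 361) (nat_lit 261) (nat_lit 158))))) (XT.nd (nat_lit 234) (nat_lit 228) (nat_lit 0) (XT.nd (nat_lit 78) (nat_lit 76) (nat_lit 0) (XT.lf (nat_lit 0) (nat_lit 17933837383) (nat_lit 228) (nat_lit 9473476576) (nat_lit 76) (nat_lit 2476651080) (nat_lit 29) (nat_lit 5) (nat_lit 32) (nat_lit 5) (nat_lit 30) (nat_lit 4) (nat_lit 362) (nat_lit 261) (nat_lit 157)) (XT.nd (nat_lit 78) (nat_lit 0) (nat_lit 0) (XT.lf (nat_lit 0) (nat_lit 1439353472) (nat_lit 76) (nat_lit 21902169461) (nat_lit 152) (nat_lit 7248818302) (nat_lit 28) (nat_lit 5) (nat_lit 29) (nat_lit 5) (nat_lit 30) (nat_lit 4) (nat_lit 363) (nat_lit 261) (nat_lit 156)) (XT.lf (nat_lit 0) (nat_lit 12846093942) (nat_lit 76) (nat_lit 16145490831) (nat_lit 152) (nat_lit 2323924485) (nat_lit 28) (nat_lit 5) (nat_lit 29) (nat_lit 5) (nat_lit 30) (nat_lit 4) (nat_lit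 364) (nat_lit 261) (nat_lit 155)))) (XT.nd (nat_lit 156) (nat_lit 0) (nat_lit 0) (XT.nd (nat_lit 78) (nat_lit 152) (nat_lit 0) (XT.lf (nat_lit 0) (nat_lit 2679859108) (nat_lit 152) (nat_lit 7520991070) (nat_lit 76) (nat_lit 21861250700) (nat_lit 27) (nat_lit 5) (nat_lit 29) (nat_lit 5) (nat_lit 28) (nat_lit 5) (nat_lit 365) (nat_lit 261) (nat_lit 154)) (XT.lf (nat_lit 0) (nat_lit 3780261688) (nat_lit 152) (nat_lit 4028347735) (nat_lit 228) (nat_lit 25021148192) (nat_lit 25) (nat_lit 5) (nat_lit 27) (nat_lit 5) (nat_lit 28) (nat_lit 5) (nat_lit 366) (nat_lit 261) (nat_lit 153))) (XT.nd (nat_lit 78) (nat_lit 0) (nat_lit 0) (XT.lf (nat_lit 0) (nat_lit 13175604493) (nat_lit 228) (nat_lit 18093037987) (nat_lit 76) (nat_lit 2349274474) (nat_lit 25) (nat_lit 5) (nat_lit 28) (nat_lit 5) (nat_lit 26) (nat_lit 4) (nat_lit 367) (nat_lit 261) (nat_lit 152)) (XT.lf (nat_lit 0) (nat_lit 18729214517) (nat_lit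 228) (nat_lit 6873454851) (nat_lit 76) (nat_lit 8826287793) (nat_lit 25) (nat_lit 5) (nat_lit 28) (nat_lit 5) (nat_lit 26) (nat_lit 4) (nat_lit 368) (nat_lit 261) (nat_lit 151)))))) (XT.nd (nat_lit 546) (nat_lit 228) (nat_lit 0) (XT.nd (nat_lit 234) (nat_lit 304) (nat_lit 0) (XT.nd (nat_lit 78) (nat_lit 0) (nat_lit 0) (XT.lf (nat_lit 0) (nat_lit 4750478897) (nat_lit 76) (nat_lit 19730754832) (nat_lit 152) (nat_lit 10782144934) (nat_lit 24) (nat_lit 5) (nat_lit 25) (nat_lit 5) (nat_lit 26) (nat_lit 4) (nat_lit 369) (nat_lit 261) (nat_lit 150)) (XT.nd (nat_lit 78) (nat_lit 0) (nat_lit 0) (XT.lf (nat_lit 0) (nat_lit 16839338377) (nat_lit 76) (nat_lit 13622186384) (nat_lit 152) (nat_lit 5659640709) (nat_lit 24) (nat_lit 5) (nat_lit 25) (nat_lit 5) (nat_lit 26) (nat_lit 4) (nat_lit 370) (nat_lit 261) (nat_lit 149)) (XT.lf (nat_lit 0) (nat_lit 29266891441) (nat_lit 76) (nat_lit 7341034855) (nat_lit 152)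 (nat_lit 397162412) (nat_lit 24) (nat_lit 5) (nat_lit 25) (nat_lit 5) (nat_lit 26) (nat_lit 4) (nat_lit 371) (nat_lit 261) (nat_lit 148)))) (XT.nd (nat_lit 156) (nat_lit 76) (nat_lit 0) (XT.nd (nat_lit 78) (nat_lit 0) (nat_lit 0) (XT.lf (nat_lit 0) (nat_lit 4161116640) (nat_lit 152) (nat_lit 791009833) (nat_lit 228) (nat_lit 32961149545) (nat_lit 21) (nat_lit 5) (nat_lit 23) (nat_lit 5) (nat_lit 24) (nat_lit 5) (nat_lit 372) (nat_lit 261) (nat_lit 147)) (XT.lf (nat_lit 0) (nat_lit 10577087059) (nat_lit 228) (nat_lit 22355879777) (nat_lit 76) (nat_lit 5911932424) (nat_lit 21) (nat_lit 5) (nat_lit 24) (nat_lit 5) (nat_lit 22) (nat_lit 4) (nat_lit 373) (nat_lit 261) (nat_lit 146))) (XT.nd (nat_lit 78) (nat_lit 76) (nat_lit 0) (XT.lf (nat_lit 0) (nat_lit 16366019752) (nat_lit 228) (nat_lit 10648452731) (nat_lit 76) (nat_lit 12790145467) (nat_lit 21) (nat_lit 5) (nat_lit 24) (nat_lit 5) (nat_lit 22)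 (nat_lit 4) (nat_lit 374) (nat_lit 261) (nat_lit 145)) (XT.lf (nat_lit 0) (nat_lit 1415578251) (nat_lit 76) (nat_lit 20914408325) (nat_lit 152) (nat_lit 18463103986) (nat_lit 20) (nat_lit 5) (nat_lit 21) (nat_lit 5) (nat_lit 22) (nat_lit 4) (nat_lit 375) (nat_lit 261) (nat_lit 144))))) (XT.nd (nat_lit 312) (nat_lit 76) (nat_lit 0) (XT.nd (nat_lit 156) (nat_lit 152) (nat_lit 0) (XT.nd (nat_lit 78) (nat_lit 0) (nat_lit 0) (XT.lf (nat_lit 0) (nat_lit 14037789156) (nat_lit 76) (nat_lit 14530515323) (nat_lit 152) (nat_lit 13240053161) (nat_lit 20) (nat_lit 5) (nat_lit 21) (nat_lit 5) (nat_lit 22) (nat_lit 4) (nat_lit 376) (nat_lit 261) (nat_lit 143)) (XT.lf (nat_lit 0) (nat_lit 27017284012) (nat_lit 76) (nat_lit 7964743810) (nat_lit 152) (nat_lit 7872410385) (nat_lit 20) (nat_lit 5) (nat_lit 21) (nat_lit 5) (nat_lit 22) (nat_lit 4) (nat_lit 377) (nat_lit 261) (nat_lit 142))) (XT.nd (nat_lit 78) (nat_lit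 152) (nat_lit 0) (XT.lf (nat_lit 0) (nat_lit 40365404124) (nat_lit 76) (nat_lit 1211356706) (nat_lit 152) (nat_lit 2355485486) (nat_lit 20) (nat_lit 5) (nat_lit 21) (nat_lit 5) (nat_lit 22) (nat_lit 4) (nat_lit 378) (nat_lit 261) (nat_lit 141)) (XT.lf (nat_lit 0) (nat_lit 3395592311) (nat_lit 152) (nat_lit 35896721260) (nat_lit 76) (nat_lit 5745111589) (nat_lit 18) (nat_lit 5) (nat_lit 20) (nat_lit 5) (nat_lit 19) (nat_lit 4) (nat_lit 379) (nat_lit 261) (nat_lit 140)))) (XT.nd (nat_lit 156) (nat_lit 76) (nat_lit 0) (XT.nd (nat_lit 78) (nat_lit 0) (nat_lit 0) (XT.lf (nat_lit 0) (nat_lit 9309089372) (nat_lit 152) (nat_lit 23928184701) (nat_lit 76) (nat_lit 12936671555) (nat_lit 18) (nat_lit 5) (nat_lit 20) (nat_lit 5) (nat_lit 19) (nat_lit 4) (nat_lit 380) (nat_lit 261) (nat_lit 139)) (XT.lf (nat_lit 0) (nat_lit 15389177265) (nat_lit 152) (nat_lit 11620424216) (nat_lit 76) (nat_lit 20335287373) (nat_lit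 18) (nat_lit 5) (nat_lit 20) (nat_lit 5) (nat_lit 19) (nat_lit 4) (nat_lit 381) (nat_lit 261) (nat_lit 138))) (XT.nd (nat_lit 78) (nat_lit 0) (nat_lit 0) (XT.lf (nat_lit 0) (nat_lit 1057959139) (nat_lit 76) (nat_lit 20593379297) (nat_lit 152) (nat_lit 26899634463) (nat_lit 17) (nat_lit 5) (nat_lit 18) (nat_lit 5) (nat_lit 19) (nat_lit 4) (nat_lit 382) (nat_lit 261) (nat_lit 137)) (XT.lf (nat_lit 0) (nat_lit 14335835535) (nat_lit 76) (nat_lit 13872495827) (nat_lit 152) (nat_lit 21581701660) (nat_lit 17) (nat_lit 5) (nat_lit 18) (nat_lit 5) (nat_lit 19) (nat_lit 4) (nat_lit 383) (nat_lit 261) (nat_lit 136))))))))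
noncomputable def xc107 : XT := (XT.nd (nat_lit 2184) (nat_lit 76) (nat_lit 0) (XT.nd (nat_lit 1092) (nat_lit 228) (nat_lit 0) (XT.nd (nat_lit 546) (nat_lit 152) (nat_lit 0) (XT.nd (nat_lit 234) (nat_lit 152) (nat_lit 0) (XT.nd (nat_lit 78) (nat_lit 76) (nat_lit 0) (XT.lf (nat_lit 0) (nat_lit 27993537770) (nat_lit 76) (nat_lit 6958421956) (nat_lit 152) (nat_lit 16114609945) (nat_lit 17) (nat_lit 5) (nat_lit 18) (nat_lit 5) (nat_lit 19) (nat_lit 4) (nat_lit 384) (nat_lit 261) (nat_lit 135)) (XT.nd (nat_lit 78) (nat_lit 76) (nat_lit 0) (XT.lf (nat_lit 0) (nat_lit 41889604858) (nat_lit 152) (nat_lit 10340187343) (nat_lit 0) (nat_lit 151861399) (nat_lit 17) (nat_lit 5) (nat_lit 19) (nat_lit 4) (nat_lit 17) (nat_lit 4) (nat_lit 385) (nat_lit 261) (nat_lit 134)) (XT.lf (nat_lit 0) (nat_lit 2741586851) (nat_lit 76) (nat_lit 46379469089) (nat_lit 76) (nat_lit 4612566156) (nat_lit 16) (nat_lit 4) (nat_lit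 17) (nat_lit 5) (nat_lit 17) (nat_lit 4) (nat_lit 386) (nat_lit 261) (nat_lit 133)))) (XT.nd (nat_lit 156) (nat_lit 76) (nat_lit 0) (XT.nd (nat_lit 78) (nat_lit 0) (nat_lit 0) (XT.lf (nat_lit 0) (nat_lit 1511028677) (nat_lit 152) (nat_lit 38727824885) (nat_lit 76) (nat_lit 14884005328) (nat_lit 15) (nat_lit 5) (nat_lit 17) (nat_lit 5) (nat_lit 16) (nat_lit 4) (nat_lit 387) (nat_lit 261) (nat_lit 132)) (XT.lf (nat_lit 0) (nat_lit 7716344057) (nat_lit 152) (nat_lit 26158520266) (nat_lit 76) (nat_lit 22677818924) (nat_lit 15) (nat_lit 5) (nat_lit 17) (nat_lit 5) (nat_lit 16) (nat_lit 4) (nat_lit 388) (nat_lit 261) (nat_lit 131))) (XT.nd (nat_lit 78) (nat_lit 76) (nat_lit 0) (XT.lf (nat_lit 0) (nat_lit 14098809881) (nat_lit 152) (nat_lit 13228799692) (nat_lit 76) (nat_lit 30698065116) (nat_lit 15) (nat_lit 5) (nat_lit 17) (nat_lit 5) (nat_lit 16) (nat_lit 4) (nat_lit 389) (nat_lit 261) (nat_lit 130))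 (XT.lf (nat_lit 0) (nat_lit 74080221) (nat_lit 76) (nat_lit 20590634944) (nat_lit 152) (nat_lit 38878383770) (nat_lit 14) (nat_lit 5) (nat_lit 15) (nat_lit 5) (nat_lit 16) (nat_lit 4) (nat_lit 390) (nat_lit 261) (nat_lit 129))))) (XT.nd (nat_lit 234) (nat_lit 152) (nat_lit 0) (XT.nd (nat_lit 78) (nat_lit 0) (nat_lit 0) (XT.lf (nat_lit 0) (nat_lit 14031204715) (nat_lit 76) (nat_lit 13521331984) (nat_lit 152) (nat_lit 33549763004) (nat_lit 14) (nat_lit 5) (nat_lit 15) (nat_lit 5) (nat_lit 16) (nat_lit 4) (nat_lit 391) (nat_lit 261) (nat_lit 128)) (XT.nd (nat_lit 78) (nat_lit 0) (nat_lit 0) (XT.lf (nat_lit 0) (nat_lit 28391490280) (nat_lit 76) (nat_lit 6247108569) (nat_lit 152) (nat_lit 28069931373) (nat_lit 14) (nat_lit 5) (nat_lit 15) (nat_lit 5) (nat_lit 16) (nat_lit 4) (nat_lit 392) (nat_lit 261) (nat_lit 127)) (XT.lf (nat_lit 0) (nat_lit 41940997499) (nat_lit 152) (nat_lit 21207613433) (nat_lit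 0) (nat_lit 1214225940) (nat_lit 14) (nat_lit 5) (nat_lit 16) (nat_lit 4) (nat_lit 14) (nat_lit 4) (nat_lit 393) (nat_lit 261) (nat_lit 126)))) (XT.nd (nat_lit 156) (nat_lit 76) (nat_lit 0) (XT.nd (nat_lit 78) (nat_lit 76) (nat_lit 0) (XT.lf (nat_lit 0) (nat_lit 49516343628) (nat_lit 152) (nat_lit 7781590866) (nat_lit 0) (nat_lit 8767223761) (nat_lit 14) (nat_lit 5) (nat_lit 16) (nat_lit 4) (nat_lit 14) (nat_lit 4) (nat_lit 394) (nat_lit 261) (nat_lit 125)) (XT.lf (nat_lit 0) (nat_lit 6152875017) (nat_lit 76) (nat_lit 51217475624) (nat_lit 76) (nat_lit 10446658369) (nat_lit 13) (nat_lit 4) (nat_lit 14) (nat_lit 5) (nat_lit 14) (nat_lit 4) (nat_lit 395) (nat_lit 261) (nat_lit 124))) (XT.nd (nat_lit 78) (nat_lit 76) (nat_lit 0) (XT.lf (nat_lit 0) (nat_lit 20650628943) (nat_lit 76) (nat_lit 44880271521) (nat_lit 76) (nat_lit 4088388842) (nat_lit 13) (nat_lit 4) (nat_lit 14) (nat_lit 5) (nat_lit 14)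 (nat_lit 4) (nat_lit 396) (nat_lit 261) (nat_lit 123)) (XT.lf (nat_lit 0) (nat_lit 2405104616) (nat_lit 152) (nat_lit 35929972176) (nat_lit 76) (nat_lit 33140078480) (nat_lit 12) (nat_lit 5) (nat_lit 14) (nat_lit 5) (nat_lit 13) (nat_lit 4) (nat_lit 397) (nat_lit 261) (nat_lit 122)))))) (XT.nd (nat_lit 546) (nat_lit 152) (nat_lit 0) (XT.nd (nat_lit 234) (nat_lit 0) (nat_lit 0) (XT.nd (nat_lit 78) (nat_lit 76) (nat_lit 0) (XT.lf (nat_lit 0) (nat_lit 9003940579) (nat_lit 152) (nat_lit 22554191353) (nat_lit 76) (nat_lit 41827571154) (nat_lit 12) (nat_lit 5) (nat_lit 14) (nat_lit 5) (nat_lit 13) (nat_lit 4) (nat_lit 398) (nat_lit 261) (nat_lit 121)) (XT.nd (nat_lit 78) (nat_lit 76) (nat_lit 0) (XT.lf (nat_lit 0) (nat_lit 15793664212) (nat_lit 152) (nat_lit 8790330225) (nat_lit 76) (nat_lit 50769786727) (nat_lit 12) (nat_lit 5) (nat_lit 14) (nat_lit 5) (nat_lit 13) (nat_lit 4) (nat_lit 399) (nat_lit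 261) (nat_lit 120)) (XT.lf (nat_lit 0) (nat_lit 5480583810) (nat_lit 76) (nat_lit 17352307196) (nat_lit 152) (nat_lit 54546637698) (nat_lit 11) (nat_lit 5) (nat_lit 12) (nat_lit 5) (nat_lit 13) (nat_lit 4) (nat_lit 400) (nat_lit 261) (nat_lit 119)))) (XT.nd (nat_lit 156) (nat_lit 0) (nat_lit 0) (XT.nd (nat_lit 78) (nat_lit 0) (nat_lit 0) (XT.lf (nat_lit 0) (nat_lit 20347135142) (nat_lit 76) (nat_lit 9818131506) (nat_lit 152) (nat_lit 49298324281) (nat_lit 11) (nat_lit 5) (nat_lit 12) (nat_lit 5) (nat_lit 13) (nat_lit 4) (nat_lit 401) (nat_lit 261) (nat_lit 118)) (XT.lf (nat_lit 0) (nat_lit 35647369152) (nat_lit 76) (nat_lit 2063649206) (nat_lit 152) (nat_lit 43899355898) (nat_lit 11) (nat_lit 5) (nat_lit 12) (nat_lit 5) (nat_lit 13) (nat_lit 4) (nat_lit 402) (nat_lit 261) (nat_lit 117))) (XT.nd (nat_lit 78) (nat_lit 0) (nat_lit 0) (XT.lf (nat_lit 0) (nat_lit 45533626136) (nat_lit 152) (nat_lit 32483986162)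 (nat_lit 0) (nat_lit 5802435618) (nat_lit 11) (nat_lit 5) (nat_lit 13) (nat_lit 4) (nat_lit 11) (nat_lit 4) (nat_lit 403) (nat_lit 261) (nat_lit 116)) (XT.lf (nat_lit 0) (nat_lit 53605075892) (nat_lit 152) (nat_lit 18632771800) (nat_lit 0) (nat_lit 13857740480) (nat_lit 11) (nat_lit 5) (nat_lit 13) (nat_lit 4) (nat_lit 11) (nat_lit 4) (nat_lit 404) (nat_lit 261) (nat_lit 115))))) (XT.nd (nat_lit 234) (nat_lit 76) (nat_lit 0) (XT.nd (nat_lit 78) (nat_lit 76) (nat_lit 0) (XT.lf (nat_lit 0) (nat_lit 61912583292) (nat_lit 152) (nat_lit 4377421957) (nat_lit 0) (nat_lit 22149573226) (nat_lit 11) (nat_lit 5) (nat_lit 13) (nat_lit 4) (nat_lit 11) (nat_lit 4) (nat_lit 405) (nat_lit 261) (nat_lit 114)) (XT.nd (nat_lit 78) (nat_lit 0) (nat_lit 0) (XT.lf (nat_lit 0) (nat_lit 10499400620) (nat_lit 76) (nat_lit 60064933363) (nat_lit 76) (nat_lit 20286705186) (nat_lit 10) (nat_lit 4) (nat_lit 11) (nat_lit 5) (nat_lit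 11) (nat_lit 4) (nat_lit 406) (nat_lit 261) (nat_lit 113)) (XT.lf (nat_lit 0) (nat_lit 25901300370) (nat_lit 76) (nat_lit 53612698350) (nat_lit 76) (nat_lit 13819695308) (nat_lit 10) (nat_lit 4) (nat_lit 11) (nat_lit 5) (nat_lit 11) (nat_lit 4) (nat_lit 407) (nat_lit 261) (nat_lit 112)))) (XT.nd (nat_lit 156) (nat_lit 76) (nat_lit 0) (XT.nd (nat_lit 78) (nat_lit 0) (nat_lit 0) (XT.lf (nat_lit 0) (nat_lit 41754615982) (nat_lit 76) (nat_lit 46971865714) (nat_lit 76) (nat_lit 7164518143) (nat_lit 10) (nat_lit 4) (nat_lit 11) (nat_lit 5) (nat_lit 11) (nat_lit 4) (nat_lit 408) (nat_lit 261) (nat_lit 111)) (XT.lf (nat_lit 0) (nat_lit 58073199867) (nat_lit 76) (nat_lit 40136632785) (nat_lit 76) (nat_lit 315358488) (nat_lit 10) (nat_lit 4) (nat_lit 11) (nat_lit 5) (nat_lit 11) (nat_lit 4) (nat_lit 409) (nat_lit 261) (nat_lit 110))) (XT.nd (nat_lit 78) (nat_lit 0) (nat_lit 0) (XT.lf (nat_lit 0) (nat_lit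 6602368285) (nat_lit 152) (nat_lit 26431987772) (nat_lit 76) (nat_lit 68202271723) (nat_lit 9) (nat_lit 5) (nat_lit 11) (nat_lit 5) (nat_lit 10) (nat_lit 4) (nat_lit 410) (nat_lit 261) (nat_lit 109)) (XT.lf (nat_lit 0) (nat_lit 13716045630) (nat_lit 152) (nat_lit 12004350038) (nat_lit 76) (nat_lit 78309076491) (nat_lit 9) (nat_lit 5) (nat_lit 11) (nat_lit 5) (nat_lit 10) (nat_lit 4) (nat_lit 411) (nat_lit 261) (nat_lit 108))))))) (XT.nd (nat_lit 29952) (nat_lit 0) (nat_lit 14592) (XT.nd (nat_lit 29406) (nat_lit 0) (nat_lit 22496) (XT.nd (nat_lit 29094) (nat_lit 0) (nat_lit 23788) (XT.nd (nat_lit 28938) (nat_lit 0) (nat_lit 24092) (XT.lf (nat_lit 0) (nat_lit 2903212147) (nat_lit 76) (nat_lit 18162738465) (nat_lit 152) (nat_lit 85839467735) (nat_lit 8) (nat_lit 5) (nat_lit 9) (nat_lit 5) (nat_lit 10) (nat_lit 4) (nat_lit 412) (nat_lit 261) (nat_lit 107)) (XT.nd (nat_lit 78) (nat_lit 228) (nat_lit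 0) (XT.lf (nat_lit 0) (nat_lit 2563465552) (nat_lit 228) (nat_lit 333174575) (nat_lit 228) (nat_lit 333174575) (nat_lit 328) (nat_lit 3) (nat_lit 331) (nat_lit 3) (nat_lit 331) (nat_lit 5) (nat_lit 262) (nat_lit 262) (nat_lit 256)) (XT.lf (nat_lit 0) (nat_lit 1418385220) (nat_lit 228) (nat_lit 4074740772) (nat_lit 304) (nat_lit 976527257) (nat_lit 325) (nat_lit 5) (nat_lit 328) (nat_lit 3) (nat_lit 329) (nat_lit 5) (nat_lit 263) (nat_lit 262) (nat_lit 255)))) (XT.nd (nat_lit 156) (nat_lit 0) (nat_lit 0) (XT.nd (nat_lit 78) (nat_lit 304) (nat_lit 0) (XT.lf (nat_lit 0) (nat_lit 4125270212) (nat_lit 228) (nat_lit 988919388) (nat_lit 304) (nat_lit 1368582739) (nat_lit 325) (nat_lit 5) (nat_lit 328) (nat_lit 3) (nat_lit 329) (nat_lit 5) (nat_lit 264) (nat_lit 262) (nat_lit 254)) (XT.lf (nat_lit 0) (nat_lit 325222368) (nat_lit 304) (nat_lit 4326078795) (nat_lit 380) (nat_lit 1847556039) (nat_lit 321)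 (nat_lit 5) (nat_lit 325) (nat_lit 5) (nat_lit 326) (nat_lit 5) (nat_lit 265) (nat_lit 262) (nat_lit 253))) (XT.nd (nat_lit 78) (nat_lit 0) (nat_lit 0) (XT.lf (nat_lit 0) (nat_lit 2948806179) (nat_lit 304) (nat_lit 1146507794) (nat_lit 380) (nat_lit 2422353289) (nat_lit 321) (nat_lit 5) (nat_lit 325) (nat_lit 5) (nat_lit 326) (nat_lit 5) (nat_lit 266) (nat_lit 262) (nat_lit 252)) (XT.lf (nat_lit 76) (nat_lit 2113833496) (nat_lit 0) (nat_lit 3458239798) (nat_lit 380) (nat_lit 967509670) (nat_lit 322) (nat_lit 5) (nat_lit 321) (nat_lit 5) (nat_lit 326) (nat_lit 5) (nat_lit 267) (nat_lit 262) (nat_lit 251))))) (XT.nd (nat_lit 234) (nat_lit 456) (nat_lit 0) (XT.nd (nat_lit 78) (nat_lit 456) (nat_lit 0) (XT.lf (nat_lit 0) (nat_lit 1592064863) (nat_lit 380) (nat_lit 1140322729) (nat_lit 456) (nat_lit 3832028068) (nat_lit 316) (nat_lit 5) (nat_lit 321) (nat_lit 5) (nat_lit 322) (nat_lit 5) (nat_lit 268)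 (nat_lit 262) (nat_lit 250)) (XT.nd (nat_lit 78) (nat_lit 456) (nat_lit 0) (XT.lf (nat_lit 76) (nat_lit 2221682341) (nat_lit 0) (nat_lit 1913407347) (nat_lit 456) (nat_lit 2456989134) (nat_lit 317) (nat_lit 5) (nat_lit 316) (nat_lit 5) (nat_lit 322) (nat_lit 5) (nat_lit 269) (nat_lit 262) (nat_lit 249)) (XT.lf (nat_lit 0) (nat_lit 48777717) (nat_lit 456) (nat_lit 970934820) (nat_lit 532) (nat_lit 5603441242) (nat_lit 310) (nat_lit 5) (nat_lit 316) (nat_lit 5) (nat_lit 317) (nat_lit 5) (nat_lit 270) (nat_lit 262) (nat_lit 248)))) (XT.nd (nat_lit 156) (nat_lit 456) (nat_lit 0) (XT.nd (nat_lit 78) (nat_lit 0) (nat_lit 76) (XT.lf (nat_lit 76) (nat_lit 2499392173) (nat_lit 0) (nat_lit 13634906) (nat_lit 532) (nat_lit 4143566217) (nat_lit 311) (nat_lit 5) (nat_lit 310) (nat_lit 5) (nat_lit 317) (nat_lit 5) (nat_lit 271) (nat_lit 262) (nat_lit 247)) (XT.lf (nat_lit 0) (nat_lit 4982062396) (nat_lit 456)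 (nat_lit 665099498) (nat_lit 76) (nat_lit 1046087075) (nat_lit 311) (nat_lit 5) (nat_lit 317) (nat_lit 5) (nat_lit 312) (nat_lit 5) (nat_lit 272) (nat_lit 262) (nat_lit 246))) (XT.nd (nat_lit 78) (nat_lit 0) (nat_lit 0) (XT.lf (nat_lit 0) (nat_lit 719999673) (nat_lit 532) (nat_lit 3807553737) (nat_lit 76) (nat_lit 2205112676) (nat_lit 304) (nat_lit 5) (nat_lit 311) (nat_lit 5) (nat_lit 305) (nat_lit 5) (nat_lit 273) (nat_lit 262) (nat_lit 245)) (XT.lf (nat_lit 0) (nat_lit 3111239059) (nat_lit 532) (nat_lit 211147740) (nat_lit 76) (nat_lit 3452852277) (nat_lit 304) (nat_lit 5) (nat_lit 311) (nat_lit 5) (nat_lit 305) (nat_lit 5) (nat_lit 274) (nat_lit 262) (nat_lit 244)))))) (XT.nd (nat_lit 546) (nat_lit 5168) (nat_lit 0) (XT.nd (nat_lit 234) (nat_lit 1520) (nat_lit 0) (XT.nd (nat_lit 78) (nat_lit 684) (nat_lit 0) (XT.lf (nat_lit 0) (nat_lit 3505498034) (nat_lit 532) (nat_lit 2019626240) (nat_lit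 608) (nat_lit 1295560975) (nat_lit 297) (nat_lit 5) (nat_lit 304) (nat_lit 5) (nat_lit 305) (nat_lit 5) (nat_lit 275) (nat_lit 262) (nat_lit 243)) (XT.nd (nat_lit 78) (nat_lit 0) (nat_lit 0) (XT.lf (nat_lit 0) (nat_lit 410276913) (nat_lit 608) (nat_lit 635600197) (nat_lit 684) (nat_lit 5823675951) (nat_lit 288) (nat_lit 5) (nat_lit 296) (nat_lit 5) (nat_lit 297) (nat_lit 5) (nat_lit 276) (nat_lit 262) (nat_lit 242)) (XT.lf (nat_lit 0) (nat_lit 3393154000) (nat_lit 684) (nat_lit 2683599421) (nat_lit 76) (nat_lit 844012406) (nat_lit 288) (nat_lit 5) (nat_lit 297) (nat_lit 5) (nat_lit 289) (nat_lit 5) (nat_lit 277) (nat_lit 262) (nat_lit 241)))) (XT.nd (nat_lit 156) (nat_lit 760) (nat_lit 0) (XT.nd (nat_lit 78) (nat_lit 76) (nat_lit 0) (XT.lf (nat_lit 0) (nat_lit 1164073062) (nat_lit 684) (nat_lit 4586815646) (nat_lit 760) (nat_lit 1224534594) (nat_lit 279) (nat_lit 5) (nat_lit 288) (nat_lit 5) (nat_lit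 289) (nat_lit 5) (nat_lit 278) (nat_lit 262) (nat_lit 240)) (XT.lf (nat_lit 0) (nat_lit 1076016860) (nat_lit 760) (nat_lit 1918779340) (nat_lit 76) (nat_lit 4038173278) (nat_lit 278) (nat_lit 5) (nat_lit 288) (nat_lit 5) (nat_lit 279) (nat_lit 5) (nat_lit 279) (nat_lit 262) (nat_lit 239))) (XT.nd (nat_lit 78) (nat_lit 0) (nat_lit 0) (XT.lf (nat_lit 0) (nat_lit 2061627155) (nat_lit 760) (nat_lit 1304803192) (nat_lit 836) (nat_lit 3727184466) (nat_lit 268) (nat_lit 5) (nat_lit 278) (nat_lit 5) (nat_lit 279) (nat_lit 5) (nat_lit 280) (nat_lit 262) (nat_lit 238)) (XT.lf (nat_lit 0) (nat_lit 5676732861) (nat_lit 836) (nat_lit 1018024698) (nat_lit 76) (nat_lit 462883948) (nat_lit 268) (nat_lit 5) (nat_lit 279) (nat_lit 5) (nat_lit 269) (nat_lit 5) (nat_lit 281) (nat_lit 262) (nat_lit 237))))) (XT.nd (nat_lit 312) (nat_lit 2280) (nat_lit 0) (XT.nd (nat_lit 156) (nat_lit 1976) (nat_lit 0) (XT.nd (nat_lit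 78) (nat_lit 0) (nat_lit 0) (XT.lf (nat_lit 0) (nat_lit 788455379) (nat_lit 912) (nat_lit 4125386956) (nat_lit 76) (nat_lit 2310439733) (nat_lit 256) (nat_lit 5) (nat_lit 268) (nat_lit 5) (nat_lit 257) (nat_lit 5) (nat_lit 282) (nat_lit 262) (nat_lit 236)) (XT.lf (nat_lit 0) (nat_lit 3036785446) (nat_lit 912) (nat_lit 5309960) (nat_lit 76) (nat_lit 4252256109) (nat_lit 256) (nat_lit 5) (nat_lit 268) (nat_lit 5) (nat_lit 257) (nat_lit 5) (nat_lit 283) (nat_lit 262) (nat_lit 235))) (XT.nd (nat_lit 78) (nat_lit 1064) (nat_lit 0) (XT.lf (nat_lit 0) (nat_lit 4265167743) (nat_lit 912) (nat_lit 1060696183) (nat_lit 988) (nat_lit 2041546612) (nat_lit 244) (nat_lit 5) (nat_lit 256) (nat_lit 5) (nat_lit 257) (nat_lit 5) (nat_lit 284) (nat_lit 262) (nat_lit 234)) (XT.lf (nat_lit 0) (nat_lit 190340744) (nat_lit 1064) (nat_lit 6269273395) (nat_lit 76) (nat_lit 984436518) (nat_lit 230) (nat_lit 5) (nat_lit 244)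 (nat_lit 5) (nat_lit 231) (nat_lit 5) (nat_lit 285) (nat_lit 262) (nat_lit 233)))) (XT.nd (nat_lit 156) (nat_lit 1216) (nat_lit 0) (XT.nd (nat_lit 78) (nat_lit 1064) (nat_lit 0) (XT.lf (nat_lit 0) (nat_lit 2424777297) (nat_lit 1064) (nat_lit 1968237534) (nat_lit 76) (nat_lit 3130149093) (nat_lit 230) (nat_lit 5) (nat_lit 244) (nat_lit 5) (nat_lit 231) (nat_lit 5) (nat_lit 286) (nat_lit 262) (nat_lit 232)) (XT.lf (nat_lit 0) (nat_lit 2452538948) (nat_lit 1064) (nat_lit 2233678414) (nat_lit 1140) (nat_lit 2919710922) (nat_lit 216) (nat_lit 5) (nat_lit 230) (nat_lit 5) (nat_lit 231) (nat_lit 5) (nat_lit 287) (nat_lit 262) (nat_lit 231))) (XT.nd (nat_lit 78) (nat_lit 1216) (nat_lit 0) (XT.lf (nat_lit 0) (nat_lit 6973239433) (nat_lit 1140) (nat_lit 702984895) (nat_lit 76) (nat_lit 16293654) (nat_lit 216) (nat_lit 5) (nat_lit 231) (nat_lit 5) (nat_lit 217) (nat_lit 5) (nat_lit 288) (nat_lit 262) (nat_lit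 230)) (XT.lf (nat_lit 0) (nat_lit 1515855684) (nat_lit 1216) (nat_lit 3919068213) (nat_lit 76) (nat_lit 2346439204) (nat_lit 200) (nat_lit 5) (nat_lit 216) (nat_lit 5) (nat_lit 201) (nat_lit 5) (nat_lit 289) (nat_lit 262) (nat_lit 229))))))))
noncomputable def xc108 : XT := (XT.nd (nat_lit 2184) (nat_lit 3876) (nat_lit 0) (XT.nd (nat_lit 1092) (nat_lit 3268) (nat_lit 0) (XT.nd (nat_lit 546) (nat_lit 2052) (nat_lit 0) (XT.nd (nat_lit 234) (nat_lit 1140) (nat_lit 0) (XT.nd (nat_lit 78) (nat_lit 684) (nat_lit 0) (XT.lf (nat_lit 0) (nat_lit 654276385) (nat_lit 760) (nat_lit 3102904075) (nat_lit 836) (nat_lit 4116939911) (nat_lit 190) (nat_lit 5) (nat_lit 200) (nat_lit 5) (nat_lit 201) (nat_lit 5) (nat_lit 290) (nat_lit 262) (nat_lit 228)) (XT.nd (nat_lit 78) (nat_lit 684) (nat_lit 0) (XT.lf (nat_lit 0) (nat_lit 5388140904) (nat_lit 760) (nat_lit 658509480) (nat_lit 836) (nat_lit 1923649068) (nat_lit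 190) (nat_lit 5) (nat_lit 200) (nat_lit 5) (nat_lit 201) (nat_lit 5) (nat_lit 291) (nat_lit 262) (nat_lit 227)) (XT.lf (nat_lit 0) (nat_lit 310358117) (nat_lit 684) (nat_lit 5911194554) (nat_lit 76) (nat_lit 1848333055) (nat_lit 181) (nat_lit 5) (nat_lit 190) (nat_lit 5) (nat_lit 182) (nat_lit 5) (nat_lit 292) (nat_lit 262) (nat_lit 226)))) (XT.nd (nat_lit 156) (nat_lit 608) (nat_lit 0) (XT.nd (nat_lit 78) (nat_lit 532) (nat_lit 0) (XT.lf (nat_lit 0) (nat_lit 2549130272) (nat_lit 684) (nat_lit 1160572412) (nat_lit 76) (nat_lit 4462953911) (nat_lit 181) (nat_lit 5) (nat_lit 190) (nat_lit 5) (nat_lit 182) (nat_lit 5) (nat_lit 293) (nat_lit 262) (nat_lit 225)) (XT.lf (nat_lit 0) (nat_lit 3749651109) (nat_lit 532) (nat_lit 1086657837) (nat_lit 608) (nat_lit 3442823212) (nat_lit 174) (nat_lit 5) (nat_lit 181) (nat_lit 5) (nat_lit 182) (nat_lit 5) (nat_lit 294) (nat_lit 262) (nat_lit 224))) (XT.nd (nat_lit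 78) (nat_lit 76) (nat_lit 0) (XT.lf (nat_lit 0) (nat_lit 377049334) (nat_lit 532) (nat_lit 6792283144) (nat_lit 608) (nat_lit 1220209775) (nat_lit 167) (nat_lit 5) (nat_lit 174) (nat_lit 5) (nat_lit 175) (nat_lit 5) (nat_lit 295) (nat_lit 262) (nat_lit 223)) (XT.lf (nat_lit 0) (nat_lit 1051860383) (nat_lit 608) (nat_lit 3057498275) (nat_lit 76) (nat_lit 4393542366) (nat_lit 166) (nat_lit 5) (nat_lit 174) (nat_lit 5) (nat_lit 167) (nat_lit 5) (nat_lit 296) (nat_lit 262) (nat_lit 222))))) (XT.nd (nat_lit 234) (nat_lit 988) (nat_lit 0) (XT.nd (nat_lit 78) (nat_lit 532) (nat_lit 0) (XT.lf (nat_lit 0) (nat_lit 2017370090) (nat_lit 532) (nat_lit 1317831722) (nat_lit 608) (nat_lit 5285119587) (nat_lit 159) (nat_lit 5) (nat_lit 166) (nat_lit 5) (nat_lit 167) (nat_lit 5) (nat_lit 297) (nat_lit 262) (nat_lit 221)) (XT.nd (nat_lit 78) (nat_lit 532) (nat_lit 0) (XT.lf (nat_lit 0) (nat_lit 5682365429) (nat_lit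 608) (nat_lit 1505494918) (nat_lit 76) (nat_lit 1553595158) (nat_lit 159) (nat_lit 5) (nat_lit 167) (nat_lit 5) (nat_lit 160) (nat_lit 5) (nat_lit 298) (nat_lit 262) (nat_lit 220)) (XT.lf (nat_lit 0) (nat_lit 3749627190) (nat_lit 532) (nat_lit 4350059228) (nat_lit 608) (nat_lit 766594243) (nat_lit 152) (nat_lit 5) (nat_lit 159) (nat_lit 5) (nat_lit 160) (nat_lit 5) (nat_lit 299) (nat_lit 262) (nat_lit 219)))) (XT.nd (nat_lit 156) (nat_lit 456) (nat_lit 0) (XT.nd (nat_lit 78) (nat_lit 0) (nat_lit 0) (XT.lf (nat_lit 0) (nat_lit 130071356) (nat_lit 456) (nat_lit 1401125246) (nat_lit 532) (nat_lit 7464211429) (nat_lit 145) (nat_lit 5) (nat_lit 151) (nat_lit 5) (nat_lit 152) (nat_lit 5) (nat_lit 300) (nat_lit 262) (nat_lit 218)) (XT.lf (nat_lit 0) (nat_lit 3902281570) (nat_lit 532) (nat_lit 3568332331) (nat_lit 76) (nat_lit 1657019690) (nat_lit 145) (nat_lit 5) (nat_lit 152) (nat_lit 5) (nat_lit 146)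 (nat_lit 5) (nat_lit 301) (nat_lit 262) (nat_lit 217))) (XT.nd (nat_lit 78) (nat_lit 0) (nat_lit 0) (XT.lf (nat_lit 0) (nat_lit 1854829298) (nat_lit 456) (nat_lit 4474633775) (nat_lit 532) (nat_lit 2934857730) (nat_lit 139) (nat_lit 5) (nat_lit 145) (nat_lit 5) (nat_lit 146) (nat_lit 5) (nat_lit 302) (nat_lit 262) (nat_lit 216)) (XT.lf (nat_lit 0) (nat_lit 7459298319) (nat_lit 456) (nat_lit 1360293653) (nat_lit 532) (nat_lit 585855226) (nat_lit 139) (nat_lit 5) (nat_lit 145) (nat_lit 5) (nat_lit 146) (nat_lit 5) (nat_lit 303) (nat_lit 262) (nat_lit 215)))))) (XT.nd (nat_lit 546) (nat_lit 1520) (nat_lit 0) (XT.nd (nat_lit 234) (nat_lit 836) (nat_lit 0) (XT.nd (nat_lit 78) (nat_lit 456) (nat_lit 0) (XT.lf (nat_lit 0) (nat_lit 1806377991) (nat_lit 456) (nat_lit 5887384427) (nat_lit 76) (nat_lit 1856300045) (nat_lit 133) (nat_lit 5) (nat_lit 139) (nat_lit 5) (nat_lit 134) (nat_lit 5) (nat_lit 304) (nat_lit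 262) (nat_lit 214)) (XT.nd (nat_lit 78) (nat_lit 456) (nat_lit 0) (XT.lf (nat_lit 0) (nat_lit 4247583814) (nat_lit 456) (nat_lit 292859567) (nat_lit 76) (nat_lit 5158768285) (nat_lit 133) (nat_lit 5) (nat_lit 139) (nat_lit 5) (nat_lit 134) (nat_lit 5) (nat_lit 305) (nat_lit 262) (nat_lit 213)) (XT.lf (nat_lit 0) (nat_lit 5524256977) (nat_lit 456) (nat_lit 1247828262) (nat_lit 532) (nat_lit 3080486106) (nat_lit 127) (nat_lit 5) (nat_lit 133) (nat_lit 5) (nat_lit 134) (nat_lit 5) (nat_lit 306) (nat_lit 262) (nat_lit 212)))) (XT.nd (nat_lit 156) (nat_lit 380) (nat_lit 0) (XT.nd (nat_lit 78) (nat_lit 76) (nat_lit 0) (XT.lf (nat_lit 0) (nat_lit 1465684103) (nat_lit 380) (nat_lit 7901925889) (nat_lit 456) (nat_lit 643099860) (nat_lit 122) (nat_lit 5) (nat_lit 127) (nat_lit 5) (nat_lit 128) (nat_lit 5) (nat_lit 307) (nat_lit 262) (nat_lit 211)) (XT.lf (nat_lit 0) (nat_lit 1845346303) (nat_lit 456) (nat_lit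 2734866120) (nat_lit 76) (nat_lit 5592444803) (nat_lit 121) (nat_lit 5) (nat_lit 127) (nat_lit 5) (nat_lit 122) (nat_lit 5) (nat_lit 308) (nat_lit 262) (nat_lit 210))) (XT.nd (nat_lit 78) (nat_lit 0) (nat_lit 0) (XT.lf (nat_lit 0) (nat_lit 3254232366) (nat_lit 380) (nat_lit 1131679404) (nat_lit 456) (nat_lit 5953682054) (nat_lit 116) (nat_lit 5) (nat_lit 121) (nat_lit 5) (nat_lit 122) (nat_lit 5) (nat_lit 309) (nat_lit 262) (nat_lit 209)) (XT.lf (nat_lit 0) (nat_lit 7013537788) (nat_lit 456) (nat_lit 1108294013) (nat_lit 76) (nat_lit 2389414007) (nat_lit 116) (nat_lit 5) (nat_lit 122) (nat_lit 5) (nat_lit 117) (nat_lit 5) (nat_lit 310) (nat_lit 262) (nat_lit 208))))) (XT.nd (nat_lit 234) (nat_lit 684) (nat_lit 0) (XT.nd (nat_lit 78) (nat_lit 456) (nat_lit 0) (XT.lf (nat_lit 0) (nat_lit 5084534261) (nat_lit 380) (nat_lit 4656400733) (nat_lit 456) (nat_lit 946515727) (nat_lit 111) (nat_lit 5) (nat_lit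 116) (nat_lit 5) (nat_lit 117) (nat_lit 5) (nat_lit 311) (nat_lit 262) (nat_lit 207)) (XT.nd (nat_lit 78) (nat_lit 0) (nat_lit 0) (XT.lf (nat_lit 0) (nat_lit 560054816) (nat_lit 380) (nat_lit 1066136948) (nat_lit 456) (nat_lit 9242961443) (nat_lit 105) (nat_lit 5) (nat_lit 110) (nat_lit 5) (nat_lit 111) (nat_lit 5) (nat_lit 312) (nat_lit 262) (nat_lit 206)) (XT.lf (nat_lit 0) (nat_lit 4301107360) (nat_lit 456) (nat_lit 4119475291) (nat_lit 76) (nat_lit 2634150404) (nat_lit 105) (nat_lit 5) (nat_lit 111) (nat_lit 5) (nat_lit 106) (nat_lit 5) (nat_lit 313) (nat_lit 262) (nat_lit 205)))) (XT.nd (nat_lit 156) (nat_lit 380) (nat_lit 0) (XT.nd (nat_lit 78) (nat_lit 0) (nat_lit 0) (XT.lf (nat_lit 0) (nat_lit 2238074980) (nat_lit 304) (nat_lit 4812996503) (nat_lit 380) (nat_lit 4194992900) (nat_lit 101) (nat_lit 5) (nat_lit 105) (nat_lit 5) (nat_lit 106) (nat_lit 5) (nat_lit 314) (nat_lit 262) (nat_lit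 204)) (XT.lf (nat_lit 0) (nat_lit 8820417161) (nat_lit 304) (nat_lit 1068048703) (nat_lit 380) (nat_lit 1554549141) (nat_lit 101) (nat_lit 5) (nat_lit 105) (nat_lit 5) (nat_lit 106) (nat_lit 5) (nat_lit 315) (nat_lit 262) (nat_lit 203))) (XT.nd (nat_lit 78) (nat_lit 0) (nat_lit 0) (XT.lf (nat_lit 0) (nat_lit 1171735611) (nat_lit 380) (nat_lit 7701677530) (nat_lit 76) (nat_lit 2771269851) (nat_lit 96) (nat_lit 5) (nat_lit 101) (nat_lit 5) (nat_lit 97) (nat_lit 5) (nat_lit 316) (nat_lit 262) (nat_lit 202)) (XT.lf (nat_lit 0) (nat_lit 3950349243) (nat_lit 380) (nat_lit 1168619615) (nat_lit 76) (nat_lit 6732941834) (nat_lit 96) (nat_lit 5) (nat_lit 101) (nat_lit 5) (nat_lit 97) (nat_lit 5) (nat_lit 317) (nat_lit 262) (nat_lit 201))))))) (XT.nd (nat_lit 1092) (nat_lit 1596) (nat_lit 0) (XT.nd (nat_lit 546) (nat_lit 1064) (nat_lit 0) (XT.nd (nat_lit 234) (nat_lit 532) (nat_lit 0) (XT.nd (nat_lit 78) (nat_lit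 380) (nat_lit 0) (XT.lf (nat_lit 0) (nat_lit 5621462769) (nat_lit 304) (nat_lit 1210395640) (nat_lit 380) (nat_lit 5232934955) (nat_lit 92) (nat_lit 5) (nat_lit 96) (nat_lit 5) (nat_lit 97) (nat_lit 5) (nat_lit 318) (nat_lit 262) (nat_lit 200)) (XT.nd (nat_lit 78) (nat_lit 76) (nat_lit 0) (XT.lf (nat_lit 0) (nat_lit 284780558) (nat_lit 304) (nat_lit 9522656154) (nat_lit 380) (nat_lit 2476420633) (nat_lit 88) (nat_lit 5) (nat_lit 92) (nat_lit 5) (nat_lit 93) (nat_lit 5) (nat_lit 319) (nat_lit 262) (nat_lit 199)) (XT.lf (nat_lit 0) (nat_lit 399479224) (nat_lit 380) (nat_lit 5226146732) (nat_lit 76) (nat_lit 6882471779) (nat_lit 87) (nat_lit 5) (nat_lit 92) (nat_lit 5) (nat_lit 88) (nat_lit 5) (nat_lit 320) (nat_lit 262) (nat_lit 198)))) (XT.nd (nat_lit 156) (nat_lit 304) (nat_lit 0) (XT.nd (nat_lit 78) (nat_lit 0) (nat_lit 0) (XT.lf (nat_lit 0) (nat_lit 1710968719) (nat_lit 228) (nat_lit 1584424809)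 (nat_lit 304) (nat_lit 9443452458) (nat_lit 84) (nat_lit 5) (nat_lit 87) (nat_lit 5) (nat_lit 88) (nat_lit 5) (nat_lit 321) (nat_lit 262) (nat_lit 197)) (XT.lf (nat_lit 0) (nat_lit 6323686969) (nat_lit 304) (nat_lit 4085160217) (nat_lit 76) (nat_lit 2566325365) (nat_lit 84) (nat_lit 5) (nat_lit 88) (nat_lit 5) (nat_lit 85) (nat_lit 5) (nat_lit 322) (nat_lit 262) (nat_lit 196))) (XT.nd (nat_lit 78) (nat_lit 0) (nat_lit 0) (XT.lf (nat_lit 0) (nat_lit 3063076682) (nat_lit 304) (nat_lit 6393256817) (nat_lit 380) (nat_lit 3761870597) (nat_lit 80) (nat_lit 5) (nat_lit 84) (nat_lit 5) (nat_lit 85) (nat_lit 5) (nat_lit 323) (nat_lit 262) (nat_lit 195)) (XT.lf (nat_lit 0) (nat_lit 10463115799) (nat_lit 304) (nat_lit 2229943767) (nat_lit 380) (nat_lit 775183739) (nat_lit 80) (nat_lit 5) (nat_lit 84) (nat_lit 5) (nat_lit 85) (nat_lit 5) (nat_lit 324) (nat_lit 262) (nat_lit 194))))) (XT.nd (nat_lit 234) (nat_lit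 532) (nat_lit 0) (XT.nd (nat_lit 78) (nat_lit 228) (nat_lit 0) (XT.lf (nat_lit 0) (nat_lit 2287988239) (nat_lit 304) (nat_lit 9368067722) (nat_lit 76) (nat_lit 2068129106) (nat_lit 76) (nat_lit 5) (nat_lit 80) (nat_lit 5) (nat_lit 77) (nat_lit 5) (nat_lit 325) (nat_lit 262) (nat_lit 193)) (XT.nd (nat_lit 78) (nat_lit 228) (nat_lit 0) (XT.lf (nat_lit 0) (nat_lit 5449947424) (nat_lit 304) (nat_lit 2063138011) (nat_lit 76) (nat_lit 6473833266) (nat_lit 76) (nat_lit 5) (nat_lit 80) (nat_lit 5) (nat_lit 77) (nat_lit 5) (nat_lit 326) (nat_lit 262) (nat_lit 192)) (XT.lf (nat_lit 0) (nat_lit 5524083065) (nat_lit 228) (nat_lit 3206411800) (nat_lit 304) (nat_lit 5526345117) (nat_lit 73) (nat_lit 5) (nat_lit 76) (nat_lit 5) (nat_lit 77) (nat_lit 5) (nat_lit 327) (nat_lit 262) (nat_lit 191)))) (XT.nd (nat_lit 156) (nat_lit 228) (nat_lit 0) (XT.nd (nat_lit 78) (nat_lit 304) (nat_lit 0) (XT.lf (nat_lit 0) (nat_lit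 12113229266) (nat_lit 304) (nat_lit 1209997381) (nat_lit 76) (nat_lit 1211536147) (nat_lit 73) (nat_lit 5) (nat_lit 77) (nat_lit 5) (nat_lit 74) (nat_lit 5) (nat_lit 328) (nat_lit 262) (nat_lit 190)) (XT.lf (nat_lit 0) (nat_lit 828786921) (nat_lit 304) (nat_lit 8235475991) (nat_lit 76) (nat_lit 5754527049) (nat_lit 69) (nat_lit 5) (nat_lit 73) (nat_lit 5) (nat_lit 70) (nat_lit 5) (nat_lit 329) (nat_lit 262) (nat_lit 189))) (XT.nd (nat_lit 78) (nat_lit 228) (nat_lit 0) (XT.lf (nat_lit 0) (nat_lit 4112161458) (nat_lit 304) (nat_lit 543629626) (nat_lit 76) (nat_lit 10455316712) (nat_lit 69) (nat_lit 5) (nat_lit 73) (nat_lit 5) (nat_lit 70) (nat_lit 5) (nat_lit 330) (nat_lit 262) (nat_lit 188)) (XT.lf (nat_lit 0) (nat_lit 7482467350) (nat_lit 228) (nat_lit 56190422) (nat_lit 304) (nat_lit 7872213891) (nat_lit 66) (nat_lit 5) (nat_lit 69) (nat_lit 5) (nat_lit 70) (nat_lit 5) (nat_lit 331) (nat_lit 262)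 (nat_lit 187)))))) (XT.nd (nat_lit 546) (nat_lit 684) (nat_lit 0) (XT.nd (nat_lit 234) (nat_lit 380) (nat_lit 0) (XT.nd (nat_lit 78) (nat_lit 532) (nat_lit 0) (XT.lf (nat_lit 0) (nat_lit 11091432561) (nat_lit 304) (nat_lit 46801495) (nat_lit 76) (nat_lit 4580704556) (nat_lit 66) (nat_lit 5) (nat_lit 70) (nat_lit 5) (nat_lit 67) (nat_lit 5) (nat_lit 332) (nat_lit 262) (nat_lit 186)) (XT.nd (nat_lit 78) (nat_lit 304) (nat_lit 0) (XT.lf (nat_lit 0) (nat_lit 8188961007) (nat_lit 228) (nat_lit 6614830583) (nat_lit 304) (nat_lit 1230880195) (nat_lit 63) (nat_lit 5) (nat_lit 66) (nat_lit 5) (nat_lit 67) (nat_lit 5) (nat_lit 333) (nat_lit 262) (nat_lit 185)) (XT.lf (nat_lit 0) (nat_lit 254399213) (nat_lit 228) (nat_lit 1945745310) (nat_lit 304) (nat_lit 14159789420) (nat_lit 59) (nat_lit 5) (nat_lit 62) (nat_lit 5) (nat_lit 63) (nat_lit 5) (nat_lit 334) (nat_lit 262) (nat_lit 184)))) (XT.nd (nat_lit 156)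 (nat_lit 228) (nat_lit 0) (XT.nd (nat_lit 78) (nat_lit 152) (nat_lit 0) (XT.lf (nat_lit 0) (nat_lit 5790940772) (nat_lit 304) (nat_lit 8016617316) (nat_lit 76) (nat_lit 2884595897) (nat_lit 59) (nat_lit 5) (nat_lit 63) (nat_lit 5) (nat_lit 60) (nat_lit 5) (nat_lit 335) (nat_lit 262) (nat_lit 183)) (XT.lf (nat_lit 0) (nat_lit 260112726) (nat_lit 152) (nat_lit 9225914006) (nat_lit 228) (nat_lit 7548429581) (nat_lit 57) (nat_lit 5) (nat_lit 59) (nat_lit 5) (nat_lit 60) (nat_lit 5) (nat_lit 336) (nat_lit 262) (nat_lit 182))) (XT.nd (nat_lit 78) (nat_lit 228) (nat_lit 0) (XT.lf (nat_lit 0) (nat_lit 8909210325) (nat_lit 152) (nat_lit 4438854606) (nat_lit 228) (nat_lit 4037292076) (nat_lit 57) (nat_lit 5) (nat_lit 59) (nat_lit 5) (nat_lit 60) (nat_lit 5) (nat_lit 337) (nat_lit 262) (nat_lit 181)) (XT.lf (nat_lit 0) (nat_lit 27111284) (nat_lit 228) (nat_lit 17279568786) (nat_lit 304) (nat_lit 440695109)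 (nat_lit 54) (nat_lit 5) (nat_lit 57) (nat_lit 5) (nat_lit 58) (nat_lit 5) (nat_lit 338) (nat_lit 262) (nat_lit 180))))) (XT.nd (nat_lit 312) (nat_lit 456) (nat_lit 0) (XT.nd (nat_lit 156) (nat_lit 152) (nat_lit 0) (XT.nd (nat_lit 78) (nat_lit 0) (nat_lit 0) (XT.lf (nat_lit 0) (nat_lit 3306308585) (nat_lit 304) (nat_lit 9274426448) (nat_lit 76) (nat_lit 5535402982) (nat_lit 53) (nat_lit 5) (nat_lit 57) (nat_lit 5) (nat_lit 54) (nat_lit 5) (nat_lit 339) (nat_lit 262) (nat_lit 179)) (XT.lf (nat_lit 0) (nat_lit 7133377807) (nat_lit 304) (nat_lit 618208134) (nat_lit 76) (nat_lit 10744962424) (nat_lit 53) (nat_lit 5) (nat_lit 57) (nat_lit 5) (nat_lit 54) (nat_lit 5) (nat_lit 340) (nat_lit 262) (nat_lit 178))) (XT.nd (nat_lit 78) (nat_lit 0) (nat_lit 0) (XT.lf (nat_lit 0) (nat_lit 8424584960) (nat_lit 152) (nat_lit 2708853450) (nat_lit 228) (nat_lit 7753197837) (nat_lit 51) (nat_lit 5) (nat_lit 53) (nat_lit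 5) (nat_lit 54) (nat_lit 5) (nat_lit 341) (nat_lit 262) (nat_lit 177)) (XT.lf (nat_lit 0) (nat_lit 15261057680) (nat_lit 228) (nat_lit 1598538150) (nat_lit 76) (nat_lit 2428614522) (nat_lit 51) (nat_lit 5) (nat_lit 54) (nat_lit 5) (nat_lit 52) (nat_lit 5) (nat_lit 342) (nat_lit 262) (nat_lit 176)))) (XT.nd (nat_lit 156) (nat_lit 152) (nat_lit 0) (XT.nd (nat_lit 78) (nat_lit 76) (nat_lit 0) (XT.lf (nat_lit 0) (nat_lit 7616092518) (nat_lit 228) (nat_lit 11974466657) (nat_lit 304) (nat_lit 108940886) (nat_lit 48) (nat_lit 5) (nat_lit 51) (nat_lit 5) (nat_lit 52) (nat_lit 5) (nat_lit 343) (nat_lit 262) (nat_lit 175)) (XT.lf (nat_lit 0) (nat_lit 3844583272) (nat_lit 304) (nat_lit 3057292135) (nat_lit 76) (nat_lit 13220298294) (nat_lit 47) (nat_lit 5) (nat_lit 51) (nat_lit 5) (nat_lit 48) (nat_lit 5) (nat_lit 344) (nat_lit 262) (nat_lit 174))) (XT.nd (nat_lit 78) (nat_lit 0) (nat_lit 0) (XT.lf (nat_lit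 0) (nat_lit 6326374867) (nat_lit 152) (nat_lit 1627690255) (nat_lit 228) (nat_lit 12602252965) (nat_lit 45) (nat_lit 5) (nat_lit 47) (nat_lit 5) (nat_lit 48) (nat_lit 5) (nat_lit 345) (nat_lit 262) (nat_lit 173)) (XT.lf (nat_lit 0) (nat_lit 12233455196) (nat_lit 228) (nat_lit 5020972263) (nat_lit 76) (nat_lit 3747669510) (nat_lit 45) (nat_lit 5) (nat_lit 48) (nat_lit 5) (nat_lit 46) (nat_lit 5) (nat_lit 346) (nat_lit 262) (nat_lit 172))))))))
noncomputable def xc109 : XT := (XT.nd (nat_lit 2184) (nat_lit 760) (nat_lit 0) (XT.nd (nat_lit 1092) (nat_lit 760) (nat_lit 0) (XT.nd (nat_lit 546) (nat_lit 532) (nat_lit 0) (XT.nd (nat_lit 234) (nat_lit 152) (nat_lit 0) (XT.nd (nat_lit 78) (nat_lit 228) (nat_lit 0) (XT.lf (nat_lit 0) (nat_lit 4501273535) (nat_lit 152) (nat_lit 12178825691) (nat_lit 228) (nat_lit 4779992443) (nat_lit 43) (nat_lit 5) (nat_lit 45) (nat_lit 5) (nat_lit 46) (nat_lit 5) (nat_lit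 347) (nat_lit 262) (nat_lit 171)) (XT.nd (nat_lit 78) (nat_lit 228) (nat_lit 0) (XT.lf (nat_lit 0) (nat_lit 14377737456) (nat_lit 152) (nat_lit 6912861637) (nat_lit 228) (nat_lit 640321789) (nat_lit 43) (nat_lit 5) (nat_lit 45) (nat_lit 5) (nat_lit 46) (nat_lit 5) (nat_lit 348) (nat_lit 262) (nat_lit 170)) (XT.lf (nat_lit 0) (nat_lit 2107130169) (nat_lit 152) (nat_lit 1446097177) (nat_lit 228) (nat_lit 18861598664) (nat_lit 40) (nat_lit 5) (nat_lit 42) (nat_lit 5) (nat_lit 43) (nat_lit 5) (nat_lit 349) (nat_lit 262) (nat_lit 169)))) (XT.nd (nat_lit 156) (nat_lit 152) (nat_lit 0) (XT.nd (nat_lit 78) (nat_lit 0) (nat_lit 0) (XT.lf (nat_lit 0) (nat_lit 7957231716) (nat_lit 228) (nat_lit 10780102361) (nat_lit 76) (nat_lit 4172806120) (nat_lit 40) (nat_lit 5) (nat_lit 43) (nat_lit 5) (nat_lit 41) (nat_lit 5) (nat_lit 350) (nat_lit 262) (nat_lit 168)) (XT.lf (nat_lit 0) (nat_lit 12488514271) (nat_lit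 228) (nat_lit 1013918934) (nat_lit 76) (nat_lit 9918033298) (nat_lit 40) (nat_lit 5) (nat_lit 43) (nat_lit 5) (nat_lit 41) (nat_lit 5) (nat_lit 351) (nat_lit 262) (nat_lit 167))) (XT.nd (nat_lit 78) (nat_lit 0) (nat_lit 0) (XT.lf (nat_lit 0) (nat_lit 9192670886) (nat_lit 152) (nat_lit 8032828303) (nat_lit 228) (nat_lit 6718517710) (nat_lit 38) (nat_lit 5) (nat_lit 40) (nat_lit 5) (nat_lit 41) (nat_lit 5) (nat_lit 352) (nat_lit 262) (nat_lit 166)) (XT.lf (nat_lit 0) (nat_lit 19694594863) (nat_lit 152) (nat_lit 2401873274) (nat_lit 228) (nat_lit 2387056444) (nat_lit 38) (nat_lit 5) (nat_lit 40) (nat_lit 5) (nat_lit 41) (nat_lit 5) (nat_lit 353) (nat_lit 262) (nat_lit 165))))) (XT.nd (nat_lit 234) (nat_lit 152) (nat_lit 0) (XT.nd (nat_lit 78) (nat_lit 152) (nat_lit 0) (XT.lf (nat_lit 0) (nat_lit 2102270187) (nat_lit 228) (nat_lit 19541610440) (nat_lit 76) (nat_lit 3392693288) (nat_lit 35) (nat_lit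 5) (nat_lit 38) (nat_lit 5) (nat_lit 36) (nat_lit 5) (nat_lit 354) (nat_lit 262) (nat_lit 164)) (XT.nd (nat_lit 78) (nat_lit 152) (nat_lit 0) (XT.lf (nat_lit 0) (nat_lit 6733008945) (nat_lit 228) (nat_lit 9498317391) (nat_lit 76) (nat_lit 9372544487) (nat_lit 35) (nat_lit 5) (nat_lit 38) (nat_lit 5) (nat_lit 36) (nat_lit 5) (nat_lit 355) (nat_lit 262) (nat_lit 163)) (XT.lf (nat_lit 0) (nat_lit 832221557) (nat_lit 152) (nat_lit 10661061020) (nat_lit 228) (nat_lit 14695191905) (nat_lit 33) (nat_lit 5) (nat_lit 35) (nat_lit 5) (nat_lit 36) (nat_lit 5) (nat_lit 356) (nat_lit 262) (nat_lit 162)))) (XT.nd (nat_lit 156) (nat_lit 152) (nat_lit 0) (XT.nd (nat_lit 78) (nat_lit 0) (nat_lit 0) (XT.lf (nat_lit 0) (nat_lit 11637387322) (nat_lit 152) (nat_lit 4837722451) (nat_lit 228) (nat_lit 10313150163) (nat_lit 33) (nat_lit 5) (nat_lit 35) (nat_lit 5) (nat_lit 36) (nat_lit 5) (nat_lit 357) (nat_lit 262) (nat_lit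 161)) (XT.lf (nat_lit 0) (nat_lit 21600756793) (nat_lit 228) (nat_lit 4679992687) (nat_lit 76) (nat_lit 1125464393) (nat_lit 33) (nat_lit 5) (nat_lit 36) (nat_lit 5) (nat_lit 34) (nat_lit 4) (nat_lit 358) (nat_lit 262) (nat_lit 160))) (XT.nd (nat_lit 78) (nat_lit 76) (nat_lit 0) (XT.lf (nat_lit 0) (nat_lit 6148445041) (nat_lit 76) (nat_lit 20822429365) (nat_lit 152) (nat_lit 1069116683) (nat_lit 32) (nat_lit 5) (nat_lit 33) (nat_lit 5) (nat_lit 34) (nat_lit 4) (nat_lit 359) (nat_lit 262) (nat_lit 159)) (XT.lf (nat_lit 0) (nat_lit 3766444728) (nat_lit 152) (nat_lit 11359474880) (nat_lit 76) (nat_lit 13564824935) (nat_lit 31) (nat_lit 5) (nat_lit 33) (nat_lit 5) (nat_lit 32) (nat_lit 5) (nat_lit 360) (nat_lit 262) (nat_lit 158)))))) (XT.nd (nat_lit 546) (nat_lit 304) (nat_lit 0) (XT.nd (nat_lit 234) (nat_lit 304) (nat_lit 0) (XT.nd (nat_lit 78) (nat_lit 152) (nat_lit 0) (XT.lf (nat_lit 0) (nat_lit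 8709796038) (nat_lit 152) (nat_lit 549887879) (nat_lit 76) (nat_lit 20101498001) (nat_lit 31) (nat_lit 5) (nat_lit 33) (nat_lit 5) (nat_lit 32) (nat_lit 5) (nat_lit 361) (nat_lit 262) (nat_lit 157)) (XT.nd (nat_lit 78) (nat_lit 0) (nat_lit 0) (XT.lf (nat_lit 0) (nat_lit 10767040977) (nat_lit 152) (nat_lit 3122577403) (nat_lit 228) (nat_lit 16159473982) (nat_lit 29) (nat_lit 5) (nat_lit 31) (nat_lit 5) (nat_lit 32) (nat_lit 5) (nat_lit 362) (nat_lit 262) (nat_lit 156)) (XT.lf (nat_lit 0) (nat_lit 19245938650) (nat_lit 228) (nat_lit 8380657451) (nat_lit 76) (nat_lit 3130415837) (nat_lit 29) (nat_lit 5) (nat_lit 32) (nat_lit 5) (nat_lit 30) (nat_lit 4) (nat_lit 363) (nat_lit 262) (nat_lit 155)))) (XT.nd (nat_lit 156) (nat_lit 228) (nat_lit 0) (XT.nd (nat_lit 78) (nat_lit 0) (nat_lit 0) (XT.lf (nat_lit 0) (nat_lit 2846057269) (nat_lit 76) (nat_lit 21960358318) (nat_lit 152) (nat_lit 6678454274) (nat_lit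 28) (nat_lit 5) (nat_lit 29) (nat_lit 5) (nat_lit 30) (nat_lit 4) (nat_lit 364) (nat_lit 262) (nat_lit 154)) (XT.lf (nat_lit 0) (nat_lit 14555285686) (nat_lit 76) (nat_lit 16048422326) (nat_lit 152) (nat_lit 1628760106) (nat_lit 28) (nat_lit 5) (nat_lit 29) (nat_lit 5) (nat_lit 30) (nat_lit 4) (nat_lit 365) (nat_lit 262) (nat_lit 153))) (XT.nd (nat_lit 78) (nat_lit 152) (nat_lit 0) (XT.lf (nat_lit 0) (nat_lit 3488367996) (nat_lit 152) (nat_lit 6446656891) (nat_lit 76) (nat_lit 23066873975) (nat_lit 27) (nat_lit 5) (nat_lit 29) (nat_lit 5) (nat_lit 28) (nat_lit 5) (nat_lit 366) (nat_lit 262) (nat_lit 152)) (XT.lf (nat_lit 0) (nat_lit 5180888706) (nat_lit 152) (nat_lit 3581258475) (nat_lit 228) (nat_lit 25030709585) (nat_lit 25) (nat_lit 5) (nat_lit 27) (nat_lit 5) (nat_lit 28) (nat_lit 5) (nat_lit 367) (nat_lit 262) (nat_lit 151))))) (XT.nd (nat_lit 234) (nat_lit 228) (nat_lit 0) (XT.nd (nat_lit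 78) (nat_lit 76) (nat_lit 0) (XT.lf (nat_lit 0) (nat_lit 14274502588) (nat_lit 228) (nat_lit 17370243340) (nat_lit 76) (nat_lit 2960390711) (nat_lit 25) (nat_lit 5) (nat_lit 28) (nat_lit 5) (nat_lit 26) (nat_lit 4) (nat_lit 368) (nat_lit 262) (nat_lit 150)) (XT.nd (nat_lit 78) (nat_lit 76) (nat_lit 0) (XT.lf (nat_lit 0) (nat_lit 19974226836) (nat_lit 228) (nat_lit 5850934432) (nat_lit 76) (nat_lit 9615967692) (nat_lit 25) (nat_lit 5) (nat_lit 28) (nat_lit 5) (nat_lit 26) (nat_lit 4) (nat_lit 369) (nat_lit 262) (nat_lit 149)) (XT.lf (nat_lit 0) (nat_lit 6109671014) (nat_lit 76) (nat_lit 19780933899) (nat_lit 152) (nat_lit 10410230153) (nat_lit 24) (nat_lit 5) (nat_lit 25) (nat_lit 5) (nat_lit 26) (nat_lit 4) (nat_lit 370) (nat_lit 262) (nat_lit 148)))) (XT.nd (nat_lit 156) (nat_lit 152) (nat_lit 0) (XT.nd (nat_lit 78) (nat_lit 76) (nat_lit 0) (XT.lf (nat_lit 0) (nat_lit 18525759063) (nat_lit 76)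 (nat_lit 13504887337) (nat_lit 152) (nat_lit 5154304562) (nat_lit 24) (nat_lit 5) (nat_lit 25) (nat_lit 5) (nat_lit 26) (nat_lit 4) (nat_lit 371) (nat_lit 262) (nat_lit 147)) (XT.lf (nat_lit 0) (nat_lit 241576394) (nat_lit 152) (nat_lit 6806604778) (nat_lit 76) (nat_lit 31047717812) (nat_lit 23) (nat_lit 5) (nat_lit 25) (nat_lit 5) (nat_lit 24) (nat_lit 5) (nat_lit 372) (nat_lit 262) (nat_lit 146))) (XT.nd (nat_lit 78) (nat_lit 0) (nat_lit 0) (XT.lf (nat_lit 0) (nat_lit 5434385597) (nat_lit 152) (nat_lit 301296666) (nat_lit 228) (nat_lit 33295767304) (nat_lit 21) (nat_lit 5) (nat_lit 23) (nat_lit 5) (nat_lit 24) (nat_lit 5) (nat_lit 373) (nat_lit 262) (nat_lit 145)) (XT.lf (nat_lit 0) (nat_lit 11515688534) (nat_lit 228) (nat_lit 21897697280) (nat_lit 76) (nat_lit 6578051883) (nat_lit 21) (nat_lit 5) (nat_lit 24) (nat_lit 5) (nat_lit 22) (nat_lit 4) (nat_lit 374) (nat_lit 262) (nat_lit 144)))))))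 (XT.nd (nat_lit 1092) (nat_lit 304) (nat_lit 0) (XT.nd (nat_lit 546) (nat_lit 228) (nat_lit 0) (XT.nd (nat_lit 234) (nat_lit 152) (nat_lit 0) (XT.nd (nat_lit 78) (nat_lit 76) (nat_lit 0) (XT.lf (nat_lit 0) (nat_lit 17460193416) (nat_lit 228) (nat_lit 9871926808) (nat_lit 76) (nat_lit 13648375545) (nat_lit 21) (nat_lit 5) (nat_lit 24) (nat_lit 5) (nat_lit 22) (nat_lit 4) (nat_lit 375) (nat_lit 262) (nat_lit 143)) (XT.nd (nat_lit 78) (nat_lit 0) (nat_lit 0) (XT.lf (nat_lit 0) (nat_lit 2543280206) (nat_lit 76) (nat_lit 21052662247) (nat_lit 152) (nat_lit 18402899014) (nat_lit 20) (nat_lit 5) (nat_lit 21) (nat_lit 5) (nat_lit 22) (nat_lit 4) (nat_lit 376) (nat_lit 262) (nat_lit 142)) (XT.lf (nat_lit 0) (nat_lit 15512548663) (nat_lit 76) (nat_lit 14491500367) (nat_lit 152) (nat_lit 13041043016) (nat_lit 20) (nat_lit 5) (nat_lit 21) (nat_lit 5) (nat_lit 22) (nat_lit 4) (nat_lit 377) (nat_lit 262) (nat_lit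 141)))) (XT.nd (nat_lit 156) (nat_lit 152) (nat_lit 0) (XT.nd (nat_lit 78) (nat_lit 0) (nat_lit 0) (XT.lf (nat_lit 0) (nat_lit 28850740234) (nat_lit 76) (nat_lit 7742588634) (nat_lit 152) (nat_lit 7529736348) (nat_lit 20) (nat_lit 5) (nat_lit 21) (nat_lit 5) (nat_lit 22) (nat_lit 4) (nat_lit 378) (nat_lit 262) (nat_lit 140)) (XT.lf (nat_lit 0) (nat_lit 42569509648) (nat_lit 76) (nat_lit 800029940) (nat_lit 152) (nat_lit 1864163304) (nat_lit 20) (nat_lit 5) (nat_lit 21) (nat_lit 5) (nat_lit 22) (nat_lit 4) (nat_lit 379) (nat_lit 262) (nat_lit 139))) (XT.nd (nat_lit 78) (nat_lit 0) (nat_lit 0) (XT.lf (nat_lit 0) (nat_lit 4046314635) (nat_lit 152) (nat_lit 35967066914) (nat_lit 76) (nat_lit 6358562606) (nat_lit 18) (nat_lit 5) (nat_lit 20) (nat_lit 5) (nat_lit 19) (nat_lit 4) (nat_lit 380) (nat_lit 262) (nat_lit 138)) (XT.lf (nat_lit 0) (nat_lit 10121230553) (nat_lit 152) (nat_lit 23668791422) (nat_lit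 76) (nat_lit 13753021866) (nat_lit 18) (nat_lit 5) (nat_lit 20) (nat_lit 5) (nat_lit 19) (nat_lit 4) (nat_lit 381) (nat_lit 262) (nat_lit 137))))) (XT.nd (nat_lit 234) (nat_lit 152) (nat_lit 0) (XT.nd (nat_lit 78) (nat_lit 76) (nat_lit 0) (XT.lf (nat_lit 0) (nat_lit 16368200640) (nat_lit 152) (nat_lit 11020261390) (nat_lit 76) (nat_lit 21361122852) (nat_lit 18) (nat_lit 5) (nat_lit 20) (nat_lit 5) (nat_lit 19) (nat_lit 4) (nat_lit 382) (nat_lit 262) (nat_lit 136)) (XT.nd (nat_lit 78) (nat_lit 0) (nat_lit 0) (XT.lf (nat_lit 0) (nat_lit 2029171745) (nat_lit 76) (nat_lit 20783017308) (nat_lit 152) (nat_lit 27179847315) (nat_lit 17) (nat_lit 5) (nat_lit 18) (nat_lit 5) (nat_lit 19) (nat_lit 4) (nat_lit 383) (nat_lit 262) (nat_lit 135)) (XT.lf (nat_lit 0) (nat_lit 15678021117) (nat_lit 76) (nat_lit 13872978113) (nat_lit 152) (nat_lit 21717719524) (nat_lit 17) (nat_lit 5) (nat_lit 18) (nat_lit 5) (nat_lit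 19) (nat_lit 4) (nat_lit 384) (nat_lit 262) (nat_lit 134)))) (XT.nd (nat_lit 156) (nat_lit 152) (nat_lit 0) (XT.nd (nat_lit 78) (nat_lit 0) (nat_lit 0) (XT.lf (nat_lit 0) (nat_lit 29718888094) (nat_lit 76) (nat_lit 6763589577) (nat_lit 152) (nat_lit 16101511169) (nat_lit 17) (nat_lit 5) (nat_lit 18) (nat_lit 5) (nat_lit 19) (nat_lit 4) (nat_lit 385) (nat_lit 262) (nat_lit 133)) (XT.lf (nat_lit 0) (nat_lit 43617981022) (nat_lit 152) (nat_lit 9780254511) (nat_lit 0) (nat_lit 540601358) (nat_lit 17) (nat_lit 5) (nat_lit 19) (nat_lit 4) (nat_lit 17) (nat_lit 4) (nat_lit 386) (nat_lit 262) (nat_lit 132))) (XT.nd (nat_lit 78) (nat_lit 76) (nat_lit 0) (XT.lf (nat_lit 0) (nat_lit 3685442140) (nat_lit 76) (nat_lit 47375477310) (nat_lit 76) (nat_lit 4270612046) (nat_lit 16) (nat_lit 4) (nat_lit 17) (nat_lit 5) (nat_lit 17) (nat_lit 4) (nat_lit 387) (nat_lit 262) (nat_lit 131)) (XT.lf (nat_lit 0) (nat_lit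 2013600416) (nat_lit 152) (nat_lit 39043941467) (nat_lit 76) (nat_lit 15705179687) (nat_lit 15) (nat_lit 5) (nat_lit 17) (nat_lit 5) (nat_lit 16) (nat_lit 4) (nat_lit 388) (nat_lit 262) (nat_lit 130)))))) (XT.nd (nat_lit 546) (nat_lit 228) (nat_lit 0) (XT.nd (nat_lit 234) (nat_lit 0) (nat_lit 0) (XT.nd (nat_lit 78) (nat_lit 76) (nat_lit 0) (XT.lf (nat_lit 0) (nat_lit 8391757561) (nat_lit 152) (nat_lit 26122190277) (nat_lit 76) (nat_lit 23721895432) (nat_lit 15) (nat_lit 5) (nat_lit 17) (nat_lit 5) (nat_lit 16) (nat_lit 4) (nat_lit 389) (nat_lit 262) (nat_lit 129)) (XT.nd (nat_lit 78) (nat_lit 76) (nat_lit 0) (XT.lf (nat_lit 0) (nat_lit 14952767559) (nat_lit 152) (nat_lit 12828493201) (nat_lit 76) (nat_lit 31972154585) (nat_lit 15) (nat_lit 5) (nat_lit 17) (nat_lit 5) (nat_lit 16) (nat_lit 4) (nat_lit 390) (nat_lit 262) (nat_lit 128)) (XT.lf (nat_lit 0) (nat_lit 865657713) (nat_lit 76) (nat_lit 20845026848)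 (nat_lit 152) (nat_lit 39605829627) (nat_lit 14) (nat_lit 5) (nat_lit 15) (nat_lit 5) (nat_lit 16) (nat_lit 4) (nat_lit 391) (nat_lit 262) (nat_lit 127)))) (XT.nd (nat_lit 156) (nat_lit 0) (nat_lit 0) (XT.nd (nat_lit 78) (nat_lit 0) (nat_lit 0) (XT.lf (nat_lit 0) (nat_lit 15218505017) (nat_lit 76) (nat_lit 13574227142) (nat_lit 152) (nat_lit 34130133898) (nat_lit 14) (nat_lit 5) (nat_lit 15) (nat_lit 5) (nat_lit 16) (nat_lit 4) (nat_lit 392) (nat_lit 262) (nat_lit 126)) (XT.lf (nat_lit 0) (nat_lit 29987277863) (nat_lit 76) (nat_lit 6092051145) (nat_lit 152) (nat_lit 28498318638) (nat_lit 14) (nat_lit 5) (nat_lit 15) (nat_lit 5) (nat_lit 16) (nat_lit 4) (nat_lit 393) (nat_lit 262) (nat_lit 125))) (XT.nd (nat_lit 78) (nat_lit 0) (nat_lit 0) (XT.lf (nat_lit 0) (nat_lit 43592299493) (nat_lit 152) (nat_lit 21112881332) (nat_lit 0) (nat_lit 1576660334) (nat_lit 14) (nat_lit 5) (nat_lit 16) (nat_lit 4)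 (nat_lit 14) (nat_lit 4) (nat_lit 394) (nat_lit 262) (nat_lit 124)) (XT.lf (nat_lit 0) (nat_lit 51383457306) (nat_lit 152) (nat_lit 7305368200) (nat_lit 0) (nat_lit 9346752722) (nat_lit 14) (nat_lit 5) (nat_lit 16) (nat_lit 4) (nat_lit 14) (nat_lit 4) (nat_lit 395) (nat_lit 262) (nat_lit 123))))) (XT.nd (nat_lit 312) (nat_lit 76) (nat_lit 0) (XT.nd (nat_lit 156) (nat_lit 76) (nat_lit 0) (XT.nd (nat_lit 78) (nat_lit 0) (nat_lit 0) (XT.lf (nat_lit 0) (nat_lit 7040174106) (nat_lit 76) (nat_lit 52428550084) (nat_lit 76) (nat_lit 10371393632) (nat_lit 13) (nat_lit 4) (nat_lit 14) (nat_lit 5) (nat_lit 14) (nat_lit 4) (nat_lit 396) (nat_lit 262) (nat_lit 122)) (XT.lf (nat_lit 0) (nat_lit 21952393286) (nat_lit 76) (nat_lit 45910708979) (nat_lit 76) (nat_lit 3833696344) (nat_lit 13) (nat_lit 4) (nat_lit 14) (nat_lit 5) (nat_lit 14) (nat_lit 4) (nat_lit 397) (nat_lit 262) (nat_lit 121))) (XT.nd (nat_lit 78)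 (nat_lit 0) (nat_lit 0) (XT.lf (nat_lit 0) (nat_lit 2836462434) (nat_lit 152) (nat_lit 36338271740) (nat_lit 76) (nat_lit 34433823139) (nat_lit 12) (nat_lit 5) (nat_lit 14) (nat_lit 5) (nat_lit 13) (nat_lit 4) (nat_lit 398) (nat_lit 262) (nat_lit 120)) (XT.lf (nat_lit 0) (nat_lit 9622801204) (nat_lit 152) (nat_lit 22580720393) (nat_lit 76) (nat_lit 43373216061) (nat_lit 12) (nat_lit 5) (nat_lit 14) (nat_lit 5) (nat_lit 13) (nat_lit 4) (nat_lit 399) (nat_lit 262) (nat_lit 119)))) (XT.nd (nat_lit 156) (nat_lit 0) (nat_lit 0) (XT.nd (nat_lit 78) (nat_lit 76) (nat_lit 0) (XT.lf (nat_lit 0) (nat_lit 16606059000) (nat_lit 152) (nat_lit 8422878288) (nat_lit 76) (nat_lit 52575227680) (nat_lit 12) (nat_lit 5) (nat_lit 14) (nat_lit 5) (nat_lit 13) (nat_lit 4) (nat_lit 400) (nat_lit 262) (nat_lit 118)) (XT.lf (nat_lit 0) (nat_lit 6269975308) (nat_lit 76) (nat_lit 17582633228) (nat_lit 152) (nat_lit 55838194120)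 (nat_lit 11) (nat_lit 5) (nat_lit 12) (nat_lit 5) (nat_lit 13) (nat_lit 4) (nat_lit 401) (nat_lit 262) (nat_lit 117))) (XT.nd (nat_lit 78) (nat_lit 0) (nat_lit 0) (XT.lf (nat_lit 0) (nat_lit 21564320054) (nat_lit 76) (nat_lit 9830885951) (nat_lit 152) (nat_lit 50442475263) (nat_lit 11) (nat_lit 5) (nat_lit 12) (nat_lit 5) (nat_lit 13) (nat_lit 4) (nat_lit 402) (nat_lit 262) (nat_lit 116)) (XT.lf (nat_lit 0) (nat_lit 37305888146) (nat_lit 76) (nat_lit 1851976644) (nat_lit 152) (nat_lit 44891289248) (nat_lit 11) (nat_lit 5) (nat_lit 12) (nat_lit 5) (nat_lit 13) (nat_lit 4) (nat_lit 403) (nat_lit 262) (nat_lit 115))))))))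
noncomputable def xc110 : XT := (XT.nd (nat_lit 31122) (nat_lit 0) (nat_lit 8132) (XT.nd (nat_lit 30030) (nat_lit 0) (nat_lit 19684) (XT.nd (nat_lit 546) (nat_lit 76) (nat_lit 0) (XT.nd (nat_lit 234) (nat_lit 76) (nat_lit 0) (XT.nd (nat_lit 78) (nat_lit 0) (nat_lit 0) (XT.lf (nat_lit 0) (nat_lit 47208514259) (nat_lit 152) (nat_lit 32879865429) (nat_lit 0) (nat_lit 6236939237) (nat_lit 11) (nat_lit 5) (nat_lit 13) (nat_lit 4) (nat_lit 11) (nat_lit 4) (nat_lit 404) (nat_lit 262) (nat_lit 114)) (XT.nd (nat_lit 78) (nat_lit 0) (nat_lit 0) (XT.lf (nat_lit 0) (nat_lit 55513111022) (nat_lit 152) (nat_lit 18629968238) (nat_lit 0) (nat_lit 14526317890) (nat_lit 11) (nat_lit 5) (nat_lit 13) (nat_lit 4) (nat_lit 11) (nat_lit 4) (nat_lit 405) (nat_lit 262) (nat_lit 113)) (XT.lf (nat_lit 0) (nat_lit 64061109192) (nat_lit 152) (nat_lit 3963320620) (nat_lit 0) (nat_lit 23059541195) (nat_lit 11) (nat_lit 5) (nat_lit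 13) (nat_lit 4) (nat_lit 11) (nat_lit 4) (nat_lit 406) (nat_lit 262) (nat_lit 112)))) (XT.nd (nat_lit 156) (nat_lit 0) (nat_lit 0) (XT.nd (nat_lit 78) (nat_lit 0) (nat_lit 0) (XT.lf (nat_lit 0) (nat_lit 11354459341) (nat_lit 76) (nat_lit 61614664560) (nat_lit 76) (nat_lit 20598752033) (nat_lit 10) (nat_lit 4) (nat_lit 11) (nat_lit 5) (nat_lit 11) (nat_lit 4) (nat_lit 407) (nat_lit 262) (nat_lit 111)) (XT.lf (nat_lit 0) (nat_lit 27202685694) (nat_lit 76) (nat_lit 54976208617) (nat_lit 76) (nat_lit 13946369363) (nat_lit 10) (nat_lit 4) (nat_lit 11) (nat_lit 5) (nat_lit 11) (nat_lit 4) (nat_lit 408) (nat_lit 262) (nat_lit 110))) (XT.nd (nat_lit 78) (nat_lit 0) (nat_lit 0) (XT.lf (nat_lit 0) (nat_lit 43516328551) (nat_lit 76) (nat_lit 48143283158) (nat_lit 76) (nat_lit 7099922810) (nat_lit 10) (nat_lit 4) (nat_lit 11) (nat_lit 5) (nat_lit 11) (nat_lit 4) (nat_lit 409) (nat_lit 262) (nat_lit 109)) (XT.lf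 (nat_lit 0) (nat_lit 60309642552) (nat_lit 76) (nat_lit 41109917665) (nat_lit 76) (nat_lit 53430041) (nat_lit 10) (nat_lit 4) (nat_lit 11) (nat_lit 5) (nat_lit 11) (nat_lit 4) (nat_lit 410) (nat_lit 262) (nat_lit 108))))) (XT.nd (nat_lit 29172) (nat_lit 0) (nat_lit 23332) (XT.nd (nat_lit 78) (nat_lit 0) (nat_lit 0) (XT.lf (nat_lit 0) (nat_lit 7058782460) (nat_lit 152) (nat_lit 26739904156) (nat_lit 76) (nat_lit 70467239143) (nat_lit 9) (nat_lit 5) (nat_lit 11) (nat_lit 5) (nat_lit 10) (nat_lit 4) (nat_lit 411) (nat_lit 262) (nat_lit 107)) (XT.nd (nat_lit 29016) (nat_lit 0) (nat_lit 24016) (XT.lf (nat_lit 0) (nat_lit 14378345569) (nat_lit 152) (nat_lit 11893564763) (nat_lit 76) (nat_lit 80870872348) (nat_lit 9) (nat_lit 5) (nat_lit 11) (nat_lit 5) (nat_lit 10) (nat_lit 4) (nat_lit 412) (nat_lit 262) (nat_lit 106)) (XT.lf (nat_lit 0) (nat_lit 1021104994) (nat_lit 0) (nat_lit 1021104994) (nat_lit 228)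 (nat_lit 1198369340) (nat_lit 325) (nat_lit 5) (nat_lit 325) (nat_lit 3) (nat_lit 328) (nat_lit 3) (nat_lit 263) (nat_lit 263) (nat_lit 254)))) (XT.nd (nat_lit 156) (nat_lit 304) (nat_lit 0) (XT.nd (nat_lit 78) (nat_lit 0) (nat_lit 0) (XT.lf (nat_lit 0) (nat_lit 235454876) (nat_lit 380) (nat_lit 1378871024) (nat_lit 380) (nat_lit 4881628644) (nat_lit 320) (nat_lit 3) (nat_lit 325) (nat_lit 3) (nat_lit 325) (nat_lit 5) (nat_lit 264) (nat_lit 263) (nat_lit 253)) (XT.lf (nat_lit 76) (nat_lit 1730282079) (nat_lit 0) (nat_lit 1082515034) (nat_lit 380) (nat_lit 3700430375) (nat_lit 321) (nat_lit 5) (nat_lit 320) (nat_lit 3) (nat_lit 325) (nat_lit 5) (nat_lit 265) (nat_lit 263) (nat_lit 252))) (XT.nd (nat_lit 78) (nat_lit 304) (nat_lit 0) (XT.lf (nat_lit 76) (nat_lit 4908731722) (nat_lit 0) (nat_lit 472850969) (nat_lit 380) (nat_lit 1152182851) (nat_lit 321) (nat_lit 5) (nat_lit 320) (nat_lit 3) (nat_lit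 325) (nat_lit 5) (nat_lit 266) (nat_lit 263) (nat_lit 251)) (XT.lf (nat_lit 0) (nat_lit 1363279489) (nat_lit 380) (nat_lit 4967667738) (nat_lit 456) (nat_lit 226123646) (nat_lit 316) (nat_lit 5) (nat_lit 321) (nat_lit 5) (nat_lit 322) (nat_lit 5) (nat_lit 267) (nat_lit 263) (nat_lit 250)))))) (XT.nd (nat_lit 546) (nat_lit 2660) (nat_lit 0) (XT.nd (nat_lit 234) (nat_lit 532) (nat_lit 0) (XT.nd (nat_lit 78) (nat_lit 456) (nat_lit 0) (XT.lf (nat_lit 0) (nat_lit 3857054657) (nat_lit 380) (nat_lit 1719008383) (nat_lit 456) (nat_lit 1007046028) (nat_lit 316) (nat_lit 5) (nat_lit 321) (nat_lit 5) (nat_lit 322) (nat_lit 5) (nat_lit 268) (nat_lit 263) (nat_lit 249)) (XT.nd (nat_lit 78) (nat_lit 456) (nat_lit 0) (XT.lf (nat_lit 76) (nat_lit 1604281903) (nat_lit 0) (nat_lit 4744309576) (nat_lit 456) (nat_lit 263800065) (nat_lit 317) (nat_lit 5) (nat_lit 316) (nat_lit 5) (nat_lit 322) (nat_lit 5) (nat_lit 269)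 (nat_lit 263) (nat_lit 248)) (XT.lf (nat_lit 0) (nat_lit 2154178077) (nat_lit 456) (nat_lit 1657101702) (nat_lit 532) (nat_lit 2832974392) (nat_lit 310) (nat_lit 5) (nat_lit 316) (nat_lit 5) (nat_lit 317) (nat_lit 5) (nat_lit 270) (nat_lit 263) (nat_lit 247)))) (XT.nd (nat_lit 156) (nat_lit 0) (nat_lit 0) (XT.nd (nat_lit 78) (nat_lit 532) (nat_lit 0) (XT.lf (nat_lit 76) (nat_lit 1772466127) (nat_lit 0) (nat_lit 2795292402) (nat_lit 532) (nat_lit 2111523563) (nat_lit 311) (nat_lit 5) (nat_lit 310) (nat_lit 5) (nat_lit 317) (nat_lit 5) (nat_lit 271) (nat_lit 263) (nat_lit 246)) (XT.lf (nat_lit 0) (nat_lit 261088349) (nat_lit 532) (nat_lit 1434678167) (nat_lit 608) (nat_lit 5021748336) (nat_lit 303) (nat_lit 5) (nat_lit 310) (nat_lit 5) (nat_lit 311) (nat_lit 5) (nat_lit 272) (nat_lit 263) (nat_lit 245))) (XT.nd (nat_lit 78) (nat_lit 0) (nat_lit 76) (XT.lf (nat_lit 76) (nat_lit 2108175273) (nat_lit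 0) (nat_lit 489486915) (nat_lit 608) (nat_lit 4160675480) (nat_lit 304) (nat_lit 5) (nat_lit 303) (nat_lit 5) (nat_lit 311) (nat_lit 5) (nat_lit 273) (nat_lit 263) (nat_lit 244)) (XT.lf (nat_lit 0) (nat_lit 4943413891) (nat_lit 532) (nat_lit 1076665582) (nat_lit 76) (nat_lit 782256531) (nat_lit 304) (nat_lit 5) (nat_lit 311) (nat_lit 5) (nat_lit 305) (nat_lit 5) (nat_lit 274) (nat_lit 263) (nat_lit 243))))) (XT.nd (nat_lit 234) (nat_lit 1520) (nat_lit 0) (XT.nd (nat_lit 78) (nat_lit 608) (nat_lit 0) (XT.lf (nat_lit 0) (nat_lit 450695067) (nat_lit 608) (nat_lit 4258299004) (nat_lit 76) (nat_lit 2140164786) (nat_lit 296) (nat_lit 5) (nat_lit 304) (nat_lit 5) (nat_lit 297) (nat_lit 5) (nat_lit 275) (nat_lit 263) (nat_lit 242)) (XT.nd (nat_lit 78) (nat_lit 608) (nat_lit 0) (XT.lf (nat_lit 0) (nat_lit 2723772466) (nat_lit 608) (nat_lit 580676305) (nat_lit 76) (nat_lit 3594552238) (nat_lit 296) (nat_lit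 5) (nat_lit 304) (nat_lit 5) (nat_lit 297) (nat_lit 5) (nat_lit 276) (nat_lit 263) (nat_lit 241)) (XT.lf (nat_lit 0) (nat_lit 3216066184) (nat_lit 608) (nat_lit 1802759090) (nat_lit 684) (nat_lit 1933009170) (nat_lit 288) (nat_lit 5) (nat_lit 296) (nat_lit 5) (nat_lit 297) (nat_lit 5) (nat_lit 277) (nat_lit 263) (nat_lit 240)))) (XT.nd (nat_lit 156) (nat_lit 760) (nat_lit 0) (XT.nd (nat_lit 78) (nat_lit 0) (nat_lit 0) (XT.lf (nat_lit 0) (nat_lit 75271520) (nat_lit 684) (nat_lit 224254558) (nat_lit 760) (nat_lit 6708809589) (nat_lit 278) (nat_lit 5) (nat_lit 287) (nat_lit 5) (nat_lit 288) (nat_lit 5) (nat_lit 278) (nat_lit 263) (nat_lit 239)) (XT.lf (nat_lit 0) (nat_lit 2537396140) (nat_lit 760) (nat_lit 3078210619) (nat_lit 76) (nat_lit 1451134913) (nat_lit 278) (nat_lit 5) (nat_lit 288) (nat_lit 5) (nat_lit 279) (nat_lit 5) (nat_lit 279) (nat_lit 263) (nat_lit 238))) (XT.nd (nat_lit 78) (nat_lit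 0) (nat_lit 0) (XT.lf (nat_lit 0) (nat_lit 851294363) (nat_lit 760) (nat_lit 3929317076) (nat_lit 836) (nat_lit 2348239443) (nat_lit 268) (nat_lit 5) (nat_lit 278) (nat_lit 5) (nat_lit 279) (nat_lit 5) (nat_lit 280) (nat_lit 263) (nat_lit 237)) (XT.lf (nat_lit 0) (nat_lit 4906942163) (nat_lit 760) (nat_lit 2144646126) (nat_lit 836) (nat_lit 142515592) (nat_lit 268) (nat_lit 5) (nat_lit 278) (nat_lit 5) (nat_lit 279) (nat_lit 5) (nat_lit 281) (nat_lit 263) (nat_lit 236))))))) (XT.nd (nat_lit 1092) (nat_lit 4408) (nat_lit 0) (XT.nd (nat_lit 546) (nat_lit 3116) (nat_lit 0) (XT.nd (nat_lit 234) (nat_lit 2204) (nat_lit 0) (XT.nd (nat_lit 78) (nat_lit 912) (nat_lit 0) (XT.lf (nat_lit 0) (nat_lit 1782545780) (nat_lit 836) (nat_lit 253086545) (nat_lit 912) (nat_lit 5226722993) (nat_lit 256) (nat_lit 5) (nat_lit 267) (nat_lit 5) (nat_lit 268) (nat_lit 5) (nat_lit 282) (nat_lit 263) (nat_lit 235)) (XT.nd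 (nat_lit 78) (nat_lit 912) (nat_lit 0) (XT.lf (nat_lit 0) (nat_lit 4248179378) (nat_lit 912) (nat_lit 1385097940) (nat_lit 76) (nat_lit 1700263524) (nat_lit 256) (nat_lit 5) (nat_lit 268) (nat_lit 5) (nat_lit 257) (nat_lit 5) (nat_lit 283) (nat_lit 263) (nat_lit 234)) (XT.lf (nat_lit 0) (nat_lit 2830393588) (nat_lit 912) (nat_lit 3660693514) (nat_lit 988) (nat_lit 916939230) (nat_lit 244) (nat_lit 5) (nat_lit 256) (nat_lit 5) (nat_lit 257) (nat_lit 5) (nat_lit 284) (nat_lit 263) (nat_lit 233)))) (XT.nd (nat_lit 156) (nat_lit 1140) (nat_lit 0) (XT.nd (nat_lit 78) (nat_lit 988) (nat_lit 0) (XT.lf (nat_lit 0) (nat_lit 1239917624) (nat_lit 988) (nat_lit 352001054) (nat_lit 76) (nat_lit 5894054994) (nat_lit 243) (nat_lit 5) (nat_lit 256) (nat_lit 5) (nat_lit 244) (nat_lit 5) (nat_lit 285) (nat_lit 263) (nat_lit 232)) (XT.lf (nat_lit 0) (nat_lit 3424234064) (nat_lit 1064) (nat_lit 3556863125) (nat_lit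 76) (nat_lit 585531188) (nat_lit 230) (nat_lit 5) (nat_lit 244) (nat_lit 5) (nat_lit 231) (nat_lit 5) (nat_lit 286) (nat_lit 263) (nat_lit 231))) (XT.nd (nat_lit 78) (nat_lit 76) (nat_lit 0) (XT.lf (nat_lit 0) (nat_lit 804420709) (nat_lit 1064) (nat_lit 4834990838) (nat_lit 1140) (nat_lit 2011405803) (nat_lit 216) (nat_lit 5) (nat_lit 230) (nat_lit 5) (nat_lit 231) (nat_lit 5) (nat_lit 287) (nat_lit 263) (nat_lit 230)) (XT.lf (nat_lit 0) (nat_lit 155052695) (nat_lit 1140) (nat_lit 2425346032) (nat_lit 76) (nat_lit 5157896993) (nat_lit 215) (nat_lit 5) (nat_lit 230) (nat_lit 5) (nat_lit 216) (nat_lit 5) (nat_lit 288) (nat_lit 263) (nat_lit 229))))) (XT.nd (nat_lit 234) (nat_lit 1216) (nat_lit 0) (XT.nd (nat_lit 78) (nat_lit 760) (nat_lit 0) (XT.lf (nat_lit 0) (nat_lit 2094706971) (nat_lit 1140) (nat_lit 212135794) (nat_lit 1216) (nat_lit 5522203521) (nat_lit 200) (nat_lit 5) (nat_lit 215) (nat_lit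 5) (nat_lit 216) (nat_lit 5) (nat_lit 289) (nat_lit 263) (nat_lit 228)) (XT.nd (nat_lit 78) (nat_lit 760) (nat_lit 0) (XT.lf (nat_lit 0) (nat_lit 4511207821) (nat_lit 1216) (nat_lit 1199262165) (nat_lit 76) (nat_lit 2212475000) (nat_lit 200) (nat_lit 5) (nat_lit 216) (nat_lit 5) (nat_lit 201) (nat_lit 5) (nat_lit 290) (nat_lit 263) (nat_lit 227)) (XT.lf (nat_lit 0) (nat_lit 3483465339) (nat_lit 760) (nat_lit 3277395486) (nat_lit 836) (nat_lit 1259489439) (nat_lit 190) (nat_lit 5) (nat_lit 200) (nat_lit 5) (nat_lit 201) (nat_lit 5) (nat_lit 291) (nat_lit 263) (nat_lit 226)))) (XT.nd (nat_lit 156) (nat_lit 532) (nat_lit 0) (XT.nd (nat_lit 78) (nat_lit 0) (nat_lit 0) (XT.lf (nat_lit 0) (nat_lit 149623567) (nat_lit 608) (nat_lit 746779246) (nat_lit 684) (nat_lit 7225326707) (nat_lit 181) (nat_lit 5) (nat_lit 189) (nat_lit 5) (nat_lit 190) (nat_lit 5) (nat_lit 292) (nat_lit 263) (nat_lit 225)) (XT.lf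 (nat_lit 0) (nat_lit 3101001107) (nat_lit 684) (nat_lit 3241934122) (nat_lit 76) (nat_lit 1882619374) (nat_lit 181) (nat_lit 5) (nat_lit 190) (nat_lit 5) (nat_lit 182) (nat_lit 5) (nat_lit 293) (nat_lit 263) (nat_lit 224))) (XT.nd (nat_lit 78) (nat_lit 0) (nat_lit 0) (XT.lf (nat_lit 0) (nat_lit 1599508280) (nat_lit 532) (nat_lit 3741793921) (nat_lit 608) (nat_lit 2992162445) (nat_lit 174) (nat_lit 5) (nat_lit 181) (nat_lit 5) (nat_lit 182) (nat_lit 5) (nat_lit 294) (nat_lit 263) (nat_lit 223)) (XT.lf (nat_lit 0) (nat_lit 6598731382) (nat_lit 532) (nat_lit 1030645014) (nat_lit 608) (nat_lit 815874161) (nat_lit 174) (nat_lit 5) (nat_lit 181) (nat_lit 5) (nat_lit 182) (nat_lit 5) (nat_lit 295) (nat_lit 263) (nat_lit 222)))))) (XT.nd (nat_lit 546) (nat_lit 2204) (nat_lit 0) (XT.nd (nat_lit 234) (nat_lit 1064) (nat_lit 0) (XT.nd (nat_lit 78) (nat_lit 532) (nat_lit 0) (XT.lf (nat_lit 0) (nat_lit 1394619832)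 (nat_lit 608) (nat_lit 5395484078) (nat_lit 76) (nat_lit 1770025165) (nat_lit 166) (nat_lit 5) (nat_lit 174) (nat_lit 5) (nat_lit 167) (nat_lit 5) (nat_lit 296) (nat_lit 263) (nat_lit 221)) (XT.nd (nat_lit 78) (nat_lit 532) (nat_lit 0) (XT.lf (nat_lit 0) (nat_lit 3633815121) (nat_lit 608) (nat_lit 386793762) (nat_lit 76) (nat_lit 4658289965) (nat_lit 166) (nat_lit 5) (nat_lit 174) (nat_lit 5) (nat_lit 167) (nat_lit 5) (nat_lit 297) (nat_lit 263) (nat_lit 220)) (XT.lf (nat_lit 0) (nat_lit 4813238012) (nat_lit 532) (nat_lit 1124429143) (nat_lit 608) (nat_lit 2863689432) (nat_lit 159) (nat_lit 5) (nat_lit 166) (nat_lit 5) (nat_lit 167) (nat_lit 5) (nat_lit 298) (nat_lit 263) (nat_lit 219)))) (XT.nd (nat_lit 156) (nat_lit 456) (nat_lit 0) (XT.nd (nat_lit 78) (nat_lit 76) (nat_lit 0) (XT.lf (nat_lit 0) (nat_lit 1201605491) (nat_lit 532) (nat_lit 7094478969) (nat_lit 608) (nat_lit 631887971) (nat_lit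 152) (nat_lit 5) (nat_lit 159) (nat_lit 5) (nat_lit 160) (nat_lit 5) (nat_lit 299) (nat_lit 263) (nat_lit 218)) (XT.lf (nat_lit 0) (nat_lit 1638605620) (nat_lit 608) (nat_lit 2510189446) (nat_lit 76) (nat_lit 4909028174) (nat_lit 151) (nat_lit 5) (nat_lit 159) (nat_lit 5) (nat_lit 152) (nat_lit 5) (nat_lit 300) (nat_lit 263) (nat_lit 217))) (XT.nd (nat_lit 78) (nat_lit 0) (nat_lit 0) (XT.lf (nat_lit 0) (nat_lit 2859363028) (nat_lit 456) (nat_lit 1086482054) (nat_lit 532) (nat_lit 5246140662) (nat_lit 145) (nat_lit 5) (nat_lit 151) (nat_lit 5) (nat_lit 152) (nat_lit 5) (nat_lit 301) (nat_lit 263) (nat_lit 216)) (XT.lf (nat_lit 0) (nat_lit 6322399706) (nat_lit 532) (nat_lit 961551755) (nat_lit 76) (nat_lit 2046261250) (nat_lit 145) (nat_lit 5) (nat_lit 152) (nat_lit 5) (nat_lit 146) (nat_lit 5) (nat_lit 302) (nat_lit 263) (nat_lit 215))))) (XT.nd (nat_lit 312) (nat_lit 836) (nat_lit 0) (XT.nd (nat_lit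 156) (nat_lit 456) (nat_lit 0) (XT.nd (nat_lit 78) (nat_lit 456) (nat_lit 0) (XT.lf (nat_lit 0) (nat_lit 4597698541) (nat_lit 456) (nat_lit 4183450240) (nat_lit 532) (nat_lit 691152060) (nat_lit 139) (nat_lit 5) (nat_lit 145) (nat_lit 5) (nat_lit 146) (nat_lit 5) (nat_lit 303) (nat_lit 263) (nat_lit 214)) (XT.lf (nat_lit 0) (nat_lit 669436858) (nat_lit 380) (nat_lit 965003117) (nat_lit 456) (nat_lit 7984586544) (nat_lit 133) (nat_lit 5) (nat_lit 138) (nat_lit 5) (nat_lit 139) (nat_lit 5) (nat_lit 304) (nat_lit 263) (nat_lit 213))) (XT.nd (nat_lit 78) (nat_lit 456) (nat_lit 0) (XT.lf (nat_lit 0) (nat_lit 4045166096) (nat_lit 456) (nat_lit 3371917770) (nat_lit 76) (nat_lit 2352024860) (nat_lit 133) (nat_lit 5) (nat_lit 139) (nat_lit 5) (nat_lit 134) (nat_lit 5) (nat_lit 305) (nat_lit 263) (nat_lit 212)) (XT.lf (nat_lit 0) (nat_lit 2358046479) (nat_lit 456) (nat_lit 4160599566) (nat_lit 532) (nat_lit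 3405371075) (nat_lit 127) (nat_lit 5) (nat_lit 133) (nat_lit 5) (nat_lit 134) (nat_lit 5) (nat_lit 306) (nat_lit 263) (nat_lit 211)))) (XT.nd (nat_lit 156) (nat_lit 380) (nat_lit 0) (XT.nd (nat_lit 78) (nat_lit 456) (nat_lit 0) (XT.lf (nat_lit 0) (nat_lit 8278038248) (nat_lit 456) (nat_lit 781279476) (nat_lit 532) (nat_lit 1024501039) (nat_lit 127) (nat_lit 5) (nat_lit 133) (nat_lit 5) (nat_lit 134) (nat_lit 5) (nat_lit 307) (nat_lit 263) (nat_lit 210)) (XT.lf (nat_lit 0) (nat_lit 1425855585) (nat_lit 456) (nat_lit 6130419921) (nat_lit 76) (nat_lit 2690983119) (nat_lit 121) (nat_lit 5) (nat_lit 127) (nat_lit 5) (nat_lit 122) (nat_lit 5) (nat_lit 308) (nat_lit 263) (nat_lit 209))) (XT.nd (nat_lit 78) (nat_lit 380) (nat_lit 0) (XT.lf (nat_lit 0) (nat_lit 3915583169) (nat_lit 456) (nat_lit 229932225) (nat_lit 76) (nat_lit 6270221022) (nat_lit 121) (nat_lit 5) (nat_lit 127) (nat_lit 5) (nat_lit 122)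 (nat_lit 5) (nat_lit 309) (nat_lit 263) (nat_lit 208)) (XT.lf (nat_lit 0) (nat_lit 5913476668) (nat_lit 380) (nat_lit 584827043) (nat_lit 456) (nat_lit 4090447441) (nat_lit 116) (nat_lit 5) (nat_lit 121) (nat_lit 5) (nat_lit 122) (nat_lit 5) (nat_lit 310) (nat_lit 263) (nat_lit 207))))))))
noncomputable def xc111 : XT := (XT.nd (nat_lit 2184) (nat_lit 2280) (nat_lit 0) (XT.nd (nat_lit 1092) (nat_lit 1748) (nat_lit 0) (XT.nd (nat_lit 546) (nat_lit 1216) (nat_lit 0) (XT.nd (nat_lit 234) (nat_lit 684) (nat_lit 0) (XT.nd (nat_lit 78) (nat_lit 456) (nat_lit 0) (XT.lf (nat_lit 0) (nat_lit 1427145515) (nat_lit 380) (nat_lit 7739058379) (nat_lit 456) (nat_lit 1600552217) (nat_lit 111) (nat_lit 5) (nat_lit 116) (nat_lit 5) (nat_lit 117) (nat_lit 5) (nat_lit 311) (nat_lit 263) (nat_lit 206)) (XT.nd (nat_lit 78) (nat_lit 380) (nat_lit 0) (XT.lf (nat_lit 0) (nat_lit 960929838) (nat_lit 456) (nat_lit 3206084923)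 (nat_lit 76) (nat_lit 6782366351) (nat_lit 110) (nat_lit 5) (nat_lit 116) (nat_lit 5) (nat_lit 111) (nat_lit 5) (nat_lit 312) (nat_lit 263) (nat_lit 205)) (XT.lf (nat_lit 0) (nat_lit 3107349661) (nat_lit 380) (nat_lit 452939892) (nat_lit 456) (nat_lit 7576951934) (nat_lit 105) (nat_lit 5) (nat_lit 110) (nat_lit 5) (nat_lit 111) (nat_lit 5) (nat_lit 313) (nat_lit 263) (nat_lit 204)))) (XT.nd (nat_lit 156) (nat_lit 380) (nat_lit 0) (XT.nd (nat_lit 78) (nat_lit 304) (nat_lit 0) (XT.lf (nat_lit 0) (nat_lit 6266561854) (nat_lit 456) (nat_lit 1735993879) (nat_lit 76) (nat_lit 3327341282) (nat_lit 105) (nat_lit 5) (nat_lit 111) (nat_lit 5) (nat_lit 106) (nat_lit 5) (nat_lit 314) (nat_lit 263) (nat_lit 203)) (XT.lf (nat_lit 0) (nat_lit 4787703825) (nat_lit 304) (nat_lit 4281696258) (nat_lit 380) (nat_lit 2458497296) (nat_lit 101) (nat_lit 5) (nat_lit 105) (nat_lit 5) (nat_lit 106) (nat_lit 5) (nat_lit 315)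 (nat_lit 263) (nat_lit 202))) (XT.nd (nat_lit 78) (nat_lit 304) (nat_lit 0) (XT.lf (nat_lit 0) (nat_lit 202879015) (nat_lit 380) (nat_lit 239152625) (nat_lit 76) (nat_lit 11290283141) (nat_lit 100) (nat_lit 5) (nat_lit 105) (nat_lit 5) (nat_lit 101) (nat_lit 5) (nat_lit 316) (nat_lit 263) (nat_lit 201)) (XT.lf (nat_lit 0) (nat_lit 2957880738) (nat_lit 380) (nat_lit 5462938697) (nat_lit 76) (nat_lit 3519443350) (nat_lit 96) (nat_lit 5) (nat_lit 101) (nat_lit 5) (nat_lit 97) (nat_lit 5) (nat_lit 317) (nat_lit 263) (nat_lit 200))))) (XT.nd (nat_lit 234) (nat_lit 608) (nat_lit 0) (XT.nd (nat_lit 78) (nat_lit 304) (nat_lit 0) (XT.lf (nat_lit 0) (nat_lit 1217941778) (nat_lit 304) (nat_lit 4562618805) (nat_lit 380) (nat_lit 6374361352) (nat_lit 92) (nat_lit 5) (nat_lit 96) (nat_lit 5) (nat_lit 97) (nat_lit 5) (nat_lit 318) (nat_lit 263) (nat_lit 199)) (XT.nd (nat_lit 78) (nat_lit 304) (nat_lit 0) (XT.lf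 (nat_lit 0) (nat_lit 8164451836) (nat_lit 304) (nat_lit 545664878) (nat_lit 380) (nat_lit 3665261129) (nat_lit 92) (nat_lit 5) (nat_lit 96) (nat_lit 5) (nat_lit 97) (nat_lit 5) (nat_lit 319) (nat_lit 263) (nat_lit 198)) (XT.lf (nat_lit 0) (nat_lit 2688574280) (nat_lit 304) (nat_lit 9067218303) (nat_lit 380) (nat_lit 845830047) (nat_lit 88) (nat_lit 5) (nat_lit 92) (nat_lit 5) (nat_lit 93) (nat_lit 5) (nat_lit 320) (nat_lit 263) (nat_lit 197)))) (XT.nd (nat_lit 156) (nat_lit 304) (nat_lit 0) (XT.nd (nat_lit 78) (nat_lit 228) (nat_lit 0) (XT.lf (nat_lit 0) (nat_lit 2034390584) (nat_lit 380) (nat_lit 3024084183) (nat_lit 76) (nat_lit 7775116303) (nat_lit 87) (nat_lit 5) (nat_lit 92) (nat_lit 5) (nat_lit 88) (nat_lit 5) (nat_lit 321) (nat_lit 263) (nat_lit 196)) (XT.lf (nat_lit 0) (nat_lit 4098018781) (nat_lit 228) (nat_lit 894346197) (nat_lit 304) (nat_lit 8079672235) (nat_lit 84) (nat_lit 5) (nat_lit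 87) (nat_lit 5) (nat_lit 88) (nat_lit 5) (nat_lit 322) (nat_lit 263) (nat_lit 195))) (XT.nd (nat_lit 78) (nat_lit 304) (nat_lit 0) (XT.lf (nat_lit 0) (nat_lit 8071844196) (nat_lit 304) (nat_lit 1899360867) (nat_lit 76) (nat_lit 3345468429) (nat_lit 84) (nat_lit 5) (nat_lit 88) (nat_lit 5) (nat_lit 85) (nat_lit 5) (nat_lit 323) (nat_lit 263) (nat_lit 194)) (XT.lf (nat_lit 0) (nat_lit 5440692216) (nat_lit 304) (nat_lit 5834358027) (nat_lit 380) (nat_lit 2292677488) (nat_lit 80) (nat_lit 5) (nat_lit 84) (nat_lit 5) (nat_lit 85) (nat_lit 5) (nat_lit 324) (nat_lit 263) (nat_lit 193)))))) (XT.nd (nat_lit 546) (nat_lit 684) (nat_lit 0) (XT.nd (nat_lit 234) (nat_lit 532) (nat_lit 0) (XT.nd (nat_lit 78) (nat_lit 456) (nat_lit 0) (XT.lf (nat_lit 0) (nat_lit 723138988) (nat_lit 380) (nat_lit 837569257) (nat_lit 76) (nat_lit 12265716769) (nat_lit 79) (nat_lit 5) (nat_lit 84) (nat_lit 5) (nat_lit 80) (nat_lit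 5) (nat_lit 325) (nat_lit 263) (nat_lit 192)) (XT.nd (nat_lit 78) (nat_lit 228) (nat_lit 0) (XT.lf (nat_lit 0) (nat_lit 3847334263) (nat_lit 304) (nat_lit 7382892097) (nat_lit 76) (nat_lit 2860073836) (nat_lit 76) (nat_lit 5) (nat_lit 80) (nat_lit 5) (nat_lit 77) (nat_lit 5) (nat_lit 326) (nat_lit 263) (nat_lit 191)) (XT.lf (nat_lit 0) (nat_lit 76675379) (nat_lit 228) (nat_lit 6984795263) (nat_lit 304) (nat_lit 7300751546) (nat_lit 73) (nat_lit 5) (nat_lit 76) (nat_lit 5) (nat_lit 77) (nat_lit 5) (nat_lit 327) (nat_lit 263) (nat_lit 190)))) (XT.nd (nat_lit 156) (nat_lit 304) (nat_lit 0) (XT.nd (nat_lit 78) (nat_lit 228) (nat_lit 0) (XT.lf (nat_lit 0) (nat_lit 7868446175) (nat_lit 228) (nat_lit 2550039694) (nat_lit 304) (nat_lit 4222438841) (nat_lit 73) (nat_lit 5) (nat_lit 76) (nat_lit 5) (nat_lit 77) (nat_lit 5) (nat_lit 328) (nat_lit 263) (nat_lit 189)) (XT.lf (nat_lit 0) (nat_lit 922209965) (nat_lit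 228) (nat_lit 12954844392) (nat_lit 304) (nat_lit 1050924701) (nat_lit 70) (nat_lit 5) (nat_lit 73) (nat_lit 5) (nat_lit 74) (nat_lit 5) (nat_lit 329) (nat_lit 263) (nat_lit 188))) (XT.nd (nat_lit 78) (nat_lit 228) (nat_lit 0) (XT.lf (nat_lit 0) (nat_lit 2239506170) (nat_lit 304) (nat_lit 6324763784) (nat_lit 76) (nat_lit 6656740978) (nat_lit 69) (nat_lit 5) (nat_lit 73) (nat_lit 5) (nat_lit 70) (nat_lit 5) (nat_lit 330) (nat_lit 263) (nat_lit 187)) (XT.lf (nat_lit 0) (nat_lit 1565539425) (nat_lit 228) (nat_lit 4030526713) (nat_lit 304) (nat_lit 9926813980) (nat_lit 66) (nat_lit 5) (nat_lit 69) (nat_lit 5) (nat_lit 70) (nat_lit 5) (nat_lit 331) (nat_lit 263) (nat_lit 186))))) (XT.nd (nat_lit 234) (nat_lit 380) (nat_lit 0) (XT.nd (nat_lit 78) (nat_lit 304) (nat_lit 0) (XT.lf (nat_lit 0) (nat_lit 9097694985) (nat_lit 304) (nat_lit 6057991356) (nat_lit 76) (nat_lit 676802121) (nat_lit 66) (nat_lit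 5) (nat_lit 70) (nat_lit 5) (nat_lit 67) (nat_lit 5) (nat_lit 332) (nat_lit 263) (nat_lit 185)) (XT.nd (nat_lit 78) (nat_lit 76) (nat_lit 0) (XT.lf (nat_lit 0) (nat_lit 2037880010) (nat_lit 228) (nat_lit 10700480819) (nat_lit 304) (nat_lit 3412018416) (nat_lit 63) (nat_lit 5) (nat_lit 66) (nat_lit 5) (nat_lit 67) (nat_lit 5) (nat_lit 333) (nat_lit 263) (nat_lit 184)) (XT.lf (nat_lit 0) (nat_lit 46605278) (nat_lit 304) (nat_lit 6016309269) (nat_lit 76) (nat_lit 10413811156) (nat_lit 62) (nat_lit 5) (nat_lit 66) (nat_lit 5) (nat_lit 63) (nat_lit 5) (nat_lit 334) (nat_lit 263) (nat_lit 183)))) (XT.nd (nat_lit 156) (nat_lit 152) (nat_lit 0) (XT.nd (nat_lit 78) (nat_lit 0) (nat_lit 0) (XT.lf (nat_lit 0) (nat_lit 2294493699) (nat_lit 228) (nat_lit 1243301566) (nat_lit 304) (nat_lit 13274144905) (nat_lit 59) (nat_lit 5) (nat_lit 62) (nat_lit 5) (nat_lit 63) (nat_lit 5) (nat_lit 335) (nat_lit 263) (nat_lit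 182)) (XT.lf (nat_lit 0) (nat_lit 7206377574) (nat_lit 304) (nat_lit 6253289747) (nat_lit 76) (nat_lit 3695376338) (nat_lit 59) (nat_lit 5) (nat_lit 63) (nat_lit 5) (nat_lit 60) (nat_lit 5) (nat_lit 336) (nat_lit 263) (nat_lit 181))) (XT.nd (nat_lit 78) (nat_lit 0) (nat_lit 0) (XT.lf (nat_lit 0) (nat_lit 2252096842) (nat_lit 152) (nat_lit 8743126159) (nat_lit 228) (nat_lit 6512923013) (nat_lit 57) (nat_lit 5) (nat_lit 59) (nat_lit 5) (nat_lit 60) (nat_lit 5) (nat_lit 337) (nat_lit 263) (nat_lit 180)) (XT.lf (nat_lit 0) (nat_lit 11102875697) (nat_lit 152) (nat_lit 3834578237) (nat_lit 228) (nat_lit 2933207484) (nat_lit 57) (nat_lit 5) (nat_lit 59) (nat_lit 5) (nat_lit 60) (nat_lit 5) (nat_lit 338) (nat_lit 263) (nat_lit 179))))))) (XT.nd (nat_lit 1092) (nat_lit 836) (nat_lit 0) (XT.nd (nat_lit 546) (nat_lit 684) (nat_lit 0) (XT.nd (nat_lit 234) (nat_lit 304) (nat_lit 0) (XT.nd (nat_lit 78) (nat_lit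 152) (nat_lit 0) (XT.lf (nat_lit 0) (nat_lit 746996038) (nat_lit 304) (nat_lit 16286845640) (nat_lit 76) (nat_lit 1209769882) (nat_lit 53) (nat_lit 5) (nat_lit 57) (nat_lit 5) (nat_lit 54) (nat_lit 5) (nat_lit 339) (nat_lit 263) (nat_lit 178)) (XT.nd (nat_lit 78) (nat_lit 152) (nat_lit 0) (XT.lf (nat_lit 0) (nat_lit 4562832276) (nat_lit 304) (nat_lit 7649103072) (nat_lit 76) (nat_lit 6412428775) (nat_lit 53) (nat_lit 5) (nat_lit 57) (nat_lit 5) (nat_lit 54) (nat_lit 5) (nat_lit 340) (nat_lit 263) (nat_lit 177)) (XT.lf (nat_lit 0) (nat_lit 1235466815) (nat_lit 152) (nat_lit 7247414052) (nat_lit 228) (nat_lit 10533976568) (nat_lit 51) (nat_lit 5) (nat_lit 53) (nat_lit 5) (nat_lit 54) (nat_lit 5) (nat_lit 341) (nat_lit 263) (nat_lit 176)))) (XT.nd (nat_lit 156) (nat_lit 76) (nat_lit 0) (XT.nd (nat_lit 78) (nat_lit 228) (nat_lit 0) (XT.lf (nat_lit 0) (nat_lit 10507316542) (nat_lit 152) (nat_lit 2068614745)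 (nat_lit 228) (nat_lit 6843542239) (nat_lit 51) (nat_lit 5) (nat_lit 53) (nat_lit 5) (nat_lit 54) (nat_lit 5) (nat_lit 342) (nat_lit 263) (nat_lit 175)) (XT.lf (nat_lit 0) (nat_lit 159353420) (nat_lit 228) (nat_lit 16644004944) (nat_lit 304) (nat_lit 3030471884) (nat_lit 48) (nat_lit 5) (nat_lit 51) (nat_lit 5) (nat_lit 52) (nat_lit 5) (nat_lit 343) (nat_lit 263) (nat_lit 174))) (XT.nd (nat_lit 78) (nat_lit 0) (nat_lit 0) (XT.lf (nat_lit 0) (nat_lit 969583337) (nat_lit 304) (nat_lit 10637816598) (nat_lit 76) (nat_lit 8650265318) (nat_lit 47) (nat_lit 5) (nat_lit 51) (nat_lit 5) (nat_lit 48) (nat_lit 5) (nat_lit 344) (nat_lit 263) (nat_lit 173)) (XT.lf (nat_lit 0) (nat_lit 5008078873) (nat_lit 304) (nat_lit 1394627842) (nat_lit 76) (nat_lit 14291236888) (nat_lit 47) (nat_lit 5) (nat_lit 51) (nat_lit 5) (nat_lit 48) (nat_lit 5) (nat_lit 345) (nat_lit 263) (nat_lit 172))))) (XT.nd (nat_lit 234) (nat_lit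 380) (nat_lit 0) (XT.nd (nat_lit 78) (nat_lit 152) (nat_lit 0) (XT.lf (nat_lit 0) (nat_lit 8253349336) (nat_lit 152) (nat_lit 973665834) (nat_lit 228) (nat_lit 11914525174) (nat_lit 45) (nat_lit 5) (nat_lit 47) (nat_lit 5) (nat_lit 48) (nat_lit 5) (nat_lit 346) (nat_lit 263) (nat_lit 171)) (XT.nd (nat_lit 78) (nat_lit 152) (nat_lit 0) (XT.lf (nat_lit 0) (nat_lit 13611220374) (nat_lit 228) (nat_lit 3461024503) (nat_lit 76) (nat_lit 4529167453) (nat_lit 45) (nat_lit 5) (nat_lit 48) (nat_lit 5) (nat_lit 46) (nat_lit 5) (nat_lit 347) (nat_lit 263) (nat_lit 170)) (XT.lf (nat_lit 0) (nat_lit 6330118307) (nat_lit 152) (nat_lit 11847987667) (nat_lit 228) (nat_lit 3895448000) (nat_lit 43) (nat_lit 5) (nat_lit 45) (nat_lit 5) (nat_lit 46) (nat_lit 5) (nat_lit 348) (nat_lit 263) (nat_lit 169)))) (XT.nd (nat_lit 156) (nat_lit 152) (nat_lit 0) (XT.nd (nat_lit 78) (nat_lit 152) (nat_lit 0) (XT.lf (nat_lit 0)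 (nat_lit 331867829) (nat_lit 228) (nat_lit 6109103399) (nat_lit 76) (nat_lit 16118322930) (nat_lit 42) (nat_lit 5) (nat_lit 45) (nat_lit 5) (nat_lit 43) (nat_lit 5) (nat_lit 349) (nat_lit 263) (nat_lit 168)) (XT.lf (nat_lit 0) (nat_lit 3818362768) (nat_lit 152) (nat_lit 807331743) (nat_lit 228) (nat_lit 18432222826) (nat_lit 40) (nat_lit 5) (nat_lit 42) (nat_lit 5) (nat_lit 43) (nat_lit 5) (nat_lit 350) (nat_lit 263) (nat_lit 167))) (XT.nd (nat_lit 78) (nat_lit 152) (nat_lit 0) (XT.lf (nat_lit 0) (nat_lit 9140053107) (nat_lit 228) (nat_lit 9481355024) (nat_lit 76) (nat_lit 4947346787) (nat_lit 40) (nat_lit 5) (nat_lit 43) (nat_lit 5) (nat_lit 41) (nat_lit 5) (nat_lit 351) (nat_lit 263) (nat_lit 166)) (XT.lf (nat_lit 0) (nat_lit 541126125) (nat_lit 152) (nat_lit 13243851461) (nat_lit 228) (nat_lit 10310092995) (nat_lit 38) (nat_lit 5) (nat_lit 40) (nat_lit 5) (nat_lit 41) (nat_lit 5) (nat_lit 352)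 (nat_lit 263) (nat_lit 165)))))) (XT.nd (nat_lit 546) (nat_lit 456) (nat_lit 0) (XT.nd (nat_lit 234) (nat_lit 152) (nat_lit 0) (XT.nd (nat_lit 78) (nat_lit 228) (nat_lit 0) (XT.lf (nat_lit 0) (nat_lit 11027914092) (nat_lit 152) (nat_lit 7619249568) (nat_lit 228) (nat_lit 5987681440) (nat_lit 38) (nat_lit 5) (nat_lit 40) (nat_lit 5) (nat_lit 41) (nat_lit 5) (nat_lit 353) (nat_lit 263) (nat_lit 164)) (XT.nd (nat_lit 78) (nat_lit 228) (nat_lit 0) (XT.lf (nat_lit 0) (nat_lit 21799474534) (nat_lit 152) (nat_lit 1838430847) (nat_lit 228) (nat_lit 1553433378) (nat_lit 38) (nat_lit 5) (nat_lit 40) (nat_lit 5) (nat_lit 41) (nat_lit 5) (nat_lit 354) (nat_lit 263) (nat_lit 163)) (XT.lf (nat_lit 0) (nat_lit 3047798444) (nat_lit 228) (nat_lit 18590400805) (nat_lit 76) (nat_lit 4122682061) (nat_lit 35) (nat_lit 5) (nat_lit 38) (nat_lit 5) (nat_lit 36) (nat_lit 5) (nat_lit 355) (nat_lit 263) (nat_lit 162)))) (XT.nd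 (nat_lit 156) (nat_lit 0) (nat_lit 0) (XT.nd (nat_lit 78) (nat_lit 152) (nat_lit 0) (XT.lf (nat_lit 0) (nat_lit 7791756642) (nat_lit 228) (nat_lit 8290589292) (nat_lit 76) (nat_lit 10263631477) (nat_lit 35) (nat_lit 5) (nat_lit 38) (nat_lit 5) (nat_lit 36) (nat_lit 5) (nat_lit 356) (nat_lit 263) (nat_lit 161)) (XT.lf (nat_lit 0) (nat_lit 2335231730) (nat_lit 152) (nat_lit 10348860511) (nat_lit 228) (nat_lit 14264358262) (nat_lit 33) (nat_lit 5) (nat_lit 35) (nat_lit 5) (nat_lit 36) (nat_lit 5) (nat_lit 357) (nat_lit 263) (nat_lit 160))) (XT.nd (nat_lit 78) (nat_lit 0) (nat_lit 0) (XT.lf (nat_lit 0) (nat_lit 13421502656) (nat_lit 152) (nat_lit 4369230495) (nat_lit 228) (nat_lit 9776244279) (nat_lit 33) (nat_lit 5) (nat_lit 35) (nat_lit 5) (nat_lit 36) (nat_lit 5) (nat_lit 358) (nat_lit 263) (nat_lit 159)) (XT.lf (nat_lit 0) (nat_lit 23051952904) (nat_lit 228) (nat_lit 3408717232) (nat_lit 76) (nat_lit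 1743354172) (nat_lit 33) (nat_lit 5) (nat_lit 36) (nat_lit 5) (nat_lit 34) (nat_lit 4) (nat_lit 359) (nat_lit 263) (nat_lit 158))))) (XT.nd (nat_lit 312) (nat_lit 152) (nat_lit 0) (XT.nd (nat_lit 156) (nat_lit 152) (nat_lit 0) (XT.nd (nat_lit 78) (nat_lit 76) (nat_lit 0) (XT.lf (nat_lit 0) (nat_lit 7730733675) (nat_lit 76) (nat_lit 20842483819) (nat_lit 152) (nat_lit 283904222) (nat_lit 32) (nat_lit 5) (nat_lit 33) (nat_lit 5) (nat_lit 34) (nat_lit 4) (nat_lit 360) (nat_lit 263) (nat_lit 157)) (XT.lf (nat_lit 0) (nat_lit 4657435903) (nat_lit 152) (nat_lit 10327396859) (nat_lit 76) (nat_lit 14543037230) (nat_lit 31) (nat_lit 5) (nat_lit 33) (nat_lit 5) (nat_lit 32) (nat_lit 5) (nat_lit 361) (nat_lit 263) (nat_lit 156))) (XT.nd (nat_lit 78) (nat_lit 0) (nat_lit 0) (XT.lf (nat_lit 0) (nat_lit 781746154) (nat_lit 152) (nat_lit 8952196089) (nat_lit 228) (nat_lit 20484940095) (nat_lit 29) (nat_lit 5)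 (nat_lit 31) (nat_lit 5) (nat_lit 32) (nat_lit 5) (nat_lit 362) (nat_lit 263) (nat_lit 155)) (XT.lf (nat_lit 0) (nat_lit 12409860782) (nat_lit 152) (nat_lit 2642470532) (nat_lit 228) (nat_lit 15875610886) (nat_lit 29) (nat_lit 5) (nat_lit 31) (nat_lit 5) (nat_lit 32) (nat_lit 5) (nat_lit 363) (nat_lit 263) (nat_lit 154)))) (XT.nd (nat_lit 156) (nat_lit 76) (nat_lit 0) (XT.nd (nat_lit 78) (nat_lit 76) (nat_lit 0) (XT.lf (nat_lit 0) (nat_lit 20552967243) (nat_lit 228) (nat_lit 7334100529) (nat_lit 76) (nat_lit 3770529863) (nat_lit 29) (nat_lit 5) (nat_lit 32) (nat_lit 5) (nat_lit 30) (nat_lit 4) (nat_lit 364) (nat_lit 263) (nat_lit 153)) (XT.lf (nat_lit 0) (nat_lit 4216690371) (nat_lit 76) (nat_lit 22054670786) (nat_lit 152) (nat_lit 6136203908) (nat_lit 28) (nat_lit 5) (nat_lit 29) (nat_lit 5) (nat_lit 30) (nat_lit 4) (nat_lit 365) (nat_lit 263) (nat_lit 152))) (XT.nd (nat_lit 78) (nat_lit 76) (nat_lit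 0) (XT.lf (nat_lit 0) (nat_lit 16239761134) (nat_lit 76) (nat_lit 15981818412) (nat_lit 152) (nat_lit 956648159) (nat_lit 28) (nat_lit 5) (nat_lit 29) (nat_lit 5) (nat_lit 30) (nat_lit 4) (nat_lit 366) (nat_lit 263) (nat_lit 151)) (XT.lf (nat_lit 0) (nat_lit 4279335479) (nat_lit 152) (nat_lit 5414715933) (nat_lit 76) (nat_lit 24277105997) (nat_lit 27) (nat_lit 5) (nat_lit 29) (nat_lit 5) (nat_lit 28) (nat_lit 5) (nat_lit 367) (nat_lit 263) (nat_lit 150))))))))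
noncomputable def xc112 : XT := (XT.nd (nat_lit 2184) (nat_lit 380) (nat_lit 0) (XT.nd (nat_lit 1092) (nat_lit 304) (nat_lit 0) (XT.nd (nat_lit 546) (nat_lit 228) (nat_lit 0) (XT.nd (nat_lit 234) (nat_lit 304) (nat_lit 0) (XT.nd (nat_lit 78) (nat_lit 0) (nat_lit 0) (XT.lf (nat_lit 0) (nat_lit 6549642888) (nat_lit 152) (nat_lit 3153358599) (nat_lit 228) (nat_lit 25083098446) (nat_lit 25) (nat_lit 5) (nat_lit 27) (nat_lit 5) (nat_lit 28) (nat_lit 5) (nat_lit 368) (nat_lit 263) (nat_lit 149)) (XT.nd (nat_lit 78) (nat_lit 0) (nat_lit 0) (XT.lf (nat_lit 0) (nat_lit 15365976387) (nat_lit 228) (nat_lit 16698414655) (nat_lit 76) (nat_lit 3558805602) (nat_lit 25) (nat_lit 5) (nat_lit 28) (nat_lit 5) (nat_lit 26) (nat_lit 4) (nat_lit 369) (nat_lit 263) (nat_lit 148)) (XT.lf (nat_lit 0) (nat_lit 21217374730) (nat_lit 228) (nat_lit 4868272188) (nat_lit 76) (nat_lit 10399207082) (nat_lit 25) (nat_lit 5) (nat_lit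 28) (nat_lit 5) (nat_lit 26) (nat_lit 4) (nat_lit 370) (nat_lit 263) (nat_lit 147)))) (XT.nd (nat_lit 156) (nat_lit 228) (nat_lit 0) (XT.nd (nat_lit 78) (nat_lit 0) (nat_lit 0) (XT.lf (nat_lit 0) (nat_lit 7439796615) (nat_lit 76) (nat_lit 19863716636) (nat_lit 152) (nat_lit 10067075534) (nat_lit 24) (nat_lit 5) (nat_lit 25) (nat_lit 5) (nat_lit 26) (nat_lit 4) (nat_lit 371) (nat_lit 263) (nat_lit 146)) (XT.lf (nat_lit 0) (nat_lit 20194964330) (nat_lit 76) (nat_lit 13414261840) (nat_lit 152) (nat_lit 4672563288) (nat_lit 24) (nat_lit 5) (nat_lit 25) (nat_lit 5) (nat_lit 26) (nat_lit 4) (nat_lit 372) (nat_lit 263) (nat_lit 145))) (XT.nd (nat_lit 78) (nat_lit 152) (nat_lit 0) (XT.lf (nat_lit 0) (nat_lit 854602843) (nat_lit 152) (nat_lit 5917574431) (nat_lit 76) (nat_lit 32448255431) (nat_lit 23) (nat_lit 5) (nat_lit 25) (nat_lit 5) (nat_lit 24) (nat_lit 5) (nat_lit 373) (nat_lit 263) (nat_lit 144))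 (XT.lf (nat_lit 0) (nat_lit 6507962666) (nat_lit 228) (nat_lit 33506013249) (nat_lit 76) (nat_lit 170245913) (nat_lit 21) (nat_lit 5) (nat_lit 24) (nat_lit 5) (nat_lit 22) (nat_lit 4) (nat_lit 374) (nat_lit 263) (nat_lit 143))))) (XT.nd (nat_lit 234) (nat_lit 152) (nat_lit 0) (XT.nd (nat_lit 78) (nat_lit 76) (nat_lit 0) (XT.lf (nat_lit 0) (nat_lit 12446783530) (nat_lit 228) (nat_lit 21490570427) (nat_lit 76) (nat_lit 7236098017) (nat_lit 21) (nat_lit 5) (nat_lit 24) (nat_lit 5) (nat_lit 22) (nat_lit 4) (nat_lit 375) (nat_lit 263) (nat_lit 142)) (XT.nd (nat_lit 78) (nat_lit 76) (nat_lit 0) (XT.lf (nat_lit 0) (nat_lit 18552566539) (nat_lit 228) (nat_lit 9135018814) (nat_lit 76) (nat_lit 14505112809) (nat_lit 21) (nat_lit 5) (nat_lit 24) (nat_lit 5) (nat_lit 22) (nat_lit 4) (nat_lit 376) (nat_lit 263) (nat_lit 141)) (XT.lf (nat_lit 0) (nat_lit 3642516314) (nat_lit 76) (nat_lit 21223144623) (nat_lit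 152) (nat_lit 18376139635) (nat_lit 20) (nat_lit 5) (nat_lit 21) (nat_lit 5) (nat_lit 22) (nat_lit 4) (nat_lit 377) (nat_lit 263) (nat_lit 140)))) (XT.nd (nat_lit 156) (nat_lit 152) (nat_lit 0) (XT.nd (nat_lit 78) (nat_lit 0) (nat_lit 0) (XT.lf (nat_lit 0) (nat_lit 16971068523) (nat_lit 76) (nat_lit 14478577910) (nat_lit 152) (nat_lit 12870287560) (nat_lit 20) (nat_lit 5) (nat_lit 21) (nat_lit 5) (nat_lit 22) (nat_lit 4) (nat_lit 378) (nat_lit 263) (nat_lit 139)) (XT.lf (nat_lit 0) (nat_lit 30680479334) (nat_lit 76) (nat_lit 7540237684) (nat_lit 152) (nat_lit 7210010238) (nat_lit 20) (nat_lit 5) (nat_lit 21) (nat_lit 5) (nat_lit 22) (nat_lit 4) (nat_lit 379) (nat_lit 263) (nat_lit 138))) (XT.nd (nat_lit 78) (nat_lit 152) (nat_lit 0) (XT.lf (nat_lit 0) (nat_lit 44782727843) (nat_lit 76) (nat_lit 402061315) (nat_lit 152) (nat_lit 1390361795) (nat_lit 20) (nat_lit 5) (nat_lit 21) (nat_lit 5) (nat_lit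 22) (nat_lit 4) (nat_lit 380) (nat_lit 263) (nat_lit 137)) (XT.lf (nat_lit 0) (nat_lit 4685052131) (nat_lit 152) (nat_lit 36097303368) (nat_lit 76) (nat_lit 6965096343) (nat_lit 18) (nat_lit 5) (nat_lit 20) (nat_lit 5) (nat_lit 19) (nat_lit 4) (nat_lit 381) (nat_lit 263) (nat_lit 136)))))) (XT.nd (nat_lit 546) (nat_lit 152) (nat_lit 0) (XT.nd (nat_lit 234) (nat_lit 76) (nat_lit 0) (XT.nd (nat_lit 78) (nat_lit 76) (nat_lit 0) (XT.lf (nat_lit 0) (nat_lit 10927147137) (nat_lit 152) (nat_lit 23457713851) (nat_lit 76) (nat_lit 14569279375) (nat_lit 18) (nat_lit 5) (nat_lit 20) (nat_lit 5) (nat_lit 19) (nat_lit 4) (nat_lit 382) (nat_lit 263) (nat_lit 135)) (XT.nd (nat_lit 78) (nat_lit 76) (nat_lit 0) (XT.lf (nat_lit 0) (nat_lit 17346896822) (nat_lit 152) (nat_lit 10456557277) (nat_lit 76) (nat_lit 22393866104) (nat_lit 18) (nat_lit 5) (nat_lit 20) (nat_lit 5) (nat_lit 19) (nat_lit 4) (nat_lit 383) (nat_lit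 263) (nat_lit 134)) (XT.lf (nat_lit 0) (nat_lit 2975591088) (nat_lit 76) (nat_lit 21002922789) (nat_lit 152) (nat_lit 27498705660) (nat_lit 17) (nat_lit 5) (nat_lit 18) (nat_lit 5) (nat_lit 19) (nat_lit 4) (nat_lit 384) (nat_lit 263) (nat_lit 133)))) (XT.nd (nat_lit 156) (nat_lit 76) (nat_lit 0) (XT.nd (nat_lit 78) (nat_lit 0) (nat_lit 0) (XT.lf (nat_lit 0) (nat_lit 17008113392) (nat_lit 76) (nat_lit 13897337322) (nat_lit 152) (nat_lit 21887176281) (nat_lit 17) (nat_lit 5) (nat_lit 18) (nat_lit 5) (nat_lit 19) (nat_lit 4) (nat_lit 385) (nat_lit 263) (nat_lit 132)) (XT.lf (nat_lit 0) (nat_lit 31445165068) (nat_lit 76) (nat_lit 6586079658) (nat_lit 152) (nat_lit 16116522690) (nat_lit 17) (nat_lit 5) (nat_lit 18) (nat_lit 5) (nat_lit 19) (nat_lit 4) (nat_lit 386) (nat_lit 263) (nat_lit 131))) (XT.nd (nat_lit 78) (nat_lit 76) (nat_lit 0) (XT.lf (nat_lit 0) (nat_lit 45371131648) (nat_lit 152) (nat_lit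 9253473201) (nat_lit 0) (nat_lit 918949776) (nat_lit 17) (nat_lit 5) (nat_lit 19) (nat_lit 4) (nat_lit 17) (nat_lit 4) (nat_lit 387) (nat_lit 263) (nat_lit 130)) (XT.lf (nat_lit 0) (nat_lit 4608153282) (nat_lit 76) (nat_lit 48424061970) (nat_lit 76) (nat_lit 3945972283) (nat_lit 16) (nat_lit 4) (nat_lit 17) (nat_lit 5) (nat_lit 17) (nat_lit 4) (nat_lit 388) (nat_lit 263) (nat_lit 129))))) (XT.nd (nat_lit 234) (nat_lit 76) (nat_lit 0) (XT.nd (nat_lit 78) (nat_lit 0) (nat_lit 0) (XT.lf (nat_lit 0) (nat_lit 2505001810) (nat_lit 152) (nat_lit 39418089229) (nat_lit 76) (nat_lit 16529482593) (nat_lit 15) (nat_lit 5) (nat_lit 17) (nat_lit 5) (nat_lit 16) (nat_lit 4) (nat_lit 389) (nat_lit 263) (nat_lit 128)) (XT.nd (nat_lit 78) (nat_lit 0) (nat_lit 0) (XT.lf (nat_lit 0) (nat_lit 9061950465) (nat_lit 152) (nat_lit 26131904061) (nat_lit 76) (nat_lit 24776413961) (nat_lit 15) (nat_lit 5) (nat_lit 17) (nat_lit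 5) (nat_lit 16) (nat_lit 4) (nat_lit 390) (nat_lit 263) (nat_lit 127)) (XT.lf (nat_lit 0) (nat_lit 15807603184) (nat_lit 152) (nat_lit 12461938361) (nat_lit 76) (nat_lit 33264194626) (nat_lit 15) (nat_lit 5) (nat_lit 17) (nat_lit 5) (nat_lit 16) (nat_lit 4) (nat_lit 391) (nat_lit 263) (nat_lit 126)))) (XT.nd (nat_lit 156) (nat_lit 0) (nat_lit 0) (XT.nd (nat_lit 78) (nat_lit 0) (nat_lit 0) (XT.lf (nat_lit 0) (nat_lit 1635670319) (nat_lit 76) (nat_lit 21127906973) (nat_lit 152) (nat_lit 40380293840) (nat_lit 14) (nat_lit 5) (nat_lit 15) (nat_lit 5) (nat_lit 16) (nat_lit 4) (nat_lit 392) (nat_lit 263) (nat_lit 125)) (XT.lf (nat_lit 0) (nat_lit 16397431890) (nat_lit 76) (nat_lit 13648958150) (nat_lit 152) (nat_lit 34752377065) (nat_lit 14) (nat_lit 5) (nat_lit 15) (nat_lit 5) (nat_lit 16) (nat_lit 4) (nat_lit 393) (nat_lit 263) (nat_lit 124))) (XT.nd (nat_lit 78) (nat_lit 0) (nat_lit 0) (XT.lf (nat_lit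 0) (nat_lit 31588227969) (nat_lit 76) (nat_lit 5952001217) (nat_lit 152) (nat_lit 28963306207) (nat_lit 14) (nat_lit 5) (nat_lit 15) (nat_lit 5) (nat_lit 16) (nat_lit 4) (nat_lit 394) (nat_lit 263) (nat_lit 123)) (XT.lf (nat_lit 0) (nat_lit 45270576603) (nat_lit 152) (nat_lit 21057267392) (nat_lit 0) (nat_lit 1931253589) (nat_lit 14) (nat_lit 5) (nat_lit 16) (nat_lit 4) (nat_lit 14) (nat_lit 4) (nat_lit 395) (nat_lit 263) (nat_lit 122))))))) (XT.nd (nat_lit 1092) (nat_lit 76) (nat_lit 0) (XT.nd (nat_lit 546) (nat_lit 76) (nat_lit 0) (XT.nd (nat_lit 234) (nat_lit 152) (nat_lit 0) (XT.nd (nat_lit 78) (nat_lit 76) (nat_lit 0) (XT.lf (nat_lit 0) (nat_lit 53284677651) (nat_lit 152) (nat_lit 6855596838) (nat_lit 0) (nat_lit 9925498453) (nat_lit 14) (nat_lit 5) (nat_lit 16) (nat_lit 4) (nat_lit 14) (nat_lit 4) (nat_lit 396) (nat_lit 263) (nat_lit 121)) (XT.nd (nat_lit 78) (nat_lit 0) (nat_lit 0) (XT.lf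 (nat_lit 0) (nat_lit 7913753577) (nat_lit 76) (nat_lit 53694638928) (nat_lit 76) (nat_lit 10316181884) (nat_lit 13) (nat_lit 4) (nat_lit 14) (nat_lit 5) (nat_lit 14) (nat_lit 4) (nat_lit 397) (nat_lit 263) (nat_lit 120)) (XT.lf (nat_lit 0) (nat_lit 23254046879) (nat_lit 76) (nat_lit 46990197570) (nat_lit 76) (nat_lit 3593024169) (nat_lit 13) (nat_lit 4) (nat_lit 14) (nat_lit 5) (nat_lit 14) (nat_lit 4) (nat_lit 398) (nat_lit 263) (nat_lit 119)))) (XT.nd (nat_lit 156) (nat_lit 76) (nat_lit 0) (XT.nd (nat_lit 78) (nat_lit 0) (nat_lit 0) (XT.lf (nat_lit 0) (nat_lit 3260141168) (nat_lit 152) (nat_lit 36797258048) (nat_lit 76) (nat_lit 35749185185) (nat_lit 12) (nat_lit 5) (nat_lit 14) (nat_lit 5) (nat_lit 13) (nat_lit 4) (nat_lit 399) (nat_lit 263) (nat_lit 118)) (XT.lf (nat_lit 0) (nat_lit 10240208407) (nat_lit 152) (nat_lit 22645363516) (nat_lit 76) (nat_lit 44948536184) (nat_lit 12) (nat_lit 5) (nat_lit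 14) (nat_lit 5) (nat_lit 13) (nat_lit 4) (nat_lit 400) (nat_lit 263) (nat_lit 117))) (XT.nd (nat_lit 78) (nat_lit 76) (nat_lit 0) (XT.lf (nat_lit 0) (nat_lit 17423389475) (nat_lit 152) (nat_lit 8080634064) (nat_lit 76) (nat_lit 54418623968) (nat_lit 12) (nat_lit 5) (nat_lit 14) (nat_lit 5) (nat_lit 13) (nat_lit 4) (nat_lit 401) (nat_lit 263) (nat_lit 116)) (XT.lf (nat_lit 0) (nat_lit 7047172487) (nat_lit 76) (nat_lit 17836530186) (nat_lit 152) (nat_lit 57188292616) (nat_lit 11) (nat_lit 5) (nat_lit 12) (nat_lit 5) (nat_lit 13) (nat_lit 4) (nat_lit 402) (nat_lit 263) (nat_lit 115))))) (XT.nd (nat_lit 234) (nat_lit 76) (nat_lit 0) (XT.nd (nat_lit 78) (nat_lit 0) (nat_lit 0) (XT.lf (nat_lit 0) (nat_lit 22783189383) (nat_lit 76) (nat_lit 9860198900) (nat_lit 152) (nat_lit 51640169592) (nat_lit 11) (nat_lit 5) (nat_lit 12) (nat_lit 5) (nat_lit 13) (nat_lit 4) (nat_lit 403) (nat_lit 263) (nat_lit 114))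 (XT.nd (nat_lit 78) (nat_lit 0) (nat_lit 0) (XT.lf (nat_lit 0) (nat_lit 38980346080) (nat_lit 76) (nat_lit 1649658633) (nat_lit 152) (nat_lit 45931639645) (nat_lit 11) (nat_lit 5) (nat_lit 12) (nat_lit 5) (nat_lit 13) (nat_lit 4) (nat_lit 404) (nat_lit 263) (nat_lit 113)) (XT.lf (nat_lit 0) (nat_lit 48915918088) (nat_lit 152) (nat_lit 33320837396) (nat_lit 0) (nat_lit 6669528186) (nat_lit 11) (nat_lit 5) (nat_lit 13) (nat_lit 4) (nat_lit 11) (nat_lit 4) (nat_lit 405) (nat_lit 263) (nat_lit 112)))) (XT.nd (nat_lit 156) (nat_lit 76) (nat_lit 0) (XT.nd (nat_lit 78) (nat_lit 0) (nat_lit 0) (XT.lf (nat_lit 0) (nat_lit 57461172704) (nat_lit 152) (nat_lit 18659329425) (nat_lit 0) (nat_lit 15200438273) (nat_lit 11) (nat_lit 5) (nat_lit 13) (nat_lit 4) (nat_lit 11) (nat_lit 4) (nat_lit 406) (nat_lit 263) (nat_lit 111)) (XT.lf (nat_lit 0) (nat_lit 66257377760) (nat_lit 152) (nat_lit 3568105810) (nat_lit 0)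 (nat_lit 23982716602) (nat_lit 11) (nat_lit 5) (nat_lit 13) (nat_lit 4) (nat_lit 11) (nat_lit 4) (nat_lit 407) (nat_lit 263) (nat_lit 110))) (XT.nd (nat_lit 78) (nat_lit 0) (nat_lit 0) (XT.lf (nat_lit 0) (nat_lit 12204167212) (nat_lit 76) (nat_lit 63225365970) (nat_lit 76) (nat_lit 20937183717) (nat_lit 10) (nat_lit 4) (nat_lit 11) (nat_lit 5) (nat_lit 11) (nat_lit 4) (nat_lit 408) (nat_lit 263) (nat_lit 109)) (XT.lf (nat_lit 0) (nat_lit 28513012955) (nat_lit 76) (nat_lit 56394680771) (nat_lit 76) (nat_lit 14093371243) (nat_lit 10) (nat_lit 4) (nat_lit 11) (nat_lit 5) (nat_lit 11) (nat_lit 4) (nat_lit 409) (nat_lit 263) (nat_lit 108)))))) (XT.nd (nat_lit 29562) (nat_lit 0) (nat_lit 21736) (XT.nd (nat_lit 29250) (nat_lit 0) (nat_lit 23256) (XT.nd (nat_lit 78) (nat_lit 76) (nat_lit 0) (XT.lf (nat_lit 0) (nat_lit 45301669563) (nat_lit 76) (nat_lit 49363490289) (nat_lit 76) (nat_lit 7049435832) (nat_lit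 10) (nat_lit 4) (nat_lit 11) (nat_lit 5) (nat_lit 11) (nat_lit 4) (nat_lit 410) (nat_lit 263) (nat_lit 107)) (XT.nd (nat_lit 78) (nat_lit 0) (nat_lit 0) (XT.lf (nat_lit 0) (nat_lit 196859518) (nat_lit 152) (nat_lit 41926803351) (nat_lit 76) (nat_lit 62385959323) (nat_lit 9) (nat_lit 5) (nat_lit 11) (nat_lit 5) (nat_lit 10) (nat_lit 4) (nat_lit 411) (nat_lit 263) (nat_lit 106)) (XT.lf (nat_lit 0) (nat_lit 7514059109) (nat_lit 152) (nat_lit 27084901498) (nat_lit 76) (nat_lit 72787589873) (nat_lit 9) (nat_lit 5) (nat_lit 11) (nat_lit 5) (nat_lit 10) (nat_lit 4) (nat_lit 412) (nat_lit 263) (nat_lit 105)))) (XT.nd (nat_lit 156) (nat_lit 380) (nat_lit 0) (XT.nd (nat_lit 78) (nat_lit 0) (nat_lit 0) (XT.lf (nat_lit 0) (nat_lit 1385248192) (nat_lit 380) (nat_lit 935290234) (nat_lit 380) (nat_lit 935290234) (nat_lit 320) (nat_lit 3) (nat_lit 325) (nat_lit 3) (nat_lit 325) (nat_lit 5) (nat_lit 264) (nat_lit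 264) (nat_lit 252)) (XT.lf (nat_lit 76) (nat_lit 1203050909) (nat_lit 0) (nat_lit 4090804065) (nat_lit 380) (nat_lit 1236778847) (nat_lit 321) (nat_lit 5) (nat_lit 320) (nat_lit 3) (nat_lit 325) (nat_lit 5) (nat_lit 265) (nat_lit 264) (nat_lit 251))) (XT.nd (nat_lit 78) (nat_lit 0) (nat_lit 0) (XT.lf (nat_lit 0) (nat_lit 1237593574) (nat_lit 380) (nat_lit 2208304280) (nat_lit 456) (nat_lit 3106423551) (nat_lit 315) (nat_lit 5) (nat_lit 320) (nat_lit 3) (nat_lit 321) (nat_lit 5) (nat_lit 266) (nat_lit 264) (nat_lit 250)) (XT.lf (nat_lit 76) (nat_lit 959740786) (nat_lit 0) (nat_lit 2715663037) (nat_lit 456) (nat_lit 2901622630) (nat_lit 316) (nat_lit 5) (nat_lit 315) (nat_lit 5) (nat_lit 321) (nat_lit 5) (nat_lit 267) (nat_lit 264) (nat_lit 249))))) (XT.nd (nat_lit 312) (nat_lit 1064) (nat_lit 0) (XT.nd (nat_lit 156) (nat_lit 0) (nat_lit 76) (XT.nd (nat_lit 78) (nat_lit 456) (nat_lit 0) (XT.lf (nat_lit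 76) (nat_lit 4217303579) (nat_lit 0) (nat_lit 1898466851) (nat_lit 456) (nat_lit 488971148) (nat_lit 316) (nat_lit 5) (nat_lit 315) (nat_lit 5) (nat_lit 321) (nat_lit 5) (nat_lit 268) (nat_lit 264) (nat_lit 248)) (XT.lf (nat_lit 76) (nat_lit 886139050) (nat_lit 0) (nat_lit 988279199) (nat_lit 532) (nat_lit 4760917913) (nat_lit 310) (nat_lit 5) (nat_lit 309) (nat_lit 5) (nat_lit 316) (nat_lit 5) (nat_lit 269) (nat_lit 264) (nat_lit 247))) (XT.nd (nat_lit 78) (nat_lit 0) (nat_lit 0) (XT.lf (nat_lit 0) (nat_lit 4234067505) (nat_lit 456) (nat_lit 2417799255) (nat_lit 532) (nat_lit 16919728) (nat_lit 310) (nat_lit 5) (nat_lit 316) (nat_lit 5) (nat_lit 317) (nat_lit 5) (nat_lit 270) (nat_lit 264) (nat_lit 246)) (XT.lf (nat_lit 76) (nat_lit 970315514) (nat_lit 0) (nat_lit 5627212699) (nat_lit 532) (nat_lit 107856136) (nat_lit 311) (nat_lit 5) (nat_lit 310) (nat_lit 5) (nat_lit 317) (nat_lit 5) (nat_lit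 271) (nat_lit 264) (nat_lit 245)))) (XT.nd (nat_lit 156) (nat_lit 608) (nat_lit 0) (XT.nd (nat_lit 78) (nat_lit 0) (nat_lit 0) (XT.lf (nat_lit 0) (nat_lit 2183764413) (nat_lit 532) (nat_lit 2308635065) (nat_lit 608) (nat_lit 2251959132) (nat_lit 303) (nat_lit 5) (nat_lit 310) (nat_lit 5) (nat_lit 311) (nat_lit 5) (nat_lit 272) (nat_lit 264) (nat_lit 244)) (XT.lf (nat_lit 76) (nat_lit 1190640617) (nat_lit 0) (nat_lit 3280205306) (nat_lit 608) (nat_lit 2315880989) (nat_lit 304) (nat_lit 5) (nat_lit 303) (nat_lit 5) (nat_lit 311) (nat_lit 5) (nat_lit 273) (nat_lit 264) (nat_lit 243))) (XT.nd (nat_lit 78) (nat_lit 608) (nat_lit 0) (XT.lf (nat_lit 76) (nat_lit 4790613372) (nat_lit 0) (nat_lit 1978582915) (nat_lit 608) (nat_lit 63009950) (nat_lit 304) (nat_lit 5) (nat_lit 303) (nat_lit 5) (nat_lit 311) (nat_lit 5) (nat_lit 274) (nat_lit 264) (nat_lit 242)) (XT.lf (nat_lit 76) (nat_lit 1576812877) (nat_lit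 0) (nat_lit 572544408) (nat_lit 684) (nat_lit 4731075624) (nat_lit 296) (nat_lit 5) (nat_lit 295) (nat_lit 5) (nat_lit 304) (nat_lit 5) (nat_lit 275) (nat_lit 264) (nat_lit 241))))))))
noncomputable def xc113 : XT := (XT.nd (nat_lit 2184) (nat_lit 5548) (nat_lit 0) (XT.nd (nat_lit 1092) (nat_lit 4636) (nat_lit 0) (XT.nd (nat_lit 546) (nat_lit 4256) (nat_lit 0) (XT.nd (nat_lit 234) (nat_lit 2356) (nat_lit 0) (XT.nd (nat_lit 78) (nat_lit 684) (nat_lit 0) (XT.lf (nat_lit 0) (nat_lit 4378935121) (nat_lit 608) (nat_lit 1647077886) (nat_lit 76) (nat_lit 905620986) (nat_lit 296) (nat_lit 5) (nat_lit 304) (nat_lit 5) (nat_lit 297) (nat_lit 5) (nat_lit 276) (nat_lit 264) (nat_lit 240)) (XT.nd (nat_lit 78) (nat_lit 76) (nat_lit 0) (XT.lf (nat_lit 0) (nat_lit 2102117550) (nat_lit 608) (nat_lit 4524273184) (nat_lit 684) (nat_lit 359556984) (nat_lit 288) (nat_lit 5) (nat_lit 296) (nat_lit 5) (nat_lit 297) (nat_lit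 5) (nat_lit 277) (nat_lit 264) (nat_lit 239)) (XT.lf (nat_lit 0) (nat_lit 1805083635) (nat_lit 684) (nat_lit 1115716195) (nat_lit 76) (nat_lit 4122360457) (nat_lit 287) (nat_lit 5) (nat_lit 296) (nat_lit 5) (nat_lit 288) (nat_lit 5) (nat_lit 278) (nat_lit 264) (nat_lit 238)))) (XT.nd (nat_lit 156) (nat_lit 1672) (nat_lit 0) (XT.nd (nat_lit 78) (nat_lit 0) (nat_lit 0) (XT.lf (nat_lit 0) (nat_lit 2763918168) (nat_lit 684) (nat_lit 1218214485) (nat_lit 760) (nat_lit 3121306201) (nat_lit 278) (nat_lit 5) (nat_lit 287) (nat_lit 5) (nat_lit 288) (nat_lit 5) (nat_lit 279) (nat_lit 264) (nat_lit 237)) (XT.lf (nat_lit 0) (nat_lit 6170926677) (nat_lit 760) (nat_lit 441406194) (nat_lit 76) (nat_lit 554894366) (nat_lit 278) (nat_lit 5) (nat_lit 288) (nat_lit 5) (nat_lit 279) (nat_lit 5) (nat_lit 280) (nat_lit 264) (nat_lit 236))) (XT.nd (nat_lit 78) (nat_lit 836) (nat_lit 0) (XT.lf (nat_lit 0) (nat_lit 1147299674)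 (nat_lit 836) (nat_lit 3665688950) (nat_lit 76) (nat_lit 2420342406) (nat_lit 267) (nat_lit 5) (nat_lit 278) (nat_lit 5) (nat_lit 268) (nat_lit 5) (nat_lit 281) (nat_lit 264) (nat_lit 235)) (XT.lf (nat_lit 0) (nat_lit 348497410) (nat_lit 836) (nat_lit 2927225935) (nat_lit 912) (nat_lit 4027268906) (nat_lit 256) (nat_lit 5) (nat_lit 267) (nat_lit 5) (nat_lit 268) (nat_lit 5) (nat_lit 282) (nat_lit 264) (nat_lit 234))))) (XT.nd (nat_lit 234) (nat_lit 3268) (nat_lit 0) (XT.nd (nat_lit 78) (nat_lit 988) (nat_lit 0) (XT.lf (nat_lit 0) (nat_lit 4505652663) (nat_lit 836) (nat_lit 933506882) (nat_lit 912) (nat_lit 1936532900) (nat_lit 256) (nat_lit 5) (nat_lit 267) (nat_lit 5) (nat_lit 268) (nat_lit 5) (nat_lit 283) (nat_lit 264) (nat_lit 233)) (XT.nd (nat_lit 78) (nat_lit 0) (nat_lit 0) (XT.lf (nat_lit 0) (nat_lit 171642716) (nat_lit 988) (nat_lit 6155228390) (nat_lit 76) (nat_lit 1124950580) (nat_lit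 243) (nat_lit 5) (nat_lit 256) (nat_lit 5) (nat_lit 244) (nat_lit 5) (nat_lit 284) (nat_lit 264) (nat_lit 232)) (XT.lf (nat_lit 0) (nat_lit 2279494367) (nat_lit 988) (nat_lit 1965013516) (nat_lit 76) (nat_lit 3285967925) (nat_lit 243) (nat_lit 5) (nat_lit 256) (nat_lit 5) (nat_lit 244) (nat_lit 5) (nat_lit 285) (nat_lit 264) (nat_lit 231)))) (XT.nd (nat_lit 156) (nat_lit 2280) (nat_lit 0) (XT.nd (nat_lit 78) (nat_lit 0) (nat_lit 0) (XT.lf (nat_lit 0) (nat_lit 2344221571) (nat_lit 988) (nat_lit 2067575443) (nat_lit 1064) (nat_lit 3200930648) (nat_lit 230) (nat_lit 5) (nat_lit 243) (nat_lit 5) (nat_lit 244) (nat_lit 5) (nat_lit 286) (nat_lit 264) (nat_lit 230)) (XT.lf (nat_lit 0) (nat_lit 6569833268) (nat_lit 1064) (nat_lit 929580451) (nat_lit 76) (nat_lit 199252817) (nat_lit 230) (nat_lit 5) (nat_lit 244) (nat_lit 5) (nat_lit 231) (nat_lit 5) (nat_lit 287) (nat_lit 264) (nat_lit 229))) (XT.nd (nat_lit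 78) (nat_lit 1140) (nat_lit 0) (XT.lf (nat_lit 0) (nat_lit 981952731) (nat_lit 1140) (nat_lit 4261255229) (nat_lit 76) (nat_lit 2543869560) (nat_lit 215) (nat_lit 5) (nat_lit 230) (nat_lit 5) (nat_lit 216) (nat_lit 5) (nat_lit 288) (nat_lit 264) (nat_lit 228)) (XT.lf (nat_lit 0) (nat_lit 195631848) (nat_lit 1140) (nat_lit 2891461159) (nat_lit 1216) (nat_lit 4792167210) (nat_lit 200) (nat_lit 5) (nat_lit 215) (nat_lit 5) (nat_lit 216) (nat_lit 5) (nat_lit 289) (nat_lit 264) (nat_lit 227)))))) (XT.nd (nat_lit 546) (nat_lit 2052) (nat_lit 0) (XT.nd (nat_lit 234) (nat_lit 1748) (nat_lit 0) (XT.nd (nat_lit 78) (nat_lit 836) (nat_lit 0) (XT.lf (nat_lit 0) (nat_lit 4821097188) (nat_lit 1140) (nat_lit 420853744) (nat_lit 1216) (nat_lit 2732724886) (nat_lit 200) (nat_lit 5) (nat_lit 215) (nat_lit 5) (nat_lit 216) (nat_lit 5) (nat_lit 290) (nat_lit 264) (nat_lit 226)) (XT.nd (nat_lit 78) (nat_lit 76) (nat_lit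 0) (XT.lf (nat_lit 0) (nat_lit 1467905068) (nat_lit 760) (nat_lit 5973290879) (nat_lit 836) (nat_lit 632428153) (nat_lit 190) (nat_lit 5) (nat_lit 200) (nat_lit 5) (nat_lit 201) (nat_lit 5) (nat_lit 291) (nat_lit 264) (nat_lit 225)) (XT.lf (nat_lit 0) (nat_lit 1483049727) (nat_lit 836) (nat_lit 1954423078) (nat_lit 76) (nat_lit 4738224064) (nat_lit 189) (nat_lit 5) (nat_lit 200) (nat_lit 5) (nat_lit 190) (nat_lit 5) (nat_lit 292) (nat_lit 264) (nat_lit 224)))) (XT.nd (nat_lit 156) (nat_lit 1140) (nat_lit 0) (XT.nd (nat_lit 78) (nat_lit 0) (nat_lit 0) (XT.lf (nat_lit 0) (nat_lit 2833680102) (nat_lit 608) (nat_lit 790138809) (nat_lit 684) (nat_lit 4657646068) (nat_lit 181) (nat_lit 5) (nat_lit 189) (nat_lit 5) (nat_lit 190) (nat_lit 5) (nat_lit 293) (nat_lit 264) (nat_lit 223)) (XT.lf (nat_lit 0) (nat_lit 5815703538) (nat_lit 684) (nat_lit 656002148) (nat_lit 76) (nat_lit 1919149164) (nat_lit 181)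 (nat_lit 5) (nat_lit 190) (nat_lit 5) (nat_lit 182) (nat_lit 5) (nat_lit 294) (nat_lit 264) (nat_lit 222))) (XT.nd (nat_lit 78) (nat_lit 608) (nat_lit 0) (XT.lf (nat_lit 0) (nat_lit 4304377742) (nat_lit 532) (nat_lit 3768016129) (nat_lit 608) (nat_lit 431214942) (nat_lit 174) (nat_lit 5) (nat_lit 181) (nat_lit 5) (nat_lit 182) (nat_lit 5) (nat_lit 295) (nat_lit 264) (nat_lit 221)) (XT.lf (nat_lit 0) (nat_lit 753154845) (nat_lit 532) (nat_lit 953421582) (nat_lit 608) (nat_lit 6913780888) (nat_lit 166) (nat_lit 5) (nat_lit 173) (nat_lit 5) (nat_lit 174) (nat_lit 5) (nat_lit 296) (nat_lit 264) (nat_lit 220))))) (XT.nd (nat_lit 234) (nat_lit 1520) (nat_lit 0) (XT.nd (nat_lit 78) (nat_lit 532) (nat_lit 0) (XT.lf (nat_lit 0) (nat_lit 3912573889) (nat_lit 608) (nat_lit 2875378250) (nat_lit 76) (nat_lit 1952195170) (nat_lit 166) (nat_lit 5) (nat_lit 174) (nat_lit 5) (nat_lit 167) (nat_lit 5) (nat_lit 297)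 (nat_lit 264) (nat_lit 219)) (XT.nd (nat_lit 78) (nat_lit 0) (nat_lit 0) (XT.lf (nat_lit 0) (nat_lit 2249350054) (nat_lit 532) (nat_lit 3919097242) (nat_lit 608) (nat_lit 2695620689) (nat_lit 159) (nat_lit 5) (nat_lit 166) (nat_lit 5) (nat_lit 167) (nat_lit 5) (nat_lit 298) (nat_lit 264) (nat_lit 218)) (XT.lf (nat_lit 0) (nat_lit 7535961874) (nat_lit 532) (nat_lit 938596054) (nat_lit 608) (nat_lit 517717994) (nat_lit 159) (nat_lit 5) (nat_lit 166) (nat_lit 5) (nat_lit 167) (nat_lit 5) (nat_lit 299) (nat_lit 264) (nat_lit 217)))) (XT.nd (nat_lit 156) (nat_lit 456) (nat_lit 0) (XT.nd (nat_lit 78) (nat_lit 456) (nat_lit 0) (XT.lf (nat_lit 0) (nat_lit 1704370182) (nat_lit 608) (nat_lit 5279694267) (nat_lit 76) (nat_lit 2139436261) (nat_lit 151) (nat_lit 5) (nat_lit 159) (nat_lit 5) (nat_lit 152) (nat_lit 5) (nat_lit 300) (nat_lit 264) (nat_lit 216)) (XT.lf (nat_lit 0) (nat_lit 9057701) (nat_lit 456)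 (nat_lit 3953079049) (nat_lit 532) (nat_lit 5297031601) (nat_lit 145) (nat_lit 5) (nat_lit 151) (nat_lit 5) (nat_lit 152) (nat_lit 5) (nat_lit 301) (nat_lit 264) (nat_lit 215))) (XT.nd (nat_lit 78) (nat_lit 456) (nat_lit 0) (XT.lf (nat_lit 0) (nat_lit 5514084943) (nat_lit 456) (nat_lit 782874282) (nat_lit 532) (nat_lit 3101708396) (nat_lit 145) (nat_lit 5) (nat_lit 151) (nat_lit 5) (nat_lit 152) (nat_lit 5) (nat_lit 302) (nat_lit 264) (nat_lit 214)) (XT.lf (nat_lit 0) (nat_lit 1598846517) (nat_lit 456) (nat_lit 7099439486) (nat_lit 532) (nat_lit 844212163) (nat_lit 139) (nat_lit 5) (nat_lit 145) (nat_lit 5) (nat_lit 146) (nat_lit 5) (nat_lit 303) (nat_lit 264) (nat_lit 213))))))) (XT.nd (nat_lit 1092) (nat_lit 2280) (nat_lit 0) (XT.nd (nat_lit 546) (nat_lit 1520) (nat_lit 0) (XT.nd (nat_lit 234) (nat_lit 1292) (nat_lit 0) (XT.nd (nat_lit 78) (nat_lit 380) (nat_lit 0) (XT.lf (nat_lit 0) (nat_lit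 1457015250) (nat_lit 532) (nat_lit 2436223946) (nat_lit 76) (nat_lit 5796867941) (nat_lit 138) (nat_lit 5) (nat_lit 145) (nat_lit 5) (nat_lit 139) (nat_lit 5) (nat_lit 304) (nat_lit 264) (nat_lit 212)) (XT.nd (nat_lit 78) (nat_lit 0) (nat_lit 0) (XT.lf (nat_lit 0) (nat_lit 3242021010) (nat_lit 380) (nat_lit 558231474) (nat_lit 456) (nat_lit 6041979599) (nat_lit 133) (nat_lit 5) (nat_lit 138) (nat_lit 5) (nat_lit 139) (nat_lit 5) (nat_lit 305) (nat_lit 264) (nat_lit 211)) (XT.lf (nat_lit 0) (nat_lit 6225713052) (nat_lit 456) (nat_lit 935523988) (nat_lit 76) (nat_lit 2837361563) (nat_lit 133) (nat_lit 5) (nat_lit 139) (nat_lit 5) (nat_lit 134) (nat_lit 5) (nat_lit 306) (nat_lit 264) (nat_lit 210)))) (XT.nd (nat_lit 156) (nat_lit 380) (nat_lit 0) (XT.nd (nat_lit 78) (nat_lit 456) (nat_lit 0) (XT.lf (nat_lit 0) (nat_lit 4941461235) (nat_lit 456) (nat_lit 3796113054) (nat_lit 532) (nat_lit 1421707305)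 (nat_lit 127) (nat_lit 5) (nat_lit 133) (nat_lit 5) (nat_lit 134) (nat_lit 5) (nat_lit 307) (nat_lit 264) (nat_lit 209)) (XT.lf (nat_lit 0) (nat_lit 643404170) (nat_lit 380) (nat_lit 313692267) (nat_lit 456) (nat_lit 9368134733) (nat_lit 121) (nat_lit 5) (nat_lit 126) (nat_lit 5) (nat_lit 127) (nat_lit 5) (nat_lit 308) (nat_lit 264) (nat_lit 208))) (XT.nd (nat_lit 78) (nat_lit 380) (nat_lit 0) (XT.lf (nat_lit 0) (nat_lit 3424822006) (nat_lit 456) (nat_lit 3802701569) (nat_lit 76) (nat_lit 3266861035) (nat_lit 121) (nat_lit 5) (nat_lit 127) (nat_lit 5) (nat_lit 122) (nat_lit 5) (nat_lit 309) (nat_lit 264) (nat_lit 207)) (XT.lf (nat_lit 0) (nat_lit 2245463539) (nat_lit 380) (nat_lit 3708386218) (nat_lit 456) (nat_lit 4715175506) (nat_lit 116) (nat_lit 5) (nat_lit 121) (nat_lit 5) (nat_lit 122) (nat_lit 5) (nat_lit 310) (nat_lit 264) (nat_lit 206))))) (XT.nd (nat_lit 234) (nat_lit 1064) (nat_lit 0)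 (XT.nd (nat_lit 78) (nat_lit 456) (nat_lit 0) (XT.lf (nat_lit 0) (nat_lit 8505450984) (nat_lit 380) (nat_lit 54909564) (nat_lit 456) (nat_lit 2288526049) (nat_lit 116) (nat_lit 5) (nat_lit 121) (nat_lit 5) (nat_lit 122) (nat_lit 5) (nat_lit 311) (nat_lit 264) (nat_lit 205)) (XT.nd (nat_lit 78) (nat_lit 0) (nat_lit 0) (XT.lf (nat_lit 0) (nat_lit 244588118) (nat_lit 456) (nat_lit 7122837698) (nat_lit 76) (nat_lit 3665551812) (nat_lit 110) (nat_lit 5) (nat_lit 116) (nat_lit 5) (nat_lit 111) (nat_lit 5) (nat_lit 312) (nat_lit 264) (nat_lit 204)) (XT.lf (nat_lit 0) (nat_lit 2796541604) (nat_lit 456) (nat_lit 893418768) (nat_lit 76) (nat_lit 7532313263) (nat_lit 110) (nat_lit 5) (nat_lit 116) (nat_lit 5) (nat_lit 111) (nat_lit 5) (nat_lit 313) (nat_lit 264) (nat_lit 203)))) (XT.nd (nat_lit 156) (nat_lit 380) (nat_lit 0) (XT.nd (nat_lit 78) (nat_lit 304) (nat_lit 0) (XT.lf (nat_lit 0) (nat_lit 5445546962)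 (nat_lit 456) (nat_lit 5832259688) (nat_lit 76) (nat_lit 138853578) (nat_lit 105) (nat_lit 5) (nat_lit 111) (nat_lit 5) (nat_lit 106) (nat_lit 5) (nat_lit 314) (nat_lit 264) (nat_lit 202)) (XT.lf (nat_lit 0) (nat_lit 586521291) (nat_lit 304) (nat_lit 7604678600) (nat_lit 380) (nat_lit 3425188933) (nat_lit 101) (nat_lit 5) (nat_lit 105) (nat_lit 5) (nat_lit 106) (nat_lit 5) (nat_lit 315) (nat_lit 264) (nat_lit 201))) (XT.nd (nat_lit 78) (nat_lit 380) (nat_lit 0) (XT.lf (nat_lit 0) (nat_lit 7271316649) (nat_lit 304) (nat_lit 3773244384) (nat_lit 380) (nat_lit 776813067) (nat_lit 101) (nat_lit 5) (nat_lit 105) (nat_lit 5) (nat_lit 106) (nat_lit 5) (nat_lit 316) (nat_lit 264) (nat_lit 200)) (XT.lf (nat_lit 0) (nat_lit 1902143212) (nat_lit 380) (nat_lit 9933332258) (nat_lit 76) (nat_lit 196818365) (nat_lit 96) (nat_lit 5) (nat_lit 101) (nat_lit 5) (nat_lit 97) (nat_lit 5) (nat_lit 317) (nat_lit 264)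 (nat_lit 199)))))) (XT.nd (nat_lit 546) (nat_lit 1064) (nat_lit 0) (XT.nd (nat_lit 234) (nat_lit 912) (nat_lit 0) (XT.nd (nat_lit 78) (nat_lit 304) (nat_lit 0) (XT.lf (nat_lit 0) (nat_lit 4697096055) (nat_lit 380) (nat_lit 3298813701) (nat_lit 76) (nat_lit 4251886301) (nat_lit 96) (nat_lit 5) (nat_lit 101) (nat_lit 5) (nat_lit 97) (nat_lit 5) (nat_lit 318) (nat_lit 264) (nat_lit 198)) (XT.nd (nat_lit 78) (nat_lit 0) (nat_lit 0) (XT.lf (nat_lit 0) (nat_lit 3559669530) (nat_lit 304) (nat_lit 4018873455) (nat_lit 380) (nat_lit 4891163188) (nat_lit 92) (nat_lit 5) (nat_lit 96) (nat_lit 5) (nat_lit 97) (nat_lit 5) (nat_lit 319) (nat_lit 264) (nat_lit 197)) (XT.lf (nat_lit 0) (nat_lit 10549617747) (nat_lit 380) (nat_lit 2051744035) (nat_lit 76) (nat_lit 96837828) (nat_lit 92) (nat_lit 5) (nat_lit 97) (nat_lit 5) (nat_lit 93) (nat_lit 5) (nat_lit 320) (nat_lit 264) (nat_lit 196)))) (XT.nd (nat_lit 156)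 (nat_lit 532) (nat_lit 0) (XT.nd (nat_lit 78) (nat_lit 0) (nat_lit 0) (XT.lf (nat_lit 0) (nat_lit 721452662) (nat_lit 380) (nat_lit 7911922575) (nat_lit 76) (nat_lit 4298246728) (nat_lit 87) (nat_lit 5) (nat_lit 92) (nat_lit 5) (nat_lit 88) (nat_lit 5) (nat_lit 321) (nat_lit 264) (nat_lit 195)) (XT.lf (nat_lit 0) (nat_lit 3625186637) (nat_lit 380) (nat_lit 891367222) (nat_lit 76) (nat_lit 8655151175) (nat_lit 87) (nat_lit 5) (nat_lit 92) (nat_lit 5) (nat_lit 88) (nat_lit 5) (nat_lit 322) (nat_lit 264) (nat_lit 194))) (XT.nd (nat_lit 78) (nat_lit 304) (nat_lit 0) (XT.lf (nat_lit 0) (nat_lit 6422600405) (nat_lit 228) (nat_lit 225907136) (nat_lit 304) (nat_lit 6769527953) (nat_lit 84) (nat_lit 5) (nat_lit 87) (nat_lit 5) (nat_lit 88) (nat_lit 5) (nat_lit 323) (nat_lit 264) (nat_lit 193)) (XT.lf (nat_lit 0) (nat_lit 223872040) (nat_lit 304) (nat_lit 9561264882) (nat_lit 380) (nat_lit 3885959267) (nat_lit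 80) (nat_lit 5) (nat_lit 84) (nat_lit 5) (nat_lit 85) (nat_lit 5) (nat_lit 324) (nat_lit 264) (nat_lit 192))))) (XT.nd (nat_lit 312) (nat_lit 532) (nat_lit 0) (XT.nd (nat_lit 156) (nat_lit 228) (nat_lit 0) (XT.nd (nat_lit 78) (nat_lit 304) (nat_lit 0) (XT.lf (nat_lit 0) (nat_lit 7758426352) (nat_lit 304) (nat_lit 5301785322) (nat_lit 380) (nat_lit 870224682) (nat_lit 80) (nat_lit 5) (nat_lit 84) (nat_lit 5) (nat_lit 85) (nat_lit 5) (nat_lit 325) (nat_lit 264) (nat_lit 191)) (XT.lf (nat_lit 0) (nat_lit 1283219560) (nat_lit 228) (nat_lit 893496067) (nat_lit 304) (nat_lit 12020682331) (nat_lit 76) (nat_lit 5) (nat_lit 79) (nat_lit 5) (nat_lit 80) (nat_lit 5) (nat_lit 326) (nat_lit 264) (nat_lit 190))) (XT.nd (nat_lit 78) (nat_lit 228) (nat_lit 0) (XT.lf (nat_lit 0) (nat_lit 5367888023) (nat_lit 304) (nat_lit 5468251367) (nat_lit 76) (nat_lit 3633877614) (nat_lit 76) (nat_lit 5) (nat_lit 80) (nat_lit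 5) (nat_lit 77) (nat_lit 5) (nat_lit 327) (nat_lit 264) (nat_lit 189)) (XT.lf (nat_lit 0) (nat_lit 2194160706) (nat_lit 228) (nat_lit 6463694015) (nat_lit 304) (nat_lit 6092884160) (nat_lit 73) (nat_lit 5) (nat_lit 76) (nat_lit 5) (nat_lit 77) (nat_lit 5) (nat_lit 328) (nat_lit 264) (nat_lit 188)))) (XT.nd (nat_lit 156) (nat_lit 228) (nat_lit 0) (XT.nd (nat_lit 78) (nat_lit 304) (nat_lit 0) (XT.lf (nat_lit 0) (nat_lit 10158077295) (nat_lit 228) (nat_lit 1917176704) (nat_lit 304) (nat_lit 2963781976) (nat_lit 73) (nat_lit 5) (nat_lit 76) (nat_lit 5) (nat_lit 77) (nat_lit 5) (nat_lit 329) (nat_lit 264) (nat_lit 187)) (XT.lf (nat_lit 0) (nat_lit 284161017) (nat_lit 304) (nat_lit 12320608344) (nat_lit 76) (nat_lit 2730251780) (nat_lit 69) (nat_lit 5) (nat_lit 73) (nat_lit 5) (nat_lit 70) (nat_lit 5) (nat_lit 330) (nat_lit 264) (nat_lit 186))) (XT.nd (nat_lit 78) (nat_lit 228) (nat_lit 0) (XT.lf (nat_lit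 0) (nat_lit 3612993213) (nat_lit 304) (nat_lit 4480595409) (nat_lit 76) (nat_lit 7544140556) (nat_lit 69) (nat_lit 5) (nat_lit 73) (nat_lit 5) (nat_lit 70) (nat_lit 5) (nat_lit 331) (nat_lit 264) (nat_lit 185)) (XT.lf (nat_lit 0) (nat_lit 3626476590) (nat_lit 228) (nat_lit 3425085285) (nat_lit 304) (nat_lit 8897674267) (nat_lit 66) (nat_lit 5) (nat_lit 69) (nat_lit 5) (nat_lit 70) (nat_lit 5) (nat_lit 332) (nat_lit 264) (nat_lit 184))))))))
noncomputable def xc114 : XT := (XT.nd (nat_lit 2184) (nat_lit 1292) (nat_lit 0) (XT.nd (nat_lit 1092) (nat_lit 912) (nat_lit 0) (XT.nd (nat_lit 546) (nat_lit 912) (nat_lit 0) (XT.nd (nat_lit 234) (nat_lit 380) (nat_lit 0) (XT.nd (nat_lit 78) (nat_lit 304) (nat_lit 0) (XT.lf (nat_lit 0) (nat_lit 10627515099) (nat_lit 304) (nat_lit 4253013454) (nat_lit 76) (nat_lit 1388546364) (nat_lit 66) (nat_lit 5) (nat_lit 70) (nat_lit 5) (nat_lit 67) (nat_lit 5) (nat_lit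 333) (nat_lit 264) (nat_lit 183)) (XT.nd (nat_lit 78) (nat_lit 76) (nat_lit 0) (XT.lf (nat_lit 0) (nat_lit 4066256429) (nat_lit 228) (nat_lit 10293446378) (nat_lit 304) (nat_lit 2237350409) (nat_lit 63) (nat_lit 5) (nat_lit 66) (nat_lit 5) (nat_lit 67) (nat_lit 5) (nat_lit 334) (nat_lit 264) (nat_lit 182)) (XT.lf (nat_lit 0) (nat_lit 1263643372) (nat_lit 304) (nat_lit 4262039474) (nat_lit 76) (nat_lit 11408251742) (nat_lit 62) (nat_lit 5) (nat_lit 66) (nat_lit 5) (nat_lit 63) (nat_lit 5) (nat_lit 335) (nat_lit 264) (nat_lit 181)))) (XT.nd (nat_lit 156) (nat_lit 152) (nat_lit 0) (XT.nd (nat_lit 78) (nat_lit 0) (nat_lit 0) (XT.lf (nat_lit 0) (nat_lit 4279119356) (nat_lit 228) (nat_lit 563458466) (nat_lit 304) (nat_lit 12437155568) (nat_lit 59) (nat_lit 5) (nat_lit 62) (nat_lit 5) (nat_lit 63) (nat_lit 5) (nat_lit 336) (nat_lit 264) (nat_lit 180)) (XT.lf (nat_lit 0) (nat_lit 8592998327) (nat_lit 304)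 (nat_lit 4552090165) (nat_lit 76) (nat_lit 4488905706) (nat_lit 59) (nat_lit 5) (nat_lit 63) (nat_lit 5) (nat_lit 60) (nat_lit 5) (nat_lit 337) (nat_lit 264) (nat_lit 179))) (XT.nd (nat_lit 78) (nat_lit 0) (nat_lit 0) (XT.lf (nat_lit 0) (nat_lit 4189940391) (nat_lit 152) (nat_lit 8289456831) (nat_lit 228) (nat_lit 5518792883) (nat_lit 57) (nat_lit 5) (nat_lit 59) (nat_lit 5) (nat_lit 60) (nat_lit 5) (nat_lit 338) (nat_lit 264) (nat_lit 178)) (XT.lf (nat_lit 0) (nat_lit 13251768419) (nat_lit 152) (nat_lit 3254505766) (nat_lit 228) (nat_lit 1866332038) (nat_lit 57) (nat_lit 5) (nat_lit 59) (nat_lit 5) (nat_lit 60) (nat_lit 5) (nat_lit 339) (nat_lit 264) (nat_lit 177))))) (XT.nd (nat_lit 234) (nat_lit 456) (nat_lit 0) (XT.nd (nat_lit 78) (nat_lit 152) (nat_lit 0) (XT.lf (nat_lit 0) (nat_lit 1893031583) (nat_lit 304) (nat_lit 14927338223) (nat_lit 76) (nat_lit 1936319002) (nat_lit 53) (nat_lit 5) (nat_lit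 57) (nat_lit 5) (nat_lit 54) (nat_lit 5) (nat_lit 340) (nat_lit 264) (nat_lit 176)) (XT.nd (nat_lit 78) (nat_lit 152) (nat_lit 0) (XT.lf (nat_lit 0) (nat_lit 5790615946) (nat_lit 304) (nat_lit 6084291906) (nat_lit 76) (nat_lit 7274953117) (nat_lit 53) (nat_lit 5) (nat_lit 57) (nat_lit 5) (nat_lit 54) (nat_lit 5) (nat_lit 341) (nat_lit 264) (nat_lit 175)) (XT.lf (nat_lit 0) (nat_lit 3049224055) (nat_lit 152) (nat_lit 6764346854) (nat_lit 228) (nat_lit 9741013794) (nat_lit 51) (nat_lit 5) (nat_lit 53) (nat_lit 5) (nat_lit 54) (nat_lit 5) (nat_lit 342) (nat_lit 264) (nat_lit 174)))) (XT.nd (nat_lit 156) (nat_lit 228) (nat_lit 0) (XT.nd (nat_lit 78) (nat_lit 228) (nat_lit 0) (XT.lf (nat_lit 0) (nat_lit 12547480928) (nat_lit 152) (nat_lit 1450586177) (nat_lit 228) (nat_lit 5972166885) (nat_lit 51) (nat_lit 5) (nat_lit 53) (nat_lit 5) (nat_lit 54) (nat_lit 5) (nat_lit 343) (nat_lit 264) (nat_lit 173))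 (XT.lf (nat_lit 0) (nat_lit 1897206112) (nat_lit 228) (nat_lit 16447684480) (nat_lit 304) (nat_lit 2052367536) (nat_lit 48) (nat_lit 5) (nat_lit 51) (nat_lit 5) (nat_lit 52) (nat_lit 5) (nat_lit 344) (nat_lit 264) (nat_lit 172))) (XT.nd (nat_lit 78) (nat_lit 152) (nat_lit 0) (XT.lf (nat_lit 0) (nat_lit 2016300064) (nat_lit 304) (nat_lit 9253666575) (nat_lit 76) (nat_lit 9564462253) (nat_lit 47) (nat_lit 5) (nat_lit 51) (nat_lit 5) (nat_lit 48) (nat_lit 5) (nat_lit 345) (nat_lit 264) (nat_lit 171)) (XT.lf (nat_lit 0) (nat_lit 221530472) (nat_lit 152) (nat_lit 5926909793) (nat_lit 228) (nat_lit 15136193372) (nat_lit 45) (nat_lit 5) (nat_lit 47) (nat_lit 5) (nat_lit 48) (nat_lit 5) (nat_lit 346) (nat_lit 264) (nat_lit 170)))))) (XT.nd (nat_lit 546) (nat_lit 380) (nat_lit 0) (XT.nd (nat_lit 234) (nat_lit 380) (nat_lit 0) (XT.nd (nat_lit 78) (nat_lit 152) (nat_lit 0) (XT.lf (nat_lit 0) (nat_lit 10138411616)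 (nat_lit 152) (nat_lit 340367439) (nat_lit 228) (nat_lit 11267346564) (nat_lit 45) (nat_lit 5) (nat_lit 47) (nat_lit 5) (nat_lit 48) (nat_lit 5) (nat_lit 347) (nat_lit 264) (nat_lit 169)) (XT.nd (nat_lit 78) (nat_lit 152) (nat_lit 0) (XT.lf (nat_lit 0) (nat_lit 14972296661) (nat_lit 228) (nat_lit 1952472424) (nat_lit 76) (nat_lit 5295703103) (nat_lit 45) (nat_lit 5) (nat_lit 48) (nat_lit 5) (nat_lit 46) (nat_lit 5) (nat_lit 348) (nat_lit 264) (nat_lit 168)) (XT.lf (nat_lit 0) (nat_lit 8116596996) (nat_lit 152) (nat_lit 11547189391) (nat_lit 228) (nat_lit 3043375427) (nat_lit 43) (nat_lit 5) (nat_lit 45) (nat_lit 5) (nat_lit 46) (nat_lit 5) (nat_lit 349) (nat_lit 264) (nat_lit 167)))) (XT.nd (nat_lit 156) (nat_lit 152) (nat_lit 0) (XT.nd (nat_lit 78) (nat_lit 152) (nat_lit 0) (XT.lf (nat_lit 0) (nat_lit 1264181710) (nat_lit 228) (nat_lit 4723580469) (nat_lit 76) (nat_lit 17220273718) (nat_lit 42)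 (nat_lit 5) (nat_lit 45) (nat_lit 5) (nat_lit 43) (nat_lit 5) (nat_lit 350) (nat_lit 264) (nat_lit 166)) (XT.lf (nat_lit 0) (nat_lit 5486329331) (nat_lit 152) (nat_lit 188561453) (nat_lit 228) (nat_lit 18047095631) (nat_lit 40) (nat_lit 5) (nat_lit 42) (nat_lit 5) (nat_lit 43) (nat_lit 5) (nat_lit 351) (nat_lit 264) (nat_lit 165))) (XT.nd (nat_lit 78) (nat_lit 152) (nat_lit 0) (XT.lf (nat_lit 0) (nat_lit 10304163683) (nat_lit 228) (nat_lit 8236763337) (nat_lit 76) (nat_lit 5707847955) (nat_lit 40) (nat_lit 5) (nat_lit 43) (nat_lit 5) (nat_lit 41) (nat_lit 5) (nat_lit 352) (nat_lit 264) (nat_lit 164)) (XT.lf (nat_lit 0) (nat_lit 2071401733) (nat_lit 152) (nat_lit 13005668380) (nat_lit 228) (nat_lit 9714161026) (nat_lit 38) (nat_lit 5) (nat_lit 40) (nat_lit 5) (nat_lit 41) (nat_lit 5) (nat_lit 353) (nat_lit 264) (nat_lit 163))))) (XT.nd (nat_lit 234) (nat_lit 152) (nat_lit 0) (XT.nd (nat_lit 78) (nat_lit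 228) (nat_lit 0) (XT.lf (nat_lit 0) (nat_lit 12828695034) (nat_lit 152) (nat_lit 7230838099) (nat_lit 228) (nat_lit 5288443185) (nat_lit 38) (nat_lit 5) (nat_lit 40) (nat_lit 5) (nat_lit 41) (nat_lit 5) (nat_lit 354) (nat_lit 264) (nat_lit 162)) (XT.nd (nat_lit 78) (nat_lit 228) (nat_lit 0) (XT.lf (nat_lit 0) (nat_lit 23880588400) (nat_lit 152) (nat_lit 1294565368) (nat_lit 228) (nat_lit 746765799) (nat_lit 38) (nat_lit 5) (nat_lit 40) (nat_lit 5) (nat_lit 41) (nat_lit 5) (nat_lit 355) (nat_lit 264) (nat_lit 161)) (XT.lf (nat_lit 0) (nat_lit 3971035726) (nat_lit 228) (nat_lit 17698911256) (nat_lit 76) (nat_lit 4838508791) (nat_lit 35) (nat_lit 5) (nat_lit 38) (nat_lit 5) (nat_lit 36) (nat_lit 5) (nat_lit 356) (nat_lit 264) (nat_lit 160)))) (XT.nd (nat_lit 156) (nat_lit 0) (nat_lit 0) (XT.nd (nat_lit 78) (nat_lit 152) (nat_lit 0) (XT.lf (nat_lit 0) (nat_lit 8833085389) (nat_lit 228) (nat_lit 7132315152)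 (nat_lit 76) (nat_lit 11146439710) (nat_lit 35) (nat_lit 5) (nat_lit 38) (nat_lit 5) (nat_lit 36) (nat_lit 5) (nat_lit 357) (nat_lit 264) (nat_lit 159)) (XT.lf (nat_lit 0) (nat_lit 3798486463) (nat_lit 152) (nat_lit 10063575230) (nat_lit 228) (nat_lit 13870638148) (nat_lit 33) (nat_lit 5) (nat_lit 35) (nat_lit 5) (nat_lit 36) (nat_lit 5) (nat_lit 358) (nat_lit 264) (nat_lit 158))) (XT.nd (nat_lit 78) (nat_lit 0) (nat_lit 0) (XT.lf (nat_lit 0) (nat_lit 15176766941) (nat_lit 152) (nat_lit 3921908286) (nat_lit 228) (nat_lit 9271812324) (nat_lit 33) (nat_lit 5) (nat_lit 35) (nat_lit 5) (nat_lit 36) (nat_lit 5) (nat_lit 359) (nat_lit 264) (nat_lit 157)) (XT.lf (nat_lit 0) (nat_lit 24500579460) (nat_lit 228) (nat_lit 2180339447) (nat_lit 76) (nat_lit 2346249431) (nat_lit 33) (nat_lit 5) (nat_lit 36) (nat_lit 5) (nat_lit 34) (nat_lit 4) (nat_lit 360) (nat_lit 264) (nat_lit 156))))))) (XT.nd (nat_lit 1092)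 (nat_lit 532) (nat_lit 0) (XT.nd (nat_lit 546) (nat_lit 380) (nat_lit 0) (XT.nd (nat_lit 234) (nat_lit 76) (nat_lit 0) (XT.nd (nat_lit 78) (nat_lit 152) (nat_lit 0) (XT.lf (nat_lit 0) (nat_lit 468622546) (nat_lit 152) (nat_lit 20424492763) (nat_lit 76) (nat_lit 8806894788) (nat_lit 31) (nat_lit 5) (nat_lit 33) (nat_lit 5) (nat_lit 32) (nat_lit 5) (nat_lit 361) (nat_lit 264) (nat_lit 155)) (XT.nd (nat_lit 78) (nat_lit 152) (nat_lit 0) (XT.lf (nat_lit 0) (nat_lit 5530496555) (nat_lit 152) (nat_lit 9343164408) (nat_lit 76) (nat_lit 15517802800) (nat_lit 31) (nat_lit 5) (nat_lit 33) (nat_lit 5) (nat_lit 32) (nat_lit 5) (nat_lit 362) (nat_lit 264) (nat_lit 154)) (XT.lf (nat_lit 0) (nat_lit 2086566088) (nat_lit 152) (nat_lit 8663689939) (nat_lit 228) (nat_lit 20353228769) (nat_lit 29) (nat_lit 5) (nat_lit 31) (nat_lit 5) (nat_lit 32) (nat_lit 5) (nat_lit 363) (nat_lit 264) (nat_lit 153)))) (XT.nd (nat_lit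 156) (nat_lit 76) (nat_lit 0) (XT.nd (nat_lit 78) (nat_lit 0) (nat_lit 0) (XT.lf (nat_lit 0) (nat_lit 14026202770) (nat_lit 152) (nat_lit 2180898015) (nat_lit 228) (nat_lit 15627355397) (nat_lit 29) (nat_lit 5) (nat_lit 31) (nat_lit 5) (nat_lit 32) (nat_lit 5) (nat_lit 364) (nat_lit 264) (nat_lit 152)) (XT.lf (nat_lit 0) (nat_lit 21857321775) (nat_lit 228) (nat_lit 6330656069) (nat_lit 76) (nat_lit 4398493106) (nat_lit 29) (nat_lit 5) (nat_lit 32) (nat_lit 5) (nat_lit 30) (nat_lit 4) (nat_lit 365) (nat_lit 264) (nat_lit 151))) (XT.nd (nat_lit 78) (nat_lit 0) (nat_lit 0) (XT.lf (nat_lit 0) (nat_lit 5554663778) (nat_lit 76) (nat_lit 22184217139) (nat_lit 152) (nat_lit 5620314539) (nat_lit 28) (nat_lit 5) (nat_lit 29) (nat_lit 5) (nat_lit 30) (nat_lit 4) (nat_lit 366) (nat_lit 264) (nat_lit 150)) (XT.lf (nat_lit 0) (nat_lit 17903141052) (nat_lit 76) (nat_lit 15944677071) (nat_lit 152) (nat_lit 305759752)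 (nat_lit 28) (nat_lit 5) (nat_lit 29) (nat_lit 5) (nat_lit 30) (nat_lit 4) (nat_lit 367) (nat_lit 264) (nat_lit 149))))) (XT.nd (nat_lit 234) (nat_lit 152) (nat_lit 0) (XT.nd (nat_lit 78) (nat_lit 152) (nat_lit 0) (XT.lf (nat_lit 0) (nat_lit 5054634616) (nat_lit 152) (nat_lit 4422156313) (nat_lit 76) (nat_lit 25493896699) (nat_lit 27) (nat_lit 5) (nat_lit 29) (nat_lit 5) (nat_lit 28) (nat_lit 5) (nat_lit 368) (nat_lit 264) (nat_lit 148)) (XT.nd (nat_lit 78) (nat_lit 0) (nat_lit 0) (XT.lf (nat_lit 0) (nat_lit 7889809732) (nat_lit 152) (nat_lit 2743352297) (nat_lit 228) (nat_lit 25177157591) (nat_lit 25) (nat_lit 5) (nat_lit 27) (nat_lit 5) (nat_lit 28) (nat_lit 5) (nat_lit 369) (nat_lit 264) (nat_lit 147)) (XT.lf (nat_lit 0) (nat_lit 16452121785) (nat_lit 228) (nat_lit 16074910515) (nat_lit 76) (nat_lit 4145919633) (nat_lit 25) (nat_lit 5) (nat_lit 28) (nat_lit 5) (nat_lit 26) (nat_lit 4) (nat_lit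 370) (nat_lit 264) (nat_lit 146)))) (XT.nd (nat_lit 156) (nat_lit 76) (nat_lit 0) (XT.nd (nat_lit 78) (nat_lit 76) (nat_lit 0) (XT.lf (nat_lit 0) (nat_lit 22460853356) (nat_lit 228) (nat_lit 3922614936) (nat_lit 76) (nat_lit 11177542385) (nat_lit 25) (nat_lit 5) (nat_lit 28) (nat_lit 5) (nat_lit 26) (nat_lit 4) (nat_lit 371) (nat_lit 264) (nat_lit 145)) (XT.lf (nat_lit 0) (nat_lit 8743992936) (nat_lit 76) (nat_lit 19978295983) (nat_lit 152) (nat_lit 9751252450) (nat_lit 24) (nat_lit 5) (nat_lit 25) (nat_lit 5) (nat_lit 26) (nat_lit 4) (nat_lit 372) (nat_lit 264) (nat_lit 144))) (XT.nd (nat_lit 78) (nat_lit 76) (nat_lit 0) (XT.lf (nat_lit 0) (nat_lit 21850330175) (nat_lit 76) (nat_lit 13349376926) (nat_lit 152) (nat_lit 4212900041) (nat_lit 24) (nat_lit 5) (nat_lit 25) (nat_lit 5) (nat_lit 26) (nat_lit 4) (nat_lit 373) (nat_lit 264) (nat_lit 143)) (XT.lf (nat_lit 0) (nat_lit 1451245883) (nat_lit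 152) (nat_lit 5064628960) (nat_lit 76) (nat_lit 33863880569) (nat_lit 23) (nat_lit 5) (nat_lit 25) (nat_lit 5) (nat_lit 24) (nat_lit 5) (nat_lit 374) (nat_lit 264) (nat_lit 142)))))) (XT.nd (nat_lit 546) (nat_lit 304) (nat_lit 0) (XT.nd (nat_lit 234) (nat_lit 76) (nat_lit 0) (XT.nd (nat_lit 78) (nat_lit 0) (nat_lit 0) (XT.lf (nat_lit 0) (nat_lit 7271768867) (nat_lit 228) (nat_lit 33478127849) (nat_lit 76) (nat_lit 622639288) (nat_lit 21) (nat_lit 5) (nat_lit 24) (nat_lit 5) (nat_lit 22) (nat_lit 4) (nat_lit 375) (nat_lit 264) (nat_lit 141)) (XT.nd (nat_lit 78) (nat_lit 0) (nat_lit 0) (XT.lf (nat_lit 0) (nat_lit 13372194144) (nat_lit 228) (nat_lit 21132311037) (nat_lit 76) (nat_lit 7887439208) (nat_lit 21) (nat_lit 5) (nat_lit 24) (nat_lit 5) (nat_lit 22) (nat_lit 4) (nat_lit 376) (nat_lit 264) (nat_lit 140)) (XT.lf (nat_lit 0) (nat_lit 19645072766) (nat_lit 228) (nat_lit 8435305783) (nat_lit 76)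 (nat_lit 15361876145) (nat_lit 21) (nat_lit 5) (nat_lit 24) (nat_lit 5) (nat_lit 22) (nat_lit 4) (nat_lit 377) (nat_lit 264) (nat_lit 139)))) (XT.nd (nat_lit 156) (nat_lit 0) (nat_lit 0) (XT.nd (nat_lit 78) (nat_lit 0) (nat_lit 0) (XT.lf (nat_lit 0) (nat_lit 4716008696) (nat_lit 76) (nat_lit 21425210353) (nat_lit 152) (nat_lit 18381805624) (nat_lit 20) (nat_lit 5) (nat_lit 21) (nat_lit 5) (nat_lit 22) (nat_lit 4) (nat_lit 378) (nat_lit 264) (nat_lit 138)) (XT.lf (nat_lit 0) (nat_lit 18416333485) (nat_lit 76) (nat_lit 14490965724) (nat_lit 152) (nat_lit 12726669779) (nat_lit 20) (nat_lit 5) (nat_lit 21) (nat_lit 5) (nat_lit 22) (nat_lit 4) (nat_lit 379) (nat_lit 264) (nat_lit 137))) (XT.nd (nat_lit 78) (nat_lit 0) (nat_lit 0) (XT.lf (nat_lit 0) (nat_lit 32509760613) (nat_lit 76) (nat_lit 7356765665) (nat_lit 152) (nat_lit 6912013062) (nat_lit 20) (nat_lit 5) (nat_lit 21) (nat_lit 5) (nat_lit 22)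 (nat_lit 4) (nat_lit 380) (nat_lit 264) (nat_lit 136)) (XT.lf (nat_lit 0) (nat_lit 47008604726) (nat_lit 76) (nat_lit 16376408) (nat_lit 152) (nat_lit 932754704) (nat_lit 20) (nat_lit 5) (nat_lit 21) (nat_lit 5) (nat_lit 22) (nat_lit 4) (nat_lit 381) (nat_lit 264) (nat_lit 135))))) (XT.nd (nat_lit 312) (nat_lit 76) (nat_lit 0) (XT.nd (nat_lit 156) (nat_lit 76) (nat_lit 0) (XT.nd (nat_lit 78) (nat_lit 0) (nat_lit 0) (XT.lf (nat_lit 0) (nat_lit 5313253858) (nat_lit 152) (nat_lit 36285910514) (nat_lit 76) (nat_lit 7565958799) (nat_lit 18) (nat_lit 5) (nat_lit 20) (nat_lit 5) (nat_lit 19) (nat_lit 4) (nat_lit 382) (nat_lit 264) (nat_lit 134)) (XT.lf (nat_lit 0) (nat_lit 11728408311) (nat_lit 152) (nat_lit 23293181233) (nat_lit 76) (nat_lit 15386852480) (nat_lit 18) (nat_lit 5) (nat_lit 20) (nat_lit 5) (nat_lit 19) (nat_lit 4) (nat_lit 383) (nat_lit 264) (nat_lit 133))) (XT.nd (nat_lit 78) (nat_lit 76)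 (nat_lit 0) (XT.lf (nat_lit 0) (nat_lit 18326960775) (nat_lit 152) (nat_lit 9927279205) (nat_lit 76) (nat_lit 23435094440) (nat_lit 18) (nat_lit 5) (nat_lit 20) (nat_lit 5) (nat_lit 19) (nat_lit 4) (nat_lit 384) (nat_lit 264) (nat_lit 132)) (XT.lf (nat_lit 0) (nat_lit 3899569153) (nat_lit 76) (nat_lit 21252592867) (nat_lit 152) (nat_lit 27855633015) (nat_lit 17) (nat_lit 5) (nat_lit 18) (nat_lit 5) (nat_lit 19) (nat_lit 4) (nat_lit 385) (nat_lit 264) (nat_lit 131)))) (XT.nd (nat_lit 156) (nat_lit 76) (nat_lit 0) (XT.nd (nat_lit 78) (nat_lit 0) (nat_lit 0) (XT.lf (nat_lit 0) (nat_lit 18328755174) (nat_lit 76) (nat_lit 13944919960) (nat_lit 152) (nat_lit 22089389807) (nat_lit 17) (nat_lit 5) (nat_lit 18) (nat_lit 5) (nat_lit 19) (nat_lit 4) (nat_lit 386) (nat_lit 264) (nat_lit 130)) (XT.lf (nat_lit 0) (nat_lit 33175314564) (nat_lit 76) (nat_lit 6425081968) (nat_lit 152) (nat_lit 16158851611) (nat_lit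 17) (nat_lit 5) (nat_lit 18) (nat_lit 5) (nat_lit 19) (nat_lit 4) (nat_lit 387) (nat_lit 264) (nat_lit 129))) (XT.nd (nat_lit 78) (nat_lit 76) (nat_lit 0) (XT.lf (nat_lit 0) (nat_lit 47151354293) (nat_lit 152) (nat_lit 8757970652) (nat_lit 0) (nat_lit 1287860882) (nat_lit 17) (nat_lit 5) (nat_lit 19) (nat_lit 4) (nat_lit 17) (nat_lit 4) (nat_lit 388) (nat_lit 264) (nat_lit 128)) (XT.lf (nat_lit 0) (nat_lit 5511925148) (nat_lit 76) (nat_lit 49525497506) (nat_lit 76) (nat_lit 3637583495) (nat_lit 16) (nat_lit 4) (nat_lit 17) (nat_lit 5) (nat_lit 17) (nat_lit 4) (nat_lit 389) (nat_lit 264) (nat_lit 127))))))))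
noncomputable def xc115 : XT := (XT.nd (nat_lit 31278) (nat_lit 0) (nat_lit 11932) (XT.nd (nat_lit 1092) (nat_lit 152) (nat_lit 0) (XT.nd (nat_lit 546) (nat_lit 228) (nat_lit 0) (XT.nd (nat_lit 234) (nat_lit 76) (nat_lit 0) (XT.nd (nat_lit 78) (nat_lit 0) (nat_lit 0) (XT.lf (nat_lit 0) (nat_lit 2986404463) (nat_lit 152) (nat_lit 39849222271) (nat_lit 76) (nat_lit 17358242474) (nat_lit 15) (nat_lit 5) (nat_lit 17) (nat_lit 5) (nat_lit 16) (nat_lit 4) (nat_lit 390) (nat_lit 264) (nat_lit 126)) (XT.nd (nat_lit 78) (nat_lit 0) (nat_lit 0) (XT.lf (nat_lit 0) (nat_lit 9728228977) (nat_lit 152) (nat_lit 26186337265) (nat_lit 76) (nat_lit 25842886383) (nat_lit 15) (nat_lit 5) (nat_lit 17) (nat_lit 5) (nat_lit 16) (nat_lit 4) (nat_lit 391) (nat_lit 264) (nat_lit 125)) (XT.lf (nat_lit 0) (nat_lit 16664763317) (nat_lit 152) (nat_lit 12127520864) (nat_lit 76) (nat_lit 34575887458) (nat_lit 15) (nat_lit 5) (nat_lit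 17) (nat_lit 5) (nat_lit 16) (nat_lit 4) (nat_lit 392) (nat_lit 264) (nat_lit 124)))) (XT.nd (nat_lit 156) (nat_lit 0) (nat_lit 0) (XT.nd (nat_lit 78) (nat_lit 0) (nat_lit 0) (XT.lf (nat_lit 0) (nat_lit 2386072198) (nat_lit 76) (nat_lit 21438932719) (nat_lit 152) (nat_lit 41201740664) (nat_lit 14) (nat_lit 5) (nat_lit 15) (nat_lit 5) (nat_lit 16) (nat_lit 4) (nat_lit 393) (nat_lit 264) (nat_lit 123)) (XT.lf (nat_lit 0) (nat_lit 17570259477) (nat_lit 76) (nat_lit 13745017708) (nat_lit 152) (nat_lit 35416344502) (nat_lit 14) (nat_lit 5) (nat_lit 15) (nat_lit 5) (nat_lit 16) (nat_lit 4) (nat_lit 394) (nat_lit 264) (nat_lit 122))) (XT.nd (nat_lit 78) (nat_lit 0) (nat_lit 0) (XT.lf (nat_lit 0) (nat_lit 33196947265) (nat_lit 76) (nat_lit 5826280490) (nat_lit 152) (nat_lit 29464628816) (nat_lit 14) (nat_lit 5) (nat_lit 15) (nat_lit 5) (nat_lit 16) (nat_lit 4) (nat_lit 395) (nat_lit 264) (nat_lit 121))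 (XT.lf (nat_lit 0) (nat_lit 46977933343) (nat_lit 152) (nat_lit 21039536473) (nat_lit 0) (nat_lit 2278844740) (nat_lit 14) (nat_lit 5) (nat_lit 16) (nat_lit 4) (nat_lit 14) (nat_lit 4) (nat_lit 396) (nat_lit 264) (nat_lit 120))))) (XT.nd (nat_lit 234) (nat_lit 152) (nat_lit 0) (XT.nd (nat_lit 78) (nat_lit 76) (nat_lit 0) (XT.lf (nat_lit 0) (nat_lit 55222285400) (nat_lit 152) (nat_lit 6430731791) (nat_lit 0) (nat_lit 10504480440) (nat_lit 14) (nat_lit 5) (nat_lit 16) (nat_lit 4) (nat_lit 14) (nat_lit 4) (nat_lit 397) (nat_lit 264) (nat_lit 119)) (XT.nd (nat_lit 78) (nat_lit 0) (nat_lit 0) (XT.lf (nat_lit 0) (nat_lit 8775517440) (nat_lit 76) (nat_lit 55016320157) (nat_lit 76) (nat_lit 10280343977) (nat_lit 13) (nat_lit 4) (nat_lit 14) (nat_lit 5) (nat_lit 14) (nat_lit 4) (nat_lit 398) (nat_lit 264) (nat_lit 118)) (XT.lf (nat_lit 0) (nat_lit 24557834553) (nat_lit 76) (nat_lit 48119167634) (nat_lit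 76) (nat_lit 3365549492) (nat_lit 13) (nat_lit 4) (nat_lit 14) (nat_lit 5) (nat_lit 14) (nat_lit 4) (nat_lit 399) (nat_lit 264) (nat_lit 117)))) (XT.nd (nat_lit 156) (nat_lit 76) (nat_lit 0) (XT.nd (nat_lit 78) (nat_lit 0) (nat_lit 0) (XT.lf (nat_lit 0) (nat_lit 3677094109) (nat_lit 152) (nat_lit 37306245217) (nat_lit 76) (nat_lit 37087800199) (nat_lit 12) (nat_lit 5) (nat_lit 14) (nat_lit 5) (nat_lit 13) (nat_lit 4) (nat_lit 400) (nat_lit 264) (nat_lit 116)) (XT.lf (nat_lit 0) (nat_lit 10857267771) (nat_lit 152) (nat_lit 22747121923) (nat_lit 76) (nat_lit 46555380093) (nat_lit 12) (nat_lit 5) (nat_lit 14) (nat_lit 5) (nat_lit 13) (nat_lit 4) (nat_lit 401) (nat_lit 264) (nat_lit 115))) (XT.nd (nat_lit 78) (nat_lit 76) (nat_lit 0) (XT.lf (nat_lit 0) (nat_lit 18246919424) (nat_lit 152) (nat_lit 7762273962) (nat_lit 76) (nat_lit 56302044652) (nat_lit 12) (nat_lit 5) (nat_lit 14) (nat_lit 5) (nat_lit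 13) (nat_lit 4) (nat_lit 402) (nat_lit 264) (nat_lit 114)) (XT.lf (nat_lit 0) (nat_lit 7813868951) (nat_lit 76) (nat_lit 18113748781) (nat_lit 152) (nat_lit 58597553114) (nat_lit 11) (nat_lit 5) (nat_lit 12) (nat_lit 5) (nat_lit 13) (nat_lit 4) (nat_lit 403) (nat_lit 264) (nat_lit 113)))))) (XT.nd (nat_lit 546) (nat_lit 76) (nat_lit 0) (XT.nd (nat_lit 234) (nat_lit 76) (nat_lit 0) (XT.nd (nat_lit 78) (nat_lit 0) (nat_lit 0) (XT.lf (nat_lit 0) (nat_lit 24005793113) (nat_lit 76) (nat_lit 9905638547) (nat_lit 152) (nat_lit 52891910330) (nat_lit 11) (nat_lit 5) (nat_lit 12) (nat_lit 5) (nat_lit 13) (nat_lit 4) (nat_lit 404) (nat_lit 264) (nat_lit 112)) (XT.nd (nat_lit 78) (nat_lit 0) (nat_lit 0) (XT.lf (nat_lit 0) (nat_lit 40673162334) (nat_lit 76) (nat_lit 1456074294) (nat_lit 152) (nat_lit 47020788495) (nat_lit 11) (nat_lit 5) (nat_lit 12) (nat_lit 5) (nat_lit 13) (nat_lit 4) (nat_lit 405) (nat_lit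 264) (nat_lit 111)) (XT.lf (nat_lit 0) (nat_lit 50657830923) (nat_lit 152) (nat_lit 33806348090) (nat_lit 0) (nat_lit 7101003203) (nat_lit 11) (nat_lit 5) (nat_lit 13) (nat_lit 4) (nat_lit 11) (nat_lit 4) (nat_lit 406) (nat_lit 264) (nat_lit 110)))) (XT.nd (nat_lit 156) (nat_lit 76) (nat_lit 0) (XT.nd (nat_lit 78) (nat_lit 0) (nat_lit 0) (XT.lf (nat_lit 0) (nat_lit 59451449917) (nat_lit 152) (nat_lit 18719969086) (nat_lit 0) (nat_lit 15881101102) (nat_lit 11) (nat_lit 5) (nat_lit 13) (nat_lit 4) (nat_lit 11) (nat_lit 4) (nat_lit 407) (nat_lit 264) (nat_lit 109)) (XT.lf (nat_lit 0) (nat_lit 68503780677) (nat_lit 152) (nat_lit 3190546828) (nat_lit 0) (nat_lit 24920304586) (nat_lit 11) (nat_lit 5) (nat_lit 13) (nat_lit 4) (nat_lit 11) (nat_lit 4) (nat_lit 408) (nat_lit 264) (nat_lit 108))) (XT.nd (nat_lit 78) (nat_lit 0) (nat_lit 0) (XT.lf (nat_lit 0) (nat_lit 13050143383) (nat_lit 76) (nat_lit 64898035585)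 (nat_lit 76) (nat_lit 21301814567) (nat_lit 10) (nat_lit 4) (nat_lit 11) (nat_lit 5) (nat_lit 11) (nat_lit 4) (nat_lit 409) (nat_lit 264) (nat_lit 107)) (XT.lf (nat_lit 0) (nat_lit 29834278251) (nat_lit 76) (nat_lit 57868956764) (nat_lit 76) (nat_lit 14260362029) (nat_lit 10) (nat_lit 4) (nat_lit 11) (nat_lit 5) (nat_lit 11) (nat_lit 4) (nat_lit 410) (nat_lit 264) (nat_lit 106))))) (XT.nd (nat_lit 29328) (nat_lit 0) (nat_lit 22800) (XT.nd (nat_lit 78) (nat_lit 76) (nat_lit 0) (XT.lf (nat_lit 0) (nat_lit 47113025385) (nat_lit 76) (nat_lit 50633167396) (nat_lit 76) (nat_lit 7012559343) (nat_lit 10) (nat_lit 4) (nat_lit 11) (nat_lit 5) (nat_lit 11) (nat_lit 4) (nat_lit 411) (nat_lit 264) (nat_lit 105)) (XT.nd (nat_lit 29172) (nat_lit 0) (nat_lit 23256) (XT.lf (nat_lit 0) (nat_lit 439185861) (nat_lit 152) (nat_lit 42740724168) (nat_lit 76) (nat_lit 64457861943) (nat_lit 9) (nat_lit 5) (nat_lit 11) (nat_lit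 5) (nat_lit 10) (nat_lit 4) (nat_lit 412) (nat_lit 264) (nat_lit 104)) (XT.lf (nat_lit 0) (nat_lit 295767429) (nat_lit 0) (nat_lit 295767429) (nat_lit 380) (nat_lit 2684024109) (nat_lit 315) (nat_lit 5) (nat_lit 315) (nat_lit 3) (nat_lit 320) (nat_lit 3) (nat_lit 265) (nat_lit 265) (nat_lit 250)))) (XT.nd (nat_lit 156) (nat_lit 456) (nat_lit 0) (XT.nd (nat_lit 78) (nat_lit 0) (nat_lit 0) (XT.lf (nat_lit 0) (nat_lit 3580744628) (nat_lit 380) (nat_lit 2871775194) (nat_lit 456) (nat_lit 121582856) (nat_lit 315) (nat_lit 5) (nat_lit 320) (nat_lit 3) (nat_lit 321) (nat_lit 5) (nat_lit 266) (nat_lit 265) (nat_lit 249)) (XT.lf (nat_lit 76) (nat_lit 258044959) (nat_lit 0) (nat_lit 5708252841) (nat_lit 456) (nat_lit 634152310) (nat_lit 316) (nat_lit 5) (nat_lit 315) (nat_lit 5) (nat_lit 321) (nat_lit 5) (nat_lit 267) (nat_lit 265) (nat_lit 248))) (XT.nd (nat_lit 78) (nat_lit 0) (nat_lit 0) (XT.lf (nat_lit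 0) (nat_lit 1698863496) (nat_lit 456) (nat_lit 3154909892) (nat_lit 532) (nat_lit 1775297276) (nat_lit 309) (nat_lit 5) (nat_lit 315) (nat_lit 5) (nat_lit 316) (nat_lit 5) (nat_lit 268) (nat_lit 265) (nat_lit 247)) (XT.lf (nat_lit 76) (nat_lit 73590353) (nat_lit 0) (nat_lit 3927688151) (nat_lit 532) (nat_lit 2659857056) (nat_lit 310) (nat_lit 5) (nat_lit 309) (nat_lit 5) (nat_lit 316) (nat_lit 5) (nat_lit 269) (nat_lit 265) (nat_lit 246))))))) (XT.nd (nat_lit 1092) (nat_lit 6840) (nat_lit 0) (XT.nd (nat_lit 546) (nat_lit 2964) (nat_lit 0) (XT.nd (nat_lit 234) (nat_lit 532) (nat_lit 0) (XT.nd (nat_lit 78) (nat_lit 532) (nat_lit 0) (XT.lf (nat_lit 76) (nat_lit 3414329030) (nat_lit 0) (nat_lit 2903847913) (nat_lit 532) (nat_lit 377757814) (nat_lit 310) (nat_lit 5) (nat_lit 309) (nat_lit 5) (nat_lit 316) (nat_lit 5) (nat_lit 270) (nat_lit 265) (nat_lit 245)) (XT.nd (nat_lit 78) (nat_lit 0) (nat_lit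 0) (XT.lf (nat_lit 76) (nat_lit 55970379) (nat_lit 0) (nat_lit 1793986793) (nat_lit 608) (nat_lit 4883909318) (nat_lit 303) (nat_lit 5) (nat_lit 302) (nat_lit 5) (nat_lit 310) (nat_lit 5) (nat_lit 271) (nat_lit 265) (nat_lit 244)) (XT.lf (nat_lit 76) (nat_lit 3507945882) (nat_lit 0) (nat_lit 579177262) (nat_lit 608) (nat_lit 2687317718) (nat_lit 303) (nat_lit 5) (nat_lit 302) (nat_lit 5) (nat_lit 310) (nat_lit 5) (nat_lit 272) (nat_lit 265) (nat_lit 243)))) (XT.nd (nat_lit 156) (nat_lit 0) (nat_lit 0) (XT.nd (nat_lit 78) (nat_lit 608) (nat_lit 0) (XT.lf (nat_lit 76) (nat_lit 193973967) (nat_lit 0) (nat_lit 6125594923) (nat_lit 608) (nat_lit 498938296) (nat_lit 304) (nat_lit 5) (nat_lit 303) (nat_lit 5) (nat_lit 311) (nat_lit 5) (nat_lit 273) (nat_lit 265) (nat_lit 242)) (XT.lf (nat_lit 0) (nat_lit 1680694242) (nat_lit 608) (nat_lit 3112412878) (nat_lit 684) (nat_lit 2071599547) (nat_lit 295) (nat_lit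 5) (nat_lit 303) (nat_lit 5) (nat_lit 304) (nat_lit 5) (nat_lit 274) (nat_lit 265) (nat_lit 241))) (XT.nd (nat_lit 78) (nat_lit 0) (nat_lit 0) (XT.lf (nat_lit 76) (nat_lit 458800616) (nat_lit 0) (nat_lit 3384407637) (nat_lit 684) (nat_lit 3071219572) (nat_lit 296) (nat_lit 5) (nat_lit 295) (nat_lit 5) (nat_lit 304) (nat_lit 5) (nat_lit 275) (nat_lit 265) (nat_lit 240)) (XT.lf (nat_lit 76) (nat_lit 4151161577) (nat_lit 0) (nat_lit 1875736653) (nat_lit 684) (nat_lit 940159691) (nat_lit 296) (nat_lit 5) (nat_lit 295) (nat_lit 5) (nat_lit 304) (nat_lit 5) (nat_lit 276) (nat_lit 265) (nat_lit 239))))) (XT.nd (nat_lit 234) (nat_lit 1672) (nat_lit 0) (XT.nd (nat_lit 78) (nat_lit 608) (nat_lit 0) (XT.lf (nat_lit 76) (nat_lit 888391541) (nat_lit 0) (nat_lit 276730015) (nat_lit 760) (nat_lit 5857840438) (nat_lit 287) (nat_lit 5) (nat_lit 286) (nat_lit 5) (nat_lit 296) (nat_lit 5) (nat_lit 277) (nat_lit 265)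 (nat_lit 238)) (XT.nd (nat_lit 78) (nat_lit 684) (nat_lit 0) (XT.lf (nat_lit 0) (nat_lit 3284680628) (nat_lit 684) (nat_lit 2392817717) (nat_lit 76) (nat_lit 1403762419) (nat_lit 287) (nat_lit 5) (nat_lit 296) (nat_lit 5) (nat_lit 288) (nat_lit 5) (nat_lit 278) (nat_lit 265) (nat_lit 237)) (XT.lf (nat_lit 0) (nat_lit 1436085407) (nat_lit 684) (nat_lit 3978506319) (nat_lit 760) (nat_lit 1728408276) (nat_lit 278) (nat_lit 5) (nat_lit 287) (nat_lit 5) (nat_lit 288) (nat_lit 5) (nat_lit 279) (nat_lit 265) (nat_lit 236)))) (XT.nd (nat_lit 156) (nat_lit 836) (nat_lit 0) (XT.nd (nat_lit 78) (nat_lit 760) (nat_lit 0) (XT.lf (nat_lit 0) (nat_lit 349378211) (nat_lit 760) (nat_lit 1832415791) (nat_lit 76) (nat_lit 5026108279) (nat_lit 277) (nat_lit 5) (nat_lit 287) (nat_lit 5) (nat_lit 278) (nat_lit 5) (nat_lit 280) (nat_lit 265) (nat_lit 235)) (XT.lf (nat_lit 0) (nat_lit 2132969038) (nat_lit 760) (nat_lit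 275311040) (nat_lit 836) (nat_lit 4867438979) (nat_lit 267) (nat_lit 5) (nat_lit 277) (nat_lit 5) (nat_lit 278) (nat_lit 5) (nat_lit 281) (nat_lit 265) (nat_lit 234))) (XT.nd (nat_lit 78) (nat_lit 836) (nat_lit 0) (XT.lf (nat_lit 0) (nat_lit 4498514794) (nat_lit 836) (nat_lit 1158123215) (nat_lit 76) (nat_lit 1689929283) (nat_lit 267) (nat_lit 5) (nat_lit 278) (nat_lit 5) (nat_lit 268) (nat_lit 5) (nat_lit 282) (nat_lit 265) (nat_lit 233)) (XT.lf (nat_lit 0) (nat_lit 2950826614) (nat_lit 836) (nat_lit 3668273530) (nat_lit 912) (nat_lit 801493009) (nat_lit 256) (nat_lit 5) (nat_lit 267) (nat_lit 5) (nat_lit 268) (nat_lit 5) (nat_lit 283) (nat_lit 265) (nat_lit 232)))))) (XT.nd (nat_lit 546) (nat_lit 2584) (nat_lit 0) (XT.nd (nat_lit 234) (nat_lit 2280) (nat_lit 0) (XT.nd (nat_lit 78) (nat_lit 1900) (nat_lit 0) (XT.lf (nat_lit 0) (nat_lit 1230011819) (nat_lit 912) (nat_lit 353284237) (nat_lit 76)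 (nat_lit 5914772514) (nat_lit 255) (nat_lit 5) (nat_lit 267) (nat_lit 5) (nat_lit 256) (nat_lit 5) (nat_lit 284) (nat_lit 265) (nat_lit 231)) (XT.nd (nat_lit 78) (nat_lit 988) (nat_lit 0) (XT.lf (nat_lit 0) (nat_lit 3288939768) (nat_lit 988) (nat_lit 3678846790) (nat_lit 76) (nat_lit 610440581) (nat_lit 243) (nat_lit 5) (nat_lit 256) (nat_lit 5) (nat_lit 244) (nat_lit 5) (nat_lit 285) (nat_lit 265) (nat_lit 230)) (XT.lf (nat_lit 0) (nat_lit 570705066) (nat_lit 988) (nat_lit 4804162788) (nat_lit 1064) (nat_lit 2287038041) (nat_lit 230) (nat_lit 5) (nat_lit 243) (nat_lit 5) (nat_lit 244) (nat_lit 5) (nat_lit 286) (nat_lit 265) (nat_lit 229)))) (XT.nd (nat_lit 156) (nat_lit 1140) (nat_lit 0) (XT.nd (nat_lit 78) (nat_lit 1140) (nat_lit 0) (XT.lf (nat_lit 0) (nat_lit 4972751945) (nat_lit 988) (nat_lit 2529487756) (nat_lit 1064) (nat_lit 246559625) (nat_lit 230) (nat_lit 5) (nat_lit 243) (nat_lit 5) (nat_lit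 244) (nat_lit 5) (nat_lit 287) (nat_lit 265) (nat_lit 228)) (XT.lf (nat_lit 0) (nat_lit 1632441709) (nat_lit 1064) (nat_lit 144970315) (nat_lit 1140) (nat_lit 6061664435) (nat_lit 215) (nat_lit 5) (nat_lit 229) (nat_lit 5) (nat_lit 230) (nat_lit 5) (nat_lit 288) (nat_lit 265) (nat_lit 227))) (XT.nd (nat_lit 78) (nat_lit 1140) (nat_lit 0) (XT.lf (nat_lit 0) (nat_lit 3851710534) (nat_lit 1140) (nat_lit 1777519313) (nat_lit 76) (nat_lit 2302986251) (nat_lit 215) (nat_lit 5) (nat_lit 230) (nat_lit 5) (nat_lit 216) (nat_lit 5) (nat_lit 289) (nat_lit 265) (nat_lit 226)) (XT.lf (nat_lit 0) (nat_lit 2787470714) (nat_lit 1140) (nat_lit 3174665068) (nat_lit 1216) (nat_lit 2066859662) (nat_lit 200) (nat_lit 5) (nat_lit 215) (nat_lit 5) (nat_lit 216) (nat_lit 5) (nat_lit 290) (nat_lit 265) (nat_lit 225))))) (XT.nd (nat_lit 312) (nat_lit 1140) (nat_lit 0) (XT.nd (nat_lit 156) (nat_lit 608) (nat_lit 0) (XT.nd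 (nat_lit 78) (nat_lit 836) (nat_lit 0) (XT.lf (nat_lit 0) (nat_lit 7476380502) (nat_lit 1140) (nat_lit 624217293) (nat_lit 1216) (nat_lit 29199289) (nat_lit 200) (nat_lit 5) (nat_lit 215) (nat_lit 5) (nat_lit 216) (nat_lit 5) (nat_lit 291) (nat_lit 265) (nat_lit 224)) (XT.lf (nat_lit 0) (nat_lit 2036076550) (nat_lit 836) (nat_lit 4170349130) (nat_lit 76) (nat_lit 2026451295) (nat_lit 189) (nat_lit 5) (nat_lit 200) (nat_lit 5) (nat_lit 190) (nat_lit 5) (nat_lit 292) (nat_lit 265) (nat_lit 223))) (XT.nd (nat_lit 78) (nat_lit 0) (nat_lit 0) (XT.lf (nat_lit 0) (nat_lit 548402634) (nat_lit 608) (nat_lit 3581270717) (nat_lit 684) (nat_lit 4210414240) (nat_lit 181) (nat_lit 5) (nat_lit 189) (nat_lit 5) (nat_lit 190) (nat_lit 5) (nat_lit 293) (nat_lit 265) (nat_lit 222)) (XT.lf (nat_lit 0) (nat_lit 5444440178) (nat_lit 608) (nat_lit 833596188) (nat_lit 684) (nat_lit 2172773282) (nat_lit 181) (nat_lit 5)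 (nat_lit 189) (nat_lit 5) (nat_lit 190) (nat_lit 5) (nat_lit 294) (nat_lit 265) (nat_lit 221)))) (XT.nd (nat_lit 156) (nat_lit 532) (nat_lit 0) (XT.nd (nat_lit 78) (nat_lit 76) (nat_lit 0) (XT.lf (nat_lit 0) (nat_lit 1890369623) (nat_lit 532) (nat_lit 6589154087) (nat_lit 608) (nat_lit 85721756) (nat_lit 174) (nat_lit 5) (nat_lit 181) (nat_lit 5) (nat_lit 182) (nat_lit 5) (nat_lit 295) (nat_lit 265) (nat_lit 220)) (XT.lf (nat_lit 0) (nat_lit 2014310521) (nat_lit 608) (nat_lit 1765312461) (nat_lit 76) (nat_lit 4903226158) (nat_lit 173) (nat_lit 5) (nat_lit 181) (nat_lit 5) (nat_lit 174) (nat_lit 5) (nat_lit 296) (nat_lit 265) (nat_lit 219))) (XT.nd (nat_lit 78) (nat_lit 0) (nat_lit 0) (XT.lf (nat_lit 0) (nat_lit 3306320421) (nat_lit 532) (nat_lit 854220365) (nat_lit 608) (nat_lit 4643914942) (nat_lit 166) (nat_lit 5) (nat_lit 173) (nat_lit 5) (nat_lit 174) (nat_lit 5) (nat_lit 297) (nat_lit 265)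 (nat_lit 218)) (XT.lf (nat_lit 0) (nat_lit 6363927410) (nat_lit 608) (nat_lit 433625317) (nat_lit 76) (nat_lit 2132421173) (nat_lit 166) (nat_lit 5) (nat_lit 174) (nat_lit 5) (nat_lit 167) (nat_lit 5) (nat_lit 298) (nat_lit 265) (nat_lit 217))))))))
noncomputable def xc116 : XT := (XT.nd (nat_lit 2184) (nat_lit 3116) (nat_lit 0) (XT.nd (nat_lit 1092) (nat_lit 2812) (nat_lit 0) (XT.nd (nat_lit 546) (nat_lit 1672) (nat_lit 0) (XT.nd (nat_lit 234) (nat_lit 988) (nat_lit 0) (XT.nd (nat_lit 78) (nat_lit 608) (nat_lit 0) (XT.lf (nat_lit 0) (nat_lit 4820060383) (nat_lit 532) (nat_lit 3823499322) (nat_lit 608) (nat_lit 415438707) (nat_lit 159) (nat_lit 5) (nat_lit 166) (nat_lit 5) (nat_lit 167) (nat_lit 5) (nat_lit 299) (nat_lit 265) (nat_lit 216)) (XT.nd (nat_lit 78) (nat_lit 0) (nat_lit 0) (XT.lf (nat_lit 0) (nat_lit 1001882076) (nat_lit 532) (nat_lit 732456168) (nat_lit 608) (nat_lit 7457985871) (nat_lit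 151) (nat_lit 5) (nat_lit 158) (nat_lit 5) (nat_lit 159) (nat_lit 5) (nat_lit 300) (nat_lit 265) (nat_lit 215)) (XT.lf (nat_lit 0) (nat_lit 3963545845) (nat_lit 608) (nat_lit 2919273364) (nat_lit 76) (nat_lit 2446049655) (nat_lit 151) (nat_lit 5) (nat_lit 159) (nat_lit 5) (nat_lit 152) (nat_lit 5) (nat_lit 301) (nat_lit 265) (nat_lit 214)))) (XT.nd (nat_lit 156) (nat_lit 532) (nat_lit 0) (XT.nd (nat_lit 78) (nat_lit 0) (nat_lit 0) (XT.lf (nat_lit 0) (nat_lit 2503446931) (nat_lit 456) (nat_lit 3745261485) (nat_lit 532) (nat_lit 3221169261) (nat_lit 145) (nat_lit 5) (nat_lit 151) (nat_lit 5) (nat_lit 152) (nat_lit 5) (nat_lit 302) (nat_lit 265) (nat_lit 213)) (XT.lf (nat_lit 0) (nat_lit 8100980791) (nat_lit 456) (nat_lit 489457660) (nat_lit 532) (nat_lit 1025076845) (nat_lit 145) (nat_lit 5) (nat_lit 151) (nat_lit 5) (nat_lit 152) (nat_lit 5) (nat_lit 303) (nat_lit 265) (nat_lit 212))) (XT.nd (nat_lit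 78) (nat_lit 0) (nat_lit 0) (XT.lf (nat_lit 0) (nat_lit 1239672407) (nat_lit 532) (nat_lit 5670910106) (nat_lit 76) (nat_lit 2853812208) (nat_lit 138) (nat_lit 5) (nat_lit 145) (nat_lit 5) (nat_lit 139) (nat_lit 5) (nat_lit 304) (nat_lit 265) (nat_lit 211)) (XT.lf (nat_lit 0) (nat_lit 3532029696) (nat_lit 532) (nat_lit 79512065) (nat_lit 76) (nat_lit 6306521847) (nat_lit 138) (nat_lit 5) (nat_lit 145) (nat_lit 5) (nat_lit 139) (nat_lit 5) (nat_lit 305) (nat_lit 265) (nat_lit 210))))) (XT.nd (nat_lit 234) (nat_lit 760) (nat_lit 0) (XT.nd (nat_lit 78) (nat_lit 532) (nat_lit 0) (XT.lf (nat_lit 0) (nat_lit 5745258684) (nat_lit 380) (nat_lit 164268891) (nat_lit 456) (nat_lit 4166358469) (nat_lit 133) (nat_lit 5) (nat_lit 138) (nat_lit 5) (nat_lit 139) (nat_lit 5) (nat_lit 306) (nat_lit 265) (nat_lit 209)) (XT.nd (nat_lit 78) (nat_lit 76) (nat_lit 0) (XT.lf (nat_lit 0) (nat_lit 1456721667) (nat_lit 456)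 (nat_lit 6910751607) (nat_lit 532) (nat_lit 1870729764) (nat_lit 127) (nat_lit 5) (nat_lit 133) (nat_lit 5) (nat_lit 134) (nat_lit 5) (nat_lit 307) (nat_lit 265) (nat_lit 208)) (XT.lf (nat_lit 0) (nat_lit 491940907) (nat_lit 532) (nat_lit 2951871481) (nat_lit 76) (nat_lit 6961232156) (nat_lit 126) (nat_lit 5) (nat_lit 133) (nat_lit 5) (nat_lit 127) (nat_lit 5) (nat_lit 308) (nat_lit 265) (nat_lit 207)))) (XT.nd (nat_lit 156) (nat_lit 380) (nat_lit 0) (XT.nd (nat_lit 78) (nat_lit 0) (nat_lit 0) (XT.lf (nat_lit 0) (nat_lit 2881917791) (nat_lit 456) (nat_lit 7530699296) (nat_lit 76) (nat_lit 163928491) (nat_lit 121) (nat_lit 5) (nat_lit 127) (nat_lit 5) (nat_lit 122) (nat_lit 5) (nat_lit 309) (nat_lit 265) (nat_lit 206)) (XT.lf (nat_lit 0) (nat_lit 5371464069) (nat_lit 456) (nat_lit 1549329557) (nat_lit 76) (nat_lit 3831591743) (nat_lit 121) (nat_lit 5) (nat_lit 127) (nat_lit 5) (nat_lit 122) (nat_lit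 5) (nat_lit 310) (nat_lit 265) (nat_lit 205))) (XT.nd (nat_lit 78) (nat_lit 0) (nat_lit 0) (XT.lf (nat_lit 0) (nat_lit 4657070180) (nat_lit 380) (nat_lit 3288121018) (nat_lit 456) (nat_lit 2988053281) (nat_lit 116) (nat_lit 5) (nat_lit 121) (nat_lit 5) (nat_lit 122) (nat_lit 5) (nat_lit 311) (nat_lit 265) (nat_lit 204)) (XT.lf (nat_lit 0) (nat_lit 10581516262) (nat_lit 456) (nat_lit 87966855) (nat_lit 76) (nat_lit 450512776) (nat_lit 116) (nat_lit 5) (nat_lit 122) (nat_lit 5) (nat_lit 117) (nat_lit 5) (nat_lit 312) (nat_lit 265) (nat_lit 203)))))) (XT.nd (nat_lit 546) (nat_lit 1292) (nat_lit 0) (XT.nd (nat_lit 234) (nat_lit 684) (nat_lit 0) (XT.nd (nat_lit 78) (nat_lit 380) (nat_lit 0) (XT.lf (nat_lit 0) (nat_lit 2006084860) (nat_lit 456) (nat_lit 4997834769) (nat_lit 76) (nat_lit 4306077513) (nat_lit 110) (nat_lit 5) (nat_lit 116) (nat_lit 5) (nat_lit 111) (nat_lit 5) (nat_lit 313) (nat_lit 265)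 (nat_lit 202)) (XT.nd (nat_lit 78) (nat_lit 0) (nat_lit 0) (XT.lf (nat_lit 0) (nat_lit 1377224205) (nat_lit 380) (nat_lit 3219519454) (nat_lit 456) (nat_lit 6909403145) (nat_lit 105) (nat_lit 5) (nat_lit 110) (nat_lit 5) (nat_lit 111) (nat_lit 5) (nat_lit 314) (nat_lit 265) (nat_lit 201)) (XT.lf (nat_lit 0) (nat_lit 7289498983) (nat_lit 456) (nat_lit 3712907240) (nat_lit 76) (nat_lit 705068411) (nat_lit 105) (nat_lit 5) (nat_lit 111) (nat_lit 5) (nat_lit 106) (nat_lit 5) (nat_lit 315) (nat_lit 265) (nat_lit 200)))) (XT.nd (nat_lit 156) (nat_lit 304) (nat_lit 0) (XT.nd (nat_lit 78) (nat_lit 76) (nat_lit 0) (XT.lf (nat_lit 0) (nat_lit 2875943832) (nat_lit 304) (nat_lit 7214466762) (nat_lit 380) (nat_lit 1823634749) (nat_lit 101) (nat_lit 5) (nat_lit 105) (nat_lit 5) (nat_lit 106) (nat_lit 5) (nat_lit 316) (nat_lit 265) (nat_lit 199)) (XT.lf (nat_lit 0) (nat_lit 837876905) (nat_lit 380) (nat_lit 2439761958)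 (nat_lit 76) (nat_lit 8848775515) (nat_lit 100) (nat_lit 5) (nat_lit 105) (nat_lit 5) (nat_lit 101) (nat_lit 5) (nat_lit 317) (nat_lit 265) (nat_lit 198))) (XT.nd (nat_lit 78) (nat_lit 0) (nat_lit 0) (XT.lf (nat_lit 0) (nat_lit 3561614202) (nat_lit 380) (nat_lit 7971125278) (nat_lit 76) (nat_lit 811324519) (nat_lit 96) (nat_lit 5) (nat_lit 101) (nat_lit 5) (nat_lit 97) (nat_lit 5) (nat_lit 318) (nat_lit 265) (nat_lit 197)) (XT.lf (nat_lit 0) (nat_lit 6393743590) (nat_lit 380) (nat_lit 1203402434) (nat_lit 76) (nat_lit 4970318232) (nat_lit 96) (nat_lit 5) (nat_lit 101) (nat_lit 5) (nat_lit 97) (nat_lit 5) (nat_lit 319) (nat_lit 265) (nat_lit 196))))) (XT.nd (nat_lit 234) (nat_lit 608) (nat_lit 0) (XT.nd (nat_lit 78) (nat_lit 380) (nat_lit 0) (XT.lf (nat_lit 0) (nat_lit 5839321808) (nat_lit 304) (nat_lit 3497886342) (nat_lit 380) (nat_lit 3459588154) (nat_lit 92) (nat_lit 5) (nat_lit 96) (nat_lit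 5) (nat_lit 97) (nat_lit 5) (nat_lit 320) (nat_lit 265) (nat_lit 195)) (XT.nd (nat_lit 78) (nat_lit 76) (nat_lit 0) (XT.lf (nat_lit 0) (nat_lit 36638241) (nat_lit 304) (nat_lit 12322515254) (nat_lit 380) (nat_lit 674169823) (nat_lit 88) (nat_lit 5) (nat_lit 92) (nat_lit 5) (nat_lit 93) (nat_lit 5) (nat_lit 321) (nat_lit 265) (nat_lit 194)) (XT.lf (nat_lit 0) (nat_lit 2228304335) (nat_lit 380) (nat_lit 5990601139) (nat_lit 76) (nat_lit 5055137220) (nat_lit 87) (nat_lit 5) (nat_lit 92) (nat_lit 5) (nat_lit 88) (nat_lit 5) (nat_lit 322) (nat_lit 265) (nat_lit 193)))) (XT.nd (nat_lit 156) (nat_lit 380) (nat_lit 0) (XT.nd (nat_lit 78) (nat_lit 0) (nat_lit 0) (XT.lf (nat_lit 0) (nat_lit 1201135198) (nat_lit 228) (nat_lit 3986302688) (nat_lit 304) (nat_lit 8334870044) (nat_lit 84) (nat_lit 5) (nat_lit 87) (nat_lit 5) (nat_lit 88) (nat_lit 5) (nat_lit 323) (nat_lit 265) (nat_lit 192)) (XT.lf (nat_lit 0)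 (nat_lit 8271925486) (nat_lit 304) (nat_lit 5090590385) (nat_lit 76) (nat_lit 414425898) (nat_lit 84) (nat_lit 5) (nat_lit 88) (nat_lit 5) (nat_lit 85) (nat_lit 5) (nat_lit 324) (nat_lit 265) (nat_lit 191))) (XT.nd (nat_lit 78) (nat_lit 76) (nat_lit 0) (XT.lf (nat_lit 0) (nat_lit 2322348754) (nat_lit 304) (nat_lit 9161109192) (nat_lit 380) (nat_lit 2554738890) (nat_lit 80) (nat_lit 5) (nat_lit 84) (nat_lit 5) (nat_lit 85) (nat_lit 5) (nat_lit 325) (nat_lit 265) (nat_lit 190)) (XT.lf (nat_lit 0) (nat_lit 499360570) (nat_lit 380) (nat_lit 4289451636) (nat_lit 76) (nat_lit 9517611498) (nat_lit 79) (nat_lit 5) (nat_lit 84) (nat_lit 5) (nat_lit 80) (nat_lit 5) (nat_lit 326) (nat_lit 265) (nat_lit 189))))))) (XT.nd (nat_lit 1092) (nat_lit 1444) (nat_lit 0) (XT.nd (nat_lit 546) (nat_lit 684) (nat_lit 0) (XT.nd (nat_lit 234) (nat_lit 532) (nat_lit 0) (XT.nd (nat_lit 78) (nat_lit 228) (nat_lit 0) (XT.lf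 (nat_lit 0) (nat_lit 3360631450) (nat_lit 228) (nat_lit 239044500) (nat_lit 304) (nat_lit 10982100409) (nat_lit 76) (nat_lit 5) (nat_lit 79) (nat_lit 5) (nat_lit 80) (nat_lit 5) (nat_lit 327) (nat_lit 265) (nat_lit 188)) (XT.nd (nat_lit 78) (nat_lit 228) (nat_lit 0) (XT.lf (nat_lit 0) (nat_lit 6853397972) (nat_lit 304) (nat_lit 3618793872) (nat_lit 76) (nat_lit 4391401401) (nat_lit 76) (nat_lit 5) (nat_lit 80) (nat_lit 5) (nat_lit 77) (nat_lit 5) (nat_lit 328) (nat_lit 265) (nat_lit 187)) (XT.lf (nat_lit 0) (nat_lit 4253750318) (nat_lit 228) (nat_lit 5968901747) (nat_lit 304) (nat_lit 4930690073) (nat_lit 73) (nat_lit 5) (nat_lit 76) (nat_lit 5) (nat_lit 77) (nat_lit 5) (nat_lit 329) (nat_lit 265) (nat_lit 186)))) (XT.nd (nat_lit 156) (nat_lit 228) (nat_lit 0) (XT.nd (nat_lit 78) (nat_lit 304) (nat_lit 0) (XT.lf (nat_lit 0) (nat_lit 12398513585) (nat_lit 228) (nat_lit 1306048230) (nat_lit 304) (nat_lit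 1746889015) (nat_lit 73) (nat_lit 5) (nat_lit 76) (nat_lit 5) (nat_lit 77) (nat_lit 5) (nat_lit 330) (nat_lit 265) (nat_lit 185)) (XT.lf (nat_lit 0) (nat_lit 1560940078) (nat_lit 304) (nat_lit 10715555441) (nat_lit 76) (nat_lit 3479826663) (nat_lit 69) (nat_lit 5) (nat_lit 73) (nat_lit 5) (nat_lit 70) (nat_lit 5) (nat_lit 331) (nat_lit 265) (nat_lit 184))) (XT.nd (nat_lit 78) (nat_lit 228) (nat_lit 0) (XT.lf (nat_lit 0) (nat_lit 4952697797) (nat_lit 304) (nat_lit 2697856811) (nat_lit 76) (nat_lit 8418685480) (nat_lit 69) (nat_lit 5) (nat_lit 73) (nat_lit 5) (nat_lit 70) (nat_lit 5) (nat_lit 332) (nat_lit 265) (nat_lit 183)) (XT.lf (nat_lit 0) (nat_lit 5633631696) (nat_lit 228) (nat_lit 2843176490) (nat_lit 304) (nat_lit 7913832385) (nat_lit 66) (nat_lit 5) (nat_lit 69) (nat_lit 5) (nat_lit 70) (nat_lit 5) (nat_lit 333) (nat_lit 265) (nat_lit 182))))) (XT.nd (nat_lit 234) (nat_lit 380) (nat_lit 0)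 (XT.nd (nat_lit 78) (nat_lit 304) (nat_lit 0) (XT.lf (nat_lit 0) (nat_lit 12131079231) (nat_lit 304) (nat_lit 2507931935) (nat_lit 76) (nat_lit 2081951438) (nat_lit 66) (nat_lit 5) (nat_lit 70) (nat_lit 5) (nat_lit 67) (nat_lit 5) (nat_lit 334) (nat_lit 265) (nat_lit 181)) (XT.nd (nat_lit 78) (nat_lit 76) (nat_lit 0) (XT.lf (nat_lit 0) (nat_lit 6042556516) (nat_lit 228) (nat_lit 9915993888) (nat_lit 304) (nat_lit 1100749025) (nat_lit 63) (nat_lit 5) (nat_lit 66) (nat_lit 5) (nat_lit 67) (nat_lit 5) (nat_lit 335) (nat_lit 265) (nat_lit 180)) (XT.lf (nat_lit 0) (nat_lit 2447409902) (nat_lit 304) (nat_lit 2566204671) (nat_lit 76) (nat_lit 12393374448) (nat_lit 62) (nat_lit 5) (nat_lit 66) (nat_lit 5) (nat_lit 63) (nat_lit 5) (nat_lit 336) (nat_lit 265) (nat_lit 179)))) (XT.nd (nat_lit 156) (nat_lit 152) (nat_lit 0) (XT.nd (nat_lit 78) (nat_lit 0) (nat_lit 0) (XT.lf (nat_lit 0) (nat_lit 6118615610)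 (nat_lit 304) (nat_lit 11551268927) (nat_lit 76) (nat_lit 93747278) (nat_lit 59) (nat_lit 5) (nat_lit 63) (nat_lit 5) (nat_lit 60) (nat_lit 5) (nat_lit 337) (nat_lit 265) (nat_lit 178)) (XT.lf (nat_lit 0) (nat_lit 9954030266) (nat_lit 304) (nat_lit 2908279344) (nat_lit 76) (nat_lit 5267053015) (nat_lit 59) (nat_lit 5) (nat_lit 63) (nat_lit 5) (nat_lit 60) (nat_lit 5) (nat_lit 338) (nat_lit 265) (nat_lit 177))) (XT.nd (nat_lit 78) (nat_lit 0) (nat_lit 0) (XT.lf (nat_lit 0) (nat_lit 6078557487) (nat_lit 152) (nat_lit 7863276634) (nat_lit 228) (nat_lit 4563122038) (nat_lit 57) (nat_lit 5) (nat_lit 59) (nat_lit 5) (nat_lit 60) (nat_lit 5) (nat_lit 339) (nat_lit 265) (nat_lit 176)) (XT.lf (nat_lit 0) (nat_lit 15360893203) (nat_lit 152) (nat_lit 2696933267) (nat_lit 228) (nat_lit 833744688) (nat_lit 57) (nat_lit 5) (nat_lit 59) (nat_lit 5) (nat_lit 60) (nat_lit 5) (nat_lit 340) (nat_lit 265) (nat_lit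 175)))))) (XT.nd (nat_lit 546) (nat_lit 532) (nat_lit 0) (XT.nd (nat_lit 234) (nat_lit 456) (nat_lit 0) (XT.nd (nat_lit 78) (nat_lit 152) (nat_lit 0) (XT.lf (nat_lit 0) (nat_lit 3008947484) (nat_lit 304) (nat_lit 13633134818) (nat_lit 76) (nat_lit 2645041076) (nat_lit 53) (nat_lit 5) (nat_lit 57) (nat_lit 5) (nat_lit 54) (nat_lit 5) (nat_lit 341) (nat_lit 265) (nat_lit 174)) (XT.nd (nat_lit 78) (nat_lit 152) (nat_lit 0) (XT.lf (nat_lit 0) (nat_lit 6992611079) (nat_lit 304) (nat_lit 4575535661) (nat_lit 76) (nat_lit 8124883753) (nat_lit 53) (nat_lit 5) (nat_lit 57) (nat_lit 5) (nat_lit 54) (nat_lit 5) (nat_lit 342) (nat_lit 265) (nat_lit 173)) (XT.lf (nat_lit 0) (nat_lit 4815404553) (nat_lit 152) (nat_lit 6306998609) (nat_lit 228) (nat_lit 8987922245) (nat_lit 51) (nat_lit 5) (nat_lit 53) (nat_lit 5) (nat_lit 54) (nat_lit 5) (nat_lit 343) (nat_lit 265) (nat_lit 172)))) (XT.nd (nat_lit 156) (nat_lit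 228) (nat_lit 0) (XT.nd (nat_lit 78) (nat_lit 228) (nat_lit 0) (XT.lf (nat_lit 0) (nat_lit 14549831352) (nat_lit 152) (nat_lit 853056529) (nat_lit 228) (nat_lit 5136456199) (nat_lit 51) (nat_lit 5) (nat_lit 53) (nat_lit 5) (nat_lit 54) (nat_lit 5) (nat_lit 344) (nat_lit 265) (nat_lit 171)) (XT.lf (nat_lit 0) (nat_lit 3587708957) (nat_lit 228) (nat_lit 16285407019) (nat_lit 304) (nat_lit 1106286093) (nat_lit 48) (nat_lit 5) (nat_lit 51) (nat_lit 5) (nat_lit 52) (nat_lit 5) (nat_lit 345) (nat_lit 265) (nat_lit 170))) (XT.nd (nat_lit 78) (nat_lit 152) (nat_lit 0) (XT.lf (nat_lit 0) (nat_lit 3036002211) (nat_lit 304) (nat_lit 7925767550) (nat_lit 76) (nat_lit 10468503270) (nat_lit 47) (nat_lit 5) (nat_lit 51) (nat_lit 5) (nat_lit 48) (nat_lit 5) (nat_lit 346) (nat_lit 265) (nat_lit 169)) (XT.lf (nat_lit 0) (nat_lit 1817945124) (nat_lit 152) (nat_lit 5461505078) (nat_lit 228) (nat_lit 14614925421) (nat_lit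 45) (nat_lit 5) (nat_lit 47) (nat_lit 5) (nat_lit 48) (nat_lit 5) (nat_lit 347) (nat_lit 265) (nat_lit 168))))) (XT.nd (nat_lit 312) (nat_lit 304) (nat_lit 0) (XT.nd (nat_lit 156) (nat_lit 228) (nat_lit 0) (XT.nd (nat_lit 78) (nat_lit 0) (nat_lit 0) (XT.lf (nat_lit 0) (nat_lit 11714762430) (nat_lit 228) (nat_lit 10387155241) (nat_lit 76) (nat_lit 268554455) (nat_lit 45) (nat_lit 5) (nat_lit 48) (nat_lit 5) (nat_lit 46) (nat_lit 5) (nat_lit 348) (nat_lit 265) (nat_lit 167)) (XT.lf (nat_lit 0) (nat_lit 16319514082) (nat_lit 228) (nat_lit 491221152) (nat_lit 76) (nat_lit 6049032322) (nat_lit 45) (nat_lit 5) (nat_lit 48) (nat_lit 5) (nat_lit 46) (nat_lit 5) (nat_lit 349) (nat_lit 265) (nat_lit 166))) (XT.nd (nat_lit 78) (nat_lit 76) (nat_lit 0) (XT.lf (nat_lit 0) (nat_lit 9865020101) (nat_lit 152) (nat_lit 11275037907) (nat_lit 228) (nat_lit 2221361568) (nat_lit 43) (nat_lit 5) (nat_lit 45) (nat_lit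 5) (nat_lit 46) (nat_lit 5) (nat_lit 350) (nat_lit 265) (nat_lit 165)) (XT.lf (nat_lit 0) (nat_lit 2171517894) (nat_lit 228) (nat_lit 3386547160) (nat_lit 76) (nat_lit 18319784276) (nat_lit 42) (nat_lit 5) (nat_lit 45) (nat_lit 5) (nat_lit 43) (nat_lit 5) (nat_lit 351) (nat_lit 265) (nat_lit 164)))) (XT.nd (nat_lit 156) (nat_lit 152) (nat_lit 0) (XT.nd (nat_lit 78) (nat_lit 0) (nat_lit 0) (XT.lf (nat_lit 0) (nat_lit 6707259866) (nat_lit 228) (nat_lit 17296362436) (nat_lit 76) (nat_lit 403824771) (nat_lit 40) (nat_lit 5) (nat_lit 43) (nat_lit 5) (nat_lit 41) (nat_lit 5) (nat_lit 352) (nat_lit 265) (nat_lit 163)) (XT.lf (nat_lit 0) (nat_lit 11452113159) (nat_lit 228) (nat_lit 7042606611) (nat_lit 76) (nat_lit 6456028219) (nat_lit 40) (nat_lit 5) (nat_lit 43) (nat_lit 5) (nat_lit 41) (nat_lit 5) (nat_lit 353) (nat_lit 265) (nat_lit 162))) (XT.nd (nat_lit 78) (nat_lit 0) (nat_lit 0) (XT.lf (nat_lit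 0) (nat_lit 3560673415) (nat_lit 152) (nat_lit 12796820027) (nat_lit 228) (nat_lit 9152315276) (nat_lit 38) (nat_lit 5) (nat_lit 40) (nat_lit 5) (nat_lit 41) (nat_lit 5) (nat_lit 354) (nat_lit 265) (nat_lit 161)) (XT.lf (nat_lit 0) (nat_lit 14599118633) (nat_lit 152) (nat_lit 6866191975) (nat_lit 228) (nat_lit 4618678441) (nat_lit 38) (nat_lit 5) (nat_lit 40) (nat_lit 5) (nat_lit 41) (nat_lit 5) (nat_lit 355) (nat_lit 265) (nat_lit 160))))))))
noncomputable def xc117 : XT := (XT.nd (nat_lit 2184) (nat_lit 608) (nat_lit 0) (XT.nd (nat_lit 1092) (nat_lit 684) (nat_lit 0) (XT.nd (nat_lit 546) (nat_lit 304) (nat_lit 0) (XT.nd (nat_lit 234) (nat_lit 304) (nat_lit 0) (XT.nd (nat_lit 78) (nat_lit 152) (nat_lit 0) (XT.lf (nat_lit 0) (nat_lit 34435256) (nat_lit 228) (nat_lit 733987047) (nat_lit 76) (nat_lit 25907429618) (nat_lit 37) (nat_lit 5) (nat_lit 40) (nat_lit 5) (nat_lit 38) (nat_lit 5) (nat_lit 356)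 (nat_lit 265) (nat_lit 159)) (XT.nd (nat_lit 78) (nat_lit 0) (nat_lit 0) (XT.lf (nat_lit 0) (nat_lit 4874221212) (nat_lit 228) (nat_lit 16863867119) (nat_lit 76) (nat_lit 5541818704) (nat_lit 35) (nat_lit 5) (nat_lit 38) (nat_lit 5) (nat_lit 36) (nat_lit 5) (nat_lit 357) (nat_lit 265) (nat_lit 158)) (XT.lf (nat_lit 0) (nat_lit 9859295829) (nat_lit 228) (nat_lit 6020059875) (nat_lit 76) (nat_lit 12022730619) (nat_lit 35) (nat_lit 5) (nat_lit 38) (nat_lit 5) (nat_lit 36) (nat_lit 5) (nat_lit 358) (nat_lit 265) (nat_lit 157)))) (XT.nd (nat_lit 156) (nat_lit 152) (nat_lit 0) (XT.nd (nat_lit 78) (nat_lit 0) (nat_lit 0) (XT.lf (nat_lit 0) (nat_lit 5225663586) (nat_lit 152) (nat_lit 9803929940) (nat_lit 228) (nat_lit 13512272550) (nat_lit 33) (nat_lit 5) (nat_lit 35) (nat_lit 5) (nat_lit 36) (nat_lit 5) (nat_lit 359) (nat_lit 265) (nat_lit 156)) (XT.lf (nat_lit 0) (nat_lit 16907043278) (nat_lit 152) (nat_lit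 3494368887) (nat_lit 228) (nat_lit 8798039760) (nat_lit 33) (nat_lit 5) (nat_lit 35) (nat_lit 5) (nat_lit 36) (nat_lit 5) (nat_lit 360) (nat_lit 265) (nat_lit 155))) (XT.nd (nat_lit 78) (nat_lit 152) (nat_lit 0) (XT.lf (nat_lit 0) (nat_lit 25949206014) (nat_lit 228) (nat_lit 991494467) (nat_lit 76) (nat_lit 2935625164) (nat_lit 33) (nat_lit 5) (nat_lit 36) (nat_lit 5) (nat_lit 34) (nat_lit 4) (nat_lit 361) (nat_lit 265) (nat_lit 154)) (XT.lf (nat_lit 0) (nat_lit 1194659451) (nat_lit 152) (nat_lit 19780864092) (nat_lit 76) (nat_lit 9593892363) (nat_lit 31) (nat_lit 5) (nat_lit 33) (nat_lit 5) (nat_lit 32) (nat_lit 5) (nat_lit 362) (nat_lit 265) (nat_lit 153))))) (XT.nd (nat_lit 234) (nat_lit 152) (nat_lit 0) (XT.nd (nat_lit 78) (nat_lit 152) (nat_lit 0) (XT.lf (nat_lit 0) (nat_lit 6387652450) (nat_lit 152) (nat_lit 8403688997) (nat_lit 76) (nat_lit 16490900701) (nat_lit 31) (nat_lit 5) (nat_lit 33)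 (nat_lit 5) (nat_lit 32) (nat_lit 5) (nat_lit 363) (nat_lit 265) (nat_lit 152)) (XT.nd (nat_lit 78) (nat_lit 0) (nat_lit 0) (XT.lf (nat_lit 0) (nat_lit 3356974881) (nat_lit 152) (nat_lit 8398506818) (nat_lit 228) (nat_lit 20260404452) (nat_lit 29) (nat_lit 5) (nat_lit 31) (nat_lit 5) (nat_lit 32) (nat_lit 5) (nat_lit 364) (nat_lit 265) (nat_lit 151)) (XT.lf (nat_lit 0) (nat_lit 15619621679) (nat_lit 152) (nat_lit 1736525131) (nat_lit 228) (nat_lit 15413242875) (nat_lit 29) (nat_lit 5) (nat_lit 31) (nat_lit 5) (nat_lit 32) (nat_lit 5) (nat_lit 365) (nat_lit 265) (nat_lit 150)))) (XT.nd (nat_lit 156) (nat_lit 76) (nat_lit 0) (XT.nd (nat_lit 78) (nat_lit 76) (nat_lit 0) (XT.lf (nat_lit 0) (nat_lit 23161326389) (nat_lit 228) (nat_lit 5367340314) (nat_lit 76) (nat_lit 5015740903) (nat_lit 29) (nat_lit 5) (nat_lit 32) (nat_lit 5) (nat_lit 30) (nat_lit 4) (nat_lit 366) (nat_lit 265) (nat_lit 149)) (XT.lf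 (nat_lit 0) (nat_lit 6863232899) (nat_lit 76) (nat_lit 22348194242) (nat_lit 152) (nat_lit 5129129945) (nat_lit 28) (nat_lit 5) (nat_lit 29) (nat_lit 5) (nat_lit 30) (nat_lit 4) (nat_lit 367) (nat_lit 265) (nat_lit 148))) (XT.nd (nat_lit 78) (nat_lit 0) (nat_lit 0) (XT.lf (nat_lit 0) (nat_lit 319289691) (nat_lit 152) (nat_lit 15613562315) (nat_lit 76) (nat_lit 19226390526) (nat_lit 27) (nat_lit 5) (nat_lit 29) (nat_lit 5) (nat_lit 28) (nat_lit 5) (nat_lit 368) (nat_lit 265) (nat_lit 147)) (XT.lf (nat_lit 0) (nat_lit 5816056925) (nat_lit 152) (nat_lit 3466121693) (nat_lit 76) (nat_lit 26719150513) (nat_lit 27) (nat_lit 5) (nat_lit 29) (nat_lit 5) (nat_lit 28) (nat_lit 5) (nat_lit 369) (nat_lit 265) (nat_lit 146)))))) (XT.nd (nat_lit 546) (nat_lit 228) (nat_lit 0) (XT.nd (nat_lit 234) (nat_lit 304) (nat_lit 0) (XT.nd (nat_lit 78) (nat_lit 0) (nat_lit 0) (XT.lf (nat_lit 0) (nat_lit 9204529812) (nat_lit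 152) (nat_lit 2350012315) (nat_lit 228) (nat_lit 25311835304) (nat_lit 25) (nat_lit 5) (nat_lit 27) (nat_lit 5) (nat_lit 28) (nat_lit 5) (nat_lit 370) (nat_lit 265) (nat_lit 145)) (XT.nd (nat_lit 78) (nat_lit 0) (nat_lit 0) (XT.lf (nat_lit 0) (nat_lit 17534964452) (nat_lit 228) (nat_lit 15497249659) (nat_lit 76) (nat_lit 4723073038) (nat_lit 25) (nat_lit 5) (nat_lit 28) (nat_lit 5) (nat_lit 26) (nat_lit 4) (nat_lit 371) (nat_lit 265) (nat_lit 144)) (XT.lf (nat_lit 0) (nat_lit 23706794504) (nat_lit 228) (nat_lit 3011256324) (nat_lit 76) (nat_lit 11952456827) (nat_lit 25) (nat_lit 5) (nat_lit 28) (nat_lit 5) (nat_lit 26) (nat_lit 4) (nat_lit 372) (nat_lit 265) (nat_lit 143)))) (XT.nd (nat_lit 156) (nat_lit 228) (nat_lit 0) (XT.nd (nat_lit 78) (nat_lit 0) (nat_lit 0) (XT.lf (nat_lit 0) (nat_lit 10025261185) (nat_lit 76) (nat_lit 20123943145) (nat_lit 152) (nat_lit 9461420950) (nat_lit 24) (nat_lit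 5) (nat_lit 25) (nat_lit 5) (nat_lit 26) (nat_lit 4) (nat_lit 373) (nat_lit 265) (nat_lit 142)) (XT.lf (nat_lit 0) (nat_lit 23495110431) (nat_lit 76) (nat_lit 13309371129) (nat_lit 152) (nat_lit 3773880175) (nat_lit 24) (nat_lit 5) (nat_lit 25) (nat_lit 5) (nat_lit 26) (nat_lit 4) (nat_lit 374) (nat_lit 265) (nat_lit 141))) (XT.nd (nat_lit 78) (nat_lit 152) (nat_lit 0) (XT.lf (nat_lit 0) (nat_lit 2033010195) (nat_lit 152) (nat_lit 4245248474) (nat_lit 76) (nat_lit 35296591666) (nat_lit 23) (nat_lit 5) (nat_lit 25) (nat_lit 5) (nat_lit 24) (nat_lit 5) (nat_lit 375) (nat_lit 265) (nat_lit 140)) (XT.lf (nat_lit 0) (nat_lit 8025851164) (nat_lit 228) (nat_lit 33508708089) (nat_lit 76) (nat_lit 1062928418) (nat_lit 21) (nat_lit 5) (nat_lit 24) (nat_lit 5) (nat_lit 22) (nat_lit 4) (nat_lit 376) (nat_lit 265) (nat_lit 139))))) (XT.nd (nat_lit 234) (nat_lit 152) (nat_lit 0) (XT.nd (nat_lit 78) (nat_lit 76)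 (nat_lit 0) (XT.lf (nat_lit 0) (nat_lit 14293679610) (nat_lit 228) (nat_lit 20820878819) (nat_lit 76) (nat_lit 8533392434) (nat_lit 21) (nat_lit 5) (nat_lit 24) (nat_lit 5) (nat_lit 22) (nat_lit 4) (nat_lit 377) (nat_lit 265) (nat_lit 138)) (XT.nd (nat_lit 78) (nat_lit 76) (nat_lit 0) (XT.lf (nat_lit 0) (nat_lit 20739589649) (nat_lit 228) (nat_lit 7770499376) (nat_lit 76) (nat_lit 16220140245) (nat_lit 21) (nat_lit 5) (nat_lit 24) (nat_lit 5) (nat_lit 22) (nat_lit 4) (nat_lit 378) (nat_lit 265) (nat_lit 137)) (XT.lf (nat_lit 0) (nat_lit 5766355856) (nat_lit 76) (nat_lit 21658287514) (nat_lit 152) (nat_lit 18418962309) (nat_lit 20) (nat_lit 5) (nat_lit 21) (nat_lit 5) (nat_lit 22) (nat_lit 4) (nat_lit 379) (nat_lit 265) (nat_lit 136)))) (XT.nd (nat_lit 156) (nat_lit 152) (nat_lit 0) (XT.nd (nat_lit 78) (nat_lit 0) (nat_lit 0) (XT.lf (nat_lit 0) (nat_lit 19851218537) (nat_lit 76) (nat_lit 14527947950)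 (nat_lit 152) (nat_lit 12609151927) (nat_lit 20) (nat_lit 5) (nat_lit 21) (nat_lit 5) (nat_lit 22) (nat_lit 4) (nat_lit 380) (nat_lit 265) (nat_lit 135)) (XT.lf (nat_lit 0) (nat_lit 34341747652) (nat_lit 76) (nat_lit 7191306746) (nat_lit 152) (nat_lit 6634598749) (nat_lit 20) (nat_lit 5) (nat_lit 21) (nat_lit 5) (nat_lit 22) (nat_lit 4) (nat_lit 381) (nat_lit 265) (nat_lit 134))) (XT.nd (nat_lit 78) (nat_lit 152) (nat_lit 0) (XT.lf (nat_lit 0) (nat_lit 48895999839) (nat_lit 152) (nat_lit 135477302) (nat_lit 0) (nat_lit 351059973) (nat_lit 20) (nat_lit 5) (nat_lit 22) (nat_lit 4) (nat_lit 20) (nat_lit 4) (nat_lit 382) (nat_lit 265) (nat_lit 133)) (XT.lf (nat_lit 0) (nat_lit 5932308522) (nat_lit 152) (nat_lit 36531513040) (nat_lit 76) (nat_lit 8162349917) (nat_lit 18) (nat_lit 5) (nat_lit 20) (nat_lit 5) (nat_lit 19) (nat_lit 4) (nat_lit 383) (nat_lit 265) (nat_lit 132))))))) (XT.nd (nat_lit 1092)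 (nat_lit 304) (nat_lit 0) (XT.nd (nat_lit 546) (nat_lit 152) (nat_lit 0) (XT.nd (nat_lit 234) (nat_lit 76) (nat_lit 0) (XT.nd (nat_lit 78) (nat_lit 76) (nat_lit 0) (XT.lf (nat_lit 0) (nat_lit 12526529539) (nat_lit 152) (nat_lit 23173554544) (nat_lit 76) (nat_lit 16207110825) (nat_lit 18) (nat_lit 5) (nat_lit 20) (nat_lit 5) (nat_lit 19) (nat_lit 4) (nat_lit 384) (nat_lit 265) (nat_lit 131)) (XT.nd (nat_lit 78) (nat_lit 76) (nat_lit 0) (XT.lf (nat_lit 0) (nat_lit 19310040451) (nat_lit 152) (nat_lit 9430512992) (nat_lit 76) (nat_lit 24486353847) (nat_lit 18) (nat_lit 5) (nat_lit 20) (nat_lit 5) (nat_lit 19) (nat_lit 4) (nat_lit 385) (nat_lit 265) (nat_lit 130)) (XT.lf (nat_lit 0) (nat_lit 4803350771) (nat_lit 76) (nat_lit 21531590573) (nat_lit 152) (nat_lit 28250135247) (nat_lit 17) (nat_lit 5) (nat_lit 18) (nat_lit 5) (nat_lit 19) (nat_lit 4) (nat_lit 386) (nat_lit 265) (nat_lit 129)))) (XT.nd (nat_lit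 156) (nat_lit 76) (nat_lit 0) (XT.nd (nat_lit 78) (nat_lit 0) (nat_lit 0) (XT.lf (nat_lit 0) (nat_lit 19642496027) (nat_lit 76) (nat_lit 14015131559) (nat_lit 152) (nat_lit 22323754260) (nat_lit 17) (nat_lit 5) (nat_lit 18) (nat_lit 5) (nat_lit 19) (nat_lit 4) (nat_lit 387) (nat_lit 265) (nat_lit 128)) (XT.lf (nat_lit 0) (nat_lit 34912203319) (nat_lit 76) (nat_lit 6279838312) (nat_lit 152) (nat_lit 16227775177) (nat_lit 17) (nat_lit 5) (nat_lit 18) (nat_lit 5) (nat_lit 19) (nat_lit 4) (nat_lit 388) (nat_lit 265) (nat_lit 127))) (XT.nd (nat_lit 78) (nat_lit 76) (nat_lit 0) (XT.lf (nat_lit 0) (nat_lit 48960926211) (nat_lit 152) (nat_lit 8291982516) (nat_lit 0) (nat_lit 1648244858) (nat_lit 17) (nat_lit 5) (nat_lit 19) (nat_lit 4) (nat_lit 17) (nat_lit 4) (nat_lit 389) (nat_lit 265) (nat_lit 126)) (XT.lf (nat_lit 0) (nat_lit 6398865772) (nat_lit 76) (nat_lit 50680141381) (nat_lit 76) (nat_lit 3344441270)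 (nat_lit 16) (nat_lit 4) (nat_lit 17) (nat_lit 5) (nat_lit 17) (nat_lit 4) (nat_lit 390) (nat_lit 265) (nat_lit 125))))) (XT.nd (nat_lit 234) (nat_lit 76) (nat_lit 0) (XT.nd (nat_lit 78) (nat_lit 0) (nat_lit 0) (XT.lf (nat_lit 0) (nat_lit 3458928634) (nat_lit 152) (nat_lit 40336423290) (nat_lit 76) (nat_lit 18192756741) (nat_lit 15) (nat_lit 5) (nat_lit 17) (nat_lit 5) (nat_lit 16) (nat_lit 4) (nat_lit 391) (nat_lit 265) (nat_lit 124)) (XT.nd (nat_lit 78) (nat_lit 0) (nat_lit 0) (XT.lf (nat_lit 0) (nat_lit 10391854523) (nat_lit 152) (nat_lit 26284281122) (nat_lit 76) (nat_lit 26922801123) (nat_lit 15) (nat_lit 5) (nat_lit 17) (nat_lit 5) (nat_lit 16) (nat_lit 4) (nat_lit 392) (nat_lit 265) (nat_lit 123)) (XT.lf (nat_lit 0) (nat_lit 17525656388) (nat_lit 152) (nat_lit 11823728761) (nat_lit 76) (nat_lit 35908919566) (nat_lit 15) (nat_lit 5) (nat_lit 17) (nat_lit 5) (nat_lit 16) (nat_lit 4) (nat_lit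 393) (nat_lit 265) (nat_lit 122)))) (XT.nd (nat_lit 156) (nat_lit 0) (nat_lit 0) (XT.nd (nat_lit 78) (nat_lit 0) (nat_lit 0) (XT.lf (nat_lit 0) (nat_lit 3118726821) (nat_lit 76) (nat_lit 21777819937) (nat_lit 152) (nat_lit 42070216307) (nat_lit 14) (nat_lit 5) (nat_lit 15) (nat_lit 5) (nat_lit 16) (nat_lit 4) (nat_lit 394) (nat_lit 265) (nat_lit 121)) (XT.lf (nat_lit 0) (nat_lit 18739185181) (nat_lit 76) (nat_lit 13861950022) (nat_lit 152) (nat_lit 36121964374) (nat_lit 14) (nat_lit 5) (nat_lit 15) (nat_lit 5) (nat_lit 16) (nat_lit 4) (nat_lit 395) (nat_lit 265) (nat_lit 120))) (XT.nd (nat_lit 78) (nat_lit 0) (nat_lit 0) (XT.lf (nat_lit 0) (nat_lit 34815979876) (nat_lit 76) (nat_lit 5714255101) (nat_lit 152) (nat_lit 30002091503) (nat_lit 14) (nat_lit 5) (nat_lit 15) (nat_lit 5) (nat_lit 16) (nat_lit 4) (nat_lit 396) (nat_lit 265) (nat_lit 119)) (XT.lf (nat_lit 0) (nat_lit 48716463014) (nat_lit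 152) (nat_lit 21058554654) (nat_lit 0) (nat_lit 2620236328) (nat_lit 14) (nat_lit 5) (nat_lit 16) (nat_lit 4) (nat_lit 14) (nat_lit 4) (nat_lit 397) (nat_lit 265) (nat_lit 118)))))) (XT.nd (nat_lit 546) (nat_lit 76) (nat_lit 0) (XT.nd (nat_lit 234) (nat_lit 152) (nat_lit 0) (XT.nd (nat_lit 78) (nat_lit 76) (nat_lit 0) (XT.lf (nat_lit 0) (nat_lit 57198557525) (nat_lit 152) (nat_lit 6029315964) (nat_lit 0) (nat_lit 11084688878) (nat_lit 14) (nat_lit 5) (nat_lit 16) (nat_lit 4) (nat_lit 14) (nat_lit 4) (nat_lit 398) (nat_lit 265) (nat_lit 117)) (XT.nd (nat_lit 78) (nat_lit 0) (nat_lit 0) (XT.lf (nat_lit 0) (nat_lit 9627293903) (nat_lit 76) (nat_lit 56394250670) (nat_lit 76) (nat_lit 10263253906) (nat_lit 13) (nat_lit 4) (nat_lit 14) (nat_lit 5) (nat_lit 14) (nat_lit 4) (nat_lit 399) (nat_lit 265) (nat_lit 116)) (XT.lf (nat_lit 0) (nat_lit 25865939434) (nat_lit 76) (nat_lit 49298122186) (nat_lit 76)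 (nat_lit 3150496181) (nat_lit 13) (nat_lit 4) (nat_lit 14) (nat_lit 5) (nat_lit 14) (nat_lit 4) (nat_lit 400) (nat_lit 265) (nat_lit 115)))) (XT.nd (nat_lit 156) (nat_lit 76) (nat_lit 0) (XT.nd (nat_lit 78) (nat_lit 0) (nat_lit 0) (XT.lf (nat_lit 0) (nat_lit 4088235196) (nat_lit 152) (nat_lit 37864653449) (nat_lit 76) (nat_lit 38451296169) (nat_lit 12) (nat_lit 5) (nat_lit 14) (nat_lit 5) (nat_lit 13) (nat_lit 4) (nat_lit 401) (nat_lit 265) (nat_lit 114)) (XT.lf (nat_lit 0) (nat_lit 11475052080) (nat_lit 152) (nat_lit 22885089830) (nat_lit 76) (nat_lit 48195596802) (nat_lit 12) (nat_lit 5) (nat_lit 14) (nat_lit 5) (nat_lit 13) (nat_lit 4) (nat_lit 402) (nat_lit 265) (nat_lit 113))) (XT.nd (nat_lit 78) (nat_lit 76) (nat_lit 0) (XT.lf (nat_lit 0) (nat_lit 19077886497) (nat_lit 152) (nat_lit 7466554073) (nat_lit 76) (nat_lit 58227567453) (nat_lit 12) (nat_lit 5) (nat_lit 14) (nat_lit 5) (nat_lit 13)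 (nat_lit 4) (nat_lit 403) (nat_lit 265) (nat_lit 112)) (XT.lf (nat_lit 0) (nat_lit 8571690891) (nat_lit 76) (nat_lit 18414087147) (nat_lit 152) (nat_lit 60066679368) (nat_lit 11) (nat_lit 5) (nat_lit 12) (nat_lit 5) (nat_lit 13) (nat_lit 4) (nat_lit 404) (nat_lit 265) (nat_lit 111))))) (XT.nd (nat_lit 312) (nat_lit 76) (nat_lit 0) (XT.nd (nat_lit 156) (nat_lit 0) (nat_lit 0) (XT.nd (nat_lit 78) (nat_lit 0) (nat_lit 0) (XT.lf (nat_lit 0) (nat_lit 25234127947) (nat_lit 76) (nat_lit 9966813434) (nat_lit 152) (nat_lit 54198278960) (nat_lit 11) (nat_lit 5) (nat_lit 12) (nat_lit 5) (nat_lit 13) (nat_lit 4) (nat_lit 405) (nat_lit 265) (nat_lit 110)) (XT.lf (nat_lit 0) (nat_lit 42386717438) (nat_lit 76) (nat_lit 1270635873) (nat_lit 152) (nat_lit 48159190131) (nat_lit 11) (nat_lit 5) (nat_lit 12) (nat_lit 5) (nat_lit 13) (nat_lit 4) (nat_lit 406) (nat_lit 265) (nat_lit 109))) (XT.nd (nat_lit 78) (nat_lit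 0) (nat_lit 0) (XT.lf (nat_lit 0) (nat_lit 52436247435) (nat_lit 152) (nat_lit 34335936376) (nat_lit 0) (nat_lit 7532139786) (nat_lit 11) (nat_lit 5) (nat_lit 13) (nat_lit 4) (nat_lit 11) (nat_lit 4) (nat_lit 407) (nat_lit 265) (nat_lit 108)) (XT.lf (nat_lit 0) (nat_lit 61486140583) (nat_lit 152) (nat_lit 18811080628) (nat_lit 0) (nat_lit 16569288005) (nat_lit 11) (nat_lit 5) (nat_lit 13) (nat_lit 4) (nat_lit 11) (nat_lit 4) (nat_lit 408) (nat_lit 265) (nat_lit 107)))) (XT.nd (nat_lit 156) (nat_lit 0) (nat_lit 0) (XT.nd (nat_lit 78) (nat_lit 76) (nat_lit 0) (XT.lf (nat_lit 0) (nat_lit 70802726300) (nat_lit 152) (nat_lit 2829479223) (nat_lit 0) (nat_lit 25873500006) (nat_lit 11) (nat_lit 5) (nat_lit 13) (nat_lit 4) (nat_lit 11) (nat_lit 4) (nat_lit 409) (nat_lit 265) (nat_lit 106)) (XT.lf (nat_lit 0) (nat_lit 13893953420) (nat_lit 76) (nat_lit 66633749051) (nat_lit 76) (nat_lit 21692509439) (nat_lit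 10) (nat_lit 4) (nat_lit 11) (nat_lit 5) (nat_lit 11) (nat_lit 4) (nat_lit 410) (nat_lit 265) (nat_lit 105))) (XT.nd (nat_lit 78) (nat_lit 0) (nat_lit 0) (XT.lf (nat_lit 0) (nat_lit 31168438381) (nat_lit 76) (nat_lit 59399950125) (nat_lit 76) (nat_lit 14447047099) (nat_lit 10) (nat_lit 4) (nat_lit 11) (nat_lit 5) (nat_lit 11) (nat_lit 4) (nat_lit 411) (nat_lit 265) (nat_lit 104)) (XT.lf (nat_lit 0) (nat_lit 48952757683) (nat_lit 76) (nat_lit 51953060144) (nat_lit 76) (nat_lit 6988833414) (nat_lit 10) (nat_lit 4) (nat_lit 11) (nat_lit 5) (nat_lit 11) (nat_lit 4) (nat_lit 412) (nat_lit 265) (nat_lit 103))))))))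
noncomputable def xc118 : XT := (XT.nd (nat_lit 2184) (nat_lit 7752) (nat_lit 0) (XT.nd (nat_lit 1092) (nat_lit 6764) (nat_lit 0) (XT.nd (nat_lit 546) (nat_lit 1824) (nat_lit 0) (XT.nd (nat_lit 234) (nat_lit 456) (nat_lit 0) (XT.nd (nat_lit 78) (nat_lit 532) (nat_lit 0) (XT.lf (nat_lit 0) (nat_lit 1482575953) (nat_lit 0) (nat_lit 1482575953) (nat_lit 380) (nat_lit 334150876) (nat_lit 315) (nat_lit 5) (nat_lit 315) (nat_lit 3) (nat_lit 320) (nat_lit 3) (nat_lit 266) (nat_lit 266) (nat_lit 248)) (XT.nd (nat_lit 78) (nat_lit 0) (nat_lit 0) (XT.lf (nat_lit 0) (nat_lit 1602887585) (nat_lit 532) (nat_lit 540457122) (nat_lit 532) (nat_lit 4482841682) (nat_lit 308) (nat_lit 3) (nat_lit 315) (nat_lit 3) (nat_lit 315) (nat_lit 5) (nat_lit 267) (nat_lit 266) (nat_lit 247)) (XT.lf (nat_lit 76) (nat_lit 2644665962) (nat_lit 0) (nat_lit 1221023775) (nat_lit 532) (nat_lit 2790737839) (nat_lit 309) (nat_lit 5)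 (nat_lit 308) (nat_lit 3) (nat_lit 315) (nat_lit 5) (nat_lit 268) (nat_lit 266) (nat_lit 246)))) (XT.nd (nat_lit 156) (nat_lit 0) (nat_lit 0) (XT.nd (nat_lit 78) (nat_lit 456) (nat_lit 0) (XT.lf (nat_lit 76) (nat_lit 5891215702) (nat_lit 0) (nat_lit 224248494) (nat_lit 532) (nat_lit 574673840) (nat_lit 309) (nat_lit 5) (nat_lit 308) (nat_lit 3) (nat_lit 315) (nat_lit 5) (nat_lit 269) (nat_lit 266) (nat_lit 245)) (XT.lf (nat_lit 0) (nat_lit 1622224536) (nat_lit 532) (nat_lit 4237903593) (nat_lit 608) (nat_lit 865935744) (nat_lit 302) (nat_lit 5) (nat_lit 309) (nat_lit 5) (nat_lit 310) (nat_lit 5) (nat_lit 270) (nat_lit 266) (nat_lit 244))) (XT.nd (nat_lit 78) (nat_lit 0) (nat_lit 0) (XT.lf (nat_lit 0) (nat_lit 3801430951) (nat_lit 532) (nat_lit 928806197) (nat_lit 608) (nat_lit 2034944352) (nat_lit 302) (nat_lit 5) (nat_lit 309) (nat_lit 5) (nat_lit 310) (nat_lit 5) (nat_lit 271) (nat_lit 266) (nat_lit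 243)) (XT.lf (nat_lit 76) (nat_lit 2481161846) (nat_lit 0) (nat_lit 3508686386) (nat_lit 608) (nat_lit 817429049) (nat_lit 303) (nat_lit 5) (nat_lit 302) (nat_lit 5) (nat_lit 310) (nat_lit 5) (nat_lit 272) (nat_lit 266) (nat_lit 242))))) (XT.nd (nat_lit 234) (nat_lit 1216) (nat_lit 0) (XT.nd (nat_lit 78) (nat_lit 0) (nat_lit 0) (XT.lf (nat_lit 0) (nat_lit 1296547789) (nat_lit 608) (nat_lit 899417044) (nat_lit 684) (nat_lit 4656468495) (nat_lit 294) (nat_lit 5) (nat_lit 302) (nat_lit 5) (nat_lit 303) (nat_lit 5) (nat_lit 273) (nat_lit 266) (nat_lit 241)) (XT.nd (nat_lit 78) (nat_lit 0) (nat_lit 76) (XT.lf (nat_lit 76) (nat_lit 2626597605) (nat_lit 0) (nat_lit 779448442) (nat_lit 684) (nat_lit 3494308771) (nat_lit 295) (nat_lit 5) (nat_lit 294) (nat_lit 5) (nat_lit 303) (nat_lit 5) (nat_lit 274) (nat_lit 266) (nat_lit 240)) (XT.lf (nat_lit 0) (nat_lit 5519883800) (nat_lit 608) (nat_lit 728052687)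 (nat_lit 684) (nat_lit 703652150) (nat_lit 295) (nat_lit 5) (nat_lit 303) (nat_lit 5) (nat_lit 304) (nat_lit 5) (nat_lit 275) (nat_lit 266) (nat_lit 239)))) (XT.nd (nat_lit 156) (nat_lit 608) (nat_lit 0) (XT.nd (nat_lit 78) (nat_lit 0) (nat_lit 0) (XT.lf (nat_lit 0) (nat_lit 642162766) (nat_lit 684) (nat_lit 4085851653) (nat_lit 760) (nat_lit 2277358364) (nat_lit 286) (nat_lit 5) (nat_lit 295) (nat_lit 5) (nat_lit 296) (nat_lit 5) (nat_lit 276) (nat_lit 266) (nat_lit 238)) (XT.lf (nat_lit 0) (nat_lit 2685279810) (nat_lit 684) (nat_lit 431806220) (nat_lit 760) (nat_lit 3945282185) (nat_lit 286) (nat_lit 5) (nat_lit 295) (nat_lit 5) (nat_lit 296) (nat_lit 5) (nat_lit 277) (nat_lit 266) (nat_lit 237))) (XT.nd (nat_lit 78) (nat_lit 608) (nat_lit 0) (XT.lf (nat_lit 76) (nat_lit 3350191413) (nat_lit 0) (nat_lit 1402173490) (nat_lit 760) (nat_lit 2369922835) (nat_lit 287) (nat_lit 5) (nat_lit 286) (nat_lit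 5) (nat_lit 296) (nat_lit 5) (nat_lit 278) (nat_lit 266) (nat_lit 236)) (XT.lf (nat_lit 0) (nat_lit 18526147) (nat_lit 684) (nat_lit 6803272064) (nat_lit 760) (nat_lit 364088279) (nat_lit 278) (nat_lit 5) (nat_lit 287) (nat_lit 5) (nat_lit 288) (nat_lit 5) (nat_lit 279) (nat_lit 266) (nat_lit 235)))))) (XT.nd (nat_lit 546) (nat_lit 4104) (nat_lit 0) (XT.nd (nat_lit 234) (nat_lit 1824) (nat_lit 0) (XT.nd (nat_lit 78) (nat_lit 760) (nat_lit 0) (XT.lf (nat_lit 0) (nat_lit 1654079192) (nat_lit 760) (nat_lit 3330536756) (nat_lit 76) (nat_lit 2266811852) (nat_lit 277) (nat_lit 5) (nat_lit 287) (nat_lit 5) (nat_lit 278) (nat_lit 5) (nat_lit 280) (nat_lit 266) (nat_lit 234)) (XT.nd (nat_lit 78) (nat_lit 0) (nat_lit 0) (XT.lf (nat_lit 0) (nat_lit 580712779) (nat_lit 760) (nat_lit 3085311879) (nat_lit 836) (nat_lit 3654669954) (nat_lit 267) (nat_lit 5) (nat_lit 277) (nat_lit 5) (nat_lit 278) (nat_lit 5) (nat_lit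 281) (nat_lit 266) (nat_lit 233)) (XT.lf (nat_lit 0) (nat_lit 4629641383) (nat_lit 760) (nat_lit 1078720988) (nat_lit 836) (nat_lit 1684657527) (nat_lit 267) (nat_lit 5) (nat_lit 277) (nat_lit 5) (nat_lit 278) (nat_lit 5) (nat_lit 282) (nat_lit 266) (nat_lit 232)))) (XT.nd (nat_lit 156) (nat_lit 912) (nat_lit 0) (XT.nd (nat_lit 78) (nat_lit 0) (nat_lit 0) (XT.lf (nat_lit 0) (nat_lit 297656710) (nat_lit 912) (nat_lit 6171924983) (nat_lit 76) (nat_lit 999113035) (nat_lit 255) (nat_lit 5) (nat_lit 267) (nat_lit 5) (nat_lit 256) (nat_lit 5) (nat_lit 283) (nat_lit 266) (nat_lit 231)) (XT.lf (nat_lit 0) (nat_lit 2283501817) (nat_lit 912) (nat_lit 2087493723) (nat_lit 76) (nat_lit 3175880799) (nat_lit 255) (nat_lit 5) (nat_lit 267) (nat_lit 5) (nat_lit 256) (nat_lit 5) (nat_lit 284) (nat_lit 266) (nat_lit 230))) (XT.nd (nat_lit 78) (nat_lit 0) (nat_lit 0) (XT.lf (nat_lit 0) (nat_lit 2112713039) (nat_lit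 912) (nat_lit 2177352874) (nat_lit 988) (nat_lit 3338575574) (nat_lit 243) (nat_lit 5) (nat_lit 255) (nat_lit 5) (nat_lit 256) (nat_lit 5) (nat_lit 285) (nat_lit 266) (nat_lit 229)) (XT.lf (nat_lit 0) (nat_lit 6321105718) (nat_lit 988) (nat_lit 1280928236) (nat_lit 76) (nat_lit 111967564) (nat_lit 243) (nat_lit 5) (nat_lit 256) (nat_lit 5) (nat_lit 244) (nat_lit 5) (nat_lit 286) (nat_lit 266) (nat_lit 228))))) (XT.nd (nat_lit 234) (nat_lit 1976) (nat_lit 0) (XT.nd (nat_lit 78) (nat_lit 1064) (nat_lit 0) (XT.lf (nat_lit 0) (nat_lit 594079835) (nat_lit 1064) (nat_lit 4736446707) (nat_lit 76) (nat_lit 2471440280) (nat_lit 229) (nat_lit 5) (nat_lit 243) (nat_lit 5) (nat_lit 230) (nat_lit 5) (nat_lit 287) (nat_lit 266) (nat_lit 227)) (XT.nd (nat_lit 78) (nat_lit 1064) (nat_lit 0) (XT.lf (nat_lit 0) (nat_lit 2570185420) (nat_lit 1064) (nat_lit 386163146) (nat_lit 76) (nat_lit 4937147617) (nat_lit 229)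 (nat_lit 5) (nat_lit 243) (nat_lit 5) (nat_lit 230) (nat_lit 5) (nat_lit 288) (nat_lit 266) (nat_lit 226)) (XT.lf (nat_lit 0) (nat_lit 4127916644) (nat_lit 1064) (nat_lit 463409023) (nat_lit 1140) (nat_lit 3396935668) (nat_lit 215) (nat_lit 5) (nat_lit 229) (nat_lit 5) (nat_lit 230) (nat_lit 5) (nat_lit 289) (nat_lit 266) (nat_lit 225)))) (XT.nd (nat_lit 156) (nat_lit 760) (nat_lit 0) (XT.nd (nat_lit 78) (nat_lit 76) (nat_lit 0) (XT.lf (nat_lit 0) (nat_lit 643368102) (nat_lit 1140) (nat_lit 6007332623) (nat_lit 1216) (nat_lit 1435901331) (nat_lit 200) (nat_lit 5) (nat_lit 215) (nat_lit 5) (nat_lit 216) (nat_lit 5) (nat_lit 290) (nat_lit 266) (nat_lit 224)) (XT.lf (nat_lit 0) (nat_lit 564280324) (nat_lit 1216) (nat_lit 2885109033) (nat_lit 76) (nat_lit 4738641044) (nat_lit 199) (nat_lit 5) (nat_lit 215) (nat_lit 5) (nat_lit 200) (nat_lit 5) (nat_lit 291) (nat_lit 266) (nat_lit 223))) (XT.nd (nat_lit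 78) (nat_lit 0) (nat_lit 0) (XT.lf (nat_lit 0) (nat_lit 1782635746) (nat_lit 760) (nat_lit 779384409) (nat_lit 836) (nat_lit 5731118038) (nat_lit 189) (nat_lit 5) (nat_lit 199) (nat_lit 5) (nat_lit 200) (nat_lit 5) (nat_lit 292) (nat_lit 266) (nat_lit 222)) (XT.lf (nat_lit 0) (nat_lit 4618382683) (nat_lit 836) (nat_lit 1818996405) (nat_lit 76) (nat_lit 1964113288) (nat_lit 189) (nat_lit 5) (nat_lit 200) (nat_lit 5) (nat_lit 190) (nat_lit 5) (nat_lit 293) (nat_lit 266) (nat_lit 221))))))) (XT.nd (nat_lit 1092) (nat_lit 3496) (nat_lit 0) (XT.nd (nat_lit 546) (nat_lit 1900) (nat_lit 0) (XT.nd (nat_lit 234) (nat_lit 1140) (nat_lit 0) (XT.nd (nat_lit 78) (nat_lit 608) (nat_lit 0) (XT.lf (nat_lit 0) (nat_lit 3017038861) (nat_lit 608) (nat_lit 3707886717) (nat_lit 684) (nat_lit 1788569222) (nat_lit 181) (nat_lit 5) (nat_lit 189) (nat_lit 5) (nat_lit 190) (nat_lit 5) (nat_lit 294) (nat_lit 266) (nat_lit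 220)) (XT.nd (nat_lit 78) (nat_lit 532) (nat_lit 0) (XT.lf (nat_lit 0) (nat_lit 231377911) (nat_lit 684) (nat_lit 643508999) (nat_lit 76) (nat_lit 7754820317) (nat_lit 180) (nat_lit 5) (nat_lit 189) (nat_lit 5) (nat_lit 181) (nat_lit 5) (nat_lit 295) (nat_lit 266) (nat_lit 219)) (XT.lf (nat_lit 0) (nat_lit 2291871181) (nat_lit 608) (nat_lit 4393083013) (nat_lit 76) (nat_lit 2063491552) (nat_lit 173) (nat_lit 5) (nat_lit 181) (nat_lit 5) (nat_lit 174) (nat_lit 5) (nat_lit 296) (nat_lit 266) (nat_lit 218)))) (XT.nd (nat_lit 156) (nat_lit 608) (nat_lit 0) (XT.nd (nat_lit 78) (nat_lit 0) (nat_lit 0) (XT.lf (nat_lit 0) (nat_lit 602405970) (nat_lit 532) (nat_lit 3787291230) (nat_lit 608) (nat_lit 4481830153) (nat_lit 166) (nat_lit 5) (nat_lit 173) (nat_lit 5) (nat_lit 174) (nat_lit 5) (nat_lit 297) (nat_lit 266) (nat_lit 217)) (XT.lf (nat_lit 0) (nat_lit 5790815840) (nat_lit 532) (nat_lit 759379575) (nat_lit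 608) (nat_lit 2448158988) (nat_lit 166) (nat_lit 5) (nat_lit 173) (nat_lit 5) (nat_lit 174) (nat_lit 5) (nat_lit 298) (nat_lit 266) (nat_lit 216))) (XT.nd (nat_lit 78) (nat_lit 76) (nat_lit 0) (XT.lf (nat_lit 0) (nat_lit 1974797249) (nat_lit 532) (nat_lit 6799027459) (nat_lit 608) (nat_lit 355255874) (nat_lit 159) (nat_lit 5) (nat_lit 166) (nat_lit 5) (nat_lit 167) (nat_lit 5) (nat_lit 299) (nat_lit 266) (nat_lit 215)) (XT.lf (nat_lit 0) (nat_lit 1762536831) (nat_lit 608) (nat_lit 1956935344) (nat_lit 76) (nat_lit 5543861391) (nat_lit 158) (nat_lit 5) (nat_lit 166) (nat_lit 5) (nat_lit 159) (nat_lit 5) (nat_lit 300) (nat_lit 266) (nat_lit 214))))) (XT.nd (nat_lit 234) (nat_lit 912) (nat_lit 0) (XT.nd (nat_lit 78) (nat_lit 456) (nat_lit 0) (XT.lf (nat_lit 0) (nat_lit 3413417115) (nat_lit 532) (nat_lit 514376315) (nat_lit 608) (nat_lit 5474023160) (nat_lit 151) (nat_lit 5) (nat_lit 158) (nat_lit 5)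 (nat_lit 159) (nat_lit 5) (nat_lit 301) (nat_lit 266) (nat_lit 213)) (XT.nd (nat_lit 78) (nat_lit 456) (nat_lit 0) (XT.lf (nat_lit 0) (nat_lit 6163745987) (nat_lit 608) (nat_lit 632629931) (nat_lit 76) (nat_lit 2747944958) (nat_lit 151) (nat_lit 5) (nat_lit 159) (nat_lit 5) (nat_lit 152) (nat_lit 5) (nat_lit 302) (nat_lit 266) (nat_lit 212)) (XT.lf (nat_lit 0) (nat_lit 4929495290) (nat_lit 456) (nat_lit 3549946659) (nat_lit 532) (nat_lit 1211316181) (nat_lit 145) (nat_lit 5) (nat_lit 151) (nat_lit 5) (nat_lit 152) (nat_lit 5) (nat_lit 303) (nat_lit 266) (nat_lit 211)))) (XT.nd (nat_lit 156) (nat_lit 380) (nat_lit 0) (XT.nd (nat_lit 78) (nat_lit 0) (nat_lit 0) (XT.lf (nat_lit 0) (nat_lit 789776502) (nat_lit 456) (nat_lit 187815392) (nat_lit 532) (nat_lit 8864501175) (nat_lit 138) (nat_lit 5) (nat_lit 144) (nat_lit 5) (nat_lit 145) (nat_lit 5) (nat_lit 304) (nat_lit 266) (nat_lit 210)) (XT.lf (nat_lit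 0) (nat_lit 3249002373) (nat_lit 532) (nat_lit 3482009643) (nat_lit 76) (nat_lit 3265395377) (nat_lit 138) (nat_lit 5) (nat_lit 145) (nat_lit 5) (nat_lit 139) (nat_lit 5) (nat_lit 305) (nat_lit 266) (nat_lit 209))) (XT.nd (nat_lit 78) (nat_lit 0) (nat_lit 0) (XT.lf (nat_lit 0) (nat_lit 2252372695) (nat_lit 380) (nat_lit 3321967905) (nat_lit 456) (nat_lit 4581470557) (nat_lit 133) (nat_lit 5) (nat_lit 138) (nat_lit 5) (nat_lit 139) (nat_lit 5) (nat_lit 306) (nat_lit 266) (nat_lit 208)) (XT.lf (nat_lit 0) (nat_lit 7969639338) (nat_lit 456) (nat_lit 2136700836) (nat_lit 76) (nat_lit 213683442) (nat_lit 133) (nat_lit 5) (nat_lit 139) (nat_lit 5) (nat_lit 134) (nat_lit 5) (nat_lit 307) (nat_lit 266) (nat_lit 207)))))) (XT.nd (nat_lit 546) (nat_lit 1748) (nat_lit 0) (XT.nd (nat_lit 234) (nat_lit 836) (nat_lit 0) (XT.nd (nat_lit 78) (nat_lit 456) (nat_lit 0) (XT.lf (nat_lit 0) (nat_lit 3799875386) (nat_lit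 456) (nat_lit 6670291224) (nat_lit 532) (nat_lit 18026394) (nat_lit 127) (nat_lit 5) (nat_lit 133) (nat_lit 5) (nat_lit 134) (nat_lit 5) (nat_lit 308) (nat_lit 266) (nat_lit 206)) (XT.nd (nat_lit 78) (nat_lit 380) (nat_lit 0) (XT.lf (nat_lit 0) (nat_lit 2323764383) (nat_lit 532) (nat_lit 770272870) (nat_lit 76) (nat_lit 7567132813) (nat_lit 126) (nat_lit 5) (nat_lit 133) (nat_lit 5) (nat_lit 127) (nat_lit 5) (nat_lit 309) (nat_lit 266) (nat_lit 205)) (XT.lf (nat_lit 0) (nat_lit 4758566978) (nat_lit 456) (nat_lit 5458122160) (nat_lit 76) (nat_lit 621977295) (nat_lit 121) (nat_lit 5) (nat_lit 127) (nat_lit 5) (nat_lit 122) (nat_lit 5) (nat_lit 310) (nat_lit 266) (nat_lit 204)))) (XT.nd (nat_lit 156) (nat_lit 456) (nat_lit 0) (XT.nd (nat_lit 78) (nat_lit 0) (nat_lit 0) (XT.lf (nat_lit 0) (nat_lit 648394638) (nat_lit 380) (nat_lit 6628496267) (nat_lit 456) (nat_lit 3744310583) (nat_lit 116) (nat_lit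 5) (nat_lit 121) (nat_lit 5) (nat_lit 122) (nat_lit 5) (nat_lit 311) (nat_lit 266) (nat_lit 203)) (XT.lf (nat_lit 0) (nat_lit 7006455897) (nat_lit 380) (nat_lit 2885759100) (nat_lit 456) (nat_lit 1316381381) (nat_lit 116) (nat_lit 5) (nat_lit 121) (nat_lit 5) (nat_lit 122) (nat_lit 5) (nat_lit 312) (nat_lit 266) (nat_lit 202))) (XT.nd (nat_lit 78) (nat_lit 0) (nat_lit 0) (XT.lf (nat_lit 0) (nat_lit 1158358884) (nat_lit 456) (nat_lit 9270120306) (nat_lit 76) (nat_lit 972905558) (nat_lit 110) (nat_lit 5) (nat_lit 116) (nat_lit 5) (nat_lit 111) (nat_lit 5) (nat_lit 313) (nat_lit 266) (nat_lit 201)) (XT.lf (nat_lit 0) (nat_lit 3719730596) (nat_lit 456) (nat_lit 2943332013) (nat_lit 76) (nat_lit 4935362720) (nat_lit 110) (nat_lit 5) (nat_lit 116) (nat_lit 5) (nat_lit 111) (nat_lit 5) (nat_lit 314) (nat_lit 266) (nat_lit 200))))) (XT.nd (nat_lit 312) (nat_lit 988) (nat_lit 0) (XT.nd (nat_lit 156) (nat_lit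 380) (nat_lit 0) (XT.nd (nat_lit 78) (nat_lit 0) (nat_lit 0) (XT.lf (nat_lit 0) (nat_lit 3601366594) (nat_lit 380) (nat_lit 2759566098) (nat_lit 456) (nat_lit 5440379010) (nat_lit 105) (nat_lit 5) (nat_lit 110) (nat_lit 5) (nat_lit 111) (nat_lit 5) (nat_lit 315) (nat_lit 266) (nat_lit 199)) (XT.lf (nat_lit 0) (nat_lit 9092297075) (nat_lit 456) (nat_lit 1661677587) (nat_lit 76) (nat_lit 1256005765) (nat_lit 105) (nat_lit 5) (nat_lit 111) (nat_lit 5) (nat_lit 106) (nat_lit 5) (nat_lit 316) (nat_lit 266) (nat_lit 198))) (XT.nd (nat_lit 78) (nat_lit 76) (nat_lit 0) (XT.lf (nat_lit 0) (nat_lit 5103636891) (nat_lit 304) (nat_lit 6848044515) (nat_lit 380) (nat_lit 271868298) (nat_lit 101) (nat_lit 5) (nat_lit 105) (nat_lit 5) (nat_lit 106) (nat_lit 5) (nat_lit 317) (nat_lit 266) (nat_lit 197)) (XT.lf (nat_lit 0) (nat_lit 2392263087) (nat_lit 380) (nat_lit 402382662) (nat_lit 76) (nat_lit 9648589922) (nat_lit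 100) (nat_lit 5) (nat_lit 105) (nat_lit 5) (nat_lit 101) (nat_lit 5) (nat_lit 318) (nat_lit 266) (nat_lit 196)))) (XT.nd (nat_lit 156) (nat_lit 380) (nat_lit 0) (XT.nd (nat_lit 78) (nat_lit 304) (nat_lit 0) (XT.lf (nat_lit 0) (nat_lit 5178884622) (nat_lit 380) (nat_lit 6079797212) (nat_lit 76) (nat_lit 1409329635) (nat_lit 96) (nat_lit 5) (nat_lit 101) (nat_lit 5) (nat_lit 97) (nat_lit 5) (nat_lit 319) (nat_lit 266) (nat_lit 195)) (XT.lf (nat_lit 0) (nat_lit 845401865) (nat_lit 304) (nat_lit 7214709673) (nat_lit 380) (nat_lit 4839109114) (nat_lit 92) (nat_lit 5) (nat_lit 96) (nat_lit 5) (nat_lit 97) (nat_lit 5) (nat_lit 320) (nat_lit 266) (nat_lit 194))) (XT.nd (nat_lit 78) (nat_lit 380) (nat_lit 0) (XT.lf (nat_lit 0) (nat_lit 8062632474) (nat_lit 304) (nat_lit 2998097401) (nat_lit 380) (nat_lit 2075667316) (nat_lit 92) (nat_lit 5) (nat_lit 96) (nat_lit 5) (nat_lit 97) (nat_lit 5) (nat_lit 321)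 (nat_lit 266) (nat_lit 193)) (XT.lf (nat_lit 0) (nat_lit 761104831) (nat_lit 380) (nat_lit 11284105717) (nat_lit 76) (nat_lit 1335110844) (nat_lit 87) (nat_lit 5) (nat_lit 92) (nat_lit 5) (nat_lit 88) (nat_lit 5) (nat_lit 322) (nat_lit 266) (nat_lit 192))))))))
noncomputable def xc119 : XT := (XT.nd (nat_lit 2184) (nat_lit 1672) (nat_lit 0) (XT.nd (nat_lit 1092) (nat_lit 1444) (nat_lit 0) (XT.nd (nat_lit 546) (nat_lit 1064) (nat_lit 0) (XT.nd (nat_lit 234) (nat_lit 608) (nat_lit 0) (XT.nd (nat_lit 78) (nat_lit 228) (nat_lit 0) (XT.lf (nat_lit 0) (nat_lit 3695104537) (nat_lit 380) (nat_lit 4135557072) (nat_lit 76) (nat_lit 5798687925) (nat_lit 87) (nat_lit 5) (nat_lit 92) (nat_lit 5) (nat_lit 88) (nat_lit 5) (nat_lit 323) (nat_lit 266) (nat_lit 191)) (XT.nd (nat_lit 78) (nat_lit 0) (nat_lit 0) (XT.lf (nat_lit 0) (nat_lit 3251982707) (nat_lit 228) (nat_lit 3469621733) (nat_lit 304) (nat_lit 7164127194)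 (nat_lit 84) (nat_lit 5) (nat_lit 87) (nat_lit 5) (nat_lit 88) (nat_lit 5) (nat_lit 324) (nat_lit 266) (nat_lit 190)) (XT.lf (nat_lit 0) (nat_lit 9864412993) (nat_lit 304) (nat_lit 3252101523) (nat_lit 76) (nat_lit 1032542282) (nat_lit 84) (nat_lit 5) (nat_lit 88) (nat_lit 5) (nat_lit 85) (nat_lit 5) (nat_lit 325) (nat_lit 266) (nat_lit 189)))) (XT.nd (nat_lit 156) (nat_lit 228) (nat_lit 0) (XT.nd (nat_lit 78) (nat_lit 76) (nat_lit 0) (XT.lf (nat_lit 0) (nat_lit 4363704157) (nat_lit 304) (nat_lit 8788385077) (nat_lit 380) (nat_lit 1266691495) (nat_lit 80) (nat_lit 5) (nat_lit 84) (nat_lit 5) (nat_lit 85) (nat_lit 5) (nat_lit 326) (nat_lit 266) (nat_lit 188)) (XT.lf (nat_lit 0) (nat_lit 1813428331) (nat_lit 380) (nat_lit 2477233514) (nat_lit 76) (nat_lit 10405191891) (nat_lit 79) (nat_lit 5) (nat_lit 84) (nat_lit 5) (nat_lit 80) (nat_lit 5) (nat_lit 327) (nat_lit 266) (nat_lit 187))) (XT.nd (nat_lit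 78) (nat_lit 0) (nat_lit 0) (XT.lf (nat_lit 0) (nat_lit 4991195867) (nat_lit 304) (nat_lit 9600553221) (nat_lit 76) (nat_lit 388207614) (nat_lit 76) (nat_lit 5) (nat_lit 80) (nat_lit 5) (nat_lit 77) (nat_lit 5) (nat_lit 328) (nat_lit 266) (nat_lit 186)) (XT.lf (nat_lit 0) (nat_lit 8307443033) (nat_lit 304) (nat_lit 1829436078) (nat_lit 76) (nat_lit 5134423920) (nat_lit 76) (nat_lit 5) (nat_lit 80) (nat_lit 5) (nat_lit 77) (nat_lit 5) (nat_lit 329) (nat_lit 266) (nat_lit 185))))) (XT.nd (nat_lit 234) (nat_lit 532) (nat_lit 0) (XT.nd (nat_lit 78) (nat_lit 304) (nat_lit 0) (XT.lf (nat_lit 0) (nat_lit 6260677363) (nat_lit 228) (nat_lit 5498800086) (nat_lit 304) (nat_lit 3810837552) (nat_lit 73) (nat_lit 5) (nat_lit 76) (nat_lit 5) (nat_lit 77) (nat_lit 5) (nat_lit 330) (nat_lit 266) (nat_lit 184)) (XT.nd (nat_lit 78) (nat_lit 304) (nat_lit 0) (XT.lf (nat_lit 0) (nat_lit 14595046211) (nat_lit 228) (nat_lit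 714968790) (nat_lit 304) (nat_lit 568447896) (nat_lit 73) (nat_lit 5) (nat_lit 76) (nat_lit 5) (nat_lit 77) (nat_lit 5) (nat_lit 331) (nat_lit 266) (nat_lit 183)) (XT.lf (nat_lit 0) (nat_lit 2803219530) (nat_lit 304) (nat_lit 9175705152) (nat_lit 76) (nat_lit 4213561955) (nat_lit 69) (nat_lit 5) (nat_lit 73) (nat_lit 5) (nat_lit 70) (nat_lit 5) (nat_lit 332) (nat_lit 266) (nat_lit 182)))) (XT.nd (nat_lit 156) (nat_lit 304) (nat_lit 0) (XT.nd (nat_lit 78) (nat_lit 228) (nat_lit 0) (XT.lf (nat_lit 0) (nat_lit 6261911012) (nat_lit 304) (nat_lit 971688679) (nat_lit 76) (nat_lit 9282256232) (nat_lit 69) (nat_lit 5) (nat_lit 73) (nat_lit 5) (nat_lit 70) (nat_lit 5) (nat_lit 333) (nat_lit 266) (nat_lit 181)) (XT.lf (nat_lit 0) (nat_lit 7592027779) (nat_lit 228) (nat_lit 2283112793) (nat_lit 304) (nat_lit 6972274682) (nat_lit 66) (nat_lit 5) (nat_lit 69) (nat_lit 5) (nat_lit 70) (nat_lit 5) (nat_lit 334)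 (nat_lit 266) (nat_lit 180))) (XT.nd (nat_lit 78) (nat_lit 304) (nat_lit 0) (XT.lf (nat_lit 0) (nat_lit 13611741440) (nat_lit 304) (nat_lit 817997000) (nat_lit 76) (nat_lit 2758745625) (nat_lit 66) (nat_lit 5) (nat_lit 70) (nat_lit 5) (nat_lit 67) (nat_lit 5) (nat_lit 335) (nat_lit 266) (nat_lit 179)) (XT.lf (nat_lit 0) (nat_lit 835216) (nat_lit 304) (nat_lit 9565768067) (nat_lit 76) (nat_lit 7970856837) (nat_lit 62) (nat_lit 5) (nat_lit 66) (nat_lit 5) (nat_lit 63) (nat_lit 5) (nat_lit 336) (nat_lit 266) (nat_lit 178)))))) (XT.nd (nat_lit 546) (nat_lit 760) (nat_lit 0) (XT.nd (nat_lit 234) (nat_lit 456) (nat_lit 0) (XT.nd (nat_lit 78) (nat_lit 228) (nat_lit 0) (XT.lf (nat_lit 0) (nat_lit 3600912537) (nat_lit 304) (nat_lit 924182434) (nat_lit 76) (nat_lit 13371147172) (nat_lit 62) (nat_lit 5) (nat_lit 66) (nat_lit 5) (nat_lit 63) (nat_lit 5) (nat_lit 337) (nat_lit 266) (nat_lit 177)) (XT.nd (nat_lit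 78) (nat_lit 0) (nat_lit 0) (XT.lf (nat_lit 0) (nat_lit 7373282805) (nat_lit 304) (nat_lit 10169289008) (nat_lit 76) (nat_lit 721297694) (nat_lit 59) (nat_lit 5) (nat_lit 63) (nat_lit 5) (nat_lit 60) (nat_lit 5) (nat_lit 338) (nat_lit 266) (nat_lit 176)) (XT.lf (nat_lit 0) (nat_lit 11292562560) (nat_lit 304) (nat_lit 1317354922) (nat_lit 76) (nat_lit 6031606351) (nat_lit 59) (nat_lit 5) (nat_lit 63) (nat_lit 5) (nat_lit 60) (nat_lit 5) (nat_lit 339) (nat_lit 266) (nat_lit 175)))) (XT.nd (nat_lit 156) (nat_lit 228) (nat_lit 0) (XT.nd (nat_lit 78) (nat_lit 76) (nat_lit 0) (XT.lf (nat_lit 0) (nat_lit 7922634339) (nat_lit 152) (nat_lit 7463050980) (nat_lit 228) (nat_lit 3643144523) (nat_lit 57) (nat_lit 5) (nat_lit 59) (nat_lit 5) (nat_lit 60) (nat_lit 5) (nat_lit 340) (nat_lit 266) (nat_lit 174)) (XT.lf (nat_lit 0) (nat_lit 164066251) (nat_lit 228) (nat_lit 1994522195) (nat_lit 76) (nat_lit 17269317512)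 (nat_lit 56) (nat_lit 5) (nat_lit 59) (nat_lit 5) (nat_lit 57) (nat_lit 5) (nat_lit 341) (nat_lit 266) (nat_lit 173))) (XT.nd (nat_lit 78) (nat_lit 0) (nat_lit 0) (XT.lf (nat_lit 0) (nat_lit 4097542757) (nat_lit 304) (nat_lit 12400104589) (nat_lit 76) (nat_lit 3337675844) (nat_lit 53) (nat_lit 5) (nat_lit 57) (nat_lit 5) (nat_lit 54) (nat_lit 5) (nat_lit 342) (nat_lit 266) (nat_lit 172)) (XT.lf (nat_lit 0) (nat_lit 8171638779) (nat_lit 304) (nat_lit 3118603407) (nat_lit 76) (nat_lit 8964051174) (nat_lit 53) (nat_lit 5) (nat_lit 57) (nat_lit 5) (nat_lit 54) (nat_lit 5) (nat_lit 343) (nat_lit 266) (nat_lit 171))))) (XT.nd (nat_lit 234) (nat_lit 380) (nat_lit 0) (XT.nd (nat_lit 78) (nat_lit 228) (nat_lit 0) (XT.lf (nat_lit 0) (nat_lit 6538435619) (nat_lit 152) (nat_lit 5873832612) (nat_lit 228) (nat_lit 8272243707) (nat_lit 51) (nat_lit 5) (nat_lit 53) (nat_lit 5) (nat_lit 54) (nat_lit 5) (nat_lit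 344) (nat_lit 266) (nat_lit 170)) (XT.nd (nat_lit 78) (nat_lit 228) (nat_lit 0) (XT.lf (nat_lit 0) (nat_lit 16518917486) (nat_lit 152) (nat_lit 274399726) (nat_lit 228) (nat_lit 4333932210) (nat_lit 51) (nat_lit 5) (nat_lit 53) (nat_lit 5) (nat_lit 54) (nat_lit 5) (nat_lit 345) (nat_lit 266) (nat_lit 169)) (XT.lf (nat_lit 0) (nat_lit 5235152331) (nat_lit 228) (nat_lit 16155901555) (nat_lit 304) (nat_lit 189665580) (nat_lit 48) (nat_lit 5) (nat_lit 51) (nat_lit 5) (nat_lit 52) (nat_lit 5) (nat_lit 346) (nat_lit 266) (nat_lit 168)))) (XT.nd (nat_lit 156) (nat_lit 152) (nat_lit 0) (XT.nd (nat_lit 78) (nat_lit 152) (nat_lit 0) (XT.lf (nat_lit 0) (nat_lit 4031232665) (nat_lit 304) (nat_lit 6650194340) (nat_lit 76) (nat_lit 11364241044) (nat_lit 47) (nat_lit 5) (nat_lit 51) (nat_lit 5) (nat_lit 48) (nat_lit 5) (nat_lit 347) (nat_lit 266) (nat_lit 167)) (XT.lf (nat_lit 0) (nat_lit 3370992987) (nat_lit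 152) (nat_lit 5019061222) (nat_lit 228) (nat_lit 14134008726) (nat_lit 45) (nat_lit 5) (nat_lit 47) (nat_lit 5) (nat_lit 48) (nat_lit 5) (nat_lit 348) (nat_lit 266) (nat_lit 166))) (XT.nd (nat_lit 78) (nat_lit 152) (nat_lit 0) (XT.lf (nat_lit 0) (nat_lit 12938097071) (nat_lit 228) (nat_lit 9223211214) (nat_lit 76) (nat_lit 853754900) (nat_lit 45) (nat_lit 5) (nat_lit 48) (nat_lit 5) (nat_lit 46) (nat_lit 5) (nat_lit 349) (nat_lit 266) (nat_lit 165)) (XT.lf (nat_lit 0) (nat_lit 945065083) (nat_lit 152) (nat_lit 16719615827) (nat_lit 228) (nat_lit 5854856550) (nat_lit 43) (nat_lit 5) (nat_lit 45) (nat_lit 5) (nat_lit 46) (nat_lit 5) (nat_lit 350) (nat_lit 266) (nat_lit 164))))))) (XT.nd (nat_lit 1092) (nat_lit 760) (nat_lit 0) (XT.nd (nat_lit 546) (nat_lit 304) (nat_lit 0) (XT.nd (nat_lit 234) (nat_lit 380) (nat_lit 0) (XT.nd (nat_lit 78) (nat_lit 228) (nat_lit 0) (XT.lf (nat_lit 0) (nat_lit 11579507037)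 (nat_lit 152) (nat_lit 11030230164) (nat_lit 228) (nat_lit 1427115317) (nat_lit 43) (nat_lit 5) (nat_lit 45) (nat_lit 5) (nat_lit 46) (nat_lit 5) (nat_lit 351) (nat_lit 266) (nat_lit 163)) (XT.nd (nat_lit 78) (nat_lit 152) (nat_lit 0) (XT.lf (nat_lit 0) (nat_lit 3056166430) (nat_lit 228) (nat_lit 2094288620) (nat_lit 76) (nat_lit 19418819171) (nat_lit 42) (nat_lit 5) (nat_lit 45) (nat_lit 5) (nat_lit 43) (nat_lit 5) (nat_lit 352) (nat_lit 266) (nat_lit 162)) (XT.lf (nat_lit 0) (nat_lit 7722870444) (nat_lit 228) (nat_lit 16415972119) (nat_lit 76) (nat_lit 976080120) (nat_lit 40) (nat_lit 5) (nat_lit 43) (nat_lit 5) (nat_lit 41) (nat_lit 5) (nat_lit 353) (nat_lit 266) (nat_lit 161)))) (XT.nd (nat_lit 156) (nat_lit 228) (nat_lit 0) (XT.nd (nat_lit 78) (nat_lit 152) (nat_lit 0) (XT.lf (nat_lit 0) (nat_lit 12586349159) (nat_lit 228) (nat_lit 5895359382) (nat_lit 76) (nat_lit 7193534897) (nat_lit 40)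 (nat_lit 5) (nat_lit 43) (nat_lit 5) (nat_lit 41) (nat_lit 5) (nat_lit 354) (nat_lit 266) (nat_lit 160)) (XT.lf (nat_lit 0) (nat_lit 5012700169) (nat_lit 152) (nat_lit 12616092330) (nat_lit 228) (nat_lit 8622595375) (nat_lit 38) (nat_lit 5) (nat_lit 40) (nat_lit 5) (nat_lit 41) (nat_lit 5) (nat_lit 355) (nat_lit 266) (nat_lit 159))) (XT.nd (nat_lit 78) (nat_lit 228) (nat_lit 0) (XT.lf (nat_lit 0) (nat_lit 16343117969) (nat_lit 152) (nat_lit 6523991038) (nat_lit 228) (nat_lit 3976375339) (nat_lit 38) (nat_lit 5) (nat_lit 40) (nat_lit 5) (nat_lit 41) (nat_lit 5) (nat_lit 356) (nat_lit 266) (nat_lit 158)) (XT.lf (nat_lit 0) (nat_lit 537535026) (nat_lit 152) (nat_lit 246426612) (nat_lit 228) (nat_lit 26669438440) (nat_lit 35) (nat_lit 5) (nat_lit 37) (nat_lit 5) (nat_lit 38) (nat_lit 5) (nat_lit 357) (nat_lit 266) (nat_lit 157))))) (XT.nd (nat_lit 234) (nat_lit 152) (nat_lit 0) (XT.nd (nat_lit 78) (nat_lit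 152) (nat_lit 0) (XT.lf (nat_lit 0) (nat_lit 5759494333) (nat_lit 228) (nat_lit 16082186305) (nat_lit 76) (nat_lit 6234187554) (nat_lit 35) (nat_lit 5) (nat_lit 38) (nat_lit 5) (nat_lit 36) (nat_lit 5) (nat_lit 358) (nat_lit 266) (nat_lit 156)) (XT.nd (nat_lit 78) (nat_lit 152) (nat_lit 0) (XT.lf (nat_lit 0) (nat_lit 10872595562) (nat_lit 228) (nat_lit 4950567663) (nat_lit 76) (nat_lit 12894203109) (nat_lit 35) (nat_lit 5) (nat_lit 38) (nat_lit 5) (nat_lit 36) (nat_lit 5) (nat_lit 359) (nat_lit 266) (nat_lit 155)) (XT.lf (nat_lit 0) (nat_lit 6620271677) (nat_lit 152) (nat_lit 9568730704) (nat_lit 228) (nat_lit 13187614577) (nat_lit 33) (nat_lit 5) (nat_lit 35) (nat_lit 5) (nat_lit 36) (nat_lit 5) (nat_lit 360) (nat_lit 266) (nat_lit 154)))) (XT.nd (nat_lit 156) (nat_lit 76) (nat_lit 0) (XT.nd (nat_lit 78) (nat_lit 76) (nat_lit 0) (XT.lf (nat_lit 0) (nat_lit 18616039221) (nat_lit 152) (nat_lit 3085299824)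 (nat_lit 228) (nat_lit 8353217701) (nat_lit 33) (nat_lit 5) (nat_lit 35) (nat_lit 5) (nat_lit 36) (nat_lit 5) (nat_lit 361) (nat_lit 266) (nat_lit 153)) (XT.lf (nat_lit 0) (nat_lit 164221027) (nat_lit 76) (nat_lit 27237684845) (nat_lit 152) (nat_lit 3350247686) (nat_lit 32) (nat_lit 5) (nat_lit 33) (nat_lit 5) (nat_lit 34) (nat_lit 4) (nat_lit 362) (nat_lit 266) (nat_lit 152))) (XT.nd (nat_lit 78) (nat_lit 0) (nat_lit 0) (XT.lf (nat_lit 0) (nat_lit 1901607000) (nat_lit 152) (nat_lit 19190046964) (nat_lit 76) (nat_lit 10374489538) (nat_lit 31) (nat_lit 5) (nat_lit 33) (nat_lit 5) (nat_lit 32) (nat_lit 5) (nat_lit 363) (nat_lit 266) (nat_lit 151)) (XT.lf (nat_lit 0) (nat_lit 7230842961) (nat_lit 152) (nat_lit 7506049132) (nat_lit 76) (nat_lit 17464055299) (nat_lit 31) (nat_lit 5) (nat_lit 33) (nat_lit 5) (nat_lit 32) (nat_lit 5) (nat_lit 364) (nat_lit 266) (nat_lit 150)))))) (XT.nd (nat_lit 546) (nat_lit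 304) (nat_lit 0) (XT.nd (nat_lit 234) (nat_lit 304) (nat_lit 0) (XT.nd (nat_lit 78) (nat_lit 0) (nat_lit 0) (XT.lf (nat_lit 0) (nat_lit 4596162599) (nat_lit 152) (nat_lit 8155510737) (nat_lit 228) (nat_lit 20205174659) (nat_lit 29) (nat_lit 5) (nat_lit 31) (nat_lit 5) (nat_lit 32) (nat_lit 5) (nat_lit 365) (nat_lit 266) (nat_lit 149)) (XT.nd (nat_lit 78) (nat_lit 0) (nat_lit 0) (XT.lf (nat_lit 0) (nat_lit 17193529233) (nat_lit 152) (nat_lit 1308085656) (nat_lit 228) (nat_lit 15231910136) (nat_lit 29) (nat_lit 5) (nat_lit 31) (nat_lit 5) (nat_lit 32) (nat_lit 5) (nat_lit 366) (nat_lit 266) (nat_lit 148)) (XT.lf (nat_lit 0) (nat_lit 24467236932) (nat_lit 228) (nat_lit 4441325517) (nat_lit 76) (nat_lit 5623648330) (nat_lit 29) (nat_lit 5) (nat_lit 32) (nat_lit 5) (nat_lit 30) (nat_lit 4) (nat_lit 367) (nat_lit 266) (nat_lit 147)))) (XT.nd (nat_lit 156) (nat_lit 152) (nat_lit 0) (XT.nd (nat_lit 78)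 (nat_lit 76) (nat_lit 0) (XT.lf (nat_lit 0) (nat_lit 8145507686) (nat_lit 76) (nat_lit 22545881645) (nat_lit 152) (nat_lit 4661084690) (nat_lit 28) (nat_lit 5) (nat_lit 29) (nat_lit 5) (nat_lit 30) (nat_lit 4) (nat_lit 368) (nat_lit 266) (nat_lit 146)) (XT.lf (nat_lit 0) (nat_lit 920890975) (nat_lit 152) (nat_lit 15024979563) (nat_lit 76) (nat_lit 20250208371) (nat_lit 27) (nat_lit 5) (nat_lit 29) (nat_lit 5) (nat_lit 28) (nat_lit 5) (nat_lit 369) (nat_lit 266) (nat_lit 145))) (XT.nd (nat_lit 78) (nat_lit 152) (nat_lit 0) (XT.lf (nat_lit 0) (nat_lit 6565317850) (nat_lit 152) (nat_lit 2543901828) (nat_lit 76) (nat_lit 27954730980) (nat_lit 27) (nat_lit 5) (nat_lit 29) (nat_lit 5) (nat_lit 28) (nat_lit 5) (nat_lit 370) (nat_lit 266) (nat_lit 144)) (XT.lf (nat_lit 0) (nat_lit 10496808403) (nat_lit 152) (nat_lit 1972175847) (nat_lit 228) (nat_lit 25486180453) (nat_lit 25) (nat_lit 5) (nat_lit 27) (nat_lit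 5) (nat_lit 28) (nat_lit 5) (nat_lit 371) (nat_lit 266) (nat_lit 143))))) (XT.nd (nat_lit 312) (nat_lit 228) (nat_lit 0) (XT.nd (nat_lit 156) (nat_lit 76) (nat_lit 0) (XT.nd (nat_lit 78) (nat_lit 0) (nat_lit 0) (XT.lf (nat_lit 0) (nat_lit 18616465374) (nat_lit 228) (nat_lit 14963102042) (nat_lit 76) (nat_lit 5291549862) (nat_lit 25) (nat_lit 5) (nat_lit 28) (nat_lit 5) (nat_lit 26) (nat_lit 4) (nat_lit 372) (nat_lit 266) (nat_lit 142)) (XT.lf (nat_lit 0) (nat_lit 24957272114) (nat_lit 228) (nat_lit 2131627891) (nat_lit 76) (nat_lit 12725384544) (nat_lit 25) (nat_lit 5) (nat_lit 28) (nat_lit 5) (nat_lit 26) (nat_lit 4) (nat_lit 373) (nat_lit 266) (nat_lit 141))) (XT.nd (nat_lit 78) (nat_lit 0) (nat_lit 0) (XT.lf (nat_lit 0) (nat_lit 11286475672) (nat_lit 76) (nat_lit 20300004056) (nat_lit 152) (nat_lit 9196324872) (nat_lit 24) (nat_lit 5) (nat_lit 25) (nat_lit 5) (nat_lit 26) (nat_lit 4) (nat_lit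 374) (nat_lit 266) (nat_lit 140)) (XT.lf (nat_lit 0) (nat_lit 25132445930) (nat_lit 76) (nat_lit 13293450920) (nat_lit 152) (nat_lit 3354146380) (nat_lit 24) (nat_lit 5) (nat_lit 25) (nat_lit 5) (nat_lit 26) (nat_lit 4) (nat_lit 375) (nat_lit 266) (nat_lit 139)))) (XT.nd (nat_lit 156) (nat_lit 0) (nat_lit 0) (XT.nd (nat_lit 78) (nat_lit 152) (nat_lit 0) (XT.lf (nat_lit 0) (nat_lit 2601331008) (nat_lit 152) (nat_lit 3457044278) (nat_lit 76) (nat_lit 36748358376) (nat_lit 23) (nat_lit 5) (nat_lit 25) (nat_lit 5) (nat_lit 24) (nat_lit 5) (nat_lit 376) (nat_lit 266) (nat_lit 138)) (XT.lf (nat_lit 0) (nat_lit 8771791399) (nat_lit 228) (nat_lit 33596103751) (nat_lit 76) (nat_lit 1492224086) (nat_lit 21) (nat_lit 5) (nat_lit 24) (nat_lit 5) (nat_lit 22) (nat_lit 4) (nat_lit 377) (nat_lit 266) (nat_lit 137))) (XT.nd (nat_lit 78) (nat_lit 0) (nat_lit 0) (XT.lf (nat_lit 0) (nat_lit 15212941164) (nat_lit 228)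 (nat_lit 20554373552) (nat_lit 76) (nat_lit 9175227037) (nat_lit 21) (nat_lit 5) (nat_lit 24) (nat_lit 5) (nat_lit 22) (nat_lit 4) (nat_lit 378) (nat_lit 266) (nat_lit 136)) (XT.lf (nat_lit 0) (nat_lit 21837943519) (nat_lit 228) (nat_lit 7138438015) (nat_lit 76) (nat_lit 17081339433) (nat_lit 21) (nat_lit 5) (nat_lit 24) (nat_lit 5) (nat_lit 22) (nat_lit 4) (nat_lit 379) (nat_lit 266) (nat_lit 135))))))))
noncomputable def xc120 : XT := (XT.nd (nat_lit 2184) (nat_lit 76) (nat_lit 0) (XT.nd (nat_lit 1092) (nat_lit 304) (nat_lit 0) (XT.nd (nat_lit 546) (nat_lit 228) (nat_lit 0) (XT.nd (nat_lit 234) (nat_lit 152) (nat_lit 0) (XT.nd (nat_lit 78) (nat_lit 0) (nat_lit 0) (XT.lf (nat_lit 0) (nat_lit 6796040753) (nat_lit 76) (nat_lit 21921874250) (nat_lit 152) (nat_lit 18486756474) (nat_lit 20) (nat_lit 5) (nat_lit 21) (nat_lit 5) (nat_lit 22) (nat_lit 4) (nat_lit 380) (nat_lit 266) (nat_lit 134)) (XT.nd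 (nat_lit 78) (nat_lit 0) (nat_lit 0) (XT.lf (nat_lit 0) (nat_lit 21278497055) (nat_lit 76) (nat_lit 14588871932) (nat_lit 152) (nat_lit 12516771432) (nat_lit 20) (nat_lit 5) (nat_lit 21) (nat_lit 5) (nat_lit 22) (nat_lit 4) (nat_lit 381) (nat_lit 266) (nat_lit 133)) (XT.lf (nat_lit 0) (nat_lit 36179516550) (nat_lit 76) (nat_lit 7043051331) (nat_lit 152) (nat_lit 6376690059) (nat_lit 20) (nat_lit 5) (nat_lit 21) (nat_lit 5) (nat_lit 22) (nat_lit 4) (nat_lit 382) (nat_lit 266) (nat_lit 132)))) (XT.nd (nat_lit 156) (nat_lit 0) (nat_lit 0) (XT.nd (nat_lit 78) (nat_lit 76) (nat_lit 0) (XT.lf (nat_lit 0) (nat_lit 667109417) (nat_lit 76) (nat_lit 50136183847) (nat_lit 76) (nat_lit 47391883) (nat_lit 19) (nat_lit 4) (nat_lit 20) (nat_lit 5) (nat_lit 20) (nat_lit 4) (nat_lit 383) (nat_lit 266) (nat_lit 131)) (XT.lf (nat_lit 0) (nat_lit 6543548631) (nat_lit 152) (nat_lit 36832873842) (nat_lit 76) (nat_lit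 8755426988) (nat_lit 18) (nat_lit 5) (nat_lit 20) (nat_lit 5) (nat_lit 19) (nat_lit 4) (nat_lit 384) (nat_lit 266) (nat_lit 130))) (XT.nd (nat_lit 78) (nat_lit 0) (nat_lit 0) (XT.lf (nat_lit 0) (nat_lit 13322976739) (nat_lit 152) (nat_lit 23097319832) (nat_lit 76) (nat_lit 17031388784) (nat_lit 18) (nat_lit 5) (nat_lit 20) (nat_lit 5) (nat_lit 19) (nat_lit 4) (nat_lit 385) (nat_lit 266) (nat_lit 129)) (XT.lf (nat_lit 0) (nat_lit 20297740999) (nat_lit 152) (nat_lit 8964456199) (nat_lit 76) (nat_lit 25549162554) (nat_lit 18) (nat_lit 5) (nat_lit 20) (nat_lit 5) (nat_lit 19) (nat_lit 4) (nat_lit 386) (nat_lit 266) (nat_lit 128))))) (XT.nd (nat_lit 234) (nat_lit 152) (nat_lit 0) (XT.nd (nat_lit 78) (nat_lit 0) (nat_lit 0) (XT.lf (nat_lit 0) (nat_lit 5689080612) (nat_lit 76) (nat_lit 21839542175) (nat_lit 152) (nat_lit 28681797322) (nat_lit 17) (nat_lit 5) (nat_lit 18) (nat_lit 5) (nat_lit 19) (nat_lit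 4) (nat_lit 387) (nat_lit 266) (nat_lit 127)) (XT.nd (nat_lit 78) (nat_lit 0) (nat_lit 0) (XT.lf (nat_lit 0) (nat_lit 20951799372) (nat_lit 76) (nat_lit 14107433937) (nat_lit 152) (nat_lit 22589736808) (nat_lit 17) (nat_lit 5) (nat_lit 18) (nat_lit 5) (nat_lit 19) (nat_lit 4) (nat_lit 388) (nat_lit 266) (nat_lit 126)) (XT.lf (nat_lit 0) (nat_lit 36658626180) (nat_lit 76) (nat_lit 6149639705) (nat_lit 152) (nat_lit 16322637481) (nat_lit 17) (nat_lit 5) (nat_lit 18) (nat_lit 5) (nat_lit 19) (nat_lit 4) (nat_lit 389) (nat_lit 266) (nat_lit 125)))) (XT.nd (nat_lit 156) (nat_lit 76) (nat_lit 0) (XT.nd (nat_lit 78) (nat_lit 76) (nat_lit 0) (XT.lf (nat_lit 0) (nat_lit 50802108874) (nat_lit 152) (nat_lit 7853846662) (nat_lit 0) (nat_lit 2000970693) (nat_lit 17) (nat_lit 5) (nat_lit 19) (nat_lit 4) (nat_lit 17) (nat_lit 4) (nat_lit 390) (nat_lit 266) (nat_lit 124)) (XT.lf (nat_lit 0) (nat_lit 7270992807)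 (nat_lit 76) (nat_lit 51888432274) (nat_lit 76) (nat_lit 3065596706) (nat_lit 16) (nat_lit 4) (nat_lit 17) (nat_lit 5) (nat_lit 17) (nat_lit 4) (nat_lit 391) (nat_lit 266) (nat_lit 123))) (XT.nd (nat_lit 78) (nat_lit 0) (nat_lit 0) (XT.lf (nat_lit 0) (nat_lit 3923646665) (nat_lit 152) (nat_lit 40878898260) (nat_lit 76) (nat_lit 19034294928) (nat_lit 15) (nat_lit 5) (nat_lit 17) (nat_lit 5) (nat_lit 16) (nat_lit 4) (nat_lit 392) (nat_lit 266) (nat_lit 122)) (XT.lf (nat_lit 0) (nat_lit 11054047219) (nat_lit 152) (nat_lit 26424637004) (nat_lit 76) (nat_lit 28017626404) (nat_lit 15) (nat_lit 5) (nat_lit 17) (nat_lit 5) (nat_lit 16) (nat_lit 4) (nat_lit 393) (nat_lit 266) (nat_lit 121)))))) (XT.nd (nat_lit 546) (nat_lit 152) (nat_lit 0) (XT.nd (nat_lit 234) (nat_lit 76) (nat_lit 0) (XT.nd (nat_lit 78) (nat_lit 76) (nat_lit 0) (XT.lf (nat_lit 0) (nat_lit 18391656236) (nat_lit 152) (nat_lit 11549146884)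 (nat_lit 76) (nat_lit 37264965063) (nat_lit 15) (nat_lit 5) (nat_lit 17) (nat_lit 5) (nat_lit 16) (nat_lit 4) (nat_lit 394) (nat_lit 266) (nat_lit 120)) (XT.nd (nat_lit 78) (nat_lit 0) (nat_lit 0) (XT.lf (nat_lit 0) (nat_lit 3835412819) (nat_lit 76) (nat_lit 22144340732) (nat_lit 152) (nat_lit 42985846619) (nat_lit 14) (nat_lit 5) (nat_lit 15) (nat_lit 5) (nat_lit 16) (nat_lit 4) (nat_lit 395) (nat_lit 266) (nat_lit 119)) (XT.lf (nat_lit 0) (nat_lit 19906335681) (nat_lit 76) (nat_lit 13999348519) (nat_lit 152) (nat_lit 36869238667) (nat_lit 14) (nat_lit 5) (nat_lit 15) (nat_lit 5) (nat_lit 16) (nat_lit 4) (nat_lit 396) (nat_lit 266) (nat_lit 118)))) (XT.nd (nat_lit 156) (nat_lit 76) (nat_lit 0) (XT.nd (nat_lit 78) (nat_lit 0) (nat_lit 0) (XT.lf (nat_lit 0) (nat_lit 36447813588) (nat_lit 76) (nat_lit 5615333237) (nat_lit 152) (nat_lit 30575567220) (nat_lit 14) (nat_lit 5) (nat_lit 15) (nat_lit 5)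 (nat_lit 16) (nat_lit 4) (nat_lit 397) (nat_lit 266) (nat_lit 117)) (XT.lf (nat_lit 0) (nat_lit 50488251625) (nat_lit 152) (nat_lit 21113284322) (nat_lit 0) (nat_lit 2956196840) (nat_lit 14) (nat_lit 5) (nat_lit 16) (nat_lit 4) (nat_lit 14) (nat_lit 4) (nat_lit 398) (nat_lit 266) (nat_lit 116))) (XT.nd (nat_lit 78) (nat_lit 76) (nat_lit 0) (XT.lf (nat_lit 0) (nat_lit 59215771262) (nat_lit 152) (nat_lit 5649975083) (nat_lit 0) (nat_lit 11667087236) (nat_lit 14) (nat_lit 5) (nat_lit 16) (nat_lit 4) (nat_lit 14) (nat_lit 4) (nat_lit 399) (nat_lit 266) (nat_lit 115)) (XT.lf (nat_lit 0) (nat_lit 10470840724) (nat_lit 76) (nat_lit 57829165106) (nat_lit 76) (nat_lit 10264336186) (nat_lit 13) (nat_lit 4) (nat_lit 14) (nat_lit 5) (nat_lit 14) (nat_lit 4) (nat_lit 400) (nat_lit 266) (nat_lit 114))))) (XT.nd (nat_lit 234) (nat_lit 76) (nat_lit 0) (XT.nd (nat_lit 78) (nat_lit 76) (nat_lit 0) (XT.lf (nat_lit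 0) (nat_lit 27180488495) (nat_lit 76) (nat_lit 50527635672) (nat_lit 76) (nat_lit 2947132099) (nat_lit 13) (nat_lit 4) (nat_lit 14) (nat_lit 5) (nat_lit 14) (nat_lit 4) (nat_lit 401) (nat_lit 266) (nat_lit 113)) (XT.nd (nat_lit 78) (nat_lit 0) (nat_lit 0) (XT.lf (nat_lit 0) (nat_lit 4494441743) (nat_lit 152) (nat_lit 38472004945) (nat_lit 76) (nat_lit 39841296516) (nat_lit 12) (nat_lit 5) (nat_lit 14) (nat_lit 5) (nat_lit 13) (nat_lit 4) (nat_lit 402) (nat_lit 266) (nat_lit 112)) (XT.lf (nat_lit 0) (nat_lit 12094604119) (nat_lit 152) (nat_lit 23058450187) (nat_lit 76) (nat_lit 49871038940) (nat_lit 12) (nat_lit 5) (nat_lit 14) (nat_lit 5) (nat_lit 13) (nat_lit 4) (nat_lit 403) (nat_lit 266) (nat_lit 111)))) (XT.nd (nat_lit 156) (nat_lit 0) (nat_lit 0) (XT.nd (nat_lit 78) (nat_lit 76) (nat_lit 0) (XT.lf (nat_lit 0) (nat_lit 19917505108) (nat_lit 152) (nat_lit 7192305706) (nat_lit 76) (nat_lit 60197282083)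 (nat_lit 12) (nat_lit 5) (nat_lit 14) (nat_lit 5) (nat_lit 13) (nat_lit 4) (nat_lit 404) (nat_lit 266) (nat_lit 110)) (XT.lf (nat_lit 0) (nat_lit 9322201852) (nat_lit 76) (nat_lit 18737389112) (nat_lit 152) (nat_lit 61596457730) (nat_lit 11) (nat_lit 5) (nat_lit 12) (nat_lit 5) (nat_lit 13) (nat_lit 4) (nat_lit 405) (nat_lit 266) (nat_lit 109))) (XT.nd (nat_lit 78) (nat_lit 0) (nat_lit 0) (XT.lf (nat_lit 0) (nat_lit 26470142303) (nat_lit 76) (nat_lit 10043370604) (nat_lit 152) (nat_lit 55559934107) (nat_lit 11) (nat_lit 5) (nat_lit 12) (nat_lit 5) (nat_lit 13) (nat_lit 4) (nat_lit 406) (nat_lit 266) (nat_lit 108)) (XT.lf (nat_lit 0) (nat_lit 44123358299) (nat_lit 76) (nat_lit 1092786762) (nat_lit 152) (nat_lit 49347370473) (nat_lit 11) (nat_lit 5) (nat_lit 12) (nat_lit 5) (nat_lit 13) (nat_lit 4) (nat_lit 407) (nat_lit 266) (nat_lit 107))))))) (XT.nd (nat_lit 30342) (nat_lit 0) (nat_lit 15580) (XT.nd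 (nat_lit 29796) (nat_lit 0) (nat_lit 20900) (XT.nd (nat_lit 234) (nat_lit 76) (nat_lit 0) (XT.nd (nat_lit 78) (nat_lit 0) (nat_lit 0) (XT.lf (nat_lit 0) (nat_lit 54253167061) (nat_lit 152) (nat_lit 34909230457) (nat_lit 0) (nat_lit 7963690261) (nat_lit 11) (nat_lit 5) (nat_lit 13) (nat_lit 4) (nat_lit 11) (nat_lit 4) (nat_lit 408) (nat_lit 266) (nat_lit 106)) (XT.nd (nat_lit 78) (nat_lit 0) (nat_lit 0) (XT.lf (nat_lit 0) (nat_lit 63567455094) (nat_lit 152) (nat_lit 18931933426) (nat_lit 0) (nat_lit 17265964978) (nat_lit 11) (nat_lit 5) (nat_lit 13) (nat_lit 4) (nat_lit 11) (nat_lit 4) (nat_lit 409) (nat_lit 266) (nat_lit 105)) (XT.lf (nat_lit 0) (nat_lit 73156643326) (nat_lit 152) (nat_lit 2483800860) (nat_lit 0) (nat_lit 26843489794) (nat_lit 11) (nat_lit 5) (nat_lit 13) (nat_lit 4) (nat_lit 11) (nat_lit 4) (nat_lit 410) (nat_lit 266) (nat_lit 104)))) (XT.nd (nat_lit 29406) (nat_lit 0) (nat_lit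 22648) (XT.nd (nat_lit 78) (nat_lit 0) (nat_lit 0) (XT.lf (nat_lit 0) (nat_lit 14737113559) (nat_lit 76) (nat_lit 68433659248) (nat_lit 76) (nat_lit 22109182013) (nat_lit 10) (nat_lit 4) (nat_lit 11) (nat_lit 5) (nat_lit 11) (nat_lit 4) (nat_lit 411) (nat_lit 266) (nat_lit 103)) (XT.lf (nat_lit 0) (nat_lit 32517415353) (nat_lit 76) (nat_lit 60988645450) (nat_lit 76) (nat_lit 14653174328) (nat_lit 10) (nat_lit 4) (nat_lit 11) (nat_lit 5) (nat_lit 11) (nat_lit 4) (nat_lit 412) (nat_lit 266) (nat_lit 102))) (XT.nd (nat_lit 78) (nat_lit 0) (nat_lit 0) (XT.lf (nat_lit 0) (nat_lit 1908716790) (nat_lit 532) (nat_lit 709379329) (nat_lit 532) (nat_lit 709379329) (nat_lit 308) (nat_lit 3) (nat_lit 315) (nat_lit 3) (nat_lit 315) (nat_lit 5) (nat_lit 267) (nat_lit 267) (nat_lit 246)) (XT.lf (nat_lit 76) (nat_lit 1726615597) (nat_lit 0) (nat_lit 4302462875) (nat_lit 532) (nat_lit 657714677) (nat_lit 309) (nat_lit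 5) (nat_lit 308) (nat_lit 3) (nat_lit 315) (nat_lit 5) (nat_lit 268) (nat_lit 267) (nat_lit 245))))) (XT.nd (nat_lit 234) (nat_lit 1216) (nat_lit 0) (XT.nd (nat_lit 78) (nat_lit 0) (nat_lit 0) (XT.lf (nat_lit 0) (nat_lit 1486160931) (nat_lit 532) (nat_lit 1784832404) (nat_lit 608) (nat_lit 3450376799) (nat_lit 301) (nat_lit 5) (nat_lit 308) (nat_lit 3) (nat_lit 309) (nat_lit 5) (nat_lit 269) (nat_lit 267) (nat_lit 244)) (XT.nd (nat_lit 78) (nat_lit 0) (nat_lit 0) (XT.lf (nat_lit 76) (nat_lit 1463445265) (nat_lit 0) (nat_lit 2149413768) (nat_lit 608) (nat_lit 3146101519) (nat_lit 302) (nat_lit 5) (nat_lit 301) (nat_lit 5) (nat_lit 309) (nat_lit 5) (nat_lit 270) (nat_lit 267) (nat_lit 243)) (XT.lf (nat_lit 76) (nat_lit 4801820714) (nat_lit 0) (nat_lit 939194733) (nat_lit 608) (nat_lit 1058653182) (nat_lit 302) (nat_lit 5) (nat_lit 301) (nat_lit 5) (nat_lit 309) (nat_lit 5) (nat_lit 271) (nat_lit 267)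 (nat_lit 242)))) (XT.nd (nat_lit 156) (nat_lit 684) (nat_lit 0) (XT.nd (nat_lit 78) (nat_lit 0) (nat_lit 0) (XT.lf (nat_lit 0) (nat_lit 1007906015) (nat_lit 608) (nat_lit 5476225712) (nat_lit 684) (nat_lit 359130726) (nat_lit 294) (nat_lit 5) (nat_lit 302) (nat_lit 5) (nat_lit 303) (nat_lit 5) (nat_lit 272) (nat_lit 267) (nat_lit 241)) (XT.lf (nat_lit 0) (nat_lit 3068140325) (nat_lit 608) (nat_lit 2080363134) (nat_lit 684) (nat_lit 1740867005) (nat_lit 294) (nat_lit 5) (nat_lit 302) (nat_lit 5) (nat_lit 303) (nat_lit 5) (nat_lit 273) (nat_lit 267) (nat_lit 240))) (XT.nd (nat_lit 78) (nat_lit 684) (nat_lit 0) (XT.lf (nat_lit 76) (nat_lit 1399395464) (nat_lit 0) (nat_lit 3729755683) (nat_lit 684) (nat_lit 1809647805) (nat_lit 295) (nat_lit 5) (nat_lit 294) (nat_lit 5) (nat_lit 303) (nat_lit 5) (nat_lit 274) (nat_lit 267) (nat_lit 239)) (XT.lf (nat_lit 0) (nat_lit 204814036) (nat_lit 684) (nat_lit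 2012024480) (nat_lit 760) (nat_lit 4774466858) (nat_lit 285) (nat_lit 5) (nat_lit 294) (nat_lit 5) (nat_lit 295) (nat_lit 5) (nat_lit 275) (nat_lit 267) (nat_lit 238)))))) (XT.nd (nat_lit 546) (nat_lit 3952) (nat_lit 0) (XT.nd (nat_lit 234) (nat_lit 1368) (nat_lit 0) (XT.nd (nat_lit 78) (nat_lit 0) (nat_lit 76) (XT.lf (nat_lit 76) (nat_lit 1589214132) (nat_lit 0) (nat_lit 597977173) (nat_lit 760) (nat_lit 4859439850) (nat_lit 286) (nat_lit 5) (nat_lit 285) (nat_lit 5) (nat_lit 295) (nat_lit 5) (nat_lit 276) (nat_lit 267) (nat_lit 237)) (XT.nd (nat_lit 78) (nat_lit 0) (nat_lit 0) (XT.lf (nat_lit 0) (nat_lit 4190309216) (nat_lit 684) (nat_lit 1820797588) (nat_lit 760) (nat_lit 1093766291) (nat_lit 286) (nat_lit 5) (nat_lit 295) (nat_lit 5) (nat_lit 296) (nat_lit 5) (nat_lit 277) (nat_lit 267) (nat_lit 236)) (XT.lf (nat_lit 76) (nat_lit 1910609470) (nat_lit 0) (nat_lit 4299693289) (nat_lit 760) (nat_lit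 955947784) (nat_lit 287) (nat_lit 5) (nat_lit 286) (nat_lit 5) (nat_lit 296) (nat_lit 5) (nat_lit 278) (nat_lit 267) (nat_lit 235)))) (XT.nd (nat_lit 156) (nat_lit 684) (nat_lit 0) (XT.nd (nat_lit 78) (nat_lit 0) (nat_lit 0) (XT.lf (nat_lit 0) (nat_lit 992569556) (nat_lit 760) (nat_lit 1494659210) (nat_lit 836) (nat_lit 4743465254) (nat_lit 276) (nat_lit 5) (nat_lit 286) (nat_lit 5) (nat_lit 287) (nat_lit 5) (nat_lit 279) (nat_lit 267) (nat_lit 234)) (XT.lf (nat_lit 76) (nat_lit 2370666287) (nat_lit 0) (nat_lit 567680424) (nat_lit 836) (nat_lit 4359783538) (nat_lit 277) (nat_lit 5) (nat_lit 276) (nat_lit 5) (nat_lit 287) (nat_lit 5) (nat_lit 280) (nat_lit 267) (nat_lit 233))) (XT.nd (nat_lit 78) (nat_lit 760) (nat_lit 0) (XT.lf (nat_lit 0) (nat_lit 4908151019) (nat_lit 760) (nat_lit 1045239997) (nat_lit 76) (nat_lit 1415310421) (nat_lit 277) (nat_lit 5) (nat_lit 287) (nat_lit 5) (nat_lit 278) (nat_lit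 5) (nat_lit 281) (nat_lit 267) (nat_lit 232)) (XT.lf (nat_lit 0) (nat_lit 2959962584) (nat_lit 760) (nat_lit 3949862125) (nat_lit 836) (nat_lit 532460906) (nat_lit 267) (nat_lit 5) (nat_lit 277) (nat_lit 5) (nat_lit 278) (nat_lit 5) (nat_lit 282) (nat_lit 267) (nat_lit 231))))) (XT.nd (nat_lit 312) (nat_lit 2128) (nat_lit 0) (XT.nd (nat_lit 156) (nat_lit 912) (nat_lit 0) (XT.nd (nat_lit 78) (nat_lit 836) (nat_lit 0) (XT.lf (nat_lit 0) (nat_lit 1375152140) (nat_lit 836) (nat_lit 471549855) (nat_lit 76) (nat_lit 5672529446) (nat_lit 266) (nat_lit 5) (nat_lit 277) (nat_lit 5) (nat_lit 267) (nat_lit 5) (nat_lit 283) (nat_lit 267) (nat_lit 230)) (XT.lf (nat_lit 0) (nat_lit 3309431461) (nat_lit 912) (nat_lit 3921713569) (nat_lit 76) (nat_lit 367850660) (nat_lit 255) (nat_lit 5) (nat_lit 267) (nat_lit 5) (nat_lit 256) (nat_lit 5) (nat_lit 284) (nat_lit 267) (nat_lit 229))) (XT.nd (nat_lit 78) (nat_lit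 0) (nat_lit 0) (XT.lf (nat_lit 0) (nat_lit 218582885) (nat_lit 912) (nat_lit 5050908681) (nat_lit 988) (nat_lit 2412699018) (nat_lit 243) (nat_lit 5) (nat_lit 255) (nat_lit 5) (nat_lit 256) (nat_lit 5) (nat_lit 285) (nat_lit 267) (nat_lit 228)) (XT.lf (nat_lit 0) (nat_lit 4517349765) (nat_lit 912) (nat_lit 2754393163) (nat_lit 988) (nat_lit 496704957) (nat_lit 243) (nat_lit 5) (nat_lit 255) (nat_lit 5) (nat_lit 256) (nat_lit 5) (nat_lit 286) (nat_lit 267) (nat_lit 227)))) (XT.nd (nat_lit 156) (nat_lit 1064) (nat_lit 0) (XT.nd (nat_lit 78) (nat_lit 0) (nat_lit 0) (XT.lf (nat_lit 0) (nat_lit 1048094551) (nat_lit 988) (nat_lit 354751993) (nat_lit 1064) (nat_lit 6455437978) (nat_lit 229) (nat_lit 5) (nat_lit 242) (nat_lit 5) (nat_lit 243) (nat_lit 5) (nat_lit 287) (nat_lit 267) (nat_lit 226)) (XT.lf (nat_lit 0) (nat_lit 3348976240) (nat_lit 1064) (nat_lit 2479778484) (nat_lit 76) (nat_lit 2121989201)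 (nat_lit 229) (nat_lit 5) (nat_lit 243) (nat_lit 5) (nat_lit 230) (nat_lit 5) (nat_lit 288) (nat_lit 267) (nat_lit 225))) (XT.nd (nat_lit 78) (nat_lit 0) (nat_lit 0) (XT.lf (nat_lit 0) (nat_lit 1969580345) (nat_lit 1064) (nat_lit 3353996857) (nat_lit 1140) (nat_lit 2723357922) (nat_lit 215) (nat_lit 5) (nat_lit 229) (nat_lit 5) (nat_lit 230) (nat_lit 5) (nat_lit 289) (nat_lit 267) (nat_lit 224)) (XT.lf (nat_lit 0) (nat_lit 6557816621) (nat_lit 1064) (nat_lit 773370864) (nat_lit 1140) (nat_lit 815670301) (nat_lit 215) (nat_lit 5) (nat_lit 229) (nat_lit 5) (nat_lit 230) (nat_lit 5) (nat_lit 290) (nat_lit 267) (nat_lit 223))))))))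
noncomputable def xc121 : XT := (XT.nd (nat_lit 2184) (nat_lit 4028) (nat_lit 0) (XT.nd (nat_lit 1092) (nat_lit 3344) (nat_lit 0) (XT.nd (nat_lit 546) (nat_lit 2204) (nat_lit 0) (XT.nd (nat_lit 234) (nat_lit 1216) (nat_lit 0) (XT.nd (nat_lit 78) (nat_lit 760) (nat_lit 0) (XT.lf (nat_lit 0) (nat_lit 1124254585) (nat_lit 1216) (nat_lit 5231734047) (nat_lit 76) (nat_lit 1893590588) (nat_lit 199) (nat_lit 5) (nat_lit 215) (nat_lit 5) (nat_lit 200) (nat_lit 5) (nat_lit 291) (nat_lit 267) (nat_lit 222)) (XT.nd (nat_lit 78) (nat_lit 760) (nat_lit 0) (XT.lf (nat_lit 0) (nat_lit 3080599764) (nat_lit 1216) (nat_lit 621584557) (nat_lit 76) (nat_lit 4653771068) (nat_lit 199) (nat_lit 5) (nat_lit 215) (nat_lit 5) (nat_lit 200) (nat_lit 5) (nat_lit 292) (nat_lit 267) (nat_lit 221)) (XT.lf (nat_lit 0) (nat_lit 4163152588) (nat_lit 760) (nat_lit 924690316) (nat_lit 836) (nat_lit 3377966014) (nat_lit 189) (nat_lit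 5) (nat_lit 199) (nat_lit 5) (nat_lit 200) (nat_lit 5) (nat_lit 293) (nat_lit 267) (nat_lit 220)))) (XT.nd (nat_lit 156) (nat_lit 532) (nat_lit 0) (XT.nd (nat_lit 78) (nat_lit 76) (nat_lit 0) (XT.lf (nat_lit 0) (nat_lit 469907368) (nat_lit 608) (nat_lit 6668039106) (nat_lit 684) (nat_lit 1441583064) (nat_lit 181) (nat_lit 5) (nat_lit 189) (nat_lit 5) (nat_lit 190) (nat_lit 5) (nat_lit 294) (nat_lit 267) (nat_lit 219)) (XT.lf (nat_lit 0) (nat_lit 548735569) (nat_lit 684) (nat_lit 3282923585) (nat_lit 76) (nat_lit 4864692051) (nat_lit 180) (nat_lit 5) (nat_lit 189) (nat_lit 5) (nat_lit 181) (nat_lit 5) (nat_lit 295) (nat_lit 267) (nat_lit 218))) (XT.nd (nat_lit 78) (nat_lit 0) (nat_lit 0) (XT.lf (nat_lit 0) (nat_lit 1661567564) (nat_lit 532) (nat_lit 879144462) (nat_lit 608) (nat_lit 6276456094) (nat_lit 173) (nat_lit 5) (nat_lit 180) (nat_lit 5) (nat_lit 181) (nat_lit 5) (nat_lit 296) (nat_lit 267)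 (nat_lit 217)) (XT.lf (nat_lit 0) (nat_lit 4602536704) (nat_lit 608) (nat_lit 2186115604) (nat_lit 76) (nat_lit 2152699684) (nat_lit 173) (nat_lit 5) (nat_lit 181) (nat_lit 5) (nat_lit 174) (nat_lit 5) (nat_lit 297) (nat_lit 267) (nat_lit 216))))) (XT.nd (nat_lit 234) (nat_lit 1064) (nat_lit 0) (XT.nd (nat_lit 78) (nat_lit 608) (nat_lit 0) (XT.lf (nat_lit 0) (nat_lit 2936309029) (nat_lit 532) (nat_lit 3783951326) (nat_lit 608) (nat_lit 2349223502) (nat_lit 166) (nat_lit 5) (nat_lit 173) (nat_lit 5) (nat_lit 174) (nat_lit 5) (nat_lit 298) (nat_lit 267) (nat_lit 215)) (XT.nd (nat_lit 78) (nat_lit 608) (nat_lit 0) (XT.lf (nat_lit 0) (nat_lit 8212919810) (nat_lit 532) (nat_lit 668608883) (nat_lit 608) (nat_lit 320573121) (nat_lit 166) (nat_lit 5) (nat_lit 173) (nat_lit 5) (nat_lit 174) (nat_lit 5) (nat_lit 299) (nat_lit 267) (nat_lit 214)) (XT.lf (nat_lit 0) (nat_lit 1759759550) (nat_lit 608) (nat_lit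 5030387097) (nat_lit 76) (nat_lit 2547321393) (nat_lit 158) (nat_lit 5) (nat_lit 166) (nat_lit 5) (nat_lit 159) (nat_lit 5) (nat_lit 300) (nat_lit 267) (nat_lit 213)))) (XT.nd (nat_lit 156) (nat_lit 532) (nat_lit 0) (XT.nd (nat_lit 78) (nat_lit 0) (nat_lit 0) (XT.lf (nat_lit 0) (nat_lit 256356462) (nat_lit 532) (nat_lit 3618348700) (nat_lit 608) (nat_lit 5602774405) (nat_lit 151) (nat_lit 5) (nat_lit 158) (nat_lit 5) (nat_lit 159) (nat_lit 5) (nat_lit 301) (nat_lit 267) (nat_lit 212)) (XT.lf (nat_lit 0) (nat_lit 5760591592) (nat_lit 532) (nat_lit 303534122) (nat_lit 608) (nat_lit 3557272711) (nat_lit 151) (nat_lit 5) (nat_lit 158) (nat_lit 5) (nat_lit 159) (nat_lit 5) (nat_lit 302) (nat_lit 267) (nat_lit 211))) (XT.nd (nat_lit 78) (nat_lit 76) (nat_lit 0) (XT.lf (nat_lit 0) (nat_lit 1617893703) (nat_lit 456) (nat_lit 6708135838) (nat_lit 532) (nat_lit 1443437974) (nat_lit 145) (nat_lit 5) (nat_lit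 151) (nat_lit 5) (nat_lit 152) (nat_lit 5) (nat_lit 303) (nat_lit 267) (nat_lit 210)) (XT.lf (nat_lit 0) (nat_lit 723512143) (nat_lit 532) (nat_lit 2635615862) (nat_lit 76) (nat_lit 6562553045) (nat_lit 144) (nat_lit 5) (nat_lit 151) (nat_lit 5) (nat_lit 145) (nat_lit 5) (nat_lit 304) (nat_lit 267) (nat_lit 209)))))) (XT.nd (nat_lit 546) (nat_lit 1596) (nat_lit 0) (XT.nd (nat_lit 234) (nat_lit 912) (nat_lit 0) (XT.nd (nat_lit 78) (nat_lit 380) (nat_lit 0) (XT.lf (nat_lit 0) (nat_lit 2919758922) (nat_lit 532) (nat_lit 7031708286) (nat_lit 76) (nat_lit 126799615) (nat_lit 138) (nat_lit 5) (nat_lit 145) (nat_lit 5) (nat_lit 139) (nat_lit 5) (nat_lit 305) (nat_lit 267) (nat_lit 208)) (XT.nd (nat_lit 78) (nat_lit 380) (nat_lit 0) (XT.lf (nat_lit 0) (nat_lit 5205403347) (nat_lit 532) (nat_lit 1362860011) (nat_lit 76) (nat_lit 3670614099) (nat_lit 138) (nat_lit 5) (nat_lit 145) (nat_lit 5) (nat_lit 139)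 (nat_lit 5) (nat_lit 306) (nat_lit 267) (nat_lit 207)) (XT.lf (nat_lit 0) (nat_lit 4521753700) (nat_lit 380) (nat_lit 3045769544) (nat_lit 456) (nat_lit 2836577624) (nat_lit 133) (nat_lit 5) (nat_lit 138) (nat_lit 5) (nat_lit 139) (nat_lit 5) (nat_lit 307) (nat_lit 267) (nat_lit 206)))) (XT.nd (nat_lit 156) (nat_lit 380) (nat_lit 0) (XT.nd (nat_lit 78) (nat_lit 532) (nat_lit 0) (XT.lf (nat_lit 0) (nat_lit 9985005603) (nat_lit 456) (nat_lit 11887806) (nat_lit 76) (nat_lit 577883330) (nat_lit 133) (nat_lit 5) (nat_lit 139) (nat_lit 5) (nat_lit 134) (nat_lit 5) (nat_lit 308) (nat_lit 267) (nat_lit 205)) (XT.lf (nat_lit 0) (nat_lit 1745936144) (nat_lit 532) (nat_lit 4684754925) (nat_lit 76) (nat_lit 4317759084) (nat_lit 126) (nat_lit 5) (nat_lit 133) (nat_lit 5) (nat_lit 127) (nat_lit 5) (nat_lit 309) (nat_lit 267) (nat_lit 204))) (XT.nd (nat_lit 78) (nat_lit 0) (nat_lit 0) (XT.lf (nat_lit 0) (nat_lit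 1373254673) (nat_lit 380) (nat_lit 2746181476) (nat_lit 456) (nat_lit 6808363299) (nat_lit 121) (nat_lit 5) (nat_lit 126) (nat_lit 5) (nat_lit 127) (nat_lit 5) (nat_lit 310) (nat_lit 267) (nat_lit 203)) (XT.lf (nat_lit 0) (nat_lit 6588751315) (nat_lit 456) (nat_lit 3455310904) (nat_lit 76) (nat_lit 1067755993) (nat_lit 121) (nat_lit 5) (nat_lit 127) (nat_lit 5) (nat_lit 122) (nat_lit 5) (nat_lit 311) (nat_lit 267) (nat_lit 202))))) (XT.nd (nat_lit 234) (nat_lit 760) (nat_lit 0) (XT.nd (nat_lit 78) (nat_lit 456) (nat_lit 0) (XT.lf (nat_lit 0) (nat_lit 2813160663) (nat_lit 380) (nat_lit 6340938001) (nat_lit 456) (nat_lit 2146626796) (nat_lit 116) (nat_lit 5) (nat_lit 121) (nat_lit 5) (nat_lit 122) (nat_lit 5) (nat_lit 312) (nat_lit 267) (nat_lit 201)) (XT.nd (nat_lit 78) (nat_lit 380) (nat_lit 0) (XT.lf (nat_lit 0) (nat_lit 298395420) (nat_lit 456) (nat_lit 2198677462) (nat_lit 76) (nat_lit 8998070251)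 (nat_lit 115) (nat_lit 5) (nat_lit 121) (nat_lit 5) (nat_lit 116) (nat_lit 5) (nat_lit 313) (nat_lit 267) (nat_lit 200)) (XT.lf (nat_lit 0) (nat_lit 2798413718) (nat_lit 456) (nat_lit 7407993043) (nat_lit 76) (nat_lit 1487629503) (nat_lit 110) (nat_lit 5) (nat_lit 116) (nat_lit 5) (nat_lit 111) (nat_lit 5) (nat_lit 314) (nat_lit 267) (nat_lit 199)))) (XT.nd (nat_lit 156) (nat_lit 380) (nat_lit 0) (XT.nd (nat_lit 78) (nat_lit 380) (nat_lit 0) (XT.lf (nat_lit 0) (nat_lit 5389870152) (nat_lit 456) (nat_lit 953737923) (nat_lit 76) (nat_lit 5554818532) (nat_lit 110) (nat_lit 5) (nat_lit 116) (nat_lit 5) (nat_lit 111) (nat_lit 5) (nat_lit 315) (nat_lit 267) (nat_lit 198)) (XT.lf (nat_lit 0) (nat_lit 5766930133) (nat_lit 380) (nat_lit 2317761753) (nat_lit 456) (nat_lit 4023510986) (nat_lit 105) (nat_lit 5) (nat_lit 110) (nat_lit 5) (nat_lit 111) (nat_lit 5) (nat_lit 316) (nat_lit 267) (nat_lit 197))) (XT.nd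 (nat_lit 78) (nat_lit 76) (nat_lit 0) (XT.lf (nat_lit 0) (nat_lit 333452764) (nat_lit 304) (nat_lit 10527997124) (nat_lit 380) (nat_lit 1462811984) (nat_lit 101) (nat_lit 5) (nat_lit 105) (nat_lit 5) (nat_lit 106) (nat_lit 5) (nat_lit 317) (nat_lit 267) (nat_lit 196)) (XT.lf (nat_lit 0) (nat_lit 1210148552) (nat_lit 380) (nat_lit 5281719253) (nat_lit 76) (nat_lit 6052866096) (nat_lit 100) (nat_lit 5) (nat_lit 105) (nat_lit 5) (nat_lit 101) (nat_lit 5) (nat_lit 318) (nat_lit 267) (nat_lit 195))))))) (XT.nd (nat_lit 1092) (nat_lit 1672) (nat_lit 0) (XT.nd (nat_lit 546) (nat_lit 1140) (nat_lit 0) (XT.nd (nat_lit 234) (nat_lit 608) (nat_lit 0) (XT.nd (nat_lit 78) (nat_lit 304) (nat_lit 0) (XT.lf (nat_lit 0) (nat_lit 1606307378) (nat_lit 304) (nat_lit 2314629086) (nat_lit 380) (nat_lit 8850858250) (nat_lit 96) (nat_lit 5) (nat_lit 100) (nat_lit 5) (nat_lit 101) (nat_lit 5) (nat_lit 319) (nat_lit 267)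 (nat_lit 194)) (XT.nd (nat_lit 78) (nat_lit 304) (nat_lit 0) (XT.lf (nat_lit 0) (nat_lit 6757968754) (nat_lit 380) (nat_lit 4254026529) (nat_lit 76) (nat_lit 1992344166) (nat_lit 96) (nat_lit 5) (nat_lit 101) (nat_lit 5) (nat_lit 97) (nat_lit 5) (nat_lit 320) (nat_lit 267) (nat_lit 193)) (XT.lf (nat_lit 0) (nat_lit 2859240632) (nat_lit 304) (nat_lit 6844038797) (nat_lit 380) (nat_lit 3539905220) (nat_lit 92) (nat_lit 5) (nat_lit 96) (nat_lit 5) (nat_lit 97) (nat_lit 5) (nat_lit 321) (nat_lit 267) (nat_lit 192)))) (XT.nd (nat_lit 156) (nat_lit 228) (nat_lit 0) (XT.nd (nat_lit 78) (nat_lit 380) (nat_lit 0) (XT.lf (nat_lit 0) (nat_lit 10235071362) (nat_lit 304) (nat_lit 2518028511) (nat_lit 380) (nat_lit 735629405) (nat_lit 92) (nat_lit 5) (nat_lit 96) (nat_lit 5) (nat_lit 97) (nat_lit 5) (nat_lit 322) (nat_lit 267) (nat_lit 191)) (XT.lf (nat_lit 0) (nat_lit 2143113774) (nat_lit 380) (nat_lit 9647131703)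 (nat_lit 76) (nat_lit 1949821052) (nat_lit 87) (nat_lit 5) (nat_lit 92) (nat_lit 5) (nat_lit 88) (nat_lit 5) (nat_lit 323) (nat_lit 267) (nat_lit 190))) (XT.nd (nat_lit 78) (nat_lit 228) (nat_lit 0) (XT.lf (nat_lit 0) (nat_lit 5125545826) (nat_lit 380) (nat_lit 2341665352) (nat_lit 76) (nat_lit 6530567866) (nat_lit 87) (nat_lit 5) (nat_lit 92) (nat_lit 5) (nat_lit 88) (nat_lit 5) (nat_lit 324) (nat_lit 267) (nat_lit 189)) (XT.lf (nat_lit 0) (nat_lit 5248697107) (nat_lit 228) (nat_lit 2973964852) (nat_lit 304) (nat_lit 6039821157) (nat_lit 84) (nat_lit 5) (nat_lit 87) (nat_lit 5) (nat_lit 88) (nat_lit 5) (nat_lit 325) (nat_lit 267) (nat_lit 188))))) (XT.nd (nat_lit 234) (nat_lit 760) (nat_lit 0) (XT.nd (nat_lit 78) (nat_lit 380) (nat_lit 0) (XT.lf (nat_lit 0) (nat_lit 11427505098) (nat_lit 304) (nat_lit 1472761399) (nat_lit 76) (nat_lit 1634433441) (nat_lit 84) (nat_lit 5) (nat_lit 88) (nat_lit 5)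 (nat_lit 85) (nat_lit 5) (nat_lit 326) (nat_lit 267) (nat_lit 187)) (XT.nd (nat_lit 78) (nat_lit 76) (nat_lit 0) (XT.lf (nat_lit 0) (nat_lit 6353117440) (nat_lit 304) (nat_lit 8441651681) (nat_lit 380) (nat_lit 18341443) (nat_lit 80) (nat_lit 5) (nat_lit 84) (nat_lit 5) (nat_lit 85) (nat_lit 5) (nat_lit 327) (nat_lit 267) (nat_lit 186)) (XT.lf (nat_lit 0) (nat_lit 3092345219) (nat_lit 380) (nat_lit 722064545) (nat_lit 76) (nat_lit 11284839446) (nat_lit 79) (nat_lit 5) (nat_lit 84) (nat_lit 5) (nat_lit 80) (nat_lit 5) (nat_lit 328) (nat_lit 267) (nat_lit 185)))) (XT.nd (nat_lit 156) (nat_lit 532) (nat_lit 0) (XT.nd (nat_lit 78) (nat_lit 0) (nat_lit 0) (XT.lf (nat_lit 0) (nat_lit 6353012444) (nat_lit 304) (nat_lit 8045927478) (nat_lit 76) (nat_lit 993330033) (nat_lit 76) (nat_lit 5) (nat_lit 80) (nat_lit 5) (nat_lit 77) (nat_lit 5) (nat_lit 329) (nat_lit 267) (nat_lit 184)) (XT.lf (nat_lit 0) (nat_lit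 9733443703) (nat_lit 304) (nat_lit 95346015) (nat_lit 76) (nat_lit 5864647115) (nat_lit 76) (nat_lit 5) (nat_lit 80) (nat_lit 5) (nat_lit 77) (nat_lit 5) (nat_lit 330) (nat_lit 267) (nat_lit 183))) (XT.nd (nat_lit 78) (nat_lit 304) (nat_lit 0) (XT.lf (nat_lit 0) (nat_lit 8219931877) (nat_lit 228) (nat_lit 5051860315) (nat_lit 304) (nat_lit 2730164825) (nat_lit 73) (nat_lit 5) (nat_lit 76) (nat_lit 5) (nat_lit 77) (nat_lit 5) (nat_lit 331) (nat_lit 267) (nat_lit 182)) (XT.lf (nat_lit 0) (nat_lit 435324710) (nat_lit 228) (nat_lit 132336367) (nat_lit 304) (nat_lit 15752430039) (nat_lit 69) (nat_lit 5) (nat_lit 72) (nat_lit 5) (nat_lit 73) (nat_lit 5) (nat_lit 332) (nat_lit 267) (nat_lit 181)))))) (XT.nd (nat_lit 546) (nat_lit 912) (nat_lit 0) (XT.nd (nat_lit 234) (nat_lit 532) (nat_lit 0) (XT.nd (nat_lit 78) (nat_lit 228) (nat_lit 0) (XT.lf (nat_lit 0) (nat_lit 4014143574) (nat_lit 304) (nat_lit 7696506562)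 (nat_lit 76) (nat_lit 4933182588) (nat_lit 69) (nat_lit 5) (nat_lit 73) (nat_lit 5) (nat_lit 70) (nat_lit 5) (nat_lit 333) (nat_lit 267) (nat_lit 180)) (XT.nd (nat_lit 78) (nat_lit 0) (nat_lit 0) (XT.lf (nat_lit 0) (nat_lit 716511055) (nat_lit 228) (nat_lit 6834152070) (nat_lit 304) (nat_lit 9427036108) (nat_lit 66) (nat_lit 5) (nat_lit 69) (nat_lit 5) (nat_lit 70) (nat_lit 5) (nat_lit 334) (nat_lit 267) (nat_lit 179)) (XT.lf (nat_lit 0) (nat_lit 9506457603) (nat_lit 228) (nat_lit 1743293433) (nat_lit 304) (nat_lit 6070148102) (nat_lit 66) (nat_lit 5) (nat_lit 69) (nat_lit 5) (nat_lit 70) (nat_lit 5) (nat_lit 335) (nat_lit 267) (nat_lit 178)))) (XT.nd (nat_lit 156) (nat_lit 228) (nat_lit 0) (XT.nd (nat_lit 78) (nat_lit 76) (nat_lit 0) (XT.lf (nat_lit 0) (nat_lit 837653474) (nat_lit 228) (nat_lit 14243117217) (nat_lit 304) (nat_lit 2590976821) (nat_lit 63) (nat_lit 5) (nat_lit 66) (nat_lit 5) (nat_lit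 67) (nat_lit 5) (nat_lit 336) (nat_lit 267) (nat_lit 177)) (XT.lf (nat_lit 0) (nat_lit 1049481959) (nat_lit 304) (nat_lit 8183800937) (nat_lit 76) (nat_lit 8798304377) (nat_lit 62) (nat_lit 5) (nat_lit 66) (nat_lit 5) (nat_lit 63) (nat_lit 5) (nat_lit 337) (nat_lit 267) (nat_lit 176))) (XT.nd (nat_lit 78) (nat_lit 0) (nat_lit 0) (XT.lf (nat_lit 0) (nat_lit 681725272) (nat_lit 228) (nat_lit 4051847108) (nat_lit 304) (nat_lit 13668295723) (nat_lit 59) (nat_lit 5) (nat_lit 62) (nat_lit 5) (nat_lit 63) (nat_lit 5) (nat_lit 338) (nat_lit 267) (nat_lit 175)) (XT.lf (nat_lit 0) (nat_lit 8604103994) (nat_lit 304) (nat_lit 8845073695) (nat_lit 76) (nat_lit 1331812106) (nat_lit 59) (nat_lit 5) (nat_lit 63) (nat_lit 5) (nat_lit 60) (nat_lit 5) (nat_lit 339) (nat_lit 267) (nat_lit 174))))) (XT.nd (nat_lit 312) (nat_lit 456) (nat_lit 0) (XT.nd (nat_lit 156) (nat_lit 304) (nat_lit 0) (XT.nd (nat_lit 78) (nat_lit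 0) (nat_lit 0) (XT.lf (nat_lit 0) (nat_lit 229440457) (nat_lit 152) (nat_lit 12384320719) (nat_lit 228) (nat_lit 6557043374) (nat_lit 57) (nat_lit 5) (nat_lit 59) (nat_lit 5) (nat_lit 60) (nat_lit 5) (nat_lit 340) (nat_lit 267) (nat_lit 173)) (XT.lf (nat_lit 0) (nat_lit 9726643964) (nat_lit 152) (nat_lit 7087334674) (nat_lit 228) (nat_lit 2756236411) (nat_lit 57) (nat_lit 5) (nat_lit 59) (nat_lit 5) (nat_lit 60) (nat_lit 5) (nat_lit 341) (nat_lit 267) (nat_lit 172))) (XT.nd (nat_lit 78) (nat_lit 228) (nat_lit 0) (XT.lf (nat_lit 0) (nat_lit 1117301782) (nat_lit 228) (nat_lit 514324681) (nat_lit 76) (nat_lit 18350216702) (nat_lit 56) (nat_lit 5) (nat_lit 59) (nat_lit 5) (nat_lit 57) (nat_lit 5) (nat_lit 342) (nat_lit 267) (nat_lit 171)) (XT.lf (nat_lit 0) (nat_lit 5161487844) (nat_lit 304) (nat_lit 11224342364) (nat_lit 76) (nat_lit 4015884672) (nat_lit 53) (nat_lit 5) (nat_lit 57) (nat_lit 5) (nat_lit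 54) (nat_lit 5) (nat_lit 343) (nat_lit 267) (nat_lit 170)))) (XT.nd (nat_lit 156) (nat_lit 304) (nat_lit 0) (XT.nd (nat_lit 78) (nat_lit 152) (nat_lit 0) (XT.lf (nat_lit 0) (nat_lit 9330398431) (nat_lit 304) (nat_lit 1709476691) (nat_lit 76) (nat_lit 9794214022) (nat_lit 53) (nat_lit 5) (nat_lit 57) (nat_lit 5) (nat_lit 54) (nat_lit 5) (nat_lit 344) (nat_lit 267) (nat_lit 169)) (XT.lf (nat_lit 0) (nat_lit 8222541301) (nat_lit 152) (nat_lit 5463398562) (nat_lit 228) (nat_lit 7591655993) (nat_lit 51) (nat_lit 5) (nat_lit 53) (nat_lit 5) (nat_lit 54) (nat_lit 5) (nat_lit 345) (nat_lit 267) (nat_lit 168))) (XT.nd (nat_lit 78) (nat_lit 304) (nat_lit 0) (XT.lf (nat_lit 0) (nat_lit 18174926904) (nat_lit 228) (nat_lit 3278073973) (nat_lit 76) (nat_lit 281331399) (nat_lit 51) (nat_lit 5) (nat_lit 54) (nat_lit 5) (nat_lit 52) (nat_lit 5) (nat_lit 346) (nat_lit 267) (nat_lit 167)) (XT.lf (nat_lit 0) (nat_lit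 686272452) (nat_lit 304) (nat_lit 15364788082) (nat_lit 76) (nat_lit 6150425033) (nat_lit 47) (nat_lit 5) (nat_lit 51) (nat_lit 5) (nat_lit 48) (nat_lit 5) (nat_lit 347) (nat_lit 267) (nat_lit 166))))))))
noncomputable def xc122 : XT := (XT.nd (nat_lit 2184) (nat_lit 912) (nat_lit 0) (XT.nd (nat_lit 1092) (nat_lit 684) (nat_lit 0) (XT.nd (nat_lit 546) (nat_lit 532) (nat_lit 0) (XT.nd (nat_lit 234) (nat_lit 380) (nat_lit 0) (XT.nd (nat_lit 78) (nat_lit 152) (nat_lit 0) (XT.lf (nat_lit 0) (nat_lit 5004418101) (nat_lit 304) (nat_lit 5423226199) (nat_lit 76) (nat_lit 12253459985) (nat_lit 47) (nat_lit 5) (nat_lit 51) (nat_lit 5) (nat_lit 48) (nat_lit 5) (nat_lit 348) (nat_lit 267) (nat_lit 165)) (XT.nd (nat_lit 78) (nat_lit 0) (nat_lit 0) (XT.lf (nat_lit 0) (nat_lit 4884611709) (nat_lit 152) (nat_lit 4598147520) (nat_lit 228) (nat_lit 13691439811) (nat_lit 45) (nat_lit 5) (nat_lit 47) (nat_lit 5) (nat_lit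 48) (nat_lit 5) (nat_lit 349) (nat_lit 267) (nat_lit 164)) (XT.lf (nat_lit 0) (nat_lit 14148081596) (nat_lit 228) (nat_lit 8109051971) (nat_lit 76) (nat_lit 1423380943) (nat_lit 45) (nat_lit 5) (nat_lit 48) (nat_lit 5) (nat_lit 46) (nat_lit 5) (nat_lit 350) (nat_lit 267) (nat_lit 163)))) (XT.nd (nat_lit 156) (nat_lit 228) (nat_lit 0) (XT.nd (nat_lit 78) (nat_lit 0) (nat_lit 0) (XT.lf (nat_lit 0) (nat_lit 2350636776) (nat_lit 152) (nat_lit 16655127719) (nat_lit 228) (nat_lit 5194689530) (nat_lit 43) (nat_lit 5) (nat_lit 45) (nat_lit 5) (nat_lit 46) (nat_lit 5) (nat_lit 351) (nat_lit 267) (nat_lit 162)) (XT.lf (nat_lit 0) (nat_lit 13263998792) (nat_lit 152) (nat_lit 10811548154) (nat_lit 228) (nat_lit 658460120) (nat_lit 43) (nat_lit 5) (nat_lit 45) (nat_lit 5) (nat_lit 46) (nat_lit 5) (nat_lit 352) (nat_lit 267) (nat_lit 161))) (XT.nd (nat_lit 78) (nat_lit 152) (nat_lit 0) (XT.lf (nat_lit 0) (nat_lit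 3920311598) (nat_lit 228) (nat_lit 843275299) (nat_lit 76) (nat_lit 20519284932) (nat_lit 42) (nat_lit 5) (nat_lit 45) (nat_lit 5) (nat_lit 43) (nat_lit 5) (nat_lit 353) (nat_lit 267) (nat_lit 160)) (XT.lf (nat_lit 0) (nat_lit 8722199863) (nat_lit 228) (nat_lit 15589494556) (nat_lit 76) (nat_lit 1533348768) (nat_lit 40) (nat_lit 5) (nat_lit 43) (nat_lit 5) (nat_lit 41) (nat_lit 5) (nat_lit 354) (nat_lit 267) (nat_lit 159))))) (XT.nd (nat_lit 234) (nat_lit 380) (nat_lit 0) (XT.nd (nat_lit 78) (nat_lit 152) (nat_lit 0) (XT.lf (nat_lit 0) (nat_lit 13709224396) (nat_lit 228) (nat_lit 4791679652) (nat_lit 76) (nat_lit 7921948948) (nat_lit 40) (nat_lit 5) (nat_lit 43) (nat_lit 5) (nat_lit 41) (nat_lit 5) (nat_lit 355) (nat_lit 267) (nat_lit 158)) (XT.nd (nat_lit 78) (nat_lit 0) (nat_lit 0) (XT.lf (nat_lit 0) (nat_lit 6431067366) (nat_lit 152) (nat_lit 12462355006) (nat_lit 228) (nat_lit 8123153377) (nat_lit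 38) (nat_lit 5) (nat_lit 40) (nat_lit 5) (nat_lit 41) (nat_lit 5) (nat_lit 356) (nat_lit 267) (nat_lit 157)) (XT.lf (nat_lit 0) (nat_lit 18064466064) (nat_lit 152) (nat_lit 6202992232) (nat_lit 228) (nat_lit 3359627901) (nat_lit 38) (nat_lit 5) (nat_lit 40) (nat_lit 5) (nat_lit 41) (nat_lit 5) (nat_lit 357) (nat_lit 267) (nat_lit 156)))) (XT.nd (nat_lit 156) (nat_lit 152) (nat_lit 0) (XT.nd (nat_lit 78) (nat_lit 0) (nat_lit 0) (XT.lf (nat_lit 0) (nat_lit 1522561479) (nat_lit 228) (nat_lit 26470807130) (nat_lit 76) (nat_lit 261924091) (nat_lit 35) (nat_lit 5) (nat_lit 38) (nat_lit 5) (nat_lit 36) (nat_lit 5) (nat_lit 358) (nat_lit 267) (nat_lit 155)) (XT.lf (nat_lit 0) (nat_lit 6628901355) (nat_lit 228) (nat_lit 15350968392) (nat_lit 76) (nat_lit 6917126357) (nat_lit 35) (nat_lit 5) (nat_lit 38) (nat_lit 5) (nat_lit 36) (nat_lit 5) (nat_lit 359) (nat_lit 267) (nat_lit 154))) (XT.nd (nat_lit 78) (nat_lit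 152) (nat_lit 0) (XT.lf (nat_lit 0) (nat_lit 11875105654) (nat_lit 228) (nat_lit 3920751196) (nat_lit 76) (nat_lit 13762498306) (nat_lit 35) (nat_lit 5) (nat_lit 38) (nat_lit 5) (nat_lit 36) (nat_lit 5) (nat_lit 360) (nat_lit 267) (nat_lit 153)) (XT.lf (nat_lit 0) (nat_lit 7985661036) (nat_lit 152) (nat_lit 9356860461) (nat_lit 228) (nat_lit 12895123353) (nat_lit 33) (nat_lit 5) (nat_lit 35) (nat_lit 5) (nat_lit 36) (nat_lit 5) (nat_lit 361) (nat_lit 267) (nat_lit 152)))))) (XT.nd (nat_lit 546) (nat_lit 380) (nat_lit 0) (XT.nd (nat_lit 234) (nat_lit 152) (nat_lit 0) (XT.nd (nat_lit 78) (nat_lit 152) (nat_lit 0) (XT.lf (nat_lit 0) (nat_lit 20307317687) (nat_lit 152) (nat_lit 2693458659) (nat_lit 228) (nat_lit 7935736890) (nat_lit 33) (nat_lit 5) (nat_lit 35) (nat_lit 5) (nat_lit 36) (nat_lit 5) (nat_lit 362) (nat_lit 267) (nat_lit 151)) (XT.nd (nat_lit 78) (nat_lit 76) (nat_lit 0) (XT.lf (nat_lit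 0) (nat_lit 1305715660) (nat_lit 76) (nat_lit 27563205280) (nat_lit 152) (nat_lit 2786226839) (nat_lit 32) (nat_lit 5) (nat_lit 33) (nat_lit 5) (nat_lit 34) (nat_lit 4) (nat_lit 363) (nat_lit 267) (nat_lit 150)) (XT.lf (nat_lit 0) (nat_lit 2591238644) (nat_lit 152) (nat_lit 18649485717) (nat_lit 76) (nat_lit 11150217017) (nat_lit 31) (nat_lit 5) (nat_lit 33) (nat_lit 5) (nat_lit 32) (nat_lit 5) (nat_lit 364) (nat_lit 267) (nat_lit 149)))) (XT.nd (nat_lit 156) (nat_lit 0) (nat_lit 0) (XT.nd (nat_lit 78) (nat_lit 152) (nat_lit 0) (XT.lf (nat_lit 0) (nat_lit 8061926924) (nat_lit 152) (nat_lit 6647480455) (nat_lit 76) (nat_lit 18438940835) (nat_lit 31) (nat_lit 5) (nat_lit 33) (nat_lit 5) (nat_lit 32) (nat_lit 5) (nat_lit 365) (nat_lit 267) (nat_lit 148)) (XT.lf (nat_lit 0) (nat_lit 5807172627) (nat_lit 152) (nat_lit 7933637002) (nat_lit 228) (nat_lit 20186349291) (nat_lit 29) (nat_lit 5) (nat_lit 31)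 (nat_lit 5) (nat_lit 32) (nat_lit 5) (nat_lit 366) (nat_lit 267) (nat_lit 147))) (XT.nd (nat_lit 78) (nat_lit 0) (nat_lit 0) (XT.lf (nat_lit 0) (nat_lit 18751204188) (nat_lit 152) (nat_lit 894377685) (nat_lit 228) (nat_lit 15082090151) (nat_lit 29) (nat_lit 5) (nat_lit 31) (nat_lit 5) (nat_lit 32) (nat_lit 5) (nat_lit 367) (nat_lit 267) (nat_lit 146)) (XT.lf (nat_lit 0) (nat_lit 25777246830) (nat_lit 228) (nat_lit 3549930534) (nat_lit 76) (nat_lit 6223534327) (nat_lit 29) (nat_lit 5) (nat_lit 32) (nat_lit 5) (nat_lit 30) (nat_lit 4) (nat_lit 368) (nat_lit 267) (nat_lit 145))))) (XT.nd (nat_lit 234) (nat_lit 228) (nat_lit 0) (XT.nd (nat_lit 78) (nat_lit 76) (nat_lit 0) (XT.lf (nat_lit 0) (nat_lit 9404462227) (nat_lit 76) (nat_lit 22776637938) (nat_lit 152) (nat_lit 4214698781) (nat_lit 28) (nat_lit 5) (nat_lit 29) (nat_lit 5) (nat_lit 30) (nat_lit 4) (nat_lit 369) (nat_lit 267) (nat_lit 144)) (XT.nd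 (nat_lit 78) (nat_lit 0) (nat_lit 0) (XT.lf (nat_lit 0) (nat_lit 1506555779) (nat_lit 152) (nat_lit 14479414857) (nat_lit 76) (nat_lit 21279079623) (nat_lit 27) (nat_lit 5) (nat_lit 29) (nat_lit 5) (nat_lit 28) (nat_lit 5) (nat_lit 370) (nat_lit 267) (nat_lit 143)) (XT.lf (nat_lit 0) (nat_lit 7304061923) (nat_lit 152) (nat_lit 1652923647) (nat_lit 76) (nat_lit 29202465143) (nat_lit 27) (nat_lit 5) (nat_lit 29) (nat_lit 5) (nat_lit 28) (nat_lit 5) (nat_lit 371) (nat_lit 267) (nat_lit 142)))) (XT.nd (nat_lit 156) (nat_lit 76) (nat_lit 0) (XT.nd (nat_lit 78) (nat_lit 0) (nat_lit 0) (XT.lf (nat_lit 0) (nat_lit 11769524604) (nat_lit 152) (nat_lit 1608740653) (nat_lit 228) (nat_lit 25699337918) (nat_lit 25) (nat_lit 5) (nat_lit 27) (nat_lit 5) (nat_lit 28) (nat_lit 5) (nat_lit 372) (nat_lit 267) (nat_lit 141)) (XT.lf (nat_lit 0) (nat_lit 19698526107) (nat_lit 228) (nat_lit 14470280421) (nat_lit 76) (nat_lit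 5852581805) (nat_lit 25) (nat_lit 5) (nat_lit 28) (nat_lit 5) (nat_lit 26) (nat_lit 4) (nat_lit 373) (nat_lit 267) (nat_lit 140))) (XT.nd (nat_lit 78) (nat_lit 76) (nat_lit 0) (XT.lf (nat_lit 0) (nat_lit 26214307531) (nat_lit 228) (nat_lit 1281290628) (nat_lit 76) (nat_lit 13497714476) (nat_lit 25) (nat_lit 5) (nat_lit 28) (nat_lit 5) (nat_lit 26) (nat_lit 4) (nat_lit 374) (nat_lit 267) (nat_lit 139)) (XT.lf (nat_lit 0) (nat_lit 12530392453) (nat_lit 76) (nat_lit 20505896078) (nat_lit 152) (nat_lit 8954787239) (nat_lit 24) (nat_lit 5) (nat_lit 25) (nat_lit 5) (nat_lit 26) (nat_lit 4) (nat_lit 375) (nat_lit 267) (nat_lit 138))))))) (XT.nd (nat_lit 1092) (nat_lit 380) (nat_lit 0) (XT.nd (nat_lit 546) (nat_lit 228) (nat_lit 0) (XT.nd (nat_lit 234) (nat_lit 76) (nat_lit 0) (XT.nd (nat_lit 78) (nat_lit 228) (nat_lit 0) (XT.lf (nat_lit 0) (nat_lit 26765373202) (nat_lit 76) (nat_lit 13300887361) (nat_lit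 152) (nat_lit 2952414092) (nat_lit 24) (nat_lit 5) (nat_lit 25) (nat_lit 5) (nat_lit 26) (nat_lit 4) (nat_lit 376) (nat_lit 267) (nat_lit 137)) (XT.nd (nat_lit 78) (nat_lit 152) (nat_lit 0) (XT.lf (nat_lit 0) (nat_lit 3157578599) (nat_lit 152) (nat_lit 2697750941) (nat_lit 76) (nat_lit 38221125802) (nat_lit 23) (nat_lit 5) (nat_lit 25) (nat_lit 5) (nat_lit 24) (nat_lit 5) (nat_lit 377) (nat_lit 267) (nat_lit 136)) (XT.lf (nat_lit 0) (nat_lit 9511111321) (nat_lit 228) (nat_lit 33738810522) (nat_lit 76) (nat_lit 1911585789) (nat_lit 21) (nat_lit 5) (nat_lit 24) (nat_lit 5) (nat_lit 22) (nat_lit 4) (nat_lit 378) (nat_lit 267) (nat_lit 135)))) (XT.nd (nat_lit 156) (nat_lit 76) (nat_lit 0) (XT.nd (nat_lit 78) (nat_lit 0) (nat_lit 0) (XT.lf (nat_lit 0) (nat_lit 16131626661) (nat_lit 228) (nat_lit 20331027728) (nat_lit 76) (nat_lit 9814168296) (nat_lit 21) (nat_lit 5) (nat_lit 24) (nat_lit 5) (nat_lit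 22) (nat_lit 4) (nat_lit 379) (nat_lit 267) (nat_lit 134)) (XT.lf (nat_lit 0) (nat_lit 22941914118) (nat_lit 228) (nat_lit 6537079475) (nat_lit 76) (nat_lit 17946871313) (nat_lit 21) (nat_lit 5) (nat_lit 24) (nat_lit 5) (nat_lit 22) (nat_lit 4) (nat_lit 380) (nat_lit 267) (nat_lit 133))) (XT.nd (nat_lit 78) (nat_lit 0) (nat_lit 0) (XT.lf (nat_lit 0) (nat_lit 7807438443) (nat_lit 76) (nat_lit 22215535860) (nat_lit 152) (nat_lit 18584412515) (nat_lit 20) (nat_lit 5) (nat_lit 21) (nat_lit 5) (nat_lit 22) (nat_lit 4) (nat_lit 381) (nat_lit 267) (nat_lit 132)) (XT.lf (nat_lit 0) (nat_lit 22700848537) (nat_lit 76) (nat_lit 14673145258) (nat_lit 152) (nat_lit 12448637048) (nat_lit 20) (nat_lit 5) (nat_lit 21) (nat_lit 5) (nat_lit 22) (nat_lit 4) (nat_lit 382) (nat_lit 267) (nat_lit 131))))) (XT.nd (nat_lit 234) (nat_lit 76) (nat_lit 0) (XT.nd (nat_lit 78) (nat_lit 152) (nat_lit 0) (XT.lf (nat_lit 0) (nat_lit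 38026063765) (nat_lit 76) (nat_lit 6911243033) (nat_lit 152) (nat_lit 6137274715) (nat_lit 20) (nat_lit 5) (nat_lit 21) (nat_lit 5) (nat_lit 22) (nat_lit 4) (nat_lit 383) (nat_lit 267) (nat_lit 130)) (XT.nd (nat_lit 78) (nat_lit 0) (nat_lit 0) (XT.lf (nat_lit 0) (nat_lit 372790203) (nat_lit 152) (nat_lit 50917172428) (nat_lit 76) (nat_lit 1073531748) (nat_lit 18) (nat_lit 5) (nat_lit 20) (nat_lit 5) (nat_lit 19) (nat_lit 4) (nat_lit 384) (nat_lit 267) (nat_lit 129)) (XT.lf (nat_lit 0) (nat_lit 7148254424) (nat_lit 152) (nat_lit 37188887874) (nat_lit 76) (nat_lit 9346307889) (nat_lit 18) (nat_lit 5) (nat_lit 20) (nat_lit 5) (nat_lit 19) (nat_lit 4) (nat_lit 385) (nat_lit 267) (nat_lit 128)))) (XT.nd (nat_lit 156) (nat_lit 76) (nat_lit 0) (XT.nd (nat_lit 78) (nat_lit 0) (nat_lit 0) (XT.lf (nat_lit 0) (nat_lit 14119170249) (nat_lit 152) (nat_lit 23063081968) (nat_lit 76) (nat_lit 17860988789) (nat_lit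 18) (nat_lit 5) (nat_lit 20) (nat_lit 5) (nat_lit 19) (nat_lit 4) (nat_lit 386) (nat_lit 267) (nat_lit 127)) (XT.lf (nat_lit 0) (nat_lit 21291628770) (nat_lit 152) (nat_lit 8527411770) (nat_lit 76) (nat_lit 26625014461) (nat_lit 18) (nat_lit 5) (nat_lit 20) (nat_lit 5) (nat_lit 19) (nat_lit 4) (nat_lit 387) (nat_lit 267) (nat_lit 126))) (XT.nd (nat_lit 78) (nat_lit 0) (nat_lit 0) (XT.lf (nat_lit 0) (nat_lit 6558809792) (nat_lit 76) (nat_lit 22176134684) (nat_lit 152) (nat_lit 29150280290) (nat_lit 17) (nat_lit 5) (nat_lit 18) (nat_lit 5) (nat_lit 19) (nat_lit 4) (nat_lit 388) (nat_lit 267) (nat_lit 125)) (XT.lf (nat_lit 0) (nat_lit 22259049238) (nat_lit 76) (nat_lit 14221342629) (nat_lit 152) (nat_lit 22886874590) (nat_lit 17) (nat_lit 5) (nat_lit 18) (nat_lit 5) (nat_lit 19) (nat_lit 4) (nat_lit 389) (nat_lit 267) (nat_lit 124)))))) (XT.nd (nat_lit 546) (nat_lit 152) (nat_lit 0) (XT.nd (nat_lit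 234) (nat_lit 152) (nat_lit 0) (XT.nd (nat_lit 78) (nat_lit 76) (nat_lit 0) (XT.lf (nat_lit 0) (nat_lit 38417313010) (nat_lit 76) (nat_lit 6033823725) (nat_lit 152) (nat_lit 16442846391) (nat_lit 17) (nat_lit 5) (nat_lit 18) (nat_lit 5) (nat_lit 19) (nat_lit 4) (nat_lit 390) (nat_lit 267) (nat_lit 123)) (XT.nd (nat_lit 78) (nat_lit 76) (nat_lit 0) (XT.lf (nat_lit 0) (nat_lit 52677152324) (nat_lit 152) (nat_lit 7441997334) (nat_lit 0) (nat_lit 2346868878) (nat_lit 17) (nat_lit 5) (nat_lit 19) (nat_lit 4) (nat_lit 17) (nat_lit 4) (nat_lit 391) (nat_lit 267) (nat_lit 122)) (XT.lf (nat_lit 0) (nat_lit 8130239625) (nat_lit 76) (nat_lit 53150888477) (nat_lit 76) (nat_lit 2800153163) (nat_lit 16) (nat_lit 4) (nat_lit 17) (nat_lit 5) (nat_lit 17) (nat_lit 4) (nat_lit 392) (nat_lit 267) (nat_lit 121)))) (XT.nd (nat_lit 156) (nat_lit 76) (nat_lit 0) (XT.nd (nat_lit 78) (nat_lit 0) (nat_lit 0) (XT.lf (nat_lit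 0) (nat_lit 4381586221) (nat_lit 152) (nat_lit 41475971468) (nat_lit 76) (nat_lit 19884101686) (nat_lit 15) (nat_lit 5) (nat_lit 17) (nat_lit 5) (nat_lit 16) (nat_lit 4) (nat_lit 393) (nat_lit 267) (nat_lit 120)) (XT.lf (nat_lit 0) (nat_lit 11715989175) (nat_lit 152) (nat_lit 26606411318) (nat_lit 76) (nat_lit 29128813361) (nat_lit 15) (nat_lit 5) (nat_lit 17) (nat_lit 5) (nat_lit 16) (nat_lit 4) (nat_lit 394) (nat_lit 267) (nat_lit 119))) (XT.nd (nat_lit 78) (nat_lit 76) (nat_lit 0) (XT.lf (nat_lit 0) (nat_lit 19264105475) (nat_lit 152) (nat_lit 11302451585) (nat_lit 76) (nat_lit 38645688932) (nat_lit 15) (nat_lit 5) (nat_lit 17) (nat_lit 5) (nat_lit 16) (nat_lit 4) (nat_lit 395) (nat_lit 267) (nat_lit 118)) (XT.lf (nat_lit 0) (nat_lit 4537829519) (nat_lit 76) (nat_lit 22538321436) (nat_lit 152) (nat_lit 43948834989) (nat_lit 14) (nat_lit 5) (nat_lit 15) (nat_lit 5) (nat_lit 16) (nat_lit 4) (nat_lit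 396) (nat_lit 267) (nat_lit 117))))) (XT.nd (nat_lit 312) (nat_lit 152) (nat_lit 0) (XT.nd (nat_lit 156) (nat_lit 0) (nat_lit 0) (XT.nd (nat_lit 78) (nat_lit 0) (nat_lit 0) (XT.lf (nat_lit 0) (nat_lit 21073772660) (nat_lit 76) (nat_lit 14156853715) (nat_lit 152) (nat_lit 37658241042) (nat_lit 14) (nat_lit 5) (nat_lit 15) (nat_lit 5) (nat_lit 16) (nat_lit 4) (nat_lit 397) (nat_lit 267) (nat_lit 116)) (XT.lf (nat_lit 0) (nat_lit 38094885771) (nat_lit 76) (nat_lit 5528962884) (nat_lit 152) (nat_lit 31184994640) (nat_lit 14) (nat_lit 5) (nat_lit 15) (nat_lit 5) (nat_lit 16) (nat_lit 4) (nat_lit 398) (nat_lit 267) (nat_lit 115))) (XT.nd (nat_lit 78) (nat_lit 0) (nat_lit 0) (XT.lf (nat_lit 0) (nat_lit 52295381709) (nat_lit 152) (nat_lit 21202779589) (nat_lit 0) (nat_lit 3287463028) (nat_lit 14) (nat_lit 5) (nat_lit 16) (nat_lit 4) (nat_lit 14) (nat_lit 4) (nat_lit 399) (nat_lit 267) (nat_lit 114)) (XT.lf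 (nat_lit 0) (nat_lit 61276208026) (nat_lit 152) (nat_lit 5291412915) (nat_lit 0) (nat_lit 12252614691) (nat_lit 14) (nat_lit 5) (nat_lit 16) (nat_lit 4) (nat_lit 14) (nat_lit 4) (nat_lit 400) (nat_lit 267) (nat_lit 113)))) (XT.nd (nat_lit 156) (nat_lit 76) (nat_lit 0) (XT.nd (nat_lit 78) (nat_lit 0) (nat_lit 0) (XT.lf (nat_lit 0) (nat_lit 11307850293) (nat_lit 76) (nat_lit 59321874837) (nat_lit 76) (nat_lit 10283063391) (nat_lit 13) (nat_lit 4) (nat_lit 14) (nat_lit 5) (nat_lit 14) (nat_lit 4) (nat_lit 401) (nat_lit 267) (nat_lit 112)) (XT.lf (nat_lit 0) (nat_lit 28503557856) (nat_lit 76) (nat_lit 51808352876) (nat_lit 76) (nat_lit 2754766566) (nat_lit 13) (nat_lit 4) (nat_lit 14) (nat_lit 5) (nat_lit 14) (nat_lit 4) (nat_lit 402) (nat_lit 267) (nat_lit 111))) (XT.nd (nat_lit 78) (nat_lit 0) (nat_lit 0) (XT.lf (nat_lit 0) (nat_lit 4896557011) (nat_lit 152) (nat_lit 39127920105) (nat_lit 76) (nat_lit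 41259423018) (nat_lit 12) (nat_lit 5) (nat_lit 14) (nat_lit 5) (nat_lit 13) (nat_lit 4) (nat_lit 403) (nat_lit 267) (nat_lit 110)) (XT.lf (nat_lit 0) (nat_lit 12716939345) (nat_lit 152) (nat_lit 23266470694) (nat_lit 76) (nat_lit 51583565843) (nat_lit 12) (nat_lit 5) (nat_lit 14) (nat_lit 5) (nat_lit 13) (nat_lit 4) (nat_lit 404) (nat_lit 267) (nat_lit 109))))))))
noncomputable def xc123 : XT := (XT.nd (nat_lit 31512) (nat_lit 0) (nat_lit 7220) (XT.nd (nat_lit 30420) (nat_lit 0) (nat_lit 17632) (XT.nd (nat_lit 546) (nat_lit 76) (nat_lit 0) (XT.nd (nat_lit 234) (nat_lit 0) (nat_lit 0) (XT.nd (nat_lit 78) (nat_lit 76) (nat_lit 0) (XT.lf (nat_lit 0) (nat_lit 20766969197) (nat_lit 152) (nat_lit 6938431190) (nat_lit 76) (nat_lit 62213293492) (nat_lit 12) (nat_lit 5) (nat_lit 14) (nat_lit 5) (nat_lit 13) (nat_lit 4) (nat_lit 405) (nat_lit 267) (nat_lit 108)) (XT.nd (nat_lit 78) (nat_lit 0) (nat_lit 0)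 (XT.lf (nat_lit 0) (nat_lit 10066907245) (nat_lit 76) (nat_lit 19083542597) (nat_lit 152) (nat_lit 63187756101) (nat_lit 11) (nat_lit 5) (nat_lit 12) (nat_lit 5) (nat_lit 13) (nat_lit 4) (nat_lit 406) (nat_lit 267) (nat_lit 107)) (XT.lf (nat_lit 0) (nat_lit 27715741075) (nat_lit 76) (nat_lit 10134993870) (nat_lit 152) (nat_lit 56977610420) (nat_lit 11) (nat_lit 5) (nat_lit 12) (nat_lit 5) (nat_lit 13) (nat_lit 4) (nat_lit 407) (nat_lit 267) (nat_lit 106)))) (XT.nd (nat_lit 156) (nat_lit 0) (nat_lit 0) (XT.nd (nat_lit 78) (nat_lit 0) (nat_lit 0) (XT.lf (nat_lit 0) (nat_lit 45885403225) (nat_lit 76) (nat_lit 921999634) (nat_lit 152) (nat_lit 50585925850) (nat_lit 11) (nat_lit 5) (nat_lit 12) (nat_lit 5) (nat_lit 13) (nat_lit 4) (nat_lit 408) (nat_lit 267) (nat_lit 105)) (XT.lf (nat_lit 0) (nat_lit 56110597309) (nat_lit 152) (nat_lit 35525944632) (nat_lit 0) (nat_lit 8396385757) (nat_lit 11) (nat_lit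 5) (nat_lit 13) (nat_lit 4) (nat_lit 11) (nat_lit 4) (nat_lit 409) (nat_lit 267) (nat_lit 104))) (XT.nd (nat_lit 78) (nat_lit 0) (nat_lit 0) (XT.lf (nat_lit 0) (nat_lit 65697619754) (nat_lit 152) (nat_lit 19081869351) (nat_lit 0) (nat_lit 17972084498) (nat_lit 11) (nat_lit 5) (nat_lit 13) (nat_lit 4) (nat_lit 11) (nat_lit 4) (nat_lit 410) (nat_lit 267) (nat_lit 103)) (XT.lf (nat_lit 0) (nat_lit 75567984379) (nat_lit 152) (nat_lit 2152468209) (nat_lit 0) (nat_lit 27831455236) (nat_lit 11) (nat_lit 5) (nat_lit 13) (nat_lit 4) (nat_lit 11) (nat_lit 4) (nat_lit 411) (nat_lit 267) (nat_lit 102))))) (XT.nd (nat_lit 29562) (nat_lit 0) (nat_lit 21508) (XT.nd (nat_lit 29406) (nat_lit 0) (nat_lit 22116) (XT.lf (nat_lit 0) (nat_lit 15581094753) (nat_lit 76) (nat_lit 70298996037) (nat_lit 76) (nat_lit 22551793217) (nat_lit 10) (nat_lit 4) (nat_lit 11) (nat_lit 5) (nat_lit 11) (nat_lit 4) (nat_lit 412) (nat_lit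 267) (nat_lit 101)) (XT.nd (nat_lit 78) (nat_lit 0) (nat_lit 0) (XT.lf (nat_lit 0) (nat_lit 357832291) (nat_lit 0) (nat_lit 357832291) (nat_lit 532) (nat_lit 2644380778) (nat_lit 301) (nat_lit 5) (nat_lit 301) (nat_lit 3) (nat_lit 308) (nat_lit 3) (nat_lit 268) (nat_lit 268) (nat_lit 244)) (XT.lf (nat_lit 0) (nat_lit 3514928479) (nat_lit 532) (nat_lit 2850382510) (nat_lit 608) (nat_lit 390651021) (nat_lit 301) (nat_lit 5) (nat_lit 308) (nat_lit 3) (nat_lit 309) (nat_lit 5) (nat_lit 269) (nat_lit 268) (nat_lit 243)))) (XT.nd (nat_lit 156) (nat_lit 0) (nat_lit 0) (XT.nd (nat_lit 78) (nat_lit 608) (nat_lit 0) (XT.lf (nat_lit 76) (nat_lit 355044353) (nat_lit 0) (nat_lit 5236546526) (nat_lit 608) (nat_lit 1203521570) (nat_lit 302) (nat_lit 5) (nat_lit 301) (nat_lit 5) (nat_lit 309) (nat_lit 5) (nat_lit 270) (nat_lit 268) (nat_lit 242)) (XT.lf (nat_lit 0) (nat_lit 827805449) (nat_lit 608) (nat_lit 3172740630)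 (nat_lit 684) (nat_lit 2836241286) (nat_lit 293) (nat_lit 5) (nat_lit 301) (nat_lit 5) (nat_lit 302) (nat_lit 5) (nat_lit 271) (nat_lit 268) (nat_lit 241))) (XT.nd (nat_lit 78) (nat_lit 0) (nat_lit 0) (XT.lf (nat_lit 76) (nat_lit 140380008) (nat_lit 0) (nat_lit 2680238871) (nat_lit 684) (nat_lit 4061103593) (nat_lit 294) (nat_lit 5) (nat_lit 293) (nat_lit 5) (nat_lit 302) (nat_lit 5) (nat_lit 272) (nat_lit 268) (nat_lit 240)) (XT.lf (nat_lit 76) (nat_lit 3575304479) (nat_lit 0) (nat_lit 1255159153) (nat_lit 684) (nat_lit 2098930913) (nat_lit 294) (nat_lit 5) (nat_lit 293) (nat_lit 5) (nat_lit 302) (nat_lit 5) (nat_lit 273) (nat_lit 268) (nat_lit 239)))))) (XT.nd (nat_lit 546) (nat_lit 2508) (nat_lit 0) (XT.nd (nat_lit 234) (nat_lit 760) (nat_lit 0) (XT.nd (nat_lit 78) (nat_lit 684) (nat_lit 0) (XT.lf (nat_lit 76) (nat_lit 90534147) (nat_lit 0) (nat_lit 6740671220) (nat_lit 684) (nat_lit 149476588)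 (nat_lit 295) (nat_lit 5) (nat_lit 294) (nat_lit 5) (nat_lit 303) (nat_lit 5) (nat_lit 274) (nat_lit 268) (nat_lit 238)) (XT.nd (nat_lit 78) (nat_lit 0) (nat_lit 0) (XT.lf (nat_lit 0) (nat_lit 1797405689) (nat_lit 684) (nat_lit 3400922333) (nat_lit 760) (nat_lit 1835485036) (nat_lit 285) (nat_lit 5) (nat_lit 294) (nat_lit 5) (nat_lit 295) (nat_lit 5) (nat_lit 275) (nat_lit 268) (nat_lit 237)) (XT.lf (nat_lit 76) (nat_lit 150697133) (nat_lit 0) (nat_lit 3581099042) (nat_lit 760) (nat_lit 3358828801) (nat_lit 286) (nat_lit 5) (nat_lit 285) (nat_lit 5) (nat_lit 295) (nat_lit 5) (nat_lit 276) (nat_lit 268) (nat_lit 236)))) (XT.nd (nat_lit 156) (nat_lit 0) (nat_lit 76) (XT.nd (nat_lit 78) (nat_lit 760) (nat_lit 0) (XT.lf (nat_lit 76) (nat_lit 3835266165) (nat_lit 0) (nat_lit 1855555657) (nat_lit 760) (nat_lit 1459413041) (nat_lit 286) (nat_lit 5) (nat_lit 285) (nat_lit 5) (nat_lit 295) (nat_lit 5) (nat_lit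 277) (nat_lit 268) (nat_lit 235)) (XT.lf (nat_lit 76) (nat_lit 377872524) (nat_lit 0) (nat_lit 46542366) (nat_lit 836) (nat_lit 6789047455) (nat_lit 276) (nat_lit 5) (nat_lit 275) (nat_lit 5) (nat_lit 286) (nat_lit 5) (nat_lit 278) (nat_lit 268) (nat_lit 234))) (XT.nd (nat_lit 78) (nat_lit 0) (nat_lit 0) (XT.lf (nat_lit 0) (nat_lit 2321924254) (nat_lit 760) (nat_lit 3105655745) (nat_lit 836) (nat_lit 1851062114) (nat_lit 276) (nat_lit 5) (nat_lit 286) (nat_lit 5) (nat_lit 287) (nat_lit 5) (nat_lit 279) (nat_lit 268) (nat_lit 233)) (XT.lf (nat_lit 76) (nat_lit 705520423) (nat_lit 0) (nat_lit 3515197305) (nat_lit 836) (nat_lit 3126810266) (nat_lit 277) (nat_lit 5) (nat_lit 276) (nat_lit 5) (nat_lit 287) (nat_lit 5) (nat_lit 280) (nat_lit 268) (nat_lit 232))))) (XT.nd (nat_lit 234) (nat_lit 1824) (nat_lit 0) (XT.nd (nat_lit 78) (nat_lit 760) (nat_lit 0) (XT.lf (nat_lit 76) (nat_lit 4651163420) (nat_lit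 0) (nat_lit 1495201861) (nat_lit 836) (nat_lit 1273097575) (nat_lit 277) (nat_lit 5) (nat_lit 276) (nat_lit 5) (nat_lit 287) (nat_lit 5) (nat_lit 281) (nat_lit 268) (nat_lit 231)) (XT.nd (nat_lit 78) (nat_lit 0) (nat_lit 0) (XT.lf (nat_lit 0) (nat_lit 580917763) (nat_lit 836) (nat_lit 6305586092) (nat_lit 76) (nat_lit 608229816) (nat_lit 266) (nat_lit 5) (nat_lit 277) (nat_lit 5) (nat_lit 267) (nat_lit 5) (nat_lit 282) (nat_lit 268) (nat_lit 230)) (XT.lf (nat_lit 0) (nat_lit 2449150160) (nat_lit 836) (nat_lit 2322151669) (nat_lit 76) (nat_lit 2801129495) (nat_lit 266) (nat_lit 5) (nat_lit 277) (nat_lit 5) (nat_lit 267) (nat_lit 5) (nat_lit 283) (nat_lit 268) (nat_lit 229)))) (XT.nd (nat_lit 156) (nat_lit 988) (nat_lit 0) (XT.nd (nat_lit 78) (nat_lit 0) (nat_lit 0) (XT.lf (nat_lit 0) (nat_lit 1771561707) (nat_lit 836) (nat_lit 2561760698) (nat_lit 912) (nat_lit 3320411006) (nat_lit 255) (nat_lit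 5) (nat_lit 266) (nat_lit 5) (nat_lit 267) (nat_lit 5) (nat_lit 284) (nat_lit 268) (nat_lit 228)) (XT.lf (nat_lit 0) (nat_lit 5992324037) (nat_lit 836) (nat_lit 249255826) (nat_lit 912) (nat_lit 1496936139) (nat_lit 255) (nat_lit 5) (nat_lit 266) (nat_lit 5) (nat_lit 267) (nat_lit 5) (nat_lit 285) (nat_lit 268) (nat_lit 227))) (XT.nd (nat_lit 78) (nat_lit 0) (nat_lit 0) (XT.lf (nat_lit 0) (nat_lit 364013185) (nat_lit 988) (nat_lit 5331562182) (nat_lit 76) (nat_lit 2130514798) (nat_lit 242) (nat_lit 5) (nat_lit 255) (nat_lit 5) (nat_lit 243) (nat_lit 5) (nat_lit 286) (nat_lit 268) (nat_lit 226)) (XT.lf (nat_lit 0) (nat_lit 2217406602) (nat_lit 988) (nat_lit 1079571796) (nat_lit 76) (nat_lit 4619929898) (nat_lit 242) (nat_lit 5) (nat_lit 255) (nat_lit 5) (nat_lit 243) (nat_lit 5) (nat_lit 287) (nat_lit 268) (nat_lit 225))))))) (XT.nd (nat_lit 1092) (nat_lit 4028) (nat_lit 0) (XT.nd (nat_lit 546) (nat_lit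 2356) (nat_lit 0) (XT.nd (nat_lit 234) (nat_lit 1976) (nat_lit 0) (XT.nd (nat_lit 78) (nat_lit 1064) (nat_lit 0) (XT.lf (nat_lit 0) (nat_lit 3321481321) (nat_lit 988) (nat_lit 784835954) (nat_lit 1064) (nat_lit 3904796863) (nat_lit 229) (nat_lit 5) (nat_lit 242) (nat_lit 5) (nat_lit 243) (nat_lit 5) (nat_lit 288) (nat_lit 268) (nat_lit 224)) (XT.nd (nat_lit 78) (nat_lit 1064) (nat_lit 0) (XT.lf (nat_lit 0) (nat_lit 6029400293) (nat_lit 1064) (nat_lit 293108946) (nat_lit 76) (nat_lit 1786370635) (nat_lit 229) (nat_lit 5) (nat_lit 243) (nat_lit 5) (nat_lit 230) (nat_lit 5) (nat_lit 289) (nat_lit 268) (nat_lit 223)) (XT.lf (nat_lit 0) (nat_lit 4267563365) (nat_lit 1064) (nat_lit 3742053238) (nat_lit 1140) (nat_lit 200035905) (nat_lit 215) (nat_lit 5) (nat_lit 229) (nat_lit 5) (nat_lit 230) (nat_lit 5) (nat_lit 290) (nat_lit 268) (nat_lit 222)))) (XT.nd (nat_lit 156) (nat_lit 760) (nat_lit 0) (XT.nd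 (nat_lit 78) (nat_lit 0) (nat_lit 0) (XT.lf (nat_lit 0) (nat_lit 609019757) (nat_lit 1140) (nat_lit 1052883780) (nat_lit 1216) (nat_lit 6652298574) (nat_lit 199) (nat_lit 5) (nat_lit 214) (nat_lit 5) (nat_lit 215) (nat_lit 5) (nat_lit 291) (nat_lit 268) (nat_lit 221)) (XT.lf (nat_lit 0) (nat_lit 3584575456) (nat_lit 1216) (nat_lit 3107057188) (nat_lit 76) (nat_lit 1729981599) (nat_lit 199) (nat_lit 5) (nat_lit 215) (nat_lit 5) (nat_lit 200) (nat_lit 5) (nat_lit 292) (nat_lit 268) (nat_lit 220))) (XT.nd (nat_lit 78) (nat_lit 0) (nat_lit 0) (XT.lf (nat_lit 0) (nat_lit 1606286002) (nat_lit 760) (nat_lit 3938088119) (nat_lit 836) (nat_lit 2988541999) (nat_lit 189) (nat_lit 5) (nat_lit 199) (nat_lit 5) (nat_lit 200) (nat_lit 5) (nat_lit 293) (nat_lit 268) (nat_lit 219)) (XT.lf (nat_lit 0) (nat_lit 6481503448) (nat_lit 760) (nat_lit 1067356442) (nat_lit 836) (nat_lit 1099169670) (nat_lit 189) (nat_lit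 5) (nat_lit 199) (nat_lit 5) (nat_lit 200) (nat_lit 5) (nat_lit 294) (nat_lit 268) (nat_lit 218))))) (XT.nd (nat_lit 234) (nat_lit 1140) (nat_lit 0) (XT.nd (nat_lit 78) (nat_lit 532) (nat_lit 0) (XT.lf (nat_lit 0) (nat_lit 830564611) (nat_lit 684) (nat_lit 6046679069) (nat_lit 76) (nat_lit 1889148773) (nat_lit 180) (nat_lit 5) (nat_lit 189) (nat_lit 5) (nat_lit 181) (nat_lit 5) (nat_lit 295) (nat_lit 268) (nat_lit 217)) (XT.nd (nat_lit 78) (nat_lit 532) (nat_lit 0) (XT.lf (nat_lit 0) (nat_lit 2785023632) (nat_lit 684) (nat_lit 1156208704) (nat_lit 76) (nat_lit 4947124781) (nat_lit 180) (nat_lit 5) (nat_lit 189) (nat_lit 5) (nat_lit 181) (nat_lit 5) (nat_lit 296) (nat_lit 268) (nat_lit 216)) (XT.lf (nat_lit 0) (nat_lit 3914801469) (nat_lit 532) (nat_lit 878483091) (nat_lit 608) (nat_lit 4220884920) (nat_lit 173) (nat_lit 5) (nat_lit 180) (nat_lit 5) (nat_lit 181) (nat_lit 5) (nat_lit 297) (nat_lit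 268) (nat_lit 215)))) (XT.nd (nat_lit 156) (nat_lit 608) (nat_lit 0) (XT.nd (nat_lit 78) (nat_lit 532) (nat_lit 0) (XT.lf (nat_lit 0) (nat_lit 6853827423) (nat_lit 608) (nat_lit 47193559) (nat_lit 76) (nat_lit 2243016734) (nat_lit 173) (nat_lit 5) (nat_lit 181) (nat_lit 5) (nat_lit 174) (nat_lit 5) (nat_lit 298) (nat_lit 268) (nat_lit 214)) (XT.lf (nat_lit 0) (nat_lit 5207291014) (nat_lit 532) (nat_lit 3787225129) (nat_lit 608) (nat_lit 282777259) (nat_lit 166) (nat_lit 5) (nat_lit 173) (nat_lit 5) (nat_lit 174) (nat_lit 5) (nat_lit 299) (nat_lit 268) (nat_lit 213))) (XT.nd (nat_lit 78) (nat_lit 0) (nat_lit 0) (XT.lf (nat_lit 0) (nat_lit 1168899038) (nat_lit 532) (nat_lit 552787968) (nat_lit 608) (nat_lit 7693234820) (nat_lit 158) (nat_lit 5) (nat_lit 165) (nat_lit 5) (nat_lit 166) (nat_lit 5) (nat_lit 300) (nat_lit 268) (nat_lit 212)) (XT.lf (nat_lit 0) (nat_lit 3809472696) (nat_lit 608) (nat_lit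 2980330333) (nat_lit 76) (nat_lit 2765963733) (nat_lit 158) (nat_lit 5) (nat_lit 166) (nat_lit 5) (nat_lit 159) (nat_lit 5) (nat_lit 301) (nat_lit 268) (nat_lit 211)))))) (XT.nd (nat_lit 546) (nat_lit 2128) (nat_lit 0) (XT.nd (nat_lit 234) (nat_lit 836) (nat_lit 0) (XT.nd (nat_lit 78) (nat_lit 532) (nat_lit 0) (XT.lf (nat_lit 0) (nat_lit 2443437412) (nat_lit 532) (nat_lit 3507216168) (nat_lit 608) (nat_lit 3750497303) (nat_lit 151) (nat_lit 5) (nat_lit 158) (nat_lit 5) (nat_lit 159) (nat_lit 5) (nat_lit 302) (nat_lit 268) (nat_lit 210)) (XT.nd (nat_lit 78) (nat_lit 532) (nat_lit 0) (XT.lf (nat_lit 0) (nat_lit 8049322210) (nat_lit 532) (nat_lit 99355687) (nat_lit 608) (nat_lit 1702476005) (nat_lit 151) (nat_lit 5) (nat_lit 158) (nat_lit 5) (nat_lit 159) (nat_lit 5) (nat_lit 303) (nat_lit 268) (nat_lit 209)) (XT.lf (nat_lit 0) (nat_lit 432388574) (nat_lit 532) (nat_lit 6191060983) (nat_lit 76) (nat_lit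 3381123327) (nat_lit 144) (nat_lit 5) (nat_lit 151) (nat_lit 5) (nat_lit 145) (nat_lit 5) (nat_lit 304) (nat_lit 268) (nat_lit 208)))) (XT.nd (nat_lit 156) (nat_lit 380) (nat_lit 0) (XT.nd (nat_lit 78) (nat_lit 456) (nat_lit 0) (XT.lf (nat_lit 0) (nat_lit 2580283540) (nat_lit 532) (nat_lit 587724554) (nat_lit 76) (nat_lit 6994617174) (nat_lit 144) (nat_lit 5) (nat_lit 151) (nat_lit 5) (nat_lit 145) (nat_lit 5) (nat_lit 305) (nat_lit 268) (nat_lit 207)) (XT.lf (nat_lit 0) (nat_lit 4812138973) (nat_lit 532) (nat_lit 5083814951) (nat_lit 76) (nat_lit 428911235) (nat_lit 138) (nat_lit 5) (nat_lit 145) (nat_lit 5) (nat_lit 139) (nat_lit 5) (nat_lit 306) (nat_lit 268) (nat_lit 206))) (XT.nd (nat_lit 78) (nat_lit 0) (nat_lit 0) (XT.lf (nat_lit 0) (nat_lit 705996335) (nat_lit 380) (nat_lit 6414576244) (nat_lit 456) (nat_lit 3371141715) (nat_lit 133) (nat_lit 5) (nat_lit 138) (nat_lit 5) (nat_lit 139) (nat_lit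 5) (nat_lit 307) (nat_lit 268) (nat_lit 205)) (XT.lf (nat_lit 0) (nat_lit 6732823245) (nat_lit 380) (nat_lit 2782860984) (nat_lit 456) (nat_lit 1147391750) (nat_lit 133) (nat_lit 5) (nat_lit 138) (nat_lit 5) (nat_lit 139) (nat_lit 5) (nat_lit 308) (nat_lit 268) (nat_lit 204))))) (XT.nd (nat_lit 312) (nat_lit 1216) (nat_lit 0) (XT.nd (nat_lit 156) (nat_lit 380) (nat_lit 0) (XT.nd (nat_lit 78) (nat_lit 0) (nat_lit 0) (XT.lf (nat_lit 0) (nat_lit 1117026583) (nat_lit 532) (nat_lit 8758832680) (nat_lit 76) (nat_lit 963529891) (nat_lit 126) (nat_lit 5) (nat_lit 133) (nat_lit 5) (nat_lit 127) (nat_lit 5) (nat_lit 309) (nat_lit 268) (nat_lit 203)) (XT.lf (nat_lit 0) (nat_lit 3461186336) (nat_lit 532) (nat_lit 2747784384) (nat_lit 76) (nat_lit 4810661383) (nat_lit 126) (nat_lit 5) (nat_lit 133) (nat_lit 5) (nat_lit 127) (nat_lit 5) (nat_lit 310) (nat_lit 268) (nat_lit 202))) (XT.nd (nat_lit 78) (nat_lit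 0) (nat_lit 0) (XT.lf (nat_lit 0) (nat_lit 3471597726) (nat_lit 380) (nat_lit 2405634986) (nat_lit 456) (nat_lit 5328029273) (nat_lit 121) (nat_lit 5) (nat_lit 126) (nat_lit 5) (nat_lit 127) (nat_lit 5) (nat_lit 311) (nat_lit 268) (nat_lit 201)) (XT.lf (nat_lit 0) (nat_lit 8376975951) (nat_lit 456) (nat_lit 1516784426) (nat_lit 76) (nat_lit 1502389652) (nat_lit 121) (nat_lit 5) (nat_lit 127) (nat_lit 5) (nat_lit 122) (nat_lit 5) (nat_lit 312) (nat_lit 268) (nat_lit 200)))) (XT.nd (nat_lit 156) (nat_lit 760) (nat_lit 0) (XT.nd (nat_lit 78) (nat_lit 76) (nat_lit 0) (XT.lf (nat_lit 0) (nat_lit 4919719859) (nat_lit 380) (nat_lit 6072675091) (nat_lit 456) (nat_lit 599174242) (nat_lit 116) (nat_lit 5) (nat_lit 121) (nat_lit 5) (nat_lit 122) (nat_lit 5) (nat_lit 313) (nat_lit 268) (nat_lit 199)) (XT.lf (nat_lit 0) (nat_lit 1841714595) (nat_lit 456) (nat_lit 269639432) (nat_lit 76) (nat_lit 9681417329)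 (nat_lit 115) (nat_lit 5) (nat_lit 121) (nat_lit 5) (nat_lit 116) (nat_lit 5) (nat_lit 314) (nat_lit 268) (nat_lit 198))) (XT.nd (nat_lit 78) (nat_lit 380) (nat_lit 0) (XT.lf (nat_lit 0) (nat_lit 4395519177) (nat_lit 456) (nat_lit 5612859969) (nat_lit 76) (nat_lit 1989923370) (nat_lit 110) (nat_lit 5) (nat_lit 116) (nat_lit 5) (nat_lit 111) (nat_lit 5) (nat_lit 315) (nat_lit 268) (nat_lit 197)) (XT.lf (nat_lit 0) (nat_lit 995693946) (nat_lit 380) (nat_lit 6034524158) (nat_lit 456) (nat_lit 5179675294) (nat_lit 105) (nat_lit 5) (nat_lit 110) (nat_lit 5) (nat_lit 111) (nat_lit 5) (nat_lit 316) (nat_lit 268) (nat_lit 196))))))))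
noncomputable def xc124 : XT := (XT.nd (nat_lit 2184) (nat_lit 2128) (nat_lit 0) (XT.nd (nat_lit 1092) (nat_lit 1748) (nat_lit 0) (XT.nd (nat_lit 546) (nat_lit 1140) (nat_lit 0) (XT.nd (nat_lit 234) (nat_lit 684) (nat_lit 0) (XT.nd (nat_lit 78) (nat_lit 380) (nat_lit 0) (XT.lf (nat_lit 0) (nat_lit 7879350367) (nat_lit 380) (nat_lit 1892816966) (nat_lit 456) (nat_lit 2654839943) (nat_lit 105) (nat_lit 5) (nat_lit 110) (nat_lit 5) (nat_lit 111) (nat_lit 5) (nat_lit 317) (nat_lit 268) (nat_lit 195)) (XT.nd (nat_lit 78) (nat_lit 76) (nat_lit 0) (XT.lf (nat_lit 0) (nat_lit 2303154189) (nat_lit 304) (nat_lit 10310441002) (nat_lit 380) (nat_lit 36543694) (nat_lit 101) (nat_lit 5) (nat_lit 105) (nat_lit 5) (nat_lit 106) (nat_lit 5) (nat_lit 318) (nat_lit 268) (nat_lit 194)) (XT.lf (nat_lit 0) (nat_lit 2645933276) (nat_lit 380) (nat_lit 3508698327) (nat_lit 76) (nat_lit 6723459069) (nat_lit 100) (nat_lit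 5) (nat_lit 105) (nat_lit 5) (nat_lit 101) (nat_lit 5) (nat_lit 319) (nat_lit 268) (nat_lit 193)))) (XT.nd (nat_lit 156) (nat_lit 380) (nat_lit 0) (XT.nd (nat_lit 78) (nat_lit 0) (nat_lit 0) (XT.lf (nat_lit 0) (nat_lit 3567033098) (nat_lit 304) (nat_lit 1848634637) (nat_lit 380) (nat_lit 7696996038) (nat_lit 96) (nat_lit 5) (nat_lit 100) (nat_lit 5) (nat_lit 101) (nat_lit 5) (nat_lit 320) (nat_lit 268) (nat_lit 192)) (XT.lf (nat_lit 0) (nat_lit 8302698195) (nat_lit 380) (nat_lit 2488759589) (nat_lit 76) (nat_lit 2561808751) (nat_lit 96) (nat_lit 5) (nat_lit 101) (nat_lit 5) (nat_lit 97) (nat_lit 5) (nat_lit 321) (nat_lit 268) (nat_lit 191))) (XT.nd (nat_lit 78) (nat_lit 76) (nat_lit 0) (XT.lf (nat_lit 0) (nat_lit 4819347865) (nat_lit 304) (nat_lit 6495950434) (nat_lit 380) (nat_lit 2284638366) (nat_lit 92) (nat_lit 5) (nat_lit 96) (nat_lit 5) (nat_lit 97) (nat_lit 5) (nat_lit 322) (nat_lit 268)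 (nat_lit 190)) (XT.lf (nat_lit 0) (nat_lit 553103584) (nat_lit 380) (nat_lit 1497589717) (nat_lit 76) (nat_lit 11803172534) (nat_lit 91) (nat_lit 5) (nat_lit 96) (nat_lit 5) (nat_lit 92) (nat_lit 5) (nat_lit 323) (nat_lit 268) (nat_lit 189))))) (XT.nd (nat_lit 234) (nat_lit 608) (nat_lit 0) (XT.nd (nat_lit 78) (nat_lit 228) (nat_lit 0) (XT.lf (nat_lit 0) (nat_lit 3488560735) (nat_lit 380) (nat_lit 8074450089) (nat_lit 76) (nat_lit 2549984910) (nat_lit 87) (nat_lit 5) (nat_lit 92) (nat_lit 5) (nat_lit 88) (nat_lit 5) (nat_lit 324) (nat_lit 268) (nat_lit 188)) (XT.nd (nat_lit 78) (nat_lit 228) (nat_lit 0) (XT.lf (nat_lit 0) (nat_lit 6523150596) (nat_lit 380) (nat_lit 604055540) (nat_lit 76) (nat_lit 7252377355) (nat_lit 87) (nat_lit 5) (nat_lit 92) (nat_lit 5) (nat_lit 88) (nat_lit 5) (nat_lit 325) (nat_lit 268) (nat_lit 187)) (XT.lf (nat_lit 0) (nat_lit 7196293677) (nat_lit 228) (nat_lit 2497866112)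 (nat_lit 304) (nat_lit 4958663210) (nat_lit 84) (nat_lit 5) (nat_lit 87) (nat_lit 5) (nat_lit 88) (nat_lit 5) (nat_lit 326) (nat_lit 268) (nat_lit 186)))) (XT.nd (nat_lit 156) (nat_lit 228) (nat_lit 0) (XT.nd (nat_lit 78) (nat_lit 76) (nat_lit 0) (XT.lf (nat_lit 0) (nat_lit 257236620) (nat_lit 304) (nat_lit 12709985910) (nat_lit 380) (nat_lit 1966844579) (nat_lit 80) (nat_lit 5) (nat_lit 84) (nat_lit 5) (nat_lit 85) (nat_lit 5) (nat_lit 327) (nat_lit 268) (nat_lit 185)) (XT.lf (nat_lit 0) (nat_lit 1170325539) (nat_lit 380) (nat_lit 6937411344) (nat_lit 76) (nat_lit 7113383962) (nat_lit 79) (nat_lit 5) (nat_lit 84) (nat_lit 5) (nat_lit 80) (nat_lit 5) (nat_lit 328) (nat_lit 268) (nat_lit 184))) (XT.nd (nat_lit 78) (nat_lit 0) (nat_lit 0) (XT.lf (nat_lit 0) (nat_lit 1000258153) (nat_lit 228) (nat_lit 3348694439) (nat_lit 304) (nat_lit 11167657016) (nat_lit 76) (nat_lit 5) (nat_lit 79) (nat_lit 5)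 (nat_lit 80) (nat_lit 5) (nat_lit 329) (nat_lit 268) (nat_lit 183)) (XT.lf (nat_lit 0) (nat_lit 7686105127) (nat_lit 304) (nat_lit 6550438171) (nat_lit 76) (nat_lit 1582538165) (nat_lit 76) (nat_lit 5) (nat_lit 80) (nat_lit 5) (nat_lit 77) (nat_lit 5) (nat_lit 330) (nat_lit 268) (nat_lit 182)))))) (XT.nd (nat_lit 546) (nat_lit 760) (nat_lit 0) (XT.nd (nat_lit 234) (nat_lit 456) (nat_lit 0) (XT.nd (nat_lit 78) (nat_lit 304) (nat_lit 0) (XT.lf (nat_lit 0) (nat_lit 1619678126) (nat_lit 228) (nat_lit 9530563769) (nat_lit 304) (nat_lit 4979592526) (nat_lit 73) (nat_lit 5) (nat_lit 76) (nat_lit 5) (nat_lit 77) (nat_lit 5) (nat_lit 331) (nat_lit 268) (nat_lit 181)) (XT.nd (nat_lit 78) (nat_lit 304) (nat_lit 0) (XT.lf (nat_lit 0) (nat_lit 10136276457) (nat_lit 228) (nat_lit 4626638130) (nat_lit 304) (nat_lit 1685669682) (nat_lit 73) (nat_lit 5) (nat_lit 76) (nat_lit 5) (nat_lit 77) (nat_lit 5) (nat_lit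 332) (nat_lit 268) (nat_lit 180)) (XT.lf (nat_lit 0) (nat_lit 1677387889) (nat_lit 304) (nat_lit 14656630454) (nat_lit 76) (nat_lit 442289074) (nat_lit 69) (nat_lit 5) (nat_lit 73) (nat_lit 5) (nat_lit 70) (nat_lit 5) (nat_lit 333) (nat_lit 268) (nat_lit 179)))) (XT.nd (nat_lit 156) (nat_lit 228) (nat_lit 0) (XT.nd (nat_lit 78) (nat_lit 228) (nat_lit 0) (XT.lf (nat_lit 0) (nat_lit 5196710833) (nat_lit 304) (nat_lit 6273645756) (nat_lit 76) (nat_lit 5640338942) (nat_lit 69) (nat_lit 5) (nat_lit 73) (nat_lit 5) (nat_lit 70) (nat_lit 5) (nat_lit 334) (nat_lit 268) (nat_lit 178)) (XT.lf (nat_lit 0) (nat_lit 2375549096) (nat_lit 228) (nat_lit 6448581734) (nat_lit 304) (nat_lit 8630920182) (nat_lit 66) (nat_lit 5) (nat_lit 69) (nat_lit 5) (nat_lit 70) (nat_lit 5) (nat_lit 335) (nat_lit 268) (nat_lit 177))) (XT.nd (nat_lit 78) (nat_lit 228) (nat_lit 0) (XT.lf (nat_lit 0) (nat_lit 11381498622) (nat_lit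 228) (nat_lit 1222199131) (nat_lit 304) (nat_lit 5204750594) (nat_lit 66) (nat_lit 5) (nat_lit 69) (nat_lit 5) (nat_lit 70) (nat_lit 5) (nat_lit 336) (nat_lit 268) (nat_lit 176)) (XT.lf (nat_lit 0) (nat_lit 2462329238) (nat_lit 228) (nat_lit 14078440382) (nat_lit 304) (nat_lit 1630365044) (nat_lit 63) (nat_lit 5) (nat_lit 66) (nat_lit 5) (nat_lit 67) (nat_lit 5) (nat_lit 337) (nat_lit 268) (nat_lit 175))))) (XT.nd (nat_lit 234) (nat_lit 456) (nat_lit 0) (XT.nd (nat_lit 78) (nat_lit 228) (nat_lit 0) (XT.lf (nat_lit 0) (nat_lit 2069392930) (nat_lit 304) (nat_lit 6856178786) (nat_lit 76) (nat_lit 9616803264) (nat_lit 62) (nat_lit 5) (nat_lit 66) (nat_lit 5) (nat_lit 63) (nat_lit 5) (nat_lit 338) (nat_lit 268) (nat_lit 174)) (XT.nd (nat_lit 78) (nat_lit 0) (nat_lit 0) (XT.lf (nat_lit 0) (nat_lit 2259890305) (nat_lit 228) (nat_lit 3590300329) (nat_lit 304) (nat_lit 13074002834) (nat_lit 59) (nat_lit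 5) (nat_lit 62) (nat_lit 5) (nat_lit 63) (nat_lit 5) (nat_lit 339) (nat_lit 268) (nat_lit 173)) (XT.lf (nat_lit 0) (nat_lit 9813893345) (nat_lit 304) (nat_lit 7574660063) (nat_lit 76) (nat_lit 1926838089) (nat_lit 59) (nat_lit 5) (nat_lit 63) (nat_lit 5) (nat_lit 60) (nat_lit 5) (nat_lit 340) (nat_lit 268) (nat_lit 172)))) (XT.nd (nat_lit 156) (nat_lit 304) (nat_lit 0) (XT.nd (nat_lit 78) (nat_lit 0) (nat_lit 0) (XT.lf (nat_lit 0) (nat_lit 1757032986) (nat_lit 152) (nat_lit 12173706811) (nat_lit 228) (nat_lit 5786567833) (nat_lit 57) (nat_lit 5) (nat_lit 59) (nat_lit 5) (nat_lit 60) (nat_lit 5) (nat_lit 341) (nat_lit 268) (nat_lit 171)) (XT.lf (nat_lit 0) (nat_lit 11494860094) (nat_lit 152) (nat_lit 6734766821) (nat_lit 228) (nat_lit 1899907152) (nat_lit 57) (nat_lit 5) (nat_lit 59) (nat_lit 5) (nat_lit 60) (nat_lit 5) (nat_lit 342) (nat_lit 268) (nat_lit 170))) (XT.nd (nat_lit 78) (nat_lit 0) (nat_lit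 0) (XT.lf (nat_lit 0) (nat_lit 940221665) (nat_lit 228) (nat_lit 1113513623) (nat_lit 304) (nat_lit 18500051037) (nat_lit 53) (nat_lit 5) (nat_lit 56) (nat_lit 5) (nat_lit 57) (nat_lit 5) (nat_lit 343) (nat_lit 268) (nat_lit 169)) (XT.lf (nat_lit 0) (nat_lit 6203332954) (nat_lit 304) (nat_lit 10102155335) (nat_lit 76) (nat_lit 4681255691) (nat_lit 53) (nat_lit 5) (nat_lit 57) (nat_lit 5) (nat_lit 54) (nat_lit 5) (nat_lit 344) (nat_lit 268) (nat_lit 168))))))) (XT.nd (nat_lit 1092) (nat_lit 988) (nat_lit 0) (XT.nd (nat_lit 546) (nat_lit 532) (nat_lit 0) (XT.nd (nat_lit 234) (nat_lit 456) (nat_lit 0) (XT.nd (nat_lit 78) (nat_lit 152) (nat_lit 0) (XT.lf (nat_lit 0) (nat_lit 10471475894) (nat_lit 304) (nat_lit 344336429) (nat_lit 76) (nat_lit 10617064209) (nat_lit 53) (nat_lit 5) (nat_lit 57) (nat_lit 5) (nat_lit 54) (nat_lit 5) (nat_lit 345) (nat_lit 268) (nat_lit 167)) (XT.nd (nat_lit 78) (nat_lit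 0) (nat_lit 0) (XT.lf (nat_lit 0) (nat_lit 9871755588) (nat_lit 152) (nat_lit 5074327544) (nat_lit 228) (nat_lit 6943964986) (nat_lit 51) (nat_lit 5) (nat_lit 53) (nat_lit 5) (nat_lit 54) (nat_lit 5) (nat_lit 346) (nat_lit 268) (nat_lit 166)) (XT.lf (nat_lit 0) (nat_lit 19550155863) (nat_lit 228) (nat_lit 1994767506) (nat_lit 76) (nat_lit 816162099) (nat_lit 51) (nat_lit 5) (nat_lit 54) (nat_lit 5) (nat_lit 52) (nat_lit 5) (nat_lit 347) (nat_lit 268) (nat_lit 165)))) (XT.nd (nat_lit 156) (nat_lit 152) (nat_lit 0) (XT.nd (nat_lit 78) (nat_lit 0) (nat_lit 0) (XT.lf (nat_lit 0) (nat_lit 1534286311) (nat_lit 304) (nat_lit 14440805539) (nat_lit 76) (nat_lit 6867259832) (nat_lit 47) (nat_lit 5) (nat_lit 51) (nat_lit 5) (nat_lit 48) (nat_lit 5) (nat_lit 348) (nat_lit 268) (nat_lit 164)) (XT.lf (nat_lit 0) (nat_lit 5957876553) (nat_lit 304) (nat_lit 4241334455) (nat_lit 76) (nat_lit 13137881307) (nat_lit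 47) (nat_lit 5) (nat_lit 51) (nat_lit 5) (nat_lit 48) (nat_lit 5) (nat_lit 349) (nat_lit 268) (nat_lit 163))) (XT.nd (nat_lit 78) (nat_lit 0) (nat_lit 0) (XT.lf (nat_lit 0) (nat_lit 6362556350) (nat_lit 152) (nat_lit 4197412014) (nat_lit 228) (nat_lit 13285339593) (nat_lit 45) (nat_lit 5) (nat_lit 47) (nat_lit 5) (nat_lit 48) (nat_lit 5) (nat_lit 350) (nat_lit 268) (nat_lit 162)) (XT.lf (nat_lit 0) (nat_lit 15347188587) (nat_lit 228) (nat_lit 7041308750) (nat_lit 76) (nat_lit 1978867173) (nat_lit 45) (nat_lit 5) (nat_lit 48) (nat_lit 5) (nat_lit 46) (nat_lit 5) (nat_lit 351) (nat_lit 268) (nat_lit 161))))) (XT.nd (nat_lit 234) (nat_lit 152) (nat_lit 0) (XT.nd (nat_lit 78) (nat_lit 228) (nat_lit 0) (XT.lf (nat_lit 0) (nat_lit 3719317573) (nat_lit 152) (nat_lit 16621200080) (nat_lit 228) (nat_lit 4562696569) (nat_lit 43) (nat_lit 5) (nat_lit 45) (nat_lit 5) (nat_lit 46) (nat_lit 5) (nat_lit 352) (nat_lit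 268) (nat_lit 160)) (XT.nd (nat_lit 78) (nat_lit 152) (nat_lit 0) (XT.lf (nat_lit 0) (nat_lit 84981807) (nat_lit 228) (nat_lit 10532014379) (nat_lit 76) (nat_lit 14836429958) (nat_lit 42) (nat_lit 5) (nat_lit 45) (nat_lit 5) (nat_lit 43) (nat_lit 5) (nat_lit 353) (nat_lit 268) (nat_lit 159)) (XT.lf (nat_lit 0) (nat_lit 377209226) (nat_lit 152) (nat_lit 4392455486) (nat_lit 228) (nat_lit 21249451757) (nat_lit 40) (nat_lit 5) (nat_lit 42) (nat_lit 5) (nat_lit 43) (nat_lit 5) (nat_lit 354) (nat_lit 268) (nat_lit 158)))) (XT.nd (nat_lit 156) (nat_lit 152) (nat_lit 0) (XT.nd (nat_lit 78) (nat_lit 0) (nat_lit 0) (XT.lf (nat_lit 0) (nat_lit 9707443298) (nat_lit 228) (nat_lit 14813936179) (nat_lit 76) (nat_lit 2077026905) (nat_lit 40) (nat_lit 5) (nat_lit 43) (nat_lit 5) (nat_lit 41) (nat_lit 5) (nat_lit 355) (nat_lit 268) (nat_lit 157)) (XT.lf (nat_lit 0) (nat_lit 14823003496) (nat_lit 228) (nat_lit 3728397795)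 (nat_lit 76) (nat_lit 8642789624) (nat_lit 40) (nat_lit 5) (nat_lit 43) (nat_lit 5) (nat_lit 41) (nat_lit 5) (nat_lit 356) (nat_lit 268) (nat_lit 156))) (XT.nd (nat_lit 78) (nat_lit 0) (nat_lit 0) (XT.lf (nat_lit 0) (nat_lit 7819197984) (nat_lit 152) (nat_lit 12334557173) (nat_lit 228) (nat_lit 7652247301) (nat_lit 38) (nat_lit 5) (nat_lit 40) (nat_lit 5) (nat_lit 41) (nat_lit 5) (nat_lit 357) (nat_lit 268) (nat_lit 155)) (XT.lf (nat_lit 0) (nat_lit 19766787034) (nat_lit 152) (nat_lit 5902025219) (nat_lit 228) (nat_lit 2766629672) (nat_lit 38) (nat_lit 5) (nat_lit 40) (nat_lit 5) (nat_lit 41) (nat_lit 5) (nat_lit 358) (nat_lit 268) (nat_lit 154)))))) (XT.nd (nat_lit 546) (nat_lit 456) (nat_lit 0) (XT.nd (nat_lit 234) (nat_lit 304) (nat_lit 0) (XT.nd (nat_lit 78) (nat_lit 0) (nat_lit 0) (XT.lf (nat_lit 0) (nat_lit 2244570549) (nat_lit 228) (nat_lit 26086597847) (nat_lit 76) (nat_lit 751250917) (nat_lit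 35) (nat_lit 5) (nat_lit 38) (nat_lit 5) (nat_lit 36) (nat_lit 5) (nat_lit 359) (nat_lit 268) (nat_lit 153)) (XT.nd (nat_lit 78) (nat_lit 0) (nat_lit 0) (XT.lf (nat_lit 0) (nat_lit 7484401624) (nat_lit 228) (nat_lit 14667484340) (nat_lit 76) (nat_lit 7592085879) (nat_lit 35) (nat_lit 5) (nat_lit 38) (nat_lit 5) (nat_lit 36) (nat_lit 5) (nat_lit 360) (nat_lit 268) (nat_lit 152)) (XT.lf (nat_lit 0) (nat_lit 12868866813) (nat_lit 228) (nat_lit 2927681398) (nat_lit 76) (nat_lit 14629204062) (nat_lit 35) (nat_lit 5) (nat_lit 38) (nat_lit 5) (nat_lit 36) (nat_lit 5) (nat_lit 361) (nat_lit 268) (nat_lit 151)))) (XT.nd (nat_lit 156) (nat_lit 152) (nat_lit 0) (XT.nd (nat_lit 78) (nat_lit 0) (nat_lit 0) (XT.lf (nat_lit 0) (nat_lit 9325034060) (nat_lit 152) (nat_lit 9167274857) (nat_lit 228) (nat_lit 12633358275) (nat_lit 33) (nat_lit 5) (nat_lit 35) (nat_lit 5) (nat_lit 36) (nat_lit 5) (nat_lit 362) (nat_lit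 268) (nat_lit 150)) (XT.lf (nat_lit 0) (nat_lit 21984307309) (nat_lit 152) (nat_lit 2317668810) (nat_lit 228) (nat_lit 7544082028) (nat_lit 33) (nat_lit 5) (nat_lit 35) (nat_lit 5) (nat_lit 36) (nat_lit 5) (nat_lit 363) (nat_lit 268) (nat_lit 149))) (XT.nd (nat_lit 78) (nat_lit 76) (nat_lit 0) (XT.lf (nat_lit 0) (nat_lit 2416211479) (nat_lit 76) (nat_lit 27926711760) (nat_lit 152) (nat_lit 2243432008) (nat_lit 32) (nat_lit 5) (nat_lit 33) (nat_lit 5) (nat_lit 34) (nat_lit 4) (nat_lit 364) (nat_lit 268) (nat_lit 148)) (XT.lf (nat_lit 0) (nat_lit 3265246361) (nat_lit 152) (nat_lit 18156785676) (nat_lit 76) (nat_lit 11922552535) (nat_lit 31) (nat_lit 5) (nat_lit 33) (nat_lit 5) (nat_lit 32) (nat_lit 5) (nat_lit 365) (nat_lit 268) (nat_lit 147))))) (XT.nd (nat_lit 312) (nat_lit 304) (nat_lit 0) (XT.nd (nat_lit 156) (nat_lit 0) (nat_lit 0) (XT.nd (nat_lit 78) (nat_lit 152) (nat_lit 0) (XT.lf (nat_lit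 0) (nat_lit 8882688185) (nat_lit 152) (nat_lit 5825366409) (nat_lit 76) (nat_lit 19417185766) (nat_lit 31) (nat_lit 5) (nat_lit 33) (nat_lit 5) (nat_lit 32) (nat_lit 5) (nat_lit 366) (nat_lit 268) (nat_lit 146)) (XT.lf (nat_lit 0) (nat_lit 6992911182) (nat_lit 152) (nat_lit 7731888306) (nat_lit 228) (nat_lit 20202835606) (nat_lit 29) (nat_lit 5) (nat_lit 31) (nat_lit 5) (nat_lit 32) (nat_lit 5) (nat_lit 367) (nat_lit 268) (nat_lit 145))) (XT.nd (nat_lit 78) (nat_lit 0) (nat_lit 0) (XT.lf (nat_lit 0) (nat_lit 20295801844) (nat_lit 152) (nat_lit 494259689) (nat_lit 228) (nat_lit 14962607065) (nat_lit 29) (nat_lit 5) (nat_lit 31) (nat_lit 5) (nat_lit 32) (nat_lit 5) (nat_lit 368) (nat_lit 268) (nat_lit 144)) (XT.lf (nat_lit 0) (nat_lit 27093492683) (nat_lit 228) (nat_lit 2690611926) (nat_lit 76) (nat_lit 6816665607) (nat_lit 29) (nat_lit 5) (nat_lit 32) (nat_lit 5) (nat_lit 30) (nat_lit 4) (nat_lit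 369) (nat_lit 268) (nat_lit 143)))) (XT.nd (nat_lit 156) (nat_lit 152) (nat_lit 0) (XT.nd (nat_lit 78) (nat_lit 76) (nat_lit 0) (XT.lf (nat_lit 0) (nat_lit 10642943828) (nat_lit 76) (nat_lit 23039897340) (nat_lit 152) (nat_lit 3788572632) (nat_lit 28) (nat_lit 5) (nat_lit 29) (nat_lit 5) (nat_lit 30) (nat_lit 4) (nat_lit 370) (nat_lit 268) (nat_lit 142)) (XT.lf (nat_lit 0) (nat_lit 2077756858) (nat_lit 152) (nat_lit 13974675715) (nat_lit 76) (nat_lit 22314628938) (nat_lit 27) (nat_lit 5) (nat_lit 29) (nat_lit 5) (nat_lit 28) (nat_lit 5) (nat_lit 371) (nat_lit 268) (nat_lit 141))) (XT.nd (nat_lit 78) (nat_lit 152) (nat_lit 0) (XT.lf (nat_lit 0) (nat_lit 8033867670) (nat_lit 152) (nat_lit 790742824) (nat_lit 76) (nat_lit 30464147764) (nat_lit 27) (nat_lit 5) (nat_lit 29) (nat_lit 5) (nat_lit 28) (nat_lit 5) (nat_lit 372) (nat_lit 268) (nat_lit 140)) (XT.lf (nat_lit 0) (nat_lit 13025439967) (nat_lit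 152) (nat_lit 1258661400) (nat_lit 228) (nat_lit 25950544327) (nat_lit 25) (nat_lit 5) (nat_lit 27) (nat_lit 5) (nat_lit 28) (nat_lit 5) (nat_lit 373) (nat_lit 268) (nat_lit 139))))))))
noncomputable def xc125 : XT := (XT.nd (nat_lit 2184) (nat_lit 228) (nat_lit 0) (XT.nd (nat_lit 1092) (nat_lit 304) (nat_lit 0) (XT.nd (nat_lit 546) (nat_lit 228) (nat_lit 0) (XT.nd (nat_lit 234) (nat_lit 228) (nat_lit 0) (XT.nd (nat_lit 78) (nat_lit 76) (nat_lit 0) (XT.lf (nat_lit 0) (nat_lit 20782993787) (nat_lit 228) (nat_lit 14016732426) (nat_lit 76) (nat_lit 6407351877) (nat_lit 25) (nat_lit 5) (nat_lit 28) (nat_lit 5) (nat_lit 26) (nat_lit 4) (nat_lit 374) (nat_lit 268) (nat_lit 138)) (XT.nd (nat_lit 78) (nat_lit 76) (nat_lit 0) (XT.lf (nat_lit 0) (nat_lit 27479874521) (nat_lit 228) (nat_lit 457927010) (nat_lit 76) (nat_lit 14270794083) (nat_lit 25) (nat_lit 5) (nat_lit 28) (nat_lit 5) (nat_lit 26) (nat_lit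 4) (nat_lit 375) (nat_lit 268) (nat_lit 137)) (XT.lf (nat_lit 0) (nat_lit 13759657521) (nat_lit 76) (nat_lit 20741104915) (nat_lit 152) (nat_lit 8735705926) (nat_lit 24) (nat_lit 5) (nat_lit 25) (nat_lit 5) (nat_lit 26) (nat_lit 4) (nat_lit 376) (nat_lit 268) (nat_lit 136)))) (XT.nd (nat_lit 156) (nat_lit 152) (nat_lit 0) (XT.nd (nat_lit 78) (nat_lit 76) (nat_lit 0) (XT.lf (nat_lit 0) (nat_lit 28396832742) (nat_lit 76) (nat_lit 13331012967) (nat_lit 152) (nat_lit 2567467165) (nat_lit 24) (nat_lit 5) (nat_lit 25) (nat_lit 5) (nat_lit 26) (nat_lit 4) (nat_lit 377) (nat_lit 268) (nat_lit 135)) (XT.lf (nat_lit 0) (nat_lit 3703062541) (nat_lit 152) (nat_lit 1965218801) (nat_lit 76) (nat_lit 39716818558) (nat_lit 23) (nat_lit 5) (nat_lit 25) (nat_lit 5) (nat_lit 24) (nat_lit 5) (nat_lit 378) (nat_lit 268) (nat_lit 134))) (XT.nd (nat_lit 78) (nat_lit 0) (nat_lit 0) (XT.lf (nat_lit 0) (nat_lit 10245276954)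 (nat_lit 228) (nat_lit 33935463157) (nat_lit 76) (nat_lit 2322025060) (nat_lit 21) (nat_lit 5) (nat_lit 24) (nat_lit 5) (nat_lit 22) (nat_lit 4) (nat_lit 379) (nat_lit 268) (nat_lit 133)) (XT.lf (nat_lit 0) (nat_lit 17051334969) (nat_lit 228) (nat_lit 20149199646) (nat_lit 76) (nat_lit 10451400818) (nat_lit 21) (nat_lit 5) (nat_lit 24) (nat_lit 5) (nat_lit 22) (nat_lit 4) (nat_lit 380) (nat_lit 268) (nat_lit 132))))) (XT.nd (nat_lit 234) (nat_lit 152) (nat_lit 0) (XT.nd (nat_lit 78) (nat_lit 76) (nat_lit 0) (XT.lf (nat_lit 0) (nat_lit 24053239025) (nat_lit 228) (nat_lit 5964493886) (nat_lit 76) (nat_lit 18818100241) (nat_lit 21) (nat_lit 5) (nat_lit 24) (nat_lit 5) (nat_lit 22) (nat_lit 4) (nat_lit 381) (nat_lit 268) (nat_lit 131)) (XT.nd (nat_lit 78) (nat_lit 0) (nat_lit 0) (XT.lf (nat_lit 0) (nat_lit 8802823316) (nat_lit 76) (nat_lit 22538902099) (nat_lit 152) (nat_lit 18711228845) (nat_lit 20)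 (nat_lit 5) (nat_lit 21) (nat_lit 5) (nat_lit 22) (nat_lit 4) (nat_lit 382) (nat_lit 268) (nat_lit 130)) (XT.lf (nat_lit 0) (nat_lit 24120865954) (nat_lit 76) (nat_lit 14780232977) (nat_lit 152) (nat_lit 12403925241) (nat_lit 20) (nat_lit 5) (nat_lit 21) (nat_lit 5) (nat_lit 22) (nat_lit 4) (nat_lit 383) (nat_lit 268) (nat_lit 129)))) (XT.nd (nat_lit 156) (nat_lit 0) (nat_lit 0) (XT.nd (nat_lit 78) (nat_lit 152) (nat_lit 0) (XT.lf (nat_lit 0) (nat_lit 39884313601) (nat_lit 76) (nat_lit 6795175821) (nat_lit 152) (nat_lit 5915401773) (nat_lit 20) (nat_lit 5) (nat_lit 21) (nat_lit 5) (nat_lit 22) (nat_lit 4) (nat_lit 384) (nat_lit 268) (nat_lit 128)) (XT.lf (nat_lit 0) (nat_lit 780478117) (nat_lit 152) (nat_lit 51717530141) (nat_lit 76) (nat_lit 1424396042) (nat_lit 18) (nat_lit 5) (nat_lit 20) (nat_lit 5) (nat_lit 19) (nat_lit 4) (nat_lit 385) (nat_lit 268) (nat_lit 127))) (XT.nd (nat_lit 78) (nat_lit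 0) (nat_lit 0) (XT.lf (nat_lit 0) (nat_lit 7747657598) (nat_lit 152) (nat_lit 37598576395) (nat_lit 76) (nat_lit 9936074156) (nat_lit 18) (nat_lit 5) (nat_lit 20) (nat_lit 5) (nat_lit 19) (nat_lit 4) (nat_lit 386) (nat_lit 268) (nat_lit 126)) (XT.lf (nat_lit 0) (nat_lit 14916488601) (nat_lit 152) (nat_lit 23069558780) (nat_lit 76) (nat_lit 18697184502) (nat_lit 18) (nat_lit 5) (nat_lit 20) (nat_lit 5) (nat_lit 19) (nat_lit 4) (nat_lit 387) (nat_lit 268) (nat_lit 125)))))) (XT.nd (nat_lit 546) (nat_lit 76) (nat_lit 0) (XT.nd (nat_lit 234) (nat_lit 152) (nat_lit 0) (XT.nd (nat_lit 78) (nat_lit 76) (nat_lit 0) (XT.lf (nat_lit 0) (nat_lit 22293235152) (nat_lit 152) (nat_lit 8117782039) (nat_lit 76) (nat_lit 27715382418) (nat_lit 18) (nat_lit 5) (nat_lit 20) (nat_lit 5) (nat_lit 19) (nat_lit 4) (nat_lit 388) (nat_lit 268) (nat_lit 124)) (XT.nd (nat_lit 78) (nat_lit 0) (nat_lit 0) (XT.lf (nat_lit 0) (nat_lit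 7414502130) (nat_lit 76) (nat_lit 22541113553) (nat_lit 152) (nat_lit 29655318484) (nat_lit 17) (nat_lit 5) (nat_lit 18) (nat_lit 5) (nat_lit 19) (nat_lit 4) (nat_lit 389) (nat_lit 268) (nat_lit 123)) (XT.lf (nat_lit 0) (nat_lit 23566556680) (nat_lit 76) (nat_lit 14356424489) (nat_lit 152) (nat_lit 23214771881) (nat_lit 17) (nat_lit 5) (nat_lit 18) (nat_lit 5) (nat_lit 19) (nat_lit 4) (nat_lit 390) (nat_lit 268) (nat_lit 122)))) (XT.nd (nat_lit 156) (nat_lit 152) (nat_lit 0) (XT.nd (nat_lit 78) (nat_lit 0) (nat_lit 0) (XT.lf (nat_lit 0) (nat_lit 40190935278) (nat_lit 76) (nat_lit 5931772011) (nat_lit 152) (nat_lit 16587870669) (nat_lit 17) (nat_lit 5) (nat_lit 18) (nat_lit 5) (nat_lit 19) (nat_lit 4) (nat_lit 391) (nat_lit 268) (nat_lit 121)) (XT.lf (nat_lit 0) (nat_lit 54588299379) (nat_lit 152) (nat_lit 7054959651) (nat_lit 0) (nat_lit 2686733954) (nat_lit 17) (nat_lit 5) (nat_lit 19) (nat_lit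 4) (nat_lit 17) (nat_lit 4) (nat_lit 392) (nat_lit 268) (nat_lit 120))) (XT.nd (nat_lit 78) (nat_lit 76) (nat_lit 0) (XT.lf (nat_lit 0) (nat_lit 8978461108) (nat_lit 76) (nat_lit 54468106465) (nat_lit 76) (nat_lit 2547263192) (nat_lit 16) (nat_lit 4) (nat_lit 17) (nat_lit 5) (nat_lit 17) (nat_lit 4) (nat_lit 393) (nat_lit 268) (nat_lit 119)) (XT.lf (nat_lit 0) (nat_lit 4833733360) (nat_lit 152) (nat_lit 42127080907) (nat_lit 76) (nat_lit 20743399653) (nat_lit 15) (nat_lit 5) (nat_lit 17) (nat_lit 5) (nat_lit 16) (nat_lit 4) (nat_lit 394) (nat_lit 268) (nat_lit 118))))) (XT.nd (nat_lit 234) (nat_lit 0) (nat_lit 0) (XT.nd (nat_lit 78) (nat_lit 76) (nat_lit 0) (XT.lf (nat_lit 0) (nat_lit 12378827639) (nat_lit 152) (nat_lit 26828710740) (nat_lit 76) (nat_lit 30257799040) (nat_lit 15) (nat_lit 5) (nat_lit 17) (nat_lit 5) (nat_lit 16) (nat_lit 4) (nat_lit 395) (nat_lit 268) (nat_lit 117)) (XT.nd (nat_lit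 78) (nat_lit 76) (nat_lit 0) (XT.lf (nat_lit 0) (nat_lit 20144318726) (nat_lit 152) (nat_lit 11082405795) (nat_lit 76) (nat_lit 40052750162) (nat_lit 15) (nat_lit 5) (nat_lit 17) (nat_lit 5) (nat_lit 16) (nat_lit 4) (nat_lit 396) (nat_lit 268) (nat_lit 116)) (XT.lf (nat_lit 0) (nat_lit 5227602180) (nat_lit 76) (nat_lit 22959640730) (nat_lit 152) (nat_lit 44959460442) (nat_lit 14) (nat_lit 5) (nat_lit 15) (nat_lit 5) (nat_lit 16) (nat_lit 4) (nat_lit 397) (nat_lit 268) (nat_lit 115)))) (XT.nd (nat_lit 156) (nat_lit 0) (nat_lit 0) (XT.nd (nat_lit 78) (nat_lit 0) (nat_lit 0) (XT.lf (nat_lit 0) (nat_lit 22243498243) (nat_lit 76) (nat_lit 14334151220) (nat_lit 152) (nat_lit 38489114879) (nat_lit 14) (nat_lit 5) (nat_lit 15) (nat_lit 5) (nat_lit 16) (nat_lit 4) (nat_lit 398) (nat_lit 268) (nat_lit 114)) (XT.lf (nat_lit 0) (nat_lit 39759589046) (nat_lit 76) (nat_lit 5454629726) (nat_lit 152) (nat_lit 31830376135)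 (nat_lit 14) (nat_lit 5) (nat_lit 15) (nat_lit 5) (nat_lit 16) (nat_lit 4) (nat_lit 399) (nat_lit 268) (nat_lit 113))) (XT.nd (nat_lit 78) (nat_lit 0) (nat_lit 0) (XT.lf (nat_lit 0) (nat_lit 54139936001) (nat_lit 152) (nat_lit 21326181986) (nat_lit 0) (nat_lit 3614742102) (nat_lit 14) (nat_lit 5) (nat_lit 16) (nat_lit 4) (nat_lit 14) (nat_lit 4) (nat_lit 400) (nat_lit 268) (nat_lit 112)) (XT.lf (nat_lit 0) (nat_lit 63382157219) (nat_lit 152) (nat_lit 4952406768) (nat_lit 0) (nat_lit 12842188454) (nat_lit 14) (nat_lit 5) (nat_lit 16) (nat_lit 4) (nat_lit 14) (nat_lit 4) (nat_lit 401) (nat_lit 268) (nat_lit 111))))))) (XT.nd (nat_lit 30498) (nat_lit 0) (nat_lit 17556) (XT.nd (nat_lit 546) (nat_lit 0) (nat_lit 0) (XT.nd (nat_lit 234) (nat_lit 76) (nat_lit 0) (XT.nd (nat_lit 78) (nat_lit 76) (nat_lit 0) (XT.lf (nat_lit 0) (nat_lit 12139954449) (nat_lit 76) (nat_lit 60873267134) (nat_lit 76) (nat_lit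 10318953840) (nat_lit 13) (nat_lit 4) (nat_lit 14) (nat_lit 5) (nat_lit 14) (nat_lit 4) (nat_lit 402) (nat_lit 268) (nat_lit 110)) (XT.nd (nat_lit 78) (nat_lit 76) (nat_lit 0) (XT.lf (nat_lit 0) (nat_lit 29837177841) (nat_lit 76) (nat_lit 53140987979) (nat_lit 76) (nat_lit 2572747959) (nat_lit 13) (nat_lit 4) (nat_lit 14) (nat_lit 5) (nat_lit 14) (nat_lit 4) (nat_lit 403) (nat_lit 268) (nat_lit 109)) (XT.lf (nat_lit 0) (nat_lit 5295392657) (nat_lit 152) (nat_lit 39832114020) (nat_lit 76) (nat_lit 42707298654) (nat_lit 12) (nat_lit 5) (nat_lit 14) (nat_lit 5) (nat_lit 13) (nat_lit 4) (nat_lit 404) (nat_lit 268) (nat_lit 108)))) (XT.nd (nat_lit 156) (nat_lit 76) (nat_lit 0) (XT.nd (nat_lit 78) (nat_lit 0) (nat_lit 0) (XT.lf (nat_lit 0) (nat_lit 13343048434) (nat_lit 152) (nat_lit 23508500069) (nat_lit 76) (nat_lit 53335046552) (nat_lit 12) (nat_lit 5) (nat_lit 14) (nat_lit 5) (nat_lit 13) (nat_lit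 4) (nat_lit 405) (nat_lit 268) (nat_lit 107)) (XT.lf (nat_lit 0) (nat_lit 21627454882) (nat_lit 152) (nat_lit 6703899907) (nat_lit 76) (nat_lit 64277725048) (nat_lit 12) (nat_lit 5) (nat_lit 14) (nat_lit 5) (nat_lit 13) (nat_lit 4) (nat_lit 406) (nat_lit 268) (nat_lit 106))) (XT.nd (nat_lit 78) (nat_lit 0) (nat_lit 0) (XT.lf (nat_lit 0) (nat_lit 10807258640) (nat_lit 76) (nat_lit 19452478145) (nat_lit 152) (nat_lit 64841523046) (nat_lit 11) (nat_lit 5) (nat_lit 12) (nat_lit 5) (nat_lit 13) (nat_lit 4) (nat_lit 407) (nat_lit 268) (nat_lit 105)) (XT.lf (nat_lit 0) (nat_lit 28972790179) (nat_lit 76) (nat_lit 10241402201) (nat_lit 152) (nat_lit 58452117628) (nat_lit 11) (nat_lit 5) (nat_lit 12) (nat_lit 5) (nat_lit 13) (nat_lit 4) (nat_lit 408) (nat_lit 268) (nat_lit 104))))) (XT.nd (nat_lit 234) (nat_lit 0) (nat_lit 0) (XT.nd (nat_lit 78) (nat_lit 0) (nat_lit 0) (XT.lf (nat_lit 0) (nat_lit 47675146751)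 (nat_lit 76) (nat_lit 757774686) (nat_lit 152) (nat_lit 51875521970) (nat_lit 11) (nat_lit 5) (nat_lit 12) (nat_lit 5) (nat_lit 13) (nat_lit 4) (nat_lit 409) (nat_lit 268) (nat_lit 103)) (XT.nd (nat_lit 78) (nat_lit 0) (nat_lit 0) (XT.lf (nat_lit 0) (nat_lit 58010556983) (nat_lit 152) (nat_lit 36185876294) (nat_lit 0) (nat_lit 8830938078) (nat_lit 11) (nat_lit 5) (nat_lit 13) (nat_lit 4) (nat_lit 11) (nat_lit 4) (nat_lit 410) (nat_lit 268) (nat_lit 102)) (XT.lf (nat_lit 0) (nat_lit 67878880146) (nat_lit 152) (nat_lit 19260299532) (nat_lit 0) (nat_lit 18688587565) (nat_lit 11) (nat_lit 5) (nat_lit 13) (nat_lit 4) (nat_lit 11) (nat_lit 4) (nat_lit 411) (nat_lit 268) (nat_lit 101)))) (XT.nd (nat_lit 29562) (nat_lit 0) (nat_lit 21356) (XT.nd (nat_lit 29484) (nat_lit 0) (nat_lit 22040) (XT.lf (nat_lit 0) (nat_lit 78039229542) (nat_lit 152) (nat_lit 1834492838) (nat_lit 0) (nat_lit 28838574168) (nat_lit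 11) (nat_lit 5) (nat_lit 13) (nat_lit 4) (nat_lit 11) (nat_lit 4) (nat_lit 412) (nat_lit 268) (nat_lit 100)) (XT.lf (nat_lit 0) (nat_lit 1387824175) (nat_lit 0) (nat_lit 1387824175) (nat_lit 532) (nat_lit 621006240) (nat_lit 301) (nat_lit 5) (nat_lit 301) (nat_lit 3) (nat_lit 308) (nat_lit 3) (nat_lit 269) (nat_lit 269) (nat_lit 242))) (XT.nd (nat_lit 78) (nat_lit 0) (nat_lit 0) (XT.lf (nat_lit 0) (nat_lit 726144800) (nat_lit 684) (nat_lit 835283686) (nat_lit 684) (nat_lit 5272472241) (nat_lit 292) (nat_lit 3) (nat_lit 301) (nat_lit 3) (nat_lit 301) (nat_lit 5) (nat_lit 270) (nat_lit 269) (nat_lit 241)) (XT.lf (nat_lit 76) (nat_lit 2438355939) (nat_lit 0) (nat_lit 236887904) (nat_lit 684) (nat_lit 4201800964) (nat_lit 293) (nat_lit 5) (nat_lit 292) (nat_lit 3) (nat_lit 301) (nat_lit 5) (nat_lit 271) (nat_lit 269) (nat_lit 240)))))) (XT.nd (nat_lit 546) (nat_lit 2508) (nat_lit 0) (XT.nd (nat_lit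 234) (nat_lit 684) (nat_lit 0) (XT.nd (nat_lit 78) (nat_lit 684) (nat_lit 0) (XT.lf (nat_lit 0) (nat_lit 4627789476) (nat_lit 608) (nat_lit 1146619618) (nat_lit 684) (nat_lit 1148831228) (nat_lit 293) (nat_lit 5) (nat_lit 301) (nat_lit 5) (nat_lit 302) (nat_lit 5) (nat_lit 272) (nat_lit 269) (nat_lit 239)) (XT.nd (nat_lit 78) (nat_lit 684) (nat_lit 0) (XT.lf (nat_lit 76) (nat_lit 2245097548) (nat_lit 0) (nat_lit 4345525290) (nat_lit 684) (nat_lit 381750749) (nat_lit 294) (nat_lit 5) (nat_lit 293) (nat_lit 5) (nat_lit 302) (nat_lit 5) (nat_lit 273) (nat_lit 269) (nat_lit 238)) (XT.lf (nat_lit 0) (nat_lit 1498744993) (nat_lit 684) (nat_lit 1317652269) (nat_lit 760) (nat_lit 4208010584) (nat_lit 284) (nat_lit 5) (nat_lit 293) (nat_lit 5) (nat_lit 294) (nat_lit 5) (nat_lit 274) (nat_lit 269) (nat_lit 237)))) (XT.nd (nat_lit 156) (nat_lit 684) (nat_lit 0) (XT.nd (nat_lit 78) (nat_lit 0) (nat_lit 76)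 (XT.lf (nat_lit 76) (nat_lit 2192787110) (nat_lit 0) (nat_lit 1187056170) (nat_lit 760) (nat_lit 3699585111) (nat_lit 285) (nat_lit 5) (nat_lit 284) (nat_lit 5) (nat_lit 294) (nat_lit 5) (nat_lit 275) (nat_lit 269) (nat_lit 236)) (XT.lf (nat_lit 0) (nat_lit 5268210507) (nat_lit 684) (nat_lit 1347472620) (nat_lit 760) (nat_lit 521983061) (nat_lit 285) (nat_lit 5) (nat_lit 294) (nat_lit 5) (nat_lit 295) (nat_lit 5) (nat_lit 276) (nat_lit 269) (nat_lit 235))) (XT.nd (nat_lit 78) (nat_lit 760) (nat_lit 0) (XT.lf (nat_lit 76) (nat_lit 2289563299) (nat_lit 0) (nat_lit 4892065188) (nat_lit 760) (nat_lit 17059681) (nat_lit 286) (nat_lit 5) (nat_lit 285) (nat_lit 5) (nat_lit 295) (nat_lit 5) (nat_lit 277) (nat_lit 269) (nat_lit 234)) (XT.lf (nat_lit 0) (nat_lit 1803183679) (nat_lit 760) (nat_lit 1258308837) (nat_lit 836) (nat_lit 4201111707) (nat_lit 275) (nat_lit 5) (nat_lit 285) (nat_lit 5) (nat_lit 286)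 (nat_lit 5) (nat_lit 278) (nat_lit 269) (nat_lit 233))))) (XT.nd (nat_lit 312) (nat_lit 1748) (nat_lit 0) (XT.nd (nat_lit 156) (nat_lit 760) (nat_lit 0) (XT.nd (nat_lit 78) (nat_lit 0) (nat_lit 76) (XT.lf (nat_lit 76) (nat_lit 2509871329) (nat_lit 0) (nat_lit 1129259518) (nat_lit 836) (nat_lit 3690540150) (nat_lit 276) (nat_lit 5) (nat_lit 275) (nat_lit 5) (nat_lit 286) (nat_lit 5) (nat_lit 279) (nat_lit 269) (nat_lit 232)) (XT.lf (nat_lit 0) (nat_lit 5490212266) (nat_lit 760) (nat_lit 1032561178) (nat_lit 836) (nat_lit 877253768) (nat_lit 276) (nat_lit 5) (nat_lit 286) (nat_lit 5) (nat_lit 287) (nat_lit 5) (nat_lit 280) (nat_lit 269) (nat_lit 231))) (XT.nd (nat_lit 78) (nat_lit 836) (nat_lit 0) (XT.lf (nat_lit 76) (nat_lit 2871712390) (nat_lit 0) (nat_lit 4504625092) (nat_lit 836) (nat_lit 96848098) (nat_lit 277) (nat_lit 5) (nat_lit 276) (nat_lit 5) (nat_lit 287) (nat_lit 5) (nat_lit 281) (nat_lit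 269) (nat_lit 230)) (XT.lf (nat_lit 0) (nat_lit 1687899964) (nat_lit 836) (nat_lit 693338587) (nat_lit 912) (nat_lit 5168303736) (nat_lit 265) (nat_lit 5) (nat_lit 276) (nat_lit 5) (nat_lit 277) (nat_lit 5) (nat_lit 282) (nat_lit 269) (nat_lit 229)))) (XT.nd (nat_lit 156) (nat_lit 1748) (nat_lit 0) (XT.nd (nat_lit 78) (nat_lit 0) (nat_lit 76) (XT.lf (nat_lit 76) (nat_lit 3355519717) (nat_lit 0) (nat_lit 144097094) (nat_lit 912) (nat_lit 4129353222) (nat_lit 266) (nat_lit 5) (nat_lit 265) (nat_lit 5) (nat_lit 277) (nat_lit 5) (nat_lit 283) (nat_lit 269) (nat_lit 228)) (XT.lf (nat_lit 0) (nat_lit 5338048322) (nat_lit 836) (nat_lit 233866210) (nat_lit 76) (nat_lit 2139763427) (nat_lit 266) (nat_lit 5) (nat_lit 277) (nat_lit 5) (nat_lit 267) (nat_lit 5) (nat_lit 284) (nat_lit 269) (nat_lit 227))) (XT.nd (nat_lit 78) (nat_lit 988) (nat_lit 0) (XT.lf (nat_lit 0) (nat_lit 3961502194) (nat_lit 836) (nat_lit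 3255781077) (nat_lit 912) (nat_lit 580080593) (nat_lit 255) (nat_lit 5) (nat_lit 266) (nat_lit 5) (nat_lit 267) (nat_lit 5) (nat_lit 285) (nat_lit 269) (nat_lit 226)) (XT.lf (nat_lit 0) (nat_lit 354694816) (nat_lit 912) (nat_lit 840379992) (nat_lit 988) (nat_lit 6691666667) (nat_lit 242) (nat_lit 5) (nat_lit 254) (nat_lit 5) (nat_lit 255) (nat_lit 5) (nat_lit 286) (nat_lit 269) (nat_lit 225))))))))
noncomputable def xc126 : XT := (XT.nd (nat_lit 2184) (nat_lit 4408) (nat_lit 0) (XT.nd (nat_lit 1092) (nat_lit 3800) (nat_lit 0) (XT.nd (nat_lit 546) (nat_lit 2584) (nat_lit 0) (XT.nd (nat_lit 234) (nat_lit 2280) (nat_lit 0) (XT.nd (nat_lit 78) (nat_lit 988) (nat_lit 0) (XT.lf (nat_lit 0) (nat_lit 3014767980) (nat_lit 988) (nat_lit 3293313516) (nat_lit 76) (nat_lit 1670518984) (nat_lit 242) (nat_lit 5) (nat_lit 255) (nat_lit 5) (nat_lit 243) (nat_lit 5) (nat_lit 287) (nat_lit 269) (nat_lit 224)) (XT.nd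 (nat_lit 78) (nat_lit 0) (nat_lit 0) (XT.lf (nat_lit 0) (nat_lit 1042555482) (nat_lit 988) (nat_lit 3814341017) (nat_lit 1064) (nat_lit 3217342287) (nat_lit 229) (nat_lit 5) (nat_lit 242) (nat_lit 5) (nat_lit 243) (nat_lit 5) (nat_lit 288) (nat_lit 269) (nat_lit 223)) (XT.lf (nat_lit 0) (nat_lit 5534372941) (nat_lit 988) (nat_lit 1203744783) (nat_lit 1064) (nat_lit 1435170805) (nat_lit 229) (nat_lit 5) (nat_lit 242) (nat_lit 5) (nat_lit 243) (nat_lit 5) (nat_lit 289) (nat_lit 269) (nat_lit 222)))) (XT.nd (nat_lit 156) (nat_lit 1140) (nat_lit 0) (XT.nd (nat_lit 78) (nat_lit 0) (nat_lit 0) (XT.lf (nat_lit 0) (nat_lit 376737893) (nat_lit 1140) (nat_lit 6413755469) (nat_lit 76) (nat_lit 1485232190) (nat_lit 214) (nat_lit 5) (nat_lit 229) (nat_lit 5) (nat_lit 215) (nat_lit 5) (nat_lit 290) (nat_lit 269) (nat_lit 221)) (XT.lf (nat_lit 0) (nat_lit 2205551999) (nat_lit 1140) (nat_lit 1897427531) (nat_lit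 76) (nat_lit 4278140359) (nat_lit 214) (nat_lit 5) (nat_lit 229) (nat_lit 5) (nat_lit 215) (nat_lit 5) (nat_lit 291) (nat_lit 269) (nat_lit 220))) (XT.nd (nat_lit 78) (nat_lit 0) (nat_lit 0) (XT.lf (nat_lit 0) (nat_lit 2767048360) (nat_lit 1140) (nat_lit 1302726052) (nat_lit 1216) (nat_lit 4420536110) (nat_lit 199) (nat_lit 5) (nat_lit 214) (nat_lit 5) (nat_lit 215) (nat_lit 5) (nat_lit 292) (nat_lit 269) (nat_lit 219)) (XT.lf (nat_lit 0) (nat_lit 5979409575) (nat_lit 1216) (nat_lit 1049614854) (nat_lit 76) (nat_lit 1574117161) (nat_lit 199) (nat_lit 5) (nat_lit 215) (nat_lit 5) (nat_lit 200) (nat_lit 5) (nat_lit 293) (nat_lit 269) (nat_lit 218))))) (XT.nd (nat_lit 234) (nat_lit 1140) (nat_lit 0) (XT.nd (nat_lit 78) (nat_lit 684) (nat_lit 0) (XT.lf (nat_lit 0) (nat_lit 3784043788) (nat_lit 760) (nat_lit 4167808837) (nat_lit 836) (nat_lit 767387264) (nat_lit 189) (nat_lit 5) (nat_lit 199) (nat_lit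 5) (nat_lit 200) (nat_lit 5) (nat_lit 294) (nat_lit 269) (nat_lit 217)) (XT.nd (nat_lit 78) (nat_lit 608) (nat_lit 0) (XT.lf (nat_lit 0) (nat_lit 1089674401) (nat_lit 836) (nat_lit 107027385) (nat_lit 76) (nat_lit 7642813493) (nat_lit 188) (nat_lit 5) (nat_lit 199) (nat_lit 5) (nat_lit 189) (nat_lit 5) (nat_lit 295) (nat_lit 269) (nat_lit 216)) (XT.lf (nat_lit 0) (nat_lit 3010652419) (nat_lit 684) (nat_lit 4067688578) (nat_lit 76) (nat_lit 1884164954) (nat_lit 180) (nat_lit 5) (nat_lit 189) (nat_lit 5) (nat_lit 181) (nat_lit 5) (nat_lit 296) (nat_lit 269) (nat_lit 215)))) (XT.nd (nat_lit 156) (nat_lit 608) (nat_lit 0) (XT.nd (nat_lit 78) (nat_lit 0) (nat_lit 0) (XT.lf (nat_lit 0) (nat_lit 924614449) (nat_lit 532) (nat_lit 4045246753) (nat_lit 608) (nat_lit 4119949625) (nat_lit 173) (nat_lit 5) (nat_lit 180) (nat_lit 5) (nat_lit 181) (nat_lit 5) (nat_lit 297) (nat_lit 269) (nat_lit 214)) (XT.lf (nat_lit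 0) (nat_lit 6109148969) (nat_lit 532) (nat_lit 879353839) (nat_lit 608) (nat_lit 2232453633) (nat_lit 173) (nat_lit 5) (nat_lit 180) (nat_lit 5) (nat_lit 181) (nat_lit 5) (nat_lit 298) (nat_lit 269) (nat_lit 213))) (XT.nd (nat_lit 78) (nat_lit 76) (nat_lit 0) (XT.lf (nat_lit 0) (nat_lit 2069736526) (nat_lit 532) (nat_lit 7001508747) (nat_lit 608) (nat_lit 284724988) (nat_lit 166) (nat_lit 5) (nat_lit 173) (nat_lit 5) (nat_lit 174) (nat_lit 5) (nat_lit 299) (nat_lit 269) (nat_lit 212)) (XT.lf (nat_lit 0) (nat_lit 1689372428) (nat_lit 608) (nat_lit 2090493867) (nat_lit 76) (nat_lit 5714663709) (nat_lit 165) (nat_lit 5) (nat_lit 173) (nat_lit 5) (nat_lit 166) (nat_lit 5) (nat_lit 300) (nat_lit 269) (nat_lit 211)))))) (XT.nd (nat_lit 546) (nat_lit 1748) (nat_lit 0) (XT.nd (nat_lit 234) (nat_lit 988) (nat_lit 0) (XT.nd (nat_lit 78) (nat_lit 532) (nat_lit 0) (XT.lf (nat_lit 0) (nat_lit 3282198270) (nat_lit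 532) (nat_lit 428543248) (nat_lit 608) (nat_lit 5926643992) (nat_lit 158) (nat_lit 5) (nat_lit 165) (nat_lit 5) (nat_lit 166) (nat_lit 5) (nat_lit 301) (nat_lit 269) (nat_lit 210)) (XT.nd (nat_lit 78) (nat_lit 532) (nat_lit 0) (XT.lf (nat_lit 0) (nat_lit 5806045839) (nat_lit 608) (nat_lit 995116454) (nat_lit 76) (nat_lit 2983001179) (nat_lit 158) (nat_lit 5) (nat_lit 166) (nat_lit 5) (nat_lit 159) (nat_lit 5) (nat_lit 302) (nat_lit 269) (nat_lit 209)) (XT.lf (nat_lit 0) (nat_lit 4571024874) (nat_lit 532) (nat_lit 3405360363) (nat_lit 608) (nat_lit 1958628836) (nat_lit 151) (nat_lit 5) (nat_lit 158) (nat_lit 5) (nat_lit 159) (nat_lit 5) (nat_lit 303) (nat_lit 269) (nat_lit 208)))) (XT.nd (nat_lit 156) (nat_lit 456) (nat_lit 0) (XT.nd (nat_lit 78) (nat_lit 0) (nat_lit 0) (XT.lf (nat_lit 0) (nat_lit 96374994) (nat_lit 532) (nat_lit 9895076945) (nat_lit 76) (nat_lit 99616817) (nat_lit 144) (nat_lit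 5) (nat_lit 151) (nat_lit 5) (nat_lit 145) (nat_lit 5) (nat_lit 304) (nat_lit 269) (nat_lit 207)) (XT.lf (nat_lit 0) (nat_lit 2226977739) (nat_lit 532) (nat_lit 4311783314) (nat_lit 76) (nat_lit 3710894442) (nat_lit 144) (nat_lit 5) (nat_lit 151) (nat_lit 5) (nat_lit 145) (nat_lit 5) (nat_lit 305) (nat_lit 269) (nat_lit 206))) (XT.nd (nat_lit 78) (nat_lit 0) (nat_lit 0) (XT.lf (nat_lit 0) (nat_lit 1427360239) (nat_lit 456) (nat_lit 2973778202) (nat_lit 532) (nat_lit 6012502920) (nat_lit 138) (nat_lit 5) (nat_lit 144) (nat_lit 5) (nat_lit 145) (nat_lit 5) (nat_lit 306) (nat_lit 269) (nat_lit 205)) (XT.lf (nat_lit 0) (nat_lit 6657688253) (nat_lit 532) (nat_lit 3201411326) (nat_lit 76) (nat_lit 722962125) (nat_lit 138) (nat_lit 5) (nat_lit 145) (nat_lit 5) (nat_lit 139) (nat_lit 5) (nat_lit 307) (nat_lit 269) (nat_lit 204))))) (XT.nd (nat_lit 234) (nat_lit 836) (nat_lit 0) (XT.nd (nat_lit 78) (nat_lit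 532) (nat_lit 0) (XT.lf (nat_lit 0) (nat_lit 2742144121) (nat_lit 380) (nat_lit 6263050769) (nat_lit 456) (nat_lit 1749670915) (nat_lit 133) (nat_lit 5) (nat_lit 138) (nat_lit 5) (nat_lit 139) (nat_lit 5) (nat_lit 308) (nat_lit 269) (nat_lit 203)) (XT.nd (nat_lit 78) (nat_lit 456) (nat_lit 0) (XT.lf (nat_lit 0) (nat_lit 481044850) (nat_lit 456) (nat_lit 2046499924) (nat_lit 76) (nat_lit 8405184993) (nat_lit 132) (nat_lit 5) (nat_lit 138) (nat_lit 5) (nat_lit 133) (nat_lit 5) (nat_lit 309) (nat_lit 269) (nat_lit 202)) (XT.lf (nat_lit 0) (nat_lit 2764976320) (nat_lit 532) (nat_lit 7004594564) (nat_lit 76) (nat_lit 1345221735) (nat_lit 126) (nat_lit 5) (nat_lit 133) (nat_lit 5) (nat_lit 127) (nat_lit 5) (nat_lit 310) (nat_lit 269) (nat_lit 201)))) (XT.nd (nat_lit 156) (nat_lit 456) (nat_lit 0) (XT.nd (nat_lit 78) (nat_lit 380) (nat_lit 0) (XT.lf (nat_lit 0) (nat_lit 5132438371) (nat_lit 532) (nat_lit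 871962481) (nat_lit 76) (nat_lit 5297491853) (nat_lit 126) (nat_lit 5) (nat_lit 133) (nat_lit 5) (nat_lit 127) (nat_lit 5) (nat_lit 311) (nat_lit 269) (nat_lit 200)) (XT.lf (nat_lit 0) (nat_lit 5514802509) (nat_lit 380) (nat_lit 2079150125) (nat_lit 456) (nat_lit 3899987291) (nat_lit 121) (nat_lit 5) (nat_lit 126) (nat_lit 5) (nat_lit 127) (nat_lit 5) (nat_lit 312) (nat_lit 269) (nat_lit 199))) (XT.nd (nat_lit 78) (nat_lit 76) (nat_lit 0) (XT.lf (nat_lit 0) (nat_lit 369885830) (nat_lit 380) (nat_lit 9761212294) (nat_lit 456) (nat_lit 1560621116) (nat_lit 116) (nat_lit 5) (nat_lit 121) (nat_lit 5) (nat_lit 122) (nat_lit 5) (nat_lit 313) (nat_lit 269) (nat_lit 198)) (XT.lf (nat_lit 0) (nat_lit 884570341) (nat_lit 456) (nat_lit 4929180789) (nat_lit 76) (nat_lit 6079892555) (nat_lit 115) (nat_lit 5) (nat_lit 121) (nat_lit 5) (nat_lit 116) (nat_lit 5) (nat_lit 314) (nat_lit 269) (nat_lit 197))))))) (XT.nd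 (nat_lit 1092) (nat_lit 1748) (nat_lit 0) (XT.nd (nat_lit 546) (nat_lit 1216) (nat_lit 0) (XT.nd (nat_lit 234) (nat_lit 684) (nat_lit 0) (XT.nd (nat_lit 78) (nat_lit 380) (nat_lit 0) (XT.lf (nat_lit 0) (nat_lit 1634646514) (nat_lit 380) (nat_lit 1724321093) (nat_lit 456) (nat_lit 8742600391) (nat_lit 110) (nat_lit 5) (nat_lit 115) (nat_lit 5) (nat_lit 116) (nat_lit 5) (nat_lit 315) (nat_lit 269) (nat_lit 196)) (XT.nd (nat_lit 78) (nat_lit 380) (nat_lit 0) (XT.lf (nat_lit 0) (nat_lit 5953676625) (nat_lit 456) (nat_lit 3879678358) (nat_lit 76) (nat_lit 2481014210) (nat_lit 110) (nat_lit 5) (nat_lit 116) (nat_lit 5) (nat_lit 111) (nat_lit 5) (nat_lit 316) (nat_lit 269) (nat_lit 195)) (XT.lf (nat_lit 0) (nat_lit 2908489356) (nat_lit 380) (nat_lit 5735484504) (nat_lit 456) (nat_lit 3889069074) (nat_lit 105) (nat_lit 5) (nat_lit 110) (nat_lit 5) (nat_lit 111) (nat_lit 5) (nat_lit 317) (nat_lit 269) (nat_lit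 194)))) (XT.nd (nat_lit 156) (nat_lit 304) (nat_lit 0) (XT.nd (nat_lit 78) (nat_lit 380) (nat_lit 0) (XT.lf (nat_lit 0) (nat_lit 9943813006) (nat_lit 380) (nat_lit 1483508875) (nat_lit 456) (nat_lit 1330605065) (nat_lit 105) (nat_lit 5) (nat_lit 110) (nat_lit 5) (nat_lit 111) (nat_lit 5) (nat_lit 318) (nat_lit 269) (nat_lit 193)) (XT.lf (nat_lit 0) (nat_lit 1321813192) (nat_lit 380) (nat_lit 8781816396) (nat_lit 76) (nat_lit 2884291069) (nat_lit 100) (nat_lit 5) (nat_lit 105) (nat_lit 5) (nat_lit 101) (nat_lit 5) (nat_lit 319) (nat_lit 269) (nat_lit 192))) (XT.nd (nat_lit 78) (nat_lit 304) (nat_lit 0) (XT.lf (nat_lit 0) (nat_lit 4044455650) (nat_lit 380) (nat_lit 1793361196) (nat_lit 76) (nat_lit 7386098829) (nat_lit 100) (nat_lit 5) (nat_lit 105) (nat_lit 5) (nat_lit 101) (nat_lit 5) (nat_lit 320) (nat_lit 269) (nat_lit 191)) (XT.lf (nat_lit 0) (nat_lit 5476793171) (nat_lit 304) (nat_lit 1399396418)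 (nat_lit 380) (nat_lit 6589996634) (nat_lit 96) (nat_lit 5) (nat_lit 100) (nat_lit 5) (nat_lit 101) (nat_lit 5) (nat_lit 321) (nat_lit 269) (nat_lit 190))))) (XT.nd (nat_lit 234) (nat_lit 532) (nat_lit 0) (XT.nd (nat_lit 78) (nat_lit 684) (nat_lit 0) (XT.lf (nat_lit 0) (nat_lit 9816733782) (nat_lit 380) (nat_lit 779194140) (nat_lit 76) (nat_lit 3119098739) (nat_lit 96) (nat_lit 5) (nat_lit 101) (nat_lit 5) (nat_lit 97) (nat_lit 5) (nat_lit 322) (nat_lit 269) (nat_lit 189)) (XT.nd (nat_lit 78) (nat_lit 380) (nat_lit 0) (XT.lf (nat_lit 0) (nat_lit 6730664104) (nat_lit 304) (nat_lit 6169187392) (nat_lit 380) (nat_lit 1069867111) (nat_lit 92) (nat_lit 5) (nat_lit 96) (nat_lit 5) (nat_lit 97) (nat_lit 5) (nat_lit 323) (nat_lit 269) (nat_lit 188)) (XT.lf (nat_lit 0) (nat_lit 201824800) (nat_lit 304) (nat_lit 1591431759) (nat_lit 380) (nat_lit 12438704683) (nat_lit 87) (nat_lit 5) (nat_lit 91) (nat_lit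 5) (nat_lit 92) (nat_lit 5) (nat_lit 324) (nat_lit 269) (nat_lit 187)))) (XT.nd (nat_lit 156) (nat_lit 304) (nat_lit 0) (XT.nd (nat_lit 78) (nat_lit 228) (nat_lit 0) (XT.lf (nat_lit 0) (nat_lit 4800827649) (nat_lit 380) (nat_lit 6561479929) (nat_lit 76) (nat_lit 3137059654) (nat_lit 87) (nat_lit 5) (nat_lit 92) (nat_lit 5) (nat_lit 88) (nat_lit 5) (nat_lit 325) (nat_lit 269) (nat_lit 186)) (XT.lf (nat_lit 0) (nat_lit 1103436030) (nat_lit 228) (nat_lit 6798452969) (nat_lit 304) (nat_lit 6872823622) (nat_lit 84) (nat_lit 5) (nat_lit 87) (nat_lit 5) (nat_lit 88) (nat_lit 5) (nat_lit 326) (nat_lit 269) (nat_lit 185))) (XT.nd (nat_lit 78) (nat_lit 304) (nat_lit 0) (XT.lf (nat_lit 0) (nat_lit 9099557035) (nat_lit 228) (nat_lit 2039935958) (nat_lit 304) (nat_lit 3917534728) (nat_lit 84) (nat_lit 5) (nat_lit 87) (nat_lit 5) (nat_lit 88) (nat_lit 5) (nat_lit 327) (nat_lit 269) (nat_lit 184)) (XT.lf (nat_lit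 0) (nat_lit 1965746468) (nat_lit 304) (nat_lit 12532696793) (nat_lit 380) (nat_lit 848656713) (nat_lit 80) (nat_lit 5) (nat_lit 84) (nat_lit 5) (nat_lit 85) (nat_lit 5) (nat_lit 328) (nat_lit 269) (nat_lit 183)))))) (XT.nd (nat_lit 546) (nat_lit 912) (nat_lit 0) (XT.nd (nat_lit 234) (nat_lit 532) (nat_lit 0) (XT.nd (nat_lit 78) (nat_lit 228) (nat_lit 0) (XT.lf (nat_lit 0) (nat_lit 2326039115) (nat_lit 380) (nat_lit 5471294853) (nat_lit 76) (nat_lit 7846120866) (nat_lit 79) (nat_lit 5) (nat_lit 84) (nat_lit 5) (nat_lit 80) (nat_lit 5) (nat_lit 329) (nat_lit 269) (nat_lit 182)) (XT.nd (nat_lit 78) (nat_lit 0) (nat_lit 0) (XT.lf (nat_lit 0) (nat_lit 2688090623) (nat_lit 228) (nat_lit 2895231437) (nat_lit 304) (nat_lit 10365007139) (nat_lit 76) (nat_lit 5) (nat_lit 79) (nat_lit 5) (nat_lit 80) (nat_lit 5) (nat_lit 330) (nat_lit 269) (nat_lit 181)) (XT.lf (nat_lit 0) (nat_lit 8993606285) (nat_lit 304)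 (nat_lit 5109787463) (nat_lit 76) (nat_lit 2157310219) (nat_lit 76) (nat_lit 5) (nat_lit 80) (nat_lit 5) (nat_lit 77) (nat_lit 5) (nat_lit 331) (nat_lit 269) (nat_lit 180)))) (XT.nd (nat_lit 156) (nat_lit 304) (nat_lit 0) (XT.nd (nat_lit 78) (nat_lit 0) (nat_lit 0) (XT.lf (nat_lit 0) (nat_lit 3289381697) (nat_lit 228) (nat_lit 9256502047) (nat_lit 304) (nat_lit 4035387983) (nat_lit 73) (nat_lit 5) (nat_lit 76) (nat_lit 5) (nat_lit 77) (nat_lit 5) (nat_lit 332) (nat_lit 269) (nat_lit 179)) (XT.lf (nat_lit 0) (nat_lit 12014261088) (nat_lit 228) (nat_lit 4221768696) (nat_lit 304) (nat_lit 674499657) (nat_lit 73) (nat_lit 5) (nat_lit 76) (nat_lit 5) (nat_lit 77) (nat_lit 5) (nat_lit 333) (nat_lit 269) (nat_lit 178))) (XT.nd (nat_lit 78) (nat_lit 0) (nat_lit 0) (XT.lf (nat_lit 0) (nat_lit 2758916275) (nat_lit 304) (nat_lit 13490741015) (nat_lit 76) (nat_lit 998432383) (nat_lit 69) (nat_lit 5) (nat_lit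 73) (nat_lit 5) (nat_lit 70) (nat_lit 5) (nat_lit 334) (nat_lit 269) (nat_lit 177)) (XT.lf (nat_lit 0) (nat_lit 6353783760) (nat_lit 304) (nat_lit 4903031484) (nat_lit 76) (nat_lit 6336611865) (nat_lit 69) (nat_lit 5) (nat_lit 73) (nat_lit 5) (nat_lit 70) (nat_lit 5) (nat_lit 335) (nat_lit 269) (nat_lit 176))))) (XT.nd (nat_lit 312) (nat_lit 380) (nat_lit 0) (XT.nd (nat_lit 156) (nat_lit 304) (nat_lit 0) (XT.nd (nat_lit 78) (nat_lit 0) (nat_lit 0) (XT.lf (nat_lit 0) (nat_lit 3990356628) (nat_lit 228) (nat_lit 6085346852) (nat_lit 304) (nat_lit 7872855602) (nat_lit 66) (nat_lit 5) (nat_lit 69) (nat_lit 5) (nat_lit 70) (nat_lit 5) (nat_lit 336) (nat_lit 269) (nat_lit 175)) (XT.lf (nat_lit 0) (nat_lit 13221527133) (nat_lit 228) (nat_lit 718387110) (nat_lit 304) (nat_lit 4373522058) (nat_lit 66) (nat_lit 5) (nat_lit 69) (nat_lit 5) (nat_lit 70) (nat_lit 5) (nat_lit 337) (nat_lit 269) (nat_lit 174)))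 (XT.nd (nat_lit 78) (nat_lit 76) (nat_lit 0) (XT.lf (nat_lit 0) (nat_lit 4043924782) (nat_lit 228) (nat_lit 13942804761) (nat_lit 304) (nat_lit 700539940) (nat_lit 63) (nat_lit 5) (nat_lit 66) (nat_lit 5) (nat_lit 67) (nat_lit 5) (nat_lit 338) (nat_lit 269) (nat_lit 173)) (XT.lf (nat_lit 0) (nat_lit 3063161505) (nat_lit 304) (nat_lit 5579032423) (nat_lit 76) (nat_lit 10428023693) (nat_lit 62) (nat_lit 5) (nat_lit 66) (nat_lit 5) (nat_lit 63) (nat_lit 5) (nat_lit 339) (nat_lit 269) (nat_lit 172)))) (XT.nd (nat_lit 156) (nat_lit 152) (nat_lit 0) (XT.nd (nat_lit 78) (nat_lit 0) (nat_lit 0) (XT.lf (nat_lit 0) (nat_lit 3795981175) (nat_lit 228) (nat_lit 3148379599) (nat_lit 304) (nat_lit 12519534483) (nat_lit 59) (nat_lit 5) (nat_lit 62) (nat_lit 5) (nat_lit 63) (nat_lit 5) (nat_lit 340) (nat_lit 269) (nat_lit 171)) (XT.lf (nat_lit 0) (nat_lit 11005346842) (nat_lit 304) (nat_lit 6354293264) (nat_lit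 76) (nat_lit 2507851469) (nat_lit 59) (nat_lit 5) (nat_lit 63) (nat_lit 5) (nat_lit 60) (nat_lit 5) (nat_lit 341) (nat_lit 269) (nat_lit 170))) (XT.nd (nat_lit 78) (nat_lit 0) (nat_lit 0) (XT.lf (nat_lit 0) (nat_lit 3243158355) (nat_lit 152) (nat_lit 11990191906) (nat_lit 228) (nat_lit 5048498507) (nat_lit 57) (nat_lit 5) (nat_lit 59) (nat_lit 5) (nat_lit 60) (nat_lit 5) (nat_lit 342) (nat_lit 269) (nat_lit 169)) (XT.lf (nat_lit 0) (nat_lit 13231370343) (nat_lit 152) (nat_lit 6404066030) (nat_lit 228) (nat_lit 1071791394) (nat_lit 57) (nat_lit 5) (nat_lit 59) (nat_lit 5) (nat_lit 60) (nat_lit 5) (nat_lit 343) (nat_lit 269) (nat_lit 168))))))))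
noncomputable def xc127 : XT := (XT.nd (nat_lit 2262) (nat_lit 988) (nat_lit 0) (XT.nd (nat_lit 1092) (nat_lit 988) (nat_lit 0) (XT.nd (nat_lit 546) (nat_lit 532) (nat_lit 0) (XT.nd (nat_lit 234) (nat_lit 304) (nat_lit 0) (XT.nd (nat_lit 78) (nat_lit 152) (nat_lit 0) (XT.lf (nat_lit 0) (nat_lit 2363959692) (nat_lit 228) (nat_lit 607366656) (nat_lit 304) (nat_lit 18172993874) (nat_lit 53) (nat_lit 5) (nat_lit 56) (nat_lit 5) (nat_lit 57) (nat_lit 5) (nat_lit 344) (nat_lit 269) (nat_lit 167)) (XT.nd (nat_lit 78) (nat_lit 152) (nat_lit 0) (XT.lf (nat_lit 0) (nat_lit 7225515961) (nat_lit 304) (nat_lit 9030050517) (nat_lit 76) (nat_lit 5335308668) (nat_lit 53) (nat_lit 5) (nat_lit 57) (nat_lit 5) (nat_lit 54) (nat_lit 5) (nat_lit 345) (nat_lit 269) (nat_lit 166)) (XT.lf (nat_lit 0) (nat_lit 999962342) (nat_lit 152) (nat_lit 10607001164) (nat_lit 228) (nat_lit 10443881680) (nat_lit 51) (nat_lit 5) (nat_lit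 53) (nat_lit 5) (nat_lit 54) (nat_lit 5) (nat_lit 346) (nat_lit 269) (nat_lit 165)))) (XT.nd (nat_lit 156) (nat_lit 304) (nat_lit 0) (XT.nd (nat_lit 78) (nat_lit 0) (nat_lit 0) (XT.lf (nat_lit 0) (nat_lit 11489934881) (nat_lit 152) (nat_lit 4705327307) (nat_lit 228) (nat_lit 6327097125) (nat_lit 51) (nat_lit 5) (nat_lit 53) (nat_lit 5) (nat_lit 54) (nat_lit 5) (nat_lit 347) (nat_lit 269) (nat_lit 164)) (XT.lf (nat_lit 0) (nat_lit 20918997378) (nat_lit 228) (nat_lit 752274131) (nat_lit 76) (nat_lit 1336820736) (nat_lit 51) (nat_lit 5) (nat_lit 54) (nat_lit 5) (nat_lit 52) (nat_lit 5) (nat_lit 348) (nat_lit 269) (nat_lit 163))) (XT.nd (nat_lit 78) (nat_lit 0) (nat_lit 0) (XT.lf (nat_lit 0) (nat_lit 2360242967) (nat_lit 304) (nat_lit 13568603947) (nat_lit 76) (nat_lit 7575042212) (nat_lit 47) (nat_lit 5) (nat_lit 51) (nat_lit 5) (nat_lit 48) (nat_lit 5) (nat_lit 349) (nat_lit 269) (nat_lit 162)) (XT.lf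 (nat_lit 0) (nat_lit 6893824565) (nat_lit 304) (nat_lit 3101170840) (nat_lit 76) (nat_lit 14019167829) (nat_lit 47) (nat_lit 5) (nat_lit 51) (nat_lit 5) (nat_lit 48) (nat_lit 5) (nat_lit 350) (nat_lit 269) (nat_lit 161))))) (XT.nd (nat_lit 234) (nat_lit 228) (nat_lit 0) (XT.nd (nat_lit 78) (nat_lit 152) (nat_lit 0) (XT.lf (nat_lit 0) (nat_lit 7808411162) (nat_lit 152) (nat_lit 3815576875) (nat_lit 228) (nat_lit 12913946522) (nat_lit 45) (nat_lit 5) (nat_lit 47) (nat_lit 5) (nat_lit 48) (nat_lit 5) (nat_lit 351) (nat_lit 269) (nat_lit 160)) (XT.nd (nat_lit 78) (nat_lit 152) (nat_lit 0) (XT.lf (nat_lit 0) (nat_lit 16537799874) (nat_lit 228) (nat_lit 6016790845) (nat_lit 76) (nat_lit 2521582044) (nat_lit 45) (nat_lit 5) (nat_lit 48) (nat_lit 5) (nat_lit 46) (nat_lit 5) (nat_lit 352) (nat_lit 269) (nat_lit 159)) (XT.lf (nat_lit 0) (nat_lit 5054539001) (nat_lit 152) (nat_lit 16616884370) (nat_lit 228)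 (nat_lit 3956968693) (nat_lit 43) (nat_lit 5) (nat_lit 45) (nat_lit 5) (nat_lit 46) (nat_lit 5) (nat_lit 353) (nat_lit 269) (nat_lit 158)))) (XT.nd (nat_lit 156) (nat_lit 0) (nat_lit 0) (XT.nd (nat_lit 78) (nat_lit 152) (nat_lit 0) (XT.lf (nat_lit 0) (nat_lit 794441747) (nat_lit 228) (nat_lit 9645623282) (nat_lit 76) (nat_lit 15755475807) (nat_lit 42) (nat_lit 5) (nat_lit 45) (nat_lit 5) (nat_lit 43) (nat_lit 5) (nat_lit 354) (nat_lit 269) (nat_lit 157)) (XT.lf (nat_lit 0) (nat_lit 1579089272) (nat_lit 152) (nat_lit 4031430670) (nat_lit 228) (nat_lit 21167964464) (nat_lit 40) (nat_lit 5) (nat_lit 42) (nat_lit 5) (nat_lit 43) (nat_lit 5) (nat_lit 355) (nat_lit 269) (nat_lit 156))) (XT.nd (nat_lit 78) (nat_lit 0) (nat_lit 0) (XT.lf (nat_lit 0) (nat_lit 10680707732) (nat_lit 228) (nat_lit 14086478296) (nat_lit 76) (nat_lit 2608446652) (nat_lit 40) (nat_lit 5) (nat_lit 43) (nat_lit 5) (nat_lit 41) (nat_lit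 5) (nat_lit 356) (nat_lit 269) (nat_lit 155)) (XT.lf (nat_lit 0) (nat_lit 15929869459) (nat_lit 228) (nat_lit 2702506071) (nat_lit 76) (nat_lit 9357518885) (nat_lit 40) (nat_lit 5) (nat_lit 43) (nat_lit 5) (nat_lit 41) (nat_lit 5) (nat_lit 357) (nat_lit 269) (nat_lit 154)))))) (XT.nd (nat_lit 546) (nat_lit 456) (nat_lit 0) (XT.nd (nat_lit 234) (nat_lit 152) (nat_lit 0) (XT.nd (nat_lit 78) (nat_lit 228) (nat_lit 0) (XT.lf (nat_lit 0) (nat_lit 9180363232) (nat_lit 152) (nat_lit 12231723229) (nat_lit 228) (nat_lit 7208235044) (nat_lit 38) (nat_lit 5) (nat_lit 40) (nat_lit 5) (nat_lit 41) (nat_lit 5) (nat_lit 358) (nat_lit 269) (nat_lit 153)) (XT.nd (nat_lit 78) (nat_lit 228) (nat_lit 0) (XT.lf (nat_lit 0) (nat_lit 21453566672) (nat_lit 152) (nat_lit 5619988247) (nat_lit 228) (nat_lit 2195667712) (nat_lit 38) (nat_lit 5) (nat_lit 40) (nat_lit 5) (nat_lit 41) (nat_lit 5) (nat_lit 359) (nat_lit 269) (nat_lit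 152)) (XT.lf (nat_lit 0) (nat_lit 2949415654) (nat_lit 228) (nat_lit 25758503448) (nat_lit 76) (nat_lit 1227619252) (nat_lit 35) (nat_lit 5) (nat_lit 38) (nat_lit 5) (nat_lit 36) (nat_lit 5) (nat_lit 360) (nat_lit 269) (nat_lit 151)))) (XT.nd (nat_lit 156) (nat_lit 152) (nat_lit 0) (XT.nd (nat_lit 78) (nat_lit 0) (nat_lit 0) (XT.lf (nat_lit 0) (nat_lit 8327873468) (nat_lit 228) (nat_lit 14029166798) (nat_lit 76) (nat_lit 8260460890) (nat_lit 35) (nat_lit 5) (nat_lit 38) (nat_lit 5) (nat_lit 36) (nat_lit 5) (nat_lit 361) (nat_lit 269) (nat_lit 150)) (XT.lf (nat_lit 0) (nat_lit 13855845240) (nat_lit 228) (nat_lit 1968577789) (nat_lit 76) (nat_lit 15495859247) (nat_lit 35) (nat_lit 5) (nat_lit 38) (nat_lit 5) (nat_lit 36) (nat_lit 5) (nat_lit 362) (nat_lit 269) (nat_lit 149))) (XT.nd (nat_lit 78) (nat_lit 0) (nat_lit 0) (XT.lf (nat_lit 0) (nat_lit 10641455073) (nat_lit 152) (nat_lit 8998998337) (nat_lit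 228) (nat_lit 12400973617) (nat_lit 33) (nat_lit 5) (nat_lit 35) (nat_lit 5) (nat_lit 36) (nat_lit 5) (nat_lit 363) (nat_lit 269) (nat_lit 148)) (XT.lf (nat_lit 0) (nat_lit 23650312248) (nat_lit 152) (nat_lit 1956815606) (nat_lit 228) (nat_lit 7176826423) (nat_lit 33) (nat_lit 5) (nat_lit 35) (nat_lit 5) (nat_lit 36) (nat_lit 5) (nat_lit 364) (nat_lit 269) (nat_lit 147))))) (XT.nd (nat_lit 312) (nat_lit 152) (nat_lit 0) (XT.nd (nat_lit 156) (nat_lit 152) (nat_lit 0) (XT.nd (nat_lit 78) (nat_lit 76) (nat_lit 0) (XT.lf (nat_lit 0) (nat_lit 3498523772) (nat_lit 76) (nat_lit 28327723897) (nat_lit 152) (nat_lit 1720310201) (nat_lit 32) (nat_lit 5) (nat_lit 33) (nat_lit 5) (nat_lit 34) (nat_lit 4) (nat_lit 365) (nat_lit 269) (nat_lit 146)) (XT.lf (nat_lit 0) (nat_lit 3925245940) (nat_lit 152) (nat_lit 17709704334) (nat_lit 76) (nat_lit 12692924942) (nat_lit 31) (nat_lit 5) (nat_lit 33) (nat_lit 5) (nat_lit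 32) (nat_lit 5) (nat_lit 366) (nat_lit 269) (nat_lit 145))) (XT.nd (nat_lit 78) (nat_lit 152) (nat_lit 0) (XT.lf (nat_lit 0) (nat_lit 9694840858) (nat_lit 152) (nat_lit 5037229429) (nat_lit 76) (nat_lit 20400376903) (nat_lit 31) (nat_lit 5) (nat_lit 33) (nat_lit 5) (nat_lit 32) (nat_lit 5) (nat_lit 367) (nat_lit 269) (nat_lit 144)) (XT.lf (nat_lit 0) (nat_lit 8156156313) (nat_lit 152) (nat_lit 7549331046) (nat_lit 228) (nat_lit 20253633499) (nat_lit 29) (nat_lit 5) (nat_lit 31) (nat_lit 5) (nat_lit 32) (nat_lit 5) (nat_lit 368) (nat_lit 269) (nat_lit 143)))) (XT.nd (nat_lit 156) (nat_lit 152) (nat_lit 0) (XT.nd (nat_lit 78) (nat_lit 0) (nat_lit 0) (XT.lf (nat_lit 0) (nat_lit 21830363080) (nat_lit 152) (nat_lit 106646790) (nat_lit 228) (nat_lit 14872371515) (nat_lit 29) (nat_lit 5) (nat_lit 31) (nat_lit 5) (nat_lit 32) (nat_lit 5) (nat_lit 369) (nat_lit 269) (nat_lit 142)) (XT.lf (nat_lit 0) (nat_lit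 28418059598) (nat_lit 228) (nat_lit 1860955580) (nat_lit 76) (nat_lit 7404260354) (nat_lit 29) (nat_lit 5) (nat_lit 32) (nat_lit 5) (nat_lit 30) (nat_lit 4) (nat_lit 370) (nat_lit 269) (nat_lit 141))) (XT.nd (nat_lit 78) (nat_lit 76) (nat_lit 0) (XT.lf (nat_lit 0) (nat_lit 11863681604) (nat_lit 76) (nat_lit 23335166524) (nat_lit 152) (nat_lit 3381382310) (nat_lit 28) (nat_lit 5) (nat_lit 29) (nat_lit 5) (nat_lit 30) (nat_lit 4) (nat_lit 371) (nat_lit 269) (nat_lit 140)) (XT.lf (nat_lit 0) (nat_lit 2635899165) (nat_lit 152) (nat_lit 13508703819) (nat_lit 76) (nat_lit 23358445152) (nat_lit 27) (nat_lit 5) (nat_lit 29) (nat_lit 5) (nat_lit 28) (nat_lit 5) (nat_lit 372) (nat_lit 269) (nat_lit 139))))))) (XT.nd (nat_lit 1092) (nat_lit 304) (nat_lit 0) (XT.nd (nat_lit 546) (nat_lit 380) (nat_lit 0) (XT.nd (nat_lit 234) (nat_lit 152) (nat_lit 0) (XT.nd (nat_lit 78) (nat_lit 0) (nat_lit 0) (XT.lf (nat_lit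 0) (nat_lit 45859054) (nat_lit 152) (nat_lit 8710834016) (nat_lit 228) (nat_lit 31696127119) (nat_lit 25) (nat_lit 5) (nat_lit 27) (nat_lit 5) (nat_lit 28) (nat_lit 5) (nat_lit 373) (nat_lit 269) (nat_lit 138)) (XT.nd (nat_lit 78) (nat_lit 0) (nat_lit 0) (XT.lf (nat_lit 0) (nat_lit 14267206678) (nat_lit 152) (nat_lit 920946199) (nat_lit 228) (nat_lit 26239124067) (nat_lit 25) (nat_lit 5) (nat_lit 27) (nat_lit 5) (nat_lit 28) (nat_lit 5) (nat_lit 374) (nat_lit 269) (nat_lit 137)) (XT.lf (nat_lit 0) (nat_lit 21871665895) (nat_lit 228) (nat_lit 13600533100) (nat_lit 76) (nat_lit 6956997844) (nat_lit 25) (nat_lit 5) (nat_lit 28) (nat_lit 5) (nat_lit 26) (nat_lit 4) (nat_lit 375) (nat_lit 269) (nat_lit 136)))) (XT.nd (nat_lit 156) (nat_lit 76) (nat_lit 0) (XT.nd (nat_lit 78) (nat_lit 0) (nat_lit 0) (XT.lf (nat_lit 0) (nat_lit 347446469) (nat_lit 76) (nat_lit 28411797452) (nat_lit 152) (nat_lit 14701826266)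 (nat_lit 24) (nat_lit 5) (nat_lit 25) (nat_lit 5) (nat_lit 26) (nat_lit 4) (nat_lit 376) (nat_lit 269) (nat_lit 135)) (XT.lf (nat_lit 0) (nat_lit 14976814572) (nat_lit 76) (nat_lit 21005181737) (nat_lit 152) (nat_lit 8538049579) (nat_lit 24) (nat_lit 5) (nat_lit 25) (nat_lit 5) (nat_lit 26) (nat_lit 4) (nat_lit 377) (nat_lit 269) (nat_lit 134))) (XT.nd (nat_lit 78) (nat_lit 76) (nat_lit 0) (XT.lf (nat_lit 0) (nat_lit 30029676875) (nat_lit 76) (nat_lit 13383218768) (nat_lit 152) (nat_lit 2198153778) (nat_lit 24) (nat_lit 5) (nat_lit 25) (nat_lit 5) (nat_lit 26) (nat_lit 4) (nat_lit 378) (nat_lit 269) (nat_lit 133)) (XT.lf (nat_lit 0) (nat_lit 4239035730) (nat_lit 152) (nat_lit 1257406897) (nat_lit 76) (nat_lit 41237344684) (nat_lit 23) (nat_lit 5) (nat_lit 25) (nat_lit 5) (nat_lit 24) (nat_lit 5) (nat_lit 379) (nat_lit 269) (nat_lit 132))))) (XT.nd (nat_lit 234) (nat_lit 228) (nat_lit 0) (XT.nd (nat_lit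 78) (nat_lit 0) (nat_lit 0) (XT.lf (nat_lit 0) (nat_lit 10975702747) (nat_lit 228) (nat_lit 34184829078) (nat_lit 76) (nat_lit 2724508601) (nat_lit 21) (nat_lit 5) (nat_lit 24) (nat_lit 5) (nat_lit 22) (nat_lit 4) (nat_lit 380) (nat_lit 269) (nat_lit 131)) (XT.nd (nat_lit 78) (nat_lit 0) (nat_lit 0) (XT.lf (nat_lit 0) (nat_lit 17973620147) (nat_lit 228) (nat_lit 20007366923) (nat_lit 76) (nat_lit 11088071764) (nat_lit 21) (nat_lit 5) (nat_lit 24) (nat_lit 5) (nat_lit 22) (nat_lit 4) (nat_lit 381) (nat_lit 269) (nat_lit 130)) (XT.lf (nat_lit 0) (nat_lit 25173617875) (nat_lit 228) (nat_lit 5418857137) (nat_lit 76) (nat_lit 19696360648) (nat_lit 21) (nat_lit 5) (nat_lit 24) (nat_lit 5) (nat_lit 22) (nat_lit 4) (nat_lit 382) (nat_lit 269) (nat_lit 129)))) (XT.nd (nat_lit 156) (nat_lit 152) (nat_lit 0) (XT.nd (nat_lit 78) (nat_lit 0) (nat_lit 0) (XT.lf (nat_lit 0) (nat_lit 9784375938) (nat_lit 76) (nat_lit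 22891664658) (nat_lit 152) (nat_lit 18866574528) (nat_lit 20) (nat_lit 5) (nat_lit 21) (nat_lit 5) (nat_lit 22) (nat_lit 4) (nat_lit 383) (nat_lit 269) (nat_lit 128)) (XT.lf (nat_lit 0) (nat_lit 25541062731) (nat_lit 76) (nat_lit 14909655012) (nat_lit 152) (nat_lit 12381876802) (nat_lit 20) (nat_lit 5) (nat_lit 21) (nat_lit 5) (nat_lit 22) (nat_lit 4) (nat_lit 384) (nat_lit 269) (nat_lit 127))) (XT.nd (nat_lit 78) (nat_lit 152) (nat_lit 0) (XT.lf (nat_lit 0) (nat_lit 41757125338) (nat_lit 76) (nat_lit 6694191334) (nat_lit 152) (nat_lit 5710178198) (nat_lit 20) (nat_lit 5) (nat_lit 21) (nat_lit 5) (nat_lit 22) (nat_lit 4) (nat_lit 385) (nat_lit 269) (nat_lit 126)) (XT.lf (nat_lit 0) (nat_lit 1177635705) (nat_lit 152) (nat_lit 52583640399) (nat_lit 76) (nat_lit 1767493972) (nat_lit 18) (nat_lit 5) (nat_lit 20) (nat_lit 5) (nat_lit 19) (nat_lit 4) (nat_lit 386) (nat_lit 269) (nat_lit 125)))))) (XT.nd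 (nat_lit 546) (nat_lit 228) (nat_lit 0) (XT.nd (nat_lit 234) (nat_lit 76) (nat_lit 0) (XT.nd (nat_lit 78) (nat_lit 0) (nat_lit 0) (XT.lf (nat_lit 0) (nat_lit 8342944845) (nat_lit 152) (nat_lit 38061081603) (nat_lit 76) (nat_lit 10525773904) (nat_lit 18) (nat_lit 5) (nat_lit 20) (nat_lit 5) (nat_lit 19) (nat_lit 4) (nat_lit 387) (nat_lit 269) (nat_lit 124)) (XT.nd (nat_lit 78) (nat_lit 0) (nat_lit 0) (XT.lf (nat_lit 0) (nat_lit 15716272112) (nat_lit 152) (nat_lit 23115575560) (nat_lit 76) (nat_lit 19541223846) (nat_lit 18) (nat_lit 5) (nat_lit 20) (nat_lit 5) (nat_lit 19) (nat_lit 4) (nat_lit 388) (nat_lit 269) (nat_lit 123)) (XT.lf (nat_lit 0) (nat_lit 23304060219) (nat_lit 152) (nat_lit 7734063089) (nat_lit 76) (nat_lit 28821721375) (nat_lit 18) (nat_lit 5) (nat_lit 20) (nat_lit 5) (nat_lit 19) (nat_lit 4) (nat_lit 389) (nat_lit 269) (nat_lit 122)))) (XT.nd (nat_lit 156) (nat_lit 0) (nat_lit 0)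 (XT.nd (nat_lit 78) (nat_lit 0) (nat_lit 0) (XT.lf (nat_lit 0) (nat_lit 8258040072) (nat_lit 76) (nat_lit 22934280534) (nat_lit 152) (nat_lit 30196716925) (nat_lit 17) (nat_lit 5) (nat_lit 18) (nat_lit 5) (nat_lit 19) (nat_lit 4) (nat_lit 390) (nat_lit 269) (nat_lit 121)) (XT.lf (nat_lit 0) (nat_lit 24876565884) (nat_lit 76) (nat_lit 14512295451) (nat_lit 152) (nat_lit 23573097452) (nat_lit 17) (nat_lit 5) (nat_lit 18) (nat_lit 5) (nat_lit 19) (nat_lit 4) (nat_lit 391) (nat_lit 269) (nat_lit 120))) (XT.nd (nat_lit 78) (nat_lit 0) (nat_lit 0) (XT.lf (nat_lit 0) (nat_lit 41982112369) (nat_lit 76) (nat_lit 5842907916) (nat_lit 152) (nat_lit 16757237288) (nat_lit 17) (nat_lit 5) (nat_lit 18) (nat_lit 5) (nat_lit 19) (nat_lit 4) (nat_lit 392) (nat_lit 269) (nat_lit 119)) (XT.lf (nat_lit 0) (nat_lit 56537789708) (nat_lit 152) (nat_lit 6691344416) (nat_lit 0) (nat_lit 3021326934) (nat_lit 17) (nat_lit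 5) (nat_lit 19) (nat_lit 4) (nat_lit 17) (nat_lit 4) (nat_lit 393) (nat_lit 269) (nat_lit 118))))) (XT.nd (nat_lit 312) (nat_lit 76) (nat_lit 0) (XT.nd (nat_lit 156) (nat_lit 0) (nat_lit 0) (XT.nd (nat_lit 78) (nat_lit 76) (nat_lit 0) (XT.lf (nat_lit 0) (nat_lit 9817439122) (nat_lit 76) (nat_lit 55840759643) (nat_lit 76) (nat_lit 2306125648) (nat_lit 16) (nat_lit 4) (nat_lit 17) (nat_lit 5) (nat_lit 17) (nat_lit 4) (nat_lit 394) (nat_lit 269) (nat_lit 117)) (XT.lf (nat_lit 0) (nat_lit 5281035447) (nat_lit 152) (nat_lit 42831773997) (nat_lit 76) (nat_lit 21613392205) (nat_lit 15) (nat_lit 5) (nat_lit 17) (nat_lit 5) (nat_lit 16) (nat_lit 4) (nat_lit 395) (nat_lit 269) (nat_lit 116))) (XT.nd (nat_lit 78) (nat_lit 0) (nat_lit 0) (XT.lf (nat_lit 0) (nat_lit 13043677989) (nat_lit 152) (nat_lit 27090737754) (nat_lit 76) (nat_lit 31406009285) (nat_lit 15) (nat_lit 5) (nat_lit 17) (nat_lit 5) (nat_lit 16)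 (nat_lit 4) (nat_lit 396) (nat_lit 269) (nat_lit 115)) (XT.lf (nat_lit 0) (nat_lit 21033585687) (nat_lit 152) (nat_lit 10887854369) (nat_lit 76) (nat_lit 41487804777) (nat_lit 15) (nat_lit 5) (nat_lit 17) (nat_lit 5) (nat_lit 16) (nat_lit 4) (nat_lit 397) (nat_lit 269) (nat_lit 114)))) (XT.nd (nat_lit 156) (nat_lit 0) (nat_lit 0) (XT.nd (nat_lit 78) (nat_lit 0) (nat_lit 0) (XT.lf (nat_lit 0) (nat_lit 5906286948) (nat_lit 76) (nat_lit 23408227907) (nat_lit 152) (nat_lit 46018075911) (nat_lit 14) (nat_lit 5) (nat_lit 15) (nat_lit 5) (nat_lit 16) (nat_lit 4) (nat_lit 398) (nat_lit 269) (nat_lit 113)) (XT.lf (nat_lit 0) (nat_lit 23417460183) (nat_lit 76) (nat_lit 14530969888) (nat_lit 152) (nat_lit 39362071486) (nat_lit 14) (nat_lit 5) (nat_lit 15) (nat_lit 5) (nat_lit 16) (nat_lit 4) (nat_lit 399) (nat_lit 269) (nat_lit 112))) (XT.nd (nat_lit 78) (nat_lit 0) (nat_lit 0) (XT.lf (nat_lit 0) (nat_lit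 41444276710) (nat_lit 76) (nat_lit 5391855153) (nat_lit 152) (nat_lit 32511775925) (nat_lit 14) (nat_lit 5) (nat_lit 15) (nat_lit 5) (nat_lit 16) (nat_lit 4) (nat_lit 400) (nat_lit 269) (nat_lit 111)) (XT.lf (nat_lit 0) (nat_lit 56024001025) (nat_lit 152) (nat_lit 21482716441) (nat_lit 0) (nat_lit 3938713804) (nat_lit 14) (nat_lit 5) (nat_lit 16) (nat_lit 4) (nat_lit 14) (nat_lit 4) (nat_lit 401) (nat_lit 269) (nat_lit 110))))))))
noncomputable def xc128 : XT := (XT.nd (nat_lit 31668) (nat_lit 0) (nat_lit 7904) (XT.nd (nat_lit 30576) (nat_lit 0) (nat_lit 18468) (XT.nd (nat_lit 546) (nat_lit 0) (nat_lit 0) (XT.nd (nat_lit 234) (nat_lit 152) (nat_lit 0) (XT.nd (nat_lit 78) (nat_lit 76) (nat_lit 0) (XT.lf (nat_lit 0) (nat_lit 65535919939) (nat_lit 152) (nat_lit 4631803239) (nat_lit 0) (nat_lit 13436705991) (nat_lit 14) (nat_lit 5) (nat_lit 16) (nat_lit 4) (nat_lit 14) (nat_lit 4) (nat_lit 402) (nat_lit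 269) (nat_lit 109)) (XT.nd (nat_lit 78) (nat_lit 0) (nat_lit 0) (XT.lf (nat_lit 0) (nat_lit 12968729053) (nat_lit 76) (nat_lit 62484304485) (nat_lit 76) (nat_lit 10371569442) (nat_lit 13) (nat_lit 4) (nat_lit 14) (nat_lit 5) (nat_lit 14) (nat_lit 4) (nat_lit 403) (nat_lit 269) (nat_lit 108)) (XT.lf (nat_lit 0) (nat_lit 31183337807) (nat_lit 76) (nat_lit 54526323770) (nat_lit 76) (nat_lit 2400461452) (nat_lit 13) (nat_lit 4) (nat_lit 14) (nat_lit 5) (nat_lit 14) (nat_lit 4) (nat_lit 404) (nat_lit 269) (nat_lit 107)))) (XT.nd (nat_lit 156) (nat_lit 76) (nat_lit 0) (XT.nd (nat_lit 78) (nat_lit 0) (nat_lit 0) (XT.lf (nat_lit 0) (nat_lit 5691731046) (nat_lit 152) (nat_lit 40584393222) (nat_lit 76) (nat_lit 44186550365) (nat_lit 12) (nat_lit 5) (nat_lit 14) (nat_lit 5) (nat_lit 13) (nat_lit 4) (nat_lit 405) (nat_lit 269) (nat_lit 106)) (XT.lf (nat_lit 0) (nat_lit 13973899702) (nat_lit 152) (nat_lit 23783964567)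 (nat_lit 76) (nat_lit 55127362756) (nat_lit 12) (nat_lit 5) (nat_lit 14) (nat_lit 5) (nat_lit 13) (nat_lit 4) (nat_lit 406) (nat_lit 269) (nat_lit 105))) (XT.nd (nat_lit 78) (nat_lit 76) (nat_lit 0) (XT.lf (nat_lit 0) (nat_lit 22500123009) (nat_lit 152) (nat_lit 6487744570) (nat_lit 76) (nat_lit 66392721660) (nat_lit 12) (nat_lit 5) (nat_lit 14) (nat_lit 5) (nat_lit 13) (nat_lit 4) (nat_lit 407) (nat_lit 269) (nat_lit 104)) (XT.lf (nat_lit 0) (nat_lit 11544657828) (nat_lit 76) (nat_lit 19844167552) (nat_lit 152) (nat_lit 66558787082) (nat_lit 11) (nat_lit 5) (nat_lit 12) (nat_lit 5) (nat_lit 13) (nat_lit 4) (nat_lit 408) (nat_lit 269) (nat_lit 103))))) (XT.nd (nat_lit 234) (nat_lit 0) (nat_lit 0) (XT.nd (nat_lit 78) (nat_lit 0) (nat_lit 0) (XT.lf (nat_lit 0) (nat_lit 30243120902) (nat_lit 76) (nat_lit 10362348211) (nat_lit 152) (nat_lit 59984339744) (nat_lit 11) (nat_lit 5) (nat_lit 12) (nat_lit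 5) (nat_lit 13) (nat_lit 4) (nat_lit 409) (nat_lit 269) (nat_lit 102)) (XT.nd (nat_lit 78) (nat_lit 0) (nat_lit 0) (XT.lf (nat_lit 0) (nat_lit 49494864278) (nat_lit 76) (nat_lit 599637970) (nat_lit 152) (nat_lit 53216893054) (nat_lit 11) (nat_lit 5) (nat_lit 12) (nat_lit 5) (nat_lit 13) (nat_lit 4) (nat_lit 410) (nat_lit 269) (nat_lit 101)) (XT.lf (nat_lit 0) (nat_lit 59955079323) (nat_lit 152) (nat_lit 36888903166) (nat_lit 0) (nat_lit 9268041495) (nat_lit 11) (nat_lit 5) (nat_lit 13) (nat_lit 4) (nat_lit 11) (nat_lit 4) (nat_lit 411) (nat_lit 269) (nat_lit 100)))) (XT.nd (nat_lit 29640) (nat_lit 0) (nat_lit 21356) (XT.nd (nat_lit 29562) (nat_lit 0) (nat_lit 21356) (XT.lf (nat_lit 0) (nat_lit 70113504445) (nat_lit 152) (nat_lit 19466701317) (nat_lit 0) (nat_lit 19416405653) (nat_lit 11) (nat_lit 5) (nat_lit 13) (nat_lit 4) (nat_lit 11) (nat_lit 4) (nat_lit 412) (nat_lit 269) (nat_lit 99)) (XT.lf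 (nat_lit 0) (nat_lit 1316171222) (nat_lit 684) (nat_lit 1060744327) (nat_lit 684) (nat_lit 1060744327) (nat_lit 292) (nat_lit 3) (nat_lit 301) (nat_lit 3) (nat_lit 301) (nat_lit 5) (nat_lit 270) (nat_lit 270) (nat_lit 240))) (XT.nd (nat_lit 78) (nat_lit 0) (nat_lit 0) (XT.lf (nat_lit 76) (nat_lit 1107289125) (nat_lit 0) (nat_lit 3424732578) (nat_lit 684) (nat_lit 2387977100) (nat_lit 293) (nat_lit 5) (nat_lit 292) (nat_lit 3) (nat_lit 301) (nat_lit 5) (nat_lit 271) (nat_lit 270) (nat_lit 239)) (XT.lf (nat_lit 76) (nat_lit 4438452072) (nat_lit 0) (nat_lit 1999114414) (nat_lit 684) (nat_lit 530088707) (nat_lit 293) (nat_lit 5) (nat_lit 292) (nat_lit 3) (nat_lit 301) (nat_lit 5) (nat_lit 272) (nat_lit 270) (nat_lit 238)))))) (XT.nd (nat_lit 546) (nat_lit 1520) (nat_lit 0) (XT.nd (nat_lit 234) (nat_lit 684) (nat_lit 0) (XT.nd (nat_lit 78) (nat_lit 0) (nat_lit 76) (XT.lf (nat_lit 76) (nat_lit 817077659)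 (nat_lit 0) (nat_lit 476084825) (nat_lit 760) (nat_lit 5725178389) (nat_lit 284) (nat_lit 5) (nat_lit 283) (nat_lit 5) (nat_lit 293) (nat_lit 5) (nat_lit 273) (nat_lit 270) (nat_lit 237)) (XT.nd (nat_lit 78) (nat_lit 0) (nat_lit 0) (XT.lf (nat_lit 0) (nat_lit 3127534977) (nat_lit 684) (nat_lit 2810674800) (nat_lit 760) (nat_lit 1133262020) (nat_lit 284) (nat_lit 5) (nat_lit 293) (nat_lit 5) (nat_lit 294) (nat_lit 5) (nat_lit 274) (nat_lit 270) (nat_lit 236)) (XT.lf (nat_lit 76) (nat_lit 650303865) (nat_lit 0) (nat_lit 4310397739) (nat_lit 760) (nat_lit 2167273868) (nat_lit 285) (nat_lit 5) (nat_lit 284) (nat_lit 5) (nat_lit 294) (nat_lit 5) (nat_lit 275) (nat_lit 270) (nat_lit 235)))) (XT.nd (nat_lit 156) (nat_lit 0) (nat_lit 76) (XT.nd (nat_lit 78) (nat_lit 760) (nat_lit 0) (XT.lf (nat_lit 76) (nat_lit 4233809833) (nat_lit 0) (nat_lit 2577817062) (nat_lit 760) (nat_lit 375753493) (nat_lit 285)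 (nat_lit 5) (nat_lit 284) (nat_lit 5) (nat_lit 294) (nat_lit 5) (nat_lit 276) (nat_lit 270) (nat_lit 234)) (XT.lf (nat_lit 76) (nat_lit 635375467) (nat_lit 0) (nat_lit 747146217) (nat_lit 836) (nat_lit 5867455383) (nat_lit 275) (nat_lit 5) (nat_lit 274) (nat_lit 5) (nat_lit 285) (nat_lit 5) (nat_lit 277) (nat_lit 270) (nat_lit 233))) (XT.nd (nat_lit 78) (nat_lit 0) (nat_lit 0) (XT.lf (nat_lit 0) (nat_lit 3164369814) (nat_lit 760) (nat_lit 2976948845) (nat_lit 836) (nat_lit 1173751556) (nat_lit 275) (nat_lit 5) (nat_lit 285) (nat_lit 5) (nat_lit 286) (nat_lit 5) (nat_lit 278) (nat_lit 270) (nat_lit 232)) (XT.lf (nat_lit 76) (nat_lit 737043556) (nat_lit 0) (nat_lit 4216251036) (nat_lit 836) (nat_lit 2430292040) (nat_lit 276) (nat_lit 5) (nat_lit 275) (nat_lit 5) (nat_lit 286) (nat_lit 5) (nat_lit 279) (nat_lit 270) (nat_lit 231))))) (XT.nd (nat_lit 234) (nat_lit 760) (nat_lit 0) (XT.nd (nat_lit 78)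 (nat_lit 836) (nat_lit 0) (XT.lf (nat_lit 76) (nat_lit 4584095388) (nat_lit 0) (nat_lit 2182385943) (nat_lit 836) (nat_lit 688636193) (nat_lit 276) (nat_lit 5) (nat_lit 275) (nat_lit 5) (nat_lit 286) (nat_lit 5) (nat_lit 280) (nat_lit 270) (nat_lit 230)) (XT.nd (nat_lit 78) (nat_lit 0) (nat_lit 76) (XT.lf (nat_lit 76) (nat_lit 986926379) (nat_lit 0) (nat_lit 47882274) (nat_lit 912) (nat_lit 6495206139) (nat_lit 265) (nat_lit 5) (nat_lit 264) (nat_lit 5) (nat_lit 276) (nat_lit 5) (nat_lit 281) (nat_lit 270) (nat_lit 229)) (XT.lf (nat_lit 0) (nat_lit 2789185694) (nat_lit 836) (nat_lit 2655641110) (nat_lit 912) (nat_lit 2162405827) (nat_lit 265) (nat_lit 5) (nat_lit 276) (nat_lit 5) (nat_lit 277) (nat_lit 5) (nat_lit 282) (nat_lit 270) (nat_lit 228)))) (XT.nd (nat_lit 156) (nat_lit 836) (nat_lit 0) (XT.nd (nat_lit 78) (nat_lit 0) (nat_lit 0) (XT.lf (nat_lit 76) (nat_lit 1334145118) (nat_lit 0) (nat_lit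 3220121983) (nat_lit 912) (nat_lit 3133825956) (nat_lit 266) (nat_lit 5) (nat_lit 265) (nat_lit 5) (nat_lit 277) (nat_lit 5) (nat_lit 283) (nat_lit 270) (nat_lit 227)) (XT.lf (nat_lit 76) (nat_lit 5458609217) (nat_lit 0) (nat_lit 886512117) (nat_lit 912) (nat_lit 1427139606) (nat_lit 266) (nat_lit 5) (nat_lit 265) (nat_lit 5) (nat_lit 277) (nat_lit 5) (nat_lit 284) (nat_lit 270) (nat_lit 226))) (XT.nd (nat_lit 78) (nat_lit 0) (nat_lit 0) (XT.lf (nat_lit 0) (nat_lit 303906659) (nat_lit 912) (nat_lit 6033720689) (nat_lit 76) (nat_lit 1521905181) (nat_lit 254) (nat_lit 5) (nat_lit 266) (nat_lit 5) (nat_lit 255) (nat_lit 5) (nat_lit 285) (nat_lit 270) (nat_lit 225)) (XT.lf (nat_lit 0) (nat_lit 2038858125) (nat_lit 912) (nat_lit 1875747529) (nat_lit 76) (nat_lit 4035033604) (nat_lit 254) (nat_lit 5) (nat_lit 266) (nat_lit 5) (nat_lit 255) (nat_lit 5) (nat_lit 286) (nat_lit 270) (nat_lit 224))))))) (XT.nd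 (nat_lit 1092) (nat_lit 3800) (nat_lit 0) (XT.nd (nat_lit 546) (nat_lit 2584) (nat_lit 0) (XT.nd (nat_lit 234) (nat_lit 2280) (nat_lit 0) (XT.nd (nat_lit 78) (nat_lit 988) (nat_lit 0) (XT.lf (nat_lit 0) (nat_lit 2414493587) (nat_lit 912) (nat_lit 1384366265) (nat_lit 988) (nat_lit 4244458155) (nat_lit 242) (nat_lit 5) (nat_lit 254) (nat_lit 5) (nat_lit 255) (nat_lit 5) (nat_lit 287) (nat_lit 270) (nat_lit 223)) (XT.nd (nat_lit 78) (nat_lit 988) (nat_lit 0) (XT.lf (nat_lit 0) (nat_lit 5593508124) (nat_lit 988) (nat_lit 1320102805) (nat_lit 76) (nat_lit 1226797945) (nat_lit 242) (nat_lit 5) (nat_lit 255) (nat_lit 5) (nat_lit 243) (nat_lit 5) (nat_lit 288) (nat_lit 270) (nat_lit 222)) (XT.lf (nat_lit 0) (nat_lit 3125528437) (nat_lit 988) (nat_lit 4312619548) (nat_lit 1064) (nat_lit 802435406) (nat_lit 229) (nat_lit 5) (nat_lit 242) (nat_lit 5) (nat_lit 243) (nat_lit 5) (nat_lit 289) (nat_lit 270) (nat_lit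 221)))) (XT.nd (nat_lit 156) (nat_lit 1140) (nat_lit 0) (XT.nd (nat_lit 78) (nat_lit 1064) (nat_lit 0) (XT.lf (nat_lit 0) (nat_lit 941318767) (nat_lit 1064) (nat_lit 661701138) (nat_lit 76) (nat_lit 6741518035) (nat_lit 228) (nat_lit 5) (nat_lit 242) (nat_lit 5) (nat_lit 229) (nat_lit 5) (nat_lit 290) (nat_lit 270) (nat_lit 220)) (XT.lf (nat_lit 0) (nat_lit 2725485135) (nat_lit 1140) (nat_lit 4508164508) (nat_lit 76) (nat_lit 1217647081) (nat_lit 214) (nat_lit 5) (nat_lit 229) (nat_lit 5) (nat_lit 215) (nat_lit 5) (nat_lit 291) (nat_lit 270) (nat_lit 219))) (XT.nd (nat_lit 78) (nat_lit 0) (nat_lit 0) (XT.lf (nat_lit 0) (nat_lit 84189199) (nat_lit 1140) (nat_lit 4457702818) (nat_lit 1216) (nat_lit 4020054091) (nat_lit 199) (nat_lit 5) (nat_lit 214) (nat_lit 5) (nat_lit 215) (nat_lit 5) (nat_lit 292) (nat_lit 270) (nat_lit 218)) (XT.lf (nat_lit 0) (nat_lit 4866986957) (nat_lit 1140) (nat_lit 1547534818)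 (nat_lit 1216) (nat_lit 2261389141) (nat_lit 199) (nat_lit 5) (nat_lit 214) (nat_lit 5) (nat_lit 215) (nat_lit 5) (nat_lit 293) (nat_lit 270) (nat_lit 217))))) (XT.nd (nat_lit 234) (nat_lit 1140) (nat_lit 0) (XT.nd (nat_lit 78) (nat_lit 684) (nat_lit 0) (XT.lf (nat_lit 0) (nat_lit 964923543) (nat_lit 760) (nat_lit 7359140412) (nat_lit 836) (nat_lit 469855179) (nat_lit 189) (nat_lit 5) (nat_lit 199) (nat_lit 5) (nat_lit 200) (nat_lit 5) (nat_lit 294) (nat_lit 270) (nat_lit 216)) (XT.nd (nat_lit 78) (nat_lit 608) (nat_lit 0) (XT.lf (nat_lit 0) (nat_lit 1360672065) (nat_lit 836) (nat_lit 3023603953) (nat_lit 76) (nat_lit 4530476139) (nat_lit 188) (nat_lit 5) (nat_lit 199) (nat_lit 5) (nat_lit 189) (nat_lit 5) (nat_lit 295) (nat_lit 270) (nat_lit 215)) (XT.lf (nat_lit 0) (nat_lit 1919499835) (nat_lit 608) (nat_lit 1294769820) (nat_lit 684) (nat_lit 5825515535) (nat_lit 180) (nat_lit 5) (nat_lit 188)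 (nat_lit 5) (nat_lit 189) (nat_lit 5) (nat_lit 296) (nat_lit 270) (nat_lit 214)))) (XT.nd (nat_lit 156) (nat_lit 608) (nat_lit 0) (XT.nd (nat_lit 78) (nat_lit 532) (nat_lit 0) (XT.lf (nat_lit 0) (nat_lit 5132427237) (nat_lit 684) (nat_lit 2153343646) (nat_lit 76) (nat_lit 1882571058) (nat_lit 180) (nat_lit 5) (nat_lit 189) (nat_lit 5) (nat_lit 181) (nat_lit 5) (nat_lit 297) (nat_lit 270) (nat_lit 213)) (XT.lf (nat_lit 0) (nat_lit 2968764006) (nat_lit 532) (nat_lit 4141862656) (nat_lit 608) (nat_lit 2190093905) (nat_lit 173) (nat_lit 5) (nat_lit 180) (nat_lit 5) (nat_lit 181) (nat_lit 5) (nat_lit 298) (nat_lit 270) (nat_lit 212))) (XT.nd (nat_lit 78) (nat_lit 608) (nat_lit 0) (XT.lf (nat_lit 0) (nat_lit 8250104140) (nat_lit 532) (nat_lit 881713580) (nat_lit 608) (nat_lit 305782379) (nat_lit 173) (nat_lit 5) (nat_lit 180) (nat_lit 5) (nat_lit 181) (nat_lit 5) (nat_lit 299) (nat_lit 270) (nat_lit 211))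 (XT.lf (nat_lit 0) (nat_lit 1629882614) (nat_lit 608) (nat_lit 5464323224) (nat_lit 76) (nat_lit 2483143448) (nat_lit 165) (nat_lit 5) (nat_lit 173) (nat_lit 5) (nat_lit 166) (nat_lit 5) (nat_lit 300) (nat_lit 270) (nat_lit 210)))))) (XT.nd (nat_lit 546) (nat_lit 1748) (nat_lit 0) (XT.nd (nat_lit 234) (nat_lit 988) (nat_lit 0) (XT.nd (nat_lit 78) (nat_lit 1064) (nat_lit 0) (XT.lf (nat_lit 0) (nat_lit 3601632885) (nat_lit 608) (nat_lit 174880078) (nat_lit 76) (nat_lit 5945197939) (nat_lit 165) (nat_lit 5) (nat_lit 173) (nat_lit 5) (nat_lit 166) (nat_lit 5) (nat_lit 301) (nat_lit 270) (nat_lit 209)) (XT.nd (nat_lit 78) (nat_lit 532) (nat_lit 0) (XT.lf (nat_lit 0) (nat_lit 5339597445) (nat_lit 532) (nat_lit 308655312) (nat_lit 608) (nat_lit 4221713674) (nat_lit 158) (nat_lit 5) (nat_lit 165) (nat_lit 5) (nat_lit 166) (nat_lit 5) (nat_lit 302) (nat_lit 270) (nat_lit 208)) (XT.lf (nat_lit 0) (nat_lit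 949081955) (nat_lit 532) (nat_lit 6814506291) (nat_lit 608) (nat_lit 2258895441) (nat_lit 151) (nat_lit 5) (nat_lit 158) (nat_lit 5) (nat_lit 159) (nat_lit 5) (nat_lit 303) (nat_lit 270) (nat_lit 207)))) (XT.nd (nat_lit 156) (nat_lit 456) (nat_lit 0) (XT.nd (nat_lit 78) (nat_lit 532) (nat_lit 0) (XT.lf (nat_lit 0) (nat_lit 6644515635) (nat_lit 532) (nat_lit 3312335680) (nat_lit 608) (nat_lit 222323712) (nat_lit 151) (nat_lit 5) (nat_lit 158) (nat_lit 5) (nat_lit 159) (nat_lit 5) (nat_lit 304) (nat_lit 270) (nat_lit 206)) (XT.lf (nat_lit 0) (nat_lit 1828991980) (nat_lit 532) (nat_lit 8187065662) (nat_lit 76) (nat_lit 324292132) (nat_lit 144) (nat_lit 5) (nat_lit 151) (nat_lit 5) (nat_lit 145) (nat_lit 5) (nat_lit 305) (nat_lit 270) (nat_lit 205))) (XT.nd (nat_lit 78) (nat_lit 456) (nat_lit 0) (XT.lf (nat_lit 0) (nat_lit 3973132446) (nat_lit 532) (nat_lit 2494667307) (nat_lit 76) (nat_lit 4037451189)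 (nat_lit 144) (nat_lit 5) (nat_lit 151) (nat_lit 5) (nat_lit 145) (nat_lit 5) (nat_lit 306) (nat_lit 270) (nat_lit 204)) (XT.lf (nat_lit 0) (nat_lit 3397567518) (nat_lit 456) (nat_lit 2784564696) (nat_lit 532) (nat_lit 4492979835) (nat_lit 138) (nat_lit 5) (nat_lit 144) (nat_lit 5) (nat_lit 145) (nat_lit 5) (nat_lit 307) (nat_lit 270) (nat_lit 203))))) (XT.nd (nat_lit 312) (nat_lit 836) (nat_lit 0) (XT.nd (nat_lit 156) (nat_lit 532) (nat_lit 0) (XT.nd (nat_lit 78) (nat_lit 380) (nat_lit 0) (XT.lf (nat_lit 0) (nat_lit 8460949026) (nat_lit 532) (nat_lit 1379348214) (nat_lit 76) (nat_lit 1009693455) (nat_lit 138) (nat_lit 5) (nat_lit 145) (nat_lit 5) (nat_lit 139) (nat_lit 5) (nat_lit 308) (nat_lit 270) (nat_lit 202)) (XT.lf (nat_lit 0) (nat_lit 4723708941) (nat_lit 380) (nat_lit 6126724399) (nat_lit 456) (nat_lit 178440567) (nat_lit 133) (nat_lit 5) (nat_lit 138) (nat_lit 5) (nat_lit 139) (nat_lit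 5) (nat_lit 309) (nat_lit 270) (nat_lit 201))) (XT.nd (nat_lit 78) (nat_lit 456) (nat_lit 0) (XT.lf (nat_lit 0) (nat_lit 2041142059) (nat_lit 456) (nat_lit 231846210) (nat_lit 76) (nat_lit 8940047548) (nat_lit 132) (nat_lit 5) (nat_lit 138) (nat_lit 5) (nat_lit 133) (nat_lit 5) (nat_lit 310) (nat_lit 270) (nat_lit 200)) (XT.lf (nat_lit 0) (nat_lit 4369689149) (nat_lit 532) (nat_lit 5313513533) (nat_lit 76) (nat_lit 1718112977) (nat_lit 126) (nat_lit 5) (nat_lit 133) (nat_lit 5) (nat_lit 127) (nat_lit 5) (nat_lit 311) (nat_lit 270) (nat_lit 199)))) (XT.nd (nat_lit 156) (nat_lit 456) (nat_lit 0) (XT.nd (nat_lit 78) (nat_lit 0) (nat_lit 0) (XT.lf (nat_lit 0) (nat_lit 966583734) (nat_lit 380) (nat_lit 5806559512) (nat_lit 456) (nat_lit 4821973385) (nat_lit 121) (nat_lit 5) (nat_lit 126) (nat_lit 5) (nat_lit 127) (nat_lit 5) (nat_lit 312) (nat_lit 270) (nat_lit 198)) (XT.lf (nat_lit 0) (nat_lit 7507993639)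 (nat_lit 380) (nat_lit 1765755083) (nat_lit 456) (nat_lit 2520255023) (nat_lit 121) (nat_lit 5) (nat_lit 126) (nat_lit 5) (nat_lit 127) (nat_lit 5) (nat_lit 313) (nat_lit 270) (nat_lit 197))) (XT.nd (nat_lit 78) (nat_lit 76) (nat_lit 0) (XT.lf (nat_lit 0) (nat_lit 2231549267) (nat_lit 380) (nat_lit 9634464403) (nat_lit 456) (nat_lit 132367424) (nat_lit 116) (nat_lit 5) (nat_lit 121) (nat_lit 5) (nat_lit 122) (nat_lit 5) (nat_lit 314) (nat_lit 270) (nat_lit 196)) (XT.lf (nat_lit 0) (nat_lit 2315270899) (nat_lit 456) (nat_lit 3251350108) (nat_lit 76) (nat_lit 6640613442) (nat_lit 115) (nat_lit 5) (nat_lit 121) (nat_lit 5) (nat_lit 116) (nat_lit 5) (nat_lit 315) (nat_lit 270) (nat_lit 195))))))))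
noncomputable def xc129 : XT := (XT.nd (nat_lit 2184) (nat_lit 2204) (nat_lit 0) (XT.nd (nat_lit 1092) (nat_lit 1672) (nat_lit 0) (XT.nd (nat_lit 546) (nat_lit 1292) (nat_lit 0) (XT.nd (nat_lit 234) (nat_lit 684) (nat_lit 0) (XT.nd (nat_lit 78) (nat_lit 380) (nat_lit 0) (XT.lf (nat_lit 0) (nat_lit 3491492934) (nat_lit 380) (nat_lit 1348886932) (nat_lit 456) (nat_lit 7581754086) (nat_lit 110) (nat_lit 5) (nat_lit 115) (nat_lit 5) (nat_lit 116) (nat_lit 5) (nat_lit 316) (nat_lit 270) (nat_lit 194)) (XT.nd (nat_lit 78) (nat_lit 380) (nat_lit 0) (XT.lf (nat_lit 0) (nat_lit 7476703807) (nat_lit 456) (nat_lit 2203659048) (nat_lit 76) (nat_lit 2962074044) (nat_lit 110) (nat_lit 5) (nat_lit 116) (nat_lit 5) (nat_lit 111) (nat_lit 5) (nat_lit 317) (nat_lit 270) (nat_lit 193)) (XT.lf (nat_lit 0) (nat_lit 4770581055) (nat_lit 380) (nat_lit 5455031952) (nat_lit 456) (nat_lit 2642750781) (nat_lit 105) (nat_lit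 5) (nat_lit 110) (nat_lit 5) (nat_lit 111) (nat_lit 5) (nat_lit 318) (nat_lit 270) (nat_lit 192)))) (XT.nd (nat_lit 156) (nat_lit 304) (nat_lit 0) (XT.nd (nat_lit 78) (nat_lit 380) (nat_lit 0) (XT.lf (nat_lit 0) (nat_lit 11965270132) (nat_lit 380) (nat_lit 1088677162) (nat_lit 456) (nat_lit 47231600) (nat_lit 105) (nat_lit 5) (nat_lit 110) (nat_lit 5) (nat_lit 111) (nat_lit 5) (nat_lit 319) (nat_lit 270) (nat_lit 191)) (XT.lf (nat_lit 0) (nat_lit 2642190283) (nat_lit 380) (nat_lit 7277699936) (nat_lit 76) (nat_lit 3418330470) (nat_lit 100) (nat_lit 5) (nat_lit 105) (nat_lit 5) (nat_lit 101) (nat_lit 5) (nat_lit 320) (nat_lit 270) (nat_lit 190))) (XT.nd (nat_lit 78) (nat_lit 304) (nat_lit 0) (XT.lf (nat_lit 0) (nat_lit 5409209411) (nat_lit 380) (nat_lit 131073729) (nat_lit 76) (nat_lit 8042158171) (nat_lit 100) (nat_lit 5) (nat_lit 105) (nat_lit 5) (nat_lit 101) (nat_lit 5) (nat_lit 321) (nat_lit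 270) (nat_lit 189)) (XT.lf (nat_lit 0) (nat_lit 7340360874) (nat_lit 304) (nat_lit 965652740) (nat_lit 380) (nat_lit 5526588715) (nat_lit 96) (nat_lit 5) (nat_lit 100) (nat_lit 5) (nat_lit 101) (nat_lit 5) (nat_lit 322) (nat_lit 270) (nat_lit 188))))) (XT.nd (nat_lit 234) (nat_lit 608) (nat_lit 0) (XT.nd (nat_lit 78) (nat_lit 380) (nat_lit 0) (XT.lf (nat_lit 0) (nat_lit 896734798) (nat_lit 304) (nat_lit 10415462031) (nat_lit 380) (nat_lit 2777413616) (nat_lit 92) (nat_lit 5) (nat_lit 96) (nat_lit 5) (nat_lit 97) (nat_lit 5) (nat_lit 323) (nat_lit 270) (nat_lit 187)) (XT.nd (nat_lit 78) (nat_lit 304) (nat_lit 0) (XT.lf (nat_lit 0) (nat_lit 105578789) (nat_lit 380) (nat_lit 5755920889) (nat_lit 76) (nat_lit 8491257039) (nat_lit 91) (nat_lit 5) (nat_lit 96) (nat_lit 5) (nat_lit 92) (nat_lit 5) (nat_lit 324) (nat_lit 270) (nat_lit 186)) (XT.lf (nat_lit 0) (nat_lit 1881026240) (nat_lit 304) (nat_lit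 1133605154) (nat_lit 380) (nat_lit 11608494312) (nat_lit 87) (nat_lit 5) (nat_lit 91) (nat_lit 5) (nat_lit 92) (nat_lit 5) (nat_lit 325) (nat_lit 270) (nat_lit 185)))) (XT.nd (nat_lit 156) (nat_lit 380) (nat_lit 0) (XT.nd (nat_lit 78) (nat_lit 228) (nat_lit 0) (XT.lf (nat_lit 0) (nat_lit 6083140812) (nat_lit 380) (nat_lit 5103876535) (nat_lit 76) (nat_lit 3712437535) (nat_lit 87) (nat_lit 5) (nat_lit 92) (nat_lit 5) (nat_lit 88) (nat_lit 5) (nat_lit 326) (nat_lit 270) (nat_lit 184)) (XT.lf (nat_lit 0) (nat_lit 2774766826) (nat_lit 228) (nat_lit 6485060793) (nat_lit 304) (nat_lit 5923776895) (nat_lit 84) (nat_lit 5) (nat_lit 87) (nat_lit 5) (nat_lit 88) (nat_lit 5) (nat_lit 327) (nat_lit 270) (nat_lit 183))) (XT.nd (nat_lit 78) (nat_lit 380) (nat_lit 0) (XT.lf (nat_lit 0) (nat_lit 10963056091) (nat_lit 228) (nat_lit 1598856595) (nat_lit 304) (nat_lit 2913476851) (nat_lit 84) (nat_lit 5) (nat_lit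 87) (nat_lit 5) (nat_lit 88) (nat_lit 5) (nat_lit 328) (nat_lit 270) (nat_lit 182)) (XT.lf (nat_lit 0) (nat_lit 230905608) (nat_lit 380) (nat_lit 12148916977) (nat_lit 76) (nat_lit 3394641847) (nat_lit 79) (nat_lit 5) (nat_lit 84) (nat_lit 5) (nat_lit 80) (nat_lit 5) (nat_lit 329) (nat_lit 270) (nat_lit 181)))))) (XT.nd (nat_lit 546) (nat_lit 912) (nat_lit 0) (XT.nd (nat_lit 234) (nat_lit 532) (nat_lit 0) (XT.nd (nat_lit 78) (nat_lit 228) (nat_lit 0) (XT.lf (nat_lit 0) (nat_lit 3452096855) (nat_lit 380) (nat_lit 4057303026) (nat_lit 76) (nat_lit 8571027902) (nat_lit 79) (nat_lit 5) (nat_lit 84) (nat_lit 5) (nat_lit 80) (nat_lit 5) (nat_lit 330) (nat_lit 270) (nat_lit 180)) (XT.nd (nat_lit 78) (nat_lit 0) (nat_lit 0) (XT.lf (nat_lit 0) (nat_lit 4331392145) (nat_lit 228) (nat_lit 2459962038) (nat_lit 304) (nat_lit 9603585228) (nat_lit 76) (nat_lit 5) (nat_lit 79) (nat_lit 5) (nat_lit 80) (nat_lit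 5) (nat_lit 331) (nat_lit 270) (nat_lit 179)) (XT.lf (nat_lit 0) (nat_lit 10278512978) (nat_lit 304) (nat_lit 3719897137) (nat_lit 76) (nat_lit 2719056493) (nat_lit 76) (nat_lit 5) (nat_lit 80) (nat_lit 5) (nat_lit 77) (nat_lit 5) (nat_lit 332) (nat_lit 270) (nat_lit 178)))) (XT.nd (nat_lit 156) (nat_lit 228) (nat_lit 0) (XT.nd (nat_lit 78) (nat_lit 76) (nat_lit 0) (XT.lf (nat_lit 0) (nat_lit 4916117844) (nat_lit 228) (nat_lit 9006363538) (nat_lit 304) (nat_lit 3125633976) (nat_lit 73) (nat_lit 5) (nat_lit 76) (nat_lit 5) (nat_lit 77) (nat_lit 5) (nat_lit 333) (nat_lit 270) (nat_lit 177)) (XT.lf (nat_lit 0) (nat_lit 300084962) (nat_lit 304) (nat_lit 3532846748) (nat_lit 76) (nat_lit 13555121936) (nat_lit 72) (nat_lit 5) (nat_lit 76) (nat_lit 5) (nat_lit 73) (nat_lit 5) (nat_lit 334) (nat_lit 270) (nat_lit 176))) (XT.nd (nat_lit 78) (nat_lit 0) (nat_lit 0) (XT.lf (nat_lit 0) (nat_lit 3813695027)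 (nat_lit 304) (nat_lit 12382042232) (nat_lit 76) (nat_lit 1540096767) (nat_lit 69) (nat_lit 5) (nat_lit 73) (nat_lit 5) (nat_lit 70) (nat_lit 5) (nat_lit 335) (nat_lit 270) (nat_lit 175)) (XT.lf (nat_lit 0) (nat_lit 7488097528) (nat_lit 304) (nat_lit 3580781639) (nat_lit 76) (nat_lit 7023517417) (nat_lit 69) (nat_lit 5) (nat_lit 73) (nat_lit 5) (nat_lit 70) (nat_lit 5) (nat_lit 336) (nat_lit 270) (nat_lit 174))))) (XT.nd (nat_lit 234) (nat_lit 380) (nat_lit 0) (XT.nd (nat_lit 78) (nat_lit 304) (nat_lit 0) (XT.lf (nat_lit 0) (nat_lit 5565002815) (nat_lit 228) (nat_lit 5743171340) (nat_lit 304) (nat_lit 7150428596) (nat_lit 66) (nat_lit 5) (nat_lit 69) (nat_lit 5) (nat_lit 70) (nat_lit 5) (nat_lit 337) (nat_lit 270) (nat_lit 173)) (XT.nd (nat_lit 78) (nat_lit 304) (nat_lit 0) (XT.lf (nat_lit 0) (nat_lit 15030731673) (nat_lit 228) (nat_lit 230486377) (nat_lit 304) (nat_lit 3574035803) (nat_lit 66)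 (nat_lit 5) (nat_lit 69) (nat_lit 5) (nat_lit 70) (nat_lit 5) (nat_lit 338) (nat_lit 270) (nat_lit 172)) (XT.lf (nat_lit 0) (nat_lit 197074299) (nat_lit 304) (nat_lit 13636066550) (nat_lit 76) (nat_lit 5387354208) (nat_lit 62) (nat_lit 5) (nat_lit 66) (nat_lit 5) (nat_lit 63) (nat_lit 5) (nat_lit 339) (nat_lit 270) (nat_lit 171)))) (XT.nd (nat_lit 156) (nat_lit 152) (nat_lit 0) (XT.nd (nat_lit 78) (nat_lit 228) (nat_lit 0) (XT.lf (nat_lit 0) (nat_lit 4033260503) (nat_lit 304) (nat_lit 4348692276) (nat_lit 76) (nat_lit 11233574678) (nat_lit 62) (nat_lit 5) (nat_lit 66) (nat_lit 5) (nat_lit 63) (nat_lit 5) (nat_lit 340) (nat_lit 270) (nat_lit 170)) (XT.lf (nat_lit 0) (nat_lit 5293868679) (nat_lit 228) (nat_lit 2724752241) (nat_lit 304) (nat_lit 12002775871) (nat_lit 59) (nat_lit 5) (nat_lit 62) (nat_lit 5) (nat_lit 63) (nat_lit 5) (nat_lit 341) (nat_lit 270) (nat_lit 169))) (XT.nd (nat_lit 78) (nat_lit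 152) (nat_lit 0) (XT.lf (nat_lit 0) (nat_lit 12181050367) (nat_lit 304) (nat_lit 5180414002) (nat_lit 76) (nat_lit 3076260957) (nat_lit 59) (nat_lit 5) (nat_lit 63) (nat_lit 5) (nat_lit 60) (nat_lit 5) (nat_lit 342) (nat_lit 270) (nat_lit 168)) (XT.lf (nat_lit 0) (nat_lit 4691583636) (nat_lit 152) (nat_lit 11832670677) (nat_lit 228) (nat_lit 4340620480) (nat_lit 57) (nat_lit 5) (nat_lit 59) (nat_lit 5) (nat_lit 60) (nat_lit 5) (nat_lit 343) (nat_lit 270) (nat_lit 167))))))) (XT.nd (nat_lit 1092) (nat_lit 912) (nat_lit 0) (XT.nd (nat_lit 546) (nat_lit 532) (nat_lit 0) (XT.nd (nat_lit 234) (nat_lit 456) (nat_lit 0) (XT.nd (nat_lit 78) (nat_lit 304) (nat_lit 0) (XT.lf (nat_lit 0) (nat_lit 14940088667) (nat_lit 152) (nat_lit 6094025888) (nat_lit 228) (nat_lit 269641270) (nat_lit 57) (nat_lit 5) (nat_lit 59) (nat_lit 5) (nat_lit 60) (nat_lit 5) (nat_lit 344) (nat_lit 270) (nat_lit 166)) (XT.nd (nat_lit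 78) (nat_lit 0) (nat_lit 0) (XT.lf (nat_lit 0) (nat_lit 3750300651) (nat_lit 228) (nat_lit 117007793) (nat_lit 304) (nat_lit 17886758774) (nat_lit 53) (nat_lit 5) (nat_lit 56) (nat_lit 5) (nat_lit 57) (nat_lit 5) (nat_lit 345) (nat_lit 270) (nat_lit 165)) (XT.lf (nat_lit 0) (nat_lit 8230369873) (nat_lit 304) (nat_lit 8004722908) (nat_lit 76) (nat_lit 5979499615) (nat_lit 53) (nat_lit 5) (nat_lit 57) (nat_lit 5) (nat_lit 54) (nat_lit 5) (nat_lit 346) (nat_lit 270) (nat_lit 164)))) (XT.nd (nat_lit 156) (nat_lit 304) (nat_lit 0) (XT.nd (nat_lit 78) (nat_lit 0) (nat_lit 0) (XT.lf (nat_lit 0) (nat_lit 2313482208) (nat_lit 152) (nat_lit 10419162593) (nat_lit 228) (nat_lit 9956045887) (nat_lit 51) (nat_lit 5) (nat_lit 53) (nat_lit 5) (nat_lit 54) (nat_lit 5) (nat_lit 347) (nat_lit 270) (nat_lit 163)) (XT.lf (nat_lit 0) (nat_lit 13080769817) (nat_lit 152) (nat_lit 4355177800) (nat_lit 228) (nat_lit 5739092327)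 (nat_lit 51) (nat_lit 5) (nat_lit 53) (nat_lit 5) (nat_lit 54) (nat_lit 5) (nat_lit 348) (nat_lit 270) (nat_lit 162))) (XT.nd (nat_lit 78) (nat_lit 76) (nat_lit 0) (XT.lf (nat_lit 0) (nat_lit 461744913) (nat_lit 228) (nat_lit 21826688464) (nat_lit 304) (nat_lit 1387310389) (nat_lit 48) (nat_lit 5) (nat_lit 51) (nat_lit 5) (nat_lit 52) (nat_lit 5) (nat_lit 349) (nat_lit 270) (nat_lit 161)) (XT.lf (nat_lit 0) (nat_lit 3166207261) (nat_lit 304) (nat_lit 12745173087) (nat_lit 76) (nat_lit 8275254724) (nat_lit 47) (nat_lit 5) (nat_lit 51) (nat_lit 5) (nat_lit 48) (nat_lit 5) (nat_lit 350) (nat_lit 270) (nat_lit 160))))) (XT.nd (nat_lit 234) (nat_lit 380) (nat_lit 0) (XT.nd (nat_lit 78) (nat_lit 152) (nat_lit 0) (XT.lf (nat_lit 0) (nat_lit 7814383967) (nat_lit 304) (nat_lit 1999556472) (nat_lit 76) (nat_lit 14898928539) (nat_lit 47) (nat_lit 5) (nat_lit 51) (nat_lit 5) (nat_lit 48) (nat_lit 5) (nat_lit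 351) (nat_lit 270) (nat_lit 159)) (XT.nd (nat_lit 78) (nat_lit 0) (nat_lit 0) (XT.lf (nat_lit 0) (nat_lit 9225600741) (nat_lit 152) (nat_lit 3451434039) (nat_lit 228) (nat_lit 12575610125) (nat_lit 45) (nat_lit 5) (nat_lit 47) (nat_lit 5) (nat_lit 48) (nat_lit 5) (nat_lit 352) (nat_lit 270) (nat_lit 158)) (XT.lf (nat_lit 0) (nat_lit 17722213283) (nat_lit 228) (nat_lit 5032474919) (nat_lit 76) (nat_lit 3052832160) (nat_lit 45) (nat_lit 5) (nat_lit 48) (nat_lit 5) (nat_lit 46) (nat_lit 5) (nat_lit 353) (nat_lit 270) (nat_lit 157)))) (XT.nd (nat_lit 156) (nat_lit 152) (nat_lit 0) (XT.nd (nat_lit 78) (nat_lit 76) (nat_lit 0) (XT.lf (nat_lit 0) (nat_lit 6359575022) (nat_lit 152) (nat_lit 16641310676) (nat_lit 228) (nat_lit 3375697763) (nat_lit 43) (nat_lit 5) (nat_lit 45) (nat_lit 5) (nat_lit 46) (nat_lit 5) (nat_lit 354) (nat_lit 270) (nat_lit 156)) (XT.lf (nat_lit 0) (nat_lit 1484605932) (nat_lit 228)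 (nat_lit 8801660347) (nat_lit 76) (nat_lit 16674886193) (nat_lit 42) (nat_lit 5) (nat_lit 45) (nat_lit 5) (nat_lit 43) (nat_lit 5) (nat_lit 355) (nat_lit 270) (nat_lit 155))) (XT.nd (nat_lit 78) (nat_lit 0) (nat_lit 0) (XT.lf (nat_lit 0) (nat_lit 2748682488) (nat_lit 152) (nat_lit 3687863758) (nat_lit 228) (nat_lit 21125304419) (nat_lit 40) (nat_lit 5) (nat_lit 42) (nat_lit 5) (nat_lit 43) (nat_lit 5) (nat_lit 356) (nat_lit 270) (nat_lit 154)) (XT.lf (nat_lit 0) (nat_lit 11644018147) (nat_lit 228) (nat_lit 13404467152) (nat_lit 76) (nat_lit 3128880218) (nat_lit 40) (nat_lit 5) (nat_lit 43) (nat_lit 5) (nat_lit 41) (nat_lit 5) (nat_lit 357) (nat_lit 270) (nat_lit 153)))))) (XT.nd (nat_lit 546) (nat_lit 380) (nat_lit 0) (XT.nd (nat_lit 234) (nat_lit 380) (nat_lit 0) (XT.nd (nat_lit 78) (nat_lit 152) (nat_lit 0) (XT.lf (nat_lit 0) (nat_lit 17031929799) (nat_lit 228) (nat_lit 1711148735) (nat_lit 76)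 (nat_lit 10067545585) (nat_lit 40) (nat_lit 5) (nat_lit 43) (nat_lit 5) (nat_lit 41) (nat_lit 5) (nat_lit 358) (nat_lit 270) (nat_lit 152)) (XT.nd (nat_lit 78) (nat_lit 0) (nat_lit 0) (XT.lf (nat_lit 0) (nat_lit 10517692603) (nat_lit 152) (nat_lit 12152948976) (nat_lit 228) (nat_lit 6789568649) (nat_lit 38) (nat_lit 5) (nat_lit 40) (nat_lit 5) (nat_lit 41) (nat_lit 5) (nat_lit 359) (nat_lit 270) (nat_lit 151)) (XT.lf (nat_lit 0) (nat_lit 23128162482) (nat_lit 152) (nat_lit 5355844254) (nat_lit 228) (nat_lit 1645116922) (nat_lit 38) (nat_lit 5) (nat_lit 40) (nat_lit 5) (nat_lit 41) (nat_lit 5) (nat_lit 360) (nat_lit 270) (nat_lit 150)))) (XT.nd (nat_lit 156) (nat_lit 152) (nat_lit 0) (XT.nd (nat_lit 78) (nat_lit 0) (nat_lit 0) (XT.lf (nat_lit 0) (nat_lit 3638810547) (nat_lit 228) (nat_lit 25484324501) (nat_lit 76) (nat_lit 1692226892) (nat_lit 35) (nat_lit 5) (nat_lit 38) (nat_lit 5) (nat_lit 36)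 (nat_lit 5) (nat_lit 361) (nat_lit 270) (nat_lit 149)) (XT.lf (nat_lit 0) (nat_lit 9161119791) (nat_lit 228) (nat_lit 13433600976) (nat_lit 76) (nat_lit 8923594195) (nat_lit 35) (nat_lit 5) (nat_lit 38) (nat_lit 5) (nat_lit 36) (nat_lit 5) (nat_lit 362) (nat_lit 270) (nat_lit 148))) (XT.nd (nat_lit 78) (nat_lit 152) (nat_lit 0) (XT.lf (nat_lit 0) (nat_lit 14837938188) (nat_lit 228) (nat_lit 1040799370) (nat_lit 76) (nat_lit 16363957818) (nat_lit 35) (nat_lit 5) (nat_lit 38) (nat_lit 5) (nat_lit 36) (nat_lit 5) (nat_lit 363) (nat_lit 270) (nat_lit 147)) (XT.lf (nat_lit 0) (nat_lit 11937859618) (nat_lit 152) (nat_lit 8851120454) (nat_lit 228) (nat_lit 12196713442) (nat_lit 33) (nat_lit 5) (nat_lit 35) (nat_lit 5) (nat_lit 36) (nat_lit 5) (nat_lit 364) (nat_lit 270) (nat_lit 146))))) (XT.nd (nat_lit 312) (nat_lit 228) (nat_lit 0) (XT.nd (nat_lit 156) (nat_lit 76) (nat_lit 0) (XT.nd (nat_lit 78) (nat_lit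 76) (nat_lit 0) (XT.lf (nat_lit 0) (nat_lit 25308521511) (nat_lit 152) (nat_lit 1609842566) (nat_lit 228) (nat_lit 6832626960) (nat_lit 33) (nat_lit 5) (nat_lit 35) (nat_lit 5) (nat_lit 36) (nat_lit 5) (nat_lit 365) (nat_lit 270) (nat_lit 145)) (XT.lf (nat_lit 0) (nat_lit 4555337294) (nat_lit 76) (nat_lit 28765839886) (nat_lit 152) (nat_lit 1215387536) (nat_lit 32) (nat_lit 5) (nat_lit 33) (nat_lit 5) (nat_lit 34) (nat_lit 4) (nat_lit 366) (nat_lit 270) (nat_lit 144))) (XT.nd (nat_lit 78) (nat_lit 0) (nat_lit 0) (XT.lf (nat_lit 0) (nat_lit 4572781985) (nat_lit 152) (nat_lit 17306143064) (nat_lit 76) (nat_lit 13462718092) (nat_lit 31) (nat_lit 5) (nat_lit 33) (nat_lit 5) (nat_lit 32) (nat_lit 5) (nat_lit 367) (nat_lit 270) (nat_lit 143)) (XT.lf (nat_lit 0) (nat_lit 10500034304) (nat_lit 152) (nat_lit 4280722622) (nat_lit 76) (nat_lit 21390063357) (nat_lit 31) (nat_lit 5) (nat_lit 33) (nat_lit 5)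 (nat_lit 32) (nat_lit 5) (nat_lit 368) (nat_lit 270) (nat_lit 142)))) (XT.nd (nat_lit 156) (nat_lit 76) (nat_lit 0) (XT.nd (nat_lit 78) (nat_lit 0) (nat_lit 0) (XT.lf (nat_lit 0) (nat_lit 9299566421) (nat_lit 152) (nat_lit 7385091862) (nat_lit 228) (nat_lit 20337831085) (nat_lit 29) (nat_lit 5) (nat_lit 31) (nat_lit 5) (nat_lit 32) (nat_lit 5) (nat_lit 369) (nat_lit 270) (nat_lit 141)) (XT.lf (nat_lit 0) (nat_lit 23090920699) (nat_lit 228) (nat_lit 14543474011) (nat_lit 76) (nat_lit 264233978) (nat_lit 29) (nat_lit 5) (nat_lit 32) (nat_lit 5) (nat_lit 30) (nat_lit 4) (nat_lit 370) (nat_lit 270) (nat_lit 140))) (XT.nd (nat_lit 78) (nat_lit 76) (nat_lit 0) (XT.lf (nat_lit 0) (nat_lit 29752986280) (nat_lit 228) (nat_lit 1058668776) (nat_lit 76) (nat_lit 7987491735) (nat_lit 29) (nat_lit 5) (nat_lit 32) (nat_lit 5) (nat_lit 30) (nat_lit 4) (nat_lit 371) (nat_lit 270) (nat_lit 139)) (XT.lf (nat_lit 0)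 (nat_lit 13069294627) (nat_lit 76) (nat_lit 23662021654) (nat_lit 152) (nat_lit 2991875057) (nat_lit 28) (nat_lit 5) (nat_lit 29) (nat_lit 5) (nat_lit 30) (nat_lit 4) (nat_lit 372) (nat_lit 270) (nat_lit 138))))))))
noncomputable def xc130 : XT := (XT.nd (nat_lit 2184) (nat_lit 228) (nat_lit 0) (XT.nd (nat_lit 1092) (nat_lit 456) (nat_lit 0) (XT.nd (nat_lit 546) (nat_lit 304) (nat_lit 0) (XT.nd (nat_lit 234) (nat_lit 76) (nat_lit 0) (XT.nd (nat_lit 78) (nat_lit 152) (nat_lit 0) (XT.lf (nat_lit 0) (nat_lit 3182324242) (nat_lit 152) (nat_lit 13079567566) (nat_lit 76) (nat_lit 24412085062) (nat_lit 27) (nat_lit 5) (nat_lit 29) (nat_lit 5) (nat_lit 28) (nat_lit 5) (nat_lit 373) (nat_lit 270) (nat_lit 137)) (XT.nd (nat_lit 78) (nat_lit 0) (nat_lit 0) (XT.lf (nat_lit 0) (nat_lit 873451827) (nat_lit 152) (nat_lit 8607620160) (nat_lit 228) (nat_lit 32171344340) (nat_lit 25) (nat_lit 5) (nat_lit 27) (nat_lit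 5) (nat_lit 28) (nat_lit 5) (nat_lit 374) (nat_lit 270) (nat_lit 136)) (XT.lf (nat_lit 0) (nat_lit 15497375306) (nat_lit 152) (nat_lit 594653345) (nat_lit 228) (nat_lit 26564485563) (nat_lit 25) (nat_lit 5) (nat_lit 27) (nat_lit 5) (nat_lit 28) (nat_lit 5) (nat_lit 375) (nat_lit 270) (nat_lit 135)))) (XT.nd (nat_lit 156) (nat_lit 0) (nat_lit 0) (XT.nd (nat_lit 78) (nat_lit 76) (nat_lit 0) (XT.lf (nat_lit 0) (nat_lit 22966294801) (nat_lit 228) (nat_lit 13219877872) (nat_lit 76) (nat_lit 7502615509) (nat_lit 25) (nat_lit 5) (nat_lit 28) (nat_lit 5) (nat_lit 26) (nat_lit 4) (nat_lit 376) (nat_lit 270) (nat_lit 134)) (XT.lf (nat_lit 0) (nat_lit 1138809013) (nat_lit 76) (nat_lit 28916426788) (nat_lit 152) (nat_lit 14696543651) (nat_lit 24) (nat_lit 5) (nat_lit 25) (nat_lit 5) (nat_lit 26) (nat_lit 4) (nat_lit 377) (nat_lit 270) (nat_lit 133))) (XT.nd (nat_lit 78) (nat_lit 0) (nat_lit 0) (XT.lf (nat_lit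 0) (nat_lit 16184312359) (nat_lit 76) (nat_lit 21297740502) (nat_lit 152) (nat_lit 8360853783) (nat_lit 24) (nat_lit 5) (nat_lit 25) (nat_lit 5) (nat_lit 26) (nat_lit 4) (nat_lit 378) (nat_lit 270) (nat_lit 132)) (XT.lf (nat_lit 0) (nat_lit 31666677229) (nat_lit 76) (nat_lit 13456951557) (nat_lit 152) (nat_lit 1843382581) (nat_lit 24) (nat_lit 5) (nat_lit 25) (nat_lit 5) (nat_lit 26) (nat_lit 4) (nat_lit 379) (nat_lit 270) (nat_lit 131))))) (XT.nd (nat_lit 234) (nat_lit 76) (nat_lit 0) (XT.nd (nat_lit 78) (nat_lit 152) (nat_lit 0) (XT.lf (nat_lit 0) (nat_lit 4766698189) (nat_lit 152) (nat_lit 572376283) (nat_lit 76) (nat_lit 42784599409) (nat_lit 23) (nat_lit 5) (nat_lit 25) (nat_lit 5) (nat_lit 24) (nat_lit 5) (nat_lit 380) (nat_lit 270) (nat_lit 130)) (XT.nd (nat_lit 78) (nat_lit 0) (nat_lit 0) (XT.lf (nat_lit 0) (nat_lit 11703755509) (nat_lit 228) (nat_lit 34485802385) (nat_lit 76) (nat_lit 3119961258)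 (nat_lit 21) (nat_lit 5) (nat_lit 24) (nat_lit 5) (nat_lit 22) (nat_lit 4) (nat_lit 381) (nat_lit 270) (nat_lit 129)) (XT.lf (nat_lit 0) (nat_lit 18899995431) (nat_lit 228) (nat_lit 19904120392) (nat_lit 76) (nat_lit 11725293916) (nat_lit 21) (nat_lit 5) (nat_lit 24) (nat_lit 5) (nat_lit 22) (nat_lit 4) (nat_lit 382) (nat_lit 270) (nat_lit 128)))) (XT.nd (nat_lit 156) (nat_lit 0) (nat_lit 0) (XT.nd (nat_lit 78) (nat_lit 76) (nat_lit 0) (XT.lf (nat_lit 0) (nat_lit 26304716391) (nat_lit 228) (nat_lit 4898444657) (nat_lit 76) (nat_lit 20582960204) (nat_lit 21) (nat_lit 5) (nat_lit 24) (nat_lit 5) (nat_lit 22) (nat_lit 4) (nat_lit 383) (nat_lit 270) (nat_lit 127)) (XT.lf (nat_lit 0) (nat_lit 10754189545) (nat_lit 76) (nat_lit 23273574836) (nat_lit 152) (nat_lit 19049886135) (nat_lit 20) (nat_lit 5) (nat_lit 21) (nat_lit 5) (nat_lit 22) (nat_lit 4) (nat_lit 384) (nat_lit 270) (nat_lit 126))) (XT.nd (nat_lit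 78) (nat_lit 0) (nat_lit 0) (XT.lf (nat_lit 0) (nat_lit 26963879398) (nat_lit 76) (nat_lit 15060983729) (nat_lit 152) (nat_lit 12381793661) (nat_lit 20) (nat_lit 5) (nat_lit 21) (nat_lit 5) (nat_lit 22) (nat_lit 4) (nat_lit 385) (nat_lit 270) (nat_lit 125)) (XT.lf (nat_lit 0) (nat_lit 43647300055) (nat_lit 76) (nat_lit 6607676362) (nat_lit 152) (nat_lit 5520765637) (nat_lit 20) (nat_lit 5) (nat_lit 21) (nat_lit 5) (nat_lit 22) (nat_lit 4) (nat_lit 386) (nat_lit 270) (nat_lit 124)))))) (XT.nd (nat_lit 546) (nat_lit 228) (nat_lit 0) (XT.nd (nat_lit 234) (nat_lit 76) (nat_lit 0) (XT.nd (nat_lit 78) (nat_lit 0) (nat_lit 0) (XT.lf (nat_lit 0) (nat_lit 1565253629) (nat_lit 152) (nat_lit 53515079627) (nat_lit 76) (nat_lit 2103642600) (nat_lit 18) (nat_lit 5) (nat_lit 20) (nat_lit 5) (nat_lit 19) (nat_lit 4) (nat_lit 387) (nat_lit 270) (nat_lit 123)) (XT.nd (nat_lit 78) (nat_lit 0) (nat_lit 0) (XT.lf (nat_lit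 0) (nat_lit 8935261203) (nat_lit 152) (nat_lit 38575661640) (nat_lit 76) (nat_lit 11116424605) (nat_lit 18) (nat_lit 5) (nat_lit 20) (nat_lit 5) (nat_lit 19) (nat_lit 4) (nat_lit 388) (nat_lit 270) (nat_lit 122)) (XT.lf (nat_lit 0) (nat_lit 16519826307) (nat_lit 152) (nat_lit 23200059902) (nat_lit 76) (nat_lit 20394331905) (nat_lit 18) (nat_lit 5) (nat_lit 20) (nat_lit 5) (nat_lit 19) (nat_lit 4) (nat_lit 389) (nat_lit 270) (nat_lit 121)))) (XT.nd (nat_lit 156) (nat_lit 0) (nat_lit 0) (XT.nd (nat_lit 78) (nat_lit 76) (nat_lit 0) (XT.lf (nat_lit 0) (nat_lit 24325576231) (nat_lit 152) (nat_lit 7374839424) (nat_lit 76) (nat_lit 29945471409) (nat_lit 18) (nat_lit 5) (nat_lit 20) (nat_lit 5) (nat_lit 19) (nat_lit 4) (nat_lit 390) (nat_lit 270) (nat_lit 120)) (XT.lf (nat_lit 0) (nat_lit 9091230306) (nat_lit 76) (nat_lit 23355491695) (nat_lit 152) (nat_lit 30774348932) (nat_lit 17) (nat_lit 5) (nat_lit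 18) (nat_lit 5) (nat_lit 19) (nat_lit 4) (nat_lit 391) (nat_lit 270) (nat_lit 119))) (XT.nd (nat_lit 78) (nat_lit 0) (nat_lit 0) (XT.lf (nat_lit 0) (nat_lit 26191259979) (nat_lit 76) (nat_lit 14688618436) (nat_lit 152) (nat_lit 23961582122) (nat_lit 17) (nat_lit 5) (nat_lit 18) (nat_lit 5) (nat_lit 19) (nat_lit 4) (nat_lit 392) (nat_lit 270) (nat_lit 118)) (XT.lf (nat_lit 0) (nat_lit 43793417603) (nat_lit 76) (nat_lit 5766694300) (nat_lit 152) (nat_lit 16950528918) (nat_lit 17) (nat_lit 5) (nat_lit 18) (nat_lit 5) (nat_lit 19) (nat_lit 4) (nat_lit 393) (nat_lit 270) (nat_lit 117))))) (XT.nd (nat_lit 234) (nat_lit 76) (nat_lit 0) (XT.nd (nat_lit 78) (nat_lit 152) (nat_lit 0) (XT.lf (nat_lit 0) (nat_lit 58527863778) (nat_lit 152) (nat_lit 6349843232) (nat_lit 0) (nat_lit 3351377582) (nat_lit 17) (nat_lit 5) (nat_lit 19) (nat_lit 4) (nat_lit 17) (nat_lit 4) (nat_lit 394) (nat_lit 270) (nat_lit 116))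 (XT.nd (nat_lit 78) (nat_lit 76) (nat_lit 0) (XT.lf (nat_lit 0) (nat_lit 10648887719) (nat_lit 76) (nat_lit 57269597274) (nat_lit 76) (nat_lit 2075982960) (nat_lit 16) (nat_lit 4) (nat_lit 17) (nat_lit 5) (nat_lit 17) (nat_lit 4) (nat_lit 395) (nat_lit 270) (nat_lit 115)) (XT.lf (nat_lit 0) (nat_lit 5724403909) (nat_lit 152) (nat_lit 43589703617) (nat_lit 76) (nat_lit 22495266081) (nat_lit 15) (nat_lit 5) (nat_lit 17) (nat_lit 5) (nat_lit 16) (nat_lit 4) (nat_lit 396) (nat_lit 270) (nat_lit 114)))) (XT.nd (nat_lit 156) (nat_lit 76) (nat_lit 0) (XT.nd (nat_lit 78) (nat_lit 0) (nat_lit 0) (XT.lf (nat_lit 0) (nat_lit 13711626580) (nat_lit 152) (nat_lit 27391786488) (nat_lit 76) (nat_lit 32574861516) (nat_lit 15) (nat_lit 5) (nat_lit 17) (nat_lit 5) (nat_lit 16) (nat_lit 4) (nat_lit 397) (nat_lit 270) (nat_lit 113)) (XT.lf (nat_lit 0) (nat_lit 21933174084) (nat_lit 152) (nat_lit 10717719711) (nat_lit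 76) (nat_lit 42952508776) (nat_lit 15) (nat_lit 5) (nat_lit 17) (nat_lit 5) (nat_lit 16) (nat_lit 4) (nat_lit 398) (nat_lit 270) (nat_lit 112))) (XT.nd (nat_lit 78) (nat_lit 0) (nat_lit 0) (XT.lf (nat_lit 0) (nat_lit 6575375549) (nat_lit 76) (nat_lit 23884061279) (nat_lit 152) (nat_lit 47125106695) (nat_lit 14) (nat_lit 5) (nat_lit 15) (nat_lit 5) (nat_lit 16) (nat_lit 4) (nat_lit 399) (nat_lit 270) (nat_lit 111)) (XT.lf (nat_lit 0) (nat_lit 24597556797) (nat_lit 76) (nat_lit 14747080087) (nat_lit 152) (nat_lit 40277388491) (nat_lit 14) (nat_lit 5) (nat_lit 15) (nat_lit 5) (nat_lit 16) (nat_lit 4) (nat_lit 400) (nat_lit 270) (nat_lit 110))))))) (XT.nd (nat_lit 30732) (nat_lit 0) (nat_lit 17556) (XT.nd (nat_lit 546) (nat_lit 76) (nat_lit 0) (XT.nd (nat_lit 234) (nat_lit 152) (nat_lit 0) (XT.nd (nat_lit 78) (nat_lit 0) (nat_lit 0) (XT.lf (nat_lit 0) (nat_lit 43151267932) (nat_lit 76) (nat_lit 5340194402)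 (nat_lit 152) (nat_lit 33229318387) (nat_lit 14) (nat_lit 5) (nat_lit 15) (nat_lit 5) (nat_lit 16) (nat_lit 4) (nat_lit 401) (nat_lit 270) (nat_lit 109)) (XT.nd (nat_lit 78) (nat_lit 0) (nat_lit 0) (XT.lf (nat_lit 0) (nat_lit 57949670574) (nat_lit 152) (nat_lit 21671687515) (nat_lit 0) (nat_lit 4260032386) (nat_lit 14) (nat_lit 5) (nat_lit 16) (nat_lit 4) (nat_lit 14) (nat_lit 4) (nat_lit 402) (nat_lit 270) (nat_lit 108)) (XT.lf (nat_lit 0) (nat_lit 67739812604) (nat_lit 152) (nat_lit 4328514210) (nat_lit 0) (nat_lit 14037047140) (nat_lit 14) (nat_lit 5) (nat_lit 16) (nat_lit 4) (nat_lit 14) (nat_lit 4) (nat_lit 403) (nat_lit 270) (nat_lit 107)))) (XT.nd (nat_lit 156) (nat_lit 76) (nat_lit 0) (XT.nd (nat_lit 78) (nat_lit 0) (nat_lit 0) (XT.lf (nat_lit 0) (nat_lit 13795698333) (nat_lit 76) (nat_lit 64156024058) (nat_lit 76) (nat_lit 10440513665) (nat_lit 13) (nat_lit 4) (nat_lit 14) (nat_lit 5) (nat_lit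 14) (nat_lit 4) (nat_lit 404) (nat_lit 270) (nat_lit 106)) (XT.lf (nat_lit 0) (nat_lit 32543990766) (nat_lit 76) (nat_lit 55965210997) (nat_lit 76) (nat_lit 2237326888) (nat_lit 13) (nat_lit 4) (nat_lit 14) (nat_lit 5) (nat_lit 14) (nat_lit 4) (nat_lit 405) (nat_lit 270) (nat_lit 105))) (XT.nd (nat_lit 78) (nat_lit 0) (nat_lit 0) (XT.lf (nat_lit 0) (nat_lit 6086327458) (nat_lit 152) (nat_lit 41384652685) (nat_lit 76) (nat_lit 45698811738) (nat_lit 12) (nat_lit 5) (nat_lit 14) (nat_lit 5) (nat_lit 13) (nat_lit 4) (nat_lit 406) (nat_lit 270) (nat_lit 104)) (XT.lf (nat_lit 0) (nat_lit 14610441431) (nat_lit 152) (nat_lit 24092364734) (nat_lit 76) (nat_lit 56962411659) (nat_lit 12) (nat_lit 5) (nat_lit 14) (nat_lit 5) (nat_lit 13) (nat_lit 4) (nat_lit 407) (nat_lit 270) (nat_lit 103))))) (XT.nd (nat_lit 234) (nat_lit 0) (nat_lit 0) (XT.nd (nat_lit 78) (nat_lit 76) (nat_lit 0) (XT.lf (nat_lit 0) (nat_lit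 23386121591) (nat_lit 152) (nat_lit 6289057712) (nat_lit 76) (nat_lit 68560452845) (nat_lit 12) (nat_lit 5) (nat_lit 14) (nat_lit 5) (nat_lit 13) (nat_lit 4) (nat_lit 408) (nat_lit 270) (nat_lit 102)) (XT.nd (nat_lit 78) (nat_lit 0) (nat_lit 0) (XT.lf (nat_lit 0) (nat_lit 12280460687) (nat_lit 76) (nat_lit 20258622622) (nat_lit 152) (nat_lit 68340656119) (nat_lit 11) (nat_lit 5) (nat_lit 12) (nat_lit 5) (nat_lit 13) (nat_lit 4) (nat_lit 409) (nat_lit 270) (nat_lit 101)) (XT.lf (nat_lit 0) (nat_lit 31528534067) (nat_lit 76) (nat_lit 10497616757) (nat_lit 152) (nat_lit 61575234426) (nat_lit 11) (nat_lit 5) (nat_lit 12) (nat_lit 5) (nat_lit 13) (nat_lit 4) (nat_lit 410) (nat_lit 270) (nat_lit 100)))) (XT.nd (nat_lit 29796) (nat_lit 0) (nat_lit 20672) (XT.nd (nat_lit 29718) (nat_lit 0) (nat_lit 21356) (XT.lf (nat_lit 0) (nat_lit 51346816554) (nat_lit 76) (nat_lit 447139827) (nat_lit 152) (nat_lit 54610841097)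 (nat_lit 11) (nat_lit 5) (nat_lit 12) (nat_lit 5) (nat_lit 13) (nat_lit 4) (nat_lit 411) (nat_lit 270) (nat_lit 99)) (XT.lf (nat_lit 0) (nat_lit 3187427533) (nat_lit 684) (nat_lit 147894753) (nat_lit 684) (nat_lit 147894753) (nat_lit 292) (nat_lit 3) (nat_lit 301) (nat_lit 3) (nat_lit 301) (nat_lit 5) (nat_lit 271) (nat_lit 271) (nat_lit 238))) (XT.nd (nat_lit 78) (nat_lit 0) (nat_lit 0) (XT.lf (nat_lit 0) (nat_lit 1203581684) (nat_lit 684) (nat_lit 4015738932) (nat_lit 760) (nat_lit 1795593130) (nat_lit 283) (nat_lit 5) (nat_lit 292) (nat_lit 3) (nat_lit 293) (nat_lit 5) (nat_lit 272) (nat_lit 271) (nat_lit 237)) (XT.lf (nat_lit 0) (nat_lit 2974567862) (nat_lit 684) (nat_lit 708851492) (nat_lit 760) (nat_lit 3383331372) (nat_lit 283) (nat_lit 5) (nat_lit 292) (nat_lit 3) (nat_lit 293) (nat_lit 5) (nat_lit 273) (nat_lit 271) (nat_lit 236)))))) (XT.nd (nat_lit 546) (nat_lit 1672) (nat_lit 0) (XT.nd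 (nat_lit 234) (nat_lit 760) (nat_lit 0) (XT.nd (nat_lit 78) (nat_lit 684) (nat_lit 0) (XT.lf (nat_lit 76) (nat_lit 2714030296) (nat_lit 0) (nat_lit 2043600836) (nat_lit 760) (nat_lit 2363834973) (nat_lit 284) (nat_lit 5) (nat_lit 283) (nat_lit 5) (nat_lit 293) (nat_lit 5) (nat_lit 274) (nat_lit 271) (nat_lit 235)) (XT.nd (nat_lit 78) (nat_lit 684) (nat_lit 0) (XT.lf (nat_lit 76) (nat_lit 6218311154) (nat_lit 0) (nat_lit 317503014) (nat_lit 760) (nat_lit 643848982) (nat_lit 284) (nat_lit 5) (nat_lit 283) (nat_lit 5) (nat_lit 293) (nat_lit 5) (nat_lit 275) (nat_lit 271) (nat_lit 234)) (XT.lf (nat_lit 0) (nat_lit 1080970380) (nat_lit 760) (nat_lit 4663502451) (nat_lit 836) (nat_lit 1495634793) (nat_lit 274) (nat_lit 5) (nat_lit 284) (nat_lit 5) (nat_lit 285) (nat_lit 5) (nat_lit 276) (nat_lit 271) (nat_lit 233)))) (XT.nd (nat_lit 156) (nat_lit 760) (nat_lit 0) (XT.nd (nat_lit 78) (nat_lit 0) (nat_lit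 0) (XT.lf (nat_lit 0) (nat_lit 2794994530) (nat_lit 760) (nat_lit 1109291178) (nat_lit 836) (nat_lit 3399457938) (nat_lit 274) (nat_lit 5) (nat_lit 284) (nat_lit 5) (nat_lit 285) (nat_lit 5) (nat_lit 277) (nat_lit 271) (nat_lit 232)) (XT.lf (nat_lit 76) (nat_lit 2564689500) (nat_lit 0) (nat_lit 1959678465) (nat_lit 836) (nat_lit 2846082040) (nat_lit 275) (nat_lit 5) (nat_lit 274) (nat_lit 5) (nat_lit 285) (nat_lit 5) (nat_lit 278) (nat_lit 271) (nat_lit 231))) (XT.nd (nat_lit 78) (nat_lit 836) (nat_lit 0) (XT.lf (nat_lit 0) (nat_lit 6258262548) (nat_lit 760) (nat_lit 1106335675) (nat_lit 836) (nat_lit 76056942) (nat_lit 275) (nat_lit 5) (nat_lit 285) (nat_lit 5) (nat_lit 286) (nat_lit 5) (nat_lit 279) (nat_lit 271) (nat_lit 230)) (XT.lf (nat_lit 0) (nat_lit 508637633) (nat_lit 836) (nat_lit 4818526476) (nat_lit 912) (nat_lit 2186087703) (nat_lit 264) (nat_lit 5) (nat_lit 275) (nat_lit 5) (nat_lit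 276) (nat_lit 5) (nat_lit 280) (nat_lit 271) (nat_lit 229))))) (XT.nd (nat_lit 312) (nat_lit 1672) (nat_lit 0) (XT.nd (nat_lit 156) (nat_lit 0) (nat_lit 76) (XT.nd (nat_lit 78) (nat_lit 0) (nat_lit 0) (XT.lf (nat_lit 0) (nat_lit 2181236860) (nat_lit 836) (nat_lit 1005334042) (nat_lit 912) (nat_lit 4402536452) (nat_lit 264) (nat_lit 5) (nat_lit 275) (nat_lit 5) (nat_lit 276) (nat_lit 5) (nat_lit 281) (nat_lit 271) (nat_lit 228)) (XT.lf (nat_lit 76) (nat_lit 2942466115) (nat_lit 0) (nat_lit 934804145) (nat_lit 912) (nat_lit 3790838860) (nat_lit 265) (nat_lit 5) (nat_lit 264) (nat_lit 5) (nat_lit 276) (nat_lit 5) (nat_lit 282) (nat_lit 271) (nat_lit 227))) (XT.nd (nat_lit 78) (nat_lit 0) (nat_lit 0) (XT.lf (nat_lit 0) (nat_lit 5594128760) (nat_lit 836) (nat_lit 771960938) (nat_lit 912) (nat_lit 1384359174) (nat_lit 265) (nat_lit 5) (nat_lit 276) (nat_lit 5) (nat_lit 277) (nat_lit 5) (nat_lit 283) (nat_lit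 271) (nat_lit 226)) (XT.lf (nat_lit 76) (nat_lit 3318270354) (nat_lit 0) (nat_lit 4033319924) (nat_lit 912) (nat_lit 484059946) (nat_lit 266) (nat_lit 5) (nat_lit 265) (nat_lit 5) (nat_lit 277) (nat_lit 5) (nat_lit 284) (nat_lit 271) (nat_lit 225)))) (XT.nd (nat_lit 156) (nat_lit 836) (nat_lit 0) (XT.nd (nat_lit 78) (nat_lit 0) (nat_lit 76) (XT.lf (nat_lit 0) (nat_lit 1170613544) (nat_lit 912) (nat_lit 426395638) (nat_lit 988) (nat_lit 6327409632) (nat_lit 253) (nat_lit 5) (nat_lit 265) (nat_lit 5) (nat_lit 266) (nat_lit 5) (nat_lit 285) (nat_lit 271) (nat_lit 224)) (XT.lf (nat_lit 0) (nat_lit 2861258899) (nat_lit 912) (nat_lit 4205560835) (nat_lit 76) (nat_lit 949063992) (nat_lit 254) (nat_lit 5) (nat_lit 266) (nat_lit 5) (nat_lit 255) (nat_lit 5) (nat_lit 286) (nat_lit 271) (nat_lit 223))) (XT.nd (nat_lit 78) (nat_lit 0) (nat_lit 0) (XT.lf (nat_lit 0) (nat_lit 19002774) (nat_lit 912) (nat_lit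 4555218363) (nat_lit 988) (nat_lit 3536780675) (nat_lit 242) (nat_lit 5) (nat_lit 254) (nat_lit 5) (nat_lit 255) (nat_lit 5) (nat_lit 287) (nat_lit 271) (nat_lit 222)) (XT.lf (nat_lit 0) (nat_lit 4418456273) (nat_lit 912) (nat_lit 1914892326) (nat_lit 988) (nat_lit 1875837040) (nat_lit 242) (nat_lit 5) (nat_lit 254) (nat_lit 5) (nat_lit 255) (nat_lit 5) (nat_lit 288) (nat_lit 271) (nat_lit 221))))))))
noncomputable def xc131 : XT := (XT.nd (nat_lit 2184) (nat_lit 4484) (nat_lit 0) (XT.nd (nat_lit 1092) (nat_lit 3268) (nat_lit 0) (XT.nd (nat_lit 546) (nat_lit 2280) (nat_lit 0) (XT.nd (nat_lit 234) (nat_lit 1976) (nat_lit 0) (XT.nd (nat_lit 78) (nat_lit 1140) (nat_lit 0) (XT.lf (nat_lit 0) (nat_lit 605171444) (nat_lit 988) (nat_lit 7507417874) (nat_lit 1064) (nat_lit 198759350) (nat_lit 229) (nat_lit 5) (nat_lit 242) (nat_lit 5) (nat_lit 243) (nat_lit 5) (nat_lit 289) (nat_lit 271) (nat_lit 220))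 (XT.nd (nat_lit 78) (nat_lit 1064) (nat_lit 0) (XT.lf (nat_lit 0) (nat_lit 1510686857) (nat_lit 1064) (nat_lit 3277870140) (nat_lit 76) (nat_lit 3627272989) (nat_lit 228) (nat_lit 5) (nat_lit 242) (nat_lit 5) (nat_lit 229) (nat_lit 5) (nat_lit 290) (nat_lit 271) (nat_lit 219)) (XT.lf (nat_lit 0) (nat_lit 1268137008) (nat_lit 1064) (nat_lit 1967074701) (nat_lit 1140) (nat_lit 5289190593) (nat_lit 214) (nat_lit 5) (nat_lit 228) (nat_lit 5) (nat_lit 229) (nat_lit 5) (nat_lit 291) (nat_lit 271) (nat_lit 218)))) (XT.nd (nat_lit 156) (nat_lit 836) (nat_lit 0) (XT.nd (nat_lit 78) (nat_lit 1140) (nat_lit 0) (XT.lf (nat_lit 0) (nat_lit 5010515883) (nat_lit 1140) (nat_lit 2665839810) (nat_lit 76) (nat_lit 959952652) (nat_lit 214) (nat_lit 5) (nat_lit 229) (nat_lit 5) (nat_lit 215) (nat_lit 5) (nat_lit 292) (nat_lit 271) (nat_lit 217)) (XT.lf (nat_lit 0) (nat_lit 2044896571) (nat_lit 1140) (nat_lit 4791168839)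 (nat_lit 1216) (nat_lit 1915643042) (nat_lit 199) (nat_lit 5) (nat_lit 214) (nat_lit 5) (nat_lit 215) (nat_lit 5) (nat_lit 293) (nat_lit 271) (nat_lit 216))) (XT.nd (nat_lit 78) (nat_lit 836) (nat_lit 0) (XT.lf (nat_lit 0) (nat_lit 6914143844) (nat_lit 1140) (nat_lit 1787878277) (nat_lit 1216) (nat_lit 169024338) (nat_lit 199) (nat_lit 5) (nat_lit 214) (nat_lit 5) (nat_lit 215) (nat_lit 5) (nat_lit 294) (nat_lit 271) (nat_lit 215)) (XT.lf (nat_lit 0) (nat_lit 1598946404) (nat_lit 836) (nat_lit 6066931741) (nat_lit 76) (nat_lit 1327636119) (nat_lit 188) (nat_lit 5) (nat_lit 199) (nat_lit 5) (nat_lit 189) (nat_lit 5) (nat_lit 295) (nat_lit 271) (nat_lit 214))))) (XT.nd (nat_lit 234) (nat_lit 1672) (nat_lit 0) (XT.nd (nat_lit 78) (nat_lit 608) (nat_lit 0) (XT.lf (nat_lit 0) (nat_lit 3414553989) (nat_lit 836) (nat_lit 1180058006) (nat_lit 76) (nat_lit 4525095341) (nat_lit 188) (nat_lit 5) (nat_lit 199)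 (nat_lit 5) (nat_lit 189) (nat_lit 5) (nat_lit 296) (nat_lit 271) (nat_lit 213)) (XT.nd (nat_lit 78) (nat_lit 0) (nat_lit 0) (XT.lf (nat_lit 0) (nat_lit 3892375620) (nat_lit 608) (nat_lit 1391161967) (nat_lit 684) (nat_lit 3966221466) (nat_lit 180) (nat_lit 5) (nat_lit 188) (nat_lit 5) (nat_lit 189) (nat_lit 5) (nat_lit 297) (nat_lit 271) (nat_lit 212)) (XT.lf (nat_lit 0) (nat_lit 7201241457) (nat_lit 684) (nat_lit 298464655) (nat_lit 76) (nat_lit 1884265605) (nat_lit 180) (nat_lit 5) (nat_lit 189) (nat_lit 5) (nat_lit 181) (nat_lit 5) (nat_lit 298) (nat_lit 271) (nat_lit 211)))) (XT.nd (nat_lit 156) (nat_lit 532) (nat_lit 0) (XT.nd (nat_lit 78) (nat_lit 608) (nat_lit 0) (XT.lf (nat_lit 0) (nat_lit 4958487802) (nat_lit 532) (nat_lit 4242797299) (nat_lit 608) (nat_lit 320219185) (nat_lit 173) (nat_lit 5) (nat_lit 180) (nat_lit 5) (nat_lit 181) (nat_lit 5) (nat_lit 299) (nat_lit 271) (nat_lit 210))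 (XT.lf (nat_lit 0) (nat_lit 676894800) (nat_lit 532) (nat_lit 863333501) (nat_lit 608) (nat_lit 8123311857) (nat_lit 165) (nat_lit 5) (nat_lit 172) (nat_lit 5) (nat_lit 173) (nat_lit 5) (nat_lit 300) (nat_lit 271) (nat_lit 209))) (XT.nd (nat_lit 78) (nat_lit 532) (nat_lit 0) (XT.lf (nat_lit 0) (nat_lit 3486137621) (nat_lit 608) (nat_lit 3707545537) (nat_lit 76) (nat_lit 2615010877) (nat_lit 165) (nat_lit 5) (nat_lit 173) (nat_lit 5) (nat_lit 166) (nat_lit 5) (nat_lit 301) (nat_lit 271) (nat_lit 208)) (XT.lf (nat_lit 0) (nat_lit 1718165568) (nat_lit 532) (nat_lit 3762749379) (nat_lit 608) (nat_lit 4477606430) (nat_lit 158) (nat_lit 5) (nat_lit 165) (nat_lit 5) (nat_lit 166) (nat_lit 5) (nat_lit 302) (nat_lit 271) (nat_lit 207)))))) (XT.nd (nat_lit 546) (nat_lit 1368) (nat_lit 0) (XT.nd (nat_lit 234) (nat_lit 1292) (nat_lit 0) (XT.nd (nat_lit 78) (nat_lit 608) (nat_lit 0) (XT.lf (nat_lit 0) (nat_lit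 7346267814) (nat_lit 532) (nat_lit 192790799) (nat_lit 608) (nat_lit 2573711830) (nat_lit 158) (nat_lit 5) (nat_lit 165) (nat_lit 5) (nat_lit 166) (nat_lit 5) (nat_lit 303) (nat_lit 271) (nat_lit 206)) (XT.nd (nat_lit 78) (nat_lit 76) (nat_lit 0) (XT.lf (nat_lit 0) (nat_lit 2857515593) (nat_lit 532) (nat_lit 6829441000) (nat_lit 608) (nat_lit 583881732) (nat_lit 151) (nat_lit 5) (nat_lit 158) (nat_lit 5) (nat_lit 159) (nat_lit 5) (nat_lit 304) (nat_lit 271) (nat_lit 205)) (XT.lf (nat_lit 0) (nat_lit 1434477631) (nat_lit 608) (nat_lit 1778761660) (nat_lit 76) (nat_lit 7220093090) (nat_lit 150) (nat_lit 5) (nat_lit 158) (nat_lit 5) (nat_lit 151) (nat_lit 5) (nat_lit 305) (nat_lit 271) (nat_lit 204)))) (XT.nd (nat_lit 156) (nat_lit 836) (nat_lit 0) (XT.nd (nat_lit 78) (nat_lit 0) (nat_lit 0) (XT.lf (nat_lit 0) (nat_lit 3514294142) (nat_lit 532) (nat_lit 6542901413) (nat_lit 76) (nat_lit 542981977)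 (nat_lit 144) (nat_lit 5) (nat_lit 151) (nat_lit 5) (nat_lit 145) (nat_lit 5) (nat_lit 306) (nat_lit 271) (nat_lit 203)) (XT.lf (nat_lit 0) (nat_lit 5675270499) (nat_lit 532) (nat_lit 734773133) (nat_lit 76) (nat_lit 4361449560) (nat_lit 144) (nat_lit 5) (nat_lit 151) (nat_lit 5) (nat_lit 145) (nat_lit 5) (nat_lit 307) (nat_lit 271) (nat_lit 202))) (XT.nd (nat_lit 78) (nat_lit 380) (nat_lit 0) (XT.lf (nat_lit 0) (nat_lit 5316241148) (nat_lit 456) (nat_lit 2605657626) (nat_lit 532) (nat_lit 3025452167) (nat_lit 138) (nat_lit 5) (nat_lit 144) (nat_lit 5) (nat_lit 145) (nat_lit 5) (nat_lit 308) (nat_lit 271) (nat_lit 201)) (XT.lf (nat_lit 0) (nat_lit 394977117) (nat_lit 380) (nat_lit 9835078078) (nat_lit 456) (nat_lit 898631849) (nat_lit 133) (nat_lit 5) (nat_lit 138) (nat_lit 5) (nat_lit 139) (nat_lit 5) (nat_lit 309) (nat_lit 271) (nat_lit 200))))) (XT.nd (nat_lit 234) (nat_lit 836) (nat_lit 0) (XT.nd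 (nat_lit 78) (nat_lit 456) (nat_lit 0) (XT.lf (nat_lit 0) (nat_lit 1320439163) (nat_lit 456) (nat_lit 4671146661) (nat_lit 76) (nat_lit 5321920077) (nat_lit 132) (nat_lit 5) (nat_lit 138) (nat_lit 5) (nat_lit 133) (nat_lit 5) (nat_lit 310) (nat_lit 271) (nat_lit 199)) (XT.nd (nat_lit 78) (nat_lit 0) (nat_lit 0) (XT.lf (nat_lit 0) (nat_lit 1559995373) (nat_lit 456) (nat_lit 2014314898) (nat_lit 532) (nat_lit 7929727699) (nat_lit 126) (nat_lit 5) (nat_lit 132) (nat_lit 5) (nat_lit 133) (nat_lit 5) (nat_lit 311) (nat_lit 271) (nat_lit 198)) (XT.lf (nat_lit 0) (nat_lit 5935187910) (nat_lit 532) (nat_lit 3680837812) (nat_lit 76) (nat_lit 2083102112) (nat_lit 126) (nat_lit 5) (nat_lit 133) (nat_lit 5) (nat_lit 127) (nat_lit 5) (nat_lit 312) (nat_lit 271) (nat_lit 197)))) (XT.nd (nat_lit 156) (nat_lit 456) (nat_lit 0) (XT.nd (nat_lit 78) (nat_lit 0) (nat_lit 0) (XT.lf (nat_lit 0) (nat_lit 2770092950) (nat_lit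 380) (nat_lit 5615931496) (nat_lit 456) (nat_lit 3513494832) (nat_lit 121) (nat_lit 5) (nat_lit 126) (nat_lit 5) (nat_lit 127) (nat_lit 5) (nat_lit 313) (nat_lit 271) (nat_lit 196)) (XT.lf (nat_lit 0) (nat_lit 9456060346) (nat_lit 380) (nat_lit 1464528899) (nat_lit 456) (nat_lit 1185049319) (nat_lit 121) (nat_lit 5) (nat_lit 126) (nat_lit 5) (nat_lit 127) (nat_lit 5) (nat_lit 314) (nat_lit 271) (nat_lit 195))) (XT.nd (nat_lit 78) (nat_lit 0) (nat_lit 0) (XT.lf (nat_lit 0) (nat_lit 1229587491) (nat_lit 456) (nat_lit 8285996014) (nat_lit 76) (nat_lit 2800828585) (nat_lit 115) (nat_lit 5) (nat_lit 121) (nat_lit 5) (nat_lit 116) (nat_lit 5) (nat_lit 315) (nat_lit 271) (nat_lit 194)) (XT.lf (nat_lit 0) (nat_lit 3708287749) (nat_lit 456) (nat_lit 1627987506) (nat_lit 76) (nat_lit 7196438604) (nat_lit 115) (nat_lit 5) (nat_lit 121) (nat_lit 5) (nat_lit 116) (nat_lit 5) (nat_lit 316) (nat_lit 271) (nat_lit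 193))))))) (XT.nd (nat_lit 1092) (nat_lit 1748) (nat_lit 0) (XT.nd (nat_lit 546) (nat_lit 1292) (nat_lit 0) (XT.nd (nat_lit 234) (nat_lit 684) (nat_lit 0) (XT.nd (nat_lit 78) (nat_lit 380) (nat_lit 0) (XT.lf (nat_lit 0) (nat_lit 5300269229) (nat_lit 380) (nat_lit 986710694) (nat_lit 456) (nat_lit 6467775550) (nat_lit 110) (nat_lit 5) (nat_lit 115) (nat_lit 5) (nat_lit 116) (nat_lit 5) (nat_lit 317) (nat_lit 271) (nat_lit 192)) (XT.nd (nat_lit 78) (nat_lit 380) (nat_lit 0) (XT.lf (nat_lit 0) (nat_lit 8968246777) (nat_lit 456) (nat_lit 580250805) (nat_lit 76) (nat_lit 3434223482) (nat_lit 110) (nat_lit 5) (nat_lit 116) (nat_lit 5) (nat_lit 111) (nat_lit 5) (nat_lit 318) (nat_lit 271) (nat_lit 191)) (XT.lf (nat_lit 0) (nat_lit 6586652599) (nat_lit 380) (nat_lit 5192142155) (nat_lit 456) (nat_lit 1437284162) (nat_lit 105) (nat_lit 5) (nat_lit 110) (nat_lit 5) (nat_lit 111) (nat_lit 5) (nat_lit 319)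 (nat_lit 271) (nat_lit 190)))) (XT.nd (nat_lit 156) (nat_lit 304) (nat_lit 0) (XT.nd (nat_lit 78) (nat_lit 0) (nat_lit 0) (XT.lf (nat_lit 0) (nat_lit 489489732) (nat_lit 304) (nat_lit 690505680) (nat_lit 380) (nat_lit 12276512807) (nat_lit 100) (nat_lit 5) (nat_lit 104) (nat_lit 5) (nat_lit 105) (nat_lit 5) (nat_lit 320) (nat_lit 271) (nat_lit 189)) (XT.lf (nat_lit 0) (nat_lit 3928659964) (nat_lit 380) (nat_lit 5829925786) (nat_lit 76) (nat_lit 3942702109) (nat_lit 100) (nat_lit 5) (nat_lit 105) (nat_lit 5) (nat_lit 101) (nat_lit 5) (nat_lit 321) (nat_lit 271) (nat_lit 188))) (XT.nd (nat_lit 78) (nat_lit 0) (nat_lit 0) (XT.lf (nat_lit 0) (nat_lit 1512077959) (nat_lit 304) (nat_lit 5245985444) (nat_lit 380) (nat_lit 7195415631) (nat_lit 96) (nat_lit 5) (nat_lit 100) (nat_lit 5) (nat_lit 101) (nat_lit 5) (nat_lit 322) (nat_lit 271) (nat_lit 187)) (XT.lf (nat_lit 0) (nat_lit 9162290908) (nat_lit 304)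 (nat_lit 546205345) (nat_lit 380) (nat_lit 4503671306) (nat_lit 96) (nat_lit 5) (nat_lit 100) (nat_lit 5) (nat_lit 101) (nat_lit 5) (nat_lit 323) (nat_lit 271) (nat_lit 186))))) (XT.nd (nat_lit 234) (nat_lit 608) (nat_lit 0) (XT.nd (nat_lit 78) (nat_lit 380) (nat_lit 0) (XT.lf (nat_lit 0) (nat_lit 2540450376) (nat_lit 304) (nat_lit 10250549973) (nat_lit 380) (nat_lit 1686325210) (nat_lit 92) (nat_lit 5) (nat_lit 96) (nat_lit 5) (nat_lit 97) (nat_lit 5) (nat_lit 324) (nat_lit 271) (nat_lit 185)) (XT.nd (nat_lit 78) (nat_lit 304) (nat_lit 0) (XT.lf (nat_lit 0) (nat_lit 1226701326) (nat_lit 380) (nat_lit 4335882420) (nat_lit 76) (nat_lit 9186472299) (nat_lit 91) (nat_lit 5) (nat_lit 96) (nat_lit 5) (nat_lit 92) (nat_lit 5) (nat_lit 325) (nat_lit 271) (nat_lit 184)) (XT.lf (nat_lit 0) (nat_lit 3514558259) (nat_lit 304) (nat_lit 691065512) (nat_lit 380) (nat_lit 10822456077) (nat_lit 87) (nat_lit 5)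 (nat_lit 91) (nat_lit 5) (nat_lit 92) (nat_lit 5) (nat_lit 326) (nat_lit 271) (nat_lit 183)))) (XT.nd (nat_lit 156) (nat_lit 380) (nat_lit 0) (XT.nd (nat_lit 78) (nat_lit 228) (nat_lit 0) (XT.lf (nat_lit 0) (nat_lit 7338580962) (nat_lit 380) (nat_lit 3697517110) (nat_lit 76) (nat_lit 4277450111) (nat_lit 87) (nat_lit 5) (nat_lit 92) (nat_lit 5) (nat_lit 88) (nat_lit 5) (nat_lit 327) (nat_lit 271) (nat_lit 182)) (XT.lf (nat_lit 0) (nat_lit 4402196574) (nat_lit 228) (nat_lit 6191964616) (nat_lit 304) (nat_lit 5012573776) (nat_lit 84) (nat_lit 5) (nat_lit 87) (nat_lit 5) (nat_lit 88) (nat_lit 5) (nat_lit 328) (nat_lit 271) (nat_lit 181))) (XT.nd (nat_lit 78) (nat_lit 380) (nat_lit 0) (XT.lf (nat_lit 0) (nat_lit 12791158204) (nat_lit 228) (nat_lit 1173377631) (nat_lit 304) (nat_lit 1943680744) (nat_lit 84) (nat_lit 5) (nat_lit 87) (nat_lit 5) (nat_lit 88) (nat_lit 5) (nat_lit 329) (nat_lit 271) (nat_lit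 180)) (XT.lf (nat_lit 0) (nat_lit 1263344006) (nat_lit 380) (nat_lit 10981218784) (nat_lit 76) (nat_lit 3971746549) (nat_lit 79) (nat_lit 5) (nat_lit 84) (nat_lit 5) (nat_lit 80) (nat_lit 5) (nat_lit 330) (nat_lit 271) (nat_lit 179)))))) (XT.nd (nat_lit 546) (nat_lit 988) (nat_lit 0) (XT.nd (nat_lit 234) (nat_lit 532) (nat_lit 0) (XT.nd (nat_lit 78) (nat_lit 228) (nat_lit 0) (XT.lf (nat_lit 0) (nat_lit 4551301732) (nat_lit 380) (nat_lit 2691482600) (nat_lit 76) (nat_lit 9289581502) (nat_lit 79) (nat_lit 5) (nat_lit 84) (nat_lit 5) (nat_lit 80) (nat_lit 5) (nat_lit 331) (nat_lit 271) (nat_lit 178)) (XT.nd (nat_lit 78) (nat_lit 0) (nat_lit 0) (XT.lf (nat_lit 0) (nat_lit 5934289706) (nat_lit 228) (nat_lit 2041606745) (nat_lit 304) (nat_lit 8880879207) (nat_lit 76) (nat_lit 5) (nat_lit 79) (nat_lit 5) (nat_lit 80) (nat_lit 5) (nat_lit 332) (nat_lit 271) (nat_lit 177)) (XT.lf (nat_lit 0) (nat_lit 11543696066)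 (nat_lit 304) (nat_lit 2376895172) (nat_lit 76) (nat_lit 3269123774) (nat_lit 76) (nat_lit 5) (nat_lit 80) (nat_lit 5) (nat_lit 77) (nat_lit 5) (nat_lit 333) (nat_lit 271) (nat_lit 176)))) (XT.nd (nat_lit 156) (nat_lit 228) (nat_lit 0) (XT.nd (nat_lit 78) (nat_lit 76) (nat_lit 0) (XT.lf (nat_lit 0) (nat_lit 6503939484) (nat_lit 228) (nat_lit 8779020680) (nat_lit 304) (nat_lit 2247760385) (nat_lit 73) (nat_lit 5) (nat_lit 76) (nat_lit 5) (nat_lit 77) (nat_lit 5) (nat_lit 334) (nat_lit 271) (nat_lit 175)) (XT.lf (nat_lit 0) (nat_lit 1234021845) (nat_lit 304) (nat_lit 2221515303) (nat_lit 76) (nat_lit 14425887747) (nat_lit 72) (nat_lit 5) (nat_lit 76) (nat_lit 5) (nat_lit 73) (nat_lit 5) (nat_lit 335) (nat_lit 271) (nat_lit 174))) (XT.nd (nat_lit 78) (nat_lit 0) (nat_lit 0) (XT.lf (nat_lit 0) (nat_lit 4844319718) (nat_lit 304) (nat_lit 11326959043) (nat_lit 76) (nat_lit 2068636754) (nat_lit 69) (nat_lit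 5) (nat_lit 73) (nat_lit 5) (nat_lit 70) (nat_lit 5) (nat_lit 336) (nat_lit 271) (nat_lit 173)) (XT.lf (nat_lit 0) (nat_lit 8602268455) (nat_lit 304) (nat_lit 2303210471) (nat_lit 76) (nat_lit 7702511371) (nat_lit 69) (nat_lit 5) (nat_lit 73) (nat_lit 5) (nat_lit 70) (nat_lit 5) (nat_lit 337) (nat_lit 271) (nat_lit 172))))) (XT.nd (nat_lit 312) (nat_lit 456) (nat_lit 0) (XT.nd (nat_lit 156) (nat_lit 304) (nat_lit 0) (XT.nd (nat_lit 78) (nat_lit 0) (nat_lit 0) (XT.lf (nat_lit 0) (nat_lit 7103369138) (nat_lit 228) (nat_lit 5420852551) (nat_lit 304) (nat_lit 6461357069) (nat_lit 66) (nat_lit 5) (nat_lit 69) (nat_lit 5) (nat_lit 70) (nat_lit 5) (nat_lit 338) (nat_lit 271) (nat_lit 171)) (XT.lf (nat_lit 0) (nat_lit 16572652977) (nat_lit 304) (nat_lit 2563517761) (nat_lit 76) (nat_lit 238068695) (nat_lit 66) (nat_lit 5) (nat_lit 70) (nat_lit 5) (nat_lit 67) (nat_lit 5) (nat_lit 339) (nat_lit 271) (nat_lit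 170))) (XT.nd (nat_lit 78) (nat_lit 0) (nat_lit 0) (XT.lf (nat_lit 0) (nat_lit 1055611919) (nat_lit 304) (nat_lit 12688147460) (nat_lit 76) (nat_lit 6027334324) (nat_lit 62) (nat_lit 5) (nat_lit 66) (nat_lit 5) (nat_lit 63) (nat_lit 5) (nat_lit 340) (nat_lit 271) (nat_lit 169)) (XT.lf (nat_lit 0) (nat_lit 4982049961) (nat_lit 304) (nat_lit 3161676261) (nat_lit 76) (nat_lit 12035008608) (nat_lit 62) (nat_lit 5) (nat_lit 66) (nat_lit 5) (nat_lit 63) (nat_lit 5) (nat_lit 341) (nat_lit 271) (nat_lit 168)))) (XT.nd (nat_lit 156) (nat_lit 228) (nat_lit 0) (XT.nd (nat_lit 78) (nat_lit 0) (nat_lit 0) (XT.lf (nat_lit 0) (nat_lit 6757245084) (nat_lit 228) (nat_lit 2318155903) (nat_lit 304) (nat_lit 11521738733) (nat_lit 59) (nat_lit 5) (nat_lit 62) (nat_lit 5) (nat_lit 63) (nat_lit 5) (nat_lit 342) (nat_lit 271) (nat_lit 167)) (XT.lf (nat_lit 0) (nat_lit 13343487365) (nat_lit 304) (nat_lit 4049646706) (nat_lit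 76) (nat_lit 3633412529) (nat_lit 59) (nat_lit 5) (nat_lit 63) (nat_lit 5) (nat_lit 60) (nat_lit 5) (nat_lit 343) (nat_lit 271) (nat_lit 166))) (XT.nd (nat_lit 78) (nat_lit 76) (nat_lit 0) (XT.lf (nat_lit 0) (nat_lit 6105901256) (nat_lit 152) (nat_lit 11700114756) (nat_lit 228) (nat_lit 3660835341) (nat_lit 57) (nat_lit 5) (nat_lit 59) (nat_lit 5) (nat_lit 60) (nat_lit 5) (nat_lit 344) (nat_lit 271) (nat_lit 165)) (XT.lf (nat_lit 0) (nat_lit 498754706) (nat_lit 228) (nat_lit 5299719552) (nat_lit 76) (nat_lit 16120976012) (nat_lit 56) (nat_lit 5) (nat_lit 59) (nat_lit 5) (nat_lit 57) (nat_lit 5) (nat_lit 345) (nat_lit 271) (nat_lit 164))))))))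
noncomputable def xc132 : XT := (XT.nd (nat_lit 2184) (nat_lit 1064) (nat_lit 0) (XT.nd (nat_lit 1092) (nat_lit 912) (nat_lit 0) (XT.nd (nat_lit 546) (nat_lit 532) (nat_lit 0) (XT.nd (nat_lit 234) (nat_lit 304) (nat_lit 0) (XT.nd (nat_lit 78) (nat_lit 152) (nat_lit 0) (XT.lf (nat_lit 0) (nat_lit 4747303606) (nat_lit 304) (nat_lit 17284246194) (nat_lit 76) (nat_lit 351864477) (nat_lit 53) (nat_lit 5) (nat_lit 57) (nat_lit 5) (nat_lit 54) (nat_lit 5) (nat_lit 346) (nat_lit 271) (nat_lit 163)) (XT.nd (nat_lit 78) (nat_lit 152) (nat_lit 0) (XT.lf (nat_lit 0) (nat_lit 9220129903) (nat_lit 304) (nat_lit 7023044326) (nat_lit 76) (nat_lit 6615225151) (nat_lit 53) (nat_lit 5) (nat_lit 57) (nat_lit 5) (nat_lit 54) (nat_lit 5) (nat_lit 347) (nat_lit 271) (nat_lit 162)) (XT.lf (nat_lit 0) (nat_lit 3592728314) (nat_lit 152) (nat_lit 10254738126) (nat_lit 228) (nat_lit 9499564437) (nat_lit 51) (nat_lit 5) (nat_lit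 53) (nat_lit 5) (nat_lit 54) (nat_lit 5) (nat_lit 348) (nat_lit 271) (nat_lit 161)))) (XT.nd (nat_lit 156) (nat_lit 76) (nat_lit 0) (XT.nd (nat_lit 78) (nat_lit 228) (nat_lit 0) (XT.lf (nat_lit 0) (nat_lit 14647796445) (nat_lit 152) (nat_lit 4022726973) (nat_lit 228) (nat_lit 5178097304) (nat_lit 51) (nat_lit 5) (nat_lit 53) (nat_lit 5) (nat_lit 54) (nat_lit 5) (nat_lit 349) (nat_lit 271) (nat_lit 160)) (XT.lf (nat_lit 0) (nat_lit 1655735023) (nat_lit 228) (nat_lit 22007791711) (nat_lit 304) (nat_lit 700980118) (nat_lit 48) (nat_lit 5) (nat_lit 51) (nat_lit 5) (nat_lit 52) (nat_lit 5) (nat_lit 350) (nat_lit 271) (nat_lit 159))) (XT.nd (nat_lit 78) (nat_lit 0) (nat_lit 0) (XT.lf (nat_lit 0) (nat_lit 3954149465) (nat_lit 304) (nat_lit 11967674403) (nat_lit 76) (nat_lit 8969323701) (nat_lit 47) (nat_lit 5) (nat_lit 51) (nat_lit 5) (nat_lit 48) (nat_lit 5) (nat_lit 351) (nat_lit 271) (nat_lit 158))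 (XT.lf (nat_lit 0) (nat_lit 8721588287) (nat_lit 304) (nat_lit 933471441) (nat_lit 76) (nat_lit 15778722934) (nat_lit 47) (nat_lit 5) (nat_lit 51) (nat_lit 5) (nat_lit 48) (nat_lit 5) (nat_lit 352) (nat_lit 271) (nat_lit 157))))) (XT.nd (nat_lit 234) (nat_lit 228) (nat_lit 0) (XT.nd (nat_lit 78) (nat_lit 152) (nat_lit 0) (XT.lf (nat_lit 0) (nat_lit 10617400570) (nat_lit 152) (nat_lit 3103841098) (nat_lit 228) (nat_lit 12268784931) (nat_lit 45) (nat_lit 5) (nat_lit 47) (nat_lit 5) (nat_lit 48) (nat_lit 5) (nat_lit 353) (nat_lit 271) (nat_lit 156)) (XT.nd (nat_lit 78) (nat_lit 152) (nat_lit 0) (XT.lf (nat_lit 0) (nat_lit 18902649041) (nat_lit 228) (nat_lit 4085494929) (nat_lit 76) (nat_lit 3573866324) (nat_lit 45) (nat_lit 5) (nat_lit 48) (nat_lit 5) (nat_lit 46) (nat_lit 5) (nat_lit 354) (nat_lit 271) (nat_lit 155)) (XT.lf (nat_lit 0) (nat_lit 7637552254) (nat_lit 152) (nat_lit 16693683914) (nat_lit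 228) (nat_lit 2817170419) (nat_lit 43) (nat_lit 5) (nat_lit 45) (nat_lit 5) (nat_lit 46) (nat_lit 5) (nat_lit 355) (nat_lit 271) (nat_lit 154)))) (XT.nd (nat_lit 156) (nat_lit 0) (nat_lit 0) (XT.nd (nat_lit 78) (nat_lit 152) (nat_lit 0) (XT.lf (nat_lit 0) (nat_lit 2157224922) (nat_lit 228) (nat_lit 7997436397) (nat_lit 76) (nat_lit 17596233836) (nat_lit 42) (nat_lit 5) (nat_lit 45) (nat_lit 5) (nat_lit 43) (nat_lit 5) (nat_lit 356) (nat_lit 271) (nat_lit 153)) (XT.lf (nat_lit 0) (nat_lit 3888943451) (nat_lit 152) (nat_lit 3360654603) (nat_lit 228) (nat_lit 21120267267) (nat_lit 40) (nat_lit 5) (nat_lit 42) (nat_lit 5) (nat_lit 43) (nat_lit 5) (nat_lit 357) (nat_lit 271) (nat_lit 152))) (XT.nd (nat_lit 78) (nat_lit 0) (nat_lit 0) (XT.lf (nat_lit 0) (nat_lit 12599323405) (nat_lit 228) (nat_lit 12765404547) (nat_lit 76) (nat_lit 3639543842) (nat_lit 40) (nat_lit 5) (nat_lit 43) (nat_lit 5) (nat_lit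 41) (nat_lit 5) (nat_lit 358) (nat_lit 271) (nat_lit 151)) (XT.lf (nat_lit 0) (nat_lit 18131222366) (nat_lit 228) (nat_lit 751612693) (nat_lit 76) (nat_lit 10774229444) (nat_lit 40) (nat_lit 5) (nat_lit 43) (nat_lit 5) (nat_lit 41) (nat_lit 5) (nat_lit 359) (nat_lit 271) (nat_lit 150)))))) (XT.nd (nat_lit 546) (nat_lit 380) (nat_lit 0) (XT.nd (nat_lit 234) (nat_lit 152) (nat_lit 0) (XT.nd (nat_lit 78) (nat_lit 228) (nat_lit 0) (XT.lf (nat_lit 0) (nat_lit 11834183390) (nat_lit 152) (nat_lit 12097397989) (nat_lit 228) (nat_lit 6394788891) (nat_lit 38) (nat_lit 5) (nat_lit 40) (nat_lit 5) (nat_lit 41) (nat_lit 5) (nat_lit 360) (nat_lit 271) (nat_lit 149)) (XT.nd (nat_lit 78) (nat_lit 228) (nat_lit 0) (XT.lf (nat_lit 0) (nat_lit 24793813190) (nat_lit 152) (nat_lit 5108617197) (nat_lit 228) (nat_lit 1113434684) (nat_lit 38) (nat_lit 5) (nat_lit 40) (nat_lit 5) (nat_lit 41) (nat_lit 5) (nat_lit 361) (nat_lit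 271) (nat_lit 148)) (XT.lf (nat_lit 0) (nat_lit 4314392454) (nat_lit 228) (nat_lit 25262018483) (nat_lit 76) (nat_lit 2146216493) (nat_lit 35) (nat_lit 5) (nat_lit 38) (nat_lit 5) (nat_lit 36) (nat_lit 5) (nat_lit 362) (nat_lit 271) (nat_lit 147)))) (XT.nd (nat_lit 156) (nat_lit 152) (nat_lit 0) (XT.nd (nat_lit 78) (nat_lit 0) (nat_lit 0) (XT.lf (nat_lit 0) (nat_lit 9985873376) (nat_lit 228) (nat_lit 12878516041) (nat_lit 76) (nat_lit 9582780462) (nat_lit 35) (nat_lit 5) (nat_lit 38) (nat_lit 5) (nat_lit 36) (nat_lit 5) (nat_lit 363) (nat_lit 271) (nat_lit 146)) (XT.lf (nat_lit 0) (nat_lit 15816979238) (nat_lit 228) (nat_lit 141836007) (nat_lit 76) (nat_lit 17234952709) (nat_lit 35) (nat_lit 5) (nat_lit 38) (nat_lit 5) (nat_lit 36) (nat_lit 5) (nat_lit 364) (nat_lit 271) (nat_lit 145))) (XT.nd (nat_lit 78) (nat_lit 0) (nat_lit 0) (XT.lf (nat_lit 0) (nat_lit 13217063267) (nat_lit 152) (nat_lit 8722792410)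 (nat_lit 228) (nat_lit 12019406829) (nat_lit 33) (nat_lit 5) (nat_lit 35) (nat_lit 5) (nat_lit 36) (nat_lit 5) (nat_lit 365) (nat_lit 271) (nat_lit 144)) (XT.lf (nat_lit 0) (nat_lit 26962017797) (nat_lit 152) (nat_lit 1275747884) (nat_lit 228) (nat_lit 6510219346) (nat_lit 33) (nat_lit 5) (nat_lit 35) (nat_lit 5) (nat_lit 36) (nat_lit 5) (nat_lit 366) (nat_lit 271) (nat_lit 143))))) (XT.nd (nat_lit 234) (nat_lit 228) (nat_lit 0) (XT.nd (nat_lit 78) (nat_lit 76) (nat_lit 0) (XT.lf (nat_lit 0) (nat_lit 5589214690) (nat_lit 76) (nat_lit 29240733522) (nat_lit 152) (nat_lit 727264404) (nat_lit 32) (nat_lit 5) (nat_lit 33) (nat_lit 5) (nat_lit 34) (nat_lit 4) (nat_lit 367) (nat_lit 271) (nat_lit 142)) (XT.nd (nat_lit 78) (nat_lit 0) (nat_lit 0) (XT.lf (nat_lit 0) (nat_lit 5209332649) (nat_lit 152) (nat_lit 16944139307) (nat_lit 76) (nat_lit 14233274535) (nat_lit 31) (nat_lit 5) (nat_lit 33) (nat_lit 5)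 (nat_lit 32) (nat_lit 5) (nat_lit 368) (nat_lit 271) (nat_lit 141)) (XT.lf (nat_lit 0) (nat_lit 11299857862) (nat_lit 152) (nat_lit 3553621924) (nat_lit 76) (nat_lit 22387760307) (nat_lit 31) (nat_lit 5) (nat_lit 33) (nat_lit 5) (nat_lit 32) (nat_lit 5) (nat_lit 369) (nat_lit 271) (nat_lit 140)))) (XT.nd (nat_lit 156) (nat_lit 76) (nat_lit 0) (XT.nd (nat_lit 78) (nat_lit 0) (nat_lit 0) (XT.lf (nat_lit 0) (nat_lit 10425688317) (nat_lit 152) (nat_lit 7238354378) (nat_lit 228) (nat_lit 20454600554) (nat_lit 29) (nat_lit 5) (nat_lit 31) (nat_lit 5) (nat_lit 32) (nat_lit 5) (nat_lit 370) (nat_lit 271) (nat_lit 139)) (XT.lf (nat_lit 0) (nat_lit 24251983169) (nat_lit 228) (nat_lit 14146656414) (nat_lit 76) (nat_lit 622746988) (nat_lit 29) (nat_lit 5) (nat_lit 32) (nat_lit 5) (nat_lit 30) (nat_lit 4) (nat_lit 371) (nat_lit 271) (nat_lit 138))) (XT.nd (nat_lit 78) (nat_lit 76) (nat_lit 0) (XT.lf (nat_lit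 0) (nat_lit 31100269896) (nat_lit 228) (nat_lit 281572707) (nat_lit 76) (nat_lit 8567491236) (nat_lit 29) (nat_lit 5) (nat_lit 32) (nat_lit 5) (nat_lit 30) (nat_lit 4) (nat_lit 372) (nat_lit 271) (nat_lit 137)) (XT.lf (nat_lit 0) (nat_lit 14262299637) (nat_lit 76) (nat_lit 24020105638) (nat_lit 152) (nat_lit 2618865051) (nat_lit 28) (nat_lit 5) (nat_lit 29) (nat_lit 5) (nat_lit 30) (nat_lit 4) (nat_lit 373) (nat_lit 271) (nat_lit 136))))))) (XT.nd (nat_lit 1092) (nat_lit 456) (nat_lit 0) (XT.nd (nat_lit 546) (nat_lit 304) (nat_lit 0) (XT.nd (nat_lit 234) (nat_lit 76) (nat_lit 0) (XT.nd (nat_lit 78) (nat_lit 152) (nat_lit 0) (XT.lf (nat_lit 0) (nat_lit 3718314378) (nat_lit 152) (nat_lit 12685455048) (nat_lit 76) (nat_lit 25477077037) (nat_lit 27) (nat_lit 5) (nat_lit 29) (nat_lit 5) (nat_lit 28) (nat_lit 5) (nat_lit 374) (nat_lit 271) (nat_lit 135)) (XT.nd (nat_lit 78) (nat_lit 0) (nat_lit 0) (XT.lf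 (nat_lit 0) (nat_lit 1678444147) (nat_lit 152) (nat_lit 8522235911) (nat_lit 228) (nat_lit 32688123286) (nat_lit 25) (nat_lit 5) (nat_lit 27) (nat_lit 5) (nat_lit 28) (nat_lit 5) (nat_lit 375) (nat_lit 271) (nat_lit 134)) (XT.lf (nat_lit 0) (nat_lit 16718402163) (nat_lit 152) (nat_lit 278888233) (nat_lit 228) (nat_lit 26926117815) (nat_lit 25) (nat_lit 5) (nat_lit 27) (nat_lit 5) (nat_lit 28) (nat_lit 5) (nat_lit 376) (nat_lit 271) (nat_lit 133)))) (XT.nd (nat_lit 156) (nat_lit 0) (nat_lit 0) (XT.nd (nat_lit 78) (nat_lit 76) (nat_lit 0) (XT.lf (nat_lit 0) (nat_lit 24068592089) (nat_lit 228) (nat_lit 12873075942) (nat_lit 76) (nat_lit 8045261822) (nat_lit 25) (nat_lit 5) (nat_lit 28) (nat_lit 5) (nat_lit 26) (nat_lit 4) (nat_lit 377) (nat_lit 271) (nat_lit 132)) (XT.lf (nat_lit 0) (nat_lit 1909083332) (nat_lit 76) (nat_lit 29456155817) (nat_lit 152) (nat_lit 14716724151) (nat_lit 24) (nat_lit 5)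 (nat_lit 25) (nat_lit 5) (nat_lit 26) (nat_lit 4) (nat_lit 378) (nat_lit 271) (nat_lit 131))) (XT.nd (nat_lit 78) (nat_lit 0) (nat_lit 0) (XT.lf (nat_lit 0) (nat_lit 17384511679) (nat_lit 76) (nat_lit 21618455460) (nat_lit 152) (nat_lit 8203217445) (nat_lit 24) (nat_lit 5) (nat_lit 25) (nat_lit 5) (nat_lit 26) (nat_lit 4) (nat_lit 379) (nat_lit 271) (nat_lit 130)) (XT.lf (nat_lit 0) (nat_lit 33310531866) (nat_lit 76) (nat_lit 13551711311) (nat_lit 152) (nat_lit 1502119058) (nat_lit 24) (nat_lit 5) (nat_lit 25) (nat_lit 5) (nat_lit 26) (nat_lit 4) (nat_lit 380) (nat_lit 271) (nat_lit 129))))) (XT.nd (nat_lit 234) (nat_lit 76) (nat_lit 0) (XT.nd (nat_lit 78) (nat_lit 0) (nat_lit 0) (XT.lf (nat_lit 0) (nat_lit 93541614) (nat_lit 152) (nat_lit 5194558243) (nat_lit 228) (nat_lit 44267826359) (nat_lit 21) (nat_lit 5) (nat_lit 23) (nat_lit 5) (nat_lit 24) (nat_lit 5) (nat_lit 381) (nat_lit 271) (nat_lit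 128)) (XT.nd (nat_lit 78) (nat_lit 0) (nat_lit 0) (XT.lf (nat_lit 0) (nat_lit 12430758153) (nat_lit 228) (nat_lit 34837398263) (nat_lit 76) (nat_lit 3509268833) (nat_lit 21) (nat_lit 5) (nat_lit 24) (nat_lit 5) (nat_lit 22) (nat_lit 4) (nat_lit 382) (nat_lit 271) (nat_lit 127)) (XT.lf (nat_lit 0) (nat_lit 19831937022) (nat_lit 228) (nat_lit 19838158379) (nat_lit 76) (nat_lit 12364148595) (nat_lit 21) (nat_lit 5) (nat_lit 24) (nat_lit 5) (nat_lit 22) (nat_lit 4) (nat_lit 383) (nat_lit 271) (nat_lit 126)))) (XT.nd (nat_lit 156) (nat_lit 0) (nat_lit 0) (XT.nd (nat_lit 78) (nat_lit 76) (nat_lit 0) (XT.lf (nat_lit 0) (nat_lit 27448170240) (nat_lit 228) (nat_lit 4401625546) (nat_lit 76) (nat_lit 21479182857) (nat_lit 21) (nat_lit 5) (nat_lit 24) (nat_lit 5) (nat_lit 22) (nat_lit 4) (nat_lit 384) (nat_lit 271) (nat_lit 125)) (XT.lf (nat_lit 0) (nat_lit 11714276188) (nat_lit 76) (nat_lit 23684441369) (nat_lit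 152) (nat_lit 19260664812) (nat_lit 20) (nat_lit 5) (nat_lit 21) (nat_lit 5) (nat_lit 22) (nat_lit 4) (nat_lit 385) (nat_lit 271) (nat_lit 124))) (XT.nd (nat_lit 78) (nat_lit 0) (nat_lit 0) (XT.lf (nat_lit 0) (nat_lit 28391689913) (nat_lit 76) (nat_lit 15233841675) (nat_lit 152) (nat_lit 12403035910) (nat_lit 20) (nat_lit 5) (nat_lit 21) (nat_lit 5) (nat_lit 22) (nat_lit 4) (nat_lit 386) (nat_lit 271) (nat_lit 123)) (XT.lf (nat_lit 0) (nat_lit 45557587146) (nat_lit 76) (nat_lit 6535060473) (nat_lit 152) (nat_lit 5346377382) (nat_lit 20) (nat_lit 5) (nat_lit 21) (nat_lit 5) (nat_lit 22) (nat_lit 4) (nat_lit 387) (nat_lit 271) (nat_lit 122)))))) (XT.nd (nat_lit 546) (nat_lit 228) (nat_lit 0) (XT.nd (nat_lit 234) (nat_lit 76) (nat_lit 0) (XT.nd (nat_lit 78) (nat_lit 0) (nat_lit 0) (XT.lf (nat_lit 0) (nat_lit 1944277269) (nat_lit 152) (nat_lit 54511549092) (nat_lit 76) (nat_lit 2433623222) (nat_lit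 18) (nat_lit 5) (nat_lit 20) (nat_lit 5) (nat_lit 19) (nat_lit 4) (nat_lit 388) (nat_lit 271) (nat_lit 121)) (XT.nd (nat_lit 78) (nat_lit 0) (nat_lit 0) (XT.lf (nat_lit 0) (nat_lit 9525713244) (nat_lit 152) (nat_lit 39141685932) (nat_lit 76) (nat_lit 11709015736) (nat_lit 18) (nat_lit 5) (nat_lit 20) (nat_lit 5) (nat_lit 19) (nat_lit 4) (nat_lit 389) (nat_lit 271) (nat_lit 120)) (XT.lf (nat_lit 0) (nat_lit 17328425179) (nat_lit 152) (nat_lit 23322036887) (nat_lit 76) (nat_lit 21257713700) (nat_lit 18) (nat_lit 5) (nat_lit 20) (nat_lit 5) (nat_lit 19) (nat_lit 4) (nat_lit 390) (nat_lit 271) (nat_lit 119)))) (XT.nd (nat_lit 156) (nat_lit 0) (nat_lit 0) (XT.nd (nat_lit 78) (nat_lit 76) (nat_lit 0) (XT.lf (nat_lit 0) (nat_lit 25359230978) (nat_lit 152) (nat_lit 7038778963) (nat_lit 76) (nat_lit 31088060636) (nat_lit 18) (nat_lit 5) (nat_lit 20) (nat_lit 5) (nat_lit 19) (nat_lit 4) (nat_lit 391) (nat_lit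 271) (nat_lit 118)) (XT.lf (nat_lit 0) (nat_lit 9915809078) (nat_lit 76) (nat_lit 23804655593) (nat_lit 152) (nat_lit 31388153911) (nat_lit 17) (nat_lit 5) (nat_lit 18) (nat_lit 5) (nat_lit 19) (nat_lit 4) (nat_lit 392) (nat_lit 271) (nat_lit 117))) (XT.nd (nat_lit 78) (nat_lit 0) (nat_lit 0) (XT.lf (nat_lit 0) (nat_lit 27512766577) (nat_lit 76) (nat_lit 14885101404) (nat_lit 152) (nat_lit 24380016490) (nat_lit 17) (nat_lit 5) (nat_lit 18) (nat_lit 5) (nat_lit 19) (nat_lit 4) (nat_lit 393) (nat_lit 271) (nat_lit 116)) (XT.lf (nat_lit 0) (nat_lit 45627384013) (nat_lit 76) (nat_lit 5702631454) (nat_lit 152) (nat_lit 17167381586) (nat_lit 17) (nat_lit 5) (nat_lit 18) (nat_lit 5) (nat_lit 19) (nat_lit 4) (nat_lit 394) (nat_lit 271) (nat_lit 115))))) (XT.nd (nat_lit 312) (nat_lit 76) (nat_lit 0) (XT.nd (nat_lit 156) (nat_lit 76) (nat_lit 0) (XT.nd (nat_lit 78) (nat_lit 76) (nat_lit 0) (XT.lf (nat_lit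 0) (nat_lit 60560766690) (nat_lit 152) (nat_lit 6029223895) (nat_lit 0) (nat_lit 3677586588) (nat_lit 17) (nat_lit 5) (nat_lit 19) (nat_lit 4) (nat_lit 17) (nat_lit 4) (nat_lit 395) (nat_lit 271) (nat_lit 114)) (XT.lf (nat_lit 0) (nat_lit 11474458057) (nat_lit 76) (nat_lit 58755443549) (nat_lit 76) (nat_lit 1856118554) (nat_lit 16) (nat_lit 4) (nat_lit 17) (nat_lit 5) (nat_lit 17) (nat_lit 4) (nat_lit 396) (nat_lit 271) (nat_lit 113))) (XT.nd (nat_lit 78) (nat_lit 0) (nat_lit 0) (XT.lf (nat_lit 0) (nat_lit 6164716853) (nat_lit 152) (nat_lit 44400624436) (nat_lit 76) (nat_lit 23390193920) (nat_lit 15) (nat_lit 5) (nat_lit 17) (nat_lit 5) (nat_lit 16) (nat_lit 4) (nat_lit 397) (nat_lit 271) (nat_lit 112)) (XT.lf (nat_lit 0) (nat_lit 14383733462) (nat_lit 152) (nat_lit 27731238831) (nat_lit 76) (nat_lit 33765767416) (nat_lit 15) (nat_lit 5) (nat_lit 17) (nat_lit 5) (nat_lit 16) (nat_lit 4) (nat_lit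 398) (nat_lit 271) (nat_lit 111)))) (XT.nd (nat_lit 156) (nat_lit 0) (nat_lit 0) (XT.nd (nat_lit 78) (nat_lit 76) (nat_lit 0) (XT.lf (nat_lit 0) (nat_lit 22844332495) (nat_lit 152) (nat_lit 10570997660) (nat_lit 76) (nat_lit 44448520986) (nat_lit 15) (nat_lit 5) (nat_lit 17) (nat_lit 5) (nat_lit 16) (nat_lit 4) (nat_lit 399) (nat_lit 271) (nat_lit 110)) (XT.lf (nat_lit 0) (nat_lit 7236299736) (nat_lit 76) (nat_lit 24387166712) (nat_lit 152) (nat_lit 48281049080) (nat_lit 14) (nat_lit 5) (nat_lit 15) (nat_lit 5) (nat_lit 16) (nat_lit 4) (nat_lit 400) (nat_lit 271) (nat_lit 109))) (XT.nd (nat_lit 78) (nat_lit 0) (nat_lit 0) (XT.lf (nat_lit 0) (nat_lit 25785641676) (nat_lit 76) (nat_lit 14982292095) (nat_lit 152) (nat_lit 41235408383) (nat_lit 14) (nat_lit 5) (nat_lit 15) (nat_lit 5) (nat_lit 16) (nat_lit 4) (nat_lit 401) (nat_lit 271) (nat_lit 108)) (XT.lf (nat_lit 0) (nat_lit 44882852742) (nat_lit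 76) (nat_lit 5299234803) (nat_lit 152) (nat_lit 33983186518) (nat_lit 14) (nat_lit 5) (nat_lit 15) (nat_lit 5) (nat_lit 16) (nat_lit 4) (nat_lit 402) (nat_lit 271) (nat_lit 107))))))))
noncomputable def xc133 : XT := (XT.nd (nat_lit 31902) (nat_lit 0) (nat_lit 7144) (XT.nd (nat_lit 30810) (nat_lit 0) (nat_lit 16492) (XT.nd (nat_lit 546) (nat_lit 76) (nat_lit 0) (XT.nd (nat_lit 234) (nat_lit 76) (nat_lit 0) (XT.nd (nat_lit 78) (nat_lit 76) (nat_lit 0) (XT.lf (nat_lit 0) (nat_lit 59919049106) (nat_lit 152) (nat_lit 21892475882) (nat_lit 0) (nat_lit 4579328473) (nat_lit 14) (nat_lit 5) (nat_lit 16) (nat_lit 4) (nat_lit 14) (nat_lit 4) (nat_lit 403) (nat_lit 271) (nat_lit 106)) (XT.nd (nat_lit 78) (nat_lit 76) (nat_lit 0) (XT.lf (nat_lit 0) (nat_lit 69996170491) (nat_lit 152) (nat_lit 4041513075) (nat_lit 0) (nat_lit 14644076142) (nat_lit 14) (nat_lit 5) (nat_lit 16) (nat_lit 4) (nat_lit 14) (nat_lit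 4) (nat_lit 404) (nat_lit 271) (nat_lit 105)) (XT.lf (nat_lit 0) (nat_lit 14622339016) (nat_lit 76) (nat_lit 65889537317) (nat_lit 76) (nat_lit 10525429651) (nat_lit 13) (nat_lit 4) (nat_lit 14) (nat_lit 5) (nat_lit 14) (nat_lit 4) (nat_lit 405) (nat_lit 271) (nat_lit 104)))) (XT.nd (nat_lit 156) (nat_lit 0) (nat_lit 0) (XT.nd (nat_lit 78) (nat_lit 76) (nat_lit 0) (XT.lf (nat_lit 0) (nat_lit 33921057802) (nat_lit 76) (nat_lit 57458567849) (nat_lit 76) (nat_lit 2082796768) (nat_lit 13) (nat_lit 4) (nat_lit 14) (nat_lit 5) (nat_lit 14) (nat_lit 4) (nat_lit 406) (nat_lit 271) (nat_lit 103)) (XT.lf (nat_lit 0) (nat_lit 6479912174) (nat_lit 152) (nat_lit 42232873070) (nat_lit 76) (nat_lit 47245725624) (nat_lit 12) (nat_lit 5) (nat_lit 14) (nat_lit 5) (nat_lit 13) (nat_lit 4) (nat_lit 407) (nat_lit 271) (nat_lit 102))) (XT.nd (nat_lit 78) (nat_lit 0) (nat_lit 0) (XT.lf (nat_lit 0) (nat_lit 15253604084)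 (nat_lit 152) (nat_lit 24433272380) (nat_lit 76) (nat_lit 58842108800) (nat_lit 12) (nat_lit 5) (nat_lit 14) (nat_lit 5) (nat_lit 13) (nat_lit 4) (nat_lit 408) (nat_lit 271) (nat_lit 101)) (XT.lf (nat_lit 0) (nat_lit 24286588161) (nat_lit 152) (nat_lit 6106988380) (nat_lit 76) (nat_lit 70783115742) (nat_lit 12) (nat_lit 5) (nat_lit 14) (nat_lit 5) (nat_lit 13) (nat_lit 4) (nat_lit 409) (nat_lit 271) (nat_lit 100))))) (XT.nd (nat_lit 29952) (nat_lit 0) (nat_lit 19912) (XT.nd (nat_lit 78) (nat_lit 0) (nat_lit 0) (XT.lf (nat_lit 0) (nat_lit 13015980855) (nat_lit 76) (nat_lit 20695894019) (nat_lit 152) (nat_lit 70188317055) (nat_lit 11) (nat_lit 5) (nat_lit 12) (nat_lit 5) (nat_lit 13) (nat_lit 4) (nat_lit 410) (nat_lit 271) (nat_lit 99)) (XT.nd (nat_lit 29796) (nat_lit 0) (nat_lit 20672) (XT.lf (nat_lit 0) (nat_lit 32830804019) (nat_lit 76) (nat_lit 10647023628) (nat_lit 152) (nat_lit 63225832481)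 (nat_lit 11) (nat_lit 5) (nat_lit 12) (nat_lit 5) (nat_lit 13) (nat_lit 4) (nat_lit 411) (nat_lit 271) (nat_lit 98)) (XT.lf (nat_lit 0) (nat_lit 730875881) (nat_lit 0) (nat_lit 730875881) (nat_lit 684) (nat_lit 2070838336) (nat_lit 283) (nat_lit 5) (nat_lit 283) (nat_lit 3) (nat_lit 292) (nat_lit 3) (nat_lit 272) (nat_lit 272) (nat_lit 236)))) (XT.nd (nat_lit 156) (nat_lit 760) (nat_lit 0) (XT.nd (nat_lit 78) (nat_lit 0) (nat_lit 0) (XT.lf (nat_lit 0) (nat_lit 4647363866) (nat_lit 684) (nat_lit 2300308848) (nat_lit 760) (nat_lit 170803420) (nat_lit 283) (nat_lit 5) (nat_lit 292) (nat_lit 3) (nat_lit 293) (nat_lit 5) (nat_lit 273) (nat_lit 272) (nat_lit 235)) (XT.lf (nat_lit 76) (nat_lit 1073255412) (nat_lit 0) (nat_lit 5309288343) (nat_lit 760) (nat_lit 792128123) (nat_lit 284) (nat_lit 5) (nat_lit 283) (nat_lit 5) (nat_lit 293) (nat_lit 5) (nat_lit 274) (nat_lit 272) (nat_lit 234))) (XT.nd (nat_lit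 78) (nat_lit 0) (nat_lit 0) (XT.lf (nat_lit 0) (nat_lit 878059321) (nat_lit 760) (nat_lit 2682054374) (nat_lit 836) (nat_lit 3673479780) (nat_lit 273) (nat_lit 5) (nat_lit 283) (nat_lit 5) (nat_lit 284) (nat_lit 5) (nat_lit 275) (nat_lit 272) (nat_lit 233)) (XT.lf (nat_lit 76) (nat_lit 812820129) (nat_lit 0) (nat_lit 1714962286) (nat_lit 836) (nat_lit 4767985975) (nat_lit 274) (nat_lit 5) (nat_lit 273) (nat_lit 5) (nat_lit 284) (nat_lit 5) (nat_lit 276) (nat_lit 272) (nat_lit 232)))))) (XT.nd (nat_lit 546) (nat_lit 2660) (nat_lit 0) (XT.nd (nat_lit 234) (nat_lit 0) (nat_lit 0) (XT.nd (nat_lit 78) (nat_lit 836) (nat_lit 0) (XT.lf (nat_lit 0) (nat_lit 4195407603) (nat_lit 760) (nat_lit 2930430668) (nat_lit 836) (nat_lit 234997082) (nat_lit 274) (nat_lit 5) (nat_lit 284) (nat_lit 5) (nat_lit 285) (nat_lit 5) (nat_lit 277) (nat_lit 272) (nat_lit 231)) (XT.nd (nat_lit 78) (nat_lit 836) (nat_lit 0) (XT.lf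 (nat_lit 76) (nat_lit 689305042) (nat_lit 0) (nat_lit 5188406230) (nat_lit 836) (nat_lit 1551280370) (nat_lit 275) (nat_lit 5) (nat_lit 274) (nat_lit 5) (nat_lit 285) (nat_lit 5) (nat_lit 278) (nat_lit 272) (nat_lit 230)) (XT.lf (nat_lit 0) (nat_lit 80781131) (nat_lit 836) (nat_lit 3058672184) (nat_lit 912) (nat_lit 4360629767) (nat_lit 263) (nat_lit 5) (nat_lit 274) (nat_lit 5) (nat_lit 275) (nat_lit 5) (nat_lit 279) (nat_lit 272) (nat_lit 229)))) (XT.nd (nat_lit 156) (nat_lit 0) (nat_lit 76) (XT.nd (nat_lit 78) (nat_lit 0) (nat_lit 76) (XT.lf (nat_lit 76) (nat_lit 695342967) (nat_lit 0) (nat_lit 985439000) (nat_lit 912) (nat_lit 5893630112) (nat_lit 264) (nat_lit 5) (nat_lit 263) (nat_lit 5) (nat_lit 275) (nat_lit 5) (nat_lit 280) (nat_lit 272) (nat_lit 228)) (XT.lf (nat_lit 0) (nat_lit 3316800874) (nat_lit 836) (nat_lit 3074732194) (nat_lit 912) (nat_lit 1259865581) (nat_lit 264) (nat_lit 5)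 (nat_lit 275) (nat_lit 5) (nat_lit 276) (nat_lit 5) (nat_lit 281) (nat_lit 272) (nat_lit 227))) (XT.nd (nat_lit 78) (nat_lit 0) (nat_lit 0) (XT.lf (nat_lit 76) (nat_lit 813734413) (nat_lit 0) (nat_lit 4152319055) (nat_lit 912) (nat_lit 2765783009) (nat_lit 265) (nat_lit 5) (nat_lit 264) (nat_lit 5) (nat_lit 276) (nat_lit 5) (nat_lit 282) (nat_lit 272) (nat_lit 226)) (XT.lf (nat_lit 76) (nat_lit 4846115671) (nat_lit 0) (nat_lit 1797503187) (nat_lit 912) (nat_lit 1171767850) (nat_lit 265) (nat_lit 5) (nat_lit 264) (nat_lit 5) (nat_lit 276) (nat_lit 5) (nat_lit 283) (nat_lit 272) (nat_lit 225))))) (XT.nd (nat_lit 234) (nat_lit 1900) (nat_lit 0) (XT.nd (nat_lit 78) (nat_lit 0) (nat_lit 0) (XT.lf (nat_lit 0) (nat_lit 426340956) (nat_lit 912) (nat_lit 6830177980) (nat_lit 988) (nat_lit 645886211) (nat_lit 253) (nat_lit 5) (nat_lit 265) (nat_lit 5) (nat_lit 266) (nat_lit 5) (nat_lit 284) (nat_lit 272)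 (nat_lit 224)) (XT.nd (nat_lit 78) (nat_lit 0) (nat_lit 0) (XT.lf (nat_lit 0) (nat_lit 2046956357) (nat_lit 912) (nat_lit 2762151757) (nat_lit 988) (nat_lit 3182693399) (nat_lit 253) (nat_lit 5) (nat_lit 265) (nat_lit 5) (nat_lit 266) (nat_lit 5) (nat_lit 285) (nat_lit 272) (nat_lit 223)) (XT.lf (nat_lit 76) (nat_lit 1419538863) (nat_lit 0) (nat_lit 2261789026) (nat_lit 988) (nat_lit 4403654906) (nat_lit 254) (nat_lit 5) (nat_lit 253) (nat_lit 5) (nat_lit 266) (nat_lit 5) (nat_lit 286) (nat_lit 272) (nat_lit 222)))) (XT.nd (nat_lit 156) (nat_lit 1064) (nat_lit 0) (XT.nd (nat_lit 78) (nat_lit 912) (nat_lit 0) (XT.lf (nat_lit 0) (nat_lit 5349052591) (nat_lit 912) (nat_lit 2437890847) (nat_lit 76) (nat_lit 394541903) (nat_lit 254) (nat_lit 5) (nat_lit 266) (nat_lit 5) (nat_lit 255) (nat_lit 5) (nat_lit 287) (nat_lit 272) (nat_lit 221)) (XT.lf (nat_lit 0) (nat_lit 1894842642) (nat_lit 912) (nat_lit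 5166627412) (nat_lit 988) (nat_lit 1219626950) (nat_lit 242) (nat_lit 5) (nat_lit 254) (nat_lit 5) (nat_lit 255) (nat_lit 5) (nat_lit 288) (nat_lit 272) (nat_lit 220))) (XT.nd (nat_lit 78) (nat_lit 988) (nat_lit 0) (XT.lf (nat_lit 0) (nat_lit 412357957) (nat_lit 988) (nat_lit 2016741887) (nat_lit 76) (nat_lit 5955138274) (nat_lit 241) (nat_lit 5) (nat_lit 254) (nat_lit 5) (nat_lit 242) (nat_lit 5) (nat_lit 289) (nat_lit 272) (nat_lit 219)) (XT.lf (nat_lit 0) (nat_lit 2052736006) (nat_lit 1064) (nat_lit 6010451367) (nat_lit 76) (nat_lit 427454721) (nat_lit 228) (nat_lit 5) (nat_lit 242) (nat_lit 5) (nat_lit 229) (nat_lit 5) (nat_lit 290) (nat_lit 272) (nat_lit 218))))))) (XT.nd (nat_lit 1092) (nat_lit 4028) (nat_lit 0) (XT.nd (nat_lit 546) (nat_lit 1672) (nat_lit 0) (XT.nd (nat_lit 234) (nat_lit 2584) (nat_lit 0) (XT.nd (nat_lit 78) (nat_lit 1064) (nat_lit 0) (XT.lf (nat_lit 0) (nat_lit 3743835882)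 (nat_lit 1064) (nat_lit 1507329292) (nat_lit 76) (nat_lit 3349075564) (nat_lit 228) (nat_lit 5) (nat_lit 242) (nat_lit 5) (nat_lit 229) (nat_lit 5) (nat_lit 291) (nat_lit 272) (nat_lit 217)) (XT.nd (nat_lit 78) (nat_lit 0) (nat_lit 0) (XT.lf (nat_lit 0) (nat_lit 3156735748) (nat_lit 1064) (nat_lit 2317426237) (nat_lit 1140) (nat_lit 3239357029) (nat_lit 214) (nat_lit 5) (nat_lit 228) (nat_lit 5) (nat_lit 229) (nat_lit 5) (nat_lit 292) (nat_lit 272) (nat_lit 216)) (XT.lf (nat_lit 0) (nat_lit 7237621062) (nat_lit 1140) (nat_lit 881765957) (nat_lit 76) (nat_lit 711417041) (nat_lit 214) (nat_lit 5) (nat_lit 229) (nat_lit 5) (nat_lit 215) (nat_lit 5) (nat_lit 293) (nat_lit 272) (nat_lit 215)))) (XT.nd (nat_lit 156) (nat_lit 1368) (nat_lit 0) (XT.nd (nat_lit 78) (nat_lit 0) (nat_lit 0) (XT.lf (nat_lit 0) (nat_lit 121752396) (nat_lit 1216) (nat_lit 5000191382) (nat_lit 76) (nat_lit 3829035667) (nat_lit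 198) (nat_lit 5) (nat_lit 214) (nat_lit 5) (nat_lit 199) (nat_lit 5) (nat_lit 294) (nat_lit 272) (nat_lit 214)) (XT.lf (nat_lit 0) (nat_lit 1825770310) (nat_lit 1216) (nat_lit 180093377) (nat_lit 76) (nat_lit 7069374796) (nat_lit 198) (nat_lit 5) (nat_lit 214) (nat_lit 5) (nat_lit 199) (nat_lit 5) (nat_lit 295) (nat_lit 272) (nat_lit 213))) (XT.nd (nat_lit 78) (nat_lit 608) (nat_lit 0) (XT.lf (nat_lit 0) (nat_lit 3601343691) (nat_lit 836) (nat_lit 4371023125) (nat_lit 76) (nat_lit 1230285511) (nat_lit 188) (nat_lit 5) (nat_lit 199) (nat_lit 5) (nat_lit 189) (nat_lit 5) (nat_lit 296) (nat_lit 272) (nat_lit 212)) (XT.lf (nat_lit 0) (nat_lit 619855842) (nat_lit 608) (nat_lit 4800596982) (nat_lit 684) (nat_lit 3913766626) (nat_lit 180) (nat_lit 5) (nat_lit 188) (nat_lit 5) (nat_lit 189) (nat_lit 5) (nat_lit 297) (nat_lit 272) (nat_lit 211))))) (XT.nd (nat_lit 234) (nat_lit 1064) (nat_lit 0) (XT.nd (nat_lit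 78) (nat_lit 608) (nat_lit 0) (XT.lf (nat_lit 0) (nat_lit 5814492152) (nat_lit 608) (nat_lit 1487142327) (nat_lit 684) (nat_lit 2167911914) (nat_lit 180) (nat_lit 5) (nat_lit 188) (nat_lit 5) (nat_lit 189) (nat_lit 5) (nat_lit 298) (nat_lit 272) (nat_lit 210)) (XT.nd (nat_lit 78) (nat_lit 76) (nat_lit 0) (XT.lf (nat_lit 0) (nat_lit 1531764993) (nat_lit 532) (nat_lit 7705159644) (nat_lit 608) (nat_lit 372115001) (nat_lit 173) (nat_lit 5) (nat_lit 180) (nat_lit 5) (nat_lit 181) (nat_lit 5) (nat_lit 299) (nat_lit 272) (nat_lit 209)) (XT.lf (nat_lit 0) (nat_lit 1465475863) (nat_lit 608) (nat_lit 2867824419) (nat_lit 76) (nat_lit 5418523306) (nat_lit 172) (nat_lit 5) (nat_lit 180) (nat_lit 5) (nat_lit 173) (nat_lit 5) (nat_lit 300) (nat_lit 272) (nat_lit 208)))) (XT.nd (nat_lit 156) (nat_lit 532) (nat_lit 0) (XT.nd (nat_lit 78) (nat_lit 0) (nat_lit 0) (XT.lf (nat_lit 0) (nat_lit 2508183206) (nat_lit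 532) (nat_lit 832422863) (nat_lit 608) (nat_lit 6558511307) (nat_lit 165) (nat_lit 5) (nat_lit 172) (nat_lit 5) (nat_lit 173) (nat_lit 5) (nat_lit 301) (nat_lit 272) (nat_lit 207)) (XT.lf (nat_lit 0) (nat_lit 5294330505) (nat_lit 608) (nat_lit 2008320980) (nat_lit 76) (nat_lit 2747540876) (nat_lit 165) (nat_lit 5) (nat_lit 173) (nat_lit 5) (nat_lit 166) (nat_lit 5) (nat_lit 302) (nat_lit 272) (nat_lit 206))) (XT.nd (nat_lit 78) (nat_lit 0) (nat_lit 0) (XT.lf (nat_lit 0) (nat_lit 3562411939) (nat_lit 532) (nat_lit 3754152082) (nat_lit 608) (nat_lit 2888970299) (nat_lit 158) (nat_lit 5) (nat_lit 165) (nat_lit 5) (nat_lit 166) (nat_lit 5) (nat_lit 303) (nat_lit 272) (nat_lit 205)) (XT.lf (nat_lit 0) (nat_lit 9307142649) (nat_lit 532) (nat_lit 80632990) (nat_lit 608) (nat_lit 978142287) (nat_lit 158) (nat_lit 5) (nat_lit 165) (nat_lit 5) (nat_lit 166) (nat_lit 5) (nat_lit 304) (nat_lit 272) (nat_lit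 204)))))) (XT.nd (nat_lit 546) (nat_lit 2052) (nat_lit 0) (XT.nd (nat_lit 234) (nat_lit 912) (nat_lit 0) (XT.nd (nat_lit 78) (nat_lit 456) (nat_lit 0) (XT.lf (nat_lit 0) (nat_lit 1021019365) (nat_lit 608) (nat_lit 5824372194) (nat_lit 76) (nat_lit 3683955119) (nat_lit 150) (nat_lit 5) (nat_lit 158) (nat_lit 5) (nat_lit 151) (nat_lit 5) (nat_lit 305) (nat_lit 272) (nat_lit 203)) (XT.nd (nat_lit 78) (nat_lit 456) (nat_lit 0) (XT.lf (nat_lit 0) (nat_lit 3041280994) (nat_lit 608) (nat_lit 79144691) (nat_lit 76) (nat_lit 7577566640) (nat_lit 150) (nat_lit 5) (nat_lit 158) (nat_lit 5) (nat_lit 151) (nat_lit 5) (nat_lit 306) (nat_lit 272) (nat_lit 202)) (XT.lf (nat_lit 0) (nat_lit 5156561879) (nat_lit 532) (nat_lit 4957893121) (nat_lit 76) (nat_lit 756237297) (nat_lit 144) (nat_lit 5) (nat_lit 151) (nat_lit 5) (nat_lit 145) (nat_lit 5) (nat_lit 307) (nat_lit 272) (nat_lit 201)))) (XT.nd (nat_lit 156) (nat_lit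 456) (nat_lit 0) (XT.nd (nat_lit 78) (nat_lit 0) (nat_lit 0) (XT.lf (nat_lit 0) (nat_lit 991953198) (nat_lit 456) (nat_lit 6355187292) (nat_lit 532) (nat_lit 3701104101) (nat_lit 138) (nat_lit 5) (nat_lit 144) (nat_lit 5) (nat_lit 145) (nat_lit 5) (nat_lit 308) (nat_lit 272) (nat_lit 200)) (XT.lf (nat_lit 0) (nat_lit 7188186298) (nat_lit 456) (nat_lit 2436448704) (nat_lit 532) (nat_lit 1605878223) (nat_lit 138) (nat_lit 5) (nat_lit 144) (nat_lit 5) (nat_lit 145) (nat_lit 5) (nat_lit 309) (nat_lit 272) (nat_lit 199))) (XT.nd (nat_lit 78) (nat_lit 0) (nat_lit 0) (XT.lf (nat_lit 0) (nat_lit 549409125) (nat_lit 456) (nat_lit 9278468039) (nat_lit 76) (nat_lit 1589998357) (nat_lit 132) (nat_lit 5) (nat_lit 138) (nat_lit 5) (nat_lit 133) (nat_lit 5) (nat_lit 310) (nat_lit 272) (nat_lit 198)) (XT.lf (nat_lit 0) (nat_lit 2774555561) (nat_lit 456) (nat_lit 3094430730) (nat_lit 76) (nat_lit 5740294638) (nat_lit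 132) (nat_lit 5) (nat_lit 138) (nat_lit 5) (nat_lit 133) (nat_lit 5) (nat_lit 311) (nat_lit 272) (nat_lit 197))))) (XT.nd (nat_lit 312) (nat_lit 1140) (nat_lit 0) (XT.nd (nat_lit 156) (nat_lit 456) (nat_lit 0) (XT.nd (nat_lit 78) (nat_lit 0) (nat_lit 0) (XT.lf (nat_lit 0) (nat_lit 3306813699) (nat_lit 456) (nat_lit 1764371597) (nat_lit 532) (nat_lit 6735124195) (nat_lit 126) (nat_lit 5) (nat_lit 132) (nat_lit 5) (nat_lit 133) (nat_lit 5) (nat_lit 312) (nat_lit 272) (nat_lit 196)) (XT.lf (nat_lit 0) (nat_lit 7465310742) (nat_lit 532) (nat_lit 2102054607) (nat_lit 76) (nat_lit 2441047852) (nat_lit 126) (nat_lit 5) (nat_lit 133) (nat_lit 5) (nat_lit 127) (nat_lit 5) (nat_lit 313) (nat_lit 272) (nat_lit 195))) (XT.nd (nat_lit 78) (nat_lit 76) (nat_lit 0) (XT.lf (nat_lit 0) (nat_lit 4525843211) (nat_lit 380) (nat_lit 5440527075) (nat_lit 456) (nat_lit 2249177973) (nat_lit 121) (nat_lit 5) (nat_lit 126)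 (nat_lit 5) (nat_lit 127) (nat_lit 5) (nat_lit 314) (nat_lit 272) (nat_lit 194)) (XT.lf (nat_lit 0) (nat_lit 107094702) (nat_lit 456) (nat_lit 1066422243) (nat_lit 76) (nat_lit 11255495592) (nat_lit 120) (nat_lit 5) (nat_lit 126) (nat_lit 5) (nat_lit 121) (nat_lit 5) (nat_lit 315) (nat_lit 272) (nat_lit 193)))) (XT.nd (nat_lit 156) (nat_lit 760) (nat_lit 0) (XT.nd (nat_lit 78) (nat_lit 0) (nat_lit 0) (XT.lf (nat_lit 0) (nat_lit 2551483584) (nat_lit 456) (nat_lit 6863796181) (nat_lit 76) (nat_lit 3231073597) (nat_lit 115) (nat_lit 5) (nat_lit 121) (nat_lit 5) (nat_lit 116) (nat_lit 5) (nat_lit 316) (nat_lit 272) (nat_lit 192)) (XT.lf (nat_lit 0) (nat_lit 5067117418) (nat_lit 456) (nat_lit 54710904) (nat_lit 76) (nat_lit 7748467835) (nat_lit 115) (nat_lit 5) (nat_lit 121) (nat_lit 5) (nat_lit 116) (nat_lit 5) (nat_lit 317) (nat_lit 272) (nat_lit 191))) (XT.nd (nat_lit 78) (nat_lit 380) (nat_lit 0)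 (XT.lf (nat_lit 0) (nat_lit 7065490433) (nat_lit 380) (nat_lit 636782517) (nat_lit 456) (nat_lit 5397381294) (nat_lit 110) (nat_lit 5) (nat_lit 115) (nat_lit 5) (nat_lit 116) (nat_lit 5) (nat_lit 318) (nat_lit 272) (nat_lit 190)) (XT.lf (nat_lit 0) (nat_lit 1014674391) (nat_lit 380) (nat_lit 9426870448) (nat_lit 456) (nat_lit 2893614428) (nat_lit 105) (nat_lit 5) (nat_lit 110) (nat_lit 5) (nat_lit 111) (nat_lit 5) (nat_lit 319) (nat_lit 272) (nat_lit 189))))))))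
noncomputable def xc134 : XT := (XT.nd (nat_lit 2184) (nat_lit 2128) (nat_lit 0) (XT.nd (nat_lit 1092) (nat_lit 1748) (nat_lit 0) (XT.nd (nat_lit 546) (nat_lit 1140) (nat_lit 0) (XT.nd (nat_lit 234) (nat_lit 684) (nat_lit 0) (XT.nd (nat_lit 78) (nat_lit 380) (nat_lit 0) (XT.lf (nat_lit 0) (nat_lit 8361171879) (nat_lit 380) (nat_lit 4945850848) (nat_lit 456) (nat_lit 269403400) (nat_lit 105) (nat_lit 5) (nat_lit 110) (nat_lit 5) (nat_lit 111) (nat_lit 5) (nat_lit 320) (nat_lit 272) (nat_lit 188)) (XT.nd (nat_lit 78) (nat_lit 0) (nat_lit 0) (XT.lf (nat_lit 0) (nat_lit 2089888279) (nat_lit 304) (nat_lit 293534632) (nat_lit 380) (nat_lit 11440901540) (nat_lit 100) (nat_lit 5) (nat_lit 104) (nat_lit 5) (nat_lit 105) (nat_lit 5) (nat_lit 321) (nat_lit 272) (nat_lit 187)) (XT.lf (nat_lit 0) (nat_lit 5184425289) (nat_lit 380) (nat_lit 4434359662) (nat_lit 76) (nat_lit 4458590605) (nat_lit 100) (nat_lit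 5) (nat_lit 105) (nat_lit 5) (nat_lit 101) (nat_lit 5) (nat_lit 322) (nat_lit 272) (nat_lit 186)))) (XT.nd (nat_lit 156) (nat_lit 380) (nat_lit 0) (XT.nd (nat_lit 78) (nat_lit 0) (nat_lit 0) (XT.lf (nat_lit 0) (nat_lit 3112507490) (nat_lit 304) (nat_lit 4968008719) (nat_lit 380) (nat_lit 6257185798) (nat_lit 96) (nat_lit 5) (nat_lit 100) (nat_lit 5) (nat_lit 101) (nat_lit 5) (nat_lit 323) (nat_lit 272) (nat_lit 185)) (XT.lf (nat_lit 0) (nat_lit 10946933608) (nat_lit 304) (nat_lit 139915497) (nat_lit 380) (nat_lit 3518303483) (nat_lit 96) (nat_lit 5) (nat_lit 100) (nat_lit 5) (nat_lit 101) (nat_lit 5) (nat_lit 324) (nat_lit 272) (nat_lit 184))) (XT.nd (nat_lit 78) (nat_lit 76) (nat_lit 0) (XT.lf (nat_lit 0) (nat_lit 4140665711) (nat_lit 304) (nat_lit 10108093884) (nat_lit 380) (nat_lit 629920136) (nat_lit 92) (nat_lit 5) (nat_lit 96) (nat_lit 5) (nat_lit 97) (nat_lit 5) (nat_lit 325) (nat_lit 272)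 (nat_lit 183)) (XT.lf (nat_lit 0) (nat_lit 2317282340) (nat_lit 380) (nat_lit 2964671217) (nat_lit 76) (nat_lit 9877258804) (nat_lit 91) (nat_lit 5) (nat_lit 96) (nat_lit 5) (nat_lit 92) (nat_lit 5) (nat_lit 326) (nat_lit 272) (nat_lit 182))))) (XT.nd (nat_lit 234) (nat_lit 608) (nat_lit 0) (XT.nd (nat_lit 78) (nat_lit 228) (nat_lit 0) (XT.lf (nat_lit 0) (nat_lit 5106564176) (nat_lit 304) (nat_lit 262605474) (nat_lit 380) (nat_lit 10077949757) (nat_lit 87) (nat_lit 5) (nat_lit 91) (nat_lit 5) (nat_lit 92) (nat_lit 5) (nat_lit 327) (nat_lit 272) (nat_lit 181)) (XT.nd (nat_lit 78) (nat_lit 228) (nat_lit 0) (XT.lf (nat_lit 0) (nat_lit 8570092832) (nat_lit 380) (nat_lit 2338487189) (nat_lit 76) (nat_lit 4833372303) (nat_lit 87) (nat_lit 5) (nat_lit 92) (nat_lit 5) (nat_lit 88) (nat_lit 5) (nat_lit 328) (nat_lit 272) (nat_lit 180)) (XT.lf (nat_lit 0) (nat_lit 5989806578) (nat_lit 228) (nat_lit 5918068543)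 (nat_lit 304) (nat_lit 4136542821) (nat_lit 84) (nat_lit 5) (nat_lit 87) (nat_lit 5) (nat_lit 88) (nat_lit 5) (nat_lit 329) (nat_lit 272) (nat_lit 179)))) (XT.nd (nat_lit 156) (nat_lit 228) (nat_lit 0) (XT.nd (nat_lit 78) (nat_lit 380) (nat_lit 0) (XT.lf (nat_lit 0) (nat_lit 14588042568) (nat_lit 228) (nat_lit 762311959) (nat_lit 304) (nat_lit 1005478382) (nat_lit 84) (nat_lit 5) (nat_lit 87) (nat_lit 5) (nat_lit 88) (nat_lit 5) (nat_lit 330) (nat_lit 272) (nat_lit 178)) (XT.lf (nat_lit 0) (nat_lit 2267887016) (nat_lit 380) (nat_lit 9866442225) (nat_lit 76) (nat_lit 4538882211) (nat_lit 79) (nat_lit 5) (nat_lit 84) (nat_lit 5) (nat_lit 80) (nat_lit 5) (nat_lit 331) (nat_lit 272) (nat_lit 177))) (XT.nd (nat_lit 78) (nat_lit 228) (nat_lit 0) (XT.lf (nat_lit 0) (nat_lit 5626328832) (nat_lit 380) (nat_lit 1370078415) (nat_lit 76) (nat_lit 10003204157) (nat_lit 79) (nat_lit 5) (nat_lit 84) (nat_lit 5)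 (nat_lit 80) (nat_lit 5) (nat_lit 332) (nat_lit 272) (nat_lit 176)) (XT.lf (nat_lit 0) (nat_lit 7500720504) (nat_lit 228) (nat_lit 1638952456) (nat_lit 304) (nat_lit 8194516840) (nat_lit 76) (nat_lit 5) (nat_lit 79) (nat_lit 5) (nat_lit 80) (nat_lit 5) (nat_lit 333) (nat_lit 272) (nat_lit 175)))))) (XT.nd (nat_lit 546) (nat_lit 988) (nat_lit 0) (XT.nd (nat_lit 234) (nat_lit 456) (nat_lit 0) (XT.nd (nat_lit 78) (nat_lit 304) (nat_lit 0) (XT.lf (nat_lit 0) (nat_lit 12791908822) (nat_lit 304) (nat_lit 1077103075) (nat_lit 76) (nat_lit 3808799510) (nat_lit 76) (nat_lit 5) (nat_lit 80) (nat_lit 5) (nat_lit 77) (nat_lit 5) (nat_lit 334) (nat_lit 272) (nat_lit 174)) (XT.nd (nat_lit 78) (nat_lit 76) (nat_lit 0) (XT.lf (nat_lit 0) (nat_lit 8056714475) (nat_lit 228) (nat_lit 8573418009) (nat_lit 304) (nat_lit 1399326846) (nat_lit 73) (nat_lit 5) (nat_lit 76) (nat_lit 5) (nat_lit 77) (nat_lit 5) (nat_lit 335)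 (nat_lit 272) (nat_lit 173)) (XT.lf (nat_lit 0) (nat_lit 2142881820) (nat_lit 304) (nat_lit 952203701) (nat_lit 76) (nat_lit 15296134597) (nat_lit 72) (nat_lit 5) (nat_lit 76) (nat_lit 5) (nat_lit 73) (nat_lit 5) (nat_lit 336) (nat_lit 272) (nat_lit 172)))) (XT.nd (nat_lit 156) (nat_lit 228) (nat_lit 0) (XT.nd (nat_lit 78) (nat_lit 0) (nat_lit 0) (XT.lf (nat_lit 0) (nat_lit 5853268728) (nat_lit 304) (nat_lit 10322112846) (nat_lit 76) (nat_lit 2585344819) (nat_lit 69) (nat_lit 5) (nat_lit 73) (nat_lit 5) (nat_lit 70) (nat_lit 5) (nat_lit 337) (nat_lit 272) (nat_lit 171)) (XT.lf (nat_lit 0) (nat_lit 9698801963) (nat_lit 304) (nat_lit 1066816525) (nat_lit 76) (nat_lit 8374993471) (nat_lit 69) (nat_lit 5) (nat_lit 73) (nat_lit 5) (nat_lit 70) (nat_lit 5) (nat_lit 338) (nat_lit 272) (nat_lit 170))) (XT.nd (nat_lit 78) (nat_lit 0) (nat_lit 0) (XT.lf (nat_lit 0) (nat_lit 8609161549) (nat_lit 228) (nat_lit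 5117257062) (nat_lit 304) (nat_lit 5803482836) (nat_lit 66) (nat_lit 5) (nat_lit 69) (nat_lit 5) (nat_lit 70) (nat_lit 5) (nat_lit 339) (nat_lit 272) (nat_lit 169)) (XT.lf (nat_lit 0) (nat_lit 17876581957) (nat_lit 304) (nat_lit 1365224839) (nat_lit 76) (nat_lit 689019896) (nat_lit 66) (nat_lit 5) (nat_lit 70) (nat_lit 5) (nat_lit 67) (nat_lit 5) (nat_lit 340) (nat_lit 272) (nat_lit 168))))) (XT.nd (nat_lit 234) (nat_lit 456) (nat_lit 0) (XT.nd (nat_lit 78) (nat_lit 228) (nat_lit 0) (XT.lf (nat_lit 0) (nat_lit 1890961483) (nat_lit 304) (nat_lit 11789688211) (nat_lit 76) (nat_lit 6659054053) (nat_lit 62) (nat_lit 5) (nat_lit 66) (nat_lit 5) (nat_lit 63) (nat_lit 5) (nat_lit 341) (nat_lit 272) (nat_lit 167)) (XT.nd (nat_lit 78) (nat_lit 228) (nat_lit 0) (XT.lf (nat_lit 0) (nat_lit 5911784476) (nat_lit 304) (nat_lit 2014678323) (nat_lit 76) (nat_lit 12833825564) (nat_lit 62) (nat_lit 5) (nat_lit 66)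 (nat_lit 5) (nat_lit 63) (nat_lit 5) (nat_lit 342) (nat_lit 272) (nat_lit 166)) (XT.lf (nat_lit 0) (nat_lit 8189635680) (nat_lit 228) (nat_lit 1927394325) (nat_lit 304) (nat_lit 11074554234) (nat_lit 59) (nat_lit 5) (nat_lit 62) (nat_lit 5) (nat_lit 63) (nat_lit 5) (nat_lit 343) (nat_lit 272) (nat_lit 165)))) (XT.nd (nat_lit 156) (nat_lit 304) (nat_lit 0) (XT.nd (nat_lit 78) (nat_lit 152) (nat_lit 0) (XT.lf (nat_lit 0) (nat_lit 14495046096) (nat_lit 304) (nat_lit 2958788369) (nat_lit 76) (nat_lit 4180593567) (nat_lit 59) (nat_lit 5) (nat_lit 63) (nat_lit 5) (nat_lit 60) (nat_lit 5) (nat_lit 344) (nat_lit 272) (nat_lit 164)) (XT.lf (nat_lit 0) (nat_lit 7489540270) (nat_lit 152) (nat_lit 11591568720) (nat_lit 228) (nat_lit 3007154177) (nat_lit 57) (nat_lit 5) (nat_lit 59) (nat_lit 5) (nat_lit 60) (nat_lit 5) (nat_lit 345) (nat_lit 272) (nat_lit 163))) (XT.nd (nat_lit 78) (nat_lit 228) (nat_lit 0)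 (XT.lf (nat_lit 0) (nat_lit 1240520714) (nat_lit 228) (nat_lit 4278403941) (nat_lit 76) (nat_lit 17035959701) (nat_lit 56) (nat_lit 5) (nat_lit 59) (nat_lit 5) (nat_lit 57) (nat_lit 5) (nat_lit 346) (nat_lit 272) (nat_lit 162)) (XT.lf (nat_lit 0) (nat_lit 5610935271) (nat_lit 304) (nat_lit 16616540307) (nat_lit 76) (nat_lit 805469486) (nat_lit 53) (nat_lit 5) (nat_lit 57) (nat_lit 5) (nat_lit 54) (nat_lit 5) (nat_lit 347) (nat_lit 272) (nat_lit 161))))))) (XT.nd (nat_lit 1092) (nat_lit 988) (nat_lit 0) (XT.nd (nat_lit 546) (nat_lit 532) (nat_lit 0) (XT.nd (nat_lit 234) (nat_lit 456) (nat_lit 0) (XT.nd (nat_lit 78) (nat_lit 152) (nat_lit 0) (XT.lf (nat_lit 0) (nat_lit 10196940165) (nat_lit 304) (nat_lit 6082052867) (nat_lit 76) (nat_lit 7243826638) (nat_lit 53) (nat_lit 5) (nat_lit 57) (nat_lit 5) (nat_lit 54) (nat_lit 5) (nat_lit 348) (nat_lit 272) (nat_lit 160)) (XT.nd (nat_lit 78) (nat_lit 0)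 (nat_lit 0) (XT.lf (nat_lit 0) (nat_lit 4840901944) (nat_lit 152) (nat_lit 10112762638) (nat_lit 228) (nat_lit 9072737979) (nat_lit 51) (nat_lit 5) (nat_lit 53) (nat_lit 5) (nat_lit 54) (nat_lit 5) (nat_lit 349) (nat_lit 272) (nat_lit 159)) (XT.lf (nat_lit 0) (nat_lit 16194406824) (nat_lit 152) (nat_lit 3706886810) (nat_lit 228) (nat_lit 4642359261) (nat_lit 51) (nat_lit 5) (nat_lit 53) (nat_lit 5) (nat_lit 54) (nat_lit 5) (nat_lit 350) (nat_lit 272) (nat_lit 158)))) (XT.nd (nat_lit 156) (nat_lit 152) (nat_lit 0) (XT.nd (nat_lit 78) (nat_lit 76) (nat_lit 0) (XT.lf (nat_lit 0) (nat_lit 2817800100) (nat_lit 228) (nat_lit 22221520224) (nat_lit 304) (nat_lit 35847222) (nat_lit 48) (nat_lit 5) (nat_lit 51) (nat_lit 5) (nat_lit 52) (nat_lit 5) (nat_lit 351) (nat_lit 272) (nat_lit 157)) (XT.lf (nat_lit 0) (nat_lit 4725951426) (nat_lit 304) (nat_lit 11233431115) (nat_lit 76) (nat_lit 9658623353) (nat_lit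 47) (nat_lit 5) (nat_lit 51) (nat_lit 5) (nat_lit 48) (nat_lit 5) (nat_lit 352) (nat_lit 272) (nat_lit 156))) (XT.nd (nat_lit 78) (nat_lit 0) (nat_lit 0) (XT.lf (nat_lit 0) (nat_lit 101944318) (nat_lit 152) (nat_lit 9516424459) (nat_lit 228) (nat_lit 16559100780) (nat_lit 45) (nat_lit 5) (nat_lit 47) (nat_lit 5) (nat_lit 48) (nat_lit 5) (nat_lit 353) (nat_lit 272) (nat_lit 155)) (XT.lf (nat_lit 0) (nat_lit 11986947006) (nat_lit 152) (nat_lit 2771717419) (nat_lit 228) (nat_lit 11992024746) (nat_lit 45) (nat_lit 5) (nat_lit 47) (nat_lit 5) (nat_lit 48) (nat_lit 5) (nat_lit 354) (nat_lit 272) (nat_lit 154))))) (XT.nd (nat_lit 234) (nat_lit 304) (nat_lit 0) (XT.nd (nat_lit 78) (nat_lit 228) (nat_lit 0) (XT.lf (nat_lit 0) (nat_lit 20081255856) (nat_lit 228) (nat_lit 3173132604) (nat_lit 76) (nat_lit 4085879371) (nat_lit 45) (nat_lit 5) (nat_lit 48) (nat_lit 5) (nat_lit 46) (nat_lit 5) (nat_lit 355) (nat_lit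 272) (nat_lit 153)) (XT.nd (nat_lit 78) (nat_lit 76) (nat_lit 0) (XT.lf (nat_lit 0) (nat_lit 8891459650) (nat_lit 152) (nat_lit 16773280291) (nat_lit 228) (nat_lit 2279762375) (nat_lit 43) (nat_lit 5) (nat_lit 45) (nat_lit 5) (nat_lit 46) (nat_lit 5) (nat_lit 356) (nat_lit 272) (nat_lit 152)) (XT.lf (nat_lit 0) (nat_lit 2813968073) (nat_lit 228) (nat_lit 7230409013) (nat_lit 76) (nat_lit 18521048985) (nat_lit 42) (nat_lit 5) (nat_lit 45) (nat_lit 5) (nat_lit 43) (nat_lit 5) (nat_lit 357) (nat_lit 272) (nat_lit 151)))) (XT.nd (nat_lit 156) (nat_lit 152) (nat_lit 0) (XT.nd (nat_lit 78) (nat_lit 0) (nat_lit 0) (XT.lf (nat_lit 0) (nat_lit 5002690168) (nat_lit 152) (nat_lit 3048763271) (nat_lit 228) (nat_lit 21151748520) (nat_lit 40) (nat_lit 5) (nat_lit 42) (nat_lit 5) (nat_lit 43) (nat_lit 5) (nat_lit 358) (nat_lit 272) (nat_lit 150)) (XT.lf (nat_lit 0) (nat_lit 13548501819) (nat_lit 228) (nat_lit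 12166939009) (nat_lit 76) (nat_lit 4141601508) (nat_lit 40) (nat_lit 5) (nat_lit 43) (nat_lit 5) (nat_lit 41) (nat_lit 5) (nat_lit 359) (nat_lit 272) (nat_lit 149))) (XT.nd (nat_lit 78) (nat_lit 0) (nat_lit 0) (XT.lf (nat_lit 0) (nat_lit 182237436) (nat_lit 152) (nat_lit 19049235235) (nat_lit 228) (nat_lit 11298399165) (nat_lit 38) (nat_lit 5) (nat_lit 40) (nat_lit 5) (nat_lit 41) (nat_lit 5) (nat_lit 360) (nat_lit 272) (nat_lit 148)) (XT.lf (nat_lit 0) (nat_lit 13132709701) (nat_lit 152) (nat_lit 12064298195) (nat_lit 228) (nat_lit 6022520183) (nat_lit 38) (nat_lit 5) (nat_lit 40) (nat_lit 5) (nat_lit 41) (nat_lit 5) (nat_lit 361) (nat_lit 272) (nat_lit 147)))))) (XT.nd (nat_lit 546) (nat_lit 532) (nat_lit 0) (XT.nd (nat_lit 234) (nat_lit 228) (nat_lit 0) (XT.nd (nat_lit 78) (nat_lit 228) (nat_lit 0) (XT.lf (nat_lit 0) (nat_lit 26453647789) (nat_lit 152) (nat_lit 4877388593) (nat_lit 228) (nat_lit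 599155808) (nat_lit 38) (nat_lit 5) (nat_lit 40) (nat_lit 5) (nat_lit 41) (nat_lit 5) (nat_lit 362) (nat_lit 272) (nat_lit 146)) (XT.nd (nat_lit 78) (nat_lit 0) (nat_lit 0) (XT.lf (nat_lit 0) (nat_lit 4977727132) (nat_lit 228) (nat_lit 25089691693) (nat_lit 76) (nat_lit 2590679144) (nat_lit 35) (nat_lit 5) (nat_lit 38) (nat_lit 5) (nat_lit 36) (nat_lit 5) (nat_lit 363) (nat_lit 272) (nat_lit 145)) (XT.lf (nat_lit 0) (nat_lit 10803801912) (nat_lit 228) (nat_lit 12361777014) (nat_lit 76) (nat_lit 10239269852) (nat_lit 35) (nat_lit 5) (nat_lit 38) (nat_lit 5) (nat_lit 36) (nat_lit 5) (nat_lit 364) (nat_lit 272) (nat_lit 144)))) (XT.nd (nat_lit 156) (nat_lit 76) (nat_lit 0) (XT.nd (nat_lit 78) (nat_lit 0) (nat_lit 0) (XT.lf (nat_lit 0) (nat_lit 745242054) (nat_lit 152) (nat_lit 16056664977) (nat_lit 228) (nat_lit 17372181189) (nat_lit 33) (nat_lit 5) (nat_lit 35) (nat_lit 5) (nat_lit 36) (nat_lit 5)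 (nat_lit 365) (nat_lit 272) (nat_lit 143)) (XT.lf (nat_lit 0) (nat_lit 14481769962) (nat_lit 152) (nat_lit 8613223794) (nat_lit 228) (nat_lit 11867963381) (nat_lit 33) (nat_lit 5) (nat_lit 35) (nat_lit 5) (nat_lit 36) (nat_lit 5) (nat_lit 366) (nat_lit 272) (nat_lit 142))) (XT.nd (nat_lit 78) (nat_lit 76) (nat_lit 0) (XT.lf (nat_lit 0) (nat_lit 28613785901) (nat_lit 152) (nat_lit 953581109) (nat_lit 228) (nat_lit 6208413642) (nat_lit 33) (nat_lit 5) (nat_lit 35) (nat_lit 5) (nat_lit 36) (nat_lit 5) (nat_lit 367) (nat_lit 272) (nat_lit 141)) (XT.lf (nat_lit 0) (nat_lit 6602604465) (nat_lit 76) (nat_lit 29752151436) (nat_lit 152) (nat_lit 254610888) (nat_lit 32) (nat_lit 5) (nat_lit 33) (nat_lit 5) (nat_lit 34) (nat_lit 4) (nat_lit 368) (nat_lit 272) (nat_lit 140))))) (XT.nd (nat_lit 312) (nat_lit 304) (nat_lit 0) (XT.nd (nat_lit 156) (nat_lit 152) (nat_lit 0) (XT.nd (nat_lit 78) (nat_lit 0) (nat_lit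 0) (XT.lf (nat_lit 0) (nat_lit 5836314113) (nat_lit 152) (nat_lit 16621859237) (nat_lit 76) (nat_lit 15005899032) (nat_lit 31) (nat_lit 5) (nat_lit 33) (nat_lit 5) (nat_lit 32) (nat_lit 5) (nat_lit 369) (nat_lit 272) (nat_lit 139)) (XT.lf (nat_lit 0) (nat_lit 12095845330) (nat_lit 152) (nat_lit 2853818688) (nat_lit 76) (nat_lit 23394952593) (nat_lit 31) (nat_lit 5) (nat_lit 33) (nat_lit 5) (nat_lit 32) (nat_lit 5) (nat_lit 370) (nat_lit 272) (nat_lit 138))) (XT.nd (nat_lit 78) (nat_lit 0) (nat_lit 0) (XT.lf (nat_lit 0) (nat_lit 11536964860) (nat_lit 152) (nat_lit 7108356136) (nat_lit 228) (nat_lit 20603194304) (nat_lit 29) (nat_lit 5) (nat_lit 31) (nat_lit 5) (nat_lit 32) (nat_lit 5) (nat_lit 371) (nat_lit 272) (nat_lit 137)) (XT.lf (nat_lit 0) (nat_lit 25420993176) (nat_lit 228) (nat_lit 13785758890) (nat_lit 76) (nat_lit 971890318) (nat_lit 29) (nat_lit 5) (nat_lit 32) (nat_lit 5) (nat_lit 30)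 (nat_lit 4) (nat_lit 372) (nat_lit 272) (nat_lit 136)))) (XT.nd (nat_lit 156) (nat_lit 228) (nat_lit 0) (XT.nd (nat_lit 78) (nat_lit 0) (nat_lit 0) (XT.lf (nat_lit 0) (nat_lit 481806371) (nat_lit 76) (nat_lit 31984695770) (nat_lit 152) (nat_lit 8668176864) (nat_lit 28) (nat_lit 5) (nat_lit 29) (nat_lit 5) (nat_lit 30) (nat_lit 4) (nat_lit 373) (nat_lit 272) (nat_lit 135)) (XT.lf (nat_lit 0) (nat_lit 15445118359) (nat_lit 76) (nat_lit 24409125560) (nat_lit 152) (nat_lit 2261229421) (nat_lit 28) (nat_lit 5) (nat_lit 29) (nat_lit 5) (nat_lit 30) (nat_lit 4) (nat_lit 374) (nat_lit 272) (nat_lit 134))) (XT.nd (nat_lit 78) (nat_lit 152) (nat_lit 0) (XT.lf (nat_lit 0) (nat_lit 4245096545) (nat_lit 152) (nat_lit 12324667445) (nat_lit 76) (nat_lit 26554924481) (nat_lit 27) (nat_lit 5) (nat_lit 29) (nat_lit 5) (nat_lit 28) (nat_lit 5) (nat_lit 375) (nat_lit 272) (nat_lit 133)) (XT.lf (nat_lit 0) (nat_lit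 2462880576) (nat_lit 152) (nat_lit 8454014917) (nat_lit 228) (nat_lit 33246143378) (nat_lit 25) (nat_lit 5) (nat_lit 27) (nat_lit 5) (nat_lit 28) (nat_lit 5) (nat_lit 376) (nat_lit 272) (nat_lit 132))))))))
noncomputable def xc135 : XT := (XT.nd (nat_lit 2184) (nat_lit 228) (nat_lit 0) (XT.nd (nat_lit 1092) (nat_lit 304) (nat_lit 0) (XT.nd (nat_lit 546) (nat_lit 228) (nat_lit 0) (XT.nd (nat_lit 234) (nat_lit 228) (nat_lit 0) (XT.nd (nat_lit 78) (nat_lit 76) (nat_lit 0) (XT.lf (nat_lit 0) (nat_lit 17905718173) (nat_lit 228) (nat_lit 27296649071) (nat_lit 76) (nat_lit 26668795) (nat_lit 25) (nat_lit 5) (nat_lit 28) (nat_lit 5) (nat_lit 26) (nat_lit 4) (nat_lit 377) (nat_lit 272) (nat_lit 131)) (XT.nd (nat_lit 78) (nat_lit 76) (nat_lit 0) (XT.lf (nat_lit 0) (nat_lit 25180232700) (nat_lit 228) (nat_lit 12558544055) (nat_lit 76) (nat_lit 8585957830) (nat_lit 25) (nat_lit 5) (nat_lit 28) (nat_lit 5) (nat_lit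 26) (nat_lit 4) (nat_lit 378) (nat_lit 272) (nat_lit 130)) (XT.lf (nat_lit 0) (nat_lit 2660210152) (nat_lit 76) (nat_lit 30030891699) (nat_lit 152) (nat_lit 14761660875) (nat_lit 24) (nat_lit 5) (nat_lit 25) (nat_lit 5) (nat_lit 26) (nat_lit 4) (nat_lit 379) (nat_lit 272) (nat_lit 129)))) (XT.nd (nat_lit 156) (nat_lit 228) (nat_lit 0) (XT.nd (nat_lit 78) (nat_lit 0) (nat_lit 0) (XT.lf (nat_lit 0) (nat_lit 18579692001) (nat_lit 76) (nat_lit 21967058840) (nat_lit 152) (nat_lit 8064299404) (nat_lit 24) (nat_lit 5) (nat_lit 25) (nat_lit 5) (nat_lit 26) (nat_lit 4) (nat_lit 380) (nat_lit 272) (nat_lit 128)) (XT.lf (nat_lit 0) (nat_lit 34963872066) (nat_lit 76) (nat_lit 13667048782) (nat_lit 152) (nat_lit 1173382082) (nat_lit 24) (nat_lit 5) (nat_lit 25) (nat_lit 5) (nat_lit 26) (nat_lit 4) (nat_lit 381) (nat_lit 272) (nat_lit 127))) (XT.nd (nat_lit 78) (nat_lit 0) (nat_lit 0) (XT.lf (nat_lit 0) (nat_lit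 751284557) (nat_lit 152) (nat_lit 5057585358) (nat_lit 228) (nat_lit 45222770491) (nat_lit 21) (nat_lit 5) (nat_lit 23) (nat_lit 5) (nat_lit 24) (nat_lit 5) (nat_lit 382) (nat_lit 272) (nat_lit 126)) (XT.lf (nat_lit 0) (nat_lit 13157993255) (nat_lit 228) (nat_lit 35238747759) (nat_lit 76) (nat_lit 3893280744) (nat_lit 21) (nat_lit 5) (nat_lit 24) (nat_lit 5) (nat_lit 22) (nat_lit 4) (nat_lit 383) (nat_lit 272) (nat_lit 125))))) (XT.nd (nat_lit 234) (nat_lit 152) (nat_lit 0) (XT.nd (nat_lit 78) (nat_lit 76) (nat_lit 0) (XT.lf (nat_lit 0) (nat_lit 20770887712) (nat_lit 228) (nat_lit 19808281333) (nat_lit 76) (nat_lit 13005688437) (nat_lit 21) (nat_lit 5) (nat_lit 24) (nat_lit 5) (nat_lit 22) (nat_lit 4) (nat_lit 384) (nat_lit 272) (nat_lit 124)) (XT.nd (nat_lit 78) (nat_lit 76) (nat_lit 0) (XT.lf (nat_lit 0) (nat_lit 28605588725) (nat_lit 228) (nat_lit 3926857033) (nat_lit 76) (nat_lit 22386291725)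 (nat_lit 21) (nat_lit 5) (nat_lit 24) (nat_lit 5) (nat_lit 22) (nat_lit 4) (nat_lit 385) (nat_lit 272) (nat_lit 123)) (XT.lf (nat_lit 0) (nat_lit 12666572564) (nat_lit 76) (nat_lit 24124128430) (nat_lit 152) (nat_lit 19498473532) (nat_lit 20) (nat_lit 5) (nat_lit 21) (nat_lit 5) (nat_lit 22) (nat_lit 4) (nat_lit 386) (nat_lit 272) (nat_lit 122)))) (XT.nd (nat_lit 156) (nat_lit 152) (nat_lit 0) (XT.nd (nat_lit 78) (nat_lit 0) (nat_lit 0) (XT.lf (nat_lit 0) (nat_lit 29826807688) (nat_lit 76) (nat_lit 15427899469) (nat_lit 152) (nat_lit 12445019003) (nat_lit 20) (nat_lit 5) (nat_lit 21) (nat_lit 5) (nat_lit 22) (nat_lit 4) (nat_lit 387) (nat_lit 272) (nat_lit 121)) (XT.lf (nat_lit 0) (nat_lit 47490690564) (nat_lit 76) (nat_lit 6475813786) (nat_lit 152) (nat_lit 5186275515) (nat_lit 20) (nat_lit 5) (nat_lit 21) (nat_lit 5) (nat_lit 22) (nat_lit 4) (nat_lit 388) (nat_lit 272) (nat_lit 120))) (XT.nd (nat_lit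 78) (nat_lit 0) (nat_lit 0) (XT.lf (nat_lit 0) (nat_lit 2315609670) (nat_lit 152) (nat_lit 55572870752) (nat_lit 76) (nat_lit 2758183756) (nat_lit 18) (nat_lit 5) (nat_lit 20) (nat_lit 5) (nat_lit 19) (nat_lit 4) (nat_lit 389) (nat_lit 272) (nat_lit 119)) (XT.lf (nat_lit 0) (nat_lit 10115372101) (nat_lit 152) (nat_lit 39758630866) (nat_lit 76) (nat_lit 12304511293) (nat_lit 18) (nat_lit 5) (nat_lit 20) (nat_lit 5) (nat_lit 19) (nat_lit 4) (nat_lit 390) (nat_lit 272) (nat_lit 118)))))) (XT.nd (nat_lit 546) (nat_lit 152) (nat_lit 0) (XT.nd (nat_lit 234) (nat_lit 76) (nat_lit 0) (XT.nd (nat_lit 78) (nat_lit 76) (nat_lit 0) (XT.lf (nat_lit 0) (nat_lit 18143314303) (nat_lit 152) (nat_lit 23480624553) (nat_lit 76) (nat_lit 22132556843) (nat_lit 18) (nat_lit 5) (nat_lit 20) (nat_lit 5) (nat_lit 19) (nat_lit 4) (nat_lit 391) (nat_lit 272) (nat_lit 117)) (XT.nd (nat_lit 78) (nat_lit 76) (nat_lit 0) (XT.lf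 (nat_lit 0) (nat_lit 26406450983) (nat_lit 152) (nat_lit 6724628312) (nat_lit 76) (nat_lit 32250908020) (nat_lit 18) (nat_lit 5) (nat_lit 20) (nat_lit 5) (nat_lit 19) (nat_lit 4) (nat_lit 392) (nat_lit 272) (nat_lit 116)) (XT.lf (nat_lit 0) (nat_lit 10733447233) (nat_lit 76) (nat_lit 24281731585) (nat_lit 152) (nat_lit 32038135329) (nat_lit 17) (nat_lit 5) (nat_lit 18) (nat_lit 5) (nat_lit 19) (nat_lit 4) (nat_lit 393) (nat_lit 272) (nat_lit 115)))) (XT.nd (nat_lit 156) (nat_lit 76) (nat_lit 0) (XT.nd (nat_lit 78) (nat_lit 0) (nat_lit 0) (XT.lf (nat_lit 0) (nat_lit 28843163053) (nat_lit 76) (nat_lit 15101495538) (nat_lit 152) (nat_lit 24828248830) (nat_lit 17) (nat_lit 5) (nat_lit 18) (nat_lit 5) (nat_lit 19) (nat_lit 4) (nat_lit 394) (nat_lit 272) (nat_lit 114)) (XT.lf (nat_lit 0) (nat_lit 47486509881) (nat_lit 76) (nat_lit 5650255147) (nat_lit 152) (nat_lit 17407482495) (nat_lit 17) (nat_lit 5)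 (nat_lit 18) (nat_lit 5) (nat_lit 19) (nat_lit 4) (nat_lit 395) (nat_lit 272) (nat_lit 113))) (XT.nd (nat_lit 78) (nat_lit 76) (nat_lit 0) (XT.lf (nat_lit 0) (nat_lit 62638751910) (nat_lit 152) (nat_lit 5728326048) (nat_lit 0) (nat_lit 4000627617) (nat_lit 17) (nat_lit 5) (nat_lit 19) (nat_lit 4) (nat_lit 17) (nat_lit 4) (nat_lit 396) (nat_lit 272) (nat_lit 112)) (XT.lf (nat_lit 0) (nat_lit 12295743083) (nat_lit 76) (nat_lit 60299196833) (nat_lit 76) (nat_lit 1645854429) (nat_lit 16) (nat_lit 4) (nat_lit 17) (nat_lit 5) (nat_lit 17) (nat_lit 4) (nat_lit 397) (nat_lit 272) (nat_lit 111))))) (XT.nd (nat_lit 234) (nat_lit 76) (nat_lit 0) (XT.nd (nat_lit 78) (nat_lit 0) (nat_lit 0) (XT.lf (nat_lit 0) (nat_lit 6602821547) (nat_lit 152) (nat_lit 45264389526) (nat_lit 76) (nat_lit 24299336684) (nat_lit 15) (nat_lit 5) (nat_lit 17) (nat_lit 5) (nat_lit 16) (nat_lit 4) (nat_lit 398) (nat_lit 272) (nat_lit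 110)) (XT.nd (nat_lit 78) (nat_lit 0) (nat_lit 0) (XT.lf (nat_lit 0) (nat_lit 15061034969) (nat_lit 152) (nat_lit 28108560809) (nat_lit 76) (nat_lit 34980135531) (nat_lit 15) (nat_lit 5) (nat_lit 17) (nat_lit 5) (nat_lit 16) (nat_lit 4) (nat_lit 399) (nat_lit 272) (nat_lit 109)) (XT.lf (nat_lit 0) (nat_lit 23768293055) (nat_lit 152) (nat_lit 10446753621) (nat_lit 76) (nat_lit 45977505832) (nat_lit 15) (nat_lit 5) (nat_lit 17) (nat_lit 5) (nat_lit 16) (nat_lit 4) (nat_lit 400) (nat_lit 272) (nat_lit 108)))) (XT.nd (nat_lit 156) (nat_lit 0) (nat_lit 0) (XT.nd (nat_lit 78) (nat_lit 0) (nat_lit 0) (XT.lf (nat_lit 0) (nat_lit 7890435500) (nat_lit 76) (nat_lit 24917616282) (nat_lit 152) (nat_lit 49486469132) (nat_lit 14) (nat_lit 5) (nat_lit 15) (nat_lit 5) (nat_lit 16) (nat_lit 4) (nat_lit 401) (nat_lit 272) (nat_lit 107)) (XT.lf (nat_lit 0) (nat_lit 26983528181) (nat_lit 76) (nat_lit 15236454614) (nat_lit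 152) (nat_lit 42236537216) (nat_lit 14) (nat_lit 5) (nat_lit 15) (nat_lit 5) (nat_lit 16) (nat_lit 4) (nat_lit 402) (nat_lit 272) (nat_lit 106))) (XT.nd (nat_lit 78) (nat_lit 0) (nat_lit 0) (XT.lf (nat_lit 0) (nat_lit 46641296824) (nat_lit 76) (nat_lit 5268594134) (nat_lit 152) (nat_lit 34773620543) (nat_lit 14) (nat_lit 5) (nat_lit 15) (nat_lit 5) (nat_lit 16) (nat_lit 4) (nat_lit 403) (nat_lit 272) (nat_lit 105)) (XT.lf (nat_lit 0) (nat_lit 61934255053) (nat_lit 152) (nat_lit 22144535050) (nat_lit 0) (nat_lit 4897210840) (nat_lit 14) (nat_lit 5) (nat_lit 16) (nat_lit 4) (nat_lit 14) (nat_lit 4) (nat_lit 404) (nat_lit 272) (nat_lit 104))))))) (XT.nd (nat_lit 30888) (nat_lit 0) (nat_lit 14212) (XT.nd (nat_lit 30342) (nat_lit 0) (nat_lit 19152) (XT.nd (nat_lit 234) (nat_lit 152) (nat_lit 0) (XT.nd (nat_lit 78) (nat_lit 76) (nat_lit 0) (XT.lf (nat_lit 0) (nat_lit 72307351212) (nat_lit 152) (nat_lit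 3769831178) (nat_lit 0) (nat_lit 15258643584) (nat_lit 14) (nat_lit 5) (nat_lit 16) (nat_lit 4) (nat_lit 14) (nat_lit 4) (nat_lit 405) (nat_lit 272) (nat_lit 103)) (XT.nd (nat_lit 78) (nat_lit 0) (nat_lit 0) (XT.lf (nat_lit 0) (nat_lit 15450084247) (nat_lit 76) (nat_lit 67686029768) (nat_lit 76) (nat_lit 10625998436) (nat_lit 13) (nat_lit 4) (nat_lit 14) (nat_lit 5) (nat_lit 14) (nat_lit 4) (nat_lit 406) (nat_lit 272) (nat_lit 102)) (XT.lf (nat_lit 0) (nat_lit 35316432314) (nat_lit 76) (nat_lit 59007379575) (nat_lit 76) (nat_lit 1936354356) (nat_lit 13) (nat_lit 4) (nat_lit 14) (nat_lit 5) (nat_lit 14) (nat_lit 4) (nat_lit 407) (nat_lit 272) (nat_lit 101)))) (XT.nd (nat_lit 156) (nat_lit 76) (nat_lit 0) (XT.nd (nat_lit 78) (nat_lit 0) (nat_lit 0) (XT.lf (nat_lit 0) (nat_lit 6873192461) (nat_lit 152) (nat_lit 43129118198) (nat_lit 76) (nat_lit 48828946705) (nat_lit 12) (nat_lit 5) (nat_lit 14) (nat_lit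 5) (nat_lit 13) (nat_lit 4) (nat_lit 408) (nat_lit 272) (nat_lit 100)) (XT.lf (nat_lit 0) (nat_lit 15904302422) (nat_lit 152) (nat_lit 24806327771) (nat_lit 76) (nat_lit 60768390813) (nat_lit 12) (nat_lit 5) (nat_lit 14) (nat_lit 5) (nat_lit 13) (nat_lit 4) (nat_lit 409) (nat_lit 272) (nat_lit 99))) (XT.nd (nat_lit 78) (nat_lit 76) (nat_lit 0) (XT.lf (nat_lit 0) (nat_lit 25202652034) (nat_lit 152) (nat_lit 5940739021) (nat_lit 76) (nat_lit 73062938097) (nat_lit 12) (nat_lit 5) (nat_lit 14) (nat_lit 5) (nat_lit 13) (nat_lit 4) (nat_lit 410) (nat_lit 272) (nat_lit 98)) (XT.lf (nat_lit 0) (nat_lit 13752493222) (nat_lit 76) (nat_lit 21156070226) (nat_lit 152) (nat_lit 72103035519) (nat_lit 11) (nat_lit 5) (nat_lit 12) (nat_lit 5) (nat_lit 13) (nat_lit 4) (nat_lit 411) (nat_lit 272) (nat_lit 97))))) (XT.nd (nat_lit 234) (nat_lit 684) (nat_lit 0) (XT.nd (nat_lit 78) (nat_lit 836) (nat_lit 0) (XT.lf (nat_lit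 0) (nat_lit 1583902196) (nat_lit 0) (nat_lit 1583902196) (nat_lit 684) (nat_lit 418637804) (nat_lit 283) (nat_lit 5) (nat_lit 283) (nat_lit 3) (nat_lit 292) (nat_lit 3) (nat_lit 273) (nat_lit 273) (nat_lit 234)) (XT.nd (nat_lit 78) (nat_lit 0) (nat_lit 76) (XT.lf (nat_lit 0) (nat_lit 766510509) (nat_lit 836) (nat_lit 660106893) (nat_lit 836) (nat_lit 5804024548) (nat_lit 272) (nat_lit 3) (nat_lit 283) (nat_lit 3) (nat_lit 283) (nat_lit 5) (nat_lit 274) (nat_lit 273) (nat_lit 233)) (XT.lf (nat_lit 0) (nat_lit 2370221840) (nat_lit 760) (nat_lit 4495839211) (nat_lit 836) (nat_lit 424844770) (nat_lit 273) (nat_lit 5) (nat_lit 283) (nat_lit 5) (nat_lit 284) (nat_lit 5) (nat_lit 275) (nat_lit 273) (nat_lit 232)))) (XT.nd (nat_lit 156) (nat_lit 760) (nat_lit 0) (XT.nd (nat_lit 78) (nat_lit 0) (nat_lit 0) (XT.lf (nat_lit 0) (nat_lit 3982258204) (nat_lit 760) (nat_lit 1033606397) (nat_lit 836) (nat_lit 2338385709)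 (nat_lit 273) (nat_lit 5) (nat_lit 283) (nat_lit 5) (nat_lit 284) (nat_lit 5) (nat_lit 276) (nat_lit 273) (nat_lit 231)) (XT.lf (nat_lit 76) (nat_lit 2549164247) (nat_lit 0) (nat_lit 3059118823) (nat_lit 836) (nat_lit 1812320050) (nat_lit 274) (nat_lit 5) (nat_lit 273) (nat_lit 5) (nat_lit 284) (nat_lit 5) (nat_lit 277) (nat_lit 273) (nat_lit 230))) (XT.nd (nat_lit 78) (nat_lit 760) (nat_lit 0) (XT.lf (nat_lit 76) (nat_lit 6227857641) (nat_lit 0) (nat_lit 1008191783) (nat_lit 836) (nat_lit 254382837) (nat_lit 274) (nat_lit 5) (nat_lit 273) (nat_lit 5) (nat_lit 284) (nat_lit 5) (nat_lit 278) (nat_lit 273) (nat_lit 229)) (XT.lf (nat_lit 0) (nat_lit 1302333430) (nat_lit 836) (nat_lit 5117700407) (nat_lit 912) (nat_lit 1142651637) (nat_lit 263) (nat_lit 5) (nat_lit 274) (nat_lit 5) (nat_lit 275) (nat_lit 5) (nat_lit 279) (nat_lit 273) (nat_lit 228)))))) (XT.nd (nat_lit 546) (nat_lit 4104) (nat_lit 0)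 (XT.nd (nat_lit 234) (nat_lit 836) (nat_lit 0) (XT.nd (nat_lit 78) (nat_lit 0) (nat_lit 0) (XT.lf (nat_lit 0) (nat_lit 2868615257) (nat_lit 836) (nat_lit 1394298776) (nat_lit 912) (nat_lit 3375145626) (nat_lit 263) (nat_lit 5) (nat_lit 274) (nat_lit 5) (nat_lit 275) (nat_lit 5) (nat_lit 280) (nat_lit 273) (nat_lit 227)) (XT.nd (nat_lit 78) (nat_lit 0) (nat_lit 76) (XT.lf (nat_lit 76) (nat_lit 2455119833) (nat_lit 0) (nat_lit 1997083348) (nat_lit 912) (nat_lit 3264448615) (nat_lit 264) (nat_lit 5) (nat_lit 263) (nat_lit 5) (nat_lit 275) (nat_lit 5) (nat_lit 281) (nat_lit 273) (nat_lit 226)) (XT.lf (nat_lit 0) (nat_lit 6048884890) (nat_lit 836) (nat_lit 1387023104) (nat_lit 912) (nat_lit 362790444) (nat_lit 264) (nat_lit 5) (nat_lit 275) (nat_lit 5) (nat_lit 276) (nat_lit 5) (nat_lit 282) (nat_lit 273) (nat_lit 225)))) (XT.nd (nat_lit 156) (nat_lit 0) (nat_lit 0) (XT.nd (nat_lit 78) (nat_lit 912)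 (nat_lit 0) (XT.lf (nat_lit 76) (nat_lit 2600647001) (nat_lit 0) (nat_lit 5087233207) (nat_lit 912) (nat_lit 195556328) (nat_lit 265) (nat_lit 5) (nat_lit 264) (nat_lit 5) (nat_lit 276) (nat_lit 5) (nat_lit 283) (nat_lit 273) (nat_lit 224)) (XT.lf (nat_lit 0) (nat_lit 1342287457) (nat_lit 912) (nat_lit 1282328666) (nat_lit 988) (nat_lit 5346822801) (nat_lit 252) (nat_lit 5) (nat_lit 264) (nat_lit 5) (nat_lit 265) (nat_lit 5) (nat_lit 284) (nat_lit 273) (nat_lit 223))) (XT.nd (nat_lit 78) (nat_lit 0) (nat_lit 76) (XT.lf (nat_lit 76) (nat_lit 2858232450) (nat_lit 0) (nat_lit 43265087) (nat_lit 988) (nat_lit 5161208067) (nat_lit 253) (nat_lit 5) (nat_lit 252) (nat_lit 5) (nat_lit 265) (nat_lit 5) (nat_lit 285) (nat_lit 273) (nat_lit 222)) (XT.lf (nat_lit 0) (nat_lit 4498608216) (nat_lit 912) (nat_lit 1067321111) (nat_lit 988) (nat_lit 2591102718) (nat_lit 253) (nat_lit 5) (nat_lit 265) (nat_lit 5)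 (nat_lit 266) (nat_lit 5) (nat_lit 286) (nat_lit 273) (nat_lit 221))))) (XT.nd (nat_lit 312) (nat_lit 3268) (nat_lit 0) (XT.nd (nat_lit 156) (nat_lit 912) (nat_lit 0) (XT.nd (nat_lit 78) (nat_lit 0) (nat_lit 0) (XT.lf (nat_lit 76) (nat_lit 3222391843) (nat_lit 0) (nat_lit 2906921078) (nat_lit 988) (nat_lit 2125358807) (nat_lit 254) (nat_lit 5) (nat_lit 253) (nat_lit 5) (nat_lit 266) (nat_lit 5) (nat_lit 287) (nat_lit 273) (nat_lit 220)) (XT.lf (nat_lit 76) (nat_lit 7629002859) (nat_lit 0) (nat_lit 145998565) (nat_lit 988) (nat_lit 581309602) (nat_lit 254) (nat_lit 5) (nat_lit 253) (nat_lit 5) (nat_lit 266) (nat_lit 5) (nat_lit 288) (nat_lit 273) (nat_lit 219))) (XT.nd (nat_lit 78) (nat_lit 0) (nat_lit 0) (XT.lf (nat_lit 0) (nat_lit 1007877769) (nat_lit 988) (nat_lit 4751070639) (nat_lit 76) (nat_lit 2701254191) (nat_lit 241) (nat_lit 5) (nat_lit 254) (nat_lit 5) (nat_lit 242) (nat_lit 5) (nat_lit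 289) (nat_lit 273) (nat_lit 218)) (XT.lf (nat_lit 0) (nat_lit 2599078438) (nat_lit 988) (nat_lit 315403521) (nat_lit 76) (nat_lit 5653623514) (nat_lit 241) (nat_lit 5) (nat_lit 254) (nat_lit 5) (nat_lit 242) (nat_lit 5) (nat_lit 290) (nat_lit 273) (nat_lit 217)))) (XT.nd (nat_lit 156) (nat_lit 1216) (nat_lit 0) (XT.nd (nat_lit 78) (nat_lit 1064) (nat_lit 0) (XT.lf (nat_lit 0) (nat_lit 4238423347) (nat_lit 1064) (nat_lit 4376321265) (nat_lit 76) (nat_lit 64535047) (nat_lit 228) (nat_lit 5) (nat_lit 242) (nat_lit 5) (nat_lit 229) (nat_lit 5) (nat_lit 291) (nat_lit 273) (nat_lit 216)) (XT.lf (nat_lit 0) (nat_lit 213207036) (nat_lit 1064) (nat_lit 5707231516) (nat_lit 1140) (nat_lit 2873590935) (nat_lit 214) (nat_lit 5) (nat_lit 228) (nat_lit 5) (nat_lit 229) (nat_lit 5) (nat_lit 292) (nat_lit 273) (nat_lit 215))) (XT.nd (nat_lit 78) (nat_lit 1216) (nat_lit 0) (XT.lf (nat_lit 0) (nat_lit 4995763043)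 (nat_lit 1064) (nat_lit 2661564252) (nat_lit 1140) (nat_lit 1254805926) (nat_lit 214) (nat_lit 5) (nat_lit 228) (nat_lit 5) (nat_lit 229) (nat_lit 5) (nat_lit 293) (nat_lit 273) (nat_lit 214)) (XT.lf (nat_lit 0) (nat_lit 378518802) (nat_lit 1216) (nat_lit 8172584522) (nat_lit 76) (nat_lit 483378272) (nat_lit 198) (nat_lit 5) (nat_lit 214) (nat_lit 5) (nat_lit 199) (nat_lit 5) (nat_lit 294) (nat_lit 273) (nat_lit 213))))))))
noncomputable def xc136 : XT := (XT.nd (nat_lit 2184) (nat_lit 3724) (nat_lit 0) (XT.nd (nat_lit 1092) (nat_lit 3344) (nat_lit 0) (XT.nd (nat_lit 546) (nat_lit 2128) (nat_lit 0) (XT.nd (nat_lit 234) (nat_lit 1216) (nat_lit 0) (XT.nd (nat_lit 78) (nat_lit 760) (nat_lit 0) (XT.lf (nat_lit 0) (nat_lit 2063723567) (nat_lit 1216) (nat_lit 3369767211) (nat_lit 76) (nat_lit 3725833995) (nat_lit 198) (nat_lit 5) (nat_lit 214) (nat_lit 5) (nat_lit 199) (nat_lit 5) (nat_lit 295) (nat_lit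 273) (nat_lit 212)) (XT.nd (nat_lit 78) (nat_lit 0) (nat_lit 0) (XT.lf (nat_lit 0) (nat_lit 1573786801) (nat_lit 760) (nat_lit 2203747537) (nat_lit 836) (nat_lit 5511076331) (nat_lit 188) (nat_lit 5) (nat_lit 198) (nat_lit 5) (nat_lit 199) (nat_lit 5) (nat_lit 296) (nat_lit 273) (nat_lit 211)) (XT.lf (nat_lit 0) (nat_lit 5551620684) (nat_lit 836) (nat_lit 2732037344) (nat_lit 76) (nat_lit 1137889060) (nat_lit 188) (nat_lit 5) (nat_lit 199) (nat_lit 5) (nat_lit 189) (nat_lit 5) (nat_lit 297) (nat_lit 273) (nat_lit 210)))) (XT.nd (nat_lit 156) (nat_lit 608) (nat_lit 0) (XT.nd (nat_lit 78) (nat_lit 0) (nat_lit 0) (XT.lf (nat_lit 0) (nat_lit 2391213910) (nat_lit 608) (nat_lit 4997280427) (nat_lit 684) (nat_lit 2169727007) (nat_lit 180) (nat_lit 5) (nat_lit 188) (nat_lit 5) (nat_lit 189) (nat_lit 5) (nat_lit 298) (nat_lit 273) (nat_lit 209)) (XT.lf (nat_lit 0) (nat_lit 7690637977) (nat_lit 608) (nat_lit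 1582888185) (nat_lit 684) (nat_lit 425713720) (nat_lit 180) (nat_lit 5) (nat_lit 188) (nat_lit 5) (nat_lit 189) (nat_lit 5) (nat_lit 299) (nat_lit 273) (nat_lit 208))) (XT.nd (nat_lit 78) (nat_lit 0) (nat_lit 0) (XT.lf (nat_lit 0) (nat_lit 1360963348) (nat_lit 608) (nat_lit 6540265789) (nat_lit 76) (nat_lit 1942385481) (nat_lit 172) (nat_lit 5) (nat_lit 180) (nat_lit 5) (nat_lit 173) (nat_lit 5) (nat_lit 300) (nat_lit 273) (nat_lit 207)) (XT.lf (nat_lit 0) (nat_lit 3195617475) (nat_lit 608) (nat_lit 1229934114) (nat_lit 76) (nat_lit 5566587154) (nat_lit 172) (nat_lit 5) (nat_lit 180) (nat_lit 5) (nat_lit 173) (nat_lit 5) (nat_lit 301) (nat_lit 273) (nat_lit 206))))) (XT.nd (nat_lit 234) (nat_lit 1064) (nat_lit 0) (XT.nd (nat_lit 78) (nat_lit 532) (nat_lit 0) (XT.lf (nat_lit 0) (nat_lit 4290452514) (nat_lit 532) (nat_lit 803846069) (nat_lit 608) (nat_lit 5050582033) (nat_lit 165) (nat_lit 5) (nat_lit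 172) (nat_lit 5) (nat_lit 173) (nat_lit 5) (nat_lit 302) (nat_lit 273) (nat_lit 205)) (XT.nd (nat_lit 78) (nat_lit 532) (nat_lit 0) (XT.lf (nat_lit 0) (nat_lit 7058975063) (nat_lit 608) (nat_lit 362046976) (nat_lit 76) (nat_lit 2880942381) (nat_lit 165) (nat_lit 5) (nat_lit 173) (nat_lit 5) (nat_lit 166) (nat_lit 5) (nat_lit 303) (nat_lit 273) (nat_lit 204)) (XT.lf (nat_lit 0) (nat_lit 5359077307) (nat_lit 532) (nat_lit 3752270302) (nat_lit 608) (nat_lit 1351580284) (nat_lit 158) (nat_lit 5) (nat_lit 165) (nat_lit 5) (nat_lit 166) (nat_lit 5) (nat_lit 304) (nat_lit 273) (nat_lit 203)))) (XT.nd (nat_lit 156) (nat_lit 456) (nat_lit 0) (XT.nd (nat_lit 78) (nat_lit 0) (nat_lit 0) (XT.lf (nat_lit 0) (nat_lit 564346411) (nat_lit 608) (nat_lit 10025890004) (nat_lit 76) (nat_lit 38957432) (nat_lit 150) (nat_lit 5) (nat_lit 158) (nat_lit 5) (nat_lit 151) (nat_lit 5) (nat_lit 305) (nat_lit 273) (nat_lit 202))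 (XT.lf (nat_lit 0) (nat_lit 2569872309) (nat_lit 608) (nat_lit 4297181206) (nat_lit 76) (nat_lit 3931241498) (nat_lit 150) (nat_lit 5) (nat_lit 158) (nat_lit 5) (nat_lit 151) (nat_lit 5) (nat_lit 306) (nat_lit 273) (nat_lit 201))) (XT.nd (nat_lit 78) (nat_lit 0) (nat_lit 0) (XT.lf (nat_lit 0) (nat_lit 1602095221) (nat_lit 456) (nat_lit 3019826816) (nat_lit 532) (nat_lit 6350982937) (nat_lit 144) (nat_lit 5) (nat_lit 150) (nat_lit 5) (nat_lit 151) (nat_lit 5) (nat_lit 307) (nat_lit 273) (nat_lit 200)) (XT.lf (nat_lit 0) (nat_lit 6759876807) (nat_lit 532) (nat_lit 3427588220) (nat_lit 76) (nat_lit 964583630) (nat_lit 144) (nat_lit 5) (nat_lit 151) (nat_lit 5) (nat_lit 145) (nat_lit 5) (nat_lit 308) (nat_lit 273) (nat_lit 199)))))) (XT.nd (nat_lit 546) (nat_lit 1596) (nat_lit 0) (XT.nd (nat_lit 234) (nat_lit 836) (nat_lit 0) (XT.nd (nat_lit 78) (nat_lit 456) (nat_lit 0) (XT.lf (nat_lit 0) (nat_lit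 2684292295) (nat_lit 456) (nat_lit 6305669462) (nat_lit 532) (nat_lit 2345790127) (nat_lit 138) (nat_lit 5) (nat_lit 144) (nat_lit 5) (nat_lit 145) (nat_lit 5) (nat_lit 309) (nat_lit 273) (nat_lit 198)) (XT.nd (nat_lit 78) (nat_lit 456) (nat_lit 0) (XT.lf (nat_lit 0) (nat_lit 9017987714) (nat_lit 456) (nat_lit 2276364060) (nat_lit 532) (nat_lit 230416612) (nat_lit 138) (nat_lit 5) (nat_lit 144) (nat_lit 5) (nat_lit 145) (nat_lit 5) (nat_lit 310) (nat_lit 273) (nat_lit 197)) (XT.lf (nat_lit 0) (nat_lit 1939195500) (nat_lit 456) (nat_lit 7889977099) (nat_lit 76) (nat_lit 1888879821) (nat_lit 132) (nat_lit 5) (nat_lit 138) (nat_lit 5) (nat_lit 133) (nat_lit 5) (nat_lit 311) (nat_lit 273) (nat_lit 196)))) (XT.nd (nat_lit 156) (nat_lit 380) (nat_lit 0) (XT.nd (nat_lit 78) (nat_lit 456) (nat_lit 0) (XT.lf (nat_lit 0) (nat_lit 4191097180) (nat_lit 456) (nat_lit 1568967553) (nat_lit 76) (nat_lit 6156369024)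 (nat_lit 132) (nat_lit 5) (nat_lit 138) (nat_lit 5) (nat_lit 133) (nat_lit 5) (nat_lit 312) (nat_lit 273) (nat_lit 195)) (XT.lf (nat_lit 0) (nat_lit 5008448561) (nat_lit 456) (nat_lit 1524746664) (nat_lit 532) (nat_lit 5586913679) (nat_lit 126) (nat_lit 5) (nat_lit 132) (nat_lit 5) (nat_lit 133) (nat_lit 5) (nat_lit 313) (nat_lit 273) (nat_lit 194))) (XT.nd (nat_lit 78) (nat_lit 380) (nat_lit 0) (XT.lf (nat_lit 0) (nat_lit 8963723071) (nat_lit 532) (nat_lit 572875376) (nat_lit 76) (nat_lit 2792771772) (nat_lit 126) (nat_lit 5) (nat_lit 133) (nat_lit 5) (nat_lit 127) (nat_lit 5) (nat_lit 314) (nat_lit 273) (nat_lit 193)) (XT.lf (nat_lit 0) (nat_lit 6238249173) (nat_lit 380) (nat_lit 5279600777) (nat_lit 456) (nat_lit 1025559239) (nat_lit 121) (nat_lit 5) (nat_lit 126) (nat_lit 5) (nat_lit 127) (nat_lit 5) (nat_lit 315) (nat_lit 273) (nat_lit 192))))) (XT.nd (nat_lit 234) (nat_lit 760) (nat_lit 0)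 (XT.nd (nat_lit 78) (nat_lit 380) (nat_lit 0) (XT.lf (nat_lit 0) (nat_lit 466835903) (nat_lit 380) (nat_lit 876988452) (nat_lit 456) (nat_lit 11420081368) (nat_lit 115) (nat_lit 5) (nat_lit 120) (nat_lit 5) (nat_lit 121) (nat_lit 5) (nat_lit 316) (nat_lit 273) (nat_lit 191)) (XT.nd (nat_lit 78) (nat_lit 380) (nat_lit 0) (XT.lf (nat_lit 0) (nat_lit 3839271816) (nat_lit 456) (nat_lit 5494839943) (nat_lit 76) (nat_lit 3654351506) (nat_lit 115) (nat_lit 5) (nat_lit 121) (nat_lit 5) (nat_lit 116) (nat_lit 5) (nat_lit 317) (nat_lit 273) (nat_lit 190)) (XT.lf (nat_lit 0) (nat_lit 1501956469) (nat_lit 380) (nat_lit 4907576978) (nat_lit 456) (nat_lit 6810243612) (nat_lit 110) (nat_lit 5) (nat_lit 115) (nat_lit 5) (nat_lit 116) (nat_lit 5) (nat_lit 318) (nat_lit 273) (nat_lit 189)))) (XT.nd (nat_lit 156) (nat_lit 380) (nat_lit 0) (XT.nd (nat_lit 78) (nat_lit 380) (nat_lit 0) (XT.lf (nat_lit 0) (nat_lit 8791465069)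 (nat_lit 380) (nat_lit 298143039) (nat_lit 456) (nat_lit 4367458522) (nat_lit 110) (nat_lit 5) (nat_lit 115) (nat_lit 5) (nat_lit 116) (nat_lit 5) (nat_lit 319) (nat_lit 273) (nat_lit 188)) (XT.lf (nat_lit 0) (nat_lit 2576104625) (nat_lit 380) (nat_lit 9319331347) (nat_lit 456) (nat_lit 1804695399) (nat_lit 105) (nat_lit 5) (nat_lit 110) (nat_lit 5) (nat_lit 111) (nat_lit 5) (nat_lit 320) (nat_lit 273) (nat_lit 187))) (XT.nd (nat_lit 78) (nat_lit 304) (nat_lit 0) (XT.lf (nat_lit 0) (nat_lit 847137767) (nat_lit 456) (nat_lit 3859558239) (nat_lit 76) (nat_lit 9242712898) (nat_lit 104) (nat_lit 5) (nat_lit 110) (nat_lit 5) (nat_lit 105) (nat_lit 5) (nat_lit 321) (nat_lit 273) (nat_lit 186)) (XT.lf (nat_lit 0) (nat_lit 3556781962) (nat_lit 380) (nat_lit 10558840744) (nat_lit 76) (nat_lit 89585717) (nat_lit 100) (nat_lit 5) (nat_lit 105) (nat_lit 5) (nat_lit 101) (nat_lit 5) (nat_lit 322) (nat_lit 273)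 (nat_lit 185))))))) (XT.nd (nat_lit 1092) (nat_lit 1672) (nat_lit 0) (XT.nd (nat_lit 546) (nat_lit 1064) (nat_lit 0) (XT.nd (nat_lit 234) (nat_lit 684) (nat_lit 0) (XT.nd (nat_lit 78) (nat_lit 304) (nat_lit 0) (XT.lf (nat_lit 0) (nat_lit 6412543141) (nat_lit 380) (nat_lit 3087077607) (nat_lit 76) (nat_lit 4967131463) (nat_lit 100) (nat_lit 5) (nat_lit 105) (nat_lit 5) (nat_lit 101) (nat_lit 5) (nat_lit 323) (nat_lit 273) (nat_lit 184)) (XT.nd (nat_lit 78) (nat_lit 0) (nat_lit 0) (XT.lf (nat_lit 0) (nat_lit 4671682688) (nat_lit 304) (nat_lit 4706683924) (nat_lit 380) (nat_lit 5357058690) (nat_lit 96) (nat_lit 5) (nat_lit 100) (nat_lit 5) (nat_lit 101) (nat_lit 5) (nat_lit 324) (nat_lit 273) (nat_lit 183)) (XT.lf (nat_lit 0) (nat_lit 12446593158) (nat_lit 380) (nat_lit 2315839414) (nat_lit 76) (nat_lit 249337410) (nat_lit 96) (nat_lit 5) (nat_lit 101) (nat_lit 5) (nat_lit 97) (nat_lit 5) (nat_lit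 325) (nat_lit 273) (nat_lit 182)))) (XT.nd (nat_lit 156) (nat_lit 304) (nat_lit 0) (XT.nd (nat_lit 78) (nat_lit 0) (nat_lit 0) (XT.lf (nat_lit 0) (nat_lit 386930383) (nat_lit 380) (nat_lit 9596356758) (nat_lit 76) (nat_lit 5310565945) (nat_lit 91) (nat_lit 5) (nat_lit 96) (nat_lit 5) (nat_lit 92) (nat_lit 5) (nat_lit 326) (nat_lit 273) (nat_lit 181)) (XT.lf (nat_lit 0) (nat_lit 3380089503) (nat_lit 380) (nat_lit 1638503732) (nat_lit 76) (nat_lit 10564935165) (nat_lit 91) (nat_lit 5) (nat_lit 96) (nat_lit 5) (nat_lit 92) (nat_lit 5) (nat_lit 327) (nat_lit 273) (nat_lit 180))) (XT.nd (nat_lit 78) (nat_lit 0) (nat_lit 0) (XT.lf (nat_lit 0) (nat_lit 6509542201) (nat_lit 380) (nat_lit 9221030635) (nat_lit 76) (nat_lit 149938830) (nat_lit 87) (nat_lit 5) (nat_lit 92) (nat_lit 5) (nat_lit 88) (nat_lit 5) (nat_lit 328) (nat_lit 273) (nat_lit 179)) (XT.lf (nat_lit 0) (nat_lit 9780494175) (nat_lit 380) (nat_lit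 1023067825) (nat_lit 76) (nat_lit 5381426247) (nat_lit 87) (nat_lit 5) (nat_lit 92) (nat_lit 5) (nat_lit 88) (nat_lit 5) (nat_lit 329) (nat_lit 273) (nat_lit 178))))) (XT.nd (nat_lit 234) (nat_lit 456) (nat_lit 0) (XT.nd (nat_lit 78) (nat_lit 380) (nat_lit 0) (XT.lf (nat_lit 0) (nat_lit 7541490696) (nat_lit 228) (nat_lit 5662341666) (nat_lit 304) (nat_lit 3293150966) (nat_lit 84) (nat_lit 5) (nat_lit 87) (nat_lit 5) (nat_lit 88) (nat_lit 5) (nat_lit 330) (nat_lit 273) (nat_lit 177)) (XT.nd (nat_lit 78) (nat_lit 380) (nat_lit 0) (XT.lf (nat_lit 0) (nat_lit 16357712895) (nat_lit 228) (nat_lit 364531868) (nat_lit 304) (nat_lit 96333859) (nat_lit 84) (nat_lit 5) (nat_lit 87) (nat_lit 5) (nat_lit 88) (nat_lit 5) (nat_lit 331) (nat_lit 273) (nat_lit 176)) (XT.lf (nat_lit 0) (nat_lit 3247077072) (nat_lit 380) (nat_lit 8801126110) (nat_lit 76) (nat_lit 5097315871) (nat_lit 79) (nat_lit 5) (nat_lit 84) (nat_lit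 5) (nat_lit 80) (nat_lit 5) (nat_lit 332) (nat_lit 273) (nat_lit 175)))) (XT.nd (nat_lit 156) (nat_lit 228) (nat_lit 0) (XT.nd (nat_lit 78) (nat_lit 228) (nat_lit 0) (XT.lf (nat_lit 0) (nat_lit 6679733692) (nat_lit 380) (nat_lit 89521174) (nat_lit 76) (nat_lit 10713268431) (nat_lit 79) (nat_lit 5) (nat_lit 84) (nat_lit 5) (nat_lit 80) (nat_lit 5) (nat_lit 333) (nat_lit 273) (nat_lit 174)) (XT.lf (nat_lit 0) (nat_lit 9034444266) (nat_lit 228) (nat_lit 1250848438) (nat_lit 304) (nat_lit 7542257573) (nat_lit 76) (nat_lit 5) (nat_lit 79) (nat_lit 5) (nat_lit 80) (nat_lit 5) (nat_lit 334) (nat_lit 273) (nat_lit 173))) (XT.nd (nat_lit 78) (nat_lit 0) (nat_lit 0) (XT.lf (nat_lit 0) (nat_lit 186617678) (nat_lit 228) (nat_lit 13840971307) (nat_lit 304) (nat_lit 4154491959) (nat_lit 73) (nat_lit 5) (nat_lit 76) (nat_lit 5) (nat_lit 77) (nat_lit 5) (nat_lit 335) (nat_lit 273) (nat_lit 172)) (XT.lf (nat_lit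 0) (nat_lit 9578137660) (nat_lit 228) (nat_lit 8388568244) (nat_lit 304) (nat_lit 578014777) (nat_lit 73) (nat_lit 5) (nat_lit 76) (nat_lit 5) (nat_lit 77) (nat_lit 5) (nat_lit 336) (nat_lit 273) (nat_lit 171)))))) (XT.nd (nat_lit 546) (nat_lit 836) (nat_lit 0) (XT.nd (nat_lit 234) (nat_lit 304) (nat_lit 0) (XT.nd (nat_lit 78) (nat_lit 228) (nat_lit 0) (XT.lf (nat_lit 0) (nat_lit 284040501) (nat_lit 228) (nat_lit 2747650319) (nat_lit 304) (nat_lit 15886066141) (nat_lit 69) (nat_lit 5) (nat_lit 72) (nat_lit 5) (nat_lit 73) (nat_lit 5) (nat_lit 337) (nat_lit 273) (nat_lit 170)) (XT.nd (nat_lit 78) (nat_lit 228) (nat_lit 0) (XT.lf (nat_lit 0) (nat_lit 6842910920) (nat_lit 304) (nat_lit 9364309959) (nat_lit 76) (nat_lit 3091455416) (nat_lit 69) (nat_lit 5) (nat_lit 73) (nat_lit 5) (nat_lit 70) (nat_lit 5) (nat_lit 338) (nat_lit 273) (nat_lit 169)) (XT.lf (nat_lit 0) (nat_lit 134350418) (nat_lit 228)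 (nat_lit 10647041168) (nat_lit 304) (nat_lit 8909252521) (nat_lit 66) (nat_lit 5) (nat_lit 69) (nat_lit 5) (nat_lit 70) (nat_lit 5) (nat_lit 339) (nat_lit 273) (nat_lit 168)))) (XT.nd (nat_lit 156) (nat_lit 304) (nat_lit 0) (XT.nd (nat_lit 78) (nat_lit 0) (nat_lit 0) (XT.lf (nat_lit 0) (nat_lit 10085921961) (nat_lit 228) (nat_lit 4831316704) (nat_lit 304) (nat_lit 5174764299) (nat_lit 66) (nat_lit 5) (nat_lit 69) (nat_lit 5) (nat_lit 70) (nat_lit 5) (nat_lit 340) (nat_lit 273) (nat_lit 167)) (XT.lf (nat_lit 0) (nat_lit 19173318092) (nat_lit 304) (nat_lit 204184737) (nat_lit 76) (nat_lit 1128023172) (nat_lit 66) (nat_lit 5) (nat_lit 70) (nat_lit 5) (nat_lit 67) (nat_lit 5) (nat_lit 341) (nat_lit 273) (nat_lit 166))) (XT.nd (nat_lit 78) (nat_lit 0) (nat_lit 0) (XT.lf (nat_lit 0) (nat_lit 2705236945) (nat_lit 304) (nat_lit 10937700967) (nat_lit 76) (nat_lit 7283841886) (nat_lit 62) (nat_lit 5) (nat_lit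 66) (nat_lit 5) (nat_lit 63) (nat_lit 5) (nat_lit 342) (nat_lit 273) (nat_lit 165)) (XT.lf (nat_lit 0) (nat_lit 6824620163) (nat_lit 304) (nat_lit 904557615) (nat_lit 76) (nat_lit 13631477430) (nat_lit 62) (nat_lit 5) (nat_lit 66) (nat_lit 5) (nat_lit 63) (nat_lit 5) (nat_lit 343) (nat_lit 273) (nat_lit 164))))) (XT.nd (nat_lit 312) (nat_lit 380) (nat_lit 0) (XT.nd (nat_lit 156) (nat_lit 228) (nat_lit 0) (XT.nd (nat_lit 78) (nat_lit 0) (nat_lit 0) (XT.lf (nat_lit 0) (nat_lit 9594409720) (nat_lit 228) (nat_lit 1551333362) (nat_lit 304) (nat_lit 10659466268) (nat_lit 59) (nat_lit 5) (nat_lit 62) (nat_lit 5) (nat_lit 63) (nat_lit 5) (nat_lit 344) (nat_lit 273) (nat_lit 163)) (XT.lf (nat_lit 0) (nat_lit 15638026531) (nat_lit 304) (nat_lit 1904798002) (nat_lit 76) (nat_lit 4719036788) (nat_lit 59) (nat_lit 5) (nat_lit 63) (nat_lit 5) (nat_lit 60) (nat_lit 5) (nat_lit 345) (nat_lit 273) (nat_lit 162)))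 (XT.nd (nat_lit 78) (nat_lit 76) (nat_lit 0) (XT.lf (nat_lit 0) (nat_lit 8845777026) (nat_lit 152) (nat_lit 11506146324) (nat_lit 228) (nat_lit 2377690958) (nat_lit 57) (nat_lit 5) (nat_lit 59) (nat_lit 5) (nat_lit 60) (nat_lit 5) (nat_lit 346) (nat_lit 273) (nat_lit 161)) (XT.lf (nat_lit 0) (nat_lit 1962818216) (nat_lit 228) (nat_lit 3294203323) (nat_lit 76) (nat_lit 17953631392) (nat_lit 56) (nat_lit 5) (nat_lit 59) (nat_lit 5) (nat_lit 57) (nat_lit 5) (nat_lit 347) (nat_lit 273) (nat_lit 160)))) (XT.nd (nat_lit 156) (nat_lit 152) (nat_lit 0) (XT.nd (nat_lit 78) (nat_lit 0) (nat_lit 0) (XT.lf (nat_lit 0) (nat_lit 6459075334) (nat_lit 304) (nat_lit 15996897887) (nat_lit 76) (nat_lit 1247249817) (nat_lit 53) (nat_lit 5) (nat_lit 57) (nat_lit 5) (nat_lit 54) (nat_lit 5) (nat_lit 348) (nat_lit 273) (nat_lit 159)) (XT.lf (nat_lit 0) (nat_lit 11162860026) (nat_lit 304) (nat_lit 5178942968) (nat_lit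 76) (nat_lit 7866594103) (nat_lit 53) (nat_lit 5) (nat_lit 57) (nat_lit 5) (nat_lit 54) (nat_lit 5) (nat_lit 349) (nat_lit 273) (nat_lit 158))) (XT.nd (nat_lit 78) (nat_lit 0) (nat_lit 0) (XT.lf (nat_lit 0) (nat_lit 6061057630) (nat_lit 152) (nat_lit 9992337776) (nat_lit 228) (nat_lit 8673967727) (nat_lit 51) (nat_lit 5) (nat_lit 53) (nat_lit 5) (nat_lit 54) (nat_lit 5) (nat_lit 350) (nat_lit 273) (nat_lit 157)) (XT.lf (nat_lit 0) (nat_lit 17723859056) (nat_lit 152) (nat_lit 3406629589) (nat_lit 228) (nat_lit 4130219951) (nat_lit 51) (nat_lit 5) (nat_lit 53) (nat_lit 5) (nat_lit 54) (nat_lit 5) (nat_lit 351) (nat_lit 273) (nat_lit 156))))))))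
noncomputable def xc137 : XT := (XT.nd (nat_lit 2184) (nat_lit 912) (nat_lit 0) (XT.nd (nat_lit 1092) (nat_lit 760) (nat_lit 0) (XT.nd (nat_lit 546) (nat_lit 532) (nat_lit 0) (XT.nd (nat_lit 234) (nat_lit 228) (nat_lit 0) (XT.nd (nat_lit 78) (nat_lit 152) (nat_lit 0) (XT.lf (nat_lit 0) (nat_lit 597950745) (nat_lit 304) (nat_lit 21863302945) (nat_lit 76) (nat_lit 3346882344) (nat_lit 47) (nat_lit 5) (nat_lit 51) (nat_lit 5) (nat_lit 48) (nat_lit 5) (nat_lit 352) (nat_lit 273) (nat_lit 155)) (XT.nd (nat_lit 78) (nat_lit 152) (nat_lit 0) (XT.lf (nat_lit 0) (nat_lit 5483412386) (nat_lit 304) (nat_lit 10539918901) (nat_lit 76) (nat_lit 10344479650) (nat_lit 47) (nat_lit 5) (nat_lit 51) (nat_lit 5) (nat_lit 48) (nat_lit 5) (nat_lit 353) (nat_lit 273) (nat_lit 154)) (XT.lf (nat_lit 0) (nat_lit 1125414705) (nat_lit 152) (nat_lit 9389063880) (nat_lit 228) (nat_lit 16429831344) (nat_lit 45) (nat_lit 5) (nat_lit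 47) (nat_lit 5) (nat_lit 48) (nat_lit 5) (nat_lit 354) (nat_lit 273) (nat_lit 153)))) (XT.nd (nat_lit 156) (nat_lit 228) (nat_lit 0) (XT.nd (nat_lit 78) (nat_lit 0) (nat_lit 0) (XT.lf (nat_lit 0) (nat_lit 13337246735) (nat_lit 152) (nat_lit 2454040483) (nat_lit 228) (nat_lit 11743977276) (nat_lit 45) (nat_lit 5) (nat_lit 47) (nat_lit 5) (nat_lit 48) (nat_lit 5) (nat_lit 355) (nat_lit 273) (nat_lit 152)) (XT.lf (nat_lit 0) (nat_lit 21260116704) (nat_lit 228) (nat_lit 2292808462) (nat_lit 76) (nat_lit 4590015802) (nat_lit 45) (nat_lit 5) (nat_lit 48) (nat_lit 5) (nat_lit 46) (nat_lit 5) (nat_lit 356) (nat_lit 273) (nat_lit 151))) (XT.nd (nat_lit 78) (nat_lit 76) (nat_lit 0) (XT.lf (nat_lit 0) (nat_lit 10124157656) (nat_lit 152) (nat_lit 16879443975) (nat_lit 228) (nat_lit 1761933024) (nat_lit 43) (nat_lit 5) (nat_lit 45) (nat_lit 5) (nat_lit 46) (nat_lit 5) (nat_lit 357) (nat_lit 273) (nat_lit 150))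 (XT.lf (nat_lit 0) (nat_lit 3456428781) (nat_lit 228) (nat_lit 6498173884) (nat_lit 76) (nat_lit 19450823290) (nat_lit 42) (nat_lit 5) (nat_lit 45) (nat_lit 5) (nat_lit 43) (nat_lit 5) (nat_lit 358) (nat_lit 273) (nat_lit 149))))) (XT.nd (nat_lit 234) (nat_lit 228) (nat_lit 0) (XT.nd (nat_lit 78) (nat_lit 152) (nat_lit 0) (XT.lf (nat_lit 0) (nat_lit 6092612906) (nat_lit 152) (nat_lit 2751206498) (nat_lit 228) (nat_lit 21218738750) (nat_lit 40) (nat_lit 5) (nat_lit 42) (nat_lit 5) (nat_lit 43) (nat_lit 5) (nat_lit 359) (nat_lit 273) (nat_lit 148)) (XT.nd (nat_lit 78) (nat_lit 152) (nat_lit 0) (XT.lf (nat_lit 0) (nat_lit 14493366444) (nat_lit 228) (nat_lit 11606857469) (nat_lit 76) (nat_lit 4636168482) (nat_lit 40) (nat_lit 5) (nat_lit 43) (nat_lit 5) (nat_lit 41) (nat_lit 5) (nat_lit 360) (nat_lit 273) (nat_lit 147)) (XT.lf (nat_lit 0) (nat_lit 1103724763) (nat_lit 152) (nat_lit 19236225173) (nat_lit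 228) (nat_lit 11089669224) (nat_lit 38) (nat_lit 5) (nat_lit 40) (nat_lit 5) (nat_lit 41) (nat_lit 5) (nat_lit 361) (nat_lit 273) (nat_lit 146)))) (XT.nd (nat_lit 156) (nat_lit 228) (nat_lit 0) (XT.nd (nat_lit 78) (nat_lit 0) (nat_lit 0) (XT.lf (nat_lit 0) (nat_lit 14416030996) (nat_lit 152) (nat_lit 12052938675) (nat_lit 228) (nat_lit 5671465773) (nat_lit 38) (nat_lit 5) (nat_lit 40) (nat_lit 5) (nat_lit 41) (nat_lit 5) (nat_lit 362) (nat_lit 273) (nat_lit 145)) (XT.lf (nat_lit 0) (nat_lit 28110694120) (nat_lit 152) (nat_lit 4661294265) (nat_lit 228) (nat_lit 100887748) (nat_lit 38) (nat_lit 5) (nat_lit 40) (nat_lit 5) (nat_lit 41) (nat_lit 5) (nat_lit 363) (nat_lit 273) (nat_lit 144))) (XT.nd (nat_lit 78) (nat_lit 0) (nat_lit 0) (XT.lf (nat_lit 0) (nat_lit 5630313640) (nat_lit 228) (nat_lit 24965591659) (nat_lit 76) (nat_lit 3026657748) (nat_lit 35) (nat_lit 5) (nat_lit 38) (nat_lit 5) (nat_lit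 36) (nat_lit 5) (nat_lit 364) (nat_lit 273) (nat_lit 143)) (XT.lf (nat_lit 0) (nat_lit 11616512759) (nat_lit 228) (nat_lit 11881377135) (nat_lit 76) (nat_lit 10894271472) (nat_lit 35) (nat_lit 5) (nat_lit 38) (nat_lit 5) (nat_lit 36) (nat_lit 5) (nat_lit 365) (nat_lit 273) (nat_lit 142)))))) (XT.nd (nat_lit 546) (nat_lit 304) (nat_lit 0) (XT.nd (nat_lit 234) (nat_lit 304) (nat_lit 0) (XT.nd (nat_lit 78) (nat_lit 0) (nat_lit 0) (XT.lf (nat_lit 0) (nat_lit 1610506885) (nat_lit 152) (nat_lit 16177925715) (nat_lit 228) (nat_lit 17396234340) (nat_lit 33) (nat_lit 5) (nat_lit 35) (nat_lit 5) (nat_lit 36) (nat_lit 5) (nat_lit 366) (nat_lit 273) (nat_lit 141)) (XT.nd (nat_lit 78) (nat_lit 0) (nat_lit 0) (XT.lf (nat_lit 0) (nat_lit 15734579925) (nat_lit 152) (nat_lit 8521679526) (nat_lit 228) (nat_lit 11741368997) (nat_lit 33) (nat_lit 5) (nat_lit 35) (nat_lit 5) (nat_lit 36) (nat_lit 5) (nat_lit 367) (nat_lit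 273) (nat_lit 140)) (XT.lf (nat_lit 0) (nat_lit 30266720705) (nat_lit 152) (nat_lit 642440017) (nat_lit 228) (nat_lit 5926090046) (nat_lit 33) (nat_lit 5) (nat_lit 35) (nat_lit 5) (nat_lit 36) (nat_lit 5) (nat_lit 368) (nat_lit 273) (nat_lit 139)))) (XT.nd (nat_lit 156) (nat_lit 152) (nat_lit 0) (XT.nd (nat_lit 78) (nat_lit 0) (nat_lit 0) (XT.lf (nat_lit 0) (nat_lit 199859943) (nat_lit 152) (nat_lit 30098032402) (nat_lit 76) (nat_lit 7395970391) (nat_lit 31) (nat_lit 5) (nat_lit 33) (nat_lit 5) (nat_lit 32) (nat_lit 5) (nat_lit 369) (nat_lit 273) (nat_lit 138)) (XT.lf (nat_lit 0) (nat_lit 6455084829) (nat_lit 152) (nat_lit 16337590846) (nat_lit 76) (nat_lit 15781861903) (nat_lit 31) (nat_lit 5) (nat_lit 33) (nat_lit 5) (nat_lit 32) (nat_lit 5) (nat_lit 370) (nat_lit 273) (nat_lit 137))) (XT.nd (nat_lit 78) (nat_lit 152) (nat_lit 0) (XT.lf (nat_lit 0) (nat_lit 12889479227) (nat_lit 152) (nat_lit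 2179312698) (nat_lit 76) (nat_lit 24413098160) (nat_lit 31) (nat_lit 5) (nat_lit 33) (nat_lit 5) (nat_lit 32) (nat_lit 5) (nat_lit 371) (nat_lit 273) (nat_lit 136)) (XT.lf (nat_lit 0) (nat_lit 12635742195) (nat_lit 152) (nat_lit 6994385712) (nat_lit 228) (nat_lit 20782941310) (nat_lit 29) (nat_lit 5) (nat_lit 31) (nat_lit 5) (nat_lit 32) (nat_lit 5) (nat_lit 372) (nat_lit 273) (nat_lit 135))))) (XT.nd (nat_lit 234) (nat_lit 228) (nat_lit 0) (XT.nd (nat_lit 78) (nat_lit 76) (nat_lit 0) (XT.lf (nat_lit 0) (nat_lit 26599732419) (nat_lit 228) (nat_lit 13459113713) (nat_lit 76) (nat_lit 1312538140) (nat_lit 29) (nat_lit 5) (nat_lit 32) (nat_lit 5) (nat_lit 30) (nat_lit 4) (nat_lit 373) (nat_lit 273) (nat_lit 134)) (XT.nd (nat_lit 78) (nat_lit 0) (nat_lit 0) (XT.lf (nat_lit 0) (nat_lit 1229221467) (nat_lit 76) (nat_lit 32622311161) (nat_lit 152) (nat_lit 8504725489) (nat_lit 28) (nat_lit 5) (nat_lit 29)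 (nat_lit 5) (nat_lit 30) (nat_lit 4) (nat_lit 374) (nat_lit 273) (nat_lit 133)) (XT.lf (nat_lit 0) (nat_lit 16620084439) (nat_lit 76) (nat_lit 24828850315) (nat_lit 152) (nat_lit 1917904477) (nat_lit 28) (nat_lit 5) (nat_lit 29) (nat_lit 5) (nat_lit 30) (nat_lit 4) (nat_lit 375) (nat_lit 273) (nat_lit 132)))) (XT.nd (nat_lit 156) (nat_lit 0) (nat_lit 0) (XT.nd (nat_lit 78) (nat_lit 152) (nat_lit 0) (XT.lf (nat_lit 0) (nat_lit 4763846119) (nat_lit 152) (nat_lit 11995612810) (nat_lit 76) (nat_lit 27647109149) (nat_lit 27) (nat_lit 5) (nat_lit 29) (nat_lit 5) (nat_lit 28) (nat_lit 5) (nat_lit 376) (nat_lit 273) (nat_lit 131)) (XT.lf (nat_lit 0) (nat_lit 3228710724) (nat_lit 152) (nat_lit 8402339795) (nat_lit 228) (nat_lit 33845164397) (nat_lit 25) (nat_lit 5) (nat_lit 27) (nat_lit 5) (nat_lit 28) (nat_lit 5) (nat_lit 377) (nat_lit 273) (nat_lit 130))) (XT.nd (nat_lit 78) (nat_lit 0) (nat_lit 0) (XT.lf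 (nat_lit 0) (nat_lit 18821125494) (nat_lit 228) (nat_lit 27435233820) (nat_lit 76) (nat_lit 318088425) (nat_lit 25) (nat_lit 5) (nat_lit 28) (nat_lit 5) (nat_lit 26) (nat_lit 4) (nat_lit 378) (nat_lit 273) (nat_lit 129)) (XT.lf (nat_lit 0) (nat_lit 26302858881) (nat_lit 228) (nat_lit 12274800645) (nat_lit 76) (nat_lit 9125691484) (nat_lit 25) (nat_lit 5) (nat_lit 28) (nat_lit 5) (nat_lit 26) (nat_lit 4) (nat_lit 379) (nat_lit 273) (nat_lit 128))))))) (XT.nd (nat_lit 1092) (nat_lit 380) (nat_lit 0) (XT.nd (nat_lit 546) (nat_lit 228) (nat_lit 0) (XT.nd (nat_lit 234) (nat_lit 228) (nat_lit 0) (XT.nd (nat_lit 78) (nat_lit 0) (nat_lit 0) (XT.lf (nat_lit 0) (nat_lit 3394040700) (nat_lit 76) (nat_lit 30640604582) (nat_lit 152) (nat_lit 14830710153) (nat_lit 24) (nat_lit 5) (nat_lit 25) (nat_lit 5) (nat_lit 26) (nat_lit 4) (nat_lit 380) (nat_lit 273) (nat_lit 127)) (XT.nd (nat_lit 78) (nat_lit 0) (nat_lit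 0) (XT.lf (nat_lit 0) (nat_lit 19772057755) (nat_lit 76) (nat_lit 22343338695) (nat_lit 152) (nat_lit 7943315233) (nat_lit 24) (nat_lit 5) (nat_lit 25) (nat_lit 5) (nat_lit 26) (nat_lit 4) (nat_lit 381) (nat_lit 273) (nat_lit 126)) (XT.lf (nat_lit 0) (nat_lit 36629268805) (nat_lit 76) (nat_lit 13802563245) (nat_lit 152) (nat_lit 856240677) (nat_lit 24) (nat_lit 5) (nat_lit 25) (nat_lit 5) (nat_lit 26) (nat_lit 4) (nat_lit 382) (nat_lit 273) (nat_lit 125)))) (XT.nd (nat_lit 156) (nat_lit 0) (nat_lit 0) (XT.nd (nat_lit 78) (nat_lit 0) (nat_lit 0) (XT.lf (nat_lit 0) (nat_lit 1391163743) (nat_lit 152) (nat_lit 4933311757) (nat_lit 228) (nat_lit 46227779878) (nat_lit 21) (nat_lit 5) (nat_lit 23) (nat_lit 5) (nat_lit 24) (nat_lit 5) (nat_lit 383) (nat_lit 273) (nat_lit 124)) (XT.lf (nat_lit 0) (nat_lit 13886706431) (nat_lit 228) (nat_lit 35689092913) (nat_lit 76) (nat_lit 4272812549) (nat_lit 21) (nat_lit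 5) (nat_lit 24) (nat_lit 5) (nat_lit 22) (nat_lit 4) (nat_lit 384) (nat_lit 273) (nat_lit 123))) (XT.nd (nat_lit 78) (nat_lit 0) (nat_lit 0) (XT.lf (nat_lit 0) (nat_lit 21718260342) (nat_lit 228) (nat_lit 19813386783) (nat_lit 76) (nat_lit 13650940044) (nat_lit 21) (nat_lit 5) (nat_lit 24) (nat_lit 5) (nat_lit 22) (nat_lit 4) (nat_lit 385) (nat_lit 273) (nat_lit 122)) (XT.lf (nat_lit 0) (nat_lit 29778558327) (nat_lit 228) (nat_lit 3472679260) (nat_lit 76) (nat_lit 23305531889) (nat_lit 21) (nat_lit 5) (nat_lit 24) (nat_lit 5) (nat_lit 22) (nat_lit 4) (nat_lit 386) (nat_lit 273) (nat_lit 121))))) (XT.nd (nat_lit 234) (nat_lit 152) (nat_lit 0) (XT.nd (nat_lit 78) (nat_lit 0) (nat_lit 0) (XT.lf (nat_lit 0) (nat_lit 13612945544) (nat_lit 76) (nat_lit 24592553782) (nat_lit 152) (nat_lit 19762934549) (nat_lit 20) (nat_lit 5) (nat_lit 21) (nat_lit 5) (nat_lit 22) (nat_lit 4) (nat_lit 387) (nat_lit 273)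 (nat_lit 120)) (XT.nd (nat_lit 78) (nat_lit 0) (nat_lit 0) (XT.lf (nat_lit 0) (nat_lit 31271491340) (nat_lit 76) (nat_lit 15642873831) (nat_lit 152) (nat_lit 12507211137) (nat_lit 20) (nat_lit 5) (nat_lit 21) (nat_lit 5) (nat_lit 22) (nat_lit 4) (nat_lit 388) (nat_lit 273) (nat_lit 119)) (XT.lf (nat_lit 0) (nat_lit 49449274797) (nat_lit 76) (nat_lit 6429444876) (nat_lit 152) (nat_lit 5039768212) (nat_lit 20) (nat_lit 5) (nat_lit 21) (nat_lit 5) (nat_lit 22) (nat_lit 4) (nat_lit 389) (nat_lit 273) (nat_lit 118)))) (XT.nd (nat_lit 156) (nat_lit 0) (nat_lit 0) (XT.nd (nat_lit 78) (nat_lit 0) (nat_lit 0) (XT.lf (nat_lit 0) (nat_lit 2680114329) (nat_lit 152) (nat_lit 56698983434) (nat_lit 76) (nat_lit 3078041001) (nat_lit 18) (nat_lit 5) (nat_lit 20) (nat_lit 5) (nat_lit 19) (nat_lit 4) (nat_lit 390) (nat_lit 273) (nat_lit 117)) (XT.lf (nat_lit 0) (nat_lit 10705276340) (nat_lit 152) (nat_lit 40426075772)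 (nat_lit 76) (nat_lit 12903852197) (nat_lit 18) (nat_lit 5) (nat_lit 20) (nat_lit 5) (nat_lit 19) (nat_lit 4) (nat_lit 391) (nat_lit 273) (nat_lit 116))) (XT.nd (nat_lit 78) (nat_lit 0) (nat_lit 0) (XT.lf (nat_lit 0) (nat_lit 18965713805) (nat_lit 152) (nat_lit 23675029678) (nat_lit 76) (nat_lit 23020034098) (nat_lit 18) (nat_lit 5) (nat_lit 20) (nat_lit 5) (nat_lit 19) (nat_lit 4) (nat_lit 392) (nat_lit 273) (nat_lit 115)) (XT.lf (nat_lit 0) (nat_lit 27468644584) (nat_lit 152) (nat_lit 6431208315) (nat_lit 76) (nat_lit 33435426085) (nat_lit 18) (nat_lit 5) (nat_lit 20) (nat_lit 5) (nat_lit 19) (nat_lit 4) (nat_lit 393) (nat_lit 273) (nat_lit 114)))))) (XT.nd (nat_lit 546) (nat_lit 152) (nat_lit 0) (XT.nd (nat_lit 234) (nat_lit 152) (nat_lit 0) (XT.nd (nat_lit 78) (nat_lit 0) (nat_lit 0) (XT.lf (nat_lit 0) (nat_lit 11545754998) (nat_lit 76) (nat_lit 24786728282) (nat_lit 152) (nat_lit 32724358850)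 (nat_lit 17) (nat_lit 5) (nat_lit 18) (nat_lit 5) (nat_lit 19) (nat_lit 4) (nat_lit 394) (nat_lit 273) (nat_lit 113)) (XT.nd (nat_lit 78) (nat_lit 0) (nat_lit 0) (XT.lf (nat_lit 0) (nat_lit 30184481583) (nat_lit 76) (nat_lit 15337593559) (nat_lit 152) (nat_lit 25306183150) (nat_lit 17) (nat_lit 5) (nat_lit 18) (nat_lit 5) (nat_lit 19) (nat_lit 4) (nat_lit 395) (nat_lit 273) (nat_lit 112)) (XT.lf (nat_lit 0) (nat_lit 49373264050) (nat_lit 76) (nat_lit 5609134797) (nat_lit 152) (nat_lit 17670567994) (nat_lit 17) (nat_lit 5) (nat_lit 18) (nat_lit 5) (nat_lit 19) (nat_lit 4) (nat_lit 396) (nat_lit 273) (nat_lit 111)))) (XT.nd (nat_lit 156) (nat_lit 76) (nat_lit 0) (XT.nd (nat_lit 78) (nat_lit 76) (nat_lit 0) (XT.lf (nat_lit 0) (nat_lit 64764084906) (nat_lit 152) (nat_lit 5446057096) (nat_lit 0) (nat_lit 4321149255) (nat_lit 17) (nat_lit 5) (nat_lit 19) (nat_lit 4) (nat_lit 17) (nat_lit 4) (nat_lit 397)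 (nat_lit 273) (nat_lit 110)) (XT.lf (nat_lit 0) (nat_lit 13114281964) (nat_lit 76) (nat_lit 61901829046) (nat_lit 76) (nat_lit 1444548866) (nat_lit 16) (nat_lit 4) (nat_lit 17) (nat_lit 5) (nat_lit 17) (nat_lit 4) (nat_lit 398) (nat_lit 273) (nat_lit 109))) (XT.nd (nat_lit 78) (nat_lit 0) (nat_lit 0) (XT.lf (nat_lit 0) (nat_lit 7039536779) (nat_lit 152) (nat_lit 46180947244) (nat_lit 76) (nat_lit 25223846001) (nat_lit 15) (nat_lit 5) (nat_lit 17) (nat_lit 5) (nat_lit 16) (nat_lit 4) (nat_lit 399) (nat_lit 273) (nat_lit 108)) (XT.lf (nat_lit 0) (nat_lit 15744546198) (nat_lit 152) (nat_lit 28523299218) (nat_lit 76) (nat_lit 36219373789) (nat_lit 15) (nat_lit 5) (nat_lit 17) (nat_lit 5) (nat_lit 16) (nat_lit 4) (nat_lit 400) (nat_lit 273) (nat_lit 107))))) (XT.nd (nat_lit 312) (nat_lit 76) (nat_lit 0) (XT.nd (nat_lit 156) (nat_lit 0) (nat_lit 0) (XT.nd (nat_lit 78) (nat_lit 76) (nat_lit 0) (XT.lf (nat_lit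 0) (nat_lit 24706274061) (nat_lit 152) (nat_lit 10344118933) (nat_lit 76) (nat_lit 47541136047) (nat_lit 15) (nat_lit 5) (nat_lit 17) (nat_lit 5) (nat_lit 16) (nat_lit 4) (nat_lit 401) (nat_lit 273) (nat_lit 106)) (XT.lf (nat_lit 0) (nat_lit 8539107064) (nat_lit 76) (nat_lit 25475527058) (nat_lit 152) (nat_lit 50742001635) (nat_lit 14) (nat_lit 5) (nat_lit 15) (nat_lit 5) (nat_lit 16) (nat_lit 4) (nat_lit 402) (nat_lit 273) (nat_lit 105))) (XT.nd (nat_lit 78) (nat_lit 0) (nat_lit 0) (XT.lf (nat_lit 0) (nat_lit 28192993734) (nat_lit 76) (nat_lit 15509453387) (nat_lit 152) (nat_lit 43281243459) (nat_lit 14) (nat_lit 5) (nat_lit 15) (nat_lit 5) (nat_lit 16) (nat_lit 4) (nat_lit 403) (nat_lit 273) (nat_lit 104)) (XT.lf (nat_lit 0) (nat_lit 48428846125) (nat_lit 76) (nat_lit 5247919079) (nat_lit 152) (nat_lit 35600916660) (nat_lit 14) (nat_lit 5) (nat_lit 15) (nat_lit 5) (nat_lit 16) (nat_lit 4) (nat_lit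 404) (nat_lit 273) (nat_lit 103)))) (XT.nd (nat_lit 156) (nat_lit 76) (nat_lit 0) (XT.nd (nat_lit 78) (nat_lit 0) (nat_lit 0) (XT.lf (nat_lit 0) (nat_lit 63997424070) (nat_lit 152) (nat_lit 22427388296) (nat_lit 0) (nat_lit 5214268095) (nat_lit 14) (nat_lit 5) (nat_lit 16) (nat_lit 4) (nat_lit 14) (nat_lit 4) (nat_lit 405) (nat_lit 273) (nat_lit 102)) (XT.lf (nat_lit 0) (nat_lit 74675738122) (nat_lit 152) (nat_lit 3512554457) (nat_lit 0) (nat_lit 15881588260) (nat_lit 14) (nat_lit 5) (nat_lit 16) (nat_lit 4) (nat_lit 14) (nat_lit 4) (nat_lit 406) (nat_lit 273) (nat_lit 101))) (XT.nd (nat_lit 78) (nat_lit 0) (nat_lit 0) (XT.lf (nat_lit 0) (nat_lit 16280327336) (nat_lit 76) (nat_lit 69546760847) (nat_lit 76) (nat_lit 10741937308) (nat_lit 13) (nat_lit 4) (nat_lit 14) (nat_lit 5) (nat_lit 14) (nat_lit 4) (nat_lit 407) (nat_lit 273) (nat_lit 100)) (XT.lf (nat_lit 0) (nat_lit 36731984080) (nat_lit 76)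 (nat_lit 60612698230) (nat_lit 76) (nat_lit 1797511898) (nat_lit 13) (nat_lit 4) (nat_lit 14) (nat_lit 5) (nat_lit 14) (nat_lit 4) (nat_lit 408) (nat_lit 273) (nat_lit 99))))))))
noncomputable def xc138 : XT := (XT.nd (nat_lit 32058) (nat_lit 0) (nat_lit 6004) (XT.nd (nat_lit 30966) (nat_lit 0) (nat_lit 13376) (XT.nd (nat_lit 30420) (nat_lit 0) (nat_lit 18164) (XT.nd (nat_lit 30108) (nat_lit 0) (nat_lit 19760) (XT.nd (nat_lit 78) (nat_lit 0) (nat_lit 0) (XT.lf (nat_lit 0) (nat_lit 7266854463) (nat_lit 152) (nat_lit 44073532734) (nat_lit 76) (nat_lit 50450143989) (nat_lit 12) (nat_lit 5) (nat_lit 14) (nat_lit 5) (nat_lit 13) (nat_lit 4) (nat_lit 409) (nat_lit 273) (nat_lit 98)) (XT.nd (nat_lit 78) (nat_lit 0) (nat_lit 0) (XT.lf (nat_lit 0) (nat_lit 16563437541) (nat_lit 152) (nat_lit 25211237012) (nat_lit 76) (nat_lit 62743218152) (nat_lit 12) (nat_lit 5) (nat_lit 14) (nat_lit 5) (nat_lit 13) (nat_lit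 4) (nat_lit 410) (nat_lit 273) (nat_lit 97)) (XT.lf (nat_lit 0) (nat_lit 26135436496) (nat_lit 152) (nat_lit 5789562558) (nat_lit 76) (nat_lit 75402181205) (nat_lit 12) (nat_lit 5) (nat_lit 14) (nat_lit 5) (nat_lit 13) (nat_lit 4) (nat_lit 411) (nat_lit 273) (nat_lit 96)))) (XT.nd (nat_lit 156) (nat_lit 0) (nat_lit 0) (XT.nd (nat_lit 78) (nat_lit 0) (nat_lit 0) (XT.lf (nat_lit 0) (nat_lit 1161601292) (nat_lit 836) (nat_lit 1241479570) (nat_lit 836) (nat_lit 1241479570) (nat_lit 272) (nat_lit 3) (nat_lit 283) (nat_lit 3) (nat_lit 283) (nat_lit 5) (nat_lit 274) (nat_lit 274) (nat_lit 232)) (XT.lf (nat_lit 76) (nat_lit 924522313) (nat_lit 0) (nat_lit 2950344421) (nat_lit 836) (nat_lit 3476118391) (nat_lit 273) (nat_lit 5) (nat_lit 272) (nat_lit 3) (nat_lit 283) (nat_lit 5) (nat_lit 275) (nat_lit 274) (nat_lit 231))) (XT.nd (nat_lit 78) (nat_lit 0) (nat_lit 76) (XT.lf (nat_lit 76) (nat_lit 4454176206)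 (nat_lit 0) (nat_lit 984829856) (nat_lit 836) (nat_lit 1976798300) (nat_lit 273) (nat_lit 5) (nat_lit 272) (nat_lit 3) (nat_lit 283) (nat_lit 5) (nat_lit 276) (nat_lit 274) (nat_lit 230)) (XT.lf (nat_lit 76) (nat_lit 576294107) (nat_lit 0) (nat_lit 6432147048) (nat_lit 836) (nat_lit 475450444) (nat_lit 274) (nat_lit 5) (nat_lit 273) (nat_lit 5) (nat_lit 284) (nat_lit 5) (nat_lit 277) (nat_lit 274) (nat_lit 229))))) (XT.nd (nat_lit 234) (nat_lit 836) (nat_lit 0) (XT.nd (nat_lit 78) (nat_lit 0) (nat_lit 0) (XT.lf (nat_lit 0) (nat_lit 1033567461) (nat_lit 836) (nat_lit 3325388881) (nat_lit 912) (nat_lit 3195320743) (nat_lit 262) (nat_lit 5) (nat_lit 273) (nat_lit 5) (nat_lit 274) (nat_lit 5) (nat_lit 278) (nat_lit 274) (nat_lit 228)) (XT.nd (nat_lit 78) (nat_lit 0) (nat_lit 76) (XT.lf (nat_lit 76) (nat_lit 334070550) (nat_lit 0) (nat_lit 2192657972) (nat_lit 912) (nat_lit 5101519771) (nat_lit 263)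 (nat_lit 5) (nat_lit 262) (nat_lit 5) (nat_lit 274) (nat_lit 5) (nat_lit 279) (nat_lit 274) (nat_lit 227)) (XT.lf (nat_lit 0) (nat_lit 4045685658) (nat_lit 836) (nat_lit 3566247368) (nat_lit 912) (nat_lit 93141833) (nat_lit 263) (nat_lit 5) (nat_lit 274) (nat_lit 5) (nat_lit 275) (nat_lit 5) (nat_lit 280) (nat_lit 274) (nat_lit 226)))) (XT.nd (nat_lit 156) (nat_lit 912) (nat_lit 0) (XT.nd (nat_lit 78) (nat_lit 0) (nat_lit 0) (XT.lf (nat_lit 76) (nat_lit 223559022) (nat_lit 0) (nat_lit 5358780401) (nat_lit 912) (nat_lit 2202767284) (nat_lit 264) (nat_lit 5) (nat_lit 263) (nat_lit 5) (nat_lit 275) (nat_lit 5) (nat_lit 281) (nat_lit 274) (nat_lit 225)) (XT.lf (nat_lit 76) (nat_lit 4167869080) (nat_lit 0) (nat_lit 2982701549) (nat_lit 912) (nat_lit 717467000) (nat_lit 264) (nat_lit 5) (nat_lit 263) (nat_lit 5) (nat_lit 275) (nat_lit 5) (nat_lit 282) (nat_lit 274) (nat_lit 224))) (XT.nd (nat_lit 78)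 (nat_lit 0) (nat_lit 76) (XT.lf (nat_lit 76) (nat_lit 241555747) (nat_lit 0) (nat_lit 507698202) (nat_lit 988) (nat_lit 7205445689) (nat_lit 252) (nat_lit 5) (nat_lit 251) (nat_lit 5) (nat_lit 264) (nat_lit 5) (nat_lit 283) (nat_lit 274) (nat_lit 223)) (XT.lf (nat_lit 0) (nat_lit 2254601615) (nat_lit 912) (nat_lit 3726309020) (nat_lit 988) (nat_lit 2062623554) (nat_lit 252) (nat_lit 5) (nat_lit 264) (nat_lit 5) (nat_lit 265) (nat_lit 5) (nat_lit 284) (nat_lit 274) (nat_lit 222)))))) (XT.nd (nat_lit 546) (nat_lit 3040) (nat_lit 0) (XT.nd (nat_lit 234) (nat_lit 1824) (nat_lit 0) (XT.nd (nat_lit 78) (nat_lit 0) (nat_lit 0) (XT.lf (nat_lit 76) (nat_lit 349148602) (nat_lit 0) (nat_lit 3417437635) (nat_lit 988) (nat_lit 4369658730) (nat_lit 253) (nat_lit 5) (nat_lit 252) (nat_lit 5) (nat_lit 265) (nat_lit 5) (nat_lit 285) (nat_lit 274) (nat_lit 221)) (XT.nd (nat_lit 78) (nat_lit 0) (nat_lit 76) (XT.lf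 (nat_lit 76) (nat_lit 4590808170) (nat_lit 0) (nat_lit 724898528) (nat_lit 988) (nat_lit 2916330953) (nat_lit 253) (nat_lit 5) (nat_lit 252) (nat_lit 5) (nat_lit 265) (nat_lit 5) (nat_lit 286) (nat_lit 274) (nat_lit 220)) (XT.lf (nat_lit 76) (nat_lit 587777126) (nat_lit 0) (nat_lit 6304472841) (nat_lit 988) (nat_lit 1439077977) (nat_lit 254) (nat_lit 5) (nat_lit 253) (nat_lit 5) (nat_lit 266) (nat_lit 5) (nat_lit 287) (nat_lit 274) (nat_lit 219)))) (XT.nd (nat_lit 156) (nat_lit 912) (nat_lit 0) (XT.nd (nat_lit 78) (nat_lit 0) (nat_lit 0) (XT.lf (nat_lit 0) (nat_lit 81300974) (nat_lit 988) (nat_lit 3456146996) (nat_lit 1064) (nat_lit 4896161942) (nat_lit 240) (nat_lit 5) (nat_lit 253) (nat_lit 5) (nat_lit 254) (nat_lit 5) (nat_lit 288) (nat_lit 274) (nat_lit 218)) (XT.lf (nat_lit 76) (nat_lit 931165639) (nat_lit 0) (nat_lit 653538538) (nat_lit 1064) (nat_lit 6954886471) (nat_lit 241) (nat_lit 5)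 (nat_lit 240) (nat_lit 5) (nat_lit 254) (nat_lit 5) (nat_lit 289) (nat_lit 274) (nat_lit 217))) (XT.nd (nat_lit 78) (nat_lit 988) (nat_lit 0) (XT.lf (nat_lit 0) (nat_lit 3149133269) (nat_lit 988) (nat_lit 3183077882) (nat_lit 76) (nat_lit 2316108410) (nat_lit 241) (nat_lit 5) (nat_lit 254) (nat_lit 5) (nat_lit 242) (nat_lit 5) (nat_lit 290) (nat_lit 274) (nat_lit 216)) (XT.lf (nat_lit 0) (nat_lit 1362423933) (nat_lit 988) (nat_lit 3377256482) (nat_lit 1064) (nat_lit 4021299490) (nat_lit 228) (nat_lit 5) (nat_lit 241) (nat_lit 5) (nat_lit 242) (nat_lit 5) (nat_lit 291) (nat_lit 274) (nat_lit 215))))) (XT.nd (nat_lit 234) (nat_lit 1900) (nat_lit 0) (XT.nd (nat_lit 78) (nat_lit 1140) (nat_lit 0) (XT.lf (nat_lit 0) (nat_lit 6077140727) (nat_lit 988) (nat_lit 293428867) (nat_lit 1064) (nat_lit 2506715498) (nat_lit 228) (nat_lit 5) (nat_lit 241) (nat_lit 5) (nat_lit 242) (nat_lit 5) (nat_lit 292) (nat_lit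 274) (nat_lit 214)) (XT.nd (nat_lit 78) (nat_lit 76) (nat_lit 0) (XT.lf (nat_lit 0) (nat_lit 1913122881) (nat_lit 1064) (nat_lit 6145065187) (nat_lit 1140) (nat_lit 938699815) (nat_lit 214) (nat_lit 5) (nat_lit 228) (nat_lit 5) (nat_lit 229) (nat_lit 5) (nat_lit 293) (nat_lit 274) (nat_lit 213)) (XT.lf (nat_lit 0) (nat_lit 656711932) (nat_lit 1140) (nat_lit 2336918934) (nat_lit 76) (nat_lit 6126486319) (nat_lit 213) (nat_lit 5) (nat_lit 228) (nat_lit 5) (nat_lit 214) (nat_lit 5) (nat_lit 294) (nat_lit 274) (nat_lit 212)))) (XT.nd (nat_lit 156) (nat_lit 760) (nat_lit 0) (XT.nd (nat_lit 78) (nat_lit 0) (nat_lit 0) (XT.lf (nat_lit 0) (nat_lit 2271737083) (nat_lit 1216) (nat_lit 6689189328) (nat_lit 76) (nat_lit 286158511) (nat_lit 198) (nat_lit 5) (nat_lit 214) (nat_lit 5) (nat_lit 199) (nat_lit 5) (nat_lit 295) (nat_lit 274) (nat_lit 211)) (XT.lf (nat_lit 0) (nat_lit 3952686457) (nat_lit 1216) (nat_lit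 1792634276) (nat_lit 76) (nat_lit 3632054540) (nat_lit 198) (nat_lit 5) (nat_lit 214) (nat_lit 5) (nat_lit 199) (nat_lit 5) (nat_lit 296) (nat_lit 274) (nat_lit 210))) (XT.nd (nat_lit 78) (nat_lit 0) (nat_lit 0) (XT.lf (nat_lit 0) (nat_lit 3282773161) (nat_lit 760) (nat_lit 2397897283) (nat_lit 836) (nat_lit 3831042390) (nat_lit 188) (nat_lit 5) (nat_lit 198) (nat_lit 5) (nat_lit 199) (nat_lit 5) (nat_lit 297) (nat_lit 274) (nat_lit 209)) (XT.lf (nat_lit 0) (nat_lit 7454654064) (nat_lit 836) (nat_lit 1145493916) (nat_lit 76) (nat_lit 1050143353) (nat_lit 188) (nat_lit 5) (nat_lit 199) (nat_lit 5) (nat_lit 189) (nat_lit 5) (nat_lit 298) (nat_lit 274) (nat_lit 208))))))) (XT.nd (nat_lit 1092) (nat_lit 3116) (nat_lit 0) (XT.nd (nat_lit 546) (nat_lit 1900) (nat_lit 0) (XT.nd (nat_lit 234) (nat_lit 1140) (nat_lit 0) (XT.nd (nat_lit 78) (nat_lit 608) (nat_lit 0) (XT.lf (nat_lit 0) (nat_lit 4115096987)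 (nat_lit 608) (nat_lit 5196841157) (nat_lit 684) (nat_lit 480221194) (nat_lit 180) (nat_lit 5) (nat_lit 188) (nat_lit 5) (nat_lit 189) (nat_lit 5) (nat_lit 299) (nat_lit 274) (nat_lit 207)) (XT.nd (nat_lit 78) (nat_lit 532) (nat_lit 0) (XT.lf (nat_lit 0) (nat_lit 1240322848) (nat_lit 684) (nat_lit 425723578) (nat_lit 76) (nat_lit 8272535323) (nat_lit 179) (nat_lit 5) (nat_lit 188) (nat_lit 5) (nat_lit 180) (nat_lit 5) (nat_lit 300) (nat_lit 274) (nat_lit 206)) (XT.lf (nat_lit 0) (nat_lit 3038857623) (nat_lit 608) (nat_lit 5062760133) (nat_lit 76) (nat_lit 1986587287) (nat_lit 172) (nat_lit 5) (nat_lit 180) (nat_lit 5) (nat_lit 173) (nat_lit 5) (nat_lit 301) (nat_lit 274) (nat_lit 205)))) (XT.nd (nat_lit 156) (nat_lit 608) (nat_lit 0) (XT.nd (nat_lit 78) (nat_lit 0) (nat_lit 0) (XT.lf (nat_lit 0) (nat_lit 365260090) (nat_lit 532) (nat_lit 4519120872) (nat_lit 608) (nat_lit 5358175822) (nat_lit 165)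 (nat_lit 5) (nat_lit 172) (nat_lit 5) (nat_lit 173) (nat_lit 5) (nat_lit 302) (nat_lit 274) (nat_lit 204)) (XT.lf (nat_lit 0) (nat_lit 6028199752) (nat_lit 532) (nat_lit 777485930) (nat_lit 608) (nat_lit 3595270752) (nat_lit 165) (nat_lit 5) (nat_lit 172) (nat_lit 5) (nat_lit 173) (nat_lit 5) (nat_lit 303) (nat_lit 274) (nat_lit 203))) (XT.nd (nat_lit 78) (nat_lit 76) (nat_lit 0) (XT.lf (nat_lit 0) (nat_lit 1260245743) (nat_lit 532) (nat_lit 7536247138) (nat_lit 608) (nat_lit 1767288251) (nat_lit 158) (nat_lit 5) (nat_lit 165) (nat_lit 5) (nat_lit 166) (nat_lit 5) (nat_lit 304) (nat_lit 274) (nat_lit 202)) (XT.lf (nat_lit 0) (nat_lit 135997183) (nat_lit 608) (nat_lit 3619534713) (nat_lit 76) (nat_lit 6975271116) (nat_lit 157) (nat_lit 5) (nat_lit 165) (nat_lit 5) (nat_lit 158) (nat_lit 5) (nat_lit 305) (nat_lit 274) (nat_lit 201))))) (XT.nd (nat_lit 234) (nat_lit 912) (nat_lit 0) (XT.nd (nat_lit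 78) (nat_lit 456) (nat_lit 0) (XT.lf (nat_lit 0) (nat_lit 2055279098) (nat_lit 608) (nat_lit 8674315099) (nat_lit 76) (nat_lit 172910355) (nat_lit 150) (nat_lit 5) (nat_lit 158) (nat_lit 5) (nat_lit 151) (nat_lit 5) (nat_lit 306) (nat_lit 274) (nat_lit 200)) (XT.nd (nat_lit 78) (nat_lit 456) (nat_lit 0) (XT.lf (nat_lit 0) (nat_lit 4078038668) (nat_lit 608) (nat_lit 2821871782) (nat_lit 76) (nat_lit 4178095442) (nat_lit 150) (nat_lit 5) (nat_lit 158) (nat_lit 5) (nat_lit 151) (nat_lit 5) (nat_lit 307) (nat_lit 274) (nat_lit 199)) (XT.lf (nat_lit 0) (nat_lit 3238655243) (nat_lit 456) (nat_lit 2926582595) (nat_lit 532) (nat_lit 5093446711) (nat_lit 144) (nat_lit 5) (nat_lit 150) (nat_lit 5) (nat_lit 151) (nat_lit 5) (nat_lit 308) (nat_lit 274) (nat_lit 198)))) (XT.nd (nat_lit 156) (nat_lit 456) (nat_lit 0) (XT.nd (nat_lit 78) (nat_lit 456) (nat_lit 0) (XT.lf (nat_lit 0) (nat_lit 8328134580) (nat_lit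 532) (nat_lit 1947758035) (nat_lit 76) (nat_lit 1168522755) (nat_lit 144) (nat_lit 5) (nat_lit 151) (nat_lit 5) (nat_lit 145) (nat_lit 5) (nat_lit 309) (nat_lit 274) (nat_lit 197)) (XT.lf (nat_lit 0) (nat_lit 4331962643) (nat_lit 456) (nat_lit 6268453037) (nat_lit 532) (nat_lit 1033991057) (nat_lit 138) (nat_lit 5) (nat_lit 144) (nat_lit 5) (nat_lit 145) (nat_lit 5) (nat_lit 310) (nat_lit 274) (nat_lit 196))) (XT.nd (nat_lit 78) (nat_lit 380) (nat_lit 0) (XT.lf (nat_lit 0) (nat_lit 1083031749) (nat_lit 532) (nat_lit 1030894008) (nat_lit 76) (nat_lit 9716055778) (nat_lit 137) (nat_lit 5) (nat_lit 144) (nat_lit 5) (nat_lit 138) (nat_lit 5) (nat_lit 311) (nat_lit 274) (nat_lit 195)) (XT.lf (nat_lit 0) (nat_lit 3291842192) (nat_lit 456) (nat_lit 6555515151) (nat_lit 76) (nat_lit 2182308882) (nat_lit 132) (nat_lit 5) (nat_lit 138) (nat_lit 5) (nat_lit 133) (nat_lit 5) (nat_lit 312) (nat_lit 274) (nat_lit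 194)))))) (XT.nd (nat_lit 546) (nat_lit 1444) (nat_lit 0) (XT.nd (nat_lit 234) (nat_lit 836) (nat_lit 0) (XT.nd (nat_lit 78) (nat_lit 836) (nat_lit 0) (XT.lf (nat_lit 0) (nat_lit 5573597889) (nat_lit 456) (nat_lit 90637297) (nat_lit 76) (nat_lit 6570926761) (nat_lit 132) (nat_lit 5) (nat_lit 138) (nat_lit 5) (nat_lit 133) (nat_lit 5) (nat_lit 313) (nat_lit 274) (nat_lit 193)) (XT.nd (nat_lit 78) (nat_lit 380) (nat_lit 0) (XT.lf (nat_lit 0) (nat_lit 6669146405) (nat_lit 456) (nat_lit 1294726897) (nat_lit 532) (nat_lit 4481767538) (nat_lit 126) (nat_lit 5) (nat_lit 132) (nat_lit 5) (nat_lit 133) (nat_lit 5) (nat_lit 314) (nat_lit 274) (nat_lit 192)) (XT.lf (nat_lit 0) (nat_lit 928904362) (nat_lit 380) (nat_lit 9513953788) (nat_lit 456) (nat_lit 2219085636) (nat_lit 121) (nat_lit 5) (nat_lit 126) (nat_lit 5) (nat_lit 127) (nat_lit 5) (nat_lit 315) (nat_lit 274) (nat_lit 191)))) (XT.nd (nat_lit 156)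 (nat_lit 380) (nat_lit 0) (XT.nd (nat_lit 78) (nat_lit 380) (nat_lit 0) (XT.lf (nat_lit 0) (nat_lit 157519038) (nat_lit 456) (nat_lit 4973344100) (nat_lit 76) (nat_lit 7752412592) (nat_lit 120) (nat_lit 5) (nat_lit 126) (nat_lit 5) (nat_lit 121) (nat_lit 5) (nat_lit 316) (nat_lit 274) (nat_lit 190)) (XT.lf (nat_lit 0) (nat_lit 1976845716) (nat_lit 380) (nat_lit 580151872) (nat_lit 456) (nat_lit 10553723643) (nat_lit 115) (nat_lit 5) (nat_lit 120) (nat_lit 5) (nat_lit 121) (nat_lit 5) (nat_lit 317) (nat_lit 274) (nat_lit 189))) (XT.nd (nat_lit 78) (nat_lit 380) (nat_lit 0) (XT.lf (nat_lit 0) (nat_lit 5096163351) (nat_lit 456) (nat_lit 4175219005) (nat_lit 76) (nat_lit 4071594174) (nat_lit 115) (nat_lit 5) (nat_lit 121) (nat_lit 5) (nat_lit 116) (nat_lit 5) (nat_lit 318) (nat_lit 274) (nat_lit 188)) (XT.lf (nat_lit 0) (nat_lit 3016927709) (nat_lit 380) (nat_lit 4707481032) (nat_lit 456) (nat_lit 5857420619)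 (nat_lit 110) (nat_lit 5) (nat_lit 115) (nat_lit 5) (nat_lit 116) (nat_lit 5) (nat_lit 319) (nat_lit 274) (nat_lit 187))))) (XT.nd (nat_lit 312) (nat_lit 684) (nat_lit 0) (XT.nd (nat_lit 156) (nat_lit 380) (nat_lit 0) (XT.nd (nat_lit 78) (nat_lit 380) (nat_lit 0) (XT.lf (nat_lit 0) (nat_lit 10452478396) (nat_lit 456) (nat_lit 3345224617) (nat_lit 76) (nat_lit 29531968) (nat_lit 110) (nat_lit 5) (nat_lit 116) (nat_lit 5) (nat_lit 111) (nat_lit 5) (nat_lit 320) (nat_lit 274) (nat_lit 186)) (XT.lf (nat_lit 0) (nat_lit 4096492676) (nat_lit 380) (nat_lit 9230973484) (nat_lit 456) (nat_lit 750600364) (nat_lit 105) (nat_lit 5) (nat_lit 110) (nat_lit 5) (nat_lit 111) (nat_lit 5) (nat_lit 321) (nat_lit 274) (nat_lit 185))) (XT.nd (nat_lit 78) (nat_lit 304) (nat_lit 0) (XT.lf (nat_lit 0) (nat_lit 1927513281) (nat_lit 456) (nat_lit 2552509396) (nat_lit 76) (nat_lit 9855452594) (nat_lit 104) (nat_lit 5) (nat_lit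 110) (nat_lit 5) (nat_lit 105) (nat_lit 5) (nat_lit 322) (nat_lit 274) (nat_lit 184)) (XT.lf (nat_lit 0) (nat_lit 4704830172) (nat_lit 380) (nat_lit 9438409030) (nat_lit 76) (nat_lit 456140414) (nat_lit 100) (nat_lit 5) (nat_lit 105) (nat_lit 5) (nat_lit 101) (nat_lit 5) (nat_lit 323) (nat_lit 274) (nat_lit 183)))) (XT.nd (nat_lit 156) (nat_lit 380) (nat_lit 0) (XT.nd (nat_lit 78) (nat_lit 304) (nat_lit 0) (XT.lf (nat_lit 0) (nat_lit 7615933757) (nat_lit 380) (nat_lit 1784353104) (nat_lit 76) (nat_lit 5469414461) (nat_lit 100) (nat_lit 5) (nat_lit 105) (nat_lit 5) (nat_lit 101) (nat_lit 5) (nat_lit 324) (nat_lit 274) (nat_lit 182)) (XT.lf (nat_lit 0) (nat_lit 6193490228) (nat_lit 304) (nat_lit 4461076019) (nat_lit 380) (nat_lit 4492374389) (nat_lit 96) (nat_lit 5) (nat_lit 100) (nat_lit 5) (nat_lit 101) (nat_lit 5) (nat_lit 325) (nat_lit 274) (nat_lit 181))) (XT.nd (nat_lit 78) (nat_lit 380) (nat_lit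 0) (XT.lf (nat_lit 0) (nat_lit 13789473355) (nat_lit 380) (nat_lit 1017852222) (nat_lit 76) (nat_lit 625031511) (nat_lit 96) (nat_lit 5) (nat_lit 101) (nat_lit 5) (nat_lit 97) (nat_lit 5) (nat_lit 326) (nat_lit 274) (nat_lit 180)) (XT.lf (nat_lit 0) (nat_lit 1362896248) (nat_lit 380) (nat_lit 8510356566) (nat_lit 76) (nat_lit 5849842726) (nat_lit 91) (nat_lit 5) (nat_lit 96) (nat_lit 5) (nat_lit 92) (nat_lit 5) (nat_lit 327) (nat_lit 274) (nat_lit 179))))))))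
noncomputable def xc139 : XT := (XT.nd (nat_lit 2184) (nat_lit 1824) (nat_lit 0) (XT.nd (nat_lit 1092) (nat_lit 1596) (nat_lit 0) (XT.nd (nat_lit 546) (nat_lit 760) (nat_lit 0) (XT.nd (nat_lit 234) (nat_lit 608) (nat_lit 0) (XT.nd (nat_lit 78) (nat_lit 532) (nat_lit 0) (XT.lf (nat_lit 0) (nat_lit 4417762046) (nat_lit 380) (nat_lit 353784189) (nat_lit 76) (nat_lit 11250776232) (nat_lit 91) (nat_lit 5) (nat_lit 96) (nat_lit 5) (nat_lit 92) (nat_lit 5) (nat_lit 328) (nat_lit 274) (nat_lit 178)) (XT.nd (nat_lit 78) (nat_lit 228) (nat_lit 0) (XT.lf (nat_lit 0) (nat_lit 7630361048) (nat_lit 380) (nat_lit 8152444098) (nat_lit 76) (nat_lit 545750368) (nat_lit 87) (nat_lit 5) (nat_lit 92) (nat_lit 5) (nat_lit 88) (nat_lit 5) (nat_lit 329) (nat_lit 274) (nat_lit 177)) (XT.lf (nat_lit 0) (nat_lit 257297301) (nat_lit 228) (nat_lit 10717660319) (nat_lit 304) (nat_lit 5667960929) (nat_lit 84) (nat_lit 5) (nat_lit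 87) (nat_lit 5) (nat_lit 88) (nat_lit 5) (nat_lit 330) (nat_lit 274) (nat_lit 176)))) (XT.nd (nat_lit 156) (nat_lit 228) (nat_lit 0) (XT.nd (nat_lit 78) (nat_lit 380) (nat_lit 0) (XT.lf (nat_lit 0) (nat_lit 9060967504) (nat_lit 228) (nat_lit 5423814392) (nat_lit 304) (nat_lit 2479995132) (nat_lit 84) (nat_lit 5) (nat_lit 87) (nat_lit 5) (nat_lit 88) (nat_lit 5) (nat_lit 331) (nat_lit 274) (nat_lit 175)) (XT.lf (nat_lit 0) (nat_lit 779018190) (nat_lit 380) (nat_lit 16481145894) (nat_lit 76) (nat_lit 36173335) (nat_lit 79) (nat_lit 5) (nat_lit 84) (nat_lit 5) (nat_lit 80) (nat_lit 5) (nat_lit 332) (nat_lit 274) (nat_lit 174))) (XT.nd (nat_lit 78) (nat_lit 228) (nat_lit 0) (XT.lf (nat_lit 0) (nat_lit 4203338894) (nat_lit 380) (nat_lit 7781995239) (nat_lit 76) (nat_lit 5648262677) (nat_lit 79) (nat_lit 5) (nat_lit 84) (nat_lit 5) (nat_lit 80) (nat_lit 5) (nat_lit 333) (nat_lit 274) (nat_lit 173)) (XT.lf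 (nat_lit 0) (nat_lit 1176542702) (nat_lit 228) (nat_lit 6548727124) (nat_lit 304) (nat_lit 10255867729) (nat_lit 76) (nat_lit 5) (nat_lit 79) (nat_lit 5) (nat_lit 80) (nat_lit 5) (nat_lit 334) (nat_lit 274) (nat_lit 172))))) (XT.nd (nat_lit 234) (nat_lit 456) (nat_lit 0) (XT.nd (nat_lit 78) (nat_lit 304) (nat_lit 0) (XT.lf (nat_lit 0) (nat_lit 10539054884) (nat_lit 228) (nat_lit 876202536) (nat_lit 304) (nat_lit 6921984842) (nat_lit 76) (nat_lit 5) (nat_lit 79) (nat_lit 5) (nat_lit 80) (nat_lit 5) (nat_lit 335) (nat_lit 274) (nat_lit 171)) (XT.nd (nat_lit 78) (nat_lit 76) (nat_lit 0) (XT.lf (nat_lit 0) (nat_lit 1434664511) (nat_lit 228) (nat_lit 13827023451) (nat_lit 304) (nat_lit 3440979267) (nat_lit 73) (nat_lit 5) (nat_lit 76) (nat_lit 5) (nat_lit 77) (nat_lit 5) (nat_lit 336) (nat_lit 274) (nat_lit 170)) (XT.lf (nat_lit 0) (nat_lit 214118785) (nat_lit 304) (nat_lit 8007267631) (nat_lit 76) (nat_lit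 10855461312) (nat_lit 72) (nat_lit 5) (nat_lit 76) (nat_lit 5) (nat_lit 73) (nat_lit 5) (nat_lit 337) (nat_lit 274) (nat_lit 169)))) (XT.nd (nat_lit 156) (nat_lit 228) (nat_lit 0) (XT.nd (nat_lit 78) (nat_lit 0) (nat_lit 0) (XT.lf (nat_lit 0) (nat_lit 1503165502) (nat_lit 228) (nat_lit 2405731050) (nat_lit 304) (nat_lit 15552368025) (nat_lit 69) (nat_lit 5) (nat_lit 72) (nat_lit 5) (nat_lit 73) (nat_lit 5) (nat_lit 338) (nat_lit 274) (nat_lit 168)) (XT.lf (nat_lit 0) (nat_lit 7815512915) (nat_lit 304) (nat_lit 8450530734) (nat_lit 76) (nat_lit 3588148792) (nat_lit 69) (nat_lit 5) (nat_lit 73) (nat_lit 5) (nat_lit 70) (nat_lit 5) (nat_lit 339) (nat_lit 274) (nat_lit 167))) (XT.nd (nat_lit 78) (nat_lit 0) (nat_lit 0) (XT.lf (nat_lit 0) (nat_lit 1321376625) (nat_lit 228) (nat_lit 10539794084) (nat_lit 304) (nat_lit 8397090269) (nat_lit 66) (nat_lit 5) (nat_lit 69) (nat_lit 5) (nat_lit 70) (nat_lit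 5) (nat_lit 340) (nat_lit 274) (nat_lit 166)) (XT.lf (nat_lit 0) (nat_lit 11537039129) (nat_lit 228) (nat_lit 4562024826) (nat_lit 304) (nat_lit 4573269531) (nat_lit 66) (nat_lit 5) (nat_lit 69) (nat_lit 5) (nat_lit 70) (nat_lit 5) (nat_lit 341) (nat_lit 274) (nat_lit 165)))))) (XT.nd (nat_lit 546) (nat_lit 836) (nat_lit 0) (XT.nd (nat_lit 234) (nat_lit 228) (nat_lit 0) (XT.nd (nat_lit 78) (nat_lit 304) (nat_lit 0) (XT.lf (nat_lit 0) (nat_lit 941050312) (nat_lit 228) (nat_lit 19533299658) (nat_lit 304) (nat_lit 624178179) (nat_lit 63) (nat_lit 5) (nat_lit 66) (nat_lit 5) (nat_lit 67) (nat_lit 5) (nat_lit 342) (nat_lit 274) (nat_lit 164)) (XT.nd (nat_lit 78) (nat_lit 228) (nat_lit 0) (XT.lf (nat_lit 0) (nat_lit 3500454396) (nat_lit 304) (nat_lit 10129364950) (nat_lit 76) (nat_lit 7902975684) (nat_lit 62) (nat_lit 5) (nat_lit 66) (nat_lit 5) (nat_lit 63) (nat_lit 5) (nat_lit 343) (nat_lit 274) (nat_lit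 163)) (XT.lf (nat_lit 0) (nat_lit 175088324) (nat_lit 228) (nat_lit 7549215968) (nat_lit 304) (nat_lit 14255966525) (nat_lit 59) (nat_lit 5) (nat_lit 62) (nat_lit 5) (nat_lit 63) (nat_lit 5) (nat_lit 344) (nat_lit 274) (nat_lit 162)))) (XT.nd (nat_lit 156) (nat_lit 228) (nat_lit 0) (XT.nd (nat_lit 78) (nat_lit 0) (nat_lit 0) (XT.lf (nat_lit 0) (nat_lit 10974790762) (nat_lit 228) (nat_lit 1188897218) (nat_lit 304) (nat_lit 10274825152) (nat_lit 59) (nat_lit 5) (nat_lit 62) (nat_lit 5) (nat_lit 63) (nat_lit 5) (nat_lit 345) (nat_lit 274) (nat_lit 161)) (XT.lf (nat_lit 0) (nat_lit 16774646874) (nat_lit 304) (nat_lit 884786679) (nat_lit 76) (nat_lit 5249923957) (nat_lit 59) (nat_lit 5) (nat_lit 63) (nat_lit 5) (nat_lit 60) (nat_lit 5) (nat_lit 346) (nat_lit 274) (nat_lit 160))) (XT.nd (nat_lit 78) (nat_lit 76) (nat_lit 0) (XT.lf (nat_lit 0) (nat_lit 10177745254) (nat_lit 152) (nat_lit 11443026954) (nat_lit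 228) (nat_lit 1770656295) (nat_lit 57) (nat_lit 5) (nat_lit 59) (nat_lit 5) (nat_lit 60) (nat_lit 5) (nat_lit 347) (nat_lit 274) (nat_lit 159)) (XT.lf (nat_lit 0) (nat_lit 2667458140) (nat_lit 228) (nat_lit 2344341765) (nat_lit 76) (nat_lit 18875493139) (nat_lit 56) (nat_lit 5) (nat_lit 59) (nat_lit 5) (nat_lit 57) (nat_lit 5) (nat_lit 348) (nat_lit 274) (nat_lit 158))))) (XT.nd (nat_lit 234) (nat_lit 456) (nat_lit 0) (XT.nd (nat_lit 78) (nat_lit 152) (nat_lit 0) (XT.lf (nat_lit 0) (nat_lit 7293635609) (nat_lit 304) (nat_lit 15422851926) (nat_lit 76) (nat_lit 1678310676) (nat_lit 53) (nat_lit 5) (nat_lit 57) (nat_lit 5) (nat_lit 54) (nat_lit 5) (nat_lit 349) (nat_lit 274) (nat_lit 157)) (XT.nd (nat_lit 78) (nat_lit 152) (nat_lit 0) (XT.lf (nat_lit 0) (nat_lit 12119870113) (nat_lit 304) (nat_lit 4311056017) (nat_lit 76) (nat_lit 8484769951) (nat_lit 53) (nat_lit 5) (nat_lit 57) (nat_lit 5) (nat_lit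 54) (nat_lit 5) (nat_lit 350) (nat_lit 274) (nat_lit 156)) (XT.lf (nat_lit 0) (nat_lit 7256112685) (nat_lit 152) (nat_lit 9892628467) (nat_lit 228) (nat_lit 8301749781) (nat_lit 51) (nat_lit 5) (nat_lit 53) (nat_lit 5) (nat_lit 54) (nat_lit 5) (nat_lit 351) (nat_lit 274) (nat_lit 155)))) (XT.nd (nat_lit 156) (nat_lit 152) (nat_lit 0) (XT.nd (nat_lit 78) (nat_lit 304) (nat_lit 0) (XT.lf (nat_lit 0) (nat_lit 19239286795) (nat_lit 152) (nat_lit 3120984358) (nat_lit 228) (nat_lit 3640110065) (nat_lit 51) (nat_lit 5) (nat_lit 53) (nat_lit 5) (nat_lit 54) (nat_lit 5) (nat_lit 352) (nat_lit 274) (nat_lit 154)) (XT.lf (nat_lit 0) (nat_lit 1213639187) (nat_lit 304) (nat_lit 21518701890) (nat_lit 76) (nat_lit 3831849588) (nat_lit 47) (nat_lit 5) (nat_lit 51) (nat_lit 5) (nat_lit 48) (nat_lit 5) (nat_lit 353) (nat_lit 274) (nat_lit 153))) (XT.nd (nat_lit 78) (nat_lit 152) (nat_lit 0) (XT.lf (nat_lit 0) (nat_lit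 6228254486) (nat_lit 304) (nat_lit 9884757105) (nat_lit 76) (nat_lit 11028174014) (nat_lit 47) (nat_lit 5) (nat_lit 51) (nat_lit 5) (nat_lit 48) (nat_lit 5) (nat_lit 354) (nat_lit 274) (nat_lit 152)) (XT.lf (nat_lit 0) (nat_lit 2121013378) (nat_lit 152) (nat_lit 9281581953) (nat_lit 228) (nat_lit 16332621224) (nat_lit 45) (nat_lit 5) (nat_lit 47) (nat_lit 5) (nat_lit 48) (nat_lit 5) (nat_lit 355) (nat_lit 274) (nat_lit 151))))))) (XT.nd (nat_lit 1092) (nat_lit 912) (nat_lit 0) (XT.nd (nat_lit 546) (nat_lit 380) (nat_lit 0) (XT.nd (nat_lit 234) (nat_lit 380) (nat_lit 0) (XT.nd (nat_lit 78) (nat_lit 152) (nat_lit 0) (XT.lf (nat_lit 0) (nat_lit 14671185721) (nat_lit 152) (nat_lit 2149842432) (nat_lit 228) (nat_lit 11523379059) (nat_lit 45) (nat_lit 5) (nat_lit 47) (nat_lit 5) (nat_lit 48) (nat_lit 5) (nat_lit 356) (nat_lit 274) (nat_lit 150)) (XT.nd (nat_lit 78) (nat_lit 152) (nat_lit 0) (XT.lf (nat_lit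 0) (nat_lit 22441254330) (nat_lit 228) (nat_lit 1442073327) (nat_lit 76) (nat_lit 5087373219) (nat_lit 45) (nat_lit 5) (nat_lit 48) (nat_lit 5) (nat_lit 46) (nat_lit 5) (nat_lit 357) (nat_lit 274) (nat_lit 149)) (XT.lf (nat_lit 0) (nat_lit 11338386878) (nat_lit 152) (nat_lit 17011583986) (nat_lit 228) (nat_lit 1262220346) (nat_lit 43) (nat_lit 5) (nat_lit 45) (nat_lit 5) (nat_lit 46) (nat_lit 5) (nat_lit 358) (nat_lit 274) (nat_lit 148)))) (XT.nd (nat_lit 156) (nat_lit 152) (nat_lit 0) (XT.nd (nat_lit 78) (nat_lit 152) (nat_lit 0) (XT.lf (nat_lit 0) (nat_lit 4086129435) (nat_lit 228) (nat_lit 5798456644) (nat_lit 76) (nat_lit 20387013494) (nat_lit 42) (nat_lit 5) (nat_lit 45) (nat_lit 5) (nat_lit 43) (nat_lit 5) (nat_lit 359) (nat_lit 274) (nat_lit 147)) (XT.lf (nat_lit 0) (nat_lit 7161282549) (nat_lit 152) (nat_lit 2467054342) (nat_lit 228) (nat_lit 21320319081) (nat_lit 40) (nat_lit 5) (nat_lit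 42) (nat_lit 5) (nat_lit 43) (nat_lit 5) (nat_lit 360) (nat_lit 274) (nat_lit 146))) (XT.nd (nat_lit 78) (nat_lit 152) (nat_lit 0) (XT.lf (nat_lit 0) (nat_lit 15435670095) (nat_lit 228) (nat_lit 11083077417) (nat_lit 76) (nat_lit 5124314644) (nat_lit 40) (nat_lit 5) (nat_lit 43) (nat_lit 5) (nat_lit 41) (nat_lit 5) (nat_lit 361) (nat_lit 274) (nat_lit 145)) (XT.lf (nat_lit 0) (nat_lit 2000273402) (nat_lit 152) (nat_lit 19450895942) (nat_lit 228) (nat_lit 10906116567) (nat_lit 38) (nat_lit 5) (nat_lit 40) (nat_lit 5) (nat_lit 41) (nat_lit 5) (nat_lit 362) (nat_lit 274) (nat_lit 144))))) (XT.nd (nat_lit 234) (nat_lit 152) (nat_lit 0) (XT.nd (nat_lit 78) (nat_lit 228) (nat_lit 0) (XT.lf (nat_lit 0) (nat_lit 15686800175) (nat_lit 152) (nat_lit 12062666655) (nat_lit 228) (nat_lit 5340403208) (nat_lit 38) (nat_lit 5) (nat_lit 40) (nat_lit 5) (nat_lit 41) (nat_lit 5) (nat_lit 363) (nat_lit 274) (nat_lit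 143)) (XT.nd (nat_lit 78) (nat_lit 152) (nat_lit 0) (XT.lf (nat_lit 0) (nat_lit 375226171) (nat_lit 228) (nat_lit 4080506047) (nat_lit 76) (nat_lit 29388871810) (nat_lit 37) (nat_lit 5) (nat_lit 40) (nat_lit 5) (nat_lit 38) (nat_lit 5) (nat_lit 364) (nat_lit 274) (nat_lit 142)) (XT.lf (nat_lit 0) (nat_lit 6273588864) (nat_lit 228) (nat_lit 24888100002) (nat_lit 76) (nat_lit 3455150223) (nat_lit 35) (nat_lit 5) (nat_lit 38) (nat_lit 5) (nat_lit 36) (nat_lit 5) (nat_lit 365) (nat_lit 274) (nat_lit 141)))) (XT.nd (nat_lit 156) (nat_lit 0) (nat_lit 0) (XT.nd (nat_lit 78) (nat_lit 152) (nat_lit 0) (XT.lf (nat_lit 0) (nat_lit 12425557477) (nat_lit 228) (nat_lit 11435430675) (nat_lit 76) (nat_lit 11548956648) (nat_lit 35) (nat_lit 5) (nat_lit 38) (nat_lit 5) (nat_lit 36) (nat_lit 5) (nat_lit 366) (nat_lit 274) (nat_lit 140)) (XT.lf (nat_lit 0) (nat_lit 2453343319) (nat_lit 152) (nat_lit 16323514960) (nat_lit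 228) (nat_lit 17449545364) (nat_lit 33) (nat_lit 5) (nat_lit 35) (nat_lit 5) (nat_lit 36) (nat_lit 5) (nat_lit 367) (nat_lit 274) (nat_lit 139))) (XT.nd (nat_lit 78) (nat_lit 0) (nat_lit 0) (XT.lf (nat_lit 0) (nat_lit 16977997155) (nat_lit 152) (nat_lit 8447476974) (nat_lit 228) (nat_lit 11638681906) (nat_lit 33) (nat_lit 5) (nat_lit 35) (nat_lit 5) (nat_lit 36) (nat_lit 5) (nat_lit 368) (nat_lit 274) (nat_lit 138)) (XT.lf (nat_lit 0) (nat_lit 31923634785) (nat_lit 152) (nat_lit 341467646) (nat_lit 228) (nat_lit 5662194921) (nat_lit 33) (nat_lit 5) (nat_lit 35) (nat_lit 5) (nat_lit 36) (nat_lit 5) (nat_lit 369) (nat_lit 274) (nat_lit 137)))))) (XT.nd (nat_lit 546) (nat_lit 532) (nat_lit 0) (XT.nd (nat_lit 234) (nat_lit 228) (nat_lit 0) (XT.nd (nat_lit 78) (nat_lit 0) (nat_lit 0) (XT.lf (nat_lit 0) (nat_lit 636614278) (nat_lit 152) (nat_lit 30240852823) (nat_lit 76) (nat_lit 7934146493) (nat_lit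 31) (nat_lit 5) (nat_lit 33) (nat_lit 5) (nat_lit 32) (nat_lit 5) (nat_lit 370) (nat_lit 274) (nat_lit 136)) (XT.nd (nat_lit 78) (nat_lit 0) (nat_lit 0) (XT.lf (nat_lit 0) (nat_lit 7066949546) (nat_lit 152) (nat_lit 16089737454) (nat_lit 76) (nat_lit 16562402216) (nat_lit 31) (nat_lit 5) (nat_lit 33) (nat_lit 5) (nat_lit 32) (nat_lit 5) (nat_lit 371) (nat_lit 274) (nat_lit 135)) (XT.lf (nat_lit 0) (nat_lit 13682194839) (nat_lit 152) (nat_lit 1528205557) (nat_lit 76) (nat_lit 25443631354) (nat_lit 31) (nat_lit 5) (nat_lit 33) (nat_lit 5) (nat_lit 32) (nat_lit 5) (nat_lit 372) (nat_lit 274) (nat_lit 134)))) (XT.nd (nat_lit 156) (nat_lit 76) (nat_lit 0) (XT.nd (nat_lit 78) (nat_lit 0) (nat_lit 0) (XT.lf (nat_lit 0) (nat_lit 13724276605) (nat_lit 152) (nat_lit 6895780005) (nat_lit 228) (nat_lit 20993243741) (nat_lit 29) (nat_lit 5) (nat_lit 31) (nat_lit 5) (nat_lit 32) (nat_lit 5) (nat_lit 373) (nat_lit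 274) (nat_lit 133)) (XT.lf (nat_lit 0) (nat_lit 27789947454) (nat_lit 228) (nat_lit 13165160719) (nat_lit 76) (nat_lit 1645524532) (nat_lit 29) (nat_lit 5) (nat_lit 32) (nat_lit 5) (nat_lit 30) (nat_lit 4) (nat_lit 374) (nat_lit 274) (nat_lit 132))) (XT.nd (nat_lit 78) (nat_lit 0) (nat_lit 0) (XT.lf (nat_lit 0) (nat_lit 1956984062) (nat_lit 76) (nat_lit 33297534853) (nat_lit 152) (nat_lit 8360681015) (nat_lit 28) (nat_lit 5) (nat_lit 29) (nat_lit 5) (nat_lit 30) (nat_lit 4) (nat_lit 375) (nat_lit 274) (nat_lit 131)) (XT.lf (nat_lit 0) (nat_lit 17789450031) (nat_lit 76) (nat_lit 25279108405) (nat_lit 152) (nat_lit 1587882156) (nat_lit 28) (nat_lit 5) (nat_lit 29) (nat_lit 5) (nat_lit 30) (nat_lit 4) (nat_lit 376) (nat_lit 274) (nat_lit 130))))) (XT.nd (nat_lit 312) (nat_lit 304) (nat_lit 0) (XT.nd (nat_lit 156) (nat_lit 0) (nat_lit 0) (XT.nd (nat_lit 78) (nat_lit 152) (nat_lit 0) (XT.lf (nat_lit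 0) (nat_lit 5275690410) (nat_lit 152) (nat_lit 11696800207) (nat_lit 76) (nat_lit 28755094329) (nat_lit 27) (nat_lit 5) (nat_lit 29) (nat_lit 5) (nat_lit 28) (nat_lit 5) (nat_lit 377) (nat_lit 274) (nat_lit 129)) (XT.lf (nat_lit 0) (nat_lit 3977795376) (nat_lit 152) (nat_lit 8366639633) (nat_lit 228) (nat_lit 34485023729) (nat_lit 25) (nat_lit 5) (nat_lit 27) (nat_lit 5) (nat_lit 28) (nat_lit 5) (nat_lit 378) (nat_lit 274) (nat_lit 128))) (XT.nd (nat_lit 78) (nat_lit 0) (nat_lit 0) (XT.lf (nat_lit 0) (nat_lit 19742282753) (nat_lit 228) (nat_lit 27617028960) (nat_lit 76) (nat_lit 601567893) (nat_lit 25) (nat_lit 5) (nat_lit 28) (nat_lit 5) (nat_lit 26) (nat_lit 4) (nat_lit 379) (nat_lit 274) (nat_lit 127)) (XT.lf (nat_lit 0) (nat_lit 27438083962) (nat_lit 228) (nat_lit 12020460320) (nat_lit 76) (nat_lit 9665420302) (nat_lit 25) (nat_lit 5) (nat_lit 28) (nat_lit 5) (nat_lit 26) (nat_lit 4) (nat_lit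 380) (nat_lit 274) (nat_lit 126)))) (XT.nd (nat_lit 156) (nat_lit 228) (nat_lit 0) (XT.nd (nat_lit 78) (nat_lit 0) (nat_lit 0) (XT.lf (nat_lit 0) (nat_lit 4112342498) (nat_lit 76) (nat_lit 31285325719) (nat_lit 152) (nat_lit 14923288591) (nat_lit 24) (nat_lit 5) (nat_lit 25) (nat_lit 5) (nat_lit 26) (nat_lit 4) (nat_lit 381) (nat_lit 274) (nat_lit 125)) (XT.lf (nat_lit 0) (nat_lit 20963744319) (nat_lit 76) (nat_lit 22747136913) (nat_lit 152) (nat_lit 7839534237) (nat_lit 24) (nat_lit 5) (nat_lit 25) (nat_lit 5) (nat_lit 26) (nat_lit 4) (nat_lit 382) (nat_lit 274) (nat_lit 124))) (XT.nd (nat_lit 78) (nat_lit 228) (nat_lit 0) (XT.lf (nat_lit 0) (nat_lit 38309238938) (nat_lit 76) (nat_lit 13957900393) (nat_lit 152) (nat_lit 549810952) (nat_lit 24) (nat_lit 5) (nat_lit 25) (nat_lit 5) (nat_lit 26) (nat_lit 4) (nat_lit 383) (nat_lit 274) (nat_lit 123)) (XT.lf (nat_lit 0) (nat_lit 2014801425) (nat_lit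 152) (nat_lit 4821153545) (nat_lit 228) (nat_lit 47283127057) (nat_lit 21) (nat_lit 5) (nat_lit 23) (nat_lit 5) (nat_lit 24) (nat_lit 5) (nat_lit 384) (nat_lit 274) (nat_lit 122))))))))
noncomputable def xc140 : XT := (XT.nd (nat_lit 32136) (nat_lit 0) (nat_lit 11628) (XT.nd (nat_lit 1092) (nat_lit 380) (nat_lit 0) (XT.nd (nat_lit 546) (nat_lit 76) (nat_lit 0) (XT.nd (nat_lit 234) (nat_lit 228) (nat_lit 0) (XT.nd (nat_lit 78) (nat_lit 0) (nat_lit 0) (XT.lf (nat_lit 0) (nat_lit 14618109564) (nat_lit 228) (nat_lit 36187782216) (nat_lit 76) (nat_lit 4648648338) (nat_lit 21) (nat_lit 5) (nat_lit 24) (nat_lit 5) (nat_lit 22) (nat_lit 4) (nat_lit 385) (nat_lit 274) (nat_lit 121)) (XT.nd (nat_lit 78) (nat_lit 0) (nat_lit 0) (XT.lf (nat_lit 0) (nat_lit 22675441104) (nat_lit 228) (nat_lit 19852464615) (nat_lit 76) (nat_lit 14300906510) (nat_lit 21) (nat_lit 5) (nat_lit 24) (nat_lit 5) (nat_lit 22) (nat_lit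 4) (nat_lit 386) (nat_lit 274) (nat_lit 120)) (XT.lf (nat_lit 0) (nat_lit 30968646098) (nat_lit 228) (nat_lit 3037710345) (nat_lit 76) (nat_lit 24238133053) (nat_lit 21) (nat_lit 5) (nat_lit 24) (nat_lit 5) (nat_lit 22) (nat_lit 4) (nat_lit 387) (nat_lit 274) (nat_lit 119)))) (XT.nd (nat_lit 156) (nat_lit 152) (nat_lit 0) (XT.nd (nat_lit 78) (nat_lit 0) (nat_lit 0) (XT.lf (nat_lit 0) (nat_lit 14555197426) (nat_lit 76) (nat_lit 25089687073) (nat_lit 152) (nat_lit 20053727017) (nat_lit 20) (nat_lit 5) (nat_lit 21) (nat_lit 5) (nat_lit 22) (nat_lit 4) (nat_lit 388) (nat_lit 274) (nat_lit 118)) (XT.lf (nat_lit 0) (nat_lit 32727950173) (nat_lit 76) (nat_lit 15878525752) (nat_lit 152) (nat_lit 12589130803) (nat_lit 20) (nat_lit 5) (nat_lit 21) (nat_lit 5) (nat_lit 22) (nat_lit 4) (nat_lit 389) (nat_lit 274) (nat_lit 117))) (XT.nd (nat_lit 78) (nat_lit 152) (nat_lit 0) (XT.lf (nat_lit 0) (nat_lit 51435970606)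 (nat_lit 76) (nat_lit 6395498811) (nat_lit 152) (nat_lit 4906207211) (nat_lit 20) (nat_lit 5) (nat_lit 21) (nat_lit 5) (nat_lit 22) (nat_lit 4) (nat_lit 390) (nat_lit 274) (nat_lit 116)) (XT.lf (nat_lit 0) (nat_lit 3038617832) (nat_lit 152) (nat_lit 57889939326) (nat_lit 76) (nat_lit 3393882780) (nat_lit 18) (nat_lit 5) (nat_lit 20) (nat_lit 5) (nat_lit 19) (nat_lit 4) (nat_lit 391) (nat_lit 274) (nat_lit 115))))) (XT.nd (nat_lit 234) (nat_lit 76) (nat_lit 0) (XT.nd (nat_lit 78) (nat_lit 0) (nat_lit 0) (XT.lf (nat_lit 0) (nat_lit 11296434701) (nat_lit 152) (nat_lit 41143699199) (nat_lit 76) (nat_lit 13507958588) (nat_lit 18) (nat_lit 5) (nat_lit 20) (nat_lit 5) (nat_lit 19) (nat_lit 4) (nat_lit 392) (nat_lit 274) (nat_lit 114)) (XT.nd (nat_lit 78) (nat_lit 0) (nat_lit 0) (XT.lf (nat_lit 0) (nat_lit 19796821211) (nat_lit 152) (nat_lit 23904543824) (nat_lit 76) (nat_lit 23921305824) (nat_lit 18) (nat_lit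 5) (nat_lit 20) (nat_lit 5) (nat_lit 19) (nat_lit 4) (nat_lit 393) (nat_lit 274) (nat_lit 113)) (XT.lf (nat_lit 0) (nat_lit 28547204884) (nat_lit 152) (nat_lit 6157409862) (nat_lit 76) (nat_lit 34643023531) (nat_lit 18) (nat_lit 5) (nat_lit 20) (nat_lit 5) (nat_lit 19) (nat_lit 4) (nat_lit 394) (nat_lit 274) (nat_lit 112)))) (XT.nd (nat_lit 156) (nat_lit 0) (nat_lit 0) (XT.nd (nat_lit 78) (nat_lit 0) (nat_lit 0) (XT.lf (nat_lit 0) (nat_lit 12354286520) (nat_lit 76) (nat_lit 25319702126) (nat_lit 152) (nat_lit 33446950640) (nat_lit 17) (nat_lit 5) (nat_lit 18) (nat_lit 5) (nat_lit 19) (nat_lit 4) (nat_lit 395) (nat_lit 274) (nat_lit 111)) (XT.lf (nat_lit 0) (nat_lit 31538713965) (nat_lit 76) (nat_lit 15593228157) (nat_lit 152) (nat_lit 25813777407) (nat_lit 17) (nat_lit 5) (nat_lit 18) (nat_lit 5) (nat_lit 19) (nat_lit 4) (nat_lit 396) (nat_lit 274) (nat_lit 110))) (XT.nd (nat_lit 78) (nat_lit 0)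 (nat_lit 0) (XT.lf (nat_lit 0) (nat_lit 51290091034) (nat_lit 76) (nat_lit 5578871745) (nat_lit 152) (nat_lit 17956421696) (nat_lit 17) (nat_lit 5) (nat_lit 18) (nat_lit 5) (nat_lit 19) (nat_lit 4) (nat_lit 397) (nat_lit 274) (nat_lit 109)) (XT.lf (nat_lit 0) (nat_lit 66939046702) (nat_lit 152) (nat_lit 5181388349) (nat_lit 0) (nat_lit 4639776861) (nat_lit 17) (nat_lit 5) (nat_lit 19) (nat_lit 4) (nat_lit 17) (nat_lit 4) (nat_lit 398) (nat_lit 274) (nat_lit 108)))))) (XT.nd (nat_lit 546) (nat_lit 152) (nat_lit 0) (XT.nd (nat_lit 234) (nat_lit 76) (nat_lit 0) (XT.nd (nat_lit 78) (nat_lit 76) (nat_lit 0) (XT.lf (nat_lit 0) (nat_lit 13931564310) (nat_lit 76) (nat_lit 63564385198) (nat_lit 76) (nat_lit 1251594262) (nat_lit 16) (nat_lit 4) (nat_lit 17) (nat_lit 5) (nat_lit 17) (nat_lit 4) (nat_lit 399) (nat_lit 274) (nat_lit 107)) (XT.nd (nat_lit 78) (nat_lit 0) (nat_lit 0) (XT.lf (nat_lit 0) (nat_lit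 7475655096) (nat_lit 152) (nat_lit 47150338365) (nat_lit 76) (nat_lit 26164866421) (nat_lit 15) (nat_lit 5) (nat_lit 17) (nat_lit 5) (nat_lit 16) (nat_lit 4) (nat_lit 400) (nat_lit 274) (nat_lit 106)) (XT.lf (nat_lit 0) (nat_lit 16435263374) (nat_lit 152) (nat_lit 28975078489) (nat_lit 76) (nat_lit 37484891934) (nat_lit 15) (nat_lit 5) (nat_lit 17) (nat_lit 5) (nat_lit 16) (nat_lit 4) (nat_lit 401) (nat_lit 274) (nat_lit 105)))) (XT.nd (nat_lit 156) (nat_lit 0) (nat_lit 0) (XT.nd (nat_lit 78) (nat_lit 76) (nat_lit 0) (XT.lf (nat_lit 0) (nat_lit 25659482467) (nat_lit 152) (nat_lit 10262287448) (nat_lit 76) (nat_lit 49141095305) (nat_lit 15) (nat_lit 5) (nat_lit 17) (nat_lit 5) (nat_lit 16) (nat_lit 4) (nat_lit 402) (nat_lit 274) (nat_lit 104)) (XT.lf (nat_lit 0) (nat_lit 9183590673) (nat_lit 76) (nat_lit 26061059990) (nat_lit 152) (nat_lit 52048349185) (nat_lit 14) (nat_lit 5) (nat_lit 15) (nat_lit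 5) (nat_lit 16) (nat_lit 4) (nat_lit 403) (nat_lit 274) (nat_lit 103))) (XT.nd (nat_lit 78) (nat_lit 0) (nat_lit 0) (XT.lf (nat_lit 0) (nat_lit 29415783931) (nat_lit 76) (nat_lit 15801209920) (nat_lit 152) (nat_lit 44370056977) (nat_lit 14) (nat_lit 5) (nat_lit 15) (nat_lit 5) (nat_lit 16) (nat_lit 4) (nat_lit 404) (nat_lit 274) (nat_lit 102)) (XT.lf (nat_lit 0) (nat_lit 50247731300) (nat_lit 76) (nat_lit 5236883769) (nat_lit 152) (nat_lit 36465425922) (nat_lit 14) (nat_lit 5) (nat_lit 15) (nat_lit 5) (nat_lit 16) (nat_lit 4) (nat_lit 405) (nat_lit 274) (nat_lit 101))))) (XT.nd (nat_lit 234) (nat_lit 76) (nat_lit 0) (XT.nd (nat_lit 78) (nat_lit 76) (nat_lit 0) (XT.lf (nat_lit 0) (nat_lit 66110712204) (nat_lit 152) (nat_lit 22740625814) (nat_lit 0) (nat_lit 5531070282) (nat_lit 14) (nat_lit 5) (nat_lit 16) (nat_lit 4) (nat_lit 14) (nat_lit 4) (nat_lit 406) (nat_lit 274) (nat_lit 100)) (XT.nd (nat_lit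 78) (nat_lit 76) (nat_lit 0) (XT.lf (nat_lit 0) (nat_lit 77103743675) (nat_lit 152) (nat_lit 3268820284) (nat_lit 0) (nat_lit 16513738960) (nat_lit 14) (nat_lit 5) (nat_lit 16) (nat_lit 4) (nat_lit 14) (nat_lit 4) (nat_lit 407) (nat_lit 274) (nat_lit 99)) (XT.lf (nat_lit 0) (nat_lit 17114425308) (nat_lit 76) (nat_lit 71473063932) (nat_lit 76) (nat_lit 10872998253) (nat_lit 13) (nat_lit 4) (nat_lit 14) (nat_lit 5) (nat_lit 14) (nat_lit 4) (nat_lit 408) (nat_lit 274) (nat_lit 98)))) (XT.nd (nat_lit 156) (nat_lit 0) (nat_lit 0) (XT.nd (nat_lit 78) (nat_lit 76) (nat_lit 0) (XT.lf (nat_lit 0) (nat_lit 38169563168) (nat_lit 76) (nat_lit 62275642535) (nat_lit 76) (nat_lit 1665808930) (nat_lit 13) (nat_lit 4) (nat_lit 14) (nat_lit 5) (nat_lit 14) (nat_lit 4) (nat_lit 409) (nat_lit 274) (nat_lit 97)) (XT.lf (nat_lit 0) (nat_lit 7661564997) (nat_lit 152) (nat_lit 45066340083) (nat_lit 76) (nat_lit 52111003273)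 (nat_lit 12) (nat_lit 5) (nat_lit 14) (nat_lit 5) (nat_lit 13) (nat_lit 4) (nat_lit 410) (nat_lit 274) (nat_lit 96))) (XT.nd (nat_lit 30030) (nat_lit 0) (nat_lit 19760) (XT.lf (nat_lit 0) (nat_lit 17231898823) (nat_lit 152) (nat_lit 25647769623) (nat_lit 76) (nat_lit 64768577769) (nat_lit 12) (nat_lit 5) (nat_lit 14) (nat_lit 5) (nat_lit 13) (nat_lit 4) (nat_lit 411) (nat_lit 274) (nat_lit 95)) (XT.lf (nat_lit 0) (nat_lit 2689883232) (nat_lit 836) (nat_lit 508630922) (nat_lit 836) (nat_lit 508630922) (nat_lit 272) (nat_lit 3) (nat_lit 283) (nat_lit 3) (nat_lit 283) (nat_lit 5) (nat_lit 275) (nat_lit 275) (nat_lit 230))))))) (XT.nd (nat_lit 1092) (nat_lit 5700) (nat_lit 0) (XT.nd (nat_lit 546) (nat_lit 836) (nat_lit 0) (XT.nd (nat_lit 234) (nat_lit 760) (nat_lit 0) (XT.nd (nat_lit 78) (nat_lit 836) (nat_lit 0) (XT.lf (nat_lit 76) (nat_lit 2477344191) (nat_lit 0) (nat_lit 4428300260) (nat_lit 836)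 (nat_lit 574649513) (nat_lit 273) (nat_lit 5) (nat_lit 272) (nat_lit 3) (nat_lit 283) (nat_lit 5) (nat_lit 276) (nat_lit 275) (nat_lit 229)) (XT.nd (nat_lit 78) (nat_lit 0) (nat_lit 0) (XT.lf (nat_lit 0) (nat_lit 864890967) (nat_lit 836) (nat_lit 1489726302) (nat_lit 912) (nat_lit 5194843043) (nat_lit 261) (nat_lit 5) (nat_lit 272) (nat_lit 3) (nat_lit 273) (nat_lit 5) (nat_lit 277) (nat_lit 275) (nat_lit 228)) (XT.lf (nat_lit 76) (nat_lit 2135392069) (nat_lit 0) (nat_lit 166468970) (nat_lit 912) (nat_lit 5319764368) (nat_lit 262) (nat_lit 5) (nat_lit 261) (nat_lit 5) (nat_lit 273) (nat_lit 5) (nat_lit 278) (nat_lit 275) (nat_lit 227)))) (XT.nd (nat_lit 156) (nat_lit 836) (nat_lit 0) (XT.nd (nat_lit 78) (nat_lit 0) (nat_lit 0) (XT.lf (nat_lit 0) (nat_lit 3764010128) (nat_lit 836) (nat_lit 1847009917) (nat_lit 912) (nat_lit 2085539569) (nat_lit 262) (nat_lit 5) (nat_lit 273) (nat_lit 5) (nat_lit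 274) (nat_lit 5) (nat_lit 279) (nat_lit 275) (nat_lit 226)) (XT.lf (nat_lit 76) (nat_lit 1906761330) (nat_lit 0) (nat_lit 3331601680) (nat_lit 912) (nat_lit 2536392983) (nat_lit 263) (nat_lit 5) (nat_lit 262) (nat_lit 5) (nat_lit 274) (nat_lit 5) (nat_lit 280) (nat_lit 275) (nat_lit 225))) (XT.nd (nat_lit 78) (nat_lit 836) (nat_lit 0) (XT.lf (nat_lit 76) (nat_lit 5781115124) (nat_lit 0) (nat_lit 944061360) (nat_lit 912) (nat_lit 1131137332) (nat_lit 263) (nat_lit 5) (nat_lit 262) (nat_lit 5) (nat_lit 274) (nat_lit 5) (nat_lit 281) (nat_lit 275) (nat_lit 224)) (XT.lf (nat_lit 0) (nat_lit 293193287) (nat_lit 912) (nat_lit 6122133247) (nat_lit 988) (nat_lit 1525466830) (nat_lit 251) (nat_lit 5) (nat_lit 263) (nat_lit 5) (nat_lit 264) (nat_lit 5) (nat_lit 282) (nat_lit 275) (nat_lit 223))))) (XT.nd (nat_lit 234) (nat_lit 836) (nat_lit 0) (XT.nd (nat_lit 78) (nat_lit 0) (nat_lit 0) (XT.lf (nat_lit 0)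 (nat_lit 1719866403) (nat_lit 912) (nat_lit 2207515320) (nat_lit 988) (nat_lit 4100676326) (nat_lit 251) (nat_lit 5) (nat_lit 263) (nat_lit 5) (nat_lit 264) (nat_lit 5) (nat_lit 283) (nat_lit 275) (nat_lit 222)) (XT.nd (nat_lit 78) (nat_lit 0) (nat_lit 76) (XT.lf (nat_lit 76) (nat_lit 1829704575) (nat_lit 0) (nat_lit 1330463434) (nat_lit 988) (nat_lit 4958703306) (nat_lit 252) (nat_lit 5) (nat_lit 251) (nat_lit 5) (nat_lit 264) (nat_lit 5) (nat_lit 284) (nat_lit 275) (nat_lit 221)) (XT.lf (nat_lit 0) (nat_lit 4633573573) (nat_lit 912) (nat_lit 2223405104) (nat_lit 988) (nat_lit 1355787326) (nat_lit 252) (nat_lit 5) (nat_lit 264) (nat_lit 5) (nat_lit 265) (nat_lit 5) (nat_lit 285) (nat_lit 275) (nat_lit 220)))) (XT.nd (nat_lit 156) (nat_lit 912) (nat_lit 0) (XT.nd (nat_lit 78) (nat_lit 0) (nat_lit 0) (XT.lf (nat_lit 76) (nat_lit 1958485922) (nat_lit 0) (nat_lit 4180480656) (nat_lit 988) (nat_lit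 2170929699) (nat_lit 253) (nat_lit 5) (nat_lit 252) (nat_lit 5) (nat_lit 265) (nat_lit 5) (nat_lit 286) (nat_lit 275) (nat_lit 219)) (XT.lf (nat_lit 76) (nat_lit 6280826455) (nat_lit 0) (nat_lit 1387926933) (nat_lit 988) (nat_lit 741860888) (nat_lit 253) (nat_lit 5) (nat_lit 252) (nat_lit 5) (nat_lit 265) (nat_lit 5) (nat_lit 287) (nat_lit 275) (nat_lit 218))) (XT.nd (nat_lit 78) (nat_lit 0) (nat_lit 0) (XT.lf (nat_lit 0) (nat_lit 709492112) (nat_lit 988) (nat_lit 6305241930) (nat_lit 1064) (nat_lit 1499647341) (nat_lit 240) (nat_lit 5) (nat_lit 253) (nat_lit 5) (nat_lit 254) (nat_lit 5) (nat_lit 288) (nat_lit 275) (nat_lit 217)) (XT.lf (nat_lit 0) (nat_lit 2183563680) (nat_lit 988) (nat_lit 1951707992) (nat_lit 1064) (nat_lit 4485993287) (nat_lit 240) (nat_lit 5) (nat_lit 253) (nat_lit 5) (nat_lit 254) (nat_lit 5) (nat_lit 289) (nat_lit 275) (nat_lit 216)))))) (XT.nd (nat_lit 546) (nat_lit 2508)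 (nat_lit 0) (XT.nd (nat_lit 234) (nat_lit 2280) (nat_lit 0) (XT.nd (nat_lit 78) (nat_lit 912) (nat_lit 0) (XT.lf (nat_lit 76) (nat_lit 2551458106) (nat_lit 0) (nat_lit 1134757674) (nat_lit 1064) (nat_lit 5045653628) (nat_lit 241) (nat_lit 5) (nat_lit 240) (nat_lit 5) (nat_lit 254) (nat_lit 5) (nat_lit 290) (nat_lit 275) (nat_lit 215)) (XT.nd (nat_lit 78) (nat_lit 988) (nat_lit 0) (XT.lf (nat_lit 0) (nat_lit 5233445299) (nat_lit 988) (nat_lit 1666236468) (nat_lit 76) (nat_lit 1946169091) (nat_lit 241) (nat_lit 5) (nat_lit 254) (nat_lit 5) (nat_lit 242) (nat_lit 5) (nat_lit 291) (nat_lit 275) (nat_lit 214)) (XT.lf (nat_lit 0) (nat_lit 2999823208) (nat_lit 988) (nat_lit 3829275993) (nat_lit 1064) (nat_lit 2134134852) (nat_lit 228) (nat_lit 5) (nat_lit 241) (nat_lit 5) (nat_lit 242) (nat_lit 5) (nat_lit 292) (nat_lit 275) (nat_lit 213)))) (XT.nd (nat_lit 156) (nat_lit 1140) (nat_lit 0) (XT.nd (nat_lit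 78) (nat_lit 1140) (nat_lit 0) (XT.lf (nat_lit 0) (nat_lit 7809480732) (nat_lit 988) (nat_lit 642718933) (nat_lit 1064) (nat_lit 632593057) (nat_lit 228) (nat_lit 5) (nat_lit 241) (nat_lit 5) (nat_lit 242) (nat_lit 5) (nat_lit 293) (nat_lit 275) (nat_lit 212)) (XT.lf (nat_lit 0) (nat_lit 919910670) (nat_lit 1140) (nat_lit 5651529013) (nat_lit 76) (nat_lit 2637621282) (nat_lit 213) (nat_lit 5) (nat_lit 228) (nat_lit 5) (nat_lit 214) (nat_lit 5) (nat_lit 294) (nat_lit 275) (nat_lit 211))) (XT.nd (nat_lit 78) (nat_lit 1140) (nat_lit 0) (XT.lf (nat_lit 0) (nat_lit 2489912847) (nat_lit 1140) (nat_lit 819206228) (nat_lit 76) (nat_lit 6028278930) (nat_lit 213) (nat_lit 5) (nat_lit 228) (nat_lit 5) (nat_lit 214) (nat_lit 5) (nat_lit 295) (nat_lit 275) (nat_lit 210)) (XT.lf (nat_lit 0) (nat_lit 4113725295) (nat_lit 1216) (nat_lit 5260519423) (nat_lit 76) (nat_lit 95175816) (nat_lit 198) (nat_lit 5) (nat_lit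 214) (nat_lit 5) (nat_lit 199) (nat_lit 5) (nat_lit 296) (nat_lit 275) (nat_lit 209))))) (XT.nd (nat_lit 312) (nat_lit 1064) (nat_lit 0) (XT.nd (nat_lit 156) (nat_lit 684) (nat_lit 0) (XT.nd (nat_lit 78) (nat_lit 760) (nat_lit 0) (XT.lf (nat_lit 0) (nat_lit 5793438021) (nat_lit 1216) (nat_lit 264524387) (nat_lit 76) (nat_lit 3547261370) (nat_lit 198) (nat_lit 5) (nat_lit 214) (nat_lit 5) (nat_lit 199) (nat_lit 5) (nat_lit 297) (nat_lit 275) (nat_lit 208)) (XT.lf (nat_lit 0) (nat_lit 4947636557) (nat_lit 760) (nat_lit 2590521655) (nat_lit 836) (nat_lit 2206539002) (nat_lit 188) (nat_lit 5) (nat_lit 198) (nat_lit 5) (nat_lit 199) (nat_lit 5) (nat_lit 298) (nat_lit 275) (nat_lit 207))) (XT.nd (nat_lit 78) (nat_lit 76) (nat_lit 0) (XT.lf (nat_lit 0) (nat_lit 400685647) (nat_lit 608) (nat_lit 8918263105) (nat_lit 684) (nat_lit 569927811) (nat_lit 180) (nat_lit 5) (nat_lit 188) (nat_lit 5) (nat_lit 189)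 (nat_lit 5) (nat_lit 299) (nat_lit 275) (nat_lit 206)) (XT.lf (nat_lit 0) (nat_lit 1136627592) (nat_lit 684) (nat_lit 4251433735) (nat_lit 76) (nat_lit 4647751277) (nat_lit 179) (nat_lit 5) (nat_lit 188) (nat_lit 5) (nat_lit 180) (nat_lit 5) (nat_lit 300) (nat_lit 275) (nat_lit 205)))) (XT.nd (nat_lit 156) (nat_lit 532) (nat_lit 0) (XT.nd (nat_lit 78) (nat_lit 0) (nat_lit 0) (XT.lf (nat_lit 0) (nat_lit 1128363759) (nat_lit 532) (nat_lit 1734387581) (nat_lit 608) (nat_lit 7324872024) (nat_lit 172) (nat_lit 5) (nat_lit 179) (nat_lit 5) (nat_lit 180) (nat_lit 5) (nat_lit 301) (nat_lit 275) (nat_lit 204)) (XT.lf (nat_lit 0) (nat_lit 4673114477) (nat_lit 608) (nat_lit 3637007317) (nat_lit 76) (nat_lit 2032922810) (nat_lit 172) (nat_lit 5) (nat_lit 180) (nat_lit 5) (nat_lit 173) (nat_lit 5) (nat_lit 302) (nat_lit 275) (nat_lit 203))) (XT.nd (nat_lit 78) (nat_lit 0) (nat_lit 0) (XT.lf (nat_lit 0) (nat_lit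 1938386497) (nat_lit 532) (nat_lit 4605689138) (nat_lit 608) (nat_lit 3958893192) (nat_lit 165) (nat_lit 5) (nat_lit 172) (nat_lit 5) (nat_lit 173) (nat_lit 5) (nat_lit 303) (nat_lit 275) (nat_lit 202)) (XT.lf (nat_lit 0) (nat_lit 7725714292) (nat_lit 532) (nat_lit 753232489) (nat_lit 608) (nat_lit 2188538675) (nat_lit 165) (nat_lit 5) (nat_lit 172) (nat_lit 5) (nat_lit 173) (nat_lit 5) (nat_lit 304) (nat_lit 275) (nat_lit 201))))))))
noncomputable def xc141 : XT := (XT.nd (nat_lit 2184) (nat_lit 3344) (nat_lit 0) (XT.nd (nat_lit 1092) (nat_lit 2356) (nat_lit 0) (XT.nd (nat_lit 546) (nat_lit 1672) (nat_lit 0) (XT.nd (nat_lit 234) (nat_lit 988) (nat_lit 0) (XT.nd (nat_lit 78) (nat_lit 608) (nat_lit 0) (XT.lf (nat_lit 0) (nat_lit 2844453094) (nat_lit 532) (nat_lit 7657545028) (nat_lit 608) (nat_lit 334062736) (nat_lit 158) (nat_lit 5) (nat_lit 165) (nat_lit 5) (nat_lit 166) (nat_lit 5) (nat_lit 305)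 (nat_lit 275) (nat_lit 200)) (XT.nd (nat_lit 78) (nat_lit 532) (nat_lit 0) (XT.lf (nat_lit 0) (nat_lit 1554875336) (nat_lit 608) (nat_lit 2197298426) (nat_lit 76) (nat_lit 7256803527) (nat_lit 157) (nat_lit 5) (nat_lit 165) (nat_lit 5) (nat_lit 158) (nat_lit 5) (nat_lit 306) (nat_lit 275) (nat_lit 199)) (XT.lf (nat_lit 0) (nat_lit 3506326004) (nat_lit 608) (nat_lit 7377044688) (nat_lit 76) (nat_lit 303259509) (nat_lit 150) (nat_lit 5) (nat_lit 158) (nat_lit 5) (nat_lit 151) (nat_lit 5) (nat_lit 307) (nat_lit 275) (nat_lit 198)))) (XT.nd (nat_lit 156) (nat_lit 532) (nat_lit 0) (XT.nd (nat_lit 78) (nat_lit 456) (nat_lit 0) (XT.lf (nat_lit 0) (nat_lit 5549300733) (nat_lit 608) (nat_lit 1394392146) (nat_lit 76) (nat_lit 4424954659) (nat_lit 150) (nat_lit 5) (nat_lit 158) (nat_lit 5) (nat_lit 151) (nat_lit 5) (nat_lit 308) (nat_lit 275) (nat_lit 197)) (XT.lf (nat_lit 0) (nat_lit 4833125830) (nat_lit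 456) (nat_lit 2841094159) (nat_lit 532) (nat_lit 3881309293) (nat_lit 144) (nat_lit 5) (nat_lit 150) (nat_lit 5) (nat_lit 151) (nat_lit 5) (nat_lit 309) (nat_lit 275) (nat_lit 196))) (XT.nd (nat_lit 78) (nat_lit 532) (nat_lit 0) (XT.lf (nat_lit 0) (nat_lit 9865057012) (nat_lit 532) (nat_lit 514383977) (nat_lit 76) (nat_lit 1368534244) (nat_lit 144) (nat_lit 5) (nat_lit 151) (nat_lit 5) (nat_lit 145) (nat_lit 5) (nat_lit 310) (nat_lit 275) (nat_lit 195)) (XT.lf (nat_lit 0) (nat_lit 233178896) (nat_lit 532) (nat_lit 6007582084) (nat_lit 76) (nat_lit 5703569218) (nat_lit 137) (nat_lit 5) (nat_lit 144) (nat_lit 5) (nat_lit 138) (nat_lit 5) (nat_lit 311) (nat_lit 275) (nat_lit 194))))) (XT.nd (nat_lit 234) (nat_lit 836) (nat_lit 0) (XT.nd (nat_lit 78) (nat_lit 456) (nat_lit 0) (XT.lf (nat_lit 0) (nat_lit 406002517) (nat_lit 380) (nat_lit 1953624374) (nat_lit 456) (nat_lit 9786869175) (nat_lit 132) (nat_lit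 5) (nat_lit 137) (nat_lit 5) (nat_lit 138) (nat_lit 5) (nat_lit 312) (nat_lit 275) (nat_lit 193)) (XT.nd (nat_lit 78) (nat_lit 456) (nat_lit 0) (XT.lf (nat_lit 0) (nat_lit 4610760363) (nat_lit 456) (nat_lit 5271210428) (nat_lit 76) (nat_lit 2470949670) (nat_lit 132) (nat_lit 5) (nat_lit 138) (nat_lit 5) (nat_lit 133) (nat_lit 5) (nat_lit 313) (nat_lit 275) (nat_lit 192)) (XT.lf (nat_lit 0) (nat_lit 1371236469) (nat_lit 456) (nat_lit 5567374700) (nat_lit 532) (nat_lit 5626670638) (nat_lit 126) (nat_lit 5) (nat_lit 132) (nat_lit 5) (nat_lit 133) (nat_lit 5) (nat_lit 314) (nat_lit 275) (nat_lit 191)))) (XT.nd (nat_lit 156) (nat_lit 456) (nat_lit 0) (XT.nd (nat_lit 78) (nat_lit 380) (nat_lit 0) (XT.lf (nat_lit 0) (nat_lit 8292959498) (nat_lit 456) (nat_lit 1073636415) (nat_lit 532) (nat_lit 3416528274) (nat_lit 126) (nat_lit 5) (nat_lit 132) (nat_lit 5) (nat_lit 133) (nat_lit 5) (nat_lit 315) (nat_lit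 275) (nat_lit 190)) (XT.lf (nat_lit 0) (nat_lit 2399611897) (nat_lit 380) (nat_lit 9502736452) (nat_lit 456) (nat_lit 1104124231) (nat_lit 121) (nat_lit 5) (nat_lit 126) (nat_lit 5) (nat_lit 127) (nat_lit 5) (nat_lit 316) (nat_lit 275) (nat_lit 189))) (XT.nd (nat_lit 78) (nat_lit 380) (nat_lit 0) (XT.lf (nat_lit 0) (nat_lit 1286980522) (nat_lit 456) (nat_lit 3698454816) (nat_lit 76) (nat_lit 8249707356) (nat_lit 120) (nat_lit 5) (nat_lit 126) (nat_lit 5) (nat_lit 121) (nat_lit 5) (nat_lit 317) (nat_lit 275) (nat_lit 188)) (XT.lf (nat_lit 0) (nat_lit 3446279031) (nat_lit 380) (nat_lit 292960110) (nat_lit 456) (nat_lit 9730774445) (nat_lit 115) (nat_lit 5) (nat_lit 120) (nat_lit 5) (nat_lit 121) (nat_lit 5) (nat_lit 318) (nat_lit 275) (nat_lit 187)))))) (XT.nd (nat_lit 546) (nat_lit 1216) (nat_lit 0) (XT.nd (nat_lit 234) (nat_lit 760) (nat_lit 0) (XT.nd (nat_lit 78) (nat_lit 380) (nat_lit 0) (XT.lf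 (nat_lit 0) (nat_lit 6325222614) (nat_lit 456) (nat_lit 2901223868) (nat_lit 76) (nat_lit 4483695928) (nat_lit 115) (nat_lit 5) (nat_lit 121) (nat_lit 5) (nat_lit 116) (nat_lit 5) (nat_lit 319) (nat_lit 275) (nat_lit 186)) (XT.nd (nat_lit 78) (nat_lit 0) (nat_lit 0) (XT.lf (nat_lit 0) (nat_lit 4492969093) (nat_lit 380) (nat_lit 4521319983) (nat_lit 456) (nat_lit 4942436949) (nat_lit 110) (nat_lit 5) (nat_lit 115) (nat_lit 5) (nat_lit 116) (nat_lit 5) (nat_lit 320) (nat_lit 275) (nat_lit 185)) (XT.lf (nat_lit 0) (nat_lit 11796436344) (nat_lit 456) (nat_lit 2071848600) (nat_lit 76) (nat_lit 342065509) (nat_lit 110) (nat_lit 5) (nat_lit 116) (nat_lit 5) (nat_lit 111) (nat_lit 5) (nat_lit 321) (nat_lit 275) (nat_lit 184)))) (XT.nd (nat_lit 156) (nat_lit 304) (nat_lit 0) (XT.nd (nat_lit 78) (nat_lit 0) (nat_lit 0) (XT.lf (nat_lit 0) (nat_lit 266202298) (nat_lit 456) (nat_lit 8892195601) (nat_lit 76)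 (nat_lit 5310761825) (nat_lit 104) (nat_lit 5) (nat_lit 110) (nat_lit 5) (nat_lit 105) (nat_lit 5) (nat_lit 322) (nat_lit 275) (nat_lit 183)) (XT.lf (nat_lit 0) (nat_lit 2979740961) (nat_lit 456) (nat_lit 1287925671) (nat_lit 76) (nat_lit 10467317801) (nat_lit 104) (nat_lit 5) (nat_lit 110) (nat_lit 5) (nat_lit 105) (nat_lit 5) (nat_lit 323) (nat_lit 275) (nat_lit 182))) (XT.nd (nat_lit 78) (nat_lit 0) (nat_lit 0) (XT.lf (nat_lit 0) (nat_lit 5827542380) (nat_lit 380) (nat_lit 8366865347) (nat_lit 76) (nat_lit 812804291) (nat_lit 100) (nat_lit 5) (nat_lit 105) (nat_lit 5) (nat_lit 101) (nat_lit 5) (nat_lit 324) (nat_lit 275) (nat_lit 181)) (XT.lf (nat_lit 0) (nat_lit 8797389734) (nat_lit 380) (nat_lit 522644907) (nat_lit 76) (nat_lit 5966486859) (nat_lit 100) (nat_lit 5) (nat_lit 105) (nat_lit 5) (nat_lit 101) (nat_lit 5) (nat_lit 325) (nat_lit 275) (nat_lit 180))))) (XT.nd (nat_lit 234) (nat_lit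 532) (nat_lit 0) (XT.nd (nat_lit 78) (nat_lit 380) (nat_lit 0) (XT.lf (nat_lit 0) (nat_lit 7681639226) (nat_lit 304) (nat_lit 4230304262) (nat_lit 380) (nat_lit 3660611487) (nat_lit 96) (nat_lit 5) (nat_lit 100) (nat_lit 5) (nat_lit 101) (nat_lit 5) (nat_lit 326) (nat_lit 275) (nat_lit 179)) (XT.nd (nat_lit 78) (nat_lit 76) (nat_lit 0) (XT.lf (nat_lit 0) (nat_lit 245364598) (nat_lit 304) (nat_lit 14873981698) (nat_lit 380) (nat_lit 747853442) (nat_lit 92) (nat_lit 5) (nat_lit 96) (nat_lit 5) (nat_lit 97) (nat_lit 5) (nat_lit 327) (nat_lit 275) (nat_lit 178)) (XT.lf (nat_lit 0) (nat_lit 2312782998) (nat_lit 380) (nat_lit 7470643326) (nat_lit 76) (nat_lit 6383486564) (nat_lit 91) (nat_lit 5) (nat_lit 96) (nat_lit 5) (nat_lit 92) (nat_lit 5) (nat_lit 328) (nat_lit 275) (nat_lit 177)))) (XT.nd (nat_lit 156) (nat_lit 228) (nat_lit 0) (XT.nd (nat_lit 78) (nat_lit 0) (nat_lit 0) (XT.lf (nat_lit 0) (nat_lit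 910677680) (nat_lit 304) (nat_lit 4530895356) (nat_lit 380) (nat_lit 11034092874) (nat_lit 87) (nat_lit 5) (nat_lit 91) (nat_lit 5) (nat_lit 92) (nat_lit 5) (nat_lit 329) (nat_lit 275) (nat_lit 176)) (XT.lf (nat_lit 0) (nat_lit 8731675104) (nat_lit 380) (nat_lit 7129020951) (nat_lit 76) (nat_lit 930973265) (nat_lit 87) (nat_lit 5) (nat_lit 92) (nat_lit 5) (nat_lit 88) (nat_lit 5) (nat_lit 330) (nat_lit 275) (nat_lit 175))) (XT.nd (nat_lit 78) (nat_lit 0) (nat_lit 0) (XT.lf (nat_lit 0) (nat_lit 1520581353) (nat_lit 228) (nat_lit 10642687678) (nat_lit 304) (nat_lit 4952611055) (nat_lit 84) (nat_lit 5) (nat_lit 87) (nat_lit 5) (nat_lit 88) (nat_lit 5) (nat_lit 331) (nat_lit 275) (nat_lit 174)) (XT.lf (nat_lit 0) (nat_lit 10551791803) (nat_lit 228) (nat_lit 5201574988) (nat_lit 304) (nat_lit 1694794304) (nat_lit 84) (nat_lit 5) (nat_lit 87) (nat_lit 5) (nat_lit 88) (nat_lit 5) (nat_lit 332) (nat_lit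 275) (nat_lit 173))))))) (XT.nd (nat_lit 1092) (nat_lit 1444) (nat_lit 0) (XT.nd (nat_lit 546) (nat_lit 760) (nat_lit 0) (XT.nd (nat_lit 234) (nat_lit 532) (nat_lit 0) (XT.nd (nat_lit 78) (nat_lit 228) (nat_lit 0) (XT.lf (nat_lit 0) (nat_lit 1636223212) (nat_lit 380) (nat_lit 15729789344) (nat_lit 76) (nat_lit 423692835) (nat_lit 79) (nat_lit 5) (nat_lit 84) (nat_lit 5) (nat_lit 80) (nat_lit 5) (nat_lit 333) (nat_lit 275) (nat_lit 172)) (XT.nd (nat_lit 78) (nat_lit 228) (nat_lit 0) (XT.lf (nat_lit 0) (nat_lit 5138987096) (nat_lit 380) (nat_lit 6805949343) (nat_lit 76) (nat_lit 6192889489) (nat_lit 79) (nat_lit 5) (nat_lit 84) (nat_lit 5) (nat_lit 80) (nat_lit 5) (nat_lit 334) (nat_lit 275) (nat_lit 171)) (XT.lf (nat_lit 0) (nat_lit 2409486838) (nat_lit 228) (nat_lit 6345022573) (nat_lit 304) (nat_lit 9741659821) (nat_lit 76) (nat_lit 5) (nat_lit 79) (nat_lit 5) (nat_lit 80) (nat_lit 5) (nat_lit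 335) (nat_lit 275) (nat_lit 170)))) (XT.nd (nat_lit 156) (nat_lit 304) (nat_lit 0) (XT.nd (nat_lit 78) (nat_lit 228) (nat_lit 0) (XT.lf (nat_lit 0) (nat_lit 12017991438) (nat_lit 228) (nat_lit 513977578) (nat_lit 304) (nat_lit 6331698815) (nat_lit 76) (nat_lit 5) (nat_lit 79) (nat_lit 5) (nat_lit 80) (nat_lit 5) (nat_lit 336) (nat_lit 275) (nat_lit 169)) (XT.lf (nat_lit 0) (nat_lit 2648831133) (nat_lit 228) (nat_lit 13837293674) (nat_lit 304) (nat_lit 2754174286) (nat_lit 73) (nat_lit 5) (nat_lit 76) (nat_lit 5) (nat_lit 77) (nat_lit 5) (nat_lit 337) (nat_lit 275) (nat_lit 168))) (XT.nd (nat_lit 78) (nat_lit 228) (nat_lit 0) (XT.lf (nat_lit 0) (nat_lit 972598604) (nat_lit 304) (nat_lit 7095077363) (nat_lit 76) (nat_lit 11558490803) (nat_lit 72) (nat_lit 5) (nat_lit 76) (nat_lit 5) (nat_lit 73) (nat_lit 5) (nat_lit 338) (nat_lit 275) (nat_lit 167)) (XT.lf (nat_lit 0) (nat_lit 2689370643) (nat_lit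 228) (nat_lit 2077913559) (nat_lit 304) (nat_lit 15255172358) (nat_lit 69) (nat_lit 5) (nat_lit 72) (nat_lit 5) (nat_lit 73) (nat_lit 5) (nat_lit 339) (nat_lit 275) (nat_lit 166))))) (XT.nd (nat_lit 234) (nat_lit 532) (nat_lit 0) (XT.nd (nat_lit 78) (nat_lit 228) (nat_lit 0) (XT.lf (nat_lit 0) (nat_lit 8773245969) (nat_lit 304) (nat_lit 7577919289) (nat_lit 76) (nat_lit 4076554604) (nat_lit 69) (nat_lit 5) (nat_lit 73) (nat_lit 5) (nat_lit 70) (nat_lit 5) (nat_lit 340) (nat_lit 275) (nat_lit 165)) (XT.nd (nat_lit 78) (nat_lit 0) (nat_lit 0) (XT.lf (nat_lit 0) (nat_lit 2476104827) (nat_lit 228) (nat_lit 10453821519) (nat_lit 304) (nat_lit 7914306184) (nat_lit 66) (nat_lit 5) (nat_lit 69) (nat_lit 5) (nat_lit 70) (nat_lit 5) (nat_lit 341) (nat_lit 275) (nat_lit 164)) (XT.lf (nat_lit 0) (nat_lit 12965758946) (nat_lit 228) (nat_lit 4308432768) (nat_lit 304) (nat_lit 3997169759) (nat_lit 66) (nat_lit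 5) (nat_lit 69) (nat_lit 5) (nat_lit 70) (nat_lit 5) (nat_lit 342) (nat_lit 275) (nat_lit 163)))) (XT.nd (nat_lit 156) (nat_lit 228) (nat_lit 0) (XT.nd (nat_lit 78) (nat_lit 0) (nat_lit 0) (XT.lf (nat_lit 0) (nat_lit 62904307) (nat_lit 304) (nat_lit 19652656126) (nat_lit 76) (nat_lit 1994955405) (nat_lit 62) (nat_lit 5) (nat_lit 66) (nat_lit 5) (nat_lit 63) (nat_lit 5) (nat_lit 343) (nat_lit 275) (nat_lit 162)) (XT.lf (nat_lit 0) (nat_lit 4278538386) (nat_lit 304) (nat_lit 9362016710) (nat_lit 76) (nat_lit 8517686354) (nat_lit 62) (nat_lit 5) (nat_lit 66) (nat_lit 5) (nat_lit 63) (nat_lit 5) (nat_lit 344) (nat_lit 275) (nat_lit 161))) (XT.nd (nat_lit 78) (nat_lit 0) (nat_lit 0) (XT.lf (nat_lit 0) (nat_lit 1241067916) (nat_lit 228) (nat_lit 7378628228) (nat_lit 304) (nat_lit 13999737652) (nat_lit 59) (nat_lit 5) (nat_lit 62) (nat_lit 5) (nat_lit 63) (nat_lit 5) (nat_lit 345) (nat_lit 275) (nat_lit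 160)) (XT.lf (nat_lit 0) (nat_lit 12333866467) (nat_lit 228) (nat_lit 839064892) (nat_lit 304) (nat_lit 9919081685) (nat_lit 59) (nat_lit 5) (nat_lit 62) (nat_lit 5) (nat_lit 63) (nat_lit 5) (nat_lit 346) (nat_lit 275) (nat_lit 159)))))) (XT.nd (nat_lit 546) (nat_lit 836) (nat_lit 0) (XT.nd (nat_lit 234) (nat_lit 380) (nat_lit 0) (XT.nd (nat_lit 78) (nat_lit 76) (nat_lit 0) (XT.lf (nat_lit 0) (nat_lit 106061507) (nat_lit 152) (nat_lit 17802007792) (nat_lit 228) (nat_lit 5669347428) (nat_lit 57) (nat_lit 5) (nat_lit 59) (nat_lit 5) (nat_lit 60) (nat_lit 5) (nat_lit 347) (nat_lit 275) (nat_lit 158)) (XT.nd (nat_lit 78) (nat_lit 76) (nat_lit 0) (XT.lf (nat_lit 0) (nat_lit 11488445617) (nat_lit 152) (nat_lit 11401452310) (nat_lit 228) (nat_lit 1184351541) (nat_lit 57) (nat_lit 5) (nat_lit 59) (nat_lit 5) (nat_lit 60) (nat_lit 5) (nat_lit 348) (nat_lit 275) (nat_lit 157)) (XT.lf (nat_lit 0) (nat_lit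 3356168262) (nat_lit 228) (nat_lit 1426183322) (nat_lit 76) (nat_lit 19803010459) (nat_lit 56) (nat_lit 5) (nat_lit 59) (nat_lit 5) (nat_lit 57) (nat_lit 5) (nat_lit 349) (nat_lit 275) (nat_lit 156)))) (XT.nd (nat_lit 156) (nat_lit 152) (nat_lit 0) (XT.nd (nat_lit 78) (nat_lit 0) (nat_lit 0) (XT.lf (nat_lit 0) (nat_lit 8116448839) (nat_lit 304) (nat_lit 14892085794) (nat_lit 76) (nat_lit 2099706622) (nat_lit 53) (nat_lit 5) (nat_lit 57) (nat_lit 5) (nat_lit 54) (nat_lit 5) (nat_lit 350) (nat_lit 275) (nat_lit 155)) (XT.lf (nat_lit 0) (nat_lit 13069878024) (nat_lit 304) (nat_lit 3475871493) (nat_lit 76) (nat_lit 9099552491) (nat_lit 53) (nat_lit 5) (nat_lit 57) (nat_lit 5) (nat_lit 54) (nat_lit 5) (nat_lit 351) (nat_lit 275) (nat_lit 154))) (XT.nd (nat_lit 78) (nat_lit 0) (nat_lit 0) (XT.lf (nat_lit 0) (nat_lit 8428856228) (nat_lit 152) (nat_lit 9812859633) (nat_lit 228) (nat_lit 7954669765) (nat_lit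 51) (nat_lit 5) (nat_lit 53) (nat_lit 5) (nat_lit 54) (nat_lit 5) (nat_lit 352) (nat_lit 275) (nat_lit 153)) (XT.lf (nat_lit 0) (nat_lit 20743708275) (nat_lit 152) (nat_lit 2849033609) (nat_lit 228) (nat_lit 3170543941) (nat_lit 51) (nat_lit 5) (nat_lit 53) (nat_lit 5) (nat_lit 54) (nat_lit 5) (nat_lit 353) (nat_lit 275) (nat_lit 152))))) (XT.nd (nat_lit 312) (nat_lit 380) (nat_lit 0) (XT.nd (nat_lit 156) (nat_lit 152) (nat_lit 0) (XT.nd (nat_lit 78) (nat_lit 0) (nat_lit 0) (XT.lf (nat_lit 0) (nat_lit 1813484992) (nat_lit 304) (nat_lit 21221195605) (nat_lit 76) (nat_lit 4309290488) (nat_lit 47) (nat_lit 5) (nat_lit 51) (nat_lit 5) (nat_lit 48) (nat_lit 5) (nat_lit 354) (nat_lit 275) (nat_lit 151)) (XT.lf (nat_lit 0) (nat_lit 6962127975) (nat_lit 304) (nat_lit 9265700457) (nat_lit 76) (nat_lit 11710946819) (nat_lit 47) (nat_lit 5) (nat_lit 51) (nat_lit 5) (nat_lit 48) (nat_lit 5) (nat_lit 355) (nat_lit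 275) (nat_lit 150))) (XT.nd (nat_lit 78) (nat_lit 0) (nat_lit 0) (XT.lf (nat_lit 0) (nat_lit 3091266676) (nat_lit 152) (nat_lit 9193214590) (nat_lit 228) (nat_lit 16266369244) (nat_lit 45) (nat_lit 5) (nat_lit 47) (nat_lit 5) (nat_lit 48) (nat_lit 5) (nat_lit 356) (nat_lit 275) (nat_lit 149)) (XT.lf (nat_lit 0) (nat_lit 15991537697) (nat_lit 152) (nat_lit 1858206811) (nat_lit 228) (nat_lit 11329050706) (nat_lit 45) (nat_lit 5) (nat_lit 47) (nat_lit 5) (nat_lit 48) (nat_lit 5) (nat_lit 357) (nat_lit 275) (nat_lit 148)))) (XT.nd (nat_lit 156) (nat_lit 228) (nat_lit 0) (XT.nd (nat_lit 78) (nat_lit 152) (nat_lit 0) (XT.lf (nat_lit 0) (nat_lit 23626636482) (nat_lit 228) (nat_lit 618600312) (nat_lit 76) (nat_lit 5579005579) (nat_lit 45) (nat_lit 5) (nat_lit 48) (nat_lit 5) (nat_lit 46) (nat_lit 5) (nat_lit 358) (nat_lit 275) (nat_lit 147)) (XT.lf (nat_lit 0) (nat_lit 12536776295) (nat_lit 152) (nat_lit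 17169171294) (nat_lit 228) (nat_lit 779236104) (nat_lit 43) (nat_lit 5) (nat_lit 45) (nat_lit 5) (nat_lit 46) (nat_lit 5) (nat_lit 359) (nat_lit 275) (nat_lit 146))) (XT.nd (nat_lit 78) (nat_lit 152) (nat_lit 0) (XT.lf (nat_lit 0) (nat_lit 4704526111) (nat_lit 228) (nat_lit 5129105172) (nat_lit 76) (nat_lit 21331044963) (nat_lit 42) (nat_lit 5) (nat_lit 45) (nat_lit 5) (nat_lit 43) (nat_lit 5) (nat_lit 360) (nat_lit 275) (nat_lit 145)) (XT.lf (nat_lit 0) (nat_lit 8211158499) (nat_lit 152) (nat_lit 2195427033) (nat_lit 228) (nat_lit 21455656967) (nat_lit 40) (nat_lit 5) (nat_lit 42) (nat_lit 5) (nat_lit 43) (nat_lit 5) (nat_lit 361) (nat_lit 275) (nat_lit 144))))))))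
noncomputable def xc142 : XT := (XT.nd (nat_lit 2184) (nat_lit 608) (nat_lit 0) (XT.nd (nat_lit 1092) (nat_lit 684) (nat_lit 0) (XT.nd (nat_lit 546) (nat_lit 304) (nat_lit 0) (XT.nd (nat_lit 234) (nat_lit 380) (nat_lit 0) (XT.nd (nat_lit 78) (nat_lit 152) (nat_lit 0) (XT.lf (nat_lit 0) (nat_lit 16377110127) (nat_lit 228) (nat_lit 10593639513) (nat_lit 76) (nat_lit 5607067655) (nat_lit 40) (nat_lit 5) (nat_lit 43) (nat_lit 5) (nat_lit 41) (nat_lit 5) (nat_lit 362) (nat_lit 275) (nat_lit 143)) (XT.nd (nat_lit 78) (nat_lit 0) (nat_lit 0) (XT.lf (nat_lit 0) (nat_lit 2874153691) (nat_lit 152) (nat_lit 19692810995) (nat_lit 228) (nat_lit 10746691774) (nat_lit 38) (nat_lit 5) (nat_lit 40) (nat_lit 5) (nat_lit 41) (nat_lit 5) (nat_lit 363) (nat_lit 275) (nat_lit 142)) (XT.lf (nat_lit 0) (nat_lit 16947571254) (nat_lit 152) (nat_lit 12092884688) (nat_lit 228) (nat_lit 5028180072) (nat_lit 38) (nat_lit 5)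 (nat_lit 40) (nat_lit 5) (nat_lit 41) (nat_lit 5) (nat_lit 364) (nat_lit 275) (nat_lit 141)))) (XT.nd (nat_lit 156) (nat_lit 152) (nat_lit 0) (XT.nd (nat_lit 78) (nat_lit 152) (nat_lit 0) (XT.lf (nat_lit 0) (nat_lit 836207538) (nat_lit 228) (nat_lit 3426653401) (nat_lit 76) (nat_lit 30583424545) (nat_lit 37) (nat_lit 5) (nat_lit 40) (nat_lit 5) (nat_lit 38) (nat_lit 5) (nat_lit 365) (nat_lit 275) (nat_lit 140)) (XT.lf (nat_lit 0) (nat_lit 6908931807) (nat_lit 228) (nat_lit 24855725746) (nat_lit 76) (nat_lit 3877112527) (nat_lit 35) (nat_lit 5) (nat_lit 38) (nat_lit 5) (nat_lit 36) (nat_lit 5) (nat_lit 366) (nat_lit 275) (nat_lit 139))) (XT.nd (nat_lit 78) (nat_lit 152) (nat_lit 0) (XT.lf (nat_lit 0) (nat_lit 13232436121) (nat_lit 228) (nat_lit 11022166162) (nat_lit 76) (nat_lit 12204462044) (nat_lit 35) (nat_lit 5) (nat_lit 38) (nat_lit 5) (nat_lit 36) (nat_lit 5) (nat_lit 367) (nat_lit 275) (nat_lit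 138)) (XT.lf (nat_lit 0) (nat_lit 3275856077) (nat_lit 152) (nat_lit 16492974838) (nat_lit 228) (nat_lit 17531353899) (nat_lit 33) (nat_lit 5) (nat_lit 35) (nat_lit 5) (nat_lit 36) (nat_lit 5) (nat_lit 368) (nat_lit 275) (nat_lit 137))))) (XT.nd (nat_lit 234) (nat_lit 152) (nat_lit 0) (XT.nd (nat_lit 78) (nat_lit 152) (nat_lit 0) (XT.lf (nat_lit 0) (nat_lit 18214436544) (nat_lit 152) (nat_lit 8389983253) (nat_lit 228) (nat_lit 11559028939) (nat_lit 33) (nat_lit 5) (nat_lit 35) (nat_lit 5) (nat_lit 36) (nat_lit 5) (nat_lit 369) (nat_lit 275) (nat_lit 136)) (XT.nd (nat_lit 78) (nat_lit 152) (nat_lit 0) (XT.lf (nat_lit 0) (nat_lit 33587265648) (nat_lit 152) (nat_lit 49849511) (nat_lit 228) (nat_lit 5415737056) (nat_lit 33) (nat_lit 5) (nat_lit 35) (nat_lit 5) (nat_lit 36) (nat_lit 5) (nat_lit 370) (nat_lit 275) (nat_lit 135)) (XT.lf (nat_lit 0) (nat_lit 1061743942) (nat_lit 152) (nat_lit 30431591886)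 (nat_lit 76) (nat_lit 8470311136) (nat_lit 31) (nat_lit 5) (nat_lit 33) (nat_lit 5) (nat_lit 32) (nat_lit 5) (nat_lit 371) (nat_lit 275) (nat_lit 134)))) (XT.nd (nat_lit 156) (nat_lit 152) (nat_lit 0) (XT.nd (nat_lit 78) (nat_lit 0) (nat_lit 0) (XT.lf (nat_lit 0) (nat_lit 7673163115) (nat_lit 152) (nat_lit 15876811595) (nat_lit 76) (nat_lit 17348730835) (nat_lit 31) (nat_lit 5) (nat_lit 33) (nat_lit 5) (nat_lit 32) (nat_lit 5) (nat_lit 372) (nat_lit 275) (nat_lit 133)) (XT.lf (nat_lit 0) (nat_lit 14475384065) (nat_lit 152) (nat_lit 898694459) (nat_lit 76) (nat_lit 26487966074) (nat_lit 31) (nat_lit 5) (nat_lit 33) (nat_lit 5) (nat_lit 32) (nat_lit 5) (nat_lit 373) (nat_lit 275) (nat_lit 132))) (XT.nd (nat_lit 78) (nat_lit 0) (nat_lit 0) (XT.lf (nat_lit 0) (nat_lit 14804741018) (nat_lit 152) (nat_lit 6811921689) (nat_lit 228) (nat_lit 21233573801) (nat_lit 29) (nat_lit 5) (nat_lit 31) (nat_lit 5)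 (nat_lit 32) (nat_lit 5) (nat_lit 374) (nat_lit 275) (nat_lit 131)) (XT.lf (nat_lit 0) (nat_lit 28993353732) (nat_lit 228) (nat_lit 12902441485) (nat_lit 76) (nat_lit 1971646087) (nat_lit 29) (nat_lit 5) (nat_lit 32) (nat_lit 5) (nat_lit 30) (nat_lit 4) (nat_lit 375) (nat_lit 275) (nat_lit 130)))))) (XT.nd (nat_lit 546) (nat_lit 304) (nat_lit 0) (XT.nd (nat_lit 234) (nat_lit 228) (nat_lit 0) (XT.nd (nat_lit 78) (nat_lit 76) (nat_lit 0) (XT.lf (nat_lit 0) (nat_lit 2666919855) (nat_lit 76) (nat_lit 34010434278) (nat_lit 152) (nat_lit 8235230129) (nat_lit 28) (nat_lit 5) (nat_lit 29) (nat_lit 5) (nat_lit 30) (nat_lit 4) (nat_lit 376) (nat_lit 275) (nat_lit 129)) (XT.nd (nat_lit 78) (nat_lit 76) (nat_lit 0) (XT.lf (nat_lit 0) (nat_lit 18955392047) (nat_lit 76) (nat_lit 25759785909) (nat_lit 152) (nat_lit 1270206664) (nat_lit 28) (nat_lit 5) (nat_lit 29) (nat_lit 5) (nat_lit 30) (nat_lit 4) (nat_lit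 377) (nat_lit 275) (nat_lit 128)) (XT.lf (nat_lit 0) (nat_lit 5781712001) (nat_lit 152) (nat_lit 11426834209) (nat_lit 76) (nat_lit 29880327897) (nat_lit 27) (nat_lit 5) (nat_lit 29) (nat_lit 5) (nat_lit 28) (nat_lit 5) (nat_lit 378) (nat_lit 275) (nat_lit 127)))) (XT.nd (nat_lit 156) (nat_lit 76) (nat_lit 0) (XT.nd (nat_lit 78) (nat_lit 0) (nat_lit 0) (XT.lf (nat_lit 0) (nat_lit 4711912281) (nat_lit 152) (nat_lit 8346387662) (nat_lit 228) (nat_lit 35165633824) (nat_lit 25) (nat_lit 5) (nat_lit 27) (nat_lit 5) (nat_lit 28) (nat_lit 5) (nat_lit 379) (nat_lit 275) (nat_lit 126)) (XT.lf (nat_lit 0) (nat_lit 20670608824) (nat_lit 228) (nat_lit 27841089008) (nat_lit 76) (nat_lit 877826651) (nat_lit 25) (nat_lit 5) (nat_lit 28) (nat_lit 5) (nat_lit 26) (nat_lit 4) (nat_lit 380) (nat_lit 275) (nat_lit 125))) (XT.nd (nat_lit 78) (nat_lit 76) (nat_lit 0) (XT.lf (nat_lit 0) (nat_lit 28587495984) (nat_lit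 228) (nat_lit 11794228673) (nat_lit 76) (nat_lit 10206073902) (nat_lit 25) (nat_lit 5) (nat_lit 28) (nat_lit 5) (nat_lit 26) (nat_lit 4) (nat_lit 381) (nat_lit 275) (nat_lit 124)) (XT.lf (nat_lit 0) (nat_lit 4816804842) (nat_lit 76) (nat_lit 31965145741) (nat_lit 152) (nat_lit 15038870303) (nat_lit 24) (nat_lit 5) (nat_lit 25) (nat_lit 5) (nat_lit 26) (nat_lit 4) (nat_lit 382) (nat_lit 275) (nat_lit 123))))) (XT.nd (nat_lit 234) (nat_lit 76) (nat_lit 0) (XT.nd (nat_lit 78) (nat_lit 228) (nat_lit 0) (XT.lf (nat_lit 0) (nat_lit 22156823707) (nat_lit 76) (nat_lit 23178347380) (nat_lit 152) (nat_lit 7752276628) (nat_lit 24) (nat_lit 5) (nat_lit 25) (nat_lit 5) (nat_lit 26) (nat_lit 4) (nat_lit 383) (nat_lit 275) (nat_lit 122)) (XT.nd (nat_lit 78) (nat_lit 228) (nat_lit 0) (XT.lf (nat_lit 0) (nat_lit 40006251114) (nat_lit 76) (nat_lit 14132750375) (nat_lit 152) (nat_lit 253253207) (nat_lit 24) (nat_lit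 5) (nat_lit 25) (nat_lit 5) (nat_lit 26) (nat_lit 4) (nat_lit 384) (nat_lit 275) (nat_lit 121)) (XT.lf (nat_lit 0) (nat_lit 2623744639) (nat_lit 152) (nat_lit 4720564694) (nat_lit 228) (nat_lit 48389163316) (nat_lit 21) (nat_lit 5) (nat_lit 23) (nat_lit 5) (nat_lit 24) (nat_lit 5) (nat_lit 385) (nat_lit 275) (nat_lit 120)))) (XT.nd (nat_lit 156) (nat_lit 76) (nat_lit 0) (XT.nd (nat_lit 78) (nat_lit 0) (nat_lit 0) (XT.lf (nat_lit 0) (nat_lit 15353383872) (nat_lit 228) (nat_lit 36734266389) (nat_lit 76) (nat_lit 5021542996) (nat_lit 21) (nat_lit 5) (nat_lit 24) (nat_lit 5) (nat_lit 22) (nat_lit 4) (nat_lit 386) (nat_lit 275) (nat_lit 119)) (XT.lf (nat_lit 0) (nat_lit 23643792707) (nat_lit 228) (nat_lit 19924592638) (nat_lit 76) (nat_lit 14956569829) (nat_lit 21) (nat_lit 5) (nat_lit 24) (nat_lit 5) (nat_lit 22) (nat_lit 4) (nat_lit 387) (nat_lit 275) (nat_lit 118))) (XT.nd (nat_lit 78) (nat_lit 76)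 (nat_lit 0) (XT.lf (nat_lit 0) (nat_lit 32177402928) (nat_lit 228) (nat_lit 2620641737) (nat_lit 76) (nat_lit 25185312117) (nat_lit 21) (nat_lit 5) (nat_lit 24) (nat_lit 5) (nat_lit 22) (nat_lit 4) (nat_lit 388) (nat_lit 275) (nat_lit 117)) (XT.lf (nat_lit 0) (nat_lit 15495070914) (nat_lit 76) (nat_lit 25615548273) (nat_lit 152) (nat_lit 20370584781) (nat_lit 20) (nat_lit 5) (nat_lit 21) (nat_lit 5) (nat_lit 22) (nat_lit 4) (nat_lit 389) (nat_lit 275) (nat_lit 116))))))) (XT.nd (nat_lit 1092) (nat_lit 228) (nat_lit 0) (XT.nd (nat_lit 546) (nat_lit 152) (nat_lit 0) (XT.nd (nat_lit 234) (nat_lit 76) (nat_lit 0) (XT.nd (nat_lit 78) (nat_lit 152) (nat_lit 0) (XT.lf (nat_lit 0) (nat_lit 34198349421) (nat_lit 76) (nat_lit 16134658795) (nat_lit 152) (nat_lit 12690344487) (nat_lit 20) (nat_lit 5) (nat_lit 21) (nat_lit 5) (nat_lit 22) (nat_lit 4) (nat_lit 390) (nat_lit 275) (nat_lit 115)) (XT.nd (nat_lit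 78) (nat_lit 152) (nat_lit 0) (XT.lf (nat_lit 0) (nat_lit 53453380543) (nat_lit 76) (nat_lit 6373555300) (nat_lit 152) (nat_lit 4784985427) (nat_lit 20) (nat_lit 5) (nat_lit 21) (nat_lit 5) (nat_lit 22) (nat_lit 4) (nat_lit 391) (nat_lit 275) (nat_lit 114)) (XT.lf (nat_lit 0) (nat_lit 3391912359) (nat_lit 152) (nat_lit 59145900762) (nat_lit 76) (nat_lit 3706369967) (nat_lit 18) (nat_lit 5) (nat_lit 20) (nat_lit 5) (nat_lit 19) (nat_lit 4) (nat_lit 392) (nat_lit 275) (nat_lit 113)))) (XT.nd (nat_lit 156) (nat_lit 76) (nat_lit 0) (XT.nd (nat_lit 78) (nat_lit 0) (nat_lit 0) (XT.lf (nat_lit 0) (nat_lit 11889828705) (nat_lit 152) (nat_lit 41911275472) (nat_lit 76) (nat_lit 14117732009) (nat_lit 18) (nat_lit 5) (nat_lit 20) (nat_lit 5) (nat_lit 19) (nat_lit 4) (nat_lit 393) (nat_lit 275) (nat_lit 112)) (XT.lf (nat_lit 0) (nat_lit 20637814161) (nat_lit 152) (nat_lit 24168539651) (nat_lit 76) (nat_lit 24837522342)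 (nat_lit 18) (nat_lit 5) (nat_lit 20) (nat_lit 5) (nat_lit 19) (nat_lit 4) (nat_lit 394) (nat_lit 275) (nat_lit 111))) (XT.nd (nat_lit 78) (nat_lit 76) (nat_lit 0) (XT.lf (nat_lit 0) (nat_lit 29643512597) (nat_lit 152) (nat_lit 5902189936) (nat_lit 76) (nat_lit 35875107775) (nat_lit 18) (nat_lit 5) (nat_lit 20) (nat_lit 5) (nat_lit 19) (nat_lit 4) (nat_lit 395) (nat_lit 275) (nat_lit 110)) (XT.lf (nat_lit 0) (nat_lit 13160544178) (nat_lit 76) (nat_lit 25880756094) (nat_lit 152) (nat_lit 34206095821) (nat_lit 17) (nat_lit 5) (nat_lit 18) (nat_lit 5) (nat_lit 19) (nat_lit 4) (nat_lit 396) (nat_lit 275) (nat_lit 109))))) (XT.nd (nat_lit 234) (nat_lit 152) (nat_lit 0) (XT.nd (nat_lit 78) (nat_lit 0) (nat_lit 0) (XT.lf (nat_lit 0) (nat_lit 32907816221) (nat_lit 76) (nat_lit 15868270539) (nat_lit 152) (nat_lit 26351041857) (nat_lit 17) (nat_lit 5) (nat_lit 18) (nat_lit 5) (nat_lit 19) (nat_lit 4) (nat_lit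 397) (nat_lit 275) (nat_lit 108)) (XT.nd (nat_lit 78) (nat_lit 0) (nat_lit 0) (XT.lf (nat_lit 0) (nat_lit 53239415937) (nat_lit 76) (nat_lit 5559097643) (nat_lit 152) (nat_lit 18264872724) (nat_lit 17) (nat_lit 5) (nat_lit 18) (nat_lit 5) (nat_lit 19) (nat_lit 4) (nat_lit 398) (nat_lit 275) (nat_lit 107)) (XT.lf (nat_lit 0) (nat_lit 69165937350) (nat_lit 152) (nat_lit 4933351387) (nat_lit 0) (nat_lit 4957114316) (nat_lit 17) (nat_lit 5) (nat_lit 19) (nat_lit 4) (nat_lit 17) (nat_lit 4) (nat_lit 399) (nat_lit 275) (nat_lit 106)))) (XT.nd (nat_lit 156) (nat_lit 0) (nat_lit 0) (XT.nd (nat_lit 78) (nat_lit 76) (nat_lit 0) (XT.lf (nat_lit 0) (nat_lit 14749034179) (nat_lit 76) (nat_lit 65287983056) (nat_lit 76) (nat_lit 1066415094) (nat_lit 16) (nat_lit 4) (nat_lit 17) (nat_lit 5) (nat_lit 17) (nat_lit 4) (nat_lit 400) (nat_lit 275) (nat_lit 105)) (XT.lf (nat_lit 0) (nat_lit 7911944934) (nat_lit 152)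 (nat_lit 48172693462) (nat_lit 76) (nat_lit 27123537591) (nat_lit 15) (nat_lit 5) (nat_lit 17) (nat_lit 5) (nat_lit 16) (nat_lit 4) (nat_lit 401) (nat_lit 275) (nat_lit 104))) (XT.nd (nat_lit 78) (nat_lit 0) (nat_lit 0) (XT.lf (nat_lit 0) (nat_lit 17134166115) (nat_lit 152) (nat_lit 29463597782) (nat_lit 76) (nat_lit 38778103912) (nat_lit 15) (nat_lit 5) (nat_lit 17) (nat_lit 5) (nat_lit 16) (nat_lit 4) (nat_lit 402) (nat_lit 275) (nat_lit 103)) (XT.lf (nat_lit 0) (nat_lit 26629116300) (nat_lit 152) (nat_lit 10200512322) (nat_lit 76) (nat_lit 50779080805) (nat_lit 15) (nat_lit 5) (nat_lit 17) (nat_lit 5) (nat_lit 16) (nat_lit 4) (nat_lit 403) (nat_lit 275) (nat_lit 102)))))) (XT.nd (nat_lit 546) (nat_lit 76) (nat_lit 0) (XT.nd (nat_lit 234) (nat_lit 76) (nat_lit 0) (XT.nd (nat_lit 78) (nat_lit 0) (nat_lit 0) (XT.lf (nat_lit 0) (nat_lit 9825118184) (nat_lit 76) (nat_lit 26674418908) (nat_lit 152)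 (nat_lit 53406281422) (nat_lit 14) (nat_lit 5) (nat_lit 15) (nat_lit 5) (nat_lit 16) (nat_lit 4) (nat_lit 404) (nat_lit 275) (nat_lit 101)) (XT.nd (nat_lit 78) (nat_lit 0) (nat_lit 0) (XT.lf (nat_lit 0) (nat_lit 30653616470) (nat_lit 76) (nat_lit 16111680314) (nat_lit 152) (nat_lit 45503568163) (nat_lit 14) (nat_lit 5) (nat_lit 15) (nat_lit 5) (nat_lit 16) (nat_lit 4) (nat_lit 405) (nat_lit 275) (nat_lit 100)) (XT.lf (nat_lit 0) (nat_lit 52100171997) (nat_lit 76) (nat_lit 5235188434) (nat_lit 152) (nat_lit 37367553240) (nat_lit 14) (nat_lit 5) (nat_lit 15) (nat_lit 5) (nat_lit 16) (nat_lit 4) (nat_lit 406) (nat_lit 275) (nat_lit 99)))) (XT.nd (nat_lit 156) (nat_lit 76) (nat_lit 0) (XT.nd (nat_lit 78) (nat_lit 0) (nat_lit 0) (XT.lf (nat_lit 0) (nat_lit 68276299016) (nat_lit 152) (nat_lit 23083902057) (nat_lit 0) (nat_lit 5848170403) (nat_lit 14) (nat_lit 5) (nat_lit 16) (nat_lit 4) (nat_lit 14) (nat_lit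 4) (nat_lit 407) (nat_lit 275) (nat_lit 98)) (XT.lf (nat_lit 0) (nat_lit 79593812729) (nat_lit 152) (nat_lit 3037814473) (nat_lit 0) (nat_lit 17155916190) (nat_lit 14) (nat_lit 5) (nat_lit 16) (nat_lit 4) (nat_lit 14) (nat_lit 4) (nat_lit 408) (nat_lit 275) (nat_lit 97))) (XT.nd (nat_lit 78) (nat_lit 0) (nat_lit 0) (XT.lf (nat_lit 0) (nat_lit 17953702306) (nat_lit 76) (nat_lit 73466346489) (nat_lit 76) (nat_lit 11018966526) (nat_lit 13) (nat_lit 4) (nat_lit 14) (nat_lit 5) (nat_lit 14) (nat_lit 4) (nat_lit 409) (nat_lit 275) (nat_lit 96)) (XT.lf (nat_lit 0) (nat_lit 39631003693) (nat_lit 76) (nat_lit 63997397869) (nat_lit 76) (nat_lit 1540810699) (nat_lit 13) (nat_lit 4) (nat_lit 14) (nat_lit 5) (nat_lit 14) (nat_lit 4) (nat_lit 410) (nat_lit 275) (nat_lit 95))))) (XT.nd (nat_lit 30342) (nat_lit 0) (nat_lit 18088) (XT.nd (nat_lit 30186) (nat_lit 0) (nat_lit 18924) (XT.nd (nat_lit 30108) (nat_lit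 0) (nat_lit 18924) (XT.lf (nat_lit 0) (nat_lit 8057973263) (nat_lit 152) (nat_lit 46107840481) (nat_lit 76) (nat_lit 53813229559) (nat_lit 12) (nat_lit 5) (nat_lit 14) (nat_lit 5) (nat_lit 13) (nat_lit 4) (nat_lit 411) (nat_lit 275) (nat_lit 94)) (XT.lf (nat_lit 0) (nat_lit 200016335) (nat_lit 0) (nat_lit 200016335) (nat_lit 836) (nat_lit 3374024171) (nat_lit 261) (nat_lit 5) (nat_lit 261) (nat_lit 3) (nat_lit 272) (nat_lit 3) (nat_lit 276) (nat_lit 276) (nat_lit 228))) (XT.nd (nat_lit 78) (nat_lit 0) (nat_lit 0) (XT.lf (nat_lit 0) (nat_lit 2197584701) (nat_lit 836) (nat_lit 3651058921) (nat_lit 912) (nat_lit 1769428540) (nat_lit 261) (nat_lit 5) (nat_lit 272) (nat_lit 3) (nat_lit 273) (nat_lit 5) (nat_lit 277) (nat_lit 276) (nat_lit 227)) (XT.lf (nat_lit 0) (nat_lit 3587851107) (nat_lit 836) (nat_lit 81709599) (nat_lit 912) (nat_lit 4022110300) (nat_lit 261) (nat_lit 5) (nat_lit 272) (nat_lit 3)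 (nat_lit 273) (nat_lit 5) (nat_lit 278) (nat_lit 276) (nat_lit 226)))) (XT.nd (nat_lit 156) (nat_lit 836) (nat_lit 0) (XT.nd (nat_lit 78) (nat_lit 0) (nat_lit 76) (XT.lf (nat_lit 76) (nat_lit 3637920083) (nat_lit 0) (nat_lit 1365283828) (nat_lit 912) (nat_lit 2764836878) (nat_lit 262) (nat_lit 5) (nat_lit 261) (nat_lit 5) (nat_lit 273) (nat_lit 5) (nat_lit 279) (nat_lit 276) (nat_lit 225)) (XT.lf (nat_lit 0) (nat_lit 6421407427) (nat_lit 836) (nat_lit 414871312) (nat_lit 912) (nat_lit 1011673674) (nat_lit 262) (nat_lit 5) (nat_lit 273) (nat_lit 5) (nat_lit 274) (nat_lit 5) (nat_lit 280) (nat_lit 276) (nat_lit 224))) (XT.nd (nat_lit 78) (nat_lit 912) (nat_lit 0) (XT.lf (nat_lit 76) (nat_lit 3436929260) (nat_lit 0) (nat_lit 4443109696) (nat_lit 912) (nat_lit 50346606) (nat_lit 263) (nat_lit 5) (nat_lit 262) (nat_lit 5) (nat_lit 274) (nat_lit 5) (nat_lit 281) (nat_lit 276) (nat_lit 223)) (XT.lf (nat_lit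 0) (nat_lit 1296635737) (nat_lit 912) (nat_lit 644751040) (nat_lit 988) (nat_lit 6074882556) (nat_lit 250) (nat_lit 5) (nat_lit 262) (nat_lit 5) (nat_lit 263) (nat_lit 5) (nat_lit 282) (nat_lit 276) (nat_lit 222))))))))
noncomputable def xc143 : XT := (XT.nd (nat_lit 2184) (nat_lit 5472) (nat_lit 0) (XT.nd (nat_lit 1092) (nat_lit 4104) (nat_lit 0) (XT.nd (nat_lit 546) (nat_lit 3116) (nat_lit 0) (XT.nd (nat_lit 234) (nat_lit 912) (nat_lit 0) (XT.nd (nat_lit 78) (nat_lit 0) (nat_lit 0) (XT.lf (nat_lit 0) (nat_lit 2675228928) (nat_lit 912) (nat_lit 4755744184) (nat_lit 988) (nat_lit 674030638) (nat_lit 251) (nat_lit 5) (nat_lit 263) (nat_lit 5) (nat_lit 264) (nat_lit 5) (nat_lit 283) (nat_lit 276) (nat_lit 221)) (XT.nd (nat_lit 78) (nat_lit 0) (nat_lit 0) (XT.lf (nat_lit 0) (nat_lit 4075578747) (nat_lit 912) (nat_lit 768834896) (nat_lit 988) (nat_lit 3352628464) (nat_lit 251) (nat_lit 5) (nat_lit 263)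 (nat_lit 5) (nat_lit 264) (nat_lit 5) (nat_lit 284) (nat_lit 276) (nat_lit 220)) (XT.lf (nat_lit 76) (nat_lit 3374747617) (nat_lit 0) (nat_lit 2131555850) (nat_lit 988) (nat_lit 2785939517) (nat_lit 252) (nat_lit 5) (nat_lit 251) (nat_lit 5) (nat_lit 264) (nat_lit 5) (nat_lit 285) (nat_lit 276) (nat_lit 219)))) (XT.nd (nat_lit 156) (nat_lit 988) (nat_lit 0) (XT.nd (nat_lit 78) (nat_lit 0) (nat_lit 0) (XT.lf (nat_lit 0) (nat_lit 6951234669) (nat_lit 912) (nat_lit 768104065) (nat_lit 988) (nat_lit 671873393) (nat_lit 252) (nat_lit 5) (nat_lit 264) (nat_lit 5) (nat_lit 265) (nat_lit 5) (nat_lit 286) (nat_lit 276) (nat_lit 218)) (XT.lf (nat_lit 76) (nat_lit 3524322091) (nat_lit 0) (nat_lit 4928498423) (nat_lit 988) (nat_lit 39979927) (nat_lit 253) (nat_lit 5) (nat_lit 252) (nat_lit 5) (nat_lit 265) (nat_lit 5) (nat_lit 287) (nat_lit 276) (nat_lit 217))) (XT.nd (nat_lit 78) (nat_lit 0) (nat_lit 76) (XT.lf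 (nat_lit 0) (nat_lit 1341302961) (nat_lit 988) (nat_lit 679186519) (nat_lit 1064) (nat_lit 6577589770) (nat_lit 239) (nat_lit 5) (nat_lit 252) (nat_lit 5) (nat_lit 253) (nat_lit 5) (nat_lit 288) (nat_lit 276) (nat_lit 216)) (XT.lf (nat_lit 0) (nat_lit 2769440640) (nat_lit 988) (nat_lit 4933114320) (nat_lit 1064) (nat_lit 1003808108) (nat_lit 240) (nat_lit 5) (nat_lit 253) (nat_lit 5) (nat_lit 254) (nat_lit 5) (nat_lit 289) (nat_lit 276) (nat_lit 215))))) (XT.nd (nat_lit 234) (nat_lit 3192) (nat_lit 0) (XT.nd (nat_lit 78) (nat_lit 0) (nat_lit 0) (XT.lf (nat_lit 0) (nat_lit 4228355798) (nat_lit 988) (nat_lit 494448681) (nat_lit 1064) (nat_lit 4095496723) (nat_lit 240) (nat_lit 5) (nat_lit 253) (nat_lit 5) (nat_lit 254) (nat_lit 5) (nat_lit 290) (nat_lit 276) (nat_lit 214)) (XT.nd (nat_lit 78) (nat_lit 0) (nat_lit 76) (XT.lf (nat_lit 76) (nat_lit 4128951513) (nat_lit 0) (nat_lit 1603914912) (nat_lit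 1064) (nat_lit 3200718743) (nat_lit 241) (nat_lit 5) (nat_lit 240) (nat_lit 5) (nat_lit 254) (nat_lit 5) (nat_lit 291) (nat_lit 276) (nat_lit 213)) (XT.lf (nat_lit 0) (nat_lit 7266061846) (nat_lit 988) (nat_lit 196444365) (nat_lit 76) (nat_lit 1590356246) (nat_lit 241) (nat_lit 5) (nat_lit 254) (nat_lit 5) (nat_lit 242) (nat_lit 5) (nat_lit 292) (nat_lit 276) (nat_lit 212)))) (XT.nd (nat_lit 156) (nat_lit 1140) (nat_lit 0) (XT.nd (nat_lit 78) (nat_lit 1140) (nat_lit 0) (XT.lf (nat_lit 0) (nat_lit 4594697305) (nat_lit 988) (nat_lit 4274724370) (nat_lit 1064) (nat_lit 305611416) (nat_lit 228) (nat_lit 5) (nat_lit 241) (nat_lit 5) (nat_lit 242) (nat_lit 5) (nat_lit 293) (nat_lit 276) (nat_lit 211)) (XT.lf (nat_lit 0) (nat_lit 195323864) (nat_lit 1064) (nat_lit 969267317) (nat_lit 1140) (nat_lit 8136912089) (nat_lit 213) (nat_lit 5) (nat_lit 227) (nat_lit 5) (nat_lit 228) (nat_lit 5) (nat_lit 294) (nat_lit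 276) (nat_lit 210))) (XT.nd (nat_lit 78) (nat_lit 1140) (nat_lit 0) (XT.lf (nat_lit 0) (nat_lit 2708187172) (nat_lit 1140) (nat_lit 4279501802) (nat_lit 76) (nat_lit 2442961592) (nat_lit 213) (nat_lit 5) (nat_lit 228) (nat_lit 5) (nat_lit 214) (nat_lit 5) (nat_lit 295) (nat_lit 276) (nat_lit 209)) (XT.lf (nat_lit 0) (nat_lit 665884279) (nat_lit 1140) (nat_lit 3614524103) (nat_lit 1216) (nat_lit 5283829994) (nat_lit 198) (nat_lit 5) (nat_lit 213) (nat_lit 5) (nat_lit 214) (nat_lit 5) (nat_lit 296) (nat_lit 276) (nat_lit 208)))))) (XT.nd (nat_lit 546) (nat_lit 2128) (nat_lit 0) (XT.nd (nat_lit 234) (nat_lit 1216) (nat_lit 0) (XT.nd (nat_lit 78) (nat_lit 760) (nat_lit 0) (XT.lf (nat_lit 0) (nat_lit 5818157698) (nat_lit 1140) (nat_lit 91873148) (nat_lit 1216) (nat_lit 3791530516) (nat_lit 198) (nat_lit 5) (nat_lit 213) (nat_lit 5) (nat_lit 214) (nat_lit 5) (nat_lit 297) (nat_lit 276) (nat_lit 207))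 (XT.nd (nat_lit 78) (nat_lit 0) (nat_lit 0) (XT.lf (nat_lit 0) (nat_lit 1242874867) (nat_lit 760) (nat_lit 6359624879) (nat_lit 836) (nat_lit 2240119128) (nat_lit 188) (nat_lit 5) (nat_lit 198) (nat_lit 5) (nat_lit 199) (nat_lit 5) (nat_lit 298) (nat_lit 276) (nat_lit 206)) (XT.lf (nat_lit 0) (nat_lit 6572529225) (nat_lit 760) (nat_lit 2781996805) (nat_lit 836) (nat_lit 633151177) (nat_lit 188) (nat_lit 5) (nat_lit 198) (nat_lit 5) (nat_lit 199) (nat_lit 5) (nat_lit 299) (nat_lit 276) (nat_lit 205)))) (XT.nd (nat_lit 156) (nat_lit 532) (nat_lit 0) (XT.nd (nat_lit 78) (nat_lit 0) (nat_lit 0) (XT.lf (nat_lit 0) (nat_lit 998801623) (nat_lit 684) (nat_lit 8222353190) (nat_lit 76) (nat_lit 915766891) (nat_lit 179) (nat_lit 5) (nat_lit 188) (nat_lit 5) (nat_lit 180) (nat_lit 5) (nat_lit 300) (nat_lit 276) (nat_lit 204)) (XT.lf (nat_lit 0) (nat_lit 2699243201) (nat_lit 684) (nat_lit 2879131500) (nat_lit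 76) (nat_lit 4711142921) (nat_lit 179) (nat_lit 5) (nat_lit 188) (nat_lit 5) (nat_lit 180) (nat_lit 5) (nat_lit 301) (nat_lit 276) (nat_lit 203))) (XT.nd (nat_lit 78) (nat_lit 0) (nat_lit 0) (XT.lf (nat_lit 0) (nat_lit 2647355554) (nat_lit 532) (nat_lit 1799551284) (nat_lit 608) (nat_lit 5999927275) (nat_lit 172) (nat_lit 5) (nat_lit 179) (nat_lit 5) (nat_lit 180) (nat_lit 5) (nat_lit 302) (nat_lit 276) (nat_lit 202)) (XT.lf (nat_lit 0) (nat_lit 6267819294) (nat_lit 608) (nat_lit 2259044655) (nat_lit 76) (nat_lit 2081409696) (nat_lit 172) (nat_lit 5) (nat_lit 180) (nat_lit 5) (nat_lit 173) (nat_lit 5) (nat_lit 303) (nat_lit 276) (nat_lit 201))))) (XT.nd (nat_lit 234) (nat_lit 988) (nat_lit 0) (XT.nd (nat_lit 78) (nat_lit 608) (nat_lit 0) (XT.lf (nat_lit 0) (nat_lit 3469031828) (nat_lit 532) (nat_lit 4697667560) (nat_lit 608) (nat_lit 2607184066) (nat_lit 165) (nat_lit 5) (nat_lit 172) (nat_lit 5)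 (nat_lit 173) (nat_lit 5) (nat_lit 304) (nat_lit 276) (nat_lit 200)) (XT.nd (nat_lit 78) (nat_lit 608) (nat_lit 0) (XT.lf (nat_lit 0) (nat_lit 9387091289) (nat_lit 532) (nat_lit 730982617) (nat_lit 608) (nat_lit 826548309) (nat_lit 165) (nat_lit 5) (nat_lit 172) (nat_lit 5) (nat_lit 173) (nat_lit 5) (nat_lit 305) (nat_lit 276) (nat_lit 199)) (XT.lf (nat_lit 0) (nat_lit 1036220233) (nat_lit 608) (nat_lit 6741813177) (nat_lit 76) (nat_lit 3340732955) (nat_lit 157) (nat_lit 5) (nat_lit 165) (nat_lit 5) (nat_lit 158) (nat_lit 5) (nat_lit 306) (nat_lit 276) (nat_lit 198)))) (XT.nd (nat_lit 156) (nat_lit 456) (nat_lit 0) (XT.nd (nat_lit 78) (nat_lit 532) (nat_lit 0) (XT.lf (nat_lit 0) (nat_lit 2935104627) (nat_lit 608) (nat_lit 820270515) (nat_lit 76) (nat_lit 7542633070) (nat_lit 157) (nat_lit 5) (nat_lit 165) (nat_lit 5) (nat_lit 158) (nat_lit 5) (nat_lit 307) (nat_lit 276) (nat_lit 197)) (XT.lf (nat_lit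 0) (nat_lit 4921147732) (nat_lit 608) (nat_lit 6130263028) (nat_lit 76) (nat_lit 430334336) (nat_lit 150) (nat_lit 5) (nat_lit 158) (nat_lit 5) (nat_lit 151) (nat_lit 5) (nat_lit 308) (nat_lit 276) (nat_lit 196))) (XT.nd (nat_lit 78) (nat_lit 456) (nat_lit 0) (XT.lf (nat_lit 0) (nat_lit 6987267083) (nat_lit 608) (nat_lit 10890900) (nat_lit 76) (nat_lit 4672244116) (nat_lit 150) (nat_lit 5) (nat_lit 158) (nat_lit 5) (nat_lit 151) (nat_lit 5) (nat_lit 309) (nat_lit 276) (nat_lit 195)) (XT.lf (nat_lit 0) (nat_lit 6389478762) (nat_lit 456) (nat_lit 2762988391) (nat_lit 532) (nat_lit 2711160940) (nat_lit 144) (nat_lit 5) (nat_lit 150) (nat_lit 5) (nat_lit 151) (nat_lit 5) (nat_lit 310) (nat_lit 276) (nat_lit 194))))))) (XT.nd (nat_lit 1092) (nat_lit 2432) (nat_lit 0) (XT.nd (nat_lit 546) (nat_lit 1292) (nat_lit 0) (XT.nd (nat_lit 234) (nat_lit 836) (nat_lit 0) (XT.nd (nat_lit 78) (nat_lit 456) (nat_lit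 0) (XT.lf (nat_lit 0) (nat_lit 893796681) (nat_lit 456) (nat_lit 10488998591) (nat_lit 532) (nat_lit 679871980) (nat_lit 138) (nat_lit 5) (nat_lit 144) (nat_lit 5) (nat_lit 145) (nat_lit 5) (nat_lit 311) (nat_lit 276) (nat_lit 193)) (XT.nd (nat_lit 78) (nat_lit 380) (nat_lit 0) (XT.lf (nat_lit 0) (nat_lit 1444253337) (nat_lit 532) (nat_lit 4770430153) (nat_lit 76) (nat_lit 6050823378) (nat_lit 137) (nat_lit 5) (nat_lit 144) (nat_lit 5) (nat_lit 138) (nat_lit 5) (nat_lit 312) (nat_lit 276) (nat_lit 192)) (XT.lf (nat_lit 0) (nat_lit 1821666109) (nat_lit 380) (nat_lit 1791249540) (nat_lit 456) (nat_lit 8861499463) (nat_lit 132) (nat_lit 5) (nat_lit 137) (nat_lit 5) (nat_lit 138) (nat_lit 5) (nat_lit 313) (nat_lit 276) (nat_lit 191)))) (XT.nd (nat_lit 156) (nat_lit 380) (nat_lit 0) (XT.nd (nat_lit 78) (nat_lit 456) (nat_lit 0) (XT.lf (nat_lit 0) (nat_lit 5899203738) (nat_lit 456) (nat_lit 4033390310)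 (nat_lit 76) (nat_lit 2755438723) (nat_lit 132) (nat_lit 5) (nat_lit 138) (nat_lit 5) (nat_lit 133) (nat_lit 5) (nat_lit 314) (nat_lit 276) (nat_lit 190)) (XT.lf (nat_lit 0) (nat_lit 2794644146) (nat_lit 456) (nat_lit 5482034495) (nat_lit 532) (nat_lit 4630720960) (nat_lit 126) (nat_lit 5) (nat_lit 132) (nat_lit 5) (nat_lit 133) (nat_lit 5) (nat_lit 315) (nat_lit 276) (nat_lit 189))) (XT.nd (nat_lit 78) (nat_lit 380) (nat_lit 0) (XT.lf (nat_lit 0) (nat_lit 9883758558) (nat_lit 456) (nat_lit 860834394) (nat_lit 532) (nat_lit 2388199077) (nat_lit 126) (nat_lit 5) (nat_lit 132) (nat_lit 5) (nat_lit 133) (nat_lit 5) (nat_lit 316) (nat_lit 276) (nat_lit 188)) (XT.lf (nat_lit 0) (nat_lit 3831615715) (nat_lit 380) (nat_lit 9508210714) (nat_lit 456) (nat_lit 23538868) (nat_lit 121) (nat_lit 5) (nat_lit 126) (nat_lit 5) (nat_lit 127) (nat_lit 5) (nat_lit 317) (nat_lit 276) (nat_lit 187))))) (XT.nd (nat_lit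 234) (nat_lit 836) (nat_lit 0) (XT.nd (nat_lit 78) (nat_lit 380) (nat_lit 0) (XT.lf (nat_lit 0) (nat_lit 2385761407) (nat_lit 456) (nat_lit 2467067423) (nat_lit 76) (nat_lit 8746724814) (nat_lit 120) (nat_lit 5) (nat_lit 126) (nat_lit 5) (nat_lit 121) (nat_lit 5) (nat_lit 318) (nat_lit 276) (nat_lit 186)) (XT.nd (nat_lit 78) (nat_lit 0) (nat_lit 0) (XT.lf (nat_lit 0) (nat_lit 4878848234) (nat_lit 380) (nat_lit 14637671) (nat_lit 456) (nat_lit 8948552230) (nat_lit 115) (nat_lit 5) (nat_lit 120) (nat_lit 5) (nat_lit 121) (nat_lit 5) (nat_lit 319) (nat_lit 276) (nat_lit 185)) (XT.lf (nat_lit 0) (nat_lit 7529376843) (nat_lit 456) (nat_lit 1669331649) (nat_lit 76) (nat_lit 4891516193) (nat_lit 115) (nat_lit 5) (nat_lit 121) (nat_lit 5) (nat_lit 116) (nat_lit 5) (nat_lit 320) (nat_lit 276) (nat_lit 184)))) (XT.nd (nat_lit 156) (nat_lit 456) (nat_lit 0) (XT.nd (nat_lit 78) (nat_lit 0) (nat_lit 0) (XT.lf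 (nat_lit 0) (nat_lit 5933756425) (nat_lit 380) (nat_lit 4348367369) (nat_lit 456) (nat_lit 4062614772) (nat_lit 110) (nat_lit 5) (nat_lit 115) (nat_lit 5) (nat_lit 116) (nat_lit 5) (nat_lit 321) (nat_lit 276) (nat_lit 183)) (XT.lf (nat_lit 0) (nat_lit 13121564796) (nat_lit 456) (nat_lit 839129182) (nat_lit 76) (nat_lit 646085211) (nat_lit 110) (nat_lit 5) (nat_lit 116) (nat_lit 5) (nat_lit 111) (nat_lit 5) (nat_lit 322) (nat_lit 276) (nat_lit 182))) (XT.nd (nat_lit 78) (nat_lit 0) (nat_lit 0) (XT.lf (nat_lit 0) (nat_lit 1239627476) (nat_lit 456) (nat_lit 7856865347) (nat_lit 76) (nat_lit 5777076553) (nat_lit 104) (nat_lit 5) (nat_lit 110) (nat_lit 5) (nat_lit 105) (nat_lit 5) (nat_lit 323) (nat_lit 276) (nat_lit 181)) (XT.lf (nat_lit 0) (nat_lit 4006452713) (nat_lit 456) (nat_lit 62392448) (nat_lit 76) (nat_lit 11079387698) (nat_lit 104) (nat_lit 5) (nat_lit 110) (nat_lit 5) (nat_lit 105) (nat_lit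 5) (nat_lit 324) (nat_lit 276) (nat_lit 180)))))) (XT.nd (nat_lit 546) (nat_lit 1140) (nat_lit 0) (XT.nd (nat_lit 234) (nat_lit 684) (nat_lit 0) (XT.nd (nat_lit 78) (nat_lit 304) (nat_lit 0) (XT.lf (nat_lit 0) (nat_lit 6927589975) (nat_lit 380) (nat_lit 7340940444) (nat_lit 76) (nat_lit 1160479648) (nat_lit 100) (nat_lit 5) (nat_lit 105) (nat_lit 5) (nat_lit 101) (nat_lit 5) (nat_lit 325) (nat_lit 276) (nat_lit 179)) (XT.nd (nat_lit 78) (nat_lit 0) (nat_lit 0) (XT.lf (nat_lit 0) (nat_lit 715373970) (nat_lit 304) (nat_lit 9251087198) (nat_lit 380) (nat_lit 5750859086) (nat_lit 96) (nat_lit 5) (nat_lit 100) (nat_lit 5) (nat_lit 101) (nat_lit 5) (nat_lit 326) (nat_lit 276) (nat_lit 178)) (XT.lf (nat_lit 0) (nat_lit 9139672805) (nat_lit 304) (nat_lit 4013539115) (nat_lit 380) (nat_lit 2859378712) (nat_lit 96) (nat_lit 5) (nat_lit 100) (nat_lit 5) (nat_lit 101) (nat_lit 5) (nat_lit 327) (nat_lit 276)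 (nat_lit 177)))) (XT.nd (nat_lit 156) (nat_lit 304) (nat_lit 0) (XT.nd (nat_lit 78) (nat_lit 0) (nat_lit 0) (XT.lf (nat_lit 0) (nat_lit 127266206) (nat_lit 380) (nat_lit 14825780912) (nat_lit 76) (nat_lit 1363327136) (nat_lit 91) (nat_lit 5) (nat_lit 96) (nat_lit 5) (nat_lit 92) (nat_lit 5) (nat_lit 328) (nat_lit 276) (nat_lit 176)) (XT.lf (nat_lit 0) (nat_lit 3238986039) (nat_lit 380) (nat_lit 6474078360) (nat_lit 76) (nat_lit 6912580524) (nat_lit 91) (nat_lit 5) (nat_lit 96) (nat_lit 5) (nat_lit 92) (nat_lit 5) (nat_lit 329) (nat_lit 276) (nat_lit 175))) (XT.nd (nat_lit 78) (nat_lit 0) (nat_lit 0) (XT.lf (nat_lit 0) (nat_lit 2146714783) (nat_lit 304) (nat_lit 4301588012) (nat_lit 380) (nat_lit 10495774476) (nat_lit 87) (nat_lit 5) (nat_lit 91) (nat_lit 5) (nat_lit 92) (nat_lit 5) (nat_lit 330) (nat_lit 276) (nat_lit 174)) (XT.lf (nat_lit 0) (nat_lit 9815949068) (nat_lit 380) (nat_lit 6147683293)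 (nat_lit 76) (nat_lit 1306579327) (nat_lit 87) (nat_lit 5) (nat_lit 92) (nat_lit 5) (nat_lit 88) (nat_lit 5) (nat_lit 331) (nat_lit 276) (nat_lit 173))))) (XT.nd (nat_lit 312) (nat_lit 532) (nat_lit 0) (XT.nd (nat_lit 156) (nat_lit 380) (nat_lit 0) (XT.nd (nat_lit 78) (nat_lit 0) (nat_lit 0) (XT.lf (nat_lit 0) (nat_lit 2749689351) (nat_lit 228) (nat_lit 10588226721) (nat_lit 304) (nat_lit 4266625618) (nat_lit 84) (nat_lit 5) (nat_lit 87) (nat_lit 5) (nat_lit 88) (nat_lit 5) (nat_lit 332) (nat_lit 276) (nat_lit 172)) (XT.lf (nat_lit 0) (nat_lit 12017365516) (nat_lit 228) (nat_lit 4994766327) (nat_lit 304) (nat_lit 935382047) (nat_lit 84) (nat_lit 5) (nat_lit 87) (nat_lit 5) (nat_lit 88) (nat_lit 5) (nat_lit 333) (nat_lit 276) (nat_lit 171))) (XT.nd (nat_lit 78) (nat_lit 0) (nat_lit 0) (XT.lf (nat_lit 0) (nat_lit 2471278874) (nat_lit 380) (nat_lit 15027405594) (nat_lit 76) (nat_lit 800655011) (nat_lit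 79) (nat_lit 5) (nat_lit 84) (nat_lit 5) (nat_lit 80) (nat_lit 5) (nat_lit 334) (nat_lit 276) (nat_lit 170)) (XT.lf (nat_lit 0) (nat_lit 6056233374) (nat_lit 380) (nat_lit 5870052647) (nat_lit 76) (nat_lit 6732318301) (nat_lit 79) (nat_lit 5) (nat_lit 84) (nat_lit 5) (nat_lit 80) (nat_lit 5) (nat_lit 335) (nat_lit 276) (nat_lit 169)))) (XT.nd (nat_lit 156) (nat_lit 304) (nat_lit 0) (XT.nd (nat_lit 78) (nat_lit 0) (nat_lit 0) (XT.lf (nat_lit 0) (nat_lit 3610669411) (nat_lit 228) (nat_lit 6158178072) (nat_lit 304) (nat_lit 9259205176) (nat_lit 76) (nat_lit 5) (nat_lit 79) (nat_lit 5) (nat_lit 80) (nat_lit 5) (nat_lit 336) (nat_lit 276) (nat_lit 168)) (XT.lf (nat_lit 0) (nat_lit 13474548625) (nat_lit 228) (nat_lit 163187995) (nat_lit 304) (nat_lit 5769509547) (nat_lit 76) (nat_lit 5) (nat_lit 79) (nat_lit 5) (nat_lit 80) (nat_lit 5) (nat_lit 337) (nat_lit 276) (nat_lit 167))) (XT.nd (nat_lit 78) (nat_lit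 76) (nat_lit 0) (XT.lf (nat_lit 0) (nat_lit 3832195291) (nat_lit 228) (nat_lit 13871094283) (nat_lit 304) (nat_lit 2092116360) (nat_lit 73) (nat_lit 5) (nat_lit 76) (nat_lit 5) (nat_lit 77) (nat_lit 5) (nat_lit 338) (nat_lit 276) (nat_lit 166)) (XT.lf (nat_lit 0) (nat_lit 1710661712) (nat_lit 304) (nat_lit 6221674338) (nat_lit 76) (nat_lit 12260948847) (nat_lit 72) (nat_lit 5) (nat_lit 76) (nat_lit 5) (nat_lit 73) (nat_lit 5) (nat_lit 339) (nat_lit 276) (nat_lit 165))))))))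
noncomputable def xc144 : XT := (XT.nd (nat_lit 2184) (nat_lit 1292) (nat_lit 0) (XT.nd (nat_lit 1092) (nat_lit 1216) (nat_lit 0) (XT.nd (nat_lit 546) (nat_lit 608) (nat_lit 0) (XT.nd (nat_lit 234) (nat_lit 532) (nat_lit 0) (XT.nd (nat_lit 78) (nat_lit 228) (nat_lit 0) (XT.lf (nat_lit 0) (nat_lit 3845657547) (nat_lit 228) (nat_lit 1763222572) (nat_lit 304) (nat_lit 14992904154) (nat_lit 69) (nat_lit 5) (nat_lit 72) (nat_lit 5) (nat_lit 73) (nat_lit 5) (nat_lit 340) (nat_lit 276) (nat_lit 164)) (XT.nd (nat_lit 78) (nat_lit 228) (nat_lit 0) (XT.lf (nat_lit 0) (nat_lit 9718192492) (nat_lit 304) (nat_lit 6743773819) (nat_lit 76) (nat_lit 4557755331) (nat_lit 69) (nat_lit 5) (nat_lit 73) (nat_lit 5) (nat_lit 70) (nat_lit 5) (nat_lit 341) (nat_lit 276) (nat_lit 163)) (XT.lf (nat_lit 0) (nat_lit 3601464324) (nat_lit 228) (nat_lit 10388355773) (nat_lit 304) (nat_lit 7459213178) (nat_lit 66) (nat_lit 5)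 (nat_lit 69) (nat_lit 5) (nat_lit 70) (nat_lit 5) (nat_lit 342) (nat_lit 276) (nat_lit 162)))) (XT.nd (nat_lit 156) (nat_lit 228) (nat_lit 0) (XT.nd (nat_lit 78) (nat_lit 304) (nat_lit 0) (XT.lf (nat_lit 0) (nat_lit 14375194192) (nat_lit 228) (nat_lit 4069646537) (nat_lit 304) (nat_lit 3444733210) (nat_lit 66) (nat_lit 5) (nat_lit 69) (nat_lit 5) (nat_lit 70) (nat_lit 5) (nat_lit 343) (nat_lit 276) (nat_lit 161)) (XT.lf (nat_lit 0) (nat_lit 718257803) (nat_lit 304) (nat_lit 19202207471) (nat_lit 76) (nat_lit 2421426784) (nat_lit 62) (nat_lit 5) (nat_lit 66) (nat_lit 5) (nat_lit 63) (nat_lit 5) (nat_lit 344) (nat_lit 276) (nat_lit 160))) (XT.nd (nat_lit 78) (nat_lit 228) (nat_lit 0) (XT.lf (nat_lit 0) (nat_lit 5041327903) (nat_lit 304) (nat_lit 8633140960) (nat_lit 76) (nat_lit 9129161330) (nat_lit 62) (nat_lit 5) (nat_lit 66) (nat_lit 5) (nat_lit 63) (nat_lit 5) (nat_lit 345) (nat_lit 276) (nat_lit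 159)) (XT.lf (nat_lit 0) (nat_lit 2278136830) (nat_lit 228) (nat_lit 7225715966) (nat_lit 304) (nat_lit 13775081023) (nat_lit 59) (nat_lit 5) (nat_lit 62) (nat_lit 5) (nat_lit 63) (nat_lit 5) (nat_lit 346) (nat_lit 276) (nat_lit 158))))) (XT.nd (nat_lit 234) (nat_lit 456) (nat_lit 0) (XT.nd (nat_lit 78) (nat_lit 152) (nat_lit 0) (XT.lf (nat_lit 0) (nat_lit 13674597875) (nat_lit 228) (nat_lit 500866831) (nat_lit 304) (nat_lit 9590781554) (nat_lit 59) (nat_lit 5) (nat_lit 62) (nat_lit 5) (nat_lit 63) (nat_lit 5) (nat_lit 347) (nat_lit 276) (nat_lit 157)) (XT.nd (nat_lit 78) (nat_lit 0) (nat_lit 0) (XT.lf (nat_lit 0) (nat_lit 1085328794) (nat_lit 152) (nat_lit 17962412246) (nat_lit 228) (nat_lit 5218627421) (nat_lit 57) (nat_lit 5) (nat_lit 59) (nat_lit 5) (nat_lit 60) (nat_lit 5) (nat_lit 348) (nat_lit 276) (nat_lit 156)) (XT.lf (nat_lit 0) (nat_lit 12780754755) (nat_lit 152) (nat_lit 11380723278)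 (nat_lit 228) (nat_lit 617163223) (nat_lit 57) (nat_lit 5) (nat_lit 59) (nat_lit 5) (nat_lit 60) (nat_lit 5) (nat_lit 349) (nat_lit 276) (nat_lit 155)))) (XT.nd (nat_lit 156) (nat_lit 152) (nat_lit 0) (XT.nd (nat_lit 78) (nat_lit 228) (nat_lit 0) (XT.lf (nat_lit 0) (nat_lit 4030598599) (nat_lit 228) (nat_lit 537223420) (nat_lit 76) (nat_lit 20737615926) (nat_lit 56) (nat_lit 5) (nat_lit 59) (nat_lit 5) (nat_lit 57) (nat_lit 5) (nat_lit 350) (nat_lit 276) (nat_lit 154)) (XT.lf (nat_lit 0) (nat_lit 8929274157) (nat_lit 304) (nat_lit 14402424869) (nat_lit 76) (nat_lit 2512444851) (nat_lit 53) (nat_lit 5) (nat_lit 57) (nat_lit 5) (nat_lit 54) (nat_lit 5) (nat_lit 351) (nat_lit 276) (nat_lit 153))) (XT.nd (nat_lit 78) (nat_lit 152) (nat_lit 0) (XT.lf (nat_lit 0) (nat_lit 14014723736) (nat_lit 304) (nat_lit 2670998610) (nat_lit 76) (nat_lit 9712099290) (nat_lit 53) (nat_lit 5) (nat_lit 57) (nat_lit 5)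 (nat_lit 54) (nat_lit 5) (nat_lit 352) (nat_lit 276) (nat_lit 152)) (XT.lf (nat_lit 0) (nat_lit 9581957717) (nat_lit 152) (nat_lit 9752313112) (nat_lit 228) (nat_lit 7631397794) (nat_lit 51) (nat_lit 5) (nat_lit 53) (nat_lit 5) (nat_lit 54) (nat_lit 5) (nat_lit 353) (nat_lit 276) (nat_lit 151)))))) (XT.nd (nat_lit 546) (nat_lit 608) (nat_lit 0) (XT.nd (nat_lit 234) (nat_lit 304) (nat_lit 0) (XT.nd (nat_lit 78) (nat_lit 304) (nat_lit 0) (XT.lf (nat_lit 0) (nat_lit 22240034865) (nat_lit 152) (nat_lit 2589910141) (nat_lit 228) (nat_lit 2720114566) (nat_lit 51) (nat_lit 5) (nat_lit 53) (nat_lit 5) (nat_lit 54) (nat_lit 5) (nat_lit 354) (nat_lit 276) (nat_lit 150)) (XT.nd (nat_lit 78) (nat_lit 0) (nat_lit 0) (XT.lf (nat_lit 0) (nat_lit 2398982604) (nat_lit 304) (nat_lit 20968900054) (nat_lit 76) (nat_lit 4780246469) (nat_lit 47) (nat_lit 5) (nat_lit 51) (nat_lit 5) (nat_lit 48) (nat_lit 5) (nat_lit 355)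 (nat_lit 276) (nat_lit 149)) (XT.lf (nat_lit 0) (nat_lit 7686616146) (nat_lit 304) (nat_lit 8680631259) (nat_lit 76) (nat_lit 12394000726) (nat_lit 47) (nat_lit 5) (nat_lit 51) (nat_lit 5) (nat_lit 48) (nat_lit 5) (nat_lit 356) (nat_lit 276) (nat_lit 148)))) (XT.nd (nat_lit 156) (nat_lit 152) (nat_lit 0) (XT.nd (nat_lit 78) (nat_lit 0) (nat_lit 0) (XT.lf (nat_lit 0) (nat_lit 4038583710) (nat_lit 152) (nat_lit 9123252878) (nat_lit 228) (nat_lit 16230059618) (nat_lit 45) (nat_lit 5) (nat_lit 47) (nat_lit 5) (nat_lit 48) (nat_lit 5) (nat_lit 357) (nat_lit 276) (nat_lit 147)) (XT.lf (nat_lit 0) (nat_lit 17300972210) (nat_lit 152) (nat_lit 1578265491) (nat_lit 228) (nat_lit 11159892418) (nat_lit 45) (nat_lit 5) (nat_lit 47) (nat_lit 5) (nat_lit 48) (nat_lit 5) (nat_lit 358) (nat_lit 276) (nat_lit 146))) (XT.nd (nat_lit 78) (nat_lit 0) (nat_lit 0) (XT.lf (nat_lit 0) (nat_lit 183401570) (nat_lit 152) (nat_lit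 24636542307) (nat_lit 228) (nat_lit 5884287679) (nat_lit 43) (nat_lit 5) (nat_lit 45) (nat_lit 5) (nat_lit 46) (nat_lit 5) (nat_lit 359) (nat_lit 276) (nat_lit 145)) (XT.lf (nat_lit 0) (nat_lit 13721851033) (nat_lit 152) (nat_lit 17351736101) (nat_lit 228) (nat_lit 311661304) (nat_lit 43) (nat_lit 5) (nat_lit 45) (nat_lit 5) (nat_lit 46) (nat_lit 5) (nat_lit 360) (nat_lit 276) (nat_lit 144))))) (XT.nd (nat_lit 234) (nat_lit 380) (nat_lit 0) (XT.nd (nat_lit 78) (nat_lit 152) (nat_lit 0) (XT.lf (nat_lit 0) (nat_lit 5313013004) (nat_lit 228) (nat_lit 4488082322) (nat_lit 76) (nat_lit 22284315046) (nat_lit 42) (nat_lit 5) (nat_lit 45) (nat_lit 5) (nat_lit 43) (nat_lit 5) (nat_lit 361) (nat_lit 276) (nat_lit 143)) (XT.nd (nat_lit 78) (nat_lit 0) (nat_lit 0) (XT.lf (nat_lit 0) (nat_lit 9244596160) (nat_lit 152) (nat_lit 1935491993) (nat_lit 228) (nat_lit 21624002248) (nat_lit 40) (nat_lit 5) (nat_lit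 42) (nat_lit 5) (nat_lit 43) (nat_lit 5) (nat_lit 362) (nat_lit 276) (nat_lit 142)) (XT.lf (nat_lit 0) (nat_lit 17319332969) (nat_lit 228) (nat_lit 10136700630) (nat_lit 76) (nat_lit 6085415958) (nat_lit 40) (nat_lit 5) (nat_lit 43) (nat_lit 5) (nat_lit 41) (nat_lit 5) (nat_lit 363) (nat_lit 276) (nat_lit 141)))) (XT.nd (nat_lit 156) (nat_lit 228) (nat_lit 0) (XT.nd (nat_lit 78) (nat_lit 0) (nat_lit 0) (XT.lf (nat_lit 0) (nat_lit 3727530801) (nat_lit 152) (nat_lit 19961593415) (nat_lit 228) (nat_lit 10610417545) (nat_lit 38) (nat_lit 5) (nat_lit 40) (nat_lit 5) (nat_lit 41) (nat_lit 5) (nat_lit 364) (nat_lit 276) (nat_lit 140)) (XT.lf (nat_lit 0) (nat_lit 18200806644) (nat_lit 152) (nat_lit 12143048016) (nat_lit 228) (nat_lit 4733709957) (nat_lit 38) (nat_lit 5) (nat_lit 40) (nat_lit 5) (nat_lit 41) (nat_lit 5) (nat_lit 365) (nat_lit 276) (nat_lit 139))) (XT.nd (nat_lit 78) (nat_lit 152) (nat_lit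 0) (XT.lf (nat_lit 0) (nat_lit 1285202315) (nat_lit 228) (nat_lit 2797746124) (nat_lit 76) (nat_lit 31795852893) (nat_lit 37) (nat_lit 5) (nat_lit 40) (nat_lit 5) (nat_lit 38) (nat_lit 5) (nat_lit 366) (nat_lit 276) (nat_lit 138)) (XT.lf (nat_lit 0) (nat_lit 7537667644) (nat_lit 228) (nat_lit 24867099039) (nat_lit 76) (nat_lit 4293461530) (nat_lit 35) (nat_lit 5) (nat_lit 38) (nat_lit 5) (nat_lit 36) (nat_lit 5) (nat_lit 367) (nat_lit 276) (nat_lit 137))))))) (XT.nd (nat_lit 1092) (nat_lit 532) (nat_lit 0) (XT.nd (nat_lit 546) (nat_lit 456) (nat_lit 0) (XT.nd (nat_lit 234) (nat_lit 152) (nat_lit 0) (XT.nd (nat_lit 78) (nat_lit 152) (nat_lit 0) (XT.lf (nat_lit 0) (nat_lit 14038601324) (nat_lit 228) (nat_lit 10639920002) (nat_lit 76) (nat_lit 12861892631) (nat_lit 35) (nat_lit 5) (nat_lit 38) (nat_lit 5) (nat_lit 36) (nat_lit 5) (nat_lit 368) (nat_lit 276) (nat_lit 136)) (XT.nd (nat_lit 78) (nat_lit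 0) (nat_lit 0) (XT.lf (nat_lit 0) (nat_lit 4080053579) (nat_lit 152) (nat_lit 16685901919) (nat_lit 228) (nat_lit 17640970804) (nat_lit 33) (nat_lit 5) (nat_lit 35) (nat_lit 5) (nat_lit 36) (nat_lit 5) (nat_lit 369) (nat_lit 276) (nat_lit 135)) (XT.lf (nat_lit 0) (nat_lit 19446230630) (nat_lit 152) (nat_lit 8348612688) (nat_lit 228) (nat_lit 11501602029) (nat_lit 33) (nat_lit 5) (nat_lit 35) (nat_lit 5) (nat_lit 36) (nat_lit 5) (nat_lit 370) (nat_lit 276) (nat_lit 134)))) (XT.nd (nat_lit 156) (nat_lit 0) (nat_lit 0) (XT.nd (nat_lit 78) (nat_lit 152) (nat_lit 0) (XT.lf (nat_lit 0) (nat_lit 35029335147) (nat_lit 228) (nat_lit 4954836650) (nat_lit 76) (nat_lit 228638687) (nat_lit 33) (nat_lit 5) (nat_lit 36) (nat_lit 5) (nat_lit 34) (nat_lit 4) (nat_lit 371) (nat_lit 276) (nat_lit 133)) (XT.lf (nat_lit 0) (nat_lit 1476319641) (nat_lit 152) (nat_lit 30669182378) (nat_lit 76) (nat_lit 9005446249) (nat_lit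 31) (nat_lit 5) (nat_lit 33) (nat_lit 5) (nat_lit 32) (nat_lit 5) (nat_lit 372) (nat_lit 276) (nat_lit 132))) (XT.nd (nat_lit 78) (nat_lit 0) (nat_lit 0) (XT.lf (nat_lit 0) (nat_lit 8274934107) (nat_lit 152) (nat_lit 15697429278) (nat_lit 76) (nat_lit 18142033322) (nat_lit 31) (nat_lit 5) (nat_lit 33) (nat_lit 5) (nat_lit 32) (nat_lit 5) (nat_lit 373) (nat_lit 276) (nat_lit 131)) (XT.lf (nat_lit 0) (nat_lit 15270399081) (nat_lit 152) (nat_lit 289066298) (nat_lit 76) (nat_lit 27547498806) (nat_lit 31) (nat_lit 5) (nat_lit 33) (nat_lit 5) (nat_lit 32) (nat_lit 5) (nat_lit 374) (nat_lit 276) (nat_lit 130))))) (XT.nd (nat_lit 234) (nat_lit 228) (nat_lit 0) (XT.nd (nat_lit 78) (nat_lit 76) (nat_lit 0) (XT.lf (nat_lit 0) (nat_lit 15879231175) (nat_lit 152) (nat_lit 6742236814) (nat_lit 228) (nat_lit 21503470776) (nat_lit 29) (nat_lit 5) (nat_lit 31) (nat_lit 5) (nat_lit 32) (nat_lit 5) (nat_lit 375) (nat_lit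 276) (nat_lit 129)) (XT.nd (nat_lit 78) (nat_lit 76) (nat_lit 0) (XT.lf (nat_lit 0) (nat_lit 30211639455) (nat_lit 228) (nat_lit 12669593855) (nat_lit 76) (nat_lit 2291664372) (nat_lit 29) (nat_lit 5) (nat_lit 32) (nat_lit 5) (nat_lit 30) (nat_lit 4) (nat_lit 376) (nat_lit 276) (nat_lit 128)) (XT.lf (nat_lit 0) (nat_lit 3360770669) (nat_lit 76) (nat_lit 34761139783) (nat_lit 152) (nat_lit 8127615230) (nat_lit 28) (nat_lit 5) (nat_lit 29) (nat_lit 5) (nat_lit 30) (nat_lit 4) (nat_lit 377) (nat_lit 276) (nat_lit 127)))) (XT.nd (nat_lit 156) (nat_lit 152) (nat_lit 0) (XT.nd (nat_lit 78) (nat_lit 76) (nat_lit 0) (XT.lf (nat_lit 0) (nat_lit 20120018098) (nat_lit 76) (nat_lit 26270824609) (nat_lit 152) (nat_lit 963971307) (nat_lit 28) (nat_lit 5) (nat_lit 29) (nat_lit 5) (nat_lit 30) (nat_lit 4) (nat_lit 378) (nat_lit 276) (nat_lit 126)) (XT.lf (nat_lit 0) (nat_lit 6282951917) (nat_lit 152) (nat_lit 11184409710)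 (nat_lit 76) (nat_lit 31024245263) (nat_lit 27) (nat_lit 5) (nat_lit 29) (nat_lit 5) (nat_lit 28) (nat_lit 5) (nat_lit 379) (nat_lit 276) (nat_lit 125))) (XT.nd (nat_lit 78) (nat_lit 0) (nat_lit 0) (XT.lf (nat_lit 0) (nat_lit 5432761630) (nat_lit 152) (nat_lit 8341099058) (nat_lit 228) (nat_lit 35886979861) (nat_lit 25) (nat_lit 5) (nat_lit 27) (nat_lit 5) (nat_lit 28) (nat_lit 5) (nat_lit 380) (nat_lit 276) (nat_lit 124)) (XT.lf (nat_lit 0) (nat_lit 21607493595) (nat_lit 228) (nat_lit 28106568808) (nat_lit 76) (nat_lit 1147550763) (nat_lit 25) (nat_lit 5) (nat_lit 28) (nat_lit 5) (nat_lit 26) (nat_lit 4) (nat_lit 381) (nat_lit 276) (nat_lit 123)))))) (XT.nd (nat_lit 546) (nat_lit 228) (nat_lit 0) (XT.nd (nat_lit 234) (nat_lit 228) (nat_lit 0) (XT.nd (nat_lit 78) (nat_lit 76) (nat_lit 0) (XT.lf (nat_lit 0) (nat_lit 29752661162) (nat_lit 228) (nat_lit 11594897407) (nat_lit 76) (nat_lit 10748556422)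 (nat_lit 25) (nat_lit 5) (nat_lit 28) (nat_lit 5) (nat_lit 26) (nat_lit 4) (nat_lit 382) (nat_lit 276) (nat_lit 122)) (XT.nd (nat_lit 78) (nat_lit 0) (nat_lit 0) (XT.lf (nat_lit 0) (nat_lit 5509043995) (nat_lit 76) (nat_lit 32680213083) (nat_lit 152) (nat_lit 15176984339) (nat_lit 24) (nat_lit 5) (nat_lit 25) (nat_lit 5) (nat_lit 26) (nat_lit 4) (nat_lit 383) (nat_lit 276) (nat_lit 121)) (XT.lf (nat_lit 0) (nat_lit 23353309979) (nat_lit 76) (nat_lit 23636914277) (nat_lit 152) (nat_lit 7680910875) (nat_lit 24) (nat_lit 5) (nat_lit 25) (nat_lit 5) (nat_lit 26) (nat_lit 4) (nat_lit 384) (nat_lit 276) (nat_lit 120)))) (XT.nd (nat_lit 156) (nat_lit 0) (nat_lit 0) (XT.nd (nat_lit 78) (nat_lit 152) (nat_lit 0) (XT.lf (nat_lit 0) (nat_lit 33562833) (nat_lit 152) (nat_lit 14292944216) (nat_lit 76) (nat_lit 41688829672) (nat_lit 23) (nat_lit 5) (nat_lit 25) (nat_lit 5) (nat_lit 24) (nat_lit 5) (nat_lit 385)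 (nat_lit 276) (nat_lit 119)) (XT.lf (nat_lit 0) (nat_lit 3219470052) (nat_lit 152) (nat_lit 4631035008) (nat_lit 228) (nat_lit 49546317005) (nat_lit 21) (nat_lit 5) (nat_lit 23) (nat_lit 5) (nat_lit 24) (nat_lit 5) (nat_lit 386) (nat_lit 276) (nat_lit 118))) (XT.nd (nat_lit 78) (nat_lit 0) (nat_lit 0) (XT.lf (nat_lit 0) (nat_lit 16093682835) (nat_lit 228) (nat_lit 37328094463) (nat_lit 76) (nat_lit 5392224357) (nat_lit 21) (nat_lit 5) (nat_lit 24) (nat_lit 5) (nat_lit 22) (nat_lit 4) (nat_lit 387) (nat_lit 276) (nat_lit 117)) (XT.lf (nat_lit 0) (nat_lit 24624657407) (nat_lit 228) (nat_lit 20028932439) (nat_lit 76) (nat_lit 15618893208) (nat_lit 21) (nat_lit 5) (nat_lit 24) (nat_lit 5) (nat_lit 22) (nat_lit 4) (nat_lit 388) (nat_lit 276) (nat_lit 116))))) (XT.nd (nat_lit 312) (nat_lit 152) (nat_lit 0) (XT.nd (nat_lit 156) (nat_lit 0) (nat_lit 0) (XT.nd (nat_lit 78) (nat_lit 76) (nat_lit 0) (XT.lf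 (nat_lit 0) (nat_lit 33406366684) (nat_lit 228) (nat_lit 2220233826) (nat_lit 76) (nat_lit 26148275639) (nat_lit 21) (nat_lit 5) (nat_lit 24) (nat_lit 5) (nat_lit 22) (nat_lit 4) (nat_lit 389) (nat_lit 276) (nat_lit 115)) (XT.lf (nat_lit 0) (nat_lit 16434253861) (nat_lit 76) (nat_lit 26170206246) (nat_lit 152) (nat_lit 20713294324) (nat_lit 20) (nat_lit 5) (nat_lit 21) (nat_lit 5) (nat_lit 22) (nat_lit 4) (nat_lit 390) (nat_lit 276) (nat_lit 114))) (XT.nd (nat_lit 78) (nat_lit 0) (nat_lit 0) (XT.lf (nat_lit 0) (nat_lit 35684815262) (nat_lit 76) (nat_lit 16411117514) (nat_lit 152) (nat_lit 12810464530) (nat_lit 20) (nat_lit 5) (nat_lit 21) (nat_lit 5) (nat_lit 22) (nat_lit 4) (nat_lit 391) (nat_lit 276) (nat_lit 113)) (XT.lf (nat_lit 0) (nat_lit 55504084249) (nat_lit 76) (nat_lit 6363226964) (nat_lit 152) (nat_lit 4675534707) (nat_lit 20) (nat_lit 5) (nat_lit 21) (nat_lit 5) (nat_lit 22) (nat_lit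 4) (nat_lit 392) (nat_lit 276) (nat_lit 112)))) (XT.nd (nat_lit 156) (nat_lit 0) (nat_lit 0) (XT.nd (nat_lit 78) (nat_lit 0) (nat_lit 0) (XT.lf (nat_lit 0) (nat_lit 3740758043) (nat_lit 152) (nat_lit 60467137296) (nat_lit 76) (nat_lit 4016138410) (nat_lit 18) (nat_lit 5) (nat_lit 20) (nat_lit 5) (nat_lit 19) (nat_lit 4) (nat_lit 393) (nat_lit 276) (nat_lit 111)) (XT.lf (nat_lit 0) (nat_lit 12486415133) (nat_lit 152) (nat_lit 42728671515) (nat_lit 76) (nat_lit 14734057506) (nat_lit 18) (nat_lit 5) (nat_lit 20) (nat_lit 5) (nat_lit 19) (nat_lit 4) (nat_lit 394) (nat_lit 276) (nat_lit 110))) (XT.nd (nat_lit 78) (nat_lit 0) (nat_lit 0) (XT.lf (nat_lit 0) (nat_lit 21489853019) (nat_lit 152) (nat_lit 24466467470) (nat_lit 76) (nat_lit 25769826204) (nat_lit 18) (nat_lit 5) (nat_lit 20) (nat_lit 5) (nat_lit 19) (nat_lit 4) (nat_lit 395) (nat_lit 276) (nat_lit 109)) (XT.lf (nat_lit 0) (nat_lit 30758938784)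 (nat_lit 152) (nat_lit 5664567896) (nat_lit 76) (nat_lit 37133087407) (nat_lit 18) (nat_lit 5) (nat_lit 20) (nat_lit 5) (nat_lit 19) (nat_lit 4) (nat_lit 396) (nat_lit 276) (nat_lit 108))))))))
noncomputable def xc145 : XT := (XT.nd (nat_lit 32292) (nat_lit 0) (nat_lit 8132) (XT.nd (nat_lit 1092) (nat_lit 0) (nat_lit 0) (XT.nd (nat_lit 546) (nat_lit 152) (nat_lit 0) (XT.nd (nat_lit 234) (nat_lit 152) (nat_lit 0) (XT.nd (nat_lit 78) (nat_lit 0) (nat_lit 0) (XT.lf (nat_lit 0) (nat_lit 13965982675) (nat_lit 76) (nat_lit 26470038522) (nat_lit 152) (nat_lit 35002037073) (nat_lit 17) (nat_lit 5) (nat_lit 18) (nat_lit 5) (nat_lit 19) (nat_lit 4) (nat_lit 397) (nat_lit 276) (nat_lit 107)) (XT.nd (nat_lit 78) (nat_lit 0) (nat_lit 0) (XT.lf (nat_lit 0) (nat_lit 34293713011) (nat_lit 76) (nat_lit 16162629088) (nat_lit 152) (nat_lit 26918037556) (nat_lit 17) (nat_lit 5) (nat_lit 18) (nat_lit 5) (nat_lit 19)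 (nat_lit 4) (nat_lit 398) (nat_lit 276) (nat_lit 106)) (XT.lf (nat_lit 0) (nat_lit 55223649195) (nat_lit 76) (nat_lit 5549472934) (nat_lit 152) (nat_lit 18595794094) (nat_lit 17) (nat_lit 5) (nat_lit 18) (nat_lit 5) (nat_lit 19) (nat_lit 4) (nat_lit 399) (nat_lit 276) (nat_lit 105)))) (XT.nd (nat_lit 156) (nat_lit 76) (nat_lit 0) (XT.nd (nat_lit 78) (nat_lit 76) (nat_lit 0) (XT.lf (nat_lit 0) (nat_lit 71447079338) (nat_lit 152) (nat_lit 4701034639) (nat_lit 0) (nat_lit 5273745692) (nat_lit 17) (nat_lit 5) (nat_lit 19) (nat_lit 4) (nat_lit 17) (nat_lit 4) (nat_lit 400) (nat_lit 276) (nat_lit 104)) (XT.lf (nat_lit 0) (nat_lit 15568093893) (nat_lit 76) (nat_lit 67073812955) (nat_lit 76) (nat_lit 888465991) (nat_lit 16) (nat_lit 4) (nat_lit 17) (nat_lit 5) (nat_lit 17) (nat_lit 4) (nat_lit 401) (nat_lit 276) (nat_lit 103))) (XT.nd (nat_lit 78) (nat_lit 0) (nat_lit 0) (XT.lf (nat_lit 0) (nat_lit 8349152641)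 (nat_lit 152) (nat_lit 49248230517) (nat_lit 76) (nat_lit 28100996359) (nat_lit 15) (nat_lit 5) (nat_lit 17) (nat_lit 5) (nat_lit 16) (nat_lit 4) (nat_lit 402) (nat_lit 276) (nat_lit 102)) (XT.lf (nat_lit 0) (nat_lit 17842219602) (nat_lit 152) (nat_lit 29988628289) (nat_lit 76) (nat_lit 40100430176) (nat_lit 15) (nat_lit 5) (nat_lit 17) (nat_lit 5) (nat_lit 16) (nat_lit 4) (nat_lit 403) (nat_lit 276) (nat_lit 101))))) (XT.nd (nat_lit 234) (nat_lit 76) (nat_lit 0) (XT.nd (nat_lit 78) (nat_lit 76) (nat_lit 0) (XT.lf (nat_lit 0) (nat_lit 27616366977) (nat_lit 152) (nat_lit 10158103005) (nat_lit 76) (nat_lit 52456805799) (nat_lit 15) (nat_lit 5) (nat_lit 17) (nat_lit 5) (nat_lit 16) (nat_lit 4) (nat_lit 404) (nat_lit 276) (nat_lit 100)) (XT.nd (nat_lit 78) (nat_lit 0) (nat_lit 0) (XT.lf (nat_lit 0) (nat_lit 10464880488) (nat_lit 76) (nat_lit 27315849627) (nat_lit 152) (nat_lit 54816634406) (nat_lit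 14) (nat_lit 5) (nat_lit 15) (nat_lit 5) (nat_lit 16) (nat_lit 4) (nat_lit 405) (nat_lit 276) (nat_lit 99)) (XT.lf (nat_lit 0) (nat_lit 31908184923) (nat_lit 76) (nat_lit 16440854171) (nat_lit 152) (nat_lit 46682427190) (nat_lit 14) (nat_lit 5) (nat_lit 15) (nat_lit 5) (nat_lit 16) (nat_lit 4) (nat_lit 406) (nat_lit 276) (nat_lit 98)))) (XT.nd (nat_lit 156) (nat_lit 76) (nat_lit 0) (XT.nd (nat_lit 78) (nat_lit 0) (nat_lit 0) (XT.lf (nat_lit 0) (nat_lit 53988381000) (nat_lit 76) (nat_lit 5242558114) (nat_lit 152) (nat_lit 38307756518) (nat_lit 14) (nat_lit 5) (nat_lit 15) (nat_lit 5) (nat_lit 16) (nat_lit 4) (nat_lit 407) (nat_lit 276) (nat_lit 97)) (XT.lf (nat_lit 0) (nat_lit 70496390651) (nat_lit 152) (nat_lit 23456933275) (nat_lit 0) (nat_lit 6166105865) (nat_lit 14) (nat_lit 5) (nat_lit 16) (nat_lit 4) (nat_lit 14) (nat_lit 4) (nat_lit 408) (nat_lit 276) (nat_lit 96))) (XT.nd (nat_lit 78) (nat_lit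 76) (nat_lit 0) (XT.lf (nat_lit 0) (nat_lit 82148425814) (nat_lit 152) (nat_lit 2818768477) (nat_lit 0) (nat_lit 17808933821) (nat_lit 14) (nat_lit 5) (nat_lit 16) (nat_lit 4) (nat_lit 14) (nat_lit 4) (nat_lit 409) (nat_lit 276) (nat_lit 95)) (XT.lf (nat_lit 0) (nat_lit 18799452821) (nat_lit 76) (nat_lit 75528090338) (nat_lit 76) (nat_lit 11179659309) (nat_lit 13) (nat_lit 4) (nat_lit 14) (nat_lit 5) (nat_lit 14) (nat_lit 4) (nat_lit 410) (nat_lit 276) (nat_lit 94)))))) (XT.nd (nat_lit 30654) (nat_lit 0) (nat_lit 17176) (XT.nd (nat_lit 30342) (nat_lit 0) (nat_lit 17936) (XT.nd (nat_lit 30186) (nat_lit 0) (nat_lit 18848) (XT.lf (nat_lit 0) (nat_lit 41118127440) (nat_lit 76) (nat_lit 65779216363) (nat_lit 76) (nat_lit 1422106658) (nat_lit 13) (nat_lit 4) (nat_lit 14) (nat_lit 5) (nat_lit 14) (nat_lit 4) (nat_lit 411) (nat_lit 276) (nat_lit 93)) (XT.nd (nat_lit 78) (nat_lit 0) (nat_lit 0) (XT.lf (nat_lit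 0) (nat_lit 883526497) (nat_lit 0) (nat_lit 883526497) (nat_lit 836) (nat_lit 2077893616) (nat_lit 261) (nat_lit 5) (nat_lit 261) (nat_lit 3) (nat_lit 272) (nat_lit 3) (nat_lit 277) (nat_lit 277) (nat_lit 226)) (XT.lf (nat_lit 0) (nat_lit 4881971865) (nat_lit 836) (nat_lit 2350194094) (nat_lit 912) (nat_lit 532629809) (nat_lit 261) (nat_lit 5) (nat_lit 272) (nat_lit 3) (nat_lit 273) (nat_lit 5) (nat_lit 278) (nat_lit 277) (nat_lit 225)))) (XT.nd (nat_lit 156) (nat_lit 912) (nat_lit 0) (XT.nd (nat_lit 78) (nat_lit 0) (nat_lit 0) (XT.lf (nat_lit 76) (nat_lit 1310733322) (nat_lit 0) (nat_lit 4939546696) (nat_lit 912) (nat_lit 1592327636) (nat_lit 262) (nat_lit 5) (nat_lit 261) (nat_lit 5) (nat_lit 273) (nat_lit 5) (nat_lit 279) (nat_lit 277) (nat_lit 224)) (XT.lf (nat_lit 76) (nat_lit 5102950090) (nat_lit 0) (nat_lit 2531532934) (nat_lit 912) (nat_lit 289086139) (nat_lit 262) (nat_lit 5) (nat_lit 261)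 (nat_lit 5) (nat_lit 273) (nat_lit 5) (nat_lit 280) (nat_lit 277) (nat_lit 223))) (XT.nd (nat_lit 78) (nat_lit 0) (nat_lit 76) (XT.lf (nat_lit 76) (nat_lit 984103443) (nat_lit 0) (nat_lit 10065702) (nat_lit 988) (nat_lit 7013699710) (nat_lit 250) (nat_lit 5) (nat_lit 249) (nat_lit 5) (nat_lit 262) (nat_lit 5) (nat_lit 281) (nat_lit 277) (nat_lit 222)) (XT.lf (nat_lit 0) (nat_lit 2317089328) (nat_lit 912) (nat_lit 3189407886) (nat_lit 988) (nat_lit 2587960618) (nat_lit 250) (nat_lit 5) (nat_lit 262) (nat_lit 5) (nat_lit 263) (nat_lit 5) (nat_lit 282) (nat_lit 277) (nat_lit 221))))) (XT.nd (nat_lit 234) (nat_lit 836) (nat_lit 0) (XT.nd (nat_lit 78) (nat_lit 0) (nat_lit 0) (XT.lf (nat_lit 76) (nat_lit 746941783) (nat_lit 0) (nat_lit 2894738540) (nat_lit 988) (nat_lit 4543158530) (nat_lit 251) (nat_lit 5) (nat_lit 250) (nat_lit 5) (nat_lit 263) (nat_lit 5) (nat_lit 283) (nat_lit 277) (nat_lit 220))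 (XT.nd (nat_lit 78) (nat_lit 0) (nat_lit 76) (XT.lf (nat_lit 76) (nat_lit 4839516981) (nat_lit 0) (nat_lit 154459743) (nat_lit 988) (nat_lit 3284367854) (nat_lit 251) (nat_lit 5) (nat_lit 250) (nat_lit 5) (nat_lit 263) (nat_lit 5) (nat_lit 284) (nat_lit 277) (nat_lit 219)) (XT.lf (nat_lit 76) (nat_lit 639089116) (nat_lit 0) (nat_lit 5736750955) (nat_lit 988) (nat_lit 1999196239) (nat_lit 252) (nat_lit 5) (nat_lit 251) (nat_lit 5) (nat_lit 264) (nat_lit 5) (nat_lit 285) (nat_lit 277) (nat_lit 218)))) (XT.nd (nat_lit 156) (nat_lit 0) (nat_lit 0) (XT.nd (nat_lit 78) (nat_lit 912) (nat_lit 0) (XT.lf (nat_lit 76) (nat_lit 4880601135) (nat_lit 0) (nat_lit 2912986279) (nat_lit 988) (nat_lit 681257840) (nat_lit 252) (nat_lit 5) (nat_lit 251) (nat_lit 5) (nat_lit 264) (nat_lit 5) (nat_lit 286) (nat_lit 277) (nat_lit 217)) (XT.lf (nat_lit 0) (nat_lit 628441205) (nat_lit 988) (nat_lit 7928589971) (nat_lit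 1064) (nat_lit 21506214) (nat_lit 239) (nat_lit 5) (nat_lit 252) (nat_lit 5) (nat_lit 253) (nat_lit 5) (nat_lit 287) (nat_lit 277) (nat_lit 216))) (XT.nd (nat_lit 78) (nat_lit 0) (nat_lit 0) (XT.lf (nat_lit 0) (nat_lit 1989244627) (nat_lit 988) (nat_lit 3653884647) (nat_lit 1064) (nat_lit 3041288600) (nat_lit 239) (nat_lit 5) (nat_lit 252) (nat_lit 5) (nat_lit 253) (nat_lit 5) (nat_lit 288) (nat_lit 277) (nat_lit 215)) (XT.lf (nat_lit 76) (nat_lit 735421830) (nat_lit 0) (nat_lit 2623694782) (nat_lit 1064) (nat_lit 5435354628) (nat_lit 240) (nat_lit 5) (nat_lit 239) (nat_lit 5) (nat_lit 253) (nat_lit 5) (nat_lit 289) (nat_lit 277) (nat_lit 214))))))) (XT.nd (nat_lit 1092) (nat_lit 3952) (nat_lit 0) (XT.nd (nat_lit 546) (nat_lit 3116) (nat_lit 0) (XT.nd (nat_lit 234) (nat_lit 2052) (nat_lit 0) (XT.nd (nat_lit 78) (nat_lit 0) (nat_lit 0) (XT.lf (nat_lit 0) (nat_lit 4774159983) (nat_lit 988) (nat_lit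 3609447020) (nat_lit 1064) (nat_lit 524139475) (nat_lit 240) (nat_lit 5) (nat_lit 253) (nat_lit 5) (nat_lit 254) (nat_lit 5) (nat_lit 290) (nat_lit 277) (nat_lit 213)) (XT.nd (nat_lit 78) (nat_lit 0) (nat_lit 0) (XT.lf (nat_lit 76) (nat_lit 937814828) (nat_lit 0) (nat_lit 5292072634) (nat_lit 1064) (nat_lit 2794626815) (nat_lit 241) (nat_lit 5) (nat_lit 240) (nat_lit 5) (nat_lit 254) (nat_lit 5) (nat_lit 291) (nat_lit 277) (nat_lit 212)) (XT.lf (nat_lit 76) (nat_lit 5667609071) (nat_lit 0) (nat_lit 2062169513) (nat_lit 1064) (nat_lit 1415031857) (nat_lit 241) (nat_lit 5) (nat_lit 240) (nat_lit 5) (nat_lit 254) (nat_lit 5) (nat_lit 292) (nat_lit 277) (nat_lit 211)))) (XT.nd (nat_lit 156) (nat_lit 1064) (nat_lit 0) (XT.nd (nat_lit 78) (nat_lit 76) (nat_lit 0) (XT.lf (nat_lit 0) (nat_lit 1254683349) (nat_lit 988) (nat_lit 8009366454) (nat_lit 1064) (nat_lit 5023104) (nat_lit 228) (nat_lit 5) (nat_lit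 241) (nat_lit 5) (nat_lit 242) (nat_lit 5) (nat_lit 293) (nat_lit 277) (nat_lit 210)) (XT.lf (nat_lit 0) (nat_lit 1440459779) (nat_lit 1064) (nat_lit 3259554524) (nat_lit 76) (nat_lit 4696025793) (nat_lit 227) (nat_lit 5) (nat_lit 241) (nat_lit 5) (nat_lit 228) (nat_lit 5) (nat_lit 294) (nat_lit 277) (nat_lit 209))) (XT.nd (nat_lit 78) (nat_lit 0) (nat_lit 0) (XT.lf (nat_lit 0) (nat_lit 1642082733) (nat_lit 1064) (nat_lit 1269449465) (nat_lit 1140) (nat_lit 6615848447) (nat_lit 213) (nat_lit 5) (nat_lit 227) (nat_lit 5) (nat_lit 228) (nat_lit 5) (nat_lit 295) (nat_lit 277) (nat_lit 208)) (XT.lf (nat_lit 0) (nat_lit 4449041781) (nat_lit 1140) (nat_lit 2954806376) (nat_lit 76) (nat_lit 2258178681) (nat_lit 213) (nat_lit 5) (nat_lit 228) (nat_lit 5) (nat_lit 214) (nat_lit 5) (nat_lit 296) (nat_lit 277) (nat_lit 207))))) (XT.nd (nat_lit 234) (nat_lit 1216) (nat_lit 0) (XT.nd (nat_lit 78) (nat_lit 760)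 (nat_lit 0) (XT.lf (nat_lit 0) (nat_lit 2124695401) (nat_lit 1140) (nat_lit 3909227059) (nat_lit 1216) (nat_lit 3766786154) (nat_lit 198) (nat_lit 5) (nat_lit 213) (nat_lit 5) (nat_lit 214) (nat_lit 5) (nat_lit 297) (nat_lit 277) (nat_lit 206)) (XT.nd (nat_lit 78) (nat_lit 760) (nat_lit 0) (XT.lf (nat_lit 0) (nat_lit 7389629218) (nat_lit 1140) (nat_lit 275471316) (nat_lit 1216) (nat_lit 2278520373) (nat_lit 198) (nat_lit 5) (nat_lit 213) (nat_lit 5) (nat_lit 214) (nat_lit 5) (nat_lit 298) (nat_lit 277) (nat_lit 205)) (XT.lf (nat_lit 0) (nat_lit 2713620890) (nat_lit 760) (nat_lit 6660859742) (nat_lit 836) (nat_lit 715493581) (nat_lit 188) (nat_lit 5) (nat_lit 198) (nat_lit 5) (nat_lit 199) (nat_lit 5) (nat_lit 299) (nat_lit 277) (nat_lit 204)))) (XT.nd (nat_lit 156) (nat_lit 532) (nat_lit 0) (XT.nd (nat_lit 78) (nat_lit 608) (nat_lit 0) (XT.lf (nat_lit 0) (nat_lit 875887573) (nat_lit 836) (nat_lit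 2087953628) (nat_lit 76) (nat_lit 7276681302) (nat_lit 187) (nat_lit 5) (nat_lit 198) (nat_lit 5) (nat_lit 188) (nat_lit 5) (nat_lit 300) (nat_lit 277) (nat_lit 203)) (XT.lf (nat_lit 0) (nat_lit 2512762547) (nat_lit 684) (nat_lit 7012863352) (nat_lit 76) (nat_lit 869413786) (nat_lit 179) (nat_lit 5) (nat_lit 188) (nat_lit 5) (nat_lit 180) (nat_lit 5) (nat_lit 301) (nat_lit 277) (nat_lit 202))) (XT.nd (nat_lit 78) (nat_lit 532) (nat_lit 0) (XT.lf (nat_lit 0) (nat_lit 4220994162) (nat_lit 684) (nat_lit 1551757451) (nat_lit 76) (nat_lit 4780801373) (nat_lit 179) (nat_lit 5) (nat_lit 188) (nat_lit 5) (nat_lit 180) (nat_lit 5) (nat_lit 302) (nat_lit 277) (nat_lit 201)) (XT.lf (nat_lit 0) (nat_lit 4126663940) (nat_lit 532) (nat_lit 1865916064) (nat_lit 608) (nat_lit 4723905760) (nat_lit 172) (nat_lit 5) (nat_lit 179) (nat_lit 5) (nat_lit 180) (nat_lit 5) (nat_lit 303) (nat_lit 277) (nat_lit 200))))))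 (XT.nd (nat_lit 546) (nat_lit 1824) (nat_lit 0) (XT.nd (nat_lit 234) (nat_lit 1520) (nat_lit 0) (XT.nd (nat_lit 78) (nat_lit 608) (nat_lit 0) (XT.lf (nat_lit 0) (nat_lit 7826870352) (nat_lit 608) (nat_lit 925107180) (nat_lit 76) (nat_lit 2132068786) (nat_lit 172) (nat_lit 5) (nat_lit 180) (nat_lit 5) (nat_lit 173) (nat_lit 5) (nat_lit 304) (nat_lit 277) (nat_lit 199)) (XT.nd (nat_lit 78) (nat_lit 76) (nat_lit 0) (XT.lf (nat_lit 0) (nat_lit 4961069354) (nat_lit 532) (nat_lit 4795056959) (nat_lit 608) (nat_lit 1299334999) (nat_lit 165) (nat_lit 5) (nat_lit 172) (nat_lit 5) (nat_lit 173) (nat_lit 5) (nat_lit 305) (nat_lit 277) (nat_lit 198)) (XT.lf (nat_lit 0) (nat_lit 484702485) (nat_lit 608) (nat_lit 221042611) (nat_lit 76) (nat_lit 10526647358) (nat_lit 164) (nat_lit 5) (nat_lit 172) (nat_lit 5) (nat_lit 165) (nat_lit 5) (nat_lit 306) (nat_lit 277) (nat_lit 197)))) (XT.nd (nat_lit 156) (nat_lit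 456) (nat_lit 0) (XT.nd (nat_lit 78) (nat_lit 532) (nat_lit 0) (XT.lf (nat_lit 0) (nat_lit 2362047647) (nat_lit 608) (nat_lit 5543148286) (nat_lit 76) (nat_lit 3507096145) (nat_lit 157) (nat_lit 5) (nat_lit 165) (nat_lit 5) (nat_lit 158) (nat_lit 5) (nat_lit 307) (nat_lit 277) (nat_lit 196)) (XT.lf (nat_lit 0) (nat_lit 525491410) (nat_lit 532) (nat_lit 3759747610) (nat_lit 608) (nat_lit 7312686756) (nat_lit 150) (nat_lit 5) (nat_lit 157) (nat_lit 5) (nat_lit 158) (nat_lit 5) (nat_lit 308) (nat_lit 277) (nat_lit 195))) (XT.nd (nat_lit 78) (nat_lit 456) (nat_lit 0) (XT.lf (nat_lit 0) (nat_lit 6303235880) (nat_lit 608) (nat_lit 4930352463) (nat_lit 76) (nat_lit 554449044) (nat_lit 150) (nat_lit 5) (nat_lit 158) (nat_lit 5) (nat_lit 151) (nat_lit 5) (nat_lit 309) (nat_lit 277) (nat_lit 194)) (XT.lf (nat_lit 0) (nat_lit 1358810728) (nat_lit 456) (nat_lit 7049634841) (nat_lit 532) (nat_lit 3574628137)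 (nat_lit 144) (nat_lit 5) (nat_lit 150) (nat_lit 5) (nat_lit 151) (nat_lit 5) (nat_lit 310) (nat_lit 277) (nat_lit 193))))) (XT.nd (nat_lit 312) (nat_lit 912) (nat_lit 0) (XT.nd (nat_lit 156) (nat_lit 380) (nat_lit 0) (XT.nd (nat_lit 78) (nat_lit 532) (nat_lit 0) (XT.lf (nat_lit 0) (nat_lit 7911504492) (nat_lit 456) (nat_lit 2691915753) (nat_lit 532) (nat_lit 1579763529) (nat_lit 144) (nat_lit 5) (nat_lit 150) (nat_lit 5) (nat_lit 151) (nat_lit 5) (nat_lit 311) (nat_lit 277) (nat_lit 192)) (XT.lf (nat_lit 0) (nat_lit 482405423) (nat_lit 532) (nat_lit 10121108785) (nat_lit 76) (nat_lit 1785163902) (nat_lit 137) (nat_lit 5) (nat_lit 144) (nat_lit 5) (nat_lit 138) (nat_lit 5) (nat_lit 312) (nat_lit 277) (nat_lit 191))) (XT.nd (nat_lit 78) (nat_lit 380) (nat_lit 0) (XT.lf (nat_lit 0) (nat_lit 2622540946) (nat_lit 532) (nat_lit 3577527041) (nat_lit 76) (nat_lit 6398383601) (nat_lit 137) (nat_lit 5) (nat_lit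 144) (nat_lit 5) (nat_lit 138) (nat_lit 5) (nat_lit 313) (nat_lit 277) (nat_lit 190)) (XT.lf (nat_lit 0) (nat_lit 3199233913) (nat_lit 380) (nat_lit 1636688822) (nat_lit 456) (nat_lit 7978342856) (nat_lit 132) (nat_lit 5) (nat_lit 137) (nat_lit 5) (nat_lit 138) (nat_lit 5) (nat_lit 314) (nat_lit 277) (nat_lit 189)))) (XT.nd (nat_lit 156) (nat_lit 456) (nat_lit 0) (XT.nd (nat_lit 78) (nat_lit 456) (nat_lit 0) (XT.lf (nat_lit 0) (nat_lit 7160278789) (nat_lit 456) (nat_lit 2838569199) (nat_lit 76) (nat_lit 3036386890) (nat_lit 132) (nat_lit 5) (nat_lit 138) (nat_lit 5) (nat_lit 133) (nat_lit 5) (nat_lit 315) (nat_lit 277) (nat_lit 188)) (XT.lf (nat_lit 0) (nat_lit 4181406068) (nat_lit 456) (nat_lit 5408620663) (nat_lit 532) (nat_lit 3671754196) (nat_lit 126) (nat_lit 5) (nat_lit 132) (nat_lit 5) (nat_lit 133) (nat_lit 5) (nat_lit 316) (nat_lit 277) (nat_lit 187))) (XT.nd (nat_lit 78) (nat_lit 456)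 (nat_lit 0) (XT.lf (nat_lit 0) (nat_lit 11445244710) (nat_lit 456) (nat_lit 655712954) (nat_lit 532) (nat_lit 1393933987) (nat_lit 126) (nat_lit 5) (nat_lit 132) (nat_lit 5) (nat_lit 133) (nat_lit 5) (nat_lit 317) (nat_lit 277) (nat_lit 186)) (XT.lf (nat_lit 0) (nat_lit 1005520762) (nat_lit 456) (nat_lit 8514225286) (nat_lit 76) (nat_lit 4212834647) (nat_lit 120) (nat_lit 5) (nat_lit 126) (nat_lit 5) (nat_lit 121) (nat_lit 5) (nat_lit 318) (nat_lit 277) (nat_lit 185))))))))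
noncomputable def xc146 : XT := (XT.nd (nat_lit 2184) (nat_lit 2508) (nat_lit 0) (XT.nd (nat_lit 1092) (nat_lit 1900) (nat_lit 0) (XT.nd (nat_lit 546) (nat_lit 988) (nat_lit 0) (XT.nd (nat_lit 234) (nat_lit 1140) (nat_lit 0) (XT.nd (nat_lit 78) (nat_lit 380) (nat_lit 0) (XT.lf (nat_lit 0) (nat_lit 3456647540) (nat_lit 456) (nat_lit 1275794275) (nat_lit 76) (nat_lit 9244328970) (nat_lit 120) (nat_lit 5) (nat_lit 126) (nat_lit 5) (nat_lit 121) (nat_lit 5) (nat_lit 319) (nat_lit 277) (nat_lit 184)) (XT.nd (nat_lit 78) (nat_lit 0) (nat_lit 0) (XT.lf (nat_lit 0) (nat_lit 6024997546) (nat_lit 456) (nat_lit 7951427142) (nat_lit 76) (nat_lit 250566320) (nat_lit 115) (nat_lit 5) (nat_lit 121) (nat_lit 5) (nat_lit 116) (nat_lit 5) (nat_lit 320) (nat_lit 277) (nat_lit 183)) (XT.lf (nat_lit 0) (nat_lit 8711425130) (nat_lit 456) (nat_lit 476194580) (nat_lit 76) (nat_lit 5295881988) (nat_lit 115) (nat_lit 5)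 (nat_lit 121) (nat_lit 5) (nat_lit 116) (nat_lit 5) (nat_lit 321) (nat_lit 277) (nat_lit 182)))) (XT.nd (nat_lit 156) (nat_lit 380) (nat_lit 0) (XT.nd (nat_lit 78) (nat_lit 380) (nat_lit 0) (XT.lf (nat_lit 0) (nat_lit 7342797734) (nat_lit 380) (nat_lit 4187940632) (nat_lit 456) (nat_lit 3215414805) (nat_lit 110) (nat_lit 5) (nat_lit 115) (nat_lit 5) (nat_lit 116) (nat_lit 5) (nat_lit 322) (nat_lit 277) (nat_lit 181)) (XT.lf (nat_lit 0) (nat_lit 363330591) (nat_lit 380) (nat_lit 14070856183) (nat_lit 456) (nat_lit 582524572) (nat_lit 105) (nat_lit 5) (nat_lit 110) (nat_lit 5) (nat_lit 111) (nat_lit 5) (nat_lit 323) (nat_lit 277) (nat_lit 180))) (XT.nd (nat_lit 78) (nat_lit 304) (nat_lit 0) (XT.lf (nat_lit 0) (nat_lit 2186835254) (nat_lit 456) (nat_lit 6865220829) (nat_lit 76) (nat_lit 6239758133) (nat_lit 104) (nat_lit 5) (nat_lit 110) (nat_lit 5) (nat_lit 105) (nat_lit 5) (nat_lit 324) (nat_lit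 277) (nat_lit 179)) (XT.lf (nat_lit 0) (nat_lit 1149774424) (nat_lit 304) (nat_lit 3871437753) (nat_lit 380) (nat_lit 10553988292) (nat_lit 100) (nat_lit 5) (nat_lit 104) (nat_lit 5) (nat_lit 105) (nat_lit 5) (nat_lit 325) (nat_lit 277) (nat_lit 178))))) (XT.nd (nat_lit 234) (nat_lit 684) (nat_lit 0) (XT.nd (nat_lit 78) (nat_lit 304) (nat_lit 0) (XT.lf (nat_lit 0) (nat_lit 8007527509) (nat_lit 380) (nat_lit 6357538849) (nat_lit 76) (nat_lit 1500027026) (nat_lit 100) (nat_lit 5) (nat_lit 105) (nat_lit 5) (nat_lit 101) (nat_lit 5) (nat_lit 326) (nat_lit 277) (nat_lit 177)) (XT.nd (nat_lit 78) (nat_lit 0) (nat_lit 0) (XT.lf (nat_lit 0) (nat_lit 1928664705) (nat_lit 304) (nat_lit 9194955470) (nat_lit 380) (nat_lit 5038869208) (nat_lit 96) (nat_lit 5) (nat_lit 100) (nat_lit 5) (nat_lit 101) (nat_lit 5) (nat_lit 327) (nat_lit 277) (nat_lit 176)) (XT.lf (nat_lit 0) (nat_lit 10570979024) (nat_lit 304) (nat_lit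 3809999324) (nat_lit 380) (nat_lit 2086407014) (nat_lit 96) (nat_lit 5) (nat_lit 100) (nat_lit 5) (nat_lit 101) (nat_lit 5) (nat_lit 328) (nat_lit 277) (nat_lit 175)))) (XT.nd (nat_lit 156) (nat_lit 304) (nat_lit 0) (XT.nd (nat_lit 78) (nat_lit 0) (nat_lit 0) (XT.lf (nat_lit 0) (nat_lit 962947834) (nat_lit 380) (nat_lit 14085423984) (nat_lit 76) (nat_lit 1731983614) (nat_lit 91) (nat_lit 5) (nat_lit 96) (nat_lit 5) (nat_lit 92) (nat_lit 5) (nat_lit 329) (nat_lit 277) (nat_lit 174)) (XT.lf (nat_lit 0) (nat_lit 4143790225) (nat_lit 380) (nat_lit 5517688716) (nat_lit 76) (nat_lit 7438168293) (nat_lit 91) (nat_lit 5) (nat_lit 96) (nat_lit 5) (nat_lit 92) (nat_lit 5) (nat_lit 330) (nat_lit 277) (nat_lit 173))) (XT.nd (nat_lit 78) (nat_lit 0) (nat_lit 0) (XT.lf (nat_lit 0) (nat_lit 3350447711) (nat_lit 304) (nat_lit 4086367385) (nat_lit 380) (nat_lit 9991210267) (nat_lit 87) (nat_lit 5) (nat_lit 91) (nat_lit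 5) (nat_lit 92) (nat_lit 5) (nat_lit 331) (nat_lit 277) (nat_lit 172)) (XT.lf (nat_lit 0) (nat_lit 10885546506) (nat_lit 380) (nat_lit 5205515351) (nat_lit 76) (nat_lit 1673495497) (nat_lit 87) (nat_lit 5) (nat_lit 92) (nat_lit 5) (nat_lit 88) (nat_lit 5) (nat_lit 332) (nat_lit 277) (nat_lit 171)))))) (XT.nd (nat_lit 546) (nat_lit 836) (nat_lit 0) (XT.nd (nat_lit 234) (nat_lit 456) (nat_lit 0) (XT.nd (nat_lit 78) (nat_lit 380) (nat_lit 0) (XT.lf (nat_lit 0) (nat_lit 3947733390) (nat_lit 228) (nat_lit 10553586231) (nat_lit 304) (nat_lit 3607967993) (nat_lit 84) (nat_lit 5) (nat_lit 87) (nat_lit 5) (nat_lit 88) (nat_lit 5) (nat_lit 333) (nat_lit 277) (nat_lit 170)) (XT.nd (nat_lit 78) (nat_lit 380) (nat_lit 0) (XT.lf (nat_lit 0) (nat_lit 13460947995) (nat_lit 228) (nat_lit 4802582820) (nat_lit 304) (nat_lit 199699436) (nat_lit 84) (nat_lit 5) (nat_lit 87) (nat_lit 5) (nat_lit 88) (nat_lit 5) (nat_lit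 334) (nat_lit 277) (nat_lit 169)) (XT.lf (nat_lit 0) (nat_lit 3286268372) (nat_lit 380) (nat_lit 14371358659) (nat_lit 76) (nat_lit 1168016532) (nat_lit 79) (nat_lit 5) (nat_lit 84) (nat_lit 5) (nat_lit 80) (nat_lit 5) (nat_lit 335) (nat_lit 277) (nat_lit 168)))) (XT.nd (nat_lit 156) (nat_lit 228) (nat_lit 0) (XT.nd (nat_lit 78) (nat_lit 228) (nat_lit 0) (XT.lf (nat_lit 0) (nat_lit 6957193319) (nat_lit 380) (nat_lit 4971524030) (nat_lit 76) (nat_lit 7267629471) (nat_lit 79) (nat_lit 5) (nat_lit 84) (nat_lit 5) (nat_lit 80) (nat_lit 5) (nat_lit 336) (nat_lit 277) (nat_lit 167)) (XT.lf (nat_lit 0) (nat_lit 4783084100) (nat_lit 228) (nat_lit 5987380782) (nat_lit 304) (nat_lit 8806748096) (nat_lit 76) (nat_lit 5) (nat_lit 79) (nat_lit 5) (nat_lit 80) (nat_lit 5) (nat_lit 337) (nat_lit 277) (nat_lit 166))) (XT.nd (nat_lit 78) (nat_lit 228) (nat_lit 0) (XT.lf (nat_lit 0) (nat_lit 14736485684) (nat_lit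 304) (nat_lit 5058229567) (nat_lit 76) (nat_lit 173647461) (nat_lit 76) (nat_lit 5) (nat_lit 80) (nat_lit 5) (nat_lit 77) (nat_lit 5) (nat_lit 338) (nat_lit 277) (nat_lit 165)) (XT.lf (nat_lit 0) (nat_lit 4987692043) (nat_lit 228) (nat_lit 13927798134) (nat_lit 304) (nat_lit 1452944555) (nat_lit 73) (nat_lit 5) (nat_lit 76) (nat_lit 5) (nat_lit 77) (nat_lit 5) (nat_lit 339) (nat_lit 277) (nat_lit 164))))) (XT.nd (nat_lit 234) (nat_lit 532) (nat_lit 0) (XT.nd (nat_lit 78) (nat_lit 228) (nat_lit 0) (XT.lf (nat_lit 0) (nat_lit 2430173806) (nat_lit 304) (nat_lit 5384424723) (nat_lit 76) (nat_lit 12964061806) (nat_lit 72) (nat_lit 5) (nat_lit 76) (nat_lit 5) (nat_lit 73) (nat_lit 5) (nat_lit 340) (nat_lit 277) (nat_lit 163)) (XT.nd (nat_lit 78) (nat_lit 0) (nat_lit 0) (XT.lf (nat_lit 0) (nat_lit 4974888885) (nat_lit 228) (nat_lit 1460733828) (nat_lit 304) (nat_lit 14764094451) (nat_lit 69) (nat_lit 5)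 (nat_lit 72) (nat_lit 5) (nat_lit 73) (nat_lit 5) (nat_lit 341) (nat_lit 277) (nat_lit 162)) (XT.lf (nat_lit 0) (nat_lit 10652352220) (nat_lit 304) (nat_lit 5945537454) (nat_lit 76) (nat_lit 5032789518) (nat_lit 69) (nat_lit 5) (nat_lit 73) (nat_lit 5) (nat_lit 70) (nat_lit 5) (nat_lit 342) (nat_lit 277) (nat_lit 161)))) (XT.nd (nat_lit 156) (nat_lit 304) (nat_lit 0) (XT.nd (nat_lit 78) (nat_lit 0) (nat_lit 0) (XT.lf (nat_lit 0) (nat_lit 4700248524) (nat_lit 228) (nat_lit 10342686821) (nat_lit 304) (nat_lit 7030220988) (nat_lit 66) (nat_lit 5) (nat_lit 69) (nat_lit 5) (nat_lit 70) (nat_lit 5) (nat_lit 343) (nat_lit 277) (nat_lit 160)) (XT.lf (nat_lit 0) (nat_lit 15768333776) (nat_lit 228) (nat_lit 3844823674) (nat_lit 304) (nat_lit 2914319299) (nat_lit 66) (nat_lit 5) (nat_lit 69) (nat_lit 5) (nat_lit 70) (nat_lit 5) (nat_lit 344) (nat_lit 277) (nat_lit 159))) (XT.nd (nat_lit 78) (nat_lit 0) (nat_lit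 0) (XT.lf (nat_lit 0) (nat_lit 1355760261) (nat_lit 304) (nat_lit 18797947238) (nat_lit 76) (nat_lit 2839646661) (nat_lit 62) (nat_lit 5) (nat_lit 66) (nat_lit 5) (nat_lit 63) (nat_lit 5) (nat_lit 345) (nat_lit 277) (nat_lit 158)) (XT.lf (nat_lit 0) (nat_lit 5790582036) (nat_lit 304) (nat_lit 7940361929) (nat_lit 76) (nat_lit 9738547892) (nat_lit 62) (nat_lit 5) (nat_lit 66) (nat_lit 5) (nat_lit 63) (nat_lit 5) (nat_lit 346) (nat_lit 277) (nat_lit 157))))))) (XT.nd (nat_lit 1092) (nat_lit 1064) (nat_lit 0) (XT.nd (nat_lit 546) (nat_lit 760) (nat_lit 0) (XT.nd (nat_lit 234) (nat_lit 304) (nat_lit 0) (XT.nd (nat_lit 78) (nat_lit 152) (nat_lit 0) (XT.lf (nat_lit 0) (nat_lit 3288923084) (nat_lit 228) (nat_lit 7089701029) (nat_lit 304) (nat_lit 13580690171) (nat_lit 59) (nat_lit 5) (nat_lit 62) (nat_lit 5) (nat_lit 63) (nat_lit 5) (nat_lit 347) (nat_lit 277) (nat_lit 156)) (XT.nd (nat_lit 78) (nat_lit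 152) (nat_lit 0) (XT.lf (nat_lit 0) (nat_lit 14999828189) (nat_lit 228) (nat_lit 173381753) (nat_lit 304) (nat_lit 9288560066) (nat_lit 59) (nat_lit 5) (nat_lit 62) (nat_lit 5) (nat_lit 63) (nat_lit 5) (nat_lit 348) (nat_lit 277) (nat_lit 155)) (XT.lf (nat_lit 0) (nat_lit 2037942803) (nat_lit 152) (nat_lit 18149078204) (nat_lit 228) (nat_lit 4790022298) (nat_lit 57) (nat_lit 5) (nat_lit 59) (nat_lit 5) (nat_lit 60) (nat_lit 5) (nat_lit 349) (nat_lit 277) (nat_lit 154)))) (XT.nd (nat_lit 156) (nat_lit 0) (nat_lit 0) (XT.nd (nat_lit 78) (nat_lit 304) (nat_lit 0) (XT.lf (nat_lit 0) (nat_lit 14057433849) (nat_lit 152) (nat_lit 11380197006) (nat_lit 228) (nat_lit 67557784) (nat_lit 57) (nat_lit 5) (nat_lit 59) (nat_lit 5) (nat_lit 60) (nat_lit 5) (nat_lit 350) (nat_lit 277) (nat_lit 153)) (XT.lf (nat_lit 0) (nat_lit 331385811) (nat_lit 228) (nat_lit 4364126192) (nat_lit 304) (nat_lit 21352512266) (nat_lit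 53) (nat_lit 5) (nat_lit 56) (nat_lit 5) (nat_lit 57) (nat_lit 5) (nat_lit 351) (nat_lit 277) (nat_lit 152))) (XT.nd (nat_lit 78) (nat_lit 0) (nat_lit 0) (XT.lf (nat_lit 0) (nat_lit 9733802256) (nat_lit 304) (nat_lit 13951828656) (nat_lit 76) (nat_lit 2917488318) (nat_lit 53) (nat_lit 5) (nat_lit 57) (nat_lit 5) (nat_lit 54) (nat_lit 5) (nat_lit 352) (nat_lit 277) (nat_lit 151)) (XT.lf (nat_lit 0) (nat_lit 14956184744) (nat_lit 304) (nat_lit 1894168414) (nat_lit 76) (nat_lit 10323530348) (nat_lit 53) (nat_lit 5) (nat_lit 57) (nat_lit 5) (nat_lit 54) (nat_lit 5) (nat_lit 353) (nat_lit 277) (nat_lit 150))))) (XT.nd (nat_lit 234) (nat_lit 304) (nat_lit 0) (XT.nd (nat_lit 78) (nat_lit 304) (nat_lit 0) (XT.lf (nat_lit 0) (nat_lit 10717975034) (nat_lit 152) (nat_lit 9710324762) (nat_lit 228) (nat_lit 7330683715) (nat_lit 51) (nat_lit 5) (nat_lit 53) (nat_lit 5) (nat_lit 54) (nat_lit 5) (nat_lit 354) (nat_lit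 277) (nat_lit 149)) (XT.nd (nat_lit 78) (nat_lit 304) (nat_lit 0) (XT.lf (nat_lit 0) (nat_lit 23731079197) (nat_lit 152) (nat_lit 2342794102) (nat_lit 228) (nat_lit 2287488864) (nat_lit 51) (nat_lit 5) (nat_lit 53) (nat_lit 5) (nat_lit 54) (nat_lit 5) (nat_lit 355) (nat_lit 277) (nat_lit 148)) (XT.lf (nat_lit 0) (nat_lit 2971558230) (nat_lit 304) (nat_lit 20760063937) (nat_lit 76) (nat_lit 5245717457) (nat_lit 47) (nat_lit 5) (nat_lit 51) (nat_lit 5) (nat_lit 48) (nat_lit 5) (nat_lit 356) (nat_lit 277) (nat_lit 147)))) (XT.nd (nat_lit 156) (nat_lit 152) (nat_lit 0) (XT.nd (nat_lit 78) (nat_lit 152) (nat_lit 0) (XT.lf (nat_lit 0) (nat_lit 8403240017) (nat_lit 304) (nat_lit 8127552023) (nat_lit 76) (nat_lit 13078503848) (nat_lit 47) (nat_lit 5) (nat_lit 51) (nat_lit 5) (nat_lit 48) (nat_lit 5) (nat_lit 357) (nat_lit 277) (nat_lit 146)) (XT.lf (nat_lit 0) (nat_lit 4965263923) (nat_lit 152) (nat_lit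 9071040247) (nat_lit 228) (nat_lit 16222757708) (nat_lit 45) (nat_lit 5) (nat_lit 47) (nat_lit 5) (nat_lit 48) (nat_lit 5) (nat_lit 358) (nat_lit 277) (nat_lit 145))) (XT.nd (nat_lit 78) (nat_lit 152) (nat_lit 0) (XT.lf (nat_lit 0) (nat_lit 18602062252) (nat_lit 152) (nat_lit 1309195769) (nat_lit 228) (nat_lit 11014879775) (nat_lit 45) (nat_lit 5) (nat_lit 47) (nat_lit 5) (nat_lit 48) (nat_lit 5) (nat_lit 359) (nat_lit 277) (nat_lit 144)) (XT.lf (nat_lit 0) (nat_lit 974312791) (nat_lit 152) (nat_lit 25052813011) (nat_lit 228) (nat_lit 5584163996) (nat_lit 43) (nat_lit 5) (nat_lit 45) (nat_lit 5) (nat_lit 46) (nat_lit 5) (nat_lit 360) (nat_lit 277) (nat_lit 143)))))) (XT.nd (nat_lit 546) (nat_lit 608) (nat_lit 0) (XT.nd (nat_lit 234) (nat_lit 228) (nat_lit 0) (XT.nd (nat_lit 78) (nat_lit 152) (nat_lit 0) (XT.lf (nat_lit 0) (nat_lit 138991880) (nat_lit 228) (nat_lit 17418469879) (nat_lit 76) (nat_lit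 14755644316) (nat_lit 42) (nat_lit 5) (nat_lit 45) (nat_lit 5) (nat_lit 43) (nat_lit 5) (nat_lit 361) (nat_lit 277) (nat_lit 142)) (XT.nd (nat_lit 78) (nat_lit 152) (nat_lit 0) (XT.lf (nat_lit 0) (nat_lit 5912926638) (nat_lit 228) (nat_lit 3873459070) (nat_lit 76) (nat_lit 23248196306) (nat_lit 42) (nat_lit 5) (nat_lit 45) (nat_lit 5) (nat_lit 43) (nat_lit 5) (nat_lit 362) (nat_lit 277) (nat_lit 141)) (XT.lf (nat_lit 0) (nat_lit 10263854025) (nat_lit 152) (nat_lit 1686461032) (nat_lit 228) (nat_lit 21824683453) (nat_lit 40) (nat_lit 5) (nat_lit 42) (nat_lit 5) (nat_lit 43) (nat_lit 5) (nat_lit 363) (nat_lit 277) (nat_lit 140)))) (XT.nd (nat_lit 156) (nat_lit 76) (nat_lit 0) (XT.nd (nat_lit 78) (nat_lit 152) (nat_lit 0) (XT.lf (nat_lit 0) (nat_lit 18263938444) (nat_lit 228) (nat_lit 9710527289) (nat_lit 76) (nat_lit 6560311618) (nat_lit 40) (nat_lit 5) (nat_lit 43) (nat_lit 5) (nat_lit 41) (nat_lit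 5) (nat_lit 364) (nat_lit 277) (nat_lit 139)) (XT.lf (nat_lit 0) (nat_lit 4562471532) (nat_lit 152) (nat_lit 20256923535) (nat_lit 228) (nat_lit 10496384909) (nat_lit 38) (nat_lit 5) (nat_lit 40) (nat_lit 5) (nat_lit 41) (nat_lit 5) (nat_lit 365) (nat_lit 277) (nat_lit 138))) (XT.nd (nat_lit 78) (nat_lit 76) (nat_lit 0) (XT.lf (nat_lit 0) (nat_lit 19448884054) (nat_lit 152) (nat_lit 12212662094) (nat_lit 228) (nat_lit 4455968671) (nat_lit 38) (nat_lit 5) (nat_lit 40) (nat_lit 5) (nat_lit 41) (nat_lit 5) (nat_lit 366) (nat_lit 277) (nat_lit 137)) (XT.lf (nat_lit 0) (nat_lit 1723332850) (nat_lit 228) (nat_lit 2191974597) (nat_lit 76) (nat_lit 33027724155) (nat_lit 37) (nat_lit 5) (nat_lit 40) (nat_lit 5) (nat_lit 38) (nat_lit 5) (nat_lit 367) (nat_lit 277) (nat_lit 136))))) (XT.nd (nat_lit 312) (nat_lit 304) (nat_lit 0) (XT.nd (nat_lit 156) (nat_lit 152) (nat_lit 0) (XT.nd (nat_lit 78) (nat_lit 0)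 (nat_lit 0) (XT.lf (nat_lit 0) (nat_lit 8161071576) (nat_lit 228) (nat_lit 24920965268) (nat_lit 76) (nat_lit 4705077731) (nat_lit 35) (nat_lit 5) (nat_lit 38) (nat_lit 5) (nat_lit 36) (nat_lit 5) (nat_lit 368) (nat_lit 277) (nat_lit 135)) (XT.lf (nat_lit 0) (nat_lit 14845462181) (nat_lit 228) (nat_lit 10287130474) (nat_lit 76) (nat_lit 13522324512) (nat_lit 35) (nat_lit 5) (nat_lit 38) (nat_lit 5) (nat_lit 36) (nat_lit 5) (nat_lit 369) (nat_lit 277) (nat_lit 134))) (XT.nd (nat_lit 78) (nat_lit 0) (nat_lit 0) (XT.lf (nat_lit 0) (nat_lit 4867854205) (nat_lit 152) (nat_lit 16901944934) (nat_lit 228) (nat_lit 17777774900) (nat_lit 33) (nat_lit 5) (nat_lit 35) (nat_lit 5) (nat_lit 36) (nat_lit 5) (nat_lit 370) (nat_lit 277) (nat_lit 133)) (XT.lf (nat_lit 0) (nat_lit 20675636014) (nat_lit 152) (nat_lit 8322824426) (nat_lit 228) (nat_lit 11465654917) (nat_lit 33) (nat_lit 5) (nat_lit 35) (nat_lit 5) (nat_lit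 36) (nat_lit 5) (nat_lit 371) (nat_lit 277) (nat_lit 132)))) (XT.nd (nat_lit 156) (nat_lit 152) (nat_lit 0) (XT.nd (nat_lit 78) (nat_lit 152) (nat_lit 0) (XT.lf (nat_lit 0) (nat_lit 36441795080) (nat_lit 228) (nat_lit 4467961009) (nat_lit 76) (nat_lit 498464911) (nat_lit 33) (nat_lit 5) (nat_lit 36) (nat_lit 5) (nat_lit 34) (nat_lit 4) (nat_lit 372) (nat_lit 277) (nat_lit 131)) (XT.lf (nat_lit 0) (nat_lit 1881362724) (nat_lit 152) (nat_lit 30952668854) (nat_lit 76) (nat_lit 9540503387) (nat_lit 31) (nat_lit 5) (nat_lit 33) (nat_lit 5) (nat_lit 32) (nat_lit 5) (nat_lit 373) (nat_lit 277) (nat_lit 130))) (XT.nd (nat_lit 78) (nat_lit 152) (nat_lit 0) (XT.lf (nat_lit 0) (nat_lit 8873428240) (nat_lit 152) (nat_lit 15550304589) (nat_lit 76) (nat_lit 18943472719) (nat_lit 31) (nat_lit 5) (nat_lit 33) (nat_lit 5) (nat_lit 32) (nat_lit 5) (nat_lit 374) (nat_lit 277) (nat_lit 129)) (XT.lf (nat_lit 0) (nat_lit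 308324414) (nat_lit 152) (nat_lit 15763195208) (nat_lit 228) (nat_lit 28318250922) (nat_lit 29) (nat_lit 5) (nat_lit 31) (nat_lit 5) (nat_lit 32) (nat_lit 5) (nat_lit 375) (nat_lit 277) (nat_lit 128))))))))
noncomputable def xc147 : XT := (XT.nd (nat_lit 2184) (nat_lit 152) (nat_lit 0) (XT.nd (nat_lit 1092) (nat_lit 456) (nat_lit 0) (XT.nd (nat_lit 546) (nat_lit 304) (nat_lit 0) (XT.nd (nat_lit 234) (nat_lit 228) (nat_lit 0) (XT.nd (nat_lit 78) (nat_lit 76) (nat_lit 0) (XT.lf (nat_lit 0) (nat_lit 16949771487) (nat_lit 152) (nat_lit 6686192554) (nat_lit 228) (nat_lit 21802538291) (nat_lit 29) (nat_lit 5) (nat_lit 31) (nat_lit 5) (nat_lit 32) (nat_lit 5) (nat_lit 376) (nat_lit 277) (nat_lit 127)) (XT.nd (nat_lit 78) (nat_lit 76) (nat_lit 0) (XT.lf (nat_lit 0) (nat_lit 31446469278) (nat_lit 228) (nat_lit 12465346790) (nat_lit 76) (nat_lit 2606308264) (nat_lit 29) (nat_lit 5) (nat_lit 32) (nat_lit 5)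 (nat_lit 30) (nat_lit 4) (nat_lit 377) (nat_lit 277) (nat_lit 126)) (XT.lf (nat_lit 0) (nat_lit 4040199896) (nat_lit 76) (nat_lit 35549843028) (nat_lit 152) (nat_lit 8037131497) (nat_lit 28) (nat_lit 5) (nat_lit 29) (nat_lit 5) (nat_lit 30) (nat_lit 4) (nat_lit 378) (nat_lit 277) (nat_lit 125)))) (XT.nd (nat_lit 156) (nat_lit 152) (nat_lit 0) (XT.nd (nat_lit 78) (nat_lit 76) (nat_lit 0) (XT.lf (nat_lit 0) (nat_lit 21285372143) (nat_lit 76) (nat_lit 26812220271) (nat_lit 152) (nat_lit 668315504) (nat_lit 28) (nat_lit 5) (nat_lit 29) (nat_lit 5) (nat_lit 30) (nat_lit 4) (nat_lit 379) (nat_lit 277) (nat_lit 124)) (XT.lf (nat_lit 0) (nat_lit 6780412626) (nat_lit 152) (nat_lit 10968307044) (nat_lit 76) (nat_lit 32188272206) (nat_lit 27) (nat_lit 5) (nat_lit 29) (nat_lit 5) (nat_lit 28) (nat_lit 5) (nat_lit 380) (nat_lit 277) (nat_lit 123))) (XT.nd (nat_lit 78) (nat_lit 0) (nat_lit 0) (XT.lf (nat_lit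 0) (nat_lit 6141971250) (nat_lit 152) (nat_lit 8350328888) (nat_lit 228) (nat_lit 36649117603) (nat_lit 25) (nat_lit 5) (nat_lit 27) (nat_lit 5) (nat_lit 28) (nat_lit 5) (nat_lit 381) (nat_lit 277) (nat_lit 122)) (XT.lf (nat_lit 0) (nat_lit 22554301217) (nat_lit 228) (nat_lit 28412719148) (nat_lit 76) (nat_lit 1411395055) (nat_lit 25) (nat_lit 5) (nat_lit 28) (nat_lit 5) (nat_lit 26) (nat_lit 4) (nat_lit 382) (nat_lit 277) (nat_lit 121))))) (XT.nd (nat_lit 234) (nat_lit 228) (nat_lit 0) (XT.nd (nat_lit 78) (nat_lit 76) (nat_lit 0) (XT.lf (nat_lit 0) (nat_lit 30935127224) (nat_lit 228) (nat_lit 11421339742) (nat_lit 76) (nat_lit 11293748814) (nat_lit 25) (nat_lit 5) (nat_lit 28) (nat_lit 5) (nat_lit 26) (nat_lit 4) (nat_lit 383) (nat_lit 277) (nat_lit 120)) (XT.nd (nat_lit 78) (nat_lit 0) (nat_lit 0) (XT.lf (nat_lit 0) (nat_lit 6190608093) (nat_lit 76) (nat_lit 33430732559) (nat_lit 152) (nat_lit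 15337212265) (nat_lit 24) (nat_lit 5) (nat_lit 25) (nat_lit 5) (nat_lit 26) (nat_lit 4) (nat_lit 384) (nat_lit 277) (nat_lit 119)) (XT.lf (nat_lit 0) (nat_lit 24555164402) (nat_lit 76) (nat_lit 24122830525) (nat_lit 152) (nat_lit 7624851207) (nat_lit 24) (nat_lit 5) (nat_lit 25) (nat_lit 5) (nat_lit 26) (nat_lit 4) (nat_lit 385) (nat_lit 277) (nat_lit 118)))) (XT.nd (nat_lit 156) (nat_lit 0) (nat_lit 0) (XT.nd (nat_lit 78) (nat_lit 152) (nat_lit 0) (XT.lf (nat_lit 0) (nat_lit 307284865) (nat_lit 152) (nat_lit 14229573041) (nat_lit 76) (nat_lit 43150680987) (nat_lit 23) (nat_lit 5) (nat_lit 25) (nat_lit 5) (nat_lit 24) (nat_lit 5) (nat_lit 386) (nat_lit 277) (nat_lit 117)) (XT.lf (nat_lit 0) (nat_lit 3803388563) (nat_lit 152) (nat_lit 4552088193) (nat_lit 228) (nat_lit 50755092026) (nat_lit 21) (nat_lit 5) (nat_lit 23) (nat_lit 5) (nat_lit 24) (nat_lit 5) (nat_lit 387) (nat_lit 277) (nat_lit 116)))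 (XT.nd (nat_lit 78) (nat_lit 0) (nat_lit 0) (XT.lf (nat_lit 0) (nat_lit 16840134989) (nat_lit 228) (nat_lit 37968910134) (nat_lit 76) (nat_lit 5761395247) (nat_lit 21) (nat_lit 5) (nat_lit 24) (nat_lit 5) (nat_lit 22) (nat_lit 4) (nat_lit 388) (nat_lit 277) (nat_lit 115)) (XT.lf (nat_lit 0) (nat_lit 25619359914) (nat_lit 228) (nat_lit 20164725496) (nat_lit 76) (nat_lit 16288823265) (nat_lit 21) (nat_lit 5) (nat_lit 24) (nat_lit 5) (nat_lit 22) (nat_lit 4) (nat_lit 389) (nat_lit 277) (nat_lit 114)))))) (XT.nd (nat_lit 546) (nat_lit 228) (nat_lit 0) (XT.nd (nat_lit 234) (nat_lit 152) (nat_lit 0) (XT.nd (nat_lit 78) (nat_lit 76) (nat_lit 0) (XT.lf (nat_lit 0) (nat_lit 34657065243) (nat_lit 228) (nat_lit 1835311796) (nat_lit 76) (nat_lit 27128222220) (nat_lit 21) (nat_lit 5) (nat_lit 24) (nat_lit 5) (nat_lit 22) (nat_lit 4) (nat_lit 390) (nat_lit 277) (nat_lit 113)) (XT.nd (nat_lit 78) (nat_lit 0) (nat_lit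 0) (XT.lf (nat_lit 0) (nat_lit 17374383766) (nat_lit 76) (nat_lit 26753777439) (nat_lit 152) (nat_lit 21081692871) (nat_lit 20) (nat_lit 5) (nat_lit 21) (nat_lit 5) (nat_lit 22) (nat_lit 4) (nat_lit 391) (nat_lit 277) (nat_lit 112)) (XT.lf (nat_lit 0) (nat_lit 37189439612) (nat_lit 76) (nat_lit 16707785997) (nat_lit 152) (nat_lit 12949147124) (nat_lit 20) (nat_lit 5) (nat_lit 21) (nat_lit 5) (nat_lit 22) (nat_lit 4) (nat_lit 392) (nat_lit 277) (nat_lit 111)))) (XT.nd (nat_lit 156) (nat_lit 0) (nat_lit 0) (XT.nd (nat_lit 78) (nat_lit 152) (nat_lit 0) (XT.lf (nat_lit 0) (nat_lit 57590643565) (nat_lit 76) (nat_lit 6364157712) (nat_lit 152) (nat_lit 4577323717) (nat_lit 20) (nat_lit 5) (nat_lit 21) (nat_lit 5) (nat_lit 22) (nat_lit 4) (nat_lit 393) (nat_lit 277) (nat_lit 110)) (XT.lf (nat_lit 0) (nat_lit 4085885218) (nat_lit 152) (nat_lit 61854023045) (nat_lit 76) (nat_lit 4323800753) (nat_lit 18) (nat_lit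 5) (nat_lit 20) (nat_lit 5) (nat_lit 19) (nat_lit 4) (nat_lit 394) (nat_lit 277) (nat_lit 109))) (XT.nd (nat_lit 78) (nat_lit 0) (nat_lit 0) (XT.lf (nat_lit 0) (nat_lit 13087128396) (nat_lit 152) (nat_lit 43595843922) (nat_lit 76) (nat_lit 15357805631) (nat_lit 18) (nat_lit 5) (nat_lit 20) (nat_lit 5) (nat_lit 19) (nat_lit 4) (nat_lit 395) (nat_lit 277) (nat_lit 108)) (XT.lf (nat_lit 0) (nat_lit 22354083376) (nat_lit 152) (nat_lit 24797852040) (nat_lit 76) (nat_lit 26719354387) (nat_lit 18) (nat_lit 5) (nat_lit 20) (nat_lit 5) (nat_lit 19) (nat_lit 4) (nat_lit 396) (nat_lit 277) (nat_lit 107))))) (XT.nd (nat_lit 234) (nat_lit 152) (nat_lit 0) (XT.nd (nat_lit 78) (nat_lit 76) (nat_lit 0) (XT.lf (nat_lit 0) (nat_lit 31894847498) (nat_lit 152) (nat_lit 5443621968) (nat_lit 76) (nat_lit 38418374590) (nat_lit 18) (nat_lit 5) (nat_lit 20) (nat_lit 5) (nat_lit 19) (nat_lit 4) (nat_lit 397) (nat_lit 277)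 (nat_lit 106)) (XT.nd (nat_lit 78) (nat_lit 0) (nat_lit 0) (XT.lf (nat_lit 0) (nat_lit 14772012935) (nat_lit 76) (nat_lit 27087742040) (nat_lit 152) (nat_lit 35835073373) (nat_lit 17) (nat_lit 5) (nat_lit 18) (nat_lit 5) (nat_lit 19) (nat_lit 4) (nat_lit 398) (nat_lit 277) (nat_lit 105)) (XT.lf (nat_lit 0) (nat_lit 35698301857) (nat_lit 76) (nat_lit 16476248118) (nat_lit 152) (nat_lit 27514874982) (nat_lit 17) (nat_lit 5) (nat_lit 18) (nat_lit 5) (nat_lit 19) (nat_lit 4) (nat_lit 399) (nat_lit 277) (nat_lit 104)))) (XT.nd (nat_lit 156) (nat_lit 152) (nat_lit 0) (XT.nd (nat_lit 78) (nat_lit 0) (nat_lit 0) (XT.lf (nat_lit 0) (nat_lit 57245191152) (nat_lit 76) (nat_lit 5549685430) (nat_lit 152) (nat_lit 18949101216) (nat_lit 17) (nat_lit 5) (nat_lit 18) (nat_lit 5) (nat_lit 19) (nat_lit 4) (nat_lit 400) (nat_lit 277) (nat_lit 103)) (XT.lf (nat_lit 0) (nat_lit 73784820937) (nat_lit 152) (nat_lit 4483580157)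 (nat_lit 0) (nat_lit 5590236832) (nat_lit 17) (nat_lit 5) (nat_lit 19) (nat_lit 4) (nat_lit 17) (nat_lit 4) (nat_lit 401) (nat_lit 277) (nat_lit 102))) (XT.nd (nat_lit 78) (nat_lit 76) (nat_lit 0) (XT.lf (nat_lit 0) (nat_lit 16390107667) (nat_lit 76) (nat_lit 68923137728) (nat_lit 76) (nat_lit 717229920) (nat_lit 16) (nat_lit 4) (nat_lit 17) (nat_lit 5) (nat_lit 17) (nat_lit 4) (nat_lit 402) (nat_lit 277) (nat_lit 101)) (XT.lf (nat_lit 0) (nat_lit 8788004408) (nat_lit 152) (nat_lit 50377252746) (nat_lit 76) (nat_lit 29098378819) (nat_lit 15) (nat_lit 5) (nat_lit 17) (nat_lit 5) (nat_lit 16) (nat_lit 4) (nat_lit 403) (nat_lit 277) (nat_lit 100))))))) (XT.nd (nat_lit 31278) (nat_lit 0) (nat_lit 14060) (XT.nd (nat_lit 546) (nat_lit 76) (nat_lit 0) (XT.nd (nat_lit 234) (nat_lit 0) (nat_lit 0) (XT.nd (nat_lit 78) (nat_lit 76) (nat_lit 0) (XT.lf (nat_lit 0) (nat_lit 18560376664) (nat_lit 152) (nat_lit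 30550010743) (nat_lit 76) (nat_lit 41453299945) (nat_lit 15) (nat_lit 5) (nat_lit 17) (nat_lit 5) (nat_lit 16) (nat_lit 4) (nat_lit 404) (nat_lit 277) (nat_lit 99)) (XT.nd (nat_lit 78) (nat_lit 76) (nat_lit 0) (XT.lf (nat_lit 0) (nat_lit 28622421553) (nat_lit 152) (nat_lit 10134422412) (nat_lit 76) (nat_lit 54176002073) (nat_lit 15) (nat_lit 5) (nat_lit 17) (nat_lit 5) (nat_lit 16) (nat_lit 4) (nat_lit 405) (nat_lit 277) (nat_lit 98)) (XT.lf (nat_lit 0) (nat_lit 11104030746) (nat_lit 76) (nat_lit 27985639142) (nat_lit 152) (nat_lit 56280310119) (nat_lit 14) (nat_lit 5) (nat_lit 15) (nat_lit 5) (nat_lit 16) (nat_lit 4) (nat_lit 406) (nat_lit 277) (nat_lit 97)))) (XT.nd (nat_lit 156) (nat_lit 0) (nat_lit 0) (XT.nd (nat_lit 78) (nat_lit 0) (nat_lit 0) (XT.lf (nat_lit 0) (nat_lit 33181162358) (nat_lit 76) (nat_lit 16788753608) (nat_lit 152) (nat_lit 47907343385) (nat_lit 14) (nat_lit 5) (nat_lit 15)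 (nat_lit 5) (nat_lit 16) (nat_lit 4) (nat_lit 407) (nat_lit 277) (nat_lit 96)) (XT.lf (nat_lit 0) (nat_lit 55914568243) (nat_lit 76) (nat_lit 5258741471) (nat_lit 152) (nat_lit 39286545893) (nat_lit 14) (nat_lit 5) (nat_lit 15) (nat_lit 5) (nat_lit 16) (nat_lit 4) (nat_lit 408) (nat_lit 277) (nat_lit 95))) (XT.nd (nat_lit 78) (nat_lit 0) (nat_lit 0) (XT.lf (nat_lit 0) (nat_lit 72773222858) (nat_lit 152) (nat_lit 23859495224) (nat_lit 0) (nat_lit 6485399862) (nat_lit 14) (nat_lit 5) (nat_lit 16) (nat_lit 4) (nat_lit 14) (nat_lit 4) (nat_lit 409) (nat_lit 277) (nat_lit 94)) (XT.lf (nat_lit 0) (nat_lit 84770102363) (nat_lit 152) (nat_lit 2610956726) (nat_lit 0) (nat_lit 18473600691) (nat_lit 14) (nat_lit 5) (nat_lit 16) (nat_lit 4) (nat_lit 14) (nat_lit 4) (nat_lit 410) (nat_lit 277) (nat_lit 93))))) (XT.nd (nat_lit 30420) (nat_lit 0) (nat_lit 17936) (XT.nd (nat_lit 30264) (nat_lit 0) (nat_lit 18848)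 (XT.lf (nat_lit 0) (nat_lit 19652944791) (nat_lit 76) (nat_lit 77659852036) (nat_lit 76) (nat_lit 11354924465) (nat_lit 13) (nat_lit 4) (nat_lit 14) (nat_lit 5) (nat_lit 14) (nat_lit 4) (nat_lit 411) (nat_lit 277) (nat_lit 92)) (XT.nd (nat_lit 78) (nat_lit 0) (nat_lit 0) (XT.lf (nat_lit 0) (nat_lit 1548650136) (nat_lit 0) (nat_lit 1548650136) (nat_lit 836) (nat_lit 823092824) (nat_lit 261) (nat_lit 5) (nat_lit 261) (nat_lit 3) (nat_lit 272) (nat_lit 3) (nat_lit 278) (nat_lit 278) (nat_lit 224)) (XT.lf (nat_lit 0) (nat_lit 6822614246) (nat_lit 0) (nat_lit 680507557) (nat_lit 836) (nat_lit 417299754) (nat_lit 261) (nat_lit 5) (nat_lit 261) (nat_lit 3) (nat_lit 272) (nat_lit 3) (nat_lit 279) (nat_lit 278) (nat_lit 223)))) (XT.nd (nat_lit 156) (nat_lit 0) (nat_lit 0) (XT.nd (nat_lit 78) (nat_lit 0) (nat_lit 0) (XT.lf (nat_lit 0) (nat_lit 827602348) (nat_lit 912) (nat_lit 5344288725) (nat_lit 988) (nat_lit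 1830496205) (nat_lit 249) (nat_lit 5) (nat_lit 261) (nat_lit 5) (nat_lit 262) (nat_lit 5) (nat_lit 280) (nat_lit 278) (nat_lit 222)) (XT.lf (nat_lit 0) (nat_lit 2072804635) (nat_lit 912) (nat_lit 1574437331) (nat_lit 988) (nat_lit 4440361328) (nat_lit 249) (nat_lit 5) (nat_lit 261) (nat_lit 5) (nat_lit 262) (nat_lit 5) (nat_lit 281) (nat_lit 278) (nat_lit 221))) (XT.nd (nat_lit 78) (nat_lit 0) (nat_lit 76) (XT.lf (nat_lit 76) (nat_lit 2328545621) (nat_lit 0) (nat_lit 1003965118) (nat_lit 988) (nat_lit 4843604493) (nat_lit 250) (nat_lit 5) (nat_lit 249) (nat_lit 5) (nat_lit 262) (nat_lit 5) (nat_lit 282) (nat_lit 278) (nat_lit 220)) (XT.lf (nat_lit 0) (nat_lit 4618607302) (nat_lit 912) (nat_lit 1929303879) (nat_lit 988) (nat_lit 1719765669) (nat_lit 250) (nat_lit 5) (nat_lit 262) (nat_lit 5) (nat_lit 263) (nat_lit 5) (nat_lit 283) (nat_lit 278) (nat_lit 219)))))) (XT.nd (nat_lit 546) (nat_lit 3040)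 (nat_lit 0) (XT.nd (nat_lit 234) (nat_lit 0) (nat_lit 0) (XT.nd (nat_lit 78) (nat_lit 912) (nat_lit 0) (XT.lf (nat_lit 76) (nat_lit 2111844258) (nat_lit 0) (nat_lit 3818986782) (nat_lit 988) (nat_lit 2431578729) (nat_lit 251) (nat_lit 5) (nat_lit 250) (nat_lit 5) (nat_lit 263) (nat_lit 5) (nat_lit 284) (nat_lit 278) (nat_lit 218)) (XT.nd (nat_lit 78) (nat_lit 912) (nat_lit 0) (XT.lf (nat_lit 76) (nat_lit 6288094938) (nat_lit 0) (nat_lit 972109153) (nat_lit 988) (nat_lit 1200496408) (nat_lit 251) (nat_lit 5) (nat_lit 250) (nat_lit 5) (nat_lit 263) (nat_lit 5) (nat_lit 285) (nat_lit 278) (nat_lit 217)) (XT.lf (nat_lit 0) (nat_lit 64076758) (nat_lit 988) (nat_lit 6540715844) (nat_lit 1064) (nat_lit 1957238069) (nat_lit 238) (nat_lit 5) (nat_lit 251) (nat_lit 5) (nat_lit 252) (nat_lit 5) (nat_lit 286) (nat_lit 278) (nat_lit 216)))) (XT.nd (nat_lit 156) (nat_lit 0) (nat_lit 76) (XT.nd (nat_lit 78) (nat_lit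 0) (nat_lit 0) (XT.lf (nat_lit 0) (nat_lit 1334392197) (nat_lit 988) (nat_lit 2328806176) (nat_lit 1064) (nat_lit 5003132893) (nat_lit 238) (nat_lit 5) (nat_lit 251) (nat_lit 5) (nat_lit 252) (nat_lit 5) (nat_lit 287) (nat_lit 278) (nat_lit 215)) (XT.lf (nat_lit 76) (nat_lit 2022792412) (nat_lit 0) (nat_lit 600782355) (nat_lit 1064) (nat_lit 6150807186) (nat_lit 239) (nat_lit 5) (nat_lit 238) (nat_lit 5) (nat_lit 252) (nat_lit 5) (nat_lit 288) (nat_lit 278) (nat_lit 214))) (XT.nd (nat_lit 78) (nat_lit 0) (nat_lit 0) (XT.lf (nat_lit 0) (nat_lit 3962033848) (nat_lit 988) (nat_lit 2384245636) (nat_lit 1064) (nat_lit 2539119172) (nat_lit 239) (nat_lit 5) (nat_lit 252) (nat_lit 5) (nat_lit 253) (nat_lit 5) (nat_lit 289) (nat_lit 278) (nat_lit 213)) (XT.lf (nat_lit 76) (nat_lit 2123217922) (nat_lit 0) (nat_lit 3207190631) (nat_lit 1064) (nat_lit 3669685740) (nat_lit 240) (nat_lit 5) (nat_lit 239) (nat_lit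 5) (nat_lit 253) (nat_lit 5) (nat_lit 290) (nat_lit 278) (nat_lit 212))))) (XT.nd (nat_lit 312) (nat_lit 2128) (nat_lit 0) (XT.nd (nat_lit 156) (nat_lit 1064) (nat_lit 0) (XT.nd (nat_lit 78) (nat_lit 0) (nat_lit 0) (XT.lf (nat_lit 0) (nat_lit 6728711132) (nat_lit 988) (nat_lit 2330549048) (nat_lit 1064) (nat_lit 59344405) (nat_lit 240) (nat_lit 5) (nat_lit 253) (nat_lit 5) (nat_lit 254) (nat_lit 5) (nat_lit 291) (nat_lit 278) (nat_lit 211)) (XT.lf (nat_lit 76) (nat_lit 2339530838) (nat_lit 0) (nat_lit 5849026225) (nat_lit 1064) (nat_lit 1051564213) (nat_lit 241) (nat_lit 5) (nat_lit 240) (nat_lit 5) (nat_lit 254) (nat_lit 5) (nat_lit 292) (nat_lit 278) (nat_lit 210))) (XT.nd (nat_lit 78) (nat_lit 0) (nat_lit 76) (XT.lf (nat_lit 0) (nat_lit 310037518) (nat_lit 1064) (nat_lit 2197459913) (nat_lit 1140) (nat_lit 6858043389) (nat_lit 226) (nat_lit 5) (nat_lit 240) (nat_lit 5) (nat_lit 241) (nat_lit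 5) (nat_lit 293) (nat_lit 278) (nat_lit 209)) (XT.lf (nat_lit 0) (nat_lit 1693079639) (nat_lit 1064) (nat_lit 6841989491) (nat_lit 76) (nat_lit 959325258) (nat_lit 227) (nat_lit 5) (nat_lit 241) (nat_lit 5) (nat_lit 228) (nat_lit 5) (nat_lit 294) (nat_lit 278) (nat_lit 208)))) (XT.nd (nat_lit 156) (nat_lit 1140) (nat_lit 0) (XT.nd (nat_lit 78) (nat_lit 1064) (nat_lit 0) (XT.lf (nat_lit 0) (nat_lit 3132365299) (nat_lit 1064) (nat_lit 1985708130) (nat_lit 76) (nat_lit 4508632143) (nat_lit 227) (nat_lit 5) (nat_lit 241) (nat_lit 5) (nat_lit 228) (nat_lit 5) (nat_lit 295) (nat_lit 278) (nat_lit 207)) (XT.lf (nat_lit 0) (nat_lit 3049530862) (nat_lit 1064) (nat_lit 1563074592) (nat_lit 1140) (nat_lit 5150480932) (nat_lit 213) (nat_lit 5) (nat_lit 227) (nat_lit 5) (nat_lit 228) (nat_lit 5) (nat_lit 296) (nat_lit 278) (nat_lit 206))) (XT.nd (nat_lit 78) (nat_lit 1140) (nat_lit 0) (XT.lf (nat_lit 0) (nat_lit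 6146853682) (nat_lit 1140) (nat_lit 1673782851) (nat_lit 76) (nat_lit 2082666658) (nat_lit 213) (nat_lit 5) (nat_lit 228) (nat_lit 5) (nat_lit 214) (nat_lit 5) (nat_lit 297) (nat_lit 278) (nat_lit 205)) (XT.lf (nat_lit 0) (nat_lit 3544675864) (nat_lit 1140) (nat_lit 4202078603) (nat_lit 1216) (nat_lit 2300414925) (nat_lit 198) (nat_lit 5) (nat_lit 213) (nat_lit 5) (nat_lit 214) (nat_lit 5) (nat_lit 298) (nat_lit 278) (nat_lit 204))))))))
noncomputable def xc148 : XT := (XT.nd (nat_lit 2184) (nat_lit 3724) (nat_lit 0) (XT.nd (nat_lit 1092) (nat_lit 3344) (nat_lit 0) (XT.nd (nat_lit 546) (nat_lit 1596) (nat_lit 0) (XT.nd (nat_lit 234) (nat_lit 1672) (nat_lit 0) (XT.nd (nat_lit 78) (nat_lit 836) (nat_lit 0) (XT.lf (nat_lit 0) (nat_lit 8928055571) (nat_lit 1140) (nat_lit 454196360) (nat_lit 1216) (nat_lit 813502379) (nat_lit 198) (nat_lit 5) (nat_lit 213) (nat_lit 5) (nat_lit 214) (nat_lit 5) (nat_lit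 299) (nat_lit 278) (nat_lit 203)) (XT.nd (nat_lit 78) (nat_lit 0) (nat_lit 0) (XT.lf (nat_lit 0) (nat_lit 748594725) (nat_lit 836) (nat_lit 6208637527) (nat_lit 76) (nat_lit 3390048774) (nat_lit 187) (nat_lit 5) (nat_lit 198) (nat_lit 5) (nat_lit 188) (nat_lit 5) (nat_lit 300) (nat_lit 278) (nat_lit 202)) (XT.lf (nat_lit 0) (nat_lit 2330486921) (nat_lit 836) (nat_lit 808920100) (nat_lit 76) (nat_lit 7364054521) (nat_lit 187) (nat_lit 5) (nat_lit 198) (nat_lit 5) (nat_lit 188) (nat_lit 5) (nat_lit 301) (nat_lit 278) (nat_lit 201)))) (XT.nd (nat_lit 156) (nat_lit 1064) (nat_lit 0) (XT.nd (nat_lit 78) (nat_lit 0) (nat_lit 0) (XT.lf (nat_lit 0) (nat_lit 3986954806) (nat_lit 684) (nat_lit 5850678385) (nat_lit 76) (nat_lit 825908010) (nat_lit 179) (nat_lit 5) (nat_lit 188) (nat_lit 5) (nat_lit 180) (nat_lit 5) (nat_lit 302) (nat_lit 278) (nat_lit 200)) (XT.lf (nat_lit 0) (nat_lit 5705691349) (nat_lit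 684) (nat_lit 265717099) (nat_lit 76) (nat_lit 4856664064) (nat_lit 179) (nat_lit 5) (nat_lit 188) (nat_lit 5) (nat_lit 180) (nat_lit 5) (nat_lit 303) (nat_lit 278) (nat_lit 199))) (XT.nd (nat_lit 78) (nat_lit 532) (nat_lit 0) (XT.lf (nat_lit 0) (nat_lit 5569992296) (nat_lit 532) (nat_lit 1933561225) (nat_lit 608) (nat_lit 3493185066) (nat_lit 172) (nat_lit 5) (nat_lit 179) (nat_lit 5) (nat_lit 180) (nat_lit 5) (nat_lit 304) (nat_lit 278) (nat_lit 198)) (XT.lf (nat_lit 0) (nat_lit 375716173) (nat_lit 532) (nat_lit 8981886426) (nat_lit 608) (nat_lit 1812819493) (nat_lit 165) (nat_lit 5) (nat_lit 172) (nat_lit 5) (nat_lit 173) (nat_lit 5) (nat_lit 305) (nat_lit 278) (nat_lit 197))))) (XT.nd (nat_lit 234) (nat_lit 988) (nat_lit 0) (XT.nd (nat_lit 78) (nat_lit 608) (nat_lit 0) (XT.lf (nat_lit 0) (nat_lit 6418193046) (nat_lit 532) (nat_lit 4897867451) (nat_lit 608) (nat_lit 31816238) (nat_lit 165) (nat_lit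 5) (nat_lit 172) (nat_lit 5) (nat_lit 173) (nat_lit 5) (nat_lit 306) (nat_lit 278) (nat_lit 196)) (XT.nd (nat_lit 78) (nat_lit 0) (nat_lit 0) (XT.lf (nat_lit 0) (nat_lit 1089688065) (nat_lit 532) (nat_lit 663723751) (nat_lit 608) (nat_lit 9777167119) (nat_lit 157) (nat_lit 5) (nat_lit 164) (nat_lit 5) (nat_lit 165) (nat_lit 5) (nat_lit 307) (nat_lit 278) (nat_lit 195)) (XT.lf (nat_lit 0) (nat_lit 3653326464) (nat_lit 608) (nat_lit 4388941948) (nat_lit 76) (nat_lit 3674653456) (nat_lit 157) (nat_lit 5) (nat_lit 165) (nat_lit 5) (nat_lit 158) (nat_lit 5) (nat_lit 308) (nat_lit 278) (nat_lit 194)))) (XT.nd (nat_lit 156) (nat_lit 456) (nat_lit 0) (XT.nd (nat_lit 78) (nat_lit 0) (nat_lit 0) (XT.lf (nat_lit 0) (nat_lit 1848810854) (nat_lit 532) (nat_lit 3762425603) (nat_lit 608) (nat_lit 6297610242) (nat_lit 150) (nat_lit 5) (nat_lit 157) (nat_lit 5) (nat_lit 158) (nat_lit 5) (nat_lit 309) (nat_lit 278)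 (nat_lit 193)) (XT.lf (nat_lit 0) (nat_lit 7655923979) (nat_lit 608) (nat_lit 3773881421) (nat_lit 76) (nat_lit 675903589) (nat_lit 150) (nat_lit 5) (nat_lit 158) (nat_lit 5) (nat_lit 151) (nat_lit 5) (nat_lit 310) (nat_lit 278) (nat_lit 192))) (XT.nd (nat_lit 78) (nat_lit 0) (nat_lit 0) (XT.lf (nat_lit 0) (nat_lit 2691168611) (nat_lit 456) (nat_lit 7111645934) (nat_lit 532) (nat_lit 2504457040) (nat_lit 144) (nat_lit 5) (nat_lit 150) (nat_lit 5) (nat_lit 151) (nat_lit 5) (nat_lit 311) (nat_lit 278) (nat_lit 191)) (XT.lf (nat_lit 0) (nat_lit 9402823958) (nat_lit 456) (nat_lit 2627549001) (nat_lit 532) (nat_lit 484039987) (nat_lit 144) (nat_lit 5) (nat_lit 150) (nat_lit 5) (nat_lit 151) (nat_lit 5) (nat_lit 312) (nat_lit 278) (nat_lit 190)))))) (XT.nd (nat_lit 546) (nat_lit 1520) (nat_lit 0) (XT.nd (nat_lit 234) (nat_lit 912) (nat_lit 0) (XT.nd (nat_lit 78) (nat_lit 380) (nat_lit 0) (XT.lf (nat_lit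 0) (nat_lit 1598780507) (nat_lit 532) (nat_lit 9127639119) (nat_lit 76) (nat_lit 1999918354) (nat_lit 137) (nat_lit 5) (nat_lit 144) (nat_lit 5) (nat_lit 138) (nat_lit 5) (nat_lit 313) (nat_lit 278) (nat_lit 189)) (XT.nd (nat_lit 78) (nat_lit 380) (nat_lit 0) (XT.lf (nat_lit 0) (nat_lit 3771025836) (nat_lit 532) (nat_lit 2425529620) (nat_lit 76) (nat_lit 6746839512) (nat_lit 137) (nat_lit 5) (nat_lit 144) (nat_lit 5) (nat_lit 138) (nat_lit 5) (nat_lit 314) (nat_lit 278) (nat_lit 188)) (XT.lf (nat_lit 0) (nat_lit 4542187857) (nat_lit 380) (nat_lit 1489448451) (nat_lit 456) (nat_lit 7134648943) (nat_lit 132) (nat_lit 5) (nat_lit 137) (nat_lit 5) (nat_lit 138) (nat_lit 5) (nat_lit 315) (nat_lit 278) (nat_lit 187)))) (XT.nd (nat_lit 156) (nat_lit 456) (nat_lit 0) (XT.nd (nat_lit 78) (nat_lit 456) (nat_lit 0) (XT.lf (nat_lit 0) (nat_lit 8396954377) (nat_lit 456) (nat_lit 1683437067) (nat_lit 76) (nat_lit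 3314381132) (nat_lit 132) (nat_lit 5) (nat_lit 138) (nat_lit 5) (nat_lit 133) (nat_lit 5) (nat_lit 316) (nat_lit 278) (nat_lit 186)) (XT.lf (nat_lit 0) (nat_lit 5534977760) (nat_lit 456) (nat_lit 5346659406) (nat_lit 532) (nat_lit 2747041713) (nat_lit 126) (nat_lit 5) (nat_lit 132) (nat_lit 5) (nat_lit 133) (nat_lit 5) (nat_lit 317) (nat_lit 278) (nat_lit 185))) (XT.nd (nat_lit 78) (nat_lit 456) (nat_lit 0) (XT.lf (nat_lit 0) (nat_lit 12980960798) (nat_lit 456) (nat_lit 457695142) (nat_lit 532) (nat_lit 431028601) (nat_lit 126) (nat_lit 5) (nat_lit 132) (nat_lit 5) (nat_lit 133) (nat_lit 5) (nat_lit 318) (nat_lit 278) (nat_lit 184)) (XT.lf (nat_lit 0) (nat_lit 2005893463) (nat_lit 456) (nat_lit 7541219840) (nat_lit 76) (nat_lit 4567571542) (nat_lit 120) (nat_lit 5) (nat_lit 126) (nat_lit 5) (nat_lit 121) (nat_lit 5) (nat_lit 319) (nat_lit 278) (nat_lit 183))))) (XT.nd (nat_lit 234) (nat_lit 760)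 (nat_lit 0) (XT.nd (nat_lit 78) (nat_lit 760) (nat_lit 0) (XT.lf (nat_lit 0) (nat_lit 4502295586) (nat_lit 456) (nat_lit 121415477) (nat_lit 76) (nat_lit 9743359669) (nat_lit 120) (nat_lit 5) (nat_lit 126) (nat_lit 5) (nat_lit 121) (nat_lit 5) (nat_lit 320) (nat_lit 278) (nat_lit 182)) (XT.nd (nat_lit 78) (nat_lit 380) (nat_lit 0) (XT.lf (nat_lit 0) (nat_lit 7134064930) (nat_lit 456) (nat_lit 6982963142) (nat_lit 76) (nat_lit 508200116) (nat_lit 115) (nat_lit 5) (nat_lit 121) (nat_lit 5) (nat_lit 116) (nat_lit 5) (nat_lit 321) (nat_lit 278) (nat_lit 181)) (XT.lf (nat_lit 0) (nat_lit 694931473) (nat_lit 380) (nat_lit 9185795602) (nat_lit 456) (nat_lit 5009338931) (nat_lit 110) (nat_lit 5) (nat_lit 115) (nat_lit 5) (nat_lit 116) (nat_lit 5) (nat_lit 322) (nat_lit 278) (nat_lit 180)))) (XT.nd (nat_lit 156) (nat_lit 304) (nat_lit 0) (XT.nd (nat_lit 78) (nat_lit 456) (nat_lit 0) (XT.lf (nat_lit 0) (nat_lit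 8723444204) (nat_lit 380) (nat_lit 4039398666) (nat_lit 456) (nat_lit 2398427904) (nat_lit 110) (nat_lit 5) (nat_lit 115) (nat_lit 5) (nat_lit 116) (nat_lit 5) (nat_lit 323) (nat_lit 278) (nat_lit 179)) (XT.lf (nat_lit 0) (nat_lit 295221405) (nat_lit 456) (nat_lit 13895612201) (nat_lit 76) (nat_lit 1249404301) (nat_lit 104) (nat_lit 5) (nat_lit 110) (nat_lit 5) (nat_lit 105) (nat_lit 5) (nat_lit 324) (nat_lit 278) (nat_lit 178))) (XT.nd (nat_lit 78) (nat_lit 304) (nat_lit 0) (XT.lf (nat_lit 0) (nat_lit 3110220455) (nat_lit 456) (nat_lit 5914281913) (nat_lit 76) (nat_lit 6699709181) (nat_lit 104) (nat_lit 5) (nat_lit 110) (nat_lit 5) (nat_lit 105) (nat_lit 5) (nat_lit 325) (nat_lit 278) (nat_lit 177)) (XT.lf (nat_lit 0) (nat_lit 2329821084) (nat_lit 304) (nat_lit 3685835475) (nat_lit 380) (nat_lit 10000880161) (nat_lit 100) (nat_lit 5) (nat_lit 104) (nat_lit 5) (nat_lit 105) (nat_lit 5) (nat_lit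 326) (nat_lit 278) (nat_lit 176))))))) (XT.nd (nat_lit 1092) (nat_lit 1672) (nat_lit 0) (XT.nd (nat_lit 546) (nat_lit 1064) (nat_lit 0) (XT.nd (nat_lit 234) (nat_lit 684) (nat_lit 0) (XT.nd (nat_lit 78) (nat_lit 304) (nat_lit 0) (XT.lf (nat_lit 0) (nat_lit 9069800497) (nat_lit 380) (nat_lit 5413728481) (nat_lit 76) (nat_lit 1832267906) (nat_lit 100) (nat_lit 5) (nat_lit 105) (nat_lit 5) (nat_lit 101) (nat_lit 5) (nat_lit 327) (nat_lit 278) (nat_lit 175)) (XT.nd (nat_lit 78) (nat_lit 0) (nat_lit 0) (XT.lf (nat_lit 0) (nat_lit 3109938272) (nat_lit 304) (nat_lit 9156293488) (nat_lit 380) (nat_lit 4356294451) (nat_lit 96) (nat_lit 5) (nat_lit 100) (nat_lit 5) (nat_lit 101) (nat_lit 5) (nat_lit 328) (nat_lit 278) (nat_lit 174)) (XT.lf (nat_lit 0) (nat_lit 11978801235) (nat_lit 304) (nat_lit 3618949162) (nat_lit 380) (nat_lit 1339542105) (nat_lit 96) (nat_lit 5) (nat_lit 100) (nat_lit 5) (nat_lit 101)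 (nat_lit 5) (nat_lit 329) (nat_lit 278) (nat_lit 173)))) (XT.nd (nat_lit 156) (nat_lit 304) (nat_lit 0) (XT.nd (nat_lit 78) (nat_lit 0) (nat_lit 0) (XT.lf (nat_lit 0) (nat_lit 1775947536) (nat_lit 380) (nat_lit 13390887680) (nat_lit 76) (nat_lit 2092885213) (nat_lit 91) (nat_lit 5) (nat_lit 96) (nat_lit 5) (nat_lit 92) (nat_lit 5) (nat_lit 330) (nat_lit 278) (nat_lit 172)) (XT.lf (nat_lit 0) (nat_lit 5029377006) (nat_lit 380) (nat_lit 4598657218) (nat_lit 76) (nat_lit 7961257118) (nat_lit 91) (nat_lit 5) (nat_lit 96) (nat_lit 5) (nat_lit 92) (nat_lit 5) (nat_lit 331) (nat_lit 278) (nat_lit 171))) (XT.nd (nat_lit 78) (nat_lit 0) (nat_lit 0) (XT.lf (nat_lit 0) (nat_lit 4524890340) (nat_lit 304) (nat_lit 3884452545) (nat_lit 380) (nat_lit 9518548193) (nat_lit 87) (nat_lit 5) (nat_lit 91) (nat_lit 5) (nat_lit 92) (nat_lit 5) (nat_lit 332) (nat_lit 278) (nat_lit 170)) (XT.lf (nat_lit 0) (nat_lit 11942736867)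 (nat_lit 380) (nat_lit 4299753730) (nat_lit 76) (nat_lit 2032606753) (nat_lit 87) (nat_lit 5) (nat_lit 92) (nat_lit 5) (nat_lit 88) (nat_lit 5) (nat_lit 333) (nat_lit 278) (nat_lit 169))))) (XT.nd (nat_lit 234) (nat_lit 456) (nat_lit 0) (XT.nd (nat_lit 78) (nat_lit 380) (nat_lit 0) (XT.lf (nat_lit 0) (nat_lit 5117681423) (nat_lit 228) (nat_lit 10538129258) (nat_lit 304) (nat_lit 2974707933) (nat_lit 84) (nat_lit 5) (nat_lit 87) (nat_lit 5) (nat_lit 88) (nat_lit 5) (nat_lit 334) (nat_lit 278) (nat_lit 168)) (XT.nd (nat_lit 78) (nat_lit 304) (nat_lit 0) (XT.lf (nat_lit 0) (nat_lit 504177497) (nat_lit 304) (nat_lit 4114998826) (nat_lit 76) (nat_lit 14376397084) (nat_lit 83) (nat_lit 5) (nat_lit 87) (nat_lit 5) (nat_lit 84) (nat_lit 5) (nat_lit 335) (nat_lit 278) (nat_lit 167)) (XT.lf (nat_lit 0) (nat_lit 4083179669) (nat_lit 380) (nat_lit 13759169131) (nat_lit 76) (nat_lit 1526689670) (nat_lit 79)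 (nat_lit 5) (nat_lit 84) (nat_lit 5) (nat_lit 80) (nat_lit 5) (nat_lit 336) (nat_lit 278) (nat_lit 166)))) (XT.nd (nat_lit 156) (nat_lit 228) (nat_lit 0) (XT.nd (nat_lit 78) (nat_lit 228) (nat_lit 0) (XT.lf (nat_lit 0) (nat_lit 7843892852) (nat_lit 380) (nat_lit 4107727724) (nat_lit 76) (nat_lit 7799864805) (nat_lit 79) (nat_lit 5) (nat_lit 84) (nat_lit 5) (nat_lit 80) (nat_lit 5) (nat_lit 337) (nat_lit 278) (nat_lit 165)) (XT.lf (nat_lit 0) (nat_lit 5929587845) (nat_lit 228) (nat_lit 5831869175) (nat_lit 304) (nat_lit 8382635678) (nat_lit 76) (nat_lit 5) (nat_lit 79) (nat_lit 5) (nat_lit 80) (nat_lit 5) (nat_lit 338) (nat_lit 278) (nat_lit 164))) (XT.nd (nat_lit 78) (nat_lit 228) (nat_lit 0) (XT.lf (nat_lit 0) (nat_lit 15830133357) (nat_lit 304) (nat_lit 4219465398) (nat_lit 76) (nat_lit 497879582) (nat_lit 76) (nat_lit 5) (nat_lit 80) (nat_lit 5) (nat_lit 77) (nat_lit 5) (nat_lit 339) (nat_lit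 278) (nat_lit 163)) (XT.lf (nat_lit 0) (nat_lit 6118122967) (nat_lit 228) (nat_lit 14006835795) (nat_lit 304) (nat_lit 834891554) (nat_lit 73) (nat_lit 5) (nat_lit 76) (nat_lit 5) (nat_lit 77) (nat_lit 5) (nat_lit 340) (nat_lit 278) (nat_lit 162)))))) (XT.nd (nat_lit 546) (nat_lit 836) (nat_lit 0) (XT.nd (nat_lit 234) (nat_lit 532) (nat_lit 0) (XT.nd (nat_lit 78) (nat_lit 228) (nat_lit 0) (XT.lf (nat_lit 0) (nat_lit 3132914294) (nat_lit 304) (nat_lit 4580833658) (nat_lit 76) (nat_lit 13669021453) (nat_lit 72) (nat_lit 5) (nat_lit 76) (nat_lit 5) (nat_lit 73) (nat_lit 5) (nat_lit 341) (nat_lit 278) (nat_lit 161)) (XT.nd (nat_lit 78) (nat_lit 0) (nat_lit 0) (XT.lf (nat_lit 0) (nat_lit 6079797359) (nat_lit 228) (nat_lit 1169570998) (nat_lit 304) (nat_lit 14567374691) (nat_lit 69) (nat_lit 5) (nat_lit 72) (nat_lit 5) (nat_lit 73) (nat_lit 5) (nat_lit 342) (nat_lit 278) (nat_lit 160)) (XT.lf (nat_lit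 0) (nat_lit 11577648071) (nat_lit 304) (nat_lit 5180789637) (nat_lit 76) (nat_lit 5502654838) (nat_lit 69) (nat_lit 5) (nat_lit 73) (nat_lit 5) (nat_lit 70) (nat_lit 5) (nat_lit 343) (nat_lit 278) (nat_lit 159)))) (XT.nd (nat_lit 156) (nat_lit 304) (nat_lit 0) (XT.nd (nat_lit 78) (nat_lit 0) (nat_lit 0) (XT.lf (nat_lit 0) (nat_lit 5775123705) (nat_lit 228) (nat_lit 10316159407) (nat_lit 304) (nat_lit 6625830620) (nat_lit 66) (nat_lit 5) (nat_lit 69) (nat_lit 5) (nat_lit 70) (nat_lit 5) (nat_lit 344) (nat_lit 278) (nat_lit 158)) (XT.lf (nat_lit 0) (nat_lit 17148051484) (nat_lit 228) (nat_lit 3633170309) (nat_lit 304) (nat_lit 2404373152) (nat_lit 66) (nat_lit 5) (nat_lit 69) (nat_lit 5) (nat_lit 70) (nat_lit 5) (nat_lit 345) (nat_lit 278) (nat_lit 157))) (XT.nd (nat_lit 78) (nat_lit 0) (nat_lit 0) (XT.lf (nat_lit 0) (nat_lit 1977029472) (nat_lit 304) (nat_lit 18437833946) (nat_lit 76) (nat_lit 3250575597)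 (nat_lit 62) (nat_lit 5) (nat_lit 66) (nat_lit 5) (nat_lit 63) (nat_lit 5) (nat_lit 346) (nat_lit 278) (nat_lit 156)) (XT.lf (nat_lit 0) (nat_lit 6527985325) (nat_lit 304) (nat_lit 7281435206) (nat_lit 76) (nat_lit 10346956306) (nat_lit 62) (nat_lit 5) (nat_lit 66) (nat_lit 5) (nat_lit 63) (nat_lit 5) (nat_lit 347) (nat_lit 278) (nat_lit 155))))) (XT.nd (nat_lit 312) (nat_lit 380) (nat_lit 0) (XT.nd (nat_lit 156) (nat_lit 228) (nat_lit 0) (XT.nd (nat_lit 78) (nat_lit 0) (nat_lit 0) (XT.lf (nat_lit 0) (nat_lit 4275932891) (nat_lit 228) (nat_lit 6969857028) (nat_lit 304) (nat_lit 13415348803) (nat_lit 59) (nat_lit 5) (nat_lit 62) (nat_lit 5) (nat_lit 63) (nat_lit 5) (nat_lit 348) (nat_lit 278) (nat_lit 154)) (XT.lf (nat_lit 0) (nat_lit 16169411543) (nat_lit 304) (nat_lit 8868257622) (nat_lit 76) (nat_lit 141451184) (nat_lit 59) (nat_lit 5) (nat_lit 63) (nat_lit 5) (nat_lit 60) (nat_lit 5) (nat_lit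 349) (nat_lit 278) (nat_lit 153))) (XT.nd (nat_lit 78) (nat_lit 76) (nat_lit 0) (XT.lf (nat_lit 0) (nat_lit 2966320361) (nat_lit 152) (nat_lit 18361562230) (nat_lit 228) (nat_lit 4382149825) (nat_lit 57) (nat_lit 5) (nat_lit 59) (nat_lit 5) (nat_lit 60) (nat_lit 5) (nat_lit 350) (nat_lit 278) (nat_lit 152)) (XT.lf (nat_lit 0) (nat_lit 456831542) (nat_lit 228) (nat_lit 10937839513) (nat_lit 76) (nat_lit 14859692096) (nat_lit 56) (nat_lit 5) (nat_lit 59) (nat_lit 5) (nat_lit 57) (nat_lit 5) (nat_lit 351) (nat_lit 278) (nat_lit 151)))) (XT.nd (nat_lit 156) (nat_lit 152) (nat_lit 0) (XT.nd (nat_lit 78) (nat_lit 0) (nat_lit 0) (XT.lf (nat_lit 0) (nat_lit 1185646819) (nat_lit 228) (nat_lit 4168611917) (nat_lit 304) (nat_lit 21459427618) (nat_lit 53) (nat_lit 5) (nat_lit 56) (nat_lit 5) (nat_lit 57) (nat_lit 5) (nat_lit 352) (nat_lit 278) (nat_lit 150)) (XT.lf (nat_lit 0) (nat_lit 10531660300) (nat_lit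 304) (nat_lit 13538383365) (nat_lit 76) (nat_lit 3315758675) (nat_lit 53) (nat_lit 5) (nat_lit 57) (nat_lit 5) (nat_lit 54) (nat_lit 5) (nat_lit 353) (nat_lit 278) (nat_lit 149))) (XT.nd (nat_lit 78) (nat_lit 152) (nat_lit 0) (XT.lf (nat_lit 0) (nat_lit 15895980943) (nat_lit 304) (nat_lit 1143226330) (nat_lit 76) (nat_lit 10934931120) (nat_lit 53) (nat_lit 5) (nat_lit 57) (nat_lit 5) (nat_lit 54) (nat_lit 5) (nat_lit 354) (nat_lit 278) (nat_lit 148)) (XT.lf (nat_lit 0) (nat_lit 11839362135) (nat_lit 152) (nat_lit 9686281744) (nat_lit 228) (nat_lit 7051352635) (nat_lit 51) (nat_lit 5) (nat_lit 53) (nat_lit 5) (nat_lit 54) (nat_lit 5) (nat_lit 355) (nat_lit 278) (nat_lit 147))))))))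
noncomputable def xc149 : XT := (XT.nd (nat_lit 2184) (nat_lit 836) (nat_lit 0) (XT.nd (nat_lit 1092) (nat_lit 760) (nat_lit 0) (XT.nd (nat_lit 546) (nat_lit 532) (nat_lit 0) (XT.nd (nat_lit 234) (nat_lit 380) (nat_lit 0) (XT.nd (nat_lit 78) (nat_lit 304) (nat_lit 0) (XT.lf (nat_lit 0) (nat_lit 25219562884) (nat_lit 152) (nat_lit 2106910196) (nat_lit 228) (nat_lit 1871403247) (nat_lit 51) (nat_lit 5) (nat_lit 53) (nat_lit 5) (nat_lit 54) (nat_lit 5) (nat_lit 356) (nat_lit 278) (nat_lit 146)) (XT.nd (nat_lit 78) (nat_lit 0) (nat_lit 0) (XT.lf (nat_lit 0) (nat_lit 3532574284) (nat_lit 304) (nat_lit 20593061803) (nat_lit 76) (nat_lit 5706664807) (nat_lit 47) (nat_lit 5) (nat_lit 51) (nat_lit 5) (nat_lit 48) (nat_lit 5) (nat_lit 357) (nat_lit 278) (nat_lit 145)) (XT.lf (nat_lit 0) (nat_lit 9113462758) (nat_lit 304) (nat_lit 7604578533) (nat_lit 76) (nat_lit 13765592775) (nat_lit 47) (nat_lit 5) (nat_lit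 51) (nat_lit 5) (nat_lit 48) (nat_lit 5) (nat_lit 358) (nat_lit 278) (nat_lit 144)))) (XT.nd (nat_lit 156) (nat_lit 228) (nat_lit 0) (XT.nd (nat_lit 78) (nat_lit 0) (nat_lit 0) (XT.lf (nat_lit 0) (nat_lit 5873504244) (nat_lit 152) (nat_lit 9035969817) (nat_lit 228) (nat_lit 16243606055) (nat_lit 45) (nat_lit 5) (nat_lit 47) (nat_lit 5) (nat_lit 48) (nat_lit 5) (nat_lit 359) (nat_lit 278) (nat_lit 143)) (XT.lf (nat_lit 0) (nat_lit 19897291501) (nat_lit 152) (nat_lit 1050217625) (nat_lit 228) (nat_lit 10893059775) (nat_lit 45) (nat_lit 5) (nat_lit 47) (nat_lit 5) (nat_lit 48) (nat_lit 5) (nat_lit 360) (nat_lit 278) (nat_lit 142))) (XT.nd (nat_lit 78) (nat_lit 76) (nat_lit 0) (XT.lf (nat_lit 0) (nat_lit 1743865649) (nat_lit 152) (nat_lit 25500103344) (nat_lit 228) (nat_lit 5302398396) (nat_lit 43) (nat_lit 5) (nat_lit 45) (nat_lit 5) (nat_lit 46) (nat_lit 5) (nat_lit 361) (nat_lit 278) (nat_lit 141))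 (XT.lf (nat_lit 0) (nat_lit 570854107) (nat_lit 228) (nat_lit 17213581526) (nat_lit 76) (nat_lit 15485062975) (nat_lit 42) (nat_lit 5) (nat_lit 45) (nat_lit 5) (nat_lit 43) (nat_lit 5) (nat_lit 362) (nat_lit 278) (nat_lit 140))))) (XT.nd (nat_lit 234) (nat_lit 380) (nat_lit 0) (XT.nd (nat_lit 78) (nat_lit 152) (nat_lit 0) (XT.lf (nat_lit 0) (nat_lit 6505549845) (nat_lit 228) (nat_lit 3283408038) (nat_lit 76) (nat_lit 24224039603) (nat_lit 42) (nat_lit 5) (nat_lit 45) (nat_lit 5) (nat_lit 43) (nat_lit 5) (nat_lit 363) (nat_lit 278) (nat_lit 139)) (XT.nd (nat_lit 78) (nat_lit 0) (nat_lit 0) (XT.lf (nat_lit 0) (nat_lit 11271100383) (nat_lit 152) (nat_lit 1447587693) (nat_lit 228) (nat_lit 22057104359) (nat_lit 40) (nat_lit 5) (nat_lit 42) (nat_lit 5) (nat_lit 43) (nat_lit 5) (nat_lit 364) (nat_lit 278) (nat_lit 138)) (XT.lf (nat_lit 0) (nat_lit 19212483881) (nat_lit 228) (nat_lit 9313489483) (nat_lit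 76) (nat_lit 7032673028) (nat_lit 40) (nat_lit 5) (nat_lit 43) (nat_lit 5) (nat_lit 41) (nat_lit 5) (nat_lit 365) (nat_lit 278) (nat_lit 137)))) (XT.nd (nat_lit 156) (nat_lit 228) (nat_lit 0) (XT.nd (nat_lit 78) (nat_lit 0) (nat_lit 0) (XT.lf (nat_lit 0) (nat_lit 5380950738) (nat_lit 152) (nat_lit 20578536715) (nat_lit 228) (nat_lit 10403749675) (nat_lit 38) (nat_lit 5) (nat_lit 40) (nat_lit 5) (nat_lit 41) (nat_lit 5) (nat_lit 366) (nat_lit 278) (nat_lit 136)) (XT.lf (nat_lit 0) (nat_lit 20694103061) (nat_lit 152) (nat_lit 12301280281) (nat_lit 228) (nat_lit 4193990662) (nat_lit 38) (nat_lit 5) (nat_lit 40) (nat_lit 5) (nat_lit 41) (nat_lit 5) (nat_lit 367) (nat_lit 278) (nat_lit 135))) (XT.nd (nat_lit 78) (nat_lit 152) (nat_lit 0) (XT.lf (nat_lit 0) (nat_lit 2151670093) (nat_lit 228) (nat_lit 1607621751) (nat_lit 76) (nat_lit 34280593465) (nat_lit 37) (nat_lit 5) (nat_lit 40) (nat_lit 5) (nat_lit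 38) (nat_lit 5) (nat_lit 368) (nat_lit 278) (nat_lit 134)) (XT.lf (nat_lit 0) (nat_lit 8780372478) (nat_lit 228) (nat_lit 25016179538) (nat_lit 76) (nat_lit 5112807832) (nat_lit 35) (nat_lit 5) (nat_lit 38) (nat_lit 5) (nat_lit 36) (nat_lit 5) (nat_lit 369) (nat_lit 278) (nat_lit 133)))))) (XT.nd (nat_lit 546) (nat_lit 304) (nat_lit 0) (XT.nd (nat_lit 234) (nat_lit 304) (nat_lit 0) (XT.nd (nat_lit 78) (nat_lit 152) (nat_lit 0) (XT.lf (nat_lit 0) (nat_lit 15654387945) (nat_lit 228) (nat_lit 9962332070) (nat_lit 76) (nat_lit 14186807615) (nat_lit 35) (nat_lit 5) (nat_lit 38) (nat_lit 5) (nat_lit 36) (nat_lit 5) (nat_lit 370) (nat_lit 278) (nat_lit 132)) (XT.nd (nat_lit 78) (nat_lit 0) (nat_lit 0) (XT.lf (nat_lit 0) (nat_lit 5641092225) (nat_lit 152) (nat_lit 17140802658) (nat_lit 228) (nat_lit 17941209921) (nat_lit 33) (nat_lit 5) (nat_lit 35) (nat_lit 5) (nat_lit 36) (nat_lit 5) (nat_lit 371) (nat_lit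 278) (nat_lit 131)) (XT.lf (nat_lit 0) (nat_lit 21904839458) (nat_lit 152) (nat_lit 8312120203) (nat_lit 228) (nat_lit 11450500073) (nat_lit 33) (nat_lit 5) (nat_lit 35) (nat_lit 5) (nat_lit 36) (nat_lit 5) (nat_lit 372) (nat_lit 278) (nat_lit 130)))) (XT.nd (nat_lit 156) (nat_lit 152) (nat_lit 0) (XT.nd (nat_lit 78) (nat_lit 152) (nat_lit 0) (XT.lf (nat_lit 0) (nat_lit 37875872646) (nat_lit 228) (nat_lit 4002960588) (nat_lit 76) (nat_lit 761290537) (nat_lit 33) (nat_lit 5) (nat_lit 36) (nat_lit 5) (nat_lit 34) (nat_lit 4) (nat_lit 373) (nat_lit 278) (nat_lit 129)) (XT.lf (nat_lit 0) (nat_lit 2277848372) (nat_lit 152) (nat_lit 31281202738) (nat_lit 76) (nat_lit 10076406253) (nat_lit 31) (nat_lit 5) (nat_lit 33) (nat_lit 5) (nat_lit 32) (nat_lit 5) (nat_lit 374) (nat_lit 278) (nat_lit 128))) (XT.nd (nat_lit 78) (nat_lit 152) (nat_lit 0) (XT.lf (nat_lit 0) (nat_lit 9469771638) (nat_lit 152) (nat_lit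 15434244617) (nat_lit 76) (nat_lit 19754192207) (nat_lit 31) (nat_lit 5) (nat_lit 33) (nat_lit 5) (nat_lit 32) (nat_lit 5) (nat_lit 375) (nat_lit 278) (nat_lit 127)) (XT.lf (nat_lit 0) (nat_lit 894431794) (nat_lit 152) (nat_lit 15985303332) (nat_lit 228) (nat_lit 28831840577) (nat_lit 29) (nat_lit 5) (nat_lit 31) (nat_lit 5) (nat_lit 32) (nat_lit 5) (nat_lit 376) (nat_lit 278) (nat_lit 126))))) (XT.nd (nat_lit 234) (nat_lit 228) (nat_lit 0) (XT.nd (nat_lit 78) (nat_lit 76) (nat_lit 0) (XT.lf (nat_lit 0) (nat_lit 18018320600) (nat_lit 152) (nat_lit 6643295095) (nat_lit 228) (nat_lit 22130441747) (nat_lit 29) (nat_lit 5) (nat_lit 31) (nat_lit 5) (nat_lit 32) (nat_lit 5) (nat_lit 377) (nat_lit 278) (nat_lit 125)) (XT.nd (nat_lit 78) (nat_lit 76) (nat_lit 0) (XT.lf (nat_lit 0) (nat_lit 32699487864) (nat_lit 228) (nat_lit 12288515526) (nat_lit 76) (nat_lit 2916276153) (nat_lit 29) (nat_lit 5) (nat_lit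 32) (nat_lit 5) (nat_lit 30) (nat_lit 4) (nat_lit 378) (nat_lit 278) (nat_lit 124)) (XT.lf (nat_lit 0) (nat_lit 4706797642) (nat_lit 76) (nat_lit 36376795527) (nat_lit 152) (nat_lit 7963124138) (nat_lit 28) (nat_lit 5) (nat_lit 29) (nat_lit 5) (nat_lit 30) (nat_lit 4) (nat_lit 379) (nat_lit 278) (nat_lit 123)))) (XT.nd (nat_lit 156) (nat_lit 152) (nat_lit 0) (XT.nd (nat_lit 78) (nat_lit 76) (nat_lit 0) (XT.lf (nat_lit 0) (nat_lit 22453439860) (nat_lit 76) (nat_lit 27384021062) (nat_lit 152) (nat_lit 382421956) (nat_lit 28) (nat_lit 5) (nat_lit 29) (nat_lit 5) (nat_lit 30) (nat_lit 4) (nat_lit 380) (nat_lit 278) (nat_lit 122)) (XT.lf (nat_lit 0) (nat_lit 7275060891) (nat_lit 152) (nat_lit 10777387402) (nat_lit 76) (nat_lit 33373827606) (nat_lit 27) (nat_lit 5) (nat_lit 29) (nat_lit 5) (nat_lit 28) (nat_lit 5) (nat_lit 381) (nat_lit 278) (nat_lit 121))) (XT.nd (nat_lit 78) (nat_lit 0) (nat_lit 0)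 (XT.lf (nat_lit 0) (nat_lit 6841101508) (nat_lit 152) (nat_lit 8373670179) (nat_lit 228) (nat_lit 37452171436) (nat_lit 25) (nat_lit 5) (nat_lit 27) (nat_lit 5) (nat_lit 28) (nat_lit 5) (nat_lit 382) (nat_lit 278) (nat_lit 120)) (XT.lf (nat_lit 0) (nat_lit 23512373193) (nat_lit 228) (nat_lit 28758882677) (nat_lit 76) (nat_lit 1669985158) (nat_lit 25) (nat_lit 5) (nat_lit 28) (nat_lit 5) (nat_lit 26) (nat_lit 4) (nat_lit 383) (nat_lit 278) (nat_lit 119))))))) (XT.nd (nat_lit 1092) (nat_lit 304) (nat_lit 0) (XT.nd (nat_lit 546) (nat_lit 228) (nat_lit 0) (XT.nd (nat_lit 234) (nat_lit 228) (nat_lit 0) (XT.nd (nat_lit 78) (nat_lit 76) (nat_lit 0) (XT.lf (nat_lit 0) (nat_lit 32136426612) (nat_lit 228) (nat_lit 11272506103) (nat_lit 76) (nat_lit 11842511037) (nat_lit 25) (nat_lit 5) (nat_lit 28) (nat_lit 5) (nat_lit 26) (nat_lit 4) (nat_lit 384) (nat_lit 278) (nat_lit 118)) (XT.nd (nat_lit 78) (nat_lit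 0) (nat_lit 0) (XT.lf (nat_lit 0) (nat_lit 6862981795) (nat_lit 76) (nat_lit 34216964069) (nat_lit 152) (nat_lit 15519185920) (nat_lit 24) (nat_lit 5) (nat_lit 25) (nat_lit 5) (nat_lit 26) (nat_lit 4) (nat_lit 385) (nat_lit 278) (nat_lit 117)) (XT.lf (nat_lit 0) (nat_lit 25764300363) (nat_lit 76) (nat_lit 24636136346) (nat_lit 152) (nat_lit 7583555274) (nat_lit 24) (nat_lit 5) (nat_lit 25) (nat_lit 5) (nat_lit 26) (nat_lit 4) (nat_lit 386) (nat_lit 278) (nat_lit 116)))) (XT.nd (nat_lit 156) (nat_lit 0) (nat_lit 0) (XT.nd (nat_lit 78) (nat_lit 152) (nat_lit 0) (XT.lf (nat_lit 0) (nat_lit 573563593) (nat_lit 152) (nat_lit 14192552699) (nat_lit 76) (nat_lit 44644264877) (nat_lit 23) (nat_lit 5) (nat_lit 25) (nat_lit 5) (nat_lit 24) (nat_lit 5) (nat_lit 387) (nat_lit 278) (nat_lit 115)) (XT.lf (nat_lit 0) (nat_lit 4376849640) (nat_lit 152) (nat_lit 4483280054) (nat_lit 228) (nat_lit 52016066506) (nat_lit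 21) (nat_lit 5) (nat_lit 23) (nat_lit 5) (nat_lit 24) (nat_lit 5) (nat_lit 388) (nat_lit 278) (nat_lit 114))) (XT.nd (nat_lit 78) (nat_lit 0) (nat_lit 0) (XT.lf (nat_lit 0) (nat_lit 17593846597) (nat_lit 228) (nat_lit 38656448393) (nat_lit 76) (nat_lit 6129735416) (nat_lit 21) (nat_lit 5) (nat_lit 24) (nat_lit 5) (nat_lit 22) (nat_lit 4) (nat_lit 389) (nat_lit 278) (nat_lit 113)) (XT.lf (nat_lit 0) (nat_lit 26629210186) (nat_lit 228) (nat_lit 20331289548) (nat_lit 76) (nat_lit 16967292149) (nat_lit 21) (nat_lit 5) (nat_lit 24) (nat_lit 5) (nat_lit 22) (nat_lit 4) (nat_lit 390) (nat_lit 278) (nat_lit 112))))) (XT.nd (nat_lit 234) (nat_lit 152) (nat_lit 0) (XT.nd (nat_lit 78) (nat_lit 76) (nat_lit 0) (XT.lf (nat_lit 0) (nat_lit 35931019409) (nat_lit 228) (nat_lit 1464761719) (nat_lit 76) (nat_lit 28126344795) (nat_lit 21) (nat_lit 5) (nat_lit 24) (nat_lit 5) (nat_lit 22) (nat_lit 4) (nat_lit 391)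 (nat_lit 278) (nat_lit 111)) (XT.nd (nat_lit 78) (nat_lit 0) (nat_lit 0) (XT.lf (nat_lit 0) (nat_lit 18317052068) (nat_lit 76) (nat_lit 27366424701) (nat_lit 152) (nat_lit 21475666626) (nat_lit 20) (nat_lit 5) (nat_lit 21) (nat_lit 5) (nat_lit 22) (nat_lit 4) (nat_lit 392) (nat_lit 278) (nat_lit 110)) (XT.lf (nat_lit 0) (nat_lit 38714284732) (nat_lit 76) (nat_lit 17024586507) (nat_lit 152) (nat_lit 13106090439) (nat_lit 20) (nat_lit 5) (nat_lit 21) (nat_lit 5) (nat_lit 22) (nat_lit 4) (nat_lit 393) (nat_lit 278) (nat_lit 109)))) (XT.nd (nat_lit 156) (nat_lit 0) (nat_lit 0) (XT.nd (nat_lit 78) (nat_lit 152) (nat_lit 0) (XT.lf (nat_lit 0) (nat_lit 59715607466) (nat_lit 76) (nat_lit 6376021211) (nat_lit 152) (nat_lit 4489855954) (nat_lit 20) (nat_lit 5) (nat_lit 21) (nat_lit 5) (nat_lit 22) (nat_lit 4) (nat_lit 394) (nat_lit 278) (nat_lit 108)) (XT.lf (nat_lit 0) (nat_lit 4427996541) (nat_lit 152)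 (nat_lit 63307034282) (nat_lit 76) (nat_lit 4629948173) (nat_lit 18) (nat_lit 5) (nat_lit 20) (nat_lit 5) (nat_lit 19) (nat_lit 4) (nat_lit 395) (nat_lit 278) (nat_lit 107))) (XT.nd (nat_lit 78) (nat_lit 0) (nat_lit 0) (XT.lf (nat_lit 0) (nat_lit 13692882798) (nat_lit 152) (nat_lit 44512836275) (nat_lit 76) (nat_lit 15989834360) (nat_lit 18) (nat_lit 5) (nat_lit 20) (nat_lit 5) (nat_lit 19) (nat_lit 4) (nat_lit 396) (nat_lit 278) (nat_lit 106)) (XT.lf (nat_lit 0) (nat_lit 23231638450) (nat_lit 152) (nat_lit 25162289576) (nat_lit 76) (nat_lit 27687240418) (nat_lit 18) (nat_lit 5) (nat_lit 20) (nat_lit 5) (nat_lit 19) (nat_lit 4) (nat_lit 397) (nat_lit 278) (nat_lit 105)))))) (XT.nd (nat_lit 546) (nat_lit 76) (nat_lit 0) (XT.nd (nat_lit 234) (nat_lit 152) (nat_lit 0) (XT.nd (nat_lit 78) (nat_lit 76) (nat_lit 0) (XT.lf (nat_lit 0) (nat_lit 33052598333) (nat_lit 152) (nat_lit 5238485943) (nat_lit 76)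 (nat_lit 39732387380) (nat_lit 18) (nat_lit 5) (nat_lit 20) (nat_lit 5) (nat_lit 19) (nat_lit 4) (nat_lit 398) (nat_lit 278) (nat_lit 104)) (XT.nd (nat_lit 78) (nat_lit 0) (nat_lit 0) (XT.lf (nat_lit 0) (nat_lit 15580005805) (nat_lit 76) (nat_lit 27734102609) (nat_lit 152) (nat_lit 36705558874) (nat_lit 17) (nat_lit 5) (nat_lit 18) (nat_lit 5) (nat_lit 19) (nat_lit 4) (nat_lit 399) (nat_lit 278) (nat_lit 103)) (XT.lf (nat_lit 0) (nat_lit 37123457205) (nat_lit 76) (nat_lit 16809106734) (nat_lit 152) (nat_lit 28141712785) (nat_lit 17) (nat_lit 5) (nat_lit 18) (nat_lit 5) (nat_lit 19) (nat_lit 4) (nat_lit 400) (nat_lit 278) (nat_lit 102)))) (XT.nd (nat_lit 156) (nat_lit 152) (nat_lit 0) (XT.nd (nat_lit 78) (nat_lit 0) (nat_lit 0) (XT.lf (nat_lit 0) (nat_lit 59306436491) (nat_lit 76) (nat_lit 5559448976) (nat_lit 152) (nat_lit 19324750518) (nat_lit 17) (nat_lit 5) (nat_lit 18) (nat_lit 5) (nat_lit 19)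 (nat_lit 4) (nat_lit 401) (nat_lit 278) (nat_lit 101)) (XT.lf (nat_lit 0) (nat_lit 76181539491) (nat_lit 152) (nat_lit 4280180575) (nat_lit 0) (nat_lit 5907136858) (nat_lit 17) (nat_lit 5) (nat_lit 19) (nat_lit 4) (nat_lit 17) (nat_lit 4) (nat_lit 402) (nat_lit 278) (nat_lit 100))) (XT.nd (nat_lit 78) (nat_lit 76) (nat_lit 0) (XT.lf (nat_lit 0) (nat_lit 17216405070) (nat_lit 76) (nat_lit 70837292774) (nat_lit 76) (nat_lit 552216464) (nat_lit 16) (nat_lit 4) (nat_lit 17) (nat_lit 5) (nat_lit 17) (nat_lit 4) (nat_lit 403) (nat_lit 278) (nat_lit 99)) (XT.lf (nat_lit 0) (nat_lit 9229208107) (nat_lit 152) (nat_lit 51560146645) (nat_lit 76) (nat_lit 30116822284) (nat_lit 15) (nat_lit 5) (nat_lit 17) (nat_lit 5) (nat_lit 16) (nat_lit 4) (nat_lit 404) (nat_lit 278) (nat_lit 98))))) (XT.nd (nat_lit 312) (nat_lit 0) (nat_lit 0) (XT.nd (nat_lit 156) (nat_lit 76) (nat_lit 0) (XT.nd (nat_lit 78) (nat_lit 0)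 (nat_lit 0) (XT.lf (nat_lit 0) (nat_lit 19289579776) (nat_lit 152) (nat_lit 31147653120) (nat_lit 76) (nat_lit 42838153410) (nat_lit 15) (nat_lit 5) (nat_lit 17) (nat_lit 5) (nat_lit 16) (nat_lit 4) (nat_lit 405) (nat_lit 278) (nat_lit 97)) (XT.lf (nat_lit 0) (nat_lit 29648464891) (nat_lit 152) (nat_lit 10128884263) (nat_lit 76) (nat_lit 55938422394) (nat_lit 15) (nat_lit 5) (nat_lit 17) (nat_lit 5) (nat_lit 16) (nat_lit 4) (nat_lit 406) (nat_lit 278) (nat_lit 96))) (XT.nd (nat_lit 78) (nat_lit 0) (nat_lit 0) (XT.lf (nat_lit 0) (nat_lit 11743687481) (nat_lit 76) (nat_lit 28684114931) (nat_lit 152) (nat_lit 57798276102) (nat_lit 14) (nat_lit 5) (nat_lit 15) (nat_lit 5) (nat_lit 16) (nat_lit 4) (nat_lit 407) (nat_lit 278) (nat_lit 95)) (XT.lf (nat_lit 0) (nat_lit 34474204814) (nat_lit 76) (nat_lit 17155432347) (nat_lit 152) (nat_lit 49179084734) (nat_lit 14) (nat_lit 5) (nat_lit 15) (nat_lit 5) (nat_lit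 16) (nat_lit 4) (nat_lit 408) (nat_lit 278) (nat_lit 94)))) (XT.nd (nat_lit 156) (nat_lit 0) (nat_lit 0) (XT.nd (nat_lit 78) (nat_lit 0) (nat_lit 0) (XT.lf (nat_lit 0) (nat_lit 57880944694) (nat_lit 76) (nat_lit 5283509667) (nat_lit 152) (nat_lit 40304483093) (nat_lit 14) (nat_lit 5) (nat_lit 15) (nat_lit 5) (nat_lit 16) (nat_lit 4) (nat_lit 409) (nat_lit 278) (nat_lit 93)) (XT.lf (nat_lit 0) (nat_lit 75109063986) (nat_lit 152) (nat_lit 24291421046) (nat_lit 0) (nat_lit 6806562689) (nat_lit 14) (nat_lit 5) (nat_lit 16) (nat_lit 4) (nat_lit 14) (nat_lit 4) (nat_lit 410) (nat_lit 278) (nat_lit 92))) (XT.nd (nat_lit 30342) (nat_lit 0) (nat_lit 17784) (XT.lf (nat_lit 0) (nat_lit 87461403921) (nat_lit 152) (nat_lit 2413694132) (nat_lit 0) (nat_lit 19150722140) (nat_lit 14) (nat_lit 5) (nat_lit 16) (nat_lit 4) (nat_lit 14) (nat_lit 4) (nat_lit 411) (nat_lit 278) (nat_lit 91)) (XT.lf (nat_lit 0) (nat_lit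 386059562) (nat_lit 988) (nat_lit 1807110202) (nat_lit 988) (nat_lit 1807110202) (nat_lit 248) (nat_lit 3) (nat_lit 261) (nat_lit 3) (nat_lit 261) (nat_lit 5) (nat_lit 279) (nat_lit 279) (nat_lit 222))))))))
noncomputable def xc150 : XT := (XT.nd (nat_lit 2184) (nat_lit 6156) (nat_lit 0) (XT.nd (nat_lit 1092) (nat_lit 4712) (nat_lit 0) (XT.nd (nat_lit 546) (nat_lit 836) (nat_lit 0) (XT.nd (nat_lit 234) (nat_lit 836) (nat_lit 0) (XT.nd (nat_lit 78) (nat_lit 0) (nat_lit 76) (XT.lf (nat_lit 76) (nat_lit 93933051) (nat_lit 0) (nat_lit 1849231310) (nat_lit 988) (nat_lit 6141239700) (nat_lit 249) (nat_lit 5) (nat_lit 248) (nat_lit 3) (nat_lit 261) (nat_lit 5) (nat_lit 280) (nat_lit 279) (nat_lit 221)) (XT.nd (nat_lit 78) (nat_lit 0) (nat_lit 0) (XT.lf (nat_lit 0) (nat_lit 3148307131) (nat_lit 912) (nat_lit 4215357120) (nat_lit 988) (nat_lit 807184150) (nat_lit 249) (nat_lit 5) (nat_lit 261) (nat_lit 5)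 (nat_lit 262) (nat_lit 5) (nat_lit 281) (nat_lit 279) (nat_lit 220)) (XT.lf (nat_lit 0) (nat_lit 4363995292) (nat_lit 912) (nat_lit 369961454) (nat_lit 988) (nat_lit 3526749895) (nat_lit 249) (nat_lit 5) (nat_lit 261) (nat_lit 5) (nat_lit 262) (nat_lit 5) (nat_lit 282) (nat_lit 279) (nat_lit 219)))) (XT.nd (nat_lit 156) (nat_lit 912) (nat_lit 0) (XT.nd (nat_lit 78) (nat_lit 0) (nat_lit 76) (XT.lf (nat_lit 76) (nat_lit 3637839330) (nat_lit 0) (nat_lit 1970644958) (nat_lit 988) (nat_lit 2745057213) (nat_lit 250) (nat_lit 5) (nat_lit 249) (nat_lit 5) (nat_lit 262) (nat_lit 5) (nat_lit 283) (nat_lit 279) (nat_lit 218)) (XT.lf (nat_lit 0) (nat_lit 6861044581) (nat_lit 912) (nat_lit 709224429) (nat_lit 988) (nat_lit 879819600) (nat_lit 250) (nat_lit 5) (nat_lit 262) (nat_lit 5) (nat_lit 263) (nat_lit 5) (nat_lit 284) (nat_lit 279) (nat_lit 217))) (XT.nd (nat_lit 78) (nat_lit 988) (nat_lit 0) (XT.lf (nat_lit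 76) (nat_lit 3440629146) (nat_lit 0) (nat_lit 4722891936) (nat_lit 988) (nat_lit 385688731) (nat_lit 251) (nat_lit 5) (nat_lit 250) (nat_lit 5) (nat_lit 263) (nat_lit 5) (nat_lit 285) (nat_lit 279) (nat_lit 216)) (XT.lf (nat_lit 0) (nat_lit 804599248) (nat_lit 988) (nat_lit 954893499) (nat_lit 1064) (nat_lit 6892586052) (nat_lit 237) (nat_lit 5) (nat_lit 250) (nat_lit 5) (nat_lit 251) (nat_lit 5) (nat_lit 286) (nat_lit 279) (nat_lit 215))))) (XT.nd (nat_lit 234) (nat_lit 912) (nat_lit 0) (XT.nd (nat_lit 78) (nat_lit 0) (nat_lit 0) (XT.lf (nat_lit 0) (nat_lit 2029489512) (nat_lit 988) (nat_lit 5410218737) (nat_lit 1064) (nat_lit 1318055479) (nat_lit 238) (nat_lit 5) (nat_lit 251) (nat_lit 5) (nat_lit 252) (nat_lit 5) (nat_lit 287) (nat_lit 279) (nat_lit 214)) (XT.nd (nat_lit 78) (nat_lit 0) (nat_lit 0) (XT.lf (nat_lit 0) (nat_lit 3280725373) (nat_lit 988) (nat_lit 1110594067) (nat_lit 1064) (nat_lit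 4475654325) (nat_lit 238) (nat_lit 5) (nat_lit 251) (nat_lit 5) (nat_lit 252) (nat_lit 5) (nat_lit 288) (nat_lit 279) (nat_lit 213)) (XT.lf (nat_lit 76) (nat_lit 3358924280) (nat_lit 0) (nat_lit 1206396185) (nat_lit 1064) (nat_lit 4414306261) (nat_lit 239) (nat_lit 5) (nat_lit 238) (nat_lit 5) (nat_lit 252) (nat_lit 5) (nat_lit 289) (nat_lit 279) (nat_lit 212)))) (XT.nd (nat_lit 156) (nat_lit 988) (nat_lit 0) (XT.nd (nat_lit 78) (nat_lit 0) (nat_lit 0) (XT.lf (nat_lit 0) (nat_lit 5884186297) (nat_lit 988) (nat_lit 1155692366) (nat_lit 1064) (nat_lit 2055948713) (nat_lit 239) (nat_lit 5) (nat_lit 252) (nat_lit 5) (nat_lit 253) (nat_lit 5) (nat_lit 290) (nat_lit 279) (nat_lit 211)) (XT.lf (nat_lit 76) (nat_lit 3474249211) (nat_lit 0) (nat_lit 3779214630) (nat_lit 1064) (nat_lit 1961763750) (nat_lit 240) (nat_lit 5) (nat_lit 239) (nat_lit 5) (nat_lit 253) (nat_lit 5) (nat_lit 291) (nat_lit 279) (nat_lit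 210))) (XT.nd (nat_lit 78) (nat_lit 988) (nat_lit 0) (XT.lf (nat_lit 76) (nat_lit 8242154008) (nat_lit 0) (nat_lit 399608547) (nat_lit 1064) (nat_lit 697146757) (nat_lit 240) (nat_lit 5) (nat_lit 239) (nat_lit 5) (nat_lit 253) (nat_lit 5) (nat_lit 292) (nat_lit 279) (nat_lit 209)) (XT.lf (nat_lit 0) (nat_lit 626451048) (nat_lit 1064) (nat_lit 5767053632) (nat_lit 1140) (nat_lit 3071672152) (nat_lit 226) (nat_lit 5) (nat_lit 240) (nat_lit 5) (nat_lit 241) (nat_lit 5) (nat_lit 293) (nat_lit 279) (nat_lit 208)))))) (XT.nd (nat_lit 546) (nat_lit 2508) (nat_lit 0) (XT.nd (nat_lit 234) (nat_lit 2204) (nat_lit 0) (XT.nd (nat_lit 78) (nat_lit 0) (nat_lit 76) (XT.lf (nat_lit 0) (nat_lit 1958587953) (nat_lit 1064) (nat_lit 971982747) (nat_lit 1140) (nat_lit 6665003891) (nat_lit 226) (nat_lit 5) (nat_lit 240) (nat_lit 5) (nat_lit 241) (nat_lit 5) (nat_lit 294) (nat_lit 279) (nat_lit 207)) (XT.nd (nat_lit 78)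 (nat_lit 0) (nat_lit 0) (XT.lf (nat_lit 0) (nat_lit 3344543607) (nat_lit 1064) (nat_lit 5715566622) (nat_lit 76) (nat_lit 669391983) (nat_lit 227) (nat_lit 5) (nat_lit 241) (nat_lit 5) (nat_lit 228) (nat_lit 5) (nat_lit 295) (nat_lit 279) (nat_lit 206)) (XT.lf (nat_lit 0) (nat_lit 4780386335) (nat_lit 1064) (nat_lit 752383691) (nat_lit 76) (nat_lit 4334460979) (nat_lit 227) (nat_lit 5) (nat_lit 241) (nat_lit 5) (nat_lit 228) (nat_lit 5) (nat_lit 296) (nat_lit 279) (nat_lit 205)))) (XT.nd (nat_lit 156) (nat_lit 1216) (nat_lit 0) (XT.nd (nat_lit 78) (nat_lit 0) (nat_lit 0) (XT.lf (nat_lit 0) (nat_lit 4421237022) (nat_lit 1064) (nat_lit 1850839338) (nat_lit 1140) (nat_lit 3736663784) (nat_lit 213) (nat_lit 5) (nat_lit 227) (nat_lit 5) (nat_lit 228) (nat_lit 5) (nat_lit 297) (nat_lit 279) (nat_lit 204)) (XT.lf (nat_lit 0) (nat_lit 7805800388) (nat_lit 1140) (nat_lit 432953150) (nat_lit 76) (nat_lit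 1915853243) (nat_lit 213) (nat_lit 5) (nat_lit 228) (nat_lit 5) (nat_lit 214) (nat_lit 5) (nat_lit 298) (nat_lit 279) (nat_lit 203))) (XT.nd (nat_lit 78) (nat_lit 76) (nat_lit 0) (XT.lf (nat_lit 0) (nat_lit 4929402040) (nat_lit 1140) (nat_lit 4493636985) (nat_lit 1216) (nat_lit 880715134) (nat_lit 198) (nat_lit 5) (nat_lit 213) (nat_lit 5) (nat_lit 214) (nat_lit 5) (nat_lit 299) (nat_lit 279) (nat_lit 202)) (XT.lf (nat_lit 0) (nat_lit 595590812) (nat_lit 1216) (nat_lit 26892891) (nat_lit 76) (nat_lit 9835443486) (nat_lit 197) (nat_lit 5) (nat_lit 213) (nat_lit 5) (nat_lit 198) (nat_lit 5) (nat_lit 300) (nat_lit 279) (nat_lit 201))))) (XT.nd (nat_lit 234) (nat_lit 1140) (nat_lit 0) (XT.nd (nat_lit 78) (nat_lit 608) (nat_lit 0) (XT.lf (nat_lit 0) (nat_lit 2157773655) (nat_lit 836) (nat_lit 5092302345) (nat_lit 76) (nat_lit 3364636431) (nat_lit 187) (nat_lit 5) (nat_lit 198) (nat_lit 5) (nat_lit 188)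 (nat_lit 5) (nat_lit 301) (nat_lit 279) (nat_lit 200)) (XT.nd (nat_lit 78) (nat_lit 0) (nat_lit 0) (XT.lf (nat_lit 0) (nat_lit 440054003) (nat_lit 608) (nat_lit 3310908747) (nat_lit 684) (nat_lit 7025740759) (nat_lit 179) (nat_lit 5) (nat_lit 187) (nat_lit 5) (nat_lit 188) (nat_lit 5) (nat_lit 302) (nat_lit 279) (nat_lit 199)) (XT.lf (nat_lit 0) (nat_lit 5425075453) (nat_lit 684) (nat_lit 4732419051) (nat_lit 76) (nat_lit 785091707) (nat_lit 179) (nat_lit 5) (nat_lit 188) (nat_lit 5) (nat_lit 180) (nat_lit 5) (nat_lit 303) (nat_lit 279) (nat_lit 198)))) (XT.nd (nat_lit 156) (nat_lit 608) (nat_lit 0) (XT.nd (nat_lit 78) (nat_lit 0) (nat_lit 0) (XT.lf (nat_lit 0) (nat_lit 1001960017) (nat_lit 532) (nat_lit 6164642265) (nat_lit 608) (nat_lit 3946352369) (nat_lit 172) (nat_lit 5) (nat_lit 179) (nat_lit 5) (nat_lit 180) (nat_lit 5) (nat_lit 304) (nat_lit 279) (nat_lit 197)) (XT.lf (nat_lit 0) (nat_lit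 6980874172) (nat_lit 532) (nat_lit 2002565968) (nat_lit 608) (nat_lit 2304326300) (nat_lit 172) (nat_lit 5) (nat_lit 179) (nat_lit 5) (nat_lit 180) (nat_lit 5) (nat_lit 305) (nat_lit 279) (nat_lit 196))) (XT.nd (nat_lit 78) (nat_lit 76) (nat_lit 0) (XT.lf (nat_lit 0) (nat_lit 1657173690) (nat_lit 532) (nat_lit 9211497177) (nat_lit 608) (nat_lit 598758630) (nat_lit 165) (nat_lit 5) (nat_lit 172) (nat_lit 5) (nat_lit 173) (nat_lit 5) (nat_lit 306) (nat_lit 279) (nat_lit 195)) (XT.lf (nat_lit 0) (nat_lit 1175338173) (nat_lit 608) (nat_lit 3818911406) (nat_lit 76) (nat_lit 6656722375) (nat_lit 164) (nat_lit 5) (nat_lit 172) (nat_lit 5) (nat_lit 165) (nat_lit 5) (nat_lit 307) (nat_lit 279) (nat_lit 194))))))) (XT.nd (nat_lit 1092) (nat_lit 2432) (nat_lit 0) (XT.nd (nat_lit 546) (nat_lit 1672) (nat_lit 0) (XT.nd (nat_lit 234) (nat_lit 988) (nat_lit 0) (XT.nd (nat_lit 78) (nat_lit 532) (nat_lit 0) (XT.lf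 (nat_lit 0) (nat_lit 2368389746) (nat_lit 532) (nat_lit 621902257) (nat_lit 608) (nat_lit 8849582322) (nat_lit 157) (nat_lit 5) (nat_lit 164) (nat_lit 5) (nat_lit 165) (nat_lit 5) (nat_lit 308) (nat_lit 279) (nat_lit 193)) (XT.nd (nat_lit 78) (nat_lit 532) (nat_lit 0) (XT.lf (nat_lit 0) (nat_lit 4913286695) (nat_lit 608) (nat_lit 3275911566) (nat_lit 76) (nat_lit 3843658660) (nat_lit 157) (nat_lit 5) (nat_lit 165) (nat_lit 5) (nat_lit 158) (nat_lit 5) (nat_lit 309) (nat_lit 279) (nat_lit 192)) (XT.lf (nat_lit 0) (nat_lit 3136770892) (nat_lit 532) (nat_lit 3771504955) (nat_lit 608) (nat_lit 5322944321) (nat_lit 150) (nat_lit 5) (nat_lit 157) (nat_lit 5) (nat_lit 158) (nat_lit 5) (nat_lit 310) (nat_lit 279) (nat_lit 191)))) (XT.nd (nat_lit 156) (nat_lit 532) (nat_lit 0) (XT.nd (nat_lit 78) (nat_lit 456) (nat_lit 0) (XT.lf (nat_lit 0) (nat_lit 8982397836) (nat_lit 608) (nat_lit 2657593088) (nat_lit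 76) (nat_lit 794984612) (nat_lit 150) (nat_lit 5) (nat_lit 158) (nat_lit 5) (nat_lit 151) (nat_lit 5) (nat_lit 311) (nat_lit 279) (nat_lit 190)) (XT.lf (nat_lit 0) (nat_lit 3989354476) (nat_lit 456) (nat_lit 7184098007) (nat_lit 532) (nat_lit 1469768958) (nat_lit 144) (nat_lit 5) (nat_lit 150) (nat_lit 5) (nat_lit 151) (nat_lit 5) (nat_lit 312) (nat_lit 279) (nat_lit 189))) (XT.nd (nat_lit 78) (nat_lit 456) (nat_lit 0) (XT.lf (nat_lit 0) (nat_lit 567638578) (nat_lit 532) (nat_lit 1996211355) (nat_lit 76) (nat_lit 10293529136) (nat_lit 143) (nat_lit 5) (nat_lit 150) (nat_lit 5) (nat_lit 144) (nat_lit 5) (nat_lit 313) (nat_lit 279) (nat_lit 188)) (XT.lf (nat_lit 0) (nat_lit 2685393108) (nat_lit 532) (nat_lit 8178824377) (nat_lit 76) (nat_lit 2211861927) (nat_lit 137) (nat_lit 5) (nat_lit 144) (nat_lit 5) (nat_lit 138) (nat_lit 5) (nat_lit 314) (nat_lit 279) (nat_lit 187))))) (XT.nd (nat_lit 234) (nat_lit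 1292) (nat_lit 0) (XT.nd (nat_lit 78) (nat_lit 380) (nat_lit 0) (XT.lf (nat_lit 0) (nat_lit 4892553879) (nat_lit 532) (nat_lit 1311262581) (nat_lit 76) (nat_lit 7096765107) (nat_lit 137) (nat_lit 5) (nat_lit 144) (nat_lit 5) (nat_lit 138) (nat_lit 5) (nat_lit 315) (nat_lit 279) (nat_lit 186)) (XT.nd (nat_lit 78) (nat_lit 0) (nat_lit 0) (XT.lf (nat_lit 0) (nat_lit 5853848842) (nat_lit 380) (nat_lit 1349061648) (nat_lit 456) (nat_lit 6327815380) (nat_lit 132) (nat_lit 5) (nat_lit 137) (nat_lit 5) (nat_lit 138) (nat_lit 5) (nat_lit 316) (nat_lit 279) (nat_lit 185)) (XT.lf (nat_lit 0) (nat_lit 9612070873) (nat_lit 456) (nat_lit 564848645) (nat_lit 76) (nat_lit 3589986226) (nat_lit 132) (nat_lit 5) (nat_lit 138) (nat_lit 5) (nat_lit 133) (nat_lit 5) (nat_lit 317) (nat_lit 279) (nat_lit 184)))) (XT.nd (nat_lit 156) (nat_lit 380) (nat_lit 0) (XT.nd (nat_lit 78) (nat_lit 456) (nat_lit 0) (XT.lf (nat_lit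 0) (nat_lit 6858656944) (nat_lit 456) (nat_lit 5295710450) (nat_lit 532) (nat_lit 1853993347) (nat_lit 126) (nat_lit 5) (nat_lit 132) (nat_lit 5) (nat_lit 133) (nat_lit 5) (nat_lit 318) (nat_lit 279) (nat_lit 183)) (XT.lf (nat_lit 0) (nat_lit 236637315) (nat_lit 380) (nat_lit 258909026) (nat_lit 456) (nat_lit 13761686770) (nat_lit 120) (nat_lit 5) (nat_lit 125) (nat_lit 5) (nat_lit 126) (nat_lit 5) (nat_lit 319) (nat_lit 279) (nat_lit 182))) (XT.nd (nat_lit 78) (nat_lit 380) (nat_lit 0) (XT.lf (nat_lit 0) (nat_lit 2980583490) (nat_lit 456) (nat_lit 6609541264) (nat_lit 76) (nat_lit 4919842213) (nat_lit 120) (nat_lit 5) (nat_lit 126) (nat_lit 5) (nat_lit 121) (nat_lit 5) (nat_lit 320) (nat_lit 279) (nat_lit 181)) (XT.lf (nat_lit 0) (nat_lit 1019016220) (nat_lit 380) (nat_lit 4516020555) (nat_lit 456) (nat_lit 9235413942) (nat_lit 115) (nat_lit 5) (nat_lit 120) (nat_lit 5) (nat_lit 121) (nat_lit 5)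 (nat_lit 321) (nat_lit 279) (nat_lit 180)))))) (XT.nd (nat_lit 546) (nat_lit 1292) (nat_lit 0) (XT.nd (nat_lit 234) (nat_lit 760) (nat_lit 0) (XT.nd (nat_lit 78) (nat_lit 380) (nat_lit 0) (XT.lf (nat_lit 0) (nat_lit 8223115117) (nat_lit 456) (nat_lit 6054732351) (nat_lit 76) (nat_lit 759205197) (nat_lit 115) (nat_lit 5) (nat_lit 121) (nat_lit 5) (nat_lit 116) (nat_lit 5) (nat_lit 322) (nat_lit 279) (nat_lit 179)) (XT.nd (nat_lit 78) (nat_lit 0) (nat_lit 0) (XT.lf (nat_lit 0) (nat_lit 1842344988) (nat_lit 380) (nat_lit 9195175116) (nat_lit 456) (nat_lit 4272775075) (nat_lit 110) (nat_lit 5) (nat_lit 115) (nat_lit 5) (nat_lit 116) (nat_lit 5) (nat_lit 323) (nat_lit 279) (nat_lit 178)) (XT.lf (nat_lit 0) (nat_lit 10078900511) (nat_lit 380) (nat_lit 3902139506) (nat_lit 456) (nat_lit 1609367125) (nat_lit 110) (nat_lit 5) (nat_lit 115) (nat_lit 5) (nat_lit 116) (nat_lit 5) (nat_lit 324) (nat_lit 279)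 (nat_lit 177)))) (XT.nd (nat_lit 156) (nat_lit 304) (nat_lit 0) (XT.nd (nat_lit 78) (nat_lit 0) (nat_lit 0) (XT.lf (nat_lit 0) (nat_lit 1136874303) (nat_lit 456) (nat_lit 13189281014) (nat_lit 76) (nat_lit 1551700316) (nat_lit 104) (nat_lit 5) (nat_lit 110) (nat_lit 5) (nat_lit 105) (nat_lit 5) (nat_lit 325) (nat_lit 279) (nat_lit 176)) (XT.lf (nat_lit 0) (nat_lit 4012067123) (nat_lit 456) (nat_lit 5001225367) (nat_lit 76) (nat_lit 7157801317) (nat_lit 104) (nat_lit 5) (nat_lit 110) (nat_lit 5) (nat_lit 105) (nat_lit 5) (nat_lit 326) (nat_lit 279) (nat_lit 175))) (XT.nd (nat_lit 78) (nat_lit 0) (nat_lit 0) (XT.lf (nat_lit 0) (nat_lit 3479509690) (nat_lit 304) (nat_lit 3511986549) (nat_lit 380) (nat_lit 9481104719) (nat_lit 100) (nat_lit 5) (nat_lit 104) (nat_lit 5) (nat_lit 105) (nat_lit 5) (nat_lit 327) (nat_lit 279) (nat_lit 174)) (XT.lf (nat_lit 0) (nat_lit 10116752805) (nat_lit 380) (nat_lit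 4506730841) (nat_lit 76) (nat_lit 2157987257) (nat_lit 100) (nat_lit 5) (nat_lit 105) (nat_lit 5) (nat_lit 101) (nat_lit 5) (nat_lit 328) (nat_lit 279) (nat_lit 173))))) (XT.nd (nat_lit 312) (nat_lit 608) (nat_lit 0) (XT.nd (nat_lit 156) (nat_lit 380) (nat_lit 0) (XT.nd (nat_lit 78) (nat_lit 0) (nat_lit 0) (XT.lf (nat_lit 0) (nat_lit 4262161509) (nat_lit 304) (nat_lit 9134525845) (nat_lit 380) (nat_lit 3701102585) (nat_lit 96) (nat_lit 5) (nat_lit 100) (nat_lit 5) (nat_lit 101) (nat_lit 5) (nat_lit 329) (nat_lit 279) (nat_lit 172)) (XT.lf (nat_lit 0) (nat_lit 13366247882) (nat_lit 304) (nat_lit 3439695843) (nat_lit 380) (nat_lit 616737398) (nat_lit 96) (nat_lit 5) (nat_lit 100) (nat_lit 5) (nat_lit 101) (nat_lit 5) (nat_lit 330) (nat_lit 279) (nat_lit 171))) (XT.nd (nat_lit 78) (nat_lit 0) (nat_lit 0) (XT.lf (nat_lit 0) (nat_lit 2568326034) (nat_lit 380) (nat_lit 12739641340) (nat_lit 76) (nat_lit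 2446879320) (nat_lit 91) (nat_lit 5) (nat_lit 96) (nat_lit 5) (nat_lit 92) (nat_lit 5) (nat_lit 331) (nat_lit 279) (nat_lit 170)) (XT.lf (nat_lit 0) (nat_lit 5897831201) (nat_lit 380) (nat_lit 3714313080) (nat_lit 76) (nat_lit 8482820609) (nat_lit 91) (nat_lit 5) (nat_lit 96) (nat_lit 5) (nat_lit 92) (nat_lit 5) (nat_lit 332) (nat_lit 279) (nat_lit 169)))) (XT.nd (nat_lit 156) (nat_lit 304) (nat_lit 0) (XT.nd (nat_lit 78) (nat_lit 0) (nat_lit 0) (XT.lf (nat_lit 0) (nat_lit 5672918318) (nat_lit 304) (nat_lit 3695108225) (nat_lit 380) (nat_lit 9076045083) (nat_lit 87) (nat_lit 5) (nat_lit 91) (nat_lit 5) (nat_lit 92) (nat_lit 5) (nat_lit 333) (nat_lit 279) (nat_lit 168)) (XT.lf (nat_lit 0) (nat_lit 12989702135) (nat_lit 380) (nat_lit 3427778219) (nat_lit 76) (nat_lit 2384758856) (nat_lit 87) (nat_lit 5) (nat_lit 92) (nat_lit 5) (nat_lit 88) (nat_lit 5) (nat_lit 334) (nat_lit 279) (nat_lit 167))) (XT.nd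 (nat_lit 78) (nat_lit 76) (nat_lit 0) (XT.lf (nat_lit 0) (nat_lit 6262366576) (nat_lit 228) (nat_lit 10541270439) (nat_lit 304) (nat_lit 2365015154) (nat_lit 84) (nat_lit 5) (nat_lit 87) (nat_lit 5) (nat_lit 88) (nat_lit 5) (nat_lit 335) (nat_lit 279) (nat_lit 166)) (XT.lf (nat_lit 0) (nat_lit 1184638062) (nat_lit 304) (nat_lit 3262508857) (nat_lit 76) (nat_lit 15097921302) (nat_lit 83) (nat_lit 5) (nat_lit 87) (nat_lit 5) (nat_lit 84) (nat_lit 5) (nat_lit 336) (nat_lit 279) (nat_lit 165))))))))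
noncomputable def xc151 : XT := (XT.nd (nat_lit 2184) (nat_lit 1672) (nat_lit 0) (XT.nd (nat_lit 1092) (nat_lit 1292) (nat_lit 0) (XT.nd (nat_lit 546) (nat_lit 760) (nat_lit 0) (XT.nd (nat_lit 234) (nat_lit 532) (nat_lit 0) (XT.nd (nat_lit 78) (nat_lit 228) (nat_lit 0) (XT.lf (nat_lit 0) (nat_lit 4863911694) (nat_lit 380) (nat_lit 13188505344) (nat_lit 76) (nat_lit 1877545165) (nat_lit 79) (nat_lit 5) (nat_lit 84) (nat_lit 5) (nat_lit 80) (nat_lit 5) (nat_lit 337) (nat_lit 279) (nat_lit 164)) (XT.nd (nat_lit 78) (nat_lit 228) (nat_lit 0) (XT.lf (nat_lit 0) (nat_lit 8718274332) (nat_lit 380) (nat_lit 3276164545) (nat_lit 76) (nat_lit 8330030463) (nat_lit 79) (nat_lit 5) (nat_lit 84) (nat_lit 5) (nat_lit 80) (nat_lit 5) (nat_lit 338) (nat_lit 279) (nat_lit 163)) (XT.lf (nat_lit 0) (nat_lit 7052909756) (nat_lit 228) (nat_lit 5690930227) (nat_lit 304) (nat_lit 7985311977) (nat_lit 76) (nat_lit 5) (nat_lit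 79) (nat_lit 5) (nat_lit 80) (nat_lit 5) (nat_lit 339) (nat_lit 279) (nat_lit 162)))) (XT.nd (nat_lit 156) (nat_lit 304) (nat_lit 0) (XT.nd (nat_lit 78) (nat_lit 228) (nat_lit 0) (XT.lf (nat_lit 0) (nat_lit 16919188647) (nat_lit 304) (nat_lit 3412397691) (nat_lit 76) (nat_lit 813525458) (nat_lit 76) (nat_lit 5) (nat_lit 80) (nat_lit 5) (nat_lit 77) (nat_lit 5) (nat_lit 340) (nat_lit 279) (nat_lit 161)) (XT.lf (nat_lit 0) (nat_lit 7226164877) (nat_lit 228) (nat_lit 14107692878) (nat_lit 304) (nat_lit 236277882) (nat_lit 73) (nat_lit 5) (nat_lit 76) (nat_lit 5) (nat_lit 77) (nat_lit 5) (nat_lit 341) (nat_lit 279) (nat_lit 160))) (XT.nd (nat_lit 78) (nat_lit 228) (nat_lit 0) (XT.lf (nat_lit 0) (nat_lit 3820581875) (nat_lit 304) (nat_lit 3808536917) (nat_lit 76) (nat_lit 14376988027) (nat_lit 72) (nat_lit 5) (nat_lit 76) (nat_lit 5) (nat_lit 73) (nat_lit 5) (nat_lit 342) (nat_lit 279) (nat_lit 159))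 (XT.lf (nat_lit 0) (nat_lit 7162994191) (nat_lit 228) (nat_lit 888902784) (nat_lit 304) (nat_lit 14401471440) (nat_lit 69) (nat_lit 5) (nat_lit 72) (nat_lit 5) (nat_lit 73) (nat_lit 5) (nat_lit 343) (nat_lit 279) (nat_lit 158))))) (XT.nd (nat_lit 234) (nat_lit 532) (nat_lit 0) (XT.nd (nat_lit 78) (nat_lit 228) (nat_lit 0) (XT.lf (nat_lit 0) (nat_lit 12495931687) (nat_lit 304) (nat_lit 4447237984) (nat_lit 76) (nat_lit 5968311007) (nat_lit 69) (nat_lit 5) (nat_lit 73) (nat_lit 5) (nat_lit 70) (nat_lit 5) (nat_lit 344) (nat_lit 279) (nat_lit 157)) (XT.nd (nat_lit 78) (nat_lit 0) (nat_lit 0) (XT.lf (nat_lit 0) (nat_lit 6828637314) (nat_lit 228) (nat_lit 10308170330) (nat_lit 304) (nat_lit 6244629106) (nat_lit 66) (nat_lit 5) (nat_lit 69) (nat_lit 5) (nat_lit 70) (nat_lit 5) (nat_lit 345) (nat_lit 279) (nat_lit 156)) (XT.lf (nat_lit 0) (nat_lit 18517114288) (nat_lit 228) (nat_lit 3433938370) (nat_lit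 304) (nat_lit 1913420431) (nat_lit 66) (nat_lit 5) (nat_lit 69) (nat_lit 5) (nat_lit 70) (nat_lit 5) (nat_lit 346) (nat_lit 279) (nat_lit 155)))) (XT.nd (nat_lit 156) (nat_lit 228) (nat_lit 0) (XT.nd (nat_lit 78) (nat_lit 0) (nat_lit 0) (XT.lf (nat_lit 0) (nat_lit 2583608150) (nat_lit 304) (nat_lit 18119961605) (nat_lit 76) (nat_lit 3655133619) (nat_lit 62) (nat_lit 5) (nat_lit 66) (nat_lit 5) (nat_lit 63) (nat_lit 5) (nat_lit 347) (nat_lit 279) (nat_lit 154)) (XT.lf (nat_lit 0) (nat_lit 7255152841) (nat_lit 304) (nat_lit 6654240048) (nat_lit 76) (nat_lit 10955462814) (nat_lit 62) (nat_lit 5) (nat_lit 66) (nat_lit 5) (nat_lit 63) (nat_lit 5) (nat_lit 348) (nat_lit 279) (nat_lit 153))) (XT.nd (nat_lit 78) (nat_lit 0) (nat_lit 0) (XT.lf (nat_lit 0) (nat_lit 5241558521) (nat_lit 228) (nat_lit 6865506578) (nat_lit 304) (nat_lit 13277926081) (nat_lit 59) (nat_lit 5) (nat_lit 62) (nat_lit 5) (nat_lit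 63) (nat_lit 5) (nat_lit 349) (nat_lit 279) (nat_lit 152)) (XT.lf (nat_lit 0) (nat_lit 17166061383) (nat_lit 304) (nat_lit 8308755534) (nat_lit 76) (nat_lit 444073066) (nat_lit 59) (nat_lit 5) (nat_lit 63) (nat_lit 5) (nat_lit 60) (nat_lit 5) (nat_lit 350) (nat_lit 279) (nat_lit 151)))))) (XT.nd (nat_lit 546) (nat_lit 684) (nat_lit 0) (XT.nd (nat_lit 234) (nat_lit 152) (nat_lit 0) (XT.nd (nat_lit 78) (nat_lit 304) (nat_lit 0) (XT.lf (nat_lit 0) (nat_lit 3872766163) (nat_lit 152) (nat_lit 18599478264) (nat_lit 228) (nat_lit 3993703734) (nat_lit 57) (nat_lit 5) (nat_lit 59) (nat_lit 5) (nat_lit 60) (nat_lit 5) (nat_lit 351) (nat_lit 279) (nat_lit 150)) (XT.nd (nat_lit 78) (nat_lit 228) (nat_lit 0) (XT.lf (nat_lit 0) (nat_lit 965454215) (nat_lit 228) (nat_lit 10462242930) (nat_lit 76) (nat_lit 15599214222) (nat_lit 56) (nat_lit 5) (nat_lit 59) (nat_lit 5) (nat_lit 57) (nat_lit 5) (nat_lit 352) (nat_lit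 279) (nat_lit 149)) (XT.lf (nat_lit 0) (nat_lit 2017068269) (nat_lit 228) (nat_lit 3985971094) (nat_lit 304) (nat_lit 21600184698) (nat_lit 53) (nat_lit 5) (nat_lit 56) (nat_lit 5) (nat_lit 57) (nat_lit 5) (nat_lit 353) (nat_lit 279) (nat_lit 148)))) (XT.nd (nat_lit 156) (nat_lit 152) (nat_lit 0) (XT.nd (nat_lit 78) (nat_lit 0) (nat_lit 0) (XT.lf (nat_lit 0) (nat_lit 11324416572) (nat_lit 304) (nat_lit 13160294928) (nat_lit 76) (nat_lit 3708139067) (nat_lit 53) (nat_lit 5) (nat_lit 57) (nat_lit 5) (nat_lit 54) (nat_lit 5) (nat_lit 354) (nat_lit 279) (nat_lit 147)) (XT.lf (nat_lit 0) (nat_lit 16835779267) (nat_lit 304) (nat_lit 416125122) (nat_lit 76) (nat_lit 11547355395) (nat_lit 53) (nat_lit 5) (nat_lit 57) (nat_lit 5) (nat_lit 54) (nat_lit 5) (nat_lit 355) (nat_lit 279) (nat_lit 146))) (XT.nd (nat_lit 78) (nat_lit 0) (nat_lit 0) (XT.lf (nat_lit 0) (nat_lit 12948476311) (nat_lit 152) (nat_lit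 9679619974) (nat_lit 228) (nat_lit 6792300707) (nat_lit 51) (nat_lit 5) (nat_lit 53) (nat_lit 5) (nat_lit 54) (nat_lit 5) (nat_lit 356) (nat_lit 279) (nat_lit 145)) (XT.lf (nat_lit 0) (nat_lit 26708123860) (nat_lit 152) (nat_lit 1881525053) (nat_lit 228) (nat_lit 1470659415) (nat_lit 51) (nat_lit 5) (nat_lit 53) (nat_lit 5) (nat_lit 54) (nat_lit 5) (nat_lit 357) (nat_lit 279) (nat_lit 144))))) (XT.nd (nat_lit 234) (nat_lit 228) (nat_lit 0) (XT.nd (nat_lit 78) (nat_lit 152) (nat_lit 0) (XT.lf (nat_lit 0) (nat_lit 4083333590) (nat_lit 304) (nat_lit 20466387589) (nat_lit 76) (nat_lit 6164014082) (nat_lit 47) (nat_lit 5) (nat_lit 51) (nat_lit 5) (nat_lit 48) (nat_lit 5) (nat_lit 358) (nat_lit 279) (nat_lit 143)) (XT.nd (nat_lit 78) (nat_lit 152) (nat_lit 0) (XT.lf (nat_lit 0) (nat_lit 9818693901) (nat_lit 304) (nat_lit 7109933298) (nat_lit 76) (nat_lit 14456375444) (nat_lit 47) (nat_lit 5) (nat_lit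 51) (nat_lit 5) (nat_lit 48) (nat_lit 5) (nat_lit 359) (nat_lit 279) (nat_lit 142)) (XT.lf (nat_lit 0) (nat_lit 6765405858) (nat_lit 152) (nat_lit 9017481904) (nat_lit 228) (nat_lit 16291820652) (nat_lit 45) (nat_lit 5) (nat_lit 47) (nat_lit 5) (nat_lit 48) (nat_lit 5) (nat_lit 360) (nat_lit 279) (nat_lit 141)))) (XT.nd (nat_lit 156) (nat_lit 76) (nat_lit 0) (XT.nd (nat_lit 78) (nat_lit 152) (nat_lit 0) (XT.lf (nat_lit 0) (nat_lit 21189061204) (nat_lit 152) (nat_lit 800591137) (nat_lit 228) (nat_lit 10793547117) (nat_lit 45) (nat_lit 5) (nat_lit 47) (nat_lit 5) (nat_lit 48) (nat_lit 5) (nat_lit 361) (nat_lit 279) (nat_lit 140)) (XT.lf (nat_lit 0) (nat_lit 2494007497) (nat_lit 152) (nat_lit 25978280111) (nat_lit 228) (nat_lit 5037970941) (nat_lit 43) (nat_lit 5) (nat_lit 45) (nat_lit 5) (nat_lit 46) (nat_lit 5) (nat_lit 362) (nat_lit 279) (nat_lit 139))) (XT.nd (nat_lit 78) (nat_lit 0) (nat_lit 0)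 (XT.lf (nat_lit 0) (nat_lit 991120903) (nat_lit 228) (nat_lit 17044304696) (nat_lit 76) (nat_lit 16219903609) (nat_lit 42) (nat_lit 5) (nat_lit 45) (nat_lit 5) (nat_lit 43) (nat_lit 5) (nat_lit 363) (nat_lit 279) (nat_lit 138)) (XT.lf (nat_lit 0) (nat_lit 7092115537) (nat_lit 228) (nat_lit 2716197389) (nat_lit 76) (nat_lit 25213177048) (nat_lit 42) (nat_lit 5) (nat_lit 45) (nat_lit 5) (nat_lit 43) (nat_lit 5) (nat_lit 364) (nat_lit 279) (nat_lit 137))))))) (XT.nd (nat_lit 1092) (nat_lit 684) (nat_lit 0) (XT.nd (nat_lit 546) (nat_lit 456) (nat_lit 0) (XT.nd (nat_lit 234) (nat_lit 228) (nat_lit 0) (XT.nd (nat_lit 78) (nat_lit 152) (nat_lit 0) (XT.lf (nat_lit 0) (nat_lit 12268419687) (nat_lit 152) (nat_lit 1218164753) (nat_lit 228) (nat_lit 22320740764) (nat_lit 40) (nat_lit 5) (nat_lit 42) (nat_lit 5) (nat_lit 43) (nat_lit 5) (nat_lit 365) (nat_lit 279) (nat_lit 136)) (XT.nd (nat_lit 78) (nat_lit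 152) (nat_lit 0) (XT.lf (nat_lit 0) (nat_lit 20166488037) (nat_lit 228) (nat_lit 8944054857) (nat_lit 76) (nat_lit 7503387465) (nat_lit 40) (nat_lit 5) (nat_lit 43) (nat_lit 5) (nat_lit 41) (nat_lit 5) (nat_lit 366) (nat_lit 279) (nat_lit 135)) (XT.lf (nat_lit 0) (nat_lit 6184857400) (nat_lit 152) (nat_lit 20926221286) (nat_lit 228) (nat_lit 10331729088) (nat_lit 38) (nat_lit 5) (nat_lit 40) (nat_lit 5) (nat_lit 41) (nat_lit 5) (nat_lit 367) (nat_lit 279) (nat_lit 134)))) (XT.nd (nat_lit 156) (nat_lit 152) (nat_lit 0) (XT.nd (nat_lit 78) (nat_lit 76) (nat_lit 0) (XT.lf (nat_lit 0) (nat_lit 21938691338) (nat_lit 152) (nat_lit 12408501671) (nat_lit 228) (nat_lit 3946865647) (nat_lit 38) (nat_lit 5) (nat_lit 40) (nat_lit 5) (nat_lit 41) (nat_lit 5) (nat_lit 368) (nat_lit 279) (nat_lit 133)) (XT.lf (nat_lit 0) (nat_lit 2571236933) (nat_lit 228) (nat_lit 1043057412) (nat_lit 76) (nat_lit 35556006826)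 (nat_lit 37) (nat_lit 5) (nat_lit 40) (nat_lit 5) (nat_lit 38) (nat_lit 5) (nat_lit 369) (nat_lit 279) (nat_lit 132))) (XT.nd (nat_lit 78) (nat_lit 0) (nat_lit 0) (XT.lf (nat_lit 0) (nat_lit 9396756369) (nat_lit 228) (nat_lit 25151701509) (nat_lit 76) (nat_lit 5517467182) (nat_lit 35) (nat_lit 5) (nat_lit 38) (nat_lit 5) (nat_lit 36) (nat_lit 5) (nat_lit 370) (nat_lit 279) (nat_lit 131)) (XT.lf (nat_lit 0) (nat_lit 16466711541) (nat_lit 228) (nat_lit 9664150172) (nat_lit 76) (nat_lit 14856368265) (nat_lit 35) (nat_lit 5) (nat_lit 38) (nat_lit 5) (nat_lit 36) (nat_lit 5) (nat_lit 371) (nat_lit 279) (nat_lit 130))))) (XT.nd (nat_lit 234) (nat_lit 304) (nat_lit 0) (XT.nd (nat_lit 78) (nat_lit 0) (nat_lit 0) (XT.lf (nat_lit 0) (nat_lit 6401523402) (nat_lit 152) (nat_lit 17402221927) (nat_lit 228) (nat_lit 18130781664) (nat_lit 33) (nat_lit 5) (nat_lit 35) (nat_lit 5) (nat_lit 36) (nat_lit 5) (nat_lit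 372) (nat_lit 279) (nat_lit 129)) (XT.nd (nat_lit 78) (nat_lit 0) (nat_lit 0) (XT.lf (nat_lit 0) (nat_lit 23135963680) (nat_lit 152) (nat_lit 8316042246) (nat_lit 228) (nat_lit 11455505799) (nat_lit 33) (nat_lit 5) (nat_lit 35) (nat_lit 5) (nat_lit 36) (nat_lit 5) (nat_lit 373) (nat_lit 279) (nat_lit 128)) (XT.lf (nat_lit 0) (nat_lit 39333407864) (nat_lit 228) (nat_lit 3558397458) (nat_lit 76) (nat_lit 1017772083) (nat_lit 33) (nat_lit 5) (nat_lit 36) (nat_lit 5) (nat_lit 34) (nat_lit 4) (nat_lit 374) (nat_lit 279) (nat_lit 127)))) (XT.nd (nat_lit 156) (nat_lit 152) (nat_lit 0) (XT.nd (nat_lit 78) (nat_lit 0) (nat_lit 0) (XT.lf (nat_lit 0) (nat_lit 2666708630) (nat_lit 152) (nat_lit 31654037743) (nat_lit 76) (nat_lit 10614053106) (nat_lit 31) (nat_lit 5) (nat_lit 33) (nat_lit 5) (nat_lit 32) (nat_lit 5) (nat_lit 375) (nat_lit 279) (nat_lit 126)) (XT.lf (nat_lit 0) (nat_lit 10065053919) (nat_lit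 152) (nat_lit 15348144697) (nat_lit 76) (nat_lit 20575317648) (nat_lit 31) (nat_lit 5) (nat_lit 33) (nat_lit 5) (nat_lit 32) (nat_lit 5) (nat_lit 376) (nat_lit 279) (nat_lit 125))) (XT.nd (nat_lit 78) (nat_lit 0) (nat_lit 0) (XT.lf (nat_lit 0) (nat_lit 1465008406) (nat_lit 152) (nat_lit 16228470941) (nat_lit 228) (nat_lit 29380123278) (nat_lit 29) (nat_lit 5) (nat_lit 31) (nat_lit 5) (nat_lit 32) (nat_lit 5) (nat_lit 377) (nat_lit 279) (nat_lit 124)) (XT.lf (nat_lit 0) (nat_lit 19086776682) (nat_lit 152) (nat_lit 6613087647) (nat_lit 228) (nat_lit 22486905954) (nat_lit 29) (nat_lit 5) (nat_lit 31) (nat_lit 5) (nat_lit 32) (nat_lit 5) (nat_lit 378) (nat_lit 279) (nat_lit 123)))))) (XT.nd (nat_lit 546) (nat_lit 380) (nat_lit 0) (XT.nd (nat_lit 234) (nat_lit 228) (nat_lit 0) (XT.nd (nat_lit 78) (nat_lit 76) (nat_lit 0) (XT.lf (nat_lit 0) (nat_lit 33972323294) (nat_lit 228) (nat_lit 12137997019) (nat_lit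 76) (nat_lit 3222238036) (nat_lit 29) (nat_lit 5) (nat_lit 32) (nat_lit 5) (nat_lit 30) (nat_lit 4) (nat_lit 379) (nat_lit 279) (nat_lit 122)) (XT.nd (nat_lit 78) (nat_lit 0) (nat_lit 0) (XT.lf (nat_lit 0) (nat_lit 5362085603) (nat_lit 76) (nat_lit 37242307337) (nat_lit 152) (nat_lit 7904985811) (nat_lit 28) (nat_lit 5) (nat_lit 29) (nat_lit 5) (nat_lit 30) (nat_lit 4) (nat_lit 380) (nat_lit 279) (nat_lit 121)) (XT.lf (nat_lit 0) (nat_lit 23626153767) (nat_lit 76) (nat_lit 27986326105) (nat_lit 152) (nat_lit 105513983) (nat_lit 28) (nat_lit 5) (nat_lit 29) (nat_lit 5) (nat_lit 30) (nat_lit 4) (nat_lit 381) (nat_lit 279) (nat_lit 120)))) (XT.nd (nat_lit 156) (nat_lit 0) (nat_lit 0) (XT.nd (nat_lit 78) (nat_lit 152) (nat_lit 0) (XT.lf (nat_lit 0) (nat_lit 7767830472) (nat_lit 152) (nat_lit 10610588510) (nat_lit 76) (nat_lit 34582326094) (nat_lit 27) (nat_lit 5) (nat_lit 29) (nat_lit 5) (nat_lit 28)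 (nat_lit 5) (nat_lit 382) (nat_lit 279) (nat_lit 119)) (XT.lf (nat_lit 0) (nat_lit 7531649964) (nat_lit 152) (nat_lit 8410752114) (nat_lit 228) (nat_lit 38296332588) (nat_lit 25) (nat_lit 5) (nat_lit 27) (nat_lit 5) (nat_lit 28) (nat_lit 5) (nat_lit 383) (nat_lit 279) (nat_lit 118))) (XT.nd (nat_lit 78) (nat_lit 0) (nat_lit 0) (XT.lf (nat_lit 0) (nat_lit 24483031351) (nat_lit 228) (nat_lit 29144490098) (nat_lit 76) (nat_lit 1923919430) (nat_lit 25) (nat_lit 5) (nat_lit 28) (nat_lit 5) (nat_lit 26) (nat_lit 4) (nat_lit 384) (nat_lit 279) (nat_lit 117)) (XT.lf (nat_lit 0) (nat_lit 33358079569) (nat_lit 228) (nat_lit 11147420064) (nat_lit 76) (nat_lit 12395684152) (nat_lit 25) (nat_lit 5) (nat_lit 28) (nat_lit 5) (nat_lit 26) (nat_lit 4) (nat_lit 385) (nat_lit 279) (nat_lit 116))))) (XT.nd (nat_lit 312) (nat_lit 76) (nat_lit 0) (XT.nd (nat_lit 156) (nat_lit 228) (nat_lit 0) (XT.nd (nat_lit 78) (nat_lit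 0) (nat_lit 0) (XT.lf (nat_lit 0) (nat_lit 7527590695) (nat_lit 76) (nat_lit 35039221443) (nat_lit 152) (nat_lit 15722585314) (nat_lit 24) (nat_lit 5) (nat_lit 25) (nat_lit 5) (nat_lit 26) (nat_lit 4) (nat_lit 386) (nat_lit 279) (nat_lit 115)) (XT.lf (nat_lit 0) (nat_lit 26982588059) (nat_lit 76) (nat_lit 25176917963) (nat_lit 152) (nat_lit 7556521948) (nat_lit 24) (nat_lit 5) (nat_lit 25) (nat_lit 5) (nat_lit 26) (nat_lit 4) (nat_lit 387) (nat_lit 279) (nat_lit 114))) (XT.nd (nat_lit 78) (nat_lit 152) (nat_lit 0) (XT.lf (nat_lit 0) (nat_lit 833074376) (nat_lit 152) (nat_lit 14181051937) (nat_lit 76) (nat_lit 46171229227) (nat_lit 23) (nat_lit 5) (nat_lit 25) (nat_lit 5) (nat_lit 24) (nat_lit 5) (nat_lit 388) (nat_lit 279) (nat_lit 113)) (XT.lf (nat_lit 0) (nat_lit 4941145439) (nat_lit 152) (nat_lit 4424196794) (nat_lit 228) (nat_lit 53329891624) (nat_lit 21) (nat_lit 5) (nat_lit 23) (nat_lit 5)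 (nat_lit 24) (nat_lit 5) (nat_lit 389) (nat_lit 279) (nat_lit 112)))) (XT.nd (nat_lit 156) (nat_lit 76) (nat_lit 0) (XT.nd (nat_lit 78) (nat_lit 0) (nat_lit 0) (XT.lf (nat_lit 0) (nat_lit 18355904203) (nat_lit 228) (nat_lit 39390532414) (nat_lit 76) (nat_lit 6497903387) (nat_lit 21) (nat_lit 5) (nat_lit 24) (nat_lit 5) (nat_lit 22) (nat_lit 4) (nat_lit 390) (nat_lit 279) (nat_lit 111)) (XT.lf (nat_lit 0) (nat_lit 27655506111) (nat_lit 228) (nat_lit 20528015195) (nat_lit 76) (nat_lit 17655219562) (nat_lit 21) (nat_lit 5) (nat_lit 24) (nat_lit 5) (nat_lit 22) (nat_lit 4) (nat_lit 391) (nat_lit 279) (nat_lit 110))) (XT.nd (nat_lit 78) (nat_lit 76) (nat_lit 0) (XT.lf (nat_lit 0) (nat_lit 37229745738) (nat_lit 228) (nat_lit 1107526863) (nat_lit 76) (nat_lit 29143832857) (nat_lit 21) (nat_lit 5) (nat_lit 24) (nat_lit 5) (nat_lit 22) (nat_lit 4) (nat_lit 392) (nat_lit 279) (nat_lit 109)) (XT.lf (nat_lit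 0) (nat_lit 19263808223) (nat_lit 76) (nat_lit 28008356210) (nat_lit 152) (nat_lit 21895149150) (nat_lit 20) (nat_lit 5) (nat_lit 21) (nat_lit 5) (nat_lit 22) (nat_lit 4) (nat_lit 393) (nat_lit 279) (nat_lit 108))))))))
noncomputable def xc152 : XT := (XT.nd (nat_lit 32526) (nat_lit 0) (nat_lit 8512) (XT.nd (nat_lit 1092) (nat_lit 76) (nat_lit 0) (XT.nd (nat_lit 546) (nat_lit 152) (nat_lit 0) (XT.nd (nat_lit 234) (nat_lit 76) (nat_lit 0) (XT.nd (nat_lit 78) (nat_lit 152) (nat_lit 0) (XT.lf (nat_lit 0) (nat_lit 40261387636) (nat_lit 76) (nat_lit 17361478246) (nat_lit 152) (nat_lit 13281032886) (nat_lit 20) (nat_lit 5) (nat_lit 21) (nat_lit 5) (nat_lit 22) (nat_lit 4) (nat_lit 394) (nat_lit 279) (nat_lit 107)) (XT.nd (nat_lit 78) (nat_lit 152) (nat_lit 0) (XT.lf (nat_lit 0) (nat_lit 61881516818) (nat_lit 76) (nat_lit 6398519463) (nat_lit 152) (nat_lit 4412667879) (nat_lit 20) (nat_lit 5) (nat_lit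 21) (nat_lit 5) (nat_lit 22) (nat_lit 4) (nat_lit 395) (nat_lit 279) (nat_lit 106)) (XT.lf (nat_lit 0) (nat_lit 4767769010) (nat_lit 152) (nat_lit 64826747285) (nat_lit 76) (nat_lit 4935152017) (nat_lit 18) (nat_lit 5) (nat_lit 20) (nat_lit 5) (nat_lit 19) (nat_lit 4) (nat_lit 396) (nat_lit 279) (nat_lit 105)))) (XT.nd (nat_lit 156) (nat_lit 76) (nat_lit 0) (XT.nd (nat_lit 78) (nat_lit 0) (nat_lit 0) (XT.lf (nat_lit 0) (nat_lit 14304574692) (nat_lit 152) (nat_lit 45479776678) (nat_lit 76) (nat_lit 16630990943) (nat_lit 18) (nat_lit 5) (nat_lit 20) (nat_lit 5) (nat_lit 19) (nat_lit 4) (nat_lit 397) (nat_lit 279) (nat_lit 104)) (XT.lf (nat_lit 0) (nat_lit 24123641400) (nat_lit 152) (nat_lit 25559444978) (nat_lit 76) (nat_lit 28674616418) (nat_lit 18) (nat_lit 5) (nat_lit 20) (nat_lit 5) (nat_lit 19) (nat_lit 4) (nat_lit 398) (nat_lit 279) (nat_lit 103))) (XT.nd (nat_lit 78) (nat_lit 76) (nat_lit 0)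 (XT.lf (nat_lit 0) (nat_lit 34233548901) (nat_lit 152) (nat_lit 5048346069) (nat_lit 76) (nat_lit 41076552000) (nat_lit 18) (nat_lit 5) (nat_lit 20) (nat_lit 5) (nat_lit 19) (nat_lit 4) (nat_lit 399) (nat_lit 279) (nat_lit 102)) (XT.lf (nat_lit 0) (nat_lit 16391295584) (nat_lit 76) (nat_lit 28409398670) (nat_lit 152) (nat_lit 37613901906) (nat_lit 17) (nat_lit 5) (nat_lit 18) (nat_lit 5) (nat_lit 19) (nat_lit 4) (nat_lit 400) (nat_lit 279) (nat_lit 101))))) (XT.nd (nat_lit 234) (nat_lit 152) (nat_lit 0) (XT.nd (nat_lit 78) (nat_lit 0) (nat_lit 0) (XT.lf (nat_lit 0) (nat_lit 38571034324) (nat_lit 76) (nat_lit 17161217784) (nat_lit 152) (nat_lit 28798756659) (nat_lit 17) (nat_lit 5) (nat_lit 18) (nat_lit 5) (nat_lit 19) (nat_lit 4) (nat_lit 401) (nat_lit 279) (nat_lit 100)) (XT.nd (nat_lit 78) (nat_lit 0) (nat_lit 0) (XT.lf (nat_lit 0) (nat_lit 61409778521) (nat_lit 76) (nat_lit 5578502200) (nat_lit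 152) (nat_lit 19722738170) (nat_lit 17) (nat_lit 5) (nat_lit 18) (nat_lit 5) (nat_lit 19) (nat_lit 4) (nat_lit 402) (nat_lit 279) (nat_lit 99)) (XT.lf (nat_lit 0) (nat_lit 78639644669) (nat_lit 152) (nat_lit 4090076250) (nat_lit 0) (nat_lit 6224979600) (nat_lit 17) (nat_lit 5) (nat_lit 19) (nat_lit 4) (nat_lit 17) (nat_lit 4) (nat_lit 403) (nat_lit 279) (nat_lit 98)))) (XT.nd (nat_lit 156) (nat_lit 0) (nat_lit 0) (XT.nd (nat_lit 78) (nat_lit 76) (nat_lit 0) (XT.lf (nat_lit 0) (nat_lit 18048284320) (nat_lit 76) (nat_lit 72817686244) (nat_lit 76) (nat_lit 392960211) (nat_lit 16) (nat_lit 4) (nat_lit 17) (nat_lit 5) (nat_lit 17) (nat_lit 4) (nat_lit 404) (nat_lit 279) (nat_lit 97)) (XT.lf (nat_lit 0) (nat_lit 9673455041) (nat_lit 152) (nat_lit 52797380223) (nat_lit 76) (nat_lit 31157467212) (nat_lit 15) (nat_lit 5) (nat_lit 17) (nat_lit 5) (nat_lit 16) (nat_lit 4) (nat_lit 405) (nat_lit 279) (nat_lit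 96))) (XT.nd (nat_lit 78) (nat_lit 0) (nat_lit 0) (XT.lf (nat_lit 0) (nat_lit 20030762986) (nat_lit 152) (nat_lit 31781528519) (nat_lit 76) (nat_lit 44256443894) (nat_lit 15) (nat_lit 5) (nat_lit 17) (nat_lit 5) (nat_lit 16) (nat_lit 4) (nat_lit 406) (nat_lit 279) (nat_lit 95)) (XT.lf (nat_lit 0) (nat_lit 30695681767) (nat_lit 152) (nat_lit 10140950602) (nat_lit 76) (nat_lit 57745842913) (nat_lit 15) (nat_lit 5) (nat_lit 17) (nat_lit 5) (nat_lit 16) (nat_lit 4) (nat_lit 407) (nat_lit 279) (nat_lit 94)))))) (XT.nd (nat_lit 30888) (nat_lit 0) (nat_lit 16948) (XT.nd (nat_lit 234) (nat_lit 0) (nat_lit 0) (XT.nd (nat_lit 78) (nat_lit 0) (nat_lit 0) (XT.lf (nat_lit 0) (nat_lit 12384937509) (nat_lit 76) (nat_lit 29411644330) (nat_lit 152) (nat_lit 59371565208) (nat_lit 14) (nat_lit 5) (nat_lit 15) (nat_lit 5) (nat_lit 16) (nat_lit 4) (nat_lit 408) (nat_lit 279) (nat_lit 93)) (XT.nd (nat_lit 78) (nat_lit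 0) (nat_lit 0) (XT.lf (nat_lit 0) (nat_lit 35788954650) (nat_lit 76) (nat_lit 17540974882) (nat_lit 152) (nat_lit 50498477493) (nat_lit 14) (nat_lit 5) (nat_lit 15) (nat_lit 5) (nat_lit 16) (nat_lit 4) (nat_lit 409) (nat_lit 279) (nat_lit 92)) (XT.lf (nat_lit 0) (nat_lit 59889726134) (nat_lit 76) (nat_lit 5316655311) (nat_lit 152) (nat_lit 41362180903) (nat_lit 14) (nat_lit 5) (nat_lit 15) (nat_lit 5) (nat_lit 16) (nat_lit 4) (nat_lit 410) (nat_lit 279) (nat_lit 91)))) (XT.nd (nat_lit 30498) (nat_lit 0) (nat_lit 17784) (XT.nd (nat_lit 30420) (nat_lit 0) (nat_lit 17784) (XT.lf (nat_lit 0) (nat_lit 77506217931) (nat_lit 152) (nat_lit 24752599313) (nat_lit 0) (nat_lit 7130092994) (nat_lit 14) (nat_lit 5) (nat_lit 16) (nat_lit 4) (nat_lit 14) (nat_lit 4) (nat_lit 411) (nat_lit 279) (nat_lit 90)) (XT.lf (nat_lit 0) (nat_lit 1545065065) (nat_lit 988) (nat_lit 1269716745) (nat_lit 988) (nat_lit 1269716745)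 (nat_lit 248) (nat_lit 3) (nat_lit 261) (nat_lit 3) (nat_lit 261) (nat_lit 5) (nat_lit 280) (nat_lit 280) (nat_lit 220))) (XT.nd (nat_lit 78) (nat_lit 0) (nat_lit 0) (XT.lf (nat_lit 76) (nat_lit 1268364435) (nat_lit 0) (nat_lit 2972364338) (nat_lit 988) (nat_lit 4016374769) (nat_lit 249) (nat_lit 5) (nat_lit 248) (nat_lit 3) (nat_lit 261) (nat_lit 5) (nat_lit 281) (nat_lit 280) (nat_lit 219)) (XT.lf (nat_lit 76) (nat_lit 5220040258) (nat_lit 0) (nat_lit 188613150) (nat_lit 988) (nat_lit 2939766294) (nat_lit 249) (nat_lit 5) (nat_lit 248) (nat_lit 3) (nat_lit 261) (nat_lit 5) (nat_lit 282) (nat_lit 280) (nat_lit 218))))) (XT.nd (nat_lit 234) (nat_lit 0) (nat_lit 0) (XT.nd (nat_lit 78) (nat_lit 912) (nat_lit 0) (XT.lf (nat_lit 76) (nat_lit 814693078) (nat_lit 0) (nat_lit 5789105825) (nat_lit 988) (nat_lit 1838960250) (nat_lit 250) (nat_lit 5) (nat_lit 249) (nat_lit 5) (nat_lit 262) (nat_lit 5) (nat_lit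 283) (nat_lit 280) (nat_lit 217)) (XT.nd (nat_lit 78) (nat_lit 912) (nat_lit 0) (XT.lf (nat_lit 76) (nat_lit 4915263077) (nat_lit 0) (nat_lit 2912562768) (nat_lit 988) (nat_lit 712359996) (nat_lit 250) (nat_lit 5) (nat_lit 249) (nat_lit 5) (nat_lit 262) (nat_lit 5) (nat_lit 284) (nat_lit 280) (nat_lit 216)) (XT.lf (nat_lit 0) (nat_lit 404971935) (nat_lit 988) (nat_lit 8162037547) (nat_lit 1064) (nat_lit 74471463) (nat_lit 237) (nat_lit 5) (nat_lit 250) (nat_lit 5) (nat_lit 251) (nat_lit 5) (nat_lit 285) (nat_lit 280) (nat_lit 215)))) (XT.nd (nat_lit 156) (nat_lit 0) (nat_lit 76) (XT.nd (nat_lit 78) (nat_lit 0) (nat_lit 0) (XT.lf (nat_lit 0) (nat_lit 1568727286) (nat_lit 988) (nat_lit 4024034799) (nat_lit 1064) (nat_lit 3152068392) (nat_lit 237) (nat_lit 5) (nat_lit 250) (nat_lit 5) (nat_lit 251) (nat_lit 5) (nat_lit 286) (nat_lit 280) (nat_lit 214)) (XT.lf (nat_lit 76) (nat_lit 218772014) (nat_lit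 0) (nat_lit 2513266937) (nat_lit 1064) (nat_lit 6120344763) (nat_lit 238) (nat_lit 5) (nat_lit 237) (nat_lit 5) (nat_lit 251) (nat_lit 5) (nat_lit 287) (nat_lit 280) (nat_lit 213))) (XT.nd (nat_lit 78) (nat_lit 0) (nat_lit 0) (XT.lf (nat_lit 0) (nat_lit 3941152265) (nat_lit 988) (nat_lit 4321965790) (nat_lit 1064) (nat_lit 699759710) (nat_lit 238) (nat_lit 5) (nat_lit 251) (nat_lit 5) (nat_lit 252) (nat_lit 5) (nat_lit 288) (nat_lit 280) (nat_lit 212)) (XT.lf (nat_lit 76) (nat_lit 71621142) (nat_lit 0) (nat_lit 5105086368) (nat_lit 1064) (nat_lit 3900314159) (nat_lit 239) (nat_lit 5) (nat_lit 238) (nat_lit 5) (nat_lit 252) (nat_lit 5) (nat_lit 289) (nat_lit 280) (nat_lit 211))))))) (XT.nd (nat_lit 1092) (nat_lit 4028) (nat_lit 0) (XT.nd (nat_lit 546) (nat_lit 3496) (nat_lit 0) (XT.nd (nat_lit 234) (nat_lit 988) (nat_lit 0) (XT.nd (nat_lit 78) (nat_lit 0) (nat_lit 76) (XT.lf (nat_lit 76) (nat_lit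 4661924165) (nat_lit 0) (nat_lit 1796448340) (nat_lit 1064) (nat_lit 2735985010) (nat_lit 239) (nat_lit 5) (nat_lit 238) (nat_lit 5) (nat_lit 252) (nat_lit 5) (nat_lit 290) (nat_lit 280) (nat_lit 210)) (XT.nd (nat_lit 78) (nat_lit 0) (nat_lit 0) (XT.lf (nat_lit 76) (nat_lit 35785866) (nat_lit 0) (nat_lit 7725045144) (nat_lit 1064) (nat_lit 1554949905) (nat_lit 240) (nat_lit 5) (nat_lit 239) (nat_lit 5) (nat_lit 253) (nat_lit 5) (nat_lit 291) (nat_lit 280) (nat_lit 209)) (XT.lf (nat_lit 76) (nat_lit 4791913157) (nat_lit 0) (nat_lit 4341086008) (nat_lit 1064) (nat_lit 306965458) (nat_lit 240) (nat_lit 5) (nat_lit 239) (nat_lit 5) (nat_lit 253) (nat_lit 5) (nat_lit 292) (nat_lit 280) (nat_lit 208)))) (XT.nd (nat_lit 156) (nat_lit 0) (nat_lit 76) (XT.nd (nat_lit 78) (nat_lit 0) (nat_lit 76) (XT.lf (nat_lit 76) (nat_lit 91341048) (nat_lit 0) (nat_lit 836761269) (nat_lit 1140) (nat_lit 8640461827) (nat_lit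 226) (nat_lit 5) (nat_lit 225) (nat_lit 5) (nat_lit 240) (nat_lit 5) (nat_lit 293) (nat_lit 280) (nat_lit 207)) (XT.lf (nat_lit 0) (nat_lit 2236748763) (nat_lit 1064) (nat_lit 4686277898) (nat_lit 1140) (nat_lit 2776656492) (nat_lit 226) (nat_lit 5) (nat_lit 240) (nat_lit 5) (nat_lit 241) (nat_lit 5) (nat_lit 294) (nat_lit 280) (nat_lit 206))) (XT.nd (nat_lit 78) (nat_lit 0) (nat_lit 76) (XT.lf (nat_lit 76) (nat_lit 220428387) (nat_lit 0) (nat_lit 3344185789) (nat_lit 1140) (nat_lit 6270755362) (nat_lit 227) (nat_lit 5) (nat_lit 226) (nat_lit 5) (nat_lit 241) (nat_lit 5) (nat_lit 295) (nat_lit 280) (nat_lit 205)) (XT.lf (nat_lit 0) (nat_lit 4953666398) (nat_lit 1064) (nat_lit 4631795094) (nat_lit 76) (nat_lit 389056142) (nat_lit 227) (nat_lit 5) (nat_lit 241) (nat_lit 5) (nat_lit 228) (nat_lit 5) (nat_lit 296) (nat_lit 280) (nat_lit 204))))) (XT.nd (nat_lit 234) (nat_lit 1444) (nat_lit 0) (XT.nd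 (nat_lit 78) (nat_lit 1140) (nat_lit 0) (XT.lf (nat_lit 0) (nat_lit 452553936) (nat_lit 1064) (nat_lit 5940435459) (nat_lit 1140) (nat_lit 3724623524) (nat_lit 213) (nat_lit 5) (nat_lit 227) (nat_lit 5) (nat_lit 228) (nat_lit 5) (nat_lit 297) (nat_lit 280) (nat_lit 203)) (XT.nd (nat_lit 78) (nat_lit 1140) (nat_lit 0) (XT.lf (nat_lit 0) (nat_lit 5760604489) (nat_lit 1064) (nat_lit 2133409958) (nat_lit 1140) (nat_lit 2370460771) (nat_lit 213) (nat_lit 5) (nat_lit 227) (nat_lit 5) (nat_lit 228) (nat_lit 5) (nat_lit 298) (nat_lit 280) (nat_lit 202)) (XT.lf (nat_lit 0) (nat_lit 786334498) (nat_lit 1140) (nat_lit 8651095034) (nat_lit 1216) (nat_lit 978422035) (nat_lit 198) (nat_lit 5) (nat_lit 213) (nat_lit 5) (nat_lit 214) (nat_lit 5) (nat_lit 299) (nat_lit 280) (nat_lit 201)))) (XT.nd (nat_lit 156) (nat_lit 608) (nat_lit 0) (XT.nd (nat_lit 78) (nat_lit 760) (nat_lit 0) (XT.lf (nat_lit 0) (nat_lit 486436438)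 (nat_lit 1216) (nat_lit 4293093477) (nat_lit 76) (nat_lit 5790936928) (nat_lit 197) (nat_lit 5) (nat_lit 213) (nat_lit 5) (nat_lit 198) (nat_lit 5) (nat_lit 300) (nat_lit 280) (nat_lit 200)) (XT.lf (nat_lit 0) (nat_lit 1193422521) (nat_lit 760) (nat_lit 767305519) (nat_lit 836) (nat_lit 8769173838) (nat_lit 187) (nat_lit 5) (nat_lit 197) (nat_lit 5) (nat_lit 198) (nat_lit 5) (nat_lit 301) (nat_lit 280) (nat_lit 199))) (XT.nd (nat_lit 78) (nat_lit 608) (nat_lit 0) (XT.lf (nat_lit 0) (nat_lit 3529624490) (nat_lit 836) (nat_lit 4017251349) (nat_lit 76) (nat_lit 3345758570) (nat_lit 187) (nat_lit 5) (nat_lit 198) (nat_lit 5) (nat_lit 188) (nat_lit 5) (nat_lit 302) (nat_lit 280) (nat_lit 198)) (XT.lf (nat_lit 0) (nat_lit 1669038237) (nat_lit 608) (nat_lit 3475186479) (nat_lit 684) (nat_lit 5916090075) (nat_lit 179) (nat_lit 5) (nat_lit 187) (nat_lit 5) (nat_lit 188) (nat_lit 5) (nat_lit 303) (nat_lit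 280) (nat_lit 197)))))) (XT.nd (nat_lit 546) (nat_lit 2356) (nat_lit 0) (XT.nd (nat_lit 234) (nat_lit 1140) (nat_lit 0) (XT.nd (nat_lit 78) (nat_lit 532) (nat_lit 0) (XT.lf (nat_lit 0) (nat_lit 6830651736) (nat_lit 684) (nat_lit 3654880184) (nat_lit 76) (nat_lit 746816252) (nat_lit 179) (nat_lit 5) (nat_lit 188) (nat_lit 5) (nat_lit 180) (nat_lit 5) (nat_lit 304) (nat_lit 280) (nat_lit 196)) (XT.nd (nat_lit 78) (nat_lit 0) (nat_lit 0) (XT.lf (nat_lit 0) (nat_lit 2239574262) (nat_lit 532) (nat_lit 6360259112) (nat_lit 608) (nat_lit 2808767873) (nat_lit 172) (nat_lit 5) (nat_lit 179) (nat_lit 5) (nat_lit 180) (nat_lit 5) (nat_lit 305) (nat_lit 280) (nat_lit 195)) (XT.lf (nat_lit 0) (nat_lit 8362684324) (nat_lit 532) (nat_lit 2073009529) (nat_lit 608) (nat_lit 1154062820) (nat_lit 172) (nat_lit 5) (nat_lit 179) (nat_lit 5) (nat_lit 180) (nat_lit 5) (nat_lit 306) (nat_lit 280) (nat_lit 194)))) (XT.nd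 (nat_lit 156) (nat_lit 532) (nat_lit 0) (XT.nd (nat_lit 78) (nat_lit 0) (nat_lit 0) (XT.lf (nat_lit 0) (nat_lit 567613478) (nat_lit 608) (nat_lit 8876938303) (nat_lit 76) (nat_lit 2330815796) (nat_lit 164) (nat_lit 5) (nat_lit 172) (nat_lit 5) (nat_lit 165) (nat_lit 5) (nat_lit 307) (nat_lit 280) (nat_lit 193)) (XT.lf (nat_lit 0) (nat_lit 2348754059) (nat_lit 608) (nat_lit 2747365276) (nat_lit 76) (nat_lit 6869175316) (nat_lit 164) (nat_lit 5) (nat_lit 172) (nat_lit 5) (nat_lit 165) (nat_lit 5) (nat_lit 308) (nat_lit 280) (nat_lit 192))) (XT.nd (nat_lit 78) (nat_lit 0) (nat_lit 0) (XT.lf (nat_lit 0) (nat_lit 3613926347) (nat_lit 532) (nat_lit 582369857) (nat_lit 608) (nat_lit 7964254625) (nat_lit 157) (nat_lit 5) (nat_lit 164) (nat_lit 5) (nat_lit 165) (nat_lit 5) (nat_lit 309) (nat_lit 280) (nat_lit 191)) (XT.lf (nat_lit 0) (nat_lit 6145010338) (nat_lit 608) (nat_lit 2200941066) (nat_lit 76) (nat_lit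 4014360635) (nat_lit 157) (nat_lit 5) (nat_lit 165) (nat_lit 5) (nat_lit 158) (nat_lit 5) (nat_lit 310) (nat_lit 280) (nat_lit 190))))) (XT.nd (nat_lit 312) (nat_lit 1292) (nat_lit 0) (XT.nd (nat_lit 156) (nat_lit 532) (nat_lit 0) (XT.nd (nat_lit 78) (nat_lit 0) (nat_lit 0) (XT.lf (nat_lit 0) (nat_lit 4392619435) (nat_lit 532) (nat_lit 3786814854) (nat_lit 608) (nat_lit 4385833491) (nat_lit 150) (nat_lit 5) (nat_lit 157) (nat_lit 5) (nat_lit 158) (nat_lit 5) (nat_lit 311) (nat_lit 280) (nat_lit 189)) (XT.lf (nat_lit 0) (nat_lit 10285705324) (nat_lit 608) (nat_lit 1578394710) (nat_lit 76) (nat_lit 911966316) (nat_lit 150) (nat_lit 5) (nat_lit 158) (nat_lit 5) (nat_lit 151) (nat_lit 5) (nat_lit 312) (nat_lit 280) (nat_lit 188))) (XT.nd (nat_lit 78) (nat_lit 76) (nat_lit 0) (XT.lf (nat_lit 0) (nat_lit 5256599260) (nat_lit 456) (nat_lit 7266811724) (nat_lit 532) (nat_lit 467748544) (nat_lit 144) (nat_lit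 5) (nat_lit 150) (nat_lit 5) (nat_lit 151) (nat_lit 5) (nat_lit 313) (nat_lit 280) (nat_lit 187)) (XT.lf (nat_lit 0) (nat_lit 1580493017) (nat_lit 532) (nat_lit 921275537) (nat_lit 76) (nat_lit 10710593797) (nat_lit 143) (nat_lit 5) (nat_lit 150) (nat_lit 5) (nat_lit 144) (nat_lit 5) (nat_lit 314) (nat_lit 280) (nat_lit 186)))) (XT.nd (nat_lit 156) (nat_lit 836) (nat_lit 0) (XT.nd (nat_lit 78) (nat_lit 0) (nat_lit 0) (XT.lf (nat_lit 0) (nat_lit 3744981375) (nat_lit 532) (nat_lit 7271729956) (nat_lit 76) (nat_lit 2421441483) (nat_lit 137) (nat_lit 5) (nat_lit 144) (nat_lit 5) (nat_lit 138) (nat_lit 5) (nat_lit 315) (nat_lit 280) (nat_lit 185)) (XT.lf (nat_lit 0) (nat_lit 5989841635) (nat_lit 532) (nat_lit 231708077) (nat_lit 76) (nat_lit 7448720195) (nat_lit 137) (nat_lit 5) (nat_lit 144) (nat_lit 5) (nat_lit 138) (nat_lit 5) (nat_lit 316) (nat_lit 280) (nat_lit 184))) (XT.nd (nat_lit 78) (nat_lit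 456) (nat_lit 0) (XT.lf (nat_lit 0) (nat_lit 7137387156) (nat_lit 380) (nat_lit 1215087031) (nat_lit 456) (nat_lit 5555379098) (nat_lit 132) (nat_lit 5) (nat_lit 137) (nat_lit 5) (nat_lit 138) (nat_lit 5) (nat_lit 317) (nat_lit 280) (nat_lit 183)) (XT.lf (nat_lit 0) (nat_lit 530539528) (nat_lit 456) (nat_lit 10282909135) (nat_lit 532) (nat_lit 3338306725) (nat_lit 126) (nat_lit 5) (nat_lit 132) (nat_lit 5) (nat_lit 133) (nat_lit 5) (nat_lit 318) (nat_lit 280) (nat_lit 182))))))))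
noncomputable def xc153 : XT := (XT.nd (nat_lit 2184) (nat_lit 2508) (nat_lit 0) (XT.nd (nat_lit 1092) (nat_lit 1900) (nat_lit 0) (XT.nd (nat_lit 546) (nat_lit 1444) (nat_lit 0) (XT.nd (nat_lit 234) (nat_lit 760) (nat_lit 0) (XT.nd (nat_lit 78) (nat_lit 456) (nat_lit 0) (XT.lf (nat_lit 0) (nat_lit 8155593815) (nat_lit 456) (nat_lit 5255365308) (nat_lit 532) (nat_lit 990148902) (nat_lit 126) (nat_lit 5) (nat_lit 132) (nat_lit 5) (nat_lit 133) (nat_lit 5) (nat_lit 319) (nat_lit 280) (nat_lit 181)) (XT.nd (nat_lit 78) (nat_lit 0) (nat_lit 0) (XT.lf (nat_lit 0) (nat_lit 1342697877) (nat_lit 380) (nat_lit 53543003) (nat_lit 456) (nat_lit 13261432414) (nat_lit 120) (nat_lit 5) (nat_lit 125) (nat_lit 5) (nat_lit 126) (nat_lit 5) (nat_lit 320) (nat_lit 280) (nat_lit 180)) (XT.lf (nat_lit 0) (nat_lit 3932017417) (nat_lit 456) (nat_lit 5716381399) (nat_lit 76) (nat_lit 5270325145) (nat_lit 120) (nat_lit 5)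 (nat_lit 126) (nat_lit 5) (nat_lit 121) (nat_lit 5) (nat_lit 321) (nat_lit 280) (nat_lit 179)))) (XT.nd (nat_lit 156) (nat_lit 380) (nat_lit 0) (XT.nd (nat_lit 78) (nat_lit 0) (nat_lit 0) (XT.lf (nat_lit 0) (nat_lit 2130332358) (nat_lit 380) (nat_lit 4418053457) (nat_lit 456) (nat_lit 8639097814) (nat_lit 115) (nat_lit 5) (nat_lit 120) (nat_lit 5) (nat_lit 121) (nat_lit 5) (nat_lit 322) (nat_lit 280) (nat_lit 178)) (XT.lf (nat_lit 0) (nat_lit 9294606608) (nat_lit 456) (nat_lit 5163964401) (nat_lit 76) (nat_lit 1004206896) (nat_lit 115) (nat_lit 5) (nat_lit 121) (nat_lit 5) (nat_lit 116) (nat_lit 5) (nat_lit 323) (nat_lit 280) (nat_lit 177))) (XT.nd (nat_lit 78) (nat_lit 0) (nat_lit 0) (XT.lf (nat_lit 0) (nat_lit 2959511436) (nat_lit 380) (nat_lit 9220116660) (nat_lit 456) (nat_lit 3565022778) (nat_lit 110) (nat_lit 5) (nat_lit 115) (nat_lit 5) (nat_lit 116) (nat_lit 5) (nat_lit 324) (nat_lit 280)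 (nat_lit 176)) (XT.lf (nat_lit 0) (nat_lit 11412234612) (nat_lit 380) (nat_lit 3775598148) (nat_lit 456) (nat_lit 846060226) (nat_lit 110) (nat_lit 5) (nat_lit 115) (nat_lit 5) (nat_lit 116) (nat_lit 5) (nat_lit 325) (nat_lit 280) (nat_lit 175))))) (XT.nd (nat_lit 234) (nat_lit 684) (nat_lit 0) (XT.nd (nat_lit 78) (nat_lit 304) (nat_lit 0) (XT.lf (nat_lit 0) (nat_lit 1955970876) (nat_lit 456) (nat_lit 12526236140) (nat_lit 76) (nat_lit 1847863812) (nat_lit 104) (nat_lit 5) (nat_lit 110) (nat_lit 5) (nat_lit 105) (nat_lit 5) (nat_lit 326) (nat_lit 280) (nat_lit 174)) (XT.nd (nat_lit 78) (nat_lit 304) (nat_lit 0) (XT.lf (nat_lit 0) (nat_lit 4894555684) (nat_lit 456) (nat_lit 4123375425) (nat_lit 76) (nat_lit 7614877577) (nat_lit 104) (nat_lit 5) (nat_lit 110) (nat_lit 5) (nat_lit 105) (nat_lit 5) (nat_lit 327) (nat_lit 280) (nat_lit 173)) (XT.lf (nat_lit 0) (nat_lit 4601704364) (nat_lit 304) (nat_lit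 3349249256) (nat_lit 380) (nat_lit 8992795993) (nat_lit 100) (nat_lit 5) (nat_lit 104) (nat_lit 5) (nat_lit 105) (nat_lit 5) (nat_lit 328) (nat_lit 280) (nat_lit 172)))) (XT.nd (nat_lit 156) (nat_lit 380) (nat_lit 0) (XT.nd (nat_lit 78) (nat_lit 304) (nat_lit 0) (XT.lf (nat_lit 0) (nat_lit 11150633646) (nat_lit 380) (nat_lit 3633911751) (nat_lit 76) (nat_lit 2477935956) (nat_lit 100) (nat_lit 5) (nat_lit 105) (nat_lit 5) (nat_lit 101) (nat_lit 5) (nat_lit 329) (nat_lit 280) (nat_lit 171)) (XT.lf (nat_lit 0) (nat_lit 5388164810) (nat_lit 304) (nat_lit 9129122985) (nat_lit 380) (nat_lit 3071367731) (nat_lit 96) (nat_lit 5) (nat_lit 100) (nat_lit 5) (nat_lit 101) (nat_lit 5) (nat_lit 330) (nat_lit 280) (nat_lit 170))) (XT.nd (nat_lit 78) (nat_lit 304) (nat_lit 0) (XT.lf (nat_lit 0) (nat_lit 82314428) (nat_lit 380) (nat_lit 3188441430) (nat_lit 76) (nat_lit 14653156139) (nat_lit 95) (nat_lit 5) (nat_lit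 100) (nat_lit 5) (nat_lit 96) (nat_lit 5) (nat_lit 331) (nat_lit 280) (nat_lit 169)) (XT.lf (nat_lit 0) (nat_lit 3342048519) (nat_lit 380) (nat_lit 12129302566) (nat_lit 76) (nat_lit 2794776745) (nat_lit 91) (nat_lit 5) (nat_lit 96) (nat_lit 5) (nat_lit 92) (nat_lit 5) (nat_lit 332) (nat_lit 280) (nat_lit 168)))))) (XT.nd (nat_lit 546) (nat_lit 988) (nat_lit 0) (XT.nd (nat_lit 234) (nat_lit 608) (nat_lit 0) (XT.nd (nat_lit 78) (nat_lit 304) (nat_lit 0) (XT.lf (nat_lit 0) (nat_lit 6751147403) (nat_lit 380) (nat_lit 2862123041) (nat_lit 76) (nat_lit 9003801388) (nat_lit 91) (nat_lit 5) (nat_lit 96) (nat_lit 5) (nat_lit 92) (nat_lit 5) (nat_lit 333) (nat_lit 280) (nat_lit 167)) (XT.nd (nat_lit 78) (nat_lit 0) (nat_lit 0) (XT.lf (nat_lit 0) (nat_lit 6797278049) (nat_lit 304) (nat_lit 3517642217) (nat_lit 380) (nat_lit 8662060478) (nat_lit 87) (nat_lit 5) (nat_lit 91) (nat_lit 5) (nat_lit 92) (nat_lit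 5) (nat_lit 334) (nat_lit 280) (nat_lit 166)) (XT.lf (nat_lit 0) (nat_lit 14028543129) (nat_lit 380) (nat_lit 2587103108) (nat_lit 76) (nat_lit 2730760949) (nat_lit 87) (nat_lit 5) (nat_lit 92) (nat_lit 5) (nat_lit 88) (nat_lit 5) (nat_lit 335) (nat_lit 280) (nat_lit 165)))) (XT.nd (nat_lit 156) (nat_lit 304) (nat_lit 0) (XT.nd (nat_lit 78) (nat_lit 76) (nat_lit 0) (XT.lf (nat_lit 0) (nat_lit 7384495948) (nat_lit 228) (nat_lit 10562473492) (nat_lit 304) (nat_lit 1777153263) (nat_lit 84) (nat_lit 5) (nat_lit 87) (nat_lit 5) (nat_lit 88) (nat_lit 5) (nat_lit 336) (nat_lit 280) (nat_lit 164)) (XT.lf (nat_lit 0) (nat_lit 1847319479) (nat_lit 304) (nat_lit 2440467134) (nat_lit 76) (nat_lit 15824430724) (nat_lit 83) (nat_lit 5) (nat_lit 87) (nat_lit 5) (nat_lit 84) (nat_lit 5) (nat_lit 337) (nat_lit 280) (nat_lit 163))) (XT.nd (nat_lit 78) (nat_lit 0) (nat_lit 0) (XT.lf (nat_lit 0) (nat_lit 5630280205)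 (nat_lit 380) (nat_lit 12657175057) (nat_lit 76) (nat_lit 2221414932) (nat_lit 79) (nat_lit 5) (nat_lit 84) (nat_lit 5) (nat_lit 80) (nat_lit 5) (nat_lit 338) (nat_lit 280) (nat_lit 162)) (XT.lf (nat_lit 0) (nat_lit 9582202329) (nat_lit 380) (nat_lit 2474463610) (nat_lit 76) (nat_lit 8859099737) (nat_lit 79) (nat_lit 5) (nat_lit 84) (nat_lit 5) (nat_lit 80) (nat_lit 5) (nat_lit 339) (nat_lit 280) (nat_lit 161))))) (XT.nd (nat_lit 234) (nat_lit 456) (nat_lit 0) (XT.nd (nat_lit 78) (nat_lit 304) (nat_lit 0) (XT.lf (nat_lit 0) (nat_lit 8155659530) (nat_lit 228) (nat_lit 5563896777) (nat_lit 304) (nat_lit 7613312498) (nat_lit 76) (nat_lit 5) (nat_lit 79) (nat_lit 5) (nat_lit 80) (nat_lit 5) (nat_lit 340) (nat_lit 280) (nat_lit 160)) (XT.nd (nat_lit 78) (nat_lit 304) (nat_lit 0) (XT.lf (nat_lit 0) (nat_lit 18005660800) (nat_lit 304) (nat_lit 2634713378) (nat_lit 76) (nat_lit 1121378756) (nat_lit 76)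 (nat_lit 5) (nat_lit 80) (nat_lit 5) (nat_lit 77) (nat_lit 5) (nat_lit 341) (nat_lit 280) (nat_lit 159)) (XT.lf (nat_lit 0) (nat_lit 337771230) (nat_lit 304) (nat_lit 13888725497) (nat_lit 76) (nat_lit 7973196007) (nat_lit 72) (nat_lit 5) (nat_lit 76) (nat_lit 5) (nat_lit 73) (nat_lit 5) (nat_lit 342) (nat_lit 280) (nat_lit 158)))) (XT.nd (nat_lit 156) (nat_lit 228) (nat_lit 0) (XT.nd (nat_lit 78) (nat_lit 228) (nat_lit 0) (XT.lf (nat_lit 0) (nat_lit 4494799815) (nat_lit 304) (nat_lit 3065293023) (nat_lit 76) (nat_lit 15089093153) (nat_lit 72) (nat_lit 5) (nat_lit 76) (nat_lit 5) (nat_lit 73) (nat_lit 5) (nat_lit 343) (nat_lit 280) (nat_lit 157)) (XT.lf (nat_lit 0) (nat_lit 8226977155) (nat_lit 228) (nat_lit 617940172) (nat_lit 304) (nat_lit 14265201423) (nat_lit 69) (nat_lit 5) (nat_lit 72) (nat_lit 5) (nat_lit 73) (nat_lit 5) (nat_lit 344) (nat_lit 280) (nat_lit 156))) (XT.nd (nat_lit 78) (nat_lit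 228) (nat_lit 0) (XT.lf (nat_lit 0) (nat_lit 13408988707) (nat_lit 304) (nat_lit 3742710602) (nat_lit 76) (nat_lit 6430682540) (nat_lit 69) (nat_lit 5) (nat_lit 73) (nat_lit 5) (nat_lit 70) (nat_lit 5) (nat_lit 345) (nat_lit 280) (nat_lit 155)) (XT.lf (nat_lit 0) (nat_lit 7863225812) (nat_lit 228) (nat_lit 10318165879) (nat_lit 304) (nat_lit 5885284566) (nat_lit 66) (nat_lit 5) (nat_lit 69) (nat_lit 5) (nat_lit 70) (nat_lit 5) (nat_lit 346) (nat_lit 280) (nat_lit 154))))))) (XT.nd (nat_lit 1092) (nat_lit 1064) (nat_lit 0) (XT.nd (nat_lit 546) (nat_lit 684) (nat_lit 0) (XT.nd (nat_lit 234) (nat_lit 456) (nat_lit 0) (XT.nd (nat_lit 78) (nat_lit 304) (nat_lit 0) (XT.lf (nat_lit 0) (nat_lit 19878190220) (nat_lit 228) (nat_lit 3246422967) (nat_lit 304) (nat_lit 1440062449) (nat_lit 66) (nat_lit 5) (nat_lit 69) (nat_lit 5) (nat_lit 70) (nat_lit 5) (nat_lit 347) (nat_lit 280) (nat_lit 153)) (XT.nd (nat_lit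 78) (nat_lit 0) (nat_lit 0) (XT.lf (nat_lit 0) (nat_lit 3176968779) (nat_lit 304) (nat_lit 17842552478) (nat_lit 76) (nat_lit 4054202986) (nat_lit 62) (nat_lit 5) (nat_lit 66) (nat_lit 5) (nat_lit 63) (nat_lit 5) (nat_lit 348) (nat_lit 280) (nat_lit 152)) (XT.lf (nat_lit 0) (nat_lit 7973634983) (nat_lit 304) (nat_lit 6056772129) (nat_lit 76) (nat_lit 11565112484) (nat_lit 62) (nat_lit 5) (nat_lit 66) (nat_lit 5) (nat_lit 63) (nat_lit 5) (nat_lit 349) (nat_lit 280) (nat_lit 151)))) (XT.nd (nat_lit 156) (nat_lit 228) (nat_lit 0) (XT.nd (nat_lit 78) (nat_lit 0) (nat_lit 0) (XT.lf (nat_lit 0) (nat_lit 6188085739) (nat_lit 228) (nat_lit 6776018706) (nat_lit 304) (nat_lit 13167372180) (nat_lit 59) (nat_lit 5) (nat_lit 62) (nat_lit 5) (nat_lit 63) (nat_lit 5) (nat_lit 350) (nat_lit 280) (nat_lit 150)) (XT.lf (nat_lit 0) (nat_lit 18163244651) (nat_lit 304) (nat_lit 7779858320) (nat_lit 76) (nat_lit 738645468)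 (nat_lit 59) (nat_lit 5) (nat_lit 63) (nat_lit 5) (nat_lit 60) (nat_lit 5) (nat_lit 351) (nat_lit 280) (nat_lit 149))) (XT.nd (nat_lit 78) (nat_lit 76) (nat_lit 0) (XT.lf (nat_lit 0) (nat_lit 4759480009) (nat_lit 152) (nat_lit 18862495289) (nat_lit 228) (nat_lit 3623449253) (nat_lit 57) (nat_lit 5) (nat_lit 59) (nat_lit 5) (nat_lit 60) (nat_lit 5) (nat_lit 352) (nat_lit 280) (nat_lit 148)) (XT.lf (nat_lit 0) (nat_lit 1460925266) (nat_lit 228) (nat_lit 10018515942) (nat_lit 76) (nat_lit 16344060629) (nat_lit 56) (nat_lit 5) (nat_lit 59) (nat_lit 5) (nat_lit 57) (nat_lit 5) (nat_lit 353) (nat_lit 280) (nat_lit 147))))) (XT.nd (nat_lit 234) (nat_lit 304) (nat_lit 0) (XT.nd (nat_lit 78) (nat_lit 152) (nat_lit 0) (XT.lf (nat_lit 0) (nat_lit 2827747198) (nat_lit 228) (nat_lit 3815514238) (nat_lit 304) (nat_lit 21774040227) (nat_lit 53) (nat_lit 5) (nat_lit 56) (nat_lit 5) (nat_lit 57) (nat_lit 5) (nat_lit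 354) (nat_lit 280) (nat_lit 146)) (XT.nd (nat_lit 78) (nat_lit 152) (nat_lit 0) (XT.lf (nat_lit 0) (nat_lit 12113584891) (nat_lit 304) (nat_lit 12815882419) (nat_lit 76) (nat_lit 4095476776) (nat_lit 53) (nat_lit 5) (nat_lit 57) (nat_lit 5) (nat_lit 54) (nat_lit 5) (nat_lit 355) (nat_lit 280) (nat_lit 145)) (XT.lf (nat_lit 0) (nat_lit 294835055) (nat_lit 152) (nat_lit 17485197182) (nat_lit 228) (nat_lit 11869827113) (nat_lit 51) (nat_lit 5) (nat_lit 53) (nat_lit 5) (nat_lit 54) (nat_lit 5) (nat_lit 356) (nat_lit 280) (nat_lit 144)))) (XT.nd (nat_lit 156) (nat_lit 304) (nat_lit 0) (XT.nd (nat_lit 78) (nat_lit 0) (nat_lit 0) (XT.lf (nat_lit 0) (nat_lit 14047585055) (nat_lit 152) (nat_lit 9689821730) (nat_lit 228) (nat_lit 6552491155) (nat_lit 51) (nat_lit 5) (nat_lit 53) (nat_lit 5) (nat_lit 54) (nat_lit 5) (nat_lit 357) (nat_lit 280) (nat_lit 143)) (XT.lf (nat_lit 0) (nat_lit 28199323357) (nat_lit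 152) (nat_lit 1665944743) (nat_lit 228) (nat_lit 1084120389) (nat_lit 51) (nat_lit 5) (nat_lit 53) (nat_lit 5) (nat_lit 54) (nat_lit 5) (nat_lit 358) (nat_lit 280) (nat_lit 142))) (XT.nd (nat_lit 78) (nat_lit 0) (nat_lit 0) (XT.lf (nat_lit 0) (nat_lit 4625083365) (nat_lit 304) (nat_lit 20378648546) (nat_lit 76) (nat_lit 6618657694) (nat_lit 47) (nat_lit 5) (nat_lit 51) (nat_lit 5) (nat_lit 48) (nat_lit 5) (nat_lit 359) (nat_lit 280) (nat_lit 141)) (XT.lf (nat_lit 0) (nat_lit 10520293327) (nat_lit 304) (nat_lit 6641939384) (nat_lit 76) (nat_lit 15151933881) (nat_lit 47) (nat_lit 5) (nat_lit 51) (nat_lit 5) (nat_lit 48) (nat_lit 5) (nat_lit 360) (nat_lit 280) (nat_lit 140)))))) (XT.nd (nat_lit 546) (nat_lit 532) (nat_lit 0) (XT.nd (nat_lit 234) (nat_lit 228) (nat_lit 0) (XT.nd (nat_lit 78) (nat_lit 152) (nat_lit 0) (XT.lf (nat_lit 0) (nat_lit 7642980614) (nat_lit 152) (nat_lit 9015061685) (nat_lit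 228) (nat_lit 16366687454) (nat_lit 45) (nat_lit 5) (nat_lit 47) (nat_lit 5) (nat_lit 48) (nat_lit 5) (nat_lit 361) (nat_lit 280) (nat_lit 139)) (XT.nd (nat_lit 78) (nat_lit 152) (nat_lit 0) (XT.lf (nat_lit 0) (nat_lit 22479696711) (nat_lit 152) (nat_lit 559614040) (nat_lit 228) (nat_lit 10715520699) (nat_lit 45) (nat_lit 5) (nat_lit 47) (nat_lit 5) (nat_lit 48) (nat_lit 5) (nat_lit 362) (nat_lit 280) (nat_lit 138)) (XT.lf (nat_lit 0) (nat_lit 3226595540) (nat_lit 152) (nat_lit 26487267186) (nat_lit 228) (nat_lit 4789921261) (nat_lit 43) (nat_lit 5) (nat_lit 45) (nat_lit 5) (nat_lit 46) (nat_lit 5) (nat_lit 363) (nat_lit 280) (nat_lit 137)))) (XT.nd (nat_lit 156) (nat_lit 152) (nat_lit 0) (XT.nd (nat_lit 78) (nat_lit 0) (nat_lit 0) (XT.lf (nat_lit 0) (nat_lit 1400853750) (nat_lit 228) (nat_lit 16909310643) (nat_lit 76) (nat_lit 16961273782) (nat_lit 42) (nat_lit 5) (nat_lit 45) (nat_lit 5) (nat_lit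 43) (nat_lit 5) (nat_lit 364) (nat_lit 280) (nat_lit 136)) (XT.lf (nat_lit 0) (nat_lit 7673810284) (nat_lit 228) (nat_lit 2170185064) (nat_lit 76) (nat_lit 26216924850) (nat_lit 42) (nat_lit 5) (nat_lit 45) (nat_lit 5) (nat_lit 43) (nat_lit 5) (nat_lit 365) (nat_lit 280) (nat_lit 135))) (XT.nd (nat_lit 78) (nat_lit 0) (nat_lit 0) (XT.lf (nat_lit 0) (nat_lit 13257818581) (nat_lit 152) (nat_lit 997521864) (nat_lit 228) (nat_lit 22615137494) (nat_lit 40) (nat_lit 5) (nat_lit 42) (nat_lit 5) (nat_lit 43) (nat_lit 5) (nat_lit 366) (nat_lit 280) (nat_lit 134)) (XT.lf (nat_lit 0) (nat_lit 21127434832) (nat_lit 228) (nat_lit 8600783223) (nat_lit 76) (nat_lit 7973313527) (nat_lit 40) (nat_lit 5) (nat_lit 43) (nat_lit 5) (nat_lit 41) (nat_lit 5) (nat_lit 367) (nat_lit 280) (nat_lit 133))))) (XT.nd (nat_lit 312) (nat_lit 152) (nat_lit 0) (XT.nd (nat_lit 156) (nat_lit 228) (nat_lit 0) (XT.nd (nat_lit 78) (nat_lit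 0) (nat_lit 0) (XT.lf (nat_lit 0) (nat_lit 6976000389) (nat_lit 152) (nat_lit 21299816644) (nat_lit 228) (nat_lit 10279598694) (nat_lit 38) (nat_lit 5) (nat_lit 40) (nat_lit 5) (nat_lit 41) (nat_lit 5) (nat_lit 368) (nat_lit 280) (nat_lit 132)) (XT.lf (nat_lit 0) (nat_lit 23184810590) (nat_lit 152) (nat_lit 12533969069) (nat_lit 228) (nat_lit 3713735435) (nat_lit 38) (nat_lit 5) (nat_lit 40) (nat_lit 5) (nat_lit 41) (nat_lit 5) (nat_lit 369) (nat_lit 280) (nat_lit 131))) (XT.nd (nat_lit 78) (nat_lit 152) (nat_lit 0) (XT.lf (nat_lit 0) (nat_lit 2983011366) (nat_lit 228) (nat_lit 496732967) (nat_lit 76) (nat_lit 36855504031) (nat_lit 37) (nat_lit 5) (nat_lit 40) (nat_lit 5) (nat_lit 38) (nat_lit 5) (nat_lit 370) (nat_lit 280) (nat_lit 130)) (XT.lf (nat_lit 0) (nat_lit 10011369699) (nat_lit 228) (nat_lit 25326590554) (nat_lit 76) (nat_lit 5919842092) (nat_lit 35) (nat_lit 5) (nat_lit 38) (nat_lit 5)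 (nat_lit 36) (nat_lit 5) (nat_lit 371) (nat_lit 280) (nat_lit 129)))) (XT.nd (nat_lit 156) (nat_lit 0) (nat_lit 0) (XT.nd (nat_lit 78) (nat_lit 152) (nat_lit 0) (XT.lf (nat_lit 0) (nat_lit 17283732925) (nat_lit 228) (nat_lit 9391296037) (nat_lit 76) (nat_lit 15532011638) (nat_lit 35) (nat_lit 5) (nat_lit 38) (nat_lit 5) (nat_lit 36) (nat_lit 5) (nat_lit 372) (nat_lit 280) (nat_lit 128)) (XT.lf (nat_lit 0) (nat_lit 7150830308) (nat_lit 152) (nat_lit 17685995805) (nat_lit 228) (nat_lit 18346055331) (nat_lit 33) (nat_lit 5) (nat_lit 35) (nat_lit 5) (nat_lit 36) (nat_lit 5) (nat_lit 373) (nat_lit 280) (nat_lit 127))) (XT.nd (nat_lit 78) (nat_lit 0) (nat_lit 0) (XT.lf (nat_lit 0) (nat_lit 24371072885) (nat_lit 152) (nat_lit 8334171299) (nat_lit 228) (nat_lit 11480093514) (nat_lit 33) (nat_lit 5) (nat_lit 35) (nat_lit 5) (nat_lit 36) (nat_lit 5) (nat_lit 374) (nat_lit 280) (nat_lit 126)) (XT.lf (nat_lit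 0) (nat_lit 40816227556) (nat_lit 228) (nat_lit 3132910766) (nat_lit 76) (nat_lit 1268536021) (nat_lit 33) (nat_lit 5) (nat_lit 36) (nat_lit 5) (nat_lit 34) (nat_lit 4) (nat_lit 375) (nat_lit 280) (nat_lit 125))))))))
noncomputable def xc154 : XT := (XT.nd (nat_lit 2184) (nat_lit 228) (nat_lit 0) (XT.nd (nat_lit 1092) (nat_lit 456) (nat_lit 0) (XT.nd (nat_lit 546) (nat_lit 304) (nat_lit 0) (XT.nd (nat_lit 234) (nat_lit 152) (nat_lit 0) (XT.nd (nat_lit 78) (nat_lit 152) (nat_lit 0) (XT.lf (nat_lit 0) (nat_lit 3048835260) (nat_lit 152) (nat_lit 32070525614) (nat_lit 76) (nat_lit 11154319044) (nat_lit 31) (nat_lit 5) (nat_lit 33) (nat_lit 5) (nat_lit 32) (nat_lit 5) (nat_lit 376) (nat_lit 280) (nat_lit 124)) (XT.nd (nat_lit 78) (nat_lit 152) (nat_lit 0) (XT.lf (nat_lit 0) (nat_lit 10660331140) (nat_lit 152) (nat_lit 15290983930) (nat_lit 76) (nat_lit 21407960037) (nat_lit 31) (nat_lit 5) (nat_lit 33)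 (nat_lit 5) (nat_lit 32) (nat_lit 5) (nat_lit 377) (nat_lit 280) (nat_lit 123)) (XT.lf (nat_lit 0) (nat_lit 2021489207) (nat_lit 152) (nat_lit 16492503418) (nat_lit 228) (nat_lit 29963032757) (nat_lit 29) (nat_lit 5) (nat_lit 31) (nat_lit 5) (nat_lit 32) (nat_lit 5) (nat_lit 378) (nat_lit 280) (nat_lit 122)))) (XT.nd (nat_lit 156) (nat_lit 152) (nat_lit 0) (XT.nd (nat_lit 78) (nat_lit 0) (nat_lit 0) (XT.lf (nat_lit 0) (nat_lit 20156982456) (nat_lit 152) (nat_lit 6595148575) (nat_lit 228) (nat_lit 22871712920) (nat_lit 29) (nat_lit 5) (nat_lit 31) (nat_lit 5) (nat_lit 32) (nat_lit 5) (nat_lit 379) (nat_lit 280) (nat_lit 121)) (XT.lf (nat_lit 0) (nat_lit 35266590358) (nat_lit 228) (nat_lit 12012765667) (nat_lit 76) (nat_lit 3524837498) (nat_lit 29) (nat_lit 5) (nat_lit 32) (nat_lit 5) (nat_lit 30) (nat_lit 4) (nat_lit 380) (nat_lit 280) (nat_lit 120))) (XT.nd (nat_lit 78) (nat_lit 76) (nat_lit 0)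 (XT.lf (nat_lit 0) (nat_lit 6007521677) (nat_lit 76) (nat_lit 38146745888) (nat_lit 152) (nat_lit 7862154189) (nat_lit 28) (nat_lit 5) (nat_lit 29) (nat_lit 5) (nat_lit 30) (nat_lit 4) (nat_lit 381) (nat_lit 280) (nat_lit 119)) (XT.lf (nat_lit 0) (nat_lit 159963415) (nat_lit 152) (nat_lit 28457705439) (nat_lit 76) (nat_lit 24643819361) (nat_lit 27) (nat_lit 5) (nat_lit 29) (nat_lit 5) (nat_lit 28) (nat_lit 5) (nat_lit 382) (nat_lit 280) (nat_lit 118))))) (XT.nd (nat_lit 234) (nat_lit 152) (nat_lit 0) (XT.nd (nat_lit 78) (nat_lit 152) (nat_lit 0) (XT.lf (nat_lit 0) (nat_lit 8259624699) (nat_lit 152) (nat_lit 10466920574) (nat_lit 76) (nat_lit 35815180606) (nat_lit 27) (nat_lit 5) (nat_lit 29) (nat_lit 5) (nat_lit 28) (nat_lit 5) (nat_lit 383) (nat_lit 280) (nat_lit 117)) (XT.nd (nat_lit 78) (nat_lit 0) (nat_lit 0) (XT.lf (nat_lit 0) (nat_lit 8215055784) (nat_lit 152) (nat_lit 8461238339) (nat_lit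 228) (nat_lit 39181857506) (nat_lit 25) (nat_lit 5) (nat_lit 27) (nat_lit 5) (nat_lit 28) (nat_lit 5) (nat_lit 384) (nat_lit 280) (nat_lit 116)) (XT.lf (nat_lit 0) (nat_lit 25467580698) (nat_lit 228) (nat_lit 29569056624) (nat_lit 76) (nat_lit 2173770784) (nat_lit 25) (nat_lit 5) (nat_lit 28) (nat_lit 5) (nat_lit 26) (nat_lit 4) (nat_lit 385) (nat_lit 280) (nat_lit 115)))) (XT.nd (nat_lit 156) (nat_lit 76) (nat_lit 0) (XT.nd (nat_lit 78) (nat_lit 76) (nat_lit 0) (XT.lf (nat_lit 0) (nat_lit 34601597107) (nat_lit 228) (nat_lit 11045174533) (nat_lit 76) (nat_lit 12954092317) (nat_lit 25) (nat_lit 5) (nat_lit 28) (nat_lit 5) (nat_lit 26) (nat_lit 4) (nat_lit 386) (nat_lit 280) (nat_lit 114)) (XT.lf (nat_lit 0) (nat_lit 8185805489) (nat_lit 76) (nat_lit 35897871413) (nat_lit 152) (nat_lit 15947136676) (nat_lit 24) (nat_lit 5) (nat_lit 25) (nat_lit 5) (nat_lit 26) (nat_lit 4) (nat_lit 387) (nat_lit 280)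 (nat_lit 113))) (XT.nd (nat_lit 78) (nat_lit 76) (nat_lit 0) (XT.lf (nat_lit 0) (nat_lit 28211858975) (nat_lit 76) (nat_lit 25745306401) (nat_lit 152) (nat_lit 7543289259) (nat_lit 24) (nat_lit 5) (nat_lit 25) (nat_lit 5) (nat_lit 26) (nat_lit 4) (nat_lit 388) (nat_lit 280) (nat_lit 112)) (XT.lf (nat_lit 0) (nat_lit 1086461250) (nat_lit 152) (nat_lit 14194307660) (nat_lit 76) (nat_lit 47733231410) (nat_lit 23) (nat_lit 5) (nat_lit 25) (nat_lit 5) (nat_lit 24) (nat_lit 5) (nat_lit 389) (nat_lit 280) (nat_lit 111)))))) (XT.nd (nat_lit 546) (nat_lit 228) (nat_lit 0) (XT.nd (nat_lit 234) (nat_lit 76) (nat_lit 0) (XT.nd (nat_lit 78) (nat_lit 0) (nat_lit 0) (XT.lf (nat_lit 0) (nat_lit 5497514698) (nat_lit 152) (nat_lit 4374453416) (nat_lit 228) (nat_lit 54697290609) (nat_lit 21) (nat_lit 5) (nat_lit 23) (nat_lit 5) (nat_lit 24) (nat_lit 5) (nat_lit 390) (nat_lit 280) (nat_lit 110)) (XT.nd (nat_lit 78)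 (nat_lit 0) (nat_lit 0) (XT.lf (nat_lit 0) (nat_lit 19127377076) (nat_lit 228) (nat_lit 40171070679) (nat_lit 76) (nat_lit 6866538206) (nat_lit 21) (nat_lit 5) (nat_lit 24) (nat_lit 5) (nat_lit 22) (nat_lit 4) (nat_lit 391) (nat_lit 280) (nat_lit 109)) (XT.lf (nat_lit 0) (nat_lit 28699536097) (nat_lit 228) (nat_lit 20754362730) (nat_lit 76) (nat_lit 18353514710) (nat_lit 21) (nat_lit 5) (nat_lit 24) (nat_lit 5) (nat_lit 22) (nat_lit 4) (nat_lit 392) (nat_lit 280) (nat_lit 108)))) (XT.nd (nat_lit 156) (nat_lit 0) (nat_lit 0) (XT.nd (nat_lit 78) (nat_lit 76) (nat_lit 0) (XT.lf (nat_lit 0) (nat_lit 38554759278) (nat_lit 228) (nat_lit 762604202) (nat_lit 76) (nat_lit 30181874601) (nat_lit 21) (nat_lit 5) (nat_lit 24) (nat_lit 5) (nat_lit 22) (nat_lit 4) (nat_lit 393) (nat_lit 280) (nat_lit 107)) (XT.lf (nat_lit 0) (nat_lit 20216163598) (nat_lit 76) (nat_lit 28679824511) (nat_lit 152) (nat_lit 22340119871)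 (nat_lit 20) (nat_lit 5) (nat_lit 21) (nat_lit 5) (nat_lit 22) (nat_lit 4) (nat_lit 394) (nat_lit 280) (nat_lit 106))) (XT.nd (nat_lit 78) (nat_lit 0) (nat_lit 0) (XT.lf (nat_lit 0) (nat_lit 41832764341) (nat_lit 76) (nat_lit 17718456200) (nat_lit 152) (nat_lit 13473751490) (nat_lit 20) (nat_lit 5) (nat_lit 21) (nat_lit 5) (nat_lit 22) (nat_lit 4) (nat_lit 395) (nat_lit 280) (nat_lit 105)) (XT.lf (nat_lit 0) (nat_lit 64090908999) (nat_lit 76) (nat_lit 6431381461) (nat_lit 152) (nat_lit 4345327156) (nat_lit 20) (nat_lit 5) (nat_lit 21) (nat_lit 5) (nat_lit 22) (nat_lit 4) (nat_lit 396) (nat_lit 280) (nat_lit 104))))) (XT.nd (nat_lit 234) (nat_lit 76) (nat_lit 0) (XT.nd (nat_lit 78) (nat_lit 0) (nat_lit 0) (XT.lf (nat_lit 0) (nat_lit 5105855876) (nat_lit 152) (nat_lit 66413836418) (nat_lit 76) (nat_lit 5239965366) (nat_lit 18) (nat_lit 5) (nat_lit 20) (nat_lit 5) (nat_lit 19) (nat_lit 4) (nat_lit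 397) (nat_lit 280) (nat_lit 103)) (XT.nd (nat_lit 78) (nat_lit 0) (nat_lit 0) (XT.lf (nat_lit 0) (nat_lit 14923084551) (nat_lit 152) (nat_lit 46496875527) (nat_lit 76) (nat_lit 17282113670) (nat_lit 18) (nat_lit 5) (nat_lit 20) (nat_lit 5) (nat_lit 19) (nat_lit 4) (nat_lit 398) (nat_lit 280) (nat_lit 102)) (XT.lf (nat_lit 0) (nat_lit 25031207553) (nat_lit 152) (nat_lit 25989049247) (nat_lit 76) (nat_lit 29682615104) (nat_lit 18) (nat_lit 5) (nat_lit 20) (nat_lit 5) (nat_lit 19) (nat_lit 4) (nat_lit 399) (nat_lit 280) (nat_lit 101)))) (XT.nd (nat_lit 156) (nat_lit 0) (nat_lit 0) (XT.nd (nat_lit 78) (nat_lit 76) (nat_lit 0) (XT.lf (nat_lit 0) (nat_lit 35439057223) (nat_lit 152) (nat_lit 4872438121) (nat_lit 76) (nat_lit 42452305057) (nat_lit 18) (nat_lit 5) (nat_lit 20) (nat_lit 5) (nat_lit 19) (nat_lit 4) (nat_lit 400) (nat_lit 280) (nat_lit 100)) (XT.lf (nat_lit 0) (nat_lit 17207183386) (nat_lit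 76) (nat_lit 29113950386) (nat_lit 152) (nat_lit 38560564100) (nat_lit 17) (nat_lit 5) (nat_lit 18) (nat_lit 5) (nat_lit 19) (nat_lit 4) (nat_lit 401) (nat_lit 280) (nat_lit 99))) (XT.nd (nat_lit 78) (nat_lit 0) (nat_lit 0) (XT.lf (nat_lit 0) (nat_lit 40042873057) (nat_lit 76) (nat_lit 17532626895) (nat_lit 152) (nat_lit 29486258326) (nat_lit 17) (nat_lit 5) (nat_lit 18) (nat_lit 5) (nat_lit 19) (nat_lit 4) (nat_lit 402) (nat_lit 280) (nat_lit 98)) (XT.lf (nat_lit 0) (nat_lit 63557613336) (nat_lit 76) (nat_lit 5606607342) (nat_lit 152) (nat_lit 20143098925) (nat_lit 17) (nat_lit 5) (nat_lit 18) (nat_lit 5) (nat_lit 19) (nat_lit 4) (nat_lit 403) (nat_lit 280) (nat_lit 97))))))) (XT.nd (nat_lit 31512) (nat_lit 0) (nat_lit 13908) (XT.nd (nat_lit 546) (nat_lit 0) (nat_lit 0) (XT.nd (nat_lit 234) (nat_lit 76) (nat_lit 0) (XT.nd (nat_lit 78) (nat_lit 152) (nat_lit 0) (XT.lf (nat_lit 0) (nat_lit 81161581669)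 (nat_lit 152) (nat_lit 3912552557) (nat_lit 0) (nat_lit 6544284966) (nat_lit 17) (nat_lit 5) (nat_lit 19) (nat_lit 4) (nat_lit 17) (nat_lit 4) (nat_lit 404) (nat_lit 280) (nat_lit 96)) (XT.nd (nat_lit 78) (nat_lit 76) (nat_lit 0) (XT.lf (nat_lit 0) (nat_lit 18887015438) (nat_lit 76) (nat_lit 74865799342) (nat_lit 76) (nat_lit 239019215) (nat_lit 16) (nat_lit 4) (nat_lit 17) (nat_lit 5) (nat_lit 17) (nat_lit 4) (nat_lit 405) (nat_lit 280) (nat_lit 95)) (XT.lf (nat_lit 0) (nat_lit 10121421622) (nat_lit 152) (nat_lit 54089501441) (nat_lit 76) (nat_lit 32221459075) (nat_lit 15) (nat_lit 5) (nat_lit 17) (nat_lit 5) (nat_lit 16) (nat_lit 4) (nat_lit 406) (nat_lit 280) (nat_lit 94)))) (XT.nd (nat_lit 156) (nat_lit 76) (nat_lit 0) (XT.nd (nat_lit 78) (nat_lit 0) (nat_lit 0) (XT.lf (nat_lit 0) (nat_lit 20784853768) (nat_lit 152) (nat_lit 32451673220) (nat_lit 76) (nat_lit 45709639975) (nat_lit 15) (nat_lit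 5) (nat_lit 17) (nat_lit 5) (nat_lit 16) (nat_lit 4) (nat_lit 407) (nat_lit 280) (nat_lit 93)) (XT.lf (nat_lit 0) (nat_lit 31765258911) (nat_lit 152) (nat_lit 10170129455) (nat_lit 76) (nat_lit 59600065544) (nat_lit 15) (nat_lit 5) (nat_lit 17) (nat_lit 5) (nat_lit 16) (nat_lit 4) (nat_lit 408) (nat_lit 280) (nat_lit 92))) (XT.nd (nat_lit 78) (nat_lit 0) (nat_lit 0) (XT.lf (nat_lit 0) (nat_lit 13028838733) (nat_lit 76) (nat_lit 30168634014) (nat_lit 152) (nat_lit 61001275482) (nat_lit 14) (nat_lit 5) (nat_lit 15) (nat_lit 5) (nat_lit 16) (nat_lit 4) (nat_lit 409) (nat_lit 280) (nat_lit 91)) (XT.lf (nat_lit 0) (nat_lit 37127043775) (nat_lit 76) (nat_lit 17945495734) (nat_lit 152) (nat_lit 51866405912) (nat_lit 14) (nat_lit 5) (nat_lit 15) (nat_lit 5) (nat_lit 16) (nat_lit 4) (nat_lit 410) (nat_lit 280) (nat_lit 90))))) (XT.nd (nat_lit 30654) (nat_lit 0) (nat_lit 16872) (XT.nd (nat_lit 30498) (nat_lit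 0) (nat_lit 17784) (XT.lf (nat_lit 0) (nat_lit 61943136835) (nat_lit 76) (nat_lit 5357991481) (nat_lit 152) (nat_lit 42460302733) (nat_lit 14) (nat_lit 5) (nat_lit 15) (nat_lit 5) (nat_lit 16) (nat_lit 4) (nat_lit 411) (nat_lit 280) (nat_lit 89)) (XT.nd (nat_lit 78) (nat_lit 0) (nat_lit 0) (XT.lf (nat_lit 0) (nat_lit 2672973918) (nat_lit 988) (nat_lit 750162134) (nat_lit 988) (nat_lit 750162134) (nat_lit 248) (nat_lit 3) (nat_lit 261) (nat_lit 3) (nat_lit 261) (nat_lit 5) (nat_lit 281) (nat_lit 281) (nat_lit 218)) (XT.lf (nat_lit 76) (nat_lit 2410773359) (nat_lit 0) (nat_lit 4067903530) (nat_lit 988) (nat_lit 1960315797) (nat_lit 249) (nat_lit 5) (nat_lit 248) (nat_lit 3) (nat_lit 261) (nat_lit 5) (nat_lit 282) (nat_lit 281) (nat_lit 217)))) (XT.nd (nat_lit 156) (nat_lit 0) (nat_lit 0) (XT.nd (nat_lit 78) (nat_lit 912) (nat_lit 0) (XT.lf (nat_lit 76) (nat_lit 6448833689) (nat_lit 0) (nat_lit 1171328109)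 (nat_lit 988) (nat_lit 914803735) (nat_lit 249) (nat_lit 5) (nat_lit 248) (nat_lit 3) (nat_lit 261) (nat_lit 5) (nat_lit 283) (nat_lit 281) (nat_lit 216)) (XT.lf (nat_lit 0) (nat_lit 156207670) (nat_lit 988) (nat_lit 6662079823) (nat_lit 1064) (nat_lit 1815609553) (nat_lit 236) (nat_lit 5) (nat_lit 249) (nat_lit 5) (nat_lit 250) (nat_lit 5) (nat_lit 284) (nat_lit 281) (nat_lit 215))) (XT.nd (nat_lit 78) (nat_lit 0) (nat_lit 0) (XT.lf (nat_lit 0) (nat_lit 1235320379) (nat_lit 988) (nat_lit 2584267176) (nat_lit 1064) (nat_lit 4916150300) (nat_lit 236) (nat_lit 5) (nat_lit 249) (nat_lit 5) (nat_lit 250) (nat_lit 5) (nat_lit 285) (nat_lit 281) (nat_lit 214)) (XT.lf (nat_lit 76) (nat_lit 1625751966) (nat_lit 0) (nat_lit 699289884) (nat_lit 1064) (nat_lit 6516287503) (nat_lit 237) (nat_lit 5) (nat_lit 236) (nat_lit 5) (nat_lit 250) (nat_lit 5) (nat_lit 286) (nat_lit 281) (nat_lit 213)))))) (XT.nd (nat_lit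 546) (nat_lit 2128) (nat_lit 0) (XT.nd (nat_lit 234) (nat_lit 912) (nat_lit 0) (XT.nd (nat_lit 78) (nat_lit 0) (nat_lit 0) (XT.lf (nat_lit 0) (nat_lit 3461613139) (nat_lit 988) (nat_lit 2981607019) (nat_lit 1064) (nat_lit 2506484981) (nat_lit 237) (nat_lit 5) (nat_lit 250) (nat_lit 5) (nat_lit 251) (nat_lit 5) (nat_lit 287) (nat_lit 281) (nat_lit 212)) (XT.nd (nat_lit 78) (nat_lit 0) (nat_lit 76) (XT.lf (nat_lit 76) (nat_lit 1377080579) (nat_lit 0) (nat_lit 3240052991) (nat_lit 1064) (nat_lit 4444693155) (nat_lit 238) (nat_lit 5) (nat_lit 237) (nat_lit 5) (nat_lit 251) (nat_lit 5) (nat_lit 288) (nat_lit 281) (nat_lit 211)) (XT.lf (nat_lit 0) (nat_lit 5803922668) (nat_lit 988) (nat_lit 3272852487) (nat_lit 1064) (nat_lit 100677629) (nat_lit 238) (nat_lit 5) (nat_lit 251) (nat_lit 5) (nat_lit 252) (nat_lit 5) (nat_lit 289) (nat_lit 281) (nat_lit 210)))) (XT.nd (nat_lit 156) (nat_lit 988) (nat_lit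 0) (XT.nd (nat_lit 78) (nat_lit 0) (nat_lit 0) (XT.lf (nat_lit 76) (nat_lit 1240985462) (nat_lit 0) (nat_lit 5795967376) (nat_lit 1064) (nat_lit 2259313449) (nat_lit 239) (nat_lit 5) (nat_lit 238) (nat_lit 5) (nat_lit 252) (nat_lit 5) (nat_lit 290) (nat_lit 281) (nat_lit 209)) (XT.lf (nat_lit 76) (nat_lit 5935001002) (nat_lit 0) (nat_lit 2372408215) (nat_lit 1064) (nat_lit 1111258605) (nat_lit 239) (nat_lit 5) (nat_lit 238) (nat_lit 5) (nat_lit 252) (nat_lit 5) (nat_lit 291) (nat_lit 281) (nat_lit 208))) (XT.nd (nat_lit 78) (nat_lit 0) (nat_lit 0) (XT.lf (nat_lit 0) (nat_lit 60928043) (nat_lit 1064) (nat_lit 8330685181) (nat_lit 1140) (nat_lit 1153409805) (nat_lit 225) (nat_lit 5) (nat_lit 239) (nat_lit 5) (nat_lit 240) (nat_lit 5) (nat_lit 292) (nat_lit 281) (nat_lit 207)) (XT.lf (nat_lit 0) (nat_lit 1273755951) (nat_lit 1064) (nat_lit 3607449695) (nat_lit 1140) (nat_lit 4792832415) (nat_lit 225)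 (nat_lit 5) (nat_lit 239) (nat_lit 5) (nat_lit 240) (nat_lit 5) (nat_lit 293) (nat_lit 281) (nat_lit 206))))) (XT.nd (nat_lit 312) (nat_lit 2128) (nat_lit 0) (XT.nd (nat_lit 156) (nat_lit 0) (nat_lit 76) (XT.nd (nat_lit 78) (nat_lit 0) (nat_lit 76) (XT.lf (nat_lit 76) (nat_lit 1259546078) (nat_lit 0) (nat_lit 1245234188) (nat_lit 1140) (nat_lit 7302721523) (nat_lit 226) (nat_lit 5) (nat_lit 225) (nat_lit 5) (nat_lit 240) (nat_lit 5) (nat_lit 294) (nat_lit 281) (nat_lit 205)) (XT.lf (nat_lit 0) (nat_lit 3803996559) (nat_lit 1064) (nat_lit 3645051414) (nat_lit 1140) (nat_lit 2495015264) (nat_lit 226) (nat_lit 5) (nat_lit 240) (nat_lit 5) (nat_lit 241) (nat_lit 5) (nat_lit 295) (nat_lit 281) (nat_lit 204))) (XT.nd (nat_lit 78) (nat_lit 0) (nat_lit 76) (XT.lf (nat_lit 76) (nat_lit 1397269640) (nat_lit 0) (nat_lit 3741983693) (nat_lit 1140) (nat_lit 4945586997) (nat_lit 227) (nat_lit 5) (nat_lit 226)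 (nat_lit 5) (nat_lit 241) (nat_lit 5) (nat_lit 296) (nat_lit 281) (nat_lit 203)) (XT.lf (nat_lit 0) (nat_lit 6524452356) (nat_lit 1064) (nat_lit 3587566246) (nat_lit 76) (nat_lit 117555425) (nat_lit 227) (nat_lit 5) (nat_lit 241) (nat_lit 5) (nat_lit 228) (nat_lit 5) (nat_lit 297) (nat_lit 281) (nat_lit 202)))) (XT.nd (nat_lit 156) (nat_lit 1216) (nat_lit 0) (XT.nd (nat_lit 78) (nat_lit 0) (nat_lit 0) (XT.lf (nat_lit 0) (nat_lit 1637713424) (nat_lit 1064) (nat_lit 6339080989) (nat_lit 1140) (nat_lit 2401116669) (nat_lit 213) (nat_lit 5) (nat_lit 227) (nat_lit 5) (nat_lit 228) (nat_lit 5) (nat_lit 298) (nat_lit 281) (nat_lit 201)) (XT.lf (nat_lit 0) (nat_lit 7070881721) (nat_lit 1064) (nat_lit 2411424360) (nat_lit 1140) (nat_lit 1048132303) (nat_lit 213) (nat_lit 5) (nat_lit 227) (nat_lit 5) (nat_lit 228) (nat_lit 5) (nat_lit 299) (nat_lit 281) (nat_lit 200))) (XT.nd (nat_lit 78) (nat_lit 0) (nat_lit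 0) (XT.lf (nat_lit 0) (nat_lit 347688214) (nat_lit 1216) (nat_lit 8710881007) (nat_lit 76) (nat_lit 1628629543) (nat_lit 197) (nat_lit 5) (nat_lit 213) (nat_lit 5) (nat_lit 198) (nat_lit 5) (nat_lit 300) (nat_lit 281) (nat_lit 199)) (XT.lf (nat_lit 0) (nat_lit 1797920402) (nat_lit 1216) (nat_lit 3258940429) (nat_lit 76) (nat_lit 5790507425) (nat_lit 197) (nat_lit 5) (nat_lit 213) (nat_lit 5) (nat_lit 198) (nat_lit 5) (nat_lit 301) (nat_lit 281) (nat_lit 198))))))))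
noncomputable def xc155 : XT := (XT.nd (nat_lit 2184) (nat_lit 3724) (nat_lit 0) (XT.nd (nat_lit 1092) (nat_lit 2812) (nat_lit 0) (XT.nd (nat_lit 546) (nat_lit 2052) (nat_lit 0) (XT.nd (nat_lit 234) (nat_lit 1140) (nat_lit 0) (XT.nd (nat_lit 78) (nat_lit 608) (nat_lit 0) (XT.lf (nat_lit 0) (nat_lit 2380769618) (nat_lit 760) (nat_lit 908966962) (nat_lit 836) (nat_lit 7722688921) (nat_lit 187) (nat_lit 5) (nat_lit 197) (nat_lit 5) (nat_lit 198) (nat_lit 5) (nat_lit 302) (nat_lit 281) (nat_lit 197)) (XT.nd (nat_lit 78) (nat_lit 608) (nat_lit 0) (XT.lf (nat_lit 0) (nat_lit 4867596950) (nat_lit 836) (nat_lit 2980430718) (nat_lit 76) (nat_lit 3333192357) (nat_lit 187) (nat_lit 5) (nat_lit 198) (nat_lit 5) (nat_lit 188) (nat_lit 5) (nat_lit 303) (nat_lit 281) (nat_lit 196)) (XT.lf (nat_lit 0) (nat_lit 2865101103) (nat_lit 608) (nat_lit 3640664120) (nat_lit 684) (nat_lit 4848947546) (nat_lit 179) (nat_lit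 5) (nat_lit 187) (nat_lit 5) (nat_lit 188) (nat_lit 5) (nat_lit 304) (nat_lit 281) (nat_lit 195)))) (XT.nd (nat_lit 156) (nat_lit 608) (nat_lit 0) (XT.nd (nat_lit 78) (nat_lit 532) (nat_lit 0) (XT.lf (nat_lit 0) (nat_lit 8207052125) (nat_lit 684) (nat_lit 2615020096) (nat_lit 76) (nat_lit 710941726) (nat_lit 179) (nat_lit 5) (nat_lit 188) (nat_lit 5) (nat_lit 180) (nat_lit 5) (nat_lit 305) (nat_lit 281) (nat_lit 194)) (XT.lf (nat_lit 0) (nat_lit 3444998312) (nat_lit 532) (nat_lit 6561131528) (nat_lit 608) (nat_lit 1709153950) (nat_lit 172) (nat_lit 5) (nat_lit 179) (nat_lit 5) (nat_lit 180) (nat_lit 5) (nat_lit 306) (nat_lit 281) (nat_lit 193))) (XT.nd (nat_lit 78) (nat_lit 608) (nat_lit 0) (XT.lf (nat_lit 0) (nat_lit 9718649146) (nat_lit 532) (nat_lit 2144971313) (nat_lit 608) (nat_lit 39289598) (nat_lit 172) (nat_lit 5) (nat_lit 179) (nat_lit 5) (nat_lit 180) (nat_lit 5) (nat_lit 307) (nat_lit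 281) (nat_lit 192)) (XT.lf (nat_lit 0) (nat_lit 1689647456) (nat_lit 608) (nat_lit 7991679974) (nat_lit 76) (nat_lit 2413120144) (nat_lit 164) (nat_lit 5) (nat_lit 172) (nat_lit 5) (nat_lit 165) (nat_lit 5) (nat_lit 308) (nat_lit 281) (nat_lit 191))))) (XT.nd (nat_lit 234) (nat_lit 1520) (nat_lit 0) (XT.nd (nat_lit 78) (nat_lit 532) (nat_lit 0) (XT.lf (nat_lit 0) (nat_lit 3492037626) (nat_lit 608) (nat_lit 1711760528) (nat_lit 76) (nat_lit 7087269871) (nat_lit 164) (nat_lit 5) (nat_lit 172) (nat_lit 5) (nat_lit 165) (nat_lit 5) (nat_lit 309) (nat_lit 281) (nat_lit 190)) (XT.nd (nat_lit 78) (nat_lit 0) (nat_lit 0) (XT.lf (nat_lit 0) (nat_lit 4829408808) (nat_lit 532) (nat_lit 544991799) (nat_lit 608) (nat_lit 7118428595) (nat_lit 157) (nat_lit 5) (nat_lit 164) (nat_lit 5) (nat_lit 165) (nat_lit 5) (nat_lit 310) (nat_lit 281) (nat_lit 189)) (XT.lf (nat_lit 0) (nat_lit 7351440998) (nat_lit 608) (nat_lit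 1161070678) (nat_lit 76) (nat_lit 4187003930) (nat_lit 157) (nat_lit 5) (nat_lit 165) (nat_lit 5) (nat_lit 158) (nat_lit 5) (nat_lit 311) (nat_lit 281) (nat_lit 188)))) (XT.nd (nat_lit 156) (nat_lit 988) (nat_lit 0) (XT.nd (nat_lit 78) (nat_lit 0) (nat_lit 0) (XT.lf (nat_lit 0) (nat_lit 5619454495) (nat_lit 532) (nat_lit 3808200194) (nat_lit 608) (nat_lit 3483570096) (nat_lit 150) (nat_lit 5) (nat_lit 157) (nat_lit 5) (nat_lit 158) (nat_lit 5) (nat_lit 312) (nat_lit 281) (nat_lit 187)) (XT.lf (nat_lit 0) (nat_lit 11568765647) (nat_lit 608) (nat_lit 533347483) (nat_lit 76) (nat_lit 1027111305) (nat_lit 150) (nat_lit 5) (nat_lit 158) (nat_lit 5) (nat_lit 151) (nat_lit 5) (nat_lit 313) (nat_lit 281) (nat_lit 186))) (XT.nd (nat_lit 78) (nat_lit 456) (nat_lit 0) (XT.lf (nat_lit 0) (nat_lit 494440943) (nat_lit 532) (nat_lit 6860196817) (nat_lit 76) (nat_lit 5996552684) (nat_lit 143) (nat_lit 5) (nat_lit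 150) (nat_lit 5) (nat_lit 144) (nat_lit 5) (nat_lit 314) (nat_lit 281) (nat_lit 185)) (XT.lf (nat_lit 0) (nat_lit 123168379) (nat_lit 456) (nat_lit 2444584236) (nat_lit 532) (nat_lit 11011971491) (nat_lit 137) (nat_lit 5) (nat_lit 143) (nat_lit 5) (nat_lit 144) (nat_lit 5) (nat_lit 315) (nat_lit 281) (nat_lit 184)))))) (XT.nd (nat_lit 546) (nat_lit 1520) (nat_lit 0) (XT.nd (nat_lit 234) (nat_lit 912) (nat_lit 0) (XT.nd (nat_lit 78) (nat_lit 380) (nat_lit 0) (XT.lf (nat_lit 0) (nat_lit 4780157165) (nat_lit 532) (nat_lit 6403578572) (nat_lit 76) (nat_lit 2629086800) (nat_lit 137) (nat_lit 5) (nat_lit 144) (nat_lit 5) (nat_lit 138) (nat_lit 5) (nat_lit 316) (nat_lit 281) (nat_lit 183)) (XT.nd (nat_lit 78) (nat_lit 0) (nat_lit 0) (XT.lf (nat_lit 0) (nat_lit 832244142) (nat_lit 380) (nat_lit 6241240693) (nat_lit 456) (nat_lit 6979007672) (nat_lit 132) (nat_lit 5) (nat_lit 137) (nat_lit 5) (nat_lit 138)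 (nat_lit 5) (nat_lit 317) (nat_lit 281) (nat_lit 182)) (XT.lf (nat_lit 0) (nat_lit 8395832314) (nat_lit 380) (nat_lit 1087107116) (nat_lit 456) (nat_lit 4815008005) (nat_lit 132) (nat_lit 5) (nat_lit 137) (nat_lit 5) (nat_lit 138) (nat_lit 5) (nat_lit 318) (nat_lit 281) (nat_lit 181)))) (XT.nd (nat_lit 156) (nat_lit 456) (nat_lit 0) (XT.nd (nat_lit 78) (nat_lit 0) (nat_lit 0) (XT.lf (nat_lit 0) (nat_lit 1605851018) (nat_lit 456) (nat_lit 10397982374) (nat_lit 532) (nat_lit 2545772194) (nat_lit 126) (nat_lit 5) (nat_lit 132) (nat_lit 5) (nat_lit 133) (nat_lit 5) (nat_lit 319) (nat_lit 281) (nat_lit 180)) (XT.lf (nat_lit 0) (nat_lit 9428800760) (nat_lit 456) (nat_lit 5225245651) (nat_lit 532) (nat_lit 153170134) (nat_lit 126) (nat_lit 5) (nat_lit 132) (nat_lit 5) (nat_lit 133) (nat_lit 5) (nat_lit 320) (nat_lit 281) (nat_lit 179))) (XT.nd (nat_lit 78) (nat_lit 0) (nat_lit 0) (XT.lf (nat_lit 0) (nat_lit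 2274507126) (nat_lit 456) (nat_lit 12654238140) (nat_lit 76) (nat_lit 142905184) (nat_lit 120) (nat_lit 5) (nat_lit 126) (nat_lit 5) (nat_lit 121) (nat_lit 5) (nat_lit 321) (nat_lit 281) (nat_lit 178)) (XT.lf (nat_lit 0) (nat_lit 4862511093) (nat_lit 456) (nat_lit 4859080209) (nat_lit 76) (nat_lit 5619675984) (nat_lit 120) (nat_lit 5) (nat_lit 126) (nat_lit 5) (nat_lit 121) (nat_lit 5) (nat_lit 322) (nat_lit 281) (nat_lit 177))))) (XT.nd (nat_lit 234) (nat_lit 760) (nat_lit 0) (XT.nd (nat_lit 78) (nat_lit 380) (nat_lit 0) (XT.lf (nat_lit 0) (nat_lit 3212948759) (nat_lit 380) (nat_lit 4330548200) (nat_lit 456) (nat_lit 8075027703) (nat_lit 115) (nat_lit 5) (nat_lit 120) (nat_lit 5) (nat_lit 121) (nat_lit 5) (nat_lit 323) (nat_lit 281) (nat_lit 176)) (XT.nd (nat_lit 78) (nat_lit 380) (nat_lit 0) (XT.lf (nat_lit 0) (nat_lit 10350896062) (nat_lit 456) (nat_lit 4308034128) (nat_lit 76) (nat_lit 1243801990)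 (nat_lit 115) (nat_lit 5) (nat_lit 121) (nat_lit 5) (nat_lit 116) (nat_lit 5) (nat_lit 324) (nat_lit 281) (nat_lit 175)) (XT.lf (nat_lit 0) (nat_lit 4049235697) (nat_lit 380) (nat_lit 9260209924) (nat_lit 456) (nat_lit 2884024032) (nat_lit 110) (nat_lit 5) (nat_lit 115) (nat_lit 5) (nat_lit 116) (nat_lit 5) (nat_lit 325) (nat_lit 281) (nat_lit 174)))) (XT.nd (nat_lit 156) (nat_lit 304) (nat_lit 0) (XT.nd (nat_lit 78) (nat_lit 456) (nat_lit 0) (XT.lf (nat_lit 0) (nat_lit 12726387008) (nat_lit 380) (nat_lit 3659244504) (nat_lit 456) (nat_lit 106442587) (nat_lit 110) (nat_lit 5) (nat_lit 115) (nat_lit 5) (nat_lit 116) (nat_lit 5) (nat_lit 326) (nat_lit 281) (nat_lit 173)) (XT.lf (nat_lit 0) (nat_lit 2754578689) (nat_lit 456) (nat_lit 11904074968) (nat_lit 76) (nat_lit 2138583435) (nat_lit 104) (nat_lit 5) (nat_lit 110) (nat_lit 5) (nat_lit 105) (nat_lit 5) (nat_lit 327) (nat_lit 281) (nat_lit 172)))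 (XT.nd (nat_lit 78) (nat_lit 304) (nat_lit 0) (XT.lf (nat_lit 0) (nat_lit 5759769721) (nat_lit 456) (nat_lit 3278194886) (nat_lit 76) (nat_lit 8071754689) (nat_lit 104) (nat_lit 5) (nat_lit 110) (nat_lit 5) (nat_lit 105) (nat_lit 5) (nat_lit 328) (nat_lit 281) (nat_lit 171)) (XT.lf (nat_lit 0) (nat_lit 5699138455) (nat_lit 304) (nat_lit 3197019702) (nat_lit 380) (nat_lit 8534196549) (nat_lit 100) (nat_lit 5) (nat_lit 104) (nat_lit 5) (nat_lit 105) (nat_lit 5) (nat_lit 329) (nat_lit 281) (nat_lit 170))))))) (XT.nd (nat_lit 1092) (nat_lit 1596) (nat_lit 0) (XT.nd (nat_lit 546) (nat_lit 1140) (nat_lit 0) (XT.nd (nat_lit 234) (nat_lit 608) (nat_lit 0) (XT.nd (nat_lit 78) (nat_lit 380) (nat_lit 0) (XT.lf (nat_lit 0) (nat_lit 12173604213) (nat_lit 380) (nat_lit 2792772618) (nat_lit 76) (nat_lit 2792833070) (nat_lit 100) (nat_lit 5) (nat_lit 105) (nat_lit 5) (nat_lit 101) (nat_lit 5) (nat_lit 330) (nat_lit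 281) (nat_lit 169)) (XT.nd (nat_lit 78) (nat_lit 76) (nat_lit 0) (XT.lf (nat_lit 0) (nat_lit 6490650980) (nat_lit 304) (nat_lit 9139598960) (nat_lit 380) (nat_lit 2465263940) (nat_lit 96) (nat_lit 5) (nat_lit 100) (nat_lit 5) (nat_lit 101) (nat_lit 5) (nat_lit 331) (nat_lit 281) (nat_lit 168)) (XT.lf (nat_lit 0) (nat_lit 749463036) (nat_lit 380) (nat_lit 2356977605) (nat_lit 76) (nat_lit 15334797774) (nat_lit 95) (nat_lit 5) (nat_lit 100) (nat_lit 5) (nat_lit 96) (nat_lit 5) (nat_lit 332) (nat_lit 281) (nat_lit 167)))) (XT.nd (nat_lit 156) (nat_lit 304) (nat_lit 0) (XT.nd (nat_lit 78) (nat_lit 0) (nat_lit 0) (XT.lf (nat_lit 0) (nat_lit 4098990815) (nat_lit 380) (nat_lit 11557628797) (nat_lit 76) (nat_lit 3137354184) (nat_lit 91) (nat_lit 5) (nat_lit 96) (nat_lit 5) (nat_lit 92) (nat_lit 5) (nat_lit 333) (nat_lit 281) (nat_lit 166)) (XT.lf (nat_lit 0) (nat_lit 7591236040) (nat_lit 380) (nat_lit 2039682998)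 (nat_lit 76) (nat_lit 9525113621) (nat_lit 91) (nat_lit 5) (nat_lit 96) (nat_lit 5) (nat_lit 92) (nat_lit 5) (nat_lit 334) (nat_lit 281) (nat_lit 165))) (XT.nd (nat_lit 78) (nat_lit 0) (nat_lit 0) (XT.lf (nat_lit 0) (nat_lit 7900595186) (nat_lit 304) (nat_lit 3351402934) (nat_lit 380) (nat_lit 8275050807) (nat_lit 87) (nat_lit 5) (nat_lit 91) (nat_lit 5) (nat_lit 92) (nat_lit 5) (nat_lit 335) (nat_lit 281) (nat_lit 164)) (XT.lf (nat_lit 0) (nat_lit 15061285492) (nat_lit 380) (nat_lit 1775368988) (nat_lit 76) (nat_lit 3071388017) (nat_lit 87) (nat_lit 5) (nat_lit 92) (nat_lit 5) (nat_lit 88) (nat_lit 5) (nat_lit 336) (nat_lit 281) (nat_lit 163))))) (XT.nd (nat_lit 234) (nat_lit 532) (nat_lit 0) (XT.nd (nat_lit 78) (nat_lit 380) (nat_lit 0) (XT.lf (nat_lit 0) (nat_lit 8486658949) (nat_lit 228) (nat_lit 10601248855) (nat_lit 304) (nat_lit 1209474039) (nat_lit 84) (nat_lit 5) (nat_lit 87) (nat_lit 5)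 (nat_lit 88) (nat_lit 5) (nat_lit 337) (nat_lit 281) (nat_lit 162)) (XT.nd (nat_lit 78) (nat_lit 304) (nat_lit 0) (XT.lf (nat_lit 0) (nat_lit 2493880807) (nat_lit 304) (nat_lit 1646571157) (nat_lit 76) (nat_lit 16557031289) (nat_lit 83) (nat_lit 5) (nat_lit 87) (nat_lit 5) (nat_lit 84) (nat_lit 5) (nat_lit 338) (nat_lit 281) (nat_lit 161)) (XT.lf (nat_lit 0) (nat_lit 6384023335) (nat_lit 380) (nat_lit 12163117618) (nat_lit 76) (nat_lit 2559094623) (nat_lit 79) (nat_lit 5) (nat_lit 84) (nat_lit 5) (nat_lit 80) (nat_lit 5) (nat_lit 339) (nat_lit 281) (nat_lit 160)))) (XT.nd (nat_lit 156) (nat_lit 304) (nat_lit 0) (XT.nd (nat_lit 78) (nat_lit 228) (nat_lit 0) (XT.lf (nat_lit 0) (nat_lit 10437469102) (nat_lit 380) (nat_lit 1700374518) (nat_lit 76) (nat_lit 9388015683) (nat_lit 79) (nat_lit 5) (nat_lit 84) (nat_lit 5) (nat_lit 80) (nat_lit 5) (nat_lit 340) (nat_lit 281) (nat_lit 159)) (XT.lf (nat_lit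 0) (nat_lit 9240335424) (nat_lit 228) (nat_lit 5450145043) (nat_lit 304) (nat_lit 7265259014) (nat_lit 76) (nat_lit 5) (nat_lit 79) (nat_lit 5) (nat_lit 80) (nat_lit 5) (nat_lit 341) (nat_lit 281) (nat_lit 158))) (XT.nd (nat_lit 78) (nat_lit 304) (nat_lit 0) (XT.lf (nat_lit 0) (nat_lit 19091496090) (nat_lit 304) (nat_lit 1884217365) (nat_lit 76) (nat_lit 1422196605) (nat_lit 76) (nat_lit 5) (nat_lit 80) (nat_lit 5) (nat_lit 77) (nat_lit 5) (nat_lit 342) (nat_lit 281) (nat_lit 157)) (XT.lf (nat_lit 0) (nat_lit 891205807) (nat_lit 304) (nat_lit 13472862989) (nat_lit 76) (nat_lit 8485008864) (nat_lit 72) (nat_lit 5) (nat_lit 76) (nat_lit 5) (nat_lit 73) (nat_lit 5) (nat_lit 343) (nat_lit 281) (nat_lit 156)))))) (XT.nd (nat_lit 546) (nat_lit 836) (nat_lit 0) (XT.nd (nat_lit 234) (nat_lit 532) (nat_lit 0) (XT.nd (nat_lit 78) (nat_lit 228) (nat_lit 0) (XT.lf (nat_lit 0) (nat_lit 5157120936) (nat_lit 304)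 (nat_lit 2348975821) (nat_lit 76) (nat_lit 15806442624) (nat_lit 72) (nat_lit 5) (nat_lit 76) (nat_lit 5) (nat_lit 73) (nat_lit 5) (nat_lit 344) (nat_lit 281) (nat_lit 155)) (XT.nd (nat_lit 78) (nat_lit 0) (nat_lit 0) (XT.lf (nat_lit 0) (nat_lit 9274138188) (nat_lit 228) (nat_lit 355933843) (nat_lit 304) (nat_lit 14157466864) (nat_lit 69) (nat_lit 5) (nat_lit 72) (nat_lit 5) (nat_lit 73) (nat_lit 5) (nat_lit 345) (nat_lit 281) (nat_lit 154)) (XT.lf (nat_lit 0) (nat_lit 14318543758) (nat_lit 304) (nat_lit 3065148843) (nat_lit 76) (nat_lit 6890661365) (nat_lit 69) (nat_lit 5) (nat_lit 73) (nat_lit 5) (nat_lit 70) (nat_lit 5) (nat_lit 346) (nat_lit 281) (nat_lit 153)))) (XT.nd (nat_lit 156) (nat_lit 304) (nat_lit 0) (XT.nd (nat_lit 78) (nat_lit 0) (nat_lit 0) (XT.lf (nat_lit 0) (nat_lit 8881222104) (nat_lit 228) (nat_lit 10345639443) (nat_lit 304) (nat_lit 5546541554) (nat_lit 66) (nat_lit 5) (nat_lit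 69) (nat_lit 5) (nat_lit 70) (nat_lit 5) (nat_lit 347) (nat_lit 281) (nat_lit 152)) (XT.lf (nat_lit 0) (nat_lit 21233855847) (nat_lit 228) (nat_lit 3069959915) (nat_lit 304) (nat_lit 982971556) (nat_lit 66) (nat_lit 5) (nat_lit 69) (nat_lit 5) (nat_lit 70) (nat_lit 5) (nat_lit 348) (nat_lit 281) (nat_lit 151))) (XT.nd (nat_lit 78) (nat_lit 0) (nat_lit 0) (XT.lf (nat_lit 0) (nat_lit 3758518190) (nat_lit 304) (nat_lit 17603950294) (nat_lit 76) (nat_lit 4448630809) (nat_lit 62) (nat_lit 5) (nat_lit 66) (nat_lit 5) (nat_lit 63) (nat_lit 5) (nat_lit 349) (nat_lit 281) (nat_lit 150)) (XT.lf (nat_lit 0) (nat_lit 8684922040) (nat_lit 304) (nat_lit 5487136692) (nat_lit 76) (nat_lit 12176921910) (nat_lit 62) (nat_lit 5) (nat_lit 66) (nat_lit 5) (nat_lit 63) (nat_lit 5) (nat_lit 350) (nat_lit 281) (nat_lit 149))))) (XT.nd (nat_lit 312) (nat_lit 380) (nat_lit 0) (XT.nd (nat_lit 156) (nat_lit 228) (nat_lit 0)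 (XT.nd (nat_lit 78) (nat_lit 0) (nat_lit 0) (XT.lf (nat_lit 0) (nat_lit 7117700847) (nat_lit 228) (nat_lit 6700806413) (nat_lit 304) (nat_lit 13082714127) (nat_lit 59) (nat_lit 5) (nat_lit 62) (nat_lit 5) (nat_lit 63) (nat_lit 5) (nat_lit 351) (nat_lit 281) (nat_lit 148)) (XT.lf (nat_lit 0) (nat_lit 19162663083) (nat_lit 304) (nat_lit 7279763749) (nat_lit 76) (nat_lit 1025910128) (nat_lit 59) (nat_lit 5) (nat_lit 63) (nat_lit 5) (nat_lit 60) (nat_lit 5) (nat_lit 352) (nat_lit 281) (nat_lit 147))) (XT.nd (nat_lit 78) (nat_lit 76) (nat_lit 0) (XT.lf (nat_lit 0) (nat_lit 5628563648) (nat_lit 152) (nat_lit 19150335155) (nat_lit 228) (nat_lit 3270218909) (nat_lit 57) (nat_lit 5) (nat_lit 59) (nat_lit 5) (nat_lit 60) (nat_lit 5) (nat_lit 353) (nat_lit 281) (nat_lit 146)) (XT.lf (nat_lit 0) (nat_lit 1944481014) (nat_lit 228) (nat_lit 9604966154) (nat_lit 76) (nat_lit 17095358959) (nat_lit 56) (nat_lit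 5) (nat_lit 59) (nat_lit 5) (nat_lit 57) (nat_lit 5) (nat_lit 354) (nat_lit 281) (nat_lit 145)))) (XT.nd (nat_lit 156) (nat_lit 152) (nat_lit 0) (XT.nd (nat_lit 78) (nat_lit 0) (nat_lit 0) (XT.lf (nat_lit 0) (nat_lit 3619683848) (nat_lit 228) (nat_lit 3656592928) (nat_lit 304) (nat_lit 21980329572) (nat_lit 53) (nat_lit 5) (nat_lit 56) (nat_lit 5) (nat_lit 57) (nat_lit 5) (nat_lit 355) (nat_lit 281) (nat_lit 144)) (XT.lf (nat_lit 0) (nat_lit 12900628804) (nat_lit 304) (nat_lit 12503571864) (nat_lit 76) (nat_lit 4478585716) (nat_lit 53) (nat_lit 5) (nat_lit 57) (nat_lit 5) (nat_lit 54) (nat_lit 5) (nat_lit 356) (nat_lit 281) (nat_lit 143))) (XT.nd (nat_lit 78) (nat_lit 0) (nat_lit 0) (XT.lf (nat_lit 0) (nat_lit 993635889) (nat_lit 152) (nat_lit 17737727036) (nat_lit 228) (nat_lit 11795263118) (nat_lit 51) (nat_lit 5) (nat_lit 53) (nat_lit 5) (nat_lit 54) (nat_lit 5) (nat_lit 357) (nat_lit 281) (nat_lit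 142)) (XT.lf (nat_lit 0) (nat_lit 15138872590) (nat_lit 152) (nat_lit 9716413409) (nat_lit 228) (nat_lit 6330950542) (nat_lit 51) (nat_lit 5) (nat_lit 53) (nat_lit 5) (nat_lit 54) (nat_lit 5) (nat_lit 358) (nat_lit 281) (nat_lit 141))))))))
noncomputable def xc156 : XT := (XT.nd (nat_lit 2184) (nat_lit 836) (nat_lit 0) (XT.nd (nat_lit 1092) (nat_lit 760) (nat_lit 0) (XT.nd (nat_lit 546) (nat_lit 532) (nat_lit 0) (XT.nd (nat_lit 234) (nat_lit 380) (nat_lit 0) (XT.nd (nat_lit 78) (nat_lit 304) (nat_lit 0) (XT.lf (nat_lit 0) (nat_lit 29695652556) (nat_lit 152) (nat_lit 1459512433) (nat_lit 228) (nat_lit 710706770) (nat_lit 51) (nat_lit 5) (nat_lit 53) (nat_lit 5) (nat_lit 54) (nat_lit 5) (nat_lit 359) (nat_lit 281) (nat_lit 140)) (XT.nd (nat_lit 78) (nat_lit 0) (nat_lit 0) (XT.lf (nat_lit 0) (nat_lit 5159018982) (nat_lit 304) (nat_lit 20328559543) (nat_lit 76) (nat_lit 7071457400) (nat_lit 47) (nat_lit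 5) (nat_lit 51) (nat_lit 5) (nat_lit 48) (nat_lit 5) (nat_lit 360) (nat_lit 281) (nat_lit 139)) (XT.lf (nat_lit 0) (nat_lit 11219575055) (nat_lit 304) (nat_lit 6199014595) (nat_lit 76) (nat_lit 15853326825) (nat_lit 47) (nat_lit 5) (nat_lit 51) (nat_lit 5) (nat_lit 48) (nat_lit 5) (nat_lit 361) (nat_lit 281) (nat_lit 138)))) (XT.nd (nat_lit 156) (nat_lit 228) (nat_lit 0) (XT.nd (nat_lit 78) (nat_lit 0) (nat_lit 0) (XT.lf (nat_lit 0) (nat_lit 8508157092) (nat_lit 152) (nat_lit 9028237001) (nat_lit 228) (nat_lit 16467559115) (nat_lit 45) (nat_lit 5) (nat_lit 47) (nat_lit 5) (nat_lit 48) (nat_lit 5) (nat_lit 362) (nat_lit 281) (nat_lit 137)) (XT.lf (nat_lit 0) (nat_lit 23771453689) (nat_lit 152) (nat_lit 326619417) (nat_lit 228) (nat_lit 10658220336) (nat_lit 45) (nat_lit 5) (nat_lit 47) (nat_lit 5) (nat_lit 48) (nat_lit 5) (nat_lit 363) (nat_lit 281) (nat_lit 136))) (XT.nd (nat_lit 78) (nat_lit 76)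 (nat_lit 0) (XT.lf (nat_lit 0) (nat_lit 3943402660) (nat_lit 152) (nat_lit 27027043720) (nat_lit 228) (nat_lit 4557345161) (nat_lit 43) (nat_lit 5) (nat_lit 45) (nat_lit 5) (nat_lit 46) (nat_lit 5) (nat_lit 364) (nat_lit 281) (nat_lit 135)) (XT.lf (nat_lit 0) (nat_lit 1801065073) (nat_lit 228) (nat_lit 16807368364) (nat_lit 76) (nat_lit 17710260045) (nat_lit 42) (nat_lit 5) (nat_lit 45) (nat_lit 5) (nat_lit 43) (nat_lit 5) (nat_lit 365) (nat_lit 281) (nat_lit 134))))) (XT.nd (nat_lit 234) (nat_lit 380) (nat_lit 0) (XT.nd (nat_lit 78) (nat_lit 152) (nat_lit 0) (XT.lf (nat_lit 0) (nat_lit 8251777710) (nat_lit 228) (nat_lit 1643813336) (nat_lit 76) (nat_lit 27236586041) (nat_lit 42) (nat_lit 5) (nat_lit 45) (nat_lit 5) (nat_lit 43) (nat_lit 5) (nat_lit 366) (nat_lit 281) (nat_lit 133)) (XT.nd (nat_lit 78) (nat_lit 0) (nat_lit 0) (XT.lf (nat_lit 0) (nat_lit 14241231621) (nat_lit 152) (nat_lit 785023322)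 (nat_lit 228) (nat_lit 22939905604) (nat_lit 40) (nat_lit 5) (nat_lit 42) (nat_lit 5) (nat_lit 43) (nat_lit 5) (nat_lit 367) (nat_lit 281) (nat_lit 132)) (XT.lf (nat_lit 0) (nat_lit 22096776920) (nat_lit 228) (nat_lit 8282321397) (nat_lit 76) (nat_lit 8443283446) (nat_lit 40) (nat_lit 5) (nat_lit 43) (nat_lit 5) (nat_lit 41) (nat_lit 5) (nat_lit 368) (nat_lit 281) (nat_lit 131)))) (XT.nd (nat_lit 156) (nat_lit 228) (nat_lit 0) (XT.nd (nat_lit 78) (nat_lit 0) (nat_lit 0) (XT.lf (nat_lit 0) (nat_lit 7756113908) (nat_lit 152) (nat_lit 21699211482) (nat_lit 228) (nat_lit 10246689391) (nat_lit 38) (nat_lit 5) (nat_lit 40) (nat_lit 5) (nat_lit 41) (nat_lit 5) (nat_lit 369) (nat_lit 281) (nat_lit 130)) (XT.lf (nat_lit 0) (nat_lit 24434562195) (nat_lit 152) (nat_lit 12677367111) (nat_lit 228) (nat_lit 3493790931) (nat_lit 38) (nat_lit 5) (nat_lit 40) (nat_lit 5) (nat_lit 41) (nat_lit 5) (nat_lit 370) (nat_lit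 281) (nat_lit 129))) (XT.nd (nat_lit 78) (nat_lit 0) (nat_lit 0) (XT.lf (nat_lit 0) (nat_lit 33476934) (nat_lit 152) (nat_lit 3354774346) (nat_lit 228) (nat_lit 38147466371) (nat_lit 35) (nat_lit 5) (nat_lit 37) (nat_lit 5) (nat_lit 38) (nat_lit 5) (nat_lit 371) (nat_lit 281) (nat_lit 128)) (XT.lf (nat_lit 0) (nat_lit 10625322477) (nat_lit 228) (nat_lit 25540001241) (nat_lit 76) (nat_lit 6320692040) (nat_lit 35) (nat_lit 5) (nat_lit 38) (nat_lit 5) (nat_lit 36) (nat_lit 5) (nat_lit 372) (nat_lit 281) (nat_lit 127)))))) (XT.nd (nat_lit 546) (nat_lit 304) (nat_lit 0) (XT.nd (nat_lit 234) (nat_lit 304) (nat_lit 0) (XT.nd (nat_lit 78) (nat_lit 152) (nat_lit 0) (XT.lf (nat_lit 0) (nat_lit 18106722279) (nat_lit 228) (nat_lit 9142562073) (nat_lit 76) (nat_lit 16214724109) (nat_lit 35) (nat_lit 5) (nat_lit 38) (nat_lit 5) (nat_lit 36) (nat_lit 5) (nat_lit 373) (nat_lit 281) (nat_lit 126)) (XT.nd (nat_lit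 78) (nat_lit 0) (nat_lit 0) (XT.lf (nat_lit 0) (nat_lit 7890627347) (nat_lit 152) (nat_lit 17991961879) (nat_lit 228) (nat_lit 18586653051) (nat_lit 33) (nat_lit 5) (nat_lit 35) (nat_lit 5) (nat_lit 36) (nat_lit 5) (nat_lit 374) (nat_lit 281) (nat_lit 125)) (XT.lf (nat_lit 0) (nat_lit 25612178014) (nat_lit 152) (nat_lit 8366124787) (nat_lit 228) (nat_lit 11523735212) (nat_lit 33) (nat_lit 5) (nat_lit 35) (nat_lit 5) (nat_lit 36) (nat_lit 5) (nat_lit 375) (nat_lit 281) (nat_lit 124)))) (XT.nd (nat_lit 156) (nat_lit 152) (nat_lit 0) (XT.nd (nat_lit 78) (nat_lit 152) (nat_lit 0) (XT.lf (nat_lit 0) (nat_lit 42326148877) (nat_lit 228) (nat_lit 2725212147) (nat_lit 76) (nat_lit 1514180730) (nat_lit 33) (nat_lit 5) (nat_lit 36) (nat_lit 5) (nat_lit 34) (nat_lit 4) (nat_lit 376) (nat_lit 281) (nat_lit 123)) (XT.lf (nat_lit 0) (nat_lit 3425082457) (nat_lit 152) (nat_lit 32530112152) (nat_lit 76) (nat_lit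 11698058188) (nat_lit 31) (nat_lit 5) (nat_lit 33) (nat_lit 5) (nat_lit 32) (nat_lit 5) (nat_lit 377) (nat_lit 281) (nat_lit 122))) (XT.nd (nat_lit 78) (nat_lit 152) (nat_lit 0) (XT.lf (nat_lit 0) (nat_lit 11256628588) (nat_lit 152) (nat_lit 15261820990) (nat_lit 76) (nat_lit 22253217840) (nat_lit 31) (nat_lit 5) (nat_lit 33) (nat_lit 5) (nat_lit 32) (nat_lit 5) (nat_lit 378) (nat_lit 281) (nat_lit 121)) (XT.lf (nat_lit 0) (nat_lit 2565243081) (nat_lit 152) (nat_lit 16777247743) (nat_lit 228) (nat_lit 30580564310) (nat_lit 29) (nat_lit 5) (nat_lit 31) (nat_lit 5) (nat_lit 32) (nat_lit 5) (nat_lit 379) (nat_lit 281) (nat_lit 120))))) (XT.nd (nat_lit 234) (nat_lit 228) (nat_lit 0) (XT.nd (nat_lit 78) (nat_lit 76) (nat_lit 0) (XT.lf (nat_lit 0) (nat_lit 21230729986) (nat_lit 152) (nat_lit 6589089656) (nat_lit 228) (nat_lit 23284699813) (nat_lit 29) (nat_lit 5) (nat_lit 31) (nat_lit 5) (nat_lit 32)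 (nat_lit 5) (nat_lit 380) (nat_lit 281) (nat_lit 119)) (XT.nd (nat_lit 78) (nat_lit 76) (nat_lit 0) (XT.lf (nat_lit 0) (nat_lit 36583893719) (nat_lit 228) (nat_lit 11911869287) (nat_lit 76) (nat_lit 3824693586) (nat_lit 29) (nat_lit 5) (nat_lit 32) (nat_lit 5) (nat_lit 30) (nat_lit 4) (nat_lit 381) (nat_lit 281) (nat_lit 118)) (XT.lf (nat_lit 0) (nat_lit 6644504331) (nat_lit 76) (nat_lit 39090534948) (nat_lit 152) (nat_lit 7834109684) (nat_lit 28) (nat_lit 5) (nat_lit 29) (nat_lit 5) (nat_lit 30) (nat_lit 4) (nat_lit 382) (nat_lit 281) (nat_lit 117)))) (XT.nd (nat_lit 156) (nat_lit 152) (nat_lit 0) (XT.nd (nat_lit 78) (nat_lit 0) (nat_lit 0) (XT.lf (nat_lit 0) (nat_lit 415984952) (nat_lit 152) (nat_lit 28862906901) (nat_lit 76) (nat_lit 25572827854) (nat_lit 27) (nat_lit 5) (nat_lit 29) (nat_lit 5) (nat_lit 28) (nat_lit 5) (nat_lit 383) (nat_lit 281) (nat_lit 116)) (XT.lf (nat_lit 0) (nat_lit 8751318910)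 (nat_lit 152) (nat_lit 10345462462) (nat_lit 76) (nat_lit 37073804871) (nat_lit 27) (nat_lit 5) (nat_lit 29) (nat_lit 5) (nat_lit 28) (nat_lit 5) (nat_lit 384) (nat_lit 281) (nat_lit 115))) (XT.nd (nat_lit 78) (nat_lit 0) (nat_lit 0) (XT.lf (nat_lit 0) (nat_lit 8892703915) (nat_lit 152) (nat_lit 8524825384) (nat_lit 228) (nat_lit 40109066404) (nat_lit 25) (nat_lit 5) (nat_lit 27) (nat_lit 5) (nat_lit 28) (nat_lit 5) (nat_lit 385) (nat_lit 281) (nat_lit 114)) (XT.lf (nat_lit 0) (nat_lit 26467312149) (nat_lit 228) (nat_lit 30032178679) (nat_lit 76) (nat_lit 2420088413) (nat_lit 25) (nat_lit 5) (nat_lit 28) (nat_lit 5) (nat_lit 26) (nat_lit 4) (nat_lit 386) (nat_lit 281) (nat_lit 113))))))) (XT.nd (nat_lit 1092) (nat_lit 304) (nat_lit 0) (XT.nd (nat_lit 546) (nat_lit 228) (nat_lit 0) (XT.nd (nat_lit 234) (nat_lit 228) (nat_lit 0) (XT.nd (nat_lit 78) (nat_lit 76) (nat_lit 0) (XT.lf (nat_lit 0) (nat_lit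 35868483885) (nat_lit 228) (nat_lit 10964928173) (nat_lit 76) (nat_lit 13518544704) (nat_lit 25) (nat_lit 5) (nat_lit 28) (nat_lit 5) (nat_lit 26) (nat_lit 4) (nat_lit 387) (nat_lit 281) (nat_lit 112)) (XT.nd (nat_lit 78) (nat_lit 0) (nat_lit 0) (XT.lf (nat_lit 0) (nat_lit 8838945940) (nat_lit 76) (nat_lit 36793332700) (nat_lit 152) (nat_lit 16192610633) (nat_lit 24) (nat_lit 5) (nat_lit 25) (nat_lit 5) (nat_lit 26) (nat_lit 4) (nat_lit 388) (nat_lit 281) (nat_lit 111)) (XT.lf (nat_lit 0) (nat_lit 29453910168) (nat_lit 76) (nat_lit 26341476414) (nat_lit 152) (nat_lit 7543432458) (nat_lit 24) (nat_lit 5) (nat_lit 25) (nat_lit 5) (nat_lit 26) (nat_lit 4) (nat_lit 389) (nat_lit 281) (nat_lit 110)))) (XT.nd (nat_lit 156) (nat_lit 0) (nat_lit 0) (XT.nd (nat_lit 78) (nat_lit 152) (nat_lit 0) (XT.lf (nat_lit 0) (nat_lit 1334338942) (nat_lit 152) (nat_lit 14231621634) (nat_lit 76) (nat_lit 49331940866)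 (nat_lit 23) (nat_lit 5) (nat_lit 25) (nat_lit 5) (nat_lit 24) (nat_lit 5) (nat_lit 390) (nat_lit 281) (nat_lit 109)) (XT.lf (nat_lit 0) (nat_lit 6047146421) (nat_lit 152) (nat_lit 4333692219) (nat_lit 228) (nat_lit 56119057887) (nat_lit 21) (nat_lit 5) (nat_lit 23) (nat_lit 5) (nat_lit 24) (nat_lit 5) (nat_lit 391) (nat_lit 281) (nat_lit 108))) (XT.nd (nat_lit 78) (nat_lit 0) (nat_lit 0) (XT.lf (nat_lit 0) (nat_lit 19909319556) (nat_lit 228) (nat_lit 40998054333) (nat_lit 76) (nat_lit 7236261111) (nat_lit 21) (nat_lit 5) (nat_lit 24) (nat_lit 5) (nat_lit 22) (nat_lit 4) (nat_lit 392) (nat_lit 281) (nat_lit 107)) (XT.lf (nat_lit 0) (nat_lit 29762581567) (nat_lit 228) (nat_lit 21009859179) (nat_lit 76) (nat_lit 19063078169) (nat_lit 21) (nat_lit 5) (nat_lit 24) (nat_lit 5) (nat_lit 22) (nat_lit 4) (nat_lit 393) (nat_lit 281) (nat_lit 106))))) (XT.nd (nat_lit 234) (nat_lit 152) (nat_lit 0) (XT.nd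 (nat_lit 78) (nat_lit 76) (nat_lit 0) (XT.lf (nat_lit 0) (nat_lit 39907576218) (nat_lit 228) (nat_lit 429041131) (nat_lit 76) (nat_lit 31241659011) (nat_lit 21) (nat_lit 5) (nat_lit 24) (nat_lit 5) (nat_lit 22) (nat_lit 4) (nat_lit 394) (nat_lit 281) (nat_lit 105)) (XT.nd (nat_lit 78) (nat_lit 0) (nat_lit 0) (XT.lf (nat_lit 0) (nat_lit 21175595182) (nat_lit 76) (nat_lit 29381125661) (nat_lit 152) (nat_lit 22810602708) (nat_lit 20) (nat_lit 5) (nat_lit 21) (nat_lit 5) (nat_lit 22) (nat_lit 4) (nat_lit 395) (nat_lit 281) (nat_lit 104)) (XT.lf (nat_lit 0) (nat_lit 43430413947) (nat_lit 76) (nat_lit 18095550095) (nat_lit 152) (nat_lit 13684060385) (nat_lit 20) (nat_lit 5) (nat_lit 21) (nat_lit 5) (nat_lit 22) (nat_lit 4) (nat_lit 396) (nat_lit 281) (nat_lit 103)))) (XT.nd (nat_lit 156) (nat_lit 0) (nat_lit 0) (XT.nd (nat_lit 78) (nat_lit 152) (nat_lit 0) (XT.lf (nat_lit 0) (nat_lit 66346322362) (nat_lit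 76) (nat_lit 6474361942) (nat_lit 152) (nat_lit 4287431000) (nat_lit 20) (nat_lit 5) (nat_lit 21) (nat_lit 5) (nat_lit 22) (nat_lit 4) (nat_lit 397) (nat_lit 281) (nat_lit 102)) (XT.lf (nat_lit 0) (nat_lit 5442888463) (nat_lit 152) (nat_lit 68069072431) (nat_lit 76) (nat_lit 5544924520) (nat_lit 18) (nat_lit 5) (nat_lit 20) (nat_lit 5) (nat_lit 19) (nat_lit 4) (nat_lit 398) (nat_lit 281) (nat_lit 101))) (XT.nd (nat_lit 78) (nat_lit 0) (nat_lit 0) (XT.lf (nat_lit 0) (nat_lit 15549278942) (nat_lit 152) (nat_lit 47564423463) (nat_lit 76) (nat_lit 17944033578) (nat_lit 18) (nat_lit 5) (nat_lit 20) (nat_lit 5) (nat_lit 19) (nat_lit 4) (nat_lit 399) (nat_lit 281) (nat_lit 100)) (XT.lf (nat_lit 0) (nat_lit 25955446551) (nat_lit 152) (nat_lit 26450897104) (nat_lit 76) (nat_lit 30712371710) (nat_lit 18) (nat_lit 5) (nat_lit 20) (nat_lit 5) (nat_lit 19) (nat_lit 4) (nat_lit 400) (nat_lit 281) (nat_lit 99))))))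 (XT.nd (nat_lit 546) (nat_lit 76) (nat_lit 0) (XT.nd (nat_lit 234) (nat_lit 152) (nat_lit 0) (XT.nd (nat_lit 78) (nat_lit 76) (nat_lit 0) (XT.lf (nat_lit 0) (nat_lit 36670484057) (nat_lit 152) (nat_lit 4710044642) (nat_lit 76) (nat_lit 43861095717) (nat_lit 18) (nat_lit 5) (nat_lit 20) (nat_lit 5) (nat_lit 19) (nat_lit 4) (nat_lit 401) (nat_lit 281) (nat_lit 98)) (XT.nd (nat_lit 78) (nat_lit 0) (nat_lit 0) (XT.lf (nat_lit 0) (nat_lit 18028940347) (nat_lit 76) (nat_lit 29848118973) (nat_lit 152) (nat_lit 39546059632) (nat_lit 17) (nat_lit 5) (nat_lit 18) (nat_lit 5) (nat_lit 19) (nat_lit 4) (nat_lit 402) (nat_lit 281) (nat_lit 97)) (XT.lf (nat_lit 0) (nat_lit 41540801443) (nat_lit 76) (nat_lit 17923411601) (nat_lit 152) (nat_lit 30204514629) (nat_lit 17) (nat_lit 5) (nat_lit 18) (nat_lit 5) (nat_lit 19) (nat_lit 4) (nat_lit 403) (nat_lit 281) (nat_lit 96)))) (XT.nd (nat_lit 156) (nat_lit 152) (nat_lit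 0) (XT.nd (nat_lit 78) (nat_lit 0) (nat_lit 0) (XT.lf (nat_lit 0) (nat_lit 65752343866) (nat_lit 76) (nat_lit 5643549153) (nat_lit 152) (nat_lit 20585905050) (nat_lit 17) (nat_lit 5) (nat_lit 18) (nat_lit 5) (nat_lit 19) (nat_lit 4) (nat_lit 404) (nat_lit 281) (nat_lit 95)) (XT.lf (nat_lit 0) (nat_lit 83749834399) (nat_lit 152) (nat_lit 3746937353) (nat_lit 0) (nat_lit 6865560237) (nat_lit 17) (nat_lit 5) (nat_lit 19) (nat_lit 4) (nat_lit 17) (nat_lit 4) (nat_lit 405) (nat_lit 281) (nat_lit 94))) (XT.nd (nat_lit 78) (nat_lit 76) (nat_lit 0) (XT.lf (nat_lit 0) (nat_lit 19733843253) (nat_lit 76) (nat_lit 76983186756) (nat_lit 76) (nat_lit 89973558) (nat_lit 16) (nat_lit 4) (nat_lit 17) (nat_lit 5) (nat_lit 17) (nat_lit 4) (nat_lit 406) (nat_lit 281) (nat_lit 93)) (XT.lf (nat_lit 0) (nat_lit 10573770962) (nat_lit 152) (nat_lit 55437136819) (nat_lit 76) (nat_lit 33309950191) (nat_lit 15) (nat_lit 5)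 (nat_lit 17) (nat_lit 5) (nat_lit 16) (nat_lit 4) (nat_lit 407) (nat_lit 281) (nat_lit 92))))) (XT.nd (nat_lit 30888) (nat_lit 0) (nat_lit 16796) (XT.nd (nat_lit 156) (nat_lit 76) (nat_lit 0) (XT.nd (nat_lit 78) (nat_lit 0) (nat_lit 0) (XT.lf (nat_lit 0) (nat_lit 21552774810) (nat_lit 152) (nat_lit 33158184907) (nat_lit 76) (nat_lit 47199227566) (nat_lit 15) (nat_lit 5) (nat_lit 17) (nat_lit 5) (nat_lit 16) (nat_lit 4) (nat_lit 408) (nat_lit 281) (nat_lit 91)) (XT.lf (nat_lit 0) (nat_lit 32858386998) (nat_lit 152) (nat_lit 10215972650) (nat_lit 76) (nat_lit 61502920318) (nat_lit 15) (nat_lit 5) (nat_lit 17) (nat_lit 5) (nat_lit 16) (nat_lit 4) (nat_lit 409) (nat_lit 281) (nat_lit 90))) (XT.nd (nat_lit 30654) (nat_lit 0) (nat_lit 17784) (XT.lf (nat_lit 0) (nat_lit 13676422812) (nat_lit 76) (nat_lit 30955529545) (nat_lit 152) (nat_lit 62688570148) (nat_lit 14) (nat_lit 5) (nat_lit 15) (nat_lit 5)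 (nat_lit 16) (nat_lit 4) (nat_lit 410) (nat_lit 281) (nat_lit 89)) (XT.lf (nat_lit 0) (nat_lit 3772634246) (nat_lit 988) (nat_lit 247032052) (nat_lit 988) (nat_lit 247032052) (nat_lit 248) (nat_lit 3) (nat_lit 261) (nat_lit 3) (nat_lit 261) (nat_lit 5) (nat_lit 282) (nat_lit 282) (nat_lit 216)))) (XT.nd (nat_lit 156) (nat_lit 0) (nat_lit 76) (XT.nd (nat_lit 78) (nat_lit 0) (nat_lit 0) (XT.lf (nat_lit 0) (nat_lit 31848214) (nat_lit 988) (nat_lit 5106369423) (nat_lit 1064) (nat_lit 3491890065) (nat_lit 235) (nat_lit 5) (nat_lit 248) (nat_lit 3) (nat_lit 249) (nat_lit 5) (nat_lit 283) (nat_lit 282) (nat_lit 215)) (XT.lf (nat_lit 0) (nat_lit 1029122374) (nat_lit 988) (nat_lit 1087922981) (nat_lit 1064) (nat_lit 6613428211) (nat_lit 235) (nat_lit 5) (nat_lit 248) (nat_lit 3) (nat_lit 249) (nat_lit 5) (nat_lit 284) (nat_lit 282) (nat_lit 214))) (XT.nd (nat_lit 78) (nat_lit 0) (nat_lit 0) (XT.lf (nat_lit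 0) (nat_lit 2058693361) (nat_lit 988) (nat_lit 5752864352) (nat_lit 1064) (nat_lit 1022263863) (nat_lit 236) (nat_lit 5) (nat_lit 249) (nat_lit 5) (nat_lit 250) (nat_lit 5) (nat_lit 285) (nat_lit 282) (nat_lit 213)) (XT.lf (nat_lit 0) (nat_lit 3114903738) (nat_lit 988) (nat_lit 1585020564) (nat_lit 1064) (nat_lit 4240514443) (nat_lit 236) (nat_lit 5) (nat_lit 249) (nat_lit 5) (nat_lit 250) (nat_lit 5) (nat_lit 286) (nat_lit 282) (nat_lit 212))))))))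
noncomputable def xc157 : XT := (XT.nd (nat_lit 2184) (nat_lit 5168) (nat_lit 0) (XT.nd (nat_lit 1092) (nat_lit 5168) (nat_lit 0) (XT.nd (nat_lit 546) (nat_lit 912) (nat_lit 0) (XT.nd (nat_lit 234) (nat_lit 912) (nat_lit 0) (XT.nd (nat_lit 78) (nat_lit 0) (nat_lit 76) (XT.lf (nat_lit 76) (nat_lit 2740742538) (nat_lit 0) (nat_lit 1453157715) (nat_lit 1064) (nat_lit 4856661268) (nat_lit 237) (nat_lit 5) (nat_lit 236) (nat_lit 5) (nat_lit 250) (nat_lit 5) (nat_lit 287) (nat_lit 282) (nat_lit 211)) (XT.nd (nat_lit 78) (nat_lit 0) (nat_lit 0) (XT.lf (nat_lit 0) (nat_lit 5305327717) (nat_lit 988) (nat_lit 1974675906) (nat_lit 1064) (nat_lit 1884021445) (nat_lit 237) (nat_lit 5) (nat_lit 250) (nat_lit 5) (nat_lit 251) (nat_lit 5) (nat_lit 288) (nat_lit 282) (nat_lit 210)) (XT.lf (nat_lit 76) (nat_lit 2504023503) (nat_lit 0) (nat_lit 3951250288) (nat_lit 1064) (nat_lit 2825501240) (nat_lit 238) (nat_lit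 5) (nat_lit 237) (nat_lit 5) (nat_lit 251) (nat_lit 5) (nat_lit 289) (nat_lit 282) (nat_lit 209)))) (XT.nd (nat_lit 156) (nat_lit 988) (nat_lit 0) (XT.nd (nat_lit 78) (nat_lit 0) (nat_lit 76) (XT.lf (nat_lit 76) (nat_lit 7136795653) (nat_lit 0) (nat_lit 490350586) (nat_lit 1064) (nat_lit 1774295099) (nat_lit 238) (nat_lit 5) (nat_lit 237) (nat_lit 5) (nat_lit 251) (nat_lit 5) (nat_lit 290) (nat_lit 282) (nat_lit 208)) (XT.lf (nat_lit 76) (nat_lit 2378427757) (nat_lit 0) (nat_lit 6476707004) (nat_lit 1064) (nat_lit 669999692) (nat_lit 239) (nat_lit 5) (nat_lit 238) (nat_lit 5) (nat_lit 252) (nat_lit 5) (nat_lit 291) (nat_lit 282) (nat_lit 207))) (XT.nd (nat_lit 78) (nat_lit 0) (nat_lit 76) (XT.lf (nat_lit 0) (nat_lit 455173111) (nat_lit 1064) (nat_lit 2475908670) (nat_lit 1140) (nat_lit 6721449265) (nat_lit 224) (nat_lit 5) (nat_lit 238) (nat_lit 5) (nat_lit 239) (nat_lit 5) (nat_lit 292) (nat_lit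 282) (nat_lit 206)) (XT.lf (nat_lit 0) (nat_lit 1600387604) (nat_lit 1064) (nat_lit 7437883354) (nat_lit 1140) (nat_lit 745319578) (nat_lit 225) (nat_lit 5) (nat_lit 239) (nat_lit 5) (nat_lit 240) (nat_lit 5) (nat_lit 293) (nat_lit 282) (nat_lit 205))))) (XT.nd (nat_lit 234) (nat_lit 988) (nat_lit 0) (XT.nd (nat_lit 78) (nat_lit 0) (nat_lit 0) (XT.lf (nat_lit 0) (nat_lit 2804814959) (nat_lit 1064) (nat_lit 2606233979) (nat_lit 1140) (nat_lit 4506818823) (nat_lit 225) (nat_lit 5) (nat_lit 239) (nat_lit 5) (nat_lit 240) (nat_lit 5) (nat_lit 294) (nat_lit 282) (nat_lit 204)) (XT.nd (nat_lit 78) (nat_lit 0) (nat_lit 76) (XT.lf (nat_lit 76) (nat_lit 2395894812) (nat_lit 0) (nat_lit 1643954285) (nat_lit 1140) (nat_lit 6016520711) (nat_lit 226) (nat_lit 5) (nat_lit 225) (nat_lit 5) (nat_lit 240) (nat_lit 5) (nat_lit 295) (nat_lit 282) (nat_lit 203)) (XT.lf (nat_lit 0) (nat_lit 5332147310) (nat_lit 1064)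 (nat_lit 2640429141) (nat_lit 1140) (nat_lit 2225873901) (nat_lit 226) (nat_lit 5) (nat_lit 240) (nat_lit 5) (nat_lit 241) (nat_lit 5) (nat_lit 296) (nat_lit 282) (nat_lit 202)))) (XT.nd (nat_lit 156) (nat_lit 1064) (nat_lit 0) (XT.nd (nat_lit 78) (nat_lit 0) (nat_lit 0) (XT.lf (nat_lit 76) (nat_lit 2542240232) (nat_lit 0) (nat_lit 4134639405) (nat_lit 1140) (nat_lit 3667532677) (nat_lit 227) (nat_lit 5) (nat_lit 226) (nat_lit 5) (nat_lit 241) (nat_lit 5) (nat_lit 297) (nat_lit 282) (nat_lit 201)) (XT.lf (nat_lit 76) (nat_lit 7913415467) (nat_lit 0) (nat_lit 148737462) (nat_lit 1140) (nat_lit 2432622354) (nat_lit 227) (nat_lit 5) (nat_lit 226) (nat_lit 5) (nat_lit 241) (nat_lit 5) (nat_lit 298) (nat_lit 282) (nat_lit 200))) (XT.nd (nat_lit 78) (nat_lit 76) (nat_lit 0) (XT.lf (nat_lit 0) (nat_lit 2791174047) (nat_lit 1064) (nat_lit 6737032159) (nat_lit 1140) (nat_lit 1120293576) (nat_lit 213) (nat_lit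 5) (nat_lit 227) (nat_lit 5) (nat_lit 228) (nat_lit 5) (nat_lit 299) (nat_lit 282) (nat_lit 199)) (XT.lf (nat_lit 0) (nat_lit 229312953) (nat_lit 1140) (nat_lit 2453865458) (nat_lit 76) (nat_lit 8123543899) (nat_lit 212) (nat_lit 5) (nat_lit 227) (nat_lit 5) (nat_lit 213) (nat_lit 5) (nat_lit 300) (nat_lit 282) (nat_lit 198)))))) (XT.nd (nat_lit 546) (nat_lit 2128) (nat_lit 0) (XT.nd (nat_lit 234) (nat_lit 1140) (nat_lit 0) (XT.nd (nat_lit 78) (nat_lit 760) (nat_lit 0) (XT.lf (nat_lit 0) (nat_lit 1617236211) (nat_lit 1216) (nat_lit 7843133795) (nat_lit 76) (nat_lit 1508403370) (nat_lit 197) (nat_lit 5) (nat_lit 213) (nat_lit 5) (nat_lit 198) (nat_lit 5) (nat_lit 301) (nat_lit 282) (nat_lit 197)) (XT.nd (nat_lit 78) (nat_lit 760) (nat_lit 0) (XT.lf (nat_lit 0) (nat_lit 3074302043) (nat_lit 1216) (nat_lit 2260520640) (nat_lit 76) (nat_lit 5800062396) (nat_lit 197) (nat_lit 5) (nat_lit 213) (nat_lit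 5) (nat_lit 198) (nat_lit 5) (nat_lit 302) (nat_lit 282) (nat_lit 196)) (XT.lf (nat_lit 0) (nat_lit 3537633768) (nat_lit 760) (nat_lit 1048067697) (nat_lit 836) (nat_lit 6719983565) (nat_lit 187) (nat_lit 5) (nat_lit 197) (nat_lit 5) (nat_lit 198) (nat_lit 5) (nat_lit 303) (nat_lit 282) (nat_lit 195)))) (XT.nd (nat_lit 156) (nat_lit 532) (nat_lit 0) (XT.nd (nat_lit 78) (nat_lit 608) (nat_lit 0) (XT.lf (nat_lit 0) (nat_lit 6174981938) (nat_lit 836) (nat_lit 1978941414) (nat_lit 76) (nat_lit 3326732316) (nat_lit 187) (nat_lit 5) (nat_lit 198) (nat_lit 5) (nat_lit 188) (nat_lit 5) (nat_lit 304) (nat_lit 282) (nat_lit 194)) (XT.lf (nat_lit 0) (nat_lit 4031261242) (nat_lit 608) (nat_lit 3807591694) (nat_lit 684) (nat_lit 3821237321) (nat_lit 179) (nat_lit 5) (nat_lit 187) (nat_lit 5) (nat_lit 188) (nat_lit 5) (nat_lit 305) (nat_lit 282) (nat_lit 193))) (XT.nd (nat_lit 78) (nat_lit 532) (nat_lit 0) (XT.lf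 (nat_lit 0) (nat_lit 9557496733) (nat_lit 684) (nat_lit 1609950581) (nat_lit 76) (nat_lit 677336418) (nat_lit 179) (nat_lit 5) (nat_lit 188) (nat_lit 5) (nat_lit 180) (nat_lit 5) (nat_lit 306) (nat_lit 282) (nat_lit 192)) (XT.lf (nat_lit 0) (nat_lit 4621245633) (nat_lit 532) (nat_lit 6767452365) (nat_lit 608) (nat_lit 644510989) (nat_lit 172) (nat_lit 5) (nat_lit 179) (nat_lit 5) (nat_lit 180) (nat_lit 5) (nat_lit 307) (nat_lit 282) (nat_lit 191))))) (XT.nd (nat_lit 234) (nat_lit 1520) (nat_lit 0) (XT.nd (nat_lit 78) (nat_lit 532) (nat_lit 0) (XT.lf (nat_lit 0) (nat_lit 1022595189) (nat_lit 608) (nat_lit 1185609630) (nat_lit 76) (nat_lit 10018935159) (nat_lit 171) (nat_lit 5) (nat_lit 179) (nat_lit 5) (nat_lit 172) (nat_lit 5) (nat_lit 308) (nat_lit 282) (nat_lit 190)) (XT.nd (nat_lit 78) (nat_lit 0) (nat_lit 0) (XT.lf (nat_lit 0) (nat_lit 2781910612) (nat_lit 608) (nat_lit 7145968523) (nat_lit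 76) (nat_lit 2497182967) (nat_lit 164) (nat_lit 5) (nat_lit 172) (nat_lit 5) (nat_lit 165) (nat_lit 5) (nat_lit 309) (nat_lit 282) (nat_lit 189)) (XT.lf (nat_lit 0) (nat_lit 4608035389) (nat_lit 608) (nat_lit 709266887) (nat_lit 76) (nat_lit 7311217306) (nat_lit 164) (nat_lit 5) (nat_lit 172) (nat_lit 5) (nat_lit 165) (nat_lit 5) (nat_lit 310) (nat_lit 282) (nat_lit 188)))) (XT.nd (nat_lit 156) (nat_lit 988) (nat_lit 0) (XT.nd (nat_lit 78) (nat_lit 0) (nat_lit 0) (XT.lf (nat_lit 0) (nat_lit 6017805701) (nat_lit 532) (nat_lit 509640964) (nat_lit 608) (nat_lit 6309497083) (nat_lit 157) (nat_lit 5) (nat_lit 164) (nat_lit 5) (nat_lit 165) (nat_lit 5) (nat_lit 311) (nat_lit 282) (nat_lit 187)) (XT.lf (nat_lit 0) (nat_lit 8535392983) (nat_lit 608) (nat_lit 153487283) (nat_lit 76) (nat_lit 4361829314) (nat_lit 157) (nat_lit 5) (nat_lit 165) (nat_lit 5) (nat_lit 158) (nat_lit 5) (nat_lit 312) (nat_lit 282)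 (nat_lit 186))) (XT.nd (nat_lit 78) (nat_lit 456) (nat_lit 0) (XT.lf (nat_lit 0) (nat_lit 6820233886) (nat_lit 532) (nat_lit 3835520848) (nat_lit 608) (nat_lit 2613585351) (nat_lit 150) (nat_lit 5) (nat_lit 157) (nat_lit 5) (nat_lit 158) (nat_lit 5) (nat_lit 313) (nat_lit 282) (nat_lit 185)) (XT.lf (nat_lit 0) (nat_lit 489902752) (nat_lit 456) (nat_lit 12349184608) (nat_lit 532) (nat_lit 655477860) (nat_lit 144) (nat_lit 5) (nat_lit 150) (nat_lit 5) (nat_lit 151) (nat_lit 5) (nat_lit 314) (nat_lit 282) (nat_lit 184))))))) (XT.nd (nat_lit 1092) (nat_lit 2128) (nat_lit 0) (XT.nd (nat_lit 546) (nat_lit 1596) (nat_lit 0) (XT.nd (nat_lit 234) (nat_lit 912) (nat_lit 0) (XT.nd (nat_lit 78) (nat_lit 456) (nat_lit 0) (XT.lf (nat_lit 0) (nat_lit 1420595372) (nat_lit 532) (nat_lit 6027479688) (nat_lit 76) (nat_lit 6275521390) (nat_lit 143) (nat_lit 5) (nat_lit 150) (nat_lit 5) (nat_lit 144) (nat_lit 5) (nat_lit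 315) (nat_lit 282) (nat_lit 183)) (XT.nd (nat_lit 78) (nat_lit 0) (nat_lit 0) (XT.lf (nat_lit 0) (nat_lit 1155204865) (nat_lit 456) (nat_lit 2384243240) (nat_lit 532) (nat_lit 10420060778) (nat_lit 137) (nat_lit 5) (nat_lit 143) (nat_lit 5) (nat_lit 144) (nat_lit 5) (nat_lit 316) (nat_lit 282) (nat_lit 182)) (XT.lf (nat_lit 0) (nat_lit 5793414221) (nat_lit 532) (nat_lit 5571740899) (nat_lit 76) (nat_lit 2835211806) (nat_lit 137) (nat_lit 5) (nat_lit 144) (nat_lit 5) (nat_lit 138) (nat_lit 5) (nat_lit 317) (nat_lit 282) (nat_lit 181)))) (XT.nd (nat_lit 156) (nat_lit 532) (nat_lit 0) (XT.nd (nat_lit 78) (nat_lit 0) (nat_lit 0) (XT.lf (nat_lit 0) (nat_lit 1871117819) (nat_lit 380) (nat_lit 6268834685) (nat_lit 456) (nat_lit 6307763857) (nat_lit 132) (nat_lit 5) (nat_lit 137) (nat_lit 5) (nat_lit 138) (nat_lit 5) (nat_lit 318) (nat_lit 282) (nat_lit 180)) (XT.lf (nat_lit 0) (nat_lit 9632082384) (nat_lit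 380) (nat_lit 964726903) (nat_lit 456) (nat_lit 4104493153) (nat_lit 132) (nat_lit 5) (nat_lit 137) (nat_lit 5) (nat_lit 138) (nat_lit 5) (nat_lit 319) (nat_lit 282) (nat_lit 179))) (XT.nd (nat_lit 78) (nat_lit 76) (nat_lit 0) (XT.lf (nat_lit 0) (nat_lit 2652608228) (nat_lit 456) (nat_lit 10527610567) (nat_lit 532) (nat_lit 1780705325) (nat_lit 126) (nat_lit 5) (nat_lit 132) (nat_lit 5) (nat_lit 133) (nat_lit 5) (nat_lit 320) (nat_lit 282) (nat_lit 178)) (XT.lf (nat_lit 0) (nat_lit 646304115) (nat_lit 532) (nat_lit 4552171260) (nat_lit 76) (nat_lit 10028331039) (nat_lit 125) (nat_lit 5) (nat_lit 132) (nat_lit 5) (nat_lit 126) (nat_lit 5) (nat_lit 321) (nat_lit 282) (nat_lit 177))))) (XT.nd (nat_lit 234) (nat_lit 836) (nat_lit 0) (XT.nd (nat_lit 78) (nat_lit 380) (nat_lit 0) (XT.lf (nat_lit 0) (nat_lit 3131609480) (nat_lit 456) (nat_lit 12035037486) (nat_lit 76) (nat_lit 332863294) (nat_lit 120)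 (nat_lit 5) (nat_lit 126) (nat_lit 5) (nat_lit 121) (nat_lit 5) (nat_lit 322) (nat_lit 282) (nat_lit 176)) (XT.nd (nat_lit 78) (nat_lit 380) (nat_lit 0) (XT.lf (nat_lit 0) (nat_lit 5774276853) (nat_lit 456) (nat_lit 4035116889) (nat_lit 76) (nat_lit 5968529327) (nat_lit 120) (nat_lit 5) (nat_lit 126) (nat_lit 5) (nat_lit 121) (nat_lit 5) (nat_lit 323) (nat_lit 282) (nat_lit 175)) (XT.lf (nat_lit 0) (nat_lit 4269565734) (nat_lit 380) (nat_lit 4253049376) (nat_lit 456) (nat_lit 7541293008) (nat_lit 115) (nat_lit 5) (nat_lit 120) (nat_lit 5) (nat_lit 121) (nat_lit 5) (nat_lit 324) (nat_lit 282) (nat_lit 174)))) (XT.nd (nat_lit 156) (nat_lit 456) (nat_lit 0) (XT.nd (nat_lit 78) (nat_lit 380) (nat_lit 0) (XT.lf (nat_lit 0) (nat_lit 11394245318) (nat_lit 456) (nat_lit 3484452827) (nat_lit 76) (nat_lit 1478560566) (nat_lit 115) (nat_lit 5) (nat_lit 121) (nat_lit 5) (nat_lit 116) (nat_lit 5) (nat_lit 325)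 (nat_lit 282) (nat_lit 173)) (XT.lf (nat_lit 0) (nat_lit 5114193698) (nat_lit 380) (nat_lit 9315082640) (nat_lit 456) (nat_lit 2227826844) (nat_lit 110) (nat_lit 5) (nat_lit 115) (nat_lit 5) (nat_lit 116) (nat_lit 5) (nat_lit 326) (nat_lit 282) (nat_lit 172))) (XT.nd (nat_lit 78) (nat_lit 380) (nat_lit 0) (XT.lf (nat_lit 0) (nat_lit 599517901) (nat_lit 456) (nat_lit 2947009613) (nat_lit 76) (nat_lit 13418607665) (nat_lit 109) (nat_lit 5) (nat_lit 115) (nat_lit 5) (nat_lit 110) (nat_lit 5) (nat_lit 327) (nat_lit 282) (nat_lit 171)) (XT.lf (nat_lit 0) (nat_lit 3534669803) (nat_lit 456) (nat_lit 11320535274) (nat_lit 76) (nat_lit 2424518400) (nat_lit 104) (nat_lit 5) (nat_lit 110) (nat_lit 5) (nat_lit 105) (nat_lit 5) (nat_lit 328) (nat_lit 282) (nat_lit 170)))))) (XT.nd (nat_lit 546) (nat_lit 1140) (nat_lit 0) (XT.nd (nat_lit 234) (nat_lit 684) (nat_lit 0) (XT.nd (nat_lit 78) (nat_lit 304) (nat_lit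 0) (XT.lf (nat_lit 0) (nat_lit 6609702379) (nat_lit 456) (nat_lit 2463276710) (nat_lit 76) (nat_lit 8529225253) (nat_lit 104) (nat_lit 5) (nat_lit 110) (nat_lit 5) (nat_lit 105) (nat_lit 5) (nat_lit 329) (nat_lit 282) (nat_lit 169)) (XT.nd (nat_lit 78) (nat_lit 0) (nat_lit 0) (XT.lf (nat_lit 0) (nat_lit 6774423062) (nat_lit 304) (nat_lit 3054729680) (nat_lit 380) (nat_lit 8103651305) (nat_lit 100) (nat_lit 5) (nat_lit 104) (nat_lit 5) (nat_lit 105) (nat_lit 5) (nat_lit 330) (nat_lit 282) (nat_lit 168)) (XT.lf (nat_lit 0) (nat_lit 13187743960) (nat_lit 380) (nat_lit 1980942180) (nat_lit 76) (nat_lit 3103368026) (nat_lit 100) (nat_lit 5) (nat_lit 105) (nat_lit 5) (nat_lit 101) (nat_lit 5) (nat_lit 331) (nat_lit 282) (nat_lit 167)))) (XT.nd (nat_lit 156) (nat_lit 304) (nat_lit 0) (XT.nd (nat_lit 78) (nat_lit 76) (nat_lit 0) (XT.lf (nat_lit 0) (nat_lit 7572203600) (nat_lit 304) (nat_lit 9165509321)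 (nat_lit 380) (nat_lit 1881059145) (nat_lit 96) (nat_lit 5) (nat_lit 100) (nat_lit 5) (nat_lit 101) (nat_lit 5) (nat_lit 332) (nat_lit 282) (nat_lit 166)) (XT.lf (nat_lit 0) (nat_lit 1398470799) (nat_lit 380) (nat_lit 1553790177) (nat_lit 76) (nat_lit 16022994173) (nat_lit 95) (nat_lit 5) (nat_lit 100) (nat_lit 5) (nat_lit 96) (nat_lit 5) (nat_lit 333) (nat_lit 282) (nat_lit 165))) (XT.nd (nat_lit 78) (nat_lit 0) (nat_lit 0) (XT.lf (nat_lit 0) (nat_lit 4840945214) (nat_lit 380) (nat_lit 11022509376) (nat_lit 76) (nat_lit 3475356549) (nat_lit 91) (nat_lit 5) (nat_lit 96) (nat_lit 5) (nat_lit 92) (nat_lit 5) (nat_lit 334) (nat_lit 282) (nat_lit 164)) (XT.lf (nat_lit 0) (nat_lit 8419929115) (nat_lit 380) (nat_lit 1244710105) (nat_lit 76) (nat_lit 10047645417) (nat_lit 91) (nat_lit 5) (nat_lit 96) (nat_lit 5) (nat_lit 92) (nat_lit 5) (nat_lit 335) (nat_lit 282) (nat_lit 163))))) (XT.nd (nat_lit 312)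 (nat_lit 532) (nat_lit 0) (XT.nd (nat_lit 156) (nat_lit 304) (nat_lit 0) (XT.nd (nat_lit 78) (nat_lit 0) (nat_lit 0) (XT.lf (nat_lit 0) (nat_lit 8985382667) (nat_lit 304) (nat_lit 3195777099) (nat_lit 380) (nat_lit 7913563916) (nat_lit 87) (nat_lit 5) (nat_lit 91) (nat_lit 5) (nat_lit 92) (nat_lit 5) (nat_lit 336) (nat_lit 282) (nat_lit 162)) (XT.lf (nat_lit 0) (nat_lit 16089885363) (nat_lit 380) (nat_lit 990335013) (nat_lit 76) (nat_lit 3407383215) (nat_lit 87) (nat_lit 5) (nat_lit 92) (nat_lit 5) (nat_lit 88) (nat_lit 5) (nat_lit 337) (nat_lit 282) (nat_lit 161))) (XT.nd (nat_lit 78) (nat_lit 76) (nat_lit 0) (XT.lf (nat_lit 0) (nat_lit 9571335183) (nat_lit 228) (nat_lit 10657151491) (nat_lit 304) (nat_lit 660412024) (nat_lit 84) (nat_lit 5) (nat_lit 87) (nat_lit 5) (nat_lit 88) (nat_lit 5) (nat_lit 338) (nat_lit 282) (nat_lit 160)) (XT.lf (nat_lit 0) (nat_lit 3125905020) (nat_lit 304) (nat_lit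 878633961) (nat_lit 76) (nat_lit 17296807214) (nat_lit 83) (nat_lit 5) (nat_lit 87) (nat_lit 5) (nat_lit 84) (nat_lit 5) (nat_lit 339) (nat_lit 282) (nat_lit 159)))) (XT.nd (nat_lit 156) (nat_lit 228) (nat_lit 0) (XT.nd (nat_lit 78) (nat_lit 0) (nat_lit 0) (XT.lf (nat_lit 0) (nat_lit 7126806854) (nat_lit 380) (nat_lit 11704396582) (nat_lit 76) (nat_lit 2891346058) (nat_lit 79) (nat_lit 5) (nat_lit 84) (nat_lit 5) (nat_lit 80) (nat_lit 5) (nat_lit 340) (nat_lit 282) (nat_lit 158)) (XT.lf (nat_lit 0) (nat_lit 11285799795) (nat_lit 380) (nat_lit 951759963) (nat_lit 76) (nat_lit 9917693626) (nat_lit 79) (nat_lit 5) (nat_lit 84) (nat_lit 5) (nat_lit 80) (nat_lit 5) (nat_lit 341) (nat_lit 282) (nat_lit 157))) (XT.nd (nat_lit 78) (nat_lit 0) (nat_lit 0) (XT.lf (nat_lit 0) (nat_lit 10309331808) (nat_lit 228) (nat_lit 5349092286) (nat_lit 304) (nat_lit 6939854677) (nat_lit 76) (nat_lit 5) (nat_lit 79) (nat_lit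 5) (nat_lit 80) (nat_lit 5) (nat_lit 342) (nat_lit 282) (nat_lit 156)) (XT.lf (nat_lit 0) (nat_lit 20178583009) (nat_lit 304) (nat_lit 1158825312) (nat_lit 76) (nat_lit 1716701966) (nat_lit 76) (nat_lit 5) (nat_lit 80) (nat_lit 5) (nat_lit 77) (nat_lit 5) (nat_lit 343) (nat_lit 282) (nat_lit 155))))))))
noncomputable def xc158 : XT := (XT.nd (nat_lit 2184) (nat_lit 1520) (nat_lit 0) (XT.nd (nat_lit 1092) (nat_lit 1140) (nat_lit 0) (XT.nd (nat_lit 546) (nat_lit 684) (nat_lit 0) (XT.nd (nat_lit 234) (nat_lit 532) (nat_lit 0) (XT.nd (nat_lit 78) (nat_lit 228) (nat_lit 0) (XT.lf (nat_lit 0) (nat_lit 1430055696) (nat_lit 304) (nat_lit 13092314905) (nat_lit 76) (nat_lit 8996526776) (nat_lit 72) (nat_lit 5) (nat_lit 76) (nat_lit 5) (nat_lit 73) (nat_lit 5) (nat_lit 344) (nat_lit 282) (nat_lit 154)) (XT.nd (nat_lit 78) (nat_lit 228) (nat_lit 0) (XT.lf (nat_lit 0) (nat_lit 5809032345) (nat_lit 304) (nat_lit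 1657567451) (nat_lit 76) (nat_lit 16530119054) (nat_lit 72) (nat_lit 5) (nat_lit 76) (nat_lit 5) (nat_lit 73) (nat_lit 5) (nat_lit 345) (nat_lit 282) (nat_lit 153)) (XT.lf (nat_lit 0) (nat_lit 10306770590) (nat_lit 228) (nat_lit 102171729) (nat_lit 304) (nat_lit 14077251100) (nat_lit 69) (nat_lit 5) (nat_lit 72) (nat_lit 5) (nat_lit 73) (nat_lit 5) (nat_lit 346) (nat_lit 282) (nat_lit 152)))) (XT.nd (nat_lit 156) (nat_lit 304) (nat_lit 0) (XT.nd (nat_lit 78) (nat_lit 228) (nat_lit 0) (XT.lf (nat_lit 0) (nat_lit 15226265203) (nat_lit 304) (nat_lit 2412600455) (nat_lit 76) (nat_lit 7349109313) (nat_lit 69) (nat_lit 5) (nat_lit 73) (nat_lit 5) (nat_lit 70) (nat_lit 5) (nat_lit 347) (nat_lit 282) (nat_lit 151)) (XT.lf (nat_lit 0) (nat_lit 9884862573) (nat_lit 228) (nat_lit 10390129267) (nat_lit 304) (nat_lit 5227216669) (nat_lit 66) (nat_lit 5) (nat_lit 69) (nat_lit 5) (nat_lit 70) (nat_lit 5) (nat_lit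 348) (nat_lit 282) (nat_lit 150))) (XT.nd (nat_lit 78) (nat_lit 304) (nat_lit 0) (XT.lf (nat_lit 0) (nat_lit 22586603373) (nat_lit 228) (nat_lit 2903923413) (nat_lit 304) (nat_lit 540886789) (nat_lit 66) (nat_lit 5) (nat_lit 69) (nat_lit 5) (nat_lit 70) (nat_lit 5) (nat_lit 349) (nat_lit 282) (nat_lit 149)) (XT.lf (nat_lit 0) (nat_lit 4329601897) (nat_lit 304) (nat_lit 17402613852) (nat_lit 76) (nat_lit 4839231531) (nat_lit 62) (nat_lit 5) (nat_lit 66) (nat_lit 5) (nat_lit 63) (nat_lit 5) (nat_lit 350) (nat_lit 282) (nat_lit 148))))) (XT.nd (nat_lit 234) (nat_lit 456) (nat_lit 0) (XT.nd (nat_lit 78) (nat_lit 228) (nat_lit 0) (XT.lf (nat_lit 0) (nat_lit 9390448499) (nat_lit 304) (nat_lit 4943542102) (nat_lit 76) (nat_lit 12791881798) (nat_lit 62) (nat_lit 5) (nat_lit 66) (nat_lit 5) (nat_lit 63) (nat_lit 5) (nat_lit 351) (nat_lit 282) (nat_lit 147)) (XT.nd (nat_lit 78) (nat_lit 0) (nat_lit 0) (XT.lf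 (nat_lit 0) (nat_lit 8032497341) (nat_lit 228) (nat_lit 6639324380) (nat_lit 304) (nat_lit 13023051881) (nat_lit 59) (nat_lit 5) (nat_lit 62) (nat_lit 5) (nat_lit 63) (nat_lit 5) (nat_lit 352) (nat_lit 282) (nat_lit 146)) (XT.lf (nat_lit 0) (nat_lit 20165972697) (nat_lit 304) (nat_lit 6806771687) (nat_lit 76) (nat_lit 1306574600) (nat_lit 59) (nat_lit 5) (nat_lit 63) (nat_lit 5) (nat_lit 60) (nat_lit 5) (nat_lit 353) (nat_lit 282) (nat_lit 145)))) (XT.nd (nat_lit 156) (nat_lit 228) (nat_lit 0) (XT.nd (nat_lit 78) (nat_lit 76) (nat_lit 0) (XT.lf (nat_lit 0) (nat_lit 6482027248) (nat_lit 152) (nat_lit 19462770564) (nat_lit 228) (nat_lit 2932908545) (nat_lit 57) (nat_lit 5) (nat_lit 59) (nat_lit 5) (nat_lit 60) (nat_lit 5) (nat_lit 354) (nat_lit 282) (nat_lit 144)) (XT.lf (nat_lit 0) (nat_lit 2417301249) (nat_lit 228) (nat_lit 9220002437) (nat_lit 76) (nat_lit 17854215119) (nat_lit 56) (nat_lit 5)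 (nat_lit 59) (nat_lit 5) (nat_lit 57) (nat_lit 5) (nat_lit 355) (nat_lit 282) (nat_lit 143))) (XT.nd (nat_lit 78) (nat_lit 0) (nat_lit 0) (XT.lf (nat_lit 0) (nat_lit 4394787922) (nat_lit 228) (nat_lit 3508597496) (nat_lit 304) (nat_lit 22218463314) (nat_lit 53) (nat_lit 5) (nat_lit 56) (nat_lit 5) (nat_lit 57) (nat_lit 5) (nat_lit 356) (nat_lit 282) (nat_lit 142)) (XT.lf (nat_lit 0) (nat_lit 13686965574) (nat_lit 304) (nat_lit 12221890419) (nat_lit 76) (nat_lit 4858248819) (nat_lit 53) (nat_lit 5) (nat_lit 57) (nat_lit 5) (nat_lit 54) (nat_lit 5) (nat_lit 357) (nat_lit 282) (nat_lit 141)))))) (XT.nd (nat_lit 546) (nat_lit 532) (nat_lit 0) (XT.nd (nat_lit 234) (nat_lit 456) (nat_lit 0) (XT.nd (nat_lit 78) (nat_lit 0) (nat_lit 0) (XT.lf (nat_lit 0) (nat_lit 1673794463) (nat_lit 152) (nat_lit 18013448194) (nat_lit 228) (nat_lit 11743183781) (nat_lit 51) (nat_lit 5) (nat_lit 53) (nat_lit 5) (nat_lit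 54) (nat_lit 5) (nat_lit 358) (nat_lit 282) (nat_lit 140)) (XT.nd (nat_lit 78) (nat_lit 0) (nat_lit 0) (XT.lf (nat_lit 0) (nat_lit 16224446046) (nat_lit 152) (nat_lit 9758963430) (nat_lit 228) (nat_lit 6126765242) (nat_lit 51) (nat_lit 5) (nat_lit 53) (nat_lit 5) (nat_lit 54) (nat_lit 5) (nat_lit 359) (nat_lit 282) (nat_lit 139)) (XT.lf (nat_lit 0) (nat_lit 31199538908) (nat_lit 152) (nat_lit 1261606173) (nat_lit 228) (nat_lit 349393200) (nat_lit 51) (nat_lit 5) (nat_lit 53) (nat_lit 5) (nat_lit 54) (nat_lit 5) (nat_lit 360) (nat_lit 282) (nat_lit 138)))) (XT.nd (nat_lit 156) (nat_lit 152) (nat_lit 0) (XT.nd (nat_lit 78) (nat_lit 0) (nat_lit 0) (XT.lf (nat_lit 0) (nat_lit 5686287540) (nat_lit 304) (nat_lit 20314937718) (nat_lit 76) (nat_lit 7523246683) (nat_lit 47) (nat_lit 5) (nat_lit 51) (nat_lit 5) (nat_lit 48) (nat_lit 5) (nat_lit 361) (nat_lit 282) (nat_lit 137)) (XT.lf (nat_lit 0) (nat_lit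 11917810839) (nat_lit 304) (nat_lit 5779665992) (nat_lit 76) (nat_lit 16561592222) (nat_lit 47) (nat_lit 5) (nat_lit 51) (nat_lit 5) (nat_lit 48) (nat_lit 5) (nat_lit 362) (nat_lit 282) (nat_lit 136))) (XT.nd (nat_lit 78) (nat_lit 0) (nat_lit 0) (XT.lf (nat_lit 0) (nat_lit 9362786345) (nat_lit 152) (nat_lit 9056576301) (nat_lit 228) (nat_lit 16593851924) (nat_lit 45) (nat_lit 5) (nat_lit 47) (nat_lit 5) (nat_lit 48) (nat_lit 5) (nat_lit 363) (nat_lit 282) (nat_lit 135)) (XT.lf (nat_lit 0) (nat_lit 25066524037) (nat_lit 152) (nat_lit 100973524) (nat_lit 228) (nat_lit 10620943680) (nat_lit 45) (nat_lit 5) (nat_lit 47) (nat_lit 5) (nat_lit 48) (nat_lit 5) (nat_lit 364) (nat_lit 282) (nat_lit 134))))) (XT.nd (nat_lit 234) (nat_lit 304) (nat_lit 0) (XT.nd (nat_lit 78) (nat_lit 76) (nat_lit 0) (XT.lf (nat_lit 0) (nat_lit 4646122927) (nat_lit 152) (nat_lit 27597642493) (nat_lit 228) (nat_lit 4339391430)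 (nat_lit 43) (nat_lit 5) (nat_lit 45) (nat_lit 5) (nat_lit 46) (nat_lit 5) (nat_lit 365) (nat_lit 282) (nat_lit 133)) (XT.nd (nat_lit 78) (nat_lit 0) (nat_lit 0) (XT.lf (nat_lit 0) (nat_lit 2192721410) (nat_lit 228) (nat_lit 16737339628) (nat_lit 76) (nat_lit 18467930414) (nat_lit 42) (nat_lit 5) (nat_lit 45) (nat_lit 5) (nat_lit 43) (nat_lit 5) (nat_lit 366) (nat_lit 282) (nat_lit 132)) (XT.lf (nat_lit 0) (nat_lit 8827121706) (nat_lit 228) (nat_lit 1135603672) (nat_lit 76) (nat_lit 28273453106) (nat_lit 42) (nat_lit 5) (nat_lit 45) (nat_lit 5) (nat_lit 43) (nat_lit 5) (nat_lit 367) (nat_lit 282) (nat_lit 131)))) (XT.nd (nat_lit 156) (nat_lit 152) (nat_lit 0) (XT.nd (nat_lit 78) (nat_lit 0) (nat_lit 0) (XT.lf (nat_lit 0) (nat_lit 15220526712) (nat_lit 152) (nat_lit 580065964) (nat_lit 228) (nat_lit 23294719781) (nat_lit 40) (nat_lit 5) (nat_lit 42) (nat_lit 5) (nat_lit 43) (nat_lit 5) (nat_lit 368)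 (nat_lit 282) (nat_lit 130)) (XT.lf (nat_lit 0) (nat_lit 23075939106) (nat_lit 228) (nat_lit 7987398331) (nat_lit 76) (nat_lit 8914105291) (nat_lit 40) (nat_lit 5) (nat_lit 43) (nat_lit 5) (nat_lit 41) (nat_lit 5) (nat_lit 369) (nat_lit 282) (nat_lit 129))) (XT.nd (nat_lit 78) (nat_lit 0) (nat_lit 0) (XT.lf (nat_lit 0) (nat_lit 8526862653) (nat_lit 152) (nat_lit 22124342166) (nat_lit 228) (nat_lit 10232384668) (nat_lit 38) (nat_lit 5) (nat_lit 40) (nat_lit 5) (nat_lit 41) (nat_lit 5) (nat_lit 370) (nat_lit 282) (nat_lit 128)) (XT.lf (nat_lit 0) (nat_lit 25689992583) (nat_lit 152) (nat_lit 12838420493) (nat_lit 228) (nat_lit 3286269315) (nat_lit 38) (nat_lit 5) (nat_lit 40) (nat_lit 5) (nat_lit 41) (nat_lit 5) (nat_lit 371) (nat_lit 282) (nat_lit 127))))))) (XT.nd (nat_lit 1092) (nat_lit 684) (nat_lit 0) (XT.nd (nat_lit 546) (nat_lit 304) (nat_lit 0) (XT.nd (nat_lit 234) (nat_lit 304) (nat_lit 0)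 (XT.nd (nat_lit 78) (nat_lit 0) (nat_lit 0) (XT.lf (nat_lit 0) (nat_lit 557899501) (nat_lit 152) (nat_lit 3234351663) (nat_lit 228) (nat_lit 38980358410) (nat_lit 35) (nat_lit 5) (nat_lit 37) (nat_lit 5) (nat_lit 38) (nat_lit 5) (nat_lit 372) (nat_lit 282) (nat_lit 126)) (XT.nd (nat_lit 78) (nat_lit 0) (nat_lit 0) (XT.lf (nat_lit 0) (nat_lit 11239691244) (nat_lit 228) (nat_lit 25791179099) (nat_lit 76) (nat_lit 6720751753) (nat_lit 35) (nat_lit 5) (nat_lit 38) (nat_lit 5) (nat_lit 36) (nat_lit 5) (nat_lit 373) (nat_lit 282) (nat_lit 125)) (XT.lf (nat_lit 0) (nat_lit 18936923067) (nat_lit 228) (nat_lit 8916817402) (nat_lit 76) (nat_lit 16905475495) (nat_lit 35) (nat_lit 5) (nat_lit 38) (nat_lit 5) (nat_lit 36) (nat_lit 5) (nat_lit 374) (nat_lit 282) (nat_lit 124)))) (XT.nd (nat_lit 156) (nat_lit 152) (nat_lit 0) (XT.nd (nat_lit 78) (nat_lit 0) (nat_lit 0) (XT.lf (nat_lit 0) (nat_lit 8622465529) (nat_lit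 152) (nat_lit 18320000686) (nat_lit 228) (nat_lit 18852251567) (nat_lit 33) (nat_lit 5) (nat_lit 35) (nat_lit 5) (nat_lit 36) (nat_lit 5) (nat_lit 375) (nat_lit 282) (nat_lit 123)) (XT.lf (nat_lit 0) (nat_lit 26861241763) (nat_lit 152) (nat_lit 8411555085) (nat_lit 228) (nat_lit 11585951078) (nat_lit 33) (nat_lit 5) (nat_lit 35) (nat_lit 5) (nat_lit 36) (nat_lit 5) (nat_lit 376) (nat_lit 282) (nat_lit 122))) (XT.nd (nat_lit 78) (nat_lit 152) (nat_lit 0) (XT.lf (nat_lit 0) (nat_lit 43864982730) (nat_lit 228) (nat_lit 2334081395) (nat_lit 76) (nat_lit 1755278344) (nat_lit 33) (nat_lit 5) (nat_lit 36) (nat_lit 5) (nat_lit 34) (nat_lit 4) (nat_lit 377) (nat_lit 282) (nat_lit 121)) (XT.lf (nat_lit 0) (nat_lit 3796269410) (nat_lit 152) (nat_lit 33032333519) (nat_lit 76) (nat_lit 12246105761) (nat_lit 31) (nat_lit 5) (nat_lit 33) (nat_lit 5) (nat_lit 32) (nat_lit 5) (nat_lit 378) (nat_lit 282) (nat_lit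 120))))) (XT.nd (nat_lit 234) (nat_lit 152) (nat_lit 0) (XT.nd (nat_lit 78) (nat_lit 152) (nat_lit 0) (XT.lf (nat_lit 0) (nat_lit 11854943444) (nat_lit 152) (nat_lit 15259790186) (nat_lit 76) (nat_lit 23112179256) (nat_lit 31) (nat_lit 5) (nat_lit 33) (nat_lit 5) (nat_lit 32) (nat_lit 5) (nat_lit 379) (nat_lit 282) (nat_lit 119)) (XT.nd (nat_lit 78) (nat_lit 0) (nat_lit 0) (XT.lf (nat_lit 0) (nat_lit 3097577127) (nat_lit 152) (nat_lit 17082591023) (nat_lit 228) (nat_lit 31232772992) (nat_lit 29) (nat_lit 5) (nat_lit 31) (nat_lit 5) (nat_lit 32) (nat_lit 5) (nat_lit 380) (nat_lit 282) (nat_lit 118)) (XT.lf (nat_lit 0) (nat_lit 22309765239) (nat_lit 152) (nat_lit 6594554432) (nat_lit 228) (nat_lit 23725757072) (nat_lit 29) (nat_lit 5) (nat_lit 31) (nat_lit 5) (nat_lit 32) (nat_lit 5) (nat_lit 381) (nat_lit 282) (nat_lit 117)))) (XT.nd (nat_lit 156) (nat_lit 76) (nat_lit 0) (XT.nd (nat_lit 78) (nat_lit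 76) (nat_lit 0) (XT.lf (nat_lit 0) (nat_lit 37925830976) (nat_lit 228) (nat_lit 11834425337) (nat_lit 76) (nat_lit 4122402593) (nat_lit 29) (nat_lit 5) (nat_lit 32) (nat_lit 5) (nat_lit 30) (nat_lit 4) (nat_lit 382) (nat_lit 282) (nat_lit 116)) (XT.lf (nat_lit 0) (nat_lit 7274376744) (nat_lit 76) (nat_lit 40074153704) (nat_lit 152) (nat_lit 7820373308) (nat_lit 28) (nat_lit 5) (nat_lit 29) (nat_lit 5) (nat_lit 30) (nat_lit 4) (nat_lit 383) (nat_lit 282) (nat_lit 115))) (XT.nd (nat_lit 78) (nat_lit 0) (nat_lit 0) (XT.lf (nat_lit 0) (nat_lit 665265927) (nat_lit 152) (nat_lit 29306011847) (nat_lit 76) (nat_lit 26518817395) (nat_lit 27) (nat_lit 5) (nat_lit 29) (nat_lit 5) (nat_lit 28) (nat_lit 5) (nat_lit 384) (nat_lit 282) (nat_lit 114)) (XT.lf (nat_lit 0) (nat_lit 9243762775) (nat_lit 152) (nat_lit 10245358121) (nat_lit 76) (nat_lit 38359615818) (nat_lit 27) (nat_lit 5) (nat_lit 29) (nat_lit 5) (nat_lit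 28) (nat_lit 5) (nat_lit 385) (nat_lit 282) (nat_lit 113)))))) (XT.nd (nat_lit 546) (nat_lit 228) (nat_lit 0) (XT.nd (nat_lit 234) (nat_lit 304) (nat_lit 0) (XT.nd (nat_lit 78) (nat_lit 0) (nat_lit 0) (XT.lf (nat_lit 0) (nat_lit 9565929049) (nat_lit 152) (nat_lit 8601241174) (nat_lit 228) (nat_lit 41078341952) (nat_lit 25) (nat_lit 5) (nat_lit 27) (nat_lit 5) (nat_lit 28) (nat_lit 5) (nat_lit 386) (nat_lit 282) (nat_lit 112)) (XT.nd (nat_lit 78) (nat_lit 0) (nat_lit 0) (XT.lf (nat_lit 0) (nat_lit 27483505169) (nat_lit 228) (nat_lit 30533530839) (nat_lit 76) (nat_lit 2663399432) (nat_lit 25) (nat_lit 5) (nat_lit 28) (nat_lit 5) (nat_lit 26) (nat_lit 4) (nat_lit 387) (nat_lit 282) (nat_lit 111)) (XT.lf (nat_lit 0) (nat_lit 37160240979) (nat_lit 228) (nat_lit 10905902038) (nat_lit 76) (nat_lit 14089837324) (nat_lit 25) (nat_lit 5) (nat_lit 28) (nat_lit 5) (nat_lit 26) (nat_lit 4) (nat_lit 388) (nat_lit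 282) (nat_lit 110)))) (XT.nd (nat_lit 156) (nat_lit 228) (nat_lit 0) (XT.nd (nat_lit 78) (nat_lit 0) (nat_lit 0) (XT.lf (nat_lit 0) (nat_lit 9488284632) (nat_lit 76) (nat_lit 37726075226) (nat_lit 152) (nat_lit 16458820526) (nat_lit 24) (nat_lit 5) (nat_lit 25) (nat_lit 5) (nat_lit 26) (nat_lit 4) (nat_lit 389) (nat_lit 282) (nat_lit 109)) (XT.lf (nat_lit 0) (nat_lit 30710508361) (nat_lit 76) (nat_lit 26965645507) (nat_lit 152) (nat_lit 7556562203) (nat_lit 24) (nat_lit 5) (nat_lit 25) (nat_lit 5) (nat_lit 26) (nat_lit 4) (nat_lit 390) (nat_lit 282) (nat_lit 108))) (XT.nd (nat_lit 78) (nat_lit 152) (nat_lit 0) (XT.lf (nat_lit 0) (nat_lit 1577294792) (nat_lit 152) (nat_lit 14292357392) (nat_lit 76) (nat_lit 50969041626) (nat_lit 23) (nat_lit 5) (nat_lit 25) (nat_lit 5) (nat_lit 24) (nat_lit 5) (nat_lit 391) (nat_lit 282) (nat_lit 107)) (XT.lf (nat_lit 0) (nat_lit 6591183382) (nat_lit 152) (nat_lit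 4301581392) (nat_lit 228) (nat_lit 57596058372) (nat_lit 21) (nat_lit 5) (nat_lit 23) (nat_lit 5) (nat_lit 24) (nat_lit 5) (nat_lit 392) (nat_lit 282) (nat_lit 106))))) (XT.nd (nat_lit 312) (nat_lit 152) (nat_lit 0) (XT.nd (nat_lit 156) (nat_lit 76) (nat_lit 0) (XT.nd (nat_lit 78) (nat_lit 0) (nat_lit 0) (XT.lf (nat_lit 0) (nat_lit 20702773305) (nat_lit 228) (nat_lit 41871554765) (nat_lit 76) (nat_lit 7607677116) (nat_lit 21) (nat_lit 5) (nat_lit 24) (nat_lit 5) (nat_lit 22) (nat_lit 4) (nat_lit 393) (nat_lit 282) (nat_lit 105)) (XT.lf (nat_lit 0) (nat_lit 30845919365) (nat_lit 228) (nat_lit 21294095539) (nat_lit 76) (nat_lit 19784803691) (nat_lit 21) (nat_lit 5) (nat_lit 24) (nat_lit 5) (nat_lit 22) (nat_lit 4) (nat_lit 394) (nat_lit 282) (nat_lit 104))) (XT.nd (nat_lit 78) (nat_lit 76) (nat_lit 0) (XT.lf (nat_lit 0) (nat_lit 41289716467) (nat_lit 228) (nat_lit 105932350) (nat_lit 76) (nat_lit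 32324377885) (nat_lit 21) (nat_lit 5) (nat_lit 24) (nat_lit 5) (nat_lit 22) (nat_lit 4) (nat_lit 395) (nat_lit 282) (nat_lit 103)) (XT.lf (nat_lit 0) (nat_lit 22143549131) (nat_lit 76) (nat_lit 30112598468) (nat_lit 152) (nat_lit 23306664818) (nat_lit 20) (nat_lit 5) (nat_lit 21) (nat_lit 5) (nat_lit 22) (nat_lit 4) (nat_lit 396) (nat_lit 282) (nat_lit 102)))) (XT.nd (nat_lit 156) (nat_lit 152) (nat_lit 0) (XT.nd (nat_lit 78) (nat_lit 0) (nat_lit 0) (XT.lf (nat_lit 0) (nat_lit 45056322572) (nat_lit 76) (nat_lit 18492823430) (nat_lit 152) (nat_lit 13911809409) (nat_lit 20) (nat_lit 5) (nat_lit 21) (nat_lit 5) (nat_lit 22) (nat_lit 4) (nat_lit 397) (nat_lit 282) (nat_lit 101)) (XT.lf (nat_lit 0) (nat_lit 68650300583) (nat_lit 76) (nat_lit 6527240210) (nat_lit 152) (nat_lit 4238604622) (nat_lit 20) (nat_lit 5) (nat_lit 21) (nat_lit 5) (nat_lit 22) (nat_lit 4) (nat_lit 398) (nat_lit 282) (nat_lit 100)))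 (XT.nd (nat_lit 78) (nat_lit 0) (nat_lit 0) (XT.lf (nat_lit 0) (nat_lit 5779477889) (nat_lit 152) (nat_lit 69793320983) (nat_lit 76) (nat_lit 5850550409) (nat_lit 18) (nat_lit 5) (nat_lit 20) (nat_lit 5) (nat_lit 19) (nat_lit 4) (nat_lit 399) (nat_lit 282) (nat_lit 99)) (XT.lf (nat_lit 0) (nat_lit 16184012428) (nat_lit 152) (nat_lit 48682789544) (nat_lit 76) (nat_lit 18617576093) (nat_lit 18) (nat_lit 5) (nat_lit 20) (nat_lit 5) (nat_lit 19) (nat_lit 4) (nat_lit 400) (nat_lit 282) (nat_lit 98))))))))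
noncomputable def xc159 : XT := (XT.nd (nat_lit 32838) (nat_lit 0) (nat_lit 6764) (XT.nd (nat_lit 31746) (nat_lit 0) (nat_lit 14972) (XT.nd (nat_lit 546) (nat_lit 0) (nat_lit 0) (XT.nd (nat_lit 234) (nat_lit 152) (nat_lit 0) (XT.nd (nat_lit 78) (nat_lit 76) (nat_lit 0) (XT.lf (nat_lit 0) (nat_lit 26897464431) (nat_lit 152) (nat_lit 26944844772) (nat_lit 76) (nat_lit 31765025879) (nat_lit 18) (nat_lit 5) (nat_lit 20) (nat_lit 5) (nat_lit 19) (nat_lit 4) (nat_lit 401) (nat_lit 282) (nat_lit 97)) (XT.nd (nat_lit 78) (nat_lit 76) (nat_lit 0) (XT.lf (nat_lit 0) (nat_lit 37929195165) (nat_lit 152) (nat_lit 4560492345) (nat_lit 76) (nat_lit 45304387829) (nat_lit 18) (nat_lit 5) (nat_lit 20) (nat_lit 5) (nat_lit 19) (nat_lit 4) (nat_lit 402) (nat_lit 282) (nat_lit 96)) (XT.lf (nat_lit 0) (nat_lit 18857810687) (nat_lit 76) (nat_lit 30612306133) (nat_lit 152) (nat_lit 40570954579) (nat_lit 17) (nat_lit 5)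 (nat_lit 18) (nat_lit 5) (nat_lit 19) (nat_lit 4) (nat_lit 403) (nat_lit 282) (nat_lit 95)))) (XT.nd (nat_lit 156) (nat_lit 152) (nat_lit 0) (XT.nd (nat_lit 78) (nat_lit 0) (nat_lit 0) (XT.lf (nat_lit 0) (nat_lit 43066639204) (nat_lit 76) (nat_lit 18333680542) (nat_lit 152) (nat_lit 30953866726) (nat_lit 17) (nat_lit 5) (nat_lit 18) (nat_lit 5) (nat_lit 19) (nat_lit 4) (nat_lit 404) (nat_lit 282) (nat_lit 94)) (XT.lf (nat_lit 0) (nat_lit 67996383811) (nat_lit 76) (nat_lit 5689133873) (nat_lit 152) (nat_lit 21051265365) (nat_lit 17) (nat_lit 5) (nat_lit 18) (nat_lit 5) (nat_lit 19) (nat_lit 4) (nat_lit 405) (nat_lit 282) (nat_lit 93))) (XT.nd (nat_lit 78) (nat_lit 152) (nat_lit 0) (XT.lf (nat_lit 0) (nat_lit 86406928619) (nat_lit 152) (nat_lit 3592598579) (nat_lit 0) (nat_lit 7189301313) (nat_lit 17) (nat_lit 5) (nat_lit 19) (nat_lit 4) (nat_lit 17) (nat_lit 4) (nat_lit 406) (nat_lit 282) (nat_lit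 92)) (XT.lf (nat_lit 0) (nat_lit 53511043) (nat_lit 152) (nat_lit 79117425786) (nat_lit 76) (nat_lit 20535938880) (nat_lit 15) (nat_lit 5) (nat_lit 17) (nat_lit 5) (nat_lit 16) (nat_lit 4) (nat_lit 407) (nat_lit 282) (nat_lit 91))))) (XT.nd (nat_lit 30888) (nat_lit 0) (nat_lit 16720) (XT.nd (nat_lit 78) (nat_lit 0) (nat_lit 0) (XT.lf (nat_lit 0) (nat_lit 11031154410) (nat_lit 152) (nat_lit 56840990235) (nat_lit 76) (nat_lit 34424101504) (nat_lit 15) (nat_lit 5) (nat_lit 17) (nat_lit 5) (nat_lit 16) (nat_lit 4) (nat_lit 408) (nat_lit 282) (nat_lit 90)) (XT.nd (nat_lit 78) (nat_lit 0) (nat_lit 0) (XT.lf (nat_lit 0) (nat_lit 22335445743) (nat_lit 152) (nat_lit 33901221048) (nat_lit 76) (nat_lit 48726711973) (nat_lit 15) (nat_lit 5) (nat_lit 17) (nat_lit 5) (nat_lit 16) (nat_lit 4) (nat_lit 409) (nat_lit 282) (nat_lit 89)) (XT.lf (nat_lit 0) (nat_lit 33976262577) (nat_lit 152) (nat_lit 10278073765)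 (nat_lit 76) (nat_lit 63456267714) (nat_lit 15) (nat_lit 5) (nat_lit 17) (nat_lit 5) (nat_lit 16) (nat_lit 4) (nat_lit 410) (nat_lit 282) (nat_lit 88)))) (XT.nd (nat_lit 156) (nat_lit 0) (nat_lit 0) (XT.nd (nat_lit 78) (nat_lit 0) (nat_lit 0) (XT.lf (nat_lit 0) (nat_lit 238655410) (nat_lit 0) (nat_lit 238655410) (nat_lit 988) (nat_lit 3887135657) (nat_lit 235) (nat_lit 5) (nat_lit 235) (nat_lit 3) (nat_lit 248) (nat_lit 3) (nat_lit 283) (nat_lit 283) (nat_lit 214)) (XT.lf (nat_lit 0) (nat_lit 1928904216) (nat_lit 988) (nat_lit 4238458218) (nat_lit 1064) (nat_lit 2662607084) (nat_lit 235) (nat_lit 5) (nat_lit 248) (nat_lit 3) (nat_lit 249) (nat_lit 5) (nat_lit 284) (nat_lit 283) (nat_lit 213))) (XT.nd (nat_lit 78) (nat_lit 0) (nat_lit 76) (XT.lf (nat_lit 0) (nat_lit 2900870371) (nat_lit 988) (nat_lit 129199226) (nat_lit 1064) (nat_lit 5904996415) (nat_lit 235) (nat_lit 5) (nat_lit 248) (nat_lit 3)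 (nat_lit 249) (nat_lit 5) (nat_lit 285) (nat_lit 283) (nat_lit 212)) (XT.lf (nat_lit 0) (nat_lit 3909312170) (nat_lit 988) (nat_lit 4880038023) (nat_lit 1064) (nat_lit 253785793) (nat_lit 236) (nat_lit 5) (nat_lit 249) (nat_lit 5) (nat_lit 250) (nat_lit 5) (nat_lit 286) (nat_lit 283) (nat_lit 211)))))) (XT.nd (nat_lit 546) (nat_lit 912) (nat_lit 0) (XT.nd (nat_lit 234) (nat_lit 912) (nat_lit 0) (XT.nd (nat_lit 78) (nat_lit 0) (nat_lit 0) (XT.lf (nat_lit 0) (nat_lit 4945106198) (nat_lit 988) (nat_lit 617607822) (nat_lit 1064) (nat_lit 3591859987) (nat_lit 236) (nat_lit 5) (nat_lit 249) (nat_lit 5) (nat_lit 250) (nat_lit 5) (nat_lit 287) (nat_lit 283) (nat_lit 210)) (XT.nd (nat_lit 78) (nat_lit 0) (nat_lit 76) (XT.lf (nat_lit 76) (nat_lit 3827977552) (nat_lit 0) (nat_lit 2187570747) (nat_lit 1064) (nat_lit 3253737429) (nat_lit 237) (nat_lit 5) (nat_lit 236) (nat_lit 5) (nat_lit 250) (nat_lit 5) (nat_lit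 288) (nat_lit 283) (nat_lit 209)) (XT.lf (nat_lit 0) (nat_lit 7104478295) (nat_lit 988) (nat_lit 1000473518) (nat_lit 1064) (nat_lit 1282932431) (nat_lit 237) (nat_lit 5) (nat_lit 250) (nat_lit 5) (nat_lit 251) (nat_lit 5) (nat_lit 289) (nat_lit 283) (nat_lit 208)))) (XT.nd (nat_lit 156) (nat_lit 988) (nat_lit 0) (XT.nd (nat_lit 78) (nat_lit 0) (nat_lit 0) (XT.lf (nat_lit 76) (nat_lit 3602455082) (nat_lit 0) (nat_lit 4648537639) (nat_lit 1064) (nat_lit 1258336115) (nat_lit 238) (nat_lit 5) (nat_lit 237) (nat_lit 5) (nat_lit 251) (nat_lit 5) (nat_lit 290) (nat_lit 283) (nat_lit 207)) (XT.lf (nat_lit 76) (nat_lit 8344405226) (nat_lit 0) (nat_lit 1066954154) (nat_lit 1064) (nat_lit 223708260) (nat_lit 238) (nat_lit 5) (nat_lit 237) (nat_lit 5) (nat_lit 251) (nat_lit 5) (nat_lit 291) (nat_lit 283) (nat_lit 206))) (XT.nd (nat_lit 78) (nat_lit 0) (nat_lit 0) (XT.lf (nat_lit 0) (nat_lit 854856236) (nat_lit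 1064) (nat_lit 6285284339) (nat_lit 1140) (nat_lit 2623348000) (nat_lit 224) (nat_lit 5) (nat_lit 238) (nat_lit 5) (nat_lit 239) (nat_lit 5) (nat_lit 292) (nat_lit 283) (nat_lit 205)) (XT.lf (nat_lit 0) (nat_lit 1955711400) (nat_lit 1064) (nat_lit 1512137486) (nat_lit 1140) (nat_lit 6428045547) (nat_lit 224) (nat_lit 5) (nat_lit 238) (nat_lit 5) (nat_lit 239) (nat_lit 5) (nat_lit 293) (nat_lit 283) (nat_lit 204))))) (XT.nd (nat_lit 234) (nat_lit 988) (nat_lit 0) (XT.nd (nat_lit 78) (nat_lit 0) (nat_lit 0) (XT.lf (nat_lit 0) (nat_lit 3097764601) (nat_lit 1064) (nat_lit 6583894411) (nat_lit 1140) (nat_lit 350399006) (nat_lit 225) (nat_lit 5) (nat_lit 239) (nat_lit 5) (nat_lit 240) (nat_lit 5) (nat_lit 294) (nat_lit 283) (nat_lit 203)) (XT.nd (nat_lit 78) (nat_lit 0) (nat_lit 0) (XT.lf (nat_lit 0) (nat_lit 4296110252) (nat_lit 1064) (nat_lit 1638668140) (nat_lit 1140) (nat_lit 4236897020) (nat_lit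 225) (nat_lit 5) (nat_lit 239) (nat_lit 5) (nat_lit 240) (nat_lit 5) (nat_lit 295) (nat_lit 283) (nat_lit 202)) (XT.lf (nat_lit 76) (nat_lit 3503272035) (nat_lit 0) (nat_lit 2033892266) (nat_lit 1140) (nat_lit 4778143245) (nat_lit 226) (nat_lit 5) (nat_lit 225) (nat_lit 5) (nat_lit 240) (nat_lit 5) (nat_lit 296) (nat_lit 283) (nat_lit 201)))) (XT.nd (nat_lit 156) (nat_lit 1064) (nat_lit 0) (XT.nd (nat_lit 78) (nat_lit 0) (nat_lit 0) (XT.lf (nat_lit 0) (nat_lit 6824971427) (nat_lit 1064) (nat_lit 1669614854) (nat_lit 1140) (nat_lit 1968404834) (nat_lit 226) (nat_lit 5) (nat_lit 240) (nat_lit 5) (nat_lit 241) (nat_lit 5) (nat_lit 297) (nat_lit 283) (nat_lit 200)) (XT.lf (nat_lit 76) (nat_lit 3658240217) (nat_lit 0) (nat_lit 4522978899) (nat_lit 1140) (nat_lit 2433019182) (nat_lit 227) (nat_lit 5) (nat_lit 226) (nat_lit 5) (nat_lit 241) (nat_lit 5) (nat_lit 298) (nat_lit 283) (nat_lit 199))) (XT.nd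 (nat_lit 78) (nat_lit 1064) (nat_lit 0) (XT.lf (nat_lit 76) (nat_lit 9160267229) (nat_lit 0) (nat_lit 409801831) (nat_lit 1140) (nat_lit 1200222893) (nat_lit 227) (nat_lit 5) (nat_lit 226) (nat_lit 5) (nat_lit 241) (nat_lit 5) (nat_lit 299) (nat_lit 283) (nat_lit 198)) (XT.lf (nat_lit 0) (nat_lit 118927810) (nat_lit 1140) (nat_lit 7014865767) (nat_lit 76) (nat_lit 3795716726) (nat_lit 212) (nat_lit 5) (nat_lit 227) (nat_lit 5) (nat_lit 213) (nat_lit 5) (nat_lit 300) (nat_lit 283) (nat_lit 197))))))) (XT.nd (nat_lit 1092) (nat_lit 3496) (nat_lit 0) (XT.nd (nat_lit 546) (nat_lit 2204) (nat_lit 0) (XT.nd (nat_lit 234) (nat_lit 1368) (nat_lit 0) (XT.nd (nat_lit 78) (nat_lit 1140) (nat_lit 0) (XT.lf (nat_lit 0) (nat_lit 1450088849) (nat_lit 1140) (nat_lit 1491473922) (nat_lit 76) (nat_lit 8151713410) (nat_lit 212) (nat_lit 5) (nat_lit 227) (nat_lit 5) (nat_lit 213) (nat_lit 5) (nat_lit 301) (nat_lit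 283) (nat_lit 196)) (XT.nd (nat_lit 78) (nat_lit 0) (nat_lit 0) (XT.lf (nat_lit 0) (nat_lit 2852592160) (nat_lit 1216) (nat_lit 7014167612) (nat_lit 76) (nat_lit 1394276586) (nat_lit 197) (nat_lit 5) (nat_lit 213) (nat_lit 5) (nat_lit 198) (nat_lit 5) (nat_lit 302) (nat_lit 283) (nat_lit 195)) (XT.lf (nat_lit 0) (nat_lit 4318801846) (nat_lit 1216) (nat_lit 1295073932) (nat_lit 76) (nat_lit 5819327486) (nat_lit 197) (nat_lit 5) (nat_lit 213) (nat_lit 5) (nat_lit 198) (nat_lit 5) (nat_lit 303) (nat_lit 283) (nat_lit 194)))) (XT.nd (nat_lit 156) (nat_lit 608) (nat_lit 0) (XT.nd (nat_lit 78) (nat_lit 0) (nat_lit 0) (XT.lf (nat_lit 0) (nat_lit 4666895085) (nat_lit 760) (nat_lit 1184921855) (nat_lit 836) (nat_lit 5758055857) (nat_lit 187) (nat_lit 5) (nat_lit 197) (nat_lit 5) (nat_lit 198) (nat_lit 5) (nat_lit 304) (nat_lit 283) (nat_lit 193)) (XT.lf (nat_lit 0) (nat_lit 7454921829) (nat_lit 836) (nat_lit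 1010029682) (nat_lit 76) (nat_lit 3326189473) (nat_lit 187) (nat_lit 5) (nat_lit 198) (nat_lit 5) (nat_lit 188) (nat_lit 5) (nat_lit 305) (nat_lit 283) (nat_lit 192))) (XT.nd (nat_lit 78) (nat_lit 0) (nat_lit 0) (XT.lf (nat_lit 0) (nat_lit 5170397878) (nat_lit 608) (nat_lit 3976214441) (nat_lit 684) (nat_lit 2830041043) (nat_lit 179) (nat_lit 5) (nat_lit 187) (nat_lit 5) (nat_lit 188) (nat_lit 5) (nat_lit 306) (nat_lit 283) (nat_lit 191)) (XT.lf (nat_lit 0) (nat_lit 10885067185) (nat_lit 684) (nat_lit 636927468) (nat_lit 76) (nat_lit 645876361) (nat_lit 179) (nat_lit 5) (nat_lit 188) (nat_lit 5) (nat_lit 180) (nat_lit 5) (nat_lit 307) (nat_lit 283) (nat_lit 190))))) (XT.nd (nat_lit 234) (nat_lit 1064) (nat_lit 0) (XT.nd (nat_lit 78) (nat_lit 532) (nat_lit 0) (XT.lf (nat_lit 0) (nat_lit 380441494) (nat_lit 608) (nat_lit 6595135033) (nat_lit 76) (nat_lit 5386908468) (nat_lit 171) (nat_lit 5) (nat_lit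 179) (nat_lit 5) (nat_lit 172) (nat_lit 5) (nat_lit 308) (nat_lit 283) (nat_lit 189)) (XT.nd (nat_lit 78) (nat_lit 532) (nat_lit 0) (XT.lf (nat_lit 0) (nat_lit 2054567977) (nat_lit 608) (nat_lit 218453720) (nat_lit 76) (nat_lit 10289950246) (nat_lit 171) (nat_lit 5) (nat_lit 179) (nat_lit 5) (nat_lit 172) (nat_lit 5) (nat_lit 309) (nat_lit 283) (nat_lit 188)) (XT.lf (nat_lit 0) (nat_lit 3847151071) (nat_lit 608) (nat_lit 6337195678) (nat_lit 76) (nat_lit 2583097814) (nat_lit 164) (nat_lit 5) (nat_lit 172) (nat_lit 5) (nat_lit 165) (nat_lit 5) (nat_lit 310) (nat_lit 283) (nat_lit 187)))) (XT.nd (nat_lit 156) (nat_lit 532) (nat_lit 0) (XT.nd (nat_lit 78) (nat_lit 0) (nat_lit 0) (XT.lf (nat_lit 0) (nat_lit 268036829) (nat_lit 532) (nat_lit 5434003669) (nat_lit 608) (nat_lit 7275772518) (nat_lit 157) (nat_lit 5) (nat_lit 164) (nat_lit 5) (nat_lit 165) (nat_lit 5) (nat_lit 311) (nat_lit 283) (nat_lit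 186)) (XT.lf (nat_lit 0) (nat_lit 7181952493) (nat_lit 532) (nat_lit 476197430) (nat_lit 608) (nat_lit 5534992411) (nat_lit 157) (nat_lit 5) (nat_lit 164) (nat_lit 5) (nat_lit 165) (nat_lit 5) (nat_lit 312) (nat_lit 283) (nat_lit 185))) (XT.nd (nat_lit 78) (nat_lit 0) (nat_lit 0) (XT.lf (nat_lit 0) (nat_lit 840893561) (nat_lit 532) (nat_lit 8866749547) (nat_lit 608) (nat_lit 3706263923) (nat_lit 150) (nat_lit 5) (nat_lit 157) (nat_lit 5) (nat_lit 158) (nat_lit 5) (nat_lit 313) (nat_lit 283) (nat_lit 184)) (XT.lf (nat_lit 0) (nat_lit 7997784399) (nat_lit 532) (nat_lit 3868650992) (nat_lit 608) (nat_lit 1773440883) (nat_lit 150) (nat_lit 5) (nat_lit 157) (nat_lit 5) (nat_lit 158) (nat_lit 5) (nat_lit 314) (nat_lit 283) (nat_lit 183)))))) (XT.nd (nat_lit 546) (nat_lit 1672) (nat_lit 0) (XT.nd (nat_lit 234) (nat_lit 836) (nat_lit 0) (XT.nd (nat_lit 78) (nat_lit 456) (nat_lit 0) (XT.lf (nat_lit 0) (nat_lit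 222810124) (nat_lit 532) (nat_lit 12380037673) (nat_lit 76) (nat_lit 1269438681) (nat_lit 143) (nat_lit 5) (nat_lit 150) (nat_lit 5) (nat_lit 144) (nat_lit 5) (nat_lit 315) (nat_lit 283) (nat_lit 182)) (XT.nd (nat_lit 78) (nat_lit 456) (nat_lit 0) (XT.lf (nat_lit 0) (nat_lit 2322220869) (nat_lit 532) (nat_lit 5229396516) (nat_lit 76) (nat_lit 6557172012) (nat_lit 143) (nat_lit 5) (nat_lit 150) (nat_lit 5) (nat_lit 144) (nat_lit 5) (nat_lit 316) (nat_lit 283) (nat_lit 181)) (XT.lf (nat_lit 0) (nat_lit 2159171441) (nat_lit 456) (nat_lit 2329765708) (nat_lit 532) (nat_lit 9863334806) (nat_lit 137) (nat_lit 5) (nat_lit 143) (nat_lit 5) (nat_lit 144) (nat_lit 5) (nat_lit 317) (nat_lit 283) (nat_lit 180)))) (XT.nd (nat_lit 156) (nat_lit 456) (nat_lit 0) (XT.nd (nat_lit 78) (nat_lit 380) (nat_lit 0) (XT.lf (nat_lit 0) (nat_lit 6787135907) (nat_lit 532) (nat_lit 4773726729) (nat_lit 76) (nat_lit 3040215753)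 (nat_lit 137) (nat_lit 5) (nat_lit 144) (nat_lit 5) (nat_lit 138) (nat_lit 5) (nat_lit 318) (nat_lit 283) (nat_lit 179)) (XT.lf (nat_lit 0) (nat_lit 2882955335) (nat_lit 380) (nat_lit 6306420671) (nat_lit 456) (nat_lit 5666933577) (nat_lit 132) (nat_lit 5) (nat_lit 137) (nat_lit 5) (nat_lit 138) (nat_lit 5) (nat_lit 319) (nat_lit 283) (nat_lit 178))) (XT.nd (nat_lit 78) (nat_lit 456) (nat_lit 0) (XT.lf (nat_lit 0) (nat_lit 10848912799) (nat_lit 380) (nat_lit 847572541) (nat_lit 456) (nat_lit 3421741349) (nat_lit 132) (nat_lit 5) (nat_lit 137) (nat_lit 5) (nat_lit 138) (nat_lit 5) (nat_lit 320) (nat_lit 283) (nat_lit 177)) (XT.lf (nat_lit 0) (nat_lit 3673445480) (nat_lit 456) (nat_lit 10671593019) (nat_lit 532) (nat_lit 1040988550) (nat_lit 126) (nat_lit 5) (nat_lit 132) (nat_lit 5) (nat_lit 133) (nat_lit 5) (nat_lit 321) (nat_lit 283) (nat_lit 176))))) (XT.nd (nat_lit 312) (nat_lit 836) (nat_lit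 0) (XT.nd (nat_lit 156) (nat_lit 380) (nat_lit 0) (XT.nd (nat_lit 78) (nat_lit 380) (nat_lit 0) (XT.lf (nat_lit 0) (nat_lit 1420703876) (nat_lit 532) (nat_lit 3759260987) (nat_lit 76) (nat_lit 10480389900) (nat_lit 125) (nat_lit 5) (nat_lit 132) (nat_lit 5) (nat_lit 126) (nat_lit 5) (nat_lit 322) (nat_lit 283) (nat_lit 175)) (XT.lf (nat_lit 0) (nat_lit 3969140703) (nat_lit 456) (nat_lit 11454597615) (nat_lit 76) (nat_lit 517861876) (nat_lit 120) (nat_lit 5) (nat_lit 126) (nat_lit 5) (nat_lit 121) (nat_lit 5) (nat_lit 323) (nat_lit 283) (nat_lit 174))) (XT.nd (nat_lit 78) (nat_lit 380) (nat_lit 0) (XT.lf (nat_lit 0) (nat_lit 6669430341) (nat_lit 456) (nat_lit 3242101468) (nat_lit 76) (nat_lit 6317500432) (nat_lit 120) (nat_lit 5) (nat_lit 126) (nat_lit 5) (nat_lit 121) (nat_lit 5) (nat_lit 324) (nat_lit 283) (nat_lit 173)) (XT.lf (nat_lit 0) (nat_lit 5302760175) (nat_lit 380) (nat_lit 4185132071)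 (nat_lit 456) (nat_lit 7036091015) (nat_lit 115) (nat_lit 5) (nat_lit 120) (nat_lit 5) (nat_lit 121) (nat_lit 5) (nat_lit 325) (nat_lit 283) (nat_lit 172)))) (XT.nd (nat_lit 156) (nat_lit 456) (nat_lit 0) (XT.nd (nat_lit 78) (nat_lit 380) (nat_lit 0) (XT.lf (nat_lit 0) (nat_lit 12426828049) (nat_lit 456) (nat_lit 2690859986) (nat_lit 76) (nat_lit 1709027776) (nat_lit 115) (nat_lit 5) (nat_lit 121) (nat_lit 5) (nat_lit 116) (nat_lit 5) (nat_lit 326) (nat_lit 283) (nat_lit 171)) (XT.lf (nat_lit 0) (nat_lit 6156940773) (nat_lit 380) (nat_lit 9384398838) (nat_lit 456) (nat_lit 1594578787) (nat_lit 110) (nat_lit 5) (nat_lit 115) (nat_lit 5) (nat_lit 116) (nat_lit 5) (nat_lit 327) (nat_lit 283) (nat_lit 170))) (XT.nd (nat_lit 78) (nat_lit 380) (nat_lit 0) (XT.lf (nat_lit 0) (nat_lit 1283932296) (nat_lit 456) (nat_lit 2158245611) (nat_lit 76) (nat_lit 14011426115) (nat_lit 109) (nat_lit 5) (nat_lit 115)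 (nat_lit 5) (nat_lit 110) (nat_lit 5) (nat_lit 328) (nat_lit 283) (nat_lit 169)) (XT.lf (nat_lit 0) (nat_lit 4298126952) (nat_lit 456) (nat_lit 10773487233) (nat_lit 76) (nat_lit 2706300479) (nat_lit 104) (nat_lit 5) (nat_lit 110) (nat_lit 5) (nat_lit 105) (nat_lit 5) (nat_lit 329) (nat_lit 283) (nat_lit 168))))))))
noncomputable def xc160 : XT := (XT.nd (nat_lit 2184) (nat_lit 1976) (nat_lit 0) (XT.nd (nat_lit 1092) (nat_lit 1748) (nat_lit 0) (XT.nd (nat_lit 546) (nat_lit 1140) (nat_lit 0) (XT.nd (nat_lit 234) (nat_lit 684) (nat_lit 0) (XT.nd (nat_lit 78) (nat_lit 304) (nat_lit 0) (XT.lf (nat_lit 0) (nat_lit 7446262435) (nat_lit 456) (nat_lit 1676336080) (nat_lit 76) (nat_lit 8988059805) (nat_lit 104) (nat_lit 5) (nat_lit 110) (nat_lit 5) (nat_lit 105) (nat_lit 5) (nat_lit 330) (nat_lit 283) (nat_lit 167)) (XT.nd (nat_lit 78) (nat_lit 0) (nat_lit 0) (XT.lf (nat_lit 0) (nat_lit 7830055088) (nat_lit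 304) (nat_lit 2921844646) (nat_lit 380) (nat_lit 7699601695) (nat_lit 100) (nat_lit 5) (nat_lit 104) (nat_lit 5) (nat_lit 105) (nat_lit 5) (nat_lit 331) (nat_lit 283) (nat_lit 166)) (XT.lf (nat_lit 0) (nat_lit 14195056571) (nat_lit 380) (nat_lit 1196168715) (nat_lit 76) (nat_lit 3410202654) (nat_lit 100) (nat_lit 5) (nat_lit 105) (nat_lit 5) (nat_lit 101) (nat_lit 5) (nat_lit 332) (nat_lit 283) (nat_lit 165)))) (XT.nd (nat_lit 156) (nat_lit 304) (nat_lit 0) (XT.nd (nat_lit 78) (nat_lit 76) (nat_lit 0) (XT.lf (nat_lit 0) (nat_lit 8635294951) (nat_lit 304) (nat_lit 9206449143) (nat_lit 380) (nat_lit 1317109439) (nat_lit 96) (nat_lit 5) (nat_lit 100) (nat_lit 5) (nat_lit 101) (nat_lit 5) (nat_lit 333) (nat_lit 283) (nat_lit 164)) (XT.lf (nat_lit 0) (nat_lit 2030983762) (nat_lit 380) (nat_lit 776672375) (nat_lit 76) (nat_lit 16718739580) (nat_lit 95) (nat_lit 5) (nat_lit 100) (nat_lit 5) (nat_lit 96)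 (nat_lit 5) (nat_lit 334) (nat_lit 283) (nat_lit 163))) (XT.nd (nat_lit 78) (nat_lit 0) (nat_lit 0) (XT.lf (nat_lit 0) (nat_lit 5569625992) (nat_lit 380) (nat_lit 10521958071) (nat_lit 76) (nat_lit 3809499175) (nat_lit 91) (nat_lit 5) (nat_lit 96) (nat_lit 5) (nat_lit 92) (nat_lit 5) (nat_lit 335) (nat_lit 283) (nat_lit 162)) (XT.lf (nat_lit 0) (nat_lit 9238985651) (nat_lit 380) (nat_lit 475035305) (nat_lit 76) (nat_lit 10572261119) (nat_lit 91) (nat_lit 5) (nat_lit 96) (nat_lit 5) (nat_lit 92) (nat_lit 5) (nat_lit 336) (nat_lit 283) (nat_lit 161))))) (XT.nd (nat_lit 234) (nat_lit 608) (nat_lit 0) (XT.nd (nat_lit 78) (nat_lit 228) (nat_lit 0) (XT.lf (nat_lit 0) (nat_lit 10054048327) (nat_lit 304) (nat_lit 3050187576) (nat_lit 380) (nat_lit 7576233897) (nat_lit 87) (nat_lit 5) (nat_lit 91) (nat_lit 5) (nat_lit 92) (nat_lit 5) (nat_lit 337) (nat_lit 283) (nat_lit 160)) (XT.nd (nat_lit 78) (nat_lit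 228) (nat_lit 0) (XT.lf (nat_lit 0) (nat_lit 17116234771) (nat_lit 380) (nat_lit 229871584) (nat_lit 76) (nat_lit 3739460077) (nat_lit 87) (nat_lit 5) (nat_lit 92) (nat_lit 5) (nat_lit 88) (nat_lit 5) (nat_lit 338) (nat_lit 283) (nat_lit 159)) (XT.lf (nat_lit 0) (nat_lit 10640901919) (nat_lit 228) (nat_lit 10729778817) (nat_lit 304) (nat_lit 128479417) (nat_lit 84) (nat_lit 5) (nat_lit 87) (nat_lit 5) (nat_lit 88) (nat_lit 5) (nat_lit 339) (nat_lit 283) (nat_lit 158)))) (XT.nd (nat_lit 156) (nat_lit 228) (nat_lit 0) (XT.nd (nat_lit 78) (nat_lit 304) (nat_lit 0) (XT.lf (nat_lit 0) (nat_lit 3744903953) (nat_lit 304) (nat_lit 134576984) (nat_lit 76) (nat_lit 18044823492) (nat_lit 83) (nat_lit 5) (nat_lit 87) (nat_lit 5) (nat_lit 84) (nat_lit 5) (nat_lit 340) (nat_lit 283) (nat_lit 157)) (XT.lf (nat_lit 0) (nat_lit 7860229138) (nat_lit 380) (nat_lit 11279192761) (nat_lit 76) (nat_lit 3218899520) (nat_lit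 79) (nat_lit 5) (nat_lit 84) (nat_lit 5) (nat_lit 80) (nat_lit 5) (nat_lit 341) (nat_lit 283) (nat_lit 156))) (XT.nd (nat_lit 78) (nat_lit 228) (nat_lit 0) (XT.lf (nat_lit 0) (nat_lit 12128857360) (nat_lit 380) (nat_lit 226588763) (nat_lit 76) (nat_lit 10449023542) (nat_lit 79) (nat_lit 5) (nat_lit 84) (nat_lit 5) (nat_lit 80) (nat_lit 5) (nat_lit 342) (nat_lit 283) (nat_lit 155)) (XT.lf (nat_lit 0) (nat_lit 11364946310) (nat_lit 228) (nat_lit 5260194606) (nat_lit 304) (nat_lit 6635879418) (nat_lit 76) (nat_lit 5) (nat_lit 79) (nat_lit 5) (nat_lit 80) (nat_lit 5) (nat_lit 343) (nat_lit 283) (nat_lit 154)))))) (XT.nd (nat_lit 546) (nat_lit 988) (nat_lit 0) (XT.nd (nat_lit 234) (nat_lit 456) (nat_lit 0) (XT.nd (nat_lit 78) (nat_lit 304) (nat_lit 0) (XT.lf (nat_lit 0) (nat_lit 21268757199) (nat_lit 304) (nat_lit 456556822) (nat_lit 76) (nat_lit 2005585873) (nat_lit 76) (nat_lit 5) (nat_lit 80) (nat_lit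 5) (nat_lit 77) (nat_lit 5) (nat_lit 344) (nat_lit 283) (nat_lit 153)) (XT.nd (nat_lit 78) (nat_lit 0) (nat_lit 0) (XT.lf (nat_lit 0) (nat_lit 1955673659) (nat_lit 304) (nat_lit 12745397318) (nat_lit 76) (nat_lit 9508639232) (nat_lit 72) (nat_lit 5) (nat_lit 76) (nat_lit 5) (nat_lit 73) (nat_lit 5) (nat_lit 345) (nat_lit 283) (nat_lit 152)) (XT.lf (nat_lit 0) (nat_lit 6451959910) (nat_lit 304) (nat_lit 989151724) (nat_lit 76) (nat_lit 17261184424) (nat_lit 72) (nat_lit 5) (nat_lit 76) (nat_lit 5) (nat_lit 73) (nat_lit 5) (nat_lit 346) (nat_lit 283) (nat_lit 151)))) (XT.nd (nat_lit 156) (nat_lit 228) (nat_lit 0) (XT.nd (nat_lit 78) (nat_lit 0) (nat_lit 0) (XT.lf (nat_lit 0) (nat_lit 11184436980) (nat_lit 304) (nat_lit 13880975608) (nat_lit 76) (nat_lit 141212889) (nat_lit 69) (nat_lit 5) (nat_lit 73) (nat_lit 5) (nat_lit 70) (nat_lit 5) (nat_lit 347) (nat_lit 283) (nat_lit 150)) (XT.lf (nat_lit 0)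 (nat_lit 16133769657) (nat_lit 304) (nat_lit 1783213124) (nat_lit 76) (nat_lit 7806860476) (nat_lit 69) (nat_lit 5) (nat_lit 73) (nat_lit 5) (nat_lit 70) (nat_lit 5) (nat_lit 348) (nat_lit 283) (nat_lit 149))) (XT.nd (nat_lit 78) (nat_lit 0) (nat_lit 0) (XT.lf (nat_lit 0) (nat_lit 10876293743) (nat_lit 228) (nat_lit 10451216348) (nat_lit 304) (nat_lit 4926194418) (nat_lit 66) (nat_lit 5) (nat_lit 69) (nat_lit 5) (nat_lit 70) (nat_lit 5) (nat_lit 349) (nat_lit 283) (nat_lit 148)) (XT.lf (nat_lit 0) (nat_lit 23938847389) (nat_lit 228) (nat_lit 2747723837) (nat_lit 304) (nat_lit 112609750) (nat_lit 66) (nat_lit 5) (nat_lit 69) (nat_lit 5) (nat_lit 70) (nat_lit 5) (nat_lit 350) (nat_lit 283) (nat_lit 147))))) (XT.nd (nat_lit 234) (nat_lit 456) (nat_lit 0) (XT.nd (nat_lit 78) (nat_lit 228) (nat_lit 0) (XT.lf (nat_lit 0) (nat_lit 4891508205) (nat_lit 304) (nat_lit 17237111014) (nat_lit 76) (nat_lit 5226789283)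 (nat_lit 62) (nat_lit 5) (nat_lit 66) (nat_lit 5) (nat_lit 63) (nat_lit 5) (nat_lit 351) (nat_lit 283) (nat_lit 146)) (XT.nd (nat_lit 78) (nat_lit 228) (nat_lit 0) (XT.lf (nat_lit 0) (nat_lit 10091597149) (nat_lit 304) (nat_lit 4424293750) (nat_lit 76) (nat_lit 13410959423) (nat_lit 62) (nat_lit 5) (nat_lit 66) (nat_lit 5) (nat_lit 63) (nat_lit 5) (nat_lit 352) (nat_lit 283) (nat_lit 145)) (XT.lf (nat_lit 0) (nat_lit 8934482223) (nat_lit 228) (nat_lit 6591066818) (nat_lit 304) (nat_lit 12987554665) (nat_lit 59) (nat_lit 5) (nat_lit 62) (nat_lit 5) (nat_lit 63) (nat_lit 5) (nat_lit 353) (nat_lit 283) (nat_lit 144)))) (XT.nd (nat_lit 156) (nat_lit 304) (nat_lit 0) (XT.nd (nat_lit 78) (nat_lit 152) (nat_lit 0) (XT.lf (nat_lit 0) (nat_lit 21174787981) (nat_lit 304) (nat_lit 6359278189) (nat_lit 76) (nat_lit 1581314461) (nat_lit 59) (nat_lit 5) (nat_lit 63) (nat_lit 5) (nat_lit 60) (nat_lit 5) (nat_lit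 354) (nat_lit 283) (nat_lit 143)) (XT.lf (nat_lit 0) (nat_lit 7321795531) (nat_lit 152) (nat_lit 19799623192) (nat_lit 228) (nat_lit 2610473583) (nat_lit 57) (nat_lit 5) (nat_lit 59) (nat_lit 5) (nat_lit 60) (nat_lit 5) (nat_lit 355) (nat_lit 283) (nat_lit 142))) (XT.nd (nat_lit 78) (nat_lit 228) (nat_lit 0) (XT.lf (nat_lit 0) (nat_lit 2880512910) (nat_lit 228) (nat_lit 8862129230) (nat_lit 76) (nat_lit 18621715822) (nat_lit 56) (nat_lit 5) (nat_lit 59) (nat_lit 5) (nat_lit 57) (nat_lit 5) (nat_lit 356) (nat_lit 283) (nat_lit 141)) (XT.lf (nat_lit 0) (nat_lit 5154884512) (nat_lit 228) (nat_lit 3370954847) (nat_lit 304) (nat_lit 22487924043) (nat_lit 53) (nat_lit 5) (nat_lit 56) (nat_lit 5) (nat_lit 57) (nat_lit 5) (nat_lit 357) (nat_lit 283) (nat_lit 140))))))) (XT.nd (nat_lit 1092) (nat_lit 836) (nat_lit 0) (XT.nd (nat_lit 546) (nat_lit 532) (nat_lit 0) (XT.nd (nat_lit 234) (nat_lit 456) (nat_lit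 0) (XT.nd (nat_lit 78) (nat_lit 152) (nat_lit 0) (XT.lf (nat_lit 0) (nat_lit 14473969966) (nat_lit 304) (nat_lit 11969460882) (nat_lit 76) (nat_lit 5235220273) (nat_lit 53) (nat_lit 5) (nat_lit 57) (nat_lit 5) (nat_lit 54) (nat_lit 5) (nat_lit 358) (nat_lit 283) (nat_lit 139)) (XT.nd (nat_lit 78) (nat_lit 0) (nat_lit 0) (XT.lf (nat_lit 0) (nat_lit 2337025073) (nat_lit 152) (nat_lit 18312160008) (nat_lit 228) (nat_lit 11712844522) (nat_lit 51) (nat_lit 5) (nat_lit 53) (nat_lit 5) (nat_lit 54) (nat_lit 5) (nat_lit 359) (nat_lit 283) (nat_lit 138)) (XT.lf (nat_lit 0) (nat_lit 17306341346) (nat_lit 152) (nat_lit 9817080263) (nat_lit 228) (nat_lit 5939078129) (nat_lit 51) (nat_lit 5) (nat_lit 53) (nat_lit 5) (nat_lit 54) (nat_lit 5) (nat_lit 360) (nat_lit 283) (nat_lit 137)))) (XT.nd (nat_lit 156) (nat_lit 152) (nat_lit 0) (XT.nd (nat_lit 78) (nat_lit 228) (nat_lit 0) (XT.lf (nat_lit 0) (nat_lit 779462)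 (nat_lit 228) (nat_lit 1070849481) (nat_lit 76) (nat_lit 32712564847) (nat_lit 50) (nat_lit 5) (nat_lit 53) (nat_lit 5) (nat_lit 51) (nat_lit 5) (nat_lit 361) (nat_lit 283) (nat_lit 136)) (XT.lf (nat_lit 0) (nat_lit 6207991246) (nat_lit 304) (nat_lit 20336697460) (nat_lit 76) (nat_lit 7974833008) (nat_lit 47) (nat_lit 5) (nat_lit 51) (nat_lit 5) (nat_lit 48) (nat_lit 5) (nat_lit 362) (nat_lit 283) (nat_lit 135))) (XT.nd (nat_lit 78) (nat_lit 152) (nat_lit 0) (XT.lf (nat_lit 0) (nat_lit 12616233591) (nat_lit 304) (nat_lit 5382484721) (nat_lit 76) (nat_lit 17277749625) (nat_lit 47) (nat_lit 5) (nat_lit 51) (nat_lit 5) (nat_lit 48) (nat_lit 5) (nat_lit 363) (nat_lit 283) (nat_lit 134)) (XT.lf (nat_lit 0) (nat_lit 10208647351) (nat_lit 152) (nat_lit 9099686721) (nat_lit 228) (nat_lit 16745042951) (nat_lit 45) (nat_lit 5) (nat_lit 47) (nat_lit 5) (nat_lit 48) (nat_lit 5) (nat_lit 364) (nat_lit 283) (nat_lit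 133))))) (XT.nd (nat_lit 234) (nat_lit 304) (nat_lit 0) (XT.nd (nat_lit 78) (nat_lit 228) (nat_lit 0) (XT.lf (nat_lit 0) (nat_lit 26250248832) (nat_lit 228) (nat_lit 10486250630) (nat_lit 76) (nat_lit 115625102) (nat_lit 45) (nat_lit 5) (nat_lit 48) (nat_lit 5) (nat_lit 46) (nat_lit 5) (nat_lit 365) (nat_lit 283) (nat_lit 132)) (XT.nd (nat_lit 78) (nat_lit 76) (nat_lit 0) (XT.lf (nat_lit 0) (nat_lit 5336376807) (nat_lit 152) (nat_lit 28199148411) (nat_lit 228) (nat_lit 4135258831) (nat_lit 43) (nat_lit 5) (nat_lit 45) (nat_lit 5) (nat_lit 46) (nat_lit 5) (nat_lit 366) (nat_lit 283) (nat_lit 131)) (XT.lf (nat_lit 0) (nat_lit 2576746417) (nat_lit 228) (nat_lit 16698174318) (nat_lit 76) (nat_lit 19235336758) (nat_lit 42) (nat_lit 5) (nat_lit 45) (nat_lit 5) (nat_lit 43) (nat_lit 5) (nat_lit 367) (nat_lit 283) (nat_lit 130)))) (XT.nd (nat_lit 156) (nat_lit 152) (nat_lit 0) (XT.nd (nat_lit 78) (nat_lit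 152) (nat_lit 0) (XT.lf (nat_lit 0) (nat_lit 9400909498) (nat_lit 228) (nat_lit 644151880) (nat_lit 76) (nat_lit 29328810516) (nat_lit 42) (nat_lit 5) (nat_lit 45) (nat_lit 5) (nat_lit 43) (nat_lit 5) (nat_lit 368) (nat_lit 283) (nat_lit 129)) (XT.lf (nat_lit 0) (nat_lit 16197510260) (nat_lit 152) (nat_lit 382077183) (nat_lit 228) (nat_lit 23679315931) (nat_lit 40) (nat_lit 5) (nat_lit 42) (nat_lit 5) (nat_lit 43) (nat_lit 5) (nat_lit 369) (nat_lit 283) (nat_lit 128))) (XT.nd (nat_lit 78) (nat_lit 152) (nat_lit 0) (XT.lf (nat_lit 0) (nat_lit 24066321603) (nat_lit 228) (nat_lit 7714820538) (nat_lit 76) (nat_lit 9386565062) (nat_lit 40) (nat_lit 5) (nat_lit 43) (nat_lit 5) (nat_lit 41) (nat_lit 5) (nat_lit 370) (nat_lit 283) (nat_lit 127)) (XT.lf (nat_lit 0) (nat_lit 9289846710) (nat_lit 152) (nat_lit 22575191235) (nat_lit 228) (nat_lit 10236118010) (nat_lit 38) (nat_lit 5) (nat_lit 40) (nat_lit 5)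 (nat_lit 41) (nat_lit 5) (nat_lit 371) (nat_lit 283) (nat_lit 126)))))) (XT.nd (nat_lit 546) (nat_lit 456) (nat_lit 0) (XT.nd (nat_lit 234) (nat_lit 152) (nat_lit 0) (XT.nd (nat_lit 78) (nat_lit 228) (nat_lit 0) (XT.lf (nat_lit 0) (nat_lit 26953098358) (nat_lit 152) (nat_lit 13016892335) (nat_lit 228) (nat_lit 3090451377) (nat_lit 38) (nat_lit 5) (nat_lit 40) (nat_lit 5) (nat_lit 41) (nat_lit 5) (nat_lit 372) (nat_lit 283) (nat_lit 125)) (XT.nd (nat_lit 78) (nat_lit 0) (nat_lit 0) (XT.lf (nat_lit 0) (nat_lit 1068008395) (nat_lit 152) (nat_lit 3123006388) (nat_lit 228) (nat_lit 39856120419) (nat_lit 35) (nat_lit 5) (nat_lit 37) (nat_lit 5) (nat_lit 38) (nat_lit 5) (nat_lit 373) (nat_lit 283) (nat_lit 124)) (XT.lf (nat_lit 0) (nat_lit 11855521904) (nat_lit 228) (nat_lit 26079456673) (nat_lit 76) (nat_lit 7120733202) (nat_lit 35) (nat_lit 5) (nat_lit 38) (nat_lit 5) (nat_lit 36) (nat_lit 5) (nat_lit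 374) (nat_lit 283) (nat_lit 123)))) (XT.nd (nat_lit 156) (nat_lit 0) (nat_lit 0) (XT.nd (nat_lit 78) (nat_lit 152) (nat_lit 0) (XT.lf (nat_lit 0) (nat_lit 19775554955) (nat_lit 228) (nat_lit 8713003673) (nat_lit 76) (nat_lit 17605221212) (nat_lit 35) (nat_lit 5) (nat_lit 38) (nat_lit 5) (nat_lit 36) (nat_lit 5) (nat_lit 375) (nat_lit 283) (nat_lit 122)) (XT.lf (nat_lit 0) (nat_lit 9347836979) (nat_lit 152) (nat_lit 18670034254) (nat_lit 228) (nat_lit 19142580095) (nat_lit 33) (nat_lit 5) (nat_lit 35) (nat_lit 5) (nat_lit 36) (nat_lit 5) (nat_lit 376) (nat_lit 283) (nat_lit 121))) (XT.nd (nat_lit 78) (nat_lit 0) (nat_lit 0) (XT.lf (nat_lit 0) (nat_lit 28120183370) (nat_lit 152) (nat_lit 8470147901) (nat_lit 228) (nat_lit 11666307262) (nat_lit 33) (nat_lit 5) (nat_lit 35) (nat_lit 5) (nat_lit 36) (nat_lit 5) (nat_lit 377) (nat_lit 283) (nat_lit 120)) (XT.lf (nat_lit 0) (nat_lit 45434537064) (nat_lit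 228) (nat_lit 1958362376) (nat_lit 76) (nat_lit 1992376502) (nat_lit 33) (nat_lit 5) (nat_lit 36) (nat_lit 5) (nat_lit 34) (nat_lit 4) (nat_lit 378) (nat_lit 283) (nat_lit 119))))) (XT.nd (nat_lit 312) (nat_lit 152) (nat_lit 0) (XT.nd (nat_lit 156) (nat_lit 152) (nat_lit 0) (XT.nd (nat_lit 78) (nat_lit 0) (nat_lit 0) (XT.lf (nat_lit 0) (nat_lit 4163182734) (nat_lit 152) (nat_lit 33576812811) (nat_lit 76) (nat_lit 12799280080) (nat_lit 31) (nat_lit 5) (nat_lit 33) (nat_lit 5) (nat_lit 32) (nat_lit 5) (nat_lit 379) (nat_lit 283) (nat_lit 118)) (XT.lf (nat_lit 0) (nat_lit 12456247322) (nat_lit 152) (nat_lit 15284097762) (nat_lit 76) (nat_lit 23985924387) (nat_lit 31) (nat_lit 5) (nat_lit 33) (nat_lit 5) (nat_lit 32) (nat_lit 5) (nat_lit 380) (nat_lit 283) (nat_lit 117))) (XT.nd (nat_lit 78) (nat_lit 0) (nat_lit 0) (XT.lf (nat_lit 0) (nat_lit 3619740706) (nat_lit 152) (nat_lit 17408459129) (nat_lit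 228) (nat_lit 31919771973) (nat_lit 29) (nat_lit 5) (nat_lit 31) (nat_lit 5) (nat_lit 32) (nat_lit 5) (nat_lit 381) (nat_lit 283) (nat_lit 116)) (XT.lf (nat_lit 0) (nat_lit 23395792434) (nat_lit 152) (nat_lit 6611216671) (nat_lit 228) (nat_lit 24194826669) (nat_lit 29) (nat_lit 5) (nat_lit 31) (nat_lit 5) (nat_lit 32) (nat_lit 5) (nat_lit 382) (nat_lit 283) (nat_lit 115)))) (XT.nd (nat_lit 156) (nat_lit 76) (nat_lit 0) (XT.nd (nat_lit 78) (nat_lit 76) (nat_lit 0) (XT.lf (nat_lit 0) (nat_lit 39293995617) (nat_lit 228) (nat_lit 11779617369) (nat_lit 76) (nat_lit 4418539747) (nat_lit 29) (nat_lit 5) (nat_lit 32) (nat_lit 5) (nat_lit 30) (nat_lit 4) (nat_lit 383) (nat_lit 283) (nat_lit 114)) (XT.lf (nat_lit 0) (nat_lit 7898430728) (nat_lit 76) (nat_lit 41098135981) (nat_lit 152) (nat_lit 7820504663) (nat_lit 28) (nat_lit 5) (nat_lit 29) (nat_lit 5) (nat_lit 30) (nat_lit 4) (nat_lit 384) (nat_lit 283)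 (nat_lit 113))) (XT.nd (nat_lit 78) (nat_lit 0) (nat_lit 0) (XT.lf (nat_lit 0) (nat_lit 908431961) (nat_lit 152) (nat_lit 29786679373) (nat_lit 76) (nat_lit 27482922500) (nat_lit 27) (nat_lit 5) (nat_lit 29) (nat_lit 5) (nat_lit 28) (nat_lit 5) (nat_lit 385) (nat_lit 283) (nat_lit 112)) (XT.lf (nat_lit 0) (nat_lit 9737782509) (nat_lit 152) (nat_lit 10165813205) (nat_lit 76) (nat_lit 39674035928) (nat_lit 27) (nat_lit 5) (nat_lit 29) (nat_lit 5) (nat_lit 28) (nat_lit 5) (nat_lit 386) (nat_lit 283) (nat_lit 111))))))))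
noncomputable def xc161 : XT := (XT.nd (nat_lit 32916) (nat_lit 0) (nat_lit 9728) (XT.nd (nat_lit 1092) (nat_lit 228) (nat_lit 0) (XT.nd (nat_lit 546) (nat_lit 228) (nat_lit 0) (XT.nd (nat_lit 234) (nat_lit 304) (nat_lit 0) (XT.nd (nat_lit 78) (nat_lit 0) (nat_lit 0) (XT.lf (nat_lit 0) (nat_lit 10236019387) (nat_lit 152) (nat_lit 8690243654) (nat_lit 228) (nat_lit 42090128120) (nat_lit 25) (nat_lit 5) (nat_lit 27) (nat_lit 5) (nat_lit 28) (nat_lit 5) (nat_lit 387) (nat_lit 283) (nat_lit 110)) (XT.nd (nat_lit 78) (nat_lit 0) (nat_lit 0) (XT.lf (nat_lit 0) (nat_lit 28517430302) (nat_lit 228) (nat_lit 31072862997) (nat_lit 76) (nat_lit 2904210423) (nat_lit 25) (nat_lit 5) (nat_lit 28) (nat_lit 5) (nat_lit 26) (nat_lit 4) (nat_lit 388) (nat_lit 283) (nat_lit 109)) (XT.lf (nat_lit 0) (nat_lit 38478368576) (nat_lit 228) (nat_lit 10867376412) (nat_lit 76) (nat_lit 14668754781) (nat_lit 25) (nat_lit 5)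 (nat_lit 28) (nat_lit 5) (nat_lit 26) (nat_lit 4) (nat_lit 389) (nat_lit 283) (nat_lit 108)))) (XT.nd (nat_lit 156) (nat_lit 228) (nat_lit 0) (XT.nd (nat_lit 78) (nat_lit 0) (nat_lit 0) (XT.lf (nat_lit 0) (nat_lit 10135050537) (nat_lit 76) (nat_lit 38696619424) (nat_lit 152) (nat_lit 16745620841) (nat_lit 24) (nat_lit 5) (nat_lit 25) (nat_lit 5) (nat_lit 26) (nat_lit 4) (nat_lit 390) (nat_lit 283) (nat_lit 107)) (XT.lf (nat_lit 0) (nat_lit 31983393870) (nat_lit 76) (nat_lit 27618073068) (nat_lit 152) (nat_lit 7582322855) (nat_lit 24) (nat_lit 5) (nat_lit 25) (nat_lit 5) (nat_lit 26) (nat_lit 4) (nat_lit 391) (nat_lit 283) (nat_lit 106))) (XT.nd (nat_lit 78) (nat_lit 152) (nat_lit 0) (XT.lf (nat_lit 0) (nat_lit 1815890553) (nat_lit 152) (nat_lit 14375937342) (nat_lit 76) (nat_lit 52646234784) (nat_lit 23) (nat_lit 5) (nat_lit 25) (nat_lit 5) (nat_lit 24) (nat_lit 5) (nat_lit 392) (nat_lit 283) (nat_lit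 105)) (XT.lf (nat_lit 0) (nat_lit 7130725433) (nat_lit 152) (nat_lit 4277813683) (nat_lit 228) (nat_lit 59129226906) (nat_lit 21) (nat_lit 5) (nat_lit 23) (nat_lit 5) (nat_lit 24) (nat_lit 5) (nat_lit 393) (nat_lit 283) (nat_lit 104))))) (XT.nd (nat_lit 234) (nat_lit 152) (nat_lit 0) (XT.nd (nat_lit 78) (nat_lit 76) (nat_lit 0) (XT.lf (nat_lit 0) (nat_lit 21508769466) (nat_lit 228) (nat_lit 42791721394) (nat_lit 76) (nat_lit 7981376534) (nat_lit 21) (nat_lit 5) (nat_lit 24) (nat_lit 5) (nat_lit 22) (nat_lit 4) (nat_lit 394) (nat_lit 283) (nat_lit 103)) (XT.nd (nat_lit 78) (nat_lit 76) (nat_lit 0) (XT.lf (nat_lit 0) (nat_lit 31950824093) (nat_lit 228) (nat_lit 21606724216) (nat_lit 76) (nat_lit 20519579941) (nat_lit 21) (nat_lit 5) (nat_lit 24) (nat_lit 5) (nat_lit 22) (nat_lit 4) (nat_lit 395) (nat_lit 283) (nat_lit 102)) (XT.lf (nat_lit 0) (nat_lit 211714376) (nat_lit 76) (nat_lit 42493026914)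 (nat_lit 152) (nat_lit 33221548556) (nat_lit 20) (nat_lit 5) (nat_lit 21) (nat_lit 5) (nat_lit 22) (nat_lit 4) (nat_lit 396) (nat_lit 283) (nat_lit 101)))) (XT.nd (nat_lit 156) (nat_lit 152) (nat_lit 0) (XT.nd (nat_lit 78) (nat_lit 0) (nat_lit 0) (XT.lf (nat_lit 0) (nat_lit 23121444155) (nat_lit 76) (nat_lit 30874623832) (nat_lit 152) (nat_lit 23828415455) (nat_lit 20) (nat_lit 5) (nat_lit 21) (nat_lit 5) (nat_lit 22) (nat_lit 4) (nat_lit 397) (nat_lit 283) (nat_lit 100)) (XT.lf (nat_lit 0) (nat_lit 46712467153) (nat_lit 76) (nat_lit 18910372608) (nat_lit 152) (nat_lit 14156882810) (nat_lit 20) (nat_lit 5) (nat_lit 21) (nat_lit 5) (nat_lit 22) (nat_lit 4) (nat_lit 398) (nat_lit 283) (nat_lit 99))) (XT.nd (nat_lit 78) (nat_lit 152) (nat_lit 0) (XT.lf (nat_lit 0) (nat_lit 71005396885) (nat_lit 76) (nat_lit 6589819043) (nat_lit 152) (nat_lit 4198499769) (nat_lit 20) (nat_lit 5) (nat_lit 21) (nat_lit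 5) (nat_lit 22) (nat_lit 4) (nat_lit 399) (nat_lit 283) (nat_lit 98)) (XT.lf (nat_lit 0) (nat_lit 6116216709) (nat_lit 152) (nat_lit 71587541367) (nat_lit 76) (nat_lit 6157349938) (nat_lit 18) (nat_lit 5) (nat_lit 20) (nat_lit 5) (nat_lit 19) (nat_lit 4) (nat_lit 400) (nat_lit 283) (nat_lit 97)))))) (XT.nd (nat_lit 546) (nat_lit 152) (nat_lit 0) (XT.nd (nat_lit 234) (nat_lit 76) (nat_lit 0) (XT.nd (nat_lit 78) (nat_lit 0) (nat_lit 0) (XT.lf (nat_lit 0) (nat_lit 16828129387) (nat_lit 152) (nat_lit 49852419594) (nat_lit 76) (nat_lit 19303562616) (nat_lit 18) (nat_lit 5) (nat_lit 20) (nat_lit 5) (nat_lit 19) (nat_lit 4) (nat_lit 401) (nat_lit 283) (nat_lit 96)) (XT.nd (nat_lit 78) (nat_lit 0) (nat_lit 0) (XT.lf (nat_lit 0) (nat_lit 27858365632) (nat_lit 152) (nat_lit 27470807944) (nat_lit 76) (nat_lit 32841723490) (nat_lit 18) (nat_lit 5) (nat_lit 20) (nat_lit 5) (nat_lit 19) (nat_lit 4) (nat_lit 402)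 (nat_lit 283) (nat_lit 95)) (XT.lf (nat_lit 0) (nat_lit 39216563514) (nat_lit 152) (nat_lit 4423149668) (nat_lit 76) (nat_lit 46783662022) (nat_lit 18) (nat_lit 5) (nat_lit 20) (nat_lit 5) (nat_lit 19) (nat_lit 4) (nat_lit 403) (nat_lit 283) (nat_lit 94)))) (XT.nd (nat_lit 156) (nat_lit 0) (nat_lit 0) (XT.nd (nat_lit 78) (nat_lit 0) (nat_lit 0) (XT.lf (nat_lit 0) (nat_lit 19695014637) (nat_lit 76) (nat_lit 31406953562) (nat_lit 152) (nat_lit 41635866379) (nat_lit 17) (nat_lit 5) (nat_lit 18) (nat_lit 5) (nat_lit 19) (nat_lit 4) (nat_lit 404) (nat_lit 283) (nat_lit 93)) (XT.lf (nat_lit 0) (nat_lit 44622201127) (nat_lit 76) (nat_lit 18763572750) (nat_lit 152) (nat_lit 31734699391) (nat_lit 17) (nat_lit 5) (nat_lit 18) (nat_lit 5) (nat_lit 19) (nat_lit 4) (nat_lit 405) (nat_lit 283) (nat_lit 92))) (XT.nd (nat_lit 78) (nat_lit 0) (nat_lit 0) (XT.lf (nat_lit 0) (nat_lit 70292161488) (nat_lit 76) (nat_lit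 5743188270) (nat_lit 152) (nat_lit 21539324359) (nat_lit 17) (nat_lit 5) (nat_lit 18) (nat_lit 5) (nat_lit 19) (nat_lit 4) (nat_lit 406) (nat_lit 283) (nat_lit 91)) (XT.lf (nat_lit 0) (nat_lit 89135435082) (nat_lit 152) (nat_lit 3448942004) (nat_lit 0) (nat_lit 7515993897) (nat_lit 17) (nat_lit 5) (nat_lit 19) (nat_lit 4) (nat_lit 17) (nat_lit 4) (nat_lit 407) (nat_lit 283) (nat_lit 90))))) (XT.nd (nat_lit 30966) (nat_lit 0) (nat_lit 16720) (XT.nd (nat_lit 78) (nat_lit 0) (nat_lit 0) (XT.lf (nat_lit 0) (nat_lit 191204063) (nat_lit 152) (nat_lit 81239239154) (nat_lit 76) (nat_lit 21263524626) (nat_lit 15) (nat_lit 5) (nat_lit 17) (nat_lit 5) (nat_lit 16) (nat_lit 4) (nat_lit 408) (nat_lit 283) (nat_lit 89)) (XT.nd (nat_lit 78) (nat_lit 0) (nat_lit 0) (XT.lf (nat_lit 0) (nat_lit 11494213012) (nat_lit 152) (nat_lit 58301841878) (nat_lit 76) (nat_lit 35565084336) (nat_lit 15) (nat_lit 5) (nat_lit 17)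 (nat_lit 5) (nat_lit 16) (nat_lit 4) (nat_lit 409) (nat_lit 283) (nat_lit 88)) (XT.lf (nat_lit 0) (nat_lit 23133784814) (nat_lit 152) (nat_lit 34680997422) (nat_lit 76) (nat_lit 50293619921) (nat_lit 15) (nat_lit 5) (nat_lit 17) (nat_lit 5) (nat_lit 16) (nat_lit 4) (nat_lit 410) (nat_lit 283) (nat_lit 87)))) (XT.nd (nat_lit 156) (nat_lit 0) (nat_lit 0) (XT.nd (nat_lit 78) (nat_lit 0) (nat_lit 0) (XT.lf (nat_lit 0) (nat_lit 708256288) (nat_lit 0) (nat_lit 708256288) (nat_lit 988) (nat_lit 3050073057) (nat_lit 235) (nat_lit 5) (nat_lit 235) (nat_lit 3) (nat_lit 248) (nat_lit 3) (nat_lit 284) (nat_lit 284) (nat_lit 212)) (XT.lf (nat_lit 0) (nat_lit 3774027970) (nat_lit 988) (nat_lit 3403125125) (nat_lit 1064) (nat_lit 1862063313) (nat_lit 235) (nat_lit 5) (nat_lit 248) (nat_lit 3) (nat_lit 249) (nat_lit 5) (nat_lit 285) (nat_lit 284) (nat_lit 211))) (XT.nd (nat_lit 78) (nat_lit 0) (nat_lit 0) (XT.lf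 (nat_lit 76) (nat_lit 817327032) (nat_lit 0) (nat_lit 3913626705) (nat_lit 1064) (nat_lit 4417897296) (nat_lit 236) (nat_lit 5) (nat_lit 235) (nat_lit 5) (nat_lit 249) (nat_lit 5) (nat_lit 286) (nat_lit 284) (nat_lit 210)) (XT.lf (nat_lit 76) (nat_lit 5215922458) (nat_lit 0) (nat_lit 501661594) (nat_lit 1064) (nat_lit 3544198528) (nat_lit 236) (nat_lit 5) (nat_lit 235) (nat_lit 5) (nat_lit 249) (nat_lit 5) (nat_lit 287) (nat_lit 284) (nat_lit 209))))))) (XT.nd (nat_lit 1092) (nat_lit 5244) (nat_lit 0) (XT.nd (nat_lit 546) (nat_lit 836) (nat_lit 0) (XT.nd (nat_lit 234) (nat_lit 988) (nat_lit 0) (XT.nd (nat_lit 78) (nat_lit 0) (nat_lit 0) (XT.lf (nat_lit 76) (nat_lit 326944109) (nat_lit 0) (nat_lit 6406716548) (nat_lit 1064) (nat_lit 2644482680) (nat_lit 237) (nat_lit 5) (nat_lit 236) (nat_lit 5) (nat_lit 250) (nat_lit 5) (nat_lit 288) (nat_lit 284) (nat_lit 208)) (XT.nd (nat_lit 78) (nat_lit 0) (nat_lit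 76) (XT.lf (nat_lit 76) (nat_lit 4890137773) (nat_lit 0) (nat_lit 2904360373) (nat_lit 1064) (nat_lit 1703104027) (nat_lit 237) (nat_lit 5) (nat_lit 236) (nat_lit 5) (nat_lit 250) (nat_lit 5) (nat_lit 289) (nat_lit 284) (nat_lit 207)) (XT.lf (nat_lit 0) (nat_lit 8863461214) (nat_lit 988) (nat_lit 56368895) (nat_lit 1064) (nat_lit 701560231) (nat_lit 237) (nat_lit 5) (nat_lit 250) (nat_lit 5) (nat_lit 251) (nat_lit 5) (nat_lit 290) (nat_lit 284) (nat_lit 206)))) (XT.nd (nat_lit 156) (nat_lit 0) (nat_lit 76) (XT.nd (nat_lit 78) (nat_lit 0) (nat_lit 0) (XT.lf (nat_lit 0) (nat_lit 255923043) (nat_lit 1064) (nat_lit 5075013637) (nat_lit 1140) (nat_lit 4416590014) (nat_lit 223) (nat_lit 5) (nat_lit 237) (nat_lit 5) (nat_lit 238) (nat_lit 5) (nat_lit 291) (nat_lit 284) (nat_lit 205)) (XT.lf (nat_lit 0) (nat_lit 1256327226) (nat_lit 1064) (nat_lit 359587202) (nat_lit 1140) (nat_lit 8262198126) (nat_lit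 223) (nat_lit 5) (nat_lit 237) (nat_lit 5) (nat_lit 238) (nat_lit 5) (nat_lit 292) (nat_lit 284) (nat_lit 204))) (XT.nd (nat_lit 78) (nat_lit 0) (nat_lit 0) (XT.lf (nat_lit 0) (nat_lit 2324077744) (nat_lit 1064) (nat_lit 5466028846) (nat_lit 1140) (nat_lit 2221420095) (nat_lit 224) (nat_lit 5) (nat_lit 238) (nat_lit 5) (nat_lit 239) (nat_lit 5) (nat_lit 293) (nat_lit 284) (nat_lit 203)) (XT.lf (nat_lit 0) (nat_lit 3415912666) (nat_lit 1064) (nat_lit 579041394) (nat_lit 1140) (nat_lit 6154257452) (nat_lit 224) (nat_lit 5) (nat_lit 238) (nat_lit 5) (nat_lit 239) (nat_lit 5) (nat_lit 294) (nat_lit 284) (nat_lit 202))))) (XT.nd (nat_lit 234) (nat_lit 912) (nat_lit 0) (XT.nd (nat_lit 78) (nat_lit 0) (nat_lit 76) (XT.lf (nat_lit 76) (nat_lit 4524120479) (nat_lit 0) (nat_lit 33060728) (nat_lit 1140) (nat_lit 5733374278) (nat_lit 225) (nat_lit 5) (nat_lit 224) (nat_lit 5) (nat_lit 239) (nat_lit 5) (nat_lit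 295) (nat_lit 284) (nat_lit 201)) (XT.nd (nat_lit 78) (nat_lit 0) (nat_lit 0) (XT.lf (nat_lit 0) (nat_lit 5751368189) (nat_lit 1064) (nat_lit 702105819) (nat_lit 1140) (nat_lit 3982133473) (nat_lit 225) (nat_lit 5) (nat_lit 239) (nat_lit 5) (nat_lit 240) (nat_lit 5) (nat_lit 296) (nat_lit 284) (nat_lit 200)) (XT.lf (nat_lit 76) (nat_lit 4584428617) (nat_lit 0) (nat_lit 2415975441) (nat_lit 1140) (nat_lit 3584063575) (nat_lit 226) (nat_lit 5) (nat_lit 225) (nat_lit 5) (nat_lit 240) (nat_lit 5) (nat_lit 297) (nat_lit 284) (nat_lit 199)))) (XT.nd (nat_lit 156) (nat_lit 1064) (nat_lit 0) (XT.nd (nat_lit 78) (nat_lit 0) (nat_lit 0) (XT.lf (nat_lit 0) (nat_lit 8286068669) (nat_lit 1064) (nat_lit 729951993) (nat_lit 1140) (nat_lit 1721824702) (nat_lit 226) (nat_lit 5) (nat_lit 240) (nat_lit 5) (nat_lit 241) (nat_lit 5) (nat_lit 298) (nat_lit 284) (nat_lit 198)) (XT.lf (nat_lit 76) (nat_lit 4748035286)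 (nat_lit 0) (nat_lit 4907796660) (nat_lit 1140) (nat_lit 1238652348) (nat_lit 227) (nat_lit 5) (nat_lit 226) (nat_lit 5) (nat_lit 241) (nat_lit 5) (nat_lit 299) (nat_lit 284) (nat_lit 197))) (XT.nd (nat_lit 78) (nat_lit 1064) (nat_lit 0) (XT.lf (nat_lit 76) (nat_lit 10386578025) (nat_lit 0) (nat_lit 663968112) (nat_lit 1140) (nat_lit 5785492) (nat_lit 227) (nat_lit 5) (nat_lit 226) (nat_lit 5) (nat_lit 241) (nat_lit 5) (nat_lit 300) (nat_lit 284) (nat_lit 196)) (XT.lf (nat_lit 0) (nat_lit 1301035943) (nat_lit 1140) (nat_lit 6219479215) (nat_lit 76) (nat_lit 3700329192) (nat_lit 212) (nat_lit 5) (nat_lit 227) (nat_lit 5) (nat_lit 213) (nat_lit 5) (nat_lit 301) (nat_lit 284) (nat_lit 195)))))) (XT.nd (nat_lit 546) (nat_lit 2204) (nat_lit 0) (XT.nd (nat_lit 234) (nat_lit 1900) (nat_lit 0) (XT.nd (nat_lit 78) (nat_lit 1140) (nat_lit 0) (XT.lf (nat_lit 0) (nat_lit 2637805397) (nat_lit 1140) (nat_lit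 559681708) (nat_lit 76) (nat_lit 8193100700) (nat_lit 212) (nat_lit 5) (nat_lit 227) (nat_lit 5) (nat_lit 213) (nat_lit 5) (nat_lit 302) (nat_lit 284) (nat_lit 194)) (XT.nd (nat_lit 78) (nat_lit 0) (nat_lit 0) (XT.lf (nat_lit 0) (nat_lit 4056879383) (nat_lit 1216) (nat_lit 6221425333) (nat_lit 76) (nat_lit 1285874998) (nat_lit 197) (nat_lit 5) (nat_lit 213) (nat_lit 5) (nat_lit 198) (nat_lit 5) (nat_lit 303) (nat_lit 284) (nat_lit 193)) (XT.lf (nat_lit 0) (nat_lit 5534491588) (nat_lit 1216) (nat_lit 359977308) (nat_lit 76) (nat_lit 5848053053) (nat_lit 197) (nat_lit 5) (nat_lit 213) (nat_lit 5) (nat_lit 198) (nat_lit 5) (nat_lit 304) (nat_lit 284) (nat_lit 192)))) (XT.nd (nat_lit 156) (nat_lit 1140) (nat_lit 0) (XT.nd (nat_lit 78) (nat_lit 0) (nat_lit 0) (XT.lf (nat_lit 0) (nat_lit 5771302262) (nat_lit 760) (nat_lit 1319830550) (nat_lit 836) (nat_lit 4834061539) (nat_lit 187) (nat_lit 5) (nat_lit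 197) (nat_lit 5) (nat_lit 198) (nat_lit 5) (nat_lit 305) (nat_lit 284) (nat_lit 191)) (XT.lf (nat_lit 0) (nat_lit 8710420207) (nat_lit 836) (nat_lit 71078074) (nat_lit 76) (nat_lit 3331390548) (nat_lit 187) (nat_lit 5) (nat_lit 198) (nat_lit 5) (nat_lit 188) (nat_lit 5) (nat_lit 306) (nat_lit 284) (nat_lit 190))) (XT.nd (nat_lit 78) (nat_lit 532) (nat_lit 0) (XT.lf (nat_lit 0) (nat_lit 6285259837) (nat_lit 608) (nat_lit 4146773375) (nat_lit 684) (nat_lit 1872588238) (nat_lit 179) (nat_lit 5) (nat_lit 187) (nat_lit 5) (nat_lit 188) (nat_lit 5) (nat_lit 307) (nat_lit 284) (nat_lit 189)) (XT.lf (nat_lit 0) (nat_lit 312761399) (nat_lit 532) (nat_lit 11882961012) (nat_lit 608) (nat_lit 306689950) (nat_lit 172) (nat_lit 5) (nat_lit 179) (nat_lit 5) (nat_lit 180) (nat_lit 5) (nat_lit 308) (nat_lit 284) (nat_lit 188))))) (XT.nd (nat_lit 312) (nat_lit 1064) (nat_lit 0) (XT.nd (nat_lit 156) (nat_lit 532)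 (nat_lit 0) (XT.nd (nat_lit 78) (nat_lit 532) (nat_lit 0) (XT.lf (nat_lit 0) (nat_lit 1363985741) (nat_lit 608) (nat_lit 5819470444) (nat_lit 76) (nat_lit 5519823521) (nat_lit 171) (nat_lit 5) (nat_lit 179) (nat_lit 5) (nat_lit 172) (nat_lit 5) (nat_lit 309) (nat_lit 284) (nat_lit 187)) (XT.lf (nat_lit 0) (nat_lit 734488920) (nat_lit 532) (nat_lit 2332592960) (nat_lit 608) (nat_lit 9843363684) (nat_lit 164) (nat_lit 5) (nat_lit 171) (nat_lit 5) (nat_lit 172) (nat_lit 5) (nat_lit 310) (nat_lit 284) (nat_lit 186))) (XT.nd (nat_lit 78) (nat_lit 532) (nat_lit 0) (XT.lf (nat_lit 0) (nat_lit 4887990374) (nat_lit 608) (nat_lit 5562892753) (nat_lit 76) (nat_lit 2670958698) (nat_lit 164) (nat_lit 5) (nat_lit 172) (nat_lit 5) (nat_lit 165) (nat_lit 5) (nat_lit 311) (nat_lit 284) (nat_lit 185)) (XT.lf (nat_lit 0) (nat_lit 1231041643) (nat_lit 532) (nat_lit 5549710417) (nat_lit 608) (nat_lit 6558327650) (nat_lit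 157) (nat_lit 5) (nat_lit 164) (nat_lit 5) (nat_lit 165) (nat_lit 5) (nat_lit 312) (nat_lit 284) (nat_lit 184)))) (XT.nd (nat_lit 156) (nat_lit 532) (nat_lit 0) (XT.nd (nat_lit 78) (nat_lit 532) (nat_lit 0) (XT.lf (nat_lit 0) (nat_lit 8324560300) (nat_lit 532) (nat_lit 444548050) (nat_lit 608) (nat_lit 4792578064) (nat_lit 157) (nat_lit 5) (nat_lit 164) (nat_lit 5) (nat_lit 165) (nat_lit 5) (nat_lit 313) (nat_lit 284) (nat_lit 183)) (XT.lf (nat_lit 0) (nat_lit 1810725704) (nat_lit 532) (nat_lit 9053203023) (nat_lit 608) (nat_lit 2925653755) (nat_lit 150) (nat_lit 5) (nat_lit 157) (nat_lit 5) (nat_lit 158) (nat_lit 5) (nat_lit 314) (nat_lit 284) (nat_lit 182))) (XT.nd (nat_lit 78) (nat_lit 532) (nat_lit 0) (XT.lf (nat_lit 0) (nat_lit 9154810491) (nat_lit 532) (nat_lit 3907478473) (nat_lit 608) (nat_lit 960820725) (nat_lit 150) (nat_lit 5) (nat_lit 157) (nat_lit 5) (nat_lit 158) (nat_lit 5) (nat_lit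 315) (nat_lit 284) (nat_lit 181)) (XT.lf (nat_lit 0) (nat_lit 1063482423) (nat_lit 532) (nat_lit 11801043112) (nat_lit 76) (nat_lit 1398186871) (nat_lit 143) (nat_lit 5) (nat_lit 150) (nat_lit 5) (nat_lit 144) (nat_lit 5) (nat_lit 316) (nat_lit 284) (nat_lit 180))))))))
noncomputable def xc162 : XT := (XT.nd (nat_lit 2184) (nat_lit 2888) (nat_lit 0) (XT.nd (nat_lit 1092) (nat_lit 2128) (nat_lit 0) (XT.nd (nat_lit 546) (nat_lit 1596) (nat_lit 0) (XT.nd (nat_lit 234) (nat_lit 912) (nat_lit 0) (XT.nd (nat_lit 78) (nat_lit 456) (nat_lit 0) (XT.lf (nat_lit 0) (nat_lit 3201584579) (nat_lit 532) (nat_lit 4463564148) (nat_lit 76) (nat_lit 6841911473) (nat_lit 143) (nat_lit 5) (nat_lit 150) (nat_lit 5) (nat_lit 144) (nat_lit 5) (nat_lit 317) (nat_lit 284) (nat_lit 179)) (XT.nd (nat_lit 78) (nat_lit 0) (nat_lit 0) (XT.lf (nat_lit 0) (nat_lit 3137614629) (nat_lit 456) (nat_lit 2280887043) (nat_lit 532) (nat_lit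 9339810026) (nat_lit 137) (nat_lit 5) (nat_lit 143) (nat_lit 5) (nat_lit 144) (nat_lit 5) (nat_lit 318) (nat_lit 284) (nat_lit 178)) (XT.lf (nat_lit 0) (nat_lit 7763602523) (nat_lit 532) (nat_lit 4007176634) (nat_lit 76) (nat_lit 3244484336) (nat_lit 137) (nat_lit 5) (nat_lit 144) (nat_lit 5) (nat_lit 138) (nat_lit 5) (nat_lit 319) (nat_lit 284) (nat_lit 177)))) (XT.nd (nat_lit 156) (nat_lit 532) (nat_lit 0) (XT.nd (nat_lit 78) (nat_lit 0) (nat_lit 0) (XT.lf (nat_lit 0) (nat_lit 3870286658) (nat_lit 380) (nat_lit 6353772349) (nat_lit 456) (nat_lit 5054527412) (nat_lit 132) (nat_lit 5) (nat_lit 137) (nat_lit 5) (nat_lit 138) (nat_lit 5) (nat_lit 320) (nat_lit 284) (nat_lit 176)) (XT.lf (nat_lit 0) (nat_lit 12048984710) (nat_lit 380) (nat_lit 735290065) (nat_lit 456) (nat_lit 2764768179) (nat_lit 132) (nat_lit 5) (nat_lit 137) (nat_lit 5) (nat_lit 138) (nat_lit 5) (nat_lit 321) (nat_lit 284) (nat_lit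 175))) (XT.nd (nat_lit 78) (nat_lit 76) (nat_lit 0) (XT.lf (nat_lit 0) (nat_lit 4670875733) (nat_lit 456) (nat_lit 10829759600) (nat_lit 532) (nat_lit 324609633) (nat_lit 126) (nat_lit 5) (nat_lit 132) (nat_lit 5) (nat_lit 133) (nat_lit 5) (nat_lit 322) (nat_lit 284) (nat_lit 174)) (XT.lf (nat_lit 0) (nat_lit 2174994931) (nat_lit 532) (nat_lit 2995919097) (nat_lit 76) (nat_lit 10937330516) (nat_lit 125) (nat_lit 5) (nat_lit 132) (nat_lit 5) (nat_lit 126) (nat_lit 5) (nat_lit 323) (nat_lit 284) (nat_lit 173))))) (XT.nd (nat_lit 234) (nat_lit 836) (nat_lit 0) (XT.nd (nat_lit 78) (nat_lit 380) (nat_lit 0) (XT.lf (nat_lit 0) (nat_lit 4789113160) (nat_lit 456) (nat_lit 10910789982) (nat_lit 76) (nat_lit 698363971) (nat_lit 120) (nat_lit 5) (nat_lit 126) (nat_lit 5) (nat_lit 121) (nat_lit 5) (nat_lit 324) (nat_lit 284) (nat_lit 172)) (XT.nd (nat_lit 78) (nat_lit 380) (nat_lit 0) (XT.lf (nat_lit 0) (nat_lit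 7549996976) (nat_lit 456) (nat_lit 2477766879) (nat_lit 76) (nat_lit 6667186842) (nat_lit 120) (nat_lit 5) (nat_lit 126) (nat_lit 5) (nat_lit 121) (nat_lit 5) (nat_lit 325) (nat_lit 284) (nat_lit 171)) (XT.lf (nat_lit 0) (nat_lit 6314993577) (nat_lit 380) (nat_lit 4126400252) (nat_lit 456) (nat_lit 6557720656) (nat_lit 115) (nat_lit 5) (nat_lit 120) (nat_lit 5) (nat_lit 121) (nat_lit 5) (nat_lit 326) (nat_lit 284) (nat_lit 170)))) (XT.nd (nat_lit 156) (nat_lit 456) (nat_lit 0) (XT.nd (nat_lit 78) (nat_lit 380) (nat_lit 0) (XT.lf (nat_lit 0) (nat_lit 13450736078) (nat_lit 456) (nat_lit 1925015491) (nat_lit 76) (nat_lit 1935725504) (nat_lit 115) (nat_lit 5) (nat_lit 121) (nat_lit 5) (nat_lit 116) (nat_lit 5) (nat_lit 327) (nat_lit 284) (nat_lit 169)) (XT.lf (nat_lit 0) (nat_lit 7179919582) (nat_lit 380) (nat_lit 9467857204) (nat_lit 456) (nat_lit 982520909) (nat_lit 110) (nat_lit 5) (nat_lit 115)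 (nat_lit 5) (nat_lit 116) (nat_lit 5) (nat_lit 328) (nat_lit 284) (nat_lit 168))) (XT.nd (nat_lit 78) (nat_lit 380) (nat_lit 0) (XT.lf (nat_lit 0) (nat_lit 1950623380) (nat_lit 456) (nat_lit 1396172082) (nat_lit 76) (nat_lit 14611107404) (nat_lit 109) (nat_lit 5) (nat_lit 115) (nat_lit 5) (nat_lit 110) (nat_lit 5) (nat_lit 329) (nat_lit 284) (nat_lit 167)) (XT.lf (nat_lit 0) (nat_lit 5046749387) (nat_lit 456) (nat_lit 10260925897) (nat_lit 76) (nat_lit 2984535895) (nat_lit 104) (nat_lit 5) (nat_lit 110) (nat_lit 5) (nat_lit 105) (nat_lit 5) (nat_lit 330) (nat_lit 284) (nat_lit 166)))))) (XT.nd (nat_lit 546) (nat_lit 836) (nat_lit 0) (XT.nd (nat_lit 234) (nat_lit 988) (nat_lit 0) (XT.nd (nat_lit 78) (nat_lit 304) (nat_lit 0) (XT.lf (nat_lit 0) (nat_lit 8271280043) (nat_lit 456) (nat_lit 915202907) (nat_lit 76) (nat_lit 9449008785) (nat_lit 104) (nat_lit 5) (nat_lit 110) (nat_lit 5) (nat_lit 105)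 (nat_lit 5) (nat_lit 331) (nat_lit 284) (nat_lit 165)) (XT.nd (nat_lit 78) (nat_lit 0) (nat_lit 0) (XT.lf (nat_lit 0) (nat_lit 8868424867) (nat_lit 304) (nat_lit 2797861825) (nat_lit 380) (nat_lit 7320580180) (nat_lit 100) (nat_lit 5) (nat_lit 104) (nat_lit 5) (nat_lit 105) (nat_lit 5) (nat_lit 332) (nat_lit 284) (nat_lit 164)) (XT.lf (nat_lit 0) (nat_lit 15197475608) (nat_lit 380) (nat_lit 436312679) (nat_lit 76) (nat_lit 3713973139) (nat_lit 100) (nat_lit 5) (nat_lit 105) (nat_lit 5) (nat_lit 101) (nat_lit 5) (nat_lit 333) (nat_lit 284) (nat_lit 163)))) (XT.nd (nat_lit 156) (nat_lit 608) (nat_lit 0) (XT.nd (nat_lit 78) (nat_lit 76) (nat_lit 0) (XT.lf (nat_lit 0) (nat_lit 9682293514) (nat_lit 304) (nat_lit 9262051179) (nat_lit 380) (nat_lit 771853676) (nat_lit 96) (nat_lit 5) (nat_lit 100) (nat_lit 5) (nat_lit 101) (nat_lit 5) (nat_lit 334) (nat_lit 284) (nat_lit 162)) (XT.lf (nat_lit 0) (nat_lit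 2648571620) (nat_lit 380) (nat_lit 23526598) (nat_lit 76) (nat_lit 17423012278) (nat_lit 95) (nat_lit 5) (nat_lit 100) (nat_lit 5) (nat_lit 96) (nat_lit 5) (nat_lit 335) (nat_lit 284) (nat_lit 161))) (XT.nd (nat_lit 78) (nat_lit 304) (nat_lit 0) (XT.lf (nat_lit 0) (nat_lit 6286674638) (nat_lit 380) (nat_lit 10054106033) (nat_lit 76) (nat_lit 4140469916) (nat_lit 91) (nat_lit 5) (nat_lit 96) (nat_lit 5) (nat_lit 92) (nat_lit 5) (nat_lit 336) (nat_lit 284) (nat_lit 160)) (XT.lf (nat_lit 0) (nat_lit 276805179) (nat_lit 304) (nat_lit 9775952479) (nat_lit 380) (nat_lit 10825659124) (nat_lit 87) (nat_lit 5) (nat_lit 91) (nat_lit 5) (nat_lit 92) (nat_lit 5) (nat_lit 337) (nat_lit 284) (nat_lit 159))))) (XT.nd (nat_lit 234) (nat_lit 532) (nat_lit 0) (XT.nd (nat_lit 78) (nat_lit 304) (nat_lit 0) (XT.lf (nat_lit 0) (nat_lit 11108902109) (nat_lit 304) (nat_lit 2914091321) (nat_lit 380) (nat_lit 7261776229)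 (nat_lit 87) (nat_lit 5) (nat_lit 91) (nat_lit 5) (nat_lit 92) (nat_lit 5) (nat_lit 338) (nat_lit 284) (nat_lit 158)) (XT.nd (nat_lit 78) (nat_lit 76) (nat_lit 0) (XT.lf (nat_lit 0) (nat_lit 518157679) (nat_lit 228) (nat_lit 17628989933) (nat_lit 304) (nat_lit 3555127776) (nat_lit 84) (nat_lit 5) (nat_lit 87) (nat_lit 5) (nat_lit 88) (nat_lit 5) (nat_lit 339) (nat_lit 284) (nat_lit 157)) (XT.lf (nat_lit 0) (nat_lit 380172569) (nat_lit 304) (nat_lit 10434757214) (nat_lit 76) (nat_lit 11313629598) (nat_lit 83) (nat_lit 5) (nat_lit 87) (nat_lit 5) (nat_lit 84) (nat_lit 5) (nat_lit 340) (nat_lit 284) (nat_lit 156)))) (XT.nd (nat_lit 156) (nat_lit 228) (nat_lit 0) (XT.nd (nat_lit 78) (nat_lit 0) (nat_lit 0) (XT.lf (nat_lit 0) (nat_lit 599270599) (nat_lit 304) (nat_lit 3758812931) (nat_lit 380) (nat_lit 18208618245) (nat_lit 79) (nat_lit 5) (nat_lit 83) (nat_lit 5) (nat_lit 84) (nat_lit 5) (nat_lit 341)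 (nat_lit 284) (nat_lit 155)) (XT.lf (nat_lit 0) (nat_lit 8585825887) (nat_lit 380) (nat_lit 10885797672) (nat_lit 76) (nat_lit 3542455930) (nat_lit 79) (nat_lit 5) (nat_lit 84) (nat_lit 5) (nat_lit 80) (nat_lit 5) (nat_lit 342) (nat_lit 284) (nat_lit 154))) (XT.nd (nat_lit 78) (nat_lit 0) (nat_lit 0) (XT.lf (nat_lit 0) (nat_lit 486565373) (nat_lit 228) (nat_lit 12486359021) (nat_lit 304) (nat_lit 10500984120) (nat_lit 76) (nat_lit 5) (nat_lit 79) (nat_lit 5) (nat_lit 80) (nat_lit 5) (nat_lit 343) (nat_lit 284) (nat_lit 153)) (XT.lf (nat_lit 0) (nat_lit 12409386591) (nat_lit 228) (nat_lit 5182944879) (nat_lit 304) (nat_lit 6352185607) (nat_lit 76) (nat_lit 5) (nat_lit 79) (nat_lit 5) (nat_lit 80) (nat_lit 5) (nat_lit 344) (nat_lit 284) (nat_lit 152))))))) (XT.nd (nat_lit 1092) (nat_lit 1140) (nat_lit 0) (XT.nd (nat_lit 546) (nat_lit 912) (nat_lit 0) (XT.nd (nat_lit 234) (nat_lit 532) (nat_lit 0)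 (XT.nd (nat_lit 78) (nat_lit 76) (nat_lit 0) (XT.lf (nat_lit 0) (nat_lit 228938411) (nat_lit 228) (nat_lit 22137068437) (nat_lit 304) (nat_lit 2062771835) (nat_lit 73) (nat_lit 5) (nat_lit 76) (nat_lit 5) (nat_lit 77) (nat_lit 5) (nat_lit 345) (nat_lit 284) (nat_lit 151)) (XT.nd (nat_lit 78) (nat_lit 0) (nat_lit 0) (XT.lf (nat_lit 0) (nat_lit 2469350272) (nat_lit 304) (nat_lit 12430533266) (nat_lit 76) (nat_lit 10022210834) (nat_lit 72) (nat_lit 5) (nat_lit 76) (nat_lit 5) (nat_lit 73) (nat_lit 5) (nat_lit 346) (nat_lit 284) (nat_lit 150)) (XT.lf (nat_lit 0) (nat_lit 7087272497) (nat_lit 304) (nat_lit 341907856) (nat_lit 76) (nat_lit 18000682506) (nat_lit 72) (nat_lit 5) (nat_lit 76) (nat_lit 5) (nat_lit 73) (nat_lit 5) (nat_lit 347) (nat_lit 284) (nat_lit 149)))) (XT.nd (nat_lit 156) (nat_lit 304) (nat_lit 0) (XT.nd (nat_lit 78) (nat_lit 0) (nat_lit 0) (XT.lf (nat_lit 0) (nat_lit 11957558923) (nat_lit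 304) (nat_lit 13616079300) (nat_lit 76) (nat_lit 375816153) (nat_lit 69) (nat_lit 5) (nat_lit 73) (nat_lit 5) (nat_lit 70) (nat_lit 5) (nat_lit 348) (nat_lit 284) (nat_lit 148)) (XT.lf (nat_lit 0) (nat_lit 17042626274) (nat_lit 304) (nat_lit 1175228375) (nat_lit 76) (nat_lit 8264723453) (nat_lit 69) (nat_lit 5) (nat_lit 73) (nat_lit 5) (nat_lit 70) (nat_lit 5) (nat_lit 349) (nat_lit 284) (nat_lit 147))) (XT.nd (nat_lit 78) (nat_lit 76) (nat_lit 0) (XT.lf (nat_lit 0) (nat_lit 11857578588) (nat_lit 228) (nat_lit 10528522471) (nat_lit 304) (nat_lit 4642423316) (nat_lit 66) (nat_lit 5) (nat_lit 69) (nat_lit 5) (nat_lit 70) (nat_lit 5) (nat_lit 350) (nat_lit 284) (nat_lit 146)) (XT.lf (nat_lit 0) (nat_lit 297086665) (nat_lit 304) (nat_lit 2300719023) (nat_lit 76) (nat_lit 24992844632) (nat_lit 65) (nat_lit 5) (nat_lit 69) (nat_lit 5) (nat_lit 66) (nat_lit 5) (nat_lit 351) (nat_lit 284) (nat_lit 145)))))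 (XT.nd (nat_lit 234) (nat_lit 456) (nat_lit 0) (XT.nd (nat_lit 78) (nat_lit 228) (nat_lit 0) (XT.lf (nat_lit 0) (nat_lit 5445472087) (nat_lit 304) (nat_lit 17106113068) (nat_lit 76) (nat_lit 5612060118) (nat_lit 62) (nat_lit 5) (nat_lit 66) (nat_lit 5) (nat_lit 63) (nat_lit 5) (nat_lit 352) (nat_lit 284) (nat_lit 144)) (XT.nd (nat_lit 78) (nat_lit 228) (nat_lit 0) (XT.lf (nat_lit 0) (nat_lit 10789702962) (nat_lit 304) (nat_lit 3927788314) (nat_lit 76) (nat_lit 14035100979) (nat_lit 62) (nat_lit 5) (nat_lit 66) (nat_lit 5) (nat_lit 63) (nat_lit 5) (nat_lit 353) (nat_lit 284) (nat_lit 143)) (XT.lf (nat_lit 0) (nat_lit 9825581975) (nat_lit 228) (nat_lit 6555565441) (nat_lit 304) (nat_lit 12975457511) (nat_lit 59) (nat_lit 5) (nat_lit 62) (nat_lit 5) (nat_lit 63) (nat_lit 5) (nat_lit 354) (nat_lit 284) (nat_lit 142)))) (XT.nd (nat_lit 156) (nat_lit 304) (nat_lit 0) (XT.nd (nat_lit 78) (nat_lit 152)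 (nat_lit 0) (XT.lf (nat_lit 0) (nat_lit 22190685880) (nat_lit 304) (nat_lit 5935769939) (nat_lit 76) (nat_lit 1850775407) (nat_lit 59) (nat_lit 5) (nat_lit 63) (nat_lit 5) (nat_lit 60) (nat_lit 5) (nat_lit 355) (nat_lit 284) (nat_lit 141)) (XT.lf (nat_lit 0) (nat_lit 8149713575) (nat_lit 152) (nat_lit 20160761959) (nat_lit 228) (nat_lit 2301925487) (nat_lit 57) (nat_lit 5) (nat_lit 59) (nat_lit 5) (nat_lit 60) (nat_lit 5) (nat_lit 356) (nat_lit 284) (nat_lit 140))) (XT.nd (nat_lit 78) (nat_lit 228) (nat_lit 0) (XT.lf (nat_lit 0) (nat_lit 3335193566) (nat_lit 228) (nat_lit 8529941189) (nat_lit 76) (nat_lit 19398931016) (nat_lit 56) (nat_lit 5) (nat_lit 59) (nat_lit 5) (nat_lit 57) (nat_lit 5) (nat_lit 357) (nat_lit 284) (nat_lit 139)) (XT.lf (nat_lit 0) (nat_lit 5901719711) (nat_lit 228) (nat_lit 3243126404) (nat_lit 304) (nat_lit 22788263366) (nat_lit 53) (nat_lit 5) (nat_lit 56) (nat_lit 5) (nat_lit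 57) (nat_lit 5) (nat_lit 358) (nat_lit 284) (nat_lit 138)))))) (XT.nd (nat_lit 546) (nat_lit 532) (nat_lit 0) (XT.nd (nat_lit 234) (nat_lit 456) (nat_lit 0) (XT.nd (nat_lit 78) (nat_lit 152) (nat_lit 0) (XT.lf (nat_lit 0) (nat_lit 15262977853) (nat_lit 304) (nat_lit 11744996543) (nat_lit 76) (nat_lit 5610227668) (nat_lit 53) (nat_lit 5) (nat_lit 57) (nat_lit 5) (nat_lit 54) (nat_lit 5) (nat_lit 359) (nat_lit 284) (nat_lit 137)) (XT.nd (nat_lit 78) (nat_lit 0) (nat_lit 0) (XT.lf (nat_lit 0) (nat_lit 2984962930) (nat_lit 152) (nat_lit 18633707264) (nat_lit 228) (nat_lit 11703559885) (nat_lit 51) (nat_lit 5) (nat_lit 53) (nat_lit 5) (nat_lit 54) (nat_lit 5) (nat_lit 360) (nat_lit 284) (nat_lit 136)) (XT.lf (nat_lit 0) (nat_lit 18386528776) (nat_lit 152) (nat_lit 9890410589) (nat_lit 228) (nat_lit 5767085451) (nat_lit 51) (nat_lit 5) (nat_lit 53) (nat_lit 5) (nat_lit 54) (nat_lit 5) (nat_lit 361) (nat_lit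 284) (nat_lit 135)))) (XT.nd (nat_lit 156) (nat_lit 152) (nat_lit 0) (XT.nd (nat_lit 78) (nat_lit 228) (nat_lit 0) (XT.lf (nat_lit 0) (nat_lit 334134924) (nat_lit 228) (nat_lit 551537002) (nat_lit 76) (nat_lit 33901901180) (nat_lit 50) (nat_lit 5) (nat_lit 53) (nat_lit 5) (nat_lit 51) (nat_lit 5) (nat_lit 362) (nat_lit 284) (nat_lit 134)) (XT.lf (nat_lit 0) (nat_lit 6725190621) (nat_lit 304) (nat_lit 20392845712) (nat_lit 76) (nat_lit 8426999975) (nat_lit 47) (nat_lit 5) (nat_lit 51) (nat_lit 5) (nat_lit 48) (nat_lit 5) (nat_lit 363) (nat_lit 284) (nat_lit 133))) (XT.nd (nat_lit 78) (nat_lit 152) (nat_lit 0) (XT.lf (nat_lit 0) (nat_lit 13316040635) (nat_lit 304) (nat_lit 5006141135) (nat_lit 76) (nat_lit 18002802479) (nat_lit 47) (nat_lit 5) (nat_lit 51) (nat_lit 5) (nat_lit 48) (nat_lit 5) (nat_lit 364) (nat_lit 284) (nat_lit 132)) (XT.lf (nat_lit 0) (nat_lit 11047452172) (nat_lit 152) (nat_lit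 9157212275) (nat_lit 228) (nat_lit 16920667375) (nat_lit 45) (nat_lit 5) (nat_lit 47) (nat_lit 5) (nat_lit 48) (nat_lit 5) (nat_lit 365) (nat_lit 284) (nat_lit 131))))) (XT.nd (nat_lit 312) (nat_lit 304) (nat_lit 0) (XT.nd (nat_lit 156) (nat_lit 76) (nat_lit 0) (XT.nd (nat_lit 78) (nat_lit 152) (nat_lit 0) (XT.lf (nat_lit 0) (nat_lit 27347612156) (nat_lit 228) (nat_lit 10276449090) (nat_lit 76) (nat_lit 324201184) (nat_lit 45) (nat_lit 5) (nat_lit 48) (nat_lit 5) (nat_lit 46) (nat_lit 5) (nat_lit 366) (nat_lit 284) (nat_lit 130)) (XT.lf (nat_lit 0) (nat_lit 6015716101) (nat_lit 152) (nat_lit 28831697134) (nat_lit 228) (nat_lit 3944193265) (nat_lit 43) (nat_lit 5) (nat_lit 45) (nat_lit 5) (nat_lit 46) (nat_lit 5) (nat_lit 367) (nat_lit 284) (nat_lit 129))) (XT.nd (nat_lit 78) (nat_lit 0) (nat_lit 0) (XT.lf (nat_lit 0) (nat_lit 2954023703) (nat_lit 228) (nat_lit 16688906050) (nat_lit 76) (nat_lit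 20013517071) (nat_lit 42) (nat_lit 5) (nat_lit 45) (nat_lit 5) (nat_lit 43) (nat_lit 5) (nat_lit 368) (nat_lit 284) (nat_lit 128)) (XT.lf (nat_lit 0) (nat_lit 9974174543) (nat_lit 228) (nat_lit 168123526) (nat_lit 76) (nat_lit 30403937171) (nat_lit 42) (nat_lit 5) (nat_lit 45) (nat_lit 5) (nat_lit 43) (nat_lit 5) (nat_lit 369) (nat_lit 284) (nat_lit 127)))) (XT.nd (nat_lit 156) (nat_lit 152) (nat_lit 0) (XT.nd (nat_lit 78) (nat_lit 0) (nat_lit 0) (XT.lf (nat_lit 0) (nat_lit 17173932077) (nat_lit 152) (nat_lit 190513049) (nat_lit 228) (nat_lit 24093488940) (nat_lit 40) (nat_lit 5) (nat_lit 42) (nat_lit 5) (nat_lit 43) (nat_lit 5) (nat_lit 370) (nat_lit 284) (nat_lit 126)) (XT.lf (nat_lit 0) (nat_lit 25069303168) (nat_lit 228) (nat_lit 7463467772) (nat_lit 76) (nat_lit 9861428686) (nat_lit 40) (nat_lit 5) (nat_lit 43) (nat_lit 5) (nat_lit 41) (nat_lit 5) (nat_lit 371) (nat_lit 284) (nat_lit 125)))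 (XT.nd (nat_lit 78) (nat_lit 0) (nat_lit 0) (XT.lf (nat_lit 0) (nat_lit 10046606186) (nat_lit 152) (nat_lit 23051786028) (nat_lit 228) (nat_lit 10257370466) (nat_lit 38) (nat_lit 5) (nat_lit 40) (nat_lit 5) (nat_lit 41) (nat_lit 5) (nat_lit 372) (nat_lit 284) (nat_lit 124)) (XT.lf (nat_lit 0) (nat_lit 28225831187) (nat_lit 152) (nat_lit 13212582654) (nat_lit 228) (nat_lit 2905659010) (nat_lit 38) (nat_lit 5) (nat_lit 40) (nat_lit 5) (nat_lit 41) (nat_lit 5) (nat_lit 373) (nat_lit 284) (nat_lit 123))))))))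
noncomputable def xc163 : XT := (XT.nd (nat_lit 2184) (nat_lit 228) (nat_lit 0) (XT.nd (nat_lit 1092) (nat_lit 684) (nat_lit 0) (XT.nd (nat_lit 546) (nat_lit 304) (nat_lit 0) (XT.nd (nat_lit 234) (nat_lit 304) (nat_lit 0) (XT.nd (nat_lit 78) (nat_lit 0) (nat_lit 0) (XT.lf (nat_lit 0) (nat_lit 1565098990) (nat_lit 152) (nat_lit 3020282379) (nat_lit 228) (nat_lit 40775011927) (nat_lit 35) (nat_lit 5) (nat_lit 37) (nat_lit 5) (nat_lit 38) (nat_lit 5) (nat_lit 374) (nat_lit 284) (nat_lit 122)) (XT.nd (nat_lit 78) (nat_lit 0) (nat_lit 0) (XT.lf (nat_lit 0) (nat_lit 12473832411) (nat_lit 228) (nat_lit 26404249837) (nat_lit 76) (nat_lit 7521327482) (nat_lit 35) (nat_lit 5) (nat_lit 38) (nat_lit 5) (nat_lit 36) (nat_lit 5) (nat_lit 375) (nat_lit 284) (nat_lit 121)) (XT.lf (nat_lit 0) (nat_lit 20623816604) (nat_lit 228) (nat_lit 8530131127) (nat_lit 76) (nat_lit 18314904337) (nat_lit 35) (nat_lit 5) (nat_lit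 38) (nat_lit 5) (nat_lit 36) (nat_lit 5) (nat_lit 376) (nat_lit 284) (nat_lit 120)))) (XT.nd (nat_lit 156) (nat_lit 152) (nat_lit 0) (XT.nd (nat_lit 78) (nat_lit 0) (nat_lit 0) (XT.lf (nat_lit 0) (nat_lit 10068179228) (nat_lit 152) (nat_lit 19042024761) (nat_lit 228) (nat_lit 19457418324) (nat_lit 33) (nat_lit 5) (nat_lit 35) (nat_lit 5) (nat_lit 36) (nat_lit 5) (nat_lit 377) (nat_lit 284) (nat_lit 119)) (XT.lf (nat_lit 0) (nat_lit 29390883182) (nat_lit 152) (nat_lit 8541620764) (nat_lit 228) (nat_lit 11764413787) (nat_lit 33) (nat_lit 5) (nat_lit 35) (nat_lit 5) (nat_lit 36) (nat_lit 5) (nat_lit 378) (nat_lit 284) (nat_lit 118))) (XT.nd (nat_lit 78) (nat_lit 152) (nat_lit 0) (XT.lf (nat_lit 0) (nat_lit 47036620072) (nat_lit 228) (nat_lit 1596959169) (nat_lit 76) (nat_lit 2226000005) (nat_lit 33) (nat_lit 5) (nat_lit 36) (nat_lit 5) (nat_lit 34) (nat_lit 4) (nat_lit 379) (nat_lit 284) (nat_lit 117))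 (XT.lf (nat_lit 0) (nat_lit 4526578774) (nat_lit 152) (nat_lit 34163256876) (nat_lit 76) (nat_lit 13358384457) (nat_lit 31) (nat_lit 5) (nat_lit 33) (nat_lit 5) (nat_lit 32) (nat_lit 5) (nat_lit 380) (nat_lit 284) (nat_lit 116))))) (XT.nd (nat_lit 234) (nat_lit 152) (nat_lit 0) (XT.nd (nat_lit 78) (nat_lit 152) (nat_lit 0) (XT.lf (nat_lit 0) (nat_lit 13061488682) (nat_lit 152) (nat_lit 15334018443) (nat_lit 76) (nat_lit 24875527337) (nat_lit 31) (nat_lit 5) (nat_lit 33) (nat_lit 5) (nat_lit 32) (nat_lit 5) (nat_lit 381) (nat_lit 284) (nat_lit 115)) (XT.nd (nat_lit 78) (nat_lit 0) (nat_lit 0) (XT.lf (nat_lit 0) (nat_lit 4132929274) (nat_lit 152) (nat_lit 17754815433) (nat_lit 228) (nat_lit 32641731040) (nat_lit 29) (nat_lit 5) (nat_lit 31) (nat_lit 5) (nat_lit 32) (nat_lit 5) (nat_lit 382) (nat_lit 284) (nat_lit 114)) (XT.lf (nat_lit 0) (nat_lit 24490478195) (nat_lit 152) (nat_lit 6638778929) (nat_lit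 228) (nat_lit 24691900505) (nat_lit 29) (nat_lit 5) (nat_lit 31) (nat_lit 5) (nat_lit 32) (nat_lit 5) (nat_lit 383) (nat_lit 284) (nat_lit 113)))) (XT.nd (nat_lit 156) (nat_lit 76) (nat_lit 0) (XT.nd (nat_lit 78) (nat_lit 76) (nat_lit 0) (XT.lf (nat_lit 0) (nat_lit 40689979886) (nat_lit 228) (nat_lit 11746691696) (nat_lit 76) (nat_lit 4713660815) (nat_lit 29) (nat_lit 5) (nat_lit 32) (nat_lit 5) (nat_lit 30) (nat_lit 4) (nat_lit 384) (nat_lit 284) (nat_lit 112)) (XT.lf (nat_lit 0) (nat_lit 8517910450) (nat_lit 76) (nat_lit 42163069566) (nat_lit 152) (nat_lit 7834100061) (nat_lit 28) (nat_lit 5) (nat_lit 29) (nat_lit 5) (nat_lit 30) (nat_lit 4) (nat_lit 385) (nat_lit 284) (nat_lit 111))) (XT.nd (nat_lit 78) (nat_lit 0) (nat_lit 0) (XT.lf (nat_lit 0) (nat_lit 1146079921) (nat_lit 152) (nat_lit 30304643191) (nat_lit 76) (nat_lit 28466275840) (nat_lit 27) (nat_lit 5) (nat_lit 29) (nat_lit 5) (nat_lit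 28) (nat_lit 5) (nat_lit 386) (nat_lit 284) (nat_lit 110)) (XT.lf (nat_lit 0) (nat_lit 10234182976) (nat_lit 152) (nat_lit 10106091909) (nat_lit 76) (nat_lit 41018495515) (nat_lit 27) (nat_lit 5) (nat_lit 29) (nat_lit 5) (nat_lit 28) (nat_lit 5) (nat_lit 387) (nat_lit 284) (nat_lit 109)))))) (XT.nd (nat_lit 546) (nat_lit 228) (nat_lit 0) (XT.nd (nat_lit 234) (nat_lit 304) (nat_lit 0) (XT.nd (nat_lit 78) (nat_lit 0) (nat_lit 0) (XT.lf (nat_lit 0) (nat_lit 10904220213) (nat_lit 152) (nat_lit 8791619495) (nat_lit 228) (nat_lit 43144929154) (nat_lit 25) (nat_lit 5) (nat_lit 27) (nat_lit 5) (nat_lit 28) (nat_lit 5) (nat_lit 388) (nat_lit 284) (nat_lit 108)) (XT.nd (nat_lit 78) (nat_lit 0) (nat_lit 0) (XT.lf (nat_lit 0) (nat_lit 29570351626) (nat_lit 228) (nat_lit 31649997734) (nat_lit 76) (nat_lit 3143008908) (nat_lit 25) (nat_lit 5) (nat_lit 28) (nat_lit 5) (nat_lit 26) (nat_lit 4) (nat_lit 389) (nat_lit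 284) (nat_lit 107)) (XT.lf (nat_lit 0) (nat_lit 39824368579) (nat_lit 228) (nat_lit 10848687848) (nat_lit 76) (nat_lit 15256071961) (nat_lit 25) (nat_lit 5) (nat_lit 28) (nat_lit 5) (nat_lit 26) (nat_lit 4) (nat_lit 390) (nat_lit 284) (nat_lit 106)))) (XT.nd (nat_lit 156) (nat_lit 228) (nat_lit 0) (XT.nd (nat_lit 78) (nat_lit 0) (nat_lit 0) (XT.lf (nat_lit 0) (nat_lit 10780432402) (nat_lit 76) (nat_lit 39705535673) (nat_lit 152) (nat_lit 17052905764) (nat_lit 24) (nat_lit 5) (nat_lit 25) (nat_lit 5) (nat_lit 26) (nat_lit 4) (nat_lit 391) (nat_lit 284) (nat_lit 105)) (XT.lf (nat_lit 0) (nat_lit 33274284374) (nat_lit 76) (nat_lit 28299059596) (nat_lit 152) (nat_lit 7620390888) (nat_lit 24) (nat_lit 5) (nat_lit 25) (nat_lit 5) (nat_lit 26) (nat_lit 4) (nat_lit 392) (nat_lit 284) (nat_lit 104))) (XT.nd (nat_lit 78) (nat_lit 152) (nat_lit 0) (XT.lf (nat_lit 0) (nat_lit 2050664109) (nat_lit 152) (nat_lit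 14481840052) (nat_lit 76) (nat_lit 54365240934) (nat_lit 23) (nat_lit 5) (nat_lit 25) (nat_lit 5) (nat_lit 24) (nat_lit 5) (nat_lit 393) (nat_lit 284) (nat_lit 103)) (XT.lf (nat_lit 0) (nat_lit 7666832651) (nat_lit 152) (nat_lit 4262105157) (nat_lit 228) (nat_lit 60719567832) (nat_lit 21) (nat_lit 5) (nat_lit 23) (nat_lit 5) (nat_lit 24) (nat_lit 5) (nat_lit 394) (nat_lit 284) (nat_lit 102))))) (XT.nd (nat_lit 234) (nat_lit 152) (nat_lit 0) (XT.nd (nat_lit 78) (nat_lit 76) (nat_lit 0) (XT.lf (nat_lit 0) (nat_lit 22328330752) (nat_lit 228) (nat_lit 43758779648) (nat_lit 76) (nat_lit 8357936412) (nat_lit 21) (nat_lit 5) (nat_lit 24) (nat_lit 5) (nat_lit 22) (nat_lit 4) (nat_lit 395) (nat_lit 284) (nat_lit 101)) (XT.nd (nat_lit 78) (nat_lit 76) (nat_lit 0) (XT.lf (nat_lit 0) (nat_lit 33078570371) (nat_lit 228) (nat_lit 21947456635) (nat_lit 76) (nat_lit 21268292177) (nat_lit 21) (nat_lit 5) (nat_lit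 24) (nat_lit 5) (nat_lit 22) (nat_lit 4) (nat_lit 396) (nat_lit 284) (nat_lit 100)) (XT.lf (nat_lit 0) (nat_lit 522520710) (nat_lit 76) (nat_lit 43630582197) (nat_lit 152) (nat_lit 34045914131) (nat_lit 20) (nat_lit 5) (nat_lit 21) (nat_lit 5) (nat_lit 22) (nat_lit 4) (nat_lit 397) (nat_lit 284) (nat_lit 99)))) (XT.nd (nat_lit 156) (nat_lit 152) (nat_lit 0) (XT.nd (nat_lit 78) (nat_lit 0) (nat_lit 0) (XT.lf (nat_lit 0) (nat_lit 24110674764) (nat_lit 76) (nat_lit 31667624173) (nat_lit 152) (nat_lit 24376004926) (nat_lit 20) (nat_lit 5) (nat_lit 21) (nat_lit 5) (nat_lit 22) (nat_lit 4) (nat_lit 398) (nat_lit 284) (nat_lit 98)) (XT.lf (nat_lit 0) (nat_lit 48400819113) (nat_lit 76) (nat_lit 19348326142) (nat_lit 152) (nat_lit 14419198040) (nat_lit 20) (nat_lit 5) (nat_lit 21) (nat_lit 5) (nat_lit 22) (nat_lit 4) (nat_lit 399) (nat_lit 284) (nat_lit 97))) (XT.nd (nat_lit 78) (nat_lit 152) (nat_lit 0)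 (XT.lf (nat_lit 0) (nat_lit 73414178156) (nat_lit 76) (nat_lit 6661923669) (nat_lit 152) (nat_lit 4166793350) (nat_lit 20) (nat_lit 5) (nat_lit 21) (nat_lit 5) (nat_lit 22) (nat_lit 4) (nat_lit 400) (nat_lit 284) (nat_lit 96)) (XT.lf (nat_lit 0) (nat_lit 6453680478) (nat_lit 152) (nat_lit 73452785437) (nat_lit 76) (nat_lit 6465817272) (nat_lit 18) (nat_lit 5) (nat_lit 20) (nat_lit 5) (nat_lit 19) (nat_lit 4) (nat_lit 401) (nat_lit 284) (nat_lit 95))))))) (XT.nd (nat_lit 31902) (nat_lit 0) (nat_lit 13832) (XT.nd (nat_lit 546) (nat_lit 152) (nat_lit 0) (XT.nd (nat_lit 234) (nat_lit 76) (nat_lit 0) (XT.nd (nat_lit 78) (nat_lit 0) (nat_lit 0) (XT.lf (nat_lit 0) (nat_lit 17482465762) (nat_lit 152) (nat_lit 51073834734) (nat_lit 76) (nat_lit 20002812053) (nat_lit 18) (nat_lit 5) (nat_lit 20) (nat_lit 5) (nat_lit 19) (nat_lit 4) (nat_lit 402) (nat_lit 284) (nat_lit 94)) (XT.nd (nat_lit 78) (nat_lit 0)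 (nat_lit 0) (XT.lf (nat_lit 0) (nat_lit 28839254944) (nat_lit 152) (nat_lit 28028759903) (nat_lit 76) (nat_lit 33943618456) (nat_lit 18) (nat_lit 5) (nat_lit 20) (nat_lit 5) (nat_lit 19) (nat_lit 4) (nat_lit 403) (nat_lit 284) (nat_lit 93)) (XT.lf (nat_lit 0) (nat_lit 40533971432) (nat_lit 152) (nat_lit 4297424469) (nat_lit 76) (nat_lit 48300417767) (nat_lit 18) (nat_lit 5) (nat_lit 20) (nat_lit 5) (nat_lit 19) (nat_lit 4) (nat_lit 404) (nat_lit 284) (nat_lit 92)))) (XT.nd (nat_lit 156) (nat_lit 0) (nat_lit 0) (XT.nd (nat_lit 78) (nat_lit 0) (nat_lit 0) (XT.lf (nat_lit 0) (nat_lit 20541751238) (nat_lit 76) (nat_lit 32232542550) (nat_lit 152) (nat_lit 42741463403) (nat_lit 17) (nat_lit 5) (nat_lit 18) (nat_lit 5) (nat_lit 19) (nat_lit 4) (nat_lit 405) (nat_lit 284) (nat_lit 91)) (XT.lf (nat_lit 0) (nat_lit 46209300328) (nat_lit 76) (nat_lit 19213257001) (nat_lit 152) (nat_lit 32547440404) (nat_lit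 17) (nat_lit 5) (nat_lit 18) (nat_lit 5) (nat_lit 19) (nat_lit 4) (nat_lit 406) (nat_lit 284) (nat_lit 90))) (XT.nd (nat_lit 78) (nat_lit 0) (nat_lit 0) (XT.lf (nat_lit 0) (nat_lit 72642123582) (nat_lit 76) (nat_lit 5805558741) (nat_lit 152) (nat_lit 22050261401) (nat_lit 17) (nat_lit 5) (nat_lit 18) (nat_lit 5) (nat_lit 19) (nat_lit 4) (nat_lit 407) (nat_lit 284) (nat_lit 89)) (XT.lf (nat_lit 0) (nat_lit 91937972640) (nat_lit 152) (nat_lit 3315409103) (nat_lit 0) (nat_lit 7846114627) (nat_lit 17) (nat_lit 5) (nat_lit 19) (nat_lit 4) (nat_lit 17) (nat_lit 4) (nat_lit 408) (nat_lit 284) (nat_lit 88))))) (XT.nd (nat_lit 31044) (nat_lit 0) (nat_lit 16720) (XT.nd (nat_lit 78) (nat_lit 0) (nat_lit 0) (XT.lf (nat_lit 0) (nat_lit 325215883) (nat_lit 152) (nat_lit 83439156071) (nat_lit 76) (nat_lit 22006536954) (nat_lit 15) (nat_lit 5) (nat_lit 17) (nat_lit 5) (nat_lit 16) (nat_lit 4) (nat_lit 409) (nat_lit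 284) (nat_lit 87)) (XT.nd (nat_lit 30888) (nat_lit 0) (nat_lit 16720) (XT.lf (nat_lit 0) (nat_lit 11963578916) (nat_lit 152) (nat_lit 59820547370) (nat_lit 76) (nat_lit 36734082098) (nat_lit 15) (nat_lit 5) (nat_lit 17) (nat_lit 5) (nat_lit 16) (nat_lit 4) (nat_lit 410) (nat_lit 284) (nat_lit 86)) (XT.lf (nat_lit 0) (nat_lit 1165399175) (nat_lit 0) (nat_lit 1165399175) (nat_lit 988) (nat_lit 2242643521) (nat_lit 235) (nat_lit 5) (nat_lit 235) (nat_lit 3) (nat_lit 248) (nat_lit 3) (nat_lit 285) (nat_lit 285) (nat_lit 210)))) (XT.nd (nat_lit 156) (nat_lit 0) (nat_lit 0) (XT.nd (nat_lit 78) (nat_lit 0) (nat_lit 0) (XT.lf (nat_lit 0) (nat_lit 5571909594) (nat_lit 988) (nat_lit 2597982722) (nat_lit 1064) (nat_lit 1088043052) (nat_lit 235) (nat_lit 5) (nat_lit 248) (nat_lit 3) (nat_lit 249) (nat_lit 5) (nat_lit 286) (nat_lit 285) (nat_lit 209)) (XT.lf (nat_lit 76) (nat_lit 1740188529) (nat_lit 0) (nat_lit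 4776922227) (nat_lit 1064) (nat_lit 2855017105) (nat_lit 236) (nat_lit 5) (nat_lit 235) (nat_lit 5) (nat_lit 249) (nat_lit 5) (nat_lit 287) (nat_lit 285) (nat_lit 208))) (XT.nd (nat_lit 78) (nat_lit 0) (nat_lit 76) (XT.lf (nat_lit 76) (nat_lit 6244576525) (nat_lit 0) (nat_lit 1240873306) (nat_lit 1064) (nat_lit 2004488455) (nat_lit 236) (nat_lit 5) (nat_lit 235) (nat_lit 5) (nat_lit 249) (nat_lit 5) (nat_lit 288) (nat_lit 285) (nat_lit 207)) (XT.lf (nat_lit 76) (nat_lit 1256481456) (nat_lit 0) (nat_lit 7231114650) (nat_lit 1064) (nat_lit 1123578787) (nat_lit 237) (nat_lit 5) (nat_lit 236) (nat_lit 5) (nat_lit 250) (nat_lit 5) (nat_lit 289) (nat_lit 285) (nat_lit 206)))))) (XT.nd (nat_lit 546) (nat_lit 1976) (nat_lit 0) (XT.nd (nat_lit 234) (nat_lit 0) (nat_lit 0) (XT.nd (nat_lit 78) (nat_lit 988) (nat_lit 0) (XT.lf (nat_lit 76) (nat_lit 5929782707) (nat_lit 0) (nat_lit 3605274297) (nat_lit 1064)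 (nat_lit 200567659) (nat_lit 237) (nat_lit 5) (nat_lit 236) (nat_lit 5) (nat_lit 250) (nat_lit 5) (nat_lit 290) (nat_lit 285) (nat_lit 205)) (XT.nd (nat_lit 78) (nat_lit 0) (nat_lit 0) (XT.lf (nat_lit 0) (nat_lit 716242193) (nat_lit 1064) (nat_lit 8994174560) (nat_lit 1140) (nat_lit 153784106) (nat_lit 223) (nat_lit 5) (nat_lit 237) (nat_lit 5) (nat_lit 238) (nat_lit 5) (nat_lit 291) (nat_lit 285) (nat_lit 204)) (XT.lf (nat_lit 0) (nat_lit 1702678812) (nat_lit 1064) (nat_lit 4287865841) (nat_lit 1140) (nat_lit 4004676228) (nat_lit 223) (nat_lit 5) (nat_lit 237) (nat_lit 5) (nat_lit 238) (nat_lit 5) (nat_lit 292) (nat_lit 285) (nat_lit 203)))) (XT.nd (nat_lit 156) (nat_lit 0) (nat_lit 76) (XT.nd (nat_lit 78) (nat_lit 0) (nat_lit 76) (XT.lf (nat_lit 76) (nat_lit 552442415) (nat_lit 0) (nat_lit 2144048223) (nat_lit 1140) (nat_lit 7434377227) (nat_lit 224) (nat_lit 5) (nat_lit 223) (nat_lit 5) (nat_lit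 238) (nat_lit 5) (nat_lit 293) (nat_lit 285) (nat_lit 202)) (XT.lf (nat_lit 0) (nat_lit 3754508741) (nat_lit 1064) (nat_lit 4680048336) (nat_lit 1140) (nat_lit 1835024386) (nat_lit 224) (nat_lit 5) (nat_lit 238) (nat_lit 5) (nat_lit 239) (nat_lit 5) (nat_lit 294) (nat_lit 285) (nat_lit 201))) (XT.nd (nat_lit 78) (nat_lit 0) (nat_lit 0) (XT.lf (nat_lit 76) (nat_lit 332365611) (nat_lit 0) (nat_lit 4510295708) (nat_lit 1140) (nat_lit 5569871444) (nat_lit 225) (nat_lit 5) (nat_lit 224) (nat_lit 5) (nat_lit 239) (nat_lit 5) (nat_lit 295) (nat_lit 285) (nat_lit 200)) (XT.lf (nat_lit 76) (nat_lit 5573094606) (nat_lit 0) (nat_lit 412179179) (nat_lit 1140) (nat_lit 4573871656) (nat_lit 225) (nat_lit 5) (nat_lit 224) (nat_lit 5) (nat_lit 239) (nat_lit 5) (nat_lit 296) (nat_lit 285) (nat_lit 199))))) (XT.nd (nat_lit 312) (nat_lit 2128) (nat_lit 0) (XT.nd (nat_lit 156) (nat_lit 0) (nat_lit 76) (XT.nd (nat_lit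 78) (nat_lit 0) (nat_lit 0) (XT.lf (nat_lit 76) (nat_lit 210068059) (nat_lit 0) (nat_lit 6966095776) (nat_lit 1140) (nat_lit 3533599189) (nat_lit 226) (nat_lit 5) (nat_lit 225) (nat_lit 5) (nat_lit 240) (nat_lit 5) (nat_lit 297) (nat_lit 285) (nat_lit 198)) (XT.lf (nat_lit 76) (nat_lit 5641990150) (nat_lit 0) (nat_lit 2791090587) (nat_lit 1140) (nat_lit 2430935122) (nat_lit 226) (nat_lit 5) (nat_lit 225) (nat_lit 5) (nat_lit 240) (nat_lit 5) (nat_lit 298) (nat_lit 285) (nat_lit 197))) (XT.nd (nat_lit 78) (nat_lit 0) (nat_lit 0) (XT.lf (nat_lit 76) (nat_lit 184688925) (nat_lit 0) (nat_lit 9535965725) (nat_lit 1140) (nat_lit 1302478125) (nat_lit 227) (nat_lit 5) (nat_lit 226) (nat_lit 5) (nat_lit 241) (nat_lit 5) (nat_lit 299) (nat_lit 285) (nat_lit 196)) (XT.lf (nat_lit 76) (nat_lit 5814265450) (nat_lit 0) (nat_lit 5289857964) (nat_lit 1140) (nat_lit 81206009) (nat_lit 227) (nat_lit 5) (nat_lit 226)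 (nat_lit 5) (nat_lit 241) (nat_lit 5) (nat_lit 300) (nat_lit 285) (nat_lit 195)))) (XT.nd (nat_lit 156) (nat_lit 1064) (nat_lit 0) (XT.nd (nat_lit 78) (nat_lit 0) (nat_lit 76) (XT.lf (nat_lit 76) (nat_lit 235481127) (nat_lit 0) (nat_lit 898119148) (nat_lit 1216) (nat_lit 10219079486) (nat_lit 212) (nat_lit 5) (nat_lit 211) (nat_lit 5) (nat_lit 227) (nat_lit 5) (nat_lit 301) (nat_lit 285) (nat_lit 194)) (XT.lf (nat_lit 0) (nat_lit 2450954285) (nat_lit 1140) (nat_lit 5457969969) (nat_lit 76) (nat_lit 3614092357) (nat_lit 212) (nat_lit 5) (nat_lit 227) (nat_lit 5) (nat_lit 213) (nat_lit 5) (nat_lit 302) (nat_lit 285) (nat_lit 193))) (XT.nd (nat_lit 78) (nat_lit 0) (nat_lit 0) (XT.lf (nat_lit 0) (nat_lit 350853501) (nat_lit 1140) (nat_lit 3447990000) (nat_lit 1216) (nat_lit 7899911178) (nat_lit 197) (nat_lit 5) (nat_lit 212) (nat_lit 5) (nat_lit 213) (nat_lit 5) (nat_lit 303) (nat_lit 285) (nat_lit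 192)) (XT.lf (nat_lit 0) (nat_lit 5233076722) (nat_lit 1216) (nat_lit 5462486693) (nat_lit 76) (nat_lit 1182845173) (nat_lit 197) (nat_lit 5) (nat_lit 213) (nat_lit 5) (nat_lit 198) (nat_lit 5) (nat_lit 304) (nat_lit 285) (nat_lit 191))))))))
noncomputable def xc164 : XT := (XT.nd (nat_lit 2184) (nat_lit 4028) (nat_lit 0) (XT.nd (nat_lit 1092) (nat_lit 2964) (nat_lit 0) (XT.nd (nat_lit 546) (nat_lit 1596) (nat_lit 0) (XT.nd (nat_lit 234) (nat_lit 1140) (nat_lit 0) (XT.nd (nat_lit 78) (nat_lit 608) (nat_lit 0) (XT.lf (nat_lit 0) (nat_lit 558155184) (nat_lit 760) (nat_lit 6171514109) (nat_lit 836) (nat_lit 5333223162) (nat_lit 187) (nat_lit 5) (nat_lit 197) (nat_lit 5) (nat_lit 198) (nat_lit 5) (nat_lit 305) (nat_lit 285) (nat_lit 190)) (XT.nd (nat_lit 78) (nat_lit 608) (nat_lit 0) (XT.lf (nat_lit 0) (nat_lit 6853481130) (nat_lit 760) (nat_lit 1453082776) (nat_lit 836) (nat_lit 3945304524) (nat_lit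 187) (nat_lit 5) (nat_lit 197) (nat_lit 5) (nat_lit 198) (nat_lit 5) (nat_lit 306) (nat_lit 285) (nat_lit 189)) (XT.lf (nat_lit 0) (nat_lit 857128690) (nat_lit 608) (nat_lit 9095461638) (nat_lit 684) (nat_lit 2493287752) (nat_lit 179) (nat_lit 5) (nat_lit 187) (nat_lit 5) (nat_lit 188) (nat_lit 5) (nat_lit 307) (nat_lit 285) (nat_lit 188)))) (XT.nd (nat_lit 156) (nat_lit 532) (nat_lit 0) (XT.nd (nat_lit 78) (nat_lit 608) (nat_lit 0) (XT.lf (nat_lit 0) (nat_lit 7378474077) (nat_lit 608) (nat_lit 4319505825) (nat_lit 684) (nat_lit 946247235) (nat_lit 179) (nat_lit 5) (nat_lit 187) (nat_lit 5) (nat_lit 188) (nat_lit 5) (nat_lit 308) (nat_lit 285) (nat_lit 187)) (XT.lf (nat_lit 0) (nat_lit 634090022) (nat_lit 608) (nat_lit 11607140230) (nat_lit 76) (nat_lit 607141850) (nat_lit 171) (nat_lit 5) (nat_lit 179) (nat_lit 5) (nat_lit 172) (nat_lit 5) (nat_lit 309) (nat_lit 285) (nat_lit 186))) (XT.nd (nat_lit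 78) (nat_lit 532) (nat_lit 0) (XT.lf (nat_lit 0) (nat_lit 2321232019) (nat_lit 608) (nat_lit 5076419870) (nat_lit 76) (nat_lit 5658373075) (nat_lit 171) (nat_lit 5) (nat_lit 179) (nat_lit 5) (nat_lit 172) (nat_lit 5) (nat_lit 310) (nat_lit 285) (nat_lit 185)) (XT.lf (nat_lit 0) (nat_lit 1665161856) (nat_lit 532) (nat_lit 2392304446) (nat_lit 608) (nat_lit 9212503284) (nat_lit 164) (nat_lit 5) (nat_lit 171) (nat_lit 5) (nat_lit 172) (nat_lit 5) (nat_lit 311) (nat_lit 285) (nat_lit 184))))) (XT.nd (nat_lit 234) (nat_lit 1064) (nat_lit 0) (XT.nd (nat_lit 78) (nat_lit 532) (nat_lit 0) (XT.lf (nat_lit 0) (nat_lit 5906931689) (nat_lit 608) (nat_lit 4820722324) (nat_lit 76) (nat_lit 2760860246) (nat_lit 164) (nat_lit 5) (nat_lit 172) (nat_lit 5) (nat_lit 165) (nat_lit 5) (nat_lit 312) (nat_lit 285) (nat_lit 183)) (XT.nd (nat_lit 78) (nat_lit 0) (nat_lit 0) (XT.lf (nat_lit 0) (nat_lit 2168117778) (nat_lit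 532) (nat_lit 5671604348) (nat_lit 608) (nat_lit 5873073480) (nat_lit 157) (nat_lit 5) (nat_lit 164) (nat_lit 5) (nat_lit 165) (nat_lit 5) (nat_lit 313) (nat_lit 285) (nat_lit 182)) (XT.lf (nat_lit 0) (nat_lit 9448224182) (nat_lit 532) (nat_lit 414586063) (nat_lit 608) (nat_lit 4080040843) (nat_lit 157) (nat_lit 5) (nat_lit 164) (nat_lit 5) (nat_lit 165) (nat_lit 5) (nat_lit 314) (nat_lit 285) (nat_lit 181)))) (XT.nd (nat_lit 156) (nat_lit 532) (nat_lit 0) (XT.nd (nat_lit 78) (nat_lit 0) (nat_lit 0) (XT.lf (nat_lit 0) (nat_lit 2755428601) (nat_lit 532) (nat_lit 9249816541) (nat_lit 608) (nat_lit 2172818140) (nat_lit 150) (nat_lit 5) (nat_lit 157) (nat_lit 5) (nat_lit 158) (nat_lit 5) (nat_lit 315) (nat_lit 285) (nat_lit 180)) (XT.lf (nat_lit 0) (nat_lit 10293902500) (nat_lit 532) (nat_lit 3951904213) (nat_lit 608) (nat_lit 173523767) (nat_lit 150) (nat_lit 5) (nat_lit 157) (nat_lit 5) (nat_lit 158)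 (nat_lit 5) (nat_lit 316) (nat_lit 285) (nat_lit 179))) (XT.nd (nat_lit 78) (nat_lit 0) (nat_lit 0) (XT.lf (nat_lit 0) (nat_lit 1881500570) (nat_lit 532) (nat_lit 11259235314) (nat_lit 76) (nat_lit 1525592963) (nat_lit 143) (nat_lit 5) (nat_lit 150) (nat_lit 5) (nat_lit 144) (nat_lit 5) (nat_lit 317) (nat_lit 285) (nat_lit 178)) (XT.lf (nat_lit 0) (nat_lit 4060849275) (nat_lit 532) (nat_lit 3727724382) (nat_lit 76) (nat_lit 7130140163) (nat_lit 143) (nat_lit 5) (nat_lit 150) (nat_lit 5) (nat_lit 144) (nat_lit 5) (nat_lit 318) (nat_lit 285) (nat_lit 177)))))) (XT.nd (nat_lit 546) (nat_lit 1216) (nat_lit 0) (XT.nd (nat_lit 234) (nat_lit 912) (nat_lit 0) (XT.nd (nat_lit 78) (nat_lit 380) (nat_lit 0) (XT.lf (nat_lit 0) (nat_lit 4092962831) (nat_lit 456) (nat_lit 2237359996) (nat_lit 532) (nat_lit 8847617840) (nat_lit 137) (nat_lit 5) (nat_lit 143) (nat_lit 5) (nat_lit 144) (nat_lit 5) (nat_lit 319)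 (nat_lit 285) (nat_lit 176)) (XT.nd (nat_lit 78) (nat_lit 380) (nat_lit 0) (XT.lf (nat_lit 0) (nat_lit 8724998240) (nat_lit 532) (nat_lit 3269854090) (nat_lit 76) (nat_lit 3448390749) (nat_lit 137) (nat_lit 5) (nat_lit 144) (nat_lit 5) (nat_lit 138) (nat_lit 5) (nat_lit 320) (nat_lit 285) (nat_lit 175)) (XT.lf (nat_lit 0) (nat_lit 4835525867) (nat_lit 380) (nat_lit 6410686829) (nat_lit 456) (nat_lit 4468662835) (nat_lit 132) (nat_lit 5) (nat_lit 137) (nat_lit 5) (nat_lit 138) (nat_lit 5) (nat_lit 321) (nat_lit 285) (nat_lit 174)))) (XT.nd (nat_lit 156) (nat_lit 380) (nat_lit 0) (XT.nd (nat_lit 78) (nat_lit 532) (nat_lit 0) (XT.lf (nat_lit 0) (nat_lit 13234852901) (nat_lit 380) (nat_lit 627544213) (nat_lit 456) (nat_lit 2131691420) (nat_lit 132) (nat_lit 5) (nat_lit 137) (nat_lit 5) (nat_lit 138) (nat_lit 5) (nat_lit 322) (nat_lit 285) (nat_lit 173)) (XT.lf (nat_lit 0) (nat_lit 363118097) (nat_lit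 532) (nat_lit 10635184685) (nat_lit 76) (nat_lit 5280513562) (nat_lit 125) (nat_lit 5) (nat_lit 132) (nat_lit 5) (nat_lit 126) (nat_lit 5) (nat_lit 323) (nat_lit 285) (nat_lit 172))) (XT.nd (nat_lit 78) (nat_lit 380) (nat_lit 0) (XT.lf (nat_lit 0) (nat_lit 2911061952) (nat_lit 532) (nat_lit 2259969807) (nat_lit 76) (nat_lit 11399797608) (nat_lit 125) (nat_lit 5) (nat_lit 132) (nat_lit 5) (nat_lit 126) (nat_lit 5) (nat_lit 324) (nat_lit 285) (nat_lit 171)) (XT.lf (nat_lit 0) (nat_lit 5593450365) (nat_lit 456) (nat_lit 10401611125) (nat_lit 76) (nat_lit 874811392) (nat_lit 120) (nat_lit 5) (nat_lit 126) (nat_lit 5) (nat_lit 121) (nat_lit 5) (nat_lit 325) (nat_lit 285) (nat_lit 170))))) (XT.nd (nat_lit 234) (nat_lit 836) (nat_lit 0) (XT.nd (nat_lit 78) (nat_lit 380) (nat_lit 0) (XT.lf (nat_lit 0) (nat_lit 8417918060) (nat_lit 456) (nat_lit 1739961482) (nat_lit 76) (nat_lit 7018169925) (nat_lit 120)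 (nat_lit 5) (nat_lit 126) (nat_lit 5) (nat_lit 121) (nat_lit 5) (nat_lit 326) (nat_lit 285) (nat_lit 169)) (XT.nd (nat_lit 78) (nat_lit 0) (nat_lit 0) (XT.lf (nat_lit 0) (nat_lit 7308619647) (nat_lit 380) (nat_lit 4076485236) (nat_lit 456) (nat_lit 6104576614) (nat_lit 115) (nat_lit 5) (nat_lit 120) (nat_lit 5) (nat_lit 121) (nat_lit 5) (nat_lit 327) (nat_lit 285) (nat_lit 168)) (XT.lf (nat_lit 0) (nat_lit 14467985361) (nat_lit 456) (nat_lit 1184792260) (nat_lit 76) (nat_lit 2159153943) (nat_lit 115) (nat_lit 5) (nat_lit 121) (nat_lit 5) (nat_lit 116) (nat_lit 5) (nat_lit 328) (nat_lit 285) (nat_lit 167)))) (XT.nd (nat_lit 156) (nat_lit 380) (nat_lit 0) (XT.nd (nat_lit 78) (nat_lit 76) (nat_lit 0) (XT.lf (nat_lit 0) (nat_lit 8185467595) (nat_lit 380) (nat_lit 9565189556) (nat_lit 456) (nat_lit 389981980) (nat_lit 110) (nat_lit 5) (nat_lit 115) (nat_lit 5) (nat_lit 116) (nat_lit 5) (nat_lit 329)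 (nat_lit 285) (nat_lit 166)) (XT.lf (nat_lit 0) (nat_lit 2601255491) (nat_lit 456) (nat_lit 658699248) (nat_lit 76) (nat_lit 15218484367) (nat_lit 109) (nat_lit 5) (nat_lit 115) (nat_lit 5) (nat_lit 110) (nat_lit 5) (nat_lit 330) (nat_lit 285) (nat_lit 165))) (XT.nd (nat_lit 78) (nat_lit 0) (nat_lit 0) (XT.lf (nat_lit 0) (nat_lit 5782258407) (nat_lit 456) (nat_lit 9780964105) (nat_lit 76) (nat_lit 3259807104) (nat_lit 104) (nat_lit 5) (nat_lit 110) (nat_lit 5) (nat_lit 105) (nat_lit 5) (nat_lit 331) (nat_lit 285) (nat_lit 164)) (XT.lf (nat_lit 0) (nat_lit 9086512170) (nat_lit 456) (nat_lit 177814753) (nat_lit 76) (nat_lit 9912804419) (nat_lit 104) (nat_lit 5) (nat_lit 110) (nat_lit 5) (nat_lit 105) (nat_lit 5) (nat_lit 332) (nat_lit 285) (nat_lit 163))))))) (XT.nd (nat_lit 1092) (nat_lit 1672) (nat_lit 0) (XT.nd (nat_lit 546) (nat_lit 1064) (nat_lit 0) (XT.nd (nat_lit 234) (nat_lit 684) (nat_lit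 0) (XT.nd (nat_lit 78) (nat_lit 304) (nat_lit 0) (XT.lf (nat_lit 0) (nat_lit 9891823381) (nat_lit 304) (nat_lit 2682308416) (nat_lit 380) (nat_lit 6965205064) (nat_lit 100) (nat_lit 5) (nat_lit 104) (nat_lit 5) (nat_lit 105) (nat_lit 5) (nat_lit 333) (nat_lit 285) (nat_lit 162)) (XT.nd (nat_lit 78) (nat_lit 0) (nat_lit 0) (XT.lf (nat_lit 0) (nat_lit 306643972) (nat_lit 304) (nat_lit 15893173570) (nat_lit 380) (nat_lit 3711595534) (nat_lit 96) (nat_lit 5) (nat_lit 100) (nat_lit 5) (nat_lit 101) (nat_lit 5) (nat_lit 334) (nat_lit 285) (nat_lit 161)) (XT.lf (nat_lit 0) (nat_lit 10715471071) (nat_lit 304) (nat_lit 9331984126) (nat_lit 380) (nat_lit 243808376) (nat_lit 96) (nat_lit 5) (nat_lit 100) (nat_lit 5) (nat_lit 101) (nat_lit 5) (nat_lit 335) (nat_lit 285) (nat_lit 160)))) (XT.nd (nat_lit 156) (nat_lit 304) (nat_lit 0) (XT.nd (nat_lit 78) (nat_lit 0) (nat_lit 0) (XT.lf (nat_lit 0) (nat_lit 721725849)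 (nat_lit 304) (nat_lit 2537944469) (nat_lit 380) (nat_lit 17421988565) (nat_lit 91) (nat_lit 5) (nat_lit 95) (nat_lit 5) (nat_lit 96) (nat_lit 5) (nat_lit 336) (nat_lit 285) (nat_lit 159)) (XT.lf (nat_lit 0) (nat_lit 6993664797) (nat_lit 380) (nat_lit 9617195158) (nat_lit 76) (nat_lit 4468931131) (nat_lit 91) (nat_lit 5) (nat_lit 96) (nat_lit 5) (nat_lit 92) (nat_lit 5) (nat_lit 337) (nat_lit 285) (nat_lit 158))) (XT.nd (nat_lit 78) (nat_lit 0) (nat_lit 0) (XT.lf (nat_lit 0) (nat_lit 1016402860) (nat_lit 304) (nat_lit 9848258353) (nat_lit 380) (nat_lit 10624463185) (nat_lit 87) (nat_lit 5) (nat_lit 91) (nat_lit 5) (nat_lit 92) (nat_lit 5) (nat_lit 338) (nat_lit 285) (nat_lit 157)) (XT.lf (nat_lit 0) (nat_lit 12152162886) (nat_lit 304) (nat_lit 2786977458) (nat_lit 380) (nat_lit 6968983193) (nat_lit 87) (nat_lit 5) (nat_lit 91) (nat_lit 5) (nat_lit 92) (nat_lit 5) (nat_lit 339) (nat_lit 285) (nat_lit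 156))))) (XT.nd (nat_lit 234) (nat_lit 456) (nat_lit 0) (XT.nd (nat_lit 78) (nat_lit 380) (nat_lit 0) (XT.lf (nat_lit 0) (nat_lit 1249733660) (nat_lit 228) (nat_lit 17931739824) (nat_lit 304) (nat_lit 3156856804) (nat_lit 84) (nat_lit 5) (nat_lit 87) (nat_lit 5) (nat_lit 88) (nat_lit 5) (nat_lit 340) (nat_lit 285) (nat_lit 155)) (XT.nd (nat_lit 78) (nat_lit 304) (nat_lit 0) (XT.lf (nat_lit 0) (nat_lit 872230079) (nat_lit 304) (nat_lit 10042760157) (nat_lit 76) (nat_lit 11862708478) (nat_lit 83) (nat_lit 5) (nat_lit 87) (nat_lit 5) (nat_lit 84) (nat_lit 5) (nat_lit 341) (nat_lit 285) (nat_lit 154)) (XT.lf (nat_lit 0) (nat_lit 1315376336) (nat_lit 304) (nat_lit 3646813282) (nat_lit 380) (nat_lit 18267023103) (nat_lit 79) (nat_lit 5) (nat_lit 83) (nat_lit 5) (nat_lit 84) (nat_lit 5) (nat_lit 342) (nat_lit 285) (nat_lit 153)))) (XT.nd (nat_lit 156) (nat_lit 228) (nat_lit 0) (XT.nd (nat_lit 78) (nat_lit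 228) (nat_lit 0) (XT.lf (nat_lit 0) (nat_lit 9305074596) (nat_lit 380) (nat_lit 10522607371) (nat_lit 76) (nat_lit 3862688910) (nat_lit 79) (nat_lit 5) (nat_lit 84) (nat_lit 5) (nat_lit 80) (nat_lit 5) (nat_lit 343) (nat_lit 285) (nat_lit 152)) (XT.lf (nat_lit 0) (nat_lit 1184164171) (nat_lit 228) (nat_lit 12632740506) (nat_lit 304) (nat_lit 10347304717) (nat_lit 76) (nat_lit 5) (nat_lit 79) (nat_lit 5) (nat_lit 80) (nat_lit 5) (nat_lit 344) (nat_lit 285) (nat_lit 151))) (XT.nd (nat_lit 78) (nat_lit 228) (nat_lit 0) (XT.lf (nat_lit 0) (nat_lit 13444776767) (nat_lit 228) (nat_lit 5116870812) (nat_lit 304) (nat_lit 6087693965) (nat_lit 76) (nat_lit 5) (nat_lit 79) (nat_lit 5) (nat_lit 80) (nat_lit 5) (nat_lit 345) (nat_lit 285) (nat_lit 150)) (XT.lf (nat_lit 0) (nat_lit 903683748) (nat_lit 228) (nat_lit 22570476707) (nat_lit 304) (nat_lit 1674109434) (nat_lit 73) (nat_lit 5) (nat_lit 76) (nat_lit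 5) (nat_lit 77) (nat_lit 5) (nat_lit 346) (nat_lit 285) (nat_lit 149)))))) (XT.nd (nat_lit 546) (nat_lit 836) (nat_lit 0) (XT.nd (nat_lit 234) (nat_lit 532) (nat_lit 0) (XT.nd (nat_lit 78) (nat_lit 228) (nat_lit 0) (XT.lf (nat_lit 0) (nat_lit 2972317954) (nat_lit 304) (nat_lit 12146246915) (nat_lit 76) (nat_lit 10538083517) (nat_lit 72) (nat_lit 5) (nat_lit 76) (nat_lit 5) (nat_lit 73) (nat_lit 5) (nat_lit 347) (nat_lit 285) (nat_lit 148)) (XT.nd (nat_lit 78) (nat_lit 0) (nat_lit 0) (XT.lf (nat_lit 0) (nat_lit 291585320) (nat_lit 228) (nat_lit 7427503562) (nat_lit 304) (nat_lit 18460858769) (nat_lit 69) (nat_lit 5) (nat_lit 72) (nat_lit 5) (nat_lit 73) (nat_lit 5) (nat_lit 348) (nat_lit 285) (nat_lit 147)) (XT.lf (nat_lit 0) (nat_lit 12728755134) (nat_lit 304) (nat_lit 13382346977) (nat_lit 76) (nat_lit 604233514) (nat_lit 69) (nat_lit 5) (nat_lit 73) (nat_lit 5) (nat_lit 70) (nat_lit 5) (nat_lit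 349) (nat_lit 285) (nat_lit 146)))) (XT.nd (nat_lit 156) (nat_lit 304) (nat_lit 0) (XT.nd (nat_lit 78) (nat_lit 228) (nat_lit 0) (XT.lf (nat_lit 0) (nat_lit 17954360833) (nat_lit 304) (nat_lit 586975807) (nat_lit 76) (nat_lit 8723483483) (nat_lit 69) (nat_lit 5) (nat_lit 73) (nat_lit 5) (nat_lit 70) (nat_lit 5) (nat_lit 350) (nat_lit 285) (nat_lit 145)) (XT.lf (nat_lit 0) (nat_lit 12830702528) (nat_lit 228) (nat_lit 10621708368) (nat_lit 304) (nat_lit 4374912214) (nat_lit 66) (nat_lit 5) (nat_lit 69) (nat_lit 5) (nat_lit 70) (nat_lit 5) (nat_lit 351) (nat_lit 285) (nat_lit 144))) (XT.nd (nat_lit 78) (nat_lit 228) (nat_lit 0) (XT.lf (nat_lit 0) (nat_lit 693228375) (nat_lit 304) (nat_lit 1762416978) (nat_lit 76) (nat_lit 25950904762) (nat_lit 65) (nat_lit 5) (nat_lit 69) (nat_lit 5) (nat_lit 66) (nat_lit 5) (nat_lit 352) (nat_lit 285) (nat_lit 143)) (XT.lf (nat_lit 0) (nat_lit 5992678870) (nat_lit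 304) (nat_lit 17008389422) (nat_lit 76) (nat_lit 5995774129) (nat_lit 62) (nat_lit 5) (nat_lit 66) (nat_lit 5) (nat_lit 63) (nat_lit 5) (nat_lit 353) (nat_lit 285) (nat_lit 142))))) (XT.nd (nat_lit 312) (nat_lit 456) (nat_lit 0) (XT.nd (nat_lit 156) (nat_lit 152) (nat_lit 0) (XT.nd (nat_lit 78) (nat_lit 228) (nat_lit 0) (XT.lf (nat_lit 0) (nat_lit 11486056789) (nat_lit 304) (nat_lit 3452508334) (nat_lit 76) (nat_lit 14665233822) (nat_lit 62) (nat_lit 5) (nat_lit 66) (nat_lit 5) (nat_lit 63) (nat_lit 5) (nat_lit 354) (nat_lit 285) (nat_lit 141)) (XT.lf (nat_lit 0) (nat_lit 10707648224) (nat_lit 228) (nat_lit 6532387574) (nat_lit 304) (nat_lit 12986058031) (nat_lit 59) (nat_lit 5) (nat_lit 62) (nat_lit 5) (nat_lit 63) (nat_lit 5) (nat_lit 355) (nat_lit 285) (nat_lit 140))) (XT.nd (nat_lit 78) (nat_lit 152) (nat_lit 0) (XT.lf (nat_lit 0) (nat_lit 23215209604) (nat_lit 304) (nat_lit 5534819006) (nat_lit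 76) (nat_lit 2115575239) (nat_lit 59) (nat_lit 5) (nat_lit 63) (nat_lit 5) (nat_lit 60) (nat_lit 5) (nat_lit 356) (nat_lit 285) (nat_lit 139)) (XT.lf (nat_lit 0) (nat_lit 8967552308) (nat_lit 152) (nat_lit 20546101428) (nat_lit 228) (nat_lit 2006328426) (nat_lit 57) (nat_lit 5) (nat_lit 59) (nat_lit 5) (nat_lit 60) (nat_lit 5) (nat_lit 357) (nat_lit 285) (nat_lit 138)))) (XT.nd (nat_lit 156) (nat_lit 152) (nat_lit 0) (XT.nd (nat_lit 78) (nat_lit 228) (nat_lit 0) (XT.lf (nat_lit 0) (nat_lit 3782374709) (nat_lit 228) (nat_lit 8222118134) (nat_lit 76) (nat_lit 20186916215) (nat_lit 56) (nat_lit 5) (nat_lit 59) (nat_lit 5) (nat_lit 57) (nat_lit 5) (nat_lit 358) (nat_lit 285) (nat_lit 137)) (XT.lf (nat_lit 0) (nat_lit 6636965915) (nat_lit 228) (nat_lit 3124606182) (nat_lit 304) (nat_lit 23119099128) (nat_lit 53) (nat_lit 5) (nat_lit 56) (nat_lit 5) (nat_lit 57) (nat_lit 5) (nat_lit 359) (nat_lit 285)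 (nat_lit 136))) (XT.nd (nat_lit 78) (nat_lit 152) (nat_lit 0) (XT.lf (nat_lit 0) (nat_lit 16055289648) (nat_lit 304) (nat_lit 11547296326) (nat_lit 76) (nat_lit 5983974019) (nat_lit 53) (nat_lit 5) (nat_lit 57) (nat_lit 5) (nat_lit 54) (nat_lit 5) (nat_lit 360) (nat_lit 285) (nat_lit 135)) (XT.lf (nat_lit 0) (nat_lit 3619169284) (nat_lit 152) (nat_lit 18977978597) (nat_lit 228) (nat_lit 11714700642) (nat_lit 51) (nat_lit 5) (nat_lit 53) (nat_lit 5) (nat_lit 54) (nat_lit 5) (nat_lit 361) (nat_lit 285) (nat_lit 134))))))))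
noncomputable def xc165 : XT := (XT.nd (nat_lit 2184) (nat_lit 760) (nat_lit 0) (XT.nd (nat_lit 1092) (nat_lit 760) (nat_lit 0) (XT.nd (nat_lit 546) (nat_lit 608) (nat_lit 0) (XT.nd (nat_lit 234) (nat_lit 304) (nat_lit 0) (XT.nd (nat_lit 78) (nat_lit 304) (nat_lit 0) (XT.lf (nat_lit 0) (nat_lit 19466918295) (nat_lit 152) (nat_lit 9978637582) (nat_lit 228) (nat_lit 5610033899) (nat_lit 51) (nat_lit 5) (nat_lit 53) (nat_lit 5) (nat_lit 54) (nat_lit 5) (nat_lit 362) (nat_lit 285) (nat_lit 133)) (XT.nd (nat_lit 78) (nat_lit 228) (nat_lit 0) (XT.lf (nat_lit 0) (nat_lit 658356425) (nat_lit 228) (nat_lit 48299944) (nat_lit 76) (nat_lit 35114979883) (nat_lit 50) (nat_lit 5) (nat_lit 53) (nat_lit 5) (nat_lit 51) (nat_lit 5) (nat_lit 363) (nat_lit 285) (nat_lit 132)) (XT.lf (nat_lit 0) (nat_lit 7238907541) (nat_lit 304) (nat_lit 20482477562) (nat_lit 76) (nat_lit 8880509358) (nat_lit 47) (nat_lit 5) (nat_lit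 51) (nat_lit 5) (nat_lit 48) (nat_lit 5) (nat_lit 364) (nat_lit 285) (nat_lit 131)))) (XT.nd (nat_lit 156) (nat_lit 152) (nat_lit 0) (XT.nd (nat_lit 78) (nat_lit 152) (nat_lit 0) (XT.lf (nat_lit 0) (nat_lit 14018396807) (nat_lit 304) (nat_lit 4649380202) (nat_lit 76) (nat_lit 18737740324) (nat_lit 47) (nat_lit 5) (nat_lit 51) (nat_lit 5) (nat_lit 48) (nat_lit 5) (nat_lit 365) (nat_lit 285) (nat_lit 130)) (XT.lf (nat_lit 0) (nat_lit 11880850854) (nat_lit 152) (nat_lit 9228832170) (nat_lit 228) (nat_lit 17120315990) (nat_lit 45) (nat_lit 5) (nat_lit 47) (nat_lit 5) (nat_lit 48) (nat_lit 5) (nat_lit 366) (nat_lit 285) (nat_lit 129))) (XT.nd (nat_lit 78) (nat_lit 152) (nat_lit 0) (XT.lf (nat_lit 0) (nat_lit 28460109386) (nat_lit 228) (nat_lit 10090455581) (nat_lit 76) (nat_lit 527260548) (nat_lit 45) (nat_lit 5) (nat_lit 48) (nat_lit 5) (nat_lit 46) (nat_lit 5) (nat_lit 367) (nat_lit 285) (nat_lit 128))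 (XT.lf (nat_lit 0) (nat_lit 6685628615) (nat_lit 152) (nat_lit 29495473829) (nat_lit 228) (nat_lit 3765485100) (nat_lit 43) (nat_lit 5) (nat_lit 45) (nat_lit 5) (nat_lit 46) (nat_lit 5) (nat_lit 368) (nat_lit 285) (nat_lit 127))))) (XT.nd (nat_lit 234) (nat_lit 380) (nat_lit 0) (XT.nd (nat_lit 78) (nat_lit 152) (nat_lit 0) (XT.lf (nat_lit 0) (nat_lit 3325399521) (nat_lit 228) (nat_lit 16708648076) (nat_lit 76) (nat_lit 20803497670) (nat_lit 42) (nat_lit 5) (nat_lit 45) (nat_lit 5) (nat_lit 43) (nat_lit 5) (nat_lit 369) (nat_lit 285) (nat_lit 126)) (XT.nd (nat_lit 78) (nat_lit 0) (nat_lit 0) (XT.lf (nat_lit 0) (nat_lit 299596603) (nat_lit 152) (nat_lit 10251202604) (nat_lit 228) (nat_lit 31203392072) (nat_lit 40) (nat_lit 5) (nat_lit 42) (nat_lit 5) (nat_lit 43) (nat_lit 5) (nat_lit 370) (nat_lit 285) (nat_lit 125)) (XT.lf (nat_lit 0) (nat_lit 18151490043) (nat_lit 152) (nat_lit 4856540) (nat_lit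 228) (nat_lit 24537090602) (nat_lit 40) (nat_lit 5) (nat_lit 42) (nat_lit 5) (nat_lit 43) (nat_lit 5) (nat_lit 371) (nat_lit 285) (nat_lit 124)))) (XT.nd (nat_lit 156) (nat_lit 228) (nat_lit 0) (XT.nd (nat_lit 78) (nat_lit 152) (nat_lit 0) (XT.lf (nat_lit 0) (nat_lit 26086244095) (nat_lit 228) (nat_lit 7232288967) (nat_lit 76) (nat_lit 10339443920) (nat_lit 40) (nat_lit 5) (nat_lit 43) (nat_lit 5) (nat_lit 41) (nat_lit 5) (nat_lit 372) (nat_lit 285) (nat_lit 123)) (XT.lf (nat_lit 0) (nat_lit 10798625613) (nat_lit 152) (nat_lit 23554197423) (nat_lit 228) (nat_lit 10295668368) (nat_lit 38) (nat_lit 5) (nat_lit 40) (nat_lit 5) (nat_lit 41) (nat_lit 5) (nat_lit 373) (nat_lit 285) (nat_lit 122))) (XT.nd (nat_lit 78) (nat_lit 228) (nat_lit 0) (XT.lf (nat_lit 0) (nat_lit 29510102474) (nat_lit 152) (nat_lit 13425326944) (nat_lit 228) (nat_lit 2731252847) (nat_lit 38) (nat_lit 5) (nat_lit 40) (nat_lit 5)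 (nat_lit 41) (nat_lit 5) (nat_lit 374) (nat_lit 285) (nat_lit 121)) (XT.lf (nat_lit 0) (nat_lit 2050406511) (nat_lit 152) (nat_lit 2925751628) (nat_lit 228) (nat_lit 41737359179) (nat_lit 35) (nat_lit 5) (nat_lit 37) (nat_lit 5) (nat_lit 38) (nat_lit 5) (nat_lit 375) (nat_lit 285) (nat_lit 120)))))) (XT.nd (nat_lit 546) (nat_lit 456) (nat_lit 0) (XT.nd (nat_lit 234) (nat_lit 152) (nat_lit 0) (XT.nd (nat_lit 78) (nat_lit 152) (nat_lit 0) (XT.lf (nat_lit 0) (nat_lit 13095615345) (nat_lit 228) (nat_lit 26765054365) (nat_lit 76) (nat_lit 7923206616) (nat_lit 35) (nat_lit 5) (nat_lit 38) (nat_lit 5) (nat_lit 36) (nat_lit 5) (nat_lit 376) (nat_lit 285) (nat_lit 119)) (XT.nd (nat_lit 78) (nat_lit 152) (nat_lit 0) (XT.lf (nat_lit 0) (nat_lit 21482888347) (nat_lit 228) (nat_lit 8367274899) (nat_lit 76) (nat_lit 19035457593) (nat_lit 35) (nat_lit 5) (nat_lit 38) (nat_lit 5) (nat_lit 36) (nat_lit 5) (nat_lit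 377) (nat_lit 285) (nat_lit 118)) (XT.lf (nat_lit 0) (nat_lit 10784879275) (nat_lit 152) (nat_lit 19435973295) (nat_lit 228) (nat_lit 19796594570) (nat_lit 33) (nat_lit 5) (nat_lit 35) (nat_lit 5) (nat_lit 36) (nat_lit 5) (nat_lit 378) (nat_lit 285) (nat_lit 117)))) (XT.nd (nat_lit 156) (nat_lit 152) (nat_lit 0) (XT.nd (nat_lit 78) (nat_lit 0) (nat_lit 0) (XT.lf (nat_lit 0) (nat_lit 30675187027) (nat_lit 152) (nat_lit 8625721612) (nat_lit 228) (nat_lit 11879922605) (nat_lit 33) (nat_lit 5) (nat_lit 35) (nat_lit 5) (nat_lit 36) (nat_lit 5) (nat_lit 379) (nat_lit 285) (nat_lit 116)) (XT.lf (nat_lit 0) (nat_lit 48673043300) (nat_lit 228) (nat_lit 1248832429) (nat_lit 76) (nat_lit 2456652386) (nat_lit 33) (nat_lit 5) (nat_lit 36) (nat_lit 5) (nat_lit 34) (nat_lit 4) (nat_lit 380) (nat_lit 285) (nat_lit 115))) (XT.nd (nat_lit 78) (nat_lit 0) (nat_lit 0) (XT.lf (nat_lit 0) (nat_lit 4887185787) (nat_lit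 152) (nat_lit 34791453367) (nat_lit 76) (nat_lit 13924209018) (nat_lit 31) (nat_lit 5) (nat_lit 33) (nat_lit 5) (nat_lit 32) (nat_lit 5) (nat_lit 381) (nat_lit 285) (nat_lit 114)) (XT.lf (nat_lit 0) (nat_lit 13671595139) (nat_lit 152) (nat_lit 15408892186) (nat_lit 76) (nat_lit 25782058232) (nat_lit 31) (nat_lit 5) (nat_lit 33) (nat_lit 5) (nat_lit 32) (nat_lit 5) (nat_lit 382) (nat_lit 285) (nat_lit 113))))) (XT.nd (nat_lit 234) (nat_lit 304) (nat_lit 0) (XT.nd (nat_lit 78) (nat_lit 0) (nat_lit 0) (XT.lf (nat_lit 0) (nat_lit 4638288014) (nat_lit 152) (nat_lit 18121659660) (nat_lit 228) (nat_lit 33398875239) (nat_lit 29) (nat_lit 5) (nat_lit 31) (nat_lit 5) (nat_lit 32) (nat_lit 5) (nat_lit 383) (nat_lit 285) (nat_lit 112)) (XT.nd (nat_lit 78) (nat_lit 0) (nat_lit 0) (XT.lf (nat_lit 0) (nat_lit 25595455513) (nat_lit 152) (nat_lit 6676971194) (nat_lit 228) (nat_lit 25217018946) (nat_lit 29) (nat_lit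 5) (nat_lit 31) (nat_lit 5) (nat_lit 32) (nat_lit 5) (nat_lit 384) (nat_lit 285) (nat_lit 111)) (XT.lf (nat_lit 0) (nat_lit 42115377557) (nat_lit 228) (nat_lit 11734954268) (nat_lit 76) (nat_lit 5008303626) (nat_lit 29) (nat_lit 5) (nat_lit 32) (nat_lit 5) (nat_lit 30) (nat_lit 4) (nat_lit 385) (nat_lit 285) (nat_lit 110)))) (XT.nd (nat_lit 156) (nat_lit 152) (nat_lit 0) (XT.nd (nat_lit 78) (nat_lit 76) (nat_lit 0) (XT.lf (nat_lit 0) (nat_lit 9134015960) (nat_lit 76) (nat_lit 43269595647) (nat_lit 152) (nat_lit 7860790758) (nat_lit 28) (nat_lit 5) (nat_lit 29) (nat_lit 5) (nat_lit 30) (nat_lit 4) (nat_lit 386) (nat_lit 285) (nat_lit 109)) (XT.lf (nat_lit 0) (nat_lit 1378779785) (nat_lit 152) (nat_lit 30859708999) (nat_lit 76) (nat_lit 29470010241) (nat_lit 27) (nat_lit 5) (nat_lit 29) (nat_lit 5) (nat_lit 28) (nat_lit 5) (nat_lit 387) (nat_lit 285) (nat_lit 108))) (XT.nd (nat_lit 78) (nat_lit 152)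 (nat_lit 0) (XT.lf (nat_lit 0) (nat_lit 10733749695) (nat_lit 152) (nat_lit 10065513998) (nat_lit 76) (nat_lit 42394434969) (nat_lit 27) (nat_lit 5) (nat_lit 29) (nat_lit 5) (nat_lit 28) (nat_lit 5) (nat_lit 388) (nat_lit 285) (nat_lit 107)) (XT.lf (nat_lit 0) (nat_lit 11571737285) (nat_lit 152) (nat_lit 8905182889) (nat_lit 228) (nat_lit 44243308690) (nat_lit 25) (nat_lit 5) (nat_lit 27) (nat_lit 5) (nat_lit 28) (nat_lit 5) (nat_lit 389) (nat_lit 285) (nat_lit 106))))))) (XT.nd (nat_lit 1092) (nat_lit 228) (nat_lit 0) (XT.nd (nat_lit 546) (nat_lit 228) (nat_lit 0) (XT.nd (nat_lit 234) (nat_lit 228) (nat_lit 0) (XT.nd (nat_lit 78) (nat_lit 76) (nat_lit 0) (XT.lf (nat_lit 0) (nat_lit 30643529113) (nat_lit 228) (nat_lit 32264827903) (nat_lit 76) (nat_lit 3380264745) (nat_lit 25) (nat_lit 5) (nat_lit 28) (nat_lit 5) (nat_lit 26) (nat_lit 4) (nat_lit 390) (nat_lit 285) (nat_lit 105)) (XT.nd (nat_lit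 78) (nat_lit 76) (nat_lit 0) (XT.lf (nat_lit 0) (nat_lit 41199747149) (nat_lit 228) (nat_lit 10849226383) (nat_lit 76) (nat_lit 15852555644) (nat_lit 25) (nat_lit 5) (nat_lit 28) (nat_lit 5) (nat_lit 26) (nat_lit 4) (nat_lit 391) (nat_lit 285) (nat_lit 104)) (XT.lf (nat_lit 0) (nat_lit 11425581964) (nat_lit 76) (nat_lit 40753443817) (nat_lit 152) (nat_lit 17380607837) (nat_lit 24) (nat_lit 5) (nat_lit 25) (nat_lit 5) (nat_lit 26) (nat_lit 4) (nat_lit 392) (nat_lit 285) (nat_lit 103)))) (XT.nd (nat_lit 156) (nat_lit 152) (nat_lit 0) (XT.nd (nat_lit 78) (nat_lit 76) (nat_lit 0) (XT.lf (nat_lit 0) (nat_lit 34584878526) (nat_lit 76) (nat_lit 29008946019) (nat_lit 152) (nat_lit 7670473391) (nat_lit 24) (nat_lit 5) (nat_lit 25) (nat_lit 5) (nat_lit 26) (nat_lit 4) (nat_lit 393) (nat_lit 285) (nat_lit 102)) (XT.lf (nat_lit 0) (nat_lit 2282131095) (nat_lit 152) (nat_lit 14609597723) (nat_lit 76) (nat_lit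 56127802560) (nat_lit 23) (nat_lit 5) (nat_lit 25) (nat_lit 5) (nat_lit 24) (nat_lit 5) (nat_lit 394) (nat_lit 285) (nat_lit 101))) (XT.nd (nat_lit 78) (nat_lit 0) (nat_lit 0) (XT.lf (nat_lit 0) (nat_lit 8200528323) (nat_lit 152) (nat_lit 4254194029) (nat_lit 228) (nat_lit 62368154696) (nat_lit 21) (nat_lit 5) (nat_lit 23) (nat_lit 5) (nat_lit 24) (nat_lit 5) (nat_lit 395) (nat_lit 285) (nat_lit 100)) (XT.lf (nat_lit 0) (nat_lit 23162473446) (nat_lit 228) (nat_lit 44773029146) (nat_lit 76) (nat_lit 8737921919) (nat_lit 21) (nat_lit 5) (nat_lit 24) (nat_lit 5) (nat_lit 22) (nat_lit 4) (nat_lit 396) (nat_lit 285) (nat_lit 99))))) (XT.nd (nat_lit 234) (nat_lit 152) (nat_lit 0) (XT.nd (nat_lit 78) (nat_lit 76) (nat_lit 0) (XT.lf (nat_lit 0) (nat_lit 34230435028) (nat_lit 228) (nat_lit 22316061022) (nat_lit 76) (nat_lit 22031823869) (nat_lit 21) (nat_lit 5) (nat_lit 24) (nat_lit 5) (nat_lit 22) (nat_lit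 4) (nat_lit 397) (nat_lit 285) (nat_lit 98)) (XT.nd (nat_lit 78) (nat_lit 0) (nat_lit 0) (XT.lf (nat_lit 0) (nat_lit 825174277) (nat_lit 76) (nat_lit 44810142019) (nat_lit 152) (nat_lit 34904900301) (nat_lit 20) (nat_lit 5) (nat_lit 21) (nat_lit 5) (nat_lit 22) (nat_lit 4) (nat_lit 398) (nat_lit 285) (nat_lit 97)) (XT.lf (nat_lit 0) (nat_lit 25112614372) (nat_lit 76) (nat_lit 32492062953) (nat_lit 152) (nat_lit 24949623662) (nat_lit 20) (nat_lit 5) (nat_lit 21) (nat_lit 5) (nat_lit 22) (nat_lit 4) (nat_lit 399) (nat_lit 285) (nat_lit 96)))) (XT.nd (nat_lit 156) (nat_lit 152) (nat_lit 0) (XT.nd (nat_lit 78) (nat_lit 0) (nat_lit 0) (XT.lf (nat_lit 0) (nat_lit 50123347925) (nat_lit 76) (nat_lit 19806843941) (nat_lit 152) (nat_lit 14698704649) (nat_lit 20) (nat_lit 5) (nat_lit 21) (nat_lit 5) (nat_lit 22) (nat_lit 4) (nat_lit 400) (nat_lit 285) (nat_lit 95)) (XT.lf (nat_lit 0) (nat_lit 75879228975)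 (nat_lit 76) (nat_lit 6743400810) (nat_lit 152) (nat_lit 4143186148) (nat_lit 20) (nat_lit 5) (nat_lit 21) (nat_lit 5) (nat_lit 22) (nat_lit 4) (nat_lit 401) (nat_lit 285) (nat_lit 94))) (XT.nd (nat_lit 78) (nat_lit 0) (nat_lit 0) (XT.lf (nat_lit 0) (nat_lit 6792429236) (nat_lit 152) (nat_lit 75390196721) (nat_lit 76) (nat_lit 6776435050) (nat_lit 18) (nat_lit 5) (nat_lit 20) (nat_lit 5) (nat_lit 19) (nat_lit 4) (nat_lit 402) (nat_lit 285) (nat_lit 93)) (XT.lf (nat_lit 0) (nat_lit 18147850748) (nat_lit 152) (nat_lit 52347630088) (nat_lit 76) (nat_lit 20716142299) (nat_lit 18) (nat_lit 5) (nat_lit 20) (nat_lit 5) (nat_lit 19) (nat_lit 4) (nat_lit 403) (nat_lit 285) (nat_lit 92)))))) (XT.nd (nat_lit 31512) (nat_lit 0) (nat_lit 15732) (XT.nd (nat_lit 234) (nat_lit 152) (nat_lit 0) (XT.nd (nat_lit 78) (nat_lit 76) (nat_lit 0) (XT.lf (nat_lit 0) (nat_lit 29841239401) (nat_lit 152) (nat_lit 28618729799)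 (nat_lit 76) (nat_lit 35071874470) (nat_lit 18) (nat_lit 5) (nat_lit 20) (nat_lit 5) (nat_lit 19) (nat_lit 4) (nat_lit 404) (nat_lit 285) (nat_lit 91)) (XT.nd (nat_lit 78) (nat_lit 76) (nat_lit 0) (XT.lf (nat_lit 0) (nat_lit 41882812718) (nat_lit 152) (nat_lit 4182761862) (nat_lit 76) (nat_lit 49856175407) (nat_lit 18) (nat_lit 5) (nat_lit 20) (nat_lit 5) (nat_lit 19) (nat_lit 4) (nat_lit 405) (nat_lit 285) (nat_lit 90)) (XT.lf (nat_lit 0) (nat_lit 21399201025) (nat_lit 76) (nat_lit 33089593650) (nat_lit 152) (nat_lit 43888464617) (nat_lit 17) (nat_lit 5) (nat_lit 18) (nat_lit 5) (nat_lit 19) (nat_lit 4) (nat_lit 406) (nat_lit 285) (nat_lit 89)))) (XT.nd (nat_lit 234) (nat_lit 152) (nat_lit 0) (XT.nd (nat_lit 156) (nat_lit 0) (nat_lit 0) (XT.lf (nat_lit 0) (nat_lit 47829751425) (nat_lit 76) (nat_lit 19682931239) (nat_lit 152) (nat_lit 33392560036) (nat_lit 17) (nat_lit 5) (nat_lit 18) (nat_lit 5)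 (nat_lit 19) (nat_lit 4) (nat_lit 407) (nat_lit 285) (nat_lit 88)) (XT.lf (nat_lit 0) (nat_lit 94817211364) (nat_lit 152) (nat_lit 3191475051) (nat_lit 0) (nat_lit 8180132162) (nat_lit 17) (nat_lit 5) (nat_lit 19) (nat_lit 4) (nat_lit 17) (nat_lit 4) (nat_lit 409) (nat_lit 285) (nat_lit 86))) (XT.nd (nat_lit 30966) (nat_lit 0) (nat_lit 16720) (XT.lf (nat_lit 0) (nat_lit 455884508) (nat_lit 152) (nat_lit 85718690206) (nat_lit 76) (nat_lit 22765806103) (nat_lit 15) (nat_lit 5) (nat_lit 17) (nat_lit 5) (nat_lit 16) (nat_lit 4) (nat_lit 410) (nat_lit 285) (nat_lit 85)) (XT.lf (nat_lit 0) (nat_lit 1611234180) (nat_lit 0) (nat_lit 1611234180) (nat_lit 988) (nat_lit 1462593457) (nat_lit 235) (nat_lit 5) (nat_lit 235) (nat_lit 3) (nat_lit 248) (nat_lit 3) (nat_lit 286) (nat_lit 286) (nat_lit 208))))) (XT.nd (nat_lit 312) (nat_lit 0) (nat_lit 0) (XT.nd (nat_lit 156) (nat_lit 988) (nat_lit 0) (XT.nd (nat_lit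 78) (nat_lit 0) (nat_lit 0) (XT.lf (nat_lit 0) (nat_lit 7327021247) (nat_lit 988) (nat_lit 1820765113) (nat_lit 1064) (nat_lit 338440814) (nat_lit 235) (nat_lit 5) (nat_lit 248) (nat_lit 3) (nat_lit 249) (nat_lit 5) (nat_lit 287) (nat_lit 286) (nat_lit 207)) (XT.lf (nat_lit 76) (nat_lit 2639167382) (nat_lit 0) (nat_lit 5623299665) (nat_lit 1064) (nat_lit 1342574385) (nat_lit 236) (nat_lit 5) (nat_lit 235) (nat_lit 5) (nat_lit 249) (nat_lit 5) (nat_lit 288) (nat_lit 286) (nat_lit 206))) (XT.nd (nat_lit 78) (nat_lit 988) (nat_lit 0) (XT.lf (nat_lit 76) (nat_lit 7254023722) (nat_lit 0) (nat_lit 1960691516) (nat_lit 1064) (nat_lit 513076281) (nat_lit 236) (nat_lit 5) (nat_lit 235) (nat_lit 5) (nat_lit 249) (nat_lit 5) (nat_lit 289) (nat_lit 286) (nat_lit 205)) (XT.lf (nat_lit 0) (nat_lit 344240923) (nat_lit 1064) (nat_lit 7696236941) (nat_lit 1140) (nat_lit 1813391633) (nat_lit 222) (nat_lit 5) (nat_lit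 236) (nat_lit 5) (nat_lit 237) (nat_lit 5) (nat_lit 290) (nat_lit 286) (nat_lit 204)))) (XT.nd (nat_lit 156) (nat_lit 0) (nat_lit 76) (XT.nd (nat_lit 78) (nat_lit 0) (nat_lit 0) (XT.lf (nat_lit 0) (nat_lit 1233314730) (nat_lit 1064) (nat_lit 3046213186) (nat_lit 1140) (nat_lit 5703589742) (nat_lit 222) (nat_lit 5) (nat_lit 236) (nat_lit 5) (nat_lit 237) (nat_lit 5) (nat_lit 291) (nat_lit 286) (nat_lit 203)) (XT.lf (nat_lit 76) (nat_lit 1760997567) (nat_lit 0) (nat_lit 377524065) (nat_lit 1140) (nat_lit 7978067631) (nat_lit 223) (nat_lit 5) (nat_lit 222) (nat_lit 5) (nat_lit 237) (nat_lit 5) (nat_lit 292) (nat_lit 286) (nat_lit 202))) (XT.nd (nat_lit 78) (nat_lit 0) (nat_lit 0) (XT.lf (nat_lit 0) (nat_lit 3110228285) (nat_lit 1064) (nat_lit 3531028910) (nat_lit 1140) (nat_lit 3611656474) (nat_lit 223) (nat_lit 5) (nat_lit 237) (nat_lit 5) (nat_lit 238) (nat_lit 5) (nat_lit 293) (nat_lit 286) (nat_lit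 201)) (XT.lf (nat_lit 76) (nat_lit 1445807487) (nat_lit 0) (nat_lit 2656966430) (nat_lit 1140) (nat_lit 6290831373) (nat_lit 224) (nat_lit 5) (nat_lit 223) (nat_lit 5) (nat_lit 238) (nat_lit 5) (nat_lit 294) (nat_lit 286) (nat_lit 200))))))))
noncomputable def xc166 : XT := (XT.nd (nat_lit 2184) (nat_lit 4788) (nat_lit 0) (XT.nd (nat_lit 1092) (nat_lit 3572) (nat_lit 0) (XT.nd (nat_lit 546) (nat_lit 2432) (nat_lit 0) (XT.nd (nat_lit 234) (nat_lit 988) (nat_lit 0) (XT.nd (nat_lit 78) (nat_lit 0) (nat_lit 0) (XT.lf (nat_lit 0) (nat_lit 5149742423) (nat_lit 1064) (nat_lit 3925020080) (nat_lit 1140) (nat_lit 1463043057) (nat_lit 224) (nat_lit 5) (nat_lit 238) (nat_lit 5) (nat_lit 239) (nat_lit 5) (nat_lit 295) (nat_lit 286) (nat_lit 199)) (XT.nd (nat_lit 78) (nat_lit 0) (nat_lit 0) (XT.lf (nat_lit 76) (nat_lit 1228987563) (nat_lit 0) (nat_lit 5012717812) (nat_lit 1140) (nat_lit 4444245403) (nat_lit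 225) (nat_lit 5) (nat_lit 224) (nat_lit 5) (nat_lit 239) (nat_lit 5) (nat_lit 296) (nat_lit 286) (nat_lit 198)) (XT.lf (nat_lit 76) (nat_lit 6601113642) (nat_lit 0) (nat_lit 780965169) (nat_lit 1140) (nat_lit 3456017723) (nat_lit 225) (nat_lit 5) (nat_lit 224) (nat_lit 5) (nat_lit 239) (nat_lit 5) (nat_lit 297) (nat_lit 286) (nat_lit 197)))) (XT.nd (nat_lit 156) (nat_lit 1064) (nat_lit 0) (XT.nd (nat_lit 78) (nat_lit 0) (nat_lit 0) (XT.lf (nat_lit 76) (nat_lit 1109601824) (nat_lit 0) (nat_lit 7468899895) (nat_lit 1140) (nat_lit 2415674776) (nat_lit 226) (nat_lit 5) (nat_lit 225) (nat_lit 5) (nat_lit 240) (nat_lit 5) (nat_lit 298) (nat_lit 286) (nat_lit 196)) (XT.lf (nat_lit 76) (nat_lit 6678465120) (nat_lit 0) (nat_lit 3160086650) (nat_lit 1140) (nat_lit 1315579304) (nat_lit 226) (nat_lit 5) (nat_lit 225) (nat_lit 5) (nat_lit 240) (nat_lit 5) (nat_lit 299) (nat_lit 286) (nat_lit 195))) (XT.nd (nat_lit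 78) (nat_lit 1140) (nat_lit 0) (XT.lf (nat_lit 76) (nat_lit 1087112220) (nat_lit 0) (nat_lit 10050032468) (nat_lit 1140) (nat_lit 181740906) (nat_lit 227) (nat_lit 5) (nat_lit 226) (nat_lit 5) (nat_lit 241) (nat_lit 5) (nat_lit 300) (nat_lit 286) (nat_lit 194)) (XT.lf (nat_lit 0) (nat_lit 1022047700) (nat_lit 1140) (nat_lit 4637532674) (nat_lit 1216) (nat_lit 5827084867) (nat_lit 211) (nat_lit 5) (nat_lit 226) (nat_lit 5) (nat_lit 227) (nat_lit 5) (nat_lit 301) (nat_lit 286) (nat_lit 193))))) (XT.nd (nat_lit 234) (nat_lit 1368) (nat_lit 0) (XT.nd (nat_lit 78) (nat_lit 1064) (nat_lit 0) (XT.lf (nat_lit 76) (nat_lit 1127641432) (nat_lit 0) (nat_lit 1120375642) (nat_lit 1216) (nat_lit 9411737173) (nat_lit 212) (nat_lit 5) (nat_lit 211) (nat_lit 5) (nat_lit 227) (nat_lit 5) (nat_lit 302) (nat_lit 286) (nat_lit 192)) (XT.nd (nat_lit 78) (nat_lit 1140) (nat_lit 0) (XT.lf (nat_lit 0) (nat_lit 3571600704)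 (nat_lit 1140) (nat_lit 4728039897) (nat_lit 76) (nat_lit 3536591186) (nat_lit 212) (nat_lit 5) (nat_lit 227) (nat_lit 5) (nat_lit 213) (nat_lit 5) (nat_lit 303) (nat_lit 286) (nat_lit 191)) (XT.lf (nat_lit 0) (nat_lit 1246286814) (nat_lit 1140) (nat_lit 3691647481) (nat_lit 1216) (nat_lit 7079998397) (nat_lit 197) (nat_lit 5) (nat_lit 212) (nat_lit 5) (nat_lit 213) (nat_lit 5) (nat_lit 304) (nat_lit 286) (nat_lit 190)))) (XT.nd (nat_lit 156) (nat_lit 608) (nat_lit 0) (XT.nd (nat_lit 78) (nat_lit 760) (nat_lit 0) (XT.lf (nat_lit 0) (nat_lit 6384027887) (nat_lit 1216) (nat_lit 4735060134) (nat_lit 76) (nat_lit 1084853221) (nat_lit 197) (nat_lit 5) (nat_lit 213) (nat_lit 5) (nat_lit 198) (nat_lit 5) (nat_lit 305) (nat_lit 286) (nat_lit 189)) (XT.lf (nat_lit 0) (nat_lit 1457462753) (nat_lit 760) (nat_lit 6447588959) (nat_lit 836) (nat_lit 4489551060) (nat_lit 187) (nat_lit 5) (nat_lit 197) (nat_lit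 5) (nat_lit 198) (nat_lit 5) (nat_lit 306) (nat_lit 286) (nat_lit 188))) (XT.nd (nat_lit 78) (nat_lit 608) (nat_lit 0) (XT.lf (nat_lit 0) (nat_lit 7915942761) (nat_lit 760) (nat_lit 1584956257) (nat_lit 836) (nat_lit 3089227934) (nat_lit 187) (nat_lit 5) (nat_lit 197) (nat_lit 5) (nat_lit 198) (nat_lit 5) (nat_lit 307) (nat_lit 286) (nat_lit 187)) (XT.lf (nat_lit 0) (nat_lit 1761149779) (nat_lit 608) (nat_lit 9415247088) (nat_lit 684) (nat_lit 1614184783) (nat_lit 179) (nat_lit 5) (nat_lit 187) (nat_lit 5) (nat_lit 188) (nat_lit 5) (nat_lit 308) (nat_lit 286) (nat_lit 186)))))) (XT.nd (nat_lit 546) (nat_lit 1900) (nat_lit 0) (XT.nd (nat_lit 234) (nat_lit 1064) (nat_lit 0) (XT.nd (nat_lit 78) (nat_lit 608) (nat_lit 0) (XT.lf (nat_lit 0) (nat_lit 8452553764) (nat_lit 608) (nat_lit 4494645952) (nat_lit 684) (nat_lit 48516591) (nat_lit 179) (nat_lit 5) (nat_lit 187) (nat_lit 5) (nat_lit 188) (nat_lit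 5) (nat_lit 309) (nat_lit 286) (nat_lit 185)) (XT.nd (nat_lit 78) (nat_lit 0) (nat_lit 0) (XT.lf (nat_lit 0) (nat_lit 1542750302) (nat_lit 608) (nat_lit 11064446973) (nat_lit 76) (nat_lit 599098677) (nat_lit 171) (nat_lit 5) (nat_lit 179) (nat_lit 5) (nat_lit 172) (nat_lit 5) (nat_lit 310) (nat_lit 286) (nat_lit 184)) (XT.lf (nat_lit 0) (nat_lit 3254594785) (nat_lit 608) (nat_lit 4363753764) (nat_lit 76) (nat_lit 5802631618) (nat_lit 171) (nat_lit 5) (nat_lit 179) (nat_lit 5) (nat_lit 172) (nat_lit 5) (nat_lit 311) (nat_lit 286) (nat_lit 183)))) (XT.nd (nat_lit 156) (nat_lit 532) (nat_lit 0) (XT.nd (nat_lit 78) (nat_lit 0) (nat_lit 0) (XT.lf (nat_lit 0) (nat_lit 2571595427) (nat_lit 532) (nat_lit 2454396604) (nat_lit 608) (nat_lit 8615882520) (nat_lit 164) (nat_lit 5) (nat_lit 171) (nat_lit 5) (nat_lit 172) (nat_lit 5) (nat_lit 312) (nat_lit 286) (nat_lit 182)) (XT.lf (nat_lit 0) (nat_lit 6906367562)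 (nat_lit 608) (nat_lit 4108470386) (nat_lit 76) (nat_lit 2852897843) (nat_lit 164) (nat_lit 5) (nat_lit 172) (nat_lit 5) (nat_lit 165) (nat_lit 5) (nat_lit 313) (nat_lit 286) (nat_lit 181))) (XT.nd (nat_lit 78) (nat_lit 0) (nat_lit 0) (XT.lf (nat_lit 0) (nat_lit 3081634199) (nat_lit 532) (nat_lit 5799715169) (nat_lit 608) (nat_lit 5217892322) (nat_lit 157) (nat_lit 5) (nat_lit 164) (nat_lit 5) (nat_lit 165) (nat_lit 5) (nat_lit 314) (nat_lit 286) (nat_lit 180)) (XT.lf (nat_lit 0) (nat_lit 10555430992) (nat_lit 532) (nat_lit 386210723) (nat_lit 608) (nat_lit 3395283464) (nat_lit 157) (nat_lit 5) (nat_lit 164) (nat_lit 5) (nat_lit 165) (nat_lit 5) (nat_lit 315) (nat_lit 286) (nat_lit 179))))) (XT.nd (nat_lit 234) (nat_lit 836) (nat_lit 0) (XT.nd (nat_lit 78) (nat_lit 532) (nat_lit 0) (XT.lf (nat_lit 0) (nat_lit 3677361066) (nat_lit 532) (nat_lit 9456632772) (nat_lit 608) (nat_lit 1445651636) (nat_lit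 150) (nat_lit 5) (nat_lit 157) (nat_lit 5) (nat_lit 158) (nat_lit 5) (nat_lit 316) (nat_lit 286) (nat_lit 178)) (XT.nd (nat_lit 78) (nat_lit 456) (nat_lit 0) (XT.lf (nat_lit 0) (nat_lit 579019754) (nat_lit 608) (nat_lit 3416974946) (nat_lit 76) (nat_lit 10832677718) (nat_lit 149) (nat_lit 5) (nat_lit 157) (nat_lit 5) (nat_lit 150) (nat_lit 5) (nat_lit 317) (nat_lit 286) (nat_lit 177)) (XT.lf (nat_lit 0) (nat_lit 2678933119) (nat_lit 532) (nat_lit 10752598110) (nat_lit 76) (nat_lit 1651915456) (nat_lit 143) (nat_lit 5) (nat_lit 150) (nat_lit 5) (nat_lit 144) (nat_lit 5) (nat_lit 318) (nat_lit 286) (nat_lit 176)))) (XT.nd (nat_lit 156) (nat_lit 380) (nat_lit 0) (XT.nd (nat_lit 78) (nat_lit 456) (nat_lit 0) (XT.lf (nat_lit 0) (nat_lit 4902080124) (nat_lit 532) (nat_lit 3019736441) (nat_lit 76) (nat_lit 7422252818) (nat_lit 143) (nat_lit 5) (nat_lit 150) (nat_lit 5) (nat_lit 144) (nat_lit 5) (nat_lit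 319) (nat_lit 286) (nat_lit 175)) (XT.lf (nat_lit 0) (nat_lit 5027533940) (nat_lit 456) (nat_lit 2198953735) (nat_lit 532) (nat_lit 8384998033) (nat_lit 137) (nat_lit 5) (nat_lit 143) (nat_lit 5) (nat_lit 144) (nat_lit 5) (nat_lit 320) (nat_lit 286) (nat_lit 174))) (XT.nd (nat_lit 78) (nat_lit 380) (nat_lit 0) (XT.lf (nat_lit 0) (nat_lit 9673417658) (nat_lit 532) (nat_lit 2559638050) (nat_lit 76) (nat_lit 3652296692) (nat_lit 137) (nat_lit 5) (nat_lit 144) (nat_lit 5) (nat_lit 138) (nat_lit 5) (nat_lit 321) (nat_lit 286) (nat_lit 173)) (XT.lf (nat_lit 0) (nat_lit 5780978681) (nat_lit 380) (nat_lit 6476983594) (nat_lit 456) (nat_lit 3907557862) (nat_lit 132) (nat_lit 5) (nat_lit 137) (nat_lit 5) (nat_lit 138) (nat_lit 5) (nat_lit 322) (nat_lit 286) (nat_lit 172))))))) (XT.nd (nat_lit 1092) (nat_lit 1976) (nat_lit 0) (XT.nd (nat_lit 546) (nat_lit 1520) (nat_lit 0) (XT.nd (nat_lit 234) (nat_lit 760)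 (nat_lit 0) (XT.nd (nat_lit 78) (nat_lit 532) (nat_lit 0) (XT.lf (nat_lit 0) (nat_lit 14408973282) (nat_lit 380) (nat_lit 524017297) (nat_lit 456) (nat_lit 1520724824) (nat_lit 132) (nat_lit 5) (nat_lit 137) (nat_lit 5) (nat_lit 138) (nat_lit 5) (nat_lit 323) (nat_lit 286) (nat_lit 171)) (XT.nd (nat_lit 78) (nat_lit 0) (nat_lit 0) (XT.lf (nat_lit 0) (nat_lit 1025290448) (nat_lit 532) (nat_lit 10152466572) (nat_lit 76) (nat_lit 5569363121) (nat_lit 125) (nat_lit 5) (nat_lit 132) (nat_lit 5) (nat_lit 126) (nat_lit 5) (nat_lit 324) (nat_lit 286) (nat_lit 170)) (XT.lf (nat_lit 0) (nat_lit 3630703333) (nat_lit 532) (nat_lit 1549347878) (nat_lit 76) (nat_lit 11868426634) (nat_lit 125) (nat_lit 5) (nat_lit 132) (nat_lit 5) (nat_lit 126) (nat_lit 5) (nat_lit 325) (nat_lit 286) (nat_lit 169)))) (XT.nd (nat_lit 156) (nat_lit 380) (nat_lit 0) (XT.nd (nat_lit 78) (nat_lit 0) (nat_lit 0) (XT.lf (nat_lit 0) (nat_lit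 6383992880) (nat_lit 456) (nat_lit 9925175572) (nat_lit 76) (nat_lit 1047626101) (nat_lit 120) (nat_lit 5) (nat_lit 126) (nat_lit 5) (nat_lit 121) (nat_lit 5) (nat_lit 326) (nat_lit 286) (nat_lit 168)) (XT.lf (nat_lit 0) (nat_lit 9275056577) (nat_lit 456) (nat_lit 1026641989) (nat_lit 76) (nat_lit 7371016350) (nat_lit 120) (nat_lit 5) (nat_lit 126) (nat_lit 5) (nat_lit 121) (nat_lit 5) (nat_lit 327) (nat_lit 286) (nat_lit 167))) (XT.nd (nat_lit 78) (nat_lit 0) (nat_lit 0) (XT.lf (nat_lit 0) (nat_lit 8285891492) (nat_lit 380) (nat_lit 4035044263) (nat_lit 456) (nat_lit 5675143772) (nat_lit 115) (nat_lit 5) (nat_lit 120) (nat_lit 5) (nat_lit 121) (nat_lit 5) (nat_lit 328) (nat_lit 286) (nat_lit 166)) (XT.lf (nat_lit 0) (nat_lit 15480521671) (nat_lit 456) (nat_lit 468169285) (nat_lit 76) (nat_lit 2379793086) (nat_lit 115) (nat_lit 5) (nat_lit 121) (nat_lit 5) (nat_lit 116) (nat_lit 5) (nat_lit 329)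 (nat_lit 286) (nat_lit 165))))) (XT.nd (nat_lit 234) (nat_lit 684) (nat_lit 0) (XT.nd (nat_lit 78) (nat_lit 380) (nat_lit 0) (XT.lf (nat_lit 0) (nat_lit 181024198) (nat_lit 456) (nat_lit 9493307227) (nat_lit 76) (nat_lit 8992971992) (nat_lit 109) (nat_lit 5) (nat_lit 115) (nat_lit 5) (nat_lit 110) (nat_lit 5) (nat_lit 330) (nat_lit 286) (nat_lit 164)) (XT.nd (nat_lit 78) (nat_lit 0) (nat_lit 0) (XT.lf (nat_lit 0) (nat_lit 57277114) (nat_lit 380) (nat_lit 3180690300) (nat_lit 456) (nat_lit 15777652305) (nat_lit 104) (nat_lit 5) (nat_lit 109) (nat_lit 5) (nat_lit 110) (nat_lit 5) (nat_lit 331) (nat_lit 286) (nat_lit 163)) (XT.lf (nat_lit 0) (nat_lit 6506302592) (nat_lit 456) (nat_lit 9331825804) (nat_lit 76) (nat_lit 3532674493) (nat_lit 104) (nat_lit 5) (nat_lit 110) (nat_lit 5) (nat_lit 105) (nat_lit 5) (nat_lit 332) (nat_lit 286) (nat_lit 162)))) (XT.nd (nat_lit 156) (nat_lit 380) (nat_lit 0) (XT.nd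 (nat_lit 78) (nat_lit 0) (nat_lit 0) (XT.lf (nat_lit 0) (nat_lit 548492929) (nat_lit 304) (nat_lit 9350427282) (nat_lit 380) (nat_lit 9836942029) (nat_lit 100) (nat_lit 5) (nat_lit 104) (nat_lit 5) (nat_lit 105) (nat_lit 5) (nat_lit 333) (nat_lit 286) (nat_lit 161)) (XT.lf (nat_lit 0) (nat_lit 10902449105) (nat_lit 304) (nat_lit 2574739905) (nat_lit 380) (nat_lit 6632175617) (nat_lit 100) (nat_lit 5) (nat_lit 104) (nat_lit 5) (nat_lit 105) (nat_lit 5) (nat_lit 334) (nat_lit 286) (nat_lit 160))) (XT.nd (nat_lit 78) (nat_lit 76) (nat_lit 0) (XT.lf (nat_lit 0) (nat_lit 1036919749) (nat_lit 304) (nat_lit 16168096362) (nat_lit 380) (nat_lit 3287796885) (nat_lit 96) (nat_lit 5) (nat_lit 100) (nat_lit 5) (nat_lit 101) (nat_lit 5) (nat_lit 335) (nat_lit 286) (nat_lit 159)) (XT.lf (nat_lit 0) (nat_lit 263198921) (nat_lit 380) (nat_lit 9150094299) (nat_lit 76) (nat_lit 11471152720) (nat_lit 95) (nat_lit 5)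 (nat_lit 100) (nat_lit 5) (nat_lit 96) (nat_lit 5) (nat_lit 336) (nat_lit 286) (nat_lit 158)))))) (XT.nd (nat_lit 546) (nat_lit 760) (nat_lit 0) (XT.nd (nat_lit 234) (nat_lit 608) (nat_lit 0) (XT.nd (nat_lit 78) (nat_lit 304) (nat_lit 0) (XT.lf (nat_lit 0) (nat_lit 1446969403) (nat_lit 304) (nat_lit 2411838108) (nat_lit 380) (nat_lit 17427925462) (nat_lit 91) (nat_lit 5) (nat_lit 95) (nat_lit 5) (nat_lit 96) (nat_lit 5) (nat_lit 337) (nat_lit 286) (nat_lit 157)) (XT.nd (nat_lit 78) (nat_lit 304) (nat_lit 0) (XT.lf (nat_lit 0) (nat_lit 7692106959) (nat_lit 380) (nat_lit 9209571834) (nat_lit 76) (nat_lit 4795521561) (nat_lit 91) (nat_lit 5) (nat_lit 96) (nat_lit 5) (nat_lit 92) (nat_lit 5) (nat_lit 338) (nat_lit 286) (nat_lit 156)) (XT.lf (nat_lit 0) (nat_lit 1736209231) (nat_lit 304) (nat_lit 9935418140) (nat_lit 380) (nat_lit 10447423951) (nat_lit 87) (nat_lit 5) (nat_lit 91) (nat_lit 5) (nat_lit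 92) (nat_lit 5) (nat_lit 339) (nat_lit 286) (nat_lit 155)))) (XT.nd (nat_lit 156) (nat_lit 380) (nat_lit 0) (XT.nd (nat_lit 78) (nat_lit 228) (nat_lit 0) (XT.lf (nat_lit 0) (nat_lit 13185964944) (nat_lit 304) (nat_lit 2668365458) (nat_lit 380) (nat_lit 6696719553) (nat_lit 87) (nat_lit 5) (nat_lit 91) (nat_lit 5) (nat_lit 92) (nat_lit 5) (nat_lit 340) (nat_lit 286) (nat_lit 154)) (XT.lf (nat_lit 0) (nat_lit 1962153798) (nat_lit 228) (nat_lit 18256552413) (nat_lit 304) (nat_lit 2775622452) (nat_lit 84) (nat_lit 5) (nat_lit 87) (nat_lit 5) (nat_lit 88) (nat_lit 5) (nat_lit 341) (nat_lit 286) (nat_lit 153))) (XT.nd (nat_lit 78) (nat_lit 304) (nat_lit 0) (XT.lf (nat_lit 0) (nat_lit 1351457905) (nat_lit 304) (nat_lit 9679475356) (nat_lit 76) (nat_lit 12416223810) (nat_lit 83) (nat_lit 5) (nat_lit 87) (nat_lit 5) (nat_lit 84) (nat_lit 5) (nat_lit 342) (nat_lit 286) (nat_lit 152)) (XT.lf (nat_lit 0) (nat_lit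 2012889863) (nat_lit 304) (nat_lit 3544356018) (nat_lit 380) (nat_lit 18355184904) (nat_lit 79) (nat_lit 5) (nat_lit 83) (nat_lit 5) (nat_lit 84) (nat_lit 5) (nat_lit 343) (nat_lit 286) (nat_lit 151))))) (XT.nd (nat_lit 312) (nat_lit 304) (nat_lit 0) (XT.nd (nat_lit 156) (nat_lit 228) (nat_lit 0) (XT.nd (nat_lit 78) (nat_lit 228) (nat_lit 0) (XT.lf (nat_lit 0) (nat_lit 10019398793) (nat_lit 380) (nat_lit 10188116650) (nat_lit 76) (nat_lit 4180246741) (nat_lit 79) (nat_lit 5) (nat_lit 84) (nat_lit 5) (nat_lit 80) (nat_lit 5) (nat_lit 344) (nat_lit 286) (nat_lit 150)) (XT.lf (nat_lit 0) (nat_lit 1863483833) (nat_lit 228) (nat_lit 12796613582) (nat_lit 304) (nat_lit 10215920742) (nat_lit 76) (nat_lit 5) (nat_lit 79) (nat_lit 5) (nat_lit 80) (nat_lit 5) (nat_lit 345) (nat_lit 286) (nat_lit 149))) (XT.nd (nat_lit 78) (nat_lit 228) (nat_lit 0) (XT.lf (nat_lit 0) (nat_lit 14473163504) (nat_lit 228) (nat_lit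 5061533111) (nat_lit 304) (nat_lit 5841389719) (nat_lit 76) (nat_lit 5) (nat_lit 79) (nat_lit 5) (nat_lit 80) (nat_lit 5) (nat_lit 346) (nat_lit 286) (nat_lit 148)) (XT.lf (nat_lit 0) (nat_lit 1560332563) (nat_lit 228) (nat_lit 23030130566) (nat_lit 304) (nat_lit 1299650320) (nat_lit 73) (nat_lit 5) (nat_lit 76) (nat_lit 5) (nat_lit 77) (nat_lit 5) (nat_lit 347) (nat_lit 286) (nat_lit 147)))) (XT.nd (nat_lit 156) (nat_lit 0) (nat_lit 0) (XT.nd (nat_lit 78) (nat_lit 228) (nat_lit 0) (XT.lf (nat_lit 0) (nat_lit 3465754788) (nat_lit 304) (nat_lit 11891158077) (nat_lit 76) (nat_lit 11057078656) (nat_lit 72) (nat_lit 5) (nat_lit 76) (nat_lit 5) (nat_lit 73) (nat_lit 5) (nat_lit 348) (nat_lit 286) (nat_lit 146)) (XT.lf (nat_lit 0) (nat_lit 913735829) (nat_lit 228) (nat_lit 7435314644) (nat_lit 304) (nat_lit 18604122291) (nat_lit 69) (nat_lit 5) (nat_lit 72) (nat_lit 5) (nat_lit 73) (nat_lit 5) (nat_lit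 349) (nat_lit 286) (nat_lit 145))) (XT.nd (nat_lit 78) (nat_lit 0) (nat_lit 0) (XT.lf (nat_lit 0) (nat_lit 13499409798) (nat_lit 304) (nat_lit 13178468436) (nat_lit 76) (nat_lit 827038507) (nat_lit 69) (nat_lit 5) (nat_lit 73) (nat_lit 5) (nat_lit 70) (nat_lit 5) (nat_lit 350) (nat_lit 286) (nat_lit 144)) (XT.lf (nat_lit 0) (nat_lit 18870459629) (nat_lit 304) (nat_lit 16867654) (nat_lit 76) (nat_lit 9183904480) (nat_lit 69) (nat_lit 5) (nat_lit 73) (nat_lit 5) (nat_lit 70) (nat_lit 5) (nat_lit 351) (nat_lit 286) (nat_lit 143))))))))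
noncomputable def xc167 : XT := (XT.nd (nat_lit 2184) (nat_lit 1216) (nat_lit 0) (XT.nd (nat_lit 1092) (nat_lit 1064) (nat_lit 0) (XT.nd (nat_lit 546) (nat_lit 760) (nat_lit 0) (XT.nd (nat_lit 234) (nat_lit 380) (nat_lit 0) (XT.nd (nat_lit 78) (nat_lit 304) (nat_lit 0) (XT.lf (nat_lit 0) (nat_lit 13797579096) (nat_lit 228) (nat_lit 10730471997) (nat_lit 304) (nat_lit 4122726834) (nat_lit 66) (nat_lit 5) (nat_lit 69) (nat_lit 5) (nat_lit 70) (nat_lit 5) (nat_lit 352) (nat_lit 286) (nat_lit 142)) (XT.nd (nat_lit 78) (nat_lit 228) (nat_lit 0) (XT.lf (nat_lit 0) (nat_lit 1079025802) (nat_lit 304) (nat_lit 1242828732) (nat_lit 76) (nat_lit 26925750872) (nat_lit 65) (nat_lit 5) (nat_lit 69) (nat_lit 5) (nat_lit 66) (nat_lit 5) (nat_lit 353) (nat_lit 286) (nat_lit 141)) (XT.lf (nat_lit 0) (nat_lit 6534267719) (nat_lit 304) (nat_lit 16942802630) (nat_lit 76) (nat_lit 6378637463) (nat_lit 62) (nat_lit 5)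 (nat_lit 66) (nat_lit 5) (nat_lit 63) (nat_lit 5) (nat_lit 354) (nat_lit 286) (nat_lit 140)))) (XT.nd (nat_lit 156) (nat_lit 152) (nat_lit 0) (XT.nd (nat_lit 78) (nat_lit 228) (nat_lit 0) (XT.lf (nat_lit 0) (nat_lit 12181908865) (nat_lit 304) (nat_lit 2997017104) (nat_lit 76) (nat_lit 15302268613) (nat_lit 62) (nat_lit 5) (nat_lit 66) (nat_lit 5) (nat_lit 63) (nat_lit 5) (nat_lit 355) (nat_lit 286) (nat_lit 139)) (XT.lf (nat_lit 0) (nat_lit 11582463107) (nat_lit 228) (nat_lit 6521134362) (nat_lit 304) (nat_lit 13018713384) (nat_lit 59) (nat_lit 5) (nat_lit 62) (nat_lit 5) (nat_lit 63) (nat_lit 5) (nat_lit 356) (nat_lit 286) (nat_lit 138))) (XT.nd (nat_lit 78) (nat_lit 152) (nat_lit 0) (XT.lf (nat_lit 0) (nat_lit 24249872271) (nat_lit 304) (nat_lit 5155077892) (nat_lit 76) (nat_lit 2376305734) (nat_lit 59) (nat_lit 5) (nat_lit 63) (nat_lit 5) (nat_lit 60) (nat_lit 5) (nat_lit 357) (nat_lit 286) (nat_lit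 137)) (XT.lf (nat_lit 0) (nat_lit 9777013720) (nat_lit 152) (nat_lit 20955600325) (nat_lit 228) (nat_lit 1722796133) (nat_lit 57) (nat_lit 5) (nat_lit 59) (nat_lit 5) (nat_lit 60) (nat_lit 5) (nat_lit 358) (nat_lit 286) (nat_lit 136))))) (XT.nd (nat_lit 234) (nat_lit 456) (nat_lit 0) (XT.nd (nat_lit 78) (nat_lit 228) (nat_lit 0) (XT.lf (nat_lit 0) (nat_lit 4223044872) (nat_lit 228) (nat_lit 7937420295) (nat_lit 76) (nat_lit 20986714735) (nat_lit 56) (nat_lit 5) (nat_lit 59) (nat_lit 5) (nat_lit 57) (nat_lit 5) (nat_lit 359) (nat_lit 286) (nat_lit 135)) (XT.nd (nat_lit 78) (nat_lit 0) (nat_lit 0) (XT.lf (nat_lit 0) (nat_lit 7362226850) (nat_lit 228) (nat_lit 3014918960) (nat_lit 304) (nat_lit 23480112823) (nat_lit 53) (nat_lit 5) (nat_lit 56) (nat_lit 5) (nat_lit 57) (nat_lit 5) (nat_lit 360) (nat_lit 286) (nat_lit 134)) (XT.lf (nat_lit 0) (nat_lit 16852173580) (nat_lit 304) (nat_lit 11375240228)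 (nat_lit 76) (nat_lit 6357139690) (nat_lit 53) (nat_lit 5) (nat_lit 57) (nat_lit 5) (nat_lit 54) (nat_lit 5) (nat_lit 361) (nat_lit 286) (nat_lit 133)))) (XT.nd (nat_lit 156) (nat_lit 304) (nat_lit 0) (XT.nd (nat_lit 78) (nat_lit 0) (nat_lit 0) (XT.lf (nat_lit 0) (nat_lit 4241136261) (nat_lit 152) (nat_lit 19344905018) (nat_lit 228) (nat_lit 11745691063) (nat_lit 51) (nat_lit 5) (nat_lit 53) (nat_lit 5) (nat_lit 54) (nat_lit 5) (nat_lit 362) (nat_lit 286) (nat_lit 132)) (XT.lf (nat_lit 0) (nat_lit 20549364581) (nat_lit 152) (nat_lit 10081479295) (nat_lit 228) (nat_lit 5467217830) (nat_lit 51) (nat_lit 5) (nat_lit 53) (nat_lit 5) (nat_lit 54) (nat_lit 5) (nat_lit 363) (nat_lit 286) (nat_lit 131))) (XT.nd (nat_lit 78) (nat_lit 0) (nat_lit 0) (XT.lf (nat_lit 0) (nat_lit 448957319) (nat_lit 228) (nat_lit 529626684) (nat_lit 304) (nat_lit 35908556834) (nat_lit 47) (nat_lit 5) (nat_lit 50) (nat_lit 5)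 (nat_lit 51) (nat_lit 5) (nat_lit 364) (nat_lit 286) (nat_lit 130)) (XT.lf (nat_lit 0) (nat_lit 7750128118) (nat_lit 304) (nat_lit 20604772115) (nat_lit 76) (nat_lit 9336103057) (nat_lit 47) (nat_lit 5) (nat_lit 51) (nat_lit 5) (nat_lit 48) (nat_lit 5) (nat_lit 365) (nat_lit 286) (nat_lit 129)))))) (XT.nd (nat_lit 546) (nat_lit 532) (nat_lit 0) (XT.nd (nat_lit 234) (nat_lit 380) (nat_lit 0) (XT.nd (nat_lit 78) (nat_lit 152) (nat_lit 0) (XT.lf (nat_lit 0) (nat_lit 14724437402) (nat_lit 304) (nat_lit 4311017167) (nat_lit 76) (nat_lit 19483540901) (nat_lit 47) (nat_lit 5) (nat_lit 51) (nat_lit 5) (nat_lit 48) (nat_lit 5) (nat_lit 366) (nat_lit 286) (nat_lit 128)) (XT.nd (nat_lit 78) (nat_lit 0) (nat_lit 0) (XT.lf (nat_lit 0) (nat_lit 12710436070) (nat_lit 152) (nat_lit 9314259231) (nat_lit 228) (nat_lit 17343632882) (nat_lit 45) (nat_lit 5) (nat_lit 47) (nat_lit 5) (nat_lit 48) (nat_lit 5) (nat_lit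 367) (nat_lit 286) (nat_lit 127)) (XT.lf (nat_lit 0) (nat_lit 29589215585) (nat_lit 228) (nat_lit 9927256362) (nat_lit 76) (nat_lit 725313570) (nat_lit 45) (nat_lit 5) (nat_lit 48) (nat_lit 5) (nat_lit 46) (nat_lit 5) (nat_lit 368) (nat_lit 286) (nat_lit 126)))) (XT.nd (nat_lit 156) (nat_lit 152) (nat_lit 0) (XT.nd (nat_lit 78) (nat_lit 76) (nat_lit 0) (XT.lf (nat_lit 0) (nat_lit 7347542587) (nat_lit 152) (nat_lit 30190712048) (nat_lit 228) (nat_lit 3598466654) (nat_lit 43) (nat_lit 5) (nat_lit 45) (nat_lit 5) (nat_lit 46) (nat_lit 5) (nat_lit 369) (nat_lit 286) (nat_lit 125)) (XT.lf (nat_lit 0) (nat_lit 3691685314) (nat_lit 228) (nat_lit 16756589434) (nat_lit 76) (nat_lit 21606295302) (nat_lit 42) (nat_lit 5) (nat_lit 45) (nat_lit 5) (nat_lit 43) (nat_lit 5) (nat_lit 370) (nat_lit 286) (nat_lit 124))) (XT.nd (nat_lit 78) (nat_lit 0) (nat_lit 0) (XT.lf (nat_lit 0) (nat_lit 757458290) (nat_lit 152)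 (nat_lit 10372940720) (nat_lit 228) (nat_lit 31868422954) (nat_lit 40) (nat_lit 5) (nat_lit 42) (nat_lit 5) (nat_lit 43) (nat_lit 5) (nat_lit 371) (nat_lit 286) (nat_lit 123)) (XT.lf (nat_lit 0) (nat_lit 18958136305) (nat_lit 228) (nat_lit 24836329475) (nat_lit 76) (nat_lit 171961757) (nat_lit 40) (nat_lit 5) (nat_lit 43) (nat_lit 5) (nat_lit 41) (nat_lit 5) (nat_lit 372) (nat_lit 286) (nat_lit 122))))) (XT.nd (nat_lit 234) (nat_lit 380) (nat_lit 0) (XT.nd (nat_lit 78) (nat_lit 152) (nat_lit 0) (XT.lf (nat_lit 0) (nat_lit 27118489096) (nat_lit 228) (nat_lit 7020298415) (nat_lit 76) (nat_lit 10821342173) (nat_lit 40) (nat_lit 5) (nat_lit 43) (nat_lit 5) (nat_lit 41) (nat_lit 5) (nat_lit 373) (nat_lit 286) (nat_lit 121)) (XT.nd (nat_lit 78) (nat_lit 0) (nat_lit 0) (XT.lf (nat_lit 0) (nat_lit 11547338120) (nat_lit 152) (nat_lit 24082538696) (nat_lit 228) (nat_lit 10350581202) (nat_lit 38) (nat_lit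 5) (nat_lit 40) (nat_lit 5) (nat_lit 41) (nat_lit 5) (nat_lit 374) (nat_lit 286) (nat_lit 120)) (XT.lf (nat_lit 0) (nat_lit 30807787818) (nat_lit 152) (nat_lit 13654994859) (nat_lit 228) (nat_lit 2566630028) (nat_lit 38) (nat_lit 5) (nat_lit 40) (nat_lit 5) (nat_lit 41) (nat_lit 5) (nat_lit 375) (nat_lit 286) (nat_lit 119)))) (XT.nd (nat_lit 156) (nat_lit 152) (nat_lit 0) (XT.nd (nat_lit 78) (nat_lit 0) (nat_lit 0) (XT.lf (nat_lit 0) (nat_lit 2525109913) (nat_lit 152) (nat_lit 2839012703) (nat_lit 228) (nat_lit 42743553755) (nat_lit 35) (nat_lit 5) (nat_lit 37) (nat_lit 5) (nat_lit 38) (nat_lit 5) (nat_lit 376) (nat_lit 286) (nat_lit 118)) (XT.lf (nat_lit 0) (nat_lit 13721840354) (nat_lit 228) (nat_lit 27161442732) (nat_lit 76) (nat_lit 8327025267) (nat_lit 35) (nat_lit 5) (nat_lit 38) (nat_lit 5) (nat_lit 36) (nat_lit 5) (nat_lit 377) (nat_lit 286) (nat_lit 117))) (XT.nd (nat_lit 78) (nat_lit 152)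 (nat_lit 0) (XT.lf (nat_lit 0) (nat_lit 22353934752) (nat_lit 228) (nat_lit 8223571530) (nat_lit 76) (nat_lit 19767805255) (nat_lit 35) (nat_lit 5) (nat_lit 38) (nat_lit 5) (nat_lit 36) (nat_lit 5) (nat_lit 378) (nat_lit 286) (nat_lit 116)) (XT.lf (nat_lit 0) (nat_lit 11499277449) (nat_lit 152) (nat_lit 19851918732) (nat_lit 228) (nat_lit 20159984062) (nat_lit 33) (nat_lit 5) (nat_lit 35) (nat_lit 5) (nat_lit 36) (nat_lit 5) (nat_lit 379) (nat_lit 286) (nat_lit 115))))))) (XT.nd (nat_lit 1092) (nat_lit 532) (nat_lit 0) (XT.nd (nat_lit 546) (nat_lit 380) (nat_lit 0) (XT.nd (nat_lit 234) (nat_lit 152) (nat_lit 0) (XT.nd (nat_lit 78) (nat_lit 152) (nat_lit 0) (XT.lf (nat_lit 0) (nat_lit 31974910401) (nat_lit 152) (nat_lit 8722227472) (nat_lit 228) (nat_lit 12012525774) (nat_lit 33) (nat_lit 5) (nat_lit 35) (nat_lit 5) (nat_lit 36) (nat_lit 5) (nat_lit 380) (nat_lit 286) (nat_lit 114)) (XT.nd (nat_lit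 78) (nat_lit 152) (nat_lit 0) (XT.lf (nat_lit 0) (nat_lit 50345624669) (nat_lit 228) (nat_lit 912995945) (nat_lit 76) (nat_lit 2684817393) (nat_lit 33) (nat_lit 5) (nat_lit 36) (nat_lit 5) (nat_lit 34) (nat_lit 4) (nat_lit 381) (nat_lit 286) (nat_lit 113)) (XT.lf (nat_lit 0) (nat_lit 5245706018) (nat_lit 152) (nat_lit 35461268025) (nat_lit 76) (nat_lit 14497532448) (nat_lit 31) (nat_lit 5) (nat_lit 33) (nat_lit 5) (nat_lit 32) (nat_lit 5) (nat_lit 382) (nat_lit 286) (nat_lit 112)))) (XT.nd (nat_lit 156) (nat_lit 0) (nat_lit 0) (XT.nd (nat_lit 78) (nat_lit 152) (nat_lit 0) (XT.lf (nat_lit 0) (nat_lit 14287475669) (nat_lit 152) (nat_lit 15508121143) (nat_lit 76) (nat_lit 26706585183) (nat_lit 31) (nat_lit 5) (nat_lit 33) (nat_lit 5) (nat_lit 32) (nat_lit 5) (nat_lit 383) (nat_lit 286) (nat_lit 111)) (XT.lf (nat_lit 0) (nat_lit 5136915269) (nat_lit 152) (nat_lit 18509026827) (nat_lit 228) (nat_lit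 34191483657) (nat_lit 29) (nat_lit 5) (nat_lit 31) (nat_lit 5) (nat_lit 32) (nat_lit 5) (nat_lit 384) (nat_lit 286) (nat_lit 110))) (XT.nd (nat_lit 78) (nat_lit 0) (nat_lit 0) (XT.lf (nat_lit 0) (nat_lit 26712327542) (nat_lit 152) (nat_lit 6725549628) (nat_lit 228) (nat_lit 25770269476) (nat_lit 29) (nat_lit 5) (nat_lit 31) (nat_lit 5) (nat_lit 32) (nat_lit 5) (nat_lit 385) (nat_lit 286) (nat_lit 109)) (XT.lf (nat_lit 0) (nat_lit 43571786641) (nat_lit 228) (nat_lit 11743767738) (nat_lit 76) (nat_lit 5302989522) (nat_lit 29) (nat_lit 5) (nat_lit 32) (nat_lit 5) (nat_lit 30) (nat_lit 4) (nat_lit 386) (nat_lit 286) (nat_lit 108))))) (XT.nd (nat_lit 234) (nat_lit 228) (nat_lit 0) (XT.nd (nat_lit 78) (nat_lit 76) (nat_lit 0) (XT.lf (nat_lit 0) (nat_lit 9747906546) (nat_lit 76) (nat_lit 44418408368) (nat_lit 152) (nat_lit 7900241303) (nat_lit 28) (nat_lit 5) (nat_lit 29) (nat_lit 5) (nat_lit 30) (nat_lit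 4) (nat_lit 387) (nat_lit 286) (nat_lit 107)) (XT.nd (nat_lit 78) (nat_lit 0) (nat_lit 0) (XT.lf (nat_lit 0) (nat_lit 1607076412) (nat_lit 152) (nat_lit 31451752048) (nat_lit 76) (nat_lit 30495260634) (nat_lit 27) (nat_lit 5) (nat_lit 29) (nat_lit 5) (nat_lit 28) (nat_lit 5) (nat_lit 388) (nat_lit 286) (nat_lit 106)) (XT.lf (nat_lit 0) (nat_lit 11237250762) (nat_lit 152) (nat_lit 10043452019) (nat_lit 76) (nat_lit 43803306936) (nat_lit 27) (nat_lit 5) (nat_lit 29) (nat_lit 5) (nat_lit 28) (nat_lit 5) (nat_lit 389) (nat_lit 286) (nat_lit 105)))) (XT.nd (nat_lit 156) (nat_lit 76) (nat_lit 0) (XT.nd (nat_lit 78) (nat_lit 0) (nat_lit 0) (XT.lf (nat_lit 0) (nat_lit 12239740063) (nat_lit 152) (nat_lit 9030774429) (nat_lit 228) (nat_lit 45385888997) (nat_lit 25) (nat_lit 5) (nat_lit 27) (nat_lit 5) (nat_lit 28) (nat_lit 5) (nat_lit 390) (nat_lit 286) (nat_lit 104)) (XT.lf (nat_lit 0) (nat_lit 31738220921)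 (nat_lit 228) (nat_lit 32917314390) (nat_lit 76) (nat_lit 3616431448) (nat_lit 25) (nat_lit 5) (nat_lit 28) (nat_lit 5) (nat_lit 26) (nat_lit 4) (nat_lit 391) (nat_lit 286) (nat_lit 103))) (XT.nd (nat_lit 78) (nat_lit 76) (nat_lit 0) (XT.lf (nat_lit 0) (nat_lit 42606017171) (nat_lit 228) (nat_lit 10868432931) (nat_lit 76) (nat_lit 16458966061) (nat_lit 25) (nat_lit 5) (nat_lit 28) (nat_lit 5) (nat_lit 26) (nat_lit 4) (nat_lit 392) (nat_lit 286) (nat_lit 102)) (XT.lf (nat_lit 0) (nat_lit 12071617016) (nat_lit 76) (nat_lit 41841012797) (nat_lit 152) (nat_lit 17728696729) (nat_lit 24) (nat_lit 5) (nat_lit 25) (nat_lit 5) (nat_lit 26) (nat_lit 4) (nat_lit 393) (nat_lit 286) (nat_lit 101)))))) (XT.nd (nat_lit 546) (nat_lit 228) (nat_lit 0) (XT.nd (nat_lit 234) (nat_lit 76) (nat_lit 0) (XT.nd (nat_lit 78) (nat_lit 228) (nat_lit 0) (XT.lf (nat_lit 0) (nat_lit 35916859439) (nat_lit 76) (nat_lit 29748113103)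 (nat_lit 152) (nat_lit 7732306677) (nat_lit 24) (nat_lit 5) (nat_lit 25) (nat_lit 5) (nat_lit 26) (nat_lit 4) (nat_lit 394) (nat_lit 286) (nat_lit 100)) (XT.nd (nat_lit 78) (nat_lit 152) (nat_lit 0) (XT.lf (nat_lit 0) (nat_lit 2510786435) (nat_lit 152) (nat_lit 14758793817) (nat_lit 76) (nat_lit 57935686404) (nat_lit 23) (nat_lit 5) (nat_lit 25) (nat_lit 5) (nat_lit 24) (nat_lit 5) (nat_lit 395) (nat_lit 286) (nat_lit 99)) (XT.lf (nat_lit 0) (nat_lit 8732801777) (nat_lit 152) (nat_lit 4253839567) (nat_lit 228) (nat_lit 64076130083) (nat_lit 21) (nat_lit 5) (nat_lit 23) (nat_lit 5) (nat_lit 24) (nat_lit 5) (nat_lit 396) (nat_lit 286) (nat_lit 98)))) (XT.nd (nat_lit 156) (nat_lit 76) (nat_lit 0) (XT.nd (nat_lit 78) (nat_lit 0) (nat_lit 0) (XT.lf (nat_lit 0) (nat_lit 24012209344) (nat_lit 228) (nat_lit 45834842048) (nat_lit 76) (nat_lit 9121887661) (nat_lit 21) (nat_lit 5) (nat_lit 24) (nat_lit 5)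 (nat_lit 22) (nat_lit 4) (nat_lit 397) (nat_lit 286) (nat_lit 97)) (XT.lf (nat_lit 0) (nat_lit 35407699239) (nat_lit 228) (nat_lit 22712360355) (nat_lit 76) (nat_lit 22811058279) (nat_lit 21) (nat_lit 5) (nat_lit 24) (nat_lit 5) (nat_lit 22) (nat_lit 4) (nat_lit 398) (nat_lit 286) (nat_lit 96))) (XT.nd (nat_lit 78) (nat_lit 0) (nat_lit 0) (XT.lf (nat_lit 0) (nat_lit 1120433744) (nat_lit 76) (nat_lit 46032514294) (nat_lit 152) (nat_lit 35798977978) (nat_lit 20) (nat_lit 5) (nat_lit 21) (nat_lit 5) (nat_lit 22) (nat_lit 4) (nat_lit 399) (nat_lit 286) (nat_lit 95)) (XT.lf (nat_lit 0) (nat_lit 26128618277) (nat_lit 76) (nat_lit 33348444273) (nat_lit 152) (nat_lit 25549501370) (nat_lit 20) (nat_lit 5) (nat_lit 21) (nat_lit 5) (nat_lit 22) (nat_lit 4) (nat_lit 400) (nat_lit 286) (nat_lit 94))))) (XT.nd (nat_lit 312) (nat_lit 76) (nat_lit 0) (XT.nd (nat_lit 156) (nat_lit 152) (nat_lit 0) (XT.nd (nat_lit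 78) (nat_lit 0) (nat_lit 0) (XT.lf (nat_lit 0) (nat_lit 51882024551) (nat_lit 76) (nat_lit 20286116668) (nat_lit 152) (nat_lit 14995383263) (nat_lit 20) (nat_lit 5) (nat_lit 21) (nat_lit 5) (nat_lit 22) (nat_lit 4) (nat_lit 401) (nat_lit 286) (nat_lit 93)) (XT.lf (nat_lit 0) (nat_lit 78403155541) (nat_lit 76) (nat_lit 6834117794) (nat_lit 152) (nat_lit 4127401611) (nat_lit 20) (nat_lit 5) (nat_lit 21) (nat_lit 5) (nat_lit 22) (nat_lit 4) (nat_lit 402) (nat_lit 286) (nat_lit 92))) (XT.nd (nat_lit 78) (nat_lit 0) (nat_lit 0) (XT.lf (nat_lit 0) (nat_lit 7133008921) (nat_lit 152) (nat_lit 77401009721) (nat_lit 76) (nat_lit 7089675562) (nat_lit 18) (nat_lit 5) (nat_lit 20) (nat_lit 5) (nat_lit 19) (nat_lit 4) (nat_lit 403) (nat_lit 286) (nat_lit 91)) (XT.lf (nat_lit 0) (nat_lit 18825108414) (nat_lit 152) (nat_lit 53674473649) (nat_lit 76) (nat_lit 21444371675) (nat_lit 18) (nat_lit 5) (nat_lit 20) (nat_lit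 5) (nat_lit 19) (nat_lit 4) (nat_lit 404) (nat_lit 286) (nat_lit 90)))) (XT.nd (nat_lit 312) (nat_lit 0) (nat_lit 0) (XT.nd (nat_lit 156) (nat_lit 76) (nat_lit 0) (XT.lf (nat_lit 0) (nat_lit 30865430121) (nat_lit 152) (nat_lit 29240801070) (nat_lit 76) (nat_lit 36227666730) (nat_lit 18) (nat_lit 5) (nat_lit 20) (nat_lit 5) (nat_lit 19) (nat_lit 4) (nat_lit 405) (nat_lit 286) (nat_lit 89)) (XT.lf (nat_lit 0) (nat_lit 22268528597) (nat_lit 76) (nat_lit 33978666438) (nat_lit 152) (nat_lit 45077639352) (nat_lit 17) (nat_lit 5) (nat_lit 18) (nat_lit 5) (nat_lit 19) (nat_lit 4) (nat_lit 407) (nat_lit 286) (nat_lit 87))) (XT.nd (nat_lit 31122) (nat_lit 0) (nat_lit 16568) (XT.lf (nat_lit 0) (nat_lit 77514501628) (nat_lit 76) (nat_lit 5954726701) (nat_lit 152) (nat_lit 23141657364) (nat_lit 17) (nat_lit 5) (nat_lit 18) (nat_lit 5) (nat_lit 19) (nat_lit 4) (nat_lit 409) (nat_lit 286) (nat_lit 85)) (XT.lf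 (nat_lit 0) (nat_lit 2046858443) (nat_lit 0) (nat_lit 2046858443) (nat_lit 988) (nat_lit 707782064) (nat_lit 235) (nat_lit 5) (nat_lit 235) (nat_lit 3) (nat_lit 248) (nat_lit 3) (nat_lit 287) (nat_lit 287) (nat_lit 206))))))))
noncomputable def xc168 : XT := (XT.nd (nat_lit 2184) (nat_lit 5928) (nat_lit 0) (XT.nd (nat_lit 1092) (nat_lit 4104) (nat_lit 0) (XT.nd (nat_lit 546) (nat_lit 760) (nat_lit 0) (XT.nd (nat_lit 234) (nat_lit 0) (nat_lit 76) (XT.nd (nat_lit 78) (nat_lit 1064) (nat_lit 0) (XT.lf (nat_lit 0) (nat_lit 8650960093) (nat_lit 0) (nat_lit 396482309) (nat_lit 988) (nat_lit 676649412) (nat_lit 235) (nat_lit 5) (nat_lit 235) (nat_lit 3) (nat_lit 248) (nat_lit 3) (nat_lit 288) (nat_lit 287) (nat_lit 205)) (XT.nd (nat_lit 78) (nat_lit 0) (nat_lit 0) (XT.lf (nat_lit 0) (nat_lit 121094507) (nat_lit 1064) (nat_lit 6332392020) (nat_lit 1140) (nat_lit 3394190030) (nat_lit 221) (nat_lit 5) (nat_lit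 235) (nat_lit 5) (nat_lit 236) (nat_lit 5) (nat_lit 289) (nat_lit 287) (nat_lit 204)) (XT.lf (nat_lit 0) (nat_lit 915787162) (nat_lit 1064) (nat_lit 1737885881) (nat_lit 1140) (nat_lit 7321527045) (nat_lit 221) (nat_lit 5) (nat_lit 235) (nat_lit 5) (nat_lit 236) (nat_lit 5) (nat_lit 290) (nat_lit 287) (nat_lit 203)))) (XT.nd (nat_lit 156) (nat_lit 0) (nat_lit 0) (XT.nd (nat_lit 78) (nat_lit 0) (nat_lit 0) (XT.lf (nat_lit 0) (nat_lit 1748614955) (nat_lit 1064) (nat_lit 7080698602) (nat_lit 1140) (nat_lit 1276836765) (nat_lit 222) (nat_lit 5) (nat_lit 236) (nat_lit 5) (nat_lit 237) (nat_lit 5) (nat_lit 291) (nat_lit 287) (nat_lit 202)) (XT.lf (nat_lit 0) (nat_lit 2623757670) (nat_lit 1064) (nat_lit 2315827302) (nat_lit 1140) (nat_lit 5300953146) (nat_lit 222) (nat_lit 5) (nat_lit 236) (nat_lit 5) (nat_lit 237) (nat_lit 5) (nat_lit 292) (nat_lit 287) (nat_lit 201))) (XT.nd (nat_lit 78) (nat_lit 0)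 (nat_lit 76) (XT.lf (nat_lit 76) (nat_lit 2627543182) (nat_lit 0) (nat_lit 896978847) (nat_lit 1140) (nat_lit 6854482615) (nat_lit 223) (nat_lit 5) (nat_lit 222) (nat_lit 5) (nat_lit 237) (nat_lit 5) (nat_lit 293) (nat_lit 287) (nat_lit 200)) (XT.lf (nat_lit 0) (nat_lit 4482137367) (nat_lit 1064) (nat_lit 2802316638) (nat_lit 1140) (nat_lit 3236303614) (nat_lit 223) (nat_lit 5) (nat_lit 237) (nat_lit 5) (nat_lit 238) (nat_lit 5) (nat_lit 294) (nat_lit 287) (nat_lit 199))))) (XT.nd (nat_lit 234) (nat_lit 912) (nat_lit 0) (XT.nd (nat_lit 78) (nat_lit 0) (nat_lit 76) (XT.lf (nat_lit 76) (nat_lit 2315642074) (nat_lit 0) (nat_lit 3159520894) (nat_lit 1140) (nat_lit 5191426263) (nat_lit 224) (nat_lit 5) (nat_lit 223) (nat_lit 5) (nat_lit 238) (nat_lit 5) (nat_lit 295) (nat_lit 287) (nat_lit 198)) (XT.nd (nat_lit 78) (nat_lit 0) (nat_lit 0) (XT.lf (nat_lit 0) (nat_lit 6513206719) (nat_lit 1064) (nat_lit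 3198742304) (nat_lit 1140) (nat_lit 1104415677) (nat_lit 224) (nat_lit 5) (nat_lit 238) (nat_lit 5) (nat_lit 239) (nat_lit 5) (nat_lit 296) (nat_lit 287) (nat_lit 197)) (XT.lf (nat_lit 76) (nat_lit 2101610780) (nat_lit 0) (nat_lit 5509138778) (nat_lit 1140) (nat_lit 3359058122) (nat_lit 225) (nat_lit 5) (nat_lit 224) (nat_lit 5) (nat_lit 239) (nat_lit 5) (nat_lit 297) (nat_lit 287) (nat_lit 196)))) (XT.nd (nat_lit 156) (nat_lit 988) (nat_lit 0) (XT.nd (nat_lit 78) (nat_lit 0) (nat_lit 76) (XT.lf (nat_lit 76) (nat_lit 7610558304) (nat_lit 0) (nat_lit 1140354736) (nat_lit 1140) (nat_lit 2376674330) (nat_lit 225) (nat_lit 5) (nat_lit 224) (nat_lit 5) (nat_lit 239) (nat_lit 5) (nat_lit 298) (nat_lit 287) (nat_lit 195)) (XT.lf (nat_lit 76) (nat_lit 1984846447) (nat_lit 0) (nat_lit 7969921596) (nat_lit 1140) (nat_lit 1334471357) (nat_lit 226) (nat_lit 5) (nat_lit 225) (nat_lit 5) (nat_lit 240) (nat_lit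 5) (nat_lit 299) (nat_lit 287) (nat_lit 194))) (XT.nd (nat_lit 78) (nat_lit 1064) (nat_lit 0) (XT.lf (nat_lit 76) (nat_lit 7696252635) (nat_lit 0) (nat_lit 3523777312) (nat_lit 1140) (nat_lit 234975166) (nat_lit 226) (nat_lit 5) (nat_lit 225) (nat_lit 5) (nat_lit 240) (nat_lit 5) (nat_lit 300) (nat_lit 287) (nat_lit 193)) (XT.lf (nat_lit 0) (nat_lit 888360386) (nat_lit 1140) (nat_lit 9669102698) (nat_lit 1216) (nat_lit 1067792398) (nat_lit 211) (nat_lit 5) (nat_lit 226) (nat_lit 5) (nat_lit 227) (nat_lit 5) (nat_lit 301) (nat_lit 287) (nat_lit 192)))))) (XT.nd (nat_lit 546) (nat_lit 2280) (nat_lit 0) (XT.nd (nat_lit 234) (nat_lit 1824) (nat_lit 0) (XT.nd (nat_lit 78) (nat_lit 0) (nat_lit 0) (XT.lf (nat_lit 0) (nat_lit 2093389431) (nat_lit 1140) (nat_lit 3934110632) (nat_lit 1216) (nat_lit 5771482939) (nat_lit 211) (nat_lit 5) (nat_lit 226) (nat_lit 5) (nat_lit 227) (nat_lit 5) (nat_lit 302) (nat_lit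 287) (nat_lit 191)) (XT.nd (nat_lit 78) (nat_lit 0) (nat_lit 76) (XT.lf (nat_lit 76) (nat_lit 1995758424) (nat_lit 0) (nat_lit 1338088070) (nat_lit 1216) (nat_lit 8644117851) (nat_lit 212) (nat_lit 5) (nat_lit 211) (nat_lit 5) (nat_lit 227) (nat_lit 5) (nat_lit 303) (nat_lit 287) (nat_lit 190)) (XT.lf (nat_lit 0) (nat_lit 4665757671) (nat_lit 1140) (nat_lit 4027512190) (nat_lit 76) (nat_lit 3467437773) (nat_lit 212) (nat_lit 5) (nat_lit 227) (nat_lit 5) (nat_lit 213) (nat_lit 5) (nat_lit 304) (nat_lit 287) (nat_lit 189)))) (XT.nd (nat_lit 156) (nat_lit 760) (nat_lit 0) (XT.nd (nat_lit 78) (nat_lit 0) (nat_lit 0) (XT.lf (nat_lit 0) (nat_lit 2117785803) (nat_lit 1140) (nat_lit 3934565611) (nat_lit 1216) (nat_lit 6296159197) (nat_lit 197) (nat_lit 5) (nat_lit 212) (nat_lit 5) (nat_lit 213) (nat_lit 5) (nat_lit 305) (nat_lit 287) (nat_lit 188)) (XT.lf (nat_lit 0) (nat_lit 7512450282) (nat_lit 1216)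 (nat_lit 4036975111) (nat_lit 76) (nat_lit 991583654) (nat_lit 197) (nat_lit 5) (nat_lit 213) (nat_lit 5) (nat_lit 198) (nat_lit 5) (nat_lit 306) (nat_lit 287) (nat_lit 187))) (XT.nd (nat_lit 78) (nat_lit 0) (nat_lit 0) (XT.lf (nat_lit 0) (nat_lit 2333086827) (nat_lit 760) (nat_lit 6726726334) (nat_lit 836) (nat_lit 3678183489) (nat_lit 187) (nat_lit 5) (nat_lit 197) (nat_lit 5) (nat_lit 198) (nat_lit 5) (nat_lit 307) (nat_lit 287) (nat_lit 186)) (XT.lf (nat_lit 0) (nat_lit 8961091133) (nat_lit 760) (nat_lit 1715718251) (nat_lit 836) (nat_lit 2263405644) (nat_lit 187) (nat_lit 5) (nat_lit 197) (nat_lit 5) (nat_lit 198) (nat_lit 5) (nat_lit 308) (nat_lit 287) (nat_lit 185))))) (XT.nd (nat_lit 234) (nat_lit 1064) (nat_lit 0) (XT.nd (nat_lit 78) (nat_lit 608) (nat_lit 0) (XT.lf (nat_lit 0) (nat_lit 2641873073) (nat_lit 608) (nat_lit 9741932610) (nat_lit 684) (nat_lit 763466578) (nat_lit 179) (nat_lit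 5) (nat_lit 187) (nat_lit 5) (nat_lit 188) (nat_lit 5) (nat_lit 309) (nat_lit 287) (nat_lit 184)) (XT.nd (nat_lit 78) (nat_lit 532) (nat_lit 0) (XT.lf (nat_lit 0) (nat_lit 806923643) (nat_lit 684) (nat_lit 3857353253) (nat_lit 76) (nat_lit 8694833921) (nat_lit 178) (nat_lit 5) (nat_lit 187) (nat_lit 5) (nat_lit 179) (nat_lit 5) (nat_lit 310) (nat_lit 287) (nat_lit 183)) (XT.lf (nat_lit 0) (nat_lit 2427601553) (nat_lit 608) (nat_lit 10556614652) (nat_lit 76) (nat_lit 592321493) (nat_lit 171) (nat_lit 5) (nat_lit 179) (nat_lit 5) (nat_lit 172) (nat_lit 5) (nat_lit 311) (nat_lit 287) (nat_lit 182)))) (XT.nd (nat_lit 156) (nat_lit 532) (nat_lit 0) (XT.nd (nat_lit 78) (nat_lit 532) (nat_lit 0) (XT.lf (nat_lit 0) (nat_lit 4166377038) (nat_lit 608) (nat_lit 3679359842) (nat_lit 76) (nat_lit 5952681300) (nat_lit 171) (nat_lit 5) (nat_lit 179) (nat_lit 5) (nat_lit 172) (nat_lit 5) (nat_lit 312) (nat_lit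 287) (nat_lit 181)) (XT.lf (nat_lit 0) (nat_lit 3456056623) (nat_lit 532) (nat_lit 2518907025) (nat_lit 608) (nat_lit 8051476667) (nat_lit 164) (nat_lit 5) (nat_lit 171) (nat_lit 5) (nat_lit 172) (nat_lit 5) (nat_lit 313) (nat_lit 287) (nat_lit 180))) (XT.nd (nat_lit 78) (nat_lit 532) (nat_lit 0) (XT.lf (nat_lit 0) (nat_lit 7888587266) (nat_lit 608) (nat_lit 3424038939) (nat_lit 76) (nat_lit 2947167773) (nat_lit 164) (nat_lit 5) (nat_lit 172) (nat_lit 5) (nat_lit 165) (nat_lit 5) (nat_lit 314) (nat_lit 287) (nat_lit 179)) (XT.lf (nat_lit 0) (nat_lit 3973850297) (nat_lit 532) (nat_lit 5934082428) (nat_lit 608) (nat_lit 4590779962) (nat_lit 157) (nat_lit 5) (nat_lit 164) (nat_lit 5) (nat_lit 165) (nat_lit 5) (nat_lit 315) (nat_lit 287) (nat_lit 178))))))) (XT.nd (nat_lit 1092) (nat_lit 2736) (nat_lit 0) (XT.nd (nat_lit 546) (nat_lit 1672) (nat_lit 0) (XT.nd (nat_lit 234) (nat_lit 912) (nat_lit 0)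 (XT.nd (nat_lit 78) (nat_lit 608) (nat_lit 0) (XT.lf (nat_lit 0) (nat_lit 11648566808) (nat_lit 532) (nat_lit 359326951) (nat_lit 608) (nat_lit 2736317570) (nat_lit 157) (nat_lit 5) (nat_lit 164) (nat_lit 5) (nat_lit 165) (nat_lit 5) (nat_lit 316) (nat_lit 287) (nat_lit 177)) (XT.nd (nat_lit 78) (nat_lit 76) (nat_lit 0) (XT.lf (nat_lit 0) (nat_lit 4578773996) (nat_lit 532) (nat_lit 9673710711) (nat_lit 608) (nat_lit 742154328) (nat_lit 150) (nat_lit 5) (nat_lit 157) (nat_lit 5) (nat_lit 158) (nat_lit 5) (nat_lit 317) (nat_lit 287) (nat_lit 176)) (XT.lf (nat_lit 0) (nat_lit 1307354225) (nat_lit 608) (nat_lit 2736660349) (nat_lit 76) (nat_lit 11207565411) (nat_lit 149) (nat_lit 5) (nat_lit 157) (nat_lit 5) (nat_lit 150) (nat_lit 5) (nat_lit 318) (nat_lit 287) (nat_lit 175)))) (XT.nd (nat_lit 156) (nat_lit 456) (nat_lit 0) (XT.nd (nat_lit 78) (nat_lit 0) (nat_lit 0) (XT.lf (nat_lit 0) (nat_lit 3457752930)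 (nat_lit 532) (nat_lit 10279234624) (nat_lit 76) (nat_lit 1777403455) (nat_lit 143) (nat_lit 5) (nat_lit 150) (nat_lit 5) (nat_lit 144) (nat_lit 5) (nat_lit 319) (nat_lit 287) (nat_lit 174)) (XT.lf (nat_lit 0) (nat_lit 5727251088) (nat_lit 532) (nat_lit 2337569864) (nat_lit 76) (nat_lit 7718639369) (nat_lit 143) (nat_lit 5) (nat_lit 150) (nat_lit 5) (nat_lit 144) (nat_lit 5) (nat_lit 320) (nat_lit 287) (nat_lit 173))) (XT.nd (nat_lit 78) (nat_lit 0) (nat_lit 0) (XT.lf (nat_lit 0) (nat_lit 5943542563) (nat_lit 456) (nat_lit 2165452972) (nat_lit 532) (nat_lit 7950292585) (nat_lit 137) (nat_lit 5) (nat_lit 143) (nat_lit 5) (nat_lit 144) (nat_lit 5) (nat_lit 321) (nat_lit 287) (nat_lit 172)) (XT.lf (nat_lit 0) (nat_lit 10610872022) (nat_lit 532) (nat_lit 1874515925) (nat_lit 76) (nat_lit 3856553331) (nat_lit 137) (nat_lit 5) (nat_lit 144) (nat_lit 5) (nat_lit 138) (nat_lit 5) (nat_lit 322) (nat_lit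 287) (nat_lit 171))))) (XT.nd (nat_lit 234) (nat_lit 760) (nat_lit 0) (XT.nd (nat_lit 78) (nat_lit 532) (nat_lit 0) (XT.lf (nat_lit 0) (nat_lit 6708849590) (nat_lit 380) (nat_lit 6552503547) (nat_lit 456) (nat_lit 3369525045) (nat_lit 132) (nat_lit 5) (nat_lit 137) (nat_lit 5) (nat_lit 138) (nat_lit 5) (nat_lit 323) (nat_lit 287) (nat_lit 170)) (XT.nd (nat_lit 78) (nat_lit 532) (nat_lit 0) (XT.lf (nat_lit 0) (nat_lit 15573710003) (nat_lit 380) (nat_lit 424408151) (nat_lit 456) (nat_lit 930172247) (nat_lit 132) (nat_lit 5) (nat_lit 137) (nat_lit 5) (nat_lit 138) (nat_lit 5) (nat_lit 324) (nat_lit 287) (nat_lit 169)) (XT.lf (nat_lit 0) (nat_lit 1669941902) (nat_lit 532) (nat_lit 9701292003) (nat_lit 76) (nat_lit 5859390712) (nat_lit 125) (nat_lit 5) (nat_lit 132) (nat_lit 5) (nat_lit 126) (nat_lit 5) (nat_lit 325) (nat_lit 287) (nat_lit 168)))) (XT.nd (nat_lit 156) (nat_lit 380) (nat_lit 0) (XT.nd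 (nat_lit 78) (nat_lit 380) (nat_lit 0) (XT.lf (nat_lit 0) (nat_lit 4335636803) (nat_lit 532) (nat_lit 862091842) (nat_lit 76) (nat_lit 12343845159) (nat_lit 125) (nat_lit 5) (nat_lit 132) (nat_lit 5) (nat_lit 126) (nat_lit 5) (nat_lit 326) (nat_lit 287) (nat_lit 167)) (XT.lf (nat_lit 0) (nat_lit 7162503905) (nat_lit 456) (nat_lit 9479709153) (nat_lit 76) (nat_lit 1217211512) (nat_lit 120) (nat_lit 5) (nat_lit 126) (nat_lit 5) (nat_lit 121) (nat_lit 5) (nat_lit 327) (nat_lit 287) (nat_lit 166))) (XT.nd (nat_lit 78) (nat_lit 380) (nat_lit 0) (XT.lf (nat_lit 0) (nat_lit 10123202680) (nat_lit 456) (nat_lit 335866796) (nat_lit 76) (nat_lit 7726279489) (nat_lit 120) (nat_lit 5) (nat_lit 126) (nat_lit 5) (nat_lit 121) (nat_lit 5) (nat_lit 328) (nat_lit 287) (nat_lit 165)) (XT.lf (nat_lit 0) (nat_lit 9248968430) (nat_lit 380) (nat_lit 4001759150) (nat_lit 456) (nat_lit 5267991977) (nat_lit 115) (nat_lit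 5) (nat_lit 120) (nat_lit 5) (nat_lit 121) (nat_lit 5) (nat_lit 329) (nat_lit 287) (nat_lit 164)))))) (XT.nd (nat_lit 546) (nat_lit 1292) (nat_lit 0) (XT.nd (nat_lit 234) (nat_lit 608) (nat_lit 0) (XT.nd (nat_lit 78) (nat_lit 456) (nat_lit 0) (XT.lf (nat_lit 0) (nat_lit 231288195) (nat_lit 380) (nat_lit 16261161079) (nat_lit 456) (nat_lit 2369039230) (nat_lit 110) (nat_lit 5) (nat_lit 115) (nat_lit 5) (nat_lit 116) (nat_lit 5) (nat_lit 330) (nat_lit 287) (nat_lit 163)) (XT.nd (nat_lit 78) (nat_lit 380) (nat_lit 0) (XT.lf (nat_lit 0) (nat_lit 728322572) (nat_lit 456) (nat_lit 9064883474) (nat_lit 76) (nat_lit 9417460122) (nat_lit 109) (nat_lit 5) (nat_lit 115) (nat_lit 5) (nat_lit 110) (nat_lit 5) (nat_lit 331) (nat_lit 287) (nat_lit 162)) (XT.lf (nat_lit 0) (nat_lit 765226015) (nat_lit 380) (nat_lit 3102754237) (nat_lit 456) (nat_lit 15701733183) (nat_lit 104) (nat_lit 5) (nat_lit 109) (nat_lit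 5) (nat_lit 110) (nat_lit 5) (nat_lit 332) (nat_lit 287) (nat_lit 161)))) (XT.nd (nat_lit 156) (nat_lit 304) (nat_lit 0) (XT.nd (nat_lit 78) (nat_lit 304) (nat_lit 0) (XT.lf (nat_lit 0) (nat_lit 7220462764) (nat_lit 456) (nat_lit 8911839750) (nat_lit 76) (nat_lit 3803677987) (nat_lit 104) (nat_lit 5) (nat_lit 110) (nat_lit 5) (nat_lit 105) (nat_lit 5) (nat_lit 333) (nat_lit 287) (nat_lit 160)) (XT.lf (nat_lit 0) (nat_lit 1258026380) (nat_lit 304) (nat_lit 9448379164) (nat_lit 380) (nat_lit 9605850680) (nat_lit 100) (nat_lit 5) (nat_lit 104) (nat_lit 5) (nat_lit 105) (nat_lit 5) (nat_lit 334) (nat_lit 287) (nat_lit 159))) (XT.nd (nat_lit 78) (nat_lit 304) (nat_lit 0) (XT.lf (nat_lit 0) (nat_lit 11902414484) (nat_lit 304) (nat_lit 2474738474) (nat_lit 380) (nat_lit 6320267478) (nat_lit 100) (nat_lit 5) (nat_lit 104) (nat_lit 5) (nat_lit 105) (nat_lit 5) (nat_lit 335) (nat_lit 287) (nat_lit 158)) (XT.lf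 (nat_lit 0) (nat_lit 1747711061) (nat_lit 304) (nat_lit 16462855140) (nat_lit 380) (nat_lit 2882003876) (nat_lit 96) (nat_lit 5) (nat_lit 100) (nat_lit 5) (nat_lit 101) (nat_lit 5) (nat_lit 336) (nat_lit 287) (nat_lit 157))))) (XT.nd (nat_lit 312) (nat_lit 608) (nat_lit 0) (XT.nd (nat_lit 156) (nat_lit 304) (nat_lit 0) (XT.nd (nat_lit 78) (nat_lit 304) (nat_lit 0) (XT.lf (nat_lit 0) (nat_lit 751273267) (nat_lit 380) (nat_lit 8754828032) (nat_lit 76) (nat_lit 11990147169) (nat_lit 95) (nat_lit 5) (nat_lit 100) (nat_lit 5) (nat_lit 96) (nat_lit 5) (nat_lit 337) (nat_lit 287) (nat_lit 156)) (XT.lf (nat_lit 0) (nat_lit 2153581218) (nat_lit 304) (nat_lit 2293558230) (nat_lit 380) (nat_lit 17463702465) (nat_lit 91) (nat_lit 5) (nat_lit 95) (nat_lit 5) (nat_lit 96) (nat_lit 5) (nat_lit 338) (nat_lit 287) (nat_lit 155))) (XT.nd (nat_lit 78) (nat_lit 304) (nat_lit 0) (XT.lf (nat_lit 0) (nat_lit 8383452897)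 (nat_lit 380) (nat_lit 8829681046) (nat_lit 76) (nat_lit 5120858126) (nat_lit 91) (nat_lit 5) (nat_lit 96) (nat_lit 5) (nat_lit 92) (nat_lit 5) (nat_lit 339) (nat_lit 287) (nat_lit 154)) (XT.lf (nat_lit 0) (nat_lit 2438040334) (nat_lit 304) (nat_lit 10037149301) (nat_lit 380) (nat_lit 10293532945) (nat_lit 87) (nat_lit 5) (nat_lit 91) (nat_lit 5) (nat_lit 92) (nat_lit 5) (nat_lit 340) (nat_lit 287) (nat_lit 153)))) (XT.nd (nat_lit 156) (nat_lit 380) (nat_lit 0) (XT.nd (nat_lit 78) (nat_lit 228) (nat_lit 0) (XT.lf (nat_lit 0) (nat_lit 14212364111) (nat_lit 304) (nat_lit 2557803429) (nat_lit 380) (nat_lit 6443918495) (nat_lit 87) (nat_lit 5) (nat_lit 91) (nat_lit 5) (nat_lit 92) (nat_lit 5) (nat_lit 341) (nat_lit 287) (nat_lit 152)) (XT.lf (nat_lit 0) (nat_lit 2657202904) (nat_lit 228) (nat_lit 18603344466) (nat_lit 304) (nat_lit 2410271977) (nat_lit 84) (nat_lit 5) (nat_lit 87) (nat_lit 5) (nat_lit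 88) (nat_lit 5) (nat_lit 342) (nat_lit 287) (nat_lit 151))) (XT.nd (nat_lit 78) (nat_lit 304) (nat_lit 0) (XT.lf (nat_lit 0) (nat_lit 1819055015) (nat_lit 304) (nat_lit 9343440910) (nat_lit 76) (nat_lit 12974999596) (nat_lit 83) (nat_lit 5) (nat_lit 87) (nat_lit 5) (nat_lit 84) (nat_lit 5) (nat_lit 343) (nat_lit 287) (nat_lit 150)) (XT.lf (nat_lit 0) (nat_lit 2693553905) (nat_lit 304) (nat_lit 3450986762) (nat_lit 380) (nat_lit 18472388766) (nat_lit 79) (nat_lit 5) (nat_lit 83) (nat_lit 5) (nat_lit 84) (nat_lit 5) (nat_lit 344) (nat_lit 287) (nat_lit 149))))))))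
noncomputable def xc169 : XT := (XT.nd (nat_lit 2184) (nat_lit 1520) (nat_lit 0) (XT.nd (nat_lit 1092) (nat_lit 1444) (nat_lit 0) (XT.nd (nat_lit 546) (nat_lit 760) (nat_lit 0) (XT.nd (nat_lit 234) (nat_lit 532) (nat_lit 0) (XT.nd (nat_lit 78) (nat_lit 228) (nat_lit 0) (XT.lf (nat_lit 0) (nat_lit 10730172066) (nat_lit 380) (nat_lit 9880913565) (nat_lit 76) (nat_lit 4495754212) (nat_lit 79) (nat_lit 5) (nat_lit 84) (nat_lit 5) (nat_lit 80) (nat_lit 5) (nat_lit 345) (nat_lit 287) (nat_lit 148)) (XT.nd (nat_lit 78) (nat_lit 0) (nat_lit 0) (XT.lf (nat_lit 0) (nat_lit 2526226633) (nat_lit 228) (nat_lit 12977750994) (nat_lit 304) (nat_lit 10105956554) (nat_lit 76) (nat_lit 5) (nat_lit 79) (nat_lit 5) (nat_lit 80) (nat_lit 5) (nat_lit 346) (nat_lit 287) (nat_lit 147)) (XT.lf (nat_lit 0) (nat_lit 15496521793) (nat_lit 228) (nat_lit 5016523770) (nat_lit 304) (nat_lit 5612318973) (nat_lit 76) (nat_lit 5)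 (nat_lit 79) (nat_lit 5) (nat_lit 80) (nat_lit 5) (nat_lit 347) (nat_lit 287) (nat_lit 146)))) (XT.nd (nat_lit 156) (nat_lit 228) (nat_lit 0) (XT.nd (nat_lit 78) (nat_lit 76) (nat_lit 0) (XT.lf (nat_lit 0) (nat_lit 2200542769) (nat_lit 228) (nat_lit 23516057159) (nat_lit 304) (nat_lit 938335939) (nat_lit 73) (nat_lit 5) (nat_lit 76) (nat_lit 5) (nat_lit 77) (nat_lit 5) (nat_lit 348) (nat_lit 287) (nat_lit 145)) (XT.lf (nat_lit 0) (nat_lit 3950788131) (nat_lit 304) (nat_lit 11663977044) (nat_lit 76) (nat_lit 11579999077) (nat_lit 72) (nat_lit 5) (nat_lit 76) (nat_lit 5) (nat_lit 73) (nat_lit 5) (nat_lit 349) (nat_lit 287) (nat_lit 144))) (XT.nd (nat_lit 78) (nat_lit 0) (nat_lit 0) (XT.lf (nat_lit 0) (nat_lit 1519339014) (nat_lit 228) (nat_lit 7455702743) (nat_lit 304) (nat_lit 18775251671) (nat_lit 69) (nat_lit 5) (nat_lit 72) (nat_lit 5) (nat_lit 73) (nat_lit 5) (nat_lit 350) (nat_lit 287) (nat_lit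 143)) (XT.lf (nat_lit 0) (nat_lit 14270865851) (nat_lit 304) (nat_lit 13003223044) (nat_lit 76) (nat_lit 1044778295) (nat_lit 69) (nat_lit 5) (nat_lit 73) (nat_lit 5) (nat_lit 70) (nat_lit 5) (nat_lit 351) (nat_lit 287) (nat_lit 142))))) (XT.nd (nat_lit 234) (nat_lit 456) (nat_lit 0) (XT.nd (nat_lit 78) (nat_lit 76) (nat_lit 0) (XT.lf (nat_lit 0) (nat_lit 547285878) (nat_lit 228) (nat_lit 19250348152) (nat_lit 304) (nat_lit 9104705935) (nat_lit 66) (nat_lit 5) (nat_lit 69) (nat_lit 5) (nat_lit 70) (nat_lit 5) (nat_lit 352) (nat_lit 287) (nat_lit 141)) (XT.nd (nat_lit 78) (nat_lit 76) (nat_lit 0) (XT.lf (nat_lit 0) (nat_lit 14760055335) (nat_lit 228) (nat_lit 10854546944) (nat_lit 304) (nat_lit 3884986500) (nat_lit 66) (nat_lit 5) (nat_lit 69) (nat_lit 5) (nat_lit 70) (nat_lit 5) (nat_lit 353) (nat_lit 287) (nat_lit 140)) (XT.lf (nat_lit 0) (nat_lit 1455444625) (nat_lit 304) (nat_lit 740514428) (nat_lit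 76) (nat_lit 27918572853) (nat_lit 65) (nat_lit 5) (nat_lit 69) (nat_lit 5) (nat_lit 66) (nat_lit 5) (nat_lit 354) (nat_lit 287) (nat_lit 139)))) (XT.nd (nat_lit 156) (nat_lit 228) (nat_lit 0) (XT.nd (nat_lit 78) (nat_lit 0) (nat_lit 0) (XT.lf (nat_lit 0) (nat_lit 7071334947) (nat_lit 304) (nat_lit 16908303718) (nat_lit 76) (nat_lit 6761334234) (nat_lit 62) (nat_lit 5) (nat_lit 66) (nat_lit 5) (nat_lit 63) (nat_lit 5) (nat_lit 355) (nat_lit 287) (nat_lit 138)) (XT.lf (nat_lit 0) (nat_lit 12878472146) (nat_lit 304) (nat_lit 2559953840) (nat_lit 76) (nat_lit 15947101377) (nat_lit 62) (nat_lit 5) (nat_lit 66) (nat_lit 5) (nat_lit 63) (nat_lit 5) (nat_lit 356) (nat_lit 287) (nat_lit 137))) (XT.nd (nat_lit 78) (nat_lit 0) (nat_lit 0) (XT.lf (nat_lit 0) (nat_lit 12451744369) (nat_lit 228) (nat_lit 6521439109) (nat_lit 304) (nat_lit 13072837433) (nat_lit 59) (nat_lit 5) (nat_lit 62) (nat_lit 5) (nat_lit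 63) (nat_lit 5) (nat_lit 357) (nat_lit 287) (nat_lit 136)) (XT.lf (nat_lit 0) (nat_lit 25296160388) (nat_lit 304) (nat_lit 4795274877) (nat_lit 76) (nat_lit 2633534427) (nat_lit 59) (nat_lit 5) (nat_lit 63) (nat_lit 5) (nat_lit 60) (nat_lit 5) (nat_lit 358) (nat_lit 287) (nat_lit 135)))))) (XT.nd (nat_lit 546) (nat_lit 532) (nat_lit 0) (XT.nd (nat_lit 234) (nat_lit 456) (nat_lit 0) (XT.nd (nat_lit 78) (nat_lit 304) (nat_lit 0) (XT.lf (nat_lit 0) (nat_lit 10579735805) (nat_lit 152) (nat_lit 21389260185) (nat_lit 228) (nat_lit 1450488928) (nat_lit 57) (nat_lit 5) (nat_lit 59) (nat_lit 5) (nat_lit 60) (nat_lit 5) (nat_lit 359) (nat_lit 287) (nat_lit 134)) (XT.nd (nat_lit 78) (nat_lit 228) (nat_lit 0) (XT.lf (nat_lit 0) (nat_lit 4658152583) (nat_lit 228) (nat_lit 7674683838) (nat_lit 76) (nat_lit 21799359851) (nat_lit 56) (nat_lit 5) (nat_lit 59) (nat_lit 5) (nat_lit 57) (nat_lit 5) (nat_lit 360) (nat_lit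 287) (nat_lit 133)) (XT.lf (nat_lit 0) (nat_lit 8079042338) (nat_lit 228) (nat_lit 2913618572) (nat_lit 304) (nat_lit 23871047192) (nat_lit 53) (nat_lit 5) (nat_lit 56) (nat_lit 5) (nat_lit 57) (nat_lit 5) (nat_lit 361) (nat_lit 287) (nat_lit 132)))) (XT.nd (nat_lit 156) (nat_lit 304) (nat_lit 0) (XT.nd (nat_lit 78) (nat_lit 152) (nat_lit 0) (XT.lf (nat_lit 0) (nat_lit 17654868812) (nat_lit 304) (nat_lit 11227785034) (nat_lit 76) (nat_lit 6730384234) (nat_lit 53) (nat_lit 5) (nat_lit 57) (nat_lit 5) (nat_lit 54) (nat_lit 5) (nat_lit 362) (nat_lit 287) (nat_lit 131)) (XT.lf (nat_lit 0) (nat_lit 4852291453) (nat_lit 152) (nat_lit 19734458562) (nat_lit 228) (nat_lit 11796006371) (nat_lit 51) (nat_lit 5) (nat_lit 53) (nat_lit 5) (nat_lit 54) (nat_lit 5) (nat_lit 363) (nat_lit 287) (nat_lit 130))) (XT.nd (nat_lit 78) (nat_lit 304) (nat_lit 0) (XT.lf (nat_lit 0) (nat_lit 21635671833) (nat_lit 152) (nat_lit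 10198687162) (nat_lit 228) (nat_lit 5337976672) (nat_lit 51) (nat_lit 5) (nat_lit 53) (nat_lit 5) (nat_lit 54) (nat_lit 5) (nat_lit 364) (nat_lit 287) (nat_lit 129)) (XT.lf (nat_lit 0) (nat_lit 933437788) (nat_lit 228) (nat_lit 358191756) (nat_lit 304) (nat_lit 36693492156) (nat_lit 47) (nat_lit 5) (nat_lit 50) (nat_lit 5) (nat_lit 51) (nat_lit 5) (nat_lit 365) (nat_lit 287) (nat_lit 128))))) (XT.nd (nat_lit 234) (nat_lit 380) (nat_lit 0) (XT.nd (nat_lit 78) (nat_lit 152) (nat_lit 0) (XT.lf (nat_lit 0) (nat_lit 8259805448) (nat_lit 304) (nat_lit 20758988637) (nat_lit 76) (nat_lit 9794504952) (nat_lit 47) (nat_lit 5) (nat_lit 51) (nat_lit 5) (nat_lit 48) (nat_lit 5) (nat_lit 366) (nat_lit 287) (nat_lit 127)) (XT.nd (nat_lit 78) (nat_lit 152) (nat_lit 0) (XT.lf (nat_lit 0) (nat_lit 15435270996) (nat_lit 304) (nat_lit 3989933468) (nat_lit 76) (nat_lit 20241172180) (nat_lit 47) (nat_lit 5) (nat_lit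 51) (nat_lit 5) (nat_lit 48) (nat_lit 5) (nat_lit 367) (nat_lit 287) (nat_lit 126)) (XT.lf (nat_lit 0) (nat_lit 13537747541) (nat_lit 152) (nat_lit 9413238422) (nat_lit 228) (nat_lit 17590313263) (nat_lit 45) (nat_lit 5) (nat_lit 47) (nat_lit 5) (nat_lit 48) (nat_lit 5) (nat_lit 368) (nat_lit 287) (nat_lit 125)))) (XT.nd (nat_lit 156) (nat_lit 228) (nat_lit 0) (XT.nd (nat_lit 78) (nat_lit 152) (nat_lit 0) (XT.lf (nat_lit 0) (nat_lit 30736391456) (nat_lit 228) (nat_lit 9785906472) (nat_lit 76) (nat_lit 918847136) (nat_lit 45) (nat_lit 5) (nat_lit 48) (nat_lit 5) (nat_lit 46) (nat_lit 5) (nat_lit 369) (nat_lit 287) (nat_lit 124)) (XT.lf (nat_lit 0) (nat_lit 8002830882) (nat_lit 152) (nat_lit 30917692721) (nat_lit 228) (nat_lit 3442509825) (nat_lit 43) (nat_lit 5) (nat_lit 45) (nat_lit 5) (nat_lit 46) (nat_lit 5) (nat_lit 370) (nat_lit 287) (nat_lit 123))) (XT.nd (nat_lit 78) (nat_lit 152) (nat_lit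 0) (XT.lf (nat_lit 0) (nat_lit 4053660124) (nat_lit 228) (nat_lit 16831991345) (nat_lit 76) (nat_lit 22422919171) (nat_lit 42) (nat_lit 5) (nat_lit 45) (nat_lit 5) (nat_lit 43) (nat_lit 5) (nat_lit 371) (nat_lit 287) (nat_lit 122)) (XT.lf (nat_lit 0) (nat_lit 1203288636) (nat_lit 152) (nat_lit 10508996543) (nat_lit 228) (nat_lit 32568965340) (nat_lit 40) (nat_lit 5) (nat_lit 42) (nat_lit 5) (nat_lit 43) (nat_lit 5) (nat_lit 372) (nat_lit 287) (nat_lit 121))))))) (XT.nd (nat_lit 1092) (nat_lit 684) (nat_lit 0) (XT.nd (nat_lit 546) (nat_lit 456) (nat_lit 0) (XT.nd (nat_lit 234) (nat_lit 228) (nat_lit 0) (XT.nd (nat_lit 78) (nat_lit 152) (nat_lit 0) (XT.lf (nat_lit 0) (nat_lit 19769266490) (nat_lit 228) (nat_lit 25164954096) (nat_lit 76) (nat_lit 343834139) (nat_lit 40) (nat_lit 5) (nat_lit 43) (nat_lit 5) (nat_lit 41) (nat_lit 5) (nat_lit 373) (nat_lit 287) (nat_lit 120)) (XT.nd (nat_lit 78) (nat_lit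 152) (nat_lit 0) (XT.lf (nat_lit 0) (nat_lit 28167370075) (nat_lit 228) (nat_lit 6826572160) (nat_lit 76) (nat_lit 11307840233) (nat_lit 40) (nat_lit 5) (nat_lit 43) (nat_lit 5) (nat_lit 41) (nat_lit 5) (nat_lit 374) (nat_lit 287) (nat_lit 119)) (XT.lf (nat_lit 0) (nat_lit 12294129400) (nat_lit 152) (nat_lit 24636964475) (nat_lit 228) (nat_lit 10421719604) (nat_lit 38) (nat_lit 5) (nat_lit 40) (nat_lit 5) (nat_lit 41) (nat_lit 5) (nat_lit 375) (nat_lit 287) (nat_lit 118)))) (XT.nd (nat_lit 156) (nat_lit 0) (nat_lit 0) (XT.nd (nat_lit 78) (nat_lit 228) (nat_lit 0) (XT.lf (nat_lit 0) (nat_lit 32120731294) (nat_lit 152) (nat_lit 13901488994) (nat_lit 228) (nat_lit 2411222100) (nat_lit 38) (nat_lit 5) (nat_lit 40) (nat_lit 5) (nat_lit 41) (nat_lit 5) (nat_lit 376) (nat_lit 287) (nat_lit 117)) (XT.lf (nat_lit 0) (nat_lit 2990335552) (nat_lit 152) (nat_lit 2759689284) (nat_lit 228) (nat_lit 43794051338)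 (nat_lit 35) (nat_lit 5) (nat_lit 37) (nat_lit 5) (nat_lit 38) (nat_lit 5) (nat_lit 377) (nat_lit 287) (nat_lit 116))) (XT.nd (nat_lit 78) (nat_lit 0) (nat_lit 0) (XT.lf (nat_lit 0) (nat_lit 14353456492) (nat_lit 228) (nat_lit 27593061145) (nat_lit 76) (nat_lit 8733422369) (nat_lit 35) (nat_lit 5) (nat_lit 38) (nat_lit 5) (nat_lit 36) (nat_lit 5) (nat_lit 378) (nat_lit 287) (nat_lit 115)) (XT.lf (nat_lit 0) (nat_lit 23238107093) (nat_lit 228) (nat_lit 8098215696) (nat_lit 76) (nat_lit 20512864989) (nat_lit 35) (nat_lit 5) (nat_lit 38) (nat_lit 5) (nat_lit 36) (nat_lit 5) (nat_lit 379) (nat_lit 287) (nat_lit 114))))) (XT.nd (nat_lit 234) (nat_lit 304) (nat_lit 0) (XT.nd (nat_lit 78) (nat_lit 0) (nat_lit 0) (XT.lf (nat_lit 0) (nat_lit 12212671077) (nat_lit 152) (nat_lit 20289936694) (nat_lit 228) (nat_lit 20547507361) (nat_lit 33) (nat_lit 5) (nat_lit 35) (nat_lit 5) (nat_lit 36) (nat_lit 5) (nat_lit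 380) (nat_lit 287) (nat_lit 113)) (XT.nd (nat_lit 78) (nat_lit 0) (nat_lit 0) (XT.lf (nat_lit 0) (nat_lit 33291842474) (nat_lit 152) (nat_lit 8830943228) (nat_lit 228) (nat_lit 12161953757) (nat_lit 33) (nat_lit 5) (nat_lit 35) (nat_lit 5) (nat_lit 36) (nat_lit 5) (nat_lit 381) (nat_lit 287) (nat_lit 112)) (XT.lf (nat_lit 0) (nat_lit 52056191421) (nat_lit 228) (nat_lit 588513398) (nat_lit 76) (nat_lit 2910960402) (nat_lit 33) (nat_lit 5) (nat_lit 36) (nat_lit 5) (nat_lit 34) (nat_lit 4) (nat_lit 382) (nat_lit 287) (nat_lit 111)))) (XT.nd (nat_lit 156) (nat_lit 152) (nat_lit 0) (XT.nd (nat_lit 78) (nat_lit 0) (nat_lit 0) (XT.lf (nat_lit 0) (nat_lit 5602817661) (nat_lit 152) (nat_lit 36172642174) (nat_lit 76) (nat_lit 15079123668) (nat_lit 31) (nat_lit 5) (nat_lit 33) (nat_lit 5) (nat_lit 32) (nat_lit 5) (nat_lit 383) (nat_lit 287) (nat_lit 110)) (XT.lf (nat_lit 0) (nat_lit 14910022719) (nat_lit 152)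 (nat_lit 15631166824) (nat_lit 76) (nat_lit 27650176182) (nat_lit 31) (nat_lit 5) (nat_lit 33) (nat_lit 5) (nat_lit 32) (nat_lit 5) (nat_lit 384) (nat_lit 287) (nat_lit 109))) (XT.nd (nat_lit 78) (nat_lit 0) (nat_lit 0) (XT.lf (nat_lit 0) (nat_lit 5629865799) (nat_lit 152) (nat_lit 18916986270) (nat_lit 228) (nat_lit 35019888324) (nat_lit 29) (nat_lit 5) (nat_lit 31) (nat_lit 5) (nat_lit 32) (nat_lit 5) (nat_lit 385) (nat_lit 287) (nat_lit 108)) (XT.lf (nat_lit 0) (nat_lit 27842671224) (nat_lit 152) (nat_lit 6784295377) (nat_lit 228) (nat_lit 26351785480) (nat_lit 29) (nat_lit 5) (nat_lit 31) (nat_lit 5) (nat_lit 32) (nat_lit 5) (nat_lit 386) (nat_lit 287) (nat_lit 107)))))) (XT.nd (nat_lit 546) (nat_lit 380) (nat_lit 0) (XT.nd (nat_lit 234) (nat_lit 152) (nat_lit 0) (XT.nd (nat_lit 78) (nat_lit 152) (nat_lit 0) (XT.lf (nat_lit 0) (nat_lit 45060812006) (nat_lit 228) (nat_lit 11772548715) (nat_lit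 76) (nat_lit 5598224731) (nat_lit 29) (nat_lit 5) (nat_lit 32) (nat_lit 5) (nat_lit 30) (nat_lit 4) (nat_lit 387) (nat_lit 287) (nat_lit 106)) (XT.nd (nat_lit 78) (nat_lit 76) (nat_lit 0) (XT.lf (nat_lit 0) (nat_lit 10360703915) (nat_lit 76) (nat_lit 45610254475) (nat_lit 152) (nat_lit 7952147987) (nat_lit 28) (nat_lit 5) (nat_lit 29) (nat_lit 5) (nat_lit 30) (nat_lit 4) (nat_lit 388) (nat_lit 287) (nat_lit 105)) (XT.lf (nat_lit 0) (nat_lit 1831491205) (nat_lit 152) (nat_lit 32080714902) (nat_lit 76) (nat_lit 31543165946) (nat_lit 27) (nat_lit 5) (nat_lit 29) (nat_lit 5) (nat_lit 28) (nat_lit 5) (nat_lit 389) (nat_lit 287) (nat_lit 104)))) (XT.nd (nat_lit 156) (nat_lit 0) (nat_lit 0) (XT.nd (nat_lit 78) (nat_lit 152) (nat_lit 0) (XT.lf (nat_lit 0) (nat_lit 11745438674) (nat_lit 152) (nat_lit 10039328679) (nat_lit 76) (nat_lit 45246578467) (nat_lit 27) (nat_lit 5) (nat_lit 29) (nat_lit 5) (nat_lit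 28) (nat_lit 5) (nat_lit 390) (nat_lit 287) (nat_lit 103)) (XT.lf (nat_lit 0) (nat_lit 12909364784) (nat_lit 152) (nat_lit 9168260066) (nat_lit 228) (nat_lit 46573350337) (nat_lit 25) (nat_lit 5) (nat_lit 27) (nat_lit 5) (nat_lit 28) (nat_lit 5) (nat_lit 391) (nat_lit 287) (nat_lit 102))) (XT.nd (nat_lit 78) (nat_lit 0) (nat_lit 0) (XT.lf (nat_lit 0) (nat_lit 32855685613) (nat_lit 228) (nat_lit 33607484071) (nat_lit 76) (nat_lit 3851947448) (nat_lit 25) (nat_lit 5) (nat_lit 28) (nat_lit 5) (nat_lit 26) (nat_lit 4) (nat_lit 392) (nat_lit 287) (nat_lit 101)) (XT.lf (nat_lit 0) (nat_lit 44044700661) (nat_lit 228) (nat_lit 10905796841) (nat_lit 76) (nat_lit 17076058399) (nat_lit 25) (nat_lit 5) (nat_lit 28) (nat_lit 5) (nat_lit 26) (nat_lit 4) (nat_lit 393) (nat_lit 287) (nat_lit 100))))) (XT.nd (nat_lit 312) (nat_lit 76) (nat_lit 0) (XT.nd (nat_lit 156) (nat_lit 228) (nat_lit 0) (XT.nd (nat_lit 78)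 (nat_lit 0) (nat_lit 0) (XT.lf (nat_lit 0) (nat_lit 12719624320) (nat_lit 76) (nat_lit 42968960369) (nat_lit 152) (nat_lit 18097178101) (nat_lit 24) (nat_lit 5) (nat_lit 25) (nat_lit 5) (nat_lit 26) (nat_lit 4) (nat_lit 394) (nat_lit 287) (nat_lit 99)) (XT.lf (nat_lit 0) (nat_lit 37271898031) (nat_lit 76) (nat_lit 30516980951) (nat_lit 152) (nat_lit 7805654975) (nat_lit 24) (nat_lit 5) (nat_lit 25) (nat_lit 5) (nat_lit 26) (nat_lit 4) (nat_lit 395) (nat_lit 287) (nat_lit 98))) (XT.nd (nat_lit 78) (nat_lit 152) (nat_lit 0) (XT.lf (nat_lit 0) (nat_lit 2737105792) (nat_lit 152) (nat_lit 14929060848) (nat_lit 76) (nat_lit 59790685799) (nat_lit 23) (nat_lit 5) (nat_lit 25) (nat_lit 5) (nat_lit 24) (nat_lit 5) (nat_lit 396) (nat_lit 287) (nat_lit 97)) (XT.lf (nat_lit 0) (nat_lit 9264611076) (nat_lit 152) (nat_lit 4260821063) (nat_lit 228) (nat_lit 65844705575) (nat_lit 21) (nat_lit 5) (nat_lit 23) (nat_lit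 5) (nat_lit 24) (nat_lit 5) (nat_lit 397) (nat_lit 287) (nat_lit 96)))) (XT.nd (nat_lit 156) (nat_lit 76) (nat_lit 0) (XT.nd (nat_lit 78) (nat_lit 0) (nat_lit 0) (XT.lf (nat_lit 0) (nat_lit 24878547624) (nat_lit 228) (nat_lit 46944661583) (nat_lit 76) (nat_lit 9510378945) (nat_lit 21) (nat_lit 5) (nat_lit 24) (nat_lit 5) (nat_lit 22) (nat_lit 4) (nat_lit 398) (nat_lit 287) (nat_lit 95)) (XT.lf (nat_lit 0) (nat_lit 36611650604) (nat_lit 228) (nat_lit 23136230461) (nat_lit 76) (nat_lit 23606879983) (nat_lit 21) (nat_lit 5) (nat_lit 24) (nat_lit 5) (nat_lit 22) (nat_lit 4) (nat_lit 399) (nat_lit 287) (nat_lit 94))) (XT.nd (nat_lit 78) (nat_lit 0) (nat_lit 0) (XT.lf (nat_lit 0) (nat_lit 1409022944) (nat_lit 76) (nat_lit 47298557132) (nat_lit 152) (nat_lit 36728664792) (nat_lit 20) (nat_lit 5) (nat_lit 21) (nat_lit 5) (nat_lit 22) (nat_lit 4) (nat_lit 400) (nat_lit 287) (nat_lit 93)) (XT.lf (nat_lit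 0) (nat_lit 27160026523) (nat_lit 76) (nat_lit 34237312561) (nat_lit 152) (nat_lit 26175906289) (nat_lit 20) (nat_lit 5) (nat_lit 21) (nat_lit 5) (nat_lit 22) (nat_lit 4) (nat_lit 401) (nat_lit 287) (nat_lit 92))))))))
noncomputable def xc170 : XT := (XT.nd (nat_lit 33462) (nat_lit 0) (nat_lit 5928) (XT.nd (nat_lit 32370) (nat_lit 0) (nat_lit 12920) (XT.nd (nat_lit 31824) (nat_lit 0) (nat_lit 15428) (XT.nd (nat_lit 234) (nat_lit 76) (nat_lit 0) (XT.nd (nat_lit 78) (nat_lit 152) (nat_lit 0) (XT.lf (nat_lit 0) (nat_lit 53678824799) (nat_lit 76) (nat_lit 20786365177) (nat_lit 152) (nat_lit 15309244642) (nat_lit 20) (nat_lit 5) (nat_lit 21) (nat_lit 5) (nat_lit 22) (nat_lit 4) (nat_lit 402) (nat_lit 287) (nat_lit 91)) (XT.nd (nat_lit 78) (nat_lit 152) (nat_lit 0) (XT.lf (nat_lit 0) (nat_lit 80988589540) (nat_lit 76) (nat_lit 6933961726) (nat_lit 152) (nat_lit 4119184709) (nat_lit 20) (nat_lit 5) (nat_lit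 21) (nat_lit 5) (nat_lit 22) (nat_lit 4) (nat_lit 403) (nat_lit 287) (nat_lit 90)) (XT.lf (nat_lit 0) (nat_lit 7475952727) (nat_lit 152) (nat_lit 79486549390) (nat_lit 76) (nat_lit 7406001855) (nat_lit 18) (nat_lit 5) (nat_lit 20) (nat_lit 5) (nat_lit 19) (nat_lit 4) (nat_lit 404) (nat_lit 287) (nat_lit 89)))) (XT.nd (nat_lit 312) (nat_lit 76) (nat_lit 0) (XT.nd (nat_lit 156) (nat_lit 0) (nat_lit 0) (XT.lf (nat_lit 0) (nat_lit 19515059276) (nat_lit 152) (nat_lit 55055105313) (nat_lit 76) (nat_lit 22188320326) (nat_lit 18) (nat_lit 5) (nat_lit 20) (nat_lit 5) (nat_lit 19) (nat_lit 4) (nat_lit 405) (nat_lit 287) (nat_lit 88)) (XT.lf (nat_lit 0) (nat_lit 44680440306) (nat_lit 152) (nat_lit 3984579016) (nat_lit 76) (nat_lit 53090894161) (nat_lit 18) (nat_lit 5) (nat_lit 20) (nat_lit 5) (nat_lit 19) (nat_lit 4) (nat_lit 407) (nat_lit 287) (nat_lit 86))) (XT.nd (nat_lit 31200) (nat_lit 0) (nat_lit 15428)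 (XT.lf (nat_lit 0) (nat_lit 51177993694) (nat_lit 76) (nat_lit 20683184307) (nat_lit 152) (nat_lit 35182026207) (nat_lit 17) (nat_lit 5) (nat_lit 18) (nat_lit 5) (nat_lit 19) (nat_lit 4) (nat_lit 409) (nat_lit 287) (nat_lit 84)) (XT.lf (nat_lit 0) (nat_lit 23360718) (nat_lit 1140) (nat_lit 2449722946) (nat_lit 1140) (nat_lit 2449722946) (nat_lit 220) (nat_lit 3) (nat_lit 235) (nat_lit 3) (nat_lit 235) (nat_lit 5) (nat_lit 288) (nat_lit 288) (nat_lit 204))))) (XT.nd (nat_lit 234) (nat_lit 0) (nat_lit 152) (XT.nd (nat_lit 78) (nat_lit 0) (nat_lit 76) (XT.lf (nat_lit 0) (nat_lit 749953081) (nat_lit 1140) (nat_lit 359696011) (nat_lit 1140) (nat_lit 8861808128) (nat_lit 220) (nat_lit 3) (nat_lit 235) (nat_lit 3) (nat_lit 235) (nat_lit 5) (nat_lit 289) (nat_lit 288) (nat_lit 203)) (XT.nd (nat_lit 78) (nat_lit 0) (nat_lit 0) (XT.lf (nat_lit 0) (nat_lit 1516905408) (nat_lit 1064) (nat_lit 5740795832) (nat_lit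 1140) (nat_lit 2842126415) (nat_lit 221) (nat_lit 5) (nat_lit 235) (nat_lit 5) (nat_lit 236) (nat_lit 5) (nat_lit 290) (nat_lit 288) (nat_lit 202)) (XT.lf (nat_lit 0) (nat_lit 2294889967) (nat_lit 1064) (nat_lit 1031218624) (nat_lit 1140) (nat_lit 6906328860) (nat_lit 221) (nat_lit 5) (nat_lit 235) (nat_lit 5) (nat_lit 236) (nat_lit 5) (nat_lit 291) (nat_lit 288) (nat_lit 201)))) (XT.nd (nat_lit 156) (nat_lit 0) (nat_lit 0) (XT.nd (nat_lit 78) (nat_lit 0) (nat_lit 0) (XT.lf (nat_lit 0) (nat_lit 3115096218) (nat_lit 1064) (nat_lit 6495282396) (nat_lit 1140) (nat_lit 758108577) (nat_lit 222) (nat_lit 5) (nat_lit 236) (nat_lit 5) (nat_lit 237) (nat_lit 5) (nat_lit 292) (nat_lit 288) (nat_lit 200)) (XT.lf (nat_lit 0) (nat_lit 3978220706) (nat_lit 1064) (nat_lit 1610702933) (nat_lit 1140) (nat_lit 4919172721) (nat_lit 222) (nat_lit 5) (nat_lit 236) (nat_lit 5) (nat_lit 237) (nat_lit 5) (nat_lit 293)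 (nat_lit 288) (nat_lit 199))) (XT.nd (nat_lit 78) (nat_lit 0) (nat_lit 76) (XT.lf (nat_lit 76) (nat_lit 3473374556) (nat_lit 0) (nat_lit 1402848585) (nat_lit 1140) (nat_lit 5775427636) (nat_lit 223) (nat_lit 5) (nat_lit 222) (nat_lit 5) (nat_lit 237) (nat_lit 5) (nat_lit 294) (nat_lit 288) (nat_lit 198)) (XT.lf (nat_lit 0) (nat_lit 5821806722) (nat_lit 1064) (nat_lit 2099654929) (nat_lit 1140) (nat_lit 2877456673) (nat_lit 223) (nat_lit 5) (nat_lit 237) (nat_lit 5) (nat_lit 238) (nat_lit 5) (nat_lit 295) (nat_lit 288) (nat_lit 197)))))) (XT.nd (nat_lit 546) (nat_lit 1748) (nat_lit 0) (XT.nd (nat_lit 234) (nat_lit 988) (nat_lit 0) (XT.nd (nat_lit 78) (nat_lit 0) (nat_lit 76) (XT.lf (nat_lit 76) (nat_lit 3164129494) (nat_lit 0) (nat_lit 3652878932) (nat_lit 1140) (nat_lit 4132982934) (nat_lit 224) (nat_lit 5) (nat_lit 223) (nat_lit 5) (nat_lit 238) (nat_lit 5) (nat_lit 296) (nat_lit 288) (nat_lit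 196)) (XT.nd (nat_lit 78) (nat_lit 0) (nat_lit 0) (XT.lf (nat_lit 0) (nat_lit 7848175005) (nat_lit 1064) (nat_lit 2499126877) (nat_lit 1140) (nat_lit 758135693) (nat_lit 224) (nat_lit 5) (nat_lit 238) (nat_lit 5) (nat_lit 239) (nat_lit 5) (nat_lit 297) (nat_lit 288) (nat_lit 195)) (XT.lf (nat_lit 76) (nat_lit 2952437019) (nat_lit 0) (nat_lit 6000588293) (nat_lit 1140) (nat_lit 2311262948) (nat_lit 225) (nat_lit 5) (nat_lit 224) (nat_lit 5) (nat_lit 239) (nat_lit 5) (nat_lit 298) (nat_lit 288) (nat_lit 194)))) (XT.nd (nat_lit 156) (nat_lit 1064) (nat_lit 0) (XT.nd (nat_lit 78) (nat_lit 0) (nat_lit 76) (XT.lf (nat_lit 76) (nat_lit 8603707980) (nat_lit 0) (nat_lit 1491240478) (nat_lit 1140) (nat_lit 1332861047) (nat_lit 225) (nat_lit 5) (nat_lit 224) (nat_lit 5) (nat_lit 239) (nat_lit 5) (nat_lit 299) (nat_lit 288) (nat_lit 193)) (XT.lf (nat_lit 76) (nat_lit 2838016657) (nat_lit 0) (nat_lit 8470075615)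 (nat_lit 1140) (nat_lit 287057423) (nat_lit 226) (nat_lit 5) (nat_lit 225) (nat_lit 5) (nat_lit 240) (nat_lit 5) (nat_lit 300) (nat_lit 288) (nat_lit 192))) (XT.nd (nat_lit 78) (nat_lit 0) (nat_lit 76) (XT.lf (nat_lit 0) (nat_lit 797871207) (nat_lit 1140) (nat_lit 3077015276) (nat_lit 1216) (nat_lit 7891721602) (nat_lit 210) (nat_lit 5) (nat_lit 225) (nat_lit 5) (nat_lit 226) (nat_lit 5) (nat_lit 301) (nat_lit 288) (nat_lit 191)) (XT.lf (nat_lit 0) (nat_lit 1925380421) (nat_lit 1140) (nat_lit 9141167989) (nat_lit 1216) (nat_lit 876122796) (nat_lit 211) (nat_lit 5) (nat_lit 226) (nat_lit 5) (nat_lit 227) (nat_lit 5) (nat_lit 302) (nat_lit 288) (nat_lit 190))))) (XT.nd (nat_lit 234) (nat_lit 1824) (nat_lit 0) (XT.nd (nat_lit 78) (nat_lit 0) (nat_lit 0) (XT.lf (nat_lit 0) (nat_lit 3137132107) (nat_lit 1140) (nat_lit 3257951631) (nat_lit 1216) (nat_lit 5727439686) (nat_lit 211) (nat_lit 5) (nat_lit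 226) (nat_lit 5) (nat_lit 227) (nat_lit 5) (nat_lit 303) (nat_lit 288) (nat_lit 189)) (XT.nd (nat_lit 78) (nat_lit 0) (nat_lit 76) (XT.lf (nat_lit 76) (nat_lit 2842027395) (nat_lit 0) (nat_lit 1551763711) (nat_lit 1216) (nat_lit 7913742605) (nat_lit 212) (nat_lit 5) (nat_lit 211) (nat_lit 5) (nat_lit 227) (nat_lit 5) (nat_lit 304) (nat_lit 288) (nat_lit 188)) (XT.lf (nat_lit 0) (nat_lit 5736080996) (nat_lit 1140) (nat_lit 3354324073) (nat_lit 76) (nat_lit 3406269892) (nat_lit 212) (nat_lit 5) (nat_lit 227) (nat_lit 5) (nat_lit 213) (nat_lit 5) (nat_lit 305) (nat_lit 288) (nat_lit 187)))) (XT.nd (nat_lit 156) (nat_lit 760) (nat_lit 0) (XT.nd (nat_lit 78) (nat_lit 0) (nat_lit 0) (XT.lf (nat_lit 0) (nat_lit 2967548415) (nat_lit 1140) (nat_lit 4177184262) (nat_lit 1216) (nat_lit 5545993025) (nat_lit 197) (nat_lit 5) (nat_lit 212) (nat_lit 5) (nat_lit 213) (nat_lit 5) (nat_lit 306) (nat_lit 288) (nat_lit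 186)) (XT.lf (nat_lit 0) (nat_lit 8620943367) (nat_lit 1216) (nat_lit 3366174828) (nat_lit 76) (nat_lit 902738305) (nat_lit 197) (nat_lit 5) (nat_lit 213) (nat_lit 5) (nat_lit 198) (nat_lit 5) (nat_lit 307) (nat_lit 288) (nat_lit 185))) (XT.nd (nat_lit 78) (nat_lit 0) (nat_lit 0) (XT.lf (nat_lit 0) (nat_lit 3187225149) (nat_lit 760) (nat_lit 7009317742) (nat_lit 836) (nat_lit 2896782267) (nat_lit 187) (nat_lit 5) (nat_lit 197) (nat_lit 5) (nat_lit 198) (nat_lit 5) (nat_lit 308) (nat_lit 288) (nat_lit 184)) (XT.lf (nat_lit 0) (nat_lit 9991230389) (nat_lit 760) (nat_lit 1845626321) (nat_lit 836) (nat_lit 1465534292) (nat_lit 187) (nat_lit 5) (nat_lit 197) (nat_lit 5) (nat_lit 198) (nat_lit 5) (nat_lit 309) (nat_lit 288) (nat_lit 183))))))) (XT.nd (nat_lit 1092) (nat_lit 3192) (nat_lit 0) (XT.nd (nat_lit 546) (nat_lit 1520) (nat_lit 0) (XT.nd (nat_lit 234) (nat_lit 1064) (nat_lit 0) (XT.nd (nat_lit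 78) (nat_lit 532) (nat_lit 0) (XT.lf (nat_lit 0) (nat_lit 59965217) (nat_lit 684) (nat_lit 10015309074) (nat_lit 76) (nat_lit 3440923113) (nat_lit 178) (nat_lit 5) (nat_lit 187) (nat_lit 5) (nat_lit 179) (nat_lit 5) (nat_lit 310) (nat_lit 288) (nat_lit 182)) (XT.nd (nat_lit 78) (nat_lit 532) (nat_lit 0) (XT.lf (nat_lit 0) (nat_lit 1637918605) (nat_lit 684) (nat_lit 3198614613) (nat_lit 76) (nat_lit 8898380247) (nat_lit 178) (nat_lit 5) (nat_lit 187) (nat_lit 5) (nat_lit 179) (nat_lit 5) (nat_lit 311) (nat_lit 288) (nat_lit 181)) (XT.lf (nat_lit 0) (nat_lit 3290861066) (nat_lit 608) (nat_lit 10081753349) (nat_lit 76) (nat_lit 586761752) (nat_lit 171) (nat_lit 5) (nat_lit 179) (nat_lit 5) (nat_lit 172) (nat_lit 5) (nat_lit 312) (nat_lit 288) (nat_lit 180)))) (XT.nd (nat_lit 156) (nat_lit 532) (nat_lit 0) (XT.nd (nat_lit 78) (nat_lit 532) (nat_lit 0) (XT.lf (nat_lit 0) (nat_lit 5058777540) (nat_lit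 608) (nat_lit 3021236033) (nat_lit 76) (nat_lit 6108611851) (nat_lit 171) (nat_lit 5) (nat_lit 179) (nat_lit 5) (nat_lit 172) (nat_lit 5) (nat_lit 313) (nat_lit 288) (nat_lit 179)) (XT.lf (nat_lit 0) (nat_lit 4320708567) (nat_lit 532) (nat_lit 2585876368) (nat_lit 608) (nat_lit 7517375451) (nat_lit 164) (nat_lit 5) (nat_lit 171) (nat_lit 5) (nat_lit 172) (nat_lit 5) (nat_lit 314) (nat_lit 288) (nat_lit 178))) (XT.nd (nat_lit 78) (nat_lit 532) (nat_lit 0) (XT.lf (nat_lit 0) (nat_lit 8855783744) (nat_lit 608) (nat_lit 2765439004) (nat_lit 76) (nat_lit 3043767361) (nat_lit 164) (nat_lit 5) (nat_lit 172) (nat_lit 5) (nat_lit 165) (nat_lit 5) (nat_lit 315) (nat_lit 288) (nat_lit 177)) (XT.lf (nat_lit 0) (nat_lit 4846922976) (nat_lit 532) (nat_lit 6074755296) (nat_lit 608) (nat_lit 3989838897) (nat_lit 157) (nat_lit 5) (nat_lit 164) (nat_lit 5) (nat_lit 165) (nat_lit 5) (nat_lit 316) (nat_lit 288) (nat_lit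 176))))) (XT.nd (nat_lit 234) (nat_lit 912) (nat_lit 0) (XT.nd (nat_lit 78) (nat_lit 608) (nat_lit 0) (XT.lf (nat_lit 0) (nat_lit 12729923977) (nat_lit 532) (nat_lit 333845007) (nat_lit 608) (nat_lit 2101257132) (nat_lit 157) (nat_lit 5) (nat_lit 164) (nat_lit 5) (nat_lit 165) (nat_lit 5) (nat_lit 317) (nat_lit 288) (nat_lit 175)) (XT.nd (nat_lit 78) (nat_lit 76) (nat_lit 0) (XT.lf (nat_lit 0) (nat_lit 5461817391) (nat_lit 532) (nat_lit 9901125308) (nat_lit 608) (nat_lit 60425313) (nat_lit 150) (nat_lit 5) (nat_lit 157) (nat_lit 5) (nat_lit 158) (nat_lit 5) (nat_lit 318) (nat_lit 288) (nat_lit 174)) (XT.lf (nat_lit 0) (nat_lit 2016726495) (nat_lit 608) (nat_lit 2080873606) (nat_lit 76) (nat_lit 11590834848) (nat_lit 149) (nat_lit 5) (nat_lit 157) (nat_lit 5) (nat_lit 150) (nat_lit 5) (nat_lit 319) (nat_lit 288) (nat_lit 173)))) (XT.nd (nat_lit 156) (nat_lit 456) (nat_lit 0) (XT.nd (nat_lit 78) (nat_lit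 0) (nat_lit 0) (XT.lf (nat_lit 0) (nat_lit 4219843343) (nat_lit 532) (nat_lit 9837360527) (nat_lit 76) (nat_lit 1902297370) (nat_lit 143) (nat_lit 5) (nat_lit 150) (nat_lit 5) (nat_lit 144) (nat_lit 5) (nat_lit 320) (nat_lit 288) (nat_lit 172)) (XT.lf (nat_lit 0) (nat_lit 6538250976) (nat_lit 532) (nat_lit 1679297800) (nat_lit 76) (nat_lit 8019685746) (nat_lit 143) (nat_lit 5) (nat_lit 150) (nat_lit 5) (nat_lit 144) (nat_lit 5) (nat_lit 321) (nat_lit 288) (nat_lit 171))) (XT.nd (nat_lit 78) (nat_lit 0) (nat_lit 0) (XT.lf (nat_lit 0) (nat_lit 6843106832) (nat_lit 456) (nat_lit 2136657135) (nat_lit 532) (nat_lit 7541939840) (nat_lit 137) (nat_lit 5) (nat_lit 143) (nat_lit 5) (nat_lit 144) (nat_lit 5) (nat_lit 322) (nat_lit 288) (nat_lit 170)) (XT.lf (nat_lit 0) (nat_lit 11539295114) (nat_lit 532) (nat_lit 1212576961) (nat_lit 76) (nat_lit 4061502205) (nat_lit 137) (nat_lit 5) (nat_lit 144) (nat_lit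 5) (nat_lit 138) (nat_lit 5) (nat_lit 323) (nat_lit 288) (nat_lit 169)))))) (XT.nd (nat_lit 546) (nat_lit 1520) (nat_lit 0) (XT.nd (nat_lit 234) (nat_lit 760) (nat_lit 0) (XT.nd (nat_lit 78) (nat_lit 532) (nat_lit 0) (XT.lf (nat_lit 0) (nat_lit 7621248594) (nat_lit 380) (nat_lit 6637108104) (nat_lit 456) (nat_lit 2852965824) (nat_lit 132) (nat_lit 5) (nat_lit 137) (nat_lit 5) (nat_lit 138) (nat_lit 5) (nat_lit 324) (nat_lit 288) (nat_lit 168)) (XT.nd (nat_lit 78) (nat_lit 532) (nat_lit 0) (XT.lf (nat_lit 0) (nat_lit 16731342193) (nat_lit 380) (nat_lit 328431124) (nat_lit 456) (nat_lit 358422100) (nat_lit 132) (nat_lit 5) (nat_lit 137) (nat_lit 5) (nat_lit 138) (nat_lit 5) (nat_lit 325) (nat_lit 288) (nat_lit 167)) (XT.lf (nat_lit 0) (nat_lit 2298692945) (nat_lit 532) (nat_lit 9279965256) (nat_lit 76) (nat_lit 6151061488) (nat_lit 125) (nat_lit 5) (nat_lit 132) (nat_lit 5) (nat_lit 126) (nat_lit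 5) (nat_lit 326) (nat_lit 288) (nat_lit 166)))) (XT.nd (nat_lit 156) (nat_lit 380) (nat_lit 0) (XT.nd (nat_lit 78) (nat_lit 380) (nat_lit 0) (XT.lf (nat_lit 0) (nat_lit 5027504728) (nat_lit 532) (nat_lit 196337600) (nat_lit 76) (nat_lit 12826674159) (nat_lit 125) (nat_lit 5) (nat_lit 132) (nat_lit 5) (nat_lit 126) (nat_lit 5) (nat_lit 327) (nat_lit 288) (nat_lit 165)) (XT.lf (nat_lit 0) (nat_lit 7930674562) (nat_lit 456) (nat_lit 9063542706) (nat_lit 76) (nat_lit 1383953729) (nat_lit 120) (nat_lit 5) (nat_lit 126) (nat_lit 5) (nat_lit 121) (nat_lit 5) (nat_lit 328) (nat_lit 288) (nat_lit 164))) (XT.nd (nat_lit 78) (nat_lit 0) (nat_lit 0) (XT.lf (nat_lit 0) (nat_lit 340861768) (nat_lit 380) (nat_lit 10626493700) (nat_lit 456) (nat_lit 7746915563) (nat_lit 115) (nat_lit 5) (nat_lit 120) (nat_lit 5) (nat_lit 121) (nat_lit 5) (nat_lit 329) (nat_lit 288) (nat_lit 163)) (XT.lf (nat_lit 0) (nat_lit 10199922442)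 (nat_lit 380) (nat_lit 3976335027) (nat_lit 456) (nat_lit 4881771101) (nat_lit 115) (nat_lit 5) (nat_lit 120) (nat_lit 5) (nat_lit 121) (nat_lit 5) (nat_lit 330) (nat_lit 288) (nat_lit 162))))) (XT.nd (nat_lit 312) (nat_lit 684) (nat_lit 0) (XT.nd (nat_lit 156) (nat_lit 380) (nat_lit 0) (XT.nd (nat_lit 78) (nat_lit 76) (nat_lit 0) (XT.lf (nat_lit 0) (nat_lit 919817538) (nat_lit 380) (nat_lit 16587943949) (nat_lit 456) (nat_lit 1903555187) (nat_lit 110) (nat_lit 5) (nat_lit 115) (nat_lit 5) (nat_lit 116) (nat_lit 5) (nat_lit 331) (nat_lit 288) (nat_lit 161)) (XT.lf (nat_lit 0) (nat_lit 1260934477) (nat_lit 456) (nat_lit 8664548925) (nat_lit 76) (nat_lit 9845802542) (nat_lit 109) (nat_lit 5) (nat_lit 115) (nat_lit 5) (nat_lit 110) (nat_lit 5) (nat_lit 332) (nat_lit 288) (nat_lit 160))) (XT.nd (nat_lit 78) (nat_lit 0) (nat_lit 0) (XT.lf (nat_lit 0) (nat_lit 1453872858) (nat_lit 380) (nat_lit 3032431480)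 (nat_lit 456) (nat_lit 15655065608) (nat_lit 104) (nat_lit 5) (nat_lit 109) (nat_lit 5) (nat_lit 110) (nat_lit 5) (nat_lit 333) (nat_lit 288) (nat_lit 159)) (XT.lf (nat_lit 0) (nat_lit 7926256676) (nat_lit 456) (nat_lit 8519433582) (nat_lit 76) (nat_lit 4073338576) (nat_lit 104) (nat_lit 5) (nat_lit 110) (nat_lit 5) (nat_lit 105) (nat_lit 5) (nat_lit 334) (nat_lit 288) (nat_lit 158)))) (XT.nd (nat_lit 156) (nat_lit 380) (nat_lit 0) (XT.nd (nat_lit 78) (nat_lit 0) (nat_lit 0) (XT.lf (nat_lit 0) (nat_lit 1949060284) (nat_lit 304) (nat_lit 9559749348) (nat_lit 380) (nat_lit 9398032600) (nat_lit 100) (nat_lit 5) (nat_lit 104) (nat_lit 5) (nat_lit 105) (nat_lit 5) (nat_lit 335) (nat_lit 288) (nat_lit 157)) (XT.lf (nat_lit 0) (nat_lit 12893752076) (nat_lit 304) (nat_lit 2381911511) (nat_lit 380) (nat_lit 6028328318) (nat_lit 100) (nat_lit 5) (nat_lit 104) (nat_lit 5) (nat_lit 105) (nat_lit 5) (nat_lit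 336) (nat_lit 288) (nat_lit 156))) (XT.nd (nat_lit 78) (nat_lit 76) (nat_lit 0) (XT.lf (nat_lit 0) (nat_lit 2440809486) (nat_lit 304) (nat_lit 16777379768) (nat_lit 380) (nat_lit 2492993245) (nat_lit 96) (nat_lit 5) (nat_lit 100) (nat_lit 5) (nat_lit 101) (nat_lit 5) (nat_lit 337) (nat_lit 288) (nat_lit 155)) (XT.lf (nat_lit 0) (nat_lit 1226425641) (nat_lit 380) (nat_lit 8386151263) (nat_lit 76) (nat_lit 12514673780) (nat_lit 95) (nat_lit 5) (nat_lit 100) (nat_lit 5) (nat_lit 96) (nat_lit 5) (nat_lit 338) (nat_lit 288) (nat_lit 154))))))))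
noncomputable def xc171 : XT := (XT.nd (nat_lit 2184) (nat_lit 1748) (nat_lit 0) (XT.nd (nat_lit 1092) (nat_lit 1672) (nat_lit 0) (XT.nd (nat_lit 546) (nat_lit 760) (nat_lit 0) (XT.nd (nat_lit 234) (nat_lit 608) (nat_lit 0) (XT.nd (nat_lit 78) (nat_lit 304) (nat_lit 0) (XT.lf (nat_lit 0) (nat_lit 2843320837) (nat_lit 304) (nat_lit 2182673186) (nat_lit 380) (nat_lit 17528512059) (nat_lit 91) (nat_lit 5) (nat_lit 95) (nat_lit 5) (nat_lit 96) (nat_lit 5) (nat_lit 339) (nat_lit 288) (nat_lit 153)) (XT.nd (nat_lit 78) (nat_lit 304) (nat_lit 0) (XT.lf (nat_lit 0) (nat_lit 9069099880) (nat_lit 380) (nat_lit 8476060832) (nat_lit 76) (nat_lit 5445537615) (nat_lit 91) (nat_lit 5) (nat_lit 96) (nat_lit 5) (nat_lit 92) (nat_lit 5) (nat_lit 340) (nat_lit 288) (nat_lit 152)) (XT.lf (nat_lit 0) (nat_lit 3123628359) (nat_lit 304) (nat_lit 10153202623) (nat_lit 380) (nat_lit 10161850929) (nat_lit 87) (nat_lit 5)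 (nat_lit 91) (nat_lit 5) (nat_lit 92) (nat_lit 5) (nat_lit 341) (nat_lit 288) (nat_lit 151)))) (XT.nd (nat_lit 156) (nat_lit 380) (nat_lit 0) (XT.nd (nat_lit 78) (nat_lit 228) (nat_lit 0) (XT.lf (nat_lit 0) (nat_lit 15233343593) (nat_lit 304) (nat_lit 2454866505) (nat_lit 380) (nat_lit 6209577793) (nat_lit 87) (nat_lit 5) (nat_lit 91) (nat_lit 5) (nat_lit 92) (nat_lit 5) (nat_lit 342) (nat_lit 288) (nat_lit 150)) (XT.lf (nat_lit 0) (nat_lit 3336583891) (nat_lit 228) (nat_lit 18972073021) (nat_lit 304) (nat_lit 2059713561) (nat_lit 84) (nat_lit 5) (nat_lit 87) (nat_lit 5) (nat_lit 88) (nat_lit 5) (nat_lit 343) (nat_lit 288) (nat_lit 149))) (XT.nd (nat_lit 78) (nat_lit 304) (nat_lit 0) (XT.lf (nat_lit 0) (nat_lit 2276165428) (nat_lit 304) (nat_lit 9033284427) (nat_lit 76) (nat_lit 13539844902) (nat_lit 83) (nat_lit 5) (nat_lit 87) (nat_lit 5) (nat_lit 84) (nat_lit 5) (nat_lit 344) (nat_lit 288) (nat_lit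 148)) (XT.lf (nat_lit 0) (nat_lit 3359031412) (nat_lit 304) (nat_lit 3366280022) (nat_lit 380) (nat_lit 18617990645) (nat_lit 79) (nat_lit 5) (nat_lit 83) (nat_lit 5) (nat_lit 84) (nat_lit 5) (nat_lit 345) (nat_lit 288) (nat_lit 147))))) (XT.nd (nat_lit 234) (nat_lit 532) (nat_lit 0) (XT.nd (nat_lit 78) (nat_lit 228) (nat_lit 0) (XT.lf (nat_lit 0) (nat_lit 11438721878) (nat_lit 380) (nat_lit 9599674288) (nat_lit 76) (nat_lit 4809814386) (nat_lit 79) (nat_lit 5) (nat_lit 84) (nat_lit 5) (nat_lit 80) (nat_lit 5) (nat_lit 346) (nat_lit 288) (nat_lit 146)) (XT.nd (nat_lit 78) (nat_lit 0) (nat_lit 0) (XT.lf (nat_lit 0) (nat_lit 3174016717) (nat_lit 228) (nat_lit 13175961840) (nat_lit 304) (nat_lit 10016598904) (nat_lit 76) (nat_lit 5) (nat_lit 79) (nat_lit 5) (nat_lit 80) (nat_lit 5) (nat_lit 347) (nat_lit 288) (nat_lit 145)) (XT.lf (nat_lit 0) (nat_lit 16516760442) (nat_lit 228) (nat_lit 4981464449)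 (nat_lit 304) (nat_lit 5399585293) (nat_lit 76) (nat_lit 5) (nat_lit 79) (nat_lit 5) (nat_lit 80) (nat_lit 5) (nat_lit 348) (nat_lit 288) (nat_lit 144)))) (XT.nd (nat_lit 156) (nat_lit 228) (nat_lit 0) (XT.nd (nat_lit 78) (nat_lit 76) (nat_lit 0) (XT.lf (nat_lit 0) (nat_lit 2825895680) (nat_lit 228) (nat_lit 24028328088) (nat_lit 304) (nat_lit 589161207) (nat_lit 73) (nat_lit 5) (nat_lit 76) (nat_lit 5) (nat_lit 77) (nat_lit 5) (nat_lit 349) (nat_lit 288) (nat_lit 143)) (XT.lf (nat_lit 0) (nat_lit 4428498030) (nat_lit 304) (nat_lit 11463499735) (nat_lit 76) (nat_lit 12107630987) (nat_lit 72) (nat_lit 5) (nat_lit 76) (nat_lit 5) (nat_lit 73) (nat_lit 5) (nat_lit 350) (nat_lit 288) (nat_lit 142))) (XT.nd (nat_lit 78) (nat_lit 0) (nat_lit 0) (XT.lf (nat_lit 0) (nat_lit 2109919760) (nat_lit 228) (nat_lit 7488336650) (nat_lit 304) (nat_lit 18973729988) (nat_lit 69) (nat_lit 5) (nat_lit 72) (nat_lit 5)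 (nat_lit 73) (nat_lit 5) (nat_lit 351) (nat_lit 288) (nat_lit 141)) (XT.lf (nat_lit 0) (nat_lit 15044428492) (nat_lit 304) (nat_lit 12855475034) (nat_lit 76) (nat_lit 1257975385) (nat_lit 69) (nat_lit 5) (nat_lit 73) (nat_lit 5) (nat_lit 70) (nat_lit 5) (nat_lit 352) (nat_lit 288) (nat_lit 140)))))) (XT.nd (nat_lit 546) (nat_lit 912) (nat_lit 0) (XT.nd (nat_lit 234) (nat_lit 456) (nat_lit 0) (XT.nd (nat_lit 78) (nat_lit 76) (nat_lit 0) (XT.lf (nat_lit 0) (nat_lit 1096276169) (nat_lit 228) (nat_lit 19635781690) (nat_lit 304) (nat_lit 9026951833) (nat_lit 66) (nat_lit 5) (nat_lit 69) (nat_lit 5) (nat_lit 70) (nat_lit 5) (nat_lit 353) (nat_lit 288) (nat_lit 139)) (XT.nd (nat_lit 78) (nat_lit 76) (nat_lit 0) (XT.lf (nat_lit 0) (nat_lit 15719916912) (nat_lit 228) (nat_lit 10993700919) (nat_lit 304) (nat_lit 3660861066) (nat_lit 66) (nat_lit 5) (nat_lit 69) (nat_lit 5) (nat_lit 70) (nat_lit 5) (nat_lit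 354) (nat_lit 288) (nat_lit 138)) (XT.lf (nat_lit 0) (nat_lit 1823406248) (nat_lit 304) (nat_lit 254105894) (nat_lit 76) (nat_lit 28930556897) (nat_lit 65) (nat_lit 5) (nat_lit 69) (nat_lit 5) (nat_lit 66) (nat_lit 5) (nat_lit 355) (nat_lit 288) (nat_lit 137)))) (XT.nd (nat_lit 156) (nat_lit 228) (nat_lit 0) (XT.nd (nat_lit 78) (nat_lit 0) (nat_lit 0) (XT.lf (nat_lit 0) (nat_lit 7604937147) (nat_lit 304) (nat_lit 16903927803) (nat_lit 76) (nat_lit 7144528344) (nat_lit 62) (nat_lit 5) (nat_lit 66) (nat_lit 5) (nat_lit 63) (nat_lit 5) (nat_lit 356) (nat_lit 288) (nat_lit 136)) (XT.lf (nat_lit 0) (nat_lit 13576925487) (nat_lit 304) (nat_lit 2140029128) (nat_lit 76) (nat_lit 16600615470) (nat_lit 62) (nat_lit 5) (nat_lit 66) (nat_lit 5) (nat_lit 63) (nat_lit 5) (nat_lit 357) (nat_lit 288) (nat_lit 135))) (XT.nd (nat_lit 78) (nat_lit 0) (nat_lit 0) (XT.lf (nat_lit 0) (nat_lit 13317150190) (nat_lit 228)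 (nat_lit 6532965697) (nat_lit 304) (nat_lit 13147898083) (nat_lit 59) (nat_lit 5) (nat_lit 62) (nat_lit 5) (nat_lit 63) (nat_lit 5) (nat_lit 358) (nat_lit 288) (nat_lit 134)) (XT.lf (nat_lit 0) (nat_lit 26355537187) (nat_lit 304) (nat_lit 4454209612) (nat_lit 76) (nat_lit 2887806292) (nat_lit 59) (nat_lit 5) (nat_lit 63) (nat_lit 5) (nat_lit 60) (nat_lit 5) (nat_lit 359) (nat_lit 288) (nat_lit 133))))) (XT.nd (nat_lit 234) (nat_lit 456) (nat_lit 0) (XT.nd (nat_lit 78) (nat_lit 304) (nat_lit 0) (XT.lf (nat_lit 0) (nat_lit 11377297238) (nat_lit 152) (nat_lit 21847124107) (nat_lit 228) (nat_lit 1188610921) (nat_lit 57) (nat_lit 5) (nat_lit 59) (nat_lit 5) (nat_lit 60) (nat_lit 5) (nat_lit 360) (nat_lit 288) (nat_lit 132)) (XT.nd (nat_lit 78) (nat_lit 228) (nat_lit 0) (XT.lf (nat_lit 0) (nat_lit 5088609164) (nat_lit 228) (nat_lit 7432816647) (nat_lit 76) (nat_lit 22625876865) (nat_lit 56) (nat_lit 5)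 (nat_lit 59) (nat_lit 5) (nat_lit 57) (nat_lit 5) (nat_lit 361) (nat_lit 288) (nat_lit 131)) (XT.lf (nat_lit 0) (nat_lit 8788892808) (nat_lit 228) (nat_lit 2820286290) (nat_lit 304) (nat_lit 24291703996) (nat_lit 53) (nat_lit 5) (nat_lit 56) (nat_lit 5) (nat_lit 57) (nat_lit 5) (nat_lit 362) (nat_lit 288) (nat_lit 130)))) (XT.nd (nat_lit 156) (nat_lit 304) (nat_lit 0) (XT.nd (nat_lit 78) (nat_lit 152) (nat_lit 0) (XT.lf (nat_lit 0) (nat_lit 18464588421) (nat_lit 304) (nat_lit 11103960274) (nat_lit 76) (nat_lit 7104348125) (nat_lit 53) (nat_lit 5) (nat_lit 57) (nat_lit 5) (nat_lit 54) (nat_lit 5) (nat_lit 363) (nat_lit 288) (nat_lit 129)) (XT.lf (nat_lit 0) (nat_lit 5454002249) (nat_lit 152) (nat_lit 20146651046) (nat_lit 228) (nat_lit 11865170356) (nat_lit 51) (nat_lit 5) (nat_lit 53) (nat_lit 5) (nat_lit 54) (nat_lit 5) (nat_lit 364) (nat_lit 288) (nat_lit 128))) (XT.nd (nat_lit 78) (nat_lit 304)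 (nat_lit 0) (XT.lf (nat_lit 0) (nat_lit 22727598349) (nat_lit 152) (nat_lit 10330044600) (nat_lit 228) (nat_lit 5221692471) (nat_lit 51) (nat_lit 5) (nat_lit 53) (nat_lit 5) (nat_lit 54) (nat_lit 5) (nat_lit 365) (nat_lit 288) (nat_lit 127)) (XT.lf (nat_lit 0) (nat_lit 1405414669) (nat_lit 228) (nat_lit 192366929) (nat_lit 304) (nat_lit 37518755981) (nat_lit 47) (nat_lit 5) (nat_lit 50) (nat_lit 5) (nat_lit 51) (nat_lit 5) (nat_lit 366) (nat_lit 288) (nat_lit 126))))))) (XT.nd (nat_lit 1092) (nat_lit 836) (nat_lit 0) (XT.nd (nat_lit 546) (nat_lit 380) (nat_lit 0) (XT.nd (nat_lit 234) (nat_lit 380) (nat_lit 0) (XT.nd (nat_lit 78) (nat_lit 152) (nat_lit 0) (XT.lf (nat_lit 0) (nat_lit 8768862206) (nat_lit 304) (nat_lit 20944462942) (nat_lit 76) (nat_lit 10256422675) (nat_lit 47) (nat_lit 5) (nat_lit 51) (nat_lit 5) (nat_lit 48) (nat_lit 5) (nat_lit 367) (nat_lit 288) (nat_lit 125)) (XT.nd (nat_lit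 78) (nat_lit 152) (nat_lit 0) (XT.lf (nat_lit 0) (nat_lit 16151982130) (nat_lit 304) (nat_lit 3685072876) (nat_lit 76) (nat_lit 21011594311) (nat_lit 47) (nat_lit 5) (nat_lit 51) (nat_lit 5) (nat_lit 48) (nat_lit 5) (nat_lit 368) (nat_lit 288) (nat_lit 124)) (XT.lf (nat_lit 0) (nat_lit 14364276225) (nat_lit 152) (nat_lit 9525545477) (nat_lit 228) (nat_lit 17860101457) (nat_lit 45) (nat_lit 5) (nat_lit 47) (nat_lit 5) (nat_lit 48) (nat_lit 5) (nat_lit 369) (nat_lit 288) (nat_lit 123)))) (XT.nd (nat_lit 156) (nat_lit 228) (nat_lit 0) (XT.nd (nat_lit 78) (nat_lit 152) (nat_lit 0) (XT.lf (nat_lit 0) (nat_lit 31903086277) (nat_lit 228) (nat_lit 9665526100) (nat_lit 76) (nat_lit 1108326170) (nat_lit 45) (nat_lit 5) (nat_lit 48) (nat_lit 5) (nat_lit 46) (nat_lit 5) (nat_lit 370) (nat_lit 288) (nat_lit 122)) (XT.lf (nat_lit 0) (nat_lit 8652814966) (nat_lit 152) (nat_lit 31676743261) (nat_lit 228) (nat_lit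 3297023852) (nat_lit 43) (nat_lit 5) (nat_lit 45) (nat_lit 5) (nat_lit 46) (nat_lit 5) (nat_lit 371) (nat_lit 288) (nat_lit 121))) (XT.nd (nat_lit 78) (nat_lit 152) (nat_lit 0) (XT.lf (nat_lit 0) (nat_lit 4412072879) (nat_lit 228) (nat_lit 16934183839) (nat_lit 76) (nat_lit 23254372897) (nat_lit 42) (nat_lit 5) (nat_lit 45) (nat_lit 5) (nat_lit 43) (nat_lit 5) (nat_lit 372) (nat_lit 288) (nat_lit 120)) (XT.lf (nat_lit 0) (nat_lit 1638205843) (nat_lit 152) (nat_lit 10659187357) (nat_lit 228) (nat_lit 33305191335) (nat_lit 40) (nat_lit 5) (nat_lit 42) (nat_lit 5) (nat_lit 43) (nat_lit 5) (nat_lit 373) (nat_lit 288) (nat_lit 119))))) (XT.nd (nat_lit 234) (nat_lit 228) (nat_lit 0) (XT.nd (nat_lit 78) (nat_lit 152) (nat_lit 0) (XT.lf (nat_lit 0) (nat_lit 20590816627) (nat_lit 228) (nat_lit 25527344265) (nat_lit 76) (nat_lit 511292653) (nat_lit 40) (nat_lit 5) (nat_lit 43) (nat_lit 5) (nat_lit 41) (nat_lit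 5) (nat_lit 374) (nat_lit 288) (nat_lit 118)) (XT.nd (nat_lit 78) (nat_lit 152) (nat_lit 0) (XT.lf (nat_lit 0) (nat_lit 29234208792) (nat_lit 228) (nat_lit 6650244613) (nat_lit 76) (nat_lit 11799641935) (nat_lit 40) (nat_lit 5) (nat_lit 43) (nat_lit 5) (nat_lit 41) (nat_lit 5) (nat_lit 375) (nat_lit 288) (nat_lit 117)) (XT.lf (nat_lit 0) (nat_lit 13040341477) (nat_lit 152) (nat_lit 25217669807) (nat_lit 228) (nat_lit 10508733494) (nat_lit 38) (nat_lit 5) (nat_lit 40) (nat_lit 5) (nat_lit 41) (nat_lit 5) (nat_lit 376) (nat_lit 288) (nat_lit 116)))) (XT.nd (nat_lit 156) (nat_lit 0) (nat_lit 0) (XT.nd (nat_lit 78) (nat_lit 228) (nat_lit 0) (XT.lf (nat_lit 0) (nat_lit 33450749539) (nat_lit 152) (nat_lit 14164743759) (nat_lit 228) (nat_lit 2264493036) (nat_lit 38) (nat_lit 5) (nat_lit 40) (nat_lit 5) (nat_lit 41) (nat_lit 5) (nat_lit 377) (nat_lit 288) (nat_lit 115)) (XT.lf (nat_lit 0) (nat_lit 3447160654)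 (nat_lit 152) (nat_lit 2687428778) (nat_lit 228) (nat_lit 44889370635) (nat_lit 35) (nat_lit 5) (nat_lit 37) (nat_lit 5) (nat_lit 38) (nat_lit 5) (nat_lit 378) (nat_lit 288) (nat_lit 114))) (XT.nd (nat_lit 78) (nat_lit 0) (nat_lit 0) (XT.lf (nat_lit 0) (nat_lit 14991394457) (nat_lit 228) (nat_lit 28059626785) (nat_lit 76) (nat_lit 9143022687) (nat_lit 35) (nat_lit 5) (nat_lit 38) (nat_lit 5) (nat_lit 36) (nat_lit 5) (nat_lit 379) (nat_lit 288) (nat_lit 113)) (XT.lf (nat_lit 0) (nat_lit 24136545714) (nat_lit 228) (nat_lit 7990457124) (nat_lit 76) (nat_lit 21271549626) (nat_lit 35) (nat_lit 5) (nat_lit 38) (nat_lit 5) (nat_lit 36) (nat_lit 5) (nat_lit 380) (nat_lit 288) (nat_lit 112)))))) (XT.nd (nat_lit 546) (nat_lit 380) (nat_lit 0) (XT.nd (nat_lit 234) (nat_lit 304) (nat_lit 0) (XT.nd (nat_lit 78) (nat_lit 0) (nat_lit 0) (XT.lf (nat_lit 0) (nat_lit 12926317967) (nat_lit 152) (nat_lit 20750138612)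 (nat_lit 228) (nat_lit 20959128902) (nat_lit 33) (nat_lit 5) (nat_lit 35) (nat_lit 5) (nat_lit 36) (nat_lit 5) (nat_lit 381) (nat_lit 288) (nat_lit 111)) (XT.nd (nat_lit 78) (nat_lit 0) (nat_lit 0) (XT.lf (nat_lit 0) (nat_lit 34627749940) (nat_lit 152) (nat_lit 8951700474) (nat_lit 228) (nat_lit 12327973846) (nat_lit 33) (nat_lit 5) (nat_lit 35) (nat_lit 5) (nat_lit 36) (nat_lit 5) (nat_lit 382) (nat_lit 288) (nat_lit 110)) (XT.lf (nat_lit 0) (nat_lit 53806582991) (nat_lit 228) (nat_lit 274495291) (nat_lit 76) (nat_lit 3135529752) (nat_lit 33) (nat_lit 5) (nat_lit 36) (nat_lit 5) (nat_lit 34) (nat_lit 4) (nat_lit 383) (nat_lit 288) (nat_lit 109)))) (XT.nd (nat_lit 156) (nat_lit 152) (nat_lit 0) (XT.nd (nat_lit 78) (nat_lit 0) (nat_lit 0) (XT.lf (nat_lit 0) (nat_lit 5959176733) (nat_lit 152) (nat_lit 36925590417) (nat_lit 76) (nat_lit 15669743440) (nat_lit 31) (nat_lit 5) (nat_lit 33) (nat_lit 5)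 (nat_lit 32) (nat_lit 5) (nat_lit 384) (nat_lit 288) (nat_lit 108)) (XT.lf (nat_lit 0) (nat_lit 15540114218) (nat_lit 152) (nat_lit 15777547438) (nat_lit 76) (nat_lit 28613900944) (nat_lit 31) (nat_lit 5) (nat_lit 33) (nat_lit 5) (nat_lit 32) (nat_lit 5) (nat_lit 385) (nat_lit 288) (nat_lit 107))) (XT.nd (nat_lit 78) (nat_lit 0) (nat_lit 0) (XT.lf (nat_lit 0) (nat_lit 6118153866) (nat_lit 152) (nat_lit 19345640771) (nat_lit 228) (nat_lit 35884473245) (nat_lit 29) (nat_lit 5) (nat_lit 31) (nat_lit 5) (nat_lit 32) (nat_lit 5) (nat_lit 386) (nat_lit 288) (nat_lit 106)) (XT.lf (nat_lit 0) (nat_lit 28988040772) (nat_lit 152) (nat_lit 6853013474) (nat_lit 228) (nat_lit 26961745133) (nat_lit 29) (nat_lit 5) (nat_lit 31) (nat_lit 5) (nat_lit 32) (nat_lit 5) (nat_lit 387) (nat_lit 288) (nat_lit 105))))) (XT.nd (nat_lit 312) (nat_lit 228) (nat_lit 0) (XT.nd (nat_lit 156) (nat_lit 76) (nat_lit 0) (XT.nd (nat_lit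 78) (nat_lit 76) (nat_lit 0) (XT.lf (nat_lit 0) (nat_lit 46584067949) (nat_lit 228) (nat_lit 11820765184) (nat_lit 76) (nat_lit 5894501687) (nat_lit 29) (nat_lit 5) (nat_lit 32) (nat_lit 5) (nat_lit 30) (nat_lit 4) (nat_lit 388) (nat_lit 288) (nat_lit 104)) (XT.lf (nat_lit 0) (nat_lit 10973495221) (nat_lit 76) (nat_lit 46845933073) (nat_lit 152) (nat_lit 8016237402) (nat_lit 28) (nat_lit 5) (nat_lit 29) (nat_lit 5) (nat_lit 30) (nat_lit 4) (nat_lit 389) (nat_lit 288) (nat_lit 103))) (XT.nd (nat_lit 78) (nat_lit 0) (nat_lit 0) (XT.lf (nat_lit 0) (nat_lit 2052523698) (nat_lit 152) (nat_lit 32746605378) (nat_lit 76) (nat_lit 32614870948) (nat_lit 27) (nat_lit 5) (nat_lit 29) (nat_lit 5) (nat_lit 28) (nat_lit 5) (nat_lit 390) (nat_lit 288) (nat_lit 102)) (XT.lf (nat_lit 0) (nat_lit 12259052083) (nat_lit 152) (nat_lit 10052614392) (nat_lit 76) (nat_lit 46725733125) (nat_lit 27) (nat_lit 5) (nat_lit 29)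 (nat_lit 5) (nat_lit 28) (nat_lit 5) (nat_lit 391) (nat_lit 288) (nat_lit 101)))) (XT.nd (nat_lit 156) (nat_lit 76) (nat_lit 0) (XT.nd (nat_lit 78) (nat_lit 0) (nat_lit 0) (XT.lf (nat_lit 0) (nat_lit 13581717383) (nat_lit 152) (nat_lit 9317530135) (nat_lit 228) (nat_lit 47806430450) (nat_lit 25) (nat_lit 5) (nat_lit 27) (nat_lit 5) (nat_lit 28) (nat_lit 5) (nat_lit 392) (nat_lit 288) (nat_lit 100)) (XT.lf (nat_lit 0) (nat_lit 33997184313) (nat_lit 228) (nat_lit 34335427935) (nat_lit 76) (nat_lit 4087237286) (nat_lit 25) (nat_lit 5) (nat_lit 28) (nat_lit 5) (nat_lit 26) (nat_lit 4) (nat_lit 393) (nat_lit 288) (nat_lit 99))) (XT.nd (nat_lit 78) (nat_lit 76) (nat_lit 0) (XT.lf (nat_lit 0) (nat_lit 45517331129) (nat_lit 228) (nat_lit 10960853602) (nat_lit 76) (nat_lit 17704584242) (nat_lit 25) (nat_lit 5) (nat_lit 28) (nat_lit 5) (nat_lit 26) (nat_lit 4) (nat_lit 394) (nat_lit 288) (nat_lit 98)) (XT.lf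 (nat_lit 0) (nat_lit 13370662378) (nat_lit 76) (nat_lit 44138052922) (nat_lit 152) (nat_lit 18486092568) (nat_lit 24) (nat_lit 5) (nat_lit 25) (nat_lit 5) (nat_lit 26) (nat_lit 4) (nat_lit 395) (nat_lit 288) (nat_lit 97))))))))
noncomputable def xc172 : XT := (XT.nd (nat_lit 33540) (nat_lit 0) (nat_lit 6992) (XT.nd (nat_lit 32448) (nat_lit 0) (nat_lit 14668) (XT.nd (nat_lit 546) (nat_lit 228) (nat_lit 0) (XT.nd (nat_lit 234) (nat_lit 76) (nat_lit 0) (XT.nd (nat_lit 78) (nat_lit 228) (nat_lit 0) (XT.lf (nat_lit 0) (nat_lit 38651656262) (nat_lit 76) (nat_lit 31316008576) (nat_lit 152) (nat_lit 7890309210) (nat_lit 24) (nat_lit 5) (nat_lit 25) (nat_lit 5) (nat_lit 26) (nat_lit 4) (nat_lit 396) (nat_lit 288) (nat_lit 96)) (XT.nd (nat_lit 78) (nat_lit 152) (nat_lit 0) (XT.lf (nat_lit 0) (nat_lit 2961546956) (nat_lit 152) (nat_lit 15120078320) (nat_lit 76) (nat_lit 61694622984) (nat_lit 23) (nat_lit 5)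 (nat_lit 25) (nat_lit 5) (nat_lit 24) (nat_lit 5) (nat_lit 397) (nat_lit 288) (nat_lit 95)) (XT.lf (nat_lit 0) (nat_lit 9796885582) (nat_lit 152) (nat_lit 4274936870) (nat_lit 228) (nat_lit 67675161822) (nat_lit 21) (nat_lit 5) (nat_lit 23) (nat_lit 5) (nat_lit 24) (nat_lit 5) (nat_lit 398) (nat_lit 288) (nat_lit 94)))) (XT.nd (nat_lit 156) (nat_lit 76) (nat_lit 0) (XT.nd (nat_lit 78) (nat_lit 0) (nat_lit 0) (XT.lf (nat_lit 0) (nat_lit 25762496663) (nat_lit 228) (nat_lit 48103000746) (nat_lit 76) (nat_lit 9903932988) (nat_lit 21) (nat_lit 5) (nat_lit 24) (nat_lit 5) (nat_lit 22) (nat_lit 4) (nat_lit 399) (nat_lit 288) (nat_lit 93)) (XT.lf (nat_lit 0) (nat_lit 37843585180) (nat_lit 228) (nat_lit 23587598263) (nat_lit 76) (nat_lit 24420176358) (nat_lit 21) (nat_lit 5) (nat_lit 24) (nat_lit 5) (nat_lit 22) (nat_lit 4) (nat_lit 400) (nat_lit 288) (nat_lit 92))) (XT.nd (nat_lit 78) (nat_lit 0) (nat_lit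 0) (XT.lf (nat_lit 0) (nat_lit 1691633145) (nat_lit 76) (nat_lit 48609178855) (nat_lit 152) (nat_lit 37694524617) (nat_lit 20) (nat_lit 5) (nat_lit 21) (nat_lit 5) (nat_lit 22) (nat_lit 4) (nat_lit 401) (nat_lit 288) (nat_lit 91)) (XT.lf (nat_lit 0) (nat_lit 28208166650) (nat_lit 76) (nat_lit 35159252336) (nat_lit 152) (nat_lit 26829144528) (nat_lit 20) (nat_lit 5) (nat_lit 21) (nat_lit 5) (nat_lit 22) (nat_lit 4) (nat_lit 402) (nat_lit 288) (nat_lit 90))))) (XT.nd (nat_lit 312) (nat_lit 76) (nat_lit 0) (XT.nd (nat_lit 78) (nat_lit 152) (nat_lit 0) (XT.lf (nat_lit 0) (nat_lit 55515732584) (nat_lit 76) (nat_lit 21307840014) (nat_lit 152) (nat_lit 15640328826) (nat_lit 20) (nat_lit 5) (nat_lit 21) (nat_lit 5) (nat_lit 22) (nat_lit 4) (nat_lit 403) (nat_lit 288) (nat_lit 89)) (XT.nd (nat_lit 78) (nat_lit 152) (nat_lit 0) (XT.lf (nat_lit 0) (nat_lit 83638191926) (nat_lit 76) (nat_lit 7042838715) (nat_lit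 152) (nat_lit 4118300876) (nat_lit 20) (nat_lit 5) (nat_lit 21) (nat_lit 5) (nat_lit 22) (nat_lit 4) (nat_lit 404) (nat_lit 288) (nat_lit 88)) (XT.lf (nat_lit 0) (nat_lit 7821782386) (nat_lit 152) (nat_lit 81648230779) (nat_lit 76) (nat_lit 7725868805) (nat_lit 18) (nat_lit 5) (nat_lit 20) (nat_lit 5) (nat_lit 19) (nat_lit 4) (nat_lit 405) (nat_lit 288) (nat_lit 87)))) (XT.nd (nat_lit 31434) (nat_lit 0) (nat_lit 15428) (XT.nd (nat_lit 156) (nat_lit 76) (nat_lit 0) (XT.lf (nat_lit 0) (nat_lit 32984905973) (nat_lit 152) (nat_lit 30581844454) (nat_lit 76) (nat_lit 38626628402) (nat_lit 18) (nat_lit 5) (nat_lit 20) (nat_lit 5) (nat_lit 19) (nat_lit 4) (nat_lit 407) (nat_lit 288) (nat_lit 85)) (XT.lf (nat_lit 0) (nat_lit 24047410539) (nat_lit 76) (nat_lit 35855309511) (nat_lit 152) (nat_lit 47585837748) (nat_lit 17) (nat_lit 5) (nat_lit 18) (nat_lit 5) (nat_lit 19) (nat_lit 4) (nat_lit 409) (nat_lit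 288) (nat_lit 83))) (XT.nd (nat_lit 78) (nat_lit 0) (nat_lit 0) (XT.lf (nat_lit 0) (nat_lit 719839207) (nat_lit 1140) (nat_lit 2164510672) (nat_lit 1140) (nat_lit 2164510672) (nat_lit 220) (nat_lit 3) (nat_lit 235) (nat_lit 3) (nat_lit 235) (nat_lit 5) (nat_lit 289) (nat_lit 289) (nat_lit 202)) (XT.lf (nat_lit 76) (nat_lit 332514206) (nat_lit 0) (nat_lit 1794158393) (nat_lit 1140) (nat_lit 8101831947) (nat_lit 221) (nat_lit 5) (nat_lit 220) (nat_lit 3) (nat_lit 235) (nat_lit 5) (nat_lit 290) (nat_lit 289) (nat_lit 201)))))) (XT.nd (nat_lit 546) (nat_lit 836) (nat_lit 0) (XT.nd (nat_lit 234) (nat_lit 0) (nat_lit 76) (XT.nd (nat_lit 78) (nat_lit 0) (nat_lit 0) (XT.lf (nat_lit 0) (nat_lit 2874673919) (nat_lit 1064) (nat_lit 5176316956) (nat_lit 1140) (nat_lit 2311036814) (nat_lit 221) (nat_lit 5) (nat_lit 235) (nat_lit 5) (nat_lit 236) (nat_lit 5) (nat_lit 291) (nat_lit 289) (nat_lit 200)) (XT.nd (nat_lit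 78) (nat_lit 0) (nat_lit 76) (XT.lf (nat_lit 0) (nat_lit 3637776811) (nat_lit 1064) (nat_lit 346909794) (nat_lit 1140) (nat_lit 6515117373) (nat_lit 221) (nat_lit 5) (nat_lit 235) (nat_lit 5) (nat_lit 236) (nat_lit 5) (nat_lit 292) (nat_lit 289) (nat_lit 199)) (XT.lf (nat_lit 0) (nat_lit 4447141634) (nat_lit 1064) (nat_lit 5938102822) (nat_lit 1140) (nat_lit 255794534) (nat_lit 222) (nat_lit 5) (nat_lit 236) (nat_lit 5) (nat_lit 237) (nat_lit 5) (nat_lit 293) (nat_lit 289) (nat_lit 198)))) (XT.nd (nat_lit 156) (nat_lit 0) (nat_lit 76) (XT.nd (nat_lit 78) (nat_lit 0) (nat_lit 0) (XT.lf (nat_lit 0) (nat_lit 5300084346) (nat_lit 1064) (nat_lit 928889995) (nat_lit 1140) (nat_lit 4556983533) (nat_lit 222) (nat_lit 5) (nat_lit 236) (nat_lit 5) (nat_lit 237) (nat_lit 5) (nat_lit 294) (nat_lit 289) (nat_lit 197)) (XT.lf (nat_lit 76) (nat_lit 4300551642) (nat_lit 0) (nat_lit 1896400130) (nat_lit 1140) (nat_lit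 4737747438) (nat_lit 223) (nat_lit 5) (nat_lit 222) (nat_lit 5) (nat_lit 237) (nat_lit 5) (nat_lit 295) (nat_lit 289) (nat_lit 196))) (XT.nd (nat_lit 78) (nat_lit 0) (nat_lit 0) (XT.lf (nat_lit 0) (nat_lit 7132482447) (nat_lit 1064) (nat_lit 1421074959) (nat_lit 1140) (nat_lit 2534016918) (nat_lit 223) (nat_lit 5) (nat_lit 237) (nat_lit 5) (nat_lit 238) (nat_lit 5) (nat_lit 296) (nat_lit 289) (nat_lit 195)) (XT.lf (nat_lit 76) (nat_lit 3993352707) (nat_lit 0) (nat_lit 4138158024) (nat_lit 1140) (nat_lit 3112485556) (nat_lit 224) (nat_lit 5) (nat_lit 223) (nat_lit 5) (nat_lit 238) (nat_lit 5) (nat_lit 297) (nat_lit 289) (nat_lit 194))))) (XT.nd (nat_lit 234) (nat_lit 1064) (nat_lit 0) (XT.nd (nat_lit 78) (nat_lit 0) (nat_lit 0) (XT.lf (nat_lit 0) (nat_lit 9157776240) (nat_lit 1064) (nat_lit 1824192401) (nat_lit 1140) (nat_lit 423247136) (nat_lit 224) (nat_lit 5) (nat_lit 238) (nat_lit 5) (nat_lit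 239) (nat_lit 5) (nat_lit 298) (nat_lit 289) (nat_lit 193)) (XT.nd (nat_lit 78) (nat_lit 0) (nat_lit 0) (XT.lf (nat_lit 76) (nat_lit 3783566369) (nat_lit 0) (nat_lit 6488057495) (nat_lit 1140) (nat_lit 1297966358) (nat_lit 225) (nat_lit 5) (nat_lit 224) (nat_lit 5) (nat_lit 239) (nat_lit 5) (nat_lit 299) (nat_lit 289) (nat_lit 192)) (XT.lf (nat_lit 76) (nat_lit 9582747608) (nat_lit 0) (nat_lit 1834474345) (nat_lit 1140) (nat_lit 321745444) (nat_lit 225) (nat_lit 5) (nat_lit 224) (nat_lit 5) (nat_lit 239) (nat_lit 5) (nat_lit 300) (nat_lit 289) (nat_lit 191)))) (XT.nd (nat_lit 156) (nat_lit 0) (nat_lit 76) (XT.nd (nat_lit 78) (nat_lit 0) (nat_lit 0) (XT.lf (nat_lit 0) (nat_lit 715122618) (nat_lit 1140) (nat_lit 8247904596) (nat_lit 1216) (nat_lit 2948880707) (nat_lit 210) (nat_lit 5) (nat_lit 225) (nat_lit 5) (nat_lit 226) (nat_lit 5) (nat_lit 301) (nat_lit 289) (nat_lit 190)) (XT.lf (nat_lit 0)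 (nat_lit 1797557046) (nat_lit 1140) (nat_lit 2422626433) (nat_lit 1216) (nat_lit 7869149520) (nat_lit 210) (nat_lit 5) (nat_lit 225) (nat_lit 5) (nat_lit 226) (nat_lit 5) (nat_lit 302) (nat_lit 289) (nat_lit 189))) (XT.nd (nat_lit 78) (nat_lit 0) (nat_lit 0) (XT.lf (nat_lit 0) (nat_lit 2935511729) (nat_lit 1140) (nat_lit 8644352233) (nat_lit 1216) (nat_lit 691544596) (nat_lit 211) (nat_lit 5) (nat_lit 226) (nat_lit 5) (nat_lit 227) (nat_lit 5) (nat_lit 303) (nat_lit 289) (nat_lit 188)) (XT.lf (nat_lit 0) (nat_lit 4155877037) (nat_lit 1140) (nat_lit 2607097174) (nat_lit 1216) (nat_lit 5694542601) (nat_lit 211) (nat_lit 5) (nat_lit 226) (nat_lit 5) (nat_lit 227) (nat_lit 5) (nat_lit 304) (nat_lit 289) (nat_lit 187))))))) (XT.nd (nat_lit 1092) (nat_lit 3648) (nat_lit 0) (XT.nd (nat_lit 546) (nat_lit 1596) (nat_lit 0) (XT.nd (nat_lit 234) (nat_lit 1444) (nat_lit 0) (XT.nd (nat_lit 78) (nat_lit 1064)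 (nat_lit 0) (XT.lf (nat_lit 76) (nat_lit 3668542075) (nat_lit 0) (nat_lit 1761888118) (nat_lit 1216) (nat_lit 7218268861) (nat_lit 212) (nat_lit 5) (nat_lit 211) (nat_lit 5) (nat_lit 227) (nat_lit 5) (nat_lit 305) (nat_lit 289) (nat_lit 186)) (XT.nd (nat_lit 78) (nat_lit 1140) (nat_lit 0) (XT.lf (nat_lit 0) (nat_lit 6785108090) (nat_lit 1140) (nat_lit 2706519934) (nat_lit 76) (nat_lit 3352749614) (nat_lit 212) (nat_lit 5) (nat_lit 227) (nat_lit 5) (nat_lit 213) (nat_lit 5) (nat_lit 306) (nat_lit 289) (nat_lit 185)) (XT.lf (nat_lit 0) (nat_lit 3797671141) (nat_lit 1140) (nat_lit 4419929973) (nat_lit 1216) (nat_lit 4827227233) (nat_lit 197) (nat_lit 5) (nat_lit 212) (nat_lit 5) (nat_lit 213) (nat_lit 5) (nat_lit 307) (nat_lit 289) (nat_lit 184)))) (XT.nd (nat_lit 156) (nat_lit 684) (nat_lit 0) (XT.nd (nat_lit 78) (nat_lit 760) (nat_lit 0) (XT.lf (nat_lit 0) (nat_lit 9711996568) (nat_lit 1216) (nat_lit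 2720709384) (nat_lit 76) (nat_lit 818035310) (nat_lit 197) (nat_lit 5) (nat_lit 213) (nat_lit 5) (nat_lit 198) (nat_lit 5) (nat_lit 308) (nat_lit 289) (nat_lit 183)) (XT.lf (nat_lit 0) (nat_lit 4021974449) (nat_lit 760) (nat_lit 7295749237) (nat_lit 836) (nat_lit 2143128919) (nat_lit 187) (nat_lit 5) (nat_lit 197) (nat_lit 5) (nat_lit 198) (nat_lit 5) (nat_lit 309) (nat_lit 289) (nat_lit 182))) (XT.nd (nat_lit 78) (nat_lit 684) (nat_lit 0) (XT.lf (nat_lit 0) (nat_lit 11008571713) (nat_lit 760) (nat_lit 1974929055) (nat_lit 836) (nat_lit 693425742) (nat_lit 187) (nat_lit 5) (nat_lit 197) (nat_lit 5) (nat_lit 198) (nat_lit 5) (nat_lit 310) (nat_lit 289) (nat_lit 181)) (XT.lf (nat_lit 0) (nat_lit 845052769) (nat_lit 684) (nat_lit 9563866174) (nat_lit 76) (nat_lit 3488521008) (nat_lit 178) (nat_lit 5) (nat_lit 187) (nat_lit 5) (nat_lit 179) (nat_lit 5) (nat_lit 311) (nat_lit 289) (nat_lit 180))))) (XT.nd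 (nat_lit 234) (nat_lit 1064) (nat_lit 0) (XT.nd (nat_lit 78) (nat_lit 532) (nat_lit 0) (XT.lf (nat_lit 0) (nat_lit 2447530528) (nat_lit 684) (nat_lit 2564570942) (nat_lit 76) (nat_lit 9111322141) (nat_lit 178) (nat_lit 5) (nat_lit 187) (nat_lit 5) (nat_lit 179) (nat_lit 5) (nat_lit 312) (nat_lit 289) (nat_lit 179)) (XT.nd (nat_lit 78) (nat_lit 0) (nat_lit 0) (XT.lf (nat_lit 0) (nat_lit 4134644364) (nat_lit 608) (nat_lit 9638084975) (nat_lit 76) (nat_lit 582374422) (nat_lit 171) (nat_lit 5) (nat_lit 179) (nat_lit 5) (nat_lit 172) (nat_lit 5) (nat_lit 313) (nat_lit 289) (nat_lit 178)) (XT.lf (nat_lit 0) (nat_lit 5933897630) (nat_lit 608) (nat_lit 2387483818) (nat_lit 76) (nat_lit 6270520514) (nat_lit 171) (nat_lit 5) (nat_lit 179) (nat_lit 5) (nat_lit 172) (nat_lit 5) (nat_lit 314) (nat_lit 289) (nat_lit 177)))) (XT.nd (nat_lit 156) (nat_lit 532) (nat_lit 0) (XT.nd (nat_lit 78) (nat_lit 0) (nat_lit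 0) (XT.lf (nat_lit 0) (nat_lit 5167617264) (nat_lit 532) (nat_lit 2655348345) (nat_lit 608) (nat_lit 7011776423) (nat_lit 164) (nat_lit 5) (nat_lit 171) (nat_lit 5) (nat_lit 172) (nat_lit 5) (nat_lit 315) (nat_lit 289) (nat_lit 176)) (XT.lf (nat_lit 0) (nat_lit 9810060197) (nat_lit 608) (nat_lit 2130784017) (nat_lit 76) (nat_lit 3142795110) (nat_lit 164) (nat_lit 5) (nat_lit 172) (nat_lit 5) (nat_lit 165) (nat_lit 5) (nat_lit 316) (nat_lit 289) (nat_lit 175))) (XT.nd (nat_lit 78) (nat_lit 0) (nat_lit 0) (XT.lf (nat_lit 0) (nat_lit 5702913351) (nat_lit 532) (nat_lit 6221792369) (nat_lit 608) (nat_lit 3413271962) (nat_lit 157) (nat_lit 5) (nat_lit 164) (nat_lit 5) (nat_lit 165) (nat_lit 5) (nat_lit 317) (nat_lit 289) (nat_lit 174)) (XT.lf (nat_lit 0) (nat_lit 13801707799) (nat_lit 532) (nat_lit 309680178) (nat_lit 608) (nat_lit 1488312223) (nat_lit 157) (nat_lit 5) (nat_lit 164) (nat_lit 5) (nat_lit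 165) (nat_lit 5) (nat_lit 318) (nat_lit 289) (nat_lit 173)))))) (XT.nd (nat_lit 546) (nat_lit 1748) (nat_lit 0) (XT.nd (nat_lit 234) (nat_lit 836) (nat_lit 0) (XT.nd (nat_lit 78) (nat_lit 456) (nat_lit 0) (XT.lf (nat_lit 0) (nat_lit 589609079) (nat_lit 608) (nat_lit 9543404158) (nat_lit 76) (nat_lit 5732984021) (nat_lit 149) (nat_lit 5) (nat_lit 157) (nat_lit 5) (nat_lit 150) (nat_lit 5) (nat_lit 319) (nat_lit 289) (nat_lit 172)) (XT.nd (nat_lit 78) (nat_lit 456) (nat_lit 0) (XT.lf (nat_lit 0) (nat_lit 2708910487) (nat_lit 608) (nat_lit 1447770967) (nat_lit 76) (nat_lit 11982901937) (nat_lit 149) (nat_lit 5) (nat_lit 157) (nat_lit 5) (nat_lit 150) (nat_lit 5) (nat_lit 320) (nat_lit 289) (nat_lit 171)) (XT.lf (nat_lit 0) (nat_lit 4967004036) (nat_lit 532) (nat_lit 9425297692) (nat_lit 76) (nat_lit 2026829588) (nat_lit 143) (nat_lit 5) (nat_lit 150) (nat_lit 5) (nat_lit 144) (nat_lit 5) (nat_lit 321)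 (nat_lit 289) (nat_lit 170)))) (XT.nd (nat_lit 156) (nat_lit 380) (nat_lit 0) (XT.nd (nat_lit 78) (nat_lit 456) (nat_lit 0) (XT.lf (nat_lit 0) (nat_lit 7336889178) (nat_lit 532) (nat_lit 1043090665) (nat_lit 76) (nat_lit 8325774664) (nat_lit 143) (nat_lit 5) (nat_lit 150) (nat_lit 5) (nat_lit 144) (nat_lit 5) (nat_lit 322) (nat_lit 289) (nat_lit 169)) (XT.lf (nat_lit 0) (nat_lit 7728254870) (nat_lit 456) (nat_lit 2112379597) (nat_lit 532) (nat_lit 7158469010) (nat_lit 137) (nat_lit 5) (nat_lit 143) (nat_lit 5) (nat_lit 144) (nat_lit 5) (nat_lit 323) (nat_lit 289) (nat_lit 168))) (XT.nd (nat_lit 78) (nat_lit 380) (nat_lit 0) (XT.lf (nat_lit 0) (nat_lit 12460548839) (nat_lit 532) (nat_lit 572005978) (nat_lit 76) (nat_lit 4267476099) (nat_lit 137) (nat_lit 5) (nat_lit 144) (nat_lit 5) (nat_lit 138) (nat_lit 5) (nat_lit 324) (nat_lit 289) (nat_lit 167)) (XT.lf (nat_lit 0) (nat_lit 8520197596) (nat_lit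 380) (nat_lit 6730678366) (nat_lit 456) (nat_lit 2356365173) (nat_lit 132) (nat_lit 5) (nat_lit 137) (nat_lit 5) (nat_lit 138) (nat_lit 5) (nat_lit 325) (nat_lit 289) (nat_lit 166))))) (XT.nd (nat_lit 312) (nat_lit 836) (nat_lit 0) (XT.nd (nat_lit 156) (nat_lit 380) (nat_lit 0) (XT.nd (nat_lit 78) (nat_lit 456) (nat_lit 0) (XT.lf (nat_lit 0) (nat_lit 192232086) (nat_lit 456) (nat_lit 41641891) (nat_lit 76) (nat_lit 17689897112) (nat_lit 131) (nat_lit 5) (nat_lit 137) (nat_lit 5) (nat_lit 132) (nat_lit 5) (nat_lit 326) (nat_lit 289) (nat_lit 165)) (XT.lf (nat_lit 0) (nat_lit 2913089482) (nat_lit 532) (nat_lit 8886891401) (nat_lit 76) (nat_lit 6444829881) (nat_lit 125) (nat_lit 5) (nat_lit 132) (nat_lit 5) (nat_lit 126) (nat_lit 5) (nat_lit 327) (nat_lit 289) (nat_lit 164))) (XT.nd (nat_lit 78) (nat_lit 0) (nat_lit 0) (XT.lf (nat_lit 0) (nat_lit 458637288) (nat_lit 380) (nat_lit 5253650554) (nat_lit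 456) (nat_lit 12863300699) (nat_lit 120) (nat_lit 5) (nat_lit 125) (nat_lit 5) (nat_lit 126) (nat_lit 5) (nat_lit 328) (nat_lit 289) (nat_lit 163)) (XT.lf (nat_lit 0) (nat_lit 8690128911) (nat_lit 456) (nat_lit 8675106145) (nat_lit 76) (nat_lit 1548222716) (nat_lit 120) (nat_lit 5) (nat_lit 126) (nat_lit 5) (nat_lit 121) (nat_lit 5) (nat_lit 329) (nat_lit 289) (nat_lit 162)))) (XT.nd (nat_lit 156) (nat_lit 456) (nat_lit 0) (XT.nd (nat_lit 78) (nat_lit 0) (nat_lit 0) (XT.lf (nat_lit 0) (nat_lit 1004956513) (nat_lit 380) (nat_lit 10804048805) (nat_lit 456) (nat_lit 7450914646) (nat_lit 115) (nat_lit 5) (nat_lit 120) (nat_lit 5) (nat_lit 121) (nat_lit 5) (nat_lit 330) (nat_lit 289) (nat_lit 161)) (XT.lf (nat_lit 0) (nat_lit 11140744283) (nat_lit 380) (nat_lit 3958499149) (nat_lit 456) (nat_lit 4515206385) (nat_lit 115) (nat_lit 5) (nat_lit 120) (nat_lit 5) (nat_lit 121) (nat_lit 5) (nat_lit 331) (nat_lit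 289) (nat_lit 160))) (XT.nd (nat_lit 78) (nat_lit 76) (nat_lit 0) (XT.lf (nat_lit 0) (nat_lit 1589876667) (nat_lit 380) (nat_lit 16933775347) (nat_lit 456) (nat_lit 1454907088) (nat_lit 110) (nat_lit 5) (nat_lit 115) (nat_lit 5) (nat_lit 116) (nat_lit 5) (nat_lit 332) (nat_lit 289) (nat_lit 159)) (XT.lf (nat_lit 0) (nat_lit 1780204898) (nat_lit 456) (nat_lit 8290796022) (nat_lit 76) (nat_lit 10278624650) (nat_lit 109) (nat_lit 5) (nat_lit 115) (nat_lit 5) (nat_lit 110) (nat_lit 5) (nat_lit 333) (nat_lit 289) (nat_lit 158))))))))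
noncomputable def xc173 : XT := (XT.nd (nat_lit 2184) (nat_lit 2204) (nat_lit 0) (XT.nd (nat_lit 1092) (nat_lit 1672) (nat_lit 0) (XT.nd (nat_lit 546) (nat_lit 912) (nat_lit 0) (XT.nd (nat_lit 234) (nat_lit 684) (nat_lit 0) (XT.nd (nat_lit 78) (nat_lit 304) (nat_lit 0) (XT.lf (nat_lit 0) (nat_lit 2124965774) (nat_lit 380) (nat_lit 2969379178) (nat_lit 456) (nat_lit 15636717227) (nat_lit 104) (nat_lit 5) (nat_lit 109) (nat_lit 5) (nat_lit 110) (nat_lit 5) (nat_lit 334) (nat_lit 289) (nat_lit 157)) (XT.nd (nat_lit 78) (nat_lit 304) (nat_lit 0) (XT.lf (nat_lit 0) (nat_lit 8625143472) (nat_lit 456) (nat_lit 8153128229) (nat_lit 76) (nat_lit 4342159762) (nat_lit 104) (nat_lit 5) (nat_lit 110) (nat_lit 5) (nat_lit 105) (nat_lit 5) (nat_lit 335) (nat_lit 289) (nat_lit 156)) (XT.lf (nat_lit 0) (nat_lit 2623323507) (nat_lit 304) (nat_lit 9684338801) (nat_lit 380) (nat_lit 9212452040) (nat_lit 100) (nat_lit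 5) (nat_lit 104) (nat_lit 5) (nat_lit 105) (nat_lit 5) (nat_lit 336) (nat_lit 289) (nat_lit 155)))) (XT.nd (nat_lit 156) (nat_lit 380) (nat_lit 0) (XT.nd (nat_lit 78) (nat_lit 304) (nat_lit 0) (XT.lf (nat_lit 0) (nat_lit 13878420381) (nat_lit 304) (nat_lit 2295890189) (nat_lit 380) (nat_lit 5755273761) (nat_lit 100) (nat_lit 5) (nat_lit 104) (nat_lit 5) (nat_lit 105) (nat_lit 5) (nat_lit 337) (nat_lit 289) (nat_lit 154)) (XT.lf (nat_lit 0) (nat_lit 3117923952) (nat_lit 304) (nat_lit 17111636191) (nat_lit 380) (nat_lit 2119606260) (nat_lit 96) (nat_lit 5) (nat_lit 100) (nat_lit 5) (nat_lit 101) (nat_lit 5) (nat_lit 338) (nat_lit 289) (nat_lit 153))) (XT.nd (nat_lit 78) (nat_lit 304) (nat_lit 0) (XT.lf (nat_lit 0) (nat_lit 1689850680) (nat_lit 380) (nat_lit 8042654634) (nat_lit 76) (nat_lit 13045474720) (nat_lit 95) (nat_lit 5) (nat_lit 100) (nat_lit 5) (nat_lit 96) (nat_lit 5) (nat_lit 339) (nat_lit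 289) (nat_lit 152)) (XT.lf (nat_lit 0) (nat_lit 3517867500) (nat_lit 304) (nat_lit 2078776634) (nat_lit 380) (nat_lit 17621620244) (nat_lit 91) (nat_lit 5) (nat_lit 95) (nat_lit 5) (nat_lit 96) (nat_lit 5) (nat_lit 340) (nat_lit 289) (nat_lit 151))))) (XT.nd (nat_lit 234) (nat_lit 608) (nat_lit 0) (XT.nd (nat_lit 78) (nat_lit 304) (nat_lit 0) (XT.lf (nat_lit 0) (nat_lit 9750394667) (nat_lit 380) (nat_lit 8147337054) (nat_lit 76) (nat_lit 5770138303) (nat_lit 91) (nat_lit 5) (nat_lit 96) (nat_lit 5) (nat_lit 92) (nat_lit 5) (nat_lit 341) (nat_lit 289) (nat_lit 150)) (XT.nd (nat_lit 78) (nat_lit 0) (nat_lit 0) (XT.lf (nat_lit 0) (nat_lit 3794627072) (nat_lit 304) (nat_lit 10283360811) (nat_lit 380) (nat_lit 10051504266) (nat_lit 87) (nat_lit 5) (nat_lit 91) (nat_lit 5) (nat_lit 92) (nat_lit 5) (nat_lit 342) (nat_lit 289) (nat_lit 149)) (XT.lf (nat_lit 0) (nat_lit 16250819495) (nat_lit 304) (nat_lit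 2359155325) (nat_lit 380) (nat_lit 5992756203) (nat_lit 87) (nat_lit 5) (nat_lit 91) (nat_lit 5) (nat_lit 92) (nat_lit 5) (nat_lit 343) (nat_lit 289) (nat_lit 148)))) (XT.nd (nat_lit 156) (nat_lit 304) (nat_lit 0) (XT.nd (nat_lit 78) (nat_lit 76) (nat_lit 0) (XT.lf (nat_lit 0) (nat_lit 4001923090) (nat_lit 228) (nat_lit 19362734148) (nat_lit 304) (nat_lit 1722912664) (nat_lit 84) (nat_lit 5) (nat_lit 87) (nat_lit 5) (nat_lit 88) (nat_lit 5) (nat_lit 344) (nat_lit 289) (nat_lit 147)) (XT.lf (nat_lit 0) (nat_lit 2723881781) (nat_lit 304) (nat_lit 8747718053) (nat_lit 76) (nat_lit 14111555677) (nat_lit 83) (nat_lit 5) (nat_lit 87) (nat_lit 5) (nat_lit 84) (nat_lit 5) (nat_lit 345) (nat_lit 289) (nat_lit 146))) (XT.nd (nat_lit 78) (nat_lit 0) (nat_lit 0) (XT.lf (nat_lit 0) (nat_lit 4010910743) (nat_lit 304) (nat_lit 3289837616) (nat_lit 380) (nat_lit 18791414157) (nat_lit 79) (nat_lit 5) (nat_lit 83)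 (nat_lit 5) (nat_lit 84) (nat_lit 5) (nat_lit 346) (nat_lit 289) (nat_lit 145)) (XT.lf (nat_lit 0) (nat_lit 12146333200) (nat_lit 380) (nat_lit 9343158263) (nat_lit 76) (nat_lit 5123010267) (nat_lit 79) (nat_lit 5) (nat_lit 84) (nat_lit 5) (nat_lit 80) (nat_lit 5) (nat_lit 347) (nat_lit 289) (nat_lit 144)))))) (XT.nd (nat_lit 546) (nat_lit 684) (nat_lit 0) (XT.nd (nat_lit 234) (nat_lit 532) (nat_lit 0) (XT.nd (nat_lit 78) (nat_lit 228) (nat_lit 0) (XT.lf (nat_lit 0) (nat_lit 3808405175) (nat_lit 228) (nat_lit 13391090177) (nat_lit 304) (nat_lit 9947093716) (nat_lit 76) (nat_lit 5) (nat_lit 79) (nat_lit 5) (nat_lit 80) (nat_lit 5) (nat_lit 348) (nat_lit 289) (nat_lit 143)) (XT.nd (nat_lit 78) (nat_lit 228) (nat_lit 0) (XT.lf (nat_lit 0) (nat_lit 17535727291) (nat_lit 228) (nat_lit 4956004967) (nat_lit 304) (nat_lit 5202346487) (nat_lit 76) (nat_lit 5) (nat_lit 79) (nat_lit 5) (nat_lit 80) (nat_lit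 5) (nat_lit 349) (nat_lit 289) (nat_lit 142)) (XT.lf (nat_lit 0) (nat_lit 3437900968) (nat_lit 228) (nat_lit 24567058233) (nat_lit 304) (nat_lit 251171221) (nat_lit 73) (nat_lit 5) (nat_lit 76) (nat_lit 5) (nat_lit 77) (nat_lit 5) (nat_lit 350) (nat_lit 289) (nat_lit 141)))) (XT.nd (nat_lit 156) (nat_lit 228) (nat_lit 0) (XT.nd (nat_lit 78) (nat_lit 228) (nat_lit 0) (XT.lf (nat_lit 0) (nat_lit 4899920467) (nat_lit 304) (nat_lit 11288603124) (nat_lit 76) (nat_lit 12640745803) (nat_lit 72) (nat_lit 5) (nat_lit 76) (nat_lit 5) (nat_lit 73) (nat_lit 5) (nat_lit 351) (nat_lit 289) (nat_lit 140)) (XT.lf (nat_lit 0) (nat_lit 2686932665) (nat_lit 228) (nat_lit 7532915888) (nat_lit 304) (nat_lit 19199102475) (nat_lit 69) (nat_lit 5) (nat_lit 72) (nat_lit 5) (nat_lit 73) (nat_lit 5) (nat_lit 352) (nat_lit 289) (nat_lit 139))) (XT.nd (nat_lit 78) (nat_lit 228) (nat_lit 0) (XT.lf (nat_lit 0) (nat_lit 15821368535)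 (nat_lit 304) (nat_lit 12734169069) (nat_lit 76) (nat_lit 1467129238) (nat_lit 69) (nat_lit 5) (nat_lit 73) (nat_lit 5) (nat_lit 70) (nat_lit 5) (nat_lit 353) (nat_lit 289) (nat_lit 138)) (XT.lf (nat_lit 0) (nat_lit 1631164373) (nat_lit 228) (nat_lit 20043804235) (nat_lit 304) (nat_lit 8967007933) (nat_lit 66) (nat_lit 5) (nat_lit 69) (nat_lit 5) (nat_lit 70) (nat_lit 5) (nat_lit 354) (nat_lit 289) (nat_lit 137))))) (XT.nd (nat_lit 234) (nat_lit 380) (nat_lit 0) (XT.nd (nat_lit 78) (nat_lit 304) (nat_lit 0) (XT.lf (nat_lit 0) (nat_lit 16678892982) (nat_lit 228) (nat_lit 11147734368) (nat_lit 304) (nat_lit 3449568009) (nat_lit 66) (nat_lit 5) (nat_lit 69) (nat_lit 5) (nat_lit 70) (nat_lit 5) (nat_lit 355) (nat_lit 289) (nat_lit 136)) (XT.nd (nat_lit 78) (nat_lit 0) (nat_lit 0) (XT.lf (nat_lit 0) (nat_lit 222030411) (nat_lit 228) (nat_lit 1963894551) (nat_lit 304) (nat_lit 29742991528) (nat_lit 62)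 (nat_lit 5) (nat_lit 65) (nat_lit 5) (nat_lit 66) (nat_lit 5) (nat_lit 356) (nat_lit 289) (nat_lit 135)) (XT.lf (nat_lit 0) (nat_lit 8136094170) (nat_lit 304) (nat_lit 16928789980) (nat_lit 76) (nat_lit 7528865215) (nat_lit 62) (nat_lit 5) (nat_lit 66) (nat_lit 5) (nat_lit 63) (nat_lit 5) (nat_lit 357) (nat_lit 289) (nat_lit 134)))) (XT.nd (nat_lit 156) (nat_lit 152) (nat_lit 0) (XT.nd (nat_lit 78) (nat_lit 228) (nat_lit 0) (XT.lf (nat_lit 0) (nat_lit 14278416658) (nat_lit 304) (nat_lit 1736020626) (nat_lit 76) (nat_lit 17263683469) (nat_lit 62) (nat_lit 5) (nat_lit 66) (nat_lit 5) (nat_lit 63) (nat_lit 5) (nat_lit 358) (nat_lit 289) (nat_lit 133)) (XT.lf (nat_lit 0) (nat_lit 14180283783) (nat_lit 228) (nat_lit 6555407128) (nat_lit 304) (nat_lit 13243414795) (nat_lit 59) (nat_lit 5) (nat_lit 62) (nat_lit 5) (nat_lit 63) (nat_lit 5) (nat_lit 359) (nat_lit 289) (nat_lit 132))) (XT.nd (nat_lit 78)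 (nat_lit 152) (nat_lit 0) (XT.lf (nat_lit 0) (nat_lit 27429445820) (nat_lit 304) (nat_lit 4130748983) (nat_lit 76) (nat_lit 3139645337) (nat_lit 59) (nat_lit 5) (nat_lit 63) (nat_lit 5) (nat_lit 60) (nat_lit 5) (nat_lit 360) (nat_lit 289) (nat_lit 131)) (XT.lf (nat_lit 0) (nat_lit 12171221828) (nat_lit 152) (nat_lit 22329275616) (nat_lit 228) (nat_lit 936407362) (nat_lit 57) (nat_lit 5) (nat_lit 59) (nat_lit 5) (nat_lit 60) (nat_lit 5) (nat_lit 361) (nat_lit 289) (nat_lit 130))))))) (XT.nd (nat_lit 1092) (nat_lit 912) (nat_lit 0) (XT.nd (nat_lit 546) (nat_lit 532) (nat_lit 0) (XT.nd (nat_lit 234) (nat_lit 456) (nat_lit 0) (XT.nd (nat_lit 78) (nat_lit 228) (nat_lit 0) (XT.lf (nat_lit 0) (nat_lit 5515291385) (nat_lit 228) (nat_lit 7210794353) (nat_lit 76) (nat_lit 23467285104) (nat_lit 56) (nat_lit 5) (nat_lit 59) (nat_lit 5) (nat_lit 57) (nat_lit 5) (nat_lit 362) (nat_lit 289) (nat_lit 129)) (XT.nd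 (nat_lit 78) (nat_lit 0) (nat_lit 0) (XT.lf (nat_lit 0) (nat_lit 9493203573) (nat_lit 228) (nat_lit 2734529303) (nat_lit 304) (nat_lit 24741941955) (nat_lit 53) (nat_lit 5) (nat_lit 56) (nat_lit 5) (nat_lit 57) (nat_lit 5) (nat_lit 363) (nat_lit 289) (nat_lit 128)) (XT.lf (nat_lit 0) (nat_lit 19282522252) (nat_lit 304) (nat_lit 11002864443) (nat_lit 76) (nat_lit 7479654423) (nat_lit 53) (nat_lit 5) (nat_lit 57) (nat_lit 5) (nat_lit 54) (nat_lit 5) (nat_lit 364) (nat_lit 289) (nat_lit 127)))) (XT.nd (nat_lit 156) (nat_lit 304) (nat_lit 0) (XT.nd (nat_lit 78) (nat_lit 0) (nat_lit 0) (XT.lf (nat_lit 0) (nat_lit 6047579949) (nat_lit 152) (nat_lit 20581532929) (nat_lit 228) (nat_lit 11952753136) (nat_lit 51) (nat_lit 5) (nat_lit 53) (nat_lit 5) (nat_lit 54) (nat_lit 5) (nat_lit 365) (nat_lit 289) (nat_lit 126)) (XT.lf (nat_lit 0) (nat_lit 23826860895) (nat_lit 152) (nat_lit 10475365697) (nat_lit 228)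 (nat_lit 5117787584) (nat_lit 51) (nat_lit 5) (nat_lit 53) (nat_lit 5) (nat_lit 54) (nat_lit 5) (nat_lit 366) (nat_lit 289) (nat_lit 125))) (XT.nd (nat_lit 78) (nat_lit 0) (nat_lit 0) (XT.lf (nat_lit 0) (nat_lit 1866064947) (nat_lit 228) (nat_lit 31703231) (nat_lit 304) (nat_lit 38384594898) (nat_lit 47) (nat_lit 5) (nat_lit 50) (nat_lit 5) (nat_lit 51) (nat_lit 5) (nat_lit 367) (nat_lit 289) (nat_lit 124)) (XT.lf (nat_lit 0) (nat_lit 9278193125) (nat_lit 304) (nat_lit 21160604019) (nat_lit 76) (nat_lit 10722549302) (nat_lit 47) (nat_lit 5) (nat_lit 51) (nat_lit 5) (nat_lit 48) (nat_lit 5) (nat_lit 368) (nat_lit 289) (nat_lit 123))))) (XT.nd (nat_lit 234) (nat_lit 380) (nat_lit 0) (XT.nd (nat_lit 78) (nat_lit 152) (nat_lit 0) (XT.lf (nat_lit 0) (nat_lit 16875633878) (nat_lit 304) (nat_lit 3395437866) (nat_lit 76) (nat_lit 21795761506) (nat_lit 47) (nat_lit 5) (nat_lit 51) (nat_lit 5) (nat_lit 48)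 (nat_lit 5) (nat_lit 369) (nat_lit 289) (nat_lit 122)) (XT.nd (nat_lit 78) (nat_lit 0) (nat_lit 0) (XT.lf (nat_lit 0) (nat_lit 15191468304) (nat_lit 152) (nat_lit 9650985610) (nat_lit 228) (nat_lit 18152789029) (nat_lit 45) (nat_lit 5) (nat_lit 47) (nat_lit 5) (nat_lit 48) (nat_lit 5) (nat_lit 370) (nat_lit 289) (nat_lit 121)) (XT.lf (nat_lit 0) (nat_lit 33090740724) (nat_lit 228) (nat_lit 9565297176) (nat_lit 76) (nat_lit 1294195070) (nat_lit 45) (nat_lit 5) (nat_lit 48) (nat_lit 5) (nat_lit 46) (nat_lit 5) (nat_lit 371) (nat_lit 289) (nat_lit 120)))) (XT.nd (nat_lit 156) (nat_lit 152) (nat_lit 0) (XT.nd (nat_lit 78) (nat_lit 76) (nat_lit 0) (XT.lf (nat_lit 0) (nat_lit 9298768684) (nat_lit 152) (nat_lit 32468236773) (nat_lit 228) (nat_lit 3161453214) (nat_lit 43) (nat_lit 5) (nat_lit 45) (nat_lit 5) (nat_lit 46) (nat_lit 5) (nat_lit 372) (nat_lit 289) (nat_lit 119)) (XT.lf (nat_lit 0) (nat_lit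 4767644558) (nat_lit 228) (nat_lit 17062562595) (nat_lit 76) (nat_lit 24101656409) (nat_lit 42) (nat_lit 5) (nat_lit 45) (nat_lit 5) (nat_lit 43) (nat_lit 5) (nat_lit 373) (nat_lit 289) (nat_lit 118))) (XT.nd (nat_lit 78) (nat_lit 0) (nat_lit 0) (XT.lf (nat_lit 0) (nat_lit 2063276750) (nat_lit 152) (nat_lit 10823360110) (nat_lit 228) (nat_lit 34077329481) (nat_lit 40) (nat_lit 5) (nat_lit 42) (nat_lit 5) (nat_lit 43) (nat_lit 5) (nat_lit 374) (nat_lit 289) (nat_lit 117)) (XT.lf (nat_lit 0) (nat_lit 21423898032) (nat_lit 228) (nat_lit 25923140601) (nat_lit 76) (nat_lit 674754244) (nat_lit 40) (nat_lit 5) (nat_lit 43) (nat_lit 5) (nat_lit 41) (nat_lit 5) (nat_lit 375) (nat_lit 289) (nat_lit 116)))))) (XT.nd (nat_lit 546) (nat_lit 380) (nat_lit 0) (XT.nd (nat_lit 234) (nat_lit 380) (nat_lit 0) (XT.nd (nat_lit 78) (nat_lit 152) (nat_lit 0) (XT.lf (nat_lit 0) (nat_lit 30320319431) (nat_lit 228) (nat_lit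 6490505357) (nat_lit 76) (nat_lit 12297439748) (nat_lit 40) (nat_lit 5) (nat_lit 43) (nat_lit 5) (nat_lit 41) (nat_lit 5) (nat_lit 376) (nat_lit 289) (nat_lit 115)) (XT.nd (nat_lit 78) (nat_lit 0) (nat_lit 0) (XT.lf (nat_lit 0) (nat_lit 13787276290) (nat_lit 152) (nat_lit 25824889313) (nat_lit 228) (nat_lit 10611310328) (nat_lit 38) (nat_lit 5) (nat_lit 40) (nat_lit 5) (nat_lit 41) (nat_lit 5) (nat_lit 377) (nat_lit 289) (nat_lit 114)) (XT.lf (nat_lit 0) (nat_lit 34799635685) (nat_lit 152) (nat_lit 14444724336) (nat_lit 228) (nat_lit 2125937370) (nat_lit 38) (nat_lit 5) (nat_lit 40) (nat_lit 5) (nat_lit 41) (nat_lit 5) (nat_lit 378) (nat_lit 289) (nat_lit 113)))) (XT.nd (nat_lit 156) (nat_lit 152) (nat_lit 0) (XT.nd (nat_lit 78) (nat_lit 0) (nat_lit 0) (XT.lf (nat_lit 0) (nat_lit 3896616604) (nat_lit 152) (nat_lit 2621901030) (nat_lit 228) (nat_lit 46030092433) (nat_lit 35) (nat_lit 5) (nat_lit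 37) (nat_lit 5) (nat_lit 38) (nat_lit 5) (nat_lit 379) (nat_lit 289) (nat_lit 112)) (XT.lf (nat_lit 0) (nat_lit 15636568726) (nat_lit 228) (nat_lit 28560925255) (nat_lit 76) (nat_lit 9556438306) (nat_lit 35) (nat_lit 5) (nat_lit 38) (nat_lit 5) (nat_lit 36) (nat_lit 5) (nat_lit 380) (nat_lit 289) (nat_lit 111))) (XT.nd (nat_lit 78) (nat_lit 152) (nat_lit 0) (XT.lf (nat_lit 0) (nat_lit 25050382314) (nat_lit 228) (nat_lit 7899597699) (nat_lit 76) (nat_lit 22044768870) (nat_lit 35) (nat_lit 5) (nat_lit 38) (nat_lit 5) (nat_lit 36) (nat_lit 5) (nat_lit 381) (nat_lit 289) (nat_lit 110)) (XT.lf (nat_lit 0) (nat_lit 13641439732) (nat_lit 152) (nat_lit 21232670876) (nat_lit 228) (nat_lit 21394855659) (nat_lit 33) (nat_lit 5) (nat_lit 35) (nat_lit 5) (nat_lit 36) (nat_lit 5) (nat_lit 382) (nat_lit 289) (nat_lit 109))))) (XT.nd (nat_lit 312) (nat_lit 228) (nat_lit 0) (XT.nd (nat_lit 156) (nat_lit 76) (nat_lit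 0) (XT.nd (nat_lit 78) (nat_lit 76) (nat_lit 0) (XT.lf (nat_lit 0) (nat_lit 35984380716) (nat_lit 152) (nat_lit 9084356445) (nat_lit 228) (nat_lit 12510388683) (nat_lit 33) (nat_lit 5) (nat_lit 35) (nat_lit 5) (nat_lit 36) (nat_lit 5) (nat_lit 383) (nat_lit 289) (nat_lit 108)) (XT.lf (nat_lit 0) (nat_lit 30499089) (nat_lit 76) (nat_lit 55568447907) (nat_lit 152) (nat_lit 3328752101) (nat_lit 32) (nat_lit 5) (nat_lit 33) (nat_lit 5) (nat_lit 34) (nat_lit 4) (nat_lit 384) (nat_lit 289) (nat_lit 107))) (XT.nd (nat_lit 78) (nat_lit 0) (nat_lit 0) (XT.lf (nat_lit 0) (nat_lit 6315418849) (nat_lit 152) (nat_lit 37720198527) (nat_lit 76) (nat_lit 16270145915) (nat_lit 31) (nat_lit 5) (nat_lit 33) (nat_lit 5) (nat_lit 32) (nat_lit 5) (nat_lit 385) (nat_lit 289) (nat_lit 106)) (XT.lf (nat_lit 0) (nat_lit 16178615523) (nat_lit 152) (nat_lit 15946835411) (nat_lit 76) (nat_lit 29598832703) (nat_lit 31) (nat_lit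 5) (nat_lit 33) (nat_lit 5) (nat_lit 32) (nat_lit 5) (nat_lit 386) (nat_lit 289) (nat_lit 105)))) (XT.nd (nat_lit 156) (nat_lit 76) (nat_lit 0) (XT.nd (nat_lit 78) (nat_lit 0) (nat_lit 0) (XT.lf (nat_lit 0) (nat_lit 6602756162) (nat_lit 152) (nat_lit 19795125758) (nat_lit 228) (nat_lit 36785673547) (nat_lit 29) (nat_lit 5) (nat_lit 31) (nat_lit 5) (nat_lit 32) (nat_lit 5) (nat_lit 387) (nat_lit 289) (nat_lit 104)) (XT.lf (nat_lit 0) (nat_lit 30149971005) (nat_lit 152) (nat_lit 6931531804) (nat_lit 228) (nat_lit 27600370405) (nat_lit 29) (nat_lit 5) (nat_lit 31) (nat_lit 5) (nat_lit 32) (nat_lit 5) (nat_lit 388) (nat_lit 289) (nat_lit 103))) (XT.nd (nat_lit 78) (nat_lit 76) (nat_lit 0) (XT.lf (nat_lit 0) (nat_lit 48143180696) (nat_lit 228) (nat_lit 11887934099) (nat_lit 76) (nat_lit 6192300272) (nat_lit 29) (nat_lit 5) (nat_lit 32) (nat_lit 5) (nat_lit 30) (nat_lit 4) (nat_lit 389) (nat_lit 289)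 (nat_lit 102)) (XT.lf (nat_lit 0) (nat_lit 11587335941) (nat_lit 76) (nat_lit 48126295478) (nat_lit 152) (nat_lit 8092265079) (nat_lit 28) (nat_lit 5) (nat_lit 29) (nat_lit 5) (nat_lit 30) (nat_lit 4) (nat_lit 390) (nat_lit 289) (nat_lit 101))))))))
noncomputable def xc174 : XT := (XT.nd (nat_lit 33618) (nat_lit 0) (nat_lit 7752) (XT.nd (nat_lit 1092) (nat_lit 152) (nat_lit 0) (XT.nd (nat_lit 546) (nat_lit 304) (nat_lit 0) (XT.nd (nat_lit 234) (nat_lit 76) (nat_lit 0) (XT.nd (nat_lit 78) (nat_lit 152) (nat_lit 0) (XT.lf (nat_lit 0) (nat_lit 2270653048) (nat_lit 152) (nat_lit 33449494658) (nat_lit 76) (nat_lit 33711528051) (nat_lit 27) (nat_lit 5) (nat_lit 29) (nat_lit 5) (nat_lit 28) (nat_lit 5) (nat_lit 391) (nat_lit 289) (nat_lit 100)) (XT.nd (nat_lit 78) (nat_lit 152) (nat_lit 0) (XT.lf (nat_lit 0) (nat_lit 12778817470) (nat_lit 152) (nat_lit 10082824979) (nat_lit 76) (nat_lit 48242273055) (nat_lit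 27) (nat_lit 5) (nat_lit 29) (nat_lit 5) (nat_lit 28) (nat_lit 5) (nat_lit 392) (nat_lit 289) (nat_lit 99)) (XT.lf (nat_lit 0) (nat_lit 14257876281) (nat_lit 152) (nat_lit 9478498463) (nat_lit 228) (nat_lit 49085924147) (nat_lit 25) (nat_lit 5) (nat_lit 27) (nat_lit 5) (nat_lit 28) (nat_lit 5) (nat_lit 393) (nat_lit 289) (nat_lit 98)))) (XT.nd (nat_lit 156) (nat_lit 76) (nat_lit 0) (XT.nd (nat_lit 78) (nat_lit 0) (nat_lit 0) (XT.lf (nat_lit 0) (nat_lit 35163982802) (nat_lit 228) (nat_lit 35101299371) (nat_lit 76) (nat_lit 4322712745) (nat_lit 25) (nat_lit 5) (nat_lit 28) (nat_lit 5) (nat_lit 26) (nat_lit 4) (nat_lit 394) (nat_lit 289) (nat_lit 97)) (XT.lf (nat_lit 0) (nat_lit 47025455878) (nat_lit 228) (nat_lit 11033182704) (nat_lit 76) (nat_lit 18345292974) (nat_lit 25) (nat_lit 5) (nat_lit 28) (nat_lit 5) (nat_lit 26) (nat_lit 4) (nat_lit 395) (nat_lit 289) (nat_lit 96))) (XT.nd (nat_lit 78) (nat_lit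 0) (nat_lit 0) (XT.lf (nat_lit 0) (nat_lit 14025764084) (nat_lit 76) (nat_lit 45349105380) (nat_lit 152) (nat_lit 18895514749) (nat_lit 24) (nat_lit 5) (nat_lit 25) (nat_lit 5) (nat_lit 26) (nat_lit 4) (nat_lit 396) (nat_lit 289) (nat_lit 95)) (XT.lf (nat_lit 0) (nat_lit 40057790255) (nat_lit 76) (nat_lit 32145693561) (nat_lit 152) (nat_lit 7986085869) (nat_lit 24) (nat_lit 5) (nat_lit 25) (nat_lit 5) (nat_lit 26) (nat_lit 4) (nat_lit 397) (nat_lit 289) (nat_lit 94))))) (XT.nd (nat_lit 234) (nat_lit 76) (nat_lit 0) (XT.nd (nat_lit 78) (nat_lit 152) (nat_lit 0) (XT.lf (nat_lit 0) (nat_lit 3184551146) (nat_lit 152) (nat_lit 15331570807) (nat_lit 76) (nat_lit 63649351401) (nat_lit 23) (nat_lit 5) (nat_lit 25) (nat_lit 5) (nat_lit 24) (nat_lit 5) (nat_lit 398) (nat_lit 289) (nat_lit 93)) (XT.nd (nat_lit 78) (nat_lit 0) (nat_lit 0) (XT.lf (nat_lit 0) (nat_lit 10330528386) (nat_lit 152) (nat_lit 4296003504)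 (nat_lit 228) (nat_lit 69568848744) (nat_lit 21) (nat_lit 5) (nat_lit 23) (nat_lit 5) (nat_lit 24) (nat_lit 5) (nat_lit 399) (nat_lit 289) (nat_lit 92)) (XT.lf (nat_lit 0) (nat_lit 26665065794) (nat_lit 228) (nat_lit 49310441146) (nat_lit 76) (nat_lit 10303080081) (nat_lit 21) (nat_lit 5) (nat_lit 24) (nat_lit 5) (nat_lit 22) (nat_lit 4) (nat_lit 400) (nat_lit 289) (nat_lit 91)))) (XT.nd (nat_lit 156) (nat_lit 0) (nat_lit 0) (XT.nd (nat_lit 78) (nat_lit 76) (nat_lit 0) (XT.lf (nat_lit 0) (nat_lit 39104809465) (nat_lit 228) (nat_lit 24066440170) (nat_lit 76) (nat_lit 25251839030) (nat_lit 21) (nat_lit 5) (nat_lit 24) (nat_lit 5) (nat_lit 22) (nat_lit 4) (nat_lit 401) (nat_lit 289) (nat_lit 90)) (XT.lf (nat_lit 0) (nat_lit 1968925180) (nat_lit 76) (nat_lit 49965338102) (nat_lit 152) (nat_lit 38697167200) (nat_lit 20) (nat_lit 5) (nat_lit 21) (nat_lit 5) (nat_lit 22) (nat_lit 4) (nat_lit 402) (nat_lit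 289) (nat_lit 89))) (XT.nd (nat_lit 78) (nat_lit 0) (nat_lit 0) (XT.lf (nat_lit 0) (nat_lit 29274356350) (nat_lit 76) (nat_lit 36114888043) (nat_lit 152) (nat_lit 27509559489) (nat_lit 20) (nat_lit 5) (nat_lit 21) (nat_lit 5) (nat_lit 22) (nat_lit 4) (nat_lit 403) (nat_lit 289) (nat_lit 88)) (XT.lf (nat_lit 0) (nat_lit 57394743105) (nat_lit 76) (nat_lit 21850820979) (nat_lit 152) (nat_lit 15988704346) (nat_lit 20) (nat_lit 5) (nat_lit 21) (nat_lit 5) (nat_lit 22) (nat_lit 4) (nat_lit 404) (nat_lit 289) (nat_lit 87)))))) (XT.nd (nat_lit 31980) (nat_lit 0) (nat_lit 15428) (XT.nd (nat_lit 31668) (nat_lit 0) (nat_lit 15352) (XT.nd (nat_lit 156) (nat_lit 152) (nat_lit 0) (XT.lf (nat_lit 0) (nat_lit 86354656658) (nat_lit 76) (nat_lit 7160673162) (nat_lit 152) (nat_lit 4124535005) (nat_lit 20) (nat_lit 5) (nat_lit 21) (nat_lit 5) (nat_lit 22) (nat_lit 4) (nat_lit 405) (nat_lit 289) (nat_lit 86)) (XT.nd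 (nat_lit 156) (nat_lit 0) (nat_lit 0) (XT.lf (nat_lit 0) (nat_lit 20936313918) (nat_lit 152) (nat_lit 57981047244) (nat_lit 76) (nat_lit 23726673275) (nat_lit 18) (nat_lit 5) (nat_lit 20) (nat_lit 5) (nat_lit 19) (nat_lit 4) (nat_lit 407) (nat_lit 289) (nat_lit 84)) (XT.lf (nat_lit 0) (nat_lit 47620903695) (nat_lit 152) (nat_lit 3824832506) (nat_lit 76) (nat_lit 56500474455) (nat_lit 18) (nat_lit 5) (nat_lit 20) (nat_lit 5) (nat_lit 19) (nat_lit 4) (nat_lit 409) (nat_lit 289) (nat_lit 82)))) (XT.nd (nat_lit 156) (nat_lit 0) (nat_lit 76) (XT.nd (nat_lit 78) (nat_lit 0) (nat_lit 0) (XT.lf (nat_lit 0) (nat_lit 1397271565) (nat_lit 1140) (nat_lit 1891333104) (nat_lit 1140) (nat_lit 1891333104) (nat_lit 220) (nat_lit 3) (nat_lit 235) (nat_lit 3) (nat_lit 235) (nat_lit 5) (nat_lit 290) (nat_lit 290) (nat_lit 200)) (XT.lf (nat_lit 76) (nat_lit 1012085743) (nat_lit 0) (nat_lit 2458293859) (nat_lit 1140)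 (nat_lit 7025197483) (nat_lit 221) (nat_lit 5) (nat_lit 220) (nat_lit 3) (nat_lit 235) (nat_lit 5) (nat_lit 291) (nat_lit 290) (nat_lit 199))) (XT.nd (nat_lit 78) (nat_lit 0) (nat_lit 0) (XT.lf (nat_lit 0) (nat_lit 4197846316) (nat_lit 1064) (nat_lit 4637193466) (nat_lit 1140) (nat_lit 1799395731) (nat_lit 221) (nat_lit 5) (nat_lit 235) (nat_lit 5) (nat_lit 236) (nat_lit 5) (nat_lit 292) (nat_lit 290) (nat_lit 198)) (XT.lf (nat_lit 76) (nat_lit 323176629) (nat_lit 0) (nat_lit 4627745085) (nat_lit 1140) (nat_lit 5826450168) (nat_lit 222) (nat_lit 5) (nat_lit 221) (nat_lit 5) (nat_lit 236) (nat_lit 5) (nat_lit 293) (nat_lit 290) (nat_lit 197))))) (XT.nd (nat_lit 234) (nat_lit 0) (nat_lit 152) (XT.nd (nat_lit 78) (nat_lit 0) (nat_lit 76) (XT.lf (nat_lit 76) (nat_lit 5514262465) (nat_lit 0) (nat_lit 236054771) (nat_lit 1140) (nat_lit 5173592251) (nat_lit 222) (nat_lit 5) (nat_lit 221) (nat_lit 5) (nat_lit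 236) (nat_lit 5) (nat_lit 294) (nat_lit 290) (nat_lit 196)) (XT.nd (nat_lit 78) (nat_lit 0) (nat_lit 0) (XT.lf (nat_lit 0) (nat_lit 6592574499) (nat_lit 1064) (nat_lit 268535349) (nat_lit 1140) (nat_lit 4213191229) (nat_lit 222) (nat_lit 5) (nat_lit 236) (nat_lit 5) (nat_lit 237) (nat_lit 5) (nat_lit 295) (nat_lit 290) (nat_lit 195)) (XT.lf (nat_lit 76) (nat_lit 5111042270) (nat_lit 0) (nat_lit 2378842222) (nat_lit 1140) (nat_lit 3738449918) (nat_lit 223) (nat_lit 5) (nat_lit 222) (nat_lit 5) (nat_lit 237) (nat_lit 5) (nat_lit 296) (nat_lit 290) (nat_lit 194)))) (XT.nd (nat_lit 156) (nat_lit 0) (nat_lit 76) (XT.nd (nat_lit 78) (nat_lit 0) (nat_lit 0) (XT.lf (nat_lit 0) (nat_lit 8417266161) (nat_lit 1064) (nat_lit 764706719) (nat_lit 1140) (nat_lit 2204944151) (nat_lit 223) (nat_lit 5) (nat_lit 237) (nat_lit 5) (nat_lit 238) (nat_lit 5) (nat_lit 297) (nat_lit 290) (nat_lit 193)) (XT.lf (nat_lit 76)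 (nat_lit 4805300830) (nat_lit 0) (nat_lit 4616429190) (nat_lit 1140) (nat_lit 2127071484) (nat_lit 224) (nat_lit 5) (nat_lit 223) (nat_lit 5) (nat_lit 238) (nat_lit 5) (nat_lit 298) (nat_lit 290) (nat_lit 192))) (XT.nd (nat_lit 78) (nat_lit 0) (nat_lit 0) (XT.lf (nat_lit 0) (nat_lit 10445004563) (nat_lit 1064) (nat_lit 1172057694) (nat_lit 1140) (nat_lit 98841499) (nat_lit 224) (nat_lit 5) (nat_lit 238) (nat_lit 5) (nat_lit 239) (nat_lit 5) (nat_lit 299) (nat_lit 290) (nat_lit 191)) (XT.lf (nat_lit 76) (nat_lit 4597003835) (nat_lit 0) (nat_lit 6972501795) (nat_lit 1140) (nat_lit 316418519) (nat_lit 225) (nat_lit 5) (nat_lit 224) (nat_lit 5) (nat_lit 239) (nat_lit 5) (nat_lit 300) (nat_lit 290) (nat_lit 190))))))) (XT.nd (nat_lit 1092) (nat_lit 3876) (nat_lit 0) (XT.nd (nat_lit 546) (nat_lit 2888) (nat_lit 0) (XT.nd (nat_lit 234) (nat_lit 0) (nat_lit 152) (XT.nd (nat_lit 78) (nat_lit 0) (nat_lit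 76) (XT.lf (nat_lit 0) (nat_lit 646499497) (nat_lit 1140) (nat_lit 1517842424) (nat_lit 1216) (nat_lit 9896746311) (nat_lit 209) (nat_lit 5) (nat_lit 224) (nat_lit 5) (nat_lit 225) (nat_lit 5) (nat_lit 301) (nat_lit 290) (nat_lit 189)) (XT.nd (nat_lit 78) (nat_lit 0) (nat_lit 0) (XT.lf (nat_lit 0) (nat_lit 1683906105) (nat_lit 1140) (nat_lit 7770390955) (nat_lit 1216) (nat_lit 2785576516) (nat_lit 210) (nat_lit 5) (nat_lit 225) (nat_lit 5) (nat_lit 226) (nat_lit 5) (nat_lit 302) (nat_lit 290) (nat_lit 188)) (XT.lf (nat_lit 0) (nat_lit 2771221436) (nat_lit 1140) (nat_lit 1791469519) (nat_lit 1216) (nat_lit 7860786518) (nat_lit 210) (nat_lit 5) (nat_lit 225) (nat_lit 5) (nat_lit 226) (nat_lit 5) (nat_lit 303) (nat_lit 290) (nat_lit 187)))) (XT.nd (nat_lit 156) (nat_lit 0) (nat_lit 0) (XT.nd (nat_lit 78) (nat_lit 0) (nat_lit 0) (XT.lf (nat_lit 0) (nat_lit 3921277050) (nat_lit 1140) (nat_lit 8176893474)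 (nat_lit 1216) (nat_lit 513533384) (nat_lit 211) (nat_lit 5) (nat_lit 226) (nat_lit 5) (nat_lit 227) (nat_lit 5) (nat_lit 304) (nat_lit 290) (nat_lit 186)) (XT.lf (nat_lit 0) (nat_lit 5152106716) (nat_lit 1140) (nat_lit 1979689385) (nat_lit 1216) (nat_lit 5672410384) (nat_lit 211) (nat_lit 5) (nat_lit 226) (nat_lit 5) (nat_lit 227) (nat_lit 5) (nat_lit 305) (nat_lit 290) (nat_lit 185))) (XT.nd (nat_lit 78) (nat_lit 0) (nat_lit 76) (XT.lf (nat_lit 76) (nat_lit 4477301192) (nat_lit 0) (nat_lit 1968926583) (nat_lit 1216) (nat_lit 6555482378) (nat_lit 212) (nat_lit 5) (nat_lit 211) (nat_lit 5) (nat_lit 227) (nat_lit 5) (nat_lit 306) (nat_lit 290) (nat_lit 184)) (XT.lf (nat_lit 0) (nat_lit 7815265786) (nat_lit 1140) (nat_lit 2082244837) (nat_lit 76) (nat_lit 3306562025) (nat_lit 212) (nat_lit 5) (nat_lit 227) (nat_lit 5) (nat_lit 213) (nat_lit 5) (nat_lit 307) (nat_lit 290) (nat_lit 183))))) (XT.nd (nat_lit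 234) (nat_lit 1216) (nat_lit 0) (XT.nd (nat_lit 78) (nat_lit 760) (nat_lit 0) (XT.lf (nat_lit 0) (nat_lit 4610155591) (nat_lit 1140) (nat_lit 4663217083) (nat_lit 1216) (nat_lit 4137709444) (nat_lit 197) (nat_lit 5) (nat_lit 212) (nat_lit 5) (nat_lit 213) (nat_lit 5) (nat_lit 308) (nat_lit 290) (nat_lit 182)) (XT.nd (nat_lit 78) (nat_lit 760) (nat_lit 0) (XT.lf (nat_lit 0) (nat_lit 10787996770) (nat_lit 1216) (nat_lit 2098729299) (nat_lit 76) (nat_lit 737208151) (nat_lit 197) (nat_lit 5) (nat_lit 213) (nat_lit 5) (nat_lit 198) (nat_lit 5) (nat_lit 309) (nat_lit 290) (nat_lit 181)) (XT.lf (nat_lit 0) (nat_lit 4839336996) (nat_lit 760) (nat_lit 7586402244) (nat_lit 836) (nat_lit 1415117370) (nat_lit 187) (nat_lit 5) (nat_lit 197) (nat_lit 5) (nat_lit 198) (nat_lit 5) (nat_lit 310) (nat_lit 290) (nat_lit 180)))) (XT.nd (nat_lit 156) (nat_lit 532) (nat_lit 0) (XT.nd (nat_lit 78) (nat_lit 608) (nat_lit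 0) (XT.lf (nat_lit 0) (nat_lit 53926796) (nat_lit 836) (nat_lit 2049395410) (nat_lit 76) (nat_lit 11960768497) (nat_lit 186) (nat_lit 5) (nat_lit 197) (nat_lit 5) (nat_lit 187) (nat_lit 5) (nat_lit 311) (nat_lit 290) (nat_lit 179)) (XT.lf (nat_lit 0) (nat_lit 1608728978) (nat_lit 684) (nat_lit 9142042248) (nat_lit 76) (nat_lit 3540740218) (nat_lit 178) (nat_lit 5) (nat_lit 187) (nat_lit 5) (nat_lit 179) (nat_lit 5) (nat_lit 312) (nat_lit 290) (nat_lit 178))) (XT.nd (nat_lit 78) (nat_lit 532) (nat_lit 0) (XT.lf (nat_lit 0) (nat_lit 3237776469) (nat_lit 684) (nat_lit 1953411069) (nat_lit 76) (nat_lit 9333752659) (nat_lit 178) (nat_lit 5) (nat_lit 187) (nat_lit 5) (nat_lit 179) (nat_lit 5) (nat_lit 313) (nat_lit 290) (nat_lit 177)) (XT.lf (nat_lit 0) (nat_lit 4960971815) (nat_lit 608) (nat_lit 9223936946) (nat_lit 76) (nat_lit 579117798) (nat_lit 171) (nat_lit 5) (nat_lit 179) (nat_lit 5) (nat_lit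 172) (nat_lit 5) (nat_lit 314) (nat_lit 290) (nat_lit 176)))))) (XT.nd (nat_lit 546) (nat_lit 2204) (nat_lit 0) (XT.nd (nat_lit 234) (nat_lit 1140) (nat_lit 0) (XT.nd (nat_lit 78) (nat_lit 532) (nat_lit 0) (XT.lf (nat_lit 0) (nat_lit 6793747685) (nat_lit 608) (nat_lit 1776301946) (nat_lit 76) (nat_lit 6438511997) (nat_lit 171) (nat_lit 5) (nat_lit 179) (nat_lit 5) (nat_lit 172) (nat_lit 5) (nat_lit 315) (nat_lit 290) (nat_lit 175)) (XT.nd (nat_lit 78) (nat_lit 0) (nat_lit 0) (XT.lf (nat_lit 0) (nat_lit 5998757989) (nat_lit 532) (nat_lit 2727369701) (nat_lit 608) (nat_lit 6532978721) (nat_lit 164) (nat_lit 5) (nat_lit 171) (nat_lit 5) (nat_lit 172) (nat_lit 5) (nat_lit 316) (nat_lit 290) (nat_lit 174)) (XT.lf (nat_lit 0) (nat_lit 10753436318) (nat_lit 608) (nat_lit 1518283599) (nat_lit 76) (nat_lit 3244350835) (nat_lit 164) (nat_lit 5) (nat_lit 172) (nat_lit 5) (nat_lit 165) (nat_lit 5) (nat_lit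 317) (nat_lit 290) (nat_lit 173)))) (XT.nd (nat_lit 156) (nat_lit 608) (nat_lit 0) (XT.nd (nat_lit 78) (nat_lit 0) (nat_lit 0) (XT.lf (nat_lit 0) (nat_lit 6543793083) (nat_lit 532) (nat_lit 6375261500) (nat_lit 608) (nat_lit 2859376311) (nat_lit 157) (nat_lit 5) (nat_lit 164) (nat_lit 5) (nat_lit 165) (nat_lit 5) (nat_lit 318) (nat_lit 290) (nat_lit 172)) (XT.lf (nat_lit 0) (nat_lit 14866042850) (nat_lit 532) (nat_lit 286752486) (nat_lit 608) (nat_lit 895783134) (nat_lit 157) (nat_lit 5) (nat_lit 164) (nat_lit 5) (nat_lit 165) (nat_lit 5) (nat_lit 319) (nat_lit 290) (nat_lit 171))) (XT.nd (nat_lit 78) (nat_lit 0) (nat_lit 0) (XT.lf (nat_lit 0) (nat_lit 1220581038) (nat_lit 608) (nat_lit 9154435557) (nat_lit 76) (nat_lit 5948024070) (nat_lit 149) (nat_lit 5) (nat_lit 157) (nat_lit 5) (nat_lit 150) (nat_lit 5) (nat_lit 320) (nat_lit 290) (nat_lit 170)) (XT.lf (nat_lit 0) (nat_lit 3385598857) (nat_lit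 608) (nat_lit 835601450) (nat_lit 76) (nat_lit 12384185625) (nat_lit 149) (nat_lit 5) (nat_lit 157) (nat_lit 5) (nat_lit 150) (nat_lit 5) (nat_lit 321) (nat_lit 290) (nat_lit 169))))) (XT.nd (nat_lit 312) (nat_lit 912) (nat_lit 0) (XT.nd (nat_lit 156) (nat_lit 836) (nat_lit 0) (XT.nd (nat_lit 78) (nat_lit 0) (nat_lit 0) (XT.lf (nat_lit 0) (nat_lit 5700956558) (nat_lit 532) (nat_lit 9041468206) (nat_lit 76) (nat_lit 2151225103) (nat_lit 143) (nat_lit 5) (nat_lit 150) (nat_lit 5) (nat_lit 144) (nat_lit 5) (nat_lit 322) (nat_lit 290) (nat_lit 168)) (XT.lf (nat_lit 0) (nat_lit 8124901097) (nat_lit 532) (nat_lit 427210165) (nat_lit 76) (nat_lit 8637286378) (nat_lit 143) (nat_lit 5) (nat_lit 150) (nat_lit 5) (nat_lit 144) (nat_lit 5) (nat_lit 323) (nat_lit 290) (nat_lit 167))) (XT.nd (nat_lit 78) (nat_lit 380) (nat_lit 0) (XT.lf (nat_lit 0) (nat_lit 8600930900) (nat_lit 456) (nat_lit 2092446949) (nat_lit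 532) (nat_lit 6798494996) (nat_lit 137) (nat_lit 5) (nat_lit 143) (nat_lit 5) (nat_lit 144) (nat_lit 5) (nat_lit 324) (nat_lit 290) (nat_lit 166)) (XT.lf (nat_lit 0) (nat_lit 49896187) (nat_lit 380) (nat_lit 13327011970) (nat_lit 456) (nat_lit 4425383317) (nat_lit 132) (nat_lit 5) (nat_lit 137) (nat_lit 5) (nat_lit 138) (nat_lit 5) (nat_lit 325) (nat_lit 290) (nat_lit 165)))) (XT.nd (nat_lit 156) (nat_lit 380) (nat_lit 0) (XT.nd (nat_lit 78) (nat_lit 532) (nat_lit 0) (XT.lf (nat_lit 0) (nat_lit 9407636443) (nat_lit 380) (nat_lit 6833114335) (nat_lit 456) (nat_lit 1878286570) (nat_lit 132) (nat_lit 5) (nat_lit 137) (nat_lit 5) (nat_lit 138) (nat_lit 5) (nat_lit 326) (nat_lit 290) (nat_lit 164)) (XT.lf (nat_lit 0) (nat_lit 592930352) (nat_lit 456) (nat_lit 133157711) (nat_lit 532) (nat_lit 17719128786) (nat_lit 125) (nat_lit 5) (nat_lit 131) (nat_lit 5) (nat_lit 132) (nat_lit 5) (nat_lit 327) (nat_lit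 290) (nat_lit 163))) (XT.nd (nat_lit 78) (nat_lit 380) (nat_lit 0) (XT.lf (nat_lit 0) (nat_lit 3514607672) (nat_lit 532) (nat_lit 8520570617) (nat_lit 76) (nat_lit 6741140701) (nat_lit 125) (nat_lit 5) (nat_lit 132) (nat_lit 5) (nat_lit 126) (nat_lit 5) (nat_lit 328) (nat_lit 290) (nat_lit 162)) (XT.lf (nat_lit 0) (nat_lit 1099118761) (nat_lit 380) (nat_lit 5289713131) (nat_lit 456) (nat_lit 12728468720) (nat_lit 120) (nat_lit 5) (nat_lit 125) (nat_lit 5) (nat_lit 126) (nat_lit 5) (nat_lit 329) (nat_lit 290) (nat_lit 161))))))))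
noncomputable def xc175 : XT := (XT.nd (nat_lit 2184) (nat_lit 2356) (nat_lit 0) (XT.nd (nat_lit 1092) (nat_lit 1900) (nat_lit 0) (XT.nd (nat_lit 546) (nat_lit 1292) (nat_lit 0) (XT.nd (nat_lit 234) (nat_lit 836) (nat_lit 0) (XT.nd (nat_lit 78) (nat_lit 380) (nat_lit 0) (XT.lf (nat_lit 0) (nat_lit 9442428699) (nat_lit 456) (nat_lit 8312922868) (nat_lit 76) (nat_lit 1710373398) (nat_lit 120) (nat_lit 5) (nat_lit 126) (nat_lit 5) (nat_lit 121) (nat_lit 5) (nat_lit 330) (nat_lit 290) (nat_lit 160)) (XT.nd (nat_lit 78) (nat_lit 0) (nat_lit 0) (XT.lf (nat_lit 0) (nat_lit 1651439352) (nat_lit 380) (nat_lit 10995038299) (nat_lit 456) (nat_lit 7176366504) (nat_lit 115) (nat_lit 5) (nat_lit 120) (nat_lit 5) (nat_lit 121) (nat_lit 5) (nat_lit 331) (nat_lit 290) (nat_lit 159)) (XT.lf (nat_lit 0) (nat_lit 12073349275) (nat_lit 380) (nat_lit 3947999784) (nat_lit 456) (nat_lit 4167094052) (nat_lit 115) (nat_lit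 5) (nat_lit 120) (nat_lit 5) (nat_lit 121) (nat_lit 5) (nat_lit 332) (nat_lit 290) (nat_lit 158)))) (XT.nd (nat_lit 156) (nat_lit 380) (nat_lit 0) (XT.nd (nat_lit 78) (nat_lit 76) (nat_lit 0) (XT.lf (nat_lit 0) (nat_lit 2243157474) (nat_lit 380) (nat_lit 17298696025) (nat_lit 456) (nat_lit 1021831937) (nat_lit 110) (nat_lit 5) (nat_lit 115) (nat_lit 5) (nat_lit 116) (nat_lit 5) (nat_lit 333) (nat_lit 290) (nat_lit 157)) (XT.lf (nat_lit 0) (nat_lit 2287416669) (nat_lit 456) (nat_lit 7942206895) (nat_lit 76) (nat_lit 10716541341) (nat_lit 109) (nat_lit 5) (nat_lit 115) (nat_lit 5) (nat_lit 110) (nat_lit 5) (nat_lit 334) (nat_lit 290) (nat_lit 156))) (XT.nd (nat_lit 78) (nat_lit 0) (nat_lit 0) (XT.lf (nat_lit 0) (nat_lit 2780171745) (nat_lit 380) (nat_lit 2913276986) (nat_lit 456) (nat_lit 15645831611) (nat_lit 104) (nat_lit 5) (nat_lit 109) (nat_lit 5) (nat_lit 110) (nat_lit 5) (nat_lit 335) (nat_lit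 290) (nat_lit 155)) (XT.lf (nat_lit 0) (nat_lit 9318527897) (nat_lit 456) (nat_lit 7811532652) (nat_lit 76) (nat_lit 4610628937) (nat_lit 104) (nat_lit 5) (nat_lit 110) (nat_lit 5) (nat_lit 105) (nat_lit 5) (nat_lit 336) (nat_lit 290) (nat_lit 154))))) (XT.nd (nat_lit 234) (nat_lit 684) (nat_lit 0) (XT.nd (nat_lit 78) (nat_lit 304) (nat_lit 0) (XT.lf (nat_lit 0) (nat_lit 3282465682) (nat_lit 304) (nat_lit 9821977055) (nat_lit 380) (nat_lit 9048141712) (nat_lit 100) (nat_lit 5) (nat_lit 104) (nat_lit 5) (nat_lit 105) (nat_lit 5) (nat_lit 337) (nat_lit 290) (nat_lit 153)) (XT.nd (nat_lit 78) (nat_lit 304) (nat_lit 0) (XT.lf (nat_lit 0) (nat_lit 14858309370) (nat_lit 304) (nat_lit 2216328147) (nat_lit 380) (nat_lit 5500083537) (nat_lit 100) (nat_lit 5) (nat_lit 104) (nat_lit 5) (nat_lit 105) (nat_lit 5) (nat_lit 338) (nat_lit 290) (nat_lit 152)) (XT.lf (nat_lit 0) (nat_lit 3780686085) (nat_lit 304)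 (nat_lit 17465625328) (nat_lit 380) (nat_lit 1760744847) (nat_lit 96) (nat_lit 5) (nat_lit 100) (nat_lit 5) (nat_lit 101) (nat_lit 5) (nat_lit 339) (nat_lit 290) (nat_lit 151)))) (XT.nd (nat_lit 156) (nat_lit 304) (nat_lit 0) (XT.nd (nat_lit 78) (nat_lit 304) (nat_lit 0) (XT.lf (nat_lit 0) (nat_lit 2142688033) (nat_lit 380) (nat_lit 7723013200) (nat_lit 76) (nat_lit 13583281348) (nat_lit 95) (nat_lit 5) (nat_lit 100) (nat_lit 5) (nat_lit 96) (nat_lit 5) (nat_lit 340) (nat_lit 290) (nat_lit 150)) (XT.lf (nat_lit 0) (nat_lit 4178825372) (nat_lit 304) (nat_lit 1981486104) (nat_lit 380) (nat_lit 17742363132) (nat_lit 91) (nat_lit 5) (nat_lit 95) (nat_lit 5) (nat_lit 96) (nat_lit 5) (nat_lit 341) (nat_lit 290) (nat_lit 149))) (XT.nd (nat_lit 78) (nat_lit 304) (nat_lit 0) (XT.lf (nat_lit 0) (nat_lit 10428637291) (nat_lit 380) (nat_lit 7842218469) (nat_lit 76) (nat_lit 6095221489) (nat_lit 91) (nat_lit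 5) (nat_lit 96) (nat_lit 5) (nat_lit 92) (nat_lit 5) (nat_lit 342) (nat_lit 290) (nat_lit 148)) (XT.lf (nat_lit 0) (nat_lit 4452616947) (nat_lit 304) (nat_lit 10427437193) (nat_lit 380) (nat_lit 9961681507) (nat_lit 87) (nat_lit 5) (nat_lit 91) (nat_lit 5) (nat_lit 92) (nat_lit 5) (nat_lit 343) (nat_lit 290) (nat_lit 147)))))) (XT.nd (nat_lit 546) (nat_lit 1064) (nat_lit 0) (XT.nd (nat_lit 234) (nat_lit 532) (nat_lit 0) (XT.nd (nat_lit 78) (nat_lit 304) (nat_lit 0) (XT.lf (nat_lit 0) (nat_lit 17266646082) (nat_lit 304) (nat_lit 2270294604) (nat_lit 380) (nat_lit 5792570067) (nat_lit 87) (nat_lit 5) (nat_lit 91) (nat_lit 5) (nat_lit 92) (nat_lit 5) (nat_lit 344) (nat_lit 290) (nat_lit 146)) (XT.nd (nat_lit 78) (nat_lit 76) (nat_lit 0) (XT.lf (nat_lit 0) (nat_lit 4654775279) (nat_lit 228) (nat_lit 19775361800) (nat_lit 304) (nat_lit 1398888569) (nat_lit 84) (nat_lit 5) (nat_lit 87) (nat_lit 5) (nat_lit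 88) (nat_lit 5) (nat_lit 345) (nat_lit 290) (nat_lit 145)) (XT.lf (nat_lit 0) (nat_lit 3163248711) (nat_lit 304) (nat_lit 8485533789) (nat_lit 76) (nat_lit 14690916512) (nat_lit 83) (nat_lit 5) (nat_lit 87) (nat_lit 5) (nat_lit 84) (nat_lit 5) (nat_lit 346) (nat_lit 290) (nat_lit 144)))) (XT.nd (nat_lit 156) (nat_lit 228) (nat_lit 0) (XT.nd (nat_lit 78) (nat_lit 0) (nat_lit 0) (XT.lf (nat_lit 0) (nat_lit 4650710578) (nat_lit 304) (nat_lit 3221287192) (nat_lit 380) (nat_lit 18992147620) (nat_lit 79) (nat_lit 5) (nat_lit 83) (nat_lit 5) (nat_lit 84) (nat_lit 5) (nat_lit 347) (nat_lit 290) (nat_lit 143)) (XT.lf (nat_lit 0) (nat_lit 12854251960) (nat_lit 380) (nat_lit 9110203644) (nat_lit 76) (nat_lit 5435906390) (nat_lit 79) (nat_lit 5) (nat_lit 84) (nat_lit 5) (nat_lit 80) (nat_lit 5) (nat_lit 348) (nat_lit 290) (nat_lit 142))) (XT.nd (nat_lit 78) (nat_lit 0) (nat_lit 0) (XT.lf (nat_lit 0) (nat_lit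 4430874841) (nat_lit 228) (nat_lit 13623013741) (nat_lit 304) (nat_lit 9896743067) (nat_lit 76) (nat_lit 5) (nat_lit 79) (nat_lit 5) (nat_lit 80) (nat_lit 5) (nat_lit 349) (nat_lit 290) (nat_lit 141)) (XT.lf (nat_lit 0) (nat_lit 18555214168) (nat_lit 228) (nat_lit 4939821873) (nat_lit 304) (nat_lit 5019811581) (nat_lit 76) (nat_lit 5) (nat_lit 79) (nat_lit 5) (nat_lit 80) (nat_lit 5) (nat_lit 350) (nat_lit 290) (nat_lit 140))))) (XT.nd (nat_lit 234) (nat_lit 532) (nat_lit 0) (XT.nd (nat_lit 78) (nat_lit 228) (nat_lit 0) (XT.lf (nat_lit 0) (nat_lit 75048240) (nat_lit 304) (nat_lit 25056598618) (nat_lit 76) (nat_lit 3962195265) (nat_lit 72) (nat_lit 5) (nat_lit 76) (nat_lit 5) (nat_lit 73) (nat_lit 5) (nat_lit 351) (nat_lit 290) (nat_lit 139)) (XT.nd (nat_lit 78) (nat_lit 228) (nat_lit 0) (XT.lf (nat_lit 0) (nat_lit 5366050417) (nat_lit 304) (nat_lit 11138240949) (nat_lit 76) (nat_lit 13180101919)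 (nat_lit 72) (nat_lit 5) (nat_lit 76) (nat_lit 5) (nat_lit 73) (nat_lit 5) (nat_lit 352) (nat_lit 290) (nat_lit 138)) (XT.lf (nat_lit 0) (nat_lit 3251766597) (nat_lit 228) (nat_lit 7589169308) (nat_lit 304) (nat_lit 19450973925) (nat_lit 69) (nat_lit 5) (nat_lit 72) (nat_lit 5) (nat_lit 73) (nat_lit 5) (nat_lit 353) (nat_lit 290) (nat_lit 137)))) (XT.nd (nat_lit 156) (nat_lit 304) (nat_lit 0) (XT.nd (nat_lit 78) (nat_lit 228) (nat_lit 0) (XT.lf (nat_lit 0) (nat_lit 16602925594) (nat_lit 304) (nat_lit 12638326089) (nat_lit 76) (nat_lit 1672717808) (nat_lit 69) (nat_lit 5) (nat_lit 73) (nat_lit 5) (nat_lit 70) (nat_lit 5) (nat_lit 354) (nat_lit 290) (nat_lit 136)) (XT.lf (nat_lit 0) (nat_lit 2153282375) (nat_lit 228) (nat_lit 20474460519) (nat_lit 304) (nat_lit 8924252259) (nat_lit 66) (nat_lit 5) (nat_lit 69) (nat_lit 5) (nat_lit 70) (nat_lit 5) (nat_lit 355) (nat_lit 290) (nat_lit 135))) (XT.nd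 (nat_lit 78) (nat_lit 304) (nat_lit 0) (XT.lf (nat_lit 0) (nat_lit 17638660811) (nat_lit 228) (nat_lit 11316479172) (nat_lit 304) (nat_lit 3250369699) (nat_lit 66) (nat_lit 5) (nat_lit 69) (nat_lit 5) (nat_lit 70) (nat_lit 5) (nat_lit 356) (nat_lit 290) (nat_lit 134)) (XT.lf (nat_lit 0) (nat_lit 689590942) (nat_lit 228) (nat_lit 1854477044) (nat_lit 304) (nat_lit 30333788110) (nat_lit 62) (nat_lit 5) (nat_lit 65) (nat_lit 5) (nat_lit 66) (nat_lit 5) (nat_lit 357) (nat_lit 290) (nat_lit 133))))))) (XT.nd (nat_lit 1092) (nat_lit 1064) (nat_lit 0) (XT.nd (nat_lit 546) (nat_lit 608) (nat_lit 0) (XT.nd (nat_lit 234) (nat_lit 456) (nat_lit 0) (XT.nd (nat_lit 78) (nat_lit 228) (nat_lit 0) (XT.lf (nat_lit 0) (nat_lit 8665791953) (nat_lit 304) (nat_lit 16982081470) (nat_lit 76) (nat_lit 7914973439) (nat_lit 62) (nat_lit 5) (nat_lit 66) (nat_lit 5) (nat_lit 63) (nat_lit 5) (nat_lit 358) (nat_lit 290) (nat_lit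 132)) (XT.nd (nat_lit 78) (nat_lit 228) (nat_lit 0) (XT.lf (nat_lit 0) (nat_lit 14984065234) (nat_lit 304) (nat_lit 1346769003) (nat_lit 76) (nat_lit 17937168989) (nat_lit 62) (nat_lit 5) (nat_lit 66) (nat_lit 5) (nat_lit 63) (nat_lit 5) (nat_lit 359) (nat_lit 290) (nat_lit 131)) (XT.lf (nat_lit 0) (nat_lit 15042697752) (nat_lit 228) (nat_lit 6588484141) (nat_lit 304) (nat_lit 13358956253) (nat_lit 59) (nat_lit 5) (nat_lit 62) (nat_lit 5) (nat_lit 63) (nat_lit 5) (nat_lit 360) (nat_lit 290) (nat_lit 130)))) (XT.nd (nat_lit 156) (nat_lit 304) (nat_lit 0) (XT.nd (nat_lit 78) (nat_lit 152) (nat_lit 0) (XT.lf (nat_lit 0) (nat_lit 28519312433) (nat_lit 304) (nat_lit 3823823194) (nat_lit 76) (nat_lit 3389556119) (nat_lit 59) (nat_lit 5) (nat_lit 63) (nat_lit 5) (nat_lit 60) (nat_lit 5) (nat_lit 361) (nat_lit 290) (nat_lit 129)) (XT.lf (nat_lit 0) (nat_lit 12962982739) (nat_lit 152) (nat_lit 22835837629)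 (nat_lit 228) (nat_lit 693162146) (nat_lit 57) (nat_lit 5) (nat_lit 59) (nat_lit 5) (nat_lit 60) (nat_lit 5) (nat_lit 362) (nat_lit 290) (nat_lit 128))) (XT.nd (nat_lit 78) (nat_lit 228) (nat_lit 0) (XT.lf (nat_lit 0) (nat_lit 5939043977) (nat_lit 228) (nat_lit 7007656602) (nat_lit 76) (nat_lit 24324599853) (nat_lit 56) (nat_lit 5) (nat_lit 59) (nat_lit 5) (nat_lit 57) (nat_lit 5) (nat_lit 363) (nat_lit 290) (nat_lit 127)) (XT.lf (nat_lit 0) (nat_lit 10193348894) (nat_lit 228) (nat_lit 2655979287) (nat_lit 304) (nat_lit 25221674848) (nat_lit 53) (nat_lit 5) (nat_lit 56) (nat_lit 5) (nat_lit 57) (nat_lit 5) (nat_lit 364) (nat_lit 290) (nat_lit 126))))) (XT.nd (nat_lit 234) (nat_lit 456) (nat_lit 0) (XT.nd (nat_lit 78) (nat_lit 152) (nat_lit 0) (XT.lf (nat_lit 0) (nat_lit 20109839637) (nat_lit 304) (nat_lit 10923661434) (nat_lit 76) (nat_lit 7856910352) (nat_lit 53) (nat_lit 5) (nat_lit 57) (nat_lit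 5) (nat_lit 54) (nat_lit 5) (nat_lit 365) (nat_lit 290) (nat_lit 125)) (XT.nd (nat_lit 78) (nat_lit 0) (nat_lit 0) (XT.lf (nat_lit 0) (nat_lit 6634283653) (nat_lit 152) (nat_lit 21039192275) (nat_lit 228) (nat_lit 12058369068) (nat_lit 51) (nat_lit 5) (nat_lit 53) (nat_lit 5) (nat_lit 54) (nat_lit 5) (nat_lit 366) (nat_lit 290) (nat_lit 124)) (XT.lf (nat_lit 0) (nat_lit 24935138863) (nat_lit 152) (nat_lit 10634494006) (nat_lit 228) (nat_lit 5025722511) (nat_lit 51) (nat_lit 5) (nat_lit 53) (nat_lit 5) (nat_lit 54) (nat_lit 5) (nat_lit 367) (nat_lit 290) (nat_lit 123)))) (XT.nd (nat_lit 156) (nat_lit 152) (nat_lit 0) (XT.nd (nat_lit 78) (nat_lit 0) (nat_lit 0) (XT.lf (nat_lit 0) (nat_lit 2193479615) (nat_lit 304) (nat_lit 39168285984) (nat_lit 76) (nat_lit 121802240) (nat_lit 47) (nat_lit 5) (nat_lit 51) (nat_lit 5) (nat_lit 48) (nat_lit 5) (nat_lit 368) (nat_lit 290) (nat_lit 122)) (XT.lf (nat_lit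 0) (nat_lit 9788667350) (nat_lit 304) (nat_lit 21406890881) (nat_lit 76) (nat_lit 11193564972) (nat_lit 47) (nat_lit 5) (nat_lit 51) (nat_lit 5) (nat_lit 48) (nat_lit 5) (nat_lit 369) (nat_lit 290) (nat_lit 121))) (XT.nd (nat_lit 78) (nat_lit 152) (nat_lit 0) (XT.lf (nat_lit 0) (nat_lit 17607270303) (nat_lit 304) (nat_lit 3120086188) (nat_lit 76) (nat_lit 22594623857) (nat_lit 47) (nat_lit 5) (nat_lit 51) (nat_lit 5) (nat_lit 48) (nat_lit 5) (nat_lit 370) (nat_lit 290) (nat_lit 120)) (XT.lf (nat_lit 0) (nat_lit 16020728982) (nat_lit 152) (nat_lit 9789392329) (nat_lit 228) (nat_lit 18468213051) (nat_lit 45) (nat_lit 5) (nat_lit 47) (nat_lit 5) (nat_lit 48) (nat_lit 5) (nat_lit 371) (nat_lit 290) (nat_lit 119)))))) (XT.nd (nat_lit 546) (nat_lit 532) (nat_lit 0) (XT.nd (nat_lit 234) (nat_lit 304) (nat_lit 0) (XT.nd (nat_lit 78) (nat_lit 228) (nat_lit 0) (XT.lf (nat_lit 0) (nat_lit 34300789611) (nat_lit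 228) (nat_lit 9484460156) (nat_lit 76) (nat_lit 1476879076) (nat_lit 45) (nat_lit 5) (nat_lit 48) (nat_lit 5) (nat_lit 46) (nat_lit 5) (nat_lit 372) (nat_lit 290) (nat_lit 118)) (XT.nd (nat_lit 78) (nat_lit 76) (nat_lit 0) (XT.lf (nat_lit 0) (nat_lit 9941921838) (nat_lit 152) (nat_lit 33292591363) (nat_lit 228) (nat_lit 3035275646) (nat_lit 43) (nat_lit 5) (nat_lit 45) (nat_lit 5) (nat_lit 46) (nat_lit 5) (nat_lit 373) (nat_lit 290) (nat_lit 117)) (XT.lf (nat_lit 0) (nat_lit 5121070250) (nat_lit 228) (nat_lit 17216585992) (nat_lit 76) (nat_lit 24965767770) (nat_lit 42) (nat_lit 5) (nat_lit 45) (nat_lit 5) (nat_lit 43) (nat_lit 5) (nat_lit 374) (nat_lit 290) (nat_lit 116)))) (XT.nd (nat_lit 156) (nat_lit 152) (nat_lit 0) (XT.nd (nat_lit 78) (nat_lit 0) (nat_lit 0) (XT.lf (nat_lit 0) (nat_lit 2479520167) (nat_lit 152) (nat_lit 11001390287) (nat_lit 228) (nat_lit 34885663510) (nat_lit 40) (nat_lit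 5) (nat_lit 42) (nat_lit 5) (nat_lit 43) (nat_lit 5) (nat_lit 375) (nat_lit 290) (nat_lit 115)) (XT.lf (nat_lit 0) (nat_lit 22269609512) (nat_lit 228) (nat_lit 26352051717) (nat_lit 76) (nat_lit 834616827) (nat_lit 40) (nat_lit 5) (nat_lit 43) (nat_lit 5) (nat_lit 41) (nat_lit 5) (nat_lit 376) (nat_lit 290) (nat_lit 114))) (XT.nd (nat_lit 78) (nat_lit 152) (nat_lit 0) (XT.lf (nat_lit 0) (nat_lit 31427011091) (nat_lit 228) (nat_lit 6346596147) (nat_lit 76) (nat_lit 12801916295) (nat_lit 40) (nat_lit 5) (nat_lit 43) (nat_lit 5) (nat_lit 41) (nat_lit 5) (nat_lit 377) (nat_lit 290) (nat_lit 113)) (XT.lf (nat_lit 0) (nat_lit 14536199103) (nat_lit 152) (nat_lit 26458896443) (nat_lit 228) (nat_lit 10729173466) (nat_lit 38) (nat_lit 5) (nat_lit 40) (nat_lit 5) (nat_lit 41) (nat_lit 5) (nat_lit 378) (nat_lit 290) (nat_lit 112))))) (XT.nd (nat_lit 312) (nat_lit 304) (nat_lit 0) (XT.nd (nat_lit 156) (nat_lit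 0) (nat_lit 0) (XT.nd (nat_lit 78) (nat_lit 228) (nat_lit 0) (XT.lf (nat_lit 0) (nat_lit 36169163128) (nat_lit 152) (nat_lit 14741425727) (nat_lit 228) (nat_lit 1995078431) (nat_lit 38) (nat_lit 5) (nat_lit 40) (nat_lit 5) (nat_lit 41) (nat_lit 5) (nat_lit 379) (nat_lit 290) (nat_lit 111)) (XT.lf (nat_lit 0) (nat_lit 4339692056) (nat_lit 152) (nat_lit 2562797093) (nat_lit 228) (nat_lit 47216858793) (nat_lit 35) (nat_lit 5) (nat_lit 37) (nat_lit 5) (nat_lit 38) (nat_lit 5) (nat_lit 380) (nat_lit 290) (nat_lit 110))) (XT.nd (nat_lit 78) (nat_lit 0) (nat_lit 0) (XT.lf (nat_lit 0) (nat_lit 16289879601) (nat_lit 228) (nat_lit 29096808218) (nat_lit 76) (nat_lit 9974270053) (nat_lit 35) (nat_lit 5) (nat_lit 38) (nat_lit 5) (nat_lit 36) (nat_lit 5) (nat_lit 381) (nat_lit 290) (nat_lit 109)) (XT.lf (nat_lit 0) (nat_lit 25980742146) (nat_lit 228) (nat_lit 7824988741) (nat_lit 76) (nat_lit 22833430964) (nat_lit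 35) (nat_lit 5) (nat_lit 38) (nat_lit 5) (nat_lit 36) (nat_lit 5) (nat_lit 382) (nat_lit 290) (nat_lit 108)))) (XT.nd (nat_lit 156) (nat_lit 152) (nat_lit 0) (XT.nd (nat_lit 78) (nat_lit 0) (nat_lit 0) (XT.lf (nat_lit 0) (nat_lit 14359224941) (nat_lit 152) (nat_lit 21737714068) (nat_lit 228) (nat_lit 21854735913) (nat_lit 33) (nat_lit 5) (nat_lit 35) (nat_lit 5) (nat_lit 36) (nat_lit 5) (nat_lit 383) (nat_lit 290) (nat_lit 107)) (XT.lf (nat_lit 0) (nat_lit 37363467494) (nat_lit 152) (nat_lit 9228793026) (nat_lit 228) (nat_lit 12709034891) (nat_lit 33) (nat_lit 5) (nat_lit 35) (nat_lit 5) (nat_lit 36) (nat_lit 5) (nat_lit 384) (nat_lit 290) (nat_lit 106))) (XT.nd (nat_lit 78) (nat_lit 76) (nat_lit 0) (XT.lf (nat_lit 0) (nat_lit 331966540) (nat_lit 76) (nat_lit 57105500643) (nat_lit 152) (nat_lit 3252887721) (nat_lit 32) (nat_lit 5) (nat_lit 33) (nat_lit 5) (nat_lit 34) (nat_lit 4) (nat_lit 385) (nat_lit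 290) (nat_lit 105)) (XT.lf (nat_lit 0) (nat_lit 6672160907) (nat_lit 152) (nat_lit 38556621522) (nat_lit 76) (nat_lit 16881080127) (nat_lit 31) (nat_lit 5) (nat_lit 33) (nat_lit 5) (nat_lit 32) (nat_lit 5) (nat_lit 386) (nat_lit 290) (nat_lit 104))))))))
noncomputable def xc176 : XT := (XT.nd (nat_lit 33930) (nat_lit 0) (nat_lit 7980) (XT.nd (nat_lit 1092) (nat_lit 76) (nat_lit 0) (XT.nd (nat_lit 546) (nat_lit 456) (nat_lit 0) (XT.nd (nat_lit 234) (nat_lit 152) (nat_lit 0) (XT.nd (nat_lit 78) (nat_lit 152) (nat_lit 0) (XT.lf (nat_lit 0) (nat_lit 16826381263) (nat_lit 152) (nat_lit 16138655075) (nat_lit 76) (nat_lit 30606049951) (nat_lit 31) (nat_lit 5) (nat_lit 33) (nat_lit 5) (nat_lit 32) (nat_lit 5) (nat_lit 387) (nat_lit 290) (nat_lit 103)) (XT.nd (nat_lit 78) (nat_lit 0) (nat_lit 0) (XT.lf (nat_lit 0) (nat_lit 7084614584) (nat_lit 152) (nat_lit 20265608584) (nat_lit 228) (nat_lit 37723974742)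 (nat_lit 29) (nat_lit 5) (nat_lit 31) (nat_lit 5) (nat_lit 32) (nat_lit 5) (nat_lit 388) (nat_lit 290) (nat_lit 102)) (XT.lf (nat_lit 0) (nat_lit 31329980560) (nat_lit 152) (nat_lit 7019700141) (nat_lit 228) (nat_lit 28267926166) (nat_lit 29) (nat_lit 5) (nat_lit 31) (nat_lit 5) (nat_lit 32) (nat_lit 5) (nat_lit 389) (nat_lit 290) (nat_lit 101)))) (XT.nd (nat_lit 156) (nat_lit 76) (nat_lit 0) (XT.nd (nat_lit 78) (nat_lit 76) (nat_lit 0) (XT.lf (nat_lit 0) (nat_lit 49739790858) (nat_lit 228) (nat_lit 11973619119) (nat_lit 76) (nat_lit 6492089013) (nat_lit 29) (nat_lit 5) (nat_lit 32) (nat_lit 5) (nat_lit 30) (nat_lit 4) (nat_lit 390) (nat_lit 290) (nat_lit 100)) (XT.lf (nat_lit 0) (nat_lit 12203252621) (nat_lit 76) (nat_lit 49452245162) (nat_lit 152) (nat_lit 8180014231) (nat_lit 28) (nat_lit 5) (nat_lit 29) (nat_lit 5) (nat_lit 30) (nat_lit 4) (nat_lit 391) (nat_lit 290) (nat_lit 99))) (XT.nd (nat_lit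 78) (nat_lit 0) (nat_lit 0) (XT.lf (nat_lit 0) (nat_lit 2486339460) (nat_lit 152) (nat_lit 34189515570) (nat_lit 76) (nat_lit 34834299073) (nat_lit 27) (nat_lit 5) (nat_lit 29) (nat_lit 5) (nat_lit 28) (nat_lit 5) (nat_lit 392) (nat_lit 290) (nat_lit 98)) (XT.lf (nat_lit 0) (nat_lit 13305450752) (nat_lit 152) (nat_lit 10129519507) (nat_lit 76) (nat_lit 49797721034) (nat_lit 27) (nat_lit 5) (nat_lit 29) (nat_lit 5) (nat_lit 28) (nat_lit 5) (nat_lit 393) (nat_lit 290) (nat_lit 97))))) (XT.nd (nat_lit 234) (nat_lit 304) (nat_lit 0) (XT.nd (nat_lit 78) (nat_lit 0) (nat_lit 0) (XT.lf (nat_lit 0) (nat_lit 14938895043) (nat_lit 152) (nat_lit 9651101530) (nat_lit 228) (nat_lit 50412683024) (nat_lit 25) (nat_lit 5) (nat_lit 27) (nat_lit 5) (nat_lit 28) (nat_lit 5) (nat_lit 394) (nat_lit 290) (nat_lit 96)) (XT.nd (nat_lit 78) (nat_lit 0) (nat_lit 0) (XT.lf (nat_lit 0) (nat_lit 36357353562) (nat_lit 228) (nat_lit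 35905312617) (nat_lit 76) (nat_lit 4558773938) (nat_lit 25) (nat_lit 5) (nat_lit 28) (nat_lit 5) (nat_lit 26) (nat_lit 4) (nat_lit 395) (nat_lit 290) (nat_lit 95)) (XT.lf (nat_lit 0) (nat_lit 48570638269) (nat_lit 228) (nat_lit 11122405627) (nat_lit 76) (nat_lit 18998933133) (nat_lit 25) (nat_lit 5) (nat_lit 28) (nat_lit 5) (nat_lit 26) (nat_lit 4) (nat_lit 396) (nat_lit 290) (nat_lit 94)))) (XT.nd (nat_lit 156) (nat_lit 228) (nat_lit 0) (XT.nd (nat_lit 78) (nat_lit 0) (nat_lit 0) (XT.lf (nat_lit 0) (nat_lit 14685939246) (nat_lit 76) (nat_lit 46602981190) (nat_lit 152) (nat_lit 19325552407) (nat_lit 24) (nat_lit 5) (nat_lit 25) (nat_lit 5) (nat_lit 26) (nat_lit 4) (nat_lit 397) (nat_lit 290) (nat_lit 93)) (XT.lf (nat_lit 0) (nat_lit 41491953321) (nat_lit 76) (nat_lit 33006571794) (nat_lit 152) (nat_lit 8092825937) (nat_lit 24) (nat_lit 5) (nat_lit 25) (nat_lit 5) (nat_lit 26) (nat_lit 4) (nat_lit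 398) (nat_lit 290) (nat_lit 92))) (XT.nd (nat_lit 78) (nat_lit 152) (nat_lit 0) (XT.lf (nat_lit 0) (nat_lit 3406544256) (nat_lit 152) (nat_lit 15563306165) (nat_lit 76) (nat_lit 65656757975) (nat_lit 23) (nat_lit 5) (nat_lit 25) (nat_lit 5) (nat_lit 24) (nat_lit 5) (nat_lit 399) (nat_lit 290) (nat_lit 91)) (XT.lf (nat_lit 0) (nat_lit 10866418634) (nat_lit 152) (nat_lit 4323854792) (nat_lit 228) (nat_lit 71527185832) (nat_lit 21) (nat_lit 5) (nat_lit 23) (nat_lit 5) (nat_lit 24) (nat_lit 5) (nat_lit 400) (nat_lit 290) (nat_lit 90)))))) (XT.nd (nat_lit 32292) (nat_lit 0) (nat_lit 15276) (XT.nd (nat_lit 234) (nat_lit 0) (nat_lit 0) (XT.nd (nat_lit 78) (nat_lit 76) (nat_lit 0) (XT.lf (nat_lit 0) (nat_lit 27587267019) (nat_lit 228) (nat_lit 50567632011) (nat_lit 76) (nat_lit 10708344698) (nat_lit 21) (nat_lit 5) (nat_lit 24) (nat_lit 5) (nat_lit 22) (nat_lit 4) (nat_lit 401) (nat_lit 290) (nat_lit 89))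 (XT.nd (nat_lit 78) (nat_lit 76) (nat_lit 0) (XT.lf (nat_lit 0) (nat_lit 40396642343) (nat_lit 228) (nat_lit 24572780589) (nat_lit 76) (nat_lit 26102765283) (nat_lit 21) (nat_lit 5) (nat_lit 24) (nat_lit 5) (nat_lit 22) (nat_lit 4) (nat_lit 402) (nat_lit 290) (nat_lit 88)) (XT.lf (nat_lit 0) (nat_lit 2241531479) (nat_lit 76) (nat_lit 51368044010) (nat_lit 152) (nat_lit 39737247871) (nat_lit 20) (nat_lit 5) (nat_lit 21) (nat_lit 5) (nat_lit 22) (nat_lit 4) (nat_lit 403) (nat_lit 290) (nat_lit 87)))) (XT.nd (nat_lit 31902) (nat_lit 0) (nat_lit 15200) (XT.nd (nat_lit 31824) (nat_lit 0) (nat_lit 15200) (XT.lf (nat_lit 0) (nat_lit 30359906014) (nat_lit 76) (nat_lit 37104883970) (nat_lit 152) (nat_lit 28217531377) (nat_lit 20) (nat_lit 5) (nat_lit 21) (nat_lit 5) (nat_lit 22) (nat_lit 4) (nat_lit 404) (nat_lit 290) (nat_lit 86)) (XT.lf (nat_lit 0) (nat_lit 2057379158) (nat_lit 1140) (nat_lit 1629369273)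 (nat_lit 1140) (nat_lit 1629369273) (nat_lit 220) (nat_lit 3) (nat_lit 235) (nat_lit 3) (nat_lit 235) (nat_lit 5) (nat_lit 291) (nat_lit 291) (nat_lit 198))) (XT.nd (nat_lit 78) (nat_lit 0) (nat_lit 76) (XT.lf (nat_lit 76) (nat_lit 1673606871) (nat_lit 0) (nat_lit 3107319056) (nat_lit 1140) (nat_lit 5992019556) (nat_lit 221) (nat_lit 5) (nat_lit 220) (nat_lit 3) (nat_lit 235) (nat_lit 5) (nat_lit 292) (nat_lit 291) (nat_lit 197)) (XT.lf (nat_lit 0) (nat_lit 5489708918) (nat_lit 1064) (nat_lit 4121758417) (nat_lit 1140) (nat_lit 1305755595) (nat_lit 221) (nat_lit 5) (nat_lit 235) (nat_lit 5) (nat_lit 236) (nat_lit 5) (nat_lit 293) (nat_lit 291) (nat_lit 196))))) (XT.nd (nat_lit 234) (nat_lit 0) (nat_lit 76) (XT.nd (nat_lit 78) (nat_lit 0) (nat_lit 0) (XT.lf (nat_lit 76) (nat_lit 981005615) (nat_lit 0) (nat_lit 5256642175) (nat_lit 1140) (nat_lit 4827668391) (nat_lit 222) (nat_lit 5) (nat_lit 221)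 (nat_lit 5) (nat_lit 236) (nat_lit 5) (nat_lit 294) (nat_lit 291) (nat_lit 195)) (XT.nd (nat_lit 78) (nat_lit 0) (nat_lit 76) (XT.lf (nat_lit 76) (nat_lit 6308946346) (nat_lit 0) (nat_lit 718927422) (nat_lit 1140) (nat_lit 4189406541) (nat_lit 222) (nat_lit 5) (nat_lit 221) (nat_lit 5) (nat_lit 236) (nat_lit 5) (nat_lit 295) (nat_lit 291) (nat_lit 194)) (XT.lf (nat_lit 76) (nat_lit 379529197) (nat_lit 0) (nat_lit 7482891599) (nat_lit 1140) (nat_lit 3510786996) (nat_lit 223) (nat_lit 5) (nat_lit 222) (nat_lit 5) (nat_lit 237) (nat_lit 5) (nat_lit 296) (nat_lit 291) (nat_lit 193)))) (XT.nd (nat_lit 156) (nat_lit 0) (nat_lit 76) (XT.nd (nat_lit 78) (nat_lit 0) (nat_lit 76) (XT.lf (nat_lit 76) (nat_lit 5906728216) (nat_lit 0) (nat_lit 2851329261) (nat_lit 1140) (nat_lit 2774696221) (nat_lit 223) (nat_lit 5) (nat_lit 222) (nat_lit 5) (nat_lit 237) (nat_lit 5) (nat_lit 297) (nat_lit 291) (nat_lit 192))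 (XT.lf (nat_lit 0) (nat_lit 9679124556) (nat_lit 1064) (nat_lit 128772919) (nat_lit 1140) (nat_lit 1889253213) (nat_lit 223) (nat_lit 5) (nat_lit 237) (nat_lit 5) (nat_lit 238) (nat_lit 5) (nat_lit 298) (nat_lit 291) (nat_lit 191))) (XT.nd (nat_lit 78) (nat_lit 0) (nat_lit 0) (XT.lf (nat_lit 76) (nat_lit 5601875298) (nat_lit 0) (nat_lit 5088720185) (nat_lit 1140) (nat_lit 1174021871) (nat_lit 224) (nat_lit 5) (nat_lit 223) (nat_lit 5) (nat_lit 238) (nat_lit 5) (nat_lit 299) (nat_lit 291) (nat_lit 190)) (XT.lf (nat_lit 76) (nat_lit 11494602544) (nat_lit 0) (nat_lit 220242945) (nat_lit 1140) (nat_lit 322809794) (nat_lit 224) (nat_lit 5) (nat_lit 223) (nat_lit 5) (nat_lit 238) (nat_lit 5) (nat_lit 300) (nat_lit 291) (nat_lit 189))))))) (XT.nd (nat_lit 1092) (nat_lit 4028) (nat_lit 0) (XT.nd (nat_lit 546) (nat_lit 2356) (nat_lit 0) (XT.nd (nat_lit 234) (nat_lit 0) (nat_lit 76) (XT.nd (nat_lit 78) (nat_lit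 0) (nat_lit 0) (XT.lf (nat_lit 0) (nat_lit 623585071) (nat_lit 1140) (nat_lit 6824961514) (nat_lit 1216) (nat_lit 4764783494) (nat_lit 209) (nat_lit 5) (nat_lit 224) (nat_lit 5) (nat_lit 225) (nat_lit 5) (nat_lit 301) (nat_lit 291) (nat_lit 188)) (XT.nd (nat_lit 78) (nat_lit 0) (nat_lit 76) (XT.lf (nat_lit 0) (nat_lit 1581560935) (nat_lit 1140) (nat_lit 903675218) (nat_lit 1216) (nat_lit 9909271347) (nat_lit 209) (nat_lit 5) (nat_lit 224) (nat_lit 5) (nat_lit 225) (nat_lit 5) (nat_lit 302) (nat_lit 291) (nat_lit 187)) (XT.lf (nat_lit 0) (nat_lit 2627372491) (nat_lit 1140) (nat_lit 7320167046) (nat_lit 1216) (nat_lit 2631825863) (nat_lit 210) (nat_lit 5) (nat_lit 225) (nat_lit 5) (nat_lit 226) (nat_lit 5) (nat_lit 303) (nat_lit 291) (nat_lit 186)))) (XT.nd (nat_lit 156) (nat_lit 0) (nat_lit 76) (XT.nd (nat_lit 78) (nat_lit 0) (nat_lit 76) (XT.lf (nat_lit 0) (nat_lit 3721299053) (nat_lit 1140) (nat_lit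 1181780946) (nat_lit 1216) (nat_lit 7866204338) (nat_lit 210) (nat_lit 5) (nat_lit 225) (nat_lit 5) (nat_lit 226) (nat_lit 5) (nat_lit 304) (nat_lit 291) (nat_lit 185)) (XT.lf (nat_lit 0) (nat_lit 4885083679) (nat_lit 1140) (nat_lit 7737131633) (nat_lit 1216) (nat_lit 341591332) (nat_lit 211) (nat_lit 5) (nat_lit 226) (nat_lit 5) (nat_lit 227) (nat_lit 5) (nat_lit 305) (nat_lit 291) (nat_lit 184))) (XT.nd (nat_lit 78) (nat_lit 0) (nat_lit 0) (XT.lf (nat_lit 0) (nat_lit 6128192556) (nat_lit 1140) (nat_lit 1373964877) (nat_lit 1216) (nat_lit 5660691382) (nat_lit 211) (nat_lit 5) (nat_lit 226) (nat_lit 5) (nat_lit 227) (nat_lit 5) (nat_lit 306) (nat_lit 291) (nat_lit 183)) (XT.lf (nat_lit 76) (nat_lit 5270214680) (nat_lit 0) (nat_lit 2173325536) (nat_lit 1216) (nat_lit 5923289701) (nat_lit 212) (nat_lit 5) (nat_lit 211) (nat_lit 5) (nat_lit 227) (nat_lit 5) (nat_lit 307) (nat_lit 291) (nat_lit 182)))))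 (XT.nd (nat_lit 234) (nat_lit 1444) (nat_lit 0) (XT.nd (nat_lit 78) (nat_lit 1140) (nat_lit 0) (XT.lf (nat_lit 0) (nat_lit 8828877736) (nat_lit 1140) (nat_lit 1479738391) (nat_lit 76) (nat_lit 3267414011) (nat_lit 212) (nat_lit 5) (nat_lit 227) (nat_lit 5) (nat_lit 213) (nat_lit 5) (nat_lit 308) (nat_lit 291) (nat_lit 181)) (XT.nd (nat_lit 78) (nat_lit 0) (nat_lit 0) (XT.lf (nat_lit 0) (nat_lit 5406914700) (nat_lit 1140) (nat_lit 4907448793) (nat_lit 1216) (nat_lit 3475400342) (nat_lit 197) (nat_lit 5) (nat_lit 212) (nat_lit 5) (nat_lit 213) (nat_lit 5) (nat_lit 309) (nat_lit 291) (nat_lit 180)) (XT.lf (nat_lit 0) (nat_lit 11851235415) (nat_lit 1216) (nat_lit 1498479409) (nat_lit 76) (nat_lit 660004743) (nat_lit 197) (nat_lit 5) (nat_lit 213) (nat_lit 5) (nat_lit 198) (nat_lit 5) (nat_lit 310) (nat_lit 291) (nat_lit 179)))) (XT.nd (nat_lit 156) (nat_lit 608) (nat_lit 0) (XT.nd (nat_lit 78) (nat_lit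 76) (nat_lit 0) (XT.lf (nat_lit 0) (nat_lit 5641226799) (nat_lit 760) (nat_lit 7881654344) (nat_lit 836) (nat_lit 710747046) (nat_lit 187) (nat_lit 5) (nat_lit 197) (nat_lit 5) (nat_lit 198) (nat_lit 5) (nat_lit 311) (nat_lit 291) (nat_lit 178)) (XT.lf (nat_lit 0) (nat_lit 766467533) (nat_lit 836) (nat_lit 1458464764) (nat_lit 76) (nat_lit 12239071917) (nat_lit 186) (nat_lit 5) (nat_lit 197) (nat_lit 5) (nat_lit 187) (nat_lit 5) (nat_lit 312) (nat_lit 291) (nat_lit 177))) (XT.nd (nat_lit 78) (nat_lit 0) (nat_lit 0) (XT.lf (nat_lit 0) (nat_lit 2352932620) (nat_lit 684) (nat_lit 8748248174) (nat_lit 76) (nat_lit 3597536069) (nat_lit 178) (nat_lit 5) (nat_lit 187) (nat_lit 5) (nat_lit 179) (nat_lit 5) (nat_lit 313) (nat_lit 291) (nat_lit 176)) (XT.lf (nat_lit 0) (nat_lit 4010581387) (nat_lit 684) (nat_lit 1363415982) (nat_lit 76) (nat_lit 9565778486) (nat_lit 178) (nat_lit 5) (nat_lit 187) (nat_lit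 5) (nat_lit 179) (nat_lit 5) (nat_lit 314) (nat_lit 291) (nat_lit 175)))))) (XT.nd (nat_lit 546) (nat_lit 1824) (nat_lit 0) (XT.nd (nat_lit 234) (nat_lit 1140) (nat_lit 0) (XT.nd (nat_lit 78) (nat_lit 532) (nat_lit 0) (XT.lf (nat_lit 0) (nat_lit 5771774878) (nat_lit 608) (nat_lit 8837736232) (nat_lit 76) (nat_lit 576953339) (nat_lit 171) (nat_lit 5) (nat_lit 179) (nat_lit 5) (nat_lit 172) (nat_lit 5) (nat_lit 315) (nat_lit 291) (nat_lit 174)) (XT.nd (nat_lit 78) (nat_lit 532) (nat_lit 0) (XT.lf (nat_lit 0) (nat_lit 7640253231) (nat_lit 608) (nat_lit 1185980497) (nat_lit 76) (nat_lit 6612698432) (nat_lit 171) (nat_lit 5) (nat_lit 179) (nat_lit 5) (nat_lit 172) (nat_lit 5) (nat_lit 316) (nat_lit 291) (nat_lit 173)) (XT.lf (nat_lit 0) (nat_lit 6816021329) (nat_lit 532) (nat_lit 2801990214) (nat_lit 608) (nat_lit 6079377173) (nat_lit 164) (nat_lit 5) (nat_lit 171) (nat_lit 5) (nat_lit 172) (nat_lit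 5) (nat_lit 317) (nat_lit 291) (nat_lit 172)))) (XT.nd (nat_lit 156) (nat_lit 608) (nat_lit 0) (XT.nd (nat_lit 78) (nat_lit 532) (nat_lit 0) (XT.lf (nat_lit 0) (nat_lit 11687854202) (nat_lit 608) (nat_lit 926237668) (nat_lit 76) (nat_lit 3348535796) (nat_lit 164) (nat_lit 5) (nat_lit 172) (nat_lit 5) (nat_lit 165) (nat_lit 5) (nat_lit 318) (nat_lit 291) (nat_lit 171)) (XT.lf (nat_lit 0) (nat_lit 7371450388) (nat_lit 532) (nat_lit 6535239639) (nat_lit 608) (nat_lit 2326537741) (nat_lit 157) (nat_lit 5) (nat_lit 164) (nat_lit 5) (nat_lit 165) (nat_lit 5) (nat_lit 319) (nat_lit 291) (nat_lit 170))) (XT.nd (nat_lit 78) (nat_lit 608) (nat_lit 0) (XT.lf (nat_lit 0) (nat_lit 15924979002) (nat_lit 532) (nat_lit 264986413) (nat_lit 608) (nat_lit 322054822) (nat_lit 157) (nat_lit 5) (nat_lit 164) (nat_lit 5) (nat_lit 165) (nat_lit 5) (nat_lit 320) (nat_lit 291) (nat_lit 169)) (XT.lf (nat_lit 0) (nat_lit 1835277164)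 (nat_lit 608) (nat_lit 8792561201) (nat_lit 76) (nat_lit 6167044044) (nat_lit 149) (nat_lit 5) (nat_lit 157) (nat_lit 5) (nat_lit 150) (nat_lit 5) (nat_lit 321) (nat_lit 291) (nat_lit 168))))) (XT.nd (nat_lit 312) (nat_lit 912) (nat_lit 0) (XT.nd (nat_lit 156) (nat_lit 456) (nat_lit 0) (XT.nd (nat_lit 78) (nat_lit 456) (nat_lit 0) (XT.lf (nat_lit 0) (nat_lit 4048408273) (nat_lit 608) (nat_lit 242701122) (nat_lit 76) (nat_lit 12795108525) (nat_lit 149) (nat_lit 5) (nat_lit 157) (nat_lit 5) (nat_lit 150) (nat_lit 5) (nat_lit 322) (nat_lit 291) (nat_lit 167)) (XT.lf (nat_lit 0) (nat_lit 6423349569) (nat_lit 532) (nat_lit 8684388738) (nat_lit 76) (nat_lit 2275702122) (nat_lit 143) (nat_lit 5) (nat_lit 150) (nat_lit 5) (nat_lit 144) (nat_lit 5) (nat_lit 323) (nat_lit 291) (nat_lit 166))) (XT.nd (nat_lit 78) (nat_lit 0) (nat_lit 0) (XT.lf (nat_lit 0) (nat_lit 173379620) (nat_lit 456) (nat_lit 8732240299)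 (nat_lit 532) (nat_lit 8782886412) (nat_lit 137) (nat_lit 5) (nat_lit 143) (nat_lit 5) (nat_lit 144) (nat_lit 5) (nat_lit 324) (nat_lit 291) (nat_lit 165)) (XT.lf (nat_lit 0) (nat_lit 9463001041) (nat_lit 456) (nat_lit 2076698314) (nat_lit 532) (nat_lit 6460713504) (nat_lit 137) (nat_lit 5) (nat_lit 143) (nat_lit 5) (nat_lit 144) (nat_lit 5) (nat_lit 325) (nat_lit 291) (nat_lit 164)))) (XT.nd (nat_lit 156) (nat_lit 532) (nat_lit 0) (XT.nd (nat_lit 78) (nat_lit 0) (nat_lit 0) (XT.lf (nat_lit 0) (nat_lit 664823091) (nat_lit 380) (nat_lit 13630235550) (nat_lit 456) (nat_lit 4025358837) (nat_lit 132) (nat_lit 5) (nat_lit 137) (nat_lit 5) (nat_lit 138) (nat_lit 5) (nat_lit 326) (nat_lit 291) (nat_lit 163)) (XT.lf (nat_lit 0) (nat_lit 10285428661) (nat_lit 380) (nat_lit 6944334193) (nat_lit 456) (nat_lit 1417367226) (nat_lit 132) (nat_lit 5) (nat_lit 137) (nat_lit 5) (nat_lit 138) (nat_lit 5) (nat_lit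 327) (nat_lit 291) (nat_lit 162))) (XT.nd (nat_lit 78) (nat_lit 0) (nat_lit 0) (XT.lf (nat_lit 0) (nat_lit 1210845625) (nat_lit 456) (nat_lit 35195989) (nat_lit 532) (nat_lit 17737186292) (nat_lit 125) (nat_lit 5) (nat_lit 131) (nat_lit 5) (nat_lit 132) (nat_lit 5) (nat_lit 328) (nat_lit 291) (nat_lit 161)) (XT.lf (nat_lit 0) (nat_lit 4104658501) (nat_lit 532) (nat_lit 8179592839) (nat_lit 76) (nat_lit 7040430180) (nat_lit 125) (nat_lit 5) (nat_lit 132) (nat_lit 5) (nat_lit 126) (nat_lit 5) (nat_lit 329) (nat_lit 291) (nat_lit 160))))))))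
noncomputable def xc177 : XT := (XT.nd (nat_lit 2184) (nat_lit 2584) (nat_lit 0) (XT.nd (nat_lit 1092) (nat_lit 1900) (nat_lit 0) (XT.nd (nat_lit 546) (nat_lit 988) (nat_lit 0) (XT.nd (nat_lit 234) (nat_lit 836) (nat_lit 0) (XT.nd (nat_lit 78) (nat_lit 380) (nat_lit 0) (XT.lf (nat_lit 0) (nat_lit 1722838251) (nat_lit 380) (nat_lit 5333834877) (nat_lit 456) (nat_lit 12619483872) (nat_lit 120) (nat_lit 5) (nat_lit 125) (nat_lit 5) (nat_lit 126) (nat_lit 5) (nat_lit 330) (nat_lit 291) (nat_lit 159)) (XT.nd (nat_lit 78) (nat_lit 380) (nat_lit 0) (XT.lf (nat_lit 0) (nat_lit 10189077864) (nat_lit 456) (nat_lit 7975604491) (nat_lit 76) (nat_lit 1870746718) (nat_lit 120) (nat_lit 5) (nat_lit 126) (nat_lit 5) (nat_lit 121) (nat_lit 5) (nat_lit 331) (nat_lit 291) (nat_lit 158)) (XT.lf (nat_lit 0) (nat_lit 2281936575) (nat_lit 380) (nat_lit 11199399799) (nat_lit 456) (nat_lit 6922173494) (nat_lit 115) (nat_lit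 5) (nat_lit 120) (nat_lit 5) (nat_lit 121) (nat_lit 5) (nat_lit 332) (nat_lit 291) (nat_lit 157)))) (XT.nd (nat_lit 156) (nat_lit 456) (nat_lit 0) (XT.nd (nat_lit 78) (nat_lit 380) (nat_lit 0) (XT.lf (nat_lit 0) (nat_lit 12999582804) (nat_lit 380) (nat_lit 3944605166) (nat_lit 456) (nat_lit 3836297159) (nat_lit 115) (nat_lit 5) (nat_lit 120) (nat_lit 5) (nat_lit 121) (nat_lit 5) (nat_lit 333) (nat_lit 291) (nat_lit 156)) (XT.lf (nat_lit 0) (nat_lit 2881273677) (nat_lit 380) (nat_lit 17682778423) (nat_lit 456) (nat_lit 603130346) (nat_lit 110) (nat_lit 5) (nat_lit 115) (nat_lit 5) (nat_lit 116) (nat_lit 5) (nat_lit 334) (nat_lit 291) (nat_lit 155))) (XT.nd (nat_lit 78) (nat_lit 380) (nat_lit 0) (XT.lf (nat_lit 0) (nat_lit 2783794494) (nat_lit 456) (nat_lit 7617448303) (nat_lit 76) (nat_lit 11160158377) (nat_lit 109) (nat_lit 5) (nat_lit 115) (nat_lit 5) (nat_lit 110) (nat_lit 5) (nat_lit 335) (nat_lit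 291) (nat_lit 154)) (XT.lf (nat_lit 0) (nat_lit 3421081845) (nat_lit 380) (nat_lit 2863825859) (nat_lit 456) (nat_lit 15681624570) (nat_lit 104) (nat_lit 5) (nat_lit 109) (nat_lit 5) (nat_lit 110) (nat_lit 5) (nat_lit 336) (nat_lit 291) (nat_lit 153))))) (XT.nd (nat_lit 234) (nat_lit 684) (nat_lit 0) (XT.nd (nat_lit 78) (nat_lit 304) (nat_lit 0) (XT.lf (nat_lit 0) (nat_lit 10007764307) (nat_lit 456) (nat_lit 7493338879) (nat_lit 76) (nat_lit 4879218689) (nat_lit 104) (nat_lit 5) (nat_lit 110) (nat_lit 5) (nat_lit 105) (nat_lit 5) (nat_lit 337) (nat_lit 291) (nat_lit 152)) (XT.nd (nat_lit 78) (nat_lit 0) (nat_lit 0) (XT.lf (nat_lit 0) (nat_lit 3928062349) (nat_lit 304) (nat_lit 9972521078) (nat_lit 380) (nat_lit 8904199132) (nat_lit 100) (nat_lit 5) (nat_lit 104) (nat_lit 5) (nat_lit 105) (nat_lit 5) (nat_lit 338) (nat_lit 291) (nat_lit 151)) (XT.lf (nat_lit 0) (nat_lit 15835245736) (nat_lit 304)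 (nat_lit 2142900236) (nat_lit 380) (nat_lit 5261797858) (nat_lit 100) (nat_lit 5) (nat_lit 104) (nat_lit 5) (nat_lit 105) (nat_lit 5) (nat_lit 339) (nat_lit 291) (nat_lit 150)))) (XT.nd (nat_lit 156) (nat_lit 304) (nat_lit 0) (XT.nd (nat_lit 78) (nat_lit 76) (nat_lit 0) (XT.lf (nat_lit 0) (nat_lit 4430655272) (nat_lit 304) (nat_lit 17839382052) (nat_lit 380) (nat_lit 1415367927) (nat_lit 96) (nat_lit 5) (nat_lit 100) (nat_lit 5) (nat_lit 101) (nat_lit 5) (nat_lit 340) (nat_lit 291) (nat_lit 149)) (XT.lf (nat_lit 0) (nat_lit 2586025920) (nat_lit 380) (nat_lit 7425981687) (nat_lit 76) (nat_lit 14128815783) (nat_lit 95) (nat_lit 5) (nat_lit 100) (nat_lit 5) (nat_lit 96) (nat_lit 5) (nat_lit 341) (nat_lit 291) (nat_lit 148))) (XT.nd (nat_lit 78) (nat_lit 0) (nat_lit 0) (XT.lf (nat_lit 0) (nat_lit 4827728494) (nat_lit 304) (nat_lit 1890441641) (nat_lit 380) (nat_lit 17890143764) (nat_lit 91) (nat_lit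 5) (nat_lit 95) (nat_lit 5) (nat_lit 96) (nat_lit 5) (nat_lit 342) (nat_lit 291) (nat_lit 147)) (XT.lf (nat_lit 0) (nat_lit 11105084670) (nat_lit 380) (nat_lit 7559492095) (nat_lit 76) (nat_lit 6421332952) (nat_lit 91) (nat_lit 5) (nat_lit 96) (nat_lit 5) (nat_lit 92) (nat_lit 5) (nat_lit 343) (nat_lit 291) (nat_lit 146)))))) (XT.nd (nat_lit 546) (nat_lit 760) (nat_lit 0) (XT.nd (nat_lit 234) (nat_lit 608) (nat_lit 0) (XT.nd (nat_lit 78) (nat_lit 228) (nat_lit 0) (XT.lf (nat_lit 0) (nat_lit 5099110021) (nat_lit 304) (nat_lit 10585274503) (nat_lit 380) (nat_lit 9891630183) (nat_lit 87) (nat_lit 5) (nat_lit 91) (nat_lit 5) (nat_lit 92) (nat_lit 5) (nat_lit 344) (nat_lit 291) (nat_lit 145)) (XT.nd (nat_lit 78) (nat_lit 228) (nat_lit 0) (XT.lf (nat_lit 0) (nat_lit 18282620771) (nat_lit 304) (nat_lit 2187931785) (nat_lit 380) (nat_lit 5608190112) (nat_lit 87) (nat_lit 5) (nat_lit 91) (nat_lit 5) (nat_lit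 92) (nat_lit 5) (nat_lit 345) (nat_lit 291) (nat_lit 144)) (XT.lf (nat_lit 0) (nat_lit 5296628450) (nat_lit 228) (nat_lit 20210026771) (nat_lit 304) (nat_lit 1086711126) (nat_lit 84) (nat_lit 5) (nat_lit 87) (nat_lit 5) (nat_lit 88) (nat_lit 5) (nat_lit 346) (nat_lit 291) (nat_lit 143)))) (XT.nd (nat_lit 156) (nat_lit 228) (nat_lit 0) (XT.nd (nat_lit 78) (nat_lit 304) (nat_lit 0) (XT.lf (nat_lit 0) (nat_lit 3595266049) (nat_lit 304) (nat_lit 8245599092) (nat_lit 76) (nat_lit 15278702322) (nat_lit 83) (nat_lit 5) (nat_lit 87) (nat_lit 5) (nat_lit 84) (nat_lit 5) (nat_lit 347) (nat_lit 291) (nat_lit 142)) (XT.lf (nat_lit 0) (nat_lit 5279884561) (nat_lit 304) (nat_lit 3160280834) (nat_lit 380) (nat_lit 19219741286) (nat_lit 79) (nat_lit 5) (nat_lit 83) (nat_lit 5) (nat_lit 84) (nat_lit 5) (nat_lit 348) (nat_lit 291) (nat_lit 141))) (XT.nd (nat_lit 78) (nat_lit 228) (nat_lit 0) (XT.lf (nat_lit 0) (nat_lit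 13563688326) (nat_lit 380) (nat_lit 8899723000) (nat_lit 76) (nat_lit 5749050332) (nat_lit 79) (nat_lit 5) (nat_lit 84) (nat_lit 5) (nat_lit 80) (nat_lit 5) (nat_lit 349) (nat_lit 291) (nat_lit 140)) (XT.lf (nat_lit 0) (nat_lit 5042844832) (nat_lit 228) (nat_lit 13871642751) (nat_lit 304) (nat_lit 9864902349) (nat_lit 76) (nat_lit 5) (nat_lit 79) (nat_lit 5) (nat_lit 80) (nat_lit 5) (nat_lit 350) (nat_lit 291) (nat_lit 139))))) (XT.nd (nat_lit 234) (nat_lit 456) (nat_lit 0) (XT.nd (nat_lit 78) (nat_lit 304) (nat_lit 0) (XT.lf (nat_lit 0) (nat_lit 19576961609) (nat_lit 228) (nat_lit 4932617109) (nat_lit 304) (nat_lit 4851237957) (nat_lit 76) (nat_lit 5) (nat_lit 79) (nat_lit 5) (nat_lit 80) (nat_lit 5) (nat_lit 351) (nat_lit 291) (nat_lit 138)) (XT.nd (nat_lit 78) (nat_lit 0) (nat_lit 0) (XT.lf (nat_lit 0) (nat_lit 387136907) (nat_lit 304) (nat_lit 25333519617) (nat_lit 76) (nat_lit 4236530775) (nat_lit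 72) (nat_lit 5) (nat_lit 76) (nat_lit 5) (nat_lit 73) (nat_lit 5) (nat_lit 352) (nat_lit 291) (nat_lit 137)) (XT.lf (nat_lit 0) (nat_lit 5827844764) (nat_lit 304) (nat_lit 11011439673) (nat_lit 76) (nat_lit 13726446386) (nat_lit 72) (nat_lit 5) (nat_lit 76) (nat_lit 5) (nat_lit 73) (nat_lit 5) (nat_lit 353) (nat_lit 291) (nat_lit 136)))) (XT.nd (nat_lit 156) (nat_lit 228) (nat_lit 0) (XT.nd (nat_lit 78) (nat_lit 0) (nat_lit 0) (XT.lf (nat_lit 0) (nat_lit 3805748997) (nat_lit 228) (nat_lit 7656853760) (nat_lit 304) (nat_lit 19729006278) (nat_lit 69) (nat_lit 5) (nat_lit 72) (nat_lit 5) (nat_lit 73) (nat_lit 5) (nat_lit 354) (nat_lit 291) (nat_lit 135)) (XT.lf (nat_lit 0) (nat_lit 17390311131) (nat_lit 304) (nat_lit 12567039402) (nat_lit 76) (nat_lit 1875198987) (nat_lit 69) (nat_lit 5) (nat_lit 73) (nat_lit 5) (nat_lit 70) (nat_lit 5) (nat_lit 355) (nat_lit 291) (nat_lit 134))) (XT.nd (nat_lit 78)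 (nat_lit 0) (nat_lit 0) (XT.lf (nat_lit 0) (nat_lit 2663901273) (nat_lit 228) (nat_lit 20927832949) (nat_lit 304) (nat_lit 8898110554) (nat_lit 66) (nat_lit 5) (nat_lit 69) (nat_lit 5) (nat_lit 70) (nat_lit 5) (nat_lit 356) (nat_lit 291) (nat_lit 133)) (XT.lf (nat_lit 0) (nat_lit 18600850176) (nat_lit 228) (nat_lit 11499797446) (nat_lit 304) (nat_lit 3062570816) (nat_lit 66) (nat_lit 5) (nat_lit 69) (nat_lit 5) (nat_lit 70) (nat_lit 5) (nat_lit 357) (nat_lit 291) (nat_lit 132))))))) (XT.nd (nat_lit 1092) (nat_lit 1140) (nat_lit 0) (XT.nd (nat_lit 546) (nat_lit 684) (nat_lit 0) (XT.nd (nat_lit 234) (nat_lit 456) (nat_lit 0) (XT.nd (nat_lit 78) (nat_lit 0) (nat_lit 0) (XT.lf (nat_lit 0) (nat_lit 1144720765) (nat_lit 228) (nat_lit 1751440091) (nat_lit 304) (nat_lit 30959615530) (nat_lit 62) (nat_lit 5) (nat_lit 65) (nat_lit 5) (nat_lit 66) (nat_lit 5) (nat_lit 358) (nat_lit 291) (nat_lit 131)) (XT.nd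 (nat_lit 78) (nat_lit 0) (nat_lit 0) (XT.lf (nat_lit 0) (nat_lit 9194985203) (nat_lit 304) (nat_lit 17063066009) (nat_lit 76) (nat_lit 8303466347) (nat_lit 62) (nat_lit 5) (nat_lit 66) (nat_lit 5) (nat_lit 63) (nat_lit 5) (nat_lit 359) (nat_lit 291) (nat_lit 130)) (XT.lf (nat_lit 0) (nat_lit 15694965337) (nat_lit 304) (nat_lit 971174107) (nat_lit 76) (nat_lit 18621928433) (nat_lit 62) (nat_lit 5) (nat_lit 66) (nat_lit 5) (nat_lit 63) (nat_lit 5) (nat_lit 360) (nat_lit 291) (nat_lit 129)))) (XT.nd (nat_lit 156) (nat_lit 228) (nat_lit 0) (XT.nd (nat_lit 78) (nat_lit 0) (nat_lit 0) (XT.lf (nat_lit 0) (nat_lit 15905898240) (nat_lit 228) (nat_lit 6631943925) (nat_lit 304) (nat_lit 13494138187) (nat_lit 59) (nat_lit 5) (nat_lit 62) (nat_lit 5) (nat_lit 63) (nat_lit 5) (nat_lit 361) (nat_lit 291) (nat_lit 128)) (XT.lf (nat_lit 0) (nat_lit 29626549114) (nat_lit 304) (nat_lit 3532422084) (nat_lit 76) (nat_lit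 3638025178) (nat_lit 59) (nat_lit 5) (nat_lit 63) (nat_lit 5) (nat_lit 60) (nat_lit 5) (nat_lit 362) (nat_lit 291) (nat_lit 127))) (XT.nd (nat_lit 78) (nat_lit 76) (nat_lit 0) (XT.lf (nat_lit 0) (nat_lit 13754006500) (nat_lit 152) (nat_lit 23366971524) (nat_lit 228) (nat_lit 458195453) (nat_lit 57) (nat_lit 5) (nat_lit 59) (nat_lit 5) (nat_lit 60) (nat_lit 5) (nat_lit 363) (nat_lit 291) (nat_lit 126)) (XT.lf (nat_lit 0) (nat_lit 6360682022) (nat_lit 228) (nat_lit 6822503528) (nat_lit 76) (nat_lit 25198834215) (nat_lit 56) (nat_lit 5) (nat_lit 59) (nat_lit 5) (nat_lit 57) (nat_lit 5) (nat_lit 364) (nat_lit 291) (nat_lit 125))))) (XT.nd (nat_lit 234) (nat_lit 304) (nat_lit 0) (XT.nd (nat_lit 78) (nat_lit 152) (nat_lit 0) (XT.lf (nat_lit 0) (nat_lit 10890655831) (nat_lit 228) (nat_lit 2584291058) (nat_lit 304) (nat_lit 25730869758) (nat_lit 53) (nat_lit 5) (nat_lit 56) (nat_lit 5) (nat_lit 57) (nat_lit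 5) (nat_lit 365) (nat_lit 291) (nat_lit 124)) (XT.nd (nat_lit 78) (nat_lit 152) (nat_lit 0) (XT.lf (nat_lit 0) (nat_lit 20947692011) (nat_lit 304) (nat_lit 10865577194) (nat_lit 76) (nat_lit 8236708809) (nat_lit 53) (nat_lit 5) (nat_lit 57) (nat_lit 5) (nat_lit 54) (nat_lit 5) (nat_lit 366) (nat_lit 291) (nat_lit 123)) (XT.lf (nat_lit 0) (nat_lit 7215323951) (nat_lit 152) (nat_lit 21519753809) (nat_lit 228) (nat_lit 12181674800) (nat_lit 51) (nat_lit 5) (nat_lit 53) (nat_lit 5) (nat_lit 54) (nat_lit 5) (nat_lit 367) (nat_lit 291) (nat_lit 122)))) (XT.nd (nat_lit 156) (nat_lit 0) (nat_lit 0) (XT.nd (nat_lit 78) (nat_lit 304) (nat_lit 0) (XT.lf (nat_lit 0) (nat_lit 26054078260) (nat_lit 152) (nat_lit 10807301413) (nat_lit 228) (nat_lit 4944993855) (nat_lit 51) (nat_lit 5) (nat_lit 53) (nat_lit 5) (nat_lit 54) (nat_lit 5) (nat_lit 368) (nat_lit 291) (nat_lit 121)) (XT.lf (nat_lit 0) (nat_lit 2484651412)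 (nat_lit 304) (nat_lit 39966119750) (nat_lit 76) (nat_lit 270445813) (nat_lit 47) (nat_lit 5) (nat_lit 51) (nat_lit 5) (nat_lit 48) (nat_lit 5) (nat_lit 369) (nat_lit 291) (nat_lit 120))) (XT.nd (nat_lit 78) (nat_lit 0) (nat_lit 0) (XT.lf (nat_lit 0) (nat_lit 10301130680) (nat_lit 304) (nat_lit 21682869633) (nat_lit 76) (nat_lit 11670138431) (nat_lit 47) (nat_lit 5) (nat_lit 51) (nat_lit 5) (nat_lit 48) (nat_lit 5) (nat_lit 370) (nat_lit 291) (nat_lit 119)) (XT.lf (nat_lit 0) (nat_lit 18347918810) (nat_lit 304) (nat_lit 2858127633) (nat_lit 76) (nat_lit 23409129087) (nat_lit 47) (nat_lit 5) (nat_lit 51) (nat_lit 5) (nat_lit 48) (nat_lit 5) (nat_lit 371) (nat_lit 291) (nat_lit 118)))))) (XT.nd (nat_lit 546) (nat_lit 608) (nat_lit 0) (XT.nd (nat_lit 234) (nat_lit 228) (nat_lit 0) (XT.nd (nat_lit 78) (nat_lit 152) (nat_lit 0) (XT.lf (nat_lit 0) (nat_lit 16853426099) (nat_lit 152) (nat_lit 9940626319)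 (nat_lit 228) (nat_lit 18806254494) (nat_lit 45) (nat_lit 5) (nat_lit 47) (nat_lit 5) (nat_lit 48) (nat_lit 5) (nat_lit 372) (nat_lit 291) (nat_lit 117)) (XT.nd (nat_lit 78) (nat_lit 152) (nat_lit 0) (XT.lf (nat_lit 0) (nat_lit 35534664525) (nat_lit 228) (nat_lit 9422311016) (nat_lit 76) (nat_lit 1656785555) (nat_lit 45) (nat_lit 5) (nat_lit 48) (nat_lit 5) (nat_lit 46) (nat_lit 5) (nat_lit 373) (nat_lit 291) (nat_lit 116)) (XT.lf (nat_lit 0) (nat_lit 10583463584) (nat_lit 152) (nat_lit 34150269554) (nat_lit 228) (nat_lit 2918000270) (nat_lit 43) (nat_lit 5) (nat_lit 45) (nat_lit 5) (nat_lit 46) (nat_lit 5) (nat_lit 374) (nat_lit 291) (nat_lit 115)))) (XT.nd (nat_lit 156) (nat_lit 0) (nat_lit 0) (XT.nd (nat_lit 78) (nat_lit 152) (nat_lit 0) (XT.lf (nat_lit 0) (nat_lit 5473021100) (nat_lit 228) (nat_lit 17395772343) (nat_lit 76) (nat_lit 25847704955) (nat_lit 42) (nat_lit 5) (nat_lit 45) (nat_lit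 5) (nat_lit 43) (nat_lit 5) (nat_lit 375) (nat_lit 291) (nat_lit 114)) (XT.lf (nat_lit 0) (nat_lit 2887910027) (nat_lit 152) (nat_lit 11193180863) (nat_lit 228) (nat_lit 35730531223) (nat_lit 40) (nat_lit 5) (nat_lit 42) (nat_lit 5) (nat_lit 43) (nat_lit 5) (nat_lit 376) (nat_lit 291) (nat_lit 113))) (XT.nd (nat_lit 78) (nat_lit 0) (nat_lit 0) (XT.lf (nat_lit 0) (nat_lit 23129039620) (nat_lit 228) (nat_lit 26813851744) (nat_lit 76) (nat_lit 991260531) (nat_lit 40) (nat_lit 5) (nat_lit 43) (nat_lit 5) (nat_lit 41) (nat_lit 5) (nat_lit 377) (nat_lit 291) (nat_lit 112)) (XT.lf (nat_lit 0) (nat_lit 32555590183) (nat_lit 228) (nat_lit 6217808085) (nat_lit 76) (nat_lit 13313745822) (nat_lit 40) (nat_lit 5) (nat_lit 43) (nat_lit 5) (nat_lit 41) (nat_lit 5) (nat_lit 378) (nat_lit 291) (nat_lit 111))))) (XT.nd (nat_lit 312) (nat_lit 228) (nat_lit 0) (XT.nd (nat_lit 156) (nat_lit 228) (nat_lit 0) (XT.nd (nat_lit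 78) (nat_lit 0) (nat_lit 0) (XT.lf (nat_lit 0) (nat_lit 15288341748) (nat_lit 152) (nat_lit 27120002813) (nat_lit 228) (nat_lit 10862080650) (nat_lit 38) (nat_lit 5) (nat_lit 40) (nat_lit 5) (nat_lit 41) (nat_lit 5) (nat_lit 379) (nat_lit 291) (nat_lit 110)) (XT.lf (nat_lit 0) (nat_lit 37561089160) (nat_lit 152) (nat_lit 15054871874) (nat_lit 228) (nat_lit 1871466687) (nat_lit 38) (nat_lit 5) (nat_lit 40) (nat_lit 5) (nat_lit 41) (nat_lit 5) (nat_lit 380) (nat_lit 291) (nat_lit 109))) (XT.nd (nat_lit 78) (nat_lit 0) (nat_lit 0) (XT.lf (nat_lit 0) (nat_lit 4777335881) (nat_lit 152) (nat_lit 2509828080) (nat_lit 228) (nat_lit 48450372368) (nat_lit 35) (nat_lit 5) (nat_lit 37) (nat_lit 5) (nat_lit 38) (nat_lit 5) (nat_lit 381) (nat_lit 291) (nat_lit 108)) (XT.lf (nat_lit 0) (nat_lit 16952215177) (nat_lit 228) (nat_lit 29667191214) (nat_lit 76) (nat_lit 10397108861) (nat_lit 35) (nat_lit 5) (nat_lit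 38) (nat_lit 5) (nat_lit 36) (nat_lit 5) (nat_lit 382) (nat_lit 291) (nat_lit 107)))) (XT.nd (nat_lit 156) (nat_lit 76) (nat_lit 0) (XT.nd (nat_lit 78) (nat_lit 152) (nat_lit 0) (XT.lf (nat_lit 0) (nat_lit 26928746146) (nat_lit 228) (nat_lit 7766028451) (nat_lit 76) (nat_lit 23638444287) (nat_lit 35) (nat_lit 5) (nat_lit 38) (nat_lit 5) (nat_lit 36) (nat_lit 5) (nat_lit 383) (nat_lit 291) (nat_lit 106)) (XT.lf (nat_lit 0) (nat_lit 15080832132) (nat_lit 152) (nat_lit 22265482275) (nat_lit 228) (nat_lit 22338858133) (nat_lit 33) (nat_lit 5) (nat_lit 35) (nat_lit 5) (nat_lit 36) (nat_lit 5) (nat_lit 384) (nat_lit 291) (nat_lit 105))) (XT.nd (nat_lit 78) (nat_lit 76) (nat_lit 0) (XT.lf (nat_lit 0) (nat_lit 38766731172) (nat_lit 152) (nat_lit 9384915832) (nat_lit 228) (nat_lit 12923781804) (nat_lit 33) (nat_lit 5) (nat_lit 35) (nat_lit 5) (nat_lit 36) (nat_lit 5) (nat_lit 385) (nat_lit 291) (nat_lit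 104)) (XT.lf (nat_lit 0) (nat_lit 625225073) (nat_lit 76) (nat_lit 58696127534) (nat_lit 152) (nat_lit 3184834855) (nat_lit 32) (nat_lit 5) (nat_lit 33) (nat_lit 5) (nat_lit 34) (nat_lit 4) (nat_lit 386) (nat_lit 291) (nat_lit 103))))))))
noncomputable def xc178 : XT := (XT.nd (nat_lit 34008) (nat_lit 0) (nat_lit 7980) (XT.nd (nat_lit 1092) (nat_lit 228) (nat_lit 0) (XT.nd (nat_lit 546) (nat_lit 304) (nat_lit 0) (XT.nd (nat_lit 234) (nat_lit 152) (nat_lit 0) (XT.nd (nat_lit 78) (nat_lit 152) (nat_lit 0) (XT.lf (nat_lit 0) (nat_lit 7030002700) (nat_lit 152) (nat_lit 39435081917) (nat_lit 76) (nat_lit 17503291431) (nat_lit 31) (nat_lit 5) (nat_lit 33) (nat_lit 5) (nat_lit 32) (nat_lit 5) (nat_lit 387) (nat_lit 291) (nat_lit 102)) (XT.nd (nat_lit 78) (nat_lit 152) (nat_lit 0) (XT.lf (nat_lit 0) (nat_lit 17484257133) (nat_lit 152) (nat_lit 16352680503) (nat_lit 76) (nat_lit 31636638148) (nat_lit 31)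 (nat_lit 5) (nat_lit 33) (nat_lit 5) (nat_lit 32) (nat_lit 5) (nat_lit 388) (nat_lit 291) (nat_lit 101)) (XT.lf (nat_lit 0) (nat_lit 7564638871) (nat_lit 152) (nat_lit 20757287893) (nat_lit 228) (nat_lit 38699912090) (nat_lit 29) (nat_lit 5) (nat_lit 31) (nat_lit 5) (nat_lit 32) (nat_lit 5) (nat_lit 389) (nat_lit 291) (nat_lit 100)))) (XT.nd (nat_lit 156) (nat_lit 152) (nat_lit 0) (XT.nd (nat_lit 78) (nat_lit 0) (nat_lit 0) (XT.lf (nat_lit 0) (nat_lit 32529574976) (nat_lit 152) (nat_lit 7117389252) (nat_lit 228) (nat_lit 28964719393) (nat_lit 29) (nat_lit 5) (nat_lit 31) (nat_lit 5) (nat_lit 32) (nat_lit 5) (nat_lit 390) (nat_lit 291) (nat_lit 99)) (XT.lf (nat_lit 0) (nat_lit 51375555835) (nat_lit 228) (nat_lit 12077428500) (nat_lit 76) (nat_lit 6794326218) (nat_lit 29) (nat_lit 5) (nat_lit 32) (nat_lit 5) (nat_lit 30) (nat_lit 4) (nat_lit 391) (nat_lit 291) (nat_lit 98))) (XT.nd (nat_lit 78) (nat_lit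 76) (nat_lit 0) (XT.lf (nat_lit 0) (nat_lit 12822245478) (nat_lit 76) (nat_lit 50824737787) (nat_lit 152) (nat_lit 8279294571) (nat_lit 28) (nat_lit 5) (nat_lit 29) (nat_lit 5) (nat_lit 30) (nat_lit 4) (nat_lit 392) (nat_lit 291) (nat_lit 97)) (XT.lf (nat_lit 0) (nat_lit 2700025525) (nat_lit 152) (nat_lit 34966861017) (nat_lit 76) (nat_lit 35984356965) (nat_lit 27) (nat_lit 5) (nat_lit 29) (nat_lit 5) (nat_lit 28) (nat_lit 5) (nat_lit 393) (nat_lit 291) (nat_lit 96))))) (XT.nd (nat_lit 234) (nat_lit 152) (nat_lit 0) (XT.nd (nat_lit 78) (nat_lit 152) (nat_lit 0) (XT.lf (nat_lit 0) (nat_lit 13839658819) (nat_lit 152) (nat_lit 10192298277) (nat_lit 76) (nat_lit 51393622490) (nat_lit 27) (nat_lit 5) (nat_lit 29) (nat_lit 5) (nat_lit 28) (nat_lit 5) (nat_lit 394) (nat_lit 291) (nat_lit 95)) (XT.nd (nat_lit 78) (nat_lit 0) (nat_lit 0) (XT.lf (nat_lit 0) (nat_lit 15625804918) (nat_lit 152) (nat_lit 9835297705)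 (nat_lit 228) (nat_lit 51787615265) (nat_lit 25) (nat_lit 5) (nat_lit 27) (nat_lit 5) (nat_lit 28) (nat_lit 5) (nat_lit 395) (nat_lit 291) (nat_lit 94)) (XT.lf (nat_lit 0) (nat_lit 37578577776) (nat_lit 228) (nat_lit 36747741357) (nat_lit 76) (nat_lit 4795810330) (nat_lit 25) (nat_lit 5) (nat_lit 28) (nat_lit 5) (nat_lit 26) (nat_lit 4) (nat_lit 396) (nat_lit 291) (nat_lit 93)))) (XT.nd (nat_lit 156) (nat_lit 76) (nat_lit 0) (XT.nd (nat_lit 78) (nat_lit 76) (nat_lit 0) (XT.lf (nat_lit 0) (nat_lit 50154459948) (nat_lit 228) (nat_lit 11228183972) (nat_lit 76) (nat_lit 19666253723) (nat_lit 25) (nat_lit 5) (nat_lit 28) (nat_lit 5) (nat_lit 26) (nat_lit 4) (nat_lit 397) (nat_lit 291) (nat_lit 92)) (XT.lf (nat_lit 0) (nat_lit 15352176994) (nat_lit 76) (nat_lit 47900592399) (nat_lit 152) (nat_lit 19776345670) (nat_lit 24) (nat_lit 5) (nat_lit 25) (nat_lit 5) (nat_lit 26) (nat_lit 4) (nat_lit 398) (nat_lit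 291) (nat_lit 91))) (XT.nd (nat_lit 78) (nat_lit 76) (nat_lit 0) (XT.lf (nat_lit 0) (nat_lit 42955798883) (nat_lit 76) (nat_lit 33899217271) (nat_lit 152) (nat_lit 8210393909) (nat_lit 24) (nat_lit 5) (nat_lit 25) (nat_lit 5) (nat_lit 26) (nat_lit 4) (nat_lit 399) (nat_lit 291) (nat_lit 90)) (XT.lf (nat_lit 0) (nat_lit 3627938034) (nat_lit 152) (nat_lit 15815093872) (nat_lit 76) (nat_lit 67718765391) (nat_lit 23) (nat_lit 5) (nat_lit 25) (nat_lit 5) (nat_lit 24) (nat_lit 5) (nat_lit 400) (nat_lit 291) (nat_lit 89)))))) (XT.nd (nat_lit 32370) (nat_lit 0) (nat_lit 14288) (XT.nd (nat_lit 234) (nat_lit 76) (nat_lit 0) (XT.nd (nat_lit 78) (nat_lit 0) (nat_lit 0) (XT.lf (nat_lit 0) (nat_lit 11405413734) (nat_lit 152) (nat_lit 4358341086) (nat_lit 228) (nat_lit 73551662568) (nat_lit 21) (nat_lit 5) (nat_lit 23) (nat_lit 5) (nat_lit 24) (nat_lit 5) (nat_lit 401) (nat_lit 291) (nat_lit 88)) (XT.nd (nat_lit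 78) (nat_lit 0) (nat_lit 0) (XT.lf (nat_lit 0) (nat_lit 28530116675) (nat_lit 228) (nat_lit 51875289334) (nat_lit 76) (nat_lit 11120246575) (nat_lit 21) (nat_lit 5) (nat_lit 24) (nat_lit 5) (nat_lit 22) (nat_lit 4) (nat_lit 402) (nat_lit 291) (nat_lit 87)) (XT.lf (nat_lit 0) (nat_lit 41720416996) (nat_lit 228) (nat_lit 25106690572) (nat_lit 76) (nat_lit 26973859442) (nat_lit 21) (nat_lit 5) (nat_lit 24) (nat_lit 5) (nat_lit 22) (nat_lit 4) (nat_lit 403) (nat_lit 291) (nat_lit 86)))) (XT.nd (nat_lit 31980) (nat_lit 0) (nat_lit 15200) (XT.nd (nat_lit 31902) (nat_lit 0) (nat_lit 15200) (XT.lf (nat_lit 0) (nat_lit 2510057980) (nat_lit 76) (nat_lit 52818356481) (nat_lit 152) (nat_lit 40815467349) (nat_lit 20) (nat_lit 5) (nat_lit 21) (nat_lit 5) (nat_lit 22) (nat_lit 4) (nat_lit 404) (nat_lit 291) (nat_lit 85)) (XT.lf (nat_lit 0) (nat_lit 2701803375) (nat_lit 1140) (nat_lit 1377841429) (nat_lit 1140)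 (nat_lit 1377841429) (nat_lit 220) (nat_lit 3) (nat_lit 235) (nat_lit 3) (nat_lit 235) (nat_lit 5) (nat_lit 292) (nat_lit 292) (nat_lit 196))) (XT.nd (nat_lit 78) (nat_lit 0) (nat_lit 76) (XT.lf (nat_lit 76) (nat_lit 2318742549) (nat_lit 0) (nat_lit 3742791792) (nat_lit 1140) (nat_lit 4999253183) (nat_lit 221) (nat_lit 5) (nat_lit 220) (nat_lit 3) (nat_lit 235) (nat_lit 5) (nat_lit 293) (nat_lit 292) (nat_lit 195)) (XT.lf (nat_lit 0) (nat_lit 6753398406) (nat_lit 1064) (nat_lit 3628434214) (nat_lit 1140) (nat_lit 828741999) (nat_lit 221) (nat_lit 5) (nat_lit 235) (nat_lit 5) (nat_lit 236) (nat_lit 5) (nat_lit 294) (nat_lit 292) (nat_lit 194))))) (XT.nd (nat_lit 234) (nat_lit 988) (nat_lit 0) (XT.nd (nat_lit 78) (nat_lit 0) (nat_lit 0) (XT.lf (nat_lit 76) (nat_lit 1621363946) (nat_lit 0) (nat_lit 5876274457) (nat_lit 1140) (nat_lit 3866291184) (nat_lit 222) (nat_lit 5) (nat_lit 221) (nat_lit 5) (nat_lit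 236) (nat_lit 5) (nat_lit 295) (nat_lit 292) (nat_lit 193)) (XT.nd (nat_lit 78) (nat_lit 0) (nat_lit 76) (XT.lf (nat_lit 76) (nat_lit 7091348875) (nat_lit 0) (nat_lit 1188973901) (nat_lit 1140) (nat_lit 3241101107) (nat_lit 222) (nat_lit 5) (nat_lit 221) (nat_lit 5) (nat_lit 236) (nat_lit 5) (nat_lit 296) (nat_lit 292) (nat_lit 192)) (XT.lf (nat_lit 76) (nat_lit 1014560391) (nat_lit 0) (nat_lit 8096816961) (nat_lit 1140) (nat_lit 2571540514) (nat_lit 223) (nat_lit 5) (nat_lit 222) (nat_lit 5) (nat_lit 237) (nat_lit 5) (nat_lit 297) (nat_lit 292) (nat_lit 191)))) (XT.nd (nat_lit 156) (nat_lit 1064) (nat_lit 0) (XT.nd (nat_lit 78) (nat_lit 0) (nat_lit 76) (XT.lf (nat_lit 76) (nat_lit 6689410954) (nat_lit 0) (nat_lit 3314964880) (nat_lit 1140) (nat_lit 1843791387) (nat_lit 223) (nat_lit 5) (nat_lit 222) (nat_lit 5) (nat_lit 237) (nat_lit 5) (nat_lit 298) (nat_lit 292) (nat_lit 190)) (XT.lf (nat_lit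 76) (nat_lit 498137224) (nat_lit 0) (nat_lit 10427549609) (nat_lit 1140) (nat_lit 1092661857) (nat_lit 224) (nat_lit 5) (nat_lit 223) (nat_lit 5) (nat_lit 238) (nat_lit 5) (nat_lit 299) (nat_lit 292) (nat_lit 189))) (XT.nd (nat_lit 78) (nat_lit 1140) (nat_lit 0) (XT.lf (nat_lit 76) (nat_lit 6384895684) (nat_lit 0) (nat_lit 5556018533) (nat_lit 1140) (nat_lit 250752795) (nat_lit 224) (nat_lit 5) (nat_lit 223) (nat_lit 5) (nat_lit 238) (nat_lit 5) (nat_lit 300) (nat_lit 292) (nat_lit 188)) (XT.lf (nat_lit 76) (nat_lit 61200821) (nat_lit 0) (nat_lit 525795281) (nat_lit 1216) (nat_lit 11783551278) (nat_lit 209) (nat_lit 5) (nat_lit 208) (nat_lit 5) (nat_lit 224) (nat_lit 5) (nat_lit 301) (nat_lit 292) (nat_lit 187))))))) (XT.nd (nat_lit 1092) (nat_lit 4028) (nat_lit 0) (XT.nd (nat_lit 546) (nat_lit 2356) (nat_lit 0) (XT.nd (nat_lit 234) (nat_lit 0) (nat_lit 76) (XT.nd (nat_lit 78) (nat_lit 0) (nat_lit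 0) (XT.lf (nat_lit 0) (nat_lit 1531289179) (nat_lit 1140) (nat_lit 6389222516) (nat_lit 1216) (nat_lit 4631632480) (nat_lit 209) (nat_lit 5) (nat_lit 224) (nat_lit 5) (nat_lit 225) (nat_lit 5) (nat_lit 302) (nat_lit 292) (nat_lit 186)) (XT.nd (nat_lit 78) (nat_lit 0) (nat_lit 76) (XT.lf (nat_lit 0) (nat_lit 2492111216) (nat_lit 1140) (nat_lit 308952617) (nat_lit 1216) (nat_lit 9938496558) (nat_lit 209) (nat_lit 5) (nat_lit 224) (nat_lit 5) (nat_lit 225) (nat_lit 5) (nat_lit 303) (nat_lit 292) (nat_lit 185)) (XT.lf (nat_lit 0) (nat_lit 3547883931) (nat_lit 1140) (nat_lit 6895662681) (nat_lit 1216) (nat_lit 2487085711) (nat_lit 210) (nat_lit 5) (nat_lit 225) (nat_lit 5) (nat_lit 226) (nat_lit 5) (nat_lit 304) (nat_lit 292) (nat_lit 184)))) (XT.nd (nat_lit 156) (nat_lit 0) (nat_lit 76) (XT.nd (nat_lit 78) (nat_lit 0) (nat_lit 76) (XT.lf (nat_lit 0) (nat_lit 4650113039) (nat_lit 1140) (nat_lit 591885465)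 (nat_lit 1216) (nat_lit 7885010926) (nat_lit 210) (nat_lit 5) (nat_lit 225) (nat_lit 5) (nat_lit 226) (nat_lit 5) (nat_lit 305) (nat_lit 292) (nat_lit 183)) (XT.lf (nat_lit 0) (nat_lit 5829230984) (nat_lit 1140) (nat_lit 7323502680) (nat_lit 1216) (nat_lit 175245564) (nat_lit 211) (nat_lit 5) (nat_lit 226) (nat_lit 5) (nat_lit 227) (nat_lit 5) (nat_lit 306) (nat_lit 292) (nat_lit 182))) (XT.nd (nat_lit 78) (nat_lit 0) (nat_lit 0) (XT.lf (nat_lit 0) (nat_lit 7086402210) (nat_lit 1140) (nat_lit 788248966) (nat_lit 1216) (nat_lit 5659062115) (nat_lit 211) (nat_lit 5) (nat_lit 226) (nat_lit 5) (nat_lit 227) (nat_lit 5) (nat_lit 307) (nat_lit 292) (nat_lit 181)) (XT.lf (nat_lit 76) (nat_lit 6049109557) (nat_lit 0) (nat_lit 2375513854) (nat_lit 1216) (nat_lit 5319711035) (nat_lit 212) (nat_lit 5) (nat_lit 211) (nat_lit 5) (nat_lit 227) (nat_lit 5) (nat_lit 308) (nat_lit 292) (nat_lit 180))))) (XT.nd (nat_lit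 234) (nat_lit 1444) (nat_lit 0) (XT.nd (nat_lit 78) (nat_lit 1140) (nat_lit 0) (XT.lf (nat_lit 0) (nat_lit 9828171419) (nat_lit 1140) (nat_lit 897328967) (nat_lit 76) (nat_lit 3235033119) (nat_lit 212) (nat_lit 5) (nat_lit 227) (nat_lit 5) (nat_lit 213) (nat_lit 5) (nat_lit 309) (nat_lit 292) (nat_lit 179)) (XT.nd (nat_lit 78) (nat_lit 0) (nat_lit 0) (XT.lf (nat_lit 0) (nat_lit 6189778603) (nat_lit 1140) (nat_lit 5153018187) (nat_lit 1216) (nat_lit 2838366862) (nat_lit 197) (nat_lit 5) (nat_lit 212) (nat_lit 5) (nat_lit 213) (nat_lit 5) (nat_lit 310) (nat_lit 292) (nat_lit 178)) (XT.lf (nat_lit 0) (nat_lit 12903915226) (nat_lit 1216) (nat_lit 918293091) (nat_lit 76) (nat_lit 586186588) (nat_lit 197) (nat_lit 5) (nat_lit 213) (nat_lit 5) (nat_lit 198) (nat_lit 5) (nat_lit 311) (nat_lit 292) (nat_lit 177)))) (XT.nd (nat_lit 156) (nat_lit 608) (nat_lit 0) (XT.nd (nat_lit 78) (nat_lit 76) (nat_lit 0)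 (XT.lf (nat_lit 0) (nat_lit 6429475473) (nat_lit 760) (nat_lit 8181880045) (nat_lit 836) (nat_lit 28116357) (nat_lit 187) (nat_lit 5) (nat_lit 197) (nat_lit 5) (nat_lit 198) (nat_lit 5) (nat_lit 312) (nat_lit 292) (nat_lit 176)) (XT.lf (nat_lit 0) (nat_lit 1459574608) (nat_lit 836) (nat_lit 887257345) (nat_lit 76) (nat_lit 12530346596) (nat_lit 186) (nat_lit 5) (nat_lit 197) (nat_lit 5) (nat_lit 187) (nat_lit 5) (nat_lit 313) (nat_lit 292) (nat_lit 175))) (XT.nd (nat_lit 78) (nat_lit 0) (nat_lit 0) (XT.lf (nat_lit 0) (nat_lit 3079512466) (nat_lit 684) (nat_lit 8380989387) (nat_lit 76) (nat_lit 3658873071) (nat_lit 178) (nat_lit 5) (nat_lit 187) (nat_lit 5) (nat_lit 179) (nat_lit 5) (nat_lit 314) (nat_lit 292) (nat_lit 174)) (XT.lf (nat_lit 0) (nat_lit 4767784136) (nat_lit 684) (nat_lit 792953188) (nat_lit 76) (nat_lit 9807519724) (nat_lit 178) (nat_lit 5) (nat_lit 187) (nat_lit 5) (nat_lit 179)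 (nat_lit 5) (nat_lit 315) (nat_lit 292) (nat_lit 173)))))) (XT.nd (nat_lit 546) (nat_lit 1824) (nat_lit 0) (XT.nd (nat_lit 234) (nat_lit 1140) (nat_lit 0) (XT.nd (nat_lit 78) (nat_lit 532) (nat_lit 0) (XT.lf (nat_lit 0) (nat_lit 6568902023) (nat_lit 608) (nat_lit 8478003749) (nat_lit 76) (nat_lit 575845507) (nat_lit 171) (nat_lit 5) (nat_lit 179) (nat_lit 5) (nat_lit 172) (nat_lit 5) (nat_lit 316) (nat_lit 292) (nat_lit 172)) (XT.nd (nat_lit 78) (nat_lit 532) (nat_lit 0) (XT.lf (nat_lit 0) (nat_lit 8475260729) (nat_lit 608) (nat_lit 614895281) (nat_lit 76) (nat_lit 6793199353) (nat_lit 171) (nat_lit 5) (nat_lit 179) (nat_lit 5) (nat_lit 172) (nat_lit 5) (nat_lit 317) (nat_lit 292) (nat_lit 171)) (XT.lf (nat_lit 0) (nat_lit 7621218907) (nat_lit 532) (nat_lit 2879262684) (nat_lit 608) (nat_lit 5649456755) (nat_lit 164) (nat_lit 5) (nat_lit 171) (nat_lit 5) (nat_lit 172) (nat_lit 5) (nat_lit 318) (nat_lit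 292) (nat_lit 170)))) (XT.nd (nat_lit 156) (nat_lit 608) (nat_lit 0) (XT.nd (nat_lit 78) (nat_lit 532) (nat_lit 0) (XT.lf (nat_lit 0) (nat_lit 12615183950) (nat_lit 608) (nat_lit 353030890) (nat_lit 76) (nat_lit 3455452834) (nat_lit 164) (nat_lit 5) (nat_lit 172) (nat_lit 5) (nat_lit 165) (nat_lit 5) (nat_lit 319) (nat_lit 292) (nat_lit 169)) (XT.lf (nat_lit 0) (nat_lit 8187695711) (nat_lit 532) (nat_lit 6701812705) (nat_lit 608) (nat_lit 1813225324) (nat_lit 157) (nat_lit 5) (nat_lit 164) (nat_lit 5) (nat_lit 165) (nat_lit 5) (nat_lit 320) (nat_lit 292) (nat_lit 168))) (XT.nd (nat_lit 78) (nat_lit 532) (nat_lit 0) (XT.lf (nat_lit 0) (nat_lit 229834186) (nat_lit 608) (nat_lit 12155583) (nat_lit 76) (nat_lit 16748342060) (nat_lit 156) (nat_lit 5) (nat_lit 164) (nat_lit 5) (nat_lit 157) (nat_lit 5) (nat_lit 321) (nat_lit 292) (nat_lit 167)) (XT.lf (nat_lit 0) (nat_lit 2435230091) (nat_lit 608) (nat_lit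 8456368744) (nat_lit 76) (nat_lit 6390305202) (nat_lit 149) (nat_lit 5) (nat_lit 157) (nat_lit 5) (nat_lit 150) (nat_lit 5) (nat_lit 322) (nat_lit 292) (nat_lit 166))))) (XT.nd (nat_lit 312) (nat_lit 912) (nat_lit 0) (XT.nd (nat_lit 156) (nat_lit 456) (nat_lit 0) (XT.nd (nat_lit 78) (nat_lit 0) (nat_lit 0) (XT.lf (nat_lit 0) (nat_lit 339129950) (nat_lit 456) (nat_lit 4363014391) (nat_lit 532) (nat_lit 12880227519) (nat_lit 143) (nat_lit 5) (nat_lit 149) (nat_lit 5) (nat_lit 150) (nat_lit 5) (nat_lit 323) (nat_lit 292) (nat_lit 165)) (XT.lf (nat_lit 0) (nat_lit 7135763803) (nat_lit 532) (nat_lit 8352665226) (nat_lit 76) (nat_lit 2400472634) (nat_lit 143) (nat_lit 5) (nat_lit 150) (nat_lit 5) (nat_lit 144) (nat_lit 5) (nat_lit 324) (nat_lit 292) (nat_lit 164))) (XT.nd (nat_lit 78) (nat_lit 0) (nat_lit 0) (XT.lf (nat_lit 0) (nat_lit 765029759) (nat_lit 456) (nat_lit 8917972515) (nat_lit 532) (nat_lit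 8520415392) (nat_lit 137) (nat_lit 5) (nat_lit 143) (nat_lit 5) (nat_lit 144) (nat_lit 5) (nat_lit 325) (nat_lit 292) (nat_lit 163)) (XT.lf (nat_lit 0) (nat_lit 10316258792) (nat_lit 456) (nat_lit 2064984706) (nat_lit 532) (nat_lit 6143896450) (nat_lit 137) (nat_lit 5) (nat_lit 143) (nat_lit 5) (nat_lit 144) (nat_lit 5) (nat_lit 326) (nat_lit 292) (nat_lit 162)))) (XT.nd (nat_lit 156) (nat_lit 532) (nat_lit 0) (XT.nd (nat_lit 78) (nat_lit 0) (nat_lit 0) (XT.lf (nat_lit 0) (nat_lit 1262984410) (nat_lit 380) (nat_lit 13948100314) (nat_lit 456) (nat_lit 3643917718) (nat_lit 132) (nat_lit 5) (nat_lit 137) (nat_lit 5) (nat_lit 138) (nat_lit 5) (nat_lit 327) (nat_lit 292) (nat_lit 161)) (XT.lf (nat_lit 0) (nat_lit 11155366886) (nat_lit 380) (nat_lit 7064273633) (nat_lit 456) (nat_lit 972313597) (nat_lit 132) (nat_lit 5) (nat_lit 137) (nat_lit 5) (nat_lit 138) (nat_lit 5) (nat_lit 328) (nat_lit 292) (nat_lit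 160))) (XT.nd (nat_lit 78) (nat_lit 0) (nat_lit 0) (XT.lf (nat_lit 0) (nat_lit 1753572055) (nat_lit 532) (nat_lit 17725986927) (nat_lit 76) (nat_lit 58683942) (nat_lit 125) (nat_lit 5) (nat_lit 132) (nat_lit 5) (nat_lit 126) (nat_lit 5) (nat_lit 329) (nat_lit 292) (nat_lit 159)) (XT.lf (nat_lit 0) (nat_lit 4684592108) (nat_lit 532) (nat_lit 7862632715) (nat_lit 76) (nat_lit 7343126975) (nat_lit 125) (nat_lit 5) (nat_lit 132) (nat_lit 5) (nat_lit 126) (nat_lit 5) (nat_lit 330) (nat_lit 292) (nat_lit 158))))))))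
noncomputable def xc179 : XT := (XT.nd (nat_lit 2184) (nat_lit 2584) (nat_lit 0) (XT.nd (nat_lit 1092) (nat_lit 1900) (nat_lit 0) (XT.nd (nat_lit 546) (nat_lit 988) (nat_lit 0) (XT.nd (nat_lit 234) (nat_lit 836) (nat_lit 0) (XT.nd (nat_lit 78) (nat_lit 380) (nat_lit 0) (XT.lf (nat_lit 0) (nat_lit 2331358093) (nat_lit 380) (nat_lit 5385857042) (nat_lit 456) (nat_lit 12535405639) (nat_lit 120) (nat_lit 5) (nat_lit 125) (nat_lit 5) (nat_lit 126) (nat_lit 5) (nat_lit 331) (nat_lit 292) (nat_lit 157)) (XT.nd (nat_lit 78) (nat_lit 380) (nat_lit 0) (XT.lf (nat_lit 0) (nat_lit 10931526808) (nat_lit 456) (nat_lit 7661845892) (nat_lit 76) (nat_lit 2029670626) (nat_lit 120) (nat_lit 5) (nat_lit 126) (nat_lit 5) (nat_lit 121) (nat_lit 5) (nat_lit 332) (nat_lit 292) (nat_lit 156)) (XT.lf (nat_lit 0) (nat_lit 2897999576) (nat_lit 380) (nat_lit 11417095762) (nat_lit 456) (nat_lit 6687304996) (nat_lit 115) (nat_lit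 5) (nat_lit 120) (nat_lit 5) (nat_lit 121) (nat_lit 5) (nat_lit 333) (nat_lit 292) (nat_lit 155)))) (XT.nd (nat_lit 156) (nat_lit 456) (nat_lit 0) (XT.nd (nat_lit 78) (nat_lit 380) (nat_lit 0) (XT.lf (nat_lit 0) (nat_lit 13921225535) (nat_lit 380) (nat_lit 3948102515) (nat_lit 456) (nat_lit 3521741703) (nat_lit 115) (nat_lit 5) (nat_lit 120) (nat_lit 5) (nat_lit 121) (nat_lit 5) (nat_lit 334) (nat_lit 292) (nat_lit 154)) (XT.lf (nat_lit 0) (nat_lit 3505765878) (nat_lit 380) (nat_lit 18086125869) (nat_lit 456) (nat_lit 197662611) (nat_lit 110) (nat_lit 5) (nat_lit 115) (nat_lit 5) (nat_lit 116) (nat_lit 5) (nat_lit 335) (nat_lit 292) (nat_lit 153))) (XT.nd (nat_lit 78) (nat_lit 380) (nat_lit 0) (XT.lf (nat_lit 0) (nat_lit 3270508748) (nat_lit 456) (nat_lit 7315266881) (nat_lit 76) (nat_lit 11610073691) (nat_lit 109) (nat_lit 5) (nat_lit 115) (nat_lit 5) (nat_lit 110) (nat_lit 5) (nat_lit 336) (nat_lit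 292) (nat_lit 152)) (XT.lf (nat_lit 0) (nat_lit 4049216183) (nat_lit 380) (nat_lit 2820746915) (nat_lit 456) (nat_lit 15743380698) (nat_lit 104) (nat_lit 5) (nat_lit 109) (nat_lit 5) (nat_lit 110) (nat_lit 5) (nat_lit 337) (nat_lit 292) (nat_lit 151))))) (XT.nd (nat_lit 234) (nat_lit 684) (nat_lit 0) (XT.nd (nat_lit 78) (nat_lit 304) (nat_lit 0) (XT.lf (nat_lit 0) (nat_lit 10694160469) (nat_lit 456) (nat_lit 7197317334) (nat_lit 76) (nat_lit 5148388053) (nat_lit 104) (nat_lit 5) (nat_lit 110) (nat_lit 5) (nat_lit 105) (nat_lit 5) (nat_lit 338) (nat_lit 292) (nat_lit 150)) (XT.nd (nat_lit 78) (nat_lit 0) (nat_lit 0) (XT.lf (nat_lit 0) (nat_lit 4561619835) (nat_lit 304) (nat_lit 10135854229) (nat_lit 380) (nat_lit 8779783178) (nat_lit 100) (nat_lit 5) (nat_lit 104) (nat_lit 5) (nat_lit 105) (nat_lit 5) (nat_lit 339) (nat_lit 292) (nat_lit 149)) (XT.lf (nat_lit 0) (nat_lit 16810997880) (nat_lit 304)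 (nat_lit 2075301338) (nat_lit 380) (nat_lit 5039513999) (nat_lit 100) (nat_lit 5) (nat_lit 104) (nat_lit 5) (nat_lit 105) (nat_lit 5) (nat_lit 340) (nat_lit 292) (nat_lit 148)))) (XT.nd (nat_lit 156) (nat_lit 304) (nat_lit 0) (XT.nd (nat_lit 78) (nat_lit 76) (nat_lit 0) (XT.lf (nat_lit 0) (nat_lit 5069323449) (nat_lit 304) (nat_lit 18232974262) (nat_lit 380) (nat_lit 1082487967) (nat_lit 96) (nat_lit 5) (nat_lit 100) (nat_lit 5) (nat_lit 101) (nat_lit 5) (nat_lit 341) (nat_lit 292) (nat_lit 147)) (XT.lf (nat_lit 0) (nat_lit 3020904507) (nat_lit 380) (nat_lit 7150390028) (nat_lit 76) (nat_lit 14682792419) (nat_lit 95) (nat_lit 5) (nat_lit 100) (nat_lit 5) (nat_lit 96) (nat_lit 5) (nat_lit 342) (nat_lit 292) (nat_lit 146))) (XT.nd (nat_lit 78) (nat_lit 0) (nat_lit 0) (XT.lf (nat_lit 0) (nat_lit 5466045467) (nat_lit 304) (nat_lit 1805304531) (nat_lit 380) (nat_lit 18064429129) (nat_lit 91) (nat_lit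 5) (nat_lit 95) (nat_lit 5) (nat_lit 96) (nat_lit 5) (nat_lit 343) (nat_lit 292) (nat_lit 145)) (XT.lf (nat_lit 0) (nat_lit 11780954017) (nat_lit 380) (nat_lit 7298018844) (nat_lit 76) (nat_lit 6749004346) (nat_lit 91) (nat_lit 5) (nat_lit 96) (nat_lit 5) (nat_lit 92) (nat_lit 5) (nat_lit 344) (nat_lit 292) (nat_lit 144)))))) (XT.nd (nat_lit 546) (nat_lit 760) (nat_lit 0) (XT.nd (nat_lit 234) (nat_lit 608) (nat_lit 0) (XT.nd (nat_lit 78) (nat_lit 228) (nat_lit 0) (XT.lf (nat_lit 0) (nat_lit 5735554493) (nat_lit 304) (nat_lit 10756743751) (nat_lit 380) (nat_lit 9840653790) (nat_lit 87) (nat_lit 5) (nat_lit 91) (nat_lit 5) (nat_lit 92) (nat_lit 5) (nat_lit 345) (nat_lit 292) (nat_lit 143)) (XT.nd (nat_lit 78) (nat_lit 228) (nat_lit 0) (XT.lf (nat_lit 0) (nat_lit 19300488881) (nat_lit 304) (nat_lit 2111735771) (nat_lit 380) (nat_lit 5438838438) (nat_lit 87) (nat_lit 5) (nat_lit 91) (nat_lit 5) (nat_lit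 92) (nat_lit 5) (nat_lit 346) (nat_lit 292) (nat_lit 142)) (XT.lf (nat_lit 0) (nat_lit 5928908314) (nat_lit 228) (nat_lit 20666835743) (nat_lit 304) (nat_lit 785497681) (nat_lit 84) (nat_lit 5) (nat_lit 87) (nat_lit 5) (nat_lit 88) (nat_lit 5) (nat_lit 347) (nat_lit 292) (nat_lit 141)))) (XT.nd (nat_lit 156) (nat_lit 228) (nat_lit 0) (XT.nd (nat_lit 78) (nat_lit 304) (nat_lit 0) (XT.lf (nat_lit 0) (nat_lit 4020891846) (nat_lit 304) (nat_lit 8026852717) (nat_lit 76) (nat_lit 15875679956) (nat_lit 83) (nat_lit 5) (nat_lit 87) (nat_lit 5) (nat_lit 84) (nat_lit 5) (nat_lit 348) (nat_lit 292) (nat_lit 140)) (XT.lf (nat_lit 0) (nat_lit 5899825697) (nat_lit 304) (nat_lit 3106493751) (nat_lit 380) (nat_lit 19473804764) (nat_lit 79) (nat_lit 5) (nat_lit 83) (nat_lit 5) (nat_lit 84) (nat_lit 5) (nat_lit 349) (nat_lit 292) (nat_lit 139))) (XT.nd (nat_lit 78) (nat_lit 228) (nat_lit 0) (XT.lf (nat_lit 0) (nat_lit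 14275819833) (nat_lit 380) (nat_lit 8710699276) (nat_lit 76) (nat_lit 6062974146) (nat_lit 79) (nat_lit 5) (nat_lit 84) (nat_lit 5) (nat_lit 80) (nat_lit 5) (nat_lit 350) (nat_lit 292) (nat_lit 138)) (XT.lf (nat_lit 0) (nat_lit 5645674852) (nat_lit 228) (nat_lit 14136918812) (nat_lit 304) (nat_lit 9850977602) (nat_lit 76) (nat_lit 5) (nat_lit 79) (nat_lit 5) (nat_lit 80) (nat_lit 5) (nat_lit 351) (nat_lit 292) (nat_lit 137))))) (XT.nd (nat_lit 234) (nat_lit 456) (nat_lit 0) (XT.nd (nat_lit 78) (nat_lit 304) (nat_lit 0) (XT.lf (nat_lit 0) (nat_lit 20602663346) (nat_lit 228) (nat_lit 4934116766) (nat_lit 304) (nat_lit 4695928671) (nat_lit 76) (nat_lit 5) (nat_lit 79) (nat_lit 5) (nat_lit 80) (nat_lit 5) (nat_lit 352) (nat_lit 292) (nat_lit 136)) (XT.nd (nat_lit 78) (nat_lit 0) (nat_lit 0) (XT.lf (nat_lit 0) (nat_lit 690802310) (nat_lit 304) (nat_lit 25646002385) (nat_lit 76) (nat_lit 4510171757) (nat_lit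 72) (nat_lit 5) (nat_lit 76) (nat_lit 5) (nat_lit 73) (nat_lit 5) (nat_lit 353) (nat_lit 292) (nat_lit 135)) (XT.lf (nat_lit 0) (nat_lit 6286225054) (nat_lit 304) (nat_lit 10907294688) (nat_lit 76) (nat_lit 14280516533) (nat_lit 72) (nat_lit 5) (nat_lit 76) (nat_lit 5) (nat_lit 73) (nat_lit 5) (nat_lit 354) (nat_lit 292) (nat_lit 134)))) (XT.nd (nat_lit 156) (nat_lit 228) (nat_lit 0) (XT.nd (nat_lit 78) (nat_lit 0) (nat_lit 0) (XT.lf (nat_lit 0) (nat_lit 4350149954) (nat_lit 228) (nat_lit 7735752862) (nat_lit 304) (nat_lit 20032916371) (nat_lit 69) (nat_lit 5) (nat_lit 72) (nat_lit 5) (nat_lit 73) (nat_lit 5) (nat_lit 355) (nat_lit 292) (nat_lit 133)) (XT.lf (nat_lit 0) (nat_lit 18184711358) (nat_lit 304) (nat_lit 12519471009) (nat_lit 76) (nat_lit 2075011979) (nat_lit 69) (nat_lit 5) (nat_lit 73) (nat_lit 5) (nat_lit 70) (nat_lit 5) (nat_lit 356) (nat_lit 292) (nat_lit 132))) (XT.nd (nat_lit 78)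 (nat_lit 0) (nat_lit 0) (XT.lf (nat_lit 0) (nat_lit 3164235341) (nat_lit 228) (nat_lit 21404040654) (nat_lit 304) (nat_lit 8888053896) (nat_lit 66) (nat_lit 5) (nat_lit 69) (nat_lit 5) (nat_lit 70) (nat_lit 5) (nat_lit 357) (nat_lit 292) (nat_lit 131)) (XT.lf (nat_lit 0) (nat_lit 19567047555) (nat_lit 228) (nat_lit 11697580414) (nat_lit 304) (nat_lit 2885515926) (nat_lit 66) (nat_lit 5) (nat_lit 69) (nat_lit 5) (nat_lit 70) (nat_lit 5) (nat_lit 358) (nat_lit 292) (nat_lit 130))))))) (XT.nd (nat_lit 1092) (nat_lit 1140) (nat_lit 0) (XT.nd (nat_lit 546) (nat_lit 684) (nat_lit 0) (XT.nd (nat_lit 234) (nat_lit 456) (nat_lit 0) (XT.nd (nat_lit 78) (nat_lit 0) (nat_lit 0) (XT.lf (nat_lit 0) (nat_lit 1588565729) (nat_lit 228) (nat_lit 1654420409) (nat_lit 304) (nat_lit 31620531225) (nat_lit 62) (nat_lit 5) (nat_lit 65) (nat_lit 5) (nat_lit 66) (nat_lit 5) (nat_lit 359) (nat_lit 292) (nat_lit 129)) (XT.nd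 (nat_lit 78) (nat_lit 0) (nat_lit 0) (XT.lf (nat_lit 0) (nat_lit 9724599949) (nat_lit 304) (nat_lit 17171076469) (nat_lit 76) (nat_lit 8694943516) (nat_lit 62) (nat_lit 5) (nat_lit 66) (nat_lit 5) (nat_lit 63) (nat_lit 5) (nat_lit 360) (nat_lit 292) (nat_lit 128)) (XT.lf (nat_lit 0) (nat_lit 16412188269) (nat_lit 304) (nat_lit 608191349) (nat_lit 76) (nat_lit 19318812673) (nat_lit 62) (nat_lit 5) (nat_lit 66) (nat_lit 5) (nat_lit 63) (nat_lit 5) (nat_lit 361) (nat_lit 292) (nat_lit 127)))) (XT.nd (nat_lit 156) (nat_lit 228) (nat_lit 0) (XT.nd (nat_lit 78) (nat_lit 0) (nat_lit 0) (XT.lf (nat_lit 0) (nat_lit 16771348874) (nat_lit 228) (nat_lit 6685558910) (nat_lit 304) (nat_lit 13648621346) (nat_lit 59) (nat_lit 5) (nat_lit 62) (nat_lit 5) (nat_lit 63) (nat_lit 5) (nat_lit 362) (nat_lit 292) (nat_lit 126)) (XT.lf (nat_lit 0) (nat_lit 30752556737) (nat_lit 304) (nat_lit 3255591649) (nat_lit 76) (nat_lit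 3885522399) (nat_lit 59) (nat_lit 5) (nat_lit 63) (nat_lit 5) (nat_lit 60) (nat_lit 5) (nat_lit 363) (nat_lit 292) (nat_lit 125))) (XT.nd (nat_lit 78) (nat_lit 76) (nat_lit 0) (XT.lf (nat_lit 0) (nat_lit 14545676820) (nat_lit 152) (nat_lit 23922876293) (nat_lit 228) (nat_lit 230861519) (nat_lit 57) (nat_lit 5) (nat_lit 59) (nat_lit 5) (nat_lit 60) (nat_lit 5) (nat_lit 364) (nat_lit 292) (nat_lit 124)) (XT.lf (nat_lit 0) (nat_lit 6780993223) (nat_lit 228) (nat_lit 6654492451) (nat_lit 76) (nat_lit 26091000925) (nat_lit 56) (nat_lit 5) (nat_lit 59) (nat_lit 5) (nat_lit 57) (nat_lit 5) (nat_lit 365) (nat_lit 292) (nat_lit 123))))) (XT.nd (nat_lit 234) (nat_lit 304) (nat_lit 0) (XT.nd (nat_lit 78) (nat_lit 152) (nat_lit 0) (XT.lf (nat_lit 0) (nat_lit 11586407903) (nat_lit 228) (nat_lit 2519141302) (nat_lit 304) (nat_lit 26269545464) (nat_lit 53) (nat_lit 5) (nat_lit 56) (nat_lit 5) (nat_lit 57) (nat_lit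 5) (nat_lit 366) (nat_lit 292) (nat_lit 122)) (XT.nd (nat_lit 78) (nat_lit 152) (nat_lit 0) (XT.lf (nat_lit 0) (nat_lit 21797215414) (nat_lit 304) (nat_lit 10827896586) (nat_lit 76) (nat_lit 8619629798) (nat_lit 53) (nat_lit 5) (nat_lit 57) (nat_lit 5) (nat_lit 54) (nat_lit 5) (nat_lit 367) (nat_lit 292) (nat_lit 121)) (XT.lf (nat_lit 0) (nat_lit 7791866418) (nat_lit 152) (nat_lit 22023378062) (nat_lit 228) (nat_lit 12322367441) (nat_lit 51) (nat_lit 5) (nat_lit 53) (nat_lit 5) (nat_lit 54) (nat_lit 5) (nat_lit 368) (nat_lit 292) (nat_lit 120)))) (XT.nd (nat_lit 156) (nat_lit 0) (nat_lit 0) (XT.nd (nat_lit 78) (nat_lit 304) (nat_lit 0) (XT.lf (nat_lit 0) (nat_lit 27185295509) (nat_lit 152) (nat_lit 10993687095) (nat_lit 228) (nat_lit 4875132407) (nat_lit 51) (nat_lit 5) (nat_lit 53) (nat_lit 5) (nat_lit 54) (nat_lit 5) (nat_lit 369) (nat_lit 292) (nat_lit 119)) (XT.lf (nat_lit 0) (nat_lit 2771621352)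 (nat_lit 304) (nat_lit 40809542202) (nat_lit 76) (nat_lit 415225702) (nat_lit 47) (nat_lit 5) (nat_lit 51) (nat_lit 5) (nat_lit 48) (nat_lit 5) (nat_lit 370) (nat_lit 292) (nat_lit 118))) (XT.nd (nat_lit 78) (nat_lit 0) (nat_lit 0) (XT.lf (nat_lit 0) (nat_lit 10816407705) (nat_lit 304) (nat_lit 21988150731) (nat_lit 76) (nat_lit 12152928520) (nat_lit 47) (nat_lit 5) (nat_lit 51) (nat_lit 5) (nat_lit 48) (nat_lit 5) (nat_lit 371) (nat_lit 292) (nat_lit 117)) (XT.lf (nat_lit 0) (nat_lit 19098592398) (nat_lit 304) (nat_lit 2608720986) (nat_lit 76) (nat_lit 24240224257) (nat_lit 47) (nat_lit 5) (nat_lit 51) (nat_lit 5) (nat_lit 48) (nat_lit 5) (nat_lit 372) (nat_lit 292) (nat_lit 116)))))) (XT.nd (nat_lit 546) (nat_lit 608) (nat_lit 0) (XT.nd (nat_lit 234) (nat_lit 228) (nat_lit 0) (XT.nd (nat_lit 78) (nat_lit 152) (nat_lit 0) (XT.lf (nat_lit 0) (nat_lit 17690893569) (nat_lit 152) (nat_lit 10104574414)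 (nat_lit 228) (nat_lit 19166836749) (nat_lit 45) (nat_lit 5) (nat_lit 47) (nat_lit 5) (nat_lit 48) (nat_lit 5) (nat_lit 373) (nat_lit 292) (nat_lit 115)) (XT.nd (nat_lit 78) (nat_lit 152) (nat_lit 0) (XT.lf (nat_lit 0) (nat_lit 36793796388) (nat_lit 228) (nat_lit 9378198422) (nat_lit 76) (nat_lit 1834305228) (nat_lit 45) (nat_lit 5) (nat_lit 48) (nat_lit 5) (nat_lit 46) (nat_lit 5) (nat_lit 374) (nat_lit 292) (nat_lit 114)) (XT.lf (nat_lit 0) (nat_lit 11224545672) (nat_lit 152) (nat_lit 35041777783) (nat_lit 228) (nat_lit 2809165836) (nat_lit 43) (nat_lit 5) (nat_lit 45) (nat_lit 5) (nat_lit 46) (nat_lit 5) (nat_lit 375) (nat_lit 292) (nat_lit 113)))) (XT.nd (nat_lit 156) (nat_lit 0) (nat_lit 0) (XT.nd (nat_lit 78) (nat_lit 152) (nat_lit 0) (XT.lf (nat_lit 0) (nat_lit 5824146170) (nat_lit 228) (nat_lit 17599697330) (nat_lit 76) (nat_lit 26748467570) (nat_lit 42) (nat_lit 5) (nat_lit 45) (nat_lit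 5) (nat_lit 43) (nat_lit 5) (nat_lit 376) (nat_lit 292) (nat_lit 112)) (XT.lf (nat_lit 0) (nat_lit 3289378373) (nat_lit 152) (nat_lit 11398661336) (nat_lit 228) (nat_lit 36612323498) (nat_lit 40) (nat_lit 5) (nat_lit 42) (nat_lit 5) (nat_lit 43) (nat_lit 5) (nat_lit 377) (nat_lit 292) (nat_lit 111))) (XT.nd (nat_lit 78) (nat_lit 0) (nat_lit 0) (XT.lf (nat_lit 0) (nat_lit 24003268828) (nat_lit 228) (nat_lit 27308378028) (nat_lit 76) (nat_lit 1145048869) (nat_lit 40) (nat_lit 5) (nat_lit 43) (nat_lit 5) (nat_lit 41) (nat_lit 5) (nat_lit 378) (nat_lit 292) (nat_lit 110)) (XT.lf (nat_lit 0) (nat_lit 33707362761) (nat_lit 228) (nat_lit 6103478961) (nat_lit 76) (nat_lit 13833595597) (nat_lit 40) (nat_lit 5) (nat_lit 43) (nat_lit 5) (nat_lit 41) (nat_lit 5) (nat_lit 379) (nat_lit 292) (nat_lit 109))))) (XT.nd (nat_lit 312) (nat_lit 228) (nat_lit 0) (XT.nd (nat_lit 156) (nat_lit 228) (nat_lit 0) (XT.nd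 (nat_lit 78) (nat_lit 0) (nat_lit 0) (XT.lf (nat_lit 0) (nat_lit 16044905727) (nat_lit 152) (nat_lit 27808557631) (nat_lit 228) (nat_lit 11009822587) (nat_lit 38) (nat_lit 5) (nat_lit 40) (nat_lit 5) (nat_lit 41) (nat_lit 5) (nat_lit 380) (nat_lit 292) (nat_lit 108)) (XT.lf (nat_lit 0) (nat_lit 38977158462) (nat_lit 152) (nat_lit 15385114859) (nat_lit 228) (nat_lit 1754678180) (nat_lit 38) (nat_lit 5) (nat_lit 40) (nat_lit 5) (nat_lit 41) (nat_lit 5) (nat_lit 381) (nat_lit 292) (nat_lit 107))) (XT.nd (nat_lit 78) (nat_lit 0) (nat_lit 0) (XT.lf (nat_lit 0) (nat_lit 5210459956) (nat_lit 152) (nat_lit 2462724086) (nat_lit 228) (nat_lit 49731395851) (nat_lit 35) (nat_lit 5) (nat_lit 37) (nat_lit 5) (nat_lit 38) (nat_lit 5) (nat_lit 382) (nat_lit 292) (nat_lit 106)) (XT.lf (nat_lit 0) (nat_lit 17624453220) (nat_lit 228) (nat_lit 30272051657) (nat_lit 76) (nat_lit 10825537072) (nat_lit 35) (nat_lit 5)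 (nat_lit 38) (nat_lit 5) (nat_lit 36) (nat_lit 5) (nat_lit 383) (nat_lit 292) (nat_lit 105)))) (XT.nd (nat_lit 156) (nat_lit 76) (nat_lit 0) (XT.nd (nat_lit 78) (nat_lit 152) (nat_lit 0) (XT.lf (nat_lit 0) (nat_lit 27895512985) (nat_lit 228) (nat_lit 7722159505) (nat_lit 76) (nat_lit 24460718922) (nat_lit 35) (nat_lit 5) (nat_lit 38) (nat_lit 5) (nat_lit 36) (nat_lit 5) (nat_lit 384) (nat_lit 292) (nat_lit 104)) (XT.lf (nat_lit 0) (nat_lit 15807392682) (nat_lit 152) (nat_lit 22816222485) (nat_lit 228) (nat_lit 22847349961) (nat_lit 33) (nat_lit 5) (nat_lit 35) (nat_lit 5) (nat_lit 36) (nat_lit 5) (nat_lit 385) (nat_lit 292) (nat_lit 103))) (XT.nd (nat_lit 78) (nat_lit 76) (nat_lit 0) (XT.lf (nat_lit 0) (nat_lit 40195884161) (nat_lit 152) (nat_lit 9552653348) (nat_lit 228) (nat_lit 13154530292) (nat_lit 33) (nat_lit 5) (nat_lit 35) (nat_lit 5) (nat_lit 36) (nat_lit 5) (nat_lit 386) (nat_lit 292)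 (nat_lit 102)) (XT.lf (nat_lit 0) (nat_lit 911018810) (nat_lit 76) (nat_lit 60341507421) (nat_lit 152) (nat_lit 3124248788) (nat_lit 32) (nat_lit 5) (nat_lit 33) (nat_lit 5) (nat_lit 34) (nat_lit 4) (nat_lit 387) (nat_lit 292) (nat_lit 101))))))))
noncomputable def xc180 : XT := (XT.nd (nat_lit 34086) (nat_lit 0) (nat_lit 7524) (XT.nd (nat_lit 1092) (nat_lit 152) (nat_lit 0) (XT.nd (nat_lit 546) (nat_lit 304) (nat_lit 0) (XT.nd (nat_lit 234) (nat_lit 152) (nat_lit 0) (XT.nd (nat_lit 78) (nat_lit 152) (nat_lit 0) (XT.lf (nat_lit 0) (nat_lit 7389528444) (nat_lit 152) (nat_lit 40355868137) (nat_lit 76) (nat_lit 18137522892) (nat_lit 31) (nat_lit 5) (nat_lit 33) (nat_lit 5) (nat_lit 32) (nat_lit 5) (nat_lit 388) (nat_lit 292) (nat_lit 100)) (XT.nd (nat_lit 78) (nat_lit 152) (nat_lit 0) (XT.lf (nat_lit 0) (nat_lit 18153081607) (nat_lit 152) (nat_lit 16588633504) (nat_lit 76) (nat_lit 32691691388) (nat_lit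 31) (nat_lit 5) (nat_lit 33) (nat_lit 5) (nat_lit 32) (nat_lit 5) (nat_lit 389) (nat_lit 292) (nat_lit 99)) (XT.lf (nat_lit 0) (nat_lit 8043709105) (nat_lit 152) (nat_lit 21270393042) (nat_lit 228) (nat_lit 39714070076) (nat_lit 29) (nat_lit 5) (nat_lit 31) (nat_lit 5) (nat_lit 32) (nat_lit 5) (nat_lit 390) (nat_lit 292) (nat_lit 98)))) (XT.nd (nat_lit 156) (nat_lit 152) (nat_lit 0) (XT.nd (nat_lit 78) (nat_lit 0) (nat_lit 0) (XT.lf (nat_lit 0) (nat_lit 33750249670) (nat_lit 152) (nat_lit 7224490068) (nat_lit 228) (nat_lit 29691098473) (nat_lit 29) (nat_lit 5) (nat_lit 31) (nat_lit 5) (nat_lit 32) (nat_lit 5) (nat_lit 391) (nat_lit 292) (nat_lit 97)) (XT.lf (nat_lit 0) (nat_lit 53052152185) (nat_lit 228) (nat_lit 12199013122) (nat_lit 76) (nat_lit 7099461060) (nat_lit 29) (nat_lit 5) (nat_lit 32) (nat_lit 5) (nat_lit 30) (nat_lit 4) (nat_lit 392) (nat_lit 292) (nat_lit 96))) (XT.nd (nat_lit 78)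 (nat_lit 76) (nat_lit 0) (XT.lf (nat_lit 0) (nat_lit 13445290897) (nat_lit 76) (nat_lit 52244781335) (nat_lit 152) (nat_lit 8389941212) (nat_lit 28) (nat_lit 5) (nat_lit 29) (nat_lit 5) (nat_lit 30) (nat_lit 4) (nat_lit 393) (nat_lit 292) (nat_lit 95)) (XT.lf (nat_lit 0) (nat_lit 2912137500) (nat_lit 152) (nat_lit 35781782560) (nat_lit 76) (nat_lit 37162887504) (nat_lit 27) (nat_lit 5) (nat_lit 29) (nat_lit 5) (nat_lit 28) (nat_lit 5) (nat_lit 394) (nat_lit 292) (nat_lit 94))))) (XT.nd (nat_lit 234) (nat_lit 152) (nat_lit 0) (XT.nd (nat_lit 78) (nat_lit 152) (nat_lit 0) (XT.lf (nat_lit 0) (nat_lit 14382141020) (nat_lit 152) (nat_lit 10270800927) (nat_lit 76) (nat_lit 53031547505) (nat_lit 27) (nat_lit 5) (nat_lit 29) (nat_lit 5) (nat_lit 28) (nat_lit 5) (nat_lit 395) (nat_lit 292) (nat_lit 93)) (XT.nd (nat_lit 78) (nat_lit 0) (nat_lit 0) (XT.lf (nat_lit 0) (nat_lit 16319617263) (nat_lit 152) (nat_lit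 10031066533) (nat_lit 228) (nat_lit 53211685566) (nat_lit 25) (nat_lit 5) (nat_lit 27) (nat_lit 5) (nat_lit 28) (nat_lit 5) (nat_lit 396) (nat_lit 292) (nat_lit 92)) (XT.lf (nat_lit 0) (nat_lit 38828947275) (nat_lit 228) (nat_lit 37628917458) (nat_lit 76) (nat_lit 5034201723) (nat_lit 25) (nat_lit 5) (nat_lit 28) (nat_lit 5) (nat_lit 26) (nat_lit 4) (nat_lit 397) (nat_lit 292) (nat_lit 91)))) (XT.nd (nat_lit 156) (nat_lit 76) (nat_lit 0) (XT.nd (nat_lit 78) (nat_lit 76) (nat_lit 0) (XT.lf (nat_lit 0) (nat_lit 51778523034) (nat_lit 228) (nat_lit 11350217705) (nat_lit 76) (nat_lit 20348005493) (nat_lit 25) (nat_lit 5) (nat_lit 28) (nat_lit 5) (nat_lit 26) (nat_lit 4) (nat_lit 398) (nat_lit 292) (nat_lit 90)) (XT.lf (nat_lit 0) (nat_lit 16025448092) (nat_lit 76) (nat_lit 49242899805) (nat_lit 152) (nat_lit 20248066326) (nat_lit 24) (nat_lit 5) (nat_lit 25) (nat_lit 5) (nat_lit 26) (nat_lit 4) (nat_lit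 399) (nat_lit 292) (nat_lit 89))) (XT.nd (nat_lit 78) (nat_lit 76) (nat_lit 0) (XT.lf (nat_lit 0) (nat_lit 44450983323) (nat_lit 76) (nat_lit 34824241978) (nat_lit 152) (nat_lit 8338676878) (nat_lit 24) (nat_lit 5) (nat_lit 25) (nat_lit 5) (nat_lit 26) (nat_lit 4) (nat_lit 400) (nat_lit 292) (nat_lit 88)) (XT.lf (nat_lit 0) (nat_lit 3849131205) (nat_lit 152) (nat_lit 16086783490) (nat_lit 76) (nat_lit 69837334364) (nat_lit 23) (nat_lit 5) (nat_lit 25) (nat_lit 5) (nat_lit 24) (nat_lit 5) (nat_lit 401) (nat_lit 292) (nat_lit 87)))))) (XT.nd (nat_lit 32448) (nat_lit 0) (nat_lit 14212) (XT.nd (nat_lit 32136) (nat_lit 0) (nat_lit 15124) (XT.nd (nat_lit 78) (nat_lit 0) (nat_lit 0) (XT.lf (nat_lit 0) (nat_lit 11948351470) (nat_lit 152) (nat_lit 4399328523) (nat_lit 228) (nat_lit 75643838951) (nat_lit 21) (nat_lit 5) (nat_lit 23) (nat_lit 5) (nat_lit 24) (nat_lit 5) (nat_lit 402) (nat_lit 292) (nat_lit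 86)) (XT.nd (nat_lit 78) (nat_lit 0) (nat_lit 0) (XT.lf (nat_lit 0) (nat_lit 29494637052) (nat_lit 228) (nat_lit 53234195165) (nat_lit 76) (nat_lit 11539301740) (nat_lit 21) (nat_lit 5) (nat_lit 24) (nat_lit 5) (nat_lit 22) (nat_lit 4) (nat_lit 403) (nat_lit 292) (nat_lit 85)) (XT.lf (nat_lit 0) (nat_lit 43077482785) (nat_lit 228) (nat_lit 25668286582) (nat_lit 76) (nat_lit 27866034223) (nat_lit 21) (nat_lit 5) (nat_lit 24) (nat_lit 5) (nat_lit 22) (nat_lit 4) (nat_lit 404) (nat_lit 292) (nat_lit 84)))) (XT.nd (nat_lit 156) (nat_lit 0) (nat_lit 76) (XT.nd (nat_lit 78) (nat_lit 0) (nat_lit 0) (XT.lf (nat_lit 0) (nat_lit 3332110791) (nat_lit 1140) (nat_lit 1136012452) (nat_lit 1140) (nat_lit 1136012452) (nat_lit 220) (nat_lit 3) (nat_lit 235) (nat_lit 3) (nat_lit 235) (nat_lit 5) (nat_lit 293) (nat_lit 293) (nat_lit 194)) (XT.lf (nat_lit 76) (nat_lit 2949081027) (nat_lit 0) (nat_lit 4366201160) (nat_lit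 1140) (nat_lit 4044011663) (nat_lit 221) (nat_lit 5) (nat_lit 220) (nat_lit 3) (nat_lit 235) (nat_lit 5) (nat_lit 294) (nat_lit 293) (nat_lit 193))) (XT.nd (nat_lit 78) (nat_lit 0) (nat_lit 0) (XT.lf (nat_lit 0) (nat_lit 7991911585) (nat_lit 1064) (nat_lit 3155727286) (nat_lit 1140) (nat_lit 367049199) (nat_lit 221) (nat_lit 5) (nat_lit 235) (nat_lit 5) (nat_lit 236) (nat_lit 5) (nat_lit 295) (nat_lit 293) (nat_lit 192)) (XT.lf (nat_lit 76) (nat_lit 2245863251) (nat_lit 0) (nat_lit 6487978863) (nat_lit 1140) (nat_lit 2939573482) (nat_lit 222) (nat_lit 5) (nat_lit 221) (nat_lit 5) (nat_lit 236) (nat_lit 5) (nat_lit 296) (nat_lit 293) (nat_lit 191))))) (XT.nd (nat_lit 234) (nat_lit 988) (nat_lit 0) (XT.nd (nat_lit 78) (nat_lit 0) (nat_lit 76) (XT.lf (nat_lit 76) (nat_lit 7863175153) (nat_lit 0) (nat_lit 1647377266) (nat_lit 1140) (nat_lit 2325997793) (nat_lit 222) (nat_lit 5) (nat_lit 221) (nat_lit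 5) (nat_lit 236) (nat_lit 5) (nat_lit 297) (nat_lit 293) (nat_lit 190)) (XT.nd (nat_lit 78) (nat_lit 0) (nat_lit 0) (XT.lf (nat_lit 76) (nat_lit 1632842729) (nat_lit 0) (nat_lit 8706804713) (nat_lit 1140) (nat_lit 1664079233) (nat_lit 223) (nat_lit 5) (nat_lit 222) (nat_lit 5) (nat_lit 237) (nat_lit 5) (nat_lit 298) (nat_lit 293) (nat_lit 189)) (XT.lf (nat_lit 76) (nat_lit 7460817094) (nat_lit 0) (nat_lit 3770805325) (nat_lit 1140) (nat_lit 943175521) (nat_lit 223) (nat_lit 5) (nat_lit 222) (nat_lit 5) (nat_lit 237) (nat_lit 5) (nat_lit 299) (nat_lit 293) (nat_lit 188)))) (XT.nd (nat_lit 156) (nat_lit 0) (nat_lit 0) (XT.nd (nat_lit 78) (nat_lit 1140) (nat_lit 0) (XT.lf (nat_lit 76) (nat_lit 1110133891) (nat_lit 0) (nat_lit 11045848662) (nat_lit 1140) (nat_lit 194869156) (nat_lit 224) (nat_lit 5) (nat_lit 223) (nat_lit 5) (nat_lit 238) (nat_lit 5) (nat_lit 300) (nat_lit 293) (nat_lit 187)) (XT.lf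 (nat_lit 0) (nat_lit 632603079) (nat_lit 1140) (nat_lit 5380283264) (nat_lit 1216) (nat_lit 6517114094) (nat_lit 208) (nat_lit 5) (nat_lit 223) (nat_lit 5) (nat_lit 224) (nat_lit 5) (nat_lit 301) (nat_lit 293) (nat_lit 186))) (XT.nd (nat_lit 78) (nat_lit 0) (nat_lit 76) (XT.lf (nat_lit 76) (nat_lit 655380559) (nat_lit 0) (nat_lit 814956848) (nat_lit 1216) (nat_lit 11244465219) (nat_lit 209) (nat_lit 5) (nat_lit 208) (nat_lit 5) (nat_lit 224) (nat_lit 5) (nat_lit 302) (nat_lit 293) (nat_lit 185)) (XT.lf (nat_lit 0) (nat_lit 2415192372) (nat_lit 1140) (nat_lit 5977177970) (nat_lit 1216) (nat_lit 4510335892) (nat_lit 209) (nat_lit 5) (nat_lit 224) (nat_lit 5) (nat_lit 225) (nat_lit 5) (nat_lit 303) (nat_lit 293) (nat_lit 184))))))) (XT.nd (nat_lit 1092) (nat_lit 3876) (nat_lit 0) (XT.nd (nat_lit 546) (nat_lit 2888) (nat_lit 0) (XT.nd (nat_lit 234) (nat_lit 0) (nat_lit 152) (XT.nd (nat_lit 78) (nat_lit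 0) (nat_lit 76) (XT.lf (nat_lit 76) (nat_lit 273247963) (nat_lit 0) (nat_lit 3109810999) (nat_lit 1216) (nat_lit 9713364522) (nat_lit 210) (nat_lit 5) (nat_lit 209) (nat_lit 5) (nat_lit 225) (nat_lit 5) (nat_lit 304) (nat_lit 293) (nat_lit 183)) (XT.nd (nat_lit 78) (nat_lit 0) (nat_lit 0) (XT.lf (nat_lit 0) (nat_lit 4447694250) (nat_lit 1140) (nat_lit 6495397697) (nat_lit 1216) (nat_lit 2350844358) (nat_lit 210) (nat_lit 5) (nat_lit 225) (nat_lit 5) (nat_lit 226) (nat_lit 5) (nat_lit 305) (nat_lit 293) (nat_lit 182)) (XT.lf (nat_lit 0) (nat_lit 5559882257) (nat_lit 1140) (nat_lit 20190705) (nat_lit 1216) (nat_lit 7916848707) (nat_lit 210) (nat_lit 5) (nat_lit 225) (nat_lit 5) (nat_lit 226) (nat_lit 5) (nat_lit 306) (nat_lit 293) (nat_lit 181)))) (XT.nd (nat_lit 156) (nat_lit 0) (nat_lit 0) (XT.nd (nat_lit 78) (nat_lit 0) (nat_lit 0) (XT.lf (nat_lit 0) (nat_lit 6755917504) (nat_lit 1140) (nat_lit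 6934533142) (nat_lit 1216) (nat_lit 14046612) (nat_lit 211) (nat_lit 5) (nat_lit 226) (nat_lit 5) (nat_lit 227) (nat_lit 5) (nat_lit 307) (nat_lit 293) (nat_lit 180)) (XT.lf (nat_lit 0) (nat_lit 8028906501) (nat_lit 1140) (nat_lit 220950204) (nat_lit 1216) (nat_lit 5667225902) (nat_lit 211) (nat_lit 5) (nat_lit 226) (nat_lit 5) (nat_lit 227) (nat_lit 5) (nat_lit 308) (nat_lit 293) (nat_lit 179))) (XT.nd (nat_lit 78) (nat_lit 0) (nat_lit 76) (XT.lf (nat_lit 76) (nat_lit 6815735485) (nat_lit 0) (nat_lit 2575904118) (nat_lit 1216) (nat_lit 4742873525) (nat_lit 212) (nat_lit 5) (nat_lit 211) (nat_lit 5) (nat_lit 227) (nat_lit 5) (nat_lit 309) (nat_lit 293) (nat_lit 178)) (XT.lf (nat_lit 0) (nat_lit 10815284777) (nat_lit 1140) (nat_lit 333428235) (nat_lit 76) (nat_lit 3209166483) (nat_lit 212) (nat_lit 5) (nat_lit 227) (nat_lit 5) (nat_lit 213) (nat_lit 5) (nat_lit 310) (nat_lit 293) (nat_lit 177)))))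 (XT.nd (nat_lit 234) (nat_lit 1140) (nat_lit 0) (XT.nd (nat_lit 78) (nat_lit 836) (nat_lit 0) (XT.lf (nat_lit 0) (nat_lit 6960500203) (nat_lit 1140) (nat_lit 5400309203) (nat_lit 1216) (nat_lit 2224775771) (nat_lit 197) (nat_lit 5) (nat_lit 212) (nat_lit 5) (nat_lit 213) (nat_lit 5) (nat_lit 311) (nat_lit 293) (nat_lit 176)) (XT.nd (nat_lit 78) (nat_lit 836) (nat_lit 0) (XT.lf (nat_lit 0) (nat_lit 13948156586) (nat_lit 1216) (nat_lit 356586816) (nat_lit 76) (nat_lit 515527961) (nat_lit 197) (nat_lit 5) (nat_lit 213) (nat_lit 5) (nat_lit 198) (nat_lit 5) (nat_lit 312) (nat_lit 293) (nat_lit 175)) (XT.lf (nat_lit 0) (nat_lit 622200455) (nat_lit 836) (nat_lit 7858968049) (nat_lit 76) (nat_lit 6577354333) (nat_lit 186) (nat_lit 5) (nat_lit 197) (nat_lit 5) (nat_lit 187) (nat_lit 5) (nat_lit 313) (nat_lit 293) (nat_lit 174)))) (XT.nd (nat_lit 156) (nat_lit 532) (nat_lit 0) (XT.nd (nat_lit 78) (nat_lit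 608) (nat_lit 0) (XT.lf (nat_lit 0) (nat_lit 2135007665) (nat_lit 836) (nat_lit 334215002) (nat_lit 76) (nat_lit 12834716342) (nat_lit 186) (nat_lit 5) (nat_lit 197) (nat_lit 5) (nat_lit 187) (nat_lit 5) (nat_lit 314) (nat_lit 293) (nat_lit 173)) (XT.lf (nat_lit 0) (nat_lit 3790233090) (nat_lit 684) (nat_lit 8038860550) (nat_lit 76) (nat_lit 3724724586) (nat_lit 178) (nat_lit 5) (nat_lit 187) (nat_lit 5) (nat_lit 179) (nat_lit 5) (nat_lit 315) (nat_lit 293) (nat_lit 172))) (XT.nd (nat_lit 78) (nat_lit 532) (nat_lit 0) (XT.lf (nat_lit 0) (nat_lit 5511143146) (nat_lit 684) (nat_lit 240471378) (nat_lit 76) (nat_lit 10059109708) (nat_lit 178) (nat_lit 5) (nat_lit 187) (nat_lit 5) (nat_lit 179) (nat_lit 5) (nat_lit 316) (nat_lit 293) (nat_lit 171)) (XT.lf (nat_lit 0) (nat_lit 7354124328) (nat_lit 608) (nat_lit 8143349074) (nat_lit 76) (nat_lit 575761619) (nat_lit 171) (nat_lit 5) (nat_lit 179) (nat_lit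 5) (nat_lit 172) (nat_lit 5) (nat_lit 317) (nat_lit 293) (nat_lit 170)))))) (XT.nd (nat_lit 546) (nat_lit 1748) (nat_lit 0) (XT.nd (nat_lit 234) (nat_lit 1064) (nat_lit 0) (XT.nd (nat_lit 78) (nat_lit 1064) (nat_lit 0) (XT.lf (nat_lit 0) (nat_lit 9300543060) (nat_lit 608) (nat_lit 61502540) (nat_lit 76) (nat_lit 6980141690) (nat_lit 171) (nat_lit 5) (nat_lit 179) (nat_lit 5) (nat_lit 172) (nat_lit 5) (nat_lit 318) (nat_lit 293) (nat_lit 169)) (XT.nd (nat_lit 78) (nat_lit 532) (nat_lit 0) (XT.lf (nat_lit 0) (nat_lit 8416088803) (nat_lit 532) (nat_lit 2959242944) (nat_lit 608) (nat_lit 5241787349) (nat_lit 164) (nat_lit 5) (nat_lit 171) (nat_lit 5) (nat_lit 172) (nat_lit 5) (nat_lit 319) (nat_lit 293) (nat_lit 168)) (XT.lf (nat_lit 0) (nat_lit 206910145) (nat_lit 532) (nat_lit 13332307791) (nat_lit 608) (nat_lit 3360285298) (nat_lit 157) (nat_lit 5) (nat_lit 164) (nat_lit 5) (nat_lit 165) (nat_lit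 5) (nat_lit 320) (nat_lit 293) (nat_lit 167)))) (XT.nd (nat_lit 156) (nat_lit 456) (nat_lit 0) (XT.nd (nat_lit 78) (nat_lit 608) (nat_lit 0) (XT.lf (nat_lit 0) (nat_lit 8994267116) (nat_lit 532) (nat_lit 6875075472) (nat_lit 608) (nat_lit 1317986351) (nat_lit 157) (nat_lit 5) (nat_lit 164) (nat_lit 5) (nat_lit 165) (nat_lit 5) (nat_lit 321) (nat_lit 293) (nat_lit 166)) (XT.lf (nat_lit 0) (nat_lit 553765229) (nat_lit 532) (nat_lit 211501054) (nat_lit 608) (nat_lit 16718455306) (nat_lit 149) (nat_lit 5) (nat_lit 156) (nat_lit 5) (nat_lit 157) (nat_lit 5) (nat_lit 322) (nat_lit 293) (nat_lit 165))) (XT.nd (nat_lit 78) (nat_lit 456) (nat_lit 0) (XT.lf (nat_lit 0) (nat_lit 3021902426) (nat_lit 608) (nat_lit 8144531205) (nat_lit 76) (nat_lit 6618068498) (nat_lit 149) (nat_lit 5) (nat_lit 157) (nat_lit 5) (nat_lit 150) (nat_lit 5) (nat_lit 323) (nat_lit 293) (nat_lit 164)) (XT.lf (nat_lit 0) (nat_lit 909288052)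 (nat_lit 456) (nat_lit 4437959290) (nat_lit 532) (nat_lit 12747037071) (nat_lit 143) (nat_lit 5) (nat_lit 149) (nat_lit 5) (nat_lit 150) (nat_lit 5) (nat_lit 324) (nat_lit 293) (nat_lit 163))))) (XT.nd (nat_lit 312) (nat_lit 912) (nat_lit 0) (XT.nd (nat_lit 156) (nat_lit 380) (nat_lit 0) (XT.nd (nat_lit 78) (nat_lit 456) (nat_lit 0) (XT.lf (nat_lit 0) (nat_lit 7839716769) (nat_lit 532) (nat_lit 8044987878) (nat_lit 76) (nat_lit 2525742963) (nat_lit 143) (nat_lit 5) (nat_lit 150) (nat_lit 5) (nat_lit 144) (nat_lit 5) (nat_lit 325) (nat_lit 293) (nat_lit 162)) (XT.lf (nat_lit 0) (nat_lit 1340764846) (nat_lit 456) (nat_lit 9113652897) (nat_lit 532) (nat_lit 8280262359) (nat_lit 137) (nat_lit 5) (nat_lit 143) (nat_lit 5) (nat_lit 144) (nat_lit 5) (nat_lit 326) (nat_lit 293) (nat_lit 161))) (XT.nd (nat_lit 78) (nat_lit 380) (nat_lit 0) (XT.lf (nat_lit 0) (nat_lit 11162430239) (nat_lit 456) (nat_lit 2057168429)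 (nat_lit 532) (nat_lit 5846887621) (nat_lit 137) (nat_lit 5) (nat_lit 143) (nat_lit 5) (nat_lit 144) (nat_lit 5) (nat_lit 327) (nat_lit 293) (nat_lit 160)) (XT.lf (nat_lit 0) (nat_lit 1845898568) (nat_lit 380) (nat_lit 14280727221) (nat_lit 456) (nat_lit 3279861807) (nat_lit 132) (nat_lit 5) (nat_lit 137) (nat_lit 5) (nat_lit 138) (nat_lit 5) (nat_lit 328) (nat_lit 293) (nat_lit 159)))) (XT.nd (nat_lit 156) (nat_lit 380) (nat_lit 0) (XT.nd (nat_lit 78) (nat_lit 532) (nat_lit 0) (XT.lf (nat_lit 0) (nat_lit 12019178015) (nat_lit 380) (nat_lit 7192885238) (nat_lit 456) (nat_lit 541897139) (nat_lit 132) (nat_lit 5) (nat_lit 137) (nat_lit 5) (nat_lit 138) (nat_lit 5) (nat_lit 329) (nat_lit 293) (nat_lit 158)) (XT.lf (nat_lit 0) (nat_lit 2249668394) (nat_lit 532) (nat_lit 17711797691) (nat_lit 76) (nat_lit 149263770) (nat_lit 125) (nat_lit 5) (nat_lit 132) (nat_lit 5) (nat_lit 126) (nat_lit 5) (nat_lit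 330) (nat_lit 293) (nat_lit 157))) (XT.nd (nat_lit 78) (nat_lit 380) (nat_lit 0) (XT.lf (nat_lit 0) (nat_lit 5255701888) (nat_lit 532) (nat_lit 7568444857) (nat_lit 76) (nat_lit 7649653124) (nat_lit 125) (nat_lit 5) (nat_lit 132) (nat_lit 5) (nat_lit 126) (nat_lit 5) (nat_lit 331) (nat_lit 293) (nat_lit 156)) (XT.lf (nat_lit 0) (nat_lit 2926168941) (nat_lit 380) (nat_lit 5445639105) (nat_lit 456) (nat_lit 12475363794) (nat_lit 120) (nat_lit 5) (nat_lit 125) (nat_lit 5) (nat_lit 126) (nat_lit 5) (nat_lit 332) (nat_lit 293) (nat_lit 155))))))))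
noncomputable def xc181 : XT := (XT.nd (nat_lit 2184) (nat_lit 2356) (nat_lit 0) (XT.nd (nat_lit 1092) (nat_lit 1900) (nat_lit 0) (XT.nd (nat_lit 546) (nat_lit 1292) (nat_lit 0) (XT.nd (nat_lit 234) (nat_lit 836) (nat_lit 0) (XT.nd (nat_lit 78) (nat_lit 380) (nat_lit 0) (XT.lf (nat_lit 0) (nat_lit 11671176457) (nat_lit 456) (nat_lit 7370420531) (nat_lit 76) (nat_lit 2187461024) (nat_lit 120) (nat_lit 5) (nat_lit 126) (nat_lit 5) (nat_lit 121) (nat_lit 5) (nat_lit 333) (nat_lit 293) (nat_lit 154)) (XT.nd (nat_lit 78) (nat_lit 0) (nat_lit 0) (XT.lf (nat_lit 0) (nat_lit 3501109705) (nat_lit 380) (nat_lit 11648112706) (nat_lit 456) (nat_lit 6470793688) (nat_lit 115) (nat_lit 5) (nat_lit 120) (nat_lit 5) (nat_lit 121) (nat_lit 5) (nat_lit 334) (nat_lit 293) (nat_lit 153)) (XT.lf (nat_lit 0) (nat_lit 14839998361) (nat_lit 380) (nat_lit 3958297116) (nat_lit 456) (nat_lit 3222412927) (nat_lit 115) (nat_lit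 5) (nat_lit 120) (nat_lit 5) (nat_lit 121) (nat_lit 5) (nat_lit 335) (nat_lit 293) (nat_lit 152)))) (XT.nd (nat_lit 156) (nat_lit 380) (nat_lit 0) (XT.nd (nat_lit 78) (nat_lit 0) (nat_lit 0) (XT.lf (nat_lit 0) (nat_lit 191837050) (nat_lit 456) (nat_lit 18315097632) (nat_lit 76) (nat_lit 3924332117) (nat_lit 109) (nat_lit 5) (nat_lit 115) (nat_lit 5) (nat_lit 110) (nat_lit 5) (nat_lit 336) (nat_lit 293) (nat_lit 151)) (XT.lf (nat_lit 0) (nat_lit 3748679076) (nat_lit 456) (nat_lit 7034484647) (nat_lit 76) (nat_lit 12066878646) (nat_lit 109) (nat_lit 5) (nat_lit 115) (nat_lit 5) (nat_lit 110) (nat_lit 5) (nat_lit 337) (nat_lit 293) (nat_lit 150))) (XT.nd (nat_lit 78) (nat_lit 0) (nat_lit 0) (XT.lf (nat_lit 0) (nat_lit 4666028593) (nat_lit 380) (nat_lit 2783780370) (nat_lit 456) (nat_lit 15830450137) (nat_lit 104) (nat_lit 5) (nat_lit 109) (nat_lit 5) (nat_lit 110) (nat_lit 5) (nat_lit 338) (nat_lit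 293) (nat_lit 149)) (XT.lf (nat_lit 0) (nat_lit 11378981167) (nat_lit 456) (nat_lit 6922312440) (nat_lit 76) (nat_lit 5418583689) (nat_lit 104) (nat_lit 5) (nat_lit 110) (nat_lit 5) (nat_lit 105) (nat_lit 5) (nat_lit 339) (nat_lit 293) (nat_lit 148))))) (XT.nd (nat_lit 234) (nat_lit 684) (nat_lit 0) (XT.nd (nat_lit 78) (nat_lit 304) (nat_lit 0) (XT.lf (nat_lit 0) (nat_lit 5184579859) (nat_lit 304) (nat_lit 10311885288) (nat_lit 380) (nat_lit 8674110853) (nat_lit 100) (nat_lit 5) (nat_lit 104) (nat_lit 5) (nat_lit 105) (nat_lit 5) (nat_lit 340) (nat_lit 293) (nat_lit 147)) (XT.nd (nat_lit 78) (nat_lit 304) (nat_lit 0) (XT.lf (nat_lit 0) (nat_lit 17787280661) (nat_lit 304) (nat_lit 2013245264) (nat_lit 380) (nat_lit 4832383089) (nat_lit 100) (nat_lit 5) (nat_lit 104) (nat_lit 5) (nat_lit 105) (nat_lit 5) (nat_lit 341) (nat_lit 293) (nat_lit 146)) (XT.lf (nat_lit 0) (nat_lit 5698119639) (nat_lit 304)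 (nat_lit 18646502042) (nat_lit 380) (nat_lit 761167716) (nat_lit 96) (nat_lit 5) (nat_lit 100) (nat_lit 5) (nat_lit 101) (nat_lit 5) (nat_lit 342) (nat_lit 293) (nat_lit 145)))) (XT.nd (nat_lit 156) (nat_lit 304) (nat_lit 0) (XT.nd (nat_lit 78) (nat_lit 304) (nat_lit 0) (XT.lf (nat_lit 0) (nat_lit 3448319096) (nat_lit 380) (nat_lit 6895139161) (nat_lit 76) (nat_lit 15245919385) (nat_lit 95) (nat_lit 5) (nat_lit 100) (nat_lit 5) (nat_lit 96) (nat_lit 5) (nat_lit 343) (nat_lit 293) (nat_lit 144)) (XT.lf (nat_lit 0) (nat_lit 6095183883) (nat_lit 304) (nat_lit 1725756099) (nat_lit 380) (nat_lit 18264747385) (nat_lit 91) (nat_lit 5) (nat_lit 95) (nat_lit 5) (nat_lit 96) (nat_lit 5) (nat_lit 344) (nat_lit 293) (nat_lit 143))) (XT.nd (nat_lit 78) (nat_lit 304) (nat_lit 0) (XT.lf (nat_lit 0) (nat_lit 12457426097) (nat_lit 380) (nat_lit 7056729402) (nat_lit 76) (nat_lit 7078754528) (nat_lit 91) (nat_lit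 5) (nat_lit 96) (nat_lit 5) (nat_lit 92) (nat_lit 5) (nat_lit 345) (nat_lit 293) (nat_lit 142)) (XT.lf (nat_lit 0) (nat_lit 6363339075) (nat_lit 304) (nat_lit 10941743181) (nat_lit 380) (nat_lit 9808108961) (nat_lit 87) (nat_lit 5) (nat_lit 91) (nat_lit 5) (nat_lit 92) (nat_lit 5) (nat_lit 346) (nat_lit 293) (nat_lit 141)))))) (XT.nd (nat_lit 546) (nat_lit 1064) (nat_lit 0) (XT.nd (nat_lit 234) (nat_lit 532) (nat_lit 0) (XT.nd (nat_lit 78) (nat_lit 304) (nat_lit 0) (XT.lf (nat_lit 0) (nat_lit 20321948157) (nat_lit 304) (nat_lit 2041395726) (nat_lit 380) (nat_lit 5283785685) (nat_lit 87) (nat_lit 5) (nat_lit 91) (nat_lit 5) (nat_lit 92) (nat_lit 5) (nat_lit 347) (nat_lit 293) (nat_lit 140)) (XT.nd (nat_lit 78) (nat_lit 76) (nat_lit 0) (XT.lf (nat_lit 0) (nat_lit 6552982566) (nat_lit 228) (nat_lit 21145930427) (nat_lit 304) (nat_lit 494410166) (nat_lit 84) (nat_lit 5) (nat_lit 87) (nat_lit 5) (nat_lit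 88) (nat_lit 5) (nat_lit 348) (nat_lit 293) (nat_lit 139)) (XT.lf (nat_lit 0) (nat_lit 4441045245) (nat_lit 304) (nat_lit 7828300821) (nat_lit 76) (nat_lit 16482609762) (nat_lit 83) (nat_lit 5) (nat_lit 87) (nat_lit 5) (nat_lit 84) (nat_lit 5) (nat_lit 349) (nat_lit 293) (nat_lit 138)))) (XT.nd (nat_lit 156) (nat_lit 228) (nat_lit 0) (XT.nd (nat_lit 78) (nat_lit 0) (nat_lit 0) (XT.lf (nat_lit 0) (nat_lit 6511870519) (nat_lit 304) (nat_lit 3059623046) (nat_lit 380) (nat_lit 19754004617) (nat_lit 79) (nat_lit 5) (nat_lit 83) (nat_lit 5) (nat_lit 84) (nat_lit 5) (nat_lit 350) (nat_lit 293) (nat_lit 137)) (XT.lf (nat_lit 0) (nat_lit 14991794359) (nat_lit 380) (nat_lit 8542181989) (nat_lit 76) (nat_lit 6378195734) (nat_lit 79) (nat_lit 5) (nat_lit 84) (nat_lit 5) (nat_lit 80) (nat_lit 5) (nat_lit 351) (nat_lit 293) (nat_lit 136))) (XT.nd (nat_lit 78) (nat_lit 0) (nat_lit 0) (XT.lf (nat_lit 0) (nat_lit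 6240669262) (nat_lit 228) (nat_lit 14418813894) (nat_lit 304) (nat_lit 9854423023) (nat_lit 76) (nat_lit 5) (nat_lit 79) (nat_lit 5) (nat_lit 80) (nat_lit 5) (nat_lit 352) (nat_lit 293) (nat_lit 135)) (XT.lf (nat_lit 0) (nat_lit 21633970590) (nat_lit 228) (nat_lit 4944069898) (nat_lit 304) (nat_lit 4553229922) (nat_lit 76) (nat_lit 5) (nat_lit 79) (nat_lit 5) (nat_lit 80) (nat_lit 5) (nat_lit 353) (nat_lit 293) (nat_lit 134))))) (XT.nd (nat_lit 234) (nat_lit 532) (nat_lit 0) (XT.nd (nat_lit 78) (nat_lit 228) (nat_lit 0) (XT.lf (nat_lit 0) (nat_lit 986812736) (nat_lit 304) (nat_lit 25993549278) (nat_lit 76) (nat_lit 4783609682) (nat_lit 72) (nat_lit 5) (nat_lit 76) (nat_lit 5) (nat_lit 73) (nat_lit 5) (nat_lit 354) (nat_lit 293) (nat_lit 133)) (XT.nd (nat_lit 78) (nat_lit 228) (nat_lit 0) (XT.lf (nat_lit 0) (nat_lit 6742080113) (nat_lit 304) (nat_lit 10824966753) (nat_lit 76) (nat_lit 14843041517)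 (nat_lit 72) (nat_lit 5) (nat_lit 76) (nat_lit 5) (nat_lit 73) (nat_lit 5) (nat_lit 355) (nat_lit 293) (nat_lit 132)) (XT.lf (nat_lit 0) (nat_lit 4886186064) (nat_lit 228) (nat_lit 7825675848) (nat_lit 304) (nat_lit 20362473854) (nat_lit 69) (nat_lit 5) (nat_lit 72) (nat_lit 5) (nat_lit 73) (nat_lit 5) (nat_lit 356) (nat_lit 293) (nat_lit 131)))) (XT.nd (nat_lit 156) (nat_lit 304) (nat_lit 0) (XT.nd (nat_lit 78) (nat_lit 228) (nat_lit 0) (XT.lf (nat_lit 0) (nat_lit 18987290020) (nat_lit 304) (nat_lit 12494848170) (nat_lit 76) (nat_lit 2272578600) (nat_lit 69) (nat_lit 5) (nat_lit 73) (nat_lit 5) (nat_lit 70) (nat_lit 5) (nat_lit 357) (nat_lit 293) (nat_lit 130)) (XT.lf (nat_lit 0) (nat_lit 3655445773) (nat_lit 228) (nat_lit 21903238617) (nat_lit 304) (nat_lit 8893596471) (nat_lit 66) (nat_lit 5) (nat_lit 69) (nat_lit 5) (nat_lit 70) (nat_lit 5) (nat_lit 358) (nat_lit 293) (nat_lit 129))) (XT.nd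 (nat_lit 78) (nat_lit 304) (nat_lit 0) (XT.lf (nat_lit 0) (nat_lit 20538800119) (nat_lit 228) (nat_lit 11909747383) (nat_lit 304) (nat_lit 2718587188) (nat_lit 66) (nat_lit 5) (nat_lit 69) (nat_lit 5) (nat_lit 70) (nat_lit 5) (nat_lit 359) (nat_lit 293) (nat_lit 128)) (XT.lf (nat_lit 0) (nat_lit 2022218875) (nat_lit 228) (nat_lit 1563075658) (nat_lit 304) (nat_lit 32316651383) (nat_lit 62) (nat_lit 5) (nat_lit 65) (nat_lit 5) (nat_lit 66) (nat_lit 5) (nat_lit 360) (nat_lit 293) (nat_lit 127))))))) (XT.nd (nat_lit 1092) (nat_lit 1064) (nat_lit 0) (XT.nd (nat_lit 546) (nat_lit 608) (nat_lit 0) (XT.nd (nat_lit 234) (nat_lit 456) (nat_lit 0) (XT.nd (nat_lit 78) (nat_lit 228) (nat_lit 0) (XT.lf (nat_lit 0) (nat_lit 10255535979) (nat_lit 304) (nat_lit 17305511694) (nat_lit 76) (nat_lit 9089992198) (nat_lit 62) (nat_lit 5) (nat_lit 66) (nat_lit 5) (nat_lit 63) (nat_lit 5) (nat_lit 361) (nat_lit 293) (nat_lit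 126)) (XT.nd (nat_lit 78) (nat_lit 228) (nat_lit 0) (XT.lf (nat_lit 0) (nat_lit 17136785015) (nat_lit 304) (nat_lit 256828284) (nat_lit 76) (nat_lit 20028668680) (nat_lit 62) (nat_lit 5) (nat_lit 66) (nat_lit 5) (nat_lit 63) (nat_lit 5) (nat_lit 362) (nat_lit 293) (nat_lit 125)) (XT.lf (nat_lit 0) (nat_lit 17640474529) (nat_lit 228) (nat_lit 6749125647) (nat_lit 304) (nat_lit 13822109596) (nat_lit 59) (nat_lit 5) (nat_lit 62) (nat_lit 5) (nat_lit 63) (nat_lit 5) (nat_lit 363) (nat_lit 293) (nat_lit 124)))) (XT.nd (nat_lit 156) (nat_lit 304) (nat_lit 0) (XT.nd (nat_lit 78) (nat_lit 152) (nat_lit 0) (XT.lf (nat_lit 0) (nat_lit 31898727699) (nat_lit 304) (nat_lit 2992430765) (nat_lit 76) (nat_lit 4132502311) (nat_lit 59) (nat_lit 5) (nat_lit 63) (nat_lit 5) (nat_lit 60) (nat_lit 5) (nat_lit 364) (nat_lit 293) (nat_lit 123)) (XT.lf (nat_lit 0) (nat_lit 15339338223) (nat_lit 152) (nat_lit 24503787789)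 (nat_lit 228) (nat_lit 10546534) (nat_lit 57) (nat_lit 5) (nat_lit 59) (nat_lit 5) (nat_lit 60) (nat_lit 5) (nat_lit 365) (nat_lit 293) (nat_lit 122))) (XT.nd (nat_lit 78) (nat_lit 228) (nat_lit 0) (XT.lf (nat_lit 0) (nat_lit 7200740053) (nat_lit 228) (nat_lit 6502834753) (nat_lit 76) (nat_lit 27002114103) (nat_lit 56) (nat_lit 5) (nat_lit 59) (nat_lit 5) (nat_lit 57) (nat_lit 5) (nat_lit 366) (nat_lit 293) (nat_lit 121)) (XT.lf (nat_lit 0) (nat_lit 12281848568) (nat_lit 228) (nat_lit 2460227382) (nat_lit 304) (nat_lit 26837770967) (nat_lit 53) (nat_lit 5) (nat_lit 56) (nat_lit 5) (nat_lit 57) (nat_lit 5) (nat_lit 367) (nat_lit 293) (nat_lit 120))))) (XT.nd (nat_lit 234) (nat_lit 456) (nat_lit 0) (XT.nd (nat_lit 78) (nat_lit 152) (nat_lit 0) (XT.lf (nat_lit 0) (nat_lit 22659532897) (nat_lit 304) (nat_lit 10809960438) (nat_lit 76) (nat_lit 9006241809) (nat_lit 53) (nat_lit 5) (nat_lit 57) (nat_lit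 5) (nat_lit 54) (nat_lit 5) (nat_lit 368) (nat_lit 293) (nat_lit 119)) (XT.nd (nat_lit 78) (nat_lit 0) (nat_lit 0) (XT.lf (nat_lit 0) (nat_lit 8365034936) (nat_lit 152) (nat_lit 22550260607) (nat_lit 228) (nat_lit 12480182868) (nat_lit 51) (nat_lit 5) (nat_lit 53) (nat_lit 5) (nat_lit 54) (nat_lit 5) (nat_lit 369) (nat_lit 293) (nat_lit 118)) (XT.lf (nat_lit 0) (nat_lit 28330381099) (nat_lit 152) (nat_lit 11193576546) (nat_lit 228) (nat_lit 4815701334) (nat_lit 51) (nat_lit 5) (nat_lit 53) (nat_lit 5) (nat_lit 54) (nat_lit 5) (nat_lit 370) (nat_lit 293) (nat_lit 117)))) (XT.nd (nat_lit 156) (nat_lit 152) (nat_lit 0) (XT.nd (nat_lit 78) (nat_lit 0) (nat_lit 0) (XT.lf (nat_lit 0) (nat_lit 3055006017) (nat_lit 304) (nat_lit 41698677992) (nat_lit 76) (nat_lit 556503770) (nat_lit 47) (nat_lit 5) (nat_lit 51) (nat_lit 5) (nat_lit 48) (nat_lit 5) (nat_lit 371) (nat_lit 293) (nat_lit 116)) (XT.lf (nat_lit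 0) (nat_lit 11335303843) (nat_lit 304) (nat_lit 22322406441) (nat_lit 76) (nat_lit 12642585596) (nat_lit 47) (nat_lit 5) (nat_lit 51) (nat_lit 5) (nat_lit 48) (nat_lit 5) (nat_lit 372) (nat_lit 293) (nat_lit 115))) (XT.nd (nat_lit 78) (nat_lit 152) (nat_lit 0) (XT.lf (nat_lit 0) (nat_lit 19860291827) (nat_lit 304) (nat_lit 2371071147) (nat_lit 76) (nat_lit 25088857413) (nat_lit 47) (nat_lit 5) (nat_lit 51) (nat_lit 5) (nat_lit 48) (nat_lit 5) (nat_lit 373) (nat_lit 293) (nat_lit 114)) (XT.lf (nat_lit 0) (nat_lit 18534434673) (nat_lit 152) (nat_lit 10281148640) (nat_lit 228) (nat_lit 19549924253) (nat_lit 45) (nat_lit 5) (nat_lit 47) (nat_lit 5) (nat_lit 48) (nat_lit 5) (nat_lit 374) (nat_lit 293) (nat_lit 113)))))) (XT.nd (nat_lit 546) (nat_lit 532) (nat_lit 0) (XT.nd (nat_lit 234) (nat_lit 304) (nat_lit 0) (XT.nd (nat_lit 78) (nat_lit 228) (nat_lit 0) (XT.lf (nat_lit 0) (nat_lit 38079617940) (nat_lit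 228) (nat_lit 9351521069) (nat_lit 76) (nat_lit 2009813324) (nat_lit 45) (nat_lit 5) (nat_lit 48) (nat_lit 5) (nat_lit 46) (nat_lit 5) (nat_lit 375) (nat_lit 293) (nat_lit 112)) (XT.nd (nat_lit 78) (nat_lit 76) (nat_lit 0) (XT.lf (nat_lit 0) (nat_lit 11866285512) (nat_lit 152) (nat_lit 35967665994) (nat_lit 228) (nat_lit 2708339066) (nat_lit 43) (nat_lit 5) (nat_lit 45) (nat_lit 5) (nat_lit 46) (nat_lit 5) (nat_lit 376) (nat_lit 293) (nat_lit 111)) (XT.lf (nat_lit 0) (nat_lit 6175074190) (nat_lit 228) (nat_lit 17827991593) (nat_lit 76) (nat_lit 27669058524) (nat_lit 42) (nat_lit 5) (nat_lit 45) (nat_lit 5) (nat_lit 43) (nat_lit 5) (nat_lit 377) (nat_lit 293) (nat_lit 110)))) (XT.nd (nat_lit 156) (nat_lit 152) (nat_lit 0) (XT.nd (nat_lit 78) (nat_lit 0) (nat_lit 0) (XT.lf (nat_lit 0) (nat_lit 3684818179) (nat_lit 152) (nat_lit 11617786836) (nat_lit 228) (nat_lit 37531483418) (nat_lit 40) (nat_lit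 5) (nat_lit 42) (nat_lit 5) (nat_lit 43) (nat_lit 5) (nat_lit 378) (nat_lit 293) (nat_lit 109)) (XT.lf (nat_lit 0) (nat_lit 24893371623) (nat_lit 228) (nat_lit 27835529013) (nat_lit 76) (nat_lit 1296329850) (nat_lit 40) (nat_lit 5) (nat_lit 43) (nat_lit 5) (nat_lit 41) (nat_lit 5) (nat_lit 379) (nat_lit 293) (nat_lit 108))) (XT.nd (nat_lit 78) (nat_lit 152) (nat_lit 0) (XT.lf (nat_lit 0) (nat_lit 34883636781) (nat_lit 228) (nat_lit 6002990750) (nat_lit 76) (nat_lit 14362127266) (nat_lit 40) (nat_lit 5) (nat_lit 43) (nat_lit 5) (nat_lit 41) (nat_lit 5) (nat_lit 380) (nat_lit 293) (nat_lit 107)) (XT.lf (nat_lit 0) (nat_lit 16807065158) (nat_lit 152) (nat_lit 28524947204) (nat_lit 228) (nat_lit 11172221627) (nat_lit 38) (nat_lit 5) (nat_lit 40) (nat_lit 5) (nat_lit 41) (nat_lit 5) (nat_lit 381) (nat_lit 293) (nat_lit 106))))) (XT.nd (nat_lit 312) (nat_lit 304) (nat_lit 0) (XT.nd (nat_lit 156) (nat_lit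 0) (nat_lit 0) (XT.nd (nat_lit 78) (nat_lit 228) (nat_lit 0) (XT.lf (nat_lit 0) (nat_lit 40419106478) (nat_lit 152) (nat_lit 15732234172) (nat_lit 228) (nat_lit 1644313052) (nat_lit 38) (nat_lit 5) (nat_lit 40) (nat_lit 5) (nat_lit 41) (nat_lit 5) (nat_lit 382) (nat_lit 293) (nat_lit 105)) (XT.lf (nat_lit 0) (nat_lit 5639941819) (nat_lit 152) (nat_lit 2421233166) (nat_lit 228) (nat_lit 51060751537) (nat_lit 35) (nat_lit 5) (nat_lit 37) (nat_lit 5) (nat_lit 38) (nat_lit 5) (nat_lit 383) (nat_lit 293) (nat_lit 104))) (XT.nd (nat_lit 78) (nat_lit 0) (nat_lit 0) (XT.lf (nat_lit 0) (nat_lit 18307462985) (nat_lit 228) (nat_lit 30911426993) (nat_lit 76) (nat_lit 11260129696) (nat_lit 35) (nat_lit 5) (nat_lit 38) (nat_lit 5) (nat_lit 36) (nat_lit 5) (nat_lit 384) (nat_lit 293) (nat_lit 103)) (XT.lf (nat_lit 0) (nat_lit 28882161062) (nat_lit 228) (nat_lit 7692866802) (nat_lit 76) (nat_lit 25301168170) (nat_lit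 35) (nat_lit 5) (nat_lit 38) (nat_lit 5) (nat_lit 36) (nat_lit 5) (nat_lit 385) (nat_lit 293) (nat_lit 102)))) (XT.nd (nat_lit 156) (nat_lit 152) (nat_lit 0) (XT.nd (nat_lit 78) (nat_lit 0) (nat_lit 0) (XT.lf (nat_lit 0) (nat_lit 16540013544) (nat_lit 152) (nat_lit 23390214054) (nat_lit 228) (nat_lit 23380377289) (nat_lit 33) (nat_lit 5) (nat_lit 35) (nat_lit 5) (nat_lit 36) (nat_lit 5) (nat_lit 386) (nat_lit 293) (nat_lit 101)) (XT.lf (nat_lit 0) (nat_lit 41652633581) (nat_lit 152) (nat_lit 9731956146) (nat_lit 228) (nat_lit 13401211665) (nat_lit 33) (nat_lit 5) (nat_lit 35) (nat_lit 5) (nat_lit 36) (nat_lit 5) (nat_lit 387) (nat_lit 293) (nat_lit 100))) (XT.nd (nat_lit 78) (nat_lit 76) (nat_lit 0) (XT.lf (nat_lit 0) (nat_lit 1190057343) (nat_lit 76) (nat_lit 62042879103) (nat_lit 152) (nat_lit 3070807703) (nat_lit 32) (nat_lit 5) (nat_lit 33) (nat_lit 5) (nat_lit 34) (nat_lit 4) (nat_lit 388)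 (nat_lit 293) (nat_lit 99)) (XT.lf (nat_lit 0) (nat_lit 7751308239) (nat_lit 152) (nat_lit 41319333099) (nat_lit 76) (nat_lit 18784516632) (nat_lit 31) (nat_lit 5) (nat_lit 33) (nat_lit 5) (nat_lit 32) (nat_lit 5) (nat_lit 389) (nat_lit 293) (nat_lit 98))))))))
noncomputable def xc182 : XT := (XT.nd (nat_lit 34164) (nat_lit 0) (nat_lit 7144) (XT.nd (nat_lit 1092) (nat_lit 0) (nat_lit 0) (XT.nd (nat_lit 546) (nat_lit 456) (nat_lit 0) (XT.nd (nat_lit 234) (nat_lit 152) (nat_lit 0) (XT.nd (nat_lit 78) (nat_lit 152) (nat_lit 0) (XT.lf (nat_lit 0) (nat_lit 18833687591) (nat_lit 152) (nat_lit 16846281749) (nat_lit 76) (nat_lit 33772314025) (nat_lit 31) (nat_lit 5) (nat_lit 33) (nat_lit 5) (nat_lit 32) (nat_lit 5) (nat_lit 390) (nat_lit 293) (nat_lit 97)) (XT.nd (nat_lit 78) (nat_lit 0) (nat_lit 0) (XT.lf (nat_lit 0) (nat_lit 8522678091) (nat_lit 152) (nat_lit 21805183608) (nat_lit 228) (nat_lit 40767081983)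 (nat_lit 29) (nat_lit 5) (nat_lit 31) (nat_lit 5) (nat_lit 32) (nat_lit 5) (nat_lit 391) (nat_lit 293) (nat_lit 96)) (XT.lf (nat_lit 0) (nat_lit 34993492803) (nat_lit 152) (nat_lit 7340912901) (nat_lit 228) (nat_lit 30447452597) (nat_lit 29) (nat_lit 5) (nat_lit 31) (nat_lit 5) (nat_lit 32) (nat_lit 5) (nat_lit 392) (nat_lit 293) (nat_lit 95)))) (XT.nd (nat_lit 156) (nat_lit 76) (nat_lit 0) (XT.nd (nat_lit 78) (nat_lit 76) (nat_lit 0) (XT.lf (nat_lit 0) (nat_lit 54771277948) (nat_lit 228) (nat_lit 12338064641) (nat_lit 76) (nat_lit 7407934623) (nat_lit 29) (nat_lit 5) (nat_lit 32) (nat_lit 5) (nat_lit 30) (nat_lit 4) (nat_lit 393) (nat_lit 293) (nat_lit 94)) (XT.lf (nat_lit 0) (nat_lit 14073343804) (nat_lit 76) (nat_lit 53713436316) (nat_lit 152) (nat_lit 8511813644) (nat_lit 28) (nat_lit 5) (nat_lit 29) (nat_lit 5) (nat_lit 30) (nat_lit 4) (nat_lit 394) (nat_lit 293) (nat_lit 93))) (XT.nd (nat_lit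 78) (nat_lit 0) (nat_lit 0) (XT.lf (nat_lit 0) (nat_lit 3123086514) (nat_lit 152) (nat_lit 36634589146) (nat_lit 76) (nat_lit 38371090964) (nat_lit 27) (nat_lit 5) (nat_lit 29) (nat_lit 5) (nat_lit 28) (nat_lit 5) (nat_lit 395) (nat_lit 293) (nat_lit 92)) (XT.lf (nat_lit 0) (nat_lit 14933590579) (nat_lit 152) (nat_lit 10364704671) (nat_lit 76) (nat_lit 54713092799) (nat_lit 27) (nat_lit 5) (nat_lit 29) (nat_lit 5) (nat_lit 28) (nat_lit 5) (nat_lit 396) (nat_lit 293) (nat_lit 91))))) (XT.nd (nat_lit 234) (nat_lit 304) (nat_lit 0) (XT.nd (nat_lit 78) (nat_lit 0) (nat_lit 0) (XT.lf (nat_lit 0) (nat_lit 17021325865) (nat_lit 152) (nat_lit 10238408083) (nat_lit 228) (nat_lit 54685915143) (nat_lit 25) (nat_lit 5) (nat_lit 27) (nat_lit 5) (nat_lit 28) (nat_lit 5) (nat_lit 397) (nat_lit 293) (nat_lit 90)) (XT.nd (nat_lit 78) (nat_lit 0) (nat_lit 0) (XT.lf (nat_lit 0) (nat_lit 40109766458) (nat_lit 228)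 (nat_lit 38549229850) (nat_lit 76) (nat_lit 5274319191) (nat_lit 25) (nat_lit 5) (nat_lit 28) (nat_lit 5) (nat_lit 26) (nat_lit 4) (nat_lit 398) (nat_lit 293) (nat_lit 89)) (XT.lf (nat_lit 0) (nat_lit 53444452282) (nat_lit 228) (nat_lit 11488243525) (nat_lit 76) (nat_lit 21044942179) (nat_lit 25) (nat_lit 5) (nat_lit 28) (nat_lit 5) (nat_lit 26) (nat_lit 4) (nat_lit 399) (nat_lit 293) (nat_lit 88)))) (XT.nd (nat_lit 156) (nat_lit 228) (nat_lit 0) (XT.nd (nat_lit 78) (nat_lit 0) (nat_lit 0) (XT.lf (nat_lit 0) (nat_lit 16706707141) (nat_lit 76) (nat_lit 50630913196) (nat_lit 152) (nat_lit 20740917201) (nat_lit 24) (nat_lit 5) (nat_lit 25) (nat_lit 5) (nat_lit 26) (nat_lit 4) (nat_lit 400) (nat_lit 293) (nat_lit 87)) (XT.lf (nat_lit 0) (nat_lit 45979168751) (nat_lit 76) (nat_lit 35782295836) (nat_lit 152) (nat_lit 8477583675) (nat_lit 24) (nat_lit 5) (nat_lit 25) (nat_lit 5) (nat_lit 26) (nat_lit 4)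 (nat_lit 401) (nat_lit 293) (nat_lit 86))) (XT.nd (nat_lit 78) (nat_lit 152) (nat_lit 0) (XT.lf (nat_lit 0) (nat_lit 4070510532) (nat_lit 152) (nat_lit 16378263233) (nat_lit 76) (nat_lit 72014465904) (nat_lit 23) (nat_lit 5) (nat_lit 25) (nat_lit 5) (nat_lit 24) (nat_lit 5) (nat_lit 402) (nat_lit 293) (nat_lit 85)) (XT.lf (nat_lit 0) (nat_lit 12496052013) (nat_lit 152) (nat_lit 4446698334) (nat_lit 228) (nat_lit 77805346133) (nat_lit 21) (nat_lit 5) (nat_lit 23) (nat_lit 5) (nat_lit 24) (nat_lit 5) (nat_lit 403) (nat_lit 293) (nat_lit 84)))))) (XT.nd (nat_lit 32526) (nat_lit 0) (nat_lit 14212) (XT.nd (nat_lit 32214) (nat_lit 0) (nat_lit 15124) (XT.nd (nat_lit 32058) (nat_lit 0) (nat_lit 15124) (XT.lf (nat_lit 0) (nat_lit 30481857987) (nat_lit 228) (nat_lit 54645197032) (nat_lit 76) (nat_lit 11966023508) (nat_lit 21) (nat_lit 5) (nat_lit 24) (nat_lit 5) (nat_lit 22) (nat_lit 4) (nat_lit 404) (nat_lit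 293) (nat_lit 83)) (XT.nd (nat_lit 78) (nat_lit 0) (nat_lit 0) (XT.lf (nat_lit 0) (nat_lit 3949798043) (nat_lit 1140) (nat_lit 903183389) (nat_lit 1140) (nat_lit 903183389) (nat_lit 220) (nat_lit 3) (nat_lit 235) (nat_lit 3) (nat_lit 235) (nat_lit 5) (nat_lit 294) (nat_lit 294) (nat_lit 192)) (XT.lf (nat_lit 76) (nat_lit 3566138811) (nat_lit 0) (nat_lit 4978972108) (nat_lit 1140) (nat_lit 3123556996) (nat_lit 221) (nat_lit 5) (nat_lit 220) (nat_lit 3) (nat_lit 235) (nat_lit 5) (nat_lit 295) (nat_lit 294) (nat_lit 191)))) (XT.nd (nat_lit 156) (nat_lit 0) (nat_lit 76) (XT.nd (nat_lit 78) (nat_lit 0) (nat_lit 76) (XT.lf (nat_lit 76) (nat_lit 9126736942) (nat_lit 0) (nat_lit 82167519) (nat_lit 1140) (nat_lit 2620845396) (nat_lit 221) (nat_lit 5) (nat_lit 220) (nat_lit 3) (nat_lit 235) (nat_lit 5) (nat_lit 296) (nat_lit 294) (nat_lit 190)) (XT.lf (nat_lit 76) (nat_lit 2856040908) (nat_lit 0) (nat_lit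 7093039731) (nat_lit 1140) (nat_lit 2044909864) (nat_lit 222) (nat_lit 5) (nat_lit 221) (nat_lit 5) (nat_lit 236) (nat_lit 5) (nat_lit 297) (nat_lit 294) (nat_lit 189))) (XT.nd (nat_lit 78) (nat_lit 0) (nat_lit 76) (XT.lf (nat_lit 76) (nat_lit 8626062407) (nat_lit 0) (nat_lit 2095266062) (nat_lit 1140) (nat_lit 1441553628) (nat_lit 222) (nat_lit 5) (nat_lit 221) (nat_lit 5) (nat_lit 236) (nat_lit 5) (nat_lit 298) (nat_lit 294) (nat_lit 188)) (XT.lf (nat_lit 76) (nat_lit 2235928799) (nat_lit 0) (nat_lit 9314020019) (nat_lit 1140) (nat_lit 785914613) (nat_lit 223) (nat_lit 5) (nat_lit 222) (nat_lit 5) (nat_lit 237) (nat_lit 5) (nat_lit 299) (nat_lit 294) (nat_lit 187))))) (XT.nd (nat_lit 234) (nat_lit 0) (nat_lit 0) (XT.nd (nat_lit 78) (nat_lit 1064) (nat_lit 0) (XT.lf (nat_lit 76) (nat_lit 8222603537) (nat_lit 0) (nat_lit 4219862653) (nat_lit 1140) (nat_lit 70415449) (nat_lit 223) (nat_lit 5) (nat_lit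 222) (nat_lit 5) (nat_lit 237) (nat_lit 5) (nat_lit 300) (nat_lit 294) (nat_lit 186)) (XT.nd (nat_lit 78) (nat_lit 0) (nat_lit 0) (XT.lf (nat_lit 0) (nat_lit 663238898) (nat_lit 1140) (nat_lit 10995225002) (nat_lit 1216) (nat_lit 1036280889) (nat_lit 208) (nat_lit 5) (nat_lit 223) (nat_lit 5) (nat_lit 224) (nat_lit 5) (nat_lit 301) (nat_lit 294) (nat_lit 185)) (XT.lf (nat_lit 0) (nat_lit 1486568990) (nat_lit 1140) (nat_lit 4977822874) (nat_lit 1216) (nat_lit 6415595620) (nat_lit 208) (nat_lit 5) (nat_lit 223) (nat_lit 5) (nat_lit 224) (nat_lit 5) (nat_lit 302) (nat_lit 294) (nat_lit 184)))) (XT.nd (nat_lit 156) (nat_lit 0) (nat_lit 76) (XT.nd (nat_lit 78) (nat_lit 0) (nat_lit 76) (XT.lf (nat_lit 76) (nat_lit 1233382738) (nat_lit 0) (nat_lit 1097099690) (nat_lit 1216) (nat_lit 10740445045) (nat_lit 209) (nat_lit 5) (nat_lit 208) (nat_lit 5) (nat_lit 224) (nat_lit 5) (nat_lit 303) (nat_lit 294) (nat_lit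 183)) (XT.lf (nat_lit 0) (nat_lit 3277510069) (nat_lit 1140) (nat_lit 5587428155) (nat_lit 1216) (nat_lit 4400339565) (nat_lit 209) (nat_lit 5) (nat_lit 224) (nat_lit 5) (nat_lit 225) (nat_lit 5) (nat_lit 304) (nat_lit 294) (nat_lit 182))) (XT.nd (nat_lit 78) (nat_lit 0) (nat_lit 76) (XT.lf (nat_lit 76) (nat_lit 844931486) (nat_lit 0) (nat_lit 3411892058) (nat_lit 1216) (nat_lit 9208534391) (nat_lit 210) (nat_lit 5) (nat_lit 209) (nat_lit 5) (nat_lit 225) (nat_lit 5) (nat_lit 305) (nat_lit 294) (nat_lit 181)) (XT.lf (nat_lit 0) (nat_lit 5328955977) (nat_lit 1140) (nat_lit 6117976790) (nat_lit 1216) (nat_lit 2222619643) (nat_lit 210) (nat_lit 5) (nat_lit 225) (nat_lit 5) (nat_lit 226) (nat_lit 5) (nat_lit 306) (nat_lit 294) (nat_lit 180))))))) (XT.nd (nat_lit 1092) (nat_lit 3724) (nat_lit 0) (XT.nd (nat_lit 546) (nat_lit 1748) (nat_lit 0) (XT.nd (nat_lit 234) (nat_lit 1748) (nat_lit 0) (XT.nd (nat_lit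 78) (nat_lit 0) (nat_lit 0) (XT.lf (nat_lit 76) (nat_lit 545461906) (nat_lit 0) (nat_lit 5912509548) (nat_lit 1216) (nat_lit 7421174366) (nat_lit 211) (nat_lit 5) (nat_lit 210) (nat_lit 5) (nat_lit 226) (nat_lit 5) (nat_lit 307) (nat_lit 294) (nat_lit 179)) (XT.nd (nat_lit 78) (nat_lit 0) (nat_lit 76) (XT.lf (nat_lit 76) (nat_lit 7523376345) (nat_lit 0) (nat_lit 145267730) (nat_lit 1216) (nat_lit 6424963602) (nat_lit 211) (nat_lit 5) (nat_lit 210) (nat_lit 5) (nat_lit 226) (nat_lit 5) (nat_lit 308) (nat_lit 294) (nat_lit 178)) (XT.lf (nat_lit 76) (nat_lit 336001386) (nat_lit 0) (nat_lit 8625014436) (nat_lit 1216) (nat_lit 5352140031) (nat_lit 212) (nat_lit 5) (nat_lit 211) (nat_lit 5) (nat_lit 227) (nat_lit 5) (nat_lit 309) (nat_lit 294) (nat_lit 177)))) (XT.nd (nat_lit 156) (nat_lit 760) (nat_lit 0) (XT.nd (nat_lit 78) (nat_lit 1064) (nat_lit 0) (XT.lf (nat_lit 76) (nat_lit 7571770035) (nat_lit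 0) (nat_lit 2774893796) (nat_lit 1216) (nat_lit 4191004918) (nat_lit 212) (nat_lit 5) (nat_lit 211) (nat_lit 5) (nat_lit 227) (nat_lit 5) (nat_lit 310) (nat_lit 294) (nat_lit 176)) (XT.lf (nat_lit 0) (nat_lit 217722550) (nat_lit 1140) (nat_lit 11576642841) (nat_lit 1216) (nat_lit 2973950155) (nat_lit 197) (nat_lit 5) (nat_lit 212) (nat_lit 5) (nat_lit 213) (nat_lit 5) (nat_lit 311) (nat_lit 294) (nat_lit 175))) (XT.nd (nat_lit 78) (nat_lit 760) (nat_lit 0) (XT.lf (nat_lit 0) (nat_lit 7720760437) (nat_lit 1140) (nat_lit 5649697565) (nat_lit 1216) (nat_lit 1632887602) (nat_lit 197) (nat_lit 5) (nat_lit 212) (nat_lit 5) (nat_lit 213) (nat_lit 5) (nat_lit 312) (nat_lit 294) (nat_lit 174)) (XT.lf (nat_lit 0) (nat_lit 191889448) (nat_lit 760) (nat_lit 14795958696) (nat_lit 836) (nat_lit 257770265) (nat_lit 187) (nat_lit 5) (nat_lit 197) (nat_lit 5) (nat_lit 198) (nat_lit 5) (nat_lit 313) (nat_lit 294)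 (nat_lit 173))))) (XT.nd (nat_lit 234) (nat_lit 1064) (nat_lit 0) (XT.nd (nat_lit 78) (nat_lit 608) (nat_lit 0) (XT.lf (nat_lit 0) (nat_lit 1254114836) (nat_lit 836) (nat_lit 7531960330) (nat_lit 76) (nat_lit 6705218019) (nat_lit 186) (nat_lit 5) (nat_lit 197) (nat_lit 5) (nat_lit 187) (nat_lit 5) (nat_lit 314) (nat_lit 294) (nat_lit 172)) (XT.nd (nat_lit 78) (nat_lit 0) (nat_lit 0) (XT.lf (nat_lit 0) (nat_lit 206166809) (nat_lit 608) (nat_lit 2590259651) (nat_lit 684) (nat_lit 12948138898) (nat_lit 178) (nat_lit 5) (nat_lit 186) (nat_lit 5) (nat_lit 187) (nat_lit 5) (nat_lit 315) (nat_lit 294) (nat_lit 171)) (XT.lf (nat_lit 0) (nat_lit 4486780361) (nat_lit 684) (nat_lit 7720540536) (nat_lit 76) (nat_lit 3795072529) (nat_lit 178) (nat_lit 5) (nat_lit 187) (nat_lit 5) (nat_lit 179) (nat_lit 5) (nat_lit 316) (nat_lit 294) (nat_lit 170)))) (XT.nd (nat_lit 156) (nat_lit 532) (nat_lit 0) (XT.nd (nat_lit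 78) (nat_lit 0) (nat_lit 0) (XT.lf (nat_lit 0) (nat_lit 301385728) (nat_lit 532) (nat_lit 5943853163) (nat_lit 608) (nat_lit 10022206224) (nat_lit 171) (nat_lit 5) (nat_lit 178) (nat_lit 5) (nat_lit 179) (nat_lit 5) (nat_lit 317) (nat_lit 294) (nat_lit 169)) (XT.lf (nat_lit 0) (nat_lit 8129140785) (nat_lit 608) (nat_lit 7832465469) (nat_lit 76) (nat_lit 576671706) (nat_lit 171) (nat_lit 5) (nat_lit 179) (nat_lit 5) (nat_lit 172) (nat_lit 5) (nat_lit 318) (nat_lit 294) (nat_lit 168))) (XT.nd (nat_lit 78) (nat_lit 0) (nat_lit 0) (XT.lf (nat_lit 0) (nat_lit 485132737) (nat_lit 532) (nat_lit 9637335372) (nat_lit 608) (nat_lit 6693190420) (nat_lit 164) (nat_lit 5) (nat_lit 171) (nat_lit 5) (nat_lit 172) (nat_lit 5) (nat_lit 319) (nat_lit 294) (nat_lit 167)) (XT.lf (nat_lit 0) (nat_lit 9202300687) (nat_lit 532) (nat_lit 3041989861) (nat_lit 608) (nat_lit 4855018810) (nat_lit 164) (nat_lit 5) (nat_lit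 171) (nat_lit 5) (nat_lit 172) (nat_lit 5) (nat_lit 320) (nat_lit 294) (nat_lit 166)))))) (XT.nd (nat_lit 546) (nat_lit 1672) (nat_lit 0) (XT.nd (nat_lit 234) (nat_lit 912) (nat_lit 0) (XT.nd (nat_lit 78) (nat_lit 608) (nat_lit 0) (XT.lf (nat_lit 0) (nat_lit 757719909) (nat_lit 532) (nat_lit 13705294875) (nat_lit 608) (nat_lit 2927466932) (nat_lit 157) (nat_lit 5) (nat_lit 164) (nat_lit 5) (nat_lit 165) (nat_lit 5) (nat_lit 321) (nat_lit 294) (nat_lit 165)) (XT.nd (nat_lit 78) (nat_lit 608) (nat_lit 0) (XT.lf (nat_lit 0) (nat_lit 9792835381) (nat_lit 532) (nat_lit 7055131475) (nat_lit 608) (nat_lit 839441548) (nat_lit 157) (nat_lit 5) (nat_lit 164) (nat_lit 5) (nat_lit 165) (nat_lit 5) (nat_lit 322) (nat_lit 294) (nat_lit 164)) (XT.lf (nat_lit 0) (nat_lit 1104391437) (nat_lit 532) (nat_lit 182145418) (nat_lit 608) (nat_lit 16706309561) (nat_lit 149) (nat_lit 5) (nat_lit 156) (nat_lit 5) (nat_lit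 157) (nat_lit 5) (nat_lit 323) (nat_lit 294) (nat_lit 163)))) (XT.nd (nat_lit 156) (nat_lit 456) (nat_lit 0) (XT.nd (nat_lit 78) (nat_lit 456) (nat_lit 0) (XT.lf (nat_lit 0) (nat_lit 3596691305) (nat_lit 608) (nat_lit 7855802195) (nat_lit 76) (nat_lit 6850595037) (nat_lit 149) (nat_lit 5) (nat_lit 157) (nat_lit 5) (nat_lit 150) (nat_lit 5) (nat_lit 324) (nat_lit 294) (nat_lit 162)) (XT.lf (nat_lit 0) (nat_lit 1464405512) (nat_lit 456) (nat_lit 4518364039) (nat_lit 532) (nat_lit 12639677919) (nat_lit 143) (nat_lit 5) (nat_lit 149) (nat_lit 5) (nat_lit 150) (nat_lit 5) (nat_lit 325) (nat_lit 294) (nat_lit 161))) (XT.nd (nat_lit 78) (nat_lit 456) (nat_lit 0) (XT.lf (nat_lit 0) (nat_lit 8536667204) (nat_lit 532) (nat_lit 7760126463) (nat_lit 76) (nat_lit 2651714280) (nat_lit 143) (nat_lit 5) (nat_lit 150) (nat_lit 5) (nat_lit 144) (nat_lit 5) (nat_lit 326) (nat_lit 294) (nat_lit 160)) (XT.lf (nat_lit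 0) (nat_lit 1902039911) (nat_lit 456) (nat_lit 9319328679) (nat_lit 532) (nat_lit 8061363703) (nat_lit 137) (nat_lit 5) (nat_lit 143) (nat_lit 5) (nat_lit 144) (nat_lit 5) (nat_lit 327) (nat_lit 294) (nat_lit 159))))) (XT.nd (nat_lit 312) (nat_lit 760) (nat_lit 0) (XT.nd (nat_lit 156) (nat_lit 532) (nat_lit 0) (XT.nd (nat_lit 78) (nat_lit 380) (nat_lit 0) (XT.lf (nat_lit 0) (nat_lit 12003178990) (nat_lit 456) (nat_lit 2053122507) (nat_lit 532) (nat_lit 5568598592) (nat_lit 137) (nat_lit 5) (nat_lit 143) (nat_lit 5) (nat_lit 144) (nat_lit 5) (nat_lit 328) (nat_lit 294) (nat_lit 158)) (XT.lf (nat_lit 0) (nat_lit 2415013508) (nat_lit 380) (nat_lit 14628259131) (nat_lit 456) (nat_lit 2932057791) (nat_lit 132) (nat_lit 5) (nat_lit 137) (nat_lit 5) (nat_lit 138) (nat_lit 5) (nat_lit 329) (nat_lit 294) (nat_lit 157))) (XT.nd (nat_lit 78) (nat_lit 532) (nat_lit 0) (XT.lf (nat_lit 0) (nat_lit 12878528096)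 (nat_lit 380) (nat_lit 7330137905) (nat_lit 456) (nat_lit 124950296) (nat_lit 132) (nat_lit 5) (nat_lit 137) (nat_lit 5) (nat_lit 138) (nat_lit 5) (nat_lit 330) (nat_lit 294) (nat_lit 156)) (XT.lf (nat_lit 0) (nat_lit 2735189531) (nat_lit 532) (nat_lit 17728523623) (nat_lit 76) (nat_lit 237462402) (nat_lit 125) (nat_lit 5) (nat_lit 132) (nat_lit 5) (nat_lit 126) (nat_lit 5) (nat_lit 331) (nat_lit 294) (nat_lit 155)))) (XT.nd (nat_lit 156) (nat_lit 380) (nat_lit 0) (XT.nd (nat_lit 78) (nat_lit 380) (nat_lit 0) (XT.lf (nat_lit 0) (nat_lit 5819228367) (nat_lit 532) (nat_lit 7295859369) (nat_lit 76) (nat_lit 7960424969) (nat_lit 125) (nat_lit 5) (nat_lit 132) (nat_lit 5) (nat_lit 126) (nat_lit 5) (nat_lit 332) (nat_lit 294) (nat_lit 154)) (XT.lf (nat_lit 0) (nat_lit 3508694423) (nat_lit 380) (nat_lit 5513058002) (nat_lit 456) (nat_lit 12438554849) (nat_lit 120) (nat_lit 5) (nat_lit 125) (nat_lit 5)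 (nat_lit 126) (nat_lit 5) (nat_lit 333) (nat_lit 294) (nat_lit 153))) (XT.nd (nat_lit 78) (nat_lit 380) (nat_lit 0) (XT.lf (nat_lit 0) (nat_lit 12409382110) (nat_lit 456) (nat_lit 7100176057) (nat_lit 76) (nat_lit 2344422661) (nat_lit 120) (nat_lit 5) (nat_lit 126) (nat_lit 5) (nat_lit 121) (nat_lit 5) (nat_lit 334) (nat_lit 294) (nat_lit 152)) (XT.lf (nat_lit 0) (nat_lit 4092682860) (nat_lit 380) (nat_lit 11892460481) (nat_lit 456) (nat_lit 6271732036) (nat_lit 115) (nat_lit 5) (nat_lit 120) (nat_lit 5) (nat_lit 121) (nat_lit 5) (nat_lit 335) (nat_lit 294) (nat_lit 151))))))))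
noncomputable def xc183 : XT := (XT.nd (nat_lit 2184) (nat_lit 2280) (nat_lit 0) (XT.nd (nat_lit 1092) (nat_lit 1900) (nat_lit 0) (XT.nd (nat_lit 546) (nat_lit 1216) (nat_lit 0) (XT.nd (nat_lit 234) (nat_lit 684) (nat_lit 0) (XT.nd (nat_lit 78) (nat_lit 456) (nat_lit 0) (XT.lf (nat_lit 0) (nat_lit 15757567112) (nat_lit 380) (nat_lit 3975011460) (nat_lit 456) (nat_lit 2937351855) (nat_lit 115) (nat_lit 5) (nat_lit 120) (nat_lit 5) (nat_lit 121) (nat_lit 5) (nat_lit 336) (nat_lit 294) (nat_lit 150)) (XT.nd (nat_lit 78) (nat_lit 0) (nat_lit 0) (XT.lf (nat_lit 0) (nat_lit 566577662) (nat_lit 456) (nat_lit 18378880424) (nat_lit 76) (nat_lit 4147404551) (nat_lit 109) (nat_lit 5) (nat_lit 115) (nat_lit 5) (nat_lit 110) (nat_lit 5) (nat_lit 337) (nat_lit 294) (nat_lit 149)) (XT.lf (nat_lit 0) (nat_lit 4219377799) (nat_lit 456) (nat_lit 6773994782) (nat_lit 76) (nat_lit 12531159250) (nat_lit 109) (nat_lit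 5) (nat_lit 115) (nat_lit 5) (nat_lit 110) (nat_lit 5) (nat_lit 338) (nat_lit 294) (nat_lit 148)))) (XT.nd (nat_lit 156) (nat_lit 304) (nat_lit 0) (XT.nd (nat_lit 78) (nat_lit 0) (nat_lit 0) (XT.lf (nat_lit 0) (nat_lit 5272911067) (nat_lit 380) (nat_lit 2752684533) (nat_lit 456) (nat_lit 15942245551) (nat_lit 104) (nat_lit 5) (nat_lit 109) (nat_lit 5) (nat_lit 110) (nat_lit 5) (nat_lit 339) (nat_lit 294) (nat_lit 147)) (XT.lf (nat_lit 0) (nat_lit 12063451633) (nat_lit 456) (nat_lit 6667238469) (nat_lit 76) (nat_lit 5690241014) (nat_lit 104) (nat_lit 5) (nat_lit 110) (nat_lit 5) (nat_lit 105) (nat_lit 5) (nat_lit 340) (nat_lit 294) (nat_lit 146))) (XT.nd (nat_lit 78) (nat_lit 0) (nat_lit 0) (XT.lf (nat_lit 0) (nat_lit 5798323900) (nat_lit 304) (nat_lit 10500547562) (nat_lit 380) (nat_lit 8586454247) (nat_lit 100) (nat_lit 5) (nat_lit 104) (nat_lit 5) (nat_lit 105) (nat_lit 5) (nat_lit 341) (nat_lit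 294) (nat_lit 145)) (XT.lf (nat_lit 0) (nat_lit 18765759901) (nat_lit 304) (nat_lit 1956463704) (nat_lit 380) (nat_lit 4639607076) (nat_lit 100) (nat_lit 5) (nat_lit 104) (nat_lit 5) (nat_lit 105) (nat_lit 5) (nat_lit 342) (nat_lit 294) (nat_lit 144))))) (XT.nd (nat_lit 234) (nat_lit 532) (nat_lit 0) (XT.nd (nat_lit 78) (nat_lit 380) (nat_lit 0) (XT.lf (nat_lit 0) (nat_lit 6318414237) (nat_lit 304) (nat_lit 19080096888) (nat_lit 380) (nat_lit 450517131) (nat_lit 96) (nat_lit 5) (nat_lit 100) (nat_lit 5) (nat_lit 101) (nat_lit 5) (nat_lit 343) (nat_lit 294) (nat_lit 143)) (XT.nd (nat_lit 78) (nat_lit 304) (nat_lit 0) (XT.lf (nat_lit 0) (nat_lit 3869223145) (nat_lit 380) (nat_lit 6659197061) (nat_lit 76) (nat_lit 15818899938) (nat_lit 95) (nat_lit 5) (nat_lit 100) (nat_lit 5) (nat_lit 96) (nat_lit 5) (nat_lit 344) (nat_lit 294) (nat_lit 142)) (XT.lf (nat_lit 0) (nat_lit 6716494535) (nat_lit 304) (nat_lit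 1651496575) (nat_lit 380) (nat_lit 18490685266) (nat_lit 91) (nat_lit 5) (nat_lit 95) (nat_lit 5) (nat_lit 96) (nat_lit 5) (nat_lit 345) (nat_lit 294) (nat_lit 141)))) (XT.nd (nat_lit 156) (nat_lit 228) (nat_lit 0) (XT.nd (nat_lit 78) (nat_lit 304) (nat_lit 0) (XT.lf (nat_lit 0) (nat_lit 13135648323) (nat_lit 380) (nat_lit 6834620362) (nat_lit 76) (nat_lit 7411090818) (nat_lit 91) (nat_lit 5) (nat_lit 96) (nat_lit 5) (nat_lit 92) (nat_lit 5) (nat_lit 346) (nat_lit 294) (nat_lit 140)) (XT.lf (nat_lit 0) (nat_lit 6983797121) (nat_lit 304) (nat_lit 11140197304) (nat_lit 380) (nat_lit 9793402806) (nat_lit 87) (nat_lit 5) (nat_lit 91) (nat_lit 5) (nat_lit 92) (nat_lit 5) (nat_lit 347) (nat_lit 294) (nat_lit 139))) (XT.nd (nat_lit 78) (nat_lit 228) (nat_lit 0) (XT.lf (nat_lit 0) (nat_lit 21348653081) (nat_lit 304) (nat_lit 1976619954) (nat_lit 380) (nat_lit 5142348359) (nat_lit 87) (nat_lit 5) (nat_lit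 91) (nat_lit 5) (nat_lit 92) (nat_lit 5) (nat_lit 348) (nat_lit 294) (nat_lit 138)) (XT.lf (nat_lit 0) (nat_lit 7170164939) (nat_lit 228) (nat_lit 21647486785) (nat_lit 304) (nat_lit 212652363) (nat_lit 84) (nat_lit 5) (nat_lit 87) (nat_lit 5) (nat_lit 88) (nat_lit 5) (nat_lit 349) (nat_lit 294) (nat_lit 137)))))) (XT.nd (nat_lit 546) (nat_lit 988) (nat_lit 0) (XT.nd (nat_lit 234) (nat_lit 532) (nat_lit 0) (XT.nd (nat_lit 78) (nat_lit 304) (nat_lit 0) (XT.lf (nat_lit 0) (nat_lit 4856609192) (nat_lit 304) (nat_lit 7649013285) (nat_lit 76) (nat_lit 17100247078) (nat_lit 83) (nat_lit 5) (nat_lit 87) (nat_lit 5) (nat_lit 84) (nat_lit 5) (nat_lit 350) (nat_lit 294) (nat_lit 136)) (XT.nd (nat_lit 78) (nat_lit 0) (nat_lit 0) (XT.lf (nat_lit 0) (nat_lit 7117303033) (nat_lit 304) (nat_lit 3019386554) (nat_lit 380) (nat_lit 20060062129) (nat_lit 79) (nat_lit 5) (nat_lit 83) (nat_lit 5) (nat_lit 84) (nat_lit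 5) (nat_lit 351) (nat_lit 294) (nat_lit 135)) (XT.lf (nat_lit 0) (nat_lit 15712732968) (nat_lit 380) (nat_lit 8393283659) (nat_lit 76) (nat_lit 6695220147) (nat_lit 79) (nat_lit 5) (nat_lit 84) (nat_lit 5) (nat_lit 80) (nat_lit 5) (nat_lit 352) (nat_lit 294) (nat_lit 134)))) (XT.nd (nat_lit 156) (nat_lit 304) (nat_lit 0) (XT.nd (nat_lit 78) (nat_lit 0) (nat_lit 0) (XT.lf (nat_lit 0) (nat_lit 6829080935) (nat_lit 228) (nat_lit 14717329406) (nat_lit 304) (nat_lit 9874738617) (nat_lit 76) (nat_lit 5) (nat_lit 79) (nat_lit 5) (nat_lit 80) (nat_lit 5) (nat_lit 353) (nat_lit 294) (nat_lit 133)) (XT.lf (nat_lit 0) (nat_lit 22672496111) (nat_lit 228) (nat_lit 4962247428) (nat_lit 304) (nat_lit 4422528669) (nat_lit 76) (nat_lit 5) (nat_lit 79) (nat_lit 5) (nat_lit 80) (nat_lit 5) (nat_lit 354) (nat_lit 294) (nat_lit 132))) (XT.nd (nat_lit 78) (nat_lit 0) (nat_lit 0) (XT.lf (nat_lit 0) (nat_lit 1275900912)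 (nat_lit 304) (nat_lit 26375737527) (nat_lit 76) (nat_lit 5057321358) (nat_lit 72) (nat_lit 5) (nat_lit 76) (nat_lit 5) (nat_lit 73) (nat_lit 5) (nat_lit 355) (nat_lit 294) (nat_lit 131)) (XT.lf (nat_lit 0) (nat_lit 7196268530) (nat_lit 304) (nat_lit 10763678640) (nat_lit 76) (nat_lit 15414743817) (nat_lit 72) (nat_lit 5) (nat_lit 76) (nat_lit 5) (nat_lit 73) (nat_lit 5) (nat_lit 356) (nat_lit 294) (nat_lit 130))))) (XT.nd (nat_lit 234) (nat_lit 532) (nat_lit 0) (XT.nd (nat_lit 78) (nat_lit 228) (nat_lit 0) (XT.lf (nat_lit 0) (nat_lit 5415024084) (nat_lit 228) (nat_lit 7926456492) (nat_lit 304) (nat_lit 20717499255) (nat_lit 69) (nat_lit 5) (nat_lit 72) (nat_lit 5) (nat_lit 73) (nat_lit 5) (nat_lit 357) (nat_lit 294) (nat_lit 129)) (XT.nd (nat_lit 78) (nat_lit 228) (nat_lit 0) (XT.lf (nat_lit 0) (nat_lit 19799191047) (nat_lit 304) (nat_lit 12492460162) (nat_lit 76) (nat_lit 2468304512) (nat_lit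 69) (nat_lit 5) (nat_lit 73) (nat_lit 5) (nat_lit 70) (nat_lit 5) (nat_lit 358) (nat_lit 294) (nat_lit 128)) (XT.lf (nat_lit 0) (nat_lit 4138644232) (nat_lit 228) (nat_lit 22425616898) (nat_lit 304) (nat_lit 8914293475) (nat_lit 66) (nat_lit 5) (nat_lit 69) (nat_lit 5) (nat_lit 70) (nat_lit 5) (nat_lit 359) (nat_lit 294) (nat_lit 127)))) (XT.nd (nat_lit 156) (nat_lit 228) (nat_lit 0) (XT.nd (nat_lit 78) (nat_lit 304) (nat_lit 0) (XT.lf (nat_lit 0) (nat_lit 21517619546) (nat_lit 228) (nat_lit 12136244778) (nat_lit 304) (nat_lit 2561202193) (nat_lit 66) (nat_lit 5) (nat_lit 69) (nat_lit 5) (nat_lit 70) (nat_lit 5) (nat_lit 360) (nat_lit 294) (nat_lit 126)) (XT.lf (nat_lit 0) (nat_lit 2446723856) (nat_lit 228) (nat_lit 1477083241) (nat_lit 304) (nat_lit 33048149437) (nat_lit 62) (nat_lit 5) (nat_lit 65) (nat_lit 5) (nat_lit 66) (nat_lit 5) (nat_lit 361) (nat_lit 294) (nat_lit 125))) (XT.nd (nat_lit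 78) (nat_lit 228) (nat_lit 0) (XT.lf (nat_lit 0) (nat_lit 10788669143) (nat_lit 304) (nat_lit 17465833545) (nat_lit 76) (nat_lit 9489188689) (nat_lit 62) (nat_lit 5) (nat_lit 66) (nat_lit 5) (nat_lit 63) (nat_lit 5) (nat_lit 362) (nat_lit 294) (nat_lit 124)) (XT.lf (nat_lit 0) (nat_lit 85527564) (nat_lit 228) (nat_lit 17785083226) (nat_lit 304) (nat_lit 20667635674) (nat_lit 59) (nat_lit 5) (nat_lit 62) (nat_lit 5) (nat_lit 63) (nat_lit 5) (nat_lit 363) (nat_lit 294) (nat_lit 123))))))) (XT.nd (nat_lit 1092) (nat_lit 1064) (nat_lit 0) (XT.nd (nat_lit 546) (nat_lit 608) (nat_lit 0) (XT.nd (nat_lit 234) (nat_lit 380) (nat_lit 0) (XT.nd (nat_lit 78) (nat_lit 228) (nat_lit 0) (XT.lf (nat_lit 0) (nat_lit 18514664907) (nat_lit 228) (nat_lit 6822463748) (nat_lit 304) (nat_lit 14014348159) (nat_lit 59) (nat_lit 5) (nat_lit 62) (nat_lit 5) (nat_lit 63) (nat_lit 5) (nat_lit 364) (nat_lit 294) (nat_lit 122))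 (XT.nd (nat_lit 78) (nat_lit 228) (nat_lit 0) (XT.lf (nat_lit 0) (nat_lit 33066448563) (nat_lit 304) (nat_lit 2742088094) (nat_lit 76) (nat_lit 4379405308) (nat_lit 59) (nat_lit 5) (nat_lit 63) (nat_lit 5) (nat_lit 60) (nat_lit 5) (nat_lit 365) (nat_lit 294) (nat_lit 121)) (XT.lf (nat_lit 0) (nat_lit 199365581) (nat_lit 228) (nat_lit 24908599280) (nat_lit 76) (nat_lit 15934920714) (nat_lit 56) (nat_lit 5) (nat_lit 59) (nat_lit 5) (nat_lit 57) (nat_lit 5) (nat_lit 366) (nat_lit 294) (nat_lit 120)))) (XT.nd (nat_lit 156) (nat_lit 152) (nat_lit 0) (XT.nd (nat_lit 78) (nat_lit 228) (nat_lit 0) (XT.lf (nat_lit 0) (nat_lit 7620661805) (nat_lit 228) (nat_lit 6366792949) (nat_lit 76) (nat_lit 27933190958) (nat_lit 56) (nat_lit 5) (nat_lit 59) (nat_lit 5) (nat_lit 57) (nat_lit 5) (nat_lit 367) (nat_lit 294) (nat_lit 119)) (XT.lf (nat_lit 0) (nat_lit 12978184530) (nat_lit 228) (nat_lit 2407266215) (nat_lit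 304) (nat_lit 27435664148) (nat_lit 53) (nat_lit 5) (nat_lit 56) (nat_lit 5) (nat_lit 57) (nat_lit 5) (nat_lit 368) (nat_lit 294) (nat_lit 118))) (XT.nd (nat_lit 78) (nat_lit 152) (nat_lit 0) (XT.lf (nat_lit 0) (nat_lit 23535756834) (nat_lit 304) (nat_lit 10811162780) (nat_lit 76) (nat_lit 9397103130) (nat_lit 53) (nat_lit 5) (nat_lit 57) (nat_lit 5) (nat_lit 54) (nat_lit 5) (nat_lit 369) (nat_lit 294) (nat_lit 117)) (XT.lf (nat_lit 0) (nat_lit 8935914843) (nat_lit 152) (nat_lit 23100631374) (nat_lit 228) (nat_lit 12654894136) (nat_lit 51) (nat_lit 5) (nat_lit 53) (nat_lit 5) (nat_lit 54) (nat_lit 5) (nat_lit 370) (nat_lit 294) (nat_lit 116))))) (XT.nd (nat_lit 234) (nat_lit 304) (nat_lit 0) (XT.nd (nat_lit 78) (nat_lit 304) (nat_lit 0) (XT.lf (nat_lit 0) (nat_lit 29490903074) (nat_lit 152) (nat_lit 11406920687) (nat_lit 228) (nat_lit 4766294491) (nat_lit 51) (nat_lit 5) (nat_lit 53) (nat_lit 5)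 (nat_lit 54) (nat_lit 5) (nat_lit 371) (nat_lit 294) (nat_lit 115)) (XT.nd (nat_lit 78) (nat_lit 0) (nat_lit 0) (XT.lf (nat_lit 0) (nat_lit 3335397854) (nat_lit 304) (nat_lit 42633726864) (nat_lit 76) (nat_lit 694625311) (nat_lit 47) (nat_lit 5) (nat_lit 51) (nat_lit 5) (nat_lit 48) (nat_lit 5) (nat_lit 372) (nat_lit 294) (nat_lit 114)) (XT.lf (nat_lit 0) (nat_lit 11858607285) (nat_lit 304) (nat_lit 22685368471) (nat_lit 76) (nat_lit 13139752900) (nat_lit 47) (nat_lit 5) (nat_lit 51) (nat_lit 5) (nat_lit 48) (nat_lit 5) (nat_lit 373) (nat_lit 294) (nat_lit 113)))) (XT.nd (nat_lit 156) (nat_lit 152) (nat_lit 0) (XT.nd (nat_lit 78) (nat_lit 152) (nat_lit 0) (XT.lf (nat_lit 0) (nat_lit 20634007696) (nat_lit 304) (nat_lit 2144426424) (nat_lit 76) (nat_lit 25955979189) (nat_lit 47) (nat_lit 5) (nat_lit 51) (nat_lit 5) (nat_lit 48) (nat_lit 5) (nat_lit 374) (nat_lit 294) (nat_lit 112)) (XT.lf (nat_lit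 0) (nat_lit 19385325189) (nat_lit 152) (nat_lit 10470285326) (nat_lit 228) (nat_lit 19955521237) (nat_lit 45) (nat_lit 5) (nat_lit 47) (nat_lit 5) (nat_lit 48) (nat_lit 5) (nat_lit 375) (nat_lit 294) (nat_lit 111))) (XT.nd (nat_lit 78) (nat_lit 152) (nat_lit 0) (XT.lf (nat_lit 0) (nat_lit 39393566155) (nat_lit 228) (nat_lit 9341725194) (nat_lit 76) (nat_lit 2183670679) (nat_lit 45) (nat_lit 5) (nat_lit 48) (nat_lit 5) (nat_lit 46) (nat_lit 5) (nat_lit 376) (nat_lit 294) (nat_lit 110)) (XT.lf (nat_lit 0) (nat_lit 12509769099) (nat_lit 152) (nat_lit 36928527322) (nat_lit 228) (nat_lit 2615113090) (nat_lit 43) (nat_lit 5) (nat_lit 45) (nat_lit 5) (nat_lit 46) (nat_lit 5) (nat_lit 377) (nat_lit 294) (nat_lit 109)))))) (XT.nd (nat_lit 546) (nat_lit 456) (nat_lit 0) (XT.nd (nat_lit 234) (nat_lit 380) (nat_lit 0) (XT.nd (nat_lit 78) (nat_lit 152) (nat_lit 0) (XT.lf (nat_lit 0) (nat_lit 6526415241) (nat_lit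 228) (nat_lit 18080338498) (nat_lit 76) (nat_lit 28610485664) (nat_lit 42) (nat_lit 5) (nat_lit 45) (nat_lit 5) (nat_lit 43) (nat_lit 5) (nat_lit 378) (nat_lit 294) (nat_lit 108)) (XT.nd (nat_lit 78) (nat_lit 0) (nat_lit 0) (XT.lf (nat_lit 0) (nat_lit 4075086029) (nat_lit 152) (nat_lit 11850537294) (nat_lit 228) (nat_lit 38488505510) (nat_lit 40) (nat_lit 5) (nat_lit 42) (nat_lit 5) (nat_lit 43) (nat_lit 5) (nat_lit 379) (nat_lit 294) (nat_lit 107)) (XT.lf (nat_lit 0) (nat_lit 25800418536) (nat_lit 228) (nat_lit 28395262282) (nat_lit 76) (nat_lit 1445437028) (nat_lit 40) (nat_lit 5) (nat_lit 43) (nat_lit 5) (nat_lit 41) (nat_lit 5) (nat_lit 380) (nat_lit 294) (nat_lit 106)))) (XT.nd (nat_lit 156) (nat_lit 228) (nat_lit 0) (XT.nd (nat_lit 78) (nat_lit 152) (nat_lit 0) (XT.lf (nat_lit 0) (nat_lit 36085724295) (nat_lit 228) (nat_lit 5915767268) (nat_lit 76) (nat_lit 14899998154) (nat_lit 40) (nat_lit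 5) (nat_lit 43) (nat_lit 5) (nat_lit 41) (nat_lit 5) (nat_lit 381) (nat_lit 294) (nat_lit 105)) (XT.lf (nat_lit 0) (nat_lit 17575969600) (nat_lit 152) (nat_lit 29269594520) (nat_lit 228) (nat_lit 11349130534) (nat_lit 38) (nat_lit 5) (nat_lit 40) (nat_lit 5) (nat_lit 41) (nat_lit 5) (nat_lit 382) (nat_lit 294) (nat_lit 104))) (XT.nd (nat_lit 78) (nat_lit 228) (nat_lit 0) (XT.lf (nat_lit 0) (nat_lit 41888662669) (nat_lit 152) (nat_lit 16096336052) (nat_lit 228) (nat_lit 1539994151) (nat_lit 38) (nat_lit 5) (nat_lit 40) (nat_lit 5) (nat_lit 41) (nat_lit 5) (nat_lit 383) (nat_lit 294) (nat_lit 103)) (XT.lf (nat_lit 0) (nat_lit 6066627173) (nat_lit 152) (nat_lit 2385120381) (nat_lit 228) (nat_lit 52439321006) (nat_lit 35) (nat_lit 5) (nat_lit 37) (nat_lit 5) (nat_lit 38) (nat_lit 5) (nat_lit 384) (nat_lit 294) (nat_lit 102))))) (XT.nd (nat_lit 312) (nat_lit 304) (nat_lit 0) (XT.nd (nat_lit 156) (nat_lit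 152) (nat_lit 0) (XT.nd (nat_lit 78) (nat_lit 0) (nat_lit 0) (XT.lf (nat_lit 0) (nat_lit 19002106961) (nat_lit 228) (nat_lit 31585413018) (nat_lit 76) (nat_lit 11701455607) (nat_lit 35) (nat_lit 5) (nat_lit 38) (nat_lit 5) (nat_lit 36) (nat_lit 5) (nat_lit 385) (nat_lit 294) (nat_lit 101)) (XT.lf (nat_lit 0) (nat_lit 29889810443) (nat_lit 228) (nat_lit 7677675345) (nat_lit 76) (nat_lit 26160710031) (nat_lit 35) (nat_lit 5) (nat_lit 38) (nat_lit 5) (nat_lit 36) (nat_lit 5) (nat_lit 386) (nat_lit 294) (nat_lit 100))) (XT.nd (nat_lit 78) (nat_lit 0) (nat_lit 0) (XT.lf (nat_lit 0) (nat_lit 17279779868) (nat_lit 152) (nat_lit 23987768241) (nat_lit 228) (nat_lit 23938143427) (nat_lit 33) (nat_lit 5) (nat_lit 35) (nat_lit 5) (nat_lit 36) (nat_lit 5) (nat_lit 387) (nat_lit 294) (nat_lit 99)) (XT.lf (nat_lit 0) (nat_lit 43138684353) (nat_lit 152) (nat_lit 9922796156) (nat_lit 228) (nat_lit 13663786675) (nat_lit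 33) (nat_lit 5) (nat_lit 35) (nat_lit 5) (nat_lit 36) (nat_lit 5) (nat_lit 388) (nat_lit 294) (nat_lit 98)))) (XT.nd (nat_lit 156) (nat_lit 152) (nat_lit 0) (XT.nd (nat_lit 78) (nat_lit 76) (nat_lit 0) (XT.lf (nat_lit 0) (nat_lit 1463017965) (nat_lit 76) (nat_lit 63801541722) (nat_lit 152) (nat_lit 3024211462) (nat_lit 32) (nat_lit 5) (nat_lit 33) (nat_lit 5) (nat_lit 34) (nat_lit 4) (nat_lit 389) (nat_lit 294) (nat_lit 97)) (XT.lf (nat_lit 0) (nat_lit 8115899462) (nat_lit 152) (nat_lit 42325892937) (nat_lit 76) (nat_lit 19445015137) (nat_lit 31) (nat_lit 5) (nat_lit 33) (nat_lit 5) (nat_lit 32) (nat_lit 5) (nat_lit 390) (nat_lit 294) (nat_lit 96))) (XT.nd (nat_lit 78) (nat_lit 152) (nat_lit 0) (XT.lf (nat_lit 0) (nat_lit 19526904021) (nat_lit 152) (nat_lit 17125437042) (nat_lit 76) (nat_lit 34879622287) (nat_lit 31) (nat_lit 5) (nat_lit 33) (nat_lit 5) (nat_lit 32) (nat_lit 5) (nat_lit 391) (nat_lit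 294) (nat_lit 95)) (XT.lf (nat_lit 0) (nat_lit 9002373621) (nat_lit 152) (nat_lit 22361948952) (nat_lit 228) (nat_lit 41859629559) (nat_lit 29) (nat_lit 5) (nat_lit 31) (nat_lit 5) (nat_lit 32) (nat_lit 5) (nat_lit 392) (nat_lit 294) (nat_lit 94))))))))
noncomputable def xc184 : XT := (XT.nd (nat_lit 34320) (nat_lit 0) (nat_lit 6156) (XT.nd (nat_lit 33228) (nat_lit 0) (nat_lit 13984) (XT.nd (nat_lit 546) (nat_lit 152) (nat_lit 0) (XT.nd (nat_lit 234) (nat_lit 228) (nat_lit 0) (XT.nd (nat_lit 78) (nat_lit 76) (nat_lit 0) (XT.lf (nat_lit 0) (nat_lit 36260788061) (nat_lit 152) (nat_lit 7466586731) (nat_lit 228) (nat_lit 31234211239) (nat_lit 29) (nat_lit 5) (nat_lit 31) (nat_lit 5) (nat_lit 32) (nat_lit 5) (nat_lit 393) (nat_lit 294) (nat_lit 93)) (XT.nd (nat_lit 78) (nat_lit 76) (nat_lit 0) (XT.lf (nat_lit 0) (nat_lit 56534654949) (nat_lit 228) (nat_lit 12494313778) (nat_lit 76) (nat_lit 7720180892)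 (nat_lit 29) (nat_lit 5) (nat_lit 32) (nat_lit 5) (nat_lit 30) (nat_lit 4) (nat_lit 394) (nat_lit 294) (nat_lit 92)) (XT.lf (nat_lit 0) (nat_lit 14707339932) (nat_lit 76) (nat_lit 55231816068) (nat_lit 152) (nat_lit 8644794781) (nat_lit 28) (nat_lit 5) (nat_lit 29) (nat_lit 5) (nat_lit 30) (nat_lit 4) (nat_lit 395) (nat_lit 294) (nat_lit 91)))) (XT.nd (nat_lit 156) (nat_lit 152) (nat_lit 0) (XT.nd (nat_lit 78) (nat_lit 0) (nat_lit 0) (XT.lf (nat_lit 0) (nat_lit 3333269720) (nat_lit 152) (nat_lit 37525645963) (nat_lit 76) (nat_lit 39610183760) (nat_lit 27) (nat_lit 5) (nat_lit 29) (nat_lit 5) (nat_lit 28) (nat_lit 5) (nat_lit 396) (nat_lit 294) (nat_lit 90)) (XT.lf (nat_lit 0) (nat_lit 15494695977) (nat_lit 152) (nat_lit 10473722649) (nat_lit 76) (nat_lit 56439883706) (nat_lit 27) (nat_lit 5) (nat_lit 29) (nat_lit 5) (nat_lit 28) (nat_lit 5) (nat_lit 397) (nat_lit 294) (nat_lit 89))) (XT.nd (nat_lit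 78) (nat_lit 0) (nat_lit 0) (XT.lf (nat_lit 0) (nat_lit 17731909165) (nat_lit 152) (nat_lit 10457342355) (nat_lit 228) (nat_lit 56211381853) (nat_lit 25) (nat_lit 5) (nat_lit 27) (nat_lit 5) (nat_lit 28) (nat_lit 5) (nat_lit 398) (nat_lit 294) (nat_lit 88)) (XT.lf (nat_lit 0) (nat_lit 41422354168) (nat_lit 228) (nat_lit 39509123531) (nat_lit 76) (nat_lit 5516525971) (nat_lit 25) (nat_lit 5) (nat_lit 28) (nat_lit 5) (nat_lit 26) (nat_lit 4) (nat_lit 399) (nat_lit 294) (nat_lit 87))))) (XT.nd (nat_lit 234) (nat_lit 76) (nat_lit 0) (XT.nd (nat_lit 78) (nat_lit 76) (nat_lit 0) (XT.lf (nat_lit 0) (nat_lit 55153897226) (nat_lit 228) (nat_lit 11642033341) (nat_lit 76) (nat_lit 21757821711) (nat_lit 25) (nat_lit 5) (nat_lit 28) (nat_lit 5) (nat_lit 26) (nat_lit 4) (nat_lit 400) (nat_lit 294) (nat_lit 86)) (XT.nd (nat_lit 78) (nat_lit 0) (nat_lit 0) (XT.lf (nat_lit 0) (nat_lit 17396894693) (nat_lit 76) (nat_lit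 52065691658) (nat_lit 152) (nat_lit 21255131601) (nat_lit 24) (nat_lit 5) (nat_lit 25) (nat_lit 5) (nat_lit 26) (nat_lit 4) (nat_lit 401) (nat_lit 294) (nat_lit 85)) (XT.lf (nat_lit 0) (nat_lit 47542025695) (nat_lit 76) (nat_lit 36774066717) (nat_lit 152) (nat_lit 8627044082) (nat_lit 24) (nat_lit 5) (nat_lit 25) (nat_lit 5) (nat_lit 26) (nat_lit 4) (nat_lit 402) (nat_lit 294) (nat_lit 84)))) (XT.nd (nat_lit 32292) (nat_lit 0) (nat_lit 14972) (XT.nd (nat_lit 32214) (nat_lit 0) (nat_lit 14972) (XT.lf (nat_lit 0) (nat_lit 4292451837) (nat_lit 152) (nat_lit 16689458655) (nat_lit 76) (nat_lit 74252203595) (nat_lit 23) (nat_lit 5) (nat_lit 25) (nat_lit 5) (nat_lit 24) (nat_lit 5) (nat_lit 403) (nat_lit 294) (nat_lit 83)) (XT.lf (nat_lit 0) (nat_lit 4556296441) (nat_lit 1140) (nat_lit 678691149) (nat_lit 1140) (nat_lit 678691149) (nat_lit 220) (nat_lit 3) (nat_lit 235) (nat_lit 3) (nat_lit 235) (nat_lit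 5) (nat_lit 295) (nat_lit 295) (nat_lit 190))) (XT.nd (nat_lit 78) (nat_lit 0) (nat_lit 0) (XT.lf (nat_lit 76) (nat_lit 4171365367) (nat_lit 0) (nat_lit 5582469760) (nat_lit 1140) (nat_lit 2235290837) (nat_lit 221) (nat_lit 5) (nat_lit 220) (nat_lit 3) (nat_lit 235) (nat_lit 5) (nat_lit 296) (nat_lit 295) (nat_lit 189)) (XT.lf (nat_lit 76) (nat_lit 9884269528) (nat_lit 0) (nat_lit 525533989) (nat_lit 1140) (nat_lit 1746099040) (nat_lit 221) (nat_lit 5) (nat_lit 220) (nat_lit 3) (nat_lit 235) (nat_lit 5) (nat_lit 297) (nat_lit 295) (nat_lit 188)))))) (XT.nd (nat_lit 546) (nat_lit 0) (nat_lit 152) (XT.nd (nat_lit 234) (nat_lit 0) (nat_lit 0) (XT.nd (nat_lit 78) (nat_lit 1064) (nat_lit 0) (XT.lf (nat_lit 76) (nat_lit 3453364852) (nat_lit 0) (nat_lit 7692692552) (nat_lit 1140) (nat_lit 1179825996) (nat_lit 222) (nat_lit 5) (nat_lit 221) (nat_lit 5) (nat_lit 236) (nat_lit 5) (nat_lit 298) (nat_lit 295)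 (nat_lit 187)) (XT.nd (nat_lit 78) (nat_lit 1064) (nat_lit 0) (XT.lf (nat_lit 76) (nat_lit 9381584782) (nat_lit 0) (nat_lit 2533717858) (nat_lit 1140) (nat_lit 585352504) (nat_lit 222) (nat_lit 5) (nat_lit 221) (nat_lit 5) (nat_lit 236) (nat_lit 5) (nat_lit 299) (nat_lit 295) (nat_lit 186)) (XT.lf (nat_lit 0) (nat_lit 64044347) (nat_lit 1140) (nat_lit 9854898257) (nat_lit 1216) (nat_lit 2760608729) (nat_lit 207) (nat_lit 5) (nat_lit 222) (nat_lit 5) (nat_lit 223) (nat_lit 5) (nat_lit 300) (nat_lit 295) (nat_lit 185)))) (XT.nd (nat_lit 156) (nat_lit 0) (nat_lit 76) (XT.nd (nat_lit 78) (nat_lit 0) (nat_lit 76) (XT.lf (nat_lit 0) (nat_lit 761644934) (nat_lit 1140) (nat_lit 3893771709) (nat_lit 1216) (nat_lit 8207026303) (nat_lit 207) (nat_lit 5) (nat_lit 222) (nat_lit 5) (nat_lit 223) (nat_lit 5) (nat_lit 301) (nat_lit 295) (nat_lit 184)) (XT.lf (nat_lit 0) (nat_lit 1493803849) (nat_lit 1140) (nat_lit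 10777636229) (nat_lit 1216) (nat_lit 778988834) (nat_lit 208) (nat_lit 5) (nat_lit 223) (nat_lit 5) (nat_lit 224) (nat_lit 5) (nat_lit 302) (nat_lit 295) (nat_lit 183))) (XT.nd (nat_lit 78) (nat_lit 0) (nat_lit 0) (XT.lf (nat_lit 0) (nat_lit 2318222161) (nat_lit 1140) (nat_lit 4595657053) (nat_lit 1216) (nat_lit 6328082439) (nat_lit 208) (nat_lit 5) (nat_lit 223) (nat_lit 5) (nat_lit 224) (nat_lit 5) (nat_lit 303) (nat_lit 295) (nat_lit 182)) (XT.lf (nat_lit 76) (nat_lit 1796673938) (nat_lit 0) (nat_lit 1372914119) (nat_lit 1216) (nat_lit 10269601435) (nat_lit 209) (nat_lit 5) (nat_lit 208) (nat_lit 5) (nat_lit 224) (nat_lit 5) (nat_lit 304) (nat_lit 295) (nat_lit 181))))) (XT.nd (nat_lit 234) (nat_lit 0) (nat_lit 76) (XT.nd (nat_lit 78) (nat_lit 0) (nat_lit 0) (XT.lf (nat_lit 0) (nat_lit 4120355992) (nat_lit 1140) (nat_lit 5218652515) (nat_lit 1216) (nat_lit 4301124940) (nat_lit 209) (nat_lit 5)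 (nat_lit 224) (nat_lit 5) (nat_lit 225) (nat_lit 5) (nat_lit 305) (nat_lit 295) (nat_lit 180)) (XT.nd (nat_lit 78) (nat_lit 0) (nat_lit 76) (XT.lf (nat_lit 76) (nat_lit 1401419107) (nat_lit 0) (nat_lit 3711050336) (nat_lit 1216) (nat_lit 8734266276) (nat_lit 210) (nat_lit 5) (nat_lit 209) (nat_lit 5) (nat_lit 225) (nat_lit 5) (nat_lit 306) (nat_lit 295) (nat_lit 179)) (XT.lf (nat_lit 0) (nat_lit 6193727002) (nat_lit 1140) (nat_lit 5762084631) (nat_lit 1216) (nat_lit 2101957252) (nat_lit 210) (nat_lit 5) (nat_lit 225) (nat_lit 5) (nat_lit 226) (nat_lit 5) (nat_lit 307) (nat_lit 295) (nat_lit 178)))) (XT.nd (nat_lit 156) (nat_lit 0) (nat_lit 76) (XT.nd (nat_lit 78) (nat_lit 0) (nat_lit 0) (XT.lf (nat_lit 76) (nat_lit 1095968682) (nat_lit 0) (nat_lit 6245247634) (nat_lit 1216) (nat_lit 6932916739) (nat_lit 211) (nat_lit 5) (nat_lit 210) (nat_lit 5) (nat_lit 226) (nat_lit 5) (nat_lit 308) (nat_lit 295)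 (nat_lit 177)) (XT.lf (nat_lit 76) (nat_lit 8267662993) (nat_lit 0) (nat_lit 300463432) (nat_lit 1216) (nat_lit 5927525270) (nat_lit 211) (nat_lit 5) (nat_lit 210) (nat_lit 5) (nat_lit 226) (nat_lit 5) (nat_lit 309) (nat_lit 295) (nat_lit 176))) (XT.nd (nat_lit 78) (nat_lit 0) (nat_lit 0) (XT.lf (nat_lit 76) (nat_lit 881578987) (nat_lit 0) (nat_lit 9001932397) (nat_lit 1216) (nat_lit 4838767521) (nat_lit 212) (nat_lit 5) (nat_lit 211) (nat_lit 5) (nat_lit 227) (nat_lit 5) (nat_lit 310) (nat_lit 295) (nat_lit 175)) (XT.lf (nat_lit 76) (nat_lit 8318823679) (nat_lit 0) (nat_lit 2972866366) (nat_lit 1216) (nat_lit 3662427579) (nat_lit 212) (nat_lit 5) (nat_lit 211) (nat_lit 5) (nat_lit 227) (nat_lit 5) (nat_lit 311) (nat_lit 295) (nat_lit 174))))))) (XT.nd (nat_lit 1092) (nat_lit 3420) (nat_lit 0) (XT.nd (nat_lit 546) (nat_lit 1672) (nat_lit 0) (XT.nd (nat_lit 234) (nat_lit 1140) (nat_lit 0) (XT.nd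 (nat_lit 78) (nat_lit 836) (nat_lit 0) (XT.lf (nat_lit 0) (nat_lit 759637943) (nat_lit 1140) (nat_lit 12008776189) (nat_lit 1216) (nat_lit 2423720658) (nat_lit 197) (nat_lit 5) (nat_lit 212) (nat_lit 5) (nat_lit 213) (nat_lit 5) (nat_lit 312) (nat_lit 295) (nat_lit 173)) (XT.nd (nat_lit 78) (nat_lit 836) (nat_lit 0) (XT.lf (nat_lit 0) (nat_lit 8472173266) (nat_lit 1140) (nat_lit 5901551660) (nat_lit 1216) (nat_lit 1061050927) (nat_lit 197) (nat_lit 5) (nat_lit 212) (nat_lit 5) (nat_lit 213) (nat_lit 5) (nat_lit 313) (nat_lit 295) (nat_lit 172)) (XT.lf (nat_lit 0) (nat_lit 335064318) (nat_lit 836) (nat_lit 14956403445) (nat_lit 76) (nat_lit 393163398) (nat_lit 186) (nat_lit 5) (nat_lit 197) (nat_lit 5) (nat_lit 187) (nat_lit 5) (nat_lit 314) (nat_lit 295) (nat_lit 171)))) (XT.nd (nat_lit 156) (nat_lit 532) (nat_lit 0) (XT.nd (nat_lit 78) (nat_lit 608) (nat_lit 0) (XT.lf (nat_lit 0) (nat_lit 1869783683)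 (nat_lit 836) (nat_lit 7227448067) (nat_lit 76) (nat_lit 6840904728) (nat_lit 186) (nat_lit 5) (nat_lit 197) (nat_lit 5) (nat_lit 187) (nat_lit 5) (nat_lit 315) (nat_lit 295) (nat_lit 170)) (XT.lf (nat_lit 0) (nat_lit 737622189) (nat_lit 608) (nat_lit 2708955414) (nat_lit 684) (nat_lit 12752798966) (nat_lit 178) (nat_lit 5) (nat_lit 186) (nat_lit 5) (nat_lit 187) (nat_lit 5) (nat_lit 316) (nat_lit 295) (nat_lit 169))) (XT.nd (nat_lit 78) (nat_lit 532) (nat_lit 0) (XT.lf (nat_lit 0) (nat_lit 5170766633) (nat_lit 684) (nat_lit 7424787696) (nat_lit 76) (nat_lit 3869907084) (nat_lit 178) (nat_lit 5) (nat_lit 187) (nat_lit 5) (nat_lit 179) (nat_lit 5) (nat_lit 317) (nat_lit 295) (nat_lit 168)) (XT.lf (nat_lit 0) (nat_lit 832626071) (nat_lit 532) (nat_lit 6138371100) (nat_lit 608) (nat_lit 9767812148) (nat_lit 171) (nat_lit 5) (nat_lit 178) (nat_lit 5) (nat_lit 179) (nat_lit 5) (nat_lit 318) (nat_lit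 295) (nat_lit 167))))) (XT.nd (nat_lit 234) (nat_lit 1140) (nat_lit 0) (XT.nd (nat_lit 78) (nat_lit 532) (nat_lit 0) (XT.lf (nat_lit 0) (nat_lit 8895583325) (nat_lit 608) (nat_lit 7544125193) (nat_lit 76) (nat_lit 578548385) (nat_lit 171) (nat_lit 5) (nat_lit 179) (nat_lit 5) (nat_lit 172) (nat_lit 5) (nat_lit 319) (nat_lit 295) (nat_lit 166)) (XT.nd (nat_lit 78) (nat_lit 0) (nat_lit 0) (XT.lf (nat_lit 0) (nat_lit 1017870427) (nat_lit 532) (nat_lit 9920600704) (nat_lit 608) (nat_lit 6365809278) (nat_lit 164) (nat_lit 5) (nat_lit 171) (nat_lit 5) (nat_lit 172) (nat_lit 5) (nat_lit 320) (nat_lit 295) (nat_lit 165)) (XT.lf (nat_lit 0) (nat_lit 9981460686) (nat_lit 532) (nat_lit 3127565354) (nat_lit 608) (nat_lit 4487876312) (nat_lit 164) (nat_lit 5) (nat_lit 171) (nat_lit 5) (nat_lit 172) (nat_lit 5) (nat_lit 321) (nat_lit 295) (nat_lit 164)))) (XT.nd (nat_lit 156) (nat_lit 608) (nat_lit 0) (XT.nd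 (nat_lit 78) (nat_lit 0) (nat_lit 0) (XT.lf (nat_lit 0) (nat_lit 1293791556) (nat_lit 532) (nat_lit 14091020458) (nat_lit 608) (nat_lit 2512296383) (nat_lit 157) (nat_lit 5) (nat_lit 164) (nat_lit 5) (nat_lit 165) (nat_lit 5) (nat_lit 322) (nat_lit 295) (nat_lit 163)) (XT.lf (nat_lit 0) (nat_lit 10585008841) (nat_lit 532) (nat_lit 7242092930) (nat_lit 608) (nat_lit 376280565) (nat_lit 157) (nat_lit 5) (nat_lit 164) (nat_lit 5) (nat_lit 165) (nat_lit 5) (nat_lit 323) (nat_lit 295) (nat_lit 162))) (XT.nd (nat_lit 78) (nat_lit 0) (nat_lit 0) (XT.lf (nat_lit 0) (nat_lit 1640881886) (nat_lit 532) (nat_lit 153958477) (nat_lit 608) (nat_lit 16723287892) (nat_lit 149) (nat_lit 5) (nat_lit 156) (nat_lit 5) (nat_lit 157) (nat_lit 5) (nat_lit 324) (nat_lit 295) (nat_lit 161)) (XT.lf (nat_lit 0) (nat_lit 4160932703) (nat_lit 608) (nat_lit 7589011423) (nat_lit 76) (nat_lit 7088146524) (nat_lit 149) (nat_lit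 5) (nat_lit 157) (nat_lit 5) (nat_lit 150) (nat_lit 5) (nat_lit 325) (nat_lit 295) (nat_lit 160)))))) (XT.nd (nat_lit 546) (nat_lit 1596) (nat_lit 0) (XT.nd (nat_lit 234) (nat_lit 912) (nat_lit 0) (XT.nd (nat_lit 78) (nat_lit 456) (nat_lit 0) (XT.lf (nat_lit 0) (nat_lit 2005876390) (nat_lit 456) (nat_lit 4604208079) (nat_lit 532) (nat_lit 12557212809) (nat_lit 143) (nat_lit 5) (nat_lit 149) (nat_lit 5) (nat_lit 150) (nat_lit 5) (nat_lit 326) (nat_lit 295) (nat_lit 159)) (XT.nd (nat_lit 78) (nat_lit 456) (nat_lit 0) (XT.lf (nat_lit 0) (nat_lit 9228019301) (nat_lit 532) (nat_lit 7496925872) (nat_lit 76) (nat_lit 2778583108) (nat_lit 143) (nat_lit 5) (nat_lit 150) (nat_lit 5) (nat_lit 144) (nat_lit 5) (nat_lit 327) (nat_lit 295) (nat_lit 158)) (XT.lf (nat_lit 0) (nat_lit 2450242705) (nat_lit 456) (nat_lit 9535062933) (nat_lit 532) (nat_lit 7862723393) (nat_lit 137) (nat_lit 5) (nat_lit 143) (nat_lit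 5) (nat_lit 144) (nat_lit 5) (nat_lit 328) (nat_lit 295) (nat_lit 157)))) (XT.nd (nat_lit 156) (nat_lit 532) (nat_lit 0) (XT.nd (nat_lit 78) (nat_lit 380) (nat_lit 0) (XT.lf (nat_lit 0) (nat_lit 12840110861) (nat_lit 456) (nat_lit 2052730156) (nat_lit 532) (nat_lit 5308004880) (nat_lit 137) (nat_lit 5) (nat_lit 143) (nat_lit 5) (nat_lit 144) (nat_lit 5) (nat_lit 329) (nat_lit 295) (nat_lit 156)) (XT.lf (nat_lit 0) (nat_lit 2971711235) (nat_lit 380) (nat_lit 14990860410) (nat_lit 456) (nat_lit 2599433353) (nat_lit 132) (nat_lit 5) (nat_lit 137) (nat_lit 5) (nat_lit 138) (nat_lit 5) (nat_lit 330) (nat_lit 295) (nat_lit 155))) (XT.nd (nat_lit 78) (nat_lit 456) (nat_lit 0) (XT.lf (nat_lit 0) (nat_lit 274180553) (nat_lit 456) (nat_lit 7199067079) (nat_lit 76) (nat_lit 13458077730) (nat_lit 131) (nat_lit 5) (nat_lit 137) (nat_lit 5) (nat_lit 132) (nat_lit 5) (nat_lit 331) (nat_lit 295) (nat_lit 154))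 (XT.lf (nat_lit 0) (nat_lit 3211279606) (nat_lit 532) (nat_lit 17775293085) (nat_lit 76) (nat_lit 323501080) (nat_lit 125) (nat_lit 5) (nat_lit 132) (nat_lit 5) (nat_lit 126) (nat_lit 5) (nat_lit 332) (nat_lit 295) (nat_lit 153))))) (XT.nd (nat_lit 312) (nat_lit 836) (nat_lit 0) (XT.nd (nat_lit 156) (nat_lit 380) (nat_lit 0) (XT.nd (nat_lit 78) (nat_lit 380) (nat_lit 0) (XT.lf (nat_lit 0) (nat_lit 6376362878) (nat_lit 532) (nat_lit 7043777630) (nat_lit 76) (nat_lit 8275854035) (nat_lit 125) (nat_lit 5) (nat_lit 132) (nat_lit 5) (nat_lit 126) (nat_lit 5) (nat_lit 333) (nat_lit 295) (nat_lit 152)) (XT.lf (nat_lit 0) (nat_lit 4080295546) (nat_lit 380) (nat_lit 5588007404) (nat_lit 456) (nat_lit 12424238726) (nat_lit 120) (nat_lit 5) (nat_lit 125) (nat_lit 5) (nat_lit 126) (nat_lit 5) (nat_lit 334) (nat_lit 295) (nat_lit 151))) (XT.nd (nat_lit 78) (nat_lit 380) (nat_lit 0) (XT.lf (nat_lit 0) (nat_lit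 13147457106) (nat_lit 456) (nat_lit 6850030155) (nat_lit 76) (nat_lit 2500849984) (nat_lit 120) (nat_lit 5) (nat_lit 126) (nat_lit 5) (nat_lit 121) (nat_lit 5) (nat_lit 335) (nat_lit 295) (nat_lit 150)) (XT.lf (nat_lit 0) (nat_lit 4674073832) (nat_lit 380) (nat_lit 12150171607) (nat_lit 456) (nat_lit 6089268988) (nat_lit 115) (nat_lit 5) (nat_lit 120) (nat_lit 5) (nat_lit 121) (nat_lit 5) (nat_lit 336) (nat_lit 295) (nat_lit 149)))) (XT.nd (nat_lit 156) (nat_lit 380) (nat_lit 0) (XT.nd (nat_lit 78) (nat_lit 456) (nat_lit 0) (XT.lf (nat_lit 0) (nat_lit 16675547024) (nat_lit 380) (nat_lit 3998084436) (nat_lit 456) (nat_lit 2665652014) (nat_lit 115) (nat_lit 5) (nat_lit 120) (nat_lit 5) (nat_lit 121) (nat_lit 5) (nat_lit 337) (nat_lit 295) (nat_lit 148)) (XT.lf (nat_lit 0) (nat_lit 931379215) (nat_lit 456) (nat_lit 18472456153) (nat_lit 76) (nat_lit 4371122070) (nat_lit 109) (nat_lit 5) (nat_lit 115)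 (nat_lit 5) (nat_lit 110) (nat_lit 5) (nat_lit 338) (nat_lit 295) (nat_lit 147))) (XT.nd (nat_lit 78) (nat_lit 380) (nat_lit 0) (XT.lf (nat_lit 0) (nat_lit 4683633136) (nat_lit 456) (nat_lit 6532757650) (nat_lit 76) (nat_lit 13003497311) (nat_lit 109) (nat_lit 5) (nat_lit 115) (nat_lit 5) (nat_lit 110) (nat_lit 5) (nat_lit 339) (nat_lit 295) (nat_lit 146)) (XT.lf (nat_lit 0) (nat_lit 5871197953) (nat_lit 380) (nat_lit 2727234860) (nat_lit 456) (nat_lit 16078239291) (nat_lit 104) (nat_lit 5) (nat_lit 109) (nat_lit 5) (nat_lit 110) (nat_lit 5) (nat_lit 340) (nat_lit 295) (nat_lit 145))))))))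
noncomputable def xc185 : XT := (XT.nd (nat_lit 2184) (nat_lit 2204) (nat_lit 0) (XT.nd (nat_lit 1092) (nat_lit 1520) (nat_lit 0) (XT.nd (nat_lit 546) (nat_lit 1140) (nat_lit 0) (XT.nd (nat_lit 234) (nat_lit 684) (nat_lit 0) (XT.nd (nat_lit 78) (nat_lit 304) (nat_lit 0) (XT.lf (nat_lit 0) (nat_lit 12748760810) (nat_lit 456) (nat_lit 6431075640) (nat_lit 76) (nat_lit 5963785284) (nat_lit 104) (nat_lit 5) (nat_lit 110) (nat_lit 5) (nat_lit 105) (nat_lit 5) (nat_lit 341) (nat_lit 295) (nat_lit 144)) (XT.nd (nat_lit 78) (nat_lit 0) (nat_lit 0) (XT.lf (nat_lit 0) (nat_lit 6404177326) (nat_lit 304) (nat_lit 10701798049) (nat_lit 380) (nat_lit 8516137674) (nat_lit 100) (nat_lit 5) (nat_lit 104) (nat_lit 5) (nat_lit 105) (nat_lit 5) (nat_lit 342) (nat_lit 295) (nat_lit 143)) (XT.lf (nat_lit 0) (nat_lit 19748056688) (nat_lit 304) (nat_lit 1904705247) (nat_lit 380) (nat_lit 4460435870) (nat_lit 100) (nat_lit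 5) (nat_lit 104) (nat_lit 5) (nat_lit 105) (nat_lit 5) (nat_lit 343) (nat_lit 295) (nat_lit 142)))) (XT.nd (nat_lit 156) (nat_lit 304) (nat_lit 0) (XT.nd (nat_lit 78) (nat_lit 76) (nat_lit 0) (XT.lf (nat_lit 0) (nat_lit 6931523087) (nat_lit 304) (nat_lit 19533921026) (nat_lit 380) (nat_lit 149690468) (nat_lit 96) (nat_lit 5) (nat_lit 100) (nat_lit 5) (nat_lit 101) (nat_lit 5) (nat_lit 344) (nat_lit 295) (nat_lit 141)) (XT.lf (nat_lit 0) (nat_lit 4284531130) (nat_lit 380) (nat_lit 6441595015) (nat_lit 76) (nat_lit 16402433825) (nat_lit 95) (nat_lit 5) (nat_lit 100) (nat_lit 5) (nat_lit 96) (nat_lit 5) (nat_lit 345) (nat_lit 295) (nat_lit 140))) (XT.nd (nat_lit 78) (nat_lit 0) (nat_lit 0) (XT.lf (nat_lit 0) (nat_lit 7331275388) (nat_lit 304) (nat_lit 1582244029) (nat_lit 380) (nat_lit 18741885660) (nat_lit 91) (nat_lit 5) (nat_lit 95) (nat_lit 5) (nat_lit 96) (nat_lit 5) (nat_lit 346) (nat_lit 295)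 (nat_lit 139)) (XT.lf (nat_lit 0) (nat_lit 13816737703) (nat_lit 380) (nat_lit 6630750573) (nat_lit 76) (nat_lit 7746510219) (nat_lit 91) (nat_lit 5) (nat_lit 96) (nat_lit 5) (nat_lit 92) (nat_lit 5) (nat_lit 347) (nat_lit 295) (nat_lit 138))))) (XT.nd (nat_lit 234) (nat_lit 532) (nat_lit 0) (XT.nd (nat_lit 78) (nat_lit 304) (nat_lit 0) (XT.lf (nat_lit 0) (nat_lit 7598210529) (nat_lit 304) (nat_lit 11352055997) (nat_lit 380) (nat_lit 9795990427) (nat_lit 87) (nat_lit 5) (nat_lit 91) (nat_lit 5) (nat_lit 92) (nat_lit 5) (nat_lit 348) (nat_lit 295) (nat_lit 137)) (XT.nd (nat_lit 78) (nat_lit 304) (nat_lit 0) (XT.lf (nat_lit 0) (nat_lit 22382218979) (nat_lit 304) (nat_lit 1917134837) (nat_lit 380) (nat_lit 5013886321) (nat_lit 87) (nat_lit 5) (nat_lit 91) (nat_lit 5) (nat_lit 92) (nat_lit 5) (nat_lit 349) (nat_lit 295) (nat_lit 136)) (XT.lf (nat_lit 0) (nat_lit 59351476) (nat_lit 304) (nat_lit 22111763523)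 (nat_lit 76) (nat_lit 7721768219) (nat_lit 83) (nat_lit 5) (nat_lit 87) (nat_lit 5) (nat_lit 84) (nat_lit 5) (nat_lit 350) (nat_lit 295) (nat_lit 135)))) (XT.nd (nat_lit 156) (nat_lit 228) (nat_lit 0) (XT.nd (nat_lit 78) (nat_lit 304) (nat_lit 0) (XT.lf (nat_lit 0) (nat_lit 5268433011) (nat_lit 304) (nat_lit 7488120255) (nat_lit 76) (nat_lit 17729343681) (nat_lit 83) (nat_lit 5) (nat_lit 87) (nat_lit 5) (nat_lit 84) (nat_lit 5) (nat_lit 351) (nat_lit 295) (nat_lit 134)) (XT.lf (nat_lit 0) (nat_lit 7717358459) (nat_lit 304) (nat_lit 2985521753) (nat_lit 380) (nat_lit 20391751233) (nat_lit 79) (nat_lit 5) (nat_lit 83) (nat_lit 5) (nat_lit 84) (nat_lit 5) (nat_lit 352) (nat_lit 295) (nat_lit 133))) (XT.nd (nat_lit 78) (nat_lit 228) (nat_lit 0) (XT.lf (nat_lit 0) (nat_lit 16439732619) (nat_lit 380) (nat_lit 8263176439) (nat_lit 76) (nat_lit 7014540830) (nat_lit 79) (nat_lit 5) (nat_lit 84) (nat_lit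 5) (nat_lit 80) (nat_lit 5) (nat_lit 353) (nat_lit 295) (nat_lit 132)) (XT.lf (nat_lit 0) (nat_lit 7412114920) (nat_lit 228) (nat_lit 15032495340) (nat_lit 304) (nat_lit 9911468008) (nat_lit 76) (nat_lit 5) (nat_lit 79) (nat_lit 5) (nat_lit 80) (nat_lit 5) (nat_lit 354) (nat_lit 295) (nat_lit 131)))))) (XT.nd (nat_lit 546) (nat_lit 760) (nat_lit 0) (XT.nd (nat_lit 234) (nat_lit 456) (nat_lit 0) (XT.nd (nat_lit 78) (nat_lit 304) (nat_lit 0) (XT.lf (nat_lit 0) (nat_lit 23719818137) (nat_lit 228) (nat_lit 4988441114) (nat_lit 304) (nat_lit 4303250385) (nat_lit 76) (nat_lit 5) (nat_lit 79) (nat_lit 5) (nat_lit 80) (nat_lit 5) (nat_lit 355) (nat_lit 295) (nat_lit 130)) (XT.nd (nat_lit 78) (nat_lit 0) (nat_lit 0) (XT.lf (nat_lit 0) (nat_lit 1558766301) (nat_lit 304) (nat_lit 26792216336) (nat_lit 76) (nat_lit 5331770178) (nat_lit 72) (nat_lit 5) (nat_lit 76) (nat_lit 5) (nat_lit 73) (nat_lit 5) (nat_lit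 356) (nat_lit 295) (nat_lit 129)) (XT.lf (nat_lit 0) (nat_lit 7649621015) (nat_lit 304) (nat_lit 10722711993) (nat_lit 76) (nat_lit 15996340674) (nat_lit 72) (nat_lit 5) (nat_lit 76) (nat_lit 5) (nat_lit 73) (nat_lit 5) (nat_lit 357) (nat_lit 295) (nat_lit 128)))) (XT.nd (nat_lit 156) (nat_lit 228) (nat_lit 0) (XT.nd (nat_lit 78) (nat_lit 0) (nat_lit 0) (XT.lf (nat_lit 0) (nat_lit 5937784392) (nat_lit 228) (nat_lit 8037952108) (nat_lit 304) (nat_lit 21097862186) (nat_lit 69) (nat_lit 5) (nat_lit 72) (nat_lit 5) (nat_lit 73) (nat_lit 5) (nat_lit 358) (nat_lit 295) (nat_lit 127)) (XT.lf (nat_lit 0) (nat_lit 20621541109) (nat_lit 304) (nat_lit 12511655258) (nat_lit 76) (nat_lit 2662580394) (nat_lit 69) (nat_lit 5) (nat_lit 73) (nat_lit 5) (nat_lit 70) (nat_lit 5) (nat_lit 359) (nat_lit 295) (nat_lit 126))) (XT.nd (nat_lit 78) (nat_lit 0) (nat_lit 0) (XT.lf (nat_lit 0) (nat_lit 4614896203) (nat_lit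 228) (nat_lit 22971399942) (nat_lit 304) (nat_lit 8949739162) (nat_lit 66) (nat_lit 5) (nat_lit 69) (nat_lit 5) (nat_lit 70) (nat_lit 5) (nat_lit 360) (nat_lit 295) (nat_lit 125)) (XT.lf (nat_lit 0) (nat_lit 22504985650) (nat_lit 228) (nat_lit 12377045264) (nat_lit 304) (nat_lit 2412811930) (nat_lit 66) (nat_lit 5) (nat_lit 69) (nat_lit 5) (nat_lit 70) (nat_lit 5) (nat_lit 361) (nat_lit 295) (nat_lit 124))))) (XT.nd (nat_lit 234) (nat_lit 228) (nat_lit 0) (XT.nd (nat_lit 78) (nat_lit 228) (nat_lit 0) (XT.lf (nat_lit 0) (nat_lit 2863078173) (nat_lit 228) (nat_lit 1396139177) (nat_lit 304) (nat_lit 33815254691) (nat_lit 62) (nat_lit 5) (nat_lit 65) (nat_lit 5) (nat_lit 66) (nat_lit 5) (nat_lit 362) (nat_lit 295) (nat_lit 123)) (XT.nd (nat_lit 78) (nat_lit 228) (nat_lit 0) (XT.lf (nat_lit 0) (nat_lit 11324853570) (nat_lit 304) (nat_lit 17651564136) (nat_lit 76) (nat_lit 9893099645) (nat_lit 62) (nat_lit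 5) (nat_lit 66) (nat_lit 5) (nat_lit 63) (nat_lit 5) (nat_lit 363) (nat_lit 295) (nat_lit 122)) (XT.lf (nat_lit 0) (nat_lit 423021684) (nat_lit 228) (nat_lit 18193261288) (nat_lit 304) (nat_lit 21071718410) (nat_lit 59) (nat_lit 5) (nat_lit 62) (nat_lit 5) (nat_lit 63) (nat_lit 5) (nat_lit 364) (nat_lit 295) (nat_lit 121)))) (XT.nd (nat_lit 156) (nat_lit 228) (nat_lit 0) (XT.nd (nat_lit 78) (nat_lit 0) (nat_lit 0) (XT.lf (nat_lit 0) (nat_lit 19395277955) (nat_lit 228) (nat_lit 6905414908) (nat_lit 304) (nat_lit 14225121969) (nat_lit 59) (nat_lit 5) (nat_lit 62) (nat_lit 5) (nat_lit 63) (nat_lit 5) (nat_lit 365) (nat_lit 295) (nat_lit 120)) (XT.lf (nat_lit 0) (nat_lit 34257102624) (nat_lit 304) (nat_lit 2503759170) (nat_lit 76) (nat_lit 4626658830) (nat_lit 59) (nat_lit 5) (nat_lit 63) (nat_lit 5) (nat_lit 60) (nat_lit 5) (nat_lit 366) (nat_lit 295) (nat_lit 119))) (XT.nd (nat_lit 78) (nat_lit 0)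 (nat_lit 0) (XT.lf (nat_lit 0) (nat_lit 403307277) (nat_lit 228) (nat_lit 25334374883) (nat_lit 76) (nat_lit 16530457104) (nat_lit 56) (nat_lit 5) (nat_lit 59) (nat_lit 5) (nat_lit 57) (nat_lit 5) (nat_lit 367) (nat_lit 295) (nat_lit 118)) (XT.lf (nat_lit 0) (nat_lit 8041476542) (nat_lit 228) (nat_lit 6245677926) (nat_lit 76) (nat_lit 28885253453) (nat_lit 56) (nat_lit 5) (nat_lit 59) (nat_lit 5) (nat_lit 57) (nat_lit 5) (nat_lit 368) (nat_lit 295) (nat_lit 117))))))) (XT.nd (nat_lit 1092) (nat_lit 988) (nat_lit 0) (XT.nd (nat_lit 546) (nat_lit 532) (nat_lit 0) (XT.nd (nat_lit 234) (nat_lit 304) (nat_lit 0) (XT.nd (nat_lit 78) (nat_lit 152) (nat_lit 0) (XT.lf (nat_lit 0) (nat_lit 13676588888) (nat_lit 228) (nat_lit 2359993214) (nat_lit 304) (nat_lit 28063390545) (nat_lit 53) (nat_lit 5) (nat_lit 56) (nat_lit 5) (nat_lit 57) (nat_lit 5) (nat_lit 369) (nat_lit 295) (nat_lit 116)) (XT.nd (nat_lit 78)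 (nat_lit 152) (nat_lit 0) (XT.lf (nat_lit 0) (nat_lit 24426991146) (nat_lit 304) (nat_lit 10830948252) (nat_lit 76) (nat_lit 9792763105) (nat_lit 53) (nat_lit 5) (nat_lit 57) (nat_lit 5) (nat_lit 54) (nat_lit 5) (nat_lit 370) (nat_lit 295) (nat_lit 115)) (XT.lf (nat_lit 0) (nat_lit 9505555921) (nat_lit 152) (nat_lit 23674754048) (nat_lit 228) (nat_lit 12846310006) (nat_lit 51) (nat_lit 5) (nat_lit 53) (nat_lit 5) (nat_lit 54) (nat_lit 5) (nat_lit 371) (nat_lit 295) (nat_lit 114)))) (XT.nd (nat_lit 156) (nat_lit 0) (nat_lit 0) (XT.nd (nat_lit 78) (nat_lit 304) (nat_lit 0) (XT.lf (nat_lit 0) (nat_lit 30668410392) (nat_lit 152) (nat_lit 11633695038) (nat_lit 228) (nat_lit 4726534828) (nat_lit 51) (nat_lit 5) (nat_lit 53) (nat_lit 5) (nat_lit 54) (nat_lit 5) (nat_lit 372) (nat_lit 295) (nat_lit 113)) (XT.lf (nat_lit 0) (nat_lit 3613366903) (nat_lit 304) (nat_lit 43614961812) (nat_lit 76) (nat_lit 829920125)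 (nat_lit 47) (nat_lit 5) (nat_lit 51) (nat_lit 5) (nat_lit 48) (nat_lit 5) (nat_lit 373) (nat_lit 295) (nat_lit 112))) (XT.nd (nat_lit 78) (nat_lit 0) (nat_lit 0) (XT.lf (nat_lit 0) (nat_lit 12387090857) (nat_lit 304) (nat_lit 23076825780) (nat_lit 76) (nat_lit 13645067870) (nat_lit 47) (nat_lit 5) (nat_lit 51) (nat_lit 5) (nat_lit 48) (nat_lit 5) (nat_lit 374) (nat_lit 295) (nat_lit 111)) (XT.lf (nat_lit 0) (nat_lit 21420722444) (nat_lit 304) (nat_lit 1928075970) (nat_lit 76) (nat_lit 26842544373) (nat_lit 47) (nat_lit 5) (nat_lit 51) (nat_lit 5) (nat_lit 48) (nat_lit 5) (nat_lit 375) (nat_lit 295) (nat_lit 110))))) (XT.nd (nat_lit 234) (nat_lit 228) (nat_lit 0) (XT.nd (nat_lit 78) (nat_lit 152) (nat_lit 0) (XT.lf (nat_lit 0) (nat_lit 20244816396) (nat_lit 152) (nat_lit 10671944293) (nat_lit 228) (nat_lit 20383670574) (nat_lit 45) (nat_lit 5) (nat_lit 47) (nat_lit 5) (nat_lit 48) (nat_lit 5) (nat_lit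 376) (nat_lit 295) (nat_lit 109)) (XT.nd (nat_lit 78) (nat_lit 152) (nat_lit 0) (XT.lf (nat_lit 0) (nat_lit 40737084589) (nat_lit 228) (nat_lit 9348302232) (nat_lit 76) (nat_lit 2356224776) (nat_lit 45) (nat_lit 5) (nat_lit 48) (nat_lit 5) (nat_lit 46) (nat_lit 5) (nat_lit 377) (nat_lit 295) (nat_lit 108)) (XT.lf (nat_lit 0) (nat_lit 13156053804) (nat_lit 152) (nat_lit 37924997854) (nat_lit 228) (nat_lit 2529105979) (nat_lit 43) (nat_lit 5) (nat_lit 45) (nat_lit 5) (nat_lit 46) (nat_lit 5) (nat_lit 378) (nat_lit 295) (nat_lit 107)))) (XT.nd (nat_lit 156) (nat_lit 0) (nat_lit 0) (XT.nd (nat_lit 78) (nat_lit 152) (nat_lit 0) (XT.lf (nat_lit 0) (nat_lit 6878762345) (nat_lit 228) (nat_lit 18356472054) (nat_lit 76) (nat_lit 29573763363) (nat_lit 42) (nat_lit 5) (nat_lit 45) (nat_lit 5) (nat_lit 43) (nat_lit 5) (nat_lit 379) (nat_lit 295) (nat_lit 106)) (XT.lf (nat_lit 0) (nat_lit 4461004653) (nat_lit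 152) (nat_lit 12096916692) (nat_lit 228) (nat_lit 39483935103) (nat_lit 40) (nat_lit 5) (nat_lit 42) (nat_lit 5) (nat_lit 43) (nat_lit 5) (nat_lit 380) (nat_lit 295) (nat_lit 105))) (XT.nd (nat_lit 78) (nat_lit 0) (nat_lit 0) (XT.lf (nat_lit 0) (nat_lit 26725478093) (nat_lit 228) (nat_lit 28987592767) (nat_lit 76) (nat_lit 1592690499) (nat_lit 40) (nat_lit 5) (nat_lit 43) (nat_lit 5) (nat_lit 41) (nat_lit 5) (nat_lit 381) (nat_lit 295) (nat_lit 104)) (XT.lf (nat_lit 0) (nat_lit 37314943598) (nat_lit 228) (nat_lit 5841271953) (nat_lit 76) (nat_lit 15447862526) (nat_lit 40) (nat_lit 5) (nat_lit 43) (nat_lit 5) (nat_lit 41) (nat_lit 5) (nat_lit 382) (nat_lit 295) (nat_lit 103)))))) (XT.nd (nat_lit 546) (nat_lit 456) (nat_lit 0) (XT.nd (nat_lit 234) (nat_lit 152) (nat_lit 0) (XT.nd (nat_lit 78) (nat_lit 228) (nat_lit 0) (XT.lf (nat_lit 0) (nat_lit 18352746744) (nat_lit 152) (nat_lit 30042958913) (nat_lit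 228) (nat_lit 11540431350) (nat_lit 38) (nat_lit 5) (nat_lit 40) (nat_lit 5) (nat_lit 41) (nat_lit 5) (nat_lit 383) (nat_lit 295) (nat_lit 102)) (XT.nd (nat_lit 78) (nat_lit 228) (nat_lit 0) (XT.lf (nat_lit 0) (nat_lit 43387553671) (nat_lit 152) (nat_lit 16477552889) (nat_lit 228) (nat_lit 1441365723) (nat_lit 38) (nat_lit 5) (nat_lit 40) (nat_lit 5) (nat_lit 41) (nat_lit 5) (nat_lit 384) (nat_lit 295) (nat_lit 101)) (XT.lf (nat_lit 0) (nat_lit 6491332275) (nat_lit 152) (nat_lit 2354166894) (nat_lit 228) (nat_lit 53868044912) (nat_lit 35) (nat_lit 5) (nat_lit 37) (nat_lit 5) (nat_lit 38) (nat_lit 5) (nat_lit 385) (nat_lit 295) (nat_lit 100)))) (XT.nd (nat_lit 156) (nat_lit 152) (nat_lit 0) (XT.nd (nat_lit 78) (nat_lit 0) (nat_lit 0) (XT.lf (nat_lit 0) (nat_lit 19709242547) (nat_lit 228) (nat_lit 32294162340) (nat_lit 76) (nat_lit 12150078708) (nat_lit 35) (nat_lit 5) (nat_lit 38) (nat_lit 5) (nat_lit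 36) (nat_lit 5) (nat_lit 386) (nat_lit 295) (nat_lit 99)) (XT.lf (nat_lit 0) (nat_lit 30919584735) (nat_lit 228) (nat_lit 7676148257) (nat_lit 76) (nat_lit 27040268645) (nat_lit 35) (nat_lit 5) (nat_lit 38) (nat_lit 5) (nat_lit 36) (nat_lit 5) (nat_lit 387) (nat_lit 295) (nat_lit 98))) (XT.nd (nat_lit 78) (nat_lit 0) (nat_lit 0) (XT.lf (nat_lit 0) (nat_lit 18027757501) (nat_lit 152) (nat_lit 24609227817) (nat_lit 228) (nat_lit 24520888371) (nat_lit 33) (nat_lit 5) (nat_lit 35) (nat_lit 5) (nat_lit 36) (nat_lit 5) (nat_lit 388) (nat_lit 295) (nat_lit 97)) (XT.lf (nat_lit 0) (nat_lit 44655742201) (nat_lit 152) (nat_lit 10125165992) (nat_lit 228) (nat_lit 13942244587) (nat_lit 33) (nat_lit 5) (nat_lit 35) (nat_lit 5) (nat_lit 36) (nat_lit 5) (nat_lit 389) (nat_lit 295) (nat_lit 96))))) (XT.nd (nat_lit 312) (nat_lit 152) (nat_lit 0) (XT.nd (nat_lit 156) (nat_lit 152) (nat_lit 0) (XT.nd (nat_lit 78)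 (nat_lit 76) (nat_lit 0) (XT.lf (nat_lit 0) (nat_lit 1730547774) (nat_lit 76) (nat_lit 65618855243) (nat_lit 152) (nat_lit 2984180457) (nat_lit 32) (nat_lit 5) (nat_lit 33) (nat_lit 5) (nat_lit 34) (nat_lit 4) (nat_lit 390) (nat_lit 295) (nat_lit 95)) (XT.lf (nat_lit 0) (nat_lit 8483848099) (nat_lit 152) (nat_lit 43376025881) (nat_lit 76) (nat_lit 20119762523) (nat_lit 31) (nat_lit 5) (nat_lit 33) (nat_lit 5) (nat_lit 32) (nat_lit 5) (nat_lit 391) (nat_lit 295) (nat_lit 94))) (XT.nd (nat_lit 78) (nat_lit 152) (nat_lit 0) (XT.lf (nat_lit 0) (nat_lit 20233557406) (nat_lit 152) (nat_lit 17425953702) (nat_lit 76) (nat_lit 36014745842) (nat_lit 31) (nat_lit 5) (nat_lit 33) (nat_lit 5) (nat_lit 32) (nat_lit 5) (nat_lit 392) (nat_lit 295) (nat_lit 93)) (XT.lf (nat_lit 0) (nat_lit 9483600630) (nat_lit 152) (nat_lit 22941007850) (nat_lit 228) (nat_lit 42992442780) (nat_lit 29) (nat_lit 5) (nat_lit 31) (nat_lit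 5) (nat_lit 32) (nat_lit 5) (nat_lit 393) (nat_lit 295) (nat_lit 92)))) (XT.nd (nat_lit 156) (nat_lit 152) (nat_lit 0) (XT.nd (nat_lit 78) (nat_lit 0) (nat_lit 0) (XT.lf (nat_lit 0) (nat_lit 37553617333) (nat_lit 152) (nat_lit 7601458536) (nat_lit 228) (nat_lit 32051843726) (nat_lit 29) (nat_lit 5) (nat_lit 31) (nat_lit 5) (nat_lit 32) (nat_lit 5) (nat_lit 394) (nat_lit 295) (nat_lit 91)) (XT.lf (nat_lit 0) (nat_lit 58344031069) (nat_lit 228) (nat_lit 12667528710) (nat_lit 76) (nat_lit 8036627708) (nat_lit 29) (nat_lit 5) (nat_lit 32) (nat_lit 5) (nat_lit 30) (nat_lit 4) (nat_lit 395) (nat_lit 295) (nat_lit 90))) (XT.nd (nat_lit 78) (nat_lit 76) (nat_lit 0) (XT.lf (nat_lit 0) (nat_lit 15348197998) (nat_lit 76) (nat_lit 56801087133) (nat_lit 152) (nat_lit 8788790078) (nat_lit 28) (nat_lit 5) (nat_lit 29) (nat_lit 5) (nat_lit 30) (nat_lit 4) (nat_lit 396) (nat_lit 295) (nat_lit 89)) (XT.lf (nat_lit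 0) (nat_lit 3543071384) (nat_lit 152) (nat_lit 38455373436) (nat_lit 76) (nat_lit 40881400072) (nat_lit 27) (nat_lit 5) (nat_lit 29) (nat_lit 5) (nat_lit 28) (nat_lit 5) (nat_lit 397) (nat_lit 295) (nat_lit 88))))))))
noncomputable def xc186 : XT := (XT.nd (nat_lit 34398) (nat_lit 0) (nat_lit 5396) (XT.nd (nat_lit 33306) (nat_lit 0) (nat_lit 11704) (XT.nd (nat_lit 32760) (nat_lit 0) (nat_lit 13832) (XT.nd (nat_lit 234) (nat_lit 76) (nat_lit 0) (XT.nd (nat_lit 78) (nat_lit 152) (nat_lit 0) (XT.lf (nat_lit 0) (nat_lit 16066142267) (nat_lit 152) (nat_lit 10597602382) (nat_lit 76) (nat_lit 58213576139) (nat_lit 27) (nat_lit 5) (nat_lit 29) (nat_lit 5) (nat_lit 28) (nat_lit 5) (nat_lit 398) (nat_lit 295) (nat_lit 87)) (XT.nd (nat_lit 78) (nat_lit 0) (nat_lit 0) (XT.lf (nat_lit 0) (nat_lit 18452332387) (nat_lit 152) (nat_lit 10687908727) (nat_lit 228) (nat_lit 57789220391) (nat_lit 25) (nat_lit 5) (nat_lit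 27) (nat_lit 5) (nat_lit 28) (nat_lit 5) (nat_lit 399) (nat_lit 295) (nat_lit 86)) (XT.lf (nat_lit 0) (nat_lit 42768045545) (nat_lit 228) (nat_lit 40509098703) (nat_lit 76) (nat_lit 5761178320) (nat_lit 25) (nat_lit 5) (nat_lit 28) (nat_lit 5) (nat_lit 26) (nat_lit 4) (nat_lit 400) (nat_lit 295) (nat_lit 85)))) (XT.nd (nat_lit 156) (nat_lit 0) (nat_lit 0) (XT.nd (nat_lit 78) (nat_lit 76) (nat_lit 0) (XT.lf (nat_lit 0) (nat_lit 56908534291) (nat_lit 228) (nat_lit 11811392852) (nat_lit 76) (nat_lit 22487407400) (nat_lit 25) (nat_lit 5) (nat_lit 28) (nat_lit 5) (nat_lit 26) (nat_lit 4) (nat_lit 401) (nat_lit 295) (nat_lit 84)) (XT.lf (nat_lit 0) (nat_lit 18096939283) (nat_lit 76) (nat_lit 53548343968) (nat_lit 152) (nat_lit 21790972827) (nat_lit 24) (nat_lit 5) (nat_lit 25) (nat_lit 5) (nat_lit 26) (nat_lit 4) (nat_lit 402) (nat_lit 295) (nat_lit 83))) (XT.nd (nat_lit 32292) (nat_lit 0) (nat_lit 14896)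 (XT.lf (nat_lit 0) (nat_lit 49141235737) (nat_lit 76) (nat_lit 37800280524) (nat_lit 152) (nat_lit 8787008102) (nat_lit 24) (nat_lit 5) (nat_lit 25) (nat_lit 5) (nat_lit 26) (nat_lit 4) (nat_lit 403) (nat_lit 295) (nat_lit 82)) (XT.lf (nat_lit 0) (nat_lit 5152976339) (nat_lit 1140) (nat_lit 461906306) (nat_lit 1140) (nat_lit 461906306) (nat_lit 220) (nat_lit 3) (nat_lit 235) (nat_lit 3) (nat_lit 235) (nat_lit 5) (nat_lit 296) (nat_lit 296) (nat_lit 188))))) (XT.nd (nat_lit 234) (nat_lit 1064) (nat_lit 0) (XT.nd (nat_lit 78) (nat_lit 0) (nat_lit 0) (XT.lf (nat_lit 76) (nat_lit 4766147568) (nat_lit 0) (nat_lit 6178003508) (nat_lit 1140) (nat_lit 1376745953) (nat_lit 221) (nat_lit 5) (nat_lit 220) (nat_lit 3) (nat_lit 235) (nat_lit 5) (nat_lit 297) (nat_lit 296) (nat_lit 187)) (XT.nd (nat_lit 78) (nat_lit 0) (nat_lit 76) (XT.lf (nat_lit 76) (nat_lit 10636759983) (nat_lit 0) (nat_lit 956891907) (nat_lit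 1140) (nat_lit 899837730) (nat_lit 221) (nat_lit 5) (nat_lit 220) (nat_lit 3) (nat_lit 235) (nat_lit 5) (nat_lit 298) (nat_lit 296) (nat_lit 186)) (XT.lf (nat_lit 76) (nat_lit 4039238131) (nat_lit 0) (nat_lit 8288127518) (nat_lit 1140) (nat_lit 341970550) (nat_lit 222) (nat_lit 5) (nat_lit 221) (nat_lit 5) (nat_lit 236) (nat_lit 5) (nat_lit 299) (nat_lit 296) (nat_lit 185)))) (XT.nd (nat_lit 156) (nat_lit 0) (nat_lit 76) (XT.nd (nat_lit 78) (nat_lit 0) (nat_lit 76) (XT.lf (nat_lit 0) (nat_lit 240123740) (nat_lit 1140) (nat_lit 2721214069) (nat_lit 1216) (nat_lit 9888709372) (nat_lit 206) (nat_lit 5) (nat_lit 221) (nat_lit 5) (nat_lit 222) (nat_lit 5) (nat_lit 300) (nat_lit 296) (nat_lit 184)) (XT.lf (nat_lit 0) (nat_lit 874468169) (nat_lit 1140) (nat_lit 9641304861) (nat_lit 1216) (nat_lit 2519071583) (nat_lit 207) (nat_lit 5) (nat_lit 222) (nat_lit 5) (nat_lit 223) (nat_lit 5) (nat_lit 301) (nat_lit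 296) (nat_lit 183))) (XT.nd (nat_lit 78) (nat_lit 0) (nat_lit 76) (XT.lf (nat_lit 0) (nat_lit 1569448158) (nat_lit 1140) (nat_lit 3516176759) (nat_lit 1216) (nat_lit 8138328929) (nat_lit 207) (nat_lit 5) (nat_lit 222) (nat_lit 5) (nat_lit 223) (nat_lit 5) (nat_lit 302) (nat_lit 296) (nat_lit 182)) (XT.lf (nat_lit 0) (nat_lit 2302750102) (nat_lit 1140) (nat_lit 10584945407) (nat_lit 1216) (nat_lit 530532237) (nat_lit 208) (nat_lit 5) (nat_lit 223) (nat_lit 5) (nat_lit 224) (nat_lit 5) (nat_lit 303) (nat_lit 296) (nat_lit 181)))))) (XT.nd (nat_lit 546) (nat_lit 2280) (nat_lit 0) (XT.nd (nat_lit 234) (nat_lit 0) (nat_lit 76) (XT.nd (nat_lit 78) (nat_lit 0) (nat_lit 0) (XT.lf (nat_lit 0) (nat_lit 3129644688) (nat_lit 1140) (nat_lit 4232536561) (nat_lit 1216) (nat_lit 6254015919) (nat_lit 208) (nat_lit 5) (nat_lit 223) (nat_lit 5) (nat_lit 224) (nat_lit 5) (nat_lit 304) (nat_lit 296) (nat_lit 180)) (XT.nd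 (nat_lit 78) (nat_lit 0) (nat_lit 76) (XT.lf (nat_lit 76) (nat_lit 2346652691) (nat_lit 0) (nat_lit 1643059445) (nat_lit 1216) (nat_lit 9830157231) (nat_lit 209) (nat_lit 5) (nat_lit 208) (nat_lit 5) (nat_lit 224) (nat_lit 5) (nat_lit 305) (nat_lit 296) (nat_lit 179)) (XT.lf (nat_lit 0) (nat_lit 4945748763) (nat_lit 1140) (nat_lit 4869605072) (nat_lit 1216) (nat_lit 4212207127) (nat_lit 209) (nat_lit 5) (nat_lit 224) (nat_lit 5) (nat_lit 225) (nat_lit 5) (nat_lit 306) (nat_lit 296) (nat_lit 178)))) (XT.nd (nat_lit 156) (nat_lit 0) (nat_lit 76) (XT.nd (nat_lit 78) (nat_lit 0) (nat_lit 76) (XT.lf (nat_lit 76) (nat_lit 1944111767) (nat_lit 0) (nat_lit 4007886150) (nat_lit 1216) (nat_lit 8288853274) (nat_lit 210) (nat_lit 5) (nat_lit 209) (nat_lit 5) (nat_lit 225) (nat_lit 5) (nat_lit 307) (nat_lit 296) (nat_lit 177)) (XT.lf (nat_lit 0) (nat_lit 7043976880) (nat_lit 1140) (nat_lit 5426481279) (nat_lit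 1216) (nat_lit 1988429128) (nat_lit 210) (nat_lit 5) (nat_lit 225) (nat_lit 5) (nat_lit 226) (nat_lit 5) (nat_lit 308) (nat_lit 296) (nat_lit 176))) (XT.nd (nat_lit 78) (nat_lit 0) (nat_lit 0) (XT.lf (nat_lit 76) (nat_lit 1632328672) (nat_lit 0) (nat_lit 6579049403) (nat_lit 1216) (nat_lit 6470819542) (nat_lit 211) (nat_lit 5) (nat_lit 210) (nat_lit 5) (nat_lit 226) (nat_lit 5) (nat_lit 309) (nat_lit 296) (nat_lit 175)) (XT.lf (nat_lit 76) (nat_lit 9004509320) (nat_lit 0) (nat_lit 451656305) (nat_lit 1216) (nat_lit 5454783359) (nat_lit 211) (nat_lit 5) (nat_lit 210) (nat_lit 5) (nat_lit 226) (nat_lit 5) (nat_lit 310) (nat_lit 296) (nat_lit 174))))) (XT.nd (nat_lit 234) (nat_lit 1444) (nat_lit 0) (XT.nd (nat_lit 78) (nat_lit 1064) (nat_lit 0) (XT.lf (nat_lit 76) (nat_lit 1412784165) (nat_lit 0) (nat_lit 9383374598) (nat_lit 1216) (nat_lit 4348680559) (nat_lit 212) (nat_lit 5) (nat_lit 211) (nat_lit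 5) (nat_lit 227) (nat_lit 5) (nat_lit 311) (nat_lit 296) (nat_lit 173)) (XT.nd (nat_lit 78) (nat_lit 1064) (nat_lit 0) (XT.lf (nat_lit 76) (nat_lit 9058444514) (nat_lit 0) (nat_lit 3170192385) (nat_lit 1216) (nat_lit 3155552846) (nat_lit 212) (nat_lit 5) (nat_lit 211) (nat_lit 5) (nat_lit 227) (nat_lit 5) (nat_lit 312) (nat_lit 296) (nat_lit 172)) (XT.lf (nat_lit 0) (nat_lit 1287077582) (nat_lit 1140) (nat_lit 12449003716) (nat_lit 1216) (nat_lit 1893691207) (nat_lit 197) (nat_lit 5) (nat_lit 212) (nat_lit 5) (nat_lit 213) (nat_lit 5) (nat_lit 313) (nat_lit 296) (nat_lit 171)))) (XT.nd (nat_lit 156) (nat_lit 608) (nat_lit 0) (XT.nd (nat_lit 78) (nat_lit 836) (nat_lit 0) (XT.lf (nat_lit 0) (nat_lit 9216290407) (nat_lit 1140) (nat_lit 6156233395) (nat_lit 1216) (nat_lit 507696950) (nat_lit 197) (nat_lit 5) (nat_lit 212) (nat_lit 5) (nat_lit 213) (nat_lit 5) (nat_lit 314) (nat_lit 296) (nat_lit 170))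 (XT.lf (nat_lit 0) (nat_lit 906325376) (nat_lit 836) (nat_lit 14890075090) (nat_lit 76) (nat_lit 341395356) (nat_lit 186) (nat_lit 5) (nat_lit 197) (nat_lit 5) (nat_lit 187) (nat_lit 5) (nat_lit 315) (nat_lit 296) (nat_lit 169))) (XT.nd (nat_lit 78) (nat_lit 608) (nat_lit 0) (XT.lf (nat_lit 0) (nat_lit 2470740426) (nat_lit 836) (nat_lit 6944251647) (nat_lit 76) (nat_lit 6984420275) (nat_lit 186) (nat_lit 5) (nat_lit 197) (nat_lit 5) (nat_lit 187) (nat_lit 5) (nat_lit 316) (nat_lit 296) (nat_lit 168)) (XT.lf (nat_lit 0) (nat_lit 1254868562) (nat_lit 608) (nat_lit 2828859172) (nat_lit 684) (nat_lit 12585110432) (nat_lit 178) (nat_lit 5) (nat_lit 186) (nat_lit 5) (nat_lit 187) (nat_lit 5) (nat_lit 317) (nat_lit 296) (nat_lit 167))))))) (XT.nd (nat_lit 1092) (nat_lit 2812) (nat_lit 0) (XT.nd (nat_lit 546) (nat_lit 1824) (nat_lit 0) (XT.nd (nat_lit 234) (nat_lit 1140) (nat_lit 0) (XT.nd (nat_lit 78)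 (nat_lit 532) (nat_lit 0) (XT.lf (nat_lit 0) (nat_lit 5843735669) (nat_lit 684) (nat_lit 7150435413) (nat_lit 76) (nat_lit 3949226446) (nat_lit 178) (nat_lit 5) (nat_lit 187) (nat_lit 5) (nat_lit 179) (nat_lit 5) (nat_lit 318) (nat_lit 296) (nat_lit 166)) (XT.nd (nat_lit 78) (nat_lit 0) (nat_lit 0) (XT.lf (nat_lit 0) (nat_lit 1349827278) (nat_lit 532) (nat_lit 6337794495) (nat_lit 608) (nat_lit 9537648980) (nat_lit 171) (nat_lit 5) (nat_lit 178) (nat_lit 5) (nat_lit 179) (nat_lit 5) (nat_lit 319) (nat_lit 296) (nat_lit 165)) (XT.lf (nat_lit 0) (nat_lit 9655021582) (nat_lit 608) (nat_lit 7277175087) (nat_lit 76) (nat_lit 581366736) (nat_lit 171) (nat_lit 5) (nat_lit 179) (nat_lit 5) (nat_lit 172) (nat_lit 5) (nat_lit 320) (nat_lit 296) (nat_lit 164)))) (XT.nd (nat_lit 156) (nat_lit 608) (nat_lit 0) (XT.nd (nat_lit 78) (nat_lit 0) (nat_lit 0) (XT.lf (nat_lit 0) (nat_lit 1536844384) (nat_lit 532) (nat_lit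 10212700082) (nat_lit 608) (nat_lit 6058926215) (nat_lit 164) (nat_lit 5) (nat_lit 171) (nat_lit 5) (nat_lit 172) (nat_lit 5) (nat_lit 321) (nat_lit 296) (nat_lit 163)) (XT.lf (nat_lit 0) (nat_lit 10755116005) (nat_lit 532) (nat_lit 3216034408) (nat_lit 608) (nat_lit 4139155959) (nat_lit 164) (nat_lit 5) (nat_lit 171) (nat_lit 5) (nat_lit 172) (nat_lit 5) (nat_lit 322) (nat_lit 296) (nat_lit 162))) (XT.nd (nat_lit 78) (nat_lit 76) (nat_lit 0) (XT.lf (nat_lit 0) (nat_lit 1816477535) (nat_lit 532) (nat_lit 14489777781) (nat_lit 608) (nat_lit 2113544663) (nat_lit 157) (nat_lit 5) (nat_lit 164) (nat_lit 5) (nat_lit 165) (nat_lit 5) (nat_lit 323) (nat_lit 296) (nat_lit 161)) (XT.lf (nat_lit 0) (nat_lit 71322826) (nat_lit 608) (nat_lit 7364037632) (nat_lit 76) (nat_lit 11300294925) (nat_lit 156) (nat_lit 5) (nat_lit 164) (nat_lit 5) (nat_lit 157) (nat_lit 5) (nat_lit 324) (nat_lit 296) (nat_lit 160)))))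 (XT.nd (nat_lit 234) (nat_lit 836) (nat_lit 0) (XT.nd (nat_lit 78) (nat_lit 456) (nat_lit 0) (XT.lf (nat_lit 0) (nat_lit 2164572199) (nat_lit 532) (nat_lit 126857650) (nat_lit 608) (nat_lit 16768571262) (nat_lit 149) (nat_lit 5) (nat_lit 156) (nat_lit 5) (nat_lit 157) (nat_lit 5) (nat_lit 325) (nat_lit 296) (nat_lit 159)) (XT.nd (nat_lit 78) (nat_lit 456) (nat_lit 0) (XT.lf (nat_lit 0) (nat_lit 4715905523) (nat_lit 608) (nat_lit 7343060465) (nat_lit 76) (nat_lit 7330985694) (nat_lit 149) (nat_lit 5) (nat_lit 157) (nat_lit 5) (nat_lit 150) (nat_lit 5) (nat_lit 326) (nat_lit 296) (nat_lit 158)) (XT.lf (nat_lit 0) (nat_lit 2535030635) (nat_lit 456) (nat_lit 4695480818) (nat_lit 532) (nat_lit 12498774657) (nat_lit 143) (nat_lit 5) (nat_lit 149) (nat_lit 5) (nat_lit 150) (nat_lit 5) (nat_lit 327) (nat_lit 296) (nat_lit 157)))) (XT.nd (nat_lit 156) (nat_lit 380) (nat_lit 0) (XT.nd (nat_lit 78) (nat_lit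 456) (nat_lit 0) (XT.lf (nat_lit 0) (nat_lit 9915126711) (nat_lit 532) (nat_lit 7254301945) (nat_lit 76) (nat_lit 2906541788) (nat_lit 143) (nat_lit 5) (nat_lit 150) (nat_lit 5) (nat_lit 144) (nat_lit 5) (nat_lit 328) (nat_lit 296) (nat_lit 156)) (XT.lf (nat_lit 0) (nat_lit 2986698045) (nat_lit 456) (nat_lit 9760934213) (nat_lit 532) (nat_lit 7683409299) (nat_lit 137) (nat_lit 5) (nat_lit 143) (nat_lit 5) (nat_lit 144) (nat_lit 5) (nat_lit 329) (nat_lit 296) (nat_lit 155))) (XT.nd (nat_lit 78) (nat_lit 380) (nat_lit 0) (XT.lf (nat_lit 0) (nat_lit 13674778323) (nat_lit 456) (nat_lit 2055884286) (nat_lit 532) (nat_lit 5064142311) (nat_lit 137) (nat_lit 5) (nat_lit 143) (nat_lit 5) (nat_lit 144) (nat_lit 5) (nat_lit 330) (nat_lit 296) (nat_lit 154)) (XT.lf (nat_lit 0) (nat_lit 3517312116) (nat_lit 380) (nat_lit 15368716587) (nat_lit 456) (nat_lit 2280973548) (nat_lit 132) (nat_lit 5) (nat_lit 137)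 (nat_lit 5) (nat_lit 138) (nat_lit 5) (nat_lit 331) (nat_lit 296) (nat_lit 153)))))) (XT.nd (nat_lit 546) (nat_lit 1520) (nat_lit 0) (XT.nd (nat_lit 234) (nat_lit 760) (nat_lit 0) (XT.nd (nat_lit 78) (nat_lit 456) (nat_lit 0) (XT.lf (nat_lit 0) (nat_lit 659791191) (nat_lit 456) (nat_lit 6964066675) (nat_lit 76) (nat_lit 13923778886) (nat_lit 131) (nat_lit 5) (nat_lit 137) (nat_lit 5) (nat_lit 132) (nat_lit 5) (nat_lit 332) (nat_lit 296) (nat_lit 152)) (XT.nd (nat_lit 78) (nat_lit 0) (nat_lit 0) (XT.lf (nat_lit 0) (nat_lit 3679033199) (nat_lit 532) (nat_lit 17851311566) (nat_lit 76) (nat_lit 407590887) (nat_lit 125) (nat_lit 5) (nat_lit 132) (nat_lit 5) (nat_lit 126) (nat_lit 5) (nat_lit 333) (nat_lit 296) (nat_lit 151)) (XT.lf (nat_lit 0) (nat_lit 6928251050) (nat_lit 532) (nat_lit 6811168326) (nat_lit 76) (nat_lit 8596347884) (nat_lit 125) (nat_lit 5) (nat_lit 132) (nat_lit 5) (nat_lit 126) (nat_lit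 5) (nat_lit 334) (nat_lit 296) (nat_lit 150)))) (XT.nd (nat_lit 156) (nat_lit 380) (nat_lit 0) (XT.nd (nat_lit 78) (nat_lit 0) (nat_lit 0) (XT.lf (nat_lit 0) (nat_lit 4642274863) (nat_lit 380) (nat_lit 5670397048) (nat_lit 456) (nat_lit 12431735642) (nat_lit 120) (nat_lit 5) (nat_lit 125) (nat_lit 5) (nat_lit 126) (nat_lit 5) (nat_lit 335) (nat_lit 296) (nat_lit 149)) (XT.lf (nat_lit 0) (nat_lit 13886676308) (nat_lit 456) (nat_lit 6618966648) (nat_lit 76) (nat_lit 2657027942) (nat_lit 120) (nat_lit 5) (nat_lit 126) (nat_lit 5) (nat_lit 121) (nat_lit 5) (nat_lit 336) (nat_lit 296) (nat_lit 148))) (XT.nd (nat_lit 78) (nat_lit 0) (nat_lit 0) (XT.lf (nat_lit 0) (nat_lit 5246580414) (nat_lit 380) (nat_lit 12421300671) (nat_lit 456) (nat_lit 5922606866) (nat_lit 115) (nat_lit 5) (nat_lit 120) (nat_lit 5) (nat_lit 121) (nat_lit 5) (nat_lit 337) (nat_lit 296) (nat_lit 147)) (XT.lf (nat_lit 0) (nat_lit 17595506996)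 (nat_lit 380) (nat_lit 4027370577) (nat_lit 456) (nat_lit 2406456340) (nat_lit 115) (nat_lit 5) (nat_lit 120) (nat_lit 5) (nat_lit 121) (nat_lit 5) (nat_lit 338) (nat_lit 296) (nat_lit 146))))) (XT.nd (nat_lit 312) (nat_lit 684) (nat_lit 0) (XT.nd (nat_lit 156) (nat_lit 380) (nat_lit 0) (XT.nd (nat_lit 78) (nat_lit 0) (nat_lit 0) (XT.lf (nat_lit 0) (nat_lit 1287159430) (nat_lit 456) (nat_lit 18595118212) (nat_lit 76) (nat_lit 4595851153) (nat_lit 109) (nat_lit 5) (nat_lit 115) (nat_lit 5) (nat_lit 110) (nat_lit 5) (nat_lit 339) (nat_lit 296) (nat_lit 145)) (XT.lf (nat_lit 0) (nat_lit 5142432265) (nat_lit 456) (nat_lit 6309797053) (nat_lit 76) (nat_lit 13484471571) (nat_lit 109) (nat_lit 5) (nat_lit 115) (nat_lit 5) (nat_lit 110) (nat_lit 5) (nat_lit 340) (nat_lit 296) (nat_lit 144))) (XT.nd (nat_lit 78) (nat_lit 0) (nat_lit 0) (XT.lf (nat_lit 0) (nat_lit 6462169930) (nat_lit 380) (nat_lit 2707223072)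 (nat_lit 456) (nat_lit 16237960750) (nat_lit 104) (nat_lit 5) (nat_lit 109) (nat_lit 5) (nat_lit 110) (nat_lit 5) (nat_lit 341) (nat_lit 296) (nat_lit 143)) (XT.lf (nat_lit 0) (nat_lit 13436064456) (nat_lit 456) (nat_lit 6212866441) (nat_lit 76) (nat_lit 6239632615) (nat_lit 104) (nat_lit 5) (nat_lit 110) (nat_lit 5) (nat_lit 105) (nat_lit 5) (nat_lit 342) (nat_lit 296) (nat_lit 142)))) (XT.nd (nat_lit 156) (nat_lit 380) (nat_lit 0) (XT.nd (nat_lit 78) (nat_lit 0) (nat_lit 0) (XT.lf (nat_lit 0) (nat_lit 7003413315) (nat_lit 304) (nat_lit 10915616681) (nat_lit 380) (nat_lit 8462534991) (nat_lit 100) (nat_lit 5) (nat_lit 104) (nat_lit 5) (nat_lit 105) (nat_lit 5) (nat_lit 343) (nat_lit 296) (nat_lit 141)) (XT.lf (nat_lit 0) (nat_lit 20735751465) (nat_lit 304) (nat_lit 1857734453) (nat_lit 380) (nat_lit 4294164661) (nat_lit 100) (nat_lit 5) (nat_lit 104) (nat_lit 5) (nat_lit 105) (nat_lit 5) (nat_lit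 344) (nat_lit 296) (nat_lit 140))) (XT.nd (nat_lit 78) (nat_lit 0) (nat_lit 0) (XT.lf (nat_lit 0) (nat_lit 139343263) (nat_lit 380) (nat_lit 19867416438) (nat_lit 76) (nat_lit 7397960974) (nat_lit 95) (nat_lit 5) (nat_lit 100) (nat_lit 5) (nat_lit 96) (nat_lit 5) (nat_lit 345) (nat_lit 296) (nat_lit 139)) (XT.lf (nat_lit 0) (nat_lit 4695121254) (nat_lit 380) (nat_lit 6241424110) (nat_lit 76) (nat_lit 16997218583) (nat_lit 95) (nat_lit 5) (nat_lit 100) (nat_lit 5) (nat_lit 96) (nat_lit 5) (nat_lit 346) (nat_lit 296) (nat_lit 138))))))))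
noncomputable def xc187 : XT := (XT.nd (nat_lit 2184) (nat_lit 1748) (nat_lit 0) (XT.nd (nat_lit 1092) (nat_lit 1672) (nat_lit 0) (XT.nd (nat_lit 546) (nat_lit 760) (nat_lit 0) (XT.nd (nat_lit 234) (nat_lit 608) (nat_lit 0) (XT.nd (nat_lit 78) (nat_lit 304) (nat_lit 0) (XT.lf (nat_lit 0) (nat_lit 7940775358) (nat_lit 304) (nat_lit 1517733366) (nat_lit 380) (nat_lit 19018045366) (nat_lit 91) (nat_lit 5) (nat_lit 95) (nat_lit 5) (nat_lit 96) (nat_lit 5) (nat_lit 347) (nat_lit 296) (nat_lit 137)) (XT.nd (nat_lit 78) (nat_lit 304) (nat_lit 0) (XT.lf (nat_lit 0) (nat_lit 14501783646) (nat_lit 380) (nat_lit 6444237705) (nat_lit 76) (nat_lit 8085500565) (nat_lit 91) (nat_lit 5) (nat_lit 96) (nat_lit 5) (nat_lit 92) (nat_lit 5) (nat_lit 348) (nat_lit 296) (nat_lit 136)) (XT.lf (nat_lit 0) (nat_lit 8207813452) (nat_lit 304) (nat_lit 11577293681) (nat_lit 380) (nat_lit 9815372578) (nat_lit 87) (nat_lit 5)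 (nat_lit 91) (nat_lit 5) (nat_lit 92) (nat_lit 5) (nat_lit 349) (nat_lit 296) (nat_lit 135)))) (XT.nd (nat_lit 156) (nat_lit 304) (nat_lit 0) (XT.nd (nat_lit 78) (nat_lit 304) (nat_lit 0) (XT.lf (nat_lit 0) (nat_lit 23424225943) (nat_lit 304) (nat_lit 1862683839) (nat_lit 380) (nat_lit 4897800424) (nat_lit 87) (nat_lit 5) (nat_lit 91) (nat_lit 5) (nat_lit 92) (nat_lit 5) (nat_lit 350) (nat_lit 296) (nat_lit 134)) (XT.lf (nat_lit 0) (nat_lit 319506334) (nat_lit 304) (nat_lit 22396122810) (nat_lit 76) (nat_lit 8066129218) (nat_lit 83) (nat_lit 5) (nat_lit 87) (nat_lit 5) (nat_lit 84) (nat_lit 5) (nat_lit 351) (nat_lit 296) (nat_lit 133))) (XT.nd (nat_lit 78) (nat_lit 304) (nat_lit 0) (XT.lf (nat_lit 0) (nat_lit 5677334849) (nat_lit 304) (nat_lit 7344808893) (nat_lit 76) (nat_lit 18370649188) (nat_lit 83) (nat_lit 5) (nat_lit 87) (nat_lit 5) (nat_lit 84) (nat_lit 5) (nat_lit 352) (nat_lit 296) (nat_lit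 132)) (XT.lf (nat_lit 0) (nat_lit 8313226782) (nat_lit 304) (nat_lit 2957784740) (nat_lit 380) (nat_lit 20748896588) (nat_lit 79) (nat_lit 5) (nat_lit 83) (nat_lit 5) (nat_lit 84) (nat_lit 5) (nat_lit 353) (nat_lit 296) (nat_lit 131))))) (XT.nd (nat_lit 234) (nat_lit 532) (nat_lit 0) (XT.nd (nat_lit 78) (nat_lit 228) (nat_lit 0) (XT.lf (nat_lit 0) (nat_lit 17173868761) (nat_lit 380) (nat_lit 8151088952) (nat_lit 76) (nat_lit 7336640810) (nat_lit 79) (nat_lit 5) (nat_lit 84) (nat_lit 5) (nat_lit 80) (nat_lit 5) (nat_lit 354) (nat_lit 296) (nat_lit 130)) (XT.nd (nat_lit 78) (nat_lit 0) (nat_lit 0) (XT.lf (nat_lit 0) (nat_lit 7990931904) (nat_lit 228) (nat_lit 15364369485) (nat_lit 304) (nat_lit 9964196374) (nat_lit 76) (nat_lit 5) (nat_lit 79) (nat_lit 5) (nat_lit 80) (nat_lit 5) (nat_lit 355) (nat_lit 296) (nat_lit 129)) (XT.lf (nat_lit 0) (nat_lit 24777484076) (nat_lit 228) (nat_lit 5022462585)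 (nat_lit 304) (nat_lit 4194856951) (nat_lit 76) (nat_lit 5) (nat_lit 79) (nat_lit 5) (nat_lit 80) (nat_lit 5) (nat_lit 356) (nat_lit 296) (nat_lit 128)))) (XT.nd (nat_lit 156) (nat_lit 228) (nat_lit 0) (XT.nd (nat_lit 78) (nat_lit 0) (nat_lit 0) (XT.lf (nat_lit 0) (nat_lit 1836077280) (nat_lit 304) (nat_lit 27242704179) (nat_lit 76) (nat_lit 5607407305) (nat_lit 72) (nat_lit 5) (nat_lit 76) (nat_lit 5) (nat_lit 73) (nat_lit 5) (nat_lit 357) (nat_lit 296) (nat_lit 127)) (XT.lf (nat_lit 0) (nat_lit 8102942646) (nat_lit 304) (nat_lit 10701404375) (nat_lit 76) (nat_lit 16588545479) (nat_lit 72) (nat_lit 5) (nat_lit 76) (nat_lit 5) (nat_lit 73) (nat_lit 5) (nat_lit 358) (nat_lit 296) (nat_lit 126))) (XT.nd (nat_lit 78) (nat_lit 0) (nat_lit 0) (XT.lf (nat_lit 0) (nat_lit 6455544264) (nat_lit 228) (nat_lit 8160042619) (nat_lit 304) (nat_lit 21503479694) (nat_lit 69) (nat_lit 5) (nat_lit 72) (nat_lit 5)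 (nat_lit 73) (nat_lit 5) (nat_lit 359) (nat_lit 296) (nat_lit 125)) (XT.lf (nat_lit 0) (nat_lit 21455452052) (nat_lit 304) (nat_lit 12551837879) (nat_lit 76) (nat_lit 2855783044) (nat_lit 69) (nat_lit 5) (nat_lit 73) (nat_lit 5) (nat_lit 70) (nat_lit 5) (nat_lit 360) (nat_lit 296) (nat_lit 124)))))) (XT.nd (nat_lit 546) (nat_lit 912) (nat_lit 0) (XT.nd (nat_lit 234) (nat_lit 228) (nat_lit 0) (XT.nd (nat_lit 78) (nat_lit 304) (nat_lit 0) (XT.lf (nat_lit 0) (nat_lit 5085224174) (nat_lit 228) (nat_lit 23540845963) (nat_lit 304) (nat_lit 8999564999) (nat_lit 66) (nat_lit 5) (nat_lit 69) (nat_lit 5) (nat_lit 70) (nat_lit 5) (nat_lit 361) (nat_lit 296) (nat_lit 123)) (XT.nd (nat_lit 78) (nat_lit 304) (nat_lit 0) (XT.lf (nat_lit 0) (nat_lit 23502349866) (nat_lit 228) (nat_lit 12632146935) (nat_lit 304) (nat_lit 2272898873) (nat_lit 66) (nat_lit 5) (nat_lit 69) (nat_lit 5) (nat_lit 70) (nat_lit 5) (nat_lit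 362) (nat_lit 296) (nat_lit 122)) (XT.lf (nat_lit 0) (nat_lit 3272236238) (nat_lit 228) (nat_lit 1319957030) (nat_lit 304) (nat_lit 34618251092) (nat_lit 62) (nat_lit 5) (nat_lit 65) (nat_lit 5) (nat_lit 66) (nat_lit 5) (nat_lit 363) (nat_lit 296) (nat_lit 121)))) (XT.nd (nat_lit 156) (nat_lit 0) (nat_lit 0) (XT.nd (nat_lit 78) (nat_lit 228) (nat_lit 0) (XT.lf (nat_lit 0) (nat_lit 11864923762) (nat_lit 304) (nat_lit 17862283258) (nat_lit 76) (nat_lit 10302283337) (nat_lit 62) (nat_lit 5) (nat_lit 66) (nat_lit 5) (nat_lit 63) (nat_lit 5) (nat_lit 364) (nat_lit 296) (nat_lit 120)) (XT.lf (nat_lit 0) (nat_lit 751414374) (nat_lit 228) (nat_lit 18620881697) (nat_lit 304) (nat_lit 21500319830) (nat_lit 59) (nat_lit 5) (nat_lit 62) (nat_lit 5) (nat_lit 63) (nat_lit 5) (nat_lit 365) (nat_lit 296) (nat_lit 119))) (XT.nd (nat_lit 78) (nat_lit 0) (nat_lit 0) (XT.lf (nat_lit 0) (nat_lit 20283643127) (nat_lit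 228) (nat_lit 6997841987) (nat_lit 304) (nat_lit 14454254141) (nat_lit 59) (nat_lit 5) (nat_lit 62) (nat_lit 5) (nat_lit 63) (nat_lit 5) (nat_lit 366) (nat_lit 296) (nat_lit 118)) (XT.lf (nat_lit 0) (nat_lit 35472072374) (nat_lit 304) (nat_lit 2276683645) (nat_lit 76) (nat_lit 4874678467) (nat_lit 59) (nat_lit 5) (nat_lit 63) (nat_lit 5) (nat_lit 60) (nat_lit 5) (nat_lit 367) (nat_lit 296) (nat_lit 117))))) (XT.nd (nat_lit 234) (nat_lit 456) (nat_lit 0) (XT.nd (nat_lit 78) (nat_lit 228) (nat_lit 0) (XT.lf (nat_lit 0) (nat_lit 602003468) (nat_lit 228) (nat_lit 25791378158) (nat_lit 76) (nat_lit 17137115250) (nat_lit 56) (nat_lit 5) (nat_lit 59) (nat_lit 5) (nat_lit 57) (nat_lit 5) (nat_lit 368) (nat_lit 296) (nat_lit 116)) (XT.nd (nat_lit 78) (nat_lit 228) (nat_lit 0) (XT.lf (nat_lit 0) (nat_lit 8463882948) (nat_lit 228) (nat_lit 6138846350) (nat_lit 76) (nat_lit 29859329924) (nat_lit 56) (nat_lit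 5) (nat_lit 59) (nat_lit 5) (nat_lit 57) (nat_lit 5) (nat_lit 369) (nat_lit 296) (nat_lit 115)) (XT.lf (nat_lit 0) (nat_lit 14378204137) (nat_lit 228) (nat_lit 2318161295) (nat_lit 304) (nat_lit 28721162252) (nat_lit 53) (nat_lit 5) (nat_lit 56) (nat_lit 5) (nat_lit 57) (nat_lit 5) (nat_lit 370) (nat_lit 296) (nat_lit 114)))) (XT.nd (nat_lit 156) (nat_lit 304) (nat_lit 0) (XT.nd (nat_lit 78) (nat_lit 152) (nat_lit 0) (XT.lf (nat_lit 0) (nat_lit 25334333455) (nat_lit 304) (nat_lit 10868809670) (nat_lit 76) (nat_lit 10193763343) (nat_lit 53) (nat_lit 5) (nat_lit 57) (nat_lit 5) (nat_lit 54) (nat_lit 5) (nat_lit 371) (nat_lit 296) (nat_lit 113)) (XT.lf (nat_lit 0) (nat_lit 10074975245) (nat_lit 152) (nat_lit 24272925534) (nat_lit 228) (nat_lit 13054273579) (nat_lit 51) (nat_lit 5) (nat_lit 53) (nat_lit 5) (nat_lit 54) (nat_lit 5) (nat_lit 372) (nat_lit 296) (nat_lit 112))) (XT.nd (nat_lit 78) (nat_lit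 304) (nat_lit 0) (XT.lf (nat_lit 0) (nat_lit 31864436147) (nat_lit 152) (nat_lit 11873898961) (nat_lit 228) (nat_lit 4696072885) (nat_lit 51) (nat_lit 5) (nat_lit 53) (nat_lit 5) (nat_lit 54) (nat_lit 5) (nat_lit 373) (nat_lit 296) (nat_lit 111)) (XT.lf (nat_lit 0) (nat_lit 3889462428) (nat_lit 304) (nat_lit 44642727419) (nat_lit 76) (nat_lit 962703537) (nat_lit 47) (nat_lit 5) (nat_lit 51) (nat_lit 5) (nat_lit 48) (nat_lit 5) (nat_lit 374) (nat_lit 296) (nat_lit 110))))))) (XT.nd (nat_lit 1092) (nat_lit 836) (nat_lit 0) (XT.nd (nat_lit 546) (nat_lit 380) (nat_lit 0) (XT.nd (nat_lit 234) (nat_lit 380) (nat_lit 0) (XT.nd (nat_lit 78) (nat_lit 152) (nat_lit 0) (XT.lf (nat_lit 0) (nat_lit 12921513794) (nat_lit 304) (nat_lit 23496622546) (nat_lit 76) (nat_lit 14159163410) (nat_lit 47) (nat_lit 5) (nat_lit 51) (nat_lit 5) (nat_lit 48) (nat_lit 5) (nat_lit 375) (nat_lit 296) (nat_lit 109)) (XT.nd (nat_lit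 78) (nat_lit 152) (nat_lit 0) (XT.lf (nat_lit 0) (nat_lit 22221412284) (nat_lit 304) (nat_lit 1721347368) (nat_lit 76) (nat_lit 27749513426) (nat_lit 47) (nat_lit 5) (nat_lit 51) (nat_lit 5) (nat_lit 48) (nat_lit 5) (nat_lit 376) (nat_lit 296) (nat_lit 108)) (XT.lf (nat_lit 0) (nat_lit 21114137937) (nat_lit 152) (nat_lit 10886108096) (nat_lit 228) (nat_lit 20834452724) (nat_lit 45) (nat_lit 5) (nat_lit 47) (nat_lit 5) (nat_lit 48) (nat_lit 5) (nat_lit 377) (nat_lit 296) (nat_lit 107)))) (XT.nd (nat_lit 156) (nat_lit 228) (nat_lit 0) (XT.nd (nat_lit 78) (nat_lit 152) (nat_lit 0) (XT.lf (nat_lit 0) (nat_lit 42111625677) (nat_lit 228) (nat_lit 9370786630) (nat_lit 76) (nat_lit 2527810734) (nat_lit 45) (nat_lit 5) (nat_lit 48) (nat_lit 5) (nat_lit 46) (nat_lit 5) (nat_lit 378) (nat_lit 296) (nat_lit 106)) (XT.lf (nat_lit 0) (nat_lit 13806171022) (nat_lit 152) (nat_lit 38957756473) (nat_lit 228) (nat_lit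 2449959360) (nat_lit 43) (nat_lit 5) (nat_lit 45) (nat_lit 5) (nat_lit 46) (nat_lit 5) (nat_lit 379) (nat_lit 296) (nat_lit 105))) (XT.nd (nat_lit 78) (nat_lit 152) (nat_lit 0) (XT.lf (nat_lit 0) (nat_lit 7232692986) (nat_lit 228) (nat_lit 18656174984) (nat_lit 76) (nat_lit 30559914081) (nat_lit 42) (nat_lit 5) (nat_lit 45) (nat_lit 5) (nat_lit 43) (nat_lit 5) (nat_lit 380) (nat_lit 296) (nat_lit 104)) (XT.lf (nat_lit 0) (nat_lit 4843365327) (nat_lit 152) (nat_lit 12356952366) (nat_lit 228) (nat_lit 40518367782) (nat_lit 40) (nat_lit 5) (nat_lit 42) (nat_lit 5) (nat_lit 43) (nat_lit 5) (nat_lit 381) (nat_lit 296) (nat_lit 103))))) (XT.nd (nat_lit 234) (nat_lit 228) (nat_lit 0) (XT.nd (nat_lit 78) (nat_lit 152) (nat_lit 0) (XT.lf (nat_lit 0) (nat_lit 27669618722) (nat_lit 228) (nat_lit 29612591100) (nat_lit 76) (nat_lit 1738397841) (nat_lit 40) (nat_lit 5) (nat_lit 43) (nat_lit 5) (nat_lit 41) (nat_lit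 5) (nat_lit 382) (nat_lit 296) (nat_lit 102)) (XT.nd (nat_lit 78) (nat_lit 152) (nat_lit 0) (XT.lf (nat_lit 0) (nat_lit 38572621310) (nat_lit 228) (nat_lit 5779005791) (nat_lit 76) (nat_lit 16006372798) (nat_lit 40) (nat_lit 5) (nat_lit 43) (nat_lit 5) (nat_lit 41) (nat_lit 5) (nat_lit 383) (nat_lit 296) (nat_lit 101)) (XT.lf (nat_lit 0) (nat_lit 19138504993) (nat_lit 152) (nat_lit 30845535793) (nat_lit 228) (nat_lit 11746034337) (nat_lit 38) (nat_lit 5) (nat_lit 40) (nat_lit 5) (nat_lit 41) (nat_lit 5) (nat_lit 384) (nat_lit 296) (nat_lit 100)))) (XT.nd (nat_lit 156) (nat_lit 0) (nat_lit 0) (XT.nd (nat_lit 78) (nat_lit 228) (nat_lit 0) (XT.lf (nat_lit 0) (nat_lit 44917506346) (nat_lit 152) (nat_lit 16876042691) (nat_lit 228) (nat_lit 1348092177) (nat_lit 38) (nat_lit 5) (nat_lit 40) (nat_lit 5) (nat_lit 41) (nat_lit 5) (nat_lit 385) (nat_lit 296) (nat_lit 99)) (XT.lf (nat_lit 0) (nat_lit 6914846196)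 (nat_lit 152) (nat_lit 2328169129) (nat_lit 228) (nat_lit 55347922886) (nat_lit 35) (nat_lit 5) (nat_lit 37) (nat_lit 5) (nat_lit 38) (nat_lit 5) (nat_lit 386) (nat_lit 296) (nat_lit 98))) (XT.nd (nat_lit 78) (nat_lit 0) (nat_lit 0) (XT.lf (nat_lit 0) (nat_lit 20429723686) (nat_lit 228) (nat_lit 33037882988) (nat_lit 76) (nat_lit 12606559043) (nat_lit 35) (nat_lit 5) (nat_lit 38) (nat_lit 5) (nat_lit 36) (nat_lit 5) (nat_lit 387) (nat_lit 296) (nat_lit 97)) (XT.lf (nat_lit 0) (nat_lit 31972612921) (nat_lit 228) (nat_lit 7687884916) (nat_lit 76) (nat_lit 27940775709) (nat_lit 35) (nat_lit 5) (nat_lit 38) (nat_lit 5) (nat_lit 36) (nat_lit 5) (nat_lit 388) (nat_lit 296) (nat_lit 96)))))) (XT.nd (nat_lit 546) (nat_lit 380) (nat_lit 0) (XT.nd (nat_lit 234) (nat_lit 228) (nat_lit 0) (XT.nd (nat_lit 78) (nat_lit 76) (nat_lit 0) (XT.lf (nat_lit 0) (nat_lit 18784995389) (nat_lit 152) (nat_lit 25254966740)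 (nat_lit 228) (nat_lit 25128888140) (nat_lit 33) (nat_lit 5) (nat_lit 35) (nat_lit 5) (nat_lit 36) (nat_lit 5) (nat_lit 389) (nat_lit 296) (nat_lit 95)) (XT.nd (nat_lit 78) (nat_lit 76) (nat_lit 0) (XT.lf (nat_lit 0) (nat_lit 46205516567) (nat_lit 152) (nat_lit 10339078339) (nat_lit 228) (nat_lit 14236602331) (nat_lit 33) (nat_lit 5) (nat_lit 35) (nat_lit 5) (nat_lit 36) (nat_lit 5) (nat_lit 390) (nat_lit 296) (nat_lit 94)) (XT.lf (nat_lit 0) (nat_lit 1993265669) (nat_lit 76) (nat_lit 67496241025) (nat_lit 152) (nat_lit 2950454528) (nat_lit 32) (nat_lit 5) (nat_lit 33) (nat_lit 5) (nat_lit 34) (nat_lit 4) (nat_lit 391) (nat_lit 296) (nat_lit 93)))) (XT.nd (nat_lit 156) (nat_lit 152) (nat_lit 0) (XT.nd (nat_lit 78) (nat_lit 0) (nat_lit 0) (XT.lf (nat_lit 0) (nat_lit 8855690013) (nat_lit 152) (nat_lit 44470271268) (nat_lit 76) (nat_lit 20809505774) (nat_lit 31) (nat_lit 5) (nat_lit 33) (nat_lit 5)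 (nat_lit 32) (nat_lit 5) (nat_lit 392) (nat_lit 296) (nat_lit 92)) (XT.lf (nat_lit 0) (nat_lit 20954473323) (nat_lit 152) (nat_lit 17747727081) (nat_lit 76) (nat_lit 37178829358) (nat_lit 31) (nat_lit 5) (nat_lit 33) (nat_lit 5) (nat_lit 32) (nat_lit 5) (nat_lit 393) (nat_lit 296) (nat_lit 91))) (XT.nd (nat_lit 78) (nat_lit 0) (nat_lit 0) (XT.lf (nat_lit 0) (nat_lit 9967143242) (nat_lit 152) (nat_lit 23542708186) (nat_lit 228) (nat_lit 44166299703) (nat_lit 29) (nat_lit 5) (nat_lit 31) (nat_lit 5) (nat_lit 32) (nat_lit 5) (nat_lit 394) (nat_lit 296) (nat_lit 90)) (XT.lf (nat_lit 0) (nat_lit 38873463322) (nat_lit 152) (nat_lit 7745492681) (nat_lit 228) (nat_lit 32900858883) (nat_lit 29) (nat_lit 5) (nat_lit 31) (nat_lit 5) (nat_lit 32) (nat_lit 5) (nat_lit 395) (nat_lit 296) (nat_lit 89))))) (XT.nd (nat_lit 312) (nat_lit 228) (nat_lit 0) (XT.nd (nat_lit 156) (nat_lit 76) (nat_lit 0) (XT.nd (nat_lit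 78) (nat_lit 76) (nat_lit 0) (XT.lf (nat_lit 0) (nat_lit 60201182496) (nat_lit 228) (nat_lit 12857513587) (nat_lit 76) (nat_lit 8357697686) (nat_lit 29) (nat_lit 5) (nat_lit 32) (nat_lit 5) (nat_lit 30) (nat_lit 4) (nat_lit 396) (nat_lit 296) (nat_lit 88)) (XT.lf (nat_lit 0) (nat_lit 15996821776) (nat_lit 76) (nat_lit 58422469716) (nat_lit 152) (nat_lit 8943726713) (nat_lit 28) (nat_lit 5) (nat_lit 29) (nat_lit 5) (nat_lit 30) (nat_lit 4) (nat_lit 397) (nat_lit 296) (nat_lit 87))) (XT.nd (nat_lit 78) (nat_lit 0) (nat_lit 0) (XT.lf (nat_lit 0) (nat_lit 3752863925) (nat_lit 152) (nat_lit 39424246342) (nat_lit 76) (nat_lit 42185993454) (nat_lit 27) (nat_lit 5) (nat_lit 29) (nat_lit 5) (nat_lit 28) (nat_lit 5) (nat_lit 398) (nat_lit 296) (nat_lit 86)) (XT.lf (nat_lit 0) (nat_lit 16648612359) (nat_lit 152) (nat_lit 10736124339) (nat_lit 76) (nat_lit 60035858549) (nat_lit 27) (nat_lit 5) (nat_lit 29)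 (nat_lit 5) (nat_lit 28) (nat_lit 5) (nat_lit 399) (nat_lit 296) (nat_lit 85)))) (XT.nd (nat_lit 156) (nat_lit 76) (nat_lit 0) (XT.nd (nat_lit 78) (nat_lit 0) (nat_lit 0) (XT.lf (nat_lit 0) (nat_lit 19183549590) (nat_lit 152) (nat_lit 10930165464) (nat_lit 228) (nat_lit 59420622597) (nat_lit 25) (nat_lit 5) (nat_lit 27) (nat_lit 5) (nat_lit 28) (nat_lit 5) (nat_lit 400) (nat_lit 296) (nat_lit 84)) (XT.lf (nat_lit 0) (nat_lit 44148193851) (nat_lit 228) (nat_lit 41549710024) (nat_lit 76) (nat_lit 6008626328) (nat_lit 25) (nat_lit 5) (nat_lit 28) (nat_lit 5) (nat_lit 26) (nat_lit 4) (nat_lit 401) (nat_lit 296) (nat_lit 83))) (XT.nd (nat_lit 78) (nat_lit 76) (nat_lit 0) (XT.lf (nat_lit 0) (nat_lit 58710068902) (nat_lit 228) (nat_lit 11996160230) (nat_lit 76) (nat_lit 23234469097) (nat_lit 25) (nat_lit 5) (nat_lit 28) (nat_lit 5) (nat_lit 26) (nat_lit 4) (nat_lit 402) (nat_lit 296) (nat_lit 82)) (XT.lf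 (nat_lit 0) (nat_lit 18807759375) (nat_lit 76) (nat_lit 55080029050) (nat_lit 152) (nat_lit 22348733758) (nat_lit 24) (nat_lit 5) (nat_lit 25) (nat_lit 5) (nat_lit 26) (nat_lit 4) (nat_lit 403) (nat_lit 296) (nat_lit 81))))))))
noncomputable def xc188 : XT := (XT.nd (nat_lit 2184) (nat_lit 5624) (nat_lit 0) (XT.nd (nat_lit 1092) (nat_lit 3724) (nat_lit 0) (XT.nd (nat_lit 546) (nat_lit 0) (nat_lit 152) (XT.nd (nat_lit 234) (nat_lit 1064) (nat_lit 0) (XT.nd (nat_lit 78) (nat_lit 0) (nat_lit 0) (XT.lf (nat_lit 0) (nat_lit 5741151268) (nat_lit 1140) (nat_lit 252231045) (nat_lit 1140) (nat_lit 252231045) (nat_lit 220) (nat_lit 3) (nat_lit 235) (nat_lit 3) (nat_lit 235) (nat_lit 5) (nat_lit 297) (nat_lit 297) (nat_lit 186)) (XT.nd (nat_lit 78) (nat_lit 0) (nat_lit 0) (XT.lf (nat_lit 76) (nat_lit 5351813907) (nat_lit 0) (nat_lit 6766830893) (nat_lit 1140) (nat_lit 545578156) (nat_lit 221) (nat_lit 5) (nat_lit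 220) (nat_lit 3) (nat_lit 235) (nat_lit 5) (nat_lit 298) (nat_lit 297) (nat_lit 185)) (XT.lf (nat_lit 76) (nat_lit 11385651046) (nat_lit 0) (nat_lit 1377333887) (nat_lit 1140) (nat_lit 79774439) (nat_lit 221) (nat_lit 5) (nat_lit 220) (nat_lit 3) (nat_lit 235) (nat_lit 5) (nat_lit 299) (nat_lit 297) (nat_lit 184)))) (XT.nd (nat_lit 156) (nat_lit 0) (nat_lit 76) (XT.nd (nat_lit 78) (nat_lit 0) (nat_lit 0) (XT.lf (nat_lit 0) (nat_lit 461703616) (nat_lit 1140) (nat_lit 8414126973) (nat_lit 1216) (nat_lit 4148637285) (nat_lit 206) (nat_lit 5) (nat_lit 221) (nat_lit 5) (nat_lit 222) (nat_lit 5) (nat_lit 300) (nat_lit 297) (nat_lit 183)) (XT.lf (nat_lit 0) (nat_lit 1030880863) (nat_lit 1140) (nat_lit 2345094966) (nat_lit 1216) (nat_lit 9835252391) (nat_lit 206) (nat_lit 5) (nat_lit 221) (nat_lit 5) (nat_lit 222) (nat_lit 5) (nat_lit 301) (nat_lit 297) (nat_lit 182))) (XT.nd (nat_lit 78) (nat_lit 0) (nat_lit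 0) (XT.lf (nat_lit 0) (nat_lit 1662793356) (nat_lit 1140) (nat_lit 9450536141) (nat_lit 1216) (nat_lit 2288907649) (nat_lit 207) (nat_lit 5) (nat_lit 222) (nat_lit 5) (nat_lit 223) (nat_lit 5) (nat_lit 302) (nat_lit 297) (nat_lit 181)) (XT.lf (nat_lit 0) (nat_lit 2356425914) (nat_lit 1140) (nat_lit 3155635008) (nat_lit 1216) (nat_lit 8085647650) (nat_lit 207) (nat_lit 5) (nat_lit 222) (nat_lit 5) (nat_lit 223) (nat_lit 5) (nat_lit 303) (nat_lit 297) (nat_lit 180))))) (XT.nd (nat_lit 234) (nat_lit 0) (nat_lit 76) (XT.nd (nat_lit 78) (nat_lit 0) (nat_lit 0) (XT.lf (nat_lit 0) (nat_lit 3092100432) (nat_lit 1140) (nat_lit 10416095513) (nat_lit 1216) (nat_lit 290225881) (nat_lit 208) (nat_lit 5) (nat_lit 223) (nat_lit 5) (nat_lit 224) (nat_lit 5) (nat_lit 304) (nat_lit 297) (nat_lit 179)) (XT.nd (nat_lit 78) (nat_lit 0) (nat_lit 0) (XT.lf (nat_lit 0) (nat_lit 3922823181) (nat_lit 1140) (nat_lit 3887281341)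 (nat_lit 1216) (nat_lit 6192876860) (nat_lit 208) (nat_lit 5) (nat_lit 223) (nat_lit 5) (nat_lit 224) (nat_lit 5) (nat_lit 305) (nat_lit 297) (nat_lit 178)) (XT.lf (nat_lit 76) (nat_lit 2884653869) (nat_lit 0) (nat_lit 1908166010) (nat_lit 1216) (nat_lit 9420441109) (nat_lit 209) (nat_lit 5) (nat_lit 208) (nat_lit 5) (nat_lit 224) (nat_lit 5) (nat_lit 306) (nat_lit 297) (nat_lit 177)))) (XT.nd (nat_lit 156) (nat_lit 0) (nat_lit 76) (XT.nd (nat_lit 78) (nat_lit 0) (nat_lit 0) (XT.lf (nat_lit 0) (nat_lit 5755618154) (nat_lit 1140) (nat_lit 4539110117) (nat_lit 1216) (nat_lit 4133133090) (nat_lit 209) (nat_lit 5) (nat_lit 224) (nat_lit 5) (nat_lit 225) (nat_lit 5) (nat_lit 307) (nat_lit 297) (nat_lit 176)) (XT.lf (nat_lit 76) (nat_lit 2474345844) (nat_lit 0) (nat_lit 4302978333) (nat_lit 1216) (nat_lit 7870687890) (nat_lit 210) (nat_lit 5) (nat_lit 209) (nat_lit 5) (nat_lit 225) (nat_lit 5) (nat_lit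 308) (nat_lit 297) (nat_lit 175))) (XT.nd (nat_lit 78) (nat_lit 0) (nat_lit 0) (XT.lf (nat_lit 0) (nat_lit 7881592792) (nat_lit 1140) (nat_lit 5109997850) (nat_lit 1216) (nat_lit 1881631967) (nat_lit 210) (nat_lit 5) (nat_lit 225) (nat_lit 5) (nat_lit 226) (nat_lit 5) (nat_lit 309) (nat_lit 297) (nat_lit 174)) (XT.lf (nat_lit 76) (nat_lit 2155877598) (nat_lit 0) (nat_lit 6914458720) (nat_lit 1216) (nat_lit 6033325032) (nat_lit 211) (nat_lit 5) (nat_lit 210) (nat_lit 5) (nat_lit 226) (nat_lit 5) (nat_lit 310) (nat_lit 297) (nat_lit 173)))))) (XT.nd (nat_lit 546) (nat_lit 2204) (nat_lit 0) (XT.nd (nat_lit 234) (nat_lit 1824) (nat_lit 0) (XT.nd (nat_lit 78) (nat_lit 0) (nat_lit 76) (XT.lf (nat_lit 76) (nat_lit 9735400974) (nat_lit 0) (nat_lit 599223310) (nat_lit 1216) (nat_lit 5005204436) (nat_lit 211) (nat_lit 5) (nat_lit 210) (nat_lit 5) (nat_lit 226) (nat_lit 5) (nat_lit 311) (nat_lit 297) (nat_lit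 172)) (XT.nd (nat_lit 78) (nat_lit 0) (nat_lit 0) (XT.lf (nat_lit 76) (nat_lit 1930950335) (nat_lit 0) (nat_lit 9769866154) (nat_lit 1216) (nat_lit 3880356937) (nat_lit 212) (nat_lit 5) (nat_lit 211) (nat_lit 5) (nat_lit 227) (nat_lit 5) (nat_lit 312) (nat_lit 297) (nat_lit 171)) (XT.lf (nat_lit 76) (nat_lit 9792122747) (nat_lit 0) (nat_lit 3367230504) (nat_lit 1216) (nat_lit 2668875704) (nat_lit 212) (nat_lit 5) (nat_lit 211) (nat_lit 5) (nat_lit 227) (nat_lit 5) (nat_lit 313) (nat_lit 297) (nat_lit 170)))) (XT.nd (nat_lit 156) (nat_lit 760) (nat_lit 0) (XT.nd (nat_lit 78) (nat_lit 76) (nat_lit 0) (XT.lf (nat_lit 0) (nat_lit 1801371407) (nat_lit 1140) (nat_lit 12897847794) (nat_lit 1216) (nat_lit 1382360676) (nat_lit 197) (nat_lit 5) (nat_lit 212) (nat_lit 5) (nat_lit 213) (nat_lit 5) (nat_lit 314) (nat_lit 297) (nat_lit 169)) (XT.lf (nat_lit 0) (nat_lit 28106235) (nat_lit 1216) (nat_lit 6385708951)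 (nat_lit 76) (nat_lit 9926215762) (nat_lit 196) (nat_lit 5) (nat_lit 212) (nat_lit 5) (nat_lit 197) (nat_lit 5) (nat_lit 315) (nat_lit 297) (nat_lit 168))) (XT.nd (nat_lit 78) (nat_lit 0) (nat_lit 0) (XT.lf (nat_lit 0) (nat_lit 1462508566) (nat_lit 836) (nat_lit 14851321165) (nat_lit 76) (nat_lit 291723047) (nat_lit 186) (nat_lit 5) (nat_lit 197) (nat_lit 5) (nat_lit 187) (nat_lit 5) (nat_lit 316) (nat_lit 297) (nat_lit 167)) (XT.lf (nat_lit 0) (nat_lit 3058448491) (nat_lit 836) (nat_lit 6681262519) (nat_lit 76) (nat_lit 7135783786) (nat_lit 186) (nat_lit 5) (nat_lit 197) (nat_lit 5) (nat_lit 187) (nat_lit 5) (nat_lit 317) (nat_lit 297) (nat_lit 166))))) (XT.nd (nat_lit 234) (nat_lit 1064) (nat_lit 0) (XT.nd (nat_lit 78) (nat_lit 532) (nat_lit 0) (XT.lf (nat_lit 0) (nat_lit 1759210544) (nat_lit 608) (nat_lit 2950142230) (nat_lit 684) (nat_lit 12443979134) (nat_lit 178) (nat_lit 5) (nat_lit 186)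 (nat_lit 5) (nat_lit 187) (nat_lit 5) (nat_lit 318) (nat_lit 297) (nat_lit 165)) (XT.nd (nat_lit 78) (nat_lit 532) (nat_lit 0) (XT.lf (nat_lit 0) (nat_lit 6507167296) (nat_lit 684) (nat_lit 6896387900) (nat_lit 76) (nat_lit 4033036588) (nat_lit 178) (nat_lit 5) (nat_lit 187) (nat_lit 5) (nat_lit 179) (nat_lit 5) (nat_lit 319) (nat_lit 297) (nat_lit 164)) (XT.lf (nat_lit 0) (nat_lit 1854288941) (nat_lit 532) (nat_lit 6542323901) (nat_lit 608) (nat_lit 9330614596) (nat_lit 171) (nat_lit 5) (nat_lit 178) (nat_lit 5) (nat_lit 179) (nat_lit 5) (nat_lit 320) (nat_lit 297) (nat_lit 163)))) (XT.nd (nat_lit 156) (nat_lit 532) (nat_lit 0) (XT.nd (nat_lit 78) (nat_lit 532) (nat_lit 0) (XT.lf (nat_lit 0) (nat_lit 10408967410) (nat_lit 608) (nat_lit 7030532415) (nat_lit 76) (nat_lit 585104183) (nat_lit 171) (nat_lit 5) (nat_lit 179) (nat_lit 5) (nat_lit 172) (nat_lit 5) (nat_lit 321) (nat_lit 297) (nat_lit 162))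 (XT.lf (nat_lit 0) (nat_lit 2043349228) (nat_lit 532) (nat_lit 10513879233) (nat_lit 608) (nat_lit 5771415708) (nat_lit 164) (nat_lit 5) (nat_lit 171) (nat_lit 5) (nat_lit 172) (nat_lit 5) (nat_lit 322) (nat_lit 297) (nat_lit 161))) (XT.nd (nat_lit 78) (nat_lit 532) (nat_lit 0) (XT.lf (nat_lit 0) (nat_lit 11524759304) (nat_lit 532) (nat_lit 3307465099) (nat_lit 608) (nat_lit 3807720644) (nat_lit 164) (nat_lit 5) (nat_lit 171) (nat_lit 5) (nat_lit 172) (nat_lit 5) (nat_lit 323) (nat_lit 297) (nat_lit 160)) (XT.lf (nat_lit 0) (nat_lit 2327067847) (nat_lit 532) (nat_lit 14901873990) (nat_lit 608) (nat_lit 1730046854) (nat_lit 157) (nat_lit 5) (nat_lit 164) (nat_lit 5) (nat_lit 165) (nat_lit 5) (nat_lit 324) (nat_lit 297) (nat_lit 159))))))) (XT.nd (nat_lit 1092) (nat_lit 2432) (nat_lit 0) (XT.nd (nat_lit 546) (nat_lit 1672) (nat_lit 0) (XT.nd (nat_lit 234) (nat_lit 912) (nat_lit 0) (XT.nd (nat_lit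 78) (nat_lit 532) (nat_lit 0) (XT.lf (nat_lit 0) (nat_lit 498883325) (nat_lit 608) (nat_lit 7133303074) (nat_lit 76) (nat_lit 11652398679) (nat_lit 156) (nat_lit 5) (nat_lit 164) (nat_lit 5) (nat_lit 157) (nat_lit 5) (nat_lit 325) (nat_lit 297) (nat_lit 158)) (XT.nd (nat_lit 78) (nat_lit 0) (nat_lit 0) (XT.lf (nat_lit 0) (nat_lit 2676737055) (nat_lit 532) (nat_lit 100764633) (nat_lit 608) (nat_lit 16841413237) (nat_lit 149) (nat_lit 5) (nat_lit 156) (nat_lit 5) (nat_lit 157) (nat_lit 5) (nat_lit 326) (nat_lit 297) (nat_lit 157)) (XT.lf (nat_lit 0) (nat_lit 5262835454) (nat_lit 608) (nat_lit 7116918779) (nat_lit 76) (nat_lit 7579376736) (nat_lit 149) (nat_lit 5) (nat_lit 157) (nat_lit 5) (nat_lit 150) (nat_lit 5) (nat_lit 327) (nat_lit 297) (nat_lit 156)))) (XT.nd (nat_lit 156) (nat_lit 456) (nat_lit 0) (XT.nd (nat_lit 78) (nat_lit 0) (nat_lit 0) (XT.lf (nat_lit 0) (nat_lit 3053138256) (nat_lit 456)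 (nat_lit 4792181322) (nat_lit 532) (nat_lit 12463563011) (nat_lit 143) (nat_lit 5) (nat_lit 149) (nat_lit 5) (nat_lit 150) (nat_lit 5) (nat_lit 328) (nat_lit 297) (nat_lit 155)) (XT.lf (nat_lit 0) (nat_lit 10599296349) (nat_lit 532) (nat_lit 7031237532) (nat_lit 76) (nat_lit 3035778938) (nat_lit 143) (nat_lit 5) (nat_lit 150) (nat_lit 5) (nat_lit 144) (nat_lit 5) (nat_lit 329) (nat_lit 297) (nat_lit 154))) (XT.nd (nat_lit 78) (nat_lit 0) (nat_lit 0) (XT.lf (nat_lit 0) (nat_lit 3512671934) (nat_lit 456) (nat_lit 9997036244) (nat_lit 532) (nat_lit 7522549718) (nat_lit 137) (nat_lit 5) (nat_lit 143) (nat_lit 5) (nat_lit 144) (nat_lit 5) (nat_lit 330) (nat_lit 297) (nat_lit 153)) (XT.lf (nat_lit 0) (nat_lit 14508684728) (nat_lit 456) (nat_lit 2062487033) (nat_lit 532) (nat_lit 4836103610) (nat_lit 137) (nat_lit 5) (nat_lit 143) (nat_lit 5) (nat_lit 144) (nat_lit 5) (nat_lit 331) (nat_lit 297) (nat_lit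 152))))) (XT.nd (nat_lit 234) (nat_lit 760) (nat_lit 0) (XT.nd (nat_lit 78) (nat_lit 532) (nat_lit 0) (XT.lf (nat_lit 0) (nat_lit 4053078952) (nat_lit 380) (nat_lit 15762034061) (nat_lit 456) (nat_lit 1975717388) (nat_lit 132) (nat_lit 5) (nat_lit 137) (nat_lit 5) (nat_lit 138) (nat_lit 5) (nat_lit 332) (nat_lit 297) (nat_lit 151)) (XT.nd (nat_lit 78) (nat_lit 456) (nat_lit 0) (XT.lf (nat_lit 0) (nat_lit 1035306693) (nat_lit 456) (nat_lit 6747903920) (nat_lit 76) (nat_lit 14399894388) (nat_lit 131) (nat_lit 5) (nat_lit 137) (nat_lit 5) (nat_lit 132) (nat_lit 5) (nat_lit 333) (nat_lit 297) (nat_lit 150)) (XT.lf (nat_lit 0) (nat_lit 4139498647) (nat_lit 532) (nat_lit 17955858066) (nat_lit 76) (nat_lit 489933397) (nat_lit 125) (nat_lit 5) (nat_lit 132) (nat_lit 5) (nat_lit 126) (nat_lit 5) (nat_lit 334) (nat_lit 297) (nat_lit 149)))) (XT.nd (nat_lit 156) (nat_lit 380) (nat_lit 0) (XT.nd (nat_lit 78)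 (nat_lit 380) (nat_lit 0) (XT.lf (nat_lit 0) (nat_lit 7475996107) (nat_lit 532) (nat_lit 6597063718) (nat_lit 76) (nat_lit 8922310926) (nat_lit 125) (nat_lit 5) (nat_lit 132) (nat_lit 5) (nat_lit 126) (nat_lit 5) (nat_lit 335) (nat_lit 297) (nat_lit 148)) (XT.lf (nat_lit 0) (nat_lit 5195880416) (nat_lit 380) (nat_lit 5760152114) (nat_lit 456) (nat_lit 12460423175) (nat_lit 120) (nat_lit 5) (nat_lit 125) (nat_lit 5) (nat_lit 126) (nat_lit 5) (nat_lit 336) (nat_lit 297) (nat_lit 147))) (XT.nd (nat_lit 78) (nat_lit 380) (nat_lit 0) (XT.lf (nat_lit 0) (nat_lit 14628279413) (nat_lit 456) (nat_lit 6406031820) (nat_lit 76) (nat_lit 2813232755) (nat_lit 120) (nat_lit 5) (nat_lit 126) (nat_lit 5) (nat_lit 121) (nat_lit 5) (nat_lit 337) (nat_lit 297) (nat_lit 146)) (XT.lf (nat_lit 0) (nat_lit 5811447303) (nat_lit 380) (nat_lit 12705923775) (nat_lit 456) (nat_lit 5770998437) (nat_lit 115) (nat_lit 5) (nat_lit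 120) (nat_lit 5) (nat_lit 121) (nat_lit 5) (nat_lit 338) (nat_lit 297) (nat_lit 145)))))) (XT.nd (nat_lit 546) (nat_lit 1292) (nat_lit 0) (XT.nd (nat_lit 234) (nat_lit 684) (nat_lit 0) (XT.nd (nat_lit 78) (nat_lit 456) (nat_lit 0) (XT.lf (nat_lit 0) (nat_lit 18518973639) (nat_lit 380) (nat_lit 4062739349) (nat_lit 456) (nat_lit 2158954268) (nat_lit 115) (nat_lit 5) (nat_lit 120) (nat_lit 5) (nat_lit 121) (nat_lit 5) (nat_lit 339) (nat_lit 297) (nat_lit 144)) (XT.nd (nat_lit 78) (nat_lit 0) (nat_lit 0) (XT.lf (nat_lit 0) (nat_lit 1634793761) (nat_lit 456) (nat_lit 18746230664) (nat_lit 76) (nat_lit 4821949349) (nat_lit 109) (nat_lit 5) (nat_lit 115) (nat_lit 5) (nat_lit 110) (nat_lit 5) (nat_lit 340) (nat_lit 297) (nat_lit 143)) (XT.lf (nat_lit 0) (nat_lit 5596724211) (nat_lit 456) (nat_lit 6104196700) (nat_lit 76) (nat_lit 13974658787) (nat_lit 109) (nat_lit 5) (nat_lit 115) (nat_lit 5) (nat_lit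 110) (nat_lit 5) (nat_lit 341) (nat_lit 297) (nat_lit 142)))) (XT.nd (nat_lit 156) (nat_lit 304) (nat_lit 0) (XT.nd (nat_lit 78) (nat_lit 0) (nat_lit 0) (XT.lf (nat_lit 0) (nat_lit 7047057781) (nat_lit 380) (nat_lit 2692456323) (nat_lit 456) (nat_lit 16420993889) (nat_lit 104) (nat_lit 5) (nat_lit 109) (nat_lit 5) (nat_lit 110) (nat_lit 5) (nat_lit 342) (nat_lit 297) (nat_lit 141)) (XT.lf (nat_lit 0) (nat_lit 14126488102) (nat_lit 456) (nat_lit 6011712168) (nat_lit 76) (nat_lit 6518190972) (nat_lit 104) (nat_lit 5) (nat_lit 110) (nat_lit 5) (nat_lit 105) (nat_lit 5) (nat_lit 343) (nat_lit 297) (nat_lit 140))) (XT.nd (nat_lit 78) (nat_lit 0) (nat_lit 0) (XT.lf (nat_lit 0) (nat_lit 7597256566) (nat_lit 304) (nat_lit 11142005617) (nat_lit 380) (nat_lit 8425067074) (nat_lit 100) (nat_lit 5) (nat_lit 104) (nat_lit 5) (nat_lit 105) (nat_lit 5) (nat_lit 344) (nat_lit 297) (nat_lit 139)) (XT.lf (nat_lit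 0) (nat_lit 21730387943) (nat_lit 304) (nat_lit 1815330988) (nat_lit 380) (nat_lit 4140131381) (nat_lit 100) (nat_lit 5) (nat_lit 104) (nat_lit 5) (nat_lit 105) (nat_lit 5) (nat_lit 345) (nat_lit 297) (nat_lit 138))))) (XT.nd (nat_lit 312) (nat_lit 608) (nat_lit 0) (XT.nd (nat_lit 156) (nat_lit 304) (nat_lit 0) (XT.nd (nat_lit 78) (nat_lit 0) (nat_lit 0) (XT.lf (nat_lit 0) (nat_lit 417362581) (nat_lit 380) (nat_lit 20081478974) (nat_lit 76) (nat_lit 7719619942) (nat_lit 95) (nat_lit 5) (nat_lit 100) (nat_lit 5) (nat_lit 96) (nat_lit 5) (nat_lit 346) (nat_lit 297) (nat_lit 137)) (XT.lf (nat_lit 0) (nat_lit 5101838018) (nat_lit 380) (nat_lit 6057831924) (nat_lit 76) (nat_lit 17603950809) (nat_lit 95) (nat_lit 5) (nat_lit 100) (nat_lit 5) (nat_lit 96) (nat_lit 5) (nat_lit 347) (nat_lit 297) (nat_lit 136))) (XT.nd (nat_lit 78) (nat_lit 0) (nat_lit 0) (XT.lf (nat_lit 0) (nat_lit 8546197892) (nat_lit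 304) (nat_lit 1457715378) (nat_lit 380) (nat_lit 19318912993) (nat_lit 91) (nat_lit 5) (nat_lit 95) (nat_lit 5) (nat_lit 96) (nat_lit 5) (nat_lit 348) (nat_lit 297) (nat_lit 135)) (XT.lf (nat_lit 0) (nat_lit 15191850645) (nat_lit 380) (nat_lit 6274255018) (nat_lit 76) (nat_lit 8428541629) (nat_lit 91) (nat_lit 5) (nat_lit 96) (nat_lit 5) (nat_lit 92) (nat_lit 5) (nat_lit 349) (nat_lit 297) (nat_lit 134)))) (XT.nd (nat_lit 156) (nat_lit 304) (nat_lit 0) (XT.nd (nat_lit 78) (nat_lit 0) (nat_lit 0) (XT.lf (nat_lit 0) (nat_lit 8813795812) (nat_lit 304) (nat_lit 11815908565) (nat_lit 380) (nat_lit 9851093477) (nat_lit 87) (nat_lit 5) (nat_lit 91) (nat_lit 5) (nat_lit 92) (nat_lit 5) (nat_lit 350) (nat_lit 297) (nat_lit 133)) (XT.lf (nat_lit 0) (nat_lit 24476222582) (nat_lit 304) (nat_lit 1813026561) (nat_lit 380) (nat_lit 4793530283) (nat_lit 87) (nat_lit 5) (nat_lit 91) (nat_lit 5) (nat_lit 92) (nat_lit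 5) (nat_lit 351) (nat_lit 297) (nat_lit 132))) (XT.nd (nat_lit 78) (nat_lit 0) (nat_lit 0) (XT.lf (nat_lit 0) (nat_lit 572634096) (nat_lit 304) (nat_lit 22710768659) (nat_lit 76) (nat_lit 8414351150) (nat_lit 83) (nat_lit 5) (nat_lit 87) (nat_lit 5) (nat_lit 84) (nat_lit 5) (nat_lit 352) (nat_lit 297) (nat_lit 131)) (XT.lf (nat_lit 0) (nat_lit 6084103993) (nat_lit 304) (nat_lit 7218320310) (nat_lit 76) (nat_lit 19024912407) (nat_lit 83) (nat_lit 5) (nat_lit 87) (nat_lit 5) (nat_lit 84) (nat_lit 5) (nat_lit 353) (nat_lit 297) (nat_lit 130))))))))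
noncomputable def xc189 : XT := (XT.nd (nat_lit 2184) (nat_lit 1292) (nat_lit 0) (XT.nd (nat_lit 1092) (nat_lit 1292) (nat_lit 0) (XT.nd (nat_lit 546) (nat_lit 760) (nat_lit 0) (XT.nd (nat_lit 234) (nat_lit 532) (nat_lit 0) (XT.nd (nat_lit 78) (nat_lit 228) (nat_lit 0) (XT.lf (nat_lit 0) (nat_lit 8906056113) (nat_lit 304) (nat_lit 2935949269) (nat_lit 380) (nat_lit 21131371798) (nat_lit 79) (nat_lit 5) (nat_lit 83) (nat_lit 5) (nat_lit 84) (nat_lit 5) (nat_lit 354) (nat_lit 297) (nat_lit 129)) (XT.nd (nat_lit 78) (nat_lit 228) (nat_lit 0) (XT.lf (nat_lit 0) (nat_lit 17916197806) (nat_lit 380) (nat_lit 8056303326) (nat_lit 76) (nat_lit 7661993834) (nat_lit 79) (nat_lit 5) (nat_lit 84) (nat_lit 5) (nat_lit 80) (nat_lit 5) (nat_lit 355) (nat_lit 297) (nat_lit 128)) (XT.lf (nat_lit 0) (nat_lit 8566651507) (nat_lit 228) (nat_lit 15713036723) (nat_lit 304) (nat_lit 10032548532) (nat_lit 76) (nat_lit 5)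 (nat_lit 79) (nat_lit 5) (nat_lit 80) (nat_lit 5) (nat_lit 356) (nat_lit 297) (nat_lit 127)))) (XT.nd (nat_lit 156) (nat_lit 228) (nat_lit 0) (XT.nd (nat_lit 78) (nat_lit 304) (nat_lit 0) (XT.lf (nat_lit 0) (nat_lit 25847014079) (nat_lit 228) (nat_lit 5064142437) (nat_lit 304) (nat_lit 4096844666) (nat_lit 76) (nat_lit 5) (nat_lit 79) (nat_lit 5) (nat_lit 80) (nat_lit 5) (nat_lit 357) (nat_lit 297) (nat_lit 126)) (XT.lf (nat_lit 0) (nat_lit 2108473191) (nat_lit 304) (nat_lit 27726986298) (nat_lit 76) (nat_lit 5884672811) (nat_lit 72) (nat_lit 5) (nat_lit 76) (nat_lit 5) (nat_lit 73) (nat_lit 5) (nat_lit 358) (nat_lit 297) (nat_lit 125))) (XT.nd (nat_lit 78) (nat_lit 228) (nat_lit 0) (XT.lf (nat_lit 0) (nat_lit 8557014995) (nat_lit 304) (nat_lit 10699146499) (nat_lit 76) (nat_lit 17192069111) (nat_lit 72) (nat_lit 5) (nat_lit 76) (nat_lit 5) (nat_lit 73) (nat_lit 5) (nat_lit 359) (nat_lit 297) (nat_lit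 124)) (XT.lf (nat_lit 0) (nat_lit 6969340991) (nat_lit 228) (nat_lit 8292629690) (nat_lit 304) (nat_lit 21934314730) (nat_lit 69) (nat_lit 5) (nat_lit 72) (nat_lit 5) (nat_lit 73) (nat_lit 5) (nat_lit 360) (nat_lit 297) (nat_lit 123))))) (XT.nd (nat_lit 234) (nat_lit 532) (nat_lit 0) (XT.nd (nat_lit 78) (nat_lit 228) (nat_lit 0) (XT.lf (nat_lit 0) (nat_lit 22302023248) (nat_lit 304) (nat_lit 12612465937) (nat_lit 76) (nat_lit 3048276442) (nat_lit 69) (nat_lit 5) (nat_lit 73) (nat_lit 5) (nat_lit 70) (nat_lit 5) (nat_lit 361) (nat_lit 297) (nat_lit 122)) (XT.nd (nat_lit 78) (nat_lit 0) (nat_lit 0) (XT.lf (nat_lit 0) (nat_lit 5550610653) (nat_lit 228) (nat_lit 24134246403) (nat_lit 304) (nat_lit 9063437954) (nat_lit 66) (nat_lit 5) (nat_lit 69) (nat_lit 5) (nat_lit 70) (nat_lit 5) (nat_lit 362) (nat_lit 297) (nat_lit 121)) (XT.lf (nat_lit 0) (nat_lit 24511138569) (nat_lit 228) (nat_lit 12901572567)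 (nat_lit 304) (nat_lit 2140975164) (nat_lit 66) (nat_lit 5) (nat_lit 69) (nat_lit 5) (nat_lit 70) (nat_lit 5) (nat_lit 363) (nat_lit 297) (nat_lit 120)))) (XT.nd (nat_lit 156) (nat_lit 228) (nat_lit 0) (XT.nd (nat_lit 78) (nat_lit 0) (nat_lit 0) (XT.lf (nat_lit 0) (nat_lit 3675112269) (nat_lit 228) (nat_lit 1248266909) (nat_lit 304) (nat_lit 35457476126) (nat_lit 62) (nat_lit 5) (nat_lit 65) (nat_lit 5) (nat_lit 66) (nat_lit 5) (nat_lit 364) (nat_lit 297) (nat_lit 119)) (XT.lf (nat_lit 0) (nat_lit 12409696609) (nat_lit 304) (nat_lit 18097625974) (nat_lit 76) (nat_lit 10717290853) (nat_lit 62) (nat_lit 5) (nat_lit 66) (nat_lit 5) (nat_lit 63) (nat_lit 5) (nat_lit 365) (nat_lit 297) (nat_lit 118))) (XT.nd (nat_lit 78) (nat_lit 0) (nat_lit 0) (XT.lf (nat_lit 0) (nat_lit 1071536256) (nat_lit 228) (nat_lit 19068114586) (nat_lit 304) (nat_lit 21953463904) (nat_lit 59) (nat_lit 5) (nat_lit 62) (nat_lit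 5) (nat_lit 63) (nat_lit 5) (nat_lit 366) (nat_lit 297) (nat_lit 117)) (XT.lf (nat_lit 0) (nat_lit 21181064509) (nat_lit 228) (nat_lit 7099628157) (nat_lit 304) (nat_lit 14701604560) (nat_lit 59) (nat_lit 5) (nat_lit 62) (nat_lit 5) (nat_lit 63) (nat_lit 5) (nat_lit 367) (nat_lit 297) (nat_lit 116)))))) (XT.nd (nat_lit 546) (nat_lit 684) (nat_lit 0) (XT.nd (nat_lit 234) (nat_lit 380) (nat_lit 0) (XT.nd (nat_lit 78) (nat_lit 228) (nat_lit 0) (XT.lf (nat_lit 0) (nat_lit 36712741918) (nat_lit 304) (nat_lit 2060142699) (nat_lit 76) (nat_lit 5123869025) (nat_lit 59) (nat_lit 5) (nat_lit 63) (nat_lit 5) (nat_lit 60) (nat_lit 5) (nat_lit 368) (nat_lit 297) (nat_lit 115)) (XT.nd (nat_lit 78) (nat_lit 0) (nat_lit 0) (XT.lf (nat_lit 0) (nat_lit 795949116) (nat_lit 228) (nat_lit 26279486576) (nat_lit 76) (nat_lit 17755615958) (nat_lit 56) (nat_lit 5) (nat_lit 59) (nat_lit 5) (nat_lit 57) (nat_lit 5) (nat_lit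 369) (nat_lit 297) (nat_lit 114)) (XT.lf (nat_lit 0) (nat_lit 8888562099) (nat_lit 228) (nat_lit 6045698219) (nat_lit 76) (nat_lit 30856456666) (nat_lit 56) (nat_lit 5) (nat_lit 59) (nat_lit 5) (nat_lit 57) (nat_lit 5) (nat_lit 370) (nat_lit 297) (nat_lit 113)))) (XT.nd (nat_lit 156) (nat_lit 152) (nat_lit 0) (XT.nd (nat_lit 78) (nat_lit 0) (nat_lit 0) (XT.lf (nat_lit 0) (nat_lit 15084145022) (nat_lit 228) (nat_lit 2281539939) (nat_lit 304) (nat_lit 29409236926) (nat_lit 53) (nat_lit 5) (nat_lit 56) (nat_lit 5) (nat_lit 57) (nat_lit 5) (nat_lit 371) (nat_lit 297) (nat_lit 112)) (XT.lf (nat_lit 0) (nat_lit 26258877148) (nat_lit 304) (nat_lit 10924285753) (nat_lit 76) (nat_lit 10600638874) (nat_lit 53) (nat_lit 5) (nat_lit 57) (nat_lit 5) (nat_lit 54) (nat_lit 5) (nat_lit 372) (nat_lit 297) (nat_lit 111))) (XT.nd (nat_lit 78) (nat_lit 0) (nat_lit 0) (XT.lf (nat_lit 0) (nat_lit 10645159885) (nat_lit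 152) (nat_lit 24895475506) (nat_lit 228) (nat_lit 13278661023) (nat_lit 51) (nat_lit 5) (nat_lit 53) (nat_lit 5) (nat_lit 54) (nat_lit 5) (nat_lit 373) (nat_lit 297) (nat_lit 110)) (XT.lf (nat_lit 0) (nat_lit 33080500671) (nat_lit 152) (nat_lit 12127554965) (nat_lit 228) (nat_lit 4674585398) (nat_lit 51) (nat_lit 5) (nat_lit 53) (nat_lit 5) (nat_lit 54) (nat_lit 5) (nat_lit 374) (nat_lit 297) (nat_lit 109))))) (XT.nd (nat_lit 234) (nat_lit 380) (nat_lit 0) (XT.nd (nat_lit 78) (nat_lit 0) (nat_lit 0) (XT.lf (nat_lit 0) (nat_lit 4164214467) (nat_lit 304) (nat_lit 45717438361) (nat_lit 76) (nat_lit 1093277365) (nat_lit 47) (nat_lit 5) (nat_lit 51) (nat_lit 5) (nat_lit 48) (nat_lit 5) (nat_lit 375) (nat_lit 297) (nat_lit 108)) (XT.nd (nat_lit 78) (nat_lit 0) (nat_lit 0) (XT.lf (nat_lit 0) (nat_lit 13462623447) (nat_lit 304) (nat_lit 23944656290) (nat_lit 76) (nat_lit 14682669110) (nat_lit 47) (nat_lit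 5) (nat_lit 51) (nat_lit 5) (nat_lit 48) (nat_lit 5) (nat_lit 376) (nat_lit 297) (nat_lit 107)) (XT.lf (nat_lit 0) (nat_lit 23037049059) (nat_lit 304) (nat_lit 1523604359) (nat_lit 76) (nat_lit 28677853973) (nat_lit 47) (nat_lit 5) (nat_lit 51) (nat_lit 5) (nat_lit 48) (nat_lit 5) (nat_lit 377) (nat_lit 297) (nat_lit 106)))) (XT.nd (nat_lit 156) (nat_lit 228) (nat_lit 0) (XT.nd (nat_lit 78) (nat_lit 0) (nat_lit 0) (XT.lf (nat_lit 0) (nat_lit 21994500570) (nat_lit 152) (nat_lit 11112781332) (nat_lit 228) (nat_lit 21307984781) (nat_lit 45) (nat_lit 5) (nat_lit 47) (nat_lit 5) (nat_lit 48) (nat_lit 5) (nat_lit 378) (nat_lit 297) (nat_lit 105)) (XT.lf (nat_lit 0) (nat_lit 43518652976) (nat_lit 228) (nat_lit 9408753787) (nat_lit 76) (nat_lit 2698752243) (nat_lit 45) (nat_lit 5) (nat_lit 48) (nat_lit 5) (nat_lit 46) (nat_lit 5) (nat_lit 379) (nat_lit 297) (nat_lit 104))) (XT.nd (nat_lit 78) (nat_lit 76)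 (nat_lit 0) (XT.lf (nat_lit 0) (nat_lit 14461128708) (nat_lit 152) (nat_lit 40027524782) (nat_lit 228) (nat_lit 2377337114) (nat_lit 43) (nat_lit 5) (nat_lit 45) (nat_lit 5) (nat_lit 46) (nat_lit 5) (nat_lit 380) (nat_lit 297) (nat_lit 103)) (XT.lf (nat_lit 0) (nat_lit 7588770552) (nat_lit 228) (nat_lit 18979276925) (nat_lit 76) (nat_lit 31569969884) (nat_lit 42) (nat_lit 5) (nat_lit 45) (nat_lit 5) (nat_lit 43) (nat_lit 5) (nat_lit 381) (nat_lit 297) (nat_lit 102))))))) (XT.nd (nat_lit 1092) (nat_lit 304) (nat_lit 0) (XT.nd (nat_lit 546) (nat_lit 456) (nat_lit 0) (XT.nd (nat_lit 234) (nat_lit 380) (nat_lit 0) (XT.nd (nat_lit 78) (nat_lit 0) (nat_lit 0) (XT.lf (nat_lit 0) (nat_lit 5222930151) (nat_lit 152) (nat_lit 12630694374) (nat_lit 228) (nat_lit 41592448956) (nat_lit 40) (nat_lit 5) (nat_lit 42) (nat_lit 5) (nat_lit 43) (nat_lit 5) (nat_lit 382) (nat_lit 297) (nat_lit 101)) (XT.nd (nat_lit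 78) (nat_lit 0) (nat_lit 0) (XT.lf (nat_lit 0) (nat_lit 28633910588) (nat_lit 228) (nat_lit 30270382115) (nat_lit 76) (nat_lit 1882855016) (nat_lit 40) (nat_lit 5) (nat_lit 43) (nat_lit 5) (nat_lit 41) (nat_lit 5) (nat_lit 383) (nat_lit 297) (nat_lit 100)) (XT.lf (nat_lit 0) (nat_lit 39860094419) (nat_lit 228) (nat_lit 5728505364) (nat_lit 76) (nat_lit 16576180718) (nat_lit 40) (nat_lit 5) (nat_lit 43) (nat_lit 5) (nat_lit 41) (nat_lit 5) (nat_lit 384) (nat_lit 297) (nat_lit 99)))) (XT.nd (nat_lit 156) (nat_lit 228) (nat_lit 0) (XT.nd (nat_lit 78) (nat_lit 0) (nat_lit 0) (XT.lf (nat_lit 0) (nat_lit 19934335934) (nat_lit 152) (nat_lit 31677856445) (nat_lit 228) (nat_lit 11965877000) (nat_lit 38) (nat_lit 5) (nat_lit 40) (nat_lit 5) (nat_lit 41) (nat_lit 5) (nat_lit 385) (nat_lit 297) (nat_lit 98)) (XT.lf (nat_lit 0) (nat_lit 46480250751) (nat_lit 152) (nat_lit 17291988611) (nat_lit 228) (nat_lit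 1259856916) (nat_lit 38) (nat_lit 5) (nat_lit 40) (nat_lit 5) (nat_lit 41) (nat_lit 5) (nat_lit 386) (nat_lit 297) (nat_lit 97))) (XT.nd (nat_lit 78) (nat_lit 0) (nat_lit 0) (XT.lf (nat_lit 0) (nat_lit 7337932974) (nat_lit 152) (nat_lit 2306937974) (nat_lit 228) (nat_lit 56880013533) (nat_lit 35) (nat_lit 5) (nat_lit 37) (nat_lit 5) (nat_lit 38) (nat_lit 5) (nat_lit 387) (nat_lit 297) (nat_lit 96)) (XT.lf (nat_lit 0) (nat_lit 21164402429) (nat_lit 228) (nat_lit 33816837159) (nat_lit 76) (nat_lit 13071453876) (nat_lit 35) (nat_lit 5) (nat_lit 38) (nat_lit 5) (nat_lit 36) (nat_lit 5) (nat_lit 388) (nat_lit 297) (nat_lit 95))))) (XT.nd (nat_lit 234) (nat_lit 304) (nat_lit 0) (XT.nd (nat_lit 78) (nat_lit 152) (nat_lit 0) (XT.lf (nat_lit 0) (nat_lit 33050031146) (nat_lit 228) (nat_lit 7712519213) (nat_lit 76) (nat_lit 28863171856) (nat_lit 35) (nat_lit 5) (nat_lit 38) (nat_lit 5) (nat_lit 36) (nat_lit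 5) (nat_lit 389) (nat_lit 297) (nat_lit 94)) (XT.nd (nat_lit 78) (nat_lit 0) (nat_lit 0) (XT.lf (nat_lit 0) (nat_lit 19552527872) (nat_lit 152) (nat_lit 25925389885) (nat_lit 228) (nat_lit 25762454208) (nat_lit 33) (nat_lit 5) (nat_lit 35) (nat_lit 5) (nat_lit 36) (nat_lit 5) (nat_lit 390) (nat_lit 297) (nat_lit 93)) (XT.lf (nat_lit 0) (nat_lit 47789723444) (nat_lit 152) (nat_lit 10564565391) (nat_lit 228) (nat_lit 14546903724) (nat_lit 33) (nat_lit 5) (nat_lit 35) (nat_lit 5) (nat_lit 36) (nat_lit 5) (nat_lit 391) (nat_lit 297) (nat_lit 92)))) (XT.nd (nat_lit 156) (nat_lit 152) (nat_lit 0) (XT.nd (nat_lit 78) (nat_lit 76) (nat_lit 0) (XT.lf (nat_lit 0) (nat_lit 2251764234) (nat_lit 76) (nat_lit 69435182477) (nat_lit 152) (nat_lit 2922791953) (nat_lit 32) (nat_lit 5) (nat_lit 33) (nat_lit 5) (nat_lit 34) (nat_lit 4) (nat_lit 392) (nat_lit 297) (nat_lit 91)) (XT.lf (nat_lit 0) (nat_lit 9231952164)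 (nat_lit 152) (nat_lit 45609228695) (nat_lit 76) (nat_lit 21514995938) (nat_lit 31) (nat_lit 5) (nat_lit 33) (nat_lit 5) (nat_lit 32) (nat_lit 5) (nat_lit 393) (nat_lit 297) (nat_lit 90))) (XT.nd (nat_lit 78) (nat_lit 152) (nat_lit 0) (XT.lf (nat_lit 0) (nat_lit 21690477864) (nat_lit 152) (nat_lit 18090692183) (nat_lit 76) (nat_lit 38373034036) (nat_lit 31) (nat_lit 5) (nat_lit 33) (nat_lit 5) (nat_lit 32) (nat_lit 5) (nat_lit 394) (nat_lit 297) (nat_lit 89)) (XT.lf (nat_lit 0) (nat_lit 10453766732) (nat_lit 152) (nat_lit 24167426702) (nat_lit 228) (nat_lit 45382026408) (nat_lit 29) (nat_lit 5) (nat_lit 31) (nat_lit 5) (nat_lit 32) (nat_lit 5) (nat_lit 395) (nat_lit 297) (nat_lit 88)))))) (XT.nd (nat_lit 546) (nat_lit 0) (nat_lit 0) (XT.nd (nat_lit 234) (nat_lit 228) (nat_lit 0) (XT.nd (nat_lit 78) (nat_lit 76) (nat_lit 0) (XT.lf (nat_lit 0) (nat_lit 40221812070) (nat_lit 152) (nat_lit 7898670346)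 (nat_lit 228) (nat_lit 33781804759) (nat_lit 29) (nat_lit 5) (nat_lit 31) (nat_lit 5) (nat_lit 32) (nat_lit 5) (nat_lit 396) (nat_lit 297) (nat_lit 87)) (XT.nd (nat_lit 78) (nat_lit 76) (nat_lit 0) (XT.lf (nat_lit 0) (nat_lit 62107915958) (nat_lit 228) (nat_lit 13064107139) (nat_lit 76) (nat_lit 8683809092) (nat_lit 29) (nat_lit 5) (nat_lit 32) (nat_lit 5) (nat_lit 30) (nat_lit 4) (nat_lit 397) (nat_lit 297) (nat_lit 86)) (XT.lf (nat_lit 0) (nat_lit 16654102090) (nat_lit 76) (nat_lit 60097238227) (nat_lit 152) (nat_lit 9109552826) (nat_lit 28) (nat_lit 5) (nat_lit 29) (nat_lit 5) (nat_lit 30) (nat_lit 4) (nat_lit 398) (nat_lit 297) (nat_lit 85)))) (XT.nd (nat_lit 156) (nat_lit 152) (nat_lit 0) (XT.nd (nat_lit 78) (nat_lit 0) (nat_lit 0) (XT.lf (nat_lit 0) (nat_lit 3963008895) (nat_lit 152) (nat_lit 40432793038) (nat_lit 76) (nat_lit 43525238429) (nat_lit 27) (nat_lit 5) (nat_lit 29) (nat_lit 5)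 (nat_lit 28) (nat_lit 5) (nat_lit 399) (nat_lit 297) (nat_lit 84)) (XT.lf (nat_lit 0) (nat_lit 17242788256) (nat_lit 152) (nat_lit 10889100599) (nat_lit 76) (nat_lit 61908453890) (nat_lit 27) (nat_lit 5) (nat_lit 29) (nat_lit 5) (nat_lit 28) (nat_lit 5) (nat_lit 400) (nat_lit 297) (nat_lit 83))) (XT.nd (nat_lit 78) (nat_lit 0) (nat_lit 0) (XT.lf (nat_lit 0) (nat_lit 19926505631) (nat_lit 152) (nat_lit 11184189266) (nat_lit 228) (nat_lit 61106837838) (nat_lit 25) (nat_lit 5) (nat_lit 27) (nat_lit 5) (nat_lit 28) (nat_lit 5) (nat_lit 401) (nat_lit 297) (nat_lit 82)) (XT.lf (nat_lit 0) (nat_lit 45564172271) (nat_lit 228) (nat_lit 42631565977) (nat_lit 76) (nat_lit 6259214705) (nat_lit 25) (nat_lit 5) (nat_lit 28) (nat_lit 5) (nat_lit 26) (nat_lit 4) (nat_lit 402) (nat_lit 297) (nat_lit 81))))) (XT.nd (nat_lit 32682) (nat_lit 0) (nat_lit 13756) (XT.nd (nat_lit 32526) (nat_lit 0) (nat_lit 13680) (XT.nd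 (nat_lit 32448) (nat_lit 0) (nat_lit 14820) (XT.lf (nat_lit 0) (nat_lit 60560237575) (nat_lit 228) (nat_lit 12196204894) (nat_lit 76) (nat_lit 23999784322) (nat_lit 25) (nat_lit 5) (nat_lit 28) (nat_lit 5) (nat_lit 26) (nat_lit 4) (nat_lit 403) (nat_lit 297) (nat_lit 80)) (XT.lf (nat_lit 0) (nat_lit 6322081855) (nat_lit 1140) (nat_lit 49097203) (nat_lit 1140) (nat_lit 49097203) (nat_lit 220) (nat_lit 3) (nat_lit 235) (nat_lit 3) (nat_lit 235) (nat_lit 5) (nat_lit 298) (nat_lit 298) (nat_lit 184))) (XT.nd (nat_lit 78) (nat_lit 0) (nat_lit 0) (XT.lf (nat_lit 0) (nat_lit 255359169) (nat_lit 1140) (nat_lit 7092223483) (nat_lit 1216) (nat_lit 5671700687) (nat_lit 205) (nat_lit 5) (nat_lit 220) (nat_lit 3) (nat_lit 221) (nat_lit 5) (nat_lit 299) (nat_lit 298) (nat_lit 183)) (XT.lf (nat_lit 0) (nat_lit 702289198) (nat_lit 1140) (nat_lit 1078520980) (nat_lit 1216) (nat_lit 11422956294) (nat_lit 205) (nat_lit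 5) (nat_lit 220) (nat_lit 3) (nat_lit 221) (nat_lit 5) (nat_lit 300) (nat_lit 298) (nat_lit 182)))) (XT.nd (nat_lit 156) (nat_lit 0) (nat_lit 76) (XT.nd (nat_lit 78) (nat_lit 0) (nat_lit 0) (XT.lf (nat_lit 0) (nat_lit 1236286192) (nat_lit 1140) (nat_lit 8222127942) (nat_lit 1216) (nat_lit 3933175761) (nat_lit 206) (nat_lit 5) (nat_lit 221) (nat_lit 5) (nat_lit 222) (nat_lit 5) (nat_lit 301) (nat_lit 298) (nat_lit 181)) (XT.lf (nat_lit 0) (nat_lit 1800381529) (nat_lit 1140) (nat_lit 1983969330) (nat_lit 1216) (nat_lit 9800289922) (nat_lit 206) (nat_lit 5) (nat_lit 221) (nat_lit 5) (nat_lit 222) (nat_lit 5) (nat_lit 302) (nat_lit 298) (nat_lit 180))) (XT.nd (nat_lit 78) (nat_lit 0) (nat_lit 0) (XT.lf (nat_lit 0) (nat_lit 2431021149) (nat_lit 1140) (nat_lit 9281598776) (nat_lit 1216) (nat_lit 2069389299) (nat_lit 207) (nat_lit 5) (nat_lit 222) (nat_lit 5) (nat_lit 223) (nat_lit 5) (nat_lit 303) (nat_lit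 298) (nat_lit 179)) (XT.lf (nat_lit 0) (nat_lit 3124540044) (nat_lit 1140) (nat_lit 2811028864) (nat_lit 1216) (nat_lit 8048425255) (nat_lit 207) (nat_lit 5) (nat_lit 222) (nat_lit 5) (nat_lit 223) (nat_lit 5) (nat_lit 304) (nat_lit 298) (nat_lit 178))))))))
noncomputable def xc190 : XT := (XT.nd (nat_lit 2184) (nat_lit 5168) (nat_lit 0) (XT.nd (nat_lit 1092) (nat_lit 3724) (nat_lit 0) (XT.nd (nat_lit 546) (nat_lit 1672) (nat_lit 0) (XT.nd (nat_lit 234) (nat_lit 0) (nat_lit 76) (XT.nd (nat_lit 78) (nat_lit 0) (nat_lit 0) (XT.lf (nat_lit 0) (nat_lit 3863784952) (nat_lit 1140) (nat_lit 10270101372) (nat_lit 1216) (nat_lit 57418544) (nat_lit 208) (nat_lit 5) (nat_lit 223) (nat_lit 5) (nat_lit 224) (nat_lit 5) (nat_lit 305) (nat_lit 298) (nat_lit 177)) (XT.nd (nat_lit 78) (nat_lit 0) (nat_lit 0) (XT.lf (nat_lit 0) (nat_lit 4699654970) (nat_lit 1140) (nat_lit 3558776475) (nat_lit 1216) (nat_lit 6144183444)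 (nat_lit 208) (nat_lit 5) (nat_lit 223) (nat_lit 5) (nat_lit 224) (nat_lit 5) (nat_lit 306) (nat_lit 298) (nat_lit 176)) (XT.lf (nat_lit 76) (nat_lit 3411952838) (nat_lit 0) (nat_lit 2168837121) (nat_lit 1216) (nat_lit 9038881623) (nat_lit 209) (nat_lit 5) (nat_lit 208) (nat_lit 5) (nat_lit 224) (nat_lit 5) (nat_lit 307) (nat_lit 298) (nat_lit 175)))) (XT.nd (nat_lit 156) (nat_lit 0) (nat_lit 76) (XT.nd (nat_lit 78) (nat_lit 0) (nat_lit 0) (XT.lf (nat_lit 0) (nat_lit 6551810997) (nat_lit 1140) (nat_lit 4226058133) (nat_lit 1216) (nat_lit 4063479942) (nat_lit 209) (nat_lit 5) (nat_lit 224) (nat_lit 5) (nat_lit 225) (nat_lit 5) (nat_lit 308) (nat_lit 298) (nat_lit 174)) (XT.lf (nat_lit 76) (nat_lit 2993397337) (nat_lit 0) (nat_lit 4596885854) (nat_lit 1216) (nat_lit 7478256370) (nat_lit 210) (nat_lit 5) (nat_lit 209) (nat_lit 5) (nat_lit 225) (nat_lit 5) (nat_lit 309) (nat_lit 298) (nat_lit 173)))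 (XT.nd (nat_lit 78) (nat_lit 0) (nat_lit 0) (XT.lf (nat_lit 0) (nat_lit 8708385193) (nat_lit 1140) (nat_lit 4811532428) (nat_lit 1216) (nat_lit 1781185804) (nat_lit 210) (nat_lit 5) (nat_lit 225) (nat_lit 5) (nat_lit 226) (nat_lit 5) (nat_lit 310) (nat_lit 298) (nat_lit 172)) (XT.lf (nat_lit 76) (nat_lit 2667890211) (nat_lit 0) (nat_lit 7252006380) (nat_lit 1216) (nat_lit 5618963207) (nat_lit 211) (nat_lit 5) (nat_lit 210) (nat_lit 5) (nat_lit 226) (nat_lit 5) (nat_lit 311) (nat_lit 298) (nat_lit 171))))) (XT.nd (nat_lit 234) (nat_lit 1824) (nat_lit 0) (XT.nd (nat_lit 78) (nat_lit 0) (nat_lit 76) (XT.lf (nat_lit 76) (nat_lit 10461770076) (nat_lit 0) (nat_lit 743524182) (nat_lit 1216) (nat_lit 4577339622) (nat_lit 211) (nat_lit 5) (nat_lit 210) (nat_lit 5) (nat_lit 226) (nat_lit 5) (nat_lit 312) (nat_lit 298) (nat_lit 170)) (XT.nd (nat_lit 78) (nat_lit 0) (nat_lit 0) (XT.lf (nat_lit 76) (nat_lit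 2437349620) (nat_lit 0) (nat_lit 10161925584) (nat_lit 1216) (nat_lit 3432356259) (nat_lit 212) (nat_lit 5) (nat_lit 211) (nat_lit 5) (nat_lit 227) (nat_lit 5) (nat_lit 313) (nat_lit 298) (nat_lit 169)) (XT.lf (nat_lit 76) (nat_lit 10521294949) (nat_lit 0) (nat_lit 3564328434) (nat_lit 1216) (nat_lit 2200969756) (nat_lit 212) (nat_lit 5) (nat_lit 211) (nat_lit 5) (nat_lit 227) (nat_lit 5) (nat_lit 314) (nat_lit 298) (nat_lit 168)))) (XT.nd (nat_lit 156) (nat_lit 760) (nat_lit 0) (XT.nd (nat_lit 78) (nat_lit 76) (nat_lit 0) (XT.lf (nat_lit 0) (nat_lit 2303787983) (nat_lit 1140) (nat_lit 13355830420) (nat_lit 1216) (nat_lit 888303862) (nat_lit 197) (nat_lit 5) (nat_lit 212) (nat_lit 5) (nat_lit 213) (nat_lit 5) (nat_lit 315) (nat_lit 298) (nat_lit 167)) (XT.lf (nat_lit 0) (nat_lit 538733463) (nat_lit 1216) (nat_lit 6131326217) (nat_lit 76) (nat_lit 10144386331) (nat_lit 196) (nat_lit 5) (nat_lit 212)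 (nat_lit 5) (nat_lit 197) (nat_lit 5) (nat_lit 316) (nat_lit 298) (nat_lit 166))) (XT.nd (nat_lit 78) (nat_lit 0) (nat_lit 0) (XT.lf (nat_lit 0) (nat_lit 2005010864) (nat_lit 836) (nat_lit 14839271793) (nat_lit 76) (nat_lit 243999886) (nat_lit 186) (nat_lit 5) (nat_lit 197) (nat_lit 5) (nat_lit 187) (nat_lit 5) (nat_lit 317) (nat_lit 298) (nat_lit 165)) (XT.lf (nat_lit 0) (nat_lit 3634305870) (nat_lit 836) (nat_lit 6437439222) (nat_lit 76) (nat_lit 7295027346) (nat_lit 186) (nat_lit 5) (nat_lit 197) (nat_lit 5) (nat_lit 187) (nat_lit 5) (nat_lit 318) (nat_lit 298) (nat_lit 164)))))) (XT.nd (nat_lit 546) (nat_lit 1520) (nat_lit 0) (XT.nd (nat_lit 234) (nat_lit 1064) (nat_lit 0) (XT.nd (nat_lit 78) (nat_lit 532) (nat_lit 0) (XT.lf (nat_lit 0) (nat_lit 2251892531) (nat_lit 608) (nat_lit 3072973279) (nat_lit 684) (nat_lit 12328388516) (nat_lit 178) (nat_lit 5) (nat_lit 186) (nat_lit 5) (nat_lit 187)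 (nat_lit 5) (nat_lit 319) (nat_lit 298) (nat_lit 163)) (XT.nd (nat_lit 78) (nat_lit 532) (nat_lit 0) (XT.lf (nat_lit 0) (nat_lit 7162481812) (nat_lit 684) (nat_lit 6661616255) (nat_lit 76) (nat_lit 4121351042) (nat_lit 178) (nat_lit 5) (nat_lit 187) (nat_lit 5) (nat_lit 179) (nat_lit 5) (nat_lit 320) (nat_lit 298) (nat_lit 162)) (XT.lf (nat_lit 0) (nat_lit 2347250858) (nat_lit 532) (nat_lit 6752162824) (nat_lit 608) (nat_lit 9145678802) (nat_lit 171) (nat_lit 5) (nat_lit 178) (nat_lit 5) (nat_lit 179) (nat_lit 5) (nat_lit 321) (nat_lit 298) (nat_lit 161)))) (XT.nd (nat_lit 156) (nat_lit 532) (nat_lit 0) (XT.nd (nat_lit 78) (nat_lit 532) (nat_lit 0) (XT.lf (nat_lit 0) (nat_lit 11158879171) (nat_lit 608) (nat_lit 6803180951) (nat_lit 76) (nat_lit 589740393) (nat_lit 171) (nat_lit 5) (nat_lit 179) (nat_lit 5) (nat_lit 172) (nat_lit 5) (nat_lit 322) (nat_lit 298) (nat_lit 160)) (XT.lf (nat_lit 0) (nat_lit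 2538620403) (nat_lit 532) (nat_lit 10824392367) (nat_lit 608) (nat_lit 5502218379) (nat_lit 164) (nat_lit 5) (nat_lit 171) (nat_lit 5) (nat_lit 172) (nat_lit 5) (nat_lit 323) (nat_lit 298) (nat_lit 159))) (XT.nd (nat_lit 78) (nat_lit 532) (nat_lit 0) (XT.lf (nat_lit 0) (nat_lit 12291832858) (nat_lit 532) (nat_lit 3401928622) (nat_lit 608) (nat_lit 3492496146) (nat_lit 164) (nat_lit 5) (nat_lit 171) (nat_lit 5) (nat_lit 172) (nat_lit 5) (nat_lit 324) (nat_lit 298) (nat_lit 158)) (XT.lf (nat_lit 0) (nat_lit 2826794093) (nat_lit 532) (nat_lit 15327630251) (nat_lit 608) (nat_lit 1360698238) (nat_lit 157) (nat_lit 5) (nat_lit 164) (nat_lit 5) (nat_lit 165) (nat_lit 5) (nat_lit 325) (nat_lit 298) (nat_lit 157))))) (XT.nd (nat_lit 234) (nat_lit 912) (nat_lit 0) (XT.nd (nat_lit 78) (nat_lit 532) (nat_lit 0) (XT.lf (nat_lit 0) (nat_lit 914849745) (nat_lit 608) (nat_lit 6921573363) (nat_lit 76) (nat_lit 12014313844)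 (nat_lit 156) (nat_lit 5) (nat_lit 164) (nat_lit 5) (nat_lit 157) (nat_lit 5) (nat_lit 326) (nat_lit 298) (nat_lit 156)) (XT.nd (nat_lit 78) (nat_lit 0) (nat_lit 0) (XT.lf (nat_lit 0) (nat_lit 3178594158) (nat_lit 532) (nat_lit 75605135) (nat_lit 608) (nat_lit 16941136581) (nat_lit 149) (nat_lit 5) (nat_lit 156) (nat_lit 5) (nat_lit 157) (nat_lit 5) (nat_lit 327) (nat_lit 298) (nat_lit 155)) (XT.lf (nat_lit 0) (nat_lit 5802898636) (nat_lit 608) (nat_lit 6909619951) (nat_lit 76) (nat_lit 7833585704) (nat_lit 149) (nat_lit 5) (nat_lit 157) (nat_lit 5) (nat_lit 150) (nat_lit 5) (nat_lit 328) (nat_lit 298) (nat_lit 154)))) (XT.nd (nat_lit 156) (nat_lit 456) (nat_lit 0) (XT.nd (nat_lit 78) (nat_lit 0) (nat_lit 0) (XT.lf (nat_lit 0) (nat_lit 3561413242) (nat_lit 456) (nat_lit 4894318032) (nat_lit 532) (nat_lit 12450840731) (nat_lit 143) (nat_lit 5) (nat_lit 149) (nat_lit 5) (nat_lit 150) (nat_lit 5) (nat_lit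 329) (nat_lit 298) (nat_lit 153)) (XT.lf (nat_lit 0) (nat_lit 11281792005) (nat_lit 532) (nat_lit 6826778795) (nat_lit 76) (nat_lit 3166479883) (nat_lit 143) (nat_lit 5) (nat_lit 150) (nat_lit 5) (nat_lit 144) (nat_lit 5) (nat_lit 330) (nat_lit 298) (nat_lit 152))) (XT.nd (nat_lit 78) (nat_lit 0) (nat_lit 0) (XT.lf (nat_lit 0) (nat_lit 4029375447) (nat_lit 456) (nat_lit 10243477641) (nat_lit 532) (nat_lit 7379330122) (nat_lit 137) (nat_lit 5) (nat_lit 143) (nat_lit 5) (nat_lit 144) (nat_lit 5) (nat_lit 331) (nat_lit 298) (nat_lit 151)) (XT.lf (nat_lit 0) (nat_lit 15343288333) (nat_lit 456) (nat_lit 2072449323) (nat_lit 532) (nat_lit 4623035177) (nat_lit 137) (nat_lit 5) (nat_lit 143) (nat_lit 5) (nat_lit 144) (nat_lit 5) (nat_lit 332) (nat_lit 298) (nat_lit 150))))))) (XT.nd (nat_lit 1092) (nat_lit 2356) (nat_lit 0) (XT.nd (nat_lit 546) (nat_lit 1140) (nat_lit 0) (XT.nd (nat_lit 234) (nat_lit 760)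 (nat_lit 0) (XT.nd (nat_lit 78) (nat_lit 532) (nat_lit 0) (XT.lf (nat_lit 0) (nat_lit 4580220829) (nat_lit 380) (nat_lit 16171039844) (nat_lit 456) (nat_lit 1682754612) (nat_lit 132) (nat_lit 5) (nat_lit 137) (nat_lit 5) (nat_lit 138) (nat_lit 5) (nat_lit 333) (nat_lit 298) (nat_lit 149)) (XT.nd (nat_lit 78) (nat_lit 456) (nat_lit 0) (XT.lf (nat_lit 0) (nat_lit 1401667775) (nat_lit 456) (nat_lit 6549657887) (nat_lit 76) (nat_lit 14886940832) (nat_lit 131) (nat_lit 5) (nat_lit 137) (nat_lit 5) (nat_lit 132) (nat_lit 5) (nat_lit 334) (nat_lit 298) (nat_lit 148)) (XT.lf (nat_lit 0) (nat_lit 4593681204) (nat_lit 532) (nat_lit 18088281714) (nat_lit 76) (nat_lit 570721307) (nat_lit 125) (nat_lit 5) (nat_lit 132) (nat_lit 5) (nat_lit 126) (nat_lit 5) (nat_lit 335) (nat_lit 298) (nat_lit 147)))) (XT.nd (nat_lit 156) (nat_lit 380) (nat_lit 0) (XT.nd (nat_lit 78) (nat_lit 380) (nat_lit 0) (XT.lf (nat_lit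 0) (nat_lit 8020662008) (nat_lit 532) (nat_lit 6400556121) (nat_lit 76) (nat_lit 9254145213) (nat_lit 125) (nat_lit 5) (nat_lit 132) (nat_lit 5) (nat_lit 126) (nat_lit 5) (nat_lit 336) (nat_lit 298) (nat_lit 146)) (XT.lf (nat_lit 0) (nat_lit 5742309480) (nat_lit 380) (nat_lit 5857212643) (nat_lit 456) (nat_lit 12509733527) (nat_lit 120) (nat_lit 5) (nat_lit 125) (nat_lit 5) (nat_lit 126) (nat_lit 5) (nat_lit 337) (nat_lit 298) (nat_lit 145))) (XT.nd (nat_lit 78) (nat_lit 380) (nat_lit 0) (XT.lf (nat_lit 0) (nat_lit 15373474121) (nat_lit 456) (nat_lit 6210330950) (nat_lit 76) (nat_lit 2969732646) (nat_lit 120) (nat_lit 5) (nat_lit 126) (nat_lit 5) (nat_lit 121) (nat_lit 5) (nat_lit 338) (nat_lit 298) (nat_lit 144)) (XT.lf (nat_lit 0) (nat_lit 6369869784) (nat_lit 380) (nat_lit 13004138046) (nat_lit 456) (nat_lit 5633744155) (nat_lit 115) (nat_lit 5) (nat_lit 120) (nat_lit 5) (nat_lit 121) (nat_lit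 5) (nat_lit 339) (nat_lit 298) (nat_lit 143))))) (XT.nd (nat_lit 234) (nat_lit 684) (nat_lit 0) (XT.nd (nat_lit 78) (nat_lit 456) (nat_lit 0) (XT.lf (nat_lit 0) (nat_lit 19447435141) (nat_lit 380) (nat_lit 4104074498) (nat_lit 456) (nat_lit 1922378978) (nat_lit 115) (nat_lit 5) (nat_lit 120) (nat_lit 5) (nat_lit 121) (nat_lit 5) (nat_lit 340) (nat_lit 298) (nat_lit 142)) (XT.nd (nat_lit 78) (nat_lit 0) (nat_lit 0) (XT.lf (nat_lit 0) (nat_lit 1975118135) (nat_lit 456) (nat_lit 18925225094) (nat_lit 76) (nat_lit 5049766149) (nat_lit 109) (nat_lit 5) (nat_lit 115) (nat_lit 5) (nat_lit 110) (nat_lit 5) (nat_lit 341) (nat_lit 298) (nat_lit 141)) (XT.lf (nat_lit 0) (nat_lit 6047422599) (nat_lit 456) (nat_lit 5915096881) (nat_lit 76) (nat_lit 14474634783) (nat_lit 109) (nat_lit 5) (nat_lit 115) (nat_lit 5) (nat_lit 110) (nat_lit 5) (nat_lit 342) (nat_lit 298) (nat_lit 140)))) (XT.nd (nat_lit 156) (nat_lit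 304) (nat_lit 0) (XT.nd (nat_lit 78) (nat_lit 0) (nat_lit 0) (XT.lf (nat_lit 0) (nat_lit 7627045962) (nat_lit 380) (nat_lit 2682756413) (nat_lit 456) (nat_lit 16626974932) (nat_lit 104) (nat_lit 5) (nat_lit 109) (nat_lit 5) (nat_lit 110) (nat_lit 5) (nat_lit 343) (nat_lit 298) (nat_lit 139)) (XT.lf (nat_lit 0) (nat_lit 14821129867) (nat_lit 456) (nat_lit 5826769664) (nat_lit 76) (nat_lit 6799861102) (nat_lit 104) (nat_lit 5) (nat_lit 110) (nat_lit 5) (nat_lit 105) (nat_lit 5) (nat_lit 344) (nat_lit 298) (nat_lit 138))) (XT.nd (nat_lit 78) (nat_lit 0) (nat_lit 0) (XT.lf (nat_lit 0) (nat_lit 8186886820) (nat_lit 304) (nat_lit 11380988602) (nat_lit 380) (nat_lit 8403199456) (nat_lit 100) (nat_lit 5) (nat_lit 104) (nat_lit 5) (nat_lit 105) (nat_lit 5) (nat_lit 345) (nat_lit 298) (nat_lit 137)) (XT.lf (nat_lit 0) (nat_lit 22733476820) (nat_lit 304) (nat_lit 1777288798) (nat_lit 380) (nat_lit 3997714322)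 (nat_lit 100) (nat_lit 5) (nat_lit 104) (nat_lit 5) (nat_lit 105) (nat_lit 5) (nat_lit 346) (nat_lit 298) (nat_lit 136)))))) (XT.nd (nat_lit 546) (nat_lit 1064) (nat_lit 0) (XT.nd (nat_lit 234) (nat_lit 608) (nat_lit 0) (XT.nd (nat_lit 78) (nat_lit 304) (nat_lit 0) (XT.lf (nat_lit 0) (nat_lit 688002998) (nat_lit 380) (nat_lit 20323889451) (nat_lit 76) (nat_lit 8045204335) (nat_lit 95) (nat_lit 5) (nat_lit 100) (nat_lit 5) (nat_lit 96) (nat_lit 5) (nat_lit 347) (nat_lit 298) (nat_lit 135)) (XT.nd (nat_lit 78) (nat_lit 304) (nat_lit 0) (XT.lf (nat_lit 0) (nat_lit 5505494653) (nat_lit 380) (nat_lit 5890019413) (nat_lit 76) (nat_lit 18223327387) (nat_lit 95) (nat_lit 5) (nat_lit 100) (nat_lit 5) (nat_lit 96) (nat_lit 5) (nat_lit 348) (nat_lit 298) (nat_lit 134)) (XT.lf (nat_lit 0) (nat_lit 9148704362) (nat_lit 304) (nat_lit 1401955852) (nat_lit 380) (nat_lit 19644287025) (nat_lit 91) (nat_lit 5) (nat_lit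 95) (nat_lit 5) (nat_lit 96) (nat_lit 5) (nat_lit 349) (nat_lit 298) (nat_lit 133)))) (XT.nd (nat_lit 156) (nat_lit 304) (nat_lit 0) (XT.nd (nat_lit 78) (nat_lit 304) (nat_lit 0) (XT.lf (nat_lit 0) (nat_lit 15887980837) (nat_lit 380) (nat_lit 6120028321) (nat_lit 76) (nat_lit 8776106189) (nat_lit 91) (nat_lit 5) (nat_lit 96) (nat_lit 5) (nat_lit 92) (nat_lit 5) (nat_lit 350) (nat_lit 298) (nat_lit 132)) (XT.lf (nat_lit 0) (nat_lit 9417306639) (nat_lit 304) (nat_lit 12067921946) (nat_lit 380) (nat_lit 9902738753) (nat_lit 87) (nat_lit 5) (nat_lit 91) (nat_lit 5) (nat_lit 92) (nat_lit 5) (nat_lit 351) (nat_lit 298) (nat_lit 131))) (XT.nd (nat_lit 78) (nat_lit 304) (nat_lit 0) (XT.lf (nat_lit 0) (nat_lit 25539729601) (nat_lit 304) (nat_lit 1767937866) (nat_lit 380) (nat_lit 4700552183) (nat_lit 87) (nat_lit 5) (nat_lit 91) (nat_lit 5) (nat_lit 92) (nat_lit 5) (nat_lit 352) (nat_lit 298) (nat_lit 130))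 (XT.lf (nat_lit 0) (nat_lit 819375350) (nat_lit 304) (nat_lit 23055360796) (nat_lit 76) (nat_lit 8766921240) (nat_lit 83) (nat_lit 5) (nat_lit 87) (nat_lit 5) (nat_lit 84) (nat_lit 5) (nat_lit 353) (nat_lit 298) (nat_lit 129))))) (XT.nd (nat_lit 312) (nat_lit 532) (nat_lit 0) (XT.nd (nat_lit 156) (nat_lit 228) (nat_lit 0) (XT.nd (nat_lit 78) (nat_lit 304) (nat_lit 0) (XT.lf (nat_lit 0) (nat_lit 6489503066) (nat_lit 304) (nat_lit 7107946693) (nat_lit 76) (nat_lit 19692882649) (nat_lit 83) (nat_lit 5) (nat_lit 87) (nat_lit 5) (nat_lit 84) (nat_lit 5) (nat_lit 354) (nat_lit 298) (nat_lit 128)) (XT.lf (nat_lit 0) (nat_lit 9496955892) (nat_lit 304) (nat_lit 2919805848) (nat_lit 380) (nat_lit 21539097768) (nat_lit 79) (nat_lit 5) (nat_lit 83) (nat_lit 5) (nat_lit 84) (nat_lit 5) (nat_lit 355) (nat_lit 298) (nat_lit 127))) (XT.nd (nat_lit 78) (nat_lit 228) (nat_lit 0) (XT.lf (nat_lit 0) (nat_lit 18667759509)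 (nat_lit 380) (nat_lit 7978152389) (nat_lit 76) (nat_lit 7991065449) (nat_lit 79) (nat_lit 5) (nat_lit 84) (nat_lit 5) (nat_lit 80) (nat_lit 5) (nat_lit 356) (nat_lit 298) (nat_lit 126)) (XT.lf (nat_lit 0) (nat_lit 9140355402) (nat_lit 228) (nat_lit 16078608382) (nat_lit 304) (nat_lit 10116187130) (nat_lit 76) (nat_lit 5) (nat_lit 79) (nat_lit 5) (nat_lit 80) (nat_lit 5) (nat_lit 357) (nat_lit 298) (nat_lit 125)))) (XT.nd (nat_lit 156) (nat_lit 228) (nat_lit 0) (XT.nd (nat_lit 78) (nat_lit 304) (nat_lit 0) (XT.lf (nat_lit 0) (nat_lit 26929904453) (nat_lit 228) (nat_lit 5113329387) (nat_lit 304) (nat_lit 4008742376) (nat_lit 76) (nat_lit 5) (nat_lit 79) (nat_lit 5) (nat_lit 80) (nat_lit 5) (nat_lit 358) (nat_lit 298) (nat_lit 124)) (XT.lf (nat_lit 0) (nat_lit 2376566289) (nat_lit 304) (nat_lit 28244912385) (nat_lit 76) (nat_lit 6163996750) (nat_lit 72) (nat_lit 5) (nat_lit 76) (nat_lit 5) (nat_lit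 73) (nat_lit 5) (nat_lit 359) (nat_lit 298) (nat_lit 123))) (XT.nd (nat_lit 78) (nat_lit 228) (nat_lit 0) (XT.lf (nat_lit 0) (nat_lit 9012598166) (nat_lit 304) (nat_lit 10715379630) (nat_lit 76) (nat_lit 17807621238) (nat_lit 72) (nat_lit 5) (nat_lit 76) (nat_lit 5) (nat_lit 73) (nat_lit 5) (nat_lit 360) (nat_lit 298) (nat_lit 122)) (XT.lf (nat_lit 0) (nat_lit 7480174825) (nat_lit 228) (nat_lit 8435635929) (nat_lit 304) (nat_lit 22390374755) (nat_lit 69) (nat_lit 5) (nat_lit 72) (nat_lit 5) (nat_lit 73) (nat_lit 5) (nat_lit 361) (nat_lit 298) (nat_lit 121))))))))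
noncomputable def xc191 : XT := (XT.nd (nat_lit 2262) (nat_lit 760) (nat_lit 0) (XT.nd (nat_lit 1092) (nat_lit 1216) (nat_lit 0) (XT.nd (nat_lit 546) (nat_lit 608) (nat_lit 0) (XT.nd (nat_lit 234) (nat_lit 532) (nat_lit 0) (XT.nd (nat_lit 78) (nat_lit 228) (nat_lit 0) (XT.lf (nat_lit 0) (nat_lit 23162343852) (nat_lit 304) (nat_lit 12693048344) (nat_lit 76) (nat_lit 3240412742) (nat_lit 69) (nat_lit 5) (nat_lit 73) (nat_lit 5) (nat_lit 70) (nat_lit 5) (nat_lit 362) (nat_lit 298) (nat_lit 120)) (XT.nd (nat_lit 78) (nat_lit 0) (nat_lit 0) (XT.lf (nat_lit 0) (nat_lit 6012001018) (nat_lit 228) (nat_lit 24751925469) (nat_lit 304) (nat_lit 9141058883) (nat_lit 66) (nat_lit 5) (nat_lit 69) (nat_lit 5) (nat_lit 70) (nat_lit 5) (nat_lit 363) (nat_lit 298) (nat_lit 119)) (XT.lf (nat_lit 0) (nat_lit 25532756265) (nat_lit 228) (nat_lit 13185368942) (nat_lit 304) (nat_lit 2016580915) (nat_lit 66) (nat_lit 5)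 (nat_lit 69) (nat_lit 5) (nat_lit 70) (nat_lit 5) (nat_lit 364) (nat_lit 298) (nat_lit 118)))) (XT.nd (nat_lit 156) (nat_lit 228) (nat_lit 0) (XT.nd (nat_lit 78) (nat_lit 0) (nat_lit 0) (XT.lf (nat_lit 0) (nat_lit 4072583042) (nat_lit 228) (nat_lit 1180814518) (nat_lit 304) (nat_lit 36333319838) (nat_lit 62) (nat_lit 5) (nat_lit 65) (nat_lit 5) (nat_lit 66) (nat_lit 5) (nat_lit 365) (nat_lit 298) (nat_lit 117)) (XT.lf (nat_lit 0) (nat_lit 12959973306) (nat_lit 304) (nat_lit 18357280381) (nat_lit 76) (nat_lit 11138667261) (nat_lit 62) (nat_lit 5) (nat_lit 66) (nat_lit 5) (nat_lit 63) (nat_lit 5) (nat_lit 366) (nat_lit 298) (nat_lit 116))) (XT.nd (nat_lit 78) (nat_lit 0) (nat_lit 0) (XT.lf (nat_lit 0) (nat_lit 1384179516) (nat_lit 228) (nat_lit 19535158908) (nat_lit 304) (nat_lit 22431216166) (nat_lit 59) (nat_lit 5) (nat_lit 62) (nat_lit 5) (nat_lit 63) (nat_lit 5) (nat_lit 367) (nat_lit 298) (nat_lit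 115)) (XT.lf (nat_lit 0) (nat_lit 22088823797) (nat_lit 228) (nat_lit 7210676113) (nat_lit 304) (nat_lit 14967068565) (nat_lit 59) (nat_lit 5) (nat_lit 62) (nat_lit 5) (nat_lit 63) (nat_lit 5) (nat_lit 368) (nat_lit 298) (nat_lit 114))))) (XT.nd (nat_lit 234) (nat_lit 380) (nat_lit 0) (XT.nd (nat_lit 78) (nat_lit 228) (nat_lit 0) (XT.lf (nat_lit 0) (nat_lit 37980499303) (nat_lit 304) (nat_lit 1853456589) (nat_lit 76) (nat_lit 5374625538) (nat_lit 59) (nat_lit 5) (nat_lit 63) (nat_lit 5) (nat_lit 60) (nat_lit 5) (nat_lit 369) (nat_lit 298) (nat_lit 113)) (XT.nd (nat_lit 78) (nat_lit 0) (nat_lit 0) (XT.lf (nat_lit 0) (nat_lit 985616583) (nat_lit 228) (nat_lit 26798634745) (nat_lit 76) (nat_lit 18386679431) (nat_lit 56) (nat_lit 5) (nat_lit 59) (nat_lit 5) (nat_lit 57) (nat_lit 5) (nat_lit 370) (nat_lit 298) (nat_lit 112)) (XT.lf (nat_lit 0) (nat_lit 9316179150) (nat_lit 228) (nat_lit 5965674575) (nat_lit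 76) (nat_lit 31877679487) (nat_lit 56) (nat_lit 5) (nat_lit 59) (nat_lit 5) (nat_lit 57) (nat_lit 5) (nat_lit 371) (nat_lit 298) (nat_lit 111)))) (XT.nd (nat_lit 156) (nat_lit 152) (nat_lit 0) (XT.nd (nat_lit 78) (nat_lit 0) (nat_lit 0) (XT.lf (nat_lit 0) (nat_lit 15795501271) (nat_lit 228) (nat_lit 2249914317) (nat_lit 304) (nat_lit 30127916905) (nat_lit 53) (nat_lit 5) (nat_lit 56) (nat_lit 5) (nat_lit 57) (nat_lit 5) (nat_lit 372) (nat_lit 298) (nat_lit 110)) (XT.lf (nat_lit 0) (nat_lit 27201713394) (nat_lit 304) (nat_lit 10996958988) (nat_lit 76) (nat_lit 11013919262) (nat_lit 53) (nat_lit 5) (nat_lit 57) (nat_lit 5) (nat_lit 54) (nat_lit 5) (nat_lit 373) (nat_lit 298) (nat_lit 109))) (XT.nd (nat_lit 78) (nat_lit 0) (nat_lit 0) (XT.lf (nat_lit 0) (nat_lit 11217069476) (nat_lit 152) (nat_lit 25542766018) (nat_lit 228) (nat_lit 13519380393) (nat_lit 51) (nat_lit 5) (nat_lit 53) (nat_lit 5) (nat_lit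 54) (nat_lit 5) (nat_lit 374) (nat_lit 298) (nat_lit 108)) (XT.lf (nat_lit 0) (nat_lit 34318114521) (nat_lit 152) (nat_lit 12394708068) (nat_lit 228) (nat_lit 4661773969) (nat_lit 51) (nat_lit 5) (nat_lit 53) (nat_lit 5) (nat_lit 54) (nat_lit 5) (nat_lit 375) (nat_lit 298) (nat_lit 107)))))) (XT.nd (nat_lit 546) (nat_lit 532) (nat_lit 0) (XT.nd (nat_lit 234) (nat_lit 380) (nat_lit 0) (XT.nd (nat_lit 78) (nat_lit 0) (nat_lit 0) (XT.lf (nat_lit 0) (nat_lit 4438135308) (nat_lit 304) (nat_lit 46839578081) (nat_lit 76) (nat_lit 1221930830) (nat_lit 47) (nat_lit 5) (nat_lit 51) (nat_lit 5) (nat_lit 48) (nat_lit 5) (nat_lit 376) (nat_lit 298) (nat_lit 106)) (XT.nd (nat_lit 78) (nat_lit 0) (nat_lit 0) (XT.lf (nat_lit 0) (nat_lit 14011156914) (nat_lit 304) (nat_lit 24420876144) (nat_lit 76) (nat_lit 15216212429) (nat_lit 47) (nat_lit 5) (nat_lit 51) (nat_lit 5) (nat_lit 48) (nat_lit 5) (nat_lit 377) (nat_lit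 298) (nat_lit 105)) (XT.lf (nat_lit 0) (nat_lit 23868602050) (nat_lit 304) (nat_lit 1334244688) (nat_lit 76) (nat_lit 29628542258) (nat_lit 47) (nat_lit 5) (nat_lit 51) (nat_lit 5) (nat_lit 48) (nat_lit 5) (nat_lit 378) (nat_lit 298) (nat_lit 104)))) (XT.nd (nat_lit 156) (nat_lit 228) (nat_lit 0) (XT.nd (nat_lit 78) (nat_lit 0) (nat_lit 0) (XT.lf (nat_lit 0) (nat_lit 22887098801) (nat_lit 152) (nat_lit 11351990008) (nat_lit 228) (nat_lit 21804419607) (nat_lit 45) (nat_lit 5) (nat_lit 47) (nat_lit 5) (nat_lit 48) (nat_lit 5) (nat_lit 379) (nat_lit 298) (nat_lit 103)) (XT.lf (nat_lit 0) (nat_lit 44959643358) (nat_lit 228) (nat_lit 9461818134) (nat_lit 76) (nat_lit 2869362455) (nat_lit 45) (nat_lit 5) (nat_lit 48) (nat_lit 5) (nat_lit 46) (nat_lit 5) (nat_lit 380) (nat_lit 298) (nat_lit 102))) (XT.nd (nat_lit 78) (nat_lit 76) (nat_lit 0) (XT.lf (nat_lit 0) (nat_lit 15121913795) (nat_lit 152) (nat_lit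 41135067101) (nat_lit 228) (nat_lit 2310924145) (nat_lit 43) (nat_lit 5) (nat_lit 45) (nat_lit 5) (nat_lit 46) (nat_lit 5) (nat_lit 381) (nat_lit 298) (nat_lit 101)) (XT.lf (nat_lit 0) (nat_lit 7947545721) (nat_lit 228) (nat_lit 19325652774) (nat_lit 76) (nat_lit 32604973949) (nat_lit 42) (nat_lit 5) (nat_lit 45) (nat_lit 5) (nat_lit 43) (nat_lit 5) (nat_lit 382) (nat_lit 298) (nat_lit 100))))) (XT.nd (nat_lit 312) (nat_lit 228) (nat_lit 0) (XT.nd (nat_lit 156) (nat_lit 152) (nat_lit 0) (XT.nd (nat_lit 78) (nat_lit 0) (nat_lit 0) (XT.lf (nat_lit 0) (nat_lit 5600434216) (nat_lit 152) (nat_lit 12918214920) (nat_lit 228) (nat_lit 42706873514) (nat_lit 40) (nat_lit 5) (nat_lit 42) (nat_lit 5) (nat_lit 43) (nat_lit 5) (nat_lit 383) (nat_lit 298) (nat_lit 99)) (XT.lf (nat_lit 0) (nat_lit 29619427391) (nat_lit 228) (nat_lit 30961143480) (nat_lit 76) (nat_lit 2026347207) (nat_lit 40) (nat_lit 5) (nat_lit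 43) (nat_lit 5) (nat_lit 41) (nat_lit 5) (nat_lit 384) (nat_lit 298) (nat_lit 98))) (XT.nd (nat_lit 78) (nat_lit 152) (nat_lit 0) (XT.lf (nat_lit 0) (nat_lit 41178712287) (nat_lit 228) (nat_lit 5689341013) (nat_lit 76) (nat_lit 17157938509) (nat_lit 40) (nat_lit 5) (nat_lit 43) (nat_lit 5) (nat_lit 41) (nat_lit 5) (nat_lit 385) (nat_lit 298) (nat_lit 97)) (XT.lf (nat_lit 0) (nat_lit 20741316705) (nat_lit 152) (nat_lit 32540487904) (nat_lit 228) (nat_lit 12199923187) (nat_lit 38) (nat_lit 5) (nat_lit 40) (nat_lit 5) (nat_lit 41) (nat_lit 5) (nat_lit 386) (nat_lit 298) (nat_lit 96)))) (XT.nd (nat_lit 156) (nat_lit 0) (nat_lit 0) (XT.nd (nat_lit 78) (nat_lit 228) (nat_lit 0) (XT.lf (nat_lit 0) (nat_lit 48077523025) (nat_lit 152) (nat_lit 17725598527) (nat_lit 228) (nat_lit 1176361242) (nat_lit 38) (nat_lit 5) (nat_lit 40) (nat_lit 5) (nat_lit 41) (nat_lit 5) (nat_lit 387) (nat_lit 298) (nat_lit 95))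 (XT.lf (nat_lit 0) (nat_lit 7761333657) (nat_lit 152) (nat_lit 2290298032) (nat_lit 228) (nat_lit 58465434545) (nat_lit 35) (nat_lit 5) (nat_lit 37) (nat_lit 5) (nat_lit 38) (nat_lit 5) (nat_lit 388) (nat_lit 298) (nat_lit 94))) (XT.nd (nat_lit 78) (nat_lit 0) (nat_lit 0) (XT.lf (nat_lit 0) (nat_lit 21914130461) (nat_lit 228) (nat_lit 34631340088) (nat_lit 76) (nat_lit 13545318731) (nat_lit 35) (nat_lit 5) (nat_lit 38) (nat_lit 5) (nat_lit 36) (nat_lit 5) (nat_lit 389) (nat_lit 298) (nat_lit 93)) (XT.lf (nat_lit 0) (nat_lit 34152984467) (nat_lit 228) (nat_lit 7749717910) (nat_lit 76) (nat_lit 29808408020) (nat_lit 35) (nat_lit 5) (nat_lit 38) (nat_lit 5) (nat_lit 36) (nat_lit 5) (nat_lit 390) (nat_lit 298) (nat_lit 92))))))) (XT.nd (nat_lit 33618) (nat_lit 0) (nat_lit 13680) (XT.nd (nat_lit 546) (nat_lit 304) (nat_lit 0) (XT.nd (nat_lit 234) (nat_lit 228) (nat_lit 0) (XT.nd (nat_lit 78) (nat_lit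 76) (nat_lit 0) (XT.lf (nat_lit 0) (nat_lit 20331376893) (nat_lit 152) (nat_lit 26620932846) (nat_lit 228) (nat_lit 26421933002) (nat_lit 33) (nat_lit 5) (nat_lit 35) (nat_lit 5) (nat_lit 36) (nat_lit 5) (nat_lit 391) (nat_lit 298) (nat_lit 91)) (XT.nd (nat_lit 78) (nat_lit 76) (nat_lit 0) (XT.lf (nat_lit 0) (nat_lit 49410088142) (nat_lit 152) (nat_lit 10801678337) (nat_lit 228) (nat_lit 14873218767) (nat_lit 33) (nat_lit 5) (nat_lit 35) (nat_lit 5) (nat_lit 36) (nat_lit 5) (nat_lit 392) (nat_lit 298) (nat_lit 90)) (XT.lf (nat_lit 0) (nat_lit 2506611529) (nat_lit 76) (nat_lit 71437225813) (nat_lit 152) (nat_lit 2900968491) (nat_lit 32) (nat_lit 5) (nat_lit 33) (nat_lit 5) (nat_lit 34) (nat_lit 4) (nat_lit 393) (nat_lit 298) (nat_lit 89)))) (XT.nd (nat_lit 156) (nat_lit 152) (nat_lit 0) (XT.nd (nat_lit 78) (nat_lit 0) (nat_lit 0) (XT.lf (nat_lit 0) (nat_lit 9613153779) (nat_lit 152) (nat_lit 46793557294)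 (nat_lit 76) (nat_lit 22236989309) (nat_lit 31) (nat_lit 5) (nat_lit 33) (nat_lit 5) (nat_lit 32) (nat_lit 5) (nat_lit 394) (nat_lit 298) (nat_lit 88)) (XT.lf (nat_lit 0) (nat_lit 22442399044) (nat_lit 152) (nat_lit 18454822403) (nat_lit 76) (nat_lit 39598539127) (nat_lit 31) (nat_lit 5) (nat_lit 33) (nat_lit 5) (nat_lit 32) (nat_lit 5) (nat_lit 395) (nat_lit 298) (nat_lit 87))) (XT.nd (nat_lit 78) (nat_lit 0) (nat_lit 0) (XT.lf (nat_lit 0) (nat_lit 10944219392) (nat_lit 152) (nat_lit 24815568809) (nat_lit 228) (nat_lit 46640497016) (nat_lit 29) (nat_lit 5) (nat_lit 31) (nat_lit 5) (nat_lit 32) (nat_lit 5) (nat_lit 396) (nat_lit 298) (nat_lit 86)) (XT.lf (nat_lit 0) (nat_lit 41600155420) (nat_lit 152) (nat_lit 8060989005) (nat_lit 228) (nat_lit 34695268432) (nat_lit 29) (nat_lit 5) (nat_lit 31) (nat_lit 5) (nat_lit 32) (nat_lit 5) (nat_lit 397) (nat_lit 298) (nat_lit 85))))) (XT.nd (nat_lit 234)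 (nat_lit 152) (nat_lit 0) (XT.nd (nat_lit 78) (nat_lit 152) (nat_lit 0) (XT.lf (nat_lit 0) (nat_lit 64066070948) (nat_lit 228) (nat_lit 13287181400) (nat_lit 76) (nat_lit 9015376693) (nat_lit 29) (nat_lit 5) (nat_lit 32) (nat_lit 5) (nat_lit 30) (nat_lit 4) (nat_lit 398) (nat_lit 298) (nat_lit 84)) (XT.nd (nat_lit 78) (nat_lit 76) (nat_lit 0) (XT.lf (nat_lit 0) (nat_lit 17320918724) (nat_lit 76) (nat_lit 61826721892) (nat_lit 152) (nat_lit 9286236819) (nat_lit 28) (nat_lit 5) (nat_lit 29) (nat_lit 5) (nat_lit 30) (nat_lit 4) (nat_lit 399) (nat_lit 298) (nat_lit 83)) (XT.lf (nat_lit 0) (nat_lit 4173857926) (nat_lit 152) (nat_lit 41481594820) (nat_lit 76) (nat_lit 44900432071) (nat_lit 27) (nat_lit 5) (nat_lit 29) (nat_lit 5) (nat_lit 28) (nat_lit 5) (nat_lit 400) (nat_lit 298) (nat_lit 82)))) (XT.nd (nat_lit 32682) (nat_lit 0) (nat_lit 13680) (XT.nd (nat_lit 78) (nat_lit 152) (nat_lit 0) (XT.lf (nat_lit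 0) (nat_lit 17849352257) (nat_lit 152) (nat_lit 11056373608) (nat_lit 76) (nat_lit 63833121573) (nat_lit 27) (nat_lit 5) (nat_lit 29) (nat_lit 5) (nat_lit 28) (nat_lit 5) (nat_lit 401) (nat_lit 298) (nat_lit 81)) (XT.lf (nat_lit 0) (nat_lit 20682138064) (nat_lit 152) (nat_lit 11450074863) (nat_lit 228) (nat_lit 62849173488) (nat_lit 25) (nat_lit 5) (nat_lit 27) (nat_lit 5) (nat_lit 28) (nat_lit 5) (nat_lit 402) (nat_lit 298) (nat_lit 80))) (XT.nd (nat_lit 78) (nat_lit 0) (nat_lit 0) (XT.lf (nat_lit 0) (nat_lit 146584238) (nat_lit 0) (nat_lit 146584238) (nat_lit 1140) (nat_lit 6307568301) (nat_lit 205) (nat_lit 5) (nat_lit 205) (nat_lit 3) (nat_lit 220) (nat_lit 3) (nat_lit 299) (nat_lit 299) (nat_lit 182)) (XT.lf (nat_lit 0) (nat_lit 1023071871) (nat_lit 1140) (nat_lit 6895756448) (nat_lit 1216) (nat_lit 5467441891) (nat_lit 205) (nat_lit 5) (nat_lit 220) (nat_lit 3) (nat_lit 221) (nat_lit 5) (nat_lit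 300) (nat_lit 299) (nat_lit 181)))))) (XT.nd (nat_lit 546) (nat_lit 0) (nat_lit 228) (XT.nd (nat_lit 234) (nat_lit 0) (nat_lit 152) (XT.nd (nat_lit 78) (nat_lit 0) (nat_lit 76) (XT.lf (nat_lit 0) (nat_lit 1461272367) (nat_lit 1140) (nat_lit 713562299) (nat_lit 1216) (nat_lit 11402140307) (nat_lit 205) (nat_lit 5) (nat_lit 220) (nat_lit 3) (nat_lit 221) (nat_lit 5) (nat_lit 301) (nat_lit 299) (nat_lit 180)) (XT.nd (nat_lit 78) (nat_lit 0) (nat_lit 0) (XT.lf (nat_lit 0) (nat_lit 1990437146) (nat_lit 1140) (nat_lit 8049880630) (nat_lit 1216) (nat_lit 3730763227) (nat_lit 206) (nat_lit 5) (nat_lit 221) (nat_lit 5) (nat_lit 222) (nat_lit 5) (nat_lit 302) (nat_lit 299) (nat_lit 179)) (XT.lf (nat_lit 0) (nat_lit 2550570032) (nat_lit 1140) (nat_lit 1636778555) (nat_lit 1216) (nat_lit 9783223079) (nat_lit 206) (nat_lit 5) (nat_lit 221) (nat_lit 5) (nat_lit 222) (nat_lit 5) (nat_lit 303) (nat_lit 299) (nat_lit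 178)))) (XT.nd (nat_lit 156) (nat_lit 0) (nat_lit 0) (XT.nd (nat_lit 78) (nat_lit 0) (nat_lit 0) (XT.lf (nat_lit 0) (nat_lit 3181059892) (nat_lit 1140) (nat_lit 9133565968) (nat_lit 1216) (nat_lit 1859828430) (nat_lit 207) (nat_lit 5) (nat_lit 222) (nat_lit 5) (nat_lit 223) (nat_lit 5) (nat_lit 304) (nat_lit 299) (nat_lit 177)) (XT.lf (nat_lit 0) (nat_lit 3875662758) (nat_lit 1140) (nat_lit 2481300729) (nat_lit 1216) (nat_lit 8026147384) (nat_lit 207) (nat_lit 5) (nat_lit 222) (nat_lit 5) (nat_lit 223) (nat_lit 5) (nat_lit 305) (nat_lit 299) (nat_lit 176))) (XT.nd (nat_lit 78) (nat_lit 0) (nat_lit 76) (XT.lf (nat_lit 76) (nat_lit 4449436410) (nat_lit 0) (nat_lit 171862776) (nat_lit 1216) (nat_lit 9975835136) (nat_lit 208) (nat_lit 5) (nat_lit 207) (nat_lit 5) (nat_lit 223) (nat_lit 5) (nat_lit 306) (nat_lit 299) (nat_lit 175)) (XT.lf (nat_lit 0) (nat_lit 5461953974) (nat_lit 1140) (nat_lit 3245968361)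 (nat_lit 1216) (nat_lit 6107489321) (nat_lit 208) (nat_lit 5) (nat_lit 223) (nat_lit 5) (nat_lit 224) (nat_lit 5) (nat_lit 307) (nat_lit 299) (nat_lit 174))))) (XT.nd (nat_lit 312) (nat_lit 0) (nat_lit 152) (XT.nd (nat_lit 156) (nat_lit 0) (nat_lit 76) (XT.nd (nat_lit 78) (nat_lit 0) (nat_lit 76) (XT.lf (nat_lit 76) (nat_lit 3929769387) (nat_lit 0) (nat_lit 2425650873) (nat_lit 1216) (nat_lit 8684001583) (nat_lit 209) (nat_lit 5) (nat_lit 208) (nat_lit 5) (nat_lit 224) (nat_lit 5) (nat_lit 308) (nat_lit 299) (nat_lit 173)) (XT.lf (nat_lit 0) (nat_lit 7336096779) (nat_lit 1140) (nat_lit 3929401960) (nat_lit 1216) (nat_lit 4002853339) (nat_lit 209) (nat_lit 5) (nat_lit 224) (nat_lit 5) (nat_lit 225) (nat_lit 5) (nat_lit 309) (nat_lit 299) (nat_lit 172))) (XT.nd (nat_lit 78) (nat_lit 0) (nat_lit 76) (XT.lf (nat_lit 76) (nat_lit 3502485822) (nat_lit 0) (nat_lit 4890149364) (nat_lit 1216) (nat_lit 7110133369)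 (nat_lit 210) (nat_lit 5) (nat_lit 209) (nat_lit 5) (nat_lit 225) (nat_lit 5) (nat_lit 310) (nat_lit 299) (nat_lit 171)) (XT.lf (nat_lit 0) (nat_lit 9526093170) (nat_lit 1140) (nat_lit 4530046223) (nat_lit 1216) (nat_lit 1686732678) (nat_lit 210) (nat_lit 5) (nat_lit 225) (nat_lit 5) (nat_lit 226) (nat_lit 5) (nat_lit 311) (nat_lit 299) (nat_lit 170)))) (XT.nd (nat_lit 156) (nat_lit 0) (nat_lit 76) (XT.nd (nat_lit 78) (nat_lit 0) (nat_lit 0) (XT.lf (nat_lit 76) (nat_lit 3169584270) (nat_lit 0) (nat_lit 7592211400) (nat_lit 1216) (nat_lit 5226346716) (nat_lit 211) (nat_lit 5) (nat_lit 210) (nat_lit 5) (nat_lit 226) (nat_lit 5) (nat_lit 312) (nat_lit 299) (nat_lit 169)) (XT.lf (nat_lit 76) (nat_lit 11184999249) (nat_lit 0) (nat_lit 884902557) (nat_lit 1216) (nat_lit 4169819629) (nat_lit 211) (nat_lit 5) (nat_lit 210) (nat_lit 5) (nat_lit 226) (nat_lit 5) (nat_lit 313) (nat_lit 299) (nat_lit 168)))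 (XT.nd (nat_lit 78) (nat_lit 0) (nat_lit 0) (XT.lf (nat_lit 76) (nat_lit 2933196826) (nat_lit 0) (nat_lit 10560065889) (nat_lit 1216) (nat_lit 3003315084) (nat_lit 212) (nat_lit 5) (nat_lit 211) (nat_lit 5) (nat_lit 227) (nat_lit 5) (nat_lit 314) (nat_lit 299) (nat_lit 167)) (XT.lf (nat_lit 76) (nat_lit 11247348087) (nat_lit 0) (nat_lit 3761823858) (nat_lit 1216) (nat_lit 1750482477) (nat_lit 212) (nat_lit 5) (nat_lit 211) (nat_lit 5) (nat_lit 227) (nat_lit 5) (nat_lit 315) (nat_lit 299) (nat_lit 166))))))))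
noncomputable def xc192 : XT := (XT.nd (nat_lit 2184) (nat_lit 4028) (nat_lit 0) (XT.nd (nat_lit 1092) (nat_lit 3040) (nat_lit 0) (XT.nd (nat_lit 546) (nat_lit 1672) (nat_lit 0) (XT.nd (nat_lit 234) (nat_lit 1140) (nat_lit 0) (XT.nd (nat_lit 78) (nat_lit 836) (nat_lit 0) (XT.lf (nat_lit 0) (nat_lit 2795538472) (nat_lit 1140) (nat_lit 13823474125) (nat_lit 1216) (nat_lit 410166820) (nat_lit 197) (nat_lit 5) (nat_lit 212) (nat_lit 5) (nat_lit 213) (nat_lit 5) (nat_lit 316) (nat_lit 299) (nat_lit 165)) (XT.nd (nat_lit 78) (nat_lit 760) (nat_lit 0) (XT.lf (nat_lit 0) (nat_lit 1035415817) (nat_lit 1216) (nat_lit 5894911585) (nat_lit 76) (nat_lit 10373672295) (nat_lit 196) (nat_lit 5) (nat_lit 212) (nat_lit 5) (nat_lit 197) (nat_lit 5) (nat_lit 317) (nat_lit 299) (nat_lit 164)) (XT.lf (nat_lit 0) (nat_lit 2535165000) (nat_lit 836) (nat_lit 14853128421) (nat_lit 76) (nat_lit 198086919) (nat_lit 186) (nat_lit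 5) (nat_lit 197) (nat_lit 5) (nat_lit 187) (nat_lit 5) (nat_lit 318) (nat_lit 299) (nat_lit 163)))) (XT.nd (nat_lit 156) (nat_lit 532) (nat_lit 0) (XT.nd (nat_lit 78) (nat_lit 608) (nat_lit 0) (XT.lf (nat_lit 0) (nat_lit 4199649425) (nat_lit 836) (nat_lit 6211803636) (nat_lit 76) (nat_lit 7462195677) (nat_lit 186) (nat_lit 5) (nat_lit 197) (nat_lit 5) (nat_lit 187) (nat_lit 5) (nat_lit 319) (nat_lit 299) (nat_lit 162)) (XT.lf (nat_lit 0) (nat_lit 2734102592) (nat_lit 608) (nat_lit 3197518762) (nat_lit 684) (nat_lit 12237395613) (nat_lit 178) (nat_lit 5) (nat_lit 186) (nat_lit 5) (nat_lit 187) (nat_lit 5) (nat_lit 320) (nat_lit 299) (nat_lit 161))) (XT.nd (nat_lit 78) (nat_lit 532) (nat_lit 0) (XT.lf (nat_lit 0) (nat_lit 7811044171) (nat_lit 684) (nat_lit 6445154741) (nat_lit 76) (nat_lit 4214190703) (nat_lit 178) (nat_lit 5) (nat_lit 187) (nat_lit 5) (nat_lit 179) (nat_lit 5) (nat_lit 321) (nat_lit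 299) (nat_lit 160)) (XT.lf (nat_lit 0) (nat_lit 2829896916) (nat_lit 532) (nat_lit 6967517987) (nat_lit 608) (nat_lit 8981879469) (nat_lit 171) (nat_lit 5) (nat_lit 178) (nat_lit 5) (nat_lit 179) (nat_lit 5) (nat_lit 322) (nat_lit 299) (nat_lit 159))))) (XT.nd (nat_lit 234) (nat_lit 1140) (nat_lit 0) (XT.nd (nat_lit 78) (nat_lit 532) (nat_lit 0) (XT.lf (nat_lit 0) (nat_lit 11906165800) (nat_lit 608) (nat_lit 6594167286) (nat_lit 76) (nat_lit 595257174) (nat_lit 171) (nat_lit 5) (nat_lit 179) (nat_lit 5) (nat_lit 172) (nat_lit 5) (nat_lit 323) (nat_lit 299) (nat_lit 158)) (XT.nd (nat_lit 78) (nat_lit 0) (nat_lit 0) (XT.lf (nat_lit 0) (nat_lit 3023838019) (nat_lit 532) (nat_lit 11144502360) (nat_lit 608) (nat_lit 5250337244) (nat_lit 164) (nat_lit 5) (nat_lit 171) (nat_lit 5) (nat_lit 172) (nat_lit 5) (nat_lit 324) (nat_lit 299) (nat_lit 157)) (XT.lf (nat_lit 0) (nat_lit 13057732508) (nat_lit 532)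 (nat_lit 3499499318) (nat_lit 608) (nat_lit 3192467452) (nat_lit 164) (nat_lit 5) (nat_lit 171) (nat_lit 5) (nat_lit 172) (nat_lit 5) (nat_lit 325) (nat_lit 299) (nat_lit 156)))) (XT.nd (nat_lit 156) (nat_lit 532) (nat_lit 0) (XT.nd (nat_lit 78) (nat_lit 76) (nat_lit 0) (XT.lf (nat_lit 0) (nat_lit 3316833292) (nat_lit 532) (nat_lit 15767381906) (nat_lit 608) (nat_lit 1004450637) (nat_lit 157) (nat_lit 5) (nat_lit 164) (nat_lit 5) (nat_lit 165) (nat_lit 5) (nat_lit 326) (nat_lit 299) (nat_lit 155)) (XT.lf (nat_lit 0) (nat_lit 1320276121) (nat_lit 608) (nat_lit 6727930335) (nat_lit 76) (nat_lit 12386377914) (nat_lit 156) (nat_lit 5) (nat_lit 164) (nat_lit 5) (nat_lit 157) (nat_lit 5) (nat_lit 327) (nat_lit 299) (nat_lit 154))) (XT.nd (nat_lit 78) (nat_lit 0) (nat_lit 0) (XT.lf (nat_lit 0) (nat_lit 3671307994) (nat_lit 532) (nat_lit 51308640) (nat_lit 608) (nat_lit 17067130078) (nat_lit 149) (nat_lit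 5) (nat_lit 156) (nat_lit 5) (nat_lit 157) (nat_lit 5) (nat_lit 328) (nat_lit 299) (nat_lit 153)) (XT.lf (nat_lit 0) (nat_lit 6337225126) (nat_lit 608) (nat_lit 6720258167) (nat_lit 76) (nat_lit 8093880923) (nat_lit 149) (nat_lit 5) (nat_lit 157) (nat_lit 5) (nat_lit 150) (nat_lit 5) (nat_lit 329) (nat_lit 299) (nat_lit 152)))))) (XT.nd (nat_lit 546) (nat_lit 1216) (nat_lit 0) (XT.nd (nat_lit 234) (nat_lit 912) (nat_lit 0) (XT.nd (nat_lit 78) (nat_lit 456) (nat_lit 0) (XT.lf (nat_lit 0) (nat_lit 4061017292) (nat_lit 456) (nat_lit 5001908501) (nat_lit 532) (nat_lit 12459930880) (nat_lit 143) (nat_lit 5) (nat_lit 149) (nat_lit 5) (nat_lit 150) (nat_lit 5) (nat_lit 330) (nat_lit 299) (nat_lit 151)) (XT.nd (nat_lit 78) (nat_lit 456) (nat_lit 0) (XT.lf (nat_lit 0) (nat_lit 11963837777) (nat_lit 532) (nat_lit 6640031717) (nat_lit 76) (nat_lit 3298827071) (nat_lit 143) (nat_lit 5) (nat_lit 150) (nat_lit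 5) (nat_lit 144) (nat_lit 5) (nat_lit 331) (nat_lit 299) (nat_lit 150)) (XT.lf (nat_lit 0) (nat_lit 4537968422) (nat_lit 456) (nat_lit 10500381658) (nat_lit 532) (nat_lit 7252990083) (nat_lit 137) (nat_lit 5) (nat_lit 143) (nat_lit 5) (nat_lit 144) (nat_lit 5) (nat_lit 332) (nat_lit 299) (nat_lit 149)))) (XT.nd (nat_lit 156) (nat_lit 532) (nat_lit 0) (XT.nd (nat_lit 78) (nat_lit 380) (nat_lit 0) (XT.lf (nat_lit 0) (nat_lit 16180006120) (nat_lit 456) (nat_lit 2085690461) (nat_lit 532) (nat_lit 4424134055) (nat_lit 137) (nat_lit 5) (nat_lit 143) (nat_lit 5) (nat_lit 144) (nat_lit 5) (nat_lit 333) (nat_lit 299) (nat_lit 148)) (XT.lf (nat_lit 0) (nat_lit 5099896760) (nat_lit 380) (nat_lit 16595981352) (nat_lit 456) (nat_lit 1401222642) (nat_lit 132) (nat_lit 5) (nat_lit 137) (nat_lit 5) (nat_lit 138) (nat_lit 5) (nat_lit 334) (nat_lit 299) (nat_lit 147))) (XT.nd (nat_lit 78) (nat_lit 456) (nat_lit 0)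 (XT.lf (nat_lit 0) (nat_lit 1759771990) (nat_lit 456) (nat_lit 6368465325) (nat_lit 76) (nat_lit 15385438598) (nat_lit 131) (nat_lit 5) (nat_lit 137) (nat_lit 5) (nat_lit 132) (nat_lit 5) (nat_lit 335) (nat_lit 299) (nat_lit 146)) (XT.lf (nat_lit 0) (nat_lit 5042546026) (nat_lit 532) (nat_lit 18247998603) (nat_lit 76) (nat_lit 650139024) (nat_lit 125) (nat_lit 5) (nat_lit 132) (nat_lit 5) (nat_lit 126) (nat_lit 5) (nat_lit 336) (nat_lit 299) (nat_lit 145))))) (XT.nd (nat_lit 234) (nat_lit 836) (nat_lit 0) (XT.nd (nat_lit 78) (nat_lit 380) (nat_lit 0) (XT.lf (nat_lit 0) (nat_lit 8563276418) (nat_lit 532) (nat_lit 6220794588) (nat_lit 76) (nat_lit 9592251198) (nat_lit 125) (nat_lit 5) (nat_lit 132) (nat_lit 5) (nat_lit 126) (nat_lit 5) (nat_lit 337) (nat_lit 299) (nat_lit 144)) (XT.nd (nat_lit 78) (nat_lit 0) (nat_lit 0) (XT.lf (nat_lit 0) (nat_lit 6282712096) (nat_lit 380) (nat_lit 5961533005) (nat_lit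 456) (nat_lit 12579150952) (nat_lit 120) (nat_lit 5) (nat_lit 125) (nat_lit 5) (nat_lit 126) (nat_lit 5) (nat_lit 338) (nat_lit 299) (nat_lit 143)) (XT.lf (nat_lit 0) (nat_lit 16123439138) (nat_lit 456) (nat_lit 6031025058) (nat_lit 76) (nat_lit 3126788532) (nat_lit 120) (nat_lit 5) (nat_lit 126) (nat_lit 5) (nat_lit 121) (nat_lit 5) (nat_lit 339) (nat_lit 299) (nat_lit 142)))) (XT.nd (nat_lit 156) (nat_lit 456) (nat_lit 0) (XT.nd (nat_lit 78) (nat_lit 0) (nat_lit 0) (XT.lf (nat_lit 0) (nat_lit 6922997230) (nat_lit 380) (nat_lit 13316061187) (nat_lit 456) (nat_lit 5510189569) (nat_lit 115) (nat_lit 5) (nat_lit 120) (nat_lit 5) (nat_lit 121) (nat_lit 5) (nat_lit 340) (nat_lit 299) (nat_lit 141)) (XT.lf (nat_lit 0) (nat_lit 20382344945) (nat_lit 380) (nat_lit 4151273431) (nat_lit 456) (nat_lit 1696004803) (nat_lit 115) (nat_lit 5) (nat_lit 120) (nat_lit 5) (nat_lit 121) (nat_lit 5) (nat_lit 341) (nat_lit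 299) (nat_lit 140))) (XT.nd (nat_lit 78) (nat_lit 0) (nat_lit 0) (XT.lf (nat_lit 0) (nat_lit 2308931545) (nat_lit 456) (nat_lit 19131597653) (nat_lit 76) (nat_lit 5279643825) (nat_lit 109) (nat_lit 5) (nat_lit 115) (nat_lit 5) (nat_lit 110) (nat_lit 5) (nat_lit 342) (nat_lit 299) (nat_lit 139)) (XT.lf (nat_lit 0) (nat_lit 6495408254) (nat_lit 456) (nat_lit 5741691348) (nat_lit 76) (nat_lit 14984975469) (nat_lit 109) (nat_lit 5) (nat_lit 115) (nat_lit 5) (nat_lit 110) (nat_lit 5) (nat_lit 343) (nat_lit 299) (nat_lit 138))))))) (XT.nd (nat_lit 1092) (nat_lit 1748) (nat_lit 0) (XT.nd (nat_lit 546) (nat_lit 912) (nat_lit 0) (XT.nd (nat_lit 234) (nat_lit 684) (nat_lit 0) (XT.nd (nat_lit 78) (nat_lit 304) (nat_lit 0) (XT.lf (nat_lit 0) (nat_lit 8203275992) (nat_lit 380) (nat_lit 2677959061) (nat_lit 456) (nat_lit 16855590219) (nat_lit 104) (nat_lit 5) (nat_lit 109) (nat_lit 5) (nat_lit 110) (nat_lit 5)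 (nat_lit 344) (nat_lit 299) (nat_lit 137)) (XT.nd (nat_lit 78) (nat_lit 304) (nat_lit 0) (XT.lf (nat_lit 0) (nat_lit 15521063152) (nat_lit 456) (nat_lit 5657248247) (nat_lit 76) (nat_lit 7085037444) (nat_lit 104) (nat_lit 5) (nat_lit 110) (nat_lit 5) (nat_lit 105) (nat_lit 5) (nat_lit 345) (nat_lit 299) (nat_lit 136)) (XT.lf (nat_lit 0) (nat_lit 8773442201) (nat_lit 304) (nat_lit 11632610377) (nat_lit 380) (nat_lit 8396440099) (nat_lit 100) (nat_lit 5) (nat_lit 104) (nat_lit 5) (nat_lit 105) (nat_lit 5) (nat_lit 346) (nat_lit 299) (nat_lit 135)))) (XT.nd (nat_lit 156) (nat_lit 304) (nat_lit 0) (XT.nd (nat_lit 78) (nat_lit 380) (nat_lit 0) (XT.lf (nat_lit 0) (nat_lit 23746499354) (nat_lit 304) (nat_lit 1743415342) (nat_lit 380) (nat_lit 3866329887) (nat_lit 100) (nat_lit 5) (nat_lit 104) (nat_lit 5) (nat_lit 105) (nat_lit 5) (nat_lit 347) (nat_lit 299) (nat_lit 134)) (XT.lf (nat_lit 0) (nat_lit 951945510)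 (nat_lit 380) (nat_lit 20594239660) (nat_lit 76) (nat_lit 8375160517) (nat_lit 95) (nat_lit 5) (nat_lit 100) (nat_lit 5) (nat_lit 96) (nat_lit 5) (nat_lit 348) (nat_lit 299) (nat_lit 133))) (XT.nd (nat_lit 78) (nat_lit 304) (nat_lit 0) (XT.lf (nat_lit 0) (nat_lit 5906875437) (nat_lit 380) (nat_lit 5737237982) (nat_lit 76) (nat_lit 18856046677) (nat_lit 95) (nat_lit 5) (nat_lit 100) (nat_lit 5) (nat_lit 96) (nat_lit 5) (nat_lit 349) (nat_lit 299) (nat_lit 132)) (XT.lf (nat_lit 0) (nat_lit 9749417290) (nat_lit 304) (nat_lit 1350234729) (nat_lit 380) (nat_lit 19994014016) (nat_lit 91) (nat_lit 5) (nat_lit 95) (nat_lit 5) (nat_lit 96) (nat_lit 5) (nat_lit 350) (nat_lit 299) (nat_lit 131))))) (XT.nd (nat_lit 234) (nat_lit 608) (nat_lit 0) (XT.nd (nat_lit 78) (nat_lit 304) (nat_lit 0) (XT.lf (nat_lit 0) (nat_lit 16591196445) (nat_lit 380) (nat_lit 5980833104) (nat_lit 76) (nat_lit 9128661041) (nat_lit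 91) (nat_lit 5) (nat_lit 96) (nat_lit 5) (nat_lit 92) (nat_lit 5) (nat_lit 351) (nat_lit 299) (nat_lit 130)) (XT.nd (nat_lit 78) (nat_lit 0) (nat_lit 0) (XT.lf (nat_lit 0) (nat_lit 10019457238) (nat_lit 304) (nat_lit 12333377574) (nat_lit 380) (nat_lit 9969933529) (nat_lit 87) (nat_lit 5) (nat_lit 91) (nat_lit 5) (nat_lit 92) (nat_lit 5) (nat_lit 352) (nat_lit 299) (nat_lit 129)) (XT.lf (nat_lit 0) (nat_lit 26616243237) (nat_lit 304) (nat_lit 1727207041) (nat_lit 380) (nat_lit 4618377112) (nat_lit 87) (nat_lit 5) (nat_lit 91) (nat_lit 5) (nat_lit 92) (nat_lit 5) (nat_lit 353) (nat_lit 299) (nat_lit 128)))) (XT.nd (nat_lit 156) (nat_lit 304) (nat_lit 0) (XT.nd (nat_lit 78) (nat_lit 0) (nat_lit 0) (XT.lf (nat_lit 0) (nat_lit 1060341031) (nat_lit 304) (nat_lit 23429620430) (nat_lit 76) (nat_lit 9124320013) (nat_lit 83) (nat_lit 5) (nat_lit 87) (nat_lit 5) (nat_lit 84) (nat_lit 5) (nat_lit 354) (nat_lit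 299) (nat_lit 127)) (XT.lf (nat_lit 0) (nat_lit 6894270119) (nat_lit 304) (nat_lit 7013028599) (nat_lit 76) (nat_lit 20375311007) (nat_lit 83) (nat_lit 5) (nat_lit 87) (nat_lit 5) (nat_lit 84) (nat_lit 5) (nat_lit 355) (nat_lit 299) (nat_lit 126))) (XT.nd (nat_lit 78) (nat_lit 0) (nat_lit 0) (XT.lf (nat_lit 0) (nat_lit 10086999922) (nat_lit 304) (nat_lit 2909160888) (nat_lit 380) (nat_lit 21972041194) (nat_lit 79) (nat_lit 5) (nat_lit 83) (nat_lit 5) (nat_lit 84) (nat_lit 5) (nat_lit 356) (nat_lit 299) (nat_lit 125)) (XT.lf (nat_lit 0) (nat_lit 19429579237) (nat_lit 380) (nat_lit 7916017050) (nat_lit 76) (nat_lit 8324314050) (nat_lit 79) (nat_lit 5) (nat_lit 84) (nat_lit 5) (nat_lit 80) (nat_lit 5) (nat_lit 357) (nat_lit 299) (nat_lit 124)))))) (XT.nd (nat_lit 546) (nat_lit 760) (nat_lit 0) (XT.nd (nat_lit 234) (nat_lit 456) (nat_lit 0) (XT.nd (nat_lit 78) (nat_lit 304) (nat_lit 0) (XT.lf (nat_lit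 0) (nat_lit 9713090289) (nat_lit 228) (nat_lit 16461221659) (nat_lit 304) (nat_lit 10214810968) (nat_lit 76) (nat_lit 5) (nat_lit 79) (nat_lit 5) (nat_lit 80) (nat_lit 5) (nat_lit 358) (nat_lit 299) (nat_lit 123)) (XT.nd (nat_lit 78) (nat_lit 304) (nat_lit 0) (XT.lf (nat_lit 0) (nat_lit 28027630931) (nat_lit 228) (nat_lit 5169889488) (nat_lit 304) (nat_lit 3930109720) (nat_lit 76) (nat_lit 5) (nat_lit 79) (nat_lit 5) (nat_lit 80) (nat_lit 5) (nat_lit 359) (nat_lit 299) (nat_lit 122)) (XT.lf (nat_lit 0) (nat_lit 2640943590) (nat_lit 304) (nat_lit 28796394451) (nat_lit 76) (nat_lit 6445800200) (nat_lit 72) (nat_lit 5) (nat_lit 76) (nat_lit 5) (nat_lit 73) (nat_lit 5) (nat_lit 360) (nat_lit 299) (nat_lit 121)))) (XT.nd (nat_lit 156) (nat_lit 228) (nat_lit 0) (XT.nd (nat_lit 78) (nat_lit 228) (nat_lit 0) (XT.lf (nat_lit 0) (nat_lit 9470432724) (nat_lit 304) (nat_lit 10749593150) (nat_lit 76) (nat_lit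 18435911571) (nat_lit 72) (nat_lit 5) (nat_lit 76) (nat_lit 5) (nat_lit 73) (nat_lit 5) (nat_lit 361) (nat_lit 299) (nat_lit 120)) (XT.lf (nat_lit 0) (nat_lit 7989011783) (nat_lit 228) (nat_lit 8589004137) (nat_lit 304) (nat_lit 22871710451) (nat_lit 69) (nat_lit 5) (nat_lit 72) (nat_lit 5) (nat_lit 73) (nat_lit 5) (nat_lit 362) (nat_lit 299) (nat_lit 119))) (XT.nd (nat_lit 78) (nat_lit 228) (nat_lit 0) (XT.lf (nat_lit 0) (nat_lit 24037494973) (nat_lit 304) (nat_lit 12793142678) (nat_lit 76) (nat_lit 3432533228) (nat_lit 69) (nat_lit 5) (nat_lit 73) (nat_lit 5) (nat_lit 70) (nat_lit 5) (nat_lit 363) (nat_lit 299) (nat_lit 118)) (XT.lf (nat_lit 0) (nat_lit 6470306233) (nat_lit 228) (nat_lit 25394239736) (nat_lit 304) (nat_lit 9232161035) (nat_lit 66) (nat_lit 5) (nat_lit 69) (nat_lit 5) (nat_lit 70) (nat_lit 5) (nat_lit 364) (nat_lit 299) (nat_lit 117))))) (XT.nd (nat_lit 312) (nat_lit 228) (nat_lit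 0) (XT.nd (nat_lit 156) (nat_lit 228) (nat_lit 0) (XT.nd (nat_lit 78) (nat_lit 304) (nat_lit 0) (XT.lf (nat_lit 0) (nat_lit 26568588647) (nat_lit 228) (nat_lit 13483606227) (nat_lit 304) (nat_lit 1899282600) (nat_lit 66) (nat_lit 5) (nat_lit 69) (nat_lit 5) (nat_lit 70) (nat_lit 5) (nat_lit 365) (nat_lit 299) (nat_lit 116)) (XT.lf (nat_lit 0) (nat_lit 4465490483) (nat_lit 228) (nat_lit 1117360268) (nat_lit 304) (nat_lit 37246223974) (nat_lit 62) (nat_lit 5) (nat_lit 65) (nat_lit 5) (nat_lit 66) (nat_lit 5) (nat_lit 366) (nat_lit 299) (nat_lit 115))) (XT.nd (nat_lit 78) (nat_lit 228) (nat_lit 0) (XT.lf (nat_lit 0) (nat_lit 13516541192) (nat_lit 304) (nat_lit 18640985528) (nat_lit 76) (nat_lit 11566952723) (nat_lit 62) (nat_lit 5) (nat_lit 66) (nat_lit 5) (nat_lit 63) (nat_lit 5) (nat_lit 367) (nat_lit 299) (nat_lit 114)) (XT.lf (nat_lit 0) (nat_lit 1690100389) (nat_lit 228) (nat_lit 20022241939)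 (nat_lit 304) (nat_lit 22933682620) (nat_lit 59) (nat_lit 5) (nat_lit 62) (nat_lit 5) (nat_lit 63) (nat_lit 5) (nat_lit 368) (nat_lit 299) (nat_lit 113)))) (XT.nd (nat_lit 156) (nat_lit 228) (nat_lit 0) (XT.nd (nat_lit 78) (nat_lit 0) (nat_lit 0) (XT.lf (nat_lit 0) (nat_lit 23008183159) (nat_lit 228) (nat_lit 7330907332) (nat_lit 304) (nat_lit 15250575738) (nat_lit 59) (nat_lit 5) (nat_lit 62) (nat_lit 5) (nat_lit 63) (nat_lit 5) (nat_lit 369) (nat_lit 299) (nat_lit 112)) (XT.lf (nat_lit 0) (nat_lit 39276738797) (nat_lit 304) (nat_lit 1655982343) (nat_lit 76) (nat_lit 5627334228) (nat_lit 59) (nat_lit 5) (nat_lit 63) (nat_lit 5) (nat_lit 60) (nat_lit 5) (nat_lit 370) (nat_lit 299) (nat_lit 111))) (XT.nd (nat_lit 78) (nat_lit 0) (nat_lit 0) (XT.lf (nat_lit 0) (nat_lit 1171457108) (nat_lit 228) (nat_lit 27348812631) (nat_lit 76) (nat_lit 19031026533) (nat_lit 56) (nat_lit 5) (nat_lit 59) (nat_lit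 5) (nat_lit 57) (nat_lit 5) (nat_lit 371) (nat_lit 299) (nat_lit 110)) (XT.lf (nat_lit 0) (nat_lit 9747384940) (nat_lit 228) (nat_lit 5898255341) (nat_lit 76) (nat_lit 32924055230) (nat_lit 56) (nat_lit 5) (nat_lit 59) (nat_lit 5) (nat_lit 57) (nat_lit 5) (nat_lit 372) (nat_lit 299) (nat_lit 109))))))))
noncomputable def xc193 : XT := (XT.nd (nat_lit 2184) (nat_lit 76) (nat_lit 0) (XT.nd (nat_lit 1092) (nat_lit 912) (nat_lit 0) (XT.nd (nat_lit 546) (nat_lit 532) (nat_lit 0) (XT.nd (nat_lit 234) (nat_lit 304) (nat_lit 0) (XT.nd (nat_lit 78) (nat_lit 152) (nat_lit 0) (XT.lf (nat_lit 0) (nat_lit 16513340197) (nat_lit 228) (nat_lit 2223084458) (nat_lit 304) (nat_lit 30877548428) (nat_lit 53) (nat_lit 5) (nat_lit 56) (nat_lit 5) (nat_lit 57) (nat_lit 5) (nat_lit 373) (nat_lit 299) (nat_lit 108)) (XT.nd (nat_lit 78) (nat_lit 152) (nat_lit 0) (XT.lf (nat_lit 0) (nat_lit 28163933079) (nat_lit 304) (nat_lit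 11086453639) (nat_lit 76) (nat_lit 11434129679) (nat_lit 53) (nat_lit 5) (nat_lit 57) (nat_lit 5) (nat_lit 54) (nat_lit 5) (nat_lit 374) (nat_lit 299) (nat_lit 107)) (XT.lf (nat_lit 0) (nat_lit 11791638677) (nat_lit 152) (nat_lit 26215191187) (nat_lit 228) (nat_lit 13776370552) (nat_lit 51) (nat_lit 5) (nat_lit 53) (nat_lit 5) (nat_lit 54) (nat_lit 5) (nat_lit 375) (nat_lit 299) (nat_lit 106)))) (XT.nd (nat_lit 156) (nat_lit 0) (nat_lit 0) (XT.nd (nat_lit 78) (nat_lit 304) (nat_lit 0) (XT.lf (nat_lit 0) (nat_lit 35578781371) (nat_lit 152) (nat_lit 12675425221) (nat_lit 228) (nat_lit 4657363836) (nat_lit 51) (nat_lit 5) (nat_lit 53) (nat_lit 5) (nat_lit 54) (nat_lit 5) (nat_lit 376) (nat_lit 299) (nat_lit 105)) (XT.lf (nat_lit 0) (nat_lit 4711720886) (nat_lit 304) (nat_lit 48009697623) (nat_lit 76) (nat_lit 1348941421) (nat_lit 47) (nat_lit 5) (nat_lit 51) (nat_lit 5) (nat_lit 48) (nat_lit 5) (nat_lit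 377) (nat_lit 299) (nat_lit 104))) (XT.nd (nat_lit 78) (nat_lit 0) (nat_lit 0) (XT.lf (nat_lit 0) (nat_lit 14567842610) (nat_lit 304) (nat_lit 24925281262) (nat_lit 76) (nat_lit 15760419837) (nat_lit 47) (nat_lit 5) (nat_lit 51) (nat_lit 5) (nat_lit 48) (nat_lit 5) (nat_lit 378) (nat_lit 299) (nat_lit 103)) (XT.lf (nat_lit 0) (nat_lit 24717039712) (nat_lit 304) (nat_lit 1152698082) (nat_lit 76) (nat_lit 30602564579) (nat_lit 47) (nat_lit 5) (nat_lit 51) (nat_lit 5) (nat_lit 48) (nat_lit 5) (nat_lit 379) (nat_lit 299) (nat_lit 102))))) (XT.nd (nat_lit 234) (nat_lit 228) (nat_lit 0) (XT.nd (nat_lit 78) (nat_lit 152) (nat_lit 0) (XT.lf (nat_lit 0) (nat_lit 23793113419) (nat_lit 152) (nat_lit 11603780962) (nat_lit 228) (nat_lit 22323945053) (nat_lit 45) (nat_lit 5) (nat_lit 47) (nat_lit 5) (nat_lit 48) (nat_lit 5) (nat_lit 380) (nat_lit 299) (nat_lit 101)) (XT.nd (nat_lit 78) (nat_lit 152) (nat_lit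 0) (XT.lf (nat_lit 0) (nat_lit 46436089170) (nat_lit 228) (nat_lit 9529631329) (nat_lit 76) (nat_lit 3039944833) (nat_lit 45) (nat_lit 5) (nat_lit 48) (nat_lit 5) (nat_lit 46) (nat_lit 5) (nat_lit 381) (nat_lit 299) (nat_lit 100)) (XT.lf (nat_lit 0) (nat_lit 15789494505) (nat_lit 152) (nat_lit 42281190539) (nat_lit 228) (nat_lit 2250425229) (nat_lit 43) (nat_lit 5) (nat_lit 45) (nat_lit 5) (nat_lit 46) (nat_lit 5) (nat_lit 382) (nat_lit 299) (nat_lit 99)))) (XT.nd (nat_lit 156) (nat_lit 0) (nat_lit 0) (XT.nd (nat_lit 78) (nat_lit 152) (nat_lit 0) (XT.lf (nat_lit 0) (nat_lit 8309557776) (nat_lit 228) (nat_lit 19695221151) (nat_lit 76) (nat_lit 33665982031) (nat_lit 42) (nat_lit 5) (nat_lit 45) (nat_lit 5) (nat_lit 43) (nat_lit 5) (nat_lit 383) (nat_lit 299) (nat_lit 98)) (XT.lf (nat_lit 0) (nat_lit 5976587652) (nat_lit 152) (nat_lit 13219607832) (nat_lit 228) (nat_lit 43862385582) (nat_lit 40) (nat_lit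 5) (nat_lit 42) (nat_lit 5) (nat_lit 43) (nat_lit 5) (nat_lit 384) (nat_lit 299) (nat_lit 97))) (XT.nd (nat_lit 78) (nat_lit 0) (nat_lit 0) (XT.lf (nat_lit 0) (nat_lit 30627248110) (nat_lit 228) (nat_lit 31685104472) (nat_lit 76) (nat_lit 2169149632) (nat_lit 40) (nat_lit 5) (nat_lit 43) (nat_lit 5) (nat_lit 41) (nat_lit 5) (nat_lit 385) (nat_lit 299) (nat_lit 96)) (XT.lf (nat_lit 0) (nat_lit 42529838605) (nat_lit 228) (nat_lit 5661115114) (nat_lit 76) (nat_lit 17752299974) (nat_lit 40) (nat_lit 5) (nat_lit 43) (nat_lit 5) (nat_lit 41) (nat_lit 5) (nat_lit 386) (nat_lit 299) (nat_lit 95)))))) (XT.nd (nat_lit 546) (nat_lit 380) (nat_lit 0) (XT.nd (nat_lit 234) (nat_lit 152) (nat_lit 0) (XT.nd (nat_lit 78) (nat_lit 228) (nat_lit 0) (XT.lf (nat_lit 0) (nat_lit 21560512275) (nat_lit 152) (nat_lit 33434032889) (nat_lit 228) (nat_lit 12448162260) (nat_lit 38) (nat_lit 5) (nat_lit 40) (nat_lit 5) (nat_lit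 41) (nat_lit 5) (nat_lit 387) (nat_lit 299) (nat_lit 94)) (XT.nd (nat_lit 78) (nat_lit 228) (nat_lit 0) (XT.lf (nat_lit 0) (nat_lit 49711068200) (nat_lit 152) (nat_lit 18177104685) (nat_lit 228) (nat_lit 1097323319) (nat_lit 38) (nat_lit 5) (nat_lit 40) (nat_lit 5) (nat_lit 41) (nat_lit 5) (nat_lit 388) (nat_lit 299) (nat_lit 93)) (XT.lf (nat_lit 0) (nat_lit 8185768251) (nat_lit 152) (nat_lit 2278086923) (nat_lit 228) (nat_lit 60105362899) (nat_lit 35) (nat_lit 5) (nat_lit 37) (nat_lit 5) (nat_lit 38) (nat_lit 5) (nat_lit 389) (nat_lit 299) (nat_lit 92)))) (XT.nd (nat_lit 156) (nat_lit 152) (nat_lit 0) (XT.nd (nat_lit 78) (nat_lit 0) (nat_lit 0) (XT.lf (nat_lit 0) (nat_lit 22679760576) (nat_lit 228) (nat_lit 35481759049) (nat_lit 76) (nat_lit 14028708399) (nat_lit 35) (nat_lit 5) (nat_lit 38) (nat_lit 5) (nat_lit 36) (nat_lit 5) (nat_lit 390) (nat_lit 299) (nat_lit 91)) (XT.lf (nat_lit 0) (nat_lit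 35282628565) (nat_lit 228) (nat_lit 7799179115) (nat_lit 76) (nat_lit 30777446771) (nat_lit 35) (nat_lit 5) (nat_lit 38) (nat_lit 5) (nat_lit 36) (nat_lit 5) (nat_lit 391) (nat_lit 299) (nat_lit 90))) (XT.nd (nat_lit 78) (nat_lit 0) (nat_lit 0) (XT.lf (nat_lit 0) (nat_lit 21122554116) (nat_lit 152) (nat_lit 27342061787) (nat_lit 228) (nat_lit 27107705488) (nat_lit 33) (nat_lit 5) (nat_lit 35) (nat_lit 5) (nat_lit 36) (nat_lit 5) (nat_lit 392) (nat_lit 299) (nat_lit 89)) (XT.lf (nat_lit 0) (nat_lit 51068347987) (nat_lit 152) (nat_lit 11050486897) (nat_lit 228) (nat_lit 15215642995) (nat_lit 33) (nat_lit 5) (nat_lit 35) (nat_lit 5) (nat_lit 36) (nat_lit 5) (nat_lit 393) (nat_lit 299) (nat_lit 88))))) (XT.nd (nat_lit 234) (nat_lit 228) (nat_lit 0) (XT.nd (nat_lit 78) (nat_lit 76) (nat_lit 0) (XT.lf (nat_lit 0) (nat_lit 2758352780) (nat_lit 76) (nat_lit 73503980876) (nat_lit 152) (nat_lit 2884776487)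 (nat_lit 32) (nat_lit 5) (nat_lit 33) (nat_lit 5) (nat_lit 34) (nat_lit 4) (nat_lit 394) (nat_lit 299) (nat_lit 87)) (XT.nd (nat_lit 78) (nat_lit 0) (nat_lit 0) (XT.lf (nat_lit 0) (nat_lit 9999807464) (nat_lit 152) (nat_lit 48023975133) (nat_lit 76) (nat_lit 22976248571) (nat_lit 31) (nat_lit 5) (nat_lit 33) (nat_lit 5) (nat_lit 32) (nat_lit 5) (nat_lit 395) (nat_lit 299) (nat_lit 86)) (XT.lf (nat_lit 0) (nat_lit 23211068173) (nat_lit 152) (nat_lit 18840128358) (nat_lit 76) (nat_lit 40856543439) (nat_lit 31) (nat_lit 5) (nat_lit 33) (nat_lit 5) (nat_lit 32) (nat_lit 5) (nat_lit 396) (nat_lit 299) (nat_lit 85)))) (XT.nd (nat_lit 156) (nat_lit 76) (nat_lit 0) (XT.nd (nat_lit 78) (nat_lit 0) (nat_lit 0) (XT.lf (nat_lit 0) (nat_lit 11439234312) (nat_lit 152) (nat_lit 25487568444) (nat_lit 228) (nat_lit 47942633800) (nat_lit 29) (nat_lit 5) (nat_lit 31) (nat_lit 5) (nat_lit 32) (nat_lit 5) (nat_lit 397)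 (nat_lit 299) (nat_lit 84)) (XT.lf (nat_lit 0) (nat_lit 43009993421) (nat_lit 152) (nat_lit 8232461948) (nat_lit 228) (nat_lit 35641875877) (nat_lit 29) (nat_lit 5) (nat_lit 31) (nat_lit 5) (nat_lit 32) (nat_lit 5) (nat_lit 398) (nat_lit 299) (nat_lit 83))) (XT.nd (nat_lit 78) (nat_lit 76) (nat_lit 0) (XT.lf (nat_lit 0) (nat_lit 66077521934) (nat_lit 228) (nat_lit 13526640509) (nat_lit 76) (nat_lit 9352812570) (nat_lit 29) (nat_lit 5) (nat_lit 32) (nat_lit 5) (nat_lit 30) (nat_lit 4) (nat_lit 399) (nat_lit 299) (nat_lit 82)) (XT.lf (nat_lit 0) (nat_lit 17998142262) (nat_lit 76) (nat_lit 63612305450) (nat_lit 152) (nat_lit 9473766717) (nat_lit 28) (nat_lit 5) (nat_lit 29) (nat_lit 5) (nat_lit 30) (nat_lit 4) (nat_lit 400) (nat_lit 299) (nat_lit 81))))))) (XT.nd (nat_lit 33696) (nat_lit 0) (nat_lit 10412) (XT.nd (nat_lit 33150) (nat_lit 0) (nat_lit 13680) (XT.nd (nat_lit 32838) (nat_lit 0) (nat_lit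 13528) (XT.nd (nat_lit 78) (nat_lit 0) (nat_lit 0) (XT.lf (nat_lit 0) (nat_lit 4385753618) (nat_lit 152) (nat_lit 42571285374) (nat_lit 76) (nat_lit 46312895583) (nat_lit 27) (nat_lit 5) (nat_lit 29) (nat_lit 5) (nat_lit 28) (nat_lit 5) (nat_lit 401) (nat_lit 299) (nat_lit 80)) (XT.nd (nat_lit 32682) (nat_lit 0) (nat_lit 13528) (XT.lf (nat_lit 0) (nat_lit 18468988121) (nat_lit 152) (nat_lit 11237815020) (nat_lit 76) (nat_lit 65811659444) (nat_lit 27) (nat_lit 5) (nat_lit 29) (nat_lit 5) (nat_lit 28) (nat_lit 5) (nat_lit 402) (nat_lit 299) (nat_lit 79)) (XT.lf (nat_lit 0) (nat_lit 336351331) (nat_lit 0) (nat_lit 336351331) (nat_lit 1140) (nat_lit 6114550515) (nat_lit 205) (nat_lit 5) (nat_lit 205) (nat_lit 3) (nat_lit 220) (nat_lit 3) (nat_lit 300) (nat_lit 300) (nat_lit 180)))) (XT.nd (nat_lit 156) (nat_lit 0) (nat_lit 76) (XT.nd (nat_lit 78) (nat_lit 0) (nat_lit 0) (XT.lf (nat_lit 0) (nat_lit 1770185864)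 (nat_lit 1140) (nat_lit 6716887093) (nat_lit 1216) (nat_lit 5278547987) (nat_lit 205) (nat_lit 5) (nat_lit 220) (nat_lit 3) (nat_lit 221) (nat_lit 5) (nat_lit 301) (nat_lit 300) (nat_lit 179)) (XT.lf (nat_lit 0) (nat_lit 2200665720) (nat_lit 1140) (nat_lit 360462325) (nat_lit 1216) (nat_lit 11401566496) (nat_lit 205) (nat_lit 5) (nat_lit 220) (nat_lit 3) (nat_lit 221) (nat_lit 5) (nat_lit 302) (nat_lit 300) (nat_lit 178))) (XT.nd (nat_lit 78) (nat_lit 0) (nat_lit 0) (XT.lf (nat_lit 0) (nat_lit 2726050316) (nat_lit 1140) (nat_lit 7896513112) (nat_lit 1216) (nat_lit 3540671036) (nat_lit 206) (nat_lit 5) (nat_lit 221) (nat_lit 5) (nat_lit 222) (nat_lit 5) (nat_lit 303) (nat_lit 300) (nat_lit 177)) (XT.lf (nat_lit 0) (nat_lit 3283300779) (nat_lit 1140) (nat_lit 1302518866) (nat_lit 1216) (nat_lit 9783501239) (nat_lit 206) (nat_lit 5) (nat_lit 221) (nat_lit 5) (nat_lit 222) (nat_lit 5) (nat_lit 304)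 (nat_lit 300) (nat_lit 176))))) (XT.nd (nat_lit 234) (nat_lit 0) (nat_lit 76) (XT.nd (nat_lit 78) (nat_lit 0) (nat_lit 0) (XT.lf (nat_lit 0) (nat_lit 3914731021) (nat_lit 1140) (nat_lit 9005573917) (nat_lit 1216) (nat_lit 1659574129) (nat_lit 207) (nat_lit 5) (nat_lit 222) (nat_lit 5) (nat_lit 223) (nat_lit 5) (nat_lit 305) (nat_lit 300) (nat_lit 175)) (XT.nd (nat_lit 78) (nat_lit 0) (nat_lit 0) (XT.lf (nat_lit 0) (nat_lit 4611582479) (nat_lit 1140) (nat_lit 2165449431) (nat_lit 1216) (nat_lit 8018340393) (nat_lit 207) (nat_lit 5) (nat_lit 222) (nat_lit 5) (nat_lit 223) (nat_lit 5) (nat_lit 306) (nat_lit 300) (nat_lit 174)) (XT.lf (nat_lit 76) (nat_lit 4969383447) (nat_lit 0) (nat_lit 395871427) (nat_lit 1216) (nat_lit 9651010288) (nat_lit 208) (nat_lit 5) (nat_lit 207) (nat_lit 5) (nat_lit 223) (nat_lit 5) (nat_lit 307) (nat_lit 300) (nat_lit 173)))) (XT.nd (nat_lit 156) (nat_lit 0) (nat_lit 76)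 (XT.nd (nat_lit 78) (nat_lit 0) (nat_lit 0) (XT.lf (nat_lit 0) (nat_lit 6211456249) (nat_lit 1140) (nat_lit 2947861118) (nat_lit 1216) (nat_lit 6082381805) (nat_lit 208) (nat_lit 5) (nat_lit 223) (nat_lit 5) (nat_lit 224) (nat_lit 5) (nat_lit 308) (nat_lit 300) (nat_lit 172)) (XT.lf (nat_lit 76) (nat_lit 4439271445) (nat_lit 0) (nat_lit 2679161881) (nat_lit 1216) (nat_lit 8354412771) (nat_lit 209) (nat_lit 5) (nat_lit 208) (nat_lit 5) (nat_lit 224) (nat_lit 5) (nat_lit 309) (nat_lit 300) (nat_lit 171))) (XT.nd (nat_lit 78) (nat_lit 0) (nat_lit 0) (XT.lf (nat_lit 0) (nat_lit 8110172946) (nat_lit 1140) (nat_lit 3648153169) (nat_lit 1216) (nat_lit 3950885963) (nat_lit 209) (nat_lit 5) (nat_lit 224) (nat_lit 5) (nat_lit 225) (nat_lit 5) (nat_lit 310) (nat_lit 300) (nat_lit 170)) (XT.lf (nat_lit 76) (nat_lit 4002778199) (nat_lit 0) (nat_lit 5183292656) (nat_lit 1216) (nat_lit 6764976920) (nat_lit 210)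 (nat_lit 5) (nat_lit 209) (nat_lit 5) (nat_lit 225) (nat_lit 5) (nat_lit 311) (nat_lit 300) (nat_lit 169)))))) (XT.nd (nat_lit 546) (nat_lit 2432) (nat_lit 0) (XT.nd (nat_lit 234) (nat_lit 1064) (nat_lit 0) (XT.nd (nat_lit 78) (nat_lit 0) (nat_lit 0) (XT.lf (nat_lit 0) (nat_lit 10336389512) (nat_lit 1140) (nat_lit 4264559941) (nat_lit 1216) (nat_lit 1597935375) (nat_lit 210) (nat_lit 5) (nat_lit 225) (nat_lit 5) (nat_lit 226) (nat_lit 5) (nat_lit 312) (nat_lit 300) (nat_lit 168)) (XT.nd (nat_lit 78) (nat_lit 0) (nat_lit 0) (XT.lf (nat_lit 76) (nat_lit 3662124294) (nat_lit 0) (nat_lit 7935582256) (nat_lit 1216) (nat_lit 4854166069) (nat_lit 211) (nat_lit 5) (nat_lit 210) (nat_lit 5) (nat_lit 226) (nat_lit 5) (nat_lit 313) (nat_lit 300) (nat_lit 167)) (XT.lf (nat_lit 76) (nat_lit 11906425436) (nat_lit 0) (nat_lit 1023687026) (nat_lit 1216) (nat_lit 3781350093) (nat_lit 211) (nat_lit 5) (nat_lit 210)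 (nat_lit 5) (nat_lit 226) (nat_lit 5) (nat_lit 314) (nat_lit 300) (nat_lit 166)))) (XT.nd (nat_lit 156) (nat_lit 1140) (nat_lit 0) (XT.nd (nat_lit 78) (nat_lit 0) (nat_lit 0) (XT.lf (nat_lit 76) (nat_lit 3419653206) (nat_lit 0) (nat_lit 10964795605) (nat_lit 1216) (nat_lit 2591942331) (nat_lit 212) (nat_lit 5) (nat_lit 211) (nat_lit 5) (nat_lit 227) (nat_lit 5) (nat_lit 315) (nat_lit 300) (nat_lit 165)) (XT.lf (nat_lit 76) (nat_lit 11971623359) (nat_lit 0) (nat_lit 3960045310) (nat_lit 1216) (nat_lit 1316130732) (nat_lit 212) (nat_lit 5) (nat_lit 211) (nat_lit 5) (nat_lit 227) (nat_lit 5) (nat_lit 316) (nat_lit 300) (nat_lit 164))) (XT.nd (nat_lit 78) (nat_lit 0) (nat_lit 0) (XT.lf (nat_lit 0) (nat_lit 52296734) (nat_lit 1216) (nat_lit 14248478031) (nat_lit 76) (nat_lit 3224955563) (nat_lit 196) (nat_lit 5) (nat_lit 212) (nat_lit 5) (nat_lit 197) (nat_lit 5) (nat_lit 317) (nat_lit 300) (nat_lit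 163)) (XT.lf (nat_lit 0) (nat_lit 1519414809) (nat_lit 1216) (nat_lit 5675534577) (nat_lit 76) (nat_lit 10614144764) (nat_lit 196) (nat_lit 5) (nat_lit 212) (nat_lit 5) (nat_lit 197) (nat_lit 5) (nat_lit 318) (nat_lit 300) (nat_lit 162))))) (XT.nd (nat_lit 312) (nat_lit 1064) (nat_lit 0) (XT.nd (nat_lit 156) (nat_lit 608) (nat_lit 0) (XT.nd (nat_lit 78) (nat_lit 0) (nat_lit 0) (XT.lf (nat_lit 0) (nat_lit 3054243619) (nat_lit 836) (nat_lit 14892160367) (nat_lit 76) (nat_lit 153852352) (nat_lit 186) (nat_lit 5) (nat_lit 197) (nat_lit 5) (nat_lit 187) (nat_lit 5) (nat_lit 319) (nat_lit 300) (nat_lit 161)) (XT.lf (nat_lit 0) (nat_lit 4755758974) (nat_lit 836) (nat_lit 6003437448) (nat_lit 76) (nat_lit 7637345844) (nat_lit 186) (nat_lit 5) (nat_lit 197) (nat_lit 5) (nat_lit 187) (nat_lit 5) (nat_lit 320) (nat_lit 300) (nat_lit 160))) (XT.nd (nat_lit 78) (nat_lit 0) (nat_lit 0) (XT.lf (nat_lit 0) (nat_lit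 3206976160) (nat_lit 608) (nat_lit 3323943226) (nat_lit 684) (nat_lit 12170127286) (nat_lit 178) (nat_lit 5) (nat_lit 186) (nat_lit 5) (nat_lit 187) (nat_lit 5) (nat_lit 321) (nat_lit 300) (nat_lit 159)) (XT.lf (nat_lit 0) (nat_lit 8454167940) (nat_lit 684) (nat_lit 6246097278) (nat_lit 76) (nat_lit 4311583650) (nat_lit 178) (nat_lit 5) (nat_lit 187) (nat_lit 5) (nat_lit 179) (nat_lit 5) (nat_lit 322) (nat_lit 300) (nat_lit 158)))) (XT.nd (nat_lit 156) (nat_lit 532) (nat_lit 0) (XT.nd (nat_lit 78) (nat_lit 0) (nat_lit 0) (XT.lf (nat_lit 0) (nat_lit 3303358751) (nat_lit 532) (nat_lit 7188599591) (nat_lit 608) (nat_lit 8838318890) (nat_lit 171) (nat_lit 5) (nat_lit 178) (nat_lit 5) (nat_lit 179) (nat_lit 5) (nat_lit 323) (nat_lit 300) (nat_lit 157)) (XT.lf (nat_lit 0) (nat_lit 12652190679) (nat_lit 608) (nat_lit 6402597363) (nat_lit 76) (nat_lit 601638377) (nat_lit 171) (nat_lit 5) (nat_lit 179) (nat_lit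 5) (nat_lit 172) (nat_lit 5) (nat_lit 324) (nat_lit 300) (nat_lit 156))) (XT.nd (nat_lit 78) (nat_lit 0) (nat_lit 0) (XT.lf (nat_lit 0) (nat_lit 3500130504) (nat_lit 532) (nat_lit 11474480963) (nat_lit 608) (nat_lit 5014834179) (nat_lit 164) (nat_lit 5) (nat_lit 171) (nat_lit 5) (nat_lit 172) (nat_lit 5) (nat_lit 325) (nat_lit 300) (nat_lit 155)) (XT.lf (nat_lit 0) (nat_lit 13823811419) (nat_lit 532) (nat_lit 3600254717) (nat_lit 608) (nat_lit 2906675279) (nat_lit 164) (nat_lit 5) (nat_lit 171) (nat_lit 5) (nat_lit 172) (nat_lit 5) (nat_lit 326) (nat_lit 300) (nat_lit 154))))))))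
noncomputable def xc194 : XT := (XT.nd (nat_lit 2184) (nat_lit 3344) (nat_lit 0) (XT.nd (nat_lit 1092) (nat_lit 2508) (nat_lit 0) (XT.nd (nat_lit 546) (nat_lit 1292) (nat_lit 0) (XT.nd (nat_lit 234) (nat_lit 912) (nat_lit 0) (XT.nd (nat_lit 78) (nat_lit 608) (nat_lit 0) (XT.lf (nat_lit 0) (nat_lit 3798311498) (nat_lit 532) (nat_lit 16221478626) (nat_lit 608) (nat_lit 660308967) (nat_lit 157) (nat_lit 5) (nat_lit 164) (nat_lit 5) (nat_lit 165) (nat_lit 5) (nat_lit 327) (nat_lit 300) (nat_lit 153)) (XT.nd (nat_lit 78) (nat_lit 532) (nat_lit 0) (XT.lf (nat_lit 0) (nat_lit 1716167639) (nat_lit 608) (nat_lit 6551513718) (nat_lit 76) (nat_lit 12768936029) (nat_lit 156) (nat_lit 5) (nat_lit 164) (nat_lit 5) (nat_lit 157) (nat_lit 5) (nat_lit 328) (nat_lit 300) (nat_lit 152)) (XT.lf (nat_lit 0) (nat_lit 4155993383) (nat_lit 532) (nat_lit 27808169) (nat_lit 608) (nat_lit 17218845554) (nat_lit 149) (nat_lit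 5) (nat_lit 156) (nat_lit 5) (nat_lit 157) (nat_lit 5) (nat_lit 329) (nat_lit 300) (nat_lit 151)))) (XT.nd (nat_lit 156) (nat_lit 456) (nat_lit 0) (XT.nd (nat_lit 78) (nat_lit 456) (nat_lit 0) (XT.lf (nat_lit 0) (nat_lit 6866902187) (nat_lit 608) (nat_lit 6547984884) (nat_lit 76) (nat_lit 8360533384) (nat_lit 149) (nat_lit 5) (nat_lit 157) (nat_lit 5) (nat_lit 150) (nat_lit 5) (nat_lit 330) (nat_lit 300) (nat_lit 150)) (XT.lf (nat_lit 0) (nat_lit 4553063339) (nat_lit 456) (nat_lit 5114979169) (nat_lit 532) (nat_lit 12490213797) (nat_lit 143) (nat_lit 5) (nat_lit 149) (nat_lit 5) (nat_lit 150) (nat_lit 5) (nat_lit 331) (nat_lit 300) (nat_lit 149))) (XT.nd (nat_lit 78) (nat_lit 456) (nat_lit 0) (XT.lf (nat_lit 0) (nat_lit 12646621336) (nat_lit 532) (nat_lit 6470158824) (nat_lit 76) (nat_lit 3433000472) (nat_lit 143) (nat_lit 5) (nat_lit 150) (nat_lit 5) (nat_lit 144) (nat_lit 5) (nat_lit 332) (nat_lit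 300) (nat_lit 148)) (XT.lf (nat_lit 0) (nat_lit 5039562948) (nat_lit 456) (nat_lit 10767885980) (nat_lit 532) (nat_lit 7142820389) (nat_lit 137) (nat_lit 5) (nat_lit 143) (nat_lit 5) (nat_lit 144) (nat_lit 5) (nat_lit 333) (nat_lit 300) (nat_lit 147))))) (XT.nd (nat_lit 234) (nat_lit 836) (nat_lit 0) (XT.nd (nat_lit 78) (nat_lit 456) (nat_lit 0) (XT.lf (nat_lit 0) (nat_lit 17020217443) (nat_lit 456) (nat_lit 2102137750) (nat_lit 532) (nat_lit 4238645071) (nat_lit 137) (nat_lit 5) (nat_lit 143) (nat_lit 5) (nat_lit 144) (nat_lit 5) (nat_lit 334) (nat_lit 300) (nat_lit 146)) (XT.nd (nat_lit 78) (nat_lit 76) (nat_lit 0) (XT.lf (nat_lit 0) (nat_lit 5613219148) (nat_lit 380) (nat_lit 17037126239) (nat_lit 456) (nat_lit 1130303710) (nat_lit 132) (nat_lit 5) (nat_lit 137) (nat_lit 5) (nat_lit 138) (nat_lit 5) (nat_lit 335) (nat_lit 300) (nat_lit 145)) (XT.lf (nat_lit 0) (nat_lit 2110476529) (nat_lit 456)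 (nat_lit 6203517494) (nat_lit 76) (nat_lit 15895912624) (nat_lit 131) (nat_lit 5) (nat_lit 137) (nat_lit 5) (nat_lit 132) (nat_lit 5) (nat_lit 336) (nat_lit 300) (nat_lit 144)))) (XT.nd (nat_lit 156) (nat_lit 380) (nat_lit 0) (XT.nd (nat_lit 78) (nat_lit 0) (nat_lit 0) (XT.lf (nat_lit 0) (nat_lit 5487020999) (nat_lit 532) (nat_lit 18434488837) (nat_lit 76) (nat_lit 728363222) (nat_lit 125) (nat_lit 5) (nat_lit 132) (nat_lit 5) (nat_lit 126) (nat_lit 5) (nat_lit 337) (nat_lit 300) (nat_lit 143)) (XT.lf (nat_lit 0) (nat_lit 9104833537) (nat_lit 532) (nat_lit 6056981801) (nat_lit 76) (nat_lit 9937028469) (nat_lit 125) (nat_lit 5) (nat_lit 132) (nat_lit 5) (nat_lit 126) (nat_lit 5) (nat_lit 338) (nat_lit 300) (nat_lit 142))) (XT.nd (nat_lit 78) (nat_lit 0) (nat_lit 0) (XT.lf (nat_lit 0) (nat_lit 6818194431) (nat_lit 380) (nat_lit 6073081402) (nat_lit 456) (nat_lit 12668209352) (nat_lit 120) (nat_lit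 5) (nat_lit 125) (nat_lit 5) (nat_lit 126) (nat_lit 5) (nat_lit 339) (nat_lit 300) (nat_lit 141)) (XT.lf (nat_lit 0) (nat_lit 16879327054) (nat_lit 456) (nat_lit 5867327832) (nat_lit 76) (nat_lit 3284654688) (nat_lit 120) (nat_lit 5) (nat_lit 126) (nat_lit 5) (nat_lit 121) (nat_lit 5) (nat_lit 340) (nat_lit 300) (nat_lit 140)))))) (XT.nd (nat_lit 546) (nat_lit 988) (nat_lit 0) (XT.nd (nat_lit 234) (nat_lit 684) (nat_lit 0) (XT.nd (nat_lit 78) (nat_lit 456) (nat_lit 0) (XT.lf (nat_lit 0) (nat_lit 7471936419) (nat_lit 380) (nat_lit 13641831079) (nat_lit 456) (nat_lit 5399722883) (nat_lit 115) (nat_lit 5) (nat_lit 120) (nat_lit 5) (nat_lit 121) (nat_lit 5) (nat_lit 341) (nat_lit 300) (nat_lit 139)) (XT.nd (nat_lit 78) (nat_lit 456) (nat_lit 0) (XT.lf (nat_lit 0) (nat_lit 21325125266) (nat_lit 380) (nat_lit 4204246640) (nat_lit 456) (nat_lit 1479144779) (nat_lit 115) (nat_lit 5) (nat_lit 120) (nat_lit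 5) (nat_lit 121) (nat_lit 5) (nat_lit 342) (nat_lit 300) (nat_lit 138)) (XT.lf (nat_lit 0) (nat_lit 2636998498) (nat_lit 456) (nat_lit 19364906320) (nat_lit 76) (nat_lit 5511918229) (nat_lit 109) (nat_lit 5) (nat_lit 115) (nat_lit 5) (nat_lit 110) (nat_lit 5) (nat_lit 343) (nat_lit 300) (nat_lit 137)))) (XT.nd (nat_lit 156) (nat_lit 304) (nat_lit 0) (XT.nd (nat_lit 78) (nat_lit 380) (nat_lit 0) (XT.lf (nat_lit 0) (nat_lit 6941531672) (nat_lit 456) (nat_lit 5583224358) (nat_lit 76) (nat_lit 15506257830) (nat_lit 109) (nat_lit 5) (nat_lit 115) (nat_lit 5) (nat_lit 110) (nat_lit 5) (nat_lit 344) (nat_lit 300) (nat_lit 136)) (XT.lf (nat_lit 0) (nat_lit 8776849672) (nat_lit 380) (nat_lit 2677913212) (nat_lit 456) (nat_lit 17106574203) (nat_lit 104) (nat_lit 5) (nat_lit 109) (nat_lit 5) (nat_lit 110) (nat_lit 5) (nat_lit 345) (nat_lit 300) (nat_lit 135))) (XT.nd (nat_lit 78) (nat_lit 304) (nat_lit 0)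 (XT.lf (nat_lit 0) (nat_lit 16227339206) (nat_lit 456) (nat_lit 5502406823) (nat_lit 76) (nat_lit 7374108982) (nat_lit 104) (nat_lit 5) (nat_lit 110) (nat_lit 5) (nat_lit 105) (nat_lit 5) (nat_lit 346) (nat_lit 300) (nat_lit 134)) (XT.lf (nat_lit 0) (nat_lit 9358022389) (nat_lit 304) (nat_lit 11896936145) (nat_lit 380) (nat_lit 8404337318) (nat_lit 100) (nat_lit 5) (nat_lit 104) (nat_lit 5) (nat_lit 105) (nat_lit 5) (nat_lit 347) (nat_lit 300) (nat_lit 133))))) (XT.nd (nat_lit 234) (nat_lit 608) (nat_lit 0) (XT.nd (nat_lit 78) (nat_lit 380) (nat_lit 0) (XT.lf (nat_lit 0) (nat_lit 24770910764) (nat_lit 304) (nat_lit 1713530867) (nat_lit 380) (nat_lit 3745430478) (nat_lit 100) (nat_lit 5) (nat_lit 104) (nat_lit 5) (nat_lit 105) (nat_lit 5) (nat_lit 348) (nat_lit 300) (nat_lit 132)) (XT.nd (nat_lit 78) (nat_lit 0) (nat_lit 0) (XT.lf (nat_lit 0) (nat_lit 1209839743) (nat_lit 380) (nat_lit 20892181400)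 (nat_lit 76) (nat_lit 8709929379) (nat_lit 95) (nat_lit 5) (nat_lit 100) (nat_lit 5) (nat_lit 96) (nat_lit 5) (nat_lit 349) (nat_lit 300) (nat_lit 131)) (XT.lf (nat_lit 0) (nat_lit 6306737882) (nat_lit 380) (nat_lit 5598786723) (nat_lit 76) (nat_lit 19502809675) (nat_lit 95) (nat_lit 5) (nat_lit 100) (nat_lit 5) (nat_lit 96) (nat_lit 5) (nat_lit 350) (nat_lit 300) (nat_lit 130)))) (XT.nd (nat_lit 156) (nat_lit 304) (nat_lit 0) (XT.nd (nat_lit 78) (nat_lit 0) (nat_lit 0) (XT.lf (nat_lit 0) (nat_lit 10349423419) (nat_lit 304) (nat_lit 1302345316) (nat_lit 380) (nat_lit 20367986930) (nat_lit 91) (nat_lit 5) (nat_lit 95) (nat_lit 5) (nat_lit 96) (nat_lit 5) (nat_lit 351) (nat_lit 300) (nat_lit 129)) (XT.lf (nat_lit 0) (nat_lit 17302502122) (nat_lit 380) (nat_lit 5855991844) (nat_lit 76) (nat_lit 9486667980) (nat_lit 91) (nat_lit 5) (nat_lit 96) (nat_lit 5) (nat_lit 92) (nat_lit 5) (nat_lit 352) (nat_lit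 300) (nat_lit 128))) (XT.nd (nat_lit 78) (nat_lit 0) (nat_lit 0) (XT.lf (nat_lit 0) (nat_lit 10621324205) (nat_lit 304) (nat_lit 12612341074) (nat_lit 380) (nat_lit 10052340625) (nat_lit 87) (nat_lit 5) (nat_lit 91) (nat_lit 5) (nat_lit 92) (nat_lit 5) (nat_lit 353) (nat_lit 300) (nat_lit 127)) (XT.lf (nat_lit 0) (nat_lit 27707238544) (nat_lit 304) (nat_lit 1690637012) (nat_lit 380) (nat_lit 4546548901) (nat_lit 87) (nat_lit 5) (nat_lit 91) (nat_lit 5) (nat_lit 92) (nat_lit 5) (nat_lit 354) (nat_lit 300) (nat_lit 126))))))) (XT.nd (nat_lit 1092) (nat_lit 1444) (nat_lit 0) (XT.nd (nat_lit 546) (nat_lit 760) (nat_lit 0) (XT.nd (nat_lit 234) (nat_lit 532) (nat_lit 0) (XT.nd (nat_lit 78) (nat_lit 304) (nat_lit 0) (XT.lf (nat_lit 0) (nat_lit 1296114331) (nat_lit 304) (nat_lit 23833327980) (nat_lit 76) (nat_lit 9487022312) (nat_lit 83) (nat_lit 5) (nat_lit 87) (nat_lit 5) (nat_lit 84) (nat_lit 5) (nat_lit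 355) (nat_lit 300) (nat_lit 125)) (XT.nd (nat_lit 78) (nat_lit 304) (nat_lit 0) (XT.lf (nat_lit 0) (nat_lit 7299120620) (nat_lit 304) (nat_lit 6932952406) (nat_lit 76) (nat_lit 21072951598) (nat_lit 83) (nat_lit 5) (nat_lit 87) (nat_lit 5) (nat_lit 84) (nat_lit 5) (nat_lit 356) (nat_lit 300) (nat_lit 124)) (XT.lf (nat_lit 0) (nat_lit 10677229254) (nat_lit 304) (nat_lit 2903835907) (nat_lit 380) (nat_lit 22430213170) (nat_lit 79) (nat_lit 5) (nat_lit 83) (nat_lit 5) (nat_lit 84) (nat_lit 5) (nat_lit 357) (nat_lit 300) (nat_lit 123)))) (XT.nd (nat_lit 156) (nat_lit 304) (nat_lit 0) (XT.nd (nat_lit 78) (nat_lit 228) (nat_lit 0) (XT.lf (nat_lit 0) (nat_lit 20202670162) (nat_lit 380) (nat_lit 7869323831) (nat_lit 76) (nat_lit 8662191871) (nat_lit 79) (nat_lit 5) (nat_lit 84) (nat_lit 5) (nat_lit 80) (nat_lit 5) (nat_lit 358) (nat_lit 300) (nat_lit 122)) (XT.lf (nat_lit 0) (nat_lit 10285870711) (nat_lit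 228) (nat_lit 16861039105) (nat_lit 304) (nat_lit 10328153425) (nat_lit 76) (nat_lit 5) (nat_lit 79) (nat_lit 5) (nat_lit 80) (nat_lit 5) (nat_lit 359) (nat_lit 300) (nat_lit 121))) (XT.nd (nat_lit 78) (nat_lit 304) (nat_lit 0) (XT.lf (nat_lit 0) (nat_lit 29141651814) (nat_lit 228) (nat_lit 5233705392) (nat_lit 304) (nat_lit 3860535466) (nat_lit 76) (nat_lit 5) (nat_lit 79) (nat_lit 5) (nat_lit 80) (nat_lit 5) (nat_lit 360) (nat_lit 300) (nat_lit 120)) (XT.lf (nat_lit 0) (nat_lit 2902168609) (nat_lit 304) (nat_lit 29381404859) (nat_lit 76) (nat_lit 6730496241) (nat_lit 72) (nat_lit 5) (nat_lit 76) (nat_lit 5) (nat_lit 73) (nat_lit 5) (nat_lit 361) (nat_lit 300) (nat_lit 119))))) (XT.nd (nat_lit 234) (nat_lit 532) (nat_lit 0) (XT.nd (nat_lit 78) (nat_lit 228) (nat_lit 0) (XT.lf (nat_lit 0) (nat_lit 9931241543) (nat_lit 304) (nat_lit 10801322279) (nat_lit 76) (nat_lit 19077651089) (nat_lit 72) (nat_lit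 5) (nat_lit 76) (nat_lit 5) (nat_lit 73) (nat_lit 5) (nat_lit 362) (nat_lit 300) (nat_lit 118)) (XT.nd (nat_lit 78) (nat_lit 0) (nat_lit 0) (XT.lf (nat_lit 0) (nat_lit 8496786306) (nat_lit 228) (nat_lit 8752696629) (nat_lit 304) (nat_lit 23378414553) (nat_lit 69) (nat_lit 5) (nat_lit 72) (nat_lit 5) (nat_lit 73) (nat_lit 5) (nat_lit 363) (nat_lit 300) (nat_lit 117)) (XT.lf (nat_lit 0) (nat_lit 24928551772) (nat_lit 304) (nat_lit 12912353005) (nat_lit 76) (nat_lit 3624969215) (nat_lit 69) (nat_lit 5) (nat_lit 73) (nat_lit 5) (nat_lit 70) (nat_lit 5) (nat_lit 364) (nat_lit 300) (nat_lit 116)))) (XT.nd (nat_lit 156) (nat_lit 304) (nat_lit 0) (XT.nd (nat_lit 78) (nat_lit 0) (nat_lit 0) (XT.lf (nat_lit 0) (nat_lit 6926405413) (nat_lit 228) (nat_lit 26061577818) (nat_lit 304) (nat_lit 9336508640) (nat_lit 66) (nat_lit 5) (nat_lit 69) (nat_lit 5) (nat_lit 70) (nat_lit 5) (nat_lit 365) (nat_lit 300) (nat_lit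 115)) (XT.lf (nat_lit 0) (nat_lit 27620005523) (nat_lit 228) (nat_lit 13796377414) (nat_lit 304) (nat_lit 1788671538) (nat_lit 66) (nat_lit 5) (nat_lit 69) (nat_lit 5) (nat_lit 70) (nat_lit 5) (nat_lit 366) (nat_lit 300) (nat_lit 114))) (XT.nd (nat_lit 78) (nat_lit 0) (nat_lit 0) (XT.lf (nat_lit 0) (nat_lit 4854644142) (nat_lit 228) (nat_lit 1057678431) (nat_lit 304) (nat_lit 38196681238) (nat_lit 62) (nat_lit 5) (nat_lit 65) (nat_lit 5) (nat_lit 66) (nat_lit 5) (nat_lit 367) (nat_lit 300) (nat_lit 113)) (XT.lf (nat_lit 0) (nat_lit 14080175505) (nat_lit 304) (nat_lit 18948529483) (nat_lit 76) (nat_lit 12002683562) (nat_lit 62) (nat_lit 5) (nat_lit 66) (nat_lit 5) (nat_lit 63) (nat_lit 5) (nat_lit 368) (nat_lit 300) (nat_lit 112)))))) (XT.nd (nat_lit 546) (nat_lit 760) (nat_lit 0) (XT.nd (nat_lit 234) (nat_lit 456) (nat_lit 0) (XT.nd (nat_lit 78) (nat_lit 0) (nat_lit 0) (XT.lf (nat_lit 0) (nat_lit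 1990021506) (nat_lit 228) (nat_lit 20529618843) (nat_lit 304) (nat_lit 23461008745) (nat_lit 59) (nat_lit 5) (nat_lit 62) (nat_lit 5) (nat_lit 63) (nat_lit 5) (nat_lit 369) (nat_lit 300) (nat_lit 111)) (XT.nd (nat_lit 78) (nat_lit 0) (nat_lit 0) (XT.lf (nat_lit 0) (nat_lit 23940387979) (nat_lit 228) (nat_lit 7460261392) (nat_lit 304) (nat_lit 15552088783) (nat_lit 59) (nat_lit 5) (nat_lit 62) (nat_lit 5) (nat_lit 63) (nat_lit 5) (nat_lit 370) (nat_lit 300) (nat_lit 110)) (XT.lf (nat_lit 0) (nat_lit 40602863107) (nat_lit 304) (nat_lit 1467111579) (nat_lit 76) (nat_lit 5882373430) (nat_lit 59) (nat_lit 5) (nat_lit 63) (nat_lit 5) (nat_lit 60) (nat_lit 5) (nat_lit 371) (nat_lit 300) (nat_lit 109)))) (XT.nd (nat_lit 156) (nat_lit 228) (nat_lit 0) (XT.nd (nat_lit 78) (nat_lit 0) (nat_lit 0) (XT.lf (nat_lit 0) (nat_lit 1353902195) (nat_lit 228) (nat_lit 27930063931) (nat_lit 76) (nat_lit 19689380007)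 (nat_lit 56) (nat_lit 5) (nat_lit 59) (nat_lit 5) (nat_lit 57) (nat_lit 5) (nat_lit 372) (nat_lit 300) (nat_lit 108)) (XT.lf (nat_lit 0) (nat_lit 10182817530) (nat_lit 228) (nat_lit 5842957293) (nat_lit 76) (nat_lit 33996653273) (nat_lit 56) (nat_lit 5) (nat_lit 59) (nat_lit 5) (nat_lit 57) (nat_lit 5) (nat_lit 373) (nat_lit 300) (nat_lit 107))) (XT.nd (nat_lit 78) (nat_lit 0) (nat_lit 0) (XT.lf (nat_lit 0) (nat_lit 17238709193) (nat_lit 228) (nat_lit 2200864475) (nat_lit 304) (nat_lit 31658520951) (nat_lit 53) (nat_lit 5) (nat_lit 56) (nat_lit 5) (nat_lit 57) (nat_lit 5) (nat_lit 374) (nat_lit 300) (nat_lit 106)) (XT.lf (nat_lit 0) (nat_lit 29146628697) (nat_lit 304) (nat_lit 11192433885) (nat_lit 76) (nat_lit 11861791931) (nat_lit 53) (nat_lit 5) (nat_lit 57) (nat_lit 5) (nat_lit 54) (nat_lit 5) (nat_lit 375) (nat_lit 300) (nat_lit 105))))) (XT.nd (nat_lit 312) (nat_lit 304) (nat_lit 0) (XT.nd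 (nat_lit 156) (nat_lit 304) (nat_lit 0) (XT.nd (nat_lit 78) (nat_lit 0) (nat_lit 0) (XT.lf (nat_lit 0) (nat_lit 12369779502) (nat_lit 152) (nat_lit 26913176934) (nat_lit 228) (nat_lit 14049600161) (nat_lit 51) (nat_lit 5) (nat_lit 53) (nat_lit 5) (nat_lit 54) (nat_lit 5) (nat_lit 376) (nat_lit 300) (nat_lit 104)) (XT.lf (nat_lit 0) (nat_lit 36864000797) (nat_lit 152) (nat_lit 12969794784) (nat_lit 228) (nat_lit 4661102705) (nat_lit 51) (nat_lit 5) (nat_lit 53) (nat_lit 5) (nat_lit 54) (nat_lit 5) (nat_lit 377) (nat_lit 300) (nat_lit 103))) (XT.nd (nat_lit 78) (nat_lit 0) (nat_lit 0) (XT.lf (nat_lit 0) (nat_lit 4985452113) (nat_lit 304) (nat_lit 49228414604) (nat_lit 76) (nat_lit 1474575717) (nat_lit 47) (nat_lit 5) (nat_lit 51) (nat_lit 5) (nat_lit 48) (nat_lit 5) (nat_lit 378) (nat_lit 300) (nat_lit 102)) (XT.lf (nat_lit 0) (nat_lit 15133401773) (nat_lit 304) (nat_lit 25457919362) (nat_lit 76)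 (nat_lit 16315917921) (nat_lit 47) (nat_lit 5) (nat_lit 51) (nat_lit 5) (nat_lit 48) (nat_lit 5) (nat_lit 379) (nat_lit 300) (nat_lit 101)))) (XT.nd (nat_lit 156) (nat_lit 152) (nat_lit 0) (XT.nd (nat_lit 78) (nat_lit 152) (nat_lit 0) (XT.lf (nat_lit 0) (nat_lit 25583331373) (nat_lit 304) (nat_lit 978424327) (nat_lit 76) (nat_lit 31600918690) (nat_lit 47) (nat_lit 5) (nat_lit 51) (nat_lit 5) (nat_lit 48) (nat_lit 5) (nat_lit 380) (nat_lit 300) (nat_lit 100)) (XT.lf (nat_lit 0) (nat_lit 24713713923) (nat_lit 152) (nat_lit 11868221333) (nat_lit 228) (nat_lit 22866783264) (nat_lit 45) (nat_lit 5) (nat_lit 47) (nat_lit 5) (nat_lit 48) (nat_lit 5) (nat_lit 381) (nat_lit 300) (nat_lit 99))) (XT.nd (nat_lit 78) (nat_lit 152) (nat_lit 0) (XT.lf (nat_lit 0) (nat_lit 47949500350) (nat_lit 228) (nat_lit 9611880577) (nat_lit 76) (nat_lit 3210793950) (nat_lit 45) (nat_lit 5) (nat_lit 48) (nat_lit 5) (nat_lit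 46) (nat_lit 5) (nat_lit 382) (nat_lit 300) (nat_lit 98)) (XT.lf (nat_lit 0) (nat_lit 16464822565) (nat_lit 152) (nat_lit 43466745140) (nat_lit 228) (nat_lit 2195563926) (nat_lit 43) (nat_lit 5) (nat_lit 45) (nat_lit 5) (nat_lit 46) (nat_lit 5) (nat_lit 383) (nat_lit 300) (nat_lit 97))))))))
noncomputable def xc195 : XT := (XT.nd (nat_lit 34866) (nat_lit 0) (nat_lit 7448) (XT.nd (nat_lit 1092) (nat_lit 304) (nat_lit 0) (XT.nd (nat_lit 546) (nat_lit 304) (nat_lit 0) (XT.nd (nat_lit 234) (nat_lit 380) (nat_lit 0) (XT.nd (nat_lit 78) (nat_lit 152) (nat_lit 0) (XT.lf (nat_lit 0) (nat_lit 8675335870) (nat_lit 228) (nat_lit 20087942990) (nat_lit 76) (nat_lit 34754063918) (nat_lit 42) (nat_lit 5) (nat_lit 45) (nat_lit 5) (nat_lit 43) (nat_lit 5) (nat_lit 384) (nat_lit 300) (nat_lit 96)) (XT.nd (nat_lit 78) (nat_lit 0) (nat_lit 0) (XT.lf (nat_lit 0) (nat_lit 6352077580) (nat_lit 152) (nat_lit 13534988097)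 (nat_lit 228) (nat_lit 45059778369) (nat_lit 40) (nat_lit 5) (nat_lit 42) (nat_lit 5) (nat_lit 43) (nat_lit 5) (nat_lit 385) (nat_lit 300) (nat_lit 95)) (XT.lf (nat_lit 0) (nat_lit 31658458708) (nat_lit 228) (nat_lit 32442544859) (nat_lit 76) (nat_lit 2311528305) (nat_lit 40) (nat_lit 5) (nat_lit 43) (nat_lit 5) (nat_lit 41) (nat_lit 5) (nat_lit 386) (nat_lit 300) (nat_lit 94)))) (XT.nd (nat_lit 156) (nat_lit 228) (nat_lit 0) (XT.nd (nat_lit 78) (nat_lit 152) (nat_lit 0) (XT.lf (nat_lit 0) (nat_lit 43914853330) (nat_lit 228) (nat_lit 5643460464) (nat_lit 76) (nat_lit 18359921580) (nat_lit 40) (nat_lit 5) (nat_lit 43) (nat_lit 5) (nat_lit 41) (nat_lit 5) (nat_lit 387) (nat_lit 300) (nat_lit 93)) (XT.lf (nat_lit 0) (nat_lit 22392977629) (nat_lit 152) (nat_lit 34359129800) (nat_lit 228) (nat_lit 12710608332) (nat_lit 38) (nat_lit 5) (nat_lit 40) (nat_lit 5) (nat_lit 41) (nat_lit 5) (nat_lit 388) (nat_lit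 300) (nat_lit 92))) (XT.nd (nat_lit 78) (nat_lit 228) (nat_lit 0) (XT.lf (nat_lit 0) (nat_lit 51382642950) (nat_lit 152) (nat_lit 18646763383) (nat_lit 228) (nat_lit 1022477198) (nat_lit 38) (nat_lit 5) (nat_lit 40) (nat_lit 5) (nat_lit 41) (nat_lit 5) (nat_lit 389) (nat_lit 300) (nat_lit 91)) (XT.lf (nat_lit 0) (nat_lit 8611937570) (nat_lit 152) (nat_lit 2270154622) (nat_lit 228) (nat_lit 61801035161) (nat_lit 35) (nat_lit 5) (nat_lit 37) (nat_lit 5) (nat_lit 38) (nat_lit 5) (nat_lit 390) (nat_lit 300) (nat_lit 90))))) (XT.nd (nat_lit 234) (nat_lit 152) (nat_lit 0) (XT.nd (nat_lit 78) (nat_lit 152) (nat_lit 0) (XT.lf (nat_lit 0) (nat_lit 23462148115) (nat_lit 228) (nat_lit 36368512469) (nat_lit 76) (nat_lit 14522177913) (nat_lit 35) (nat_lit 5) (nat_lit 38) (nat_lit 5) (nat_lit 36) (nat_lit 5) (nat_lit 391) (nat_lit 300) (nat_lit 89)) (XT.nd (nat_lit 78) (nat_lit 152) (nat_lit 0) (XT.lf (nat_lit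 0) (nat_lit 36440131424) (nat_lit 228) (nat_lit 7860630847) (nat_lit 76) (nat_lit 31771263632) (nat_lit 35) (nat_lit 5) (nat_lit 38) (nat_lit 5) (nat_lit 36) (nat_lit 5) (nat_lit 392) (nat_lit 300) (nat_lit 88)) (XT.lf (nat_lit 0) (nat_lit 21927062974) (nat_lit 152) (nat_lit 28089273359) (nat_lit 228) (nat_lit 27820186814) (nat_lit 33) (nat_lit 5) (nat_lit 35) (nat_lit 5) (nat_lit 36) (nat_lit 5) (nat_lit 393) (nat_lit 300) (nat_lit 87)))) (XT.nd (nat_lit 156) (nat_lit 76) (nat_lit 0) (XT.nd (nat_lit 78) (nat_lit 76) (nat_lit 0) (XT.lf (nat_lit 0) (nat_lit 52766254964) (nat_lit 152) (nat_lit 11311078900) (nat_lit 228) (nat_lit 15574296907) (nat_lit 33) (nat_lit 5) (nat_lit 35) (nat_lit 5) (nat_lit 36) (nat_lit 5) (nat_lit 394) (nat_lit 300) (nat_lit 86)) (XT.lf (nat_lit 0) (nat_lit 3007511983) (nat_lit 76) (nat_lit 75637122066) (nat_lit 152) (nat_lit 2874024033) (nat_lit 32) (nat_lit 5) (nat_lit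 33) (nat_lit 5) (nat_lit 34) (nat_lit 4) (nat_lit 395) (nat_lit 300) (nat_lit 85))) (XT.nd (nat_lit 78) (nat_lit 0) (nat_lit 0) (XT.lf (nat_lit 0) (nat_lit 10392420287) (nat_lit 152) (nat_lit 49301258739) (nat_lit 76) (nat_lit 23733543930) (nat_lit 31) (nat_lit 5) (nat_lit 33) (nat_lit 5) (nat_lit 32) (nat_lit 5) (nat_lit 396) (nat_lit 300) (nat_lit 84)) (XT.lf (nat_lit 0) (nat_lit 23997321188) (nat_lit 152) (nat_lit 19246656822) (nat_lit 76) (nat_lit 42148266831) (nat_lit 31) (nat_lit 5) (nat_lit 33) (nat_lit 5) (nat_lit 32) (nat_lit 5) (nat_lit 397) (nat_lit 300) (nat_lit 83)))))) (XT.nd (nat_lit 33228) (nat_lit 0) (nat_lit 13528) (XT.nd (nat_lit 234) (nat_lit 152) (nat_lit 0) (XT.nd (nat_lit 78) (nat_lit 0) (nat_lit 0) (XT.lf (nat_lit 0) (nat_lit 11939531087) (nat_lit 152) (nat_lit 26183887996) (nat_lit 228) (nat_lit 49289407370) (nat_lit 29) (nat_lit 5) (nat_lit 31) (nat_lit 5) (nat_lit 32)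 (nat_lit 5) (nat_lit 398) (nat_lit 300) (nat_lit 82)) (XT.nd (nat_lit 78) (nat_lit 0) (nat_lit 0) (XT.lf (nat_lit 0) (nat_lit 44452836666) (nat_lit 152) (nat_lit 8413117844) (nat_lit 228) (nat_lit 36622291916) (nat_lit 29) (nat_lit 5) (nat_lit 31) (nat_lit 5) (nat_lit 32) (nat_lit 5) (nat_lit 399) (nat_lit 300) (nat_lit 81)) (XT.lf (nat_lit 0) (nat_lit 68144180571) (nat_lit 228) (nat_lit 13782419616) (nat_lit 76) (nat_lit 9696526909) (nat_lit 29) (nat_lit 5) (nat_lit 32) (nat_lit 5) (nat_lit 30) (nat_lit 4) (nat_lit 400) (nat_lit 300) (nat_lit 80)))) (XT.nd (nat_lit 32838) (nat_lit 0) (nat_lit 13528) (XT.nd (nat_lit 78) (nat_lit 76) (nat_lit 0) (XT.lf (nat_lit 0) (nat_lit 18686635853) (nat_lit 76) (nat_lit 65455429916) (nat_lit 152) (nat_lit 9672149567) (nat_lit 28) (nat_lit 5) (nat_lit 29) (nat_lit 5) (nat_lit 30) (nat_lit 4) (nat_lit 401) (nat_lit 300) (nat_lit 79)) (XT.lf (nat_lit 0) (nat_lit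 4599030397) (nat_lit 152) (nat_lit 43702550347) (nat_lit 76) (nat_lit 47763975872) (nat_lit 27) (nat_lit 5) (nat_lit 29) (nat_lit 5) (nat_lit 28) (nat_lit 5) (nat_lit 402) (nat_lit 300) (nat_lit 78))) (XT.nd (nat_lit 78) (nat_lit 0) (nat_lit 0) (XT.lf (nat_lit 0) (nat_lit 521170465) (nat_lit 0) (nat_lit 521170465) (nat_lit 1140) (nat_lit 5937684613) (nat_lit 205) (nat_lit 5) (nat_lit 205) (nat_lit 3) (nat_lit 220) (nat_lit 3) (nat_lit 301) (nat_lit 301) (nat_lit 178)) (XT.lf (nat_lit 0) (nat_lit 2498587733) (nat_lit 1140) (nat_lit 6554794829) (nat_lit 1216) (nat_lit 5104246154) (nat_lit 205) (nat_lit 5) (nat_lit 220) (nat_lit 3) (nat_lit 221) (nat_lit 5) (nat_lit 302) (nat_lit 301) (nat_lit 177))))) (XT.nd (nat_lit 234) (nat_lit 0) (nat_lit 152) (XT.nd (nat_lit 78) (nat_lit 0) (nat_lit 76) (XT.lf (nat_lit 0) (nat_lit 2922313160) (nat_lit 1140) (nat_lit 18267577) (nat_lit 1216) (nat_lit 11420644294)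 (nat_lit 205) (nat_lit 5) (nat_lit 220) (nat_lit 3) (nat_lit 221) (nat_lit 5) (nat_lit 303) (nat_lit 301) (nat_lit 176)) (XT.nd (nat_lit 78) (nat_lit 0) (nat_lit 0) (XT.lf (nat_lit 0) (nat_lit 3444932453) (nat_lit 1140) (nat_lit 7761211374) (nat_lit 1216) (nat_lit 3362212981) (nat_lit 206) (nat_lit 5) (nat_lit 221) (nat_lit 5) (nat_lit 222) (nat_lit 5) (nat_lit 304) (nat_lit 301) (nat_lit 175)) (XT.lf (nat_lit 0) (nat_lit 4000344101) (nat_lit 1140) (nat_lit 980237994) (nat_lit 1216) (nat_lit 9800619688) (nat_lit 206) (nat_lit 5) (nat_lit 221) (nat_lit 5) (nat_lit 222) (nat_lit 5) (nat_lit 305) (nat_lit 301) (nat_lit 174)))) (XT.nd (nat_lit 156) (nat_lit 0) (nat_lit 0) (XT.nd (nat_lit 78) (nat_lit 0) (nat_lit 0) (XT.lf (nat_lit 0) (nat_lit 4633774736) (nat_lit 1140) (nat_lit 8896818493) (nat_lit 1216) (nat_lit 1468010467) (nat_lit 207) (nat_lit 5) (nat_lit 222) (nat_lit 5) (nat_lit 223) (nat_lit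 5) (nat_lit 306) (nat_lit 301) (nat_lit 173)) (XT.lf (nat_lit 0) (nat_lit 5334009355) (nat_lit 1140) (nat_lit 1862526854) (nat_lit 1216) (nat_lit 8024569357) (nat_lit 207) (nat_lit 5) (nat_lit 222) (nat_lit 5) (nat_lit 223) (nat_lit 5) (nat_lit 307) (nat_lit 301) (nat_lit 172))) (XT.nd (nat_lit 78) (nat_lit 0) (nat_lit 76) (XT.lf (nat_lit 76) (nat_lit 5482744284) (nat_lit 0) (nat_lit 614037293) (nat_lit 1216) (nat_lit 9352266582) (nat_lit 208) (nat_lit 5) (nat_lit 207) (nat_lit 5) (nat_lit 223) (nat_lit 5) (nat_lit 308) (nat_lit 301) (nat_lit 171)) (XT.lf (nat_lit 0) (nat_lit 6949825251) (nat_lit 1140) (nat_lit 2663513190) (nat_lit 1216) (nat_lit 6068480184) (nat_lit 208) (nat_lit 5) (nat_lit 223) (nat_lit 5) (nat_lit 224) (nat_lit 5) (nat_lit 309) (nat_lit 301) (nat_lit 170))))))) (XT.nd (nat_lit 1092) (nat_lit 4028) (nat_lit 0) (XT.nd (nat_lit 546) (nat_lit 2280) (nat_lit 0) (XT.nd (nat_lit 234)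 (nat_lit 0) (nat_lit 152) (XT.nd (nat_lit 78) (nat_lit 0) (nat_lit 76) (XT.lf (nat_lit 76) (nat_lit 4941578607) (nat_lit 0) (nat_lit 2929902920) (nat_lit 1216) (nat_lit 8048810958) (nat_lit 209) (nat_lit 5) (nat_lit 208) (nat_lit 5) (nat_lit 224) (nat_lit 5) (nat_lit 310) (nat_lit 301) (nat_lit 169)) (XT.nd (nat_lit 78) (nat_lit 0) (nat_lit 0) (XT.lf (nat_lit 0) (nat_lit 8875669918) (nat_lit 1140) (nat_lit 3381378659) (nat_lit 1216) (nat_lit 3907236111) (nat_lit 209) (nat_lit 5) (nat_lit 224) (nat_lit 5) (nat_lit 225) (nat_lit 5) (nat_lit 311) (nat_lit 301) (nat_lit 168)) (XT.lf (nat_lit 76) (nat_lit 4495392228) (nat_lit 0) (nat_lit 5476824060) (nat_lit 1216) (nat_lit 6441523692) (nat_lit 210) (nat_lit 5) (nat_lit 209) (nat_lit 5) (nat_lit 225) (nat_lit 5) (nat_lit 312) (nat_lit 301) (nat_lit 167)))) (XT.nd (nat_lit 156) (nat_lit 0) (nat_lit 0) (XT.nd (nat_lit 78) (nat_lit 0) (nat_lit 0) (XT.lf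 (nat_lit 0) (nat_lit 11140885520) (nat_lit 1140) (nat_lit 4014150364) (nat_lit 1216) (nat_lit 1514476242) (nat_lit 210) (nat_lit 5) (nat_lit 225) (nat_lit 5) (nat_lit 226) (nat_lit 5) (nat_lit 313) (nat_lit 301) (nat_lit 166)) (XT.lf (nat_lit 76) (nat_lit 4146625119) (nat_lit 0) (nat_lit 8282618065) (nat_lit 1216) (nat_lit 4501185103) (nat_lit 211) (nat_lit 5) (nat_lit 210) (nat_lit 5) (nat_lit 226) (nat_lit 5) (nat_lit 314) (nat_lit 301) (nat_lit 165))) (XT.nd (nat_lit 78) (nat_lit 0) (nat_lit 76) (XT.lf (nat_lit 76) (nat_lit 12627343536) (nat_lit 0) (nat_lit 1160192143) (nat_lit 1216) (nat_lit 3410707151) (nat_lit 211) (nat_lit 5) (nat_lit 210) (nat_lit 5) (nat_lit 226) (nat_lit 5) (nat_lit 315) (nat_lit 301) (nat_lit 164)) (XT.lf (nat_lit 76) (nat_lit 3897830016) (nat_lit 0) (nat_lit 11376619800) (nat_lit 1216) (nat_lit 2197014951) (nat_lit 212) (nat_lit 5) (nat_lit 211) (nat_lit 5) (nat_lit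 227) (nat_lit 5) (nat_lit 316) (nat_lit 301) (nat_lit 163))))) (XT.nd (nat_lit 234) (nat_lit 1368) (nat_lit 0) (XT.nd (nat_lit 78) (nat_lit 1140) (nat_lit 0) (XT.lf (nat_lit 76) (nat_lit 12695419840) (nat_lit 0) (nat_lit 4159313006) (nat_lit 1216) (nat_lit 896696547) (nat_lit 212) (nat_lit 5) (nat_lit 211) (nat_lit 5) (nat_lit 227) (nat_lit 5) (nat_lit 317) (nat_lit 301) (nat_lit 162)) (XT.nd (nat_lit 78) (nat_lit 0) (nat_lit 0) (XT.lf (nat_lit 0) (nat_lit 493609827) (nat_lit 1216) (nat_lit 14291248531) (nat_lit 76) (nat_lit 3253026851) (nat_lit 196) (nat_lit 5) (nat_lit 212) (nat_lit 5) (nat_lit 197) (nat_lit 5) (nat_lit 318) (nat_lit 301) (nat_lit 161)) (XT.lf (nat_lit 0) (nat_lit 1991933361) (nat_lit 1216) (nat_lit 5472321157) (nat_lit 76) (nat_lit 10865892040) (nat_lit 196) (nat_lit 5) (nat_lit 212) (nat_lit 5) (nat_lit 197) (nat_lit 5) (nat_lit 319) (nat_lit 301) (nat_lit 160)))) (XT.nd (nat_lit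 156) (nat_lit 608) (nat_lit 0) (XT.nd (nat_lit 78) (nat_lit 0) (nat_lit 0) (XT.lf (nat_lit 0) (nat_lit 3563463225) (nat_lit 836) (nat_lit 14955701589) (nat_lit 76) (nat_lit 111171123) (nat_lit 186) (nat_lit 5) (nat_lit 197) (nat_lit 5) (nat_lit 187) (nat_lit 5) (nat_lit 320) (nat_lit 301) (nat_lit 159)) (XT.lf (nat_lit 0) (nat_lit 5303861158) (nat_lit 836) (nat_lit 5811478834) (nat_lit 76) (nat_lit 7820546997) (nat_lit 186) (nat_lit 5) (nat_lit 197) (nat_lit 5) (nat_lit 187) (nat_lit 5) (nat_lit 321) (nat_lit 301) (nat_lit 158))) (XT.nd (nat_lit 78) (nat_lit 0) (nat_lit 0) (XT.lf (nat_lit 0) (nat_lit 3671599518) (nat_lit 608) (nat_lit 3452409662) (nat_lit 684) (nat_lit 12125776683) (nat_lit 178) (nat_lit 5) (nat_lit 186) (nat_lit 5) (nat_lit 187) (nat_lit 5) (nat_lit 322) (nat_lit 301) (nat_lit 157)) (XT.lf (nat_lit 0) (nat_lit 9093119064) (nat_lit 684) (nat_lit 6063594151) (nat_lit 76) (nat_lit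 4413564985) (nat_lit 178) (nat_lit 5) (nat_lit 187) (nat_lit 5) (nat_lit 179) (nat_lit 5) (nat_lit 323) (nat_lit 301) (nat_lit 156)))))) (XT.nd (nat_lit 546) (nat_lit 1824) (nat_lit 0) (XT.nd (nat_lit 234) (nat_lit 1140) (nat_lit 0) (XT.nd (nat_lit 78) (nat_lit 532) (nat_lit 0) (XT.lf (nat_lit 0) (nat_lit 3768719225) (nat_lit 532) (nat_lit 7415621576) (nat_lit 608) (nat_lit 8714160356) (nat_lit 171) (nat_lit 5) (nat_lit 178) (nat_lit 5) (nat_lit 179) (nat_lit 5) (nat_lit 324) (nat_lit 301) (nat_lit 155)) (XT.nd (nat_lit 78) (nat_lit 532) (nat_lit 0) (XT.lf (nat_lit 0) (nat_lit 13398275302) (nat_lit 608) (nat_lit 6227633205) (nat_lit 76) (nat_lit 608869816) (nat_lit 171) (nat_lit 5) (nat_lit 179) (nat_lit 5) (nat_lit 172) (nat_lit 5) (nat_lit 325) (nat_lit 301) (nat_lit 154)) (XT.lf (nat_lit 0) (nat_lit 3968578046) (nat_lit 532) (nat_lit 11814609002) (nat_lit 608) (nat_lit 4794826586) (nat_lit 164)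 (nat_lit 5) (nat_lit 171) (nat_lit 5) (nat_lit 172) (nat_lit 5) (nat_lit 326) (nat_lit 301) (nat_lit 153)))) (XT.nd (nat_lit 156) (nat_lit 608) (nat_lit 0) (XT.nd (nat_lit 78) (nat_lit 532) (nat_lit 0) (XT.lf (nat_lit 0) (nat_lit 14591383652) (nat_lit 532) (nat_lit 3704275572) (nat_lit 608) (nat_lit 2634212801) (nat_lit 164) (nat_lit 5) (nat_lit 171) (nat_lit 5) (nat_lit 172) (nat_lit 5) (nat_lit 327) (nat_lit 301) (nat_lit 152)) (XT.lf (nat_lit 0) (nat_lit 4272307226) (nat_lit 532) (nat_lit 16690284606) (nat_lit 608) (nat_lit 327327974) (nat_lit 157) (nat_lit 5) (nat_lit 164) (nat_lit 5) (nat_lit 165) (nat_lit 5) (nat_lit 328) (nat_lit 301) (nat_lit 151))) (XT.nd (nat_lit 78) (nat_lit 532) (nat_lit 0) (XT.lf (nat_lit 0) (nat_lit 2103483788) (nat_lit 608) (nat_lit 6391517959) (nat_lit 76) (nat_lit 13162341350) (nat_lit 156) (nat_lit 5) (nat_lit 164) (nat_lit 5) (nat_lit 157) (nat_lit 5) (nat_lit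 329) (nat_lit 301) (nat_lit 150)) (XT.lf (nat_lit 0) (nat_lit 4633718854) (nat_lit 532) (nat_lit 5040067) (nat_lit 608) (nat_lit 17395795098) (nat_lit 149) (nat_lit 5) (nat_lit 156) (nat_lit 5) (nat_lit 157) (nat_lit 5) (nat_lit 330) (nat_lit 301) (nat_lit 149))))) (XT.nd (nat_lit 312) (nat_lit 912) (nat_lit 0) (XT.nd (nat_lit 156) (nat_lit 456) (nat_lit 0) (XT.nd (nat_lit 78) (nat_lit 456) (nat_lit 0) (XT.lf (nat_lit 0) (nat_lit 7392977410) (nat_lit 608) (nat_lit 6392005703) (nat_lit 76) (nat_lit 8633817134) (nat_lit 149) (nat_lit 5) (nat_lit 157) (nat_lit 5) (nat_lit 150) (nat_lit 5) (nat_lit 331) (nat_lit 301) (nat_lit 148)) (XT.lf (nat_lit 0) (nat_lit 5038618881) (nat_lit 456) (nat_lit 5233565137) (nat_lit 532) (nat_lit 12541124368) (nat_lit 143) (nat_lit 5) (nat_lit 149) (nat_lit 5) (nat_lit 150) (nat_lit 5) (nat_lit 332) (nat_lit 301) (nat_lit 147))) (XT.nd (nat_lit 78) (nat_lit 456) (nat_lit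 0) (XT.lf (nat_lit 0) (nat_lit 13331297028) (nat_lit 532) (nat_lit 6316376093) (nat_lit 76) (nat_lit 3569177957) (nat_lit 143) (nat_lit 5) (nat_lit 150) (nat_lit 5) (nat_lit 144) (nat_lit 5) (nat_lit 333) (nat_lit 301) (nat_lit 146)) (XT.lf (nat_lit 0) (nat_lit 5535226670) (nat_lit 456) (nat_lit 11046142536) (nat_lit 532) (nat_lit 7048160335) (nat_lit 137) (nat_lit 5) (nat_lit 143) (nat_lit 5) (nat_lit 144) (nat_lit 5) (nat_lit 334) (nat_lit 301) (nat_lit 145)))) (XT.nd (nat_lit 156) (nat_lit 532) (nat_lit 0) (XT.nd (nat_lit 78) (nat_lit 380) (nat_lit 0) (XT.lf (nat_lit 0) (nat_lit 17865267494) (nat_lit 456) (nat_lit 2121726130) (nat_lit 532) (nat_lit 4065858145) (nat_lit 137) (nat_lit 5) (nat_lit 143) (nat_lit 5) (nat_lit 144) (nat_lit 5) (nat_lit 335) (nat_lit 301) (nat_lit 144)) (XT.lf (nat_lit 0) (nat_lit 6121257051) (nat_lit 380) (nat_lit 17494762268) (nat_lit 456) (nat_lit 869222143) (nat_lit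 132) (nat_lit 5) (nat_lit 137) (nat_lit 5) (nat_lit 138) (nat_lit 5) (nat_lit 336) (nat_lit 301) (nat_lit 143))) (XT.nd (nat_lit 78) (nat_lit 456) (nat_lit 0) (XT.lf (nat_lit 0) (nat_lit 2454600872) (nat_lit 456) (nat_lit 6054057188) (nat_lit 76) (nat_lit 16418893187) (nat_lit 131) (nat_lit 5) (nat_lit 137) (nat_lit 5) (nat_lit 132) (nat_lit 5) (nat_lit 337) (nat_lit 301) (nat_lit 142)) (XT.lf (nat_lit 0) (nat_lit 5927999422) (nat_lit 532) (nat_lit 18647293769) (nat_lit 76) (nat_lit 805563376) (nat_lit 125) (nat_lit 5) (nat_lit 132) (nat_lit 5) (nat_lit 126) (nat_lit 5) (nat_lit 338) (nat_lit 301) (nat_lit 141))))))))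
noncomputable def xc196 : XT := (XT.nd (nat_lit 2184) (nat_lit 2508) (nat_lit 0) (XT.nd (nat_lit 1092) (nat_lit 1900) (nat_lit 0) (XT.nd (nat_lit 546) (nat_lit 1368) (nat_lit 0) (XT.nd (nat_lit 234) (nat_lit 836) (nat_lit 0) (XT.nd (nat_lit 78) (nat_lit 380) (nat_lit 0) (XT.lf (nat_lit 0) (nat_lit 9646296789) (nat_lit 532) (nat_lit 5908371125) (nat_lit 76) (nat_lit 10288876467) (nat_lit 125) (nat_lit 5) (nat_lit 132) (nat_lit 5) (nat_lit 126) (nat_lit 5) (nat_lit 339) (nat_lit 301) (nat_lit 140)) (XT.nd (nat_lit 78) (nat_lit 0) (nat_lit 0) (XT.lf (nat_lit 0) (nat_lit 7349821961) (nat_lit 380) (nat_lit 6191839408) (nat_lit 456) (nat_lit 12776490029) (nat_lit 120) (nat_lit 5) (nat_lit 125) (nat_lit 5) (nat_lit 126) (nat_lit 5) (nat_lit 340) (nat_lit 301) (nat_lit 139)) (XT.lf (nat_lit 0) (nat_lit 17642267090) (nat_lit 456) (nat_lit 5718502745) (nat_lit 76) (nat_lit 3443579379) (nat_lit 120) (nat_lit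 5) (nat_lit 126) (nat_lit 5) (nat_lit 121) (nat_lit 5) (nat_lit 341) (nat_lit 301) (nat_lit 138)))) (XT.nd (nat_lit 156) (nat_lit 456) (nat_lit 0) (XT.nd (nat_lit 78) (nat_lit 0) (nat_lit 0) (XT.lf (nat_lit 0) (nat_lit 8017754679) (nat_lit 380) (nat_lit 13981605435) (nat_lit 456) (nat_lit 5301772659) (nat_lit 115) (nat_lit 5) (nat_lit 120) (nat_lit 5) (nat_lit 121) (nat_lit 5) (nat_lit 342) (nat_lit 301) (nat_lit 137)) (XT.lf (nat_lit 0) (nat_lit 22277170449) (nat_lit 380) (nat_lit 4262917169) (nat_lit 456) (nat_lit 1271148335) (nat_lit 115) (nat_lit 5) (nat_lit 120) (nat_lit 5) (nat_lit 121) (nat_lit 5) (nat_lit 343) (nat_lit 301) (nat_lit 136))) (XT.nd (nat_lit 78) (nat_lit 0) (nat_lit 0) (XT.lf (nat_lit 0) (nat_lit 2960051337) (nat_lit 456) (nat_lit 19624768335) (nat_lit 76) (nat_lit 5746919559) (nat_lit 109) (nat_lit 5) (nat_lit 115) (nat_lit 5) (nat_lit 110) (nat_lit 5) (nat_lit 344) (nat_lit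 301) (nat_lit 135)) (XT.lf (nat_lit 0) (nat_lit 7386615375) (nat_lit 456) (nat_lit 5438987909) (nat_lit 76) (nat_lit 16039060888) (nat_lit 109) (nat_lit 5) (nat_lit 115) (nat_lit 5) (nat_lit 110) (nat_lit 5) (nat_lit 345) (nat_lit 301) (nat_lit 134))))) (XT.nd (nat_lit 234) (nat_lit 684) (nat_lit 0) (XT.nd (nat_lit 78) (nat_lit 304) (nat_lit 0) (XT.lf (nat_lit 0) (nat_lit 9348832134) (nat_lit 380) (nat_lit 2682480393) (nat_lit 456) (nat_lit 17379707594) (nat_lit 104) (nat_lit 5) (nat_lit 109) (nat_lit 5) (nat_lit 110) (nat_lit 5) (nat_lit 346) (nat_lit 301) (nat_lit 133)) (XT.nd (nat_lit 78) (nat_lit 304) (nat_lit 0) (XT.lf (nat_lit 0) (nat_lit 16940989583) (nat_lit 456) (nat_lit 5361551164) (nat_lit 76) (nat_lit 7667460082) (nat_lit 104) (nat_lit 5) (nat_lit 110) (nat_lit 5) (nat_lit 105) (nat_lit 5) (nat_lit 347) (nat_lit 301) (nat_lit 132)) (XT.lf (nat_lit 0) (nat_lit 9941691632) (nat_lit 304)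 (nat_lit 12174051088) (nat_lit 380) (nat_lit 8426477820) (nat_lit 100) (nat_lit 5) (nat_lit 104) (nat_lit 5) (nat_lit 105) (nat_lit 5) (nat_lit 348) (nat_lit 301) (nat_lit 131)))) (XT.nd (nat_lit 156) (nat_lit 304) (nat_lit 0) (XT.nd (nat_lit 78) (nat_lit 380) (nat_lit 0) (XT.lf (nat_lit 0) (nat_lit 25808143496) (nat_lit 304) (nat_lit 1687467724) (nat_lit 380) (nat_lit 3634502502) (nat_lit 100) (nat_lit 5) (nat_lit 104) (nat_lit 5) (nat_lit 105) (nat_lit 5) (nat_lit 349) (nat_lit 301) (nat_lit 130)) (XT.lf (nat_lit 0) (nat_lit 1462305987) (nat_lit 380) (nat_lit 21217424125) (nat_lit 76) (nat_lit 9049947259) (nat_lit 95) (nat_lit 5) (nat_lit 100) (nat_lit 5) (nat_lit 96) (nat_lit 5) (nat_lit 350) (nat_lit 301) (nat_lit 129))) (XT.nd (nat_lit 78) (nat_lit 304) (nat_lit 0) (XT.lf (nat_lit 0) (nat_lit 6705814825) (nat_lit 380) (nat_lit 5474009823) (nat_lit 76) (nat_lit 20164321149) (nat_lit 95) (nat_lit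 5) (nat_lit 100) (nat_lit 5) (nat_lit 96) (nat_lit 5) (nat_lit 351) (nat_lit 301) (nat_lit 128)) (XT.lf (nat_lit 0) (nat_lit 10949776619) (nat_lit 304) (nat_lit 1258093540) (nat_lit 380) (nat_lit 20766143602) (nat_lit 91) (nat_lit 5) (nat_lit 95) (nat_lit 5) (nat_lit 96) (nat_lit 5) (nat_lit 352) (nat_lit 301) (nat_lit 127)))))) (XT.nd (nat_lit 546) (nat_lit 988) (nat_lit 0) (XT.nd (nat_lit 234) (nat_lit 608) (nat_lit 0) (XT.nd (nat_lit 78) (nat_lit 304) (nat_lit 0) (XT.lf (nat_lit 0) (nat_lit 18022887189) (nat_lit 380) (nat_lit 5744871475) (nat_lit 76) (nat_lit 9850584739) (nat_lit 91) (nat_lit 5) (nat_lit 96) (nat_lit 5) (nat_lit 92) (nat_lit 5) (nat_lit 353) (nat_lit 301) (nat_lit 126)) (XT.nd (nat_lit 78) (nat_lit 0) (nat_lit 0) (XT.lf (nat_lit 0) (nat_lit 11223952290) (nat_lit 304) (nat_lit 12904899423) (nat_lit 380) (nat_lit 10149658879) (nat_lit 87) (nat_lit 5) (nat_lit 91) (nat_lit 5) (nat_lit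 92) (nat_lit 5) (nat_lit 354) (nat_lit 301) (nat_lit 125)) (XT.lf (nat_lit 0) (nat_lit 28814172553) (nat_lit 304) (nat_lit 1658043615) (nat_lit 380) (nat_lit 4484642489) (nat_lit 87) (nat_lit 5) (nat_lit 91) (nat_lit 5) (nat_lit 92) (nat_lit 5) (nat_lit 355) (nat_lit 301) (nat_lit 124)))) (XT.nd (nat_lit 156) (nat_lit 304) (nat_lit 0) (XT.nd (nat_lit 78) (nat_lit 0) (nat_lit 0) (XT.lf (nat_lit 0) (nat_lit 1527252516) (nat_lit 304) (nat_lit 24266320974) (nat_lit 76) (nat_lit 9855498283) (nat_lit 83) (nat_lit 5) (nat_lit 87) (nat_lit 5) (nat_lit 84) (nat_lit 5) (nat_lit 356) (nat_lit 301) (nat_lit 123)) (XT.lf (nat_lit 0) (nat_lit 7704749340) (nat_lit 304) (nat_lit 6867147924) (nat_lit 76) (nat_lit 21786562769) (nat_lit 83) (nat_lit 5) (nat_lit 87) (nat_lit 5) (nat_lit 84) (nat_lit 5) (nat_lit 357) (nat_lit 301) (nat_lit 122))) (XT.nd (nat_lit 78) (nat_lit 0) (nat_lit 0) (XT.lf (nat_lit 0) (nat_lit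 11268654941) (nat_lit 304) (nat_lit 2903666784) (nat_lit 380) (nat_lit 22913667910) (nat_lit 79) (nat_lit 5) (nat_lit 83) (nat_lit 5) (nat_lit 84) (nat_lit 5) (nat_lit 358) (nat_lit 301) (nat_lit 121)) (XT.lf (nat_lit 0) (nat_lit 20988035352) (nat_lit 380) (nat_lit 7837542551) (nat_lit 76) (nat_lit 9005145948) (nat_lit 79) (nat_lit 5) (nat_lit 84) (nat_lit 5) (nat_lit 80) (nat_lit 5) (nat_lit 359) (nat_lit 301) (nat_lit 120))))) (XT.nd (nat_lit 234) (nat_lit 456) (nat_lit 0) (XT.nd (nat_lit 78) (nat_lit 304) (nat_lit 0) (XT.lf (nat_lit 0) (nat_lit 10859681740) (nat_lit 228) (nat_lit 17278248161) (nat_lit 304) (nat_lit 10455980993) (nat_lit 76) (nat_lit 5) (nat_lit 79) (nat_lit 5) (nat_lit 80) (nat_lit 5) (nat_lit 360) (nat_lit 301) (nat_lit 119)) (XT.nd (nat_lit 78) (nat_lit 304) (nat_lit 0) (XT.lf (nat_lit 0) (nat_lit 30273410987) (nat_lit 228) (nat_lit 5304675663) (nat_lit 304) (nat_lit 3799635963)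 (nat_lit 76) (nat_lit 5) (nat_lit 79) (nat_lit 5) (nat_lit 80) (nat_lit 5) (nat_lit 361) (nat_lit 301) (nat_lit 118)) (XT.lf (nat_lit 0) (nat_lit 3160783024) (nat_lit 304) (nat_lit 29999974513) (nat_lit 76) (nat_lit 7018490905) (nat_lit 72) (nat_lit 5) (nat_lit 76) (nat_lit 5) (nat_lit 73) (nat_lit 5) (nat_lit 362) (nat_lit 301) (nat_lit 117)))) (XT.nd (nat_lit 156) (nat_lit 228) (nat_lit 0) (XT.nd (nat_lit 78) (nat_lit 228) (nat_lit 0) (XT.lf (nat_lit 0) (nat_lit 10395731562) (nat_lit 304) (nat_lit 10870145936) (nat_lit 76) (nat_lit 19733553220) (nat_lit 72) (nat_lit 5) (nat_lit 76) (nat_lit 5) (nat_lit 73) (nat_lit 5) (nat_lit 363) (nat_lit 301) (nat_lit 116)) (XT.lf (nat_lit 0) (nat_lit 9004403788) (nat_lit 228) (nat_lit 8926694597) (nat_lit 304) (nat_lit 23910620783) (nat_lit 69) (nat_lit 5) (nat_lit 72) (nat_lit 5) (nat_lit 73) (nat_lit 5) (nat_lit 364) (nat_lit 301) (nat_lit 115))) (XT.nd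 (nat_lit 78) (nat_lit 228) (nat_lit 0) (XT.lf (nat_lit 0) (nat_lit 25836585485) (nat_lit 304) (nat_lit 13050327842) (nat_lit 76) (nat_lit 3818042912) (nat_lit 69) (nat_lit 5) (nat_lit 73) (nat_lit 5) (nat_lit 70) (nat_lit 5) (nat_lit 365) (nat_lit 301) (nat_lit 114)) (XT.lf (nat_lit 0) (nat_lit 7381148272) (nat_lit 228) (nat_lit 26754360104) (nat_lit 304) (nat_lit 9453895607) (nat_lit 66) (nat_lit 5) (nat_lit 69) (nat_lit 5) (nat_lit 70) (nat_lit 5) (nat_lit 366) (nat_lit 301) (nat_lit 113))))))) (XT.nd (nat_lit 1092) (nat_lit 1064) (nat_lit 0) (XT.nd (nat_lit 546) (nat_lit 684) (nat_lit 0) (XT.nd (nat_lit 234) (nat_lit 456) (nat_lit 0) (XT.nd (nat_lit 78) (nat_lit 304) (nat_lit 0) (XT.lf (nat_lit 0) (nat_lit 28688363646) (nat_lit 228) (nat_lit 14123797815) (nat_lit 304) (nat_lit 1684362469) (nat_lit 66) (nat_lit 5) (nat_lit 69) (nat_lit 5) (nat_lit 70) (nat_lit 5) (nat_lit 367) (nat_lit 301) (nat_lit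 112)) (XT.nd (nat_lit 78) (nat_lit 0) (nat_lit 0) (XT.lf (nat_lit 0) (nat_lit 5240823520) (nat_lit 228) (nat_lit 1001556352) (nat_lit 304) (nat_lit 39185234654) (nat_lit 62) (nat_lit 5) (nat_lit 65) (nat_lit 5) (nat_lit 66) (nat_lit 5) (nat_lit 368) (nat_lit 301) (nat_lit 111)) (XT.lf (nat_lit 0) (nat_lit 14651641074) (nat_lit 304) (nat_lit 19279747540) (nat_lit 76) (nat_lit 12446393307) (nat_lit 62) (nat_lit 5) (nat_lit 66) (nat_lit 5) (nat_lit 63) (nat_lit 5) (nat_lit 369) (nat_lit 301) (nat_lit 110)))) (XT.nd (nat_lit 156) (nat_lit 228) (nat_lit 0) (XT.nd (nat_lit 78) (nat_lit 0) (nat_lit 0) (XT.lf (nat_lit 0) (nat_lit 2284634117) (nat_lit 228) (nat_lit 21057572302) (nat_lit 304) (nat_lit 24013378593) (nat_lit 59) (nat_lit 5) (nat_lit 62) (nat_lit 5) (nat_lit 63) (nat_lit 5) (nat_lit 370) (nat_lit 301) (nat_lit 109)) (XT.lf (nat_lit 0) (nat_lit 24886669488) (nat_lit 228) (nat_lit 7598695344)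 (nat_lit 304) (nat_lit 15871602501) (nat_lit 59) (nat_lit 5) (nat_lit 62) (nat_lit 5) (nat_lit 63) (nat_lit 5) (nat_lit 371) (nat_lit 301) (nat_lit 108))) (XT.nd (nat_lit 78) (nat_lit 228) (nat_lit 0) (XT.lf (nat_lit 0) (nat_lit 41960285550) (nat_lit 304) (nat_lit 1286268451) (nat_lit 76) (nat_lit 6140114475) (nat_lit 59) (nat_lit 5) (nat_lit 63) (nat_lit 5) (nat_lit 60) (nat_lit 5) (nat_lit 372) (nat_lit 301) (nat_lit 107)) (XT.lf (nat_lit 0) (nat_lit 1533364932) (nat_lit 228) (nat_lit 28542484579) (nat_lit 76) (nat_lit 20362465666) (nat_lit 56) (nat_lit 5) (nat_lit 59) (nat_lit 5) (nat_lit 57) (nat_lit 5) (nat_lit 373) (nat_lit 301) (nat_lit 106))))) (XT.nd (nat_lit 234) (nat_lit 456) (nat_lit 0) (XT.nd (nat_lit 78) (nat_lit 228) (nat_lit 0) (XT.lf (nat_lit 0) (nat_lit 10623103679) (nat_lit 228) (nat_lit 5799332158) (nat_lit 76) (nat_lit 35096557006) (nat_lit 56) (nat_lit 5) (nat_lit 59) (nat_lit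 5) (nat_lit 57) (nat_lit 5) (nat_lit 374) (nat_lit 301) (nat_lit 105)) (XT.nd (nat_lit 78) (nat_lit 0) (nat_lit 0) (XT.lf (nat_lit 0) (nat_lit 17972638109) (nat_lit 228) (nat_lit 2183081835) (nat_lit 304) (nat_lit 32471266560) (nat_lit 53) (nat_lit 5) (nat_lit 56) (nat_lit 5) (nat_lit 57) (nat_lit 5) (nat_lit 375) (nat_lit 301) (nat_lit 104)) (XT.lf (nat_lit 0) (nat_lit 30150896184) (nat_lit 304) (nat_lit 11314602071) (nat_lit 76) (nat_lit 12297425463) (nat_lit 53) (nat_lit 5) (nat_lit 57) (nat_lit 5) (nat_lit 54) (nat_lit 5) (nat_lit 376) (nat_lit 301) (nat_lit 103)))) (XT.nd (nat_lit 156) (nat_lit 304) (nat_lit 0) (XT.nd (nat_lit 78) (nat_lit 0) (nat_lit 0) (XT.lf (nat_lit 0) (nat_lit 12952383552) (nat_lit 152) (nat_lit 27637180792) (nat_lit 228) (nat_lit 14339066763) (nat_lit 51) (nat_lit 5) (nat_lit 53) (nat_lit 5) (nat_lit 54) (nat_lit 5) (nat_lit 377) (nat_lit 301) (nat_lit 102)) (XT.lf (nat_lit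 0) (nat_lit 38175270981) (nat_lit 152) (nat_lit 13277926054) (nat_lit 228) (nat_lit 4672759666) (nat_lit 51) (nat_lit 5) (nat_lit 53) (nat_lit 5) (nat_lit 54) (nat_lit 5) (nat_lit 378) (nat_lit 301) (nat_lit 101))) (XT.nd (nat_lit 78) (nat_lit 0) (nat_lit 0) (XT.lf (nat_lit 0) (nat_lit 5259796147) (nat_lit 304) (nat_lit 50496412345) (nat_lit 76) (nat_lit 1599090162) (nat_lit 47) (nat_lit 5) (nat_lit 51) (nat_lit 5) (nat_lit 48) (nat_lit 5) (nat_lit 379) (nat_lit 301) (nat_lit 100)) (XT.lf (nat_lit 0) (nat_lit 15708549914) (nat_lit 304) (nat_lit 26018885393) (nat_lit 76) (nat_lit 16883334462) (nat_lit 47) (nat_lit 5) (nat_lit 51) (nat_lit 5) (nat_lit 48) (nat_lit 5) (nat_lit 380) (nat_lit 301) (nat_lit 99)))))) (XT.nd (nat_lit 546) (nat_lit 532) (nat_lit 0) (XT.nd (nat_lit 234) (nat_lit 380) (nat_lit 0) (XT.nd (nat_lit 78) (nat_lit 152) (nat_lit 0) (XT.lf (nat_lit 0) (nat_lit 26468448875) (nat_lit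 304) (nat_lit 810911475) (nat_lit 76) (nat_lit 32624615187) (nat_lit 47) (nat_lit 5) (nat_lit 51) (nat_lit 5) (nat_lit 48) (nat_lit 5) (nat_lit 381) (nat_lit 301) (nat_lit 98)) (XT.nd (nat_lit 78) (nat_lit 0) (nat_lit 0) (XT.lf (nat_lit 0) (nat_lit 25650060869) (nat_lit 152) (nat_lit 12145398091) (nat_lit 228) (nat_lit 23433190059) (nat_lit 45) (nat_lit 5) (nat_lit 47) (nat_lit 5) (nat_lit 48) (nat_lit 5) (nat_lit 382) (nat_lit 301) (nat_lit 97)) (XT.lf (nat_lit 0) (nat_lit 49501406517) (nat_lit 228) (nat_lit 9708287053) (nat_lit 76) (nat_lit 3382196260) (nat_lit 45) (nat_lit 5) (nat_lit 48) (nat_lit 5) (nat_lit 46) (nat_lit 5) (nat_lit 383) (nat_lit 301) (nat_lit 96)))) (XT.nd (nat_lit 156) (nat_lit 152) (nat_lit 0) (XT.nd (nat_lit 78) (nat_lit 76) (nat_lit 0) (XT.lf (nat_lit 0) (nat_lit 17148835320) (nat_lit 152) (nat_lit 44692624095) (nat_lit 228) (nat_lit 2146081556) (nat_lit 43) (nat_lit 5)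 (nat_lit 45) (nat_lit 5) (nat_lit 46) (nat_lit 5) (nat_lit 384) (nat_lit 301) (nat_lit 95)) (XT.lf (nat_lit 0) (nat_lit 9045400226) (nat_lit 228) (nat_lit 20503820231) (nat_lit 76) (nat_lit 35870304863) (nat_lit 42) (nat_lit 5) (nat_lit 45) (nat_lit 5) (nat_lit 43) (nat_lit 5) (nat_lit 385) (nat_lit 301) (nat_lit 94))) (XT.nd (nat_lit 78) (nat_lit 0) (nat_lit 0) (XT.lf (nat_lit 0) (nat_lit 6727569965) (nat_lit 152) (nat_lit 13864491440) (nat_lit 228) (nat_lit 46299894107) (nat_lit 40) (nat_lit 5) (nat_lit 42) (nat_lit 5) (nat_lit 43) (nat_lit 5) (nat_lit 386) (nat_lit 301) (nat_lit 93)) (XT.lf (nat_lit 0) (nat_lit 32714153797) (nat_lit 228) (nat_lit 33233793920) (nat_lit 76) (nat_lit 2453740762) (nat_lit 40) (nat_lit 5) (nat_lit 43) (nat_lit 5) (nat_lit 41) (nat_lit 5) (nat_lit 387) (nat_lit 301) (nat_lit 92))))) (XT.nd (nat_lit 312) (nat_lit 152) (nat_lit 0) (XT.nd (nat_lit 156) (nat_lit 228) (nat_lit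 0) (XT.nd (nat_lit 78) (nat_lit 152) (nat_lit 0) (XT.lf (nat_lit 0) (nat_lit 45335154588) (nat_lit 228) (nat_lit 5636038758) (nat_lit 76) (nat_lit 18981463507) (nat_lit 40) (nat_lit 5) (nat_lit 43) (nat_lit 5) (nat_lit 41) (nat_lit 5) (nat_lit 388) (nat_lit 301) (nat_lit 91)) (XT.lf (nat_lit 0) (nat_lit 23239759874) (nat_lit 152) (nat_lit 35316452778) (nat_lit 228) (nat_lit 12987299571) (nat_lit 38) (nat_lit 5) (nat_lit 40) (nat_lit 5) (nat_lit 41) (nat_lit 5) (nat_lit 389) (nat_lit 301) (nat_lit 90))) (XT.nd (nat_lit 78) (nat_lit 228) (nat_lit 0) (XT.lf (nat_lit 0) (nat_lit 53094018274) (nat_lit 152) (nat_lit 19134854716) (nat_lit 228) (nat_lit 951571891) (nat_lit 38) (nat_lit 5) (nat_lit 40) (nat_lit 5) (nat_lit 41) (nat_lit 5) (nat_lit 390) (nat_lit 301) (nat_lit 89)) (XT.lf (nat_lit 0) (nat_lit 9040525003) (nat_lit 152) (nat_lit 2266362845) (nat_lit 228) (nat_lit 63553747878) (nat_lit 35) (nat_lit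 5) (nat_lit 37) (nat_lit 5) (nat_lit 38) (nat_lit 5) (nat_lit 391) (nat_lit 301) (nat_lit 88)))) (XT.nd (nat_lit 156) (nat_lit 152) (nat_lit 0) (XT.nd (nat_lit 78) (nat_lit 0) (nat_lit 0) (XT.lf (nat_lit 0) (nat_lit 24262152367) (nat_lit 228) (nat_lit 37292069161) (nat_lit 76) (nat_lit 15026283501) (nat_lit 35) (nat_lit 5) (nat_lit 38) (nat_lit 5) (nat_lit 36) (nat_lit 5) (nat_lit 392) (nat_lit 301) (nat_lit 87)) (XT.lf (nat_lit 0) (nat_lit 37626674986) (nat_lit 228) (nat_lit 7933829693) (nat_lit 76) (nat_lit 32790848387) (nat_lit 35) (nat_lit 5) (nat_lit 38) (nat_lit 5) (nat_lit 36) (nat_lit 5) (nat_lit 393) (nat_lit 301) (nat_lit 86))) (XT.nd (nat_lit 78) (nat_lit 0) (nat_lit 0) (XT.lf (nat_lit 0) (nat_lit 22745900628) (nat_lit 152) (nat_lit 28863094663) (nat_lit 228) (nat_lit 28559826032) (nat_lit 33) (nat_lit 5) (nat_lit 35) (nat_lit 5) (nat_lit 36) (nat_lit 5) (nat_lit 394) (nat_lit 301) (nat_lit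 85)) (XT.lf (nat_lit 0) (nat_lit 54505578307) (nat_lit 152) (nat_lit 11583559911) (nat_lit 228) (nat_lit 15949325440) (nat_lit 33) (nat_lit 5) (nat_lit 35) (nat_lit 5) (nat_lit 36) (nat_lit 5) (nat_lit 395) (nat_lit 301) (nat_lit 84))))))))
noncomputable def xc197 : XT := (XT.nd (nat_lit 34944) (nat_lit 0) (nat_lit 5092) (XT.nd (nat_lit 33852) (nat_lit 0) (nat_lit 12008) (XT.nd (nat_lit 33306) (nat_lit 0) (nat_lit 13452) (XT.nd (nat_lit 234) (nat_lit 228) (nat_lit 0) (XT.nd (nat_lit 78) (nat_lit 76) (nat_lit 0) (XT.lf (nat_lit 0) (nat_lit 3254593427) (nat_lit 76) (nat_lit 77838389337) (nat_lit 152) (nat_lit 2868534181) (nat_lit 32) (nat_lit 5) (nat_lit 33) (nat_lit 5) (nat_lit 34) (nat_lit 4) (nat_lit 396) (nat_lit 301) (nat_lit 83)) (XT.nd (nat_lit 78) (nat_lit 0) (nat_lit 0) (XT.lf (nat_lit 0) (nat_lit 10791494809) (nat_lit 152) (nat_lit 50626242728) (nat_lit 76) (nat_lit 24509654217) (nat_lit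 31) (nat_lit 5) (nat_lit 33) (nat_lit 5) (nat_lit 32) (nat_lit 5) (nat_lit 397) (nat_lit 301) (nat_lit 82)) (XT.lf (nat_lit 0) (nat_lit 24801999962) (nat_lit 152) (nat_lit 19674489756) (nat_lit 76) (nat_lit 43474951700) (nat_lit 31) (nat_lit 5) (nat_lit 33) (nat_lit 5) (nat_lit 32) (nat_lit 5) (nat_lit 398) (nat_lit 301) (nat_lit 81)))) (XT.nd (nat_lit 156) (nat_lit 76) (nat_lit 0) (XT.nd (nat_lit 78) (nat_lit 0) (nat_lit 0) (XT.lf (nat_lit 0) (nat_lit 12445817449) (nat_lit 152) (nat_lit 26905018264) (nat_lit 228) (nat_lit 50681836933) (nat_lit 29) (nat_lit 5) (nat_lit 31) (nat_lit 5) (nat_lit 32) (nat_lit 5) (nat_lit 399) (nat_lit 301) (nat_lit 80)) (XT.lf (nat_lit 0) (nat_lit 45930208590) (nat_lit 152) (nat_lit 8603000339) (nat_lit 228) (nat_lit 37637220229) (nat_lit 29) (nat_lit 5) (nat_lit 31) (nat_lit 5) (nat_lit 32) (nat_lit 5) (nat_lit 400) (nat_lit 301) (nat_lit 79))) (XT.nd (nat_lit 78)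 (nat_lit 76) (nat_lit 0) (XT.lf (nat_lit 0) (nat_lit 70267997909) (nat_lit 228) (nat_lit 14054483864) (nat_lit 76) (nat_lit 10046928760) (nat_lit 29) (nat_lit 5) (nat_lit 32) (nat_lit 5) (nat_lit 30) (nat_lit 4) (nat_lit 401) (nat_lit 301) (nat_lit 78)) (XT.lf (nat_lit 0) (nat_lit 19387256913) (nat_lit 76) (nat_lit 67357593428) (nat_lit 152) (nat_lit 9881410905) (nat_lit 28) (nat_lit 5) (nat_lit 29) (nat_lit 5) (nat_lit 30) (nat_lit 4) (nat_lit 402) (nat_lit 301) (nat_lit 77))))) (XT.nd (nat_lit 234) (nat_lit 0) (nat_lit 76) (XT.nd (nat_lit 78) (nat_lit 0) (nat_lit 0) (XT.lf (nat_lit 0) (nat_lit 701504038) (nat_lit 0) (nat_lit 701504038) (nat_lit 1140) (nat_lit 5776195566) (nat_lit 205) (nat_lit 5) (nat_lit 205) (nat_lit 3) (nat_lit 220) (nat_lit 3) (nat_lit 302) (nat_lit 302) (nat_lit 176)) (XT.nd (nat_lit 78) (nat_lit 0) (nat_lit 0) (XT.lf (nat_lit 0) (nat_lit 3210076889) (nat_lit 1140) (nat_lit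 6408711860) (nat_lit 1216) (nat_lit 4943811212) (nat_lit 205) (nat_lit 5) (nat_lit 220) (nat_lit 3) (nat_lit 221) (nat_lit 5) (nat_lit 303) (nat_lit 302) (nat_lit 175)) (XT.lf (nat_lit 76) (nat_lit 320176675) (nat_lit 0) (nat_lit 3310875384) (nat_lit 1216) (nat_lit 11141735239) (nat_lit 206) (nat_lit 5) (nat_lit 205) (nat_lit 5) (nat_lit 221) (nat_lit 5) (nat_lit 304) (nat_lit 302) (nat_lit 174)))) (XT.nd (nat_lit 156) (nat_lit 0) (nat_lit 76) (XT.nd (nat_lit 78) (nat_lit 0) (nat_lit 0) (XT.lf (nat_lit 0) (nat_lit 4148808872) (nat_lit 1140) (nat_lit 7643216222) (nat_lit 1216) (nat_lit 3194742876) (nat_lit 206) (nat_lit 5) (nat_lit 221) (nat_lit 5) (nat_lit 222) (nat_lit 5) (nat_lit 305) (nat_lit 302) (nat_lit 173)) (XT.lf (nat_lit 0) (nat_lit 4703391750) (nat_lit 1140) (nat_lit 669032034) (nat_lit 1216) (nat_lit 9834117410) (nat_lit 206) (nat_lit 5) (nat_lit 221) (nat_lit 5) (nat_lit 222) (nat_lit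 5) (nat_lit 306) (nat_lit 302) (nat_lit 172))) (XT.nd (nat_lit 78) (nat_lit 0) (nat_lit 0) (XT.lf (nat_lit 0) (nat_lit 5339855359) (nat_lit 1140) (nat_lit 8806552116) (nat_lit 1216) (nat_lit 1284554424) (nat_lit 207) (nat_lit 5) (nat_lit 222) (nat_lit 5) (nat_lit 223) (nat_lit 5) (nat_lit 307) (nat_lit 302) (nat_lit 171)) (XT.lf (nat_lit 0) (nat_lit 6044580491) (nat_lit 1140) (nat_lit 1571634765) (nat_lit 1216) (nat_lit 8044436187) (nat_lit 207) (nat_lit 5) (nat_lit 222) (nat_lit 5) (nat_lit 223) (nat_lit 5) (nat_lit 308) (nat_lit 302) (nat_lit 170)))))) (XT.nd (nat_lit 546) (nat_lit 1596) (nat_lit 0) (XT.nd (nat_lit 234) (nat_lit 0) (nat_lit 152) (XT.nd (nat_lit 78) (nat_lit 0) (nat_lit 76) (XT.lf (nat_lit 76) (nat_lit 5990594822) (nat_lit 0) (nat_lit 826906261) (nat_lit 1216) (nat_lit 9078329899) (nat_lit 208) (nat_lit 5) (nat_lit 207) (nat_lit 5) (nat_lit 223) (nat_lit 5) (nat_lit 309) (nat_lit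 302) (nat_lit 169)) (XT.nd (nat_lit 78) (nat_lit 0) (nat_lit 0) (XT.lf (nat_lit 0) (nat_lit 7678656811) (nat_lit 1140) (nat_lit 2392034137) (nat_lit 1216) (nat_lit 6065434132) (nat_lit 208) (nat_lit 5) (nat_lit 223) (nat_lit 5) (nat_lit 224) (nat_lit 5) (nat_lit 310) (nat_lit 302) (nat_lit 168)) (XT.lf (nat_lit 76) (nat_lit 5437765469) (nat_lit 0) (nat_lit 3178386473) (nat_lit 1216) (nat_lit 7765971208) (nat_lit 209) (nat_lit 5) (nat_lit 208) (nat_lit 5) (nat_lit 224) (nat_lit 5) (nat_lit 311) (nat_lit 302) (nat_lit 167)))) (XT.nd (nat_lit 156) (nat_lit 0) (nat_lit 76) (XT.nd (nat_lit 78) (nat_lit 0) (nat_lit 0) (XT.lf (nat_lit 0) (nat_lit 9634155854) (nat_lit 1140) (nat_lit 3128197429) (nat_lit 1216) (nat_lit 3871586354) (nat_lit 209) (nat_lit 5) (nat_lit 224) (nat_lit 5) (nat_lit 225) (nat_lit 5) (nat_lit 312) (nat_lit 302) (nat_lit 166)) (XT.lf (nat_lit 76) (nat_lit 4981399892) (nat_lit 0) (nat_lit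 5771237768) (nat_lit 1216) (nat_lit 6138584526) (nat_lit 210) (nat_lit 5) (nat_lit 209) (nat_lit 5) (nat_lit 225) (nat_lit 5) (nat_lit 313) (nat_lit 302) (nat_lit 165))) (XT.nd (nat_lit 78) (nat_lit 0) (nat_lit 0) (XT.lf (nat_lit 0) (nat_lit 11941135578) (nat_lit 1140) (nat_lit 3777947130) (nat_lit 1216) (nat_lit 1436056071) (nat_lit 210) (nat_lit 5) (nat_lit 225) (nat_lit 5) (nat_lit 226) (nat_lit 5) (nat_lit 314) (nat_lit 302) (nat_lit 164)) (XT.lf (nat_lit 76) (nat_lit 4624155268) (nat_lit 0) (nat_lit 8633809721) (nat_lit 1216) (nat_lit 4166236730) (nat_lit 211) (nat_lit 5) (nat_lit 210) (nat_lit 5) (nat_lit 226) (nat_lit 5) (nat_lit 315) (nat_lit 302) (nat_lit 163))))) (XT.nd (nat_lit 234) (nat_lit 1824) (nat_lit 0) (XT.nd (nat_lit 78) (nat_lit 0) (nat_lit 76) (XT.lf (nat_lit 76) (nat_lit 13349009856) (nat_lit 0) (nat_lit 1294719376) (nat_lit 1216) (nat_lit 3056733292) (nat_lit 211) (nat_lit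 5) (nat_lit 210) (nat_lit 5) (nat_lit 226) (nat_lit 5) (nat_lit 316) (nat_lit 302) (nat_lit 162)) (XT.nd (nat_lit 78) (nat_lit 0) (nat_lit 0) (XT.lf (nat_lit 76) (nat_lit 4368791887) (nat_lit 0) (nat_lit 11796041051) (nat_lit 1216) (nat_lit 1817373839) (nat_lit 212) (nat_lit 5) (nat_lit 211) (nat_lit 5) (nat_lit 227) (nat_lit 5) (nat_lit 317) (nat_lit 302) (nat_lit 161)) (XT.lf (nat_lit 76) (nat_lit 13419997941) (nat_lit 0) (nat_lit 4359939636) (nat_lit 1216) (nat_lit 491023114) (nat_lit 212) (nat_lit 5) (nat_lit 211) (nat_lit 5) (nat_lit 227) (nat_lit 5) (nat_lit 318) (nat_lit 302) (nat_lit 160)))) (XT.nd (nat_lit 156) (nat_lit 760) (nat_lit 0) (XT.nd (nat_lit 78) (nat_lit 0) (nat_lit 0) (XT.lf (nat_lit 0) (nat_lit 922919198) (nat_lit 1216) (nat_lit 14357384573) (nat_lit 76) (nat_lit 3285882641) (nat_lit 196) (nat_lit 5) (nat_lit 212) (nat_lit 5) (nat_lit 197) (nat_lit 5) (nat_lit 319) (nat_lit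 302) (nat_lit 159)) (XT.lf (nat_lit 0) (nat_lit 2454119591) (nat_lit 1216) (nat_lit 5284450584) (nat_lit 76) (nat_lit 11129019271) (nat_lit 196) (nat_lit 5) (nat_lit 212) (nat_lit 5) (nat_lit 197) (nat_lit 5) (nat_lit 320) (nat_lit 302) (nat_lit 158))) (XT.nd (nat_lit 78) (nat_lit 0) (nat_lit 0) (XT.lf (nat_lit 0) (nat_lit 4063987913) (nat_lit 836) (nat_lit 15043147649) (nat_lit 76) (nat_lit 69924488) (nat_lit 186) (nat_lit 5) (nat_lit 197) (nat_lit 5) (nat_lit 187) (nat_lit 5) (nat_lit 321) (nat_lit 302) (nat_lit 157)) (XT.lf (nat_lit 0) (nat_lit 5845133101) (nat_lit 836) (nat_lit 5635119328) (nat_lit 76) (nat_lit 8011880135) (nat_lit 186) (nat_lit 5) (nat_lit 197) (nat_lit 5) (nat_lit 187) (nat_lit 5) (nat_lit 322) (nat_lit 302) (nat_lit 156))))))) (XT.nd (nat_lit 1092) (nat_lit 3192) (nat_lit 0) (XT.nd (nat_lit 546) (nat_lit 1520) (nat_lit 0) (XT.nd (nat_lit 234) (nat_lit 1064) (nat_lit 0) (XT.nd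 (nat_lit 78) (nat_lit 532) (nat_lit 0) (XT.lf (nat_lit 0) (nat_lit 4129013102) (nat_lit 608) (nat_lit 3583079831) (nat_lit 684) (nat_lit 12103599922) (nat_lit 178) (nat_lit 5) (nat_lit 186) (nat_lit 5) (nat_lit 187) (nat_lit 5) (nat_lit 323) (nat_lit 302) (nat_lit 155)) (XT.nd (nat_lit 78) (nat_lit 532) (nat_lit 0) (XT.lf (nat_lit 0) (nat_lit 9729119427) (nat_lit 684) (nat_lit 5896848903) (nat_lit 76) (nat_lit 4520176690) (nat_lit 178) (nat_lit 5) (nat_lit 187) (nat_lit 5) (nat_lit 179) (nat_lit 5) (nat_lit 324) (nat_lit 302) (nat_lit 154)) (XT.lf (nat_lit 0) (nat_lit 4227015707) (nat_lit 532) (nat_lit 7648801880) (nat_lit 608) (nat_lit 8608624944) (nat_lit 171) (nat_lit 5) (nat_lit 178) (nat_lit 5) (nat_lit 179) (nat_lit 5) (nat_lit 325) (nat_lit 302) (nat_lit 153)))) (XT.nd (nat_lit 156) (nat_lit 532) (nat_lit 0) (XT.nd (nat_lit 78) (nat_lit 532) (nat_lit 0) (XT.lf (nat_lit 0) (nat_lit 14145702780)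 (nat_lit 608) (nat_lit 6068489839) (nat_lit 76) (nat_lit 616939178) (nat_lit 171) (nat_lit 5) (nat_lit 179) (nat_lit 5) (nat_lit 172) (nat_lit 5) (nat_lit 326) (nat_lit 302) (nat_lit 152)) (XT.lf (nat_lit 0) (nat_lit 4430215864) (nat_lit 532) (nat_lit 12165176606) (nat_lit 608) (nat_lit 4589484260) (nat_lit 164) (nat_lit 5) (nat_lit 171) (nat_lit 5) (nat_lit 172) (nat_lit 5) (nat_lit 327) (nat_lit 302) (nat_lit 151))) (XT.nd (nat_lit 78) (nat_lit 532) (nat_lit 0) (XT.lf (nat_lit 0) (nat_lit 15361727566) (nat_lit 532) (nat_lit 3811645912) (nat_lit 608) (nat_lit 2374222561) (nat_lit 164) (nat_lit 5) (nat_lit 171) (nat_lit 5) (nat_lit 172) (nat_lit 5) (nat_lit 328) (nat_lit 302) (nat_lit 150)) (XT.lf (nat_lit 0) (nat_lit 4739854691) (nat_lit 532) (nat_lit 17174178760) (nat_lit 608) (nat_lit 4609156) (nat_lit 157) (nat_lit 5) (nat_lit 164) (nat_lit 5) (nat_lit 165) (nat_lit 5) (nat_lit 329) (nat_lit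 302) (nat_lit 149))))) (XT.nd (nat_lit 234) (nat_lit 912) (nat_lit 0) (XT.nd (nat_lit 78) (nat_lit 532) (nat_lit 0) (XT.lf (nat_lit 0) (nat_lit 2483141341) (nat_lit 608) (nat_lit 6247189249) (nat_lit 76) (nat_lit 13566955431) (nat_lit 156) (nat_lit 5) (nat_lit 164) (nat_lit 5) (nat_lit 157) (nat_lit 5) (nat_lit 330) (nat_lit 302) (nat_lit 148)) (XT.nd (nat_lit 78) (nat_lit 0) (nat_lit 0) (XT.lf (nat_lit 0) (nat_lit 5088617570) (nat_lit 608) (nat_lit 17580656215) (nat_lit 76) (nat_lit 16723378) (nat_lit 149) (nat_lit 5) (nat_lit 157) (nat_lit 5) (nat_lit 150) (nat_lit 5) (nat_lit 331) (nat_lit 302) (nat_lit 147)) (XT.lf (nat_lit 0) (nat_lit 7916461668) (nat_lit 608) (nat_lit 6251577423) (nat_lit 76) (nat_lit 8914009655) (nat_lit 149) (nat_lit 5) (nat_lit 157) (nat_lit 5) (nat_lit 150) (nat_lit 5) (nat_lit 332) (nat_lit 302) (nat_lit 146)))) (XT.nd (nat_lit 156) (nat_lit 456) (nat_lit 0) (XT.nd (nat_lit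 78) (nat_lit 0) (nat_lit 0) (XT.lf (nat_lit 0) (nat_lit 5518709149) (nat_lit 456) (nat_lit 5357709987) (nat_lit 532) (nat_lit 12612149463) (nat_lit 143) (nat_lit 5) (nat_lit 149) (nat_lit 5) (nat_lit 150) (nat_lit 5) (nat_lit 333) (nat_lit 302) (nat_lit 145)) (XT.lf (nat_lit 0) (nat_lit 14018988840) (nat_lit 532) (nat_lit 6177950046) (nat_lit 76) (nat_lit 3707535671) (nat_lit 143) (nat_lit 5) (nat_lit 150) (nat_lit 5) (nat_lit 144) (nat_lit 5) (nat_lit 334) (nat_lit 302) (nat_lit 144))) (XT.nd (nat_lit 78) (nat_lit 0) (nat_lit 0) (XT.lf (nat_lit 0) (nat_lit 6025985925) (nat_lit 456) (nat_lit 11335317344) (nat_lit 532) (nat_lit 6968395167) (nat_lit 137) (nat_lit 5) (nat_lit 143) (nat_lit 5) (nat_lit 144) (nat_lit 5) (nat_lit 335) (nat_lit 302) (nat_lit 143)) (XT.lf (nat_lit 0) (nat_lit 18716470621) (nat_lit 456) (nat_lit 2144397849) (nat_lit 532) (nat_lit 3905105756) (nat_lit 137) (nat_lit 5) (nat_lit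 143) (nat_lit 5) (nat_lit 144) (nat_lit 5) (nat_lit 336) (nat_lit 302) (nat_lit 142)))))) (XT.nd (nat_lit 546) (nat_lit 1520) (nat_lit 0) (XT.nd (nat_lit 234) (nat_lit 760) (nat_lit 0) (XT.nd (nat_lit 78) (nat_lit 532) (nat_lit 0) (XT.lf (nat_lit 0) (nat_lit 6625039289) (nat_lit 380) (nat_lit 17969197221) (nat_lit 456) (nat_lit 617241800) (nat_lit 132) (nat_lit 5) (nat_lit 137) (nat_lit 5) (nat_lit 138) (nat_lit 5) (nat_lit 337) (nat_lit 302) (nat_lit 141)) (XT.nd (nat_lit 78) (nat_lit 456) (nat_lit 0) (XT.lf (nat_lit 0) (nat_lit 2792929299) (nat_lit 456) (nat_lit 5919375924) (nat_lit 76) (nat_lit 16954916656) (nat_lit 131) (nat_lit 5) (nat_lit 137) (nat_lit 5) (nat_lit 132) (nat_lit 5) (nat_lit 338) (nat_lit 302) (nat_lit 140)) (XT.lf (nat_lit 0) (nat_lit 6366342556) (nat_lit 532) (nat_lit 18886013427) (nat_lit 76) (nat_lit 881902262) (nat_lit 125) (nat_lit 5) (nat_lit 132) (nat_lit 5) (nat_lit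 126) (nat_lit 5) (nat_lit 339) (nat_lit 302) (nat_lit 139)))) (XT.nd (nat_lit 156) (nat_lit 380) (nat_lit 0) (XT.nd (nat_lit 78) (nat_lit 380) (nat_lit 0) (XT.lf (nat_lit 0) (nat_lit 10188601374) (nat_lit 532) (nat_lit 5774263856) (nat_lit 76) (nat_lit 10648195172) (nat_lit 125) (nat_lit 5) (nat_lit 132) (nat_lit 5) (nat_lit 126) (nat_lit 5) (nat_lit 340) (nat_lit 302) (nat_lit 138)) (XT.lf (nat_lit 0) (nat_lit 7878622489) (nat_lit 380) (nat_lit 6317801550) (nat_lit 456) (nat_lit 12903619583) (nat_lit 120) (nat_lit 5) (nat_lit 125) (nat_lit 5) (nat_lit 126) (nat_lit 5) (nat_lit 341) (nat_lit 302) (nat_lit 137))) (XT.nd (nat_lit 78) (nat_lit 380) (nat_lit 0) (XT.lf (nat_lit 0) (nat_lit 18413367721) (nat_lit 456) (nat_lit 5583860333) (nat_lit 76) (nat_lit 3603805462) (nat_lit 120) (nat_lit 5) (nat_lit 126) (nat_lit 5) (nat_lit 121) (nat_lit 5) (nat_lit 342) (nat_lit 302) (nat_lit 136)) (XT.lf (nat_lit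 0) (nat_lit 8561482877) (nat_lit 380) (nat_lit 14335561490) (nat_lit 456) (nat_lit 5215805657) (nat_lit 115) (nat_lit 5) (nat_lit 120) (nat_lit 5) (nat_lit 121) (nat_lit 5) (nat_lit 343) (nat_lit 302) (nat_lit 135))))) (XT.nd (nat_lit 312) (nat_lit 684) (nat_lit 0) (XT.nd (nat_lit 156) (nat_lit 380) (nat_lit 0) (XT.nd (nat_lit 78) (nat_lit 456) (nat_lit 0) (XT.lf (nat_lit 0) (nat_lit 23239850182) (nat_lit 380) (nat_lit 4327220114) (nat_lit 456) (nat_lit 1071399114) (nat_lit 115) (nat_lit 5) (nat_lit 120) (nat_lit 5) (nat_lit 121) (nat_lit 5) (nat_lit 344) (nat_lit 302) (nat_lit 134)) (XT.lf (nat_lit 0) (nat_lit 3278792443) (nat_lit 456) (nat_lit 19910857812) (nat_lit 76) (nat_lit 5984973091) (nat_lit 109) (nat_lit 5) (nat_lit 115) (nat_lit 5) (nat_lit 110) (nat_lit 5) (nat_lit 345) (nat_lit 302) (nat_lit 133))) (XT.nd (nat_lit 78) (nat_lit 380) (nat_lit 0) (XT.lf (nat_lit 0) (nat_lit 7831456132)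 (nat_lit 456) (nat_lit 5308319126) (nat_lit 76) (nat_lit 16583966642) (nat_lit 109) (nat_lit 5) (nat_lit 115) (nat_lit 5) (nat_lit 110) (nat_lit 5) (nat_lit 346) (nat_lit 302) (nat_lit 132)) (XT.lf (nat_lit 0) (nat_lit 9920254749) (nat_lit 380) (nat_lit 2691534110) (nat_lit 456) (nat_lit 17674815633) (nat_lit 104) (nat_lit 5) (nat_lit 109) (nat_lit 5) (nat_lit 110) (nat_lit 5) (nat_lit 347) (nat_lit 302) (nat_lit 131)))) (XT.nd (nat_lit 156) (nat_lit 380) (nat_lit 0) (XT.nd (nat_lit 78) (nat_lit 304) (nat_lit 0) (XT.lf (nat_lit 0) (nat_lit 17663028490) (nat_lit 456) (nat_lit 5234031345) (nat_lit 76) (nat_lit 7965471283) (nat_lit 104) (nat_lit 5) (nat_lit 110) (nat_lit 5) (nat_lit 105) (nat_lit 5) (nat_lit 348) (nat_lit 302) (nat_lit 130)) (XT.lf (nat_lit 0) (nat_lit 10525481613) (nat_lit 304) (nat_lit 12464059932) (nat_lit 380) (nat_lit 8462484882) (nat_lit 100) (nat_lit 5) (nat_lit 104) (nat_lit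 5) (nat_lit 105) (nat_lit 5) (nat_lit 349) (nat_lit 302) (nat_lit 129))) (XT.nd (nat_lit 78) (nat_lit 380) (nat_lit 0) (XT.lf (nat_lit 0) (nat_lit 26859610357) (nat_lit 304) (nat_lit 1665069728) (nat_lit 380) (nat_lit 3533064498) (nat_lit 100) (nat_lit 5) (nat_lit 104) (nat_lit 5) (nat_lit 105) (nat_lit 5) (nat_lit 350) (nat_lit 302) (nat_lit 128)) (XT.lf (nat_lit 0) (nat_lit 1709937114) (nat_lit 380) (nat_lit 21569732769) (nat_lit 76) (nat_lit 9395646826) (nat_lit 95) (nat_lit 5) (nat_lit 100) (nat_lit 5) (nat_lit 96) (nat_lit 5) (nat_lit 351) (nat_lit 302) (nat_lit 127))))))))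
noncomputable def xc198 : XT := (XT.nd (nat_lit 2184) (nat_lit 1672) (nat_lit 0) (XT.nd (nat_lit 1092) (nat_lit 1368) (nat_lit 0) (XT.nd (nat_lit 546) (nat_lit 1064) (nat_lit 0) (XT.nd (nat_lit 234) (nat_lit 608) (nat_lit 0) (XT.nd (nat_lit 78) (nat_lit 304) (nat_lit 0) (XT.lf (nat_lit 0) (nat_lit 7104816404) (nat_lit 380) (nat_lit 5362294118) (nat_lit 76) (nat_lit 20841290733) (nat_lit 95) (nat_lit 5) (nat_lit 100) (nat_lit 5) (nat_lit 96) (nat_lit 5) (nat_lit 352) (nat_lit 302) (nat_lit 126)) (XT.nd (nat_lit 78) (nat_lit 0) (nat_lit 0) (XT.lf (nat_lit 0) (nat_lit 11551500662) (nat_lit 304) (nat_lit 1217297241) (nat_lit 380) (nat_lit 21188465325) (nat_lit 91) (nat_lit 5) (nat_lit 95) (nat_lit 5) (nat_lit 96) (nat_lit 5) (nat_lit 353) (nat_lit 302) (nat_lit 125)) (XT.lf (nat_lit 0) (nat_lit 18753327791) (nat_lit 380) (nat_lit 5646880995) (nat_lit 76) (nat_lit 10220865897) (nat_lit 91) (nat_lit 5)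 (nat_lit 96) (nat_lit 5) (nat_lit 92) (nat_lit 5) (nat_lit 354) (nat_lit 302) (nat_lit 124)))) (XT.nd (nat_lit 156) (nat_lit 304) (nat_lit 0) (XT.nd (nat_lit 78) (nat_lit 0) (nat_lit 0) (XT.lf (nat_lit 0) (nat_lit 11828357124) (nat_lit 304) (nat_lit 13211160476) (nat_lit 380) (nat_lit 10261621579) (nat_lit 87) (nat_lit 5) (nat_lit 91) (nat_lit 5) (nat_lit 92) (nat_lit 5) (nat_lit 355) (nat_lit 302) (nat_lit 123)) (XT.lf (nat_lit 0) (nat_lit 29938487308) (nat_lit 304) (nat_lit 1629254894) (nat_lit 380) (nat_lit 4432262281) (nat_lit 87) (nat_lit 5) (nat_lit 91) (nat_lit 5) (nat_lit 92) (nat_lit 5) (nat_lit 356) (nat_lit 302) (nat_lit 122))) (XT.nd (nat_lit 78) (nat_lit 0) (nat_lit 0) (XT.lf (nat_lit 0) (nat_lit 1754288636) (nat_lit 304) (nat_lit 24728492104) (nat_lit 76) (nat_lit 10230214322) (nat_lit 83) (nat_lit 5) (nat_lit 87) (nat_lit 5) (nat_lit 84) (nat_lit 5) (nat_lit 357) (nat_lit 302) (nat_lit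 121)) (XT.lf (nat_lit 0) (nat_lit 8111832156) (nat_lit 304) (nat_lit 6815086149) (nat_lit 76) (nat_lit 22516908283) (nat_lit 83) (nat_lit 5) (nat_lit 87) (nat_lit 5) (nat_lit 84) (nat_lit 5) (nat_lit 358) (nat_lit 302) (nat_lit 120))))) (XT.nd (nat_lit 234) (nat_lit 532) (nat_lit 0) (XT.nd (nat_lit 78) (nat_lit 228) (nat_lit 0) (XT.lf (nat_lit 0) (nat_lit 11862260643) (nat_lit 304) (nat_lit 2908503058) (nat_lit 380) (nat_lit 23422501592) (nat_lit 79) (nat_lit 5) (nat_lit 83) (nat_lit 5) (nat_lit 84) (nat_lit 5) (nat_lit 359) (nat_lit 302) (nat_lit 119)) (XT.nd (nat_lit 78) (nat_lit 228) (nat_lit 0) (XT.lf (nat_lit 0) (nat_lit 21786669801) (nat_lit 380) (nat_lit 7820184148) (nat_lit 76) (nat_lit 9353619038) (nat_lit 79) (nat_lit 5) (nat_lit 84) (nat_lit 5) (nat_lit 80) (nat_lit 5) (nat_lit 360) (nat_lit 302) (nat_lit 118)) (XT.lf (nat_lit 0) (nat_lit 11435481531) (nat_lit 228) (nat_lit 17713060760)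 (nat_lit 304) (nat_lit 10598091911) (nat_lit 76) (nat_lit 5) (nat_lit 79) (nat_lit 5) (nat_lit 80) (nat_lit 5) (nat_lit 361) (nat_lit 302) (nat_lit 117)))) (XT.nd (nat_lit 156) (nat_lit 228) (nat_lit 0) (XT.nd (nat_lit 78) (nat_lit 304) (nat_lit 0) (XT.lf (nat_lit 0) (nat_lit 31424340830) (nat_lit 228) (nat_lit 5382714141) (nat_lit 304) (nat_lit 3747053671) (nat_lit 76) (nat_lit 5) (nat_lit 79) (nat_lit 5) (nat_lit 80) (nat_lit 5) (nat_lit 362) (nat_lit 302) (nat_lit 116)) (XT.lf (nat_lit 0) (nat_lit 3417308236) (nat_lit 304) (nat_lit 30652191214) (nat_lit 76) (nat_lit 7310184078) (nat_lit 72) (nat_lit 5) (nat_lit 76) (nat_lit 5) (nat_lit 73) (nat_lit 5) (nat_lit 363) (nat_lit 302) (nat_lit 115))) (XT.nd (nat_lit 78) (nat_lit 228) (nat_lit 0) (XT.lf (nat_lit 0) (nat_lit 10864595472) (nat_lit 304) (nat_lit 10955684747) (nat_lit 76) (nat_lit 20404335007) (nat_lit 72) (nat_lit 5) (nat_lit 76) (nat_lit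 5) (nat_lit 73) (nat_lit 5) (nat_lit 364) (nat_lit 302) (nat_lit 114)) (XT.lf (nat_lit 0) (nat_lit 9512742984) (nat_lit 228) (nat_lit 9110997526) (nat_lit 304) (nat_lit 24468502883) (nat_lit 69) (nat_lit 5) (nat_lit 72) (nat_lit 5) (nat_lit 73) (nat_lit 5) (nat_lit 365) (nat_lit 302) (nat_lit 113)))))) (XT.nd (nat_lit 546) (nat_lit 608) (nat_lit 0) (XT.nd (nat_lit 234) (nat_lit 532) (nat_lit 0) (XT.nd (nat_lit 78) (nat_lit 228) (nat_lit 0) (XT.lf (nat_lit 0) (nat_lit 26762665386) (nat_lit 304) (nat_lit 13206758261) (nat_lit 76) (nat_lit 4012068242) (nat_lit 69) (nat_lit 5) (nat_lit 73) (nat_lit 5) (nat_lit 70) (nat_lit 5) (nat_lit 366) (nat_lit 302) (nat_lit 112)) (XT.nd (nat_lit 78) (nat_lit 0) (nat_lit 0) (XT.lf (nat_lit 0) (nat_lit 7835357436) (nat_lit 228) (nat_lit 27473038556) (nat_lit 304) (nat_lit 9584144306) (nat_lit 66) (nat_lit 5) (nat_lit 69) (nat_lit 5) (nat_lit 70) (nat_lit 5) (nat_lit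 367) (nat_lit 302) (nat_lit 111)) (XT.lf (nat_lit 0) (nat_lit 29775009425) (nat_lit 228) (nat_lit 14466004613) (nat_lit 304) (nat_lit 1585992208) (nat_lit 66) (nat_lit 5) (nat_lit 69) (nat_lit 5) (nat_lit 70) (nat_lit 5) (nat_lit 368) (nat_lit 302) (nat_lit 110)))) (XT.nd (nat_lit 156) (nat_lit 228) (nat_lit 0) (XT.nd (nat_lit 78) (nat_lit 0) (nat_lit 0) (XT.lf (nat_lit 0) (nat_lit 5624780297) (nat_lit 228) (nat_lit 948793699) (nat_lit 304) (nat_lit 40212477035) (nat_lit 62) (nat_lit 5) (nat_lit 65) (nat_lit 5) (nat_lit 66) (nat_lit 5) (nat_lit 369) (nat_lit 302) (nat_lit 109)) (XT.lf (nat_lit 0) (nat_lit 15231693940) (nat_lit 304) (nat_lit 19634520561) (nat_lit 76) (nat_lit 12898613683) (nat_lit 62) (nat_lit 5) (nat_lit 66) (nat_lit 5) (nat_lit 63) (nat_lit 5) (nat_lit 370) (nat_lit 302) (nat_lit 108))) (XT.nd (nat_lit 78) (nat_lit 0) (nat_lit 0) (XT.lf (nat_lit 0) (nat_lit 2574600199) (nat_lit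 228) (nat_lit 21606412199) (nat_lit 304) (nat_lit 24591013984) (nat_lit 59) (nat_lit 5) (nat_lit 62) (nat_lit 5) (nat_lit 63) (nat_lit 5) (nat_lit 371) (nat_lit 302) (nat_lit 107)) (XT.lf (nat_lit 0) (nat_lit 25848247299) (nat_lit 228) (nat_lit 7746183126) (nat_lit 304) (nat_lit 16209142841) (nat_lit 59) (nat_lit 5) (nat_lit 62) (nat_lit 5) (nat_lit 63) (nat_lit 5) (nat_lit 372) (nat_lit 302) (nat_lit 106))))) (XT.nd (nat_lit 234) (nat_lit 380) (nat_lit 0) (XT.nd (nat_lit 78) (nat_lit 228) (nat_lit 0) (XT.lf (nat_lit 0) (nat_lit 43350432179) (nat_lit 304) (nat_lit 1112907711) (nat_lit 76) (nat_lit 6400922530) (nat_lit 59) (nat_lit 5) (nat_lit 63) (nat_lit 5) (nat_lit 60) (nat_lit 5) (nat_lit 373) (nat_lit 302) (nat_lit 105)) (XT.nd (nat_lit 78) (nat_lit 0) (nat_lit 0) (XT.lf (nat_lit 0) (nat_lit 1710241243) (nat_lit 228) (nat_lit 29186221394) (nat_lit 76) (nat_lit 21051013553) (nat_lit 56) (nat_lit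 5) (nat_lit 59) (nat_lit 5) (nat_lit 57) (nat_lit 5) (nat_lit 374) (nat_lit 302) (nat_lit 104)) (XT.lf (nat_lit 0) (nat_lit 11068860249) (nat_lit 228) (nat_lit 5766964819) (nat_lit 76) (nat_lit 36224865286) (nat_lit 56) (nat_lit 5) (nat_lit 59) (nat_lit 5) (nat_lit 57) (nat_lit 5) (nat_lit 375) (nat_lit 302) (nat_lit 103)))) (XT.nd (nat_lit 156) (nat_lit 152) (nat_lit 0) (XT.nd (nat_lit 78) (nat_lit 0) (nat_lit 0) (XT.lf (nat_lit 0) (nat_lit 18716141542) (nat_lit 228) (nat_lit 2169576671) (nat_lit 304) (nat_lit 33316259473) (nat_lit 53) (nat_lit 5) (nat_lit 56) (nat_lit 5) (nat_lit 57) (nat_lit 5) (nat_lit 376) (nat_lit 302) (nat_lit 102)) (XT.lf (nat_lit 0) (nat_lit 31177836705) (nat_lit 304) (nat_lit 11452697095) (nat_lit 76) (nat_lit 12741548316) (nat_lit 53) (nat_lit 5) (nat_lit 57) (nat_lit 5) (nat_lit 54) (nat_lit 5) (nat_lit 377) (nat_lit 302) (nat_lit 101))) (XT.nd (nat_lit 78) (nat_lit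 0) (nat_lit 0) (XT.lf (nat_lit 0) (nat_lit 13540324146) (nat_lit 152) (nat_lit 28387691776) (nat_lit 228) (nat_lit 14644795930) (nat_lit 51) (nat_lit 5) (nat_lit 53) (nat_lit 5) (nat_lit 54) (nat_lit 5) (nat_lit 378) (nat_lit 302) (nat_lit 100)) (XT.lf (nat_lit 0) (nat_lit 39514091331) (nat_lit 152) (nat_lit 13599948846) (nat_lit 228) (nat_lit 4692124170) (nat_lit 51) (nat_lit 5) (nat_lit 53) (nat_lit 5) (nat_lit 54) (nat_lit 5) (nat_lit 379) (nat_lit 302) (nat_lit 99))))))) (XT.nd (nat_lit 1092) (nat_lit 456) (nat_lit 0) (XT.nd (nat_lit 546) (nat_lit 532) (nat_lit 0) (XT.nd (nat_lit 234) (nat_lit 380) (nat_lit 0) (XT.nd (nat_lit 78) (nat_lit 0) (nat_lit 0) (XT.lf (nat_lit 0) (nat_lit 5535207592) (nat_lit 304) (nat_lit 51814439133) (nat_lit 76) (nat_lit 1722731802) (nat_lit 47) (nat_lit 5) (nat_lit 51) (nat_lit 5) (nat_lit 48) (nat_lit 5) (nat_lit 380) (nat_lit 302) (nat_lit 98)) (XT.nd (nat_lit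 78) (nat_lit 0) (nat_lit 0) (XT.lf (nat_lit 0) (nat_lit 16293998218) (nat_lit 304) (nat_lit 26608320321) (nat_lit 76) (nat_lit 17463299482) (nat_lit 47) (nat_lit 5) (nat_lit 51) (nat_lit 5) (nat_lit 48) (nat_lit 5) (nat_lit 381) (nat_lit 302) (nat_lit 97)) (XT.lf (nat_lit 0) (nat_lit 27373368173) (nat_lit 304) (nat_lit 649674126) (nat_lit 76) (nat_lit 33674678871) (nat_lit 47) (nat_lit 5) (nat_lit 51) (nat_lit 5) (nat_lit 48) (nat_lit 5) (nat_lit 382) (nat_lit 302) (nat_lit 96)))) (XT.nd (nat_lit 156) (nat_lit 228) (nat_lit 0) (XT.nd (nat_lit 78) (nat_lit 0) (nat_lit 0) (XT.lf (nat_lit 0) (nat_lit 26603308126) (nat_lit 152) (nat_lit 12435417606) (nat_lit 228) (nat_lit 24023454398) (nat_lit 45) (nat_lit 5) (nat_lit 47) (nat_lit 5) (nat_lit 48) (nat_lit 5) (nat_lit 383) (nat_lit 302) (nat_lit 95)) (XT.lf (nat_lit 0) (nat_lit 51093359031) (nat_lit 228) (nat_lit 9818604436) (nat_lit 76) (nat_lit 3554430827)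 (nat_lit 45) (nat_lit 5) (nat_lit 48) (nat_lit 5) (nat_lit 46) (nat_lit 5) (nat_lit 384) (nat_lit 302) (nat_lit 94))) (XT.nd (nat_lit 78) (nat_lit 76) (nat_lit 0) (XT.lf (nat_lit 0) (nat_lit 17842457773) (nat_lit 152) (nat_lit 45959764021) (nat_lit 228) (nat_lit 2101736235) (nat_lit 43) (nat_lit 5) (nat_lit 45) (nat_lit 5) (nat_lit 46) (nat_lit 5) (nat_lit 385) (nat_lit 302) (nat_lit 93)) (XT.lf (nat_lit 0) (nat_lit 9420263298) (nat_lit 228) (nat_lit 20942894637) (nat_lit 76) (nat_lit 37015807003) (nat_lit 42) (nat_lit 5) (nat_lit 45) (nat_lit 5) (nat_lit 43) (nat_lit 5) (nat_lit 386) (nat_lit 302) (nat_lit 92))))) (XT.nd (nat_lit 234) (nat_lit 380) (nat_lit 0) (XT.nd (nat_lit 78) (nat_lit 0) (nat_lit 0) (XT.lf (nat_lit 0) (nat_lit 7103711380) (nat_lit 152) (nat_lit 14208273954) (nat_lit 228) (nat_lit 47583624069) (nat_lit 40) (nat_lit 5) (nat_lit 42) (nat_lit 5) (nat_lit 43) (nat_lit 5) (nat_lit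 387) (nat_lit 302) (nat_lit 91)) (XT.nd (nat_lit 78) (nat_lit 0) (nat_lit 0) (XT.lf (nat_lit 0) (nat_lit 33795438273) (nat_lit 228) (nat_lit 34059229563) (nat_lit 76) (nat_lit 2596036752) (nat_lit 40) (nat_lit 5) (nat_lit 43) (nat_lit 5) (nat_lit 41) (nat_lit 5) (nat_lit 388) (nat_lit 302) (nat_lit 90)) (XT.lf (nat_lit 0) (nat_lit 46792160548) (nat_lit 228) (nat_lit 5638539169) (nat_lit 76) (nat_lit 19617590680) (nat_lit 40) (nat_lit 5) (nat_lit 43) (nat_lit 5) (nat_lit 41) (nat_lit 5) (nat_lit 389) (nat_lit 302) (nat_lit 89)))) (XT.nd (nat_lit 156) (nat_lit 228) (nat_lit 0) (XT.nd (nat_lit 78) (nat_lit 0) (nat_lit 0) (XT.lf (nat_lit 0) (nat_lit 24101900277) (nat_lit 152) (nat_lit 36306711829) (nat_lit 228) (nat_lit 13278297566) (nat_lit 38) (nat_lit 5) (nat_lit 40) (nat_lit 5) (nat_lit 41) (nat_lit 5) (nat_lit 390) (nat_lit 302) (nat_lit 88)) (XT.lf (nat_lit 0) (nat_lit 54846982130) (nat_lit 152)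 (nat_lit 19641682365) (nat_lit 228) (nat_lit 884370512) (nat_lit 38) (nat_lit 5) (nat_lit 40) (nat_lit 5) (nat_lit 41) (nat_lit 5) (nat_lit 391) (nat_lit 302) (nat_lit 87))) (XT.nd (nat_lit 78) (nat_lit 0) (nat_lit 0) (XT.lf (nat_lit 0) (nat_lit 9472198201) (nat_lit 152) (nat_lit 2266584462) (nat_lit 228) (nat_lit 65364858063) (nat_lit 35) (nat_lit 5) (nat_lit 37) (nat_lit 5) (nat_lit 38) (nat_lit 5) (nat_lit 392) (nat_lit 302) (nat_lit 86)) (XT.lf (nat_lit 0) (nat_lit 25080637927) (nat_lit 228) (nat_lit 38252947664) (nat_lit 76) (nat_lit 15541583507) (nat_lit 35) (nat_lit 5) (nat_lit 38) (nat_lit 5) (nat_lit 36) (nat_lit 5) (nat_lit 393) (nat_lit 302) (nat_lit 85)))))) (XT.nd (nat_lit 546) (nat_lit 0) (nat_lit 0) (XT.nd (nat_lit 234) (nat_lit 304) (nat_lit 0) (XT.nd (nat_lit 78) (nat_lit 152) (nat_lit 0) (XT.lf (nat_lit 0) (nat_lit 38843456779) (nat_lit 228) (nat_lit 8018559562) (nat_lit 76) (nat_lit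 33837206363) (nat_lit 35) (nat_lit 5) (nat_lit 38) (nat_lit 5) (nat_lit 36) (nat_lit 5) (nat_lit 394) (nat_lit 302) (nat_lit 84)) (XT.nd (nat_lit 78) (nat_lit 0) (nat_lit 0) (XT.lf (nat_lit 0) (nat_lit 23580059874) (nat_lit 152) (nat_lit 29664083273) (nat_lit 228) (nat_lit 29327105886) (nat_lit 33) (nat_lit 5) (nat_lit 35) (nat_lit 5) (nat_lit 36) (nat_lit 5) (nat_lit 395) (nat_lit 302) (nat_lit 83)) (XT.lf (nat_lit 0) (nat_lit 56288107042) (nat_lit 152) (nat_lit 11868052893) (nat_lit 228) (nat_lit 16340897506) (nat_lit 33) (nat_lit 5) (nat_lit 35) (nat_lit 5) (nat_lit 36) (nat_lit 5) (nat_lit 396) (nat_lit 302) (nat_lit 82)))) (XT.nd (nat_lit 156) (nat_lit 152) (nat_lit 0) (XT.nd (nat_lit 78) (nat_lit 76) (nat_lit 0) (XT.lf (nat_lit 0) (nat_lit 3500083134) (nat_lit 76) (nat_lit 80109589287) (nat_lit 152) (nat_lit 2868144194) (nat_lit 32) (nat_lit 5) (nat_lit 33) (nat_lit 5) (nat_lit 34) (nat_lit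 4) (nat_lit 397) (nat_lit 302) (nat_lit 81)) (XT.lf (nat_lit 0) (nat_lit 11197530079) (nat_lit 152) (nat_lit 51999819553) (nat_lit 76) (nat_lit 25305367984) (nat_lit 31) (nat_lit 5) (nat_lit 33) (nat_lit 5) (nat_lit 32) (nat_lit 5) (nat_lit 398) (nat_lit 302) (nat_lit 80))) (XT.nd (nat_lit 78) (nat_lit 152) (nat_lit 0) (XT.lf (nat_lit 0) (nat_lit 25625953579) (nat_lit 152) (nat_lit 20123743423) (nat_lit 76) (nat_lit 44837864465) (nat_lit 31) (nat_lit 5) (nat_lit 33) (nat_lit 5) (nat_lit 32) (nat_lit 5) (nat_lit 399) (nat_lit 302) (nat_lit 79)) (XT.lf (nat_lit 0) (nat_lit 12958790831) (nat_lit 152) (nat_lit 27651478482) (nat_lit 228) (nat_lit 52120990638) (nat_lit 29) (nat_lit 5) (nat_lit 31) (nat_lit 5) (nat_lit 32) (nat_lit 5) (nat_lit 400) (nat_lit 302) (nat_lit 78))))) (XT.nd (nat_lit 33228) (nat_lit 0) (nat_lit 13452) (XT.nd (nat_lit 33072) (nat_lit 0) (nat_lit 13376) (XT.nd (nat_lit 32994)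 (nat_lit 0) (nat_lit 13376) (XT.lf (nat_lit 0) (nat_lit 47443647721) (nat_lit 152) (nat_lit 8802167698) (nat_lit 228) (nat_lit 38687403435) (nat_lit 29) (nat_lit 5) (nat_lit 31) (nat_lit 5) (nat_lit 32) (nat_lit 5) (nat_lit 401) (nat_lit 302) (nat_lit 77)) (XT.lf (nat_lit 0) (nat_lit 877793252) (nat_lit 0) (nat_lit 877793252) (nat_lit 1140) (nat_lit 5629357401) (nat_lit 205) (nat_lit 5) (nat_lit 205) (nat_lit 3) (nat_lit 220) (nat_lit 3) (nat_lit 303) (nat_lit 303) (nat_lit 174))) (XT.nd (nat_lit 78) (nat_lit 0) (nat_lit 0) (XT.lf (nat_lit 0) (nat_lit 3906371205) (nat_lit 1140) (nat_lit 6277920323) (nat_lit 1216) (nat_lit 4796562982) (nat_lit 205) (nat_lit 5) (nat_lit 220) (nat_lit 3) (nat_lit 221) (nat_lit 5) (nat_lit 304) (nat_lit 303) (nat_lit 173)) (XT.lf (nat_lit 76) (nat_lit 649667682) (nat_lit 0) (nat_lit 3675907390) (nat_lit 1216) (nat_lit 10872222577) (nat_lit 206) (nat_lit 5) (nat_lit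 205) (nat_lit 5) (nat_lit 221) (nat_lit 5) (nat_lit 305) (nat_lit 303) (nat_lit 172)))) (XT.nd (nat_lit 156) (nat_lit 0) (nat_lit 76) (XT.nd (nat_lit 78) (nat_lit 0) (nat_lit 0) (XT.lf (nat_lit 0) (nat_lit 4839328794) (nat_lit 1140) (nat_lit 7541820378) (nat_lit 1216) (nat_lit 3037652281) (nat_lit 206) (nat_lit 5) (nat_lit 221) (nat_lit 5) (nat_lit 222) (nat_lit 5) (nat_lit 306) (nat_lit 303) (nat_lit 171)) (XT.lf (nat_lit 0) (nat_lit 5394062100) (nat_lit 1140) (nat_lit 368042480) (nat_lit 1216) (nat_lit 9883575028) (nat_lit 206) (nat_lit 5) (nat_lit 221) (nat_lit 5) (nat_lit 222) (nat_lit 5) (nat_lit 307) (nat_lit 303) (nat_lit 170))) (XT.nd (nat_lit 78) (nat_lit 0) (nat_lit 0) (XT.lf (nat_lit 0) (nat_lit 6034566414) (nat_lit 1140) (nat_lit 8734080821) (nat_lit 1216) (nat_lit 1108653920) (nat_lit 207) (nat_lit 5) (nat_lit 222) (nat_lit 5) (nat_lit 223) (nat_lit 5) (nat_lit 308) (nat_lit 303) (nat_lit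 169)) (XT.lf (nat_lit 0) (nat_lit 6744864890) (nat_lit 1140) (nat_lit 1291921809) (nat_lit 1216) (nat_lit 8077577879) (nat_lit 207) (nat_lit 5) (nat_lit 222) (nat_lit 5) (nat_lit 223) (nat_lit 5) (nat_lit 309) (nat_lit 303) (nat_lit 168))))))))
noncomputable def xc199 : XT := (XT.nd (nat_lit 2184) (nat_lit 5168) (nat_lit 0) (XT.nd (nat_lit 1092) (nat_lit 3724) (nat_lit 0) (XT.nd (nat_lit 546) (nat_lit 1596) (nat_lit 0) (XT.nd (nat_lit 234) (nat_lit 0) (nat_lit 152) (XT.nd (nat_lit 78) (nat_lit 0) (nat_lit 76) (XT.lf (nat_lit 76) (nat_lit 6493970136) (nat_lit 0) (nat_lit 1034999196) (nat_lit 1216) (nat_lit 8828005953) (nat_lit 208) (nat_lit 5) (nat_lit 207) (nat_lit 5) (nat_lit 223) (nat_lit 5) (nat_lit 310) (nat_lit 303) (nat_lit 167)) (XT.nd (nat_lit 78) (nat_lit 0) (nat_lit 0) (XT.lf (nat_lit 0) (nat_lit 8399483857) (nat_lit 1140) (nat_lit 2132581617) (nat_lit 1216) (nat_lit 6072922221) (nat_lit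 208) (nat_lit 5) (nat_lit 223) (nat_lit 5) (nat_lit 224) (nat_lit 5) (nat_lit 311) (nat_lit 303) (nat_lit 166)) (XT.lf (nat_lit 76) (nat_lit 5928864786) (nat_lit 0) (nat_lit 3425106213) (nat_lit 1216) (nat_lit 7504743465) (nat_lit 209) (nat_lit 5) (nat_lit 208) (nat_lit 5) (nat_lit 224) (nat_lit 5) (nat_lit 312) (nat_lit 303) (nat_lit 165)))) (XT.nd (nat_lit 156) (nat_lit 0) (nat_lit 76) (XT.nd (nat_lit 78) (nat_lit 0) (nat_lit 0) (XT.lf (nat_lit 0) (nat_lit 10387141166) (nat_lit 1140) (nat_lit 2887777549) (nat_lit 1216) (nat_lit 3843642287) (nat_lit 209) (nat_lit 5) (nat_lit 224) (nat_lit 5) (nat_lit 225) (nat_lit 5) (nat_lit 313) (nat_lit 303) (nat_lit 164)) (XT.lf (nat_lit 76) (nat_lit 5461830576) (nat_lit 0) (nat_lit 6067015100) (nat_lit 1216) (nat_lit 5855040226) (nat_lit 210) (nat_lit 5) (nat_lit 209) (nat_lit 5) (nat_lit 225) (nat_lit 5) (nat_lit 314) (nat_lit 303) (nat_lit 163))) (XT.nd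 (nat_lit 78) (nat_lit 0) (nat_lit 0) (XT.lf (nat_lit 0) (nat_lit 12738641483) (nat_lit 1140) (nat_lit 3555129691) (nat_lit 1216) (nat_lit 1362393048) (nat_lit 210) (nat_lit 5) (nat_lit 225) (nat_lit 5) (nat_lit 226) (nat_lit 5) (nat_lit 315) (nat_lit 303) (nat_lit 162)) (XT.lf (nat_lit 76) (nat_lit 5095740134) (nat_lit 0) (nat_lit 8989640972) (nat_lit 1216) (nat_lit 3848218906) (nat_lit 211) (nat_lit 5) (nat_lit 210) (nat_lit 5) (nat_lit 226) (nat_lit 5) (nat_lit 316) (nat_lit 303) (nat_lit 161))))) (XT.nd (nat_lit 234) (nat_lit 1824) (nat_lit 0) (XT.nd (nat_lit 78) (nat_lit 0) (nat_lit 76) (XT.lf (nat_lit 76) (nat_lit 14072645402) (nat_lit 0) (nat_lit 1427558006) (nat_lit 1216) (nat_lit 2718333421) (nat_lit 211) (nat_lit 5) (nat_lit 210) (nat_lit 5) (nat_lit 226) (nat_lit 5) (nat_lit 317) (nat_lit 303) (nat_lit 160)) (XT.nd (nat_lit 78) (nat_lit 0) (nat_lit 0) (XT.lf (nat_lit 76) (nat_lit 4833560018)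 (nat_lit 0) (nat_lit 12223560380) (nat_lit 1216) (nat_lit 1451919977) (nat_lit 212) (nat_lit 5) (nat_lit 211) (nat_lit 5) (nat_lit 227) (nat_lit 5) (nat_lit 318) (nat_lit 303) (nat_lit 159)) (XT.lf (nat_lit 76) (nat_lit 14146582709) (nat_lit 0) (nat_lit 4562231124) (nat_lit 1216) (nat_lit 98011013) (nat_lit 212) (nat_lit 5) (nat_lit 211) (nat_lit 5) (nat_lit 227) (nat_lit 5) (nat_lit 319) (nat_lit 303) (nat_lit 158)))) (XT.nd (nat_lit 156) (nat_lit 760) (nat_lit 0) (XT.nd (nat_lit 78) (nat_lit 0) (nat_lit 0) (XT.lf (nat_lit 0) (nat_lit 1341313792) (nat_lit 1216) (nat_lit 14446319501) (nat_lit 76) (nat_lit 3323440159) (nat_lit 196) (nat_lit 5) (nat_lit 212) (nat_lit 5) (nat_lit 197) (nat_lit 5) (nat_lit 320) (nat_lit 303) (nat_lit 157)) (XT.lf (nat_lit 0) (nat_lit 2907070381) (nat_lit 1216) (nat_lit 5111152442) (nat_lit 76) (nat_lit 11403648139) (nat_lit 196) (nat_lit 5) (nat_lit 212) (nat_lit 5)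 (nat_lit 197) (nat_lit 5) (nat_lit 321) (nat_lit 303) (nat_lit 156))) (XT.nd (nat_lit 78) (nat_lit 0) (nat_lit 0) (XT.lf (nat_lit 0) (nat_lit 4556932898) (nat_lit 836) (nat_lit 15153952883) (nat_lit 76) (nat_lit 29999629) (nat_lit 186) (nat_lit 5) (nat_lit 197) (nat_lit 5) (nat_lit 187) (nat_lit 5) (nat_lit 322) (nat_lit 303) (nat_lit 155)) (XT.lf (nat_lit 0) (nat_lit 6380705878) (nat_lit 836) (nat_lit 5473600873) (nat_lit 76) (nat_lit 8211437905) (nat_lit 186) (nat_lit 5) (nat_lit 197) (nat_lit 5) (nat_lit 187) (nat_lit 5) (nat_lit 323) (nat_lit 303) (nat_lit 154)))))) (XT.nd (nat_lit 546) (nat_lit 1444) (nat_lit 0) (XT.nd (nat_lit 234) (nat_lit 1140) (nat_lit 0) (XT.nd (nat_lit 78) (nat_lit 532) (nat_lit 0) (XT.lf (nat_lit 0) (nat_lit 4580214627) (nat_lit 608) (nat_lit 3716114575) (nat_lit 684) (nat_lit 12102912969) (nat_lit 178) (nat_lit 5) (nat_lit 186) (nat_lit 5) (nat_lit 187) (nat_lit 5)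 (nat_lit 324) (nat_lit 303) (nat_lit 153)) (XT.nd (nat_lit 78) (nat_lit 532) (nat_lit 0) (XT.lf (nat_lit 0) (nat_lit 10363350246) (nat_lit 684) (nat_lit 5745115410) (nat_lit 76) (nat_lit 4631467499) (nat_lit 178) (nat_lit 5) (nat_lit 187) (nat_lit 5) (nat_lit 179) (nat_lit 5) (nat_lit 325) (nat_lit 303) (nat_lit 152)) (XT.lf (nat_lit 0) (nat_lit 4679243188) (nat_lit 532) (nat_lit 7888362700) (nat_lit 608) (nat_lit 8520988488) (nat_lit 171) (nat_lit 5) (nat_lit 178) (nat_lit 5) (nat_lit 179) (nat_lit 5) (nat_lit 326) (nat_lit 303) (nat_lit 151)))) (XT.nd (nat_lit 156) (nat_lit 608) (nat_lit 0) (XT.nd (nat_lit 78) (nat_lit 532) (nat_lit 0) (XT.lf (nat_lit 0) (nat_lit 14895721162) (nat_lit 608) (nat_lit 5924432401) (nat_lit 76) (nat_lit 625835956) (nat_lit 171) (nat_lit 5) (nat_lit 179) (nat_lit 5) (nat_lit 172) (nat_lit 5) (nat_lit 327) (nat_lit 303) (nat_lit 150)) (XT.lf (nat_lit 0) (nat_lit 4886037295)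 (nat_lit 532) (nat_lit 12526483431) (nat_lit 608) (nat_lit 4398026435) (nat_lit 164) (nat_lit 5) (nat_lit 171) (nat_lit 5) (nat_lit 172) (nat_lit 5) (nat_lit 328) (nat_lit 303) (nat_lit 149))) (XT.nd (nat_lit 78) (nat_lit 608) (nat_lit 0) (XT.lf (nat_lit 0) (nat_lit 16136089058) (nat_lit 532) (nat_lit 3922453081) (nat_lit 608) (nat_lit 2125893555) (nat_lit 164) (nat_lit 5) (nat_lit 171) (nat_lit 5) (nat_lit 172) (nat_lit 5) (nat_lit 329) (nat_lit 303) (nat_lit 148)) (XT.lf (nat_lit 0) (nat_lit 302678256) (nat_lit 608) (nat_lit 17367820241) (nat_lit 76) (nat_lit 4896212167) (nat_lit 156) (nat_lit 5) (nat_lit 164) (nat_lit 5) (nat_lit 157) (nat_lit 5) (nat_lit 330) (nat_lit 303) (nat_lit 147))))) (XT.nd (nat_lit 234) (nat_lit 912) (nat_lit 0) (XT.nd (nat_lit 78) (nat_lit 532) (nat_lit 0) (XT.lf (nat_lit 0) (nat_lit 2856017181) (nat_lit 608) (nat_lit 6117822715) (nat_lit 76) (nat_lit 13983148597) (nat_lit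 156) (nat_lit 5) (nat_lit 164) (nat_lit 5) (nat_lit 157) (nat_lit 5) (nat_lit 331) (nat_lit 303) (nat_lit 146)) (XT.nd (nat_lit 78) (nat_lit 0) (nat_lit 0) (XT.lf (nat_lit 0) (nat_lit 5534183802) (nat_lit 608) (nat_lit 17785562842) (nat_lit 76) (nat_lit 37786251) (nat_lit 149) (nat_lit 5) (nat_lit 157) (nat_lit 5) (nat_lit 150) (nat_lit 5) (nat_lit 332) (nat_lit 303) (nat_lit 145)) (XT.lf (nat_lit 0) (nat_lit 8438331930) (nat_lit 608) (nat_lit 6126005271) (nat_lit 76) (nat_lit 9201392248) (nat_lit 149) (nat_lit 5) (nat_lit 157) (nat_lit 5) (nat_lit 150) (nat_lit 5) (nat_lit 333) (nat_lit 303) (nat_lit 144)))) (XT.nd (nat_lit 156) (nat_lit 456) (nat_lit 0) (XT.nd (nat_lit 78) (nat_lit 0) (nat_lit 0) (XT.lf (nat_lit 0) (nat_lit 5994320100) (nat_lit 456) (nat_lit 5487465602) (nat_lit 532) (nat_lit 12702825534) (nat_lit 143) (nat_lit 5) (nat_lit 149) (nat_lit 5) (nat_lit 150) (nat_lit 5) (nat_lit 334)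 (nat_lit 303) (nat_lit 143)) (XT.lf (nat_lit 0) (nat_lit 14710793212) (nat_lit 532) (nat_lit 6054195013) (nat_lit 76) (nat_lit 3848248380) (nat_lit 143) (nat_lit 5) (nat_lit 150) (nat_lit 5) (nat_lit 144) (nat_lit 5) (nat_lit 335) (nat_lit 303) (nat_lit 142))) (XT.nd (nat_lit 78) (nat_lit 0) (nat_lit 0) (XT.lf (nat_lit 0) (nat_lit 6512828708) (nat_lit 456) (nat_lit 11635590393) (nat_lit 532) (nat_lit 6902953688) (nat_lit 137) (nat_lit 5) (nat_lit 143) (nat_lit 5) (nat_lit 144) (nat_lit 5) (nat_lit 336) (nat_lit 303) (nat_lit 141)) (XT.lf (nat_lit 0) (nat_lit 19575113482) (nat_lit 456) (nat_lit 2170102142) (nat_lit 532) (nat_lit 3755760546) (nat_lit 137) (nat_lit 5) (nat_lit 143) (nat_lit 5) (nat_lit 144) (nat_lit 5) (nat_lit 337) (nat_lit 303) (nat_lit 140))))))) (XT.nd (nat_lit 1092) (nat_lit 2356) (nat_lit 0) (XT.nd (nat_lit 546) (nat_lit 1140) (nat_lit 0) (XT.nd (nat_lit 234) (nat_lit 760) (nat_lit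 0) (XT.nd (nat_lit 78) (nat_lit 532) (nat_lit 0) (XT.lf (nat_lit 0) (nat_lit 7125557388) (nat_lit 380) (nat_lit 18460758842) (nat_lit 456) (nat_lit 373663656) (nat_lit 132) (nat_lit 5) (nat_lit 137) (nat_lit 5) (nat_lit 138) (nat_lit 5) (nat_lit 338) (nat_lit 303) (nat_lit 139)) (XT.nd (nat_lit 78) (nat_lit 456) (nat_lit 0) (XT.lf (nat_lit 0) (nat_lit 3126213268) (nat_lit 456) (nat_lit 5798811307) (nat_lit 76) (nat_lit 17504526238) (nat_lit 131) (nat_lit 5) (nat_lit 137) (nat_lit 5) (nat_lit 132) (nat_lit 5) (nat_lit 339) (nat_lit 303) (nat_lit 138)) (XT.lf (nat_lit 0) (nat_lit 6802882037) (nat_lit 532) (nat_lit 19150304118) (nat_lit 76) (nat_lit 957536428) (nat_lit 125) (nat_lit 5) (nat_lit 132) (nat_lit 5) (nat_lit 126) (nat_lit 5) (nat_lit 340) (nat_lit 303) (nat_lit 137)))) (XT.nd (nat_lit 156) (nat_lit 380) (nat_lit 0) (XT.nd (nat_lit 78) (nat_lit 380) (nat_lit 0) (XT.lf (nat_lit 0) (nat_lit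 10732656701) (nat_lit 532) (nat_lit 5654006615) (nat_lit 76) (nat_lit 11015385783) (nat_lit 125) (nat_lit 5) (nat_lit 132) (nat_lit 5) (nat_lit 126) (nat_lit 5) (nat_lit 341) (nat_lit 303) (nat_lit 136)) (XT.lf (nat_lit 0) (nat_lit 8405589015) (nat_lit 380) (nat_lit 6450974922) (nat_lit 456) (nat_lit 13049267952) (nat_lit 120) (nat_lit 5) (nat_lit 125) (nat_lit 5) (nat_lit 126) (nat_lit 5) (nat_lit 342) (nat_lit 303) (nat_lit 135))) (XT.nd (nat_lit 78) (nat_lit 380) (nat_lit 0) (XT.lf (nat_lit 0) (nat_lit 19193719189) (nat_lit 456) (nat_lit 5462755638) (nat_lit 76) (nat_lit 3765570961) (nat_lit 120) (nat_lit 5) (nat_lit 126) (nat_lit 5) (nat_lit 121) (nat_lit 5) (nat_lit 343) (nat_lit 303) (nat_lit 134)) (XT.lf (nat_lit 0) (nat_lit 9104118256) (nat_lit 380) (nat_lit 14703895743) (nat_lit 456) (nat_lit 5141324806) (nat_lit 115) (nat_lit 5) (nat_lit 120) (nat_lit 5) (nat_lit 121) (nat_lit 5) (nat_lit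 344) (nat_lit 303) (nat_lit 133))))) (XT.nd (nat_lit 234) (nat_lit 684) (nat_lit 0) (XT.nd (nat_lit 78) (nat_lit 456) (nat_lit 0) (XT.lf (nat_lit 0) (nat_lit 24214512573) (nat_lit 380) (nat_lit 4397102162) (nat_lit 456) (nat_lit 879312912) (nat_lit 115) (nat_lit 5) (nat_lit 120) (nat_lit 5) (nat_lit 121) (nat_lit 5) (nat_lit 345) (nat_lit 303) (nat_lit 132)) (XT.nd (nat_lit 78) (nat_lit 0) (nat_lit 0) (XT.lf (nat_lit 0) (nat_lit 3593896309) (nat_lit 456) (nat_lit 20222903527) (nat_lit 76) (nat_lit 6226399884) (nat_lit 109) (nat_lit 5) (nat_lit 115) (nat_lit 5) (nat_lit 110) (nat_lit 5) (nat_lit 346) (nat_lit 303) (nat_lit 131)) (XT.lf (nat_lit 0) (nat_lit 8276827091) (nat_lit 456) (nat_lit 5190597807) (nat_lit 76) (nat_lit 17141560981) (nat_lit 109) (nat_lit 5) (nat_lit 115) (nat_lit 5) (nat_lit 110) (nat_lit 5) (nat_lit 347) (nat_lit 303) (nat_lit 130)))) (XT.nd (nat_lit 156) (nat_lit 304) (nat_lit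 0) (XT.nd (nat_lit 78) (nat_lit 0) (nat_lit 0) (XT.lf (nat_lit 0) (nat_lit 10492117883) (nat_lit 380) (nat_lit 2704959279) (nat_lit 456) (nat_lit 17991766494) (nat_lit 104) (nat_lit 5) (nat_lit 109) (nat_lit 5) (nat_lit 110) (nat_lit 5) (nat_lit 348) (nat_lit 303) (nat_lit 129)) (XT.lf (nat_lit 0) (nat_lit 18394455040) (nat_lit 456) (nat_lit 5119239340) (nat_lit 76) (nat_lit 8268520064) (nat_lit 104) (nat_lit 5) (nat_lit 110) (nat_lit 5) (nat_lit 105) (nat_lit 5) (nat_lit 349) (nat_lit 303) (nat_lit 128))) (XT.nd (nat_lit 78) (nat_lit 0) (nat_lit 0) (XT.lf (nat_lit 0) (nat_lit 11110394174) (nat_lit 304) (nat_lit 12767086558) (nat_lit 380) (nat_lit 8512016633) (nat_lit 100) (nat_lit 5) (nat_lit 104) (nat_lit 5) (nat_lit 105) (nat_lit 5) (nat_lit 350) (nat_lit 303) (nat_lit 127)) (XT.lf (nat_lit 0) (nat_lit 27926707515) (nat_lit 304) (nat_lit 1646191555) (nat_lit 380) (nat_lit 3440665368) (nat_lit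 100) (nat_lit 5) (nat_lit 104) (nat_lit 5) (nat_lit 105) (nat_lit 5) (nat_lit 351) (nat_lit 303) (nat_lit 126)))))) (XT.nd (nat_lit 546) (nat_lit 1064) (nat_lit 0) (XT.nd (nat_lit 234) (nat_lit 608) (nat_lit 0) (XT.nd (nat_lit 78) (nat_lit 304) (nat_lit 0) (XT.lf (nat_lit 0) (nat_lit 1953300407) (nat_lit 380) (nat_lit 21948925724) (nat_lit 76) (nat_lit 9747457930) (nat_lit 95) (nat_lit 5) (nat_lit 100) (nat_lit 5) (nat_lit 96) (nat_lit 5) (nat_lit 352) (nat_lit 303) (nat_lit 125)) (XT.nd (nat_lit 78) (nat_lit 304) (nat_lit 0) (XT.lf (nat_lit 0) (nat_lit 7504431944) (nat_lit 380) (nat_lit 5263066797) (nat_lit 76) (nat_lit 21534434018) (nat_lit 95) (nat_lit 5) (nat_lit 100) (nat_lit 5) (nat_lit 96) (nat_lit 5) (nat_lit 353) (nat_lit 303) (nat_lit 124)) (XT.lf (nat_lit 0) (nat_lit 12155591864) (nat_lit 304) (nat_lit 1179785520) (nat_lit 380) (nat_lit 21634975554) (nat_lit 91) (nat_lit 5) (nat_lit 95)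 (nat_lit 5) (nat_lit 96) (nat_lit 5) (nat_lit 354) (nat_lit 303) (nat_lit 123)))) (XT.nd (nat_lit 156) (nat_lit 304) (nat_lit 0) (XT.nd (nat_lit 78) (nat_lit 304) (nat_lit 0) (XT.lf (nat_lit 0) (nat_lit 19494788956) (nat_lit 380) (nat_lit 5561469228) (nat_lit 76) (nat_lit 10597963752) (nat_lit 91) (nat_lit 5) (nat_lit 96) (nat_lit 5) (nat_lit 92) (nat_lit 5) (nat_lit 355) (nat_lit 303) (nat_lit 122)) (XT.lf (nat_lit 0) (nat_lit 12435527817) (nat_lit 304) (nat_lit 13531252543) (nat_lit 380) (nat_lit 10387995000) (nat_lit 87) (nat_lit 5) (nat_lit 91) (nat_lit 5) (nat_lit 92) (nat_lit 5) (nat_lit 356) (nat_lit 303) (nat_lit 121))) (XT.nd (nat_lit 78) (nat_lit 304) (nat_lit 0) (XT.lf (nat_lit 0) (nat_lit 31081612780) (nat_lit 304) (nat_lit 1604110456) (nat_lit 380) (nat_lit 4389040610) (nat_lit 87) (nat_lit 5) (nat_lit 91) (nat_lit 5) (nat_lit 92) (nat_lit 5) (nat_lit 357) (nat_lit 303) (nat_lit 120))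 (XT.lf (nat_lit 0) (nat_lit 1977733155) (nat_lit 304) (nat_lit 25219787437) (nat_lit 76) (nat_lit 10611633986) (nat_lit 83) (nat_lit 5) (nat_lit 87) (nat_lit 5) (nat_lit 84) (nat_lit 5) (nat_lit 358) (nat_lit 303) (nat_lit 119))))) (XT.nd (nat_lit 312) (nat_lit 532) (nat_lit 0) (XT.nd (nat_lit 156) (nat_lit 228) (nat_lit 0) (XT.nd (nat_lit 78) (nat_lit 304) (nat_lit 0) (XT.lf (nat_lit 0) (nat_lit 8521027761) (nat_lit 304) (nat_lit 6776277150) (nat_lit 76) (nat_lit 23264758478) (nat_lit 83) (nat_lit 5) (nat_lit 87) (nat_lit 5) (nat_lit 84) (nat_lit 5) (nat_lit 359) (nat_lit 303) (nat_lit 118)) (XT.lf (nat_lit 0) (nat_lit 12459005128) (nat_lit 304) (nat_lit 2918207269) (nat_lit 380) (nat_lit 23956851299) (nat_lit 79) (nat_lit 5) (nat_lit 83) (nat_lit 5) (nat_lit 84) (nat_lit 5) (nat_lit 360) (nat_lit 303) (nat_lit 117))) (XT.nd (nat_lit 78) (nat_lit 228) (nat_lit 0) (XT.lf (nat_lit 0) (nat_lit 22599562371)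 (nat_lit 380) (nat_lit 7816798648) (nat_lit 76) (nat_lit 9708050506) (nat_lit 79) (nat_lit 5) (nat_lit 84) (nat_lit 5) (nat_lit 80) (nat_lit 5) (nat_lit 361) (nat_lit 303) (nat_lit 116)) (XT.lf (nat_lit 0) (nat_lit 12014203757) (nat_lit 228) (nat_lit 18165712979) (nat_lit 304) (nat_lit 10754314891) (nat_lit 76) (nat_lit 5) (nat_lit 79) (nat_lit 5) (nat_lit 80) (nat_lit 5) (nat_lit 362) (nat_lit 303) (nat_lit 115)))) (XT.nd (nat_lit 156) (nat_lit 228) (nat_lit 0) (XT.nd (nat_lit 78) (nat_lit 304) (nat_lit 0) (XT.lf (nat_lit 0) (nat_lit 32595865016) (nat_lit 228) (nat_lit 5467749348) (nat_lit 304) (nat_lit 3702455788) (nat_lit 76) (nat_lit 5) (nat_lit 79) (nat_lit 5) (nat_lit 80) (nat_lit 5) (nat_lit 363) (nat_lit 303) (nat_lit 114)) (XT.lf (nat_lit 0) (nat_lit 3672246864) (nat_lit 304) (nat_lit 31338198146) (nat_lit 76) (nat_lit 7605970367) (nat_lit 72) (nat_lit 5) (nat_lit 76) (nat_lit 5) (nat_lit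 73) (nat_lit 5) (nat_lit 364) (nat_lit 303) (nat_lit 113))) (XT.nd (nat_lit 78) (nat_lit 228) (nat_lit 0) (XT.lf (nat_lit 0) (nat_lit 11338513318) (nat_lit 304) (nat_lit 11057599169) (nat_lit 76) (nat_lit 21090718229) (nat_lit 72) (nat_lit 5) (nat_lit 76) (nat_lit 5) (nat_lit 73) (nat_lit 5) (nat_lit 365) (nat_lit 303) (nat_lit 112)) (XT.lf (nat_lit 0) (nat_lit 10022658294) (nat_lit 228) (nat_lit 9305622665) (nat_lit 304) (nat_lit 25052273756) (nat_lit 69) (nat_lit 5) (nat_lit 72) (nat_lit 5) (nat_lit 73) (nat_lit 5) (nat_lit 366) (nat_lit 303) (nat_lit 111))))))))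
noncomputable def xc200 : XT := (XT.nd (nat_lit 2184) (nat_lit 456) (nat_lit 0) (XT.nd (nat_lit 1092) (nat_lit 1216) (nat_lit 0) (XT.nd (nat_lit 546) (nat_lit 608) (nat_lit 0) (XT.nd (nat_lit 234) (nat_lit 532) (nat_lit 0) (XT.nd (nat_lit 78) (nat_lit 228) (nat_lit 0) (XT.lf (nat_lit 0) (nat_lit 27707860680) (nat_lit 304) (nat_lit 13381376113) (nat_lit 76) (nat_lit 4207351622) (nat_lit 69) (nat_lit 5) (nat_lit 73) (nat_lit 5) (nat_lit 70) (nat_lit 5) (nat_lit 367) (nat_lit 303) (nat_lit 110)) (XT.nd (nat_lit 78) (nat_lit 0) (nat_lit 0) (XT.lf (nat_lit 0) (nat_lit 8289830654) (nat_lit 228) (nat_lit 28218096571) (nat_lit 304) (nat_lit 9727104426) (nat_lit 66) (nat_lit 5) (nat_lit 69) (nat_lit 5) (nat_lit 70) (nat_lit 5) (nat_lit 368) (nat_lit 303) (nat_lit 109)) (XT.lf (nat_lit 0) (nat_lit 30881281548) (nat_lit 228) (nat_lit 14823156458) (nat_lit 304) (nat_lit 1493218373) (nat_lit 66) (nat_lit 5)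 (nat_lit 69) (nat_lit 5) (nat_lit 70) (nat_lit 5) (nat_lit 369) (nat_lit 303) (nat_lit 108)))) (XT.nd (nat_lit 156) (nat_lit 228) (nat_lit 0) (XT.nd (nat_lit 78) (nat_lit 0) (nat_lit 0) (XT.lf (nat_lit 0) (nat_lit 6007240429) (nat_lit 228) (nat_lit 899201762) (nat_lit 304) (nat_lit 41279050555) (nat_lit 62) (nat_lit 5) (nat_lit 65) (nat_lit 5) (nat_lit 66) (nat_lit 5) (nat_lit 370) (nat_lit 303) (nat_lit 107)) (XT.lf (nat_lit 0) (nat_lit 15821082908) (nat_lit 304) (nat_lit 20012773441) (nat_lit 76) (nat_lit 13359875588) (nat_lit 62) (nat_lit 5) (nat_lit 66) (nat_lit 5) (nat_lit 63) (nat_lit 5) (nat_lit 371) (nat_lit 303) (nat_lit 106))) (XT.nd (nat_lit 78) (nat_lit 0) (nat_lit 0) (XT.lf (nat_lit 0) (nat_lit 2860554445) (nat_lit 228) (nat_lit 22176475362) (nat_lit 304) (nat_lit 25194173788) (nat_lit 59) (nat_lit 5) (nat_lit 62) (nat_lit 5) (nat_lit 63) (nat_lit 5) (nat_lit 372) (nat_lit 303) (nat_lit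 105)) (XT.lf (nat_lit 0) (nat_lit 26826331844) (nat_lit 228) (nat_lit 7902715024) (nat_lit 304) (nat_lit 16564766043) (nat_lit 59) (nat_lit 5) (nat_lit 62) (nat_lit 5) (nat_lit 63) (nat_lit 5) (nat_lit 373) (nat_lit 303) (nat_lit 104))))) (XT.nd (nat_lit 234) (nat_lit 380) (nat_lit 0) (XT.nd (nat_lit 78) (nat_lit 228) (nat_lit 0) (XT.lf (nat_lit 0) (nat_lit 44774743864) (nat_lit 304) (nat_lit 946512877) (nat_lit 76) (nat_lit 6665157408) (nat_lit 59) (nat_lit 5) (nat_lit 63) (nat_lit 5) (nat_lit 60) (nat_lit 5) (nat_lit 374) (nat_lit 303) (nat_lit 103)) (XT.nd (nat_lit 78) (nat_lit 0) (nat_lit 0) (XT.lf (nat_lit 0) (nat_lit 1884911062) (nat_lit 228) (nat_lit 29861470848) (nat_lit 76) (nat_lit 21755759076) (nat_lit 56) (nat_lit 5) (nat_lit 59) (nat_lit 5) (nat_lit 57) (nat_lit 5) (nat_lit 375) (nat_lit 303) (nat_lit 102)) (XT.lf (nat_lit 0) (nat_lit 11520695553) (nat_lit 228) (nat_lit 5745471640)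 (nat_lit 76) (nat_lit 37382693882) (nat_lit 56) (nat_lit 5) (nat_lit 59) (nat_lit 5) (nat_lit 57) (nat_lit 5) (nat_lit 376) (nat_lit 303) (nat_lit 101)))) (XT.nd (nat_lit 156) (nat_lit 152) (nat_lit 0) (XT.nd (nat_lit 78) (nat_lit 0) (nat_lit 0) (XT.lf (nat_lit 0) (nat_lit 19470221029) (nat_lit 228) (nat_lit 2160201138) (nat_lit 304) (nat_lit 34194015629) (nat_lit 53) (nat_lit 5) (nat_lit 56) (nat_lit 5) (nat_lit 57) (nat_lit 5) (nat_lit 377) (nat_lit 303) (nat_lit 100)) (XT.lf (nat_lit 0) (nat_lit 32228558399) (nat_lit 304) (nat_lit 11606492883) (nat_lit 76) (nat_lit 13194678061) (nat_lit 53) (nat_lit 5) (nat_lit 57) (nat_lit 5) (nat_lit 54) (nat_lit 5) (nat_lit 378) (nat_lit 303) (nat_lit 99))) (XT.nd (nat_lit 78) (nat_lit 0) (nat_lit 0) (XT.lf (nat_lit 0) (nat_lit 14134458356) (nat_lit 152) (nat_lit 29165230306) (nat_lit 228) (nat_lit 14966840501) (nat_lit 51) (nat_lit 5) (nat_lit 53) (nat_lit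 5) (nat_lit 54) (nat_lit 5) (nat_lit 379) (nat_lit 303) (nat_lit 98)) (XT.lf (nat_lit 0) (nat_lit 40881965028) (nat_lit 152) (nat_lit 13936013114) (nat_lit 228) (nat_lit 4719005073) (nat_lit 51) (nat_lit 5) (nat_lit 53) (nat_lit 5) (nat_lit 54) (nat_lit 5) (nat_lit 380) (nat_lit 303) (nat_lit 97)))))) (XT.nd (nat_lit 546) (nat_lit 532) (nat_lit 0) (XT.nd (nat_lit 234) (nat_lit 380) (nat_lit 0) (XT.nd (nat_lit 78) (nat_lit 0) (nat_lit 0) (XT.lf (nat_lit 0) (nat_lit 5812129651) (nat_lit 304) (nat_lit 53183307615) (nat_lit 76) (nat_lit 1845738985) (nat_lit 47) (nat_lit 5) (nat_lit 51) (nat_lit 5) (nat_lit 48) (nat_lit 5) (nat_lit 381) (nat_lit 303) (nat_lit 96)) (XT.nd (nat_lit 78) (nat_lit 0) (nat_lit 0) (XT.lf (nat_lit 0) (nat_lit 16890454894) (nat_lit 304) (nat_lit 27226410035) (nat_lit 76) (nat_lit 18056446262) (nat_lit 47) (nat_lit 5) (nat_lit 51) (nat_lit 5) (nat_lit 48) (nat_lit 5) (nat_lit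 382) (nat_lit 303) (nat_lit 95)) (XT.lf (nat_lit 0) (nat_lit 28299070897) (nat_lit 304) (nat_lit 494251830) (nat_lit 76) (nat_lit 34752150107) (nat_lit 47) (nat_lit 5) (nat_lit 51) (nat_lit 5) (nat_lit 48) (nat_lit 5) (nat_lit 383) (nat_lit 303) (nat_lit 94)))) (XT.nd (nat_lit 156) (nat_lit 228) (nat_lit 0) (XT.nd (nat_lit 78) (nat_lit 0) (nat_lit 0) (XT.lf (nat_lit 0) (nat_lit 27574605062) (nat_lit 152) (nat_lit 12738405266) (nat_lit 228) (nat_lit 24637897909) (nat_lit 45) (nat_lit 5) (nat_lit 47) (nat_lit 5) (nat_lit 48) (nat_lit 5) (nat_lit 384) (nat_lit 303) (nat_lit 93)) (XT.lf (nat_lit 0) (nat_lit 52726933031) (nat_lit 228) (nat_lit 9942617533) (nat_lit 76) (nat_lit 3727770019) (nat_lit 45) (nat_lit 5) (nat_lit 48) (nat_lit 5) (nat_lit 46) (nat_lit 5) (nat_lit 385) (nat_lit 303) (nat_lit 92))) (XT.nd (nat_lit 78) (nat_lit 76) (nat_lit 0) (XT.lf (nat_lit 0) (nat_lit 18546604532) (nat_lit 152)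 (nat_lit 47269145313) (nat_lit 228) (nat_lit 2062301973) (nat_lit 43) (nat_lit 5) (nat_lit 45) (nat_lit 5) (nat_lit 46) (nat_lit 5) (nat_lit 386) (nat_lit 303) (nat_lit 91)) (XT.lf (nat_lit 0) (nat_lit 9800430877) (nat_lit 228) (nat_lit 21405246704) (nat_lit 76) (nat_lit 38191690765) (nat_lit 42) (nat_lit 5) (nat_lit 45) (nat_lit 5) (nat_lit 43) (nat_lit 5) (nat_lit 387) (nat_lit 303) (nat_lit 90))))) (XT.nd (nat_lit 234) (nat_lit 380) (nat_lit 0) (XT.nd (nat_lit 78) (nat_lit 0) (nat_lit 0) (XT.lf (nat_lit 0) (nat_lit 7481130683) (nat_lit 152) (nat_lit 14566511776) (nat_lit 228) (nat_lit 48911908678) (nat_lit 40) (nat_lit 5) (nat_lit 42) (nat_lit 5) (nat_lit 43) (nat_lit 5) (nat_lit 388) (nat_lit 303) (nat_lit 89)) (XT.nd (nat_lit 78) (nat_lit 0) (nat_lit 0) (XT.lf (nat_lit 0) (nat_lit 34903428919) (nat_lit 228) (nat_lit 34919277565) (nat_lit 76) (nat_lit 2738658892) (nat_lit 40) (nat_lit 5) (nat_lit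 43) (nat_lit 5) (nat_lit 41) (nat_lit 5) (nat_lit 389) (nat_lit 303) (nat_lit 88)) (XT.lf (nat_lit 0) (nat_lit 48287311285) (nat_lit 228) (nat_lit 5650677009) (nat_lit 76) (nat_lit 20268973777) (nat_lit 40) (nat_lit 5) (nat_lit 43) (nat_lit 5) (nat_lit 41) (nat_lit 5) (nat_lit 390) (nat_lit 303) (nat_lit 87)))) (XT.nd (nat_lit 156) (nat_lit 228) (nat_lit 0) (XT.nd (nat_lit 78) (nat_lit 0) (nat_lit 0) (XT.lf (nat_lit 0) (nat_lit 24980436225) (nat_lit 152) (nat_lit 37330652997) (nat_lit 228) (nat_lit 13583686749) (nat_lit 38) (nat_lit 5) (nat_lit 40) (nat_lit 5) (nat_lit 41) (nat_lit 5) (nat_lit 391) (nat_lit 303) (nat_lit 86)) (XT.lf (nat_lit 0) (nat_lit 56643342020) (nat_lit 152) (nat_lit 20167573431) (nat_lit 228) (nat_lit 820649449) (nat_lit 38) (nat_lit 5) (nat_lit 40) (nat_lit 5) (nat_lit 41) (nat_lit 5) (nat_lit 392) (nat_lit 303) (nat_lit 85))) (XT.nd (nat_lit 78) (nat_lit 0) (nat_lit 0) (XT.lf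 (nat_lit 0) (nat_lit 9907610681) (nat_lit 152) (nat_lit 2270702961) (nat_lit 228) (nat_lit 67235783774) (nat_lit 35) (nat_lit 5) (nat_lit 37) (nat_lit 5) (nat_lit 38) (nat_lit 5) (nat_lit 393) (nat_lit 303) (nat_lit 84)) (XT.lf (nat_lit 0) (nat_lit 25918476039) (nat_lit 228) (nat_lit 39251715685) (nat_lit 76) (nat_lit 16068639288) (nat_lit 35) (nat_lit 5) (nat_lit 38) (nat_lit 5) (nat_lit 36) (nat_lit 5) (nat_lit 394) (nat_lit 303) (nat_lit 83))))))) (XT.nd (nat_lit 34086) (nat_lit 0) (nat_lit 11324) (XT.nd (nat_lit 33540) (nat_lit 0) (nat_lit 13376) (XT.nd (nat_lit 234) (nat_lit 304) (nat_lit 0) (XT.nd (nat_lit 78) (nat_lit 152) (nat_lit 0) (XT.lf (nat_lit 0) (nat_lit 40091691526) (nat_lit 228) (nat_lit 8114630515) (nat_lit 76) (nat_lit 34911359715) (nat_lit 35) (nat_lit 5) (nat_lit 38) (nat_lit 5) (nat_lit 36) (nat_lit 5) (nat_lit 395) (nat_lit 303) (nat_lit 82)) (XT.nd (nat_lit 78) (nat_lit 0)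 (nat_lit 0) (XT.lf (nat_lit 0) (nat_lit 24430530976) (nat_lit 152) (nat_lit 30492827310) (nat_lit 228) (nat_lit 30122542658) (nat_lit 33) (nat_lit 5) (nat_lit 35) (nat_lit 5) (nat_lit 36) (nat_lit 5) (nat_lit 396) (nat_lit 303) (nat_lit 81)) (XT.lf (nat_lit 0) (nat_lit 58115652493) (nat_lit 152) (nat_lit 12164697916) (nat_lit 228) (nat_lit 16749205593) (nat_lit 33) (nat_lit 5) (nat_lit 35) (nat_lit 5) (nat_lit 36) (nat_lit 5) (nat_lit 397) (nat_lit 303) (nat_lit 80)))) (XT.nd (nat_lit 156) (nat_lit 152) (nat_lit 0) (XT.nd (nat_lit 78) (nat_lit 76) (nat_lit 0) (XT.lf (nat_lit 0) (nat_lit 3744450227) (nat_lit 76) (nat_lit 82452596326) (nat_lit 152) (nat_lit 2872704863) (nat_lit 32) (nat_lit 5) (nat_lit 33) (nat_lit 5) (nat_lit 34) (nat_lit 4) (nat_lit 398) (nat_lit 303) (nat_lit 79)) (XT.lf (nat_lit 0) (nat_lit 11611022600) (nat_lit 152) (nat_lit 53422939357) (nat_lit 76) (nat_lit 26121484570) (nat_lit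 31) (nat_lit 5) (nat_lit 33) (nat_lit 5) (nat_lit 32) (nat_lit 5) (nat_lit 399) (nat_lit 303) (nat_lit 78))) (XT.nd (nat_lit 78) (nat_lit 152) (nat_lit 0) (XT.lf (nat_lit 0) (nat_lit 26470039583) (nat_lit 152) (nat_lit 20594567587) (nat_lit 76) (nat_lit 46238297046) (nat_lit 31) (nat_lit 5) (nat_lit 33) (nat_lit 5) (nat_lit 32) (nat_lit 5) (nat_lit 400) (nat_lit 303) (nat_lit 77)) (XT.lf (nat_lit 0) (nat_lit 13479139869) (nat_lit 152) (nat_lit 28423816379) (nat_lit 228) (nat_lit 53607985988) (nat_lit 29) (nat_lit 5) (nat_lit 31) (nat_lit 5) (nat_lit 32) (nat_lit 5) (nat_lit 401) (nat_lit 303) (nat_lit 76))))) (XT.nd (nat_lit 234) (nat_lit 0) (nat_lit 76) (XT.nd (nat_lit 78) (nat_lit 0) (nat_lit 0) (XT.lf (nat_lit 0) (nat_lit 1050459497) (nat_lit 0) (nat_lit 1050459497) (nat_lit 1140) (nat_lit 5496490521) (nat_lit 205) (nat_lit 5) (nat_lit 205) (nat_lit 3) (nat_lit 220) (nat_lit 3) (nat_lit 304)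 (nat_lit 304) (nat_lit 172)) (XT.nd (nat_lit 78) (nat_lit 0) (nat_lit 0) (XT.lf (nat_lit 0) (nat_lit 4589112355) (nat_lit 1140) (nat_lit 6161749598) (nat_lit 1216) (nat_lit 4661863806) (nat_lit 205) (nat_lit 5) (nat_lit 220) (nat_lit 3) (nat_lit 221) (nat_lit 5) (nat_lit 305) (nat_lit 304) (nat_lit 171)) (XT.lf (nat_lit 76) (nat_lit 970680672) (nat_lit 0) (nat_lit 4036637759) (nat_lit 1216) (nat_lit 10629283101) (nat_lit 206) (nat_lit 5) (nat_lit 205) (nat_lit 5) (nat_lit 221) (nat_lit 5) (nat_lit 306) (nat_lit 304) (nat_lit 170)))) (XT.nd (nat_lit 156) (nat_lit 0) (nat_lit 76) (XT.nd (nat_lit 78) (nat_lit 0) (nat_lit 0) (XT.lf (nat_lit 0) (nat_lit 5518070403) (nat_lit 1140) (nat_lit 7456365752) (nat_lit 1216) (nat_lit 2890368350) (nat_lit 206) (nat_lit 5) (nat_lit 221) (nat_lit 5) (nat_lit 222) (nat_lit 5) (nat_lit 307) (nat_lit 304) (nat_lit 169)) (XT.lf (nat_lit 0) (nat_lit 6073905075) (nat_lit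 1140) (nat_lit 76453426) (nat_lit 1216) (nat_lit 9948612862) (nat_lit 206) (nat_lit 5) (nat_lit 221) (nat_lit 5) (nat_lit 222) (nat_lit 5) (nat_lit 308) (nat_lit 304) (nat_lit 168))) (XT.nd (nat_lit 78) (nat_lit 0) (nat_lit 0) (XT.lf (nat_lit 0) (nat_lit 6719435429) (nat_lit 1140) (nat_lit 8678761499) (nat_lit 1216) (nat_lit 939785971) (nat_lit 207) (nat_lit 5) (nat_lit 222) (nat_lit 5) (nat_lit 223) (nat_lit 5) (nat_lit 309) (nat_lit 304) (nat_lit 167)) (XT.lf (nat_lit 0) (nat_lit 7436368141) (nat_lit 1140) (nat_lit 1022580680) (nat_lit 1216) (nat_lit 8123664859) (nat_lit 207) (nat_lit 5) (nat_lit 222) (nat_lit 5) (nat_lit 223) (nat_lit 5) (nat_lit 310) (nat_lit 304) (nat_lit 166)))))) (XT.nd (nat_lit 546) (nat_lit 2204) (nat_lit 0) (XT.nd (nat_lit 234) (nat_lit 0) (nat_lit 152) (XT.nd (nat_lit 78) (nat_lit 0) (nat_lit 76) (XT.lf (nat_lit 76) (nat_lit 6993867447) (nat_lit 0) (nat_lit 1238813567)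 (nat_lit 1216) (nat_lit 8600175905) (nat_lit 208) (nat_lit 5) (nat_lit 207) (nat_lit 5) (nat_lit 223) (nat_lit 5) (nat_lit 311) (nat_lit 304) (nat_lit 165)) (XT.nd (nat_lit 78) (nat_lit 0) (nat_lit 0) (XT.lf (nat_lit 0) (nat_lit 9113780883) (nat_lit 1140) (nat_lit 1884358533) (nat_lit 1216) (nat_lit 6090650529) (nat_lit 208) (nat_lit 5) (nat_lit 223) (nat_lit 5) (nat_lit 224) (nat_lit 5) (nat_lit 312) (nat_lit 304) (nat_lit 164)) (XT.lf (nat_lit 76) (nat_lit 6415870471) (nat_lit 0) (nat_lit 3670538395) (nat_lit 1216) (nat_lit 7264048387) (nat_lit 209) (nat_lit 5) (nat_lit 208) (nat_lit 5) (nat_lit 224) (nat_lit 5) (nat_lit 313) (nat_lit 304) (nat_lit 163)))) (XT.nd (nat_lit 156) (nat_lit 0) (nat_lit 76) (XT.nd (nat_lit 78) (nat_lit 0) (nat_lit 0) (XT.lf (nat_lit 0) (nat_lit 11136082799) (nat_lit 1140) (nat_lit 2659333298) (nat_lit 1216) (nat_lit 3823131347) (nat_lit 209) (nat_lit 5) (nat_lit 224)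 (nat_lit 5) (nat_lit 225) (nat_lit 5) (nat_lit 314) (nat_lit 304) (nat_lit 162)) (XT.lf (nat_lit 76) (nat_lit 5937674075) (nat_lit 0) (nat_lit 6364625702) (nat_lit 1216) (nat_lit 5589837597) (nat_lit 210) (nat_lit 5) (nat_lit 209) (nat_lit 5) (nat_lit 225) (nat_lit 5) (nat_lit 315) (nat_lit 304) (nat_lit 161))) (XT.nd (nat_lit 78) (nat_lit 0) (nat_lit 0) (XT.lf (nat_lit 0) (nat_lit 13534856565) (nat_lit 1140) (nat_lit 3344924449) (nat_lit 1216) (nat_lit 1293221758) (nat_lit 210) (nat_lit 5) (nat_lit 225) (nat_lit 5) (nat_lit 226) (nat_lit 5) (nat_lit 316) (nat_lit 304) (nat_lit 160)) (XT.lf (nat_lit 76) (nat_lit 5562365008) (nat_lit 0) (nat_lit 9350589472) (nat_lit 1216) (nat_lit 3546090842) (nat_lit 211) (nat_lit 5) (nat_lit 210) (nat_lit 5) (nat_lit 226) (nat_lit 5) (nat_lit 317) (nat_lit 304) (nat_lit 159))))) (XT.nd (nat_lit 312) (nat_lit 1292) (nat_lit 0) (XT.nd (nat_lit 156) (nat_lit 1140)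 (nat_lit 0) (XT.nd (nat_lit 78) (nat_lit 0) (nat_lit 76) (XT.lf (nat_lit 76) (nat_lit 14799439007) (nat_lit 0) (nat_lit 1558985980) (nat_lit 1216) (nat_lit 2394471160) (nat_lit 211) (nat_lit 5) (nat_lit 210) (nat_lit 5) (nat_lit 226) (nat_lit 5) (nat_lit 318) (nat_lit 304) (nat_lit 158)) (XT.lf (nat_lit 76) (nat_lit 5293115197) (nat_lit 0) (nat_lit 12659678160) (nat_lit 1216) (nat_lit 1099610786) (nat_lit 212) (nat_lit 5) (nat_lit 211) (nat_lit 5) (nat_lit 227) (nat_lit 5) (nat_lit 319) (nat_lit 304) (nat_lit 157))) (XT.nd (nat_lit 78) (nat_lit 0) (nat_lit 76) (XT.lf (nat_lit 0) (nat_lit 277855476) (nat_lit 1216) (nat_lit 4485826075) (nat_lit 1292) (nat_lit 14595705694) (nat_lit 195) (nat_lit 5) (nat_lit 211) (nat_lit 5) (nat_lit 212) (nat_lit 5) (nat_lit 320) (nat_lit 304) (nat_lit 156)) (XT.lf (nat_lit 0) (nat_lit 1749832043) (nat_lit 1216) (nat_lit 14557542426) (nat_lit 76) (nat_lit 3365627140)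 (nat_lit 196) (nat_lit 5) (nat_lit 212) (nat_lit 5) (nat_lit 197) (nat_lit 5) (nat_lit 321) (nat_lit 304) (nat_lit 155)))) (XT.nd (nat_lit 156) (nat_lit 608) (nat_lit 0) (XT.nd (nat_lit 78) (nat_lit 760) (nat_lit 0) (XT.lf (nat_lit 0) (nat_lit 3351834762) (nat_lit 1216) (nat_lit 4951703850) (nat_lit 76) (nat_lit 11689916590) (nat_lit 196) (nat_lit 5) (nat_lit 212) (nat_lit 5) (nat_lit 197) (nat_lit 5) (nat_lit 322) (nat_lit 304) (nat_lit 154)) (XT.lf (nat_lit 0) (nat_lit 5034569192) (nat_lit 760) (nat_lit 8884066) (nat_lit 836) (nat_lit 15278829079) (nat_lit 186) (nat_lit 5) (nat_lit 196) (nat_lit 5) (nat_lit 197) (nat_lit 5) (nat_lit 323) (nat_lit 304) (nat_lit 153))) (XT.nd (nat_lit 78) (nat_lit 608) (nat_lit 0) (XT.lf (nat_lit 0) (nat_lit 6911667807) (nat_lit 836) (nat_lit 5326213052) (nat_lit 76) (nat_lit 8419324416) (nat_lit 186) (nat_lit 5) (nat_lit 197) (nat_lit 5) (nat_lit 187) (nat_lit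 5) (nat_lit 324) (nat_lit 304) (nat_lit 152)) (XT.lf (nat_lit 0) (nat_lit 5026162052) (nat_lit 608) (nat_lit 3851674127) (nat_lit 684) (nat_lit 12123088727) (nat_lit 178) (nat_lit 5) (nat_lit 186) (nat_lit 5) (nat_lit 187) (nat_lit 5) (nat_lit 325) (nat_lit 304) (nat_lit 151))))))))
noncomputable def xc201 : XT := (XT.nd (nat_lit 2184) (nat_lit 3648) (nat_lit 0) (XT.nd (nat_lit 1092) (nat_lit 2812) (nat_lit 0) (XT.nd (nat_lit 546) (nat_lit 1824) (nat_lit 0) (XT.nd (nat_lit 234) (nat_lit 1140) (nat_lit 0) (XT.nd (nat_lit 78) (nat_lit 532) (nat_lit 0) (XT.lf (nat_lit 0) (nat_lit 10996955284) (nat_lit 684) (nat_lit 5607695133) (nat_lit 76) (nat_lit 4747492784) (nat_lit 178) (nat_lit 5) (nat_lit 187) (nat_lit 5) (nat_lit 179) (nat_lit 5) (nat_lit 326) (nat_lit 304) (nat_lit 150)) (XT.nd (nat_lit 78) (nat_lit 0) (nat_lit 0) (XT.lf (nat_lit 0) (nat_lit 5126357225) (nat_lit 532) (nat_lit 8134530750) (nat_lit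 608) (nat_lit 8450578737) (nat_lit 171) (nat_lit 5) (nat_lit 178) (nat_lit 5) (nat_lit 179) (nat_lit 5) (nat_lit 327) (nat_lit 304) (nat_lit 149)) (XT.lf (nat_lit 0) (nat_lit 15649546608) (nat_lit 608) (nat_lit 5794773410) (nat_lit 76) (nat_lit 635551371) (nat_lit 171) (nat_lit 5) (nat_lit 179) (nat_lit 5) (nat_lit 172) (nat_lit 5) (nat_lit 328) (nat_lit 304) (nat_lit 148)))) (XT.nd (nat_lit 156) (nat_lit 608) (nat_lit 0) (XT.nd (nat_lit 78) (nat_lit 0) (nat_lit 0) (XT.lf (nat_lit 0) (nat_lit 5336996730) (nat_lit 532) (nat_lit 12898838898) (nat_lit 608) (nat_lit 4219718992) (nat_lit 164) (nat_lit 5) (nat_lit 171) (nat_lit 5) (nat_lit 172) (nat_lit 5) (nat_lit 329) (nat_lit 304) (nat_lit 147)) (XT.lf (nat_lit 0) (nat_lit 16915684658) (nat_lit 532) (nat_lit 4036787804) (nat_lit 608) (nat_lit 1888458482) (nat_lit 164) (nat_lit 5) (nat_lit 171) (nat_lit 5) (nat_lit 172) (nat_lit 5) (nat_lit 330) (nat_lit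 304) (nat_lit 146))) (XT.nd (nat_lit 78) (nat_lit 0) (nat_lit 0) (XT.lf (nat_lit 0) (nat_lit 601449477) (nat_lit 608) (nat_lit 17581299303) (nat_lit 76) (nat_lit 5052015526) (nat_lit 156) (nat_lit 5) (nat_lit 164) (nat_lit 5) (nat_lit 157) (nat_lit 5) (nat_lit 331) (nat_lit 304) (nat_lit 145)) (XT.lf (nat_lit 0) (nat_lit 3222950972) (nat_lit 608) (nat_lit 6002759779) (nat_lit 76) (nat_lit 14411300331) (nat_lit 156) (nat_lit 5) (nat_lit 164) (nat_lit 5) (nat_lit 157) (nat_lit 5) (nat_lit 332) (nat_lit 304) (nat_lit 144))))) (XT.nd (nat_lit 234) (nat_lit 836) (nat_lit 0) (XT.nd (nat_lit 78) (nat_lit 456) (nat_lit 0) (XT.lf (nat_lit 0) (nat_lit 5976302920) (nat_lit 608) (nat_lit 18015130237) (nat_lit 76) (nat_lit 58300716) (nat_lit 149) (nat_lit 5) (nat_lit 157) (nat_lit 5) (nat_lit 150) (nat_lit 5) (nat_lit 333) (nat_lit 304) (nat_lit 143)) (XT.nd (nat_lit 78) (nat_lit 456) (nat_lit 0) (XT.lf (nat_lit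 0) (nat_lit 8959533931) (nat_lit 608) (nat_lit 6014640293) (nat_lit 76) (nat_lit 9496250400) (nat_lit 149) (nat_lit 5) (nat_lit 157) (nat_lit 5) (nat_lit 150) (nat_lit 5) (nat_lit 334) (nat_lit 304) (nat_lit 142)) (XT.lf (nat_lit 0) (nat_lit 6466401259) (nat_lit 456) (nat_lit 5622892016) (nat_lit 532) (nat_lit 12812736380) (nat_lit 143) (nat_lit 5) (nat_lit 149) (nat_lit 5) (nat_lit 150) (nat_lit 5) (nat_lit 335) (nat_lit 304) (nat_lit 141)))) (XT.nd (nat_lit 156) (nat_lit 380) (nat_lit 0) (XT.nd (nat_lit 78) (nat_lit 456) (nat_lit 0) (XT.lf (nat_lit 0) (nat_lit 15407781734) (nat_lit 532) (nat_lit 5944470563) (nat_lit 76) (nat_lit 3991489816) (nat_lit 143) (nat_lit 5) (nat_lit 150) (nat_lit 5) (nat_lit 144) (nat_lit 5) (nat_lit 336) (nat_lit 304) (nat_lit 140)) (XT.lf (nat_lit 0) (nat_lit 6996707494) (nat_lit 456) (nat_lit 11947155539) (nat_lit 532) (nat_lit 6851306005) (nat_lit 137) (nat_lit 5)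 (nat_lit 143) (nat_lit 5) (nat_lit 144) (nat_lit 5) (nat_lit 337) (nat_lit 304) (nat_lit 139))) (XT.nd (nat_lit 78) (nat_lit 380) (nat_lit 0) (XT.lf (nat_lit 0) (nat_lit 20442458076) (nat_lit 456) (nat_lit 2198794949) (nat_lit 532) (nat_lit 3617233077) (nat_lit 137) (nat_lit 5) (nat_lit 143) (nat_lit 5) (nat_lit 144) (nat_lit 5) (nat_lit 338) (nat_lit 304) (nat_lit 138)) (XT.lf (nat_lit 0) (nat_lit 7623768375) (nat_lit 380) (nat_lit 18969794827) (nat_lit 456) (nat_lit 137823516) (nat_lit 132) (nat_lit 5) (nat_lit 137) (nat_lit 5) (nat_lit 138) (nat_lit 5) (nat_lit 339) (nat_lit 304) (nat_lit 137)))))) (XT.nd (nat_lit 546) (nat_lit 1520) (nat_lit 0) (XT.nd (nat_lit 234) (nat_lit 760) (nat_lit 0) (XT.nd (nat_lit 78) (nat_lit 456) (nat_lit 0) (XT.lf (nat_lit 0) (nat_lit 3455173659) (nat_lit 456) (nat_lit 5691744546) (nat_lit 76) (nat_lit 18068272716) (nat_lit 131) (nat_lit 5) (nat_lit 137) (nat_lit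 5) (nat_lit 132) (nat_lit 5) (nat_lit 340) (nat_lit 304) (nat_lit 136)) (XT.nd (nat_lit 78) (nat_lit 0) (nat_lit 0) (XT.lf (nat_lit 0) (nat_lit 7238422174) (nat_lit 532) (nat_lit 19439876196) (nat_lit 76) (nat_lit 1032616653) (nat_lit 125) (nat_lit 5) (nat_lit 132) (nat_lit 5) (nat_lit 126) (nat_lit 5) (nat_lit 341) (nat_lit 304) (nat_lit 135)) (XT.lf (nat_lit 0) (nat_lit 11279348709) (nat_lit 532) (nat_lit 5546988905) (nat_lit 76) (nat_lit 11390851368) (nat_lit 125) (nat_lit 5) (nat_lit 132) (nat_lit 5) (nat_lit 126) (nat_lit 5) (nat_lit 342) (nat_lit 304) (nat_lit 134)))) (XT.nd (nat_lit 156) (nat_lit 380) (nat_lit 0) (XT.nd (nat_lit 78) (nat_lit 0) (nat_lit 0) (XT.lf (nat_lit 0) (nat_lit 8931682457) (nat_lit 380) (nat_lit 6591378828) (nat_lit 456) (nat_lit 13213146576) (nat_lit 120) (nat_lit 5) (nat_lit 125) (nat_lit 5) (nat_lit 126) (nat_lit 5) (nat_lit 343) (nat_lit 304) (nat_lit 133)) (XT.lf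 (nat_lit 0) (nat_lit 19984395914) (nat_lit 456) (nat_lit 5354585799) (nat_lit 76) (nat_lit 3929109618) (nat_lit 120) (nat_lit 5) (nat_lit 126) (nat_lit 5) (nat_lit 121) (nat_lit 5) (nat_lit 344) (nat_lit 304) (nat_lit 132))) (XT.nd (nat_lit 78) (nat_lit 0) (nat_lit 0) (XT.lf (nat_lit 0) (nat_lit 9646627130) (nat_lit 380) (nat_lit 15086823726) (nat_lit 456) (nat_lit 5077867292) (nat_lit 115) (nat_lit 5) (nat_lit 120) (nat_lit 5) (nat_lit 121) (nat_lit 5) (nat_lit 345) (nat_lit 304) (nat_lit 131)) (XT.lf (nat_lit 0) (nat_lit 25202487102) (nat_lit 380) (nat_lit 4472521159) (nat_lit 456) (nat_lit 694335738) (nat_lit 115) (nat_lit 5) (nat_lit 120) (nat_lit 5) (nat_lit 121) (nat_lit 5) (nat_lit 346) (nat_lit 304) (nat_lit 130))))) (XT.nd (nat_lit 234) (nat_lit 684) (nat_lit 0) (XT.nd (nat_lit 78) (nat_lit 380) (nat_lit 0) (XT.lf (nat_lit 0) (nat_lit 3906011524) (nat_lit 456) (nat_lit 20560686854) (nat_lit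 76) (nat_lit 6471517452) (nat_lit 109) (nat_lit 5) (nat_lit 115) (nat_lit 5) (nat_lit 110) (nat_lit 5) (nat_lit 347) (nat_lit 304) (nat_lit 129)) (XT.nd (nat_lit 78) (nat_lit 380) (nat_lit 0) (XT.lf (nat_lit 0) (nat_lit 8723479793) (nat_lit 456) (nat_lit 5085244111) (nat_lit 76) (nat_lit 17712434579) (nat_lit 109) (nat_lit 5) (nat_lit 115) (nat_lit 5) (nat_lit 110) (nat_lit 5) (nat_lit 348) (nat_lit 304) (nat_lit 128)) (XT.lf (nat_lit 0) (nat_lit 11065393525) (nat_lit 380) (nat_lit 2722651695) (nat_lit 456) (nat_lit 18330469807) (nat_lit 104) (nat_lit 5) (nat_lit 109) (nat_lit 5) (nat_lit 110) (nat_lit 5) (nat_lit 349) (nat_lit 304) (nat_lit 127)))) (XT.nd (nat_lit 156) (nat_lit 380) (nat_lit 0) (XT.nd (nat_lit 78) (nat_lit 304) (nat_lit 0) (XT.lf (nat_lit 0) (nat_lit 19136255413) (nat_lit 456) (nat_lit 5016606750) (nat_lit 76) (nat_lit 8576981589) (nat_lit 104) (nat_lit 5) (nat_lit 110) (nat_lit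 5) (nat_lit 105) (nat_lit 5) (nat_lit 350) (nat_lit 304) (nat_lit 126)) (XT.lf (nat_lit 0) (nat_lit 11697403909) (nat_lit 304) (nat_lit 13083273655) (nat_lit 380) (nat_lit 8574764448) (nat_lit 100) (nat_lit 5) (nat_lit 104) (nat_lit 5) (nat_lit 105) (nat_lit 5) (nat_lit 351) (nat_lit 304) (nat_lit 125))) (XT.nd (nat_lit 78) (nat_lit 380) (nat_lit 0) (XT.lf (nat_lit 0) (nat_lit 29010817390) (nat_lit 304) (nat_lit 1630698176) (nat_lit 380) (nat_lit 3356882724) (nat_lit 100) (nat_lit 5) (nat_lit 104) (nat_lit 5) (nat_lit 105) (nat_lit 5) (nat_lit 352) (nat_lit 304) (nat_lit 124)) (XT.lf (nat_lit 0) (nat_lit 2192939271) (nat_lit 380) (nat_lit 22354872967) (nat_lit 76) (nat_lit 10105808427) (nat_lit 95) (nat_lit 5) (nat_lit 100) (nat_lit 5) (nat_lit 96) (nat_lit 5) (nat_lit 353) (nat_lit 304) (nat_lit 123))))))) (XT.nd (nat_lit 1092) (nat_lit 1672) (nat_lit 0) (XT.nd (nat_lit 546) (nat_lit 1064) (nat_lit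 0) (XT.nd (nat_lit 234) (nat_lit 608) (nat_lit 0) (XT.nd (nat_lit 78) (nat_lit 304) (nat_lit 0) (XT.lf (nat_lit 0) (nat_lit 7905331749) (nat_lit 380) (nat_lit 5175793240) (nat_lit 76) (nat_lit 22244473601) (nat_lit 95) (nat_lit 5) (nat_lit 100) (nat_lit 5) (nat_lit 96) (nat_lit 5) (nat_lit 354) (nat_lit 304) (nat_lit 122)) (XT.nd (nat_lit 78) (nat_lit 0) (nat_lit 0) (XT.lf (nat_lit 0) (nat_lit 12763021598) (nat_lit 304) (nat_lit 1145398108) (nat_lit 380) (nat_lit 22105738714) (nat_lit 91) (nat_lit 5) (nat_lit 95) (nat_lit 5) (nat_lit 96) (nat_lit 5) (nat_lit 355) (nat_lit 304) (nat_lit 121)) (XT.lf (nat_lit 0) (nat_lit 20248226584) (nat_lit 380) (nat_lit 5488122716) (nat_lit 76) (nat_lit 10982329169) (nat_lit 91) (nat_lit 5) (nat_lit 96) (nat_lit 5) (nat_lit 92) (nat_lit 5) (nat_lit 356) (nat_lit 304) (nat_lit 120)))) (XT.nd (nat_lit 156) (nat_lit 304) (nat_lit 0) (XT.nd (nat_lit 78) (nat_lit 0)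 (nat_lit 0) (XT.lf (nat_lit 0) (nat_lit 13046429431) (nat_lit 304) (nat_lit 13865324018) (nat_lit 380) (nat_lit 10528577045) (nat_lit 87) (nat_lit 5) (nat_lit 91) (nat_lit 5) (nat_lit 92) (nat_lit 5) (nat_lit 357) (nat_lit 304) (nat_lit 119)) (XT.lf (nat_lit 0) (nat_lit 32244969687) (nat_lit 304) (nat_lit 1582460856) (nat_lit 380) (nat_lit 4354636290) (nat_lit 87) (nat_lit 5) (nat_lit 91) (nat_lit 5) (nat_lit 92) (nat_lit 5) (nat_lit 358) (nat_lit 304) (nat_lit 118))) (XT.nd (nat_lit 78) (nat_lit 0) (nat_lit 0) (XT.lf (nat_lit 0) (nat_lit 2198075480) (nat_lit 304) (nat_lit 25740204766) (nat_lit 76) (nat_lit 11000218875) (nat_lit 83) (nat_lit 5) (nat_lit 87) (nat_lit 5) (nat_lit 84) (nat_lit 5) (nat_lit 359) (nat_lit 304) (nat_lit 117)) (XT.lf (nat_lit 0) (nat_lit 8932979302) (nat_lit 304) (nat_lit 6750268092) (nat_lit 76) (nat_lit 24030891397) (nat_lit 83) (nat_lit 5) (nat_lit 87) (nat_lit 5) (nat_lit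 84) (nat_lit 5) (nat_lit 360) (nat_lit 304) (nat_lit 116))))) (XT.nd (nat_lit 234) (nat_lit 532) (nat_lit 0) (XT.nd (nat_lit 78) (nat_lit 228) (nat_lit 0) (XT.lf (nat_lit 0) (nat_lit 13059824641) (nat_lit 304) (nat_lit 2932654344) (nat_lit 380) (nat_lit 24516894059) (nat_lit 79) (nat_lit 5) (nat_lit 83) (nat_lit 5) (nat_lit 84) (nat_lit 5) (nat_lit 361) (nat_lit 304) (nat_lit 115)) (XT.nd (nat_lit 78) (nat_lit 228) (nat_lit 0) (XT.lf (nat_lit 0) (nat_lit 23427697679) (nat_lit 380) (nat_lit 7826973240) (nat_lit 76) (nat_lit 10068877182) (nat_lit 79) (nat_lit 5) (nat_lit 84) (nat_lit 5) (nat_lit 80) (nat_lit 5) (nat_lit 362) (nat_lit 304) (nat_lit 114)) (XT.lf (nat_lit 0) (nat_lit 12596759929) (nat_lit 228) (nat_lit 18636464741) (nat_lit 304) (nat_lit 10924507937) (nat_lit 76) (nat_lit 5) (nat_lit 79) (nat_lit 5) (nat_lit 80) (nat_lit 5) (nat_lit 363) (nat_lit 304) (nat_lit 113)))) (XT.nd (nat_lit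 156) (nat_lit 228) (nat_lit 0) (XT.nd (nat_lit 78) (nat_lit 304) (nat_lit 0) (XT.lf (nat_lit 0) (nat_lit 33789401218) (nat_lit 228) (nat_lit 5559723938) (nat_lit 304) (nat_lit 3665532956) (nat_lit 76) (nat_lit 5) (nat_lit 79) (nat_lit 5) (nat_lit 80) (nat_lit 5) (nat_lit 364) (nat_lit 304) (nat_lit 112)) (XT.lf (nat_lit 0) (nat_lit 3926084155) (nat_lit 304) (nat_lit 32058192518) (nat_lit 76) (nat_lit 7906239936) (nat_lit 72) (nat_lit 5) (nat_lit 76) (nat_lit 5) (nat_lit 73) (nat_lit 5) (nat_lit 365) (nat_lit 304) (nat_lit 111))) (XT.nd (nat_lit 78) (nat_lit 228) (nat_lit 0) (XT.lf (nat_lit 0) (nat_lit 11818154042) (nat_lit 304) (nat_lit 11175587753) (nat_lit 76) (nat_lit 21793430511) (nat_lit 72) (nat_lit 5) (nat_lit 76) (nat_lit 5) (nat_lit 73) (nat_lit 5) (nat_lit 366) (nat_lit 304) (nat_lit 110)) (XT.lf (nat_lit 0) (nat_lit 10534981950) (nat_lit 228) (nat_lit 9510604535) (nat_lit 304) (nat_lit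 25662184683) (nat_lit 69) (nat_lit 5) (nat_lit 72) (nat_lit 5) (nat_lit 73) (nat_lit 5) (nat_lit 367) (nat_lit 304) (nat_lit 109)))))) (XT.nd (nat_lit 546) (nat_lit 912) (nat_lit 0) (XT.nd (nat_lit 234) (nat_lit 532) (nat_lit 0) (XT.nd (nat_lit 78) (nat_lit 228) (nat_lit 0) (XT.lf (nat_lit 0) (nat_lit 28673242351) (nat_lit 304) (nat_lit 13573952380) (nat_lit 76) (nat_lit 4404192713) (nat_lit 69) (nat_lit 5) (nat_lit 73) (nat_lit 5) (nat_lit 70) (nat_lit 5) (nat_lit 368) (nat_lit 304) (nat_lit 108)) (XT.nd (nat_lit 78) (nat_lit 0) (nat_lit 0) (XT.lf (nat_lit 0) (nat_lit 8745342894) (nat_lit 228) (nat_lit 28990048892) (nat_lit 304) (nat_lit 9882651926) (nat_lit 66) (nat_lit 5) (nat_lit 69) (nat_lit 5) (nat_lit 70) (nat_lit 5) (nat_lit 369) (nat_lit 304) (nat_lit 107)) (XT.lf (nat_lit 0) (nat_lit 32008513509) (nat_lit 228) (nat_lit 15195433117) (nat_lit 304) (nat_lit 1405718193) (nat_lit 66) (nat_lit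 5) (nat_lit 69) (nat_lit 5) (nat_lit 70) (nat_lit 5) (nat_lit 370) (nat_lit 304) (nat_lit 106)))) (XT.nd (nat_lit 156) (nat_lit 228) (nat_lit 0) (XT.nd (nat_lit 78) (nat_lit 0) (nat_lit 0) (XT.lf (nat_lit 0) (nat_lit 6388906151) (nat_lit 228) (nat_lit 852602786) (nat_lit 304) (nat_lit 42385646419) (nat_lit 62) (nat_lit 5) (nat_lit 65) (nat_lit 5) (nat_lit 66) (nat_lit 5) (nat_lit 371) (nat_lit 304) (nat_lit 105)) (XT.lf (nat_lit 0) (nat_lit 16420551054) (nat_lit 304) (nat_lit 20414473699) (nat_lit 76) (nat_lit 13830710025) (nat_lit 62) (nat_lit 5) (nat_lit 66) (nat_lit 5) (nat_lit 63) (nat_lit 5) (nat_lit 372) (nat_lit 304) (nat_lit 104))) (XT.nd (nat_lit 78) (nat_lit 0) (nat_lit 0) (XT.lf (nat_lit 0) (nat_lit 3143106151) (nat_lit 228) (nat_lit 22768125356) (nat_lit 304) (nat_lit 25823153289) (nat_lit 59) (nat_lit 5) (nat_lit 62) (nat_lit 5) (nat_lit 63) (nat_lit 5) (nat_lit 373) (nat_lit 304) (nat_lit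 103)) (XT.lf (nat_lit 0) (nat_lit 27822126725) (nat_lit 228) (nat_lit 8068297187) (nat_lit 304) (nat_lit 16938557847) (nat_lit 59) (nat_lit 5) (nat_lit 62) (nat_lit 5) (nat_lit 63) (nat_lit 5) (nat_lit 374) (nat_lit 304) (nat_lit 102))))) (XT.nd (nat_lit 312) (nat_lit 456) (nat_lit 0) (XT.nd (nat_lit 156) (nat_lit 228) (nat_lit 0) (XT.nd (nat_lit 78) (nat_lit 228) (nat_lit 0) (XT.lf (nat_lit 0) (nat_lit 46234678347) (nat_lit 304) (nat_lit 786594505) (nat_lit 76) (nat_lit 6933174344) (nat_lit 59) (nat_lit 5) (nat_lit 63) (nat_lit 5) (nat_lit 60) (nat_lit 5) (nat_lit 375) (nat_lit 304) (nat_lit 101)) (XT.lf (nat_lit 0) (nat_lit 2057739458) (nat_lit 228) (nat_lit 30568477960) (nat_lit 76) (nat_lit 22477444118) (nat_lit 56) (nat_lit 5) (nat_lit 59) (nat_lit 5) (nat_lit 57) (nat_lit 5) (nat_lit 376) (nat_lit 304) (nat_lit 100))) (XT.nd (nat_lit 78) (nat_lit 228) (nat_lit 0) (XT.lf (nat_lit 0) (nat_lit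 11979210657) (nat_lit 228) (nat_lit 5734498882) (nat_lit 76) (nat_lit 38571176902) (nat_lit 56) (nat_lit 5) (nat_lit 59) (nat_lit 5) (nat_lit 57) (nat_lit 5) (nat_lit 377) (nat_lit 304) (nat_lit 99)) (XT.lf (nat_lit 0) (nat_lit 20235867146) (nat_lit 228) (nat_lit 2154818811) (nat_lit 304) (nat_lit 35105092364) (nat_lit 53) (nat_lit 5) (nat_lit 56) (nat_lit 5) (nat_lit 57) (nat_lit 5) (nat_lit 378) (nat_lit 304) (nat_lit 98)))) (XT.nd (nat_lit 156) (nat_lit 304) (nat_lit 0) (XT.nd (nat_lit 78) (nat_lit 152) (nat_lit 0) (XT.lf (nat_lit 0) (nat_lit 33304178081) (nat_lit 304) (nat_lit 11775796988) (nat_lit 76) (nat_lit 13657332708) (nat_lit 53) (nat_lit 5) (nat_lit 57) (nat_lit 5) (nat_lit 54) (nat_lit 5) (nat_lit 379) (nat_lit 304) (nat_lit 97)) (XT.lf (nat_lit 0) (nat_lit 14735628959) (nat_lit 152) (nat_lit 29970348188) (nat_lit 228) (nat_lit 15305279869) (nat_lit 51) (nat_lit 5) (nat_lit 53) (nat_lit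 5) (nat_lit 54) (nat_lit 5) (nat_lit 380) (nat_lit 304) (nat_lit 96))) (XT.nd (nat_lit 78) (nat_lit 304) (nat_lit 0) (XT.lf (nat_lit 0) (nat_lit 42280401505) (nat_lit 152) (nat_lit 14286288628) (nat_lit 228) (nat_lit 4753229742) (nat_lit 51) (nat_lit 5) (nat_lit 53) (nat_lit 5) (nat_lit 54) (nat_lit 5) (nat_lit 381) (nat_lit 304) (nat_lit 95)) (XT.lf (nat_lit 0) (nat_lit 6090995220) (nat_lit 304) (nat_lit 54603894323) (nat_lit 76) (nat_lit 1968342024) (nat_lit 47) (nat_lit 5) (nat_lit 51) (nat_lit 5) (nat_lit 48) (nat_lit 5) (nat_lit 382) (nat_lit 304) (nat_lit 94))))))))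
noncomputable def xc202 : XT := (XT.nd (nat_lit 35256) (nat_lit 0) (nat_lit 7144) (XT.nd (nat_lit 1092) (nat_lit 304) (nat_lit 0) (XT.nd (nat_lit 546) (nat_lit 380) (nat_lit 0) (XT.nd (nat_lit 234) (nat_lit 380) (nat_lit 0) (XT.nd (nat_lit 78) (nat_lit 152) (nat_lit 0) (XT.lf (nat_lit 0) (nat_lit 17498626482) (nat_lit 304) (nat_lit 27873384355) (nat_lit 76) (nat_lit 18663412338) (nat_lit 47) (nat_lit 5) (nat_lit 51) (nat_lit 5) (nat_lit 48) (nat_lit 5) (nat_lit 383) (nat_lit 304) (nat_lit 93)) (XT.nd (nat_lit 78) (nat_lit 152) (nat_lit 0) (XT.lf (nat_lit 0) (nat_lit 29246545880) (nat_lit 304) (nat_lit 344207558) (nat_lit 76) (nat_lit 35858086152) (nat_lit 47) (nat_lit 5) (nat_lit 51) (nat_lit 5) (nat_lit 48) (nat_lit 5) (nat_lit 384) (nat_lit 304) (nat_lit 92)) (XT.lf (nat_lit 0) (nat_lit 28565098649) (nat_lit 152) (nat_lit 13054505139) (nat_lit 228) (nat_lit 25276874491) (nat_lit 45) (nat_lit 5)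 (nat_lit 47) (nat_lit 5) (nat_lit 48) (nat_lit 5) (nat_lit 385) (nat_lit 304) (nat_lit 91)))) (XT.nd (nat_lit 156) (nat_lit 228) (nat_lit 0) (XT.nd (nat_lit 78) (nat_lit 152) (nat_lit 0) (XT.lf (nat_lit 0) (nat_lit 54403729455) (nat_lit 228) (nat_lit 10080141006) (nat_lit 76) (nat_lit 3902480174) (nat_lit 45) (nat_lit 5) (nat_lit 48) (nat_lit 5) (nat_lit 46) (nat_lit 5) (nat_lit 386) (nat_lit 304) (nat_lit 90)) (XT.lf (nat_lit 0) (nat_lit 19262181691) (nat_lit 152) (nat_lit 48621792555) (nat_lit 228) (nat_lit 2027567820) (nat_lit 43) (nat_lit 5) (nat_lit 45) (nat_lit 5) (nat_lit 46) (nat_lit 5) (nat_lit 387) (nat_lit 304) (nat_lit 89))) (XT.nd (nat_lit 78) (nat_lit 152) (nat_lit 0) (XT.lf (nat_lit 0) (nat_lit 10186403159) (nat_lit 228) (nat_lit 21890994667) (nat_lit 76) (nat_lit 39399096264) (nat_lit 42) (nat_lit 5) (nat_lit 45) (nat_lit 5) (nat_lit 43) (nat_lit 5) (nat_lit 388) (nat_lit 304) (nat_lit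 88)) (XT.lf (nat_lit 0) (nat_lit 7860440615) (nat_lit 152) (nat_lit 14939400809) (nat_lit 228) (nat_lit 50285737695) (nat_lit 40) (nat_lit 5) (nat_lit 42) (nat_lit 5) (nat_lit 43) (nat_lit 5) (nat_lit 389) (nat_lit 304) (nat_lit 87))))) (XT.nd (nat_lit 234) (nat_lit 228) (nat_lit 0) (XT.nd (nat_lit 78) (nat_lit 152) (nat_lit 0) (XT.lf (nat_lit 0) (nat_lit 36039255981) (nat_lit 228) (nat_lit 35814410906) (nat_lit 76) (nat_lit 2881843295) (nat_lit 40) (nat_lit 5) (nat_lit 43) (nat_lit 5) (nat_lit 41) (nat_lit 5) (nat_lit 390) (nat_lit 304) (nat_lit 86)) (XT.nd (nat_lit 78) (nat_lit 152) (nat_lit 0) (XT.lf (nat_lit 0) (nat_lit 49822070618) (nat_lit 228) (nat_lit 5672192479) (nat_lit 76) (nat_lit 20936290210) (nat_lit 40) (nat_lit 5) (nat_lit 43) (nat_lit 5) (nat_lit 41) (nat_lit 5) (nat_lit 391) (nat_lit 304) (nat_lit 85)) (XT.lf (nat_lit 0) (nat_lit 25876403125) (nat_lit 152) (nat_lit 38389058602)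 (nat_lit 228) (nat_lit 13903573877) (nat_lit 38) (nat_lit 5) (nat_lit 40) (nat_lit 5) (nat_lit 41) (nat_lit 5) (nat_lit 392) (nat_lit 304) (nat_lit 84)))) (XT.nd (nat_lit 156) (nat_lit 0) (nat_lit 0) (XT.nd (nat_lit 78) (nat_lit 228) (nat_lit 0) (XT.lf (nat_lit 0) (nat_lit 58484927536) (nat_lit 152) (nat_lit 20712878318) (nat_lit 228) (nat_lit 760197598) (nat_lit 38) (nat_lit 5) (nat_lit 40) (nat_lit 5) (nat_lit 41) (nat_lit 5) (nat_lit 393) (nat_lit 304) (nat_lit 83)) (XT.lf (nat_lit 0) (nat_lit 10347403365) (nat_lit 152) (nat_lit 2278611933) (nat_lit 228) (nat_lit 69168004774) (nat_lit 35) (nat_lit 5) (nat_lit 37) (nat_lit 5) (nat_lit 38) (nat_lit 5) (nat_lit 394) (nat_lit 304) (nat_lit 82))) (XT.nd (nat_lit 78) (nat_lit 0) (nat_lit 0) (XT.lf (nat_lit 0) (nat_lit 26776545896) (nat_lit 228) (nat_lit 40288989646) (nat_lit 76) (nat_lit 16608016099) (nat_lit 35) (nat_lit 5) (nat_lit 38) (nat_lit 5)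 (nat_lit 36) (nat_lit 5) (nat_lit 395) (nat_lit 304) (nat_lit 81)) (XT.lf (nat_lit 0) (nat_lit 41372612733) (nat_lit 228) (nat_lit 8221877674) (nat_lit 76) (nat_lit 36014348694) (nat_lit 35) (nat_lit 5) (nat_lit 38) (nat_lit 5) (nat_lit 36) (nat_lit 5) (nat_lit 396) (nat_lit 304) (nat_lit 80)))))) (XT.nd (nat_lit 33618) (nat_lit 0) (nat_lit 13224) (XT.nd (nat_lit 234) (nat_lit 76) (nat_lit 0) (XT.nd (nat_lit 78) (nat_lit 76) (nat_lit 0) (XT.lf (nat_lit 0) (nat_lit 25298303449) (nat_lit 152) (nat_lit 31349945563) (nat_lit 228) (nat_lit 30946686085) (nat_lit 33) (nat_lit 5) (nat_lit 35) (nat_lit 5) (nat_lit 36) (nat_lit 5) (nat_lit 397) (nat_lit 304) (nat_lit 79)) (XT.nd (nat_lit 78) (nat_lit 76) (nat_lit 0) (XT.lf (nat_lit 0) (nat_lit 59990050750) (nat_lit 152) (nat_lit 12473651895) (nat_lit 228) (nat_lit 17174465398) (nat_lit 33) (nat_lit 5) (nat_lit 35) (nat_lit 5) (nat_lit 36) (nat_lit 5) (nat_lit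 398) (nat_lit 304) (nat_lit 78)) (XT.lf (nat_lit 0) (nat_lit 3988148235) (nat_lit 76) (nat_lit 84869353931) (nat_lit 152) (nat_lit 2882079847) (nat_lit 32) (nat_lit 5) (nat_lit 33) (nat_lit 5) (nat_lit 34) (nat_lit 4) (nat_lit 399) (nat_lit 304) (nat_lit 77)))) (XT.nd (nat_lit 33228) (nat_lit 0) (nat_lit 13224) (XT.nd (nat_lit 78) (nat_lit 0) (nat_lit 0) (XT.lf (nat_lit 0) (nat_lit 12032467256) (nat_lit 152) (nat_lit 54896609928) (nat_lit 76) (nat_lit 26958815173) (nat_lit 31) (nat_lit 5) (nat_lit 33) (nat_lit 5) (nat_lit 32) (nat_lit 5) (nat_lit 400) (nat_lit 304) (nat_lit 76)) (XT.lf (nat_lit 0) (nat_lit 27335125215) (nat_lit 152) (nat_lit 21087144800) (nat_lit 76) (nat_lit 47677568351) (nat_lit 31) (nat_lit 5) (nat_lit 33) (nat_lit 5) (nat_lit 32) (nat_lit 5) (nat_lit 401) (nat_lit 304) (nat_lit 75))) (XT.nd (nat_lit 78) (nat_lit 0) (nat_lit 0) (XT.lf (nat_lit 0) (nat_lit 1219905647) (nat_lit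 0) (nat_lit 1219905647) (nat_lit 1140) (nat_lit 5376959180) (nat_lit 205) (nat_lit 5) (nat_lit 205) (nat_lit 3) (nat_lit 220) (nat_lit 3) (nat_lit 305) (nat_lit 305) (nat_lit 170)) (XT.lf (nat_lit 0) (nat_lit 5259870855) (nat_lit 1140) (nat_lit 6059573775) (nat_lit 1216) (nat_lit 4539116208) (nat_lit 205) (nat_lit 5) (nat_lit 220) (nat_lit 3) (nat_lit 221) (nat_lit 5) (nat_lit 306) (nat_lit 305) (nat_lit 169))))) (XT.nd (nat_lit 234) (nat_lit 0) (nat_lit 152) (XT.nd (nat_lit 78) (nat_lit 0) (nat_lit 76) (XT.lf (nat_lit 76) (nat_lit 1284015400) (nat_lit 0) (nat_lit 4393813003) (nat_lit 1216) (nat_lit 10411724462) (nat_lit 206) (nat_lit 5) (nat_lit 205) (nat_lit 5) (nat_lit 221) (nat_lit 5) (nat_lit 307) (nat_lit 305) (nat_lit 168)) (XT.nd (nat_lit 78) (nat_lit 0) (nat_lit 0) (XT.lf (nat_lit 0) (nat_lit 6186545633) (nat_lit 1140) (nat_lit 7386240872) (nat_lit 1216) (nat_lit 2752351811) (nat_lit 206)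 (nat_lit 5) (nat_lit 221) (nat_lit 5) (nat_lit 222) (nat_lit 5) (nat_lit 308) (nat_lit 305) (nat_lit 167)) (XT.lf (nat_lit 76) (nat_lit 210621055) (nat_lit 0) (nat_lit 6535810371) (nat_lit 1216) (nat_lit 9820292686) (nat_lit 207) (nat_lit 5) (nat_lit 206) (nat_lit 5) (nat_lit 222) (nat_lit 5) (nat_lit 309) (nat_lit 305) (nat_lit 166)))) (XT.nd (nat_lit 156) (nat_lit 0) (nat_lit 0) (XT.nd (nat_lit 78) (nat_lit 0) (nat_lit 0) (XT.lf (nat_lit 0) (nat_lit 7395928496) (nat_lit 1140) (nat_lit 8639999312) (nat_lit 1216) (nat_lit 777454932) (nat_lit 207) (nat_lit 5) (nat_lit 222) (nat_lit 5) (nat_lit 223) (nat_lit 5) (nat_lit 310) (nat_lit 305) (nat_lit 165)) (XT.lf (nat_lit 0) (nat_lit 8120536859) (nat_lit 1140) (nat_lit 762845448) (nat_lit 1216) (nat_lit 8182399448) (nat_lit 207) (nat_lit 5) (nat_lit 222) (nat_lit 5) (nat_lit 223) (nat_lit 5) (nat_lit 311) (nat_lit 305) (nat_lit 164))) (XT.nd (nat_lit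 78) (nat_lit 0) (nat_lit 76) (XT.lf (nat_lit 76) (nat_lit 7491248940) (nat_lit 0) (nat_lit 1438824987) (nat_lit 1216) (nat_lit 8393792243) (nat_lit 208) (nat_lit 5) (nat_lit 207) (nat_lit 5) (nat_lit 223) (nat_lit 5) (nat_lit 312) (nat_lit 305) (nat_lit 163)) (XT.lf (nat_lit 0) (nat_lit 9822968190) (nat_lit 1140) (nat_lit 1646610345) (nat_lit 1216) (nat_lit 6118351326) (nat_lit 208) (nat_lit 5) (nat_lit 223) (nat_lit 5) (nat_lit 224) (nat_lit 5) (nat_lit 313) (nat_lit 305) (nat_lit 162))))))) (XT.nd (nat_lit 1092) (nat_lit 4028) (nat_lit 0) (XT.nd (nat_lit 546) (nat_lit 2280) (nat_lit 0) (XT.nd (nat_lit 234) (nat_lit 0) (nat_lit 152) (XT.nd (nat_lit 78) (nat_lit 0) (nat_lit 76) (XT.lf (nat_lit 76) (nat_lit 6899740442) (nat_lit 0) (nat_lit 3915143184) (nat_lit 1216) (nat_lit 7042873427) (nat_lit 209) (nat_lit 5) (nat_lit 208) (nat_lit 5) (nat_lit 224) (nat_lit 5) (nat_lit 314) (nat_lit 305) (nat_lit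 161)) (XT.nd (nat_lit 78) (nat_lit 0) (nat_lit 0) (XT.lf (nat_lit 0) (nat_lit 11882388299) (nat_lit 1140) (nat_lit 2442122460) (nat_lit 1216) (nat_lit 3809801716) (nat_lit 209) (nat_lit 5) (nat_lit 224) (nat_lit 5) (nat_lit 225) (nat_lit 5) (nat_lit 315) (nat_lit 305) (nat_lit 160)) (XT.lf (nat_lit 76) (nat_lit 6409883459) (nat_lit 0) (nat_lit 6664528701) (nat_lit 1216) (nat_lit 5341985702) (nat_lit 210) (nat_lit 5) (nat_lit 209) (nat_lit 5) (nat_lit 225) (nat_lit 5) (nat_lit 316) (nat_lit 305) (nat_lit 159)))) (XT.nd (nat_lit 156) (nat_lit 0) (nat_lit 0) (XT.nd (nat_lit 78) (nat_lit 0) (nat_lit 0) (XT.lf (nat_lit 0) (nat_lit 14331189600) (nat_lit 1140) (nat_lit 3146602061) (nat_lit 1216) (nat_lit 1228292252) (nat_lit 210) (nat_lit 5) (nat_lit 225) (nat_lit 5) (nat_lit 226) (nat_lit 5) (nat_lit 317) (nat_lit 305) (nat_lit 158)) (XT.lf (nat_lit 76) (nat_lit 6024977942) (nat_lit 0) (nat_lit 9717127772)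 (nat_lit 1216) (nat_lit 3258869429) (nat_lit 211) (nat_lit 5) (nat_lit 210) (nat_lit 5) (nat_lit 226) (nat_lit 5) (nat_lit 318) (nat_lit 305) (nat_lit 157))) (XT.nd (nat_lit 78) (nat_lit 0) (nat_lit 76) (XT.lf (nat_lit 76) (nat_lit 15530550317) (nat_lit 0) (nat_lit 1689270720) (nat_lit 1216) (nat_lit 2084165354) (nat_lit 211) (nat_lit 5) (nat_lit 210) (nat_lit 5) (nat_lit 226) (nat_lit 5) (nat_lit 319) (nat_lit 305) (nat_lit 156)) (XT.lf (nat_lit 76) (nat_lit 5748400668) (nat_lit 0) (nat_lit 13104895000) (nat_lit 1216) (nat_lit 759456693) (nat_lit 212) (nat_lit 5) (nat_lit 211) (nat_lit 5) (nat_lit 227) (nat_lit 5) (nat_lit 320) (nat_lit 305) (nat_lit 155))))) (XT.nd (nat_lit 234) (nat_lit 1292) (nat_lit 0) (XT.nd (nat_lit 78) (nat_lit 0) (nat_lit 76) (XT.lf (nat_lit 0) (nat_lit 641396057) (nat_lit 1216) (nat_lit 4325129937) (nat_lit 1292) (nat_lit 14962641399) (nat_lit 195) (nat_lit 5) (nat_lit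 211) (nat_lit 5) (nat_lit 212) (nat_lit 5) (nat_lit 321) (nat_lit 305) (nat_lit 154)) (XT.nd (nat_lit 78) (nat_lit 0) (nat_lit 0) (XT.lf (nat_lit 0) (nat_lit 2149465130) (nat_lit 1216) (nat_lit 14690595723) (nat_lit 76) (nat_lit 3412381398) (nat_lit 196) (nat_lit 5) (nat_lit 212) (nat_lit 5) (nat_lit 197) (nat_lit 5) (nat_lit 322) (nat_lit 305) (nat_lit 153)) (XT.lf (nat_lit 0) (nat_lit 3789417111) (nat_lit 1216) (nat_lit 4805426834) (nat_lit 76) (nat_lit 11987978596) (nat_lit 196) (nat_lit 5) (nat_lit 212) (nat_lit 5) (nat_lit 197) (nat_lit 5) (nat_lit 323) (nat_lit 305) (nat_lit 152)))) (XT.nd (nat_lit 156) (nat_lit 608) (nat_lit 0) (XT.nd (nat_lit 78) (nat_lit 0) (nat_lit 0) (XT.lf (nat_lit 0) (nat_lit 5477543928) (nat_lit 760) (nat_lit 47230188) (nat_lit 836) (nat_lit 15396960155) (nat_lit 186) (nat_lit 5) (nat_lit 196) (nat_lit 5) (nat_lit 197) (nat_lit 5) (nat_lit 324) (nat_lit 305) (nat_lit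 151)) (XT.lf (nat_lit 0) (nat_lit 7439067565) (nat_lit 836) (nat_lit 5192290472) (nat_lit 76) (nat_lit 8635655090) (nat_lit 186) (nat_lit 5) (nat_lit 197) (nat_lit 5) (nat_lit 187) (nat_lit 5) (nat_lit 325) (nat_lit 305) (nat_lit 150))) (XT.nd (nat_lit 78) (nat_lit 0) (nat_lit 0) (XT.lf (nat_lit 0) (nat_lit 5467776385) (nat_lit 608) (nat_lit 3989918398) (nat_lit 684) (nat_lit 12163554287) (nat_lit 178) (nat_lit 5) (nat_lit 186) (nat_lit 5) (nat_lit 187) (nat_lit 5) (nat_lit 326) (nat_lit 305) (nat_lit 149)) (XT.lf (nat_lit 0) (nat_lit 11631043913) (nat_lit 684) (nat_lit 5483934527) (nat_lit 76) (nat_lit 4868314456) (nat_lit 178) (nat_lit 5) (nat_lit 187) (nat_lit 5) (nat_lit 179) (nat_lit 5) (nat_lit 327) (nat_lit 305) (nat_lit 148)))))) (XT.nd (nat_lit 546) (nat_lit 1824) (nat_lit 0) (XT.nd (nat_lit 234) (nat_lit 1140) (nat_lit 0) (XT.nd (nat_lit 78) (nat_lit 532) (nat_lit 0) (XT.lf (nat_lit 0)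 (nat_lit 5569276740) (nat_lit 532) (nat_lit 8387537516) (nat_lit 608) (nat_lit 8396772690) (nat_lit 171) (nat_lit 5) (nat_lit 178) (nat_lit 5) (nat_lit 179) (nat_lit 5) (nat_lit 328) (nat_lit 305) (nat_lit 147)) (XT.nd (nat_lit 78) (nat_lit 532) (nat_lit 0) (XT.lf (nat_lit 0) (nat_lit 16408366413) (nat_lit 608) (nat_lit 5678870206) (nat_lit 76) (nat_lit 646078309) (nat_lit 171) (nat_lit 5) (nat_lit 179) (nat_lit 5) (nat_lit 172) (nat_lit 5) (nat_lit 329) (nat_lit 305) (nat_lit 146)) (XT.lf (nat_lit 0) (nat_lit 5784012387) (nat_lit 532) (nat_lit 13282562443) (nat_lit 608) (nat_lit 4053871844) (nat_lit 164) (nat_lit 5) (nat_lit 171) (nat_lit 5) (nat_lit 172) (nat_lit 5) (nat_lit 330) (nat_lit 305) (nat_lit 145)))) (XT.nd (nat_lit 156) (nat_lit 532) (nat_lit 0) (XT.nd (nat_lit 78) (nat_lit 608) (nat_lit 0) (XT.lf (nat_lit 0) (nat_lit 17701704475) (nat_lit 532) (nat_lit 4154744232) (nat_lit 608) (nat_lit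 1661191151) (nat_lit 164) (nat_lit 5) (nat_lit 171) (nat_lit 5) (nat_lit 172) (nat_lit 5) (nat_lit 331) (nat_lit 305) (nat_lit 144)) (XT.lf (nat_lit 0) (nat_lit 892554394) (nat_lit 608) (nat_lit 17818837683) (nat_lit 76) (nat_lit 5211981113) (nat_lit 156) (nat_lit 5) (nat_lit 164) (nat_lit 5) (nat_lit 157) (nat_lit 5) (nat_lit 332) (nat_lit 305) (nat_lit 143))) (XT.nd (nat_lit 78) (nat_lit 532) (nat_lit 0) (XT.lf (nat_lit 0) (nat_lit 3584747689) (nat_lit 608) (nat_lit 5901385680) (nat_lit 76) (nat_lit 14851799653) (nat_lit 156) (nat_lit 5) (nat_lit 164) (nat_lit 5) (nat_lit 157) (nat_lit 5) (nat_lit 333) (nat_lit 305) (nat_lit 142)) (XT.lf (nat_lit 0) (nat_lit 6415836709) (nat_lit 608) (nat_lit 18269035468) (nat_lit 76) (nat_lit 78318072) (nat_lit 149) (nat_lit 5) (nat_lit 157) (nat_lit 5) (nat_lit 150) (nat_lit 5) (nat_lit 334) (nat_lit 305) (nat_lit 141))))) (XT.nd (nat_lit 312) (nat_lit 912)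 (nat_lit 0) (XT.nd (nat_lit 156) (nat_lit 456) (nat_lit 0) (XT.nd (nat_lit 78) (nat_lit 456) (nat_lit 0) (XT.lf (nat_lit 0) (nat_lit 9480984707) (nat_lit 608) (nat_lit 5916876904) (nat_lit 76) (nat_lit 9798874160) (nat_lit 149) (nat_lit 5) (nat_lit 157) (nat_lit 5) (nat_lit 150) (nat_lit 5) (nat_lit 335) (nat_lit 305) (nat_lit 140)) (XT.lf (nat_lit 0) (nat_lit 6935868418) (nat_lit 456) (nat_lit 5764057281) (nat_lit 532) (nat_lit 12941511043) (nat_lit 143) (nat_lit 5) (nat_lit 149) (nat_lit 5) (nat_lit 150) (nat_lit 5) (nat_lit 336) (nat_lit 305) (nat_lit 139))) (XT.nd (nat_lit 78) (nat_lit 456) (nat_lit 0) (XT.lf (nat_lit 0) (nat_lit 16111003710) (nat_lit 532) (nat_lit 5848179078) (nat_lit 76) (nat_lit 4137433008) (nat_lit 143) (nat_lit 5) (nat_lit 150) (nat_lit 5) (nat_lit 144) (nat_lit 5) (nat_lit 337) (nat_lit 305) (nat_lit 138)) (XT.lf (nat_lit 0) (nat_lit 7478541913) (nat_lit 456) (nat_lit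 12270220441) (nat_lit 532) (nat_lit 6812961414) (nat_lit 137) (nat_lit 5) (nat_lit 143) (nat_lit 5) (nat_lit 144) (nat_lit 5) (nat_lit 338) (nat_lit 305) (nat_lit 137)))) (XT.nd (nat_lit 156) (nat_lit 456) (nat_lit 0) (XT.nd (nat_lit 78) (nat_lit 456) (nat_lit 0) (XT.lf (nat_lit 0) (nat_lit 21319744628) (nat_lit 456) (nat_lit 2230438637) (nat_lit 532) (nat_lit 3488969708) (nat_lit 137) (nat_lit 5) (nat_lit 143) (nat_lit 5) (nat_lit 144) (nat_lit 5) (nat_lit 339) (nat_lit 305) (nat_lit 136)) (XT.lf (nat_lit 0) (nat_lit 89136159) (nat_lit 456) (nat_lit 19406636577) (nat_lit 76) (nat_lit 8030561168) (nat_lit 131) (nat_lit 5) (nat_lit 137) (nat_lit 5) (nat_lit 132) (nat_lit 5) (nat_lit 340) (nat_lit 305) (nat_lit 135))) (XT.nd (nat_lit 78) (nat_lit 456) (nat_lit 0) (XT.lf (nat_lit 0) (nat_lit 3780502913) (nat_lit 456) (nat_lit 5597598117) (nat_lit 76) (nat_lit 18646715177) (nat_lit 131) (nat_lit 5)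 (nat_lit 137) (nat_lit 5) (nat_lit 132) (nat_lit 5) (nat_lit 341) (nat_lit 305) (nat_lit 134)) (XT.lf (nat_lit 0) (nat_lit 7673742128) (nat_lit 532) (nat_lit 19754491989) (nat_lit 76) (nat_lit 1107288367) (nat_lit 125) (nat_lit 5) (nat_lit 132) (nat_lit 5) (nat_lit 126) (nat_lit 5) (nat_lit 342) (nat_lit 305) (nat_lit 133))))))))
noncomputable def xc203 : XT := (XT.nd (nat_lit 2184) (nat_lit 2508) (nat_lit 0) (XT.nd (nat_lit 1092) (nat_lit 1900) (nat_lit 0) (XT.nd (nat_lit 546) (nat_lit 1368) (nat_lit 0) (XT.nd (nat_lit 234) (nat_lit 836) (nat_lit 0) (XT.nd (nat_lit 78) (nat_lit 380) (nat_lit 0) (XT.lf (nat_lit 0) (nat_lit 11829542071) (nat_lit 532) (nat_lit 5452640812) (nat_lit 76) (nat_lit 11774997507) (nat_lit 125) (nat_lit 5) (nat_lit 132) (nat_lit 5) (nat_lit 126) (nat_lit 5) (nat_lit 343) (nat_lit 305) (nat_lit 132)) (XT.nd (nat_lit 78) (nat_lit 0) (nat_lit 0) (XT.lf (nat_lit 0) (nat_lit 9457834243)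 (nat_lit 380) (nat_lit 6739044463) (nat_lit 456) (nat_lit 13395006696) (nat_lit 120) (nat_lit 5) (nat_lit 125) (nat_lit 5) (nat_lit 126) (nat_lit 5) (nat_lit 344) (nat_lit 305) (nat_lit 131)) (XT.lf (nat_lit 0) (nat_lit 20786458802) (nat_lit 456) (nat_lit 5258787793) (nat_lit 76) (nat_lit 4094651423) (nat_lit 120) (nat_lit 5) (nat_lit 126) (nat_lit 5) (nat_lit 121) (nat_lit 5) (nat_lit 345) (nat_lit 305) (nat_lit 130)))) (XT.nd (nat_lit 156) (nat_lit 456) (nat_lit 0) (XT.nd (nat_lit 78) (nat_lit 0) (nat_lit 0) (XT.lf (nat_lit 0) (nat_lit 10189947450) (nat_lit 380) (nat_lit 15484579829) (nat_lit 456) (nat_lit 5025002766) (nat_lit 115) (nat_lit 5) (nat_lit 120) (nat_lit 5) (nat_lit 121) (nat_lit 5) (nat_lit 346) (nat_lit 305) (nat_lit 129)) (XT.lf (nat_lit 0) (nat_lit 26205087450) (nat_lit 380) (nat_lit 4553445718) (nat_lit 456) (nat_lit 515941981) (nat_lit 115) (nat_lit 5) (nat_lit 120) (nat_lit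 5) (nat_lit 121) (nat_lit 5) (nat_lit 347) (nat_lit 305) (nat_lit 128))) (XT.nd (nat_lit 78) (nat_lit 0) (nat_lit 0) (XT.lf (nat_lit 0) (nat_lit 4215762636) (nat_lit 456) (nat_lit 20924039857) (nat_lit 76) (nat_lit 6720640421) (nat_lit 109) (nat_lit 5) (nat_lit 115) (nat_lit 5) (nat_lit 110) (nat_lit 5) (nat_lit 348) (nat_lit 305) (nat_lit 127)) (XT.lf (nat_lit 0) (nat_lit 9172146095) (nat_lit 456) (nat_lit 4991716384) (nat_lit 76) (nat_lit 18297183778) (nat_lit 109) (nat_lit 5) (nat_lit 115) (nat_lit 5) (nat_lit 110) (nat_lit 5) (nat_lit 349) (nat_lit 305) (nat_lit 126))))) (XT.nd (nat_lit 234) (nat_lit 684) (nat_lit 0) (XT.nd (nat_lit 78) (nat_lit 304) (nat_lit 0) (XT.lf (nat_lit 0) (nat_lit 11641027782) (nat_lit 380) (nat_lit 2744517538) (nat_lit 456) (nat_lit 18690875293) (nat_lit 104) (nat_lit 5) (nat_lit 109) (nat_lit 5) (nat_lit 110) (nat_lit 5) (nat_lit 350) (nat_lit 305) (nat_lit 125))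 (XT.nd (nat_lit 78) (nat_lit 304) (nat_lit 0) (XT.lf (nat_lit 0) (nat_lit 19889404931) (nat_lit 456) (nat_lit 4925602672) (nat_lit 76) (nat_lit 8891229412) (nat_lit 104) (nat_lit 5) (nat_lit 110) (nat_lit 5) (nat_lit 105) (nat_lit 5) (nat_lit 351) (nat_lit 305) (nat_lit 124)) (XT.lf (nat_lit 0) (nat_lit 12287460638) (nat_lit 304) (nat_lit 13412782422) (nat_lit 380) (nat_lit 8650451454) (nat_lit 100) (nat_lit 5) (nat_lit 104) (nat_lit 5) (nat_lit 105) (nat_lit 5) (nat_lit 352) (nat_lit 305) (nat_lit 123)))) (XT.nd (nat_lit 156) (nat_lit 304) (nat_lit 0) (XT.nd (nat_lit 78) (nat_lit 380) (nat_lit 0) (XT.lf (nat_lit 0) (nat_lit 30113311438) (nat_lit 304) (nat_lit 1618464323) (nat_lit 380) (nat_lit 3281321315) (nat_lit 100) (nat_lit 5) (nat_lit 104) (nat_lit 5) (nat_lit 105) (nat_lit 5) (nat_lit 353) (nat_lit 305) (nat_lit 122)) (XT.lf (nat_lit 0) (nat_lit 2429374873) (nat_lit 380) (nat_lit 22787494339)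 (nat_lit 76) (nat_lit 10471124974) (nat_lit 95) (nat_lit 5) (nat_lit 100) (nat_lit 5) (nat_lit 96) (nat_lit 5) (nat_lit 354) (nat_lit 305) (nat_lit 121))) (XT.nd (nat_lit 78) (nat_lit 304) (nat_lit 0) (XT.lf (nat_lit 0) (nat_lit 8308168812) (nat_lit 380) (nat_lit 5099974981) (nat_lit 76) (nat_lit 22972140133) (nat_lit 95) (nat_lit 5) (nat_lit 100) (nat_lit 5) (nat_lit 96) (nat_lit 5) (nat_lit 355) (nat_lit 305) (nat_lit 120)) (XT.lf (nat_lit 0) (nat_lit 13374738693) (nat_lit 304) (nat_lit 1113984788) (nat_lit 380) (nat_lit 22600859120) (nat_lit 91) (nat_lit 5) (nat_lit 95) (nat_lit 5) (nat_lit 96) (nat_lit 5) (nat_lit 356) (nat_lit 305) (nat_lit 119)))))) (XT.nd (nat_lit 546) (nat_lit 988) (nat_lit 0) (XT.nd (nat_lit 234) (nat_lit 608) (nat_lit 0) (XT.nd (nat_lit 78) (nat_lit 304) (nat_lit 0) (XT.lf (nat_lit 0) (nat_lit 21014589358) (nat_lit 380) (nat_lit 5426363730) (nat_lit 76) (nat_lit 11374412395)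 (nat_lit 91) (nat_lit 5) (nat_lit 96) (nat_lit 5) (nat_lit 92) (nat_lit 5) (nat_lit 357) (nat_lit 305) (nat_lit 118)) (XT.nd (nat_lit 78) (nat_lit 0) (nat_lit 0) (XT.lf (nat_lit 0) (nat_lit 13662005347) (nat_lit 304) (nat_lit 14213543046) (nat_lit 380) (nat_lit 10683195969) (nat_lit 87) (nat_lit 5) (nat_lit 91) (nat_lit 5) (nat_lit 92) (nat_lit 5) (nat_lit 358) (nat_lit 305) (nat_lit 117)) (XT.lf (nat_lit 0) (nat_lit 33429972208) (nat_lit 304) (nat_lit 1564167019) (nat_lit 380) (nat_lit 4328733255) (nat_lit 87) (nat_lit 5) (nat_lit 91) (nat_lit 5) (nat_lit 92) (nat_lit 5) (nat_lit 359) (nat_lit 305) (nat_lit 116)))) (XT.nd (nat_lit 156) (nat_lit 304) (nat_lit 0) (XT.nd (nat_lit 78) (nat_lit 0) (nat_lit 0) (XT.lf (nat_lit 0) (nat_lit 2415785423) (nat_lit 304) (nat_lit 26289792101) (nat_lit 76) (nat_lit 11396429485) (nat_lit 83) (nat_lit 5) (nat_lit 87) (nat_lit 5) (nat_lit 84) (nat_lit 5) (nat_lit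 360) (nat_lit 305) (nat_lit 115)) (XT.lf (nat_lit 0) (nat_lit 9348315942) (nat_lit 304) (nat_lit 6736641370) (nat_lit 76) (nat_lit 24816093909) (nat_lit 83) (nat_lit 5) (nat_lit 87) (nat_lit 5) (nat_lit 84) (nat_lit 5) (nat_lit 361) (nat_lit 305) (nat_lit 114))) (XT.nd (nat_lit 78) (nat_lit 0) (nat_lit 0) (XT.lf (nat_lit 0) (nat_lit 13665635177) (nat_lit 304) (nat_lit 2951731021) (nat_lit 380) (nat_lit 25102845995) (nat_lit 79) (nat_lit 5) (nat_lit 83) (nat_lit 5) (nat_lit 84) (nat_lit 5) (nat_lit 362) (nat_lit 305) (nat_lit 113)) (XT.lf (nat_lit 0) (nat_lit 24272057912) (nat_lit 380) (nat_lit 7850330494) (nat_lit 76) (nat_lit 10436534186) (nat_lit 79) (nat_lit 5) (nat_lit 84) (nat_lit 5) (nat_lit 80) (nat_lit 5) (nat_lit 363) (nat_lit 305) (nat_lit 112))))) (XT.nd (nat_lit 234) (nat_lit 456) (nat_lit 0) (XT.nd (nat_lit 78) (nat_lit 304) (nat_lit 0) (XT.lf (nat_lit 0) (nat_lit 13184041612) (nat_lit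 228) (nat_lit 19125599565) (nat_lit 304) (nat_lit 11108557247) (nat_lit 76) (nat_lit 5) (nat_lit 79) (nat_lit 5) (nat_lit 80) (nat_lit 5) (nat_lit 364) (nat_lit 305) (nat_lit 111)) (XT.nd (nat_lit 78) (nat_lit 304) (nat_lit 0) (XT.lf (nat_lit 0) (nat_lit 35006363726) (nat_lit 228) (nat_lit 5658594182) (nat_lit 304) (nat_lit 3635998044) (nat_lit 76) (nat_lit 5) (nat_lit 79) (nat_lit 5) (nat_lit 80) (nat_lit 5) (nat_lit 365) (nat_lit 305) (nat_lit 110)) (XT.lf (nat_lit 0) (nat_lit 4179289326) (nat_lit 304) (nat_lit 32812424321) (nat_lit 76) (nat_lit 8211379305) (nat_lit 72) (nat_lit 5) (nat_lit 76) (nat_lit 5) (nat_lit 73) (nat_lit 5) (nat_lit 366) (nat_lit 305) (nat_lit 109)))) (XT.nd (nat_lit 156) (nat_lit 228) (nat_lit 0) (XT.nd (nat_lit 78) (nat_lit 228) (nat_lit 0) (XT.lf (nat_lit 0) (nat_lit 12304176961) (nat_lit 304) (nat_lit 11309385509) (nat_lit 76) (nat_lit 22513206408) (nat_lit 72) (nat_lit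 5) (nat_lit 76) (nat_lit 5) (nat_lit 73) (nat_lit 5) (nat_lit 367) (nat_lit 305) (nat_lit 108)) (XT.lf (nat_lit 0) (nat_lit 11050526090) (nat_lit 228) (nat_lit 9725994487) (nat_lit 304) (nat_lit 26298524645) (nat_lit 69) (nat_lit 5) (nat_lit 72) (nat_lit 5) (nat_lit 73) (nat_lit 5) (nat_lit 368) (nat_lit 305) (nat_lit 107))) (XT.nd (nat_lit 78) (nat_lit 228) (nat_lit 0) (XT.lf (nat_lit 0) (nat_lit 29659884951) (nat_lit 304) (nat_lit 13784295642) (nat_lit 76) (nat_lit 4602885128) (nat_lit 69) (nat_lit 5) (nat_lit 73) (nat_lit 5) (nat_lit 70) (nat_lit 5) (nat_lit 369) (nat_lit 305) (nat_lit 106)) (XT.lf (nat_lit 0) (nat_lit 9202648341) (nat_lit 228) (nat_lit 29789441587) (nat_lit 304) (nat_lit 10050688056) (nat_lit 66) (nat_lit 5) (nat_lit 69) (nat_lit 5) (nat_lit 70) (nat_lit 5) (nat_lit 370) (nat_lit 305) (nat_lit 105))))))) (XT.nd (nat_lit 1092) (nat_lit 1064) (nat_lit 0) (XT.nd (nat_lit 546) (nat_lit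 684) (nat_lit 0) (XT.nd (nat_lit 234) (nat_lit 456) (nat_lit 0) (XT.nd (nat_lit 78) (nat_lit 304) (nat_lit 0) (XT.lf (nat_lit 0) (nat_lit 33158036060) (nat_lit 228) (nat_lit 15583035167) (nat_lit 304) (nat_lit 1323187382) (nat_lit 66) (nat_lit 5) (nat_lit 69) (nat_lit 5) (nat_lit 70) (nat_lit 5) (nat_lit 371) (nat_lit 305) (nat_lit 104)) (XT.nd (nat_lit 78) (nat_lit 0) (nat_lit 0) (XT.lf (nat_lit 0) (nat_lit 6770457875) (nat_lit 228) (nat_lit 808829349) (nat_lit 304) (nat_lit 43533004619) (nat_lit 62) (nat_lit 5) (nat_lit 65) (nat_lit 5) (nat_lit 66) (nat_lit 5) (nat_lit 372) (nat_lit 305) (nat_lit 103)) (XT.lf (nat_lit 0) (nat_lit 17030837167) (nat_lit 304) (nat_lit 20839630178) (nat_lit 76) (nat_lit 14311649018) (nat_lit 62) (nat_lit 5) (nat_lit 66) (nat_lit 5) (nat_lit 63) (nat_lit 5) (nat_lit 373) (nat_lit 305) (nat_lit 102)))) (XT.nd (nat_lit 156) (nat_lit 228) (nat_lit 0) (XT.nd (nat_lit 78)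 (nat_lit 0) (nat_lit 0) (XT.lf (nat_lit 0) (nat_lit 3422841011) (nat_lit 228) (nat_lit 23381752332) (nat_lit 304) (nat_lit 26478283638) (nat_lit 59) (nat_lit 5) (nat_lit 62) (nat_lit 5) (nat_lit 63) (nat_lit 5) (nat_lit 374) (nat_lit 305) (nat_lit 101)) (XT.lf (nat_lit 0) (nat_lit 28836830988) (nat_lit 228) (nat_lit 8242951165) (nat_lit 304) (nat_lit 17330632787) (nat_lit 59) (nat_lit 5) (nat_lit 62) (nat_lit 5) (nat_lit 63) (nat_lit 5) (nat_lit 375) (nat_lit 305) (nat_lit 100))) (XT.nd (nat_lit 78) (nat_lit 228) (nat_lit 0) (XT.lf (nat_lit 0) (nat_lit 47731712257) (nat_lit 304) (nat_lit 632688562) (nat_lit 76) (nat_lit 7205324738) (nat_lit 59) (nat_lit 5) (nat_lit 63) (nat_lit 5) (nat_lit 60) (nat_lit 5) (nat_lit 376) (nat_lit 305) (nat_lit 99)) (XT.lf (nat_lit 0) (nat_lit 2229077697) (nat_lit 228) (nat_lit 31307535302) (nat_lit 76) (nat_lit 23216818124) (nat_lit 56) (nat_lit 5) (nat_lit 59) (nat_lit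 5) (nat_lit 57) (nat_lit 5) (nat_lit 377) (nat_lit 305) (nat_lit 98))))) (XT.nd (nat_lit 234) (nat_lit 456) (nat_lit 0) (XT.nd (nat_lit 78) (nat_lit 228) (nat_lit 0) (XT.lf (nat_lit 0) (nat_lit 12445000623) (nat_lit 228) (nat_lit 5733721231) (nat_lit 76) (nat_lit 39791468212) (nat_lit 56) (nat_lit 5) (nat_lit 59) (nat_lit 5) (nat_lit 57) (nat_lit 5) (nat_lit 378) (nat_lit 305) (nat_lit 97)) (XT.nd (nat_lit 78) (nat_lit 0) (nat_lit 0) (XT.lf (nat_lit 0) (nat_lit 21014061537) (nat_lit 228) (nat_lit 2153304112) (nat_lit 304) (nat_lit 36050088160) (nat_lit 53) (nat_lit 5) (nat_lit 56) (nat_lit 5) (nat_lit 57) (nat_lit 5) (nat_lit 379) (nat_lit 305) (nat_lit 96)) (XT.lf (nat_lit 0) (nat_lit 34405822916) (nat_lit 304) (nat_lit 11960449272) (nat_lit 76) (nat_lit 14130031579) (nat_lit 53) (nat_lit 5) (nat_lit 57) (nat_lit 5) (nat_lit 54) (nat_lit 5) (nat_lit 380) (nat_lit 305) (nat_lit 95)))) (XT.nd (nat_lit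 156) (nat_lit 304) (nat_lit 0) (XT.nd (nat_lit 78) (nat_lit 0) (nat_lit 0) (XT.lf (nat_lit 0) (nat_lit 15344666300) (nat_lit 152) (nat_lit 30803628653) (nat_lit 228) (nat_lit 15660219350) (nat_lit 51) (nat_lit 5) (nat_lit 53) (nat_lit 5) (nat_lit 54) (nat_lit 5) (nat_lit 381) (nat_lit 305) (nat_lit 94)) (XT.lf (nat_lit 0) (nat_lit 43710918863) (nat_lit 152) (nat_lit 14650964684) (nat_lit 228) (nat_lit 4794643222) (nat_lit 51) (nat_lit 5) (nat_lit 53) (nat_lit 5) (nat_lit 54) (nat_lit 5) (nat_lit 382) (nat_lit 305) (nat_lit 93))) (XT.nd (nat_lit 78) (nat_lit 0) (nat_lit 0) (XT.lf (nat_lit 0) (nat_lit 6372227932) (nat_lit 304) (nat_lit 56077139326) (nat_lit 76) (nat_lit 2090763827) (nat_lit 47) (nat_lit 5) (nat_lit 51) (nat_lit 5) (nat_lit 48) (nat_lit 5) (nat_lit 383) (nat_lit 305) (nat_lit 92)) (XT.lf (nat_lit 0) (nat_lit 18119219116) (nat_lit 304) (nat_lit 28549516152) (nat_lit 76) (nat_lit 19284840477)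 (nat_lit 47) (nat_lit 5) (nat_lit 51) (nat_lit 5) (nat_lit 48) (nat_lit 5) (nat_lit 384) (nat_lit 305) (nat_lit 91)))))) (XT.nd (nat_lit 546) (nat_lit 532) (nat_lit 0) (XT.nd (nat_lit 234) (nat_lit 380) (nat_lit 0) (XT.nd (nat_lit 78) (nat_lit 152) (nat_lit 0) (XT.lf (nat_lit 0) (nat_lit 30216790645) (nat_lit 304) (nat_lit 199126276) (nat_lit 76) (nat_lit 36993562493) (nat_lit 47) (nat_lit 5) (nat_lit 51) (nat_lit 5) (nat_lit 48) (nat_lit 5) (nat_lit 385) (nat_lit 305) (nat_lit 90)) (XT.nd (nat_lit 78) (nat_lit 0) (nat_lit 0) (XT.lf (nat_lit 0) (nat_lit 29575935514) (nat_lit 152) (nat_lit 13383879680) (nat_lit 228) (nat_lit 25940769985) (nat_lit 45) (nat_lit 5) (nat_lit 47) (nat_lit 5) (nat_lit 48) (nat_lit 5) (nat_lit 386) (nat_lit 305) (nat_lit 89)) (XT.lf (nat_lit 0) (nat_lit 56125377048) (nat_lit 228) (nat_lit 10231018181) (nat_lit 76) (nat_lit 4078822234) (nat_lit 45) (nat_lit 5) (nat_lit 48)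 (nat_lit 5) (nat_lit 46) (nat_lit 5) (nat_lit 387) (nat_lit 305) (nat_lit 88)))) (XT.nd (nat_lit 156) (nat_lit 152) (nat_lit 0) (XT.nd (nat_lit 78) (nat_lit 76) (nat_lit 0) (XT.lf (nat_lit 0) (nat_lit 19990088638) (nat_lit 152) (nat_lit 50018774998) (nat_lit 228) (nat_lit 1997337061) (nat_lit 43) (nat_lit 5) (nat_lit 45) (nat_lit 5) (nat_lit 46) (nat_lit 5) (nat_lit 388) (nat_lit 305) (nat_lit 87)) (XT.lf (nat_lit 0) (nat_lit 10578675766) (nat_lit 228) (nat_lit 22400293611) (nat_lit 76) (nat_lit 40639184692) (nat_lit 42) (nat_lit 5) (nat_lit 45) (nat_lit 5) (nat_lit 43) (nat_lit 5) (nat_lit 389) (nat_lit 305) (nat_lit 86))) (XT.nd (nat_lit 78) (nat_lit 0) (nat_lit 0) (XT.lf (nat_lit 0) (nat_lit 8242239329) (nat_lit 152) (nat_lit 15327156477) (nat_lit 228) (nat_lit 51706150487) (nat_lit 40) (nat_lit 5) (nat_lit 42) (nat_lit 5) (nat_lit 43) (nat_lit 5) (nat_lit 390) (nat_lit 305) (nat_lit 85)) (XT.lf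 (nat_lit 0) (nat_lit 37204064723) (nat_lit 228) (nat_lit 36745149214) (nat_lit 76) (nat_lit 3025820167) (nat_lit 40) (nat_lit 5) (nat_lit 43) (nat_lit 5) (nat_lit 41) (nat_lit 5) (nat_lit 391) (nat_lit 305) (nat_lit 84))))) (XT.nd (nat_lit 312) (nat_lit 152) (nat_lit 0) (XT.nd (nat_lit 156) (nat_lit 228) (nat_lit 0) (XT.nd (nat_lit 78) (nat_lit 152) (nat_lit 0) (XT.lf (nat_lit 0) (nat_lit 51397927942) (nat_lit 228) (nat_lit 5702849496) (nat_lit 76) (nat_lit 21620225104) (nat_lit 40) (nat_lit 5) (nat_lit 43) (nat_lit 5) (nat_lit 41) (nat_lit 5) (nat_lit 392) (nat_lit 305) (nat_lit 83)) (XT.lf (nat_lit 0) (nat_lit 26790836242) (nat_lit 152) (nat_lit 39482747529) (nat_lit 228) (nat_lit 14238087565) (nat_lit 38) (nat_lit 5) (nat_lit 40) (nat_lit 5) (nat_lit 41) (nat_lit 5) (nat_lit 393) (nat_lit 305) (nat_lit 82))) (XT.nd (nat_lit 78) (nat_lit 228) (nat_lit 0) (XT.lf (nat_lit 0) (nat_lit 60373592861)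 (nat_lit 152) (nat_lit 21277970657) (nat_lit 228) (nat_lit 702815634) (nat_lit 38) (nat_lit 5) (nat_lit 40) (nat_lit 5) (nat_lit 41) (nat_lit 5) (nat_lit 394) (nat_lit 305) (nat_lit 81)) (XT.lf (nat_lit 0) (nat_lit 10792206053) (nat_lit 152) (nat_lit 2290214596) (nat_lit 228) (nat_lit 71163063285) (nat_lit 35) (nat_lit 5) (nat_lit 37) (nat_lit 5) (nat_lit 38) (nat_lit 5) (nat_lit 395) (nat_lit 305) (nat_lit 80)))) (XT.nd (nat_lit 156) (nat_lit 152) (nat_lit 0) (XT.nd (nat_lit 78) (nat_lit 0) (nat_lit 0) (XT.lf (nat_lit 0) (nat_lit 27655735925) (nat_lit 228) (nat_lit 41365434330) (nat_lit 76) (nat_lit 17160283948) (nat_lit 35) (nat_lit 5) (nat_lit 38) (nat_lit 5) (nat_lit 36) (nat_lit 5) (nat_lit 396) (nat_lit 305) (nat_lit 79)) (XT.lf (nat_lit 0) (nat_lit 42687474273) (nat_lit 228) (nat_lit 8340160212) (nat_lit 76) (nat_lit 37147232908) (nat_lit 35) (nat_lit 5) (nat_lit 38) (nat_lit 5) (nat_lit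 36) (nat_lit 5) (nat_lit 397) (nat_lit 305) (nat_lit 78))) (XT.nd (nat_lit 78) (nat_lit 0) (nat_lit 0) (XT.lf (nat_lit 0) (nat_lit 26184367778) (nat_lit 152) (nat_lit 32236087659) (nat_lit 228) (nat_lit 31800119325) (nat_lit 33) (nat_lit 5) (nat_lit 35) (nat_lit 5) (nat_lit 36) (nat_lit 5) (nat_lit 398) (nat_lit 305) (nat_lit 77)) (XT.lf (nat_lit 0) (nat_lit 61913165113) (nat_lit 152) (nat_lit 12795088374) (nat_lit 228) (nat_lit 17616915533) (nat_lit 33) (nat_lit 5) (nat_lit 35) (nat_lit 5) (nat_lit 36) (nat_lit 5) (nat_lit 399) (nat_lit 305) (nat_lit 76))))))))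
noncomputable def xc204 : XT := (XT.nd (nat_lit 35334) (nat_lit 0) (nat_lit 4256) (XT.nd (nat_lit 34242) (nat_lit 0) (nat_lit 10108) (XT.nd (nat_lit 33696) (nat_lit 0) (nat_lit 13376) (XT.nd (nat_lit 33384) (nat_lit 0) (nat_lit 13224) (XT.nd (nat_lit 78) (nat_lit 76) (nat_lit 0) (XT.lf (nat_lit 0) (nat_lit 4231616324) (nat_lit 76) (nat_lit 87361875982) (nat_lit 152) (nat_lit 2896145069) (nat_lit 32) (nat_lit 5) (nat_lit 33) (nat_lit 5) (nat_lit 34) (nat_lit 4) (nat_lit 400) (nat_lit 305) (nat_lit 75)) (XT.nd (nat_lit 33228) (nat_lit 0) (nat_lit 13224) (XT.lf (nat_lit 0) (nat_lit 12462358209) (nat_lit 152) (nat_lit 56421896755) (nat_lit 76) (nat_lit 27818183893) (nat_lit 31) (nat_lit 5) (nat_lit 33) (nat_lit 5) (nat_lit 32) (nat_lit 5) (nat_lit 401) (nat_lit 305) (nat_lit 74)) (XT.lf (nat_lit 0) (nat_lit 1386517301) (nat_lit 0) (nat_lit 1386517301) (nat_lit 1140) (nat_lit 5270169119) (nat_lit 205)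 (nat_lit 5) (nat_lit 205) (nat_lit 3) (nat_lit 220) (nat_lit 3) (nat_lit 306) (nat_lit 306) (nat_lit 168)))) (XT.nd (nat_lit 156) (nat_lit 0) (nat_lit 76) (XT.nd (nat_lit 78) (nat_lit 0) (nat_lit 0) (XT.lf (nat_lit 0) (nat_lit 5920150843) (nat_lit 1140) (nat_lit 5970809277) (nat_lit 1216) (nat_lit 4427760698) (nat_lit 205) (nat_lit 5) (nat_lit 220) (nat_lit 3) (nat_lit 221) (nat_lit 5) (nat_lit 307) (nat_lit 306) (nat_lit 167)) (XT.lf (nat_lit 76) (nat_lit 1590435106) (nat_lit 0) (nat_lit 4748151771) (nat_lit 1216) (nat_lit 10218432750) (nat_lit 206) (nat_lit 5) (nat_lit 205) (nat_lit 5) (nat_lit 221) (nat_lit 5) (nat_lit 308) (nat_lit 306) (nat_lit 166))) (XT.nd (nat_lit 78) (nat_lit 0) (nat_lit 0) (XT.lf (nat_lit 0) (nat_lit 6846204702) (nat_lit 1140) (nat_lit 7330878478) (nat_lit 1216) (nat_lit 2623095059) (nat_lit 206) (nat_lit 5) (nat_lit 221) (nat_lit 5) (nat_lit 222) (nat_lit 5) (nat_lit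 309) (nat_lit 306) (nat_lit 165)) (XT.lf (nat_lit 76) (nat_lit 491174115) (nat_lit 0) (nat_lit 6920541411) (nat_lit 1216) (nat_lit 9637645568) (nat_lit 207) (nat_lit 5) (nat_lit 206) (nat_lit 5) (nat_lit 222) (nat_lit 5) (nat_lit 310) (nat_lit 306) (nat_lit 164))))) (XT.nd (nat_lit 234) (nat_lit 0) (nat_lit 76) (XT.nd (nat_lit 78) (nat_lit 0) (nat_lit 0) (XT.lf (nat_lit 0) (nat_lit 8065454578) (nat_lit 1140) (nat_lit 8617245260) (nat_lit 1216) (nat_lit 621190855) (nat_lit 207) (nat_lit 5) (nat_lit 222) (nat_lit 5) (nat_lit 223) (nat_lit 5) (nat_lit 311) (nat_lit 306) (nat_lit 163)) (XT.nd (nat_lit 78) (nat_lit 0) (nat_lit 0) (XT.lf (nat_lit 0) (nat_lit 8798762893) (nat_lit 1140) (nat_lit 511989033) (nat_lit 1216) (nat_lit 8253514416) (nat_lit 207) (nat_lit 5) (nat_lit 222) (nat_lit 5) (nat_lit 223) (nat_lit 5) (nat_lit 312) (nat_lit 306) (nat_lit 162)) (XT.lf (nat_lit 76) (nat_lit 7987044443) (nat_lit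 0) (nat_lit 1635488664) (nat_lit 1216) (nat_lit 8207874895) (nat_lit 208) (nat_lit 5) (nat_lit 207) (nat_lit 5) (nat_lit 223) (nat_lit 5) (nat_lit 313) (nat_lit 306) (nat_lit 161)))) (XT.nd (nat_lit 156) (nat_lit 0) (nat_lit 76) (XT.nd (nat_lit 78) (nat_lit 0) (nat_lit 0) (XT.lf (nat_lit 0) (nat_lit 10528415913) (nat_lit 1140) (nat_lit 1418622527) (nat_lit 1216) (nat_lit 6155781855) (nat_lit 208) (nat_lit 5) (nat_lit 223) (nat_lit 5) (nat_lit 224) (nat_lit 5) (nat_lit 314) (nat_lit 306) (nat_lit 160)) (XT.lf (nat_lit 76) (nat_lit 7381399312) (nat_lit 0) (nat_lit 4159365918) (nat_lit 1216) (nat_lit 6840269149) (nat_lit 209) (nat_lit 5) (nat_lit 208) (nat_lit 5) (nat_lit 224) (nat_lit 5) (nat_lit 315) (nat_lit 306) (nat_lit 159))) (XT.nd (nat_lit 78) (nat_lit 0) (nat_lit 0) (XT.lf (nat_lit 0) (nat_lit 12627419676) (nat_lit 1140) (nat_lit 2235443787) (nat_lit 1216) (nat_lit 3803421272) (nat_lit 209)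 (nat_lit 5) (nat_lit 224) (nat_lit 5) (nat_lit 225) (nat_lit 5) (nat_lit 316) (nat_lit 306) (nat_lit 158)) (XT.lf (nat_lit 76) (nat_lit 6879377777) (nat_lit 0) (nat_lit 6967173798) (nat_lit 1216) (nat_lit 5110552349) (nat_lit 210) (nat_lit 5) (nat_lit 209) (nat_lit 5) (nat_lit 225) (nat_lit 5) (nat_lit 317) (nat_lit 306) (nat_lit 157)))))) (XT.nd (nat_lit 546) (nat_lit 2356) (nat_lit 0) (XT.nd (nat_lit 234) (nat_lit 1140) (nat_lit 0) (XT.nd (nat_lit 78) (nat_lit 0) (nat_lit 0) (XT.lf (nat_lit 0) (nat_lit 15129008536) (nat_lit 1140) (nat_lit 2959474887) (nat_lit 1216) (nat_lit 1167369167) (nat_lit 210) (nat_lit 5) (nat_lit 225) (nat_lit 5) (nat_lit 226) (nat_lit 5) (nat_lit 318) (nat_lit 306) (nat_lit 156)) (XT.nd (nat_lit 78) (nat_lit 0) (nat_lit 0) (XT.lf (nat_lit 76) (nat_lit 6484492464) (nat_lit 0) (nat_lit 10089724285) (nat_lit 1216) (nat_lit 2985625860) (nat_lit 211) (nat_lit 5) (nat_lit 210)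 (nat_lit 5) (nat_lit 226) (nat_lit 5) (nat_lit 319) (nat_lit 306) (nat_lit 155)) (XT.lf (nat_lit 76) (nat_lit 16267112636) (nat_lit 0) (nat_lit 1818669890) (nat_lit 1216) (nat_lit 1786486770) (nat_lit 211) (nat_lit 5) (nat_lit 210) (nat_lit 5) (nat_lit 226) (nat_lit 5) (nat_lit 320) (nat_lit 306) (nat_lit 154)))) (XT.nd (nat_lit 156) (nat_lit 0) (nat_lit 76) (XT.nd (nat_lit 78) (nat_lit 1216) (nat_lit 0) (XT.lf (nat_lit 76) (nat_lit 6200324848) (nat_lit 0) (nat_lit 13559712597) (nat_lit 1216) (nat_lit 430517878) (nat_lit 212) (nat_lit 5) (nat_lit 211) (nat_lit 5) (nat_lit 227) (nat_lit 5) (nat_lit 321) (nat_lit 306) (nat_lit 153)) (XT.lf (nat_lit 0) (nat_lit 995452641) (nat_lit 1216) (nat_lit 4176562673) (nat_lit 1292) (nat_lit 15344657162) (nat_lit 195) (nat_lit 5) (nat_lit 211) (nat_lit 5) (nat_lit 212) (nat_lit 5) (nat_lit 322) (nat_lit 306) (nat_lit 152))) (XT.nd (nat_lit 78) (nat_lit 0) (nat_lit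 0) (XT.lf (nat_lit 0) (nat_lit 2541160060) (nat_lit 1216) (nat_lit 14845072690) (nat_lit 76) (nat_lit 3463650420) (nat_lit 196) (nat_lit 5) (nat_lit 212) (nat_lit 5) (nat_lit 197) (nat_lit 5) (nat_lit 323) (nat_lit 306) (nat_lit 151)) (XT.lf (nat_lit 0) (nat_lit 4220780184) (nat_lit 1216) (nat_lit 4671685848) (nat_lit 76) (nat_lit 12298003954) (nat_lit 196) (nat_lit 5) (nat_lit 212) (nat_lit 5) (nat_lit 197) (nat_lit 5) (nat_lit 324) (nat_lit 306) (nat_lit 150))))) (XT.nd (nat_lit 234) (nat_lit 1064) (nat_lit 0) (XT.nd (nat_lit 78) (nat_lit 608) (nat_lit 0) (XT.lf (nat_lit 0) (nat_lit 5917049490) (nat_lit 760) (nat_lit 84540770) (nat_lit 836) (nat_lit 15538165975) (nat_lit 186) (nat_lit 5) (nat_lit 196) (nat_lit 5) (nat_lit 197) (nat_lit 5) (nat_lit 325) (nat_lit 306) (nat_lit 149)) (XT.nd (nat_lit 78) (nat_lit 608) (nat_lit 0) (XT.lf (nat_lit 0) (nat_lit 7963917153) (nat_lit 836) (nat_lit 5071210312)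 (nat_lit 76) (nat_lit 8860556529) (nat_lit 186) (nat_lit 5) (nat_lit 197) (nat_lit 5) (nat_lit 187) (nat_lit 5) (nat_lit 326) (nat_lit 306) (nat_lit 148)) (XT.lf (nat_lit 0) (nat_lit 5905944347) (nat_lit 608) (nat_lit 4131007265) (nat_lit 684) (nat_lit 12223788373) (nat_lit 178) (nat_lit 5) (nat_lit 186) (nat_lit 5) (nat_lit 187) (nat_lit 5) (nat_lit 327) (nat_lit 306) (nat_lit 147)))) (XT.nd (nat_lit 156) (nat_lit 532) (nat_lit 0) (XT.nd (nat_lit 78) (nat_lit 532) (nat_lit 0) (XT.lf (nat_lit 0) (nat_lit 12266694026) (nat_lit 684) (nat_lit 5373222608) (nat_lit 76) (nat_lit 4994000886) (nat_lit 178) (nat_lit 5) (nat_lit 187) (nat_lit 5) (nat_lit 179) (nat_lit 5) (nat_lit 328) (nat_lit 306) (nat_lit 146)) (XT.lf (nat_lit 0) (nat_lit 6008886665) (nat_lit 532) (nat_lit 8647619523) (nat_lit 608) (nat_lit 8358994082) (nat_lit 171) (nat_lit 5) (nat_lit 178) (nat_lit 5) (nat_lit 179) (nat_lit 5) (nat_lit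 329) (nat_lit 306) (nat_lit 145))) (XT.nd (nat_lit 78) (nat_lit 532) (nat_lit 0) (XT.lf (nat_lit 0) (nat_lit 17173341891) (nat_lit 608) (nat_lit 5576122535) (nat_lit 76) (nat_lit 657411264) (nat_lit 171) (nat_lit 5) (nat_lit 179) (nat_lit 5) (nat_lit 172) (nat_lit 5) (nat_lit 330) (nat_lit 306) (nat_lit 144)) (XT.lf (nat_lit 0) (nat_lit 6227968950) (nat_lit 532) (nat_lit 13677983777) (nat_lit 608) (nat_lit 3899836460) (nat_lit 164) (nat_lit 5) (nat_lit 171) (nat_lit 5) (nat_lit 172) (nat_lit 5) (nat_lit 331) (nat_lit 306) (nat_lit 143))))))) (XT.nd (nat_lit 1092) (nat_lit 2508) (nat_lit 0) (XT.nd (nat_lit 546) (nat_lit 1748) (nat_lit 0) (XT.nd (nat_lit 234) (nat_lit 988) (nat_lit 0) (XT.nd (nat_lit 78) (nat_lit 608) (nat_lit 0) (XT.lf (nat_lit 0) (nat_lit 18495315018) (nat_lit 532) (nat_lit 4276420016) (nat_lit 608) (nat_lit 1443404032) (nat_lit 164) (nat_lit 5) (nat_lit 171) (nat_lit 5) (nat_lit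 172) (nat_lit 5) (nat_lit 332) (nat_lit 306) (nat_lit 142)) (XT.nd (nat_lit 78) (nat_lit 0) (nat_lit 0) (XT.lf (nat_lit 0) (nat_lit 1176717615) (nat_lit 608) (nat_lit 18080143695) (nat_lit 76) (nat_lit 5376263180) (nat_lit 156) (nat_lit 5) (nat_lit 164) (nat_lit 5) (nat_lit 157) (nat_lit 5) (nat_lit 333) (nat_lit 306) (nat_lit 141)) (XT.lf (nat_lit 0) (nat_lit 3942180012) (nat_lit 608) (nat_lit 5813127135) (nat_lit 76) (nat_lit 15305045520) (nat_lit 156) (nat_lit 5) (nat_lit 164) (nat_lit 5) (nat_lit 157) (nat_lit 5) (nat_lit 334) (nat_lit 306) (nat_lit 140)))) (XT.nd (nat_lit 156) (nat_lit 456) (nat_lit 0) (XT.nd (nat_lit 78) (nat_lit 0) (nat_lit 0) (XT.lf (nat_lit 0) (nat_lit 6853617401) (nat_lit 608) (nat_lit 18547006923) (nat_lit 76) (nat_lit 97887272) (nat_lit 149) (nat_lit 5) (nat_lit 157) (nat_lit 5) (nat_lit 150) (nat_lit 5) (nat_lit 335) (nat_lit 306) (nat_lit 139)) (XT.lf (nat_lit 0) (nat_lit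 10003575017) (nat_lit 608) (nat_lit 5832150581) (nat_lit 76) (nat_lit 10109558499) (nat_lit 149) (nat_lit 5) (nat_lit 157) (nat_lit 5) (nat_lit 150) (nat_lit 5) (nat_lit 336) (nat_lit 306) (nat_lit 138))) (XT.nd (nat_lit 78) (nat_lit 0) (nat_lit 0) (XT.lf (nat_lit 0) (nat_lit 7403606193) (nat_lit 456) (nat_lit 5911037351) (nat_lit 532) (nat_lit 13088821858) (nat_lit 143) (nat_lit 5) (nat_lit 149) (nat_lit 5) (nat_lit 150) (nat_lit 5) (nat_lit 337) (nat_lit 306) (nat_lit 137)) (XT.lf (nat_lit 0) (nat_lit 16821488618) (nat_lit 532) (nat_lit 5764763482) (nat_lit 76) (nat_lit 4286250593) (nat_lit 143) (nat_lit 5) (nat_lit 150) (nat_lit 5) (nat_lit 144) (nat_lit 5) (nat_lit 338) (nat_lit 306) (nat_lit 136))))) (XT.nd (nat_lit 234) (nat_lit 836) (nat_lit 0) (XT.nd (nat_lit 78) (nat_lit 456) (nat_lit 0) (XT.lf (nat_lit 0) (nat_lit 7959221287) (nat_lit 456) (nat_lit 12605006511) (nat_lit 532) (nat_lit 6787466410)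 (nat_lit 137) (nat_lit 5) (nat_lit 143) (nat_lit 5) (nat_lit 144) (nat_lit 5) (nat_lit 339) (nat_lit 306) (nat_lit 135)) (XT.nd (nat_lit 78) (nat_lit 456) (nat_lit 0) (XT.lf (nat_lit 0) (nat_lit 22208194361) (nat_lit 456) (nat_lit 2265001754) (nat_lit 532) (nat_lit 3370450600) (nat_lit 137) (nat_lit 5) (nat_lit 143) (nat_lit 5) (nat_lit 144) (nat_lit 5) (nat_lit 340) (nat_lit 306) (nat_lit 134)) (XT.lf (nat_lit 0) (nat_lit 307027762) (nat_lit 456) (nat_lit 19731652406) (nat_lit 76) (nat_lit 8306812255) (nat_lit 131) (nat_lit 5) (nat_lit 137) (nat_lit 5) (nat_lit 132) (nat_lit 5) (nat_lit 341) (nat_lit 306) (nat_lit 133)))) (XT.nd (nat_lit 156) (nat_lit 380) (nat_lit 0) (XT.nd (nat_lit 78) (nat_lit 456) (nat_lit 0) (XT.lf (nat_lit 0) (nat_lit 4102867048) (nat_lit 456) (nat_lit 5515833568) (nat_lit 76) (nat_lit 19240421731) (nat_lit 131) (nat_lit 5) (nat_lit 137) (nat_lit 5) (nat_lit 132) (nat_lit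 5) (nat_lit 342) (nat_lit 306) (nat_lit 132)) (XT.lf (nat_lit 0) (nat_lit 8109597985) (nat_lit 532) (nat_lit 20093963874) (nat_lit 76) (nat_lit 1181692064) (nat_lit 125) (nat_lit 5) (nat_lit 132) (nat_lit 5) (nat_lit 126) (nat_lit 5) (nat_lit 343) (nat_lit 306) (nat_lit 131))) (XT.nd (nat_lit 78) (nat_lit 380) (nat_lit 0) (XT.lf (nat_lit 0) (nat_lit 12384082307) (nat_lit 532) (nat_lit 5370430838) (nat_lit 76) (nat_lit 12168232913) (nat_lit 125) (nat_lit 5) (nat_lit 132) (nat_lit 5) (nat_lit 126) (nat_lit 5) (nat_lit 344) (nat_lit 306) (nat_lit 130)) (XT.lf (nat_lit 0) (nat_lit 9984948770) (nat_lit 380) (nat_lit 6894014619) (nat_lit 456) (nat_lit 13594637765) (nat_lit 120) (nat_lit 5) (nat_lit 125) (nat_lit 5) (nat_lit 126) (nat_lit 5) (nat_lit 345) (nat_lit 306) (nat_lit 129)))))) (XT.nd (nat_lit 546) (nat_lit 1292) (nat_lit 0) (XT.nd (nat_lit 234) (nat_lit 836) (nat_lit 0) (XT.nd (nat_lit 78) (nat_lit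 380) (nat_lit 0) (XT.lf (nat_lit 0) (nat_lit 21600957468) (nat_lit 456) (nat_lit 5174836297) (nat_lit 76) (nat_lit 4262423115) (nat_lit 120) (nat_lit 5) (nat_lit 126) (nat_lit 5) (nat_lit 121) (nat_lit 5) (nat_lit 346) (nat_lit 306) (nat_lit 128)) (XT.nd (nat_lit 78) (nat_lit 0) (nat_lit 0) (XT.lf (nat_lit 0) (nat_lit 10734991247) (nat_lit 380) (nat_lit 15897417150) (nat_lit 456) (nat_lit 4982331655) (nat_lit 115) (nat_lit 5) (nat_lit 120) (nat_lit 5) (nat_lit 121) (nat_lit 5) (nat_lit 347) (nat_lit 306) (nat_lit 127)) (XT.lf (nat_lit 0) (nat_lit 27223614222) (nat_lit 380) (nat_lit 4639854843) (nat_lit 456) (nat_lit 343632673) (nat_lit 115) (nat_lit 5) (nat_lit 120) (nat_lit 5) (nat_lit 121) (nat_lit 5) (nat_lit 348) (nat_lit 306) (nat_lit 126)))) (XT.nd (nat_lit 156) (nat_lit 380) (nat_lit 0) (XT.nd (nat_lit 78) (nat_lit 0) (nat_lit 0) (XT.lf (nat_lit 0) (nat_lit 4523751931) (nat_lit 456) (nat_lit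 21312843528) (nat_lit 76) (nat_lit 6974081149) (nat_lit 109) (nat_lit 5) (nat_lit 115) (nat_lit 5) (nat_lit 110) (nat_lit 5) (nat_lit 349) (nat_lit 306) (nat_lit 125)) (XT.lf (nat_lit 0) (nat_lit 9623540008) (nat_lit 456) (nat_lit 4909509113) (nat_lit 76) (nat_lit 18896411442) (nat_lit 109) (nat_lit 5) (nat_lit 115) (nat_lit 5) (nat_lit 110) (nat_lit 5) (nat_lit 350) (nat_lit 306) (nat_lit 124))) (XT.nd (nat_lit 78) (nat_lit 0) (nat_lit 0) (XT.lf (nat_lit 0) (nat_lit 12219943273) (nat_lit 380) (nat_lit 2770472908) (nat_lit 456) (nat_lit 19072971513) (nat_lit 104) (nat_lit 5) (nat_lit 109) (nat_lit 5) (nat_lit 110) (nat_lit 5) (nat_lit 351) (nat_lit 306) (nat_lit 123)) (XT.lf (nat_lit 0) (nat_lit 20654870051) (nat_lit 456) (nat_lit 4845731689) (nat_lit 76) (nat_lit 9211636174) (nat_lit 104) (nat_lit 5) (nat_lit 110) (nat_lit 5) (nat_lit 105) (nat_lit 5) (nat_lit 352) (nat_lit 306) (nat_lit 122)))))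 (XT.nd (nat_lit 312) (nat_lit 608) (nat_lit 0) (XT.nd (nat_lit 156) (nat_lit 380) (nat_lit 0) (XT.nd (nat_lit 78) (nat_lit 0) (nat_lit 0) (XT.lf (nat_lit 0) (nat_lit 12881491764) (nat_lit 304) (nat_lit 13755792304) (nat_lit 380) (nat_lit 8738831123) (nat_lit 100) (nat_lit 5) (nat_lit 104) (nat_lit 5) (nat_lit 105) (nat_lit 5) (nat_lit 353) (nat_lit 306) (nat_lit 121)) (XT.lf (nat_lit 0) (nat_lit 31235552827) (nat_lit 304) (nat_lit 1609373989) (nat_lit 380) (nat_lit 3213611562) (nat_lit 100) (nat_lit 5) (nat_lit 104) (nat_lit 5) (nat_lit 105) (nat_lit 5) (nat_lit 354) (nat_lit 306) (nat_lit 120))) (XT.nd (nat_lit 78) (nat_lit 0) (nat_lit 0) (XT.lf (nat_lit 0) (nat_lit 2663107682) (nat_lit 380) (nat_lit 23246757950) (nat_lit 76) (nat_lit 10843833795) (nat_lit 95) (nat_lit 5) (nat_lit 100) (nat_lit 5) (nat_lit 96) (nat_lit 5) (nat_lit 355) (nat_lit 306) (nat_lit 119)) (XT.lf (nat_lit 0) (nat_lit 8713580442)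 (nat_lit 380) (nat_lit 5035147805) (nat_lit 76) (nat_lit 23718173339) (nat_lit 95) (nat_lit 5) (nat_lit 100) (nat_lit 5) (nat_lit 96) (nat_lit 5) (nat_lit 356) (nat_lit 306) (nat_lit 118)))) (XT.nd (nat_lit 156) (nat_lit 304) (nat_lit 0) (XT.nd (nat_lit 78) (nat_lit 0) (nat_lit 0) (XT.lf (nat_lit 0) (nat_lit 13991671726) (nat_lit 304) (nat_lit 1085404837) (nat_lit 380) (nat_lit 23120479996) (nat_lit 91) (nat_lit 5) (nat_lit 95) (nat_lit 5) (nat_lit 96) (nat_lit 5) (nat_lit 357) (nat_lit 306) (nat_lit 117)) (XT.lf (nat_lit 0) (nat_lit 21794820587) (nat_lit 380) (nat_lit 5375748415) (nat_lit 76) (nat_lit 11774663855) (nat_lit 91) (nat_lit 5) (nat_lit 96) (nat_lit 5) (nat_lit 92) (nat_lit 5) (nat_lit 358) (nat_lit 306) (nat_lit 116))) (XT.nd (nat_lit 78) (nat_lit 0) (nat_lit 0) (XT.lf (nat_lit 0) (nat_lit 14283179517) (nat_lit 304) (nat_lit 14576097237) (nat_lit 380) (nat_lit 10851709204) (nat_lit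 87) (nat_lit 5) (nat_lit 91) (nat_lit 5) (nat_lit 92) (nat_lit 5) (nat_lit 359) (nat_lit 306) (nat_lit 115)) (XT.lf (nat_lit 0) (nat_lit 34638030607) (nat_lit 304) (nat_lit 1549099699) (nat_lit 380) (nat_lit 4311039287) (nat_lit 87) (nat_lit 5) (nat_lit 91) (nat_lit 5) (nat_lit 92) (nat_lit 5) (nat_lit 360) (nat_lit 306) (nat_lit 114))))))))
noncomputable def xc205 : XT := (XT.nd (nat_lit 2184) (nat_lit 912) (nat_lit 0) (XT.nd (nat_lit 1092) (nat_lit 1292) (nat_lit 0) (XT.nd (nat_lit 546) (nat_lit 760) (nat_lit 0) (XT.nd (nat_lit 234) (nat_lit 532) (nat_lit 0) (XT.nd (nat_lit 78) (nat_lit 304) (nat_lit 0) (XT.lf (nat_lit 0) (nat_lit 2631314579) (nat_lit 304) (nat_lit 26868646286) (nat_lit 76) (nat_lit 11800726030) (nat_lit 83) (nat_lit 5) (nat_lit 87) (nat_lit 5) (nat_lit 84) (nat_lit 5) (nat_lit 361) (nat_lit 306) (nat_lit 113)) (XT.nd (nat_lit 78) (nat_lit 304) (nat_lit 0) (XT.lf (nat_lit 0) (nat_lit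 9767654346) (nat_lit 304) (nat_lit 6735012865) (nat_lit 76) (nat_lit 25621162805) (nat_lit 83) (nat_lit 5) (nat_lit 87) (nat_lit 5) (nat_lit 84) (nat_lit 5) (nat_lit 362) (nat_lit 306) (nat_lit 112)) (XT.lf (nat_lit 0) (nat_lit 14277334647) (nat_lit 304) (nat_lit 2975335310) (nat_lit 380) (nat_lit 25714961552) (nat_lit 79) (nat_lit 5) (nat_lit 83) (nat_lit 5) (nat_lit 84) (nat_lit 5) (nat_lit 363) (nat_lit 306) (nat_lit 111)))) (XT.nd (nat_lit 156) (nat_lit 304) (nat_lit 0) (XT.nd (nat_lit 78) (nat_lit 228) (nat_lit 0) (XT.lf (nat_lit 0) (nat_lit 25133624590) (nat_lit 380) (nat_lit 7886526672) (nat_lit 76) (nat_lit 10811455725) (nat_lit 79) (nat_lit 5) (nat_lit 84) (nat_lit 5) (nat_lit 80) (nat_lit 5) (nat_lit 364) (nat_lit 306) (nat_lit 110)) (XT.lf (nat_lit 0) (nat_lit 13776922541) (nat_lit 228) (nat_lit 19633424374) (nat_lit 304) (nat_lit 11306376197) (nat_lit 76) (nat_lit 5) (nat_lit 79) (nat_lit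 5) (nat_lit 80) (nat_lit 5) (nat_lit 365) (nat_lit 306) (nat_lit 109))) (XT.nd (nat_lit 78) (nat_lit 304) (nat_lit 0) (XT.lf (nat_lit 0) (nat_lit 36248165978) (nat_lit 228) (nat_lit 5764329504) (nat_lit 304) (nat_lit 3613585007) (nat_lit 76) (nat_lit 5) (nat_lit 79) (nat_lit 5) (nat_lit 80) (nat_lit 5) (nat_lit 366) (nat_lit 306) (nat_lit 108)) (XT.lf (nat_lit 0) (nat_lit 4432316838) (nat_lit 304) (nat_lit 33601195230) (nat_lit 76) (nat_lit 8521772122) (nat_lit 72) (nat_lit 5) (nat_lit 76) (nat_lit 5) (nat_lit 73) (nat_lit 5) (nat_lit 367) (nat_lit 306) (nat_lit 107))))) (XT.nd (nat_lit 234) (nat_lit 532) (nat_lit 0) (XT.nd (nat_lit 78) (nat_lit 228) (nat_lit 0) (XT.lf (nat_lit 0) (nat_lit 12797233175) (nat_lit 304) (nat_lit 11458762394) (nat_lit 76) (nat_lit 23250788463) (nat_lit 72) (nat_lit 5) (nat_lit 76) (nat_lit 5) (nat_lit 73) (nat_lit 5) (nat_lit 368) (nat_lit 306) (nat_lit 106)) (XT.nd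 (nat_lit 78) (nat_lit 0) (nat_lit 0) (XT.lf (nat_lit 0) (nat_lit 11570084743) (nat_lit 228) (nat_lit 9951860301) (nat_lit 304) (nat_lit 26961619721) (nat_lit 69) (nat_lit 5) (nat_lit 72) (nat_lit 5) (nat_lit 73) (nat_lit 5) (nat_lit 369) (nat_lit 306) (nat_lit 105)) (XT.lf (nat_lit 0) (nat_lit 30668868350) (nat_lit 304) (nat_lit 14012250649) (nat_lit 76) (nat_lit 4803717119) (nat_lit 69) (nat_lit 5) (nat_lit 73) (nat_lit 5) (nat_lit 70) (nat_lit 5) (nat_lit 370) (nat_lit 306) (nat_lit 104)))) (XT.nd (nat_lit 156) (nat_lit 304) (nat_lit 0) (XT.nd (nat_lit 78) (nat_lit 0) (nat_lit 0) (XT.lf (nat_lit 0) (nat_lit 9662482301) (nat_lit 228) (nat_lit 30616852074) (nat_lit 304) (nat_lit 10231138449) (nat_lit 66) (nat_lit 5) (nat_lit 69) (nat_lit 5) (nat_lit 70) (nat_lit 5) (nat_lit 371) (nat_lit 306) (nat_lit 103)) (XT.lf (nat_lit 0) (nat_lit 34331179579) (nat_lit 228) (nat_lit 15986183736) (nat_lit 304)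 (nat_lit 1245339072) (nat_lit 66) (nat_lit 5) (nat_lit 69) (nat_lit 5) (nat_lit 70) (nat_lit 5) (nat_lit 372) (nat_lit 306) (nat_lit 102))) (XT.nd (nat_lit 78) (nat_lit 0) (nat_lit 0) (XT.lf (nat_lit 0) (nat_lit 7152556002) (nat_lit 228) (nat_lit 767723769) (nat_lit 304) (nat_lit 44721913797) (nat_lit 62) (nat_lit 5) (nat_lit 65) (nat_lit 5) (nat_lit 66) (nat_lit 5) (nat_lit 373) (nat_lit 306) (nat_lit 101)) (XT.lf (nat_lit 0) (nat_lit 17652677147) (nat_lit 304) (nat_lit 21288291860) (nat_lit 76) (nat_lit 14803226496) (nat_lit 62) (nat_lit 5) (nat_lit 66) (nat_lit 5) (nat_lit 63) (nat_lit 5) (nat_lit 374) (nat_lit 306) (nat_lit 100)))))) (XT.nd (nat_lit 546) (nat_lit 608) (nat_lit 0) (XT.nd (nat_lit 234) (nat_lit 456) (nat_lit 0) (XT.nd (nat_lit 78) (nat_lit 0) (nat_lit 0) (XT.lf (nat_lit 0) (nat_lit 3700322806) (nat_lit 228) (nat_lit 24017772924) (nat_lit 304) (nat_lit 27159931374) (nat_lit 59)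 (nat_lit 5) (nat_lit 62) (nat_lit 5) (nat_lit 63) (nat_lit 5) (nat_lit 375) (nat_lit 306) (nat_lit 99)) (XT.nd (nat_lit 78) (nat_lit 0) (nat_lit 0) (XT.lf (nat_lit 0) (nat_lit 29871641320) (nat_lit 228) (nat_lit 8426713509) (nat_lit 304) (nat_lit 17741133544) (nat_lit 59) (nat_lit 5) (nat_lit 62) (nat_lit 5) (nat_lit 63) (nat_lit 5) (nat_lit 376) (nat_lit 306) (nat_lit 98)) (XT.lf (nat_lit 0) (nat_lit 49267343104) (nat_lit 304) (nat_lit 484354884) (nat_lit 76) (nat_lit 7481956876) (nat_lit 59) (nat_lit 5) (nat_lit 63) (nat_lit 5) (nat_lit 60) (nat_lit 5) (nat_lit 377) (nat_lit 306) (nat_lit 97)))) (XT.nd (nat_lit 156) (nat_lit 228) (nat_lit 0) (XT.nd (nat_lit 78) (nat_lit 0) (nat_lit 0) (XT.lf (nat_lit 0) (nat_lit 2399264248) (nat_lit 228) (nat_lit 32078982120) (nat_lit 76) (nat_lit 23974639176) (nat_lit 56) (nat_lit 5) (nat_lit 59) (nat_lit 5) (nat_lit 57) (nat_lit 5) (nat_lit 378) (nat_lit 306)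 (nat_lit 96)) (XT.lf (nat_lit 0) (nat_lit 12918655709) (nat_lit 228) (nat_lit 5742840401) (nat_lit 76) (nat_lit 41044742848) (nat_lit 56) (nat_lit 5) (nat_lit 59) (nat_lit 5) (nat_lit 57) (nat_lit 5) (nat_lit 379) (nat_lit 306) (nat_lit 95))) (XT.nd (nat_lit 78) (nat_lit 0) (nat_lit 0) (XT.lf (nat_lit 0) (nat_lit 21805778865) (nat_lit 228) (nat_lit 2155541786) (nat_lit 304) (nat_lit 37029642483) (nat_lit 53) (nat_lit 5) (nat_lit 56) (nat_lit 5) (nat_lit 57) (nat_lit 5) (nat_lit 380) (nat_lit 306) (nat_lit 94)) (XT.lf (nat_lit 0) (nat_lit 35534632058) (nat_lit 304) (nat_lit 12160320696) (nat_lit 76) (nat_lit 14613296171) (nat_lit 53) (nat_lit 5) (nat_lit 57) (nat_lit 5) (nat_lit 54) (nat_lit 5) (nat_lit 381) (nat_lit 306) (nat_lit 93))))) (XT.nd (nat_lit 234) (nat_lit 152) (nat_lit 0) (XT.nd (nat_lit 78) (nat_lit 304) (nat_lit 0) (XT.lf (nat_lit 0) (nat_lit 15962390087) (nat_lit 152) (nat_lit 31665686442)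 (nat_lit 228) (nat_lit 16031789607) (nat_lit 51) (nat_lit 5) (nat_lit 53) (nat_lit 5) (nat_lit 54) (nat_lit 5) (nat_lit 382) (nat_lit 306) (nat_lit 92)) (XT.nd (nat_lit 78) (nat_lit 304) (nat_lit 0) (XT.lf (nat_lit 0) (nat_lit 45175046233) (nat_lit 152) (nat_lit 15030249866) (nat_lit 228) (nat_lit 4843107447) (nat_lit 51) (nat_lit 5) (nat_lit 53) (nat_lit 5) (nat_lit 54) (nat_lit 5) (nat_lit 383) (nat_lit 306) (nat_lit 91)) (XT.lf (nat_lit 0) (nat_lit 6656243158) (nat_lit 304) (nat_lit 57604045997) (nat_lit 76) (nat_lit 2213220498) (nat_lit 47) (nat_lit 5) (nat_lit 51) (nat_lit 5) (nat_lit 48) (nat_lit 5) (nat_lit 384) (nat_lit 306) (nat_lit 90)))) (XT.nd (nat_lit 156) (nat_lit 152) (nat_lit 0) (XT.nd (nat_lit 78) (nat_lit 0) (nat_lit 0) (XT.lf (nat_lit 0) (nat_lit 18752939756) (nat_lit 304) (nat_lit 29255120560) (nat_lit 76) (nat_lit 19921379630) (nat_lit 47) (nat_lit 5) (nat_lit 51) (nat_lit 5)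 (nat_lit 48) (nat_lit 5) (nat_lit 385) (nat_lit 306) (nat_lit 89)) (XT.lf (nat_lit 0) (nat_lit 31210812875) (nat_lit 304) (nat_lit 58613583) (nat_lit 76) (nat_lit 38159674162) (nat_lit 47) (nat_lit 5) (nat_lit 51) (nat_lit 5) (nat_lit 48) (nat_lit 5) (nat_lit 386) (nat_lit 306) (nat_lit 88))) (XT.nd (nat_lit 78) (nat_lit 0) (nat_lit 0) (XT.lf (nat_lit 0) (nat_lit 30608263920) (nat_lit 152) (nat_lit 13726709472) (nat_lit 228) (nat_lit 26630001906) (nat_lit 45) (nat_lit 5) (nat_lit 47) (nat_lit 5) (nat_lit 48) (nat_lit 5) (nat_lit 387) (nat_lit 306) (nat_lit 87)) (XT.lf (nat_lit 0) (nat_lit 57893534352) (nat_lit 228) (nat_lit 10395119944) (nat_lit 76) (nat_lit 4257052350) (nat_lit 45) (nat_lit 5) (nat_lit 48) (nat_lit 5) (nat_lit 46) (nat_lit 5) (nat_lit 388) (nat_lit 306) (nat_lit 86))))))) (XT.nd (nat_lit 34398) (nat_lit 0) (nat_lit 12312) (XT.nd (nat_lit 546) (nat_lit 380) (nat_lit 0) (XT.nd (nat_lit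 234) (nat_lit 152) (nat_lit 0) (XT.nd (nat_lit 78) (nat_lit 228) (nat_lit 0) (XT.lf (nat_lit 0) (nat_lit 20731219797) (nat_lit 152) (nat_lit 51461207102) (nat_lit 228) (nat_lit 1971426469) (nat_lit 43) (nat_lit 5) (nat_lit 45) (nat_lit 5) (nat_lit 46) (nat_lit 5) (nat_lit 389) (nat_lit 306) (nat_lit 85)) (XT.nd (nat_lit 78) (nat_lit 152) (nat_lit 0) (XT.lf (nat_lit 0) (nat_lit 10977740736) (nat_lit 228) (nat_lit 22933334659) (nat_lit 76) (nat_lit 41913139703) (nat_lit 42) (nat_lit 5) (nat_lit 45) (nat_lit 5) (nat_lit 43) (nat_lit 5) (nat_lit 390) (nat_lit 306) (nat_lit 84)) (XT.lf (nat_lit 0) (nat_lit 8627111840) (nat_lit 152) (nat_lit 15730013535) (nat_lit 228) (nat_lit 53174236369) (nat_lit 40) (nat_lit 5) (nat_lit 42) (nat_lit 5) (nat_lit 43) (nat_lit 5) (nat_lit 391) (nat_lit 306) (nat_lit 83)))) (XT.nd (nat_lit 156) (nat_lit 152) (nat_lit 0) (XT.nd (nat_lit 78) (nat_lit 0) (nat_lit 0) (XT.lf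 (nat_lit 0) (nat_lit 38399016962) (nat_lit 228) (nat_lit 37712058295) (nat_lit 76) (nat_lit 3170814372) (nat_lit 40) (nat_lit 5) (nat_lit 43) (nat_lit 5) (nat_lit 41) (nat_lit 5) (nat_lit 392) (nat_lit 306) (nat_lit 82)) (XT.lf (nat_lit 0) (nat_lit 53016400050) (nat_lit 228) (nat_lit 5742434598) (nat_lit 76) (nat_lit 22321472245) (nat_lit 40) (nat_lit 5) (nat_lit 43) (nat_lit 5) (nat_lit 41) (nat_lit 5) (nat_lit 393) (nat_lit 306) (nat_lit 81))) (XT.nd (nat_lit 78) (nat_lit 0) (nat_lit 0) (XT.lf (nat_lit 0) (nat_lit 27724772494) (nat_lit 152) (nat_lit 40612575576) (nat_lit 228) (nat_lit 14587377870) (nat_lit 38) (nat_lit 5) (nat_lit 40) (nat_lit 5) (nat_lit 41) (nat_lit 5) (nat_lit 394) (nat_lit 306) (nat_lit 80)) (XT.lf (nat_lit 0) (nat_lit 62311219253) (nat_lit 152) (nat_lit 21863247273) (nat_lit 228) (nat_lit 648315324) (nat_lit 38) (nat_lit 5) (nat_lit 40) (nat_lit 5) (nat_lit 41) (nat_lit 5)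 (nat_lit 395) (nat_lit 306) (nat_lit 79))))) (XT.nd (nat_lit 234) (nat_lit 152) (nat_lit 0) (XT.nd (nat_lit 78) (nat_lit 0) (nat_lit 0) (XT.lf (nat_lit 0) (nat_lit 11242638825) (nat_lit 152) (nat_lit 2305423348) (nat_lit 228) (nat_lit 73222564825) (nat_lit 35) (nat_lit 5) (nat_lit 37) (nat_lit 5) (nat_lit 38) (nat_lit 5) (nat_lit 396) (nat_lit 306) (nat_lit 78)) (XT.nd (nat_lit 78) (nat_lit 0) (nat_lit 0) (XT.lf (nat_lit 0) (nat_lit 28556945049) (nat_lit 228) (nat_lit 42481762610) (nat_lit 76) (nat_lit 17726018441) (nat_lit 35) (nat_lit 5) (nat_lit 38) (nat_lit 5) (nat_lit 36) (nat_lit 5) (nat_lit 397) (nat_lit 306) (nat_lit 77)) (XT.lf (nat_lit 0) (nat_lit 44037551944) (nat_lit 228) (nat_lit 8469360407) (nat_lit 76) (nat_lit 38311092589) (nat_lit 35) (nat_lit 5) (nat_lit 38) (nat_lit 5) (nat_lit 36) (nat_lit 5) (nat_lit 398) (nat_lit 306) (nat_lit 76)))) (XT.nd (nat_lit 33462) (nat_lit 0) (nat_lit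 13072) (XT.nd (nat_lit 78) (nat_lit 0) (nat_lit 0) (XT.lf (nat_lit 0) (nat_lit 27089717103) (nat_lit 152) (nat_lit 33151934291) (nat_lit 228) (nat_lit 32683458995) (nat_lit 33) (nat_lit 5) (nat_lit 35) (nat_lit 5) (nat_lit 36) (nat_lit 5) (nat_lit 399) (nat_lit 306) (nat_lit 75)) (XT.lf (nat_lit 0) (nat_lit 63886888505) (nat_lit 152) (nat_lit 13129197337) (nat_lit 228) (nat_lit 18076817261) (nat_lit 33) (nat_lit 5) (nat_lit 35) (nat_lit 5) (nat_lit 36) (nat_lit 5) (nat_lit 400) (nat_lit 306) (nat_lit 74))) (XT.nd (nat_lit 78) (nat_lit 0) (nat_lit 0) (XT.lf (nat_lit 0) (nat_lit 1550663941) (nat_lit 0) (nat_lit 1550663941) (nat_lit 1140) (nat_lit 5175565326) (nat_lit 205) (nat_lit 5) (nat_lit 205) (nat_lit 3) (nat_lit 220) (nat_lit 3) (nat_lit 307) (nat_lit 307) (nat_lit 166)) (XT.lf (nat_lit 0) (nat_lit 6571394602) (nat_lit 1140) (nat_lit 5894912618) (nat_lit 1216) (nat_lit 4327273699) (nat_lit 205)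 (nat_lit 5) (nat_lit 220) (nat_lit 3) (nat_lit 221) (nat_lit 5) (nat_lit 308) (nat_lit 307) (nat_lit 165)))))) (XT.nd (nat_lit 546) (nat_lit 760) (nat_lit 0) (XT.nd (nat_lit 234) (nat_lit 0) (nat_lit 152) (XT.nd (nat_lit 78) (nat_lit 0) (nat_lit 76) (XT.lf (nat_lit 76) (nat_lit 1890668891) (nat_lit 0) (nat_lit 5100346892) (nat_lit 1216) (nat_lit 10048368288) (nat_lit 206) (nat_lit 5) (nat_lit 205) (nat_lit 5) (nat_lit 221) (nat_lit 5) (nat_lit 309) (nat_lit 307) (nat_lit 164)) (XT.nd (nat_lit 78) (nat_lit 0) (nat_lit 0) (XT.lf (nat_lit 0) (nat_lit 7498440405) (nat_lit 1140) (nat_lit 7289753252) (nat_lit 1216) (nat_lit 2502120359) (nat_lit 206) (nat_lit 5) (nat_lit 221) (nat_lit 5) (nat_lit 222) (nat_lit 5) (nat_lit 310) (nat_lit 307) (nat_lit 163)) (XT.lf (nat_lit 76) (nat_lit 764401589) (nat_lit 0) (nat_lit 7305984715) (nat_lit 1216) (nat_lit 9476915478) (nat_lit 207) (nat_lit 5) (nat_lit 206)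 (nat_lit 5) (nat_lit 222) (nat_lit 5) (nat_lit 311) (nat_lit 307) (nat_lit 162)))) (XT.nd (nat_lit 156) (nat_lit 0) (nat_lit 0) (XT.nd (nat_lit 78) (nat_lit 0) (nat_lit 0) (XT.lf (nat_lit 0) (nat_lit 8729369603) (nat_lit 1140) (nat_lit 8609993901) (nat_lit 1216) (nat_lit 470547925) (nat_lit 207) (nat_lit 5) (nat_lit 222) (nat_lit 5) (nat_lit 223) (nat_lit 5) (nat_lit 312) (nat_lit 307) (nat_lit 161)) (XT.lf (nat_lit 0) (nat_lit 9472387321) (nat_lit 1140) (nat_lit 269320824) (nat_lit 1216) (nat_lit 8336771640) (nat_lit 207) (nat_lit 5) (nat_lit 222) (nat_lit 5) (nat_lit 223) (nat_lit 5) (nat_lit 313) (nat_lit 307) (nat_lit 160))) (XT.nd (nat_lit 78) (nat_lit 0) (nat_lit 76) (XT.lf (nat_lit 76) (nat_lit 8482153972) (nat_lit 0) (nat_lit 1829240785) (nat_lit 1216) (nat_lit 8041507584) (nat_lit 208) (nat_lit 5) (nat_lit 207) (nat_lit 5) (nat_lit 223) (nat_lit 5) (nat_lit 314) (nat_lit 307) (nat_lit 159))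 (XT.lf (nat_lit 0) (nat_lit 11231447839) (nat_lit 1140) (nat_lit 1199718172) (nat_lit 1216) (nat_lit 6202723187) (nat_lit 208) (nat_lit 5) (nat_lit 223) (nat_lit 5) (nat_lit 224) (nat_lit 5) (nat_lit 315) (nat_lit 307) (nat_lit 158))))) (XT.nd (nat_lit 312) (nat_lit 988) (nat_lit 0) (XT.nd (nat_lit 156) (nat_lit 0) (nat_lit 76) (XT.nd (nat_lit 78) (nat_lit 0) (nat_lit 76) (XT.lf (nat_lit 76) (nat_lit 7861740959) (nat_lit 0) (nat_lit 4403638308) (nat_lit 1216) (nat_lit 6655345749) (nat_lit 209) (nat_lit 5) (nat_lit 208) (nat_lit 5) (nat_lit 224) (nat_lit 5) (nat_lit 316) (nat_lit 307) (nat_lit 157)) (XT.lf (nat_lit 0) (nat_lit 13372497077) (nat_lit 1140) (nat_lit 2038634589) (nat_lit 1216) (nat_lit 3803776624) (nat_lit 209) (nat_lit 5) (nat_lit 224) (nat_lit 5) (nat_lit 225) (nat_lit 5) (nat_lit 317) (nat_lit 307) (nat_lit 156))) (XT.nd (nat_lit 78) (nat_lit 0) (nat_lit 76) (XT.lf (nat_lit 76) (nat_lit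 7347044636) (nat_lit 0) (nat_lit 7273002317) (nat_lit 1216) (nat_lit 4894660772) (nat_lit 210) (nat_lit 5) (nat_lit 209) (nat_lit 5) (nat_lit 225) (nat_lit 5) (nat_lit 318) (nat_lit 307) (nat_lit 155)) (XT.lf (nat_lit 0) (nat_lit 15929644038) (nat_lit 1140) (nat_lit 2782894599) (nat_lit 1216) (nat_lit 1110230893) (nat_lit 210) (nat_lit 5) (nat_lit 225) (nat_lit 5) (nat_lit 226) (nat_lit 5) (nat_lit 319) (nat_lit 307) (nat_lit 154)))) (XT.nd (nat_lit 156) (nat_lit 1140) (nat_lit 0) (XT.nd (nat_lit 78) (nat_lit 0) (nat_lit 0) (XT.lf (nat_lit 76) (nat_lit 6941790159) (nat_lit 0) (nat_lit 10468844216) (nat_lit 1216) (nat_lit 2725482457) (nat_lit 211) (nat_lit 5) (nat_lit 210) (nat_lit 5) (nat_lit 226) (nat_lit 5) (nat_lit 320) (nat_lit 307) (nat_lit 153)) (XT.lf (nat_lit 76) (nat_lit 17010235648) (nat_lit 0) (nat_lit 1947432125) (nat_lit 1216) (nat_lit 1500554985) (nat_lit 211) (nat_lit 5) (nat_lit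 210) (nat_lit 5) (nat_lit 226) (nat_lit 5) (nat_lit 321) (nat_lit 307) (nat_lit 152))) (XT.nd (nat_lit 78) (nat_lit 1216) (nat_lit 0) (XT.lf (nat_lit 76) (nat_lit 6649763909) (nat_lit 0) (nat_lit 14024634569) (nat_lit 1216) (nat_lit 111901210) (nat_lit 212) (nat_lit 5) (nat_lit 211) (nat_lit 5) (nat_lit 227) (nat_lit 5) (nat_lit 322) (nat_lit 307) (nat_lit 151)) (XT.lf (nat_lit 0) (nat_lit 1340911188) (nat_lit 1216) (nat_lit 4039515165) (nat_lit 1292) (nat_lit 15741971635) (nat_lit 195) (nat_lit 5) (nat_lit 211) (nat_lit 5) (nat_lit 212) (nat_lit 5) (nat_lit 323) (nat_lit 307) (nat_lit 150))))))))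
noncomputable def xc206 : XT := (XT.nd (nat_lit 2184) (nat_lit 4028) (nat_lit 0) (XT.nd (nat_lit 1092) (nat_lit 3040) (nat_lit 0) (XT.nd (nat_lit 546) (nat_lit 1672) (nat_lit 0) (XT.nd (nat_lit 234) (nat_lit 1140) (nat_lit 0) (XT.nd (nat_lit 78) (nat_lit 760) (nat_lit 0) (XT.lf (nat_lit 0) (nat_lit 2925822590) (nat_lit 1216) (nat_lit 15020615364) (nat_lit 76) (nat_lit 3519391001) (nat_lit 196) (nat_lit 5) (nat_lit 212) (nat_lit 5) (nat_lit 197) (nat_lit 5) (nat_lit 324) (nat_lit 307) (nat_lit 149)) (XT.nd (nat_lit 78) (nat_lit 760) (nat_lit 0) (XT.lf (nat_lit 0) (nat_lit 4646847986) (nat_lit 1216) (nat_lit 4549885447) (nat_lit 76) (nat_lit 12620178120) (nat_lit 196) (nat_lit 5) (nat_lit 212) (nat_lit 5) (nat_lit 197) (nat_lit 5) (nat_lit 325) (nat_lit 307) (nat_lit 148)) (XT.lf (nat_lit 0) (nat_lit 6353943804) (nat_lit 760) (nat_lit 120910224) (nat_lit 836) (nat_lit 15702017634) (nat_lit 186) (nat_lit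 5) (nat_lit 196) (nat_lit 5) (nat_lit 197) (nat_lit 5) (nat_lit 326) (nat_lit 307) (nat_lit 147)))) (XT.nd (nat_lit 156) (nat_lit 532) (nat_lit 0) (XT.nd (nat_lit 78) (nat_lit 608) (nat_lit 0) (XT.lf (nat_lit 0) (nat_lit 8487194702) (nat_lit 836) (nat_lit 4962390004) (nat_lit 76) (nat_lit 9094166406) (nat_lit 186) (nat_lit 5) (nat_lit 197) (nat_lit 5) (nat_lit 187) (nat_lit 5) (nat_lit 327) (nat_lit 307) (nat_lit 146)) (XT.lf (nat_lit 0) (nat_lit 6341520896) (nat_lit 608) (nat_lit 4275100850) (nat_lit 684) (nat_lit 12303318931) (nat_lit 178) (nat_lit 5) (nat_lit 186) (nat_lit 5) (nat_lit 187) (nat_lit 5) (nat_lit 328) (nat_lit 307) (nat_lit 145))) (XT.nd (nat_lit 78) (nat_lit 532) (nat_lit 0) (XT.lf (nat_lit 0) (nat_lit 12904954810) (nat_lit 684) (nat_lit 5274988656) (nat_lit 76) (nat_lit 5124626828) (nat_lit 178) (nat_lit 5) (nat_lit 187) (nat_lit 5) (nat_lit 179) (nat_lit 5) (nat_lit 329) (nat_lit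 307) (nat_lit 144)) (XT.lf (nat_lit 0) (nat_lit 6446040457) (nat_lit 532) (nat_lit 8915018587) (nat_lit 608) (nat_lit 8336711036) (nat_lit 171) (nat_lit 5) (nat_lit 178) (nat_lit 5) (nat_lit 179) (nat_lit 5) (nat_lit 330) (nat_lit 307) (nat_lit 143))))) (XT.nd (nat_lit 234) (nat_lit 1140) (nat_lit 0) (XT.nd (nat_lit 78) (nat_lit 532) (nat_lit 0) (XT.lf (nat_lit 0) (nat_lit 17945611132) (nat_lit 608) (nat_lit 5485970282) (nat_lit 76) (nat_lit 669546276) (nat_lit 171) (nat_lit 5) (nat_lit 179) (nat_lit 5) (nat_lit 172) (nat_lit 5) (nat_lit 331) (nat_lit 307) (nat_lit 142)) (XT.nd (nat_lit 78) (nat_lit 0) (nat_lit 0) (XT.lf (nat_lit 0) (nat_lit 6669720066) (nat_lit 532) (nat_lit 14085443151) (nat_lit 608) (nat_lit 3757003541) (nat_lit 164) (nat_lit 5) (nat_lit 171) (nat_lit 5) (nat_lit 172) (nat_lit 5) (nat_lit 332) (nat_lit 307) (nat_lit 141)) (XT.lf (nat_lit 0) (nat_lit 19297661894) (nat_lit 532)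 (nat_lit 4401916365) (nat_lit 608) (nat_lit 1234445946) (nat_lit 164) (nat_lit 5) (nat_lit 171) (nat_lit 5) (nat_lit 172) (nat_lit 5) (nat_lit 333) (nat_lit 307) (nat_lit 140)))) (XT.nd (nat_lit 156) (nat_lit 532) (nat_lit 0) (XT.nd (nat_lit 78) (nat_lit 0) (nat_lit 0) (XT.lf (nat_lit 0) (nat_lit 1454630690) (nat_lit 608) (nat_lit 18364975078) (nat_lit 76) (nat_lit 5545018918) (nat_lit 156) (nat_lit 5) (nat_lit 164) (nat_lit 5) (nat_lit 157) (nat_lit 5) (nat_lit 334) (nat_lit 307) (nat_lit 139)) (XT.lf (nat_lit 0) (nat_lit 4295990603) (nat_lit 608) (nat_lit 5737450146) (nat_lit 76) (nat_lit 15771447218) (nat_lit 156) (nat_lit 5) (nat_lit 164) (nat_lit 5) (nat_lit 157) (nat_lit 5) (nat_lit 335) (nat_lit 307) (nat_lit 138))) (XT.nd (nat_lit 78) (nat_lit 0) (nat_lit 0) (XT.lf (nat_lit 0) (nat_lit 7290449970) (nat_lit 608) (nat_lit 18848822343) (nat_lit 76) (nat_lit 117055069) (nat_lit 149) (nat_lit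 5) (nat_lit 157) (nat_lit 5) (nat_lit 150) (nat_lit 5) (nat_lit 336) (nat_lit 307) (nat_lit 137)) (XT.lf (nat_lit 0) (nat_lit 10528171633) (nat_lit 608) (nat_lit 5759935693) (nat_lit 76) (nat_lit 10428603680) (nat_lit 149) (nat_lit 5) (nat_lit 157) (nat_lit 5) (nat_lit 150) (nat_lit 5) (nat_lit 337) (nat_lit 307) (nat_lit 136)))))) (XT.nd (nat_lit 546) (nat_lit 1216) (nat_lit 0) (XT.nd (nat_lit 234) (nat_lit 912) (nat_lit 0) (XT.nd (nat_lit 78) (nat_lit 456) (nat_lit 0) (XT.lf (nat_lit 0) (nat_lit 7870470456) (nat_lit 456) (nat_lit 6063915980) (nat_lit 532) (nat_lit 13254382625) (nat_lit 143) (nat_lit 5) (nat_lit 149) (nat_lit 5) (nat_lit 150) (nat_lit 5) (nat_lit 338) (nat_lit 307) (nat_lit 135)) (XT.nd (nat_lit 78) (nat_lit 456) (nat_lit 0) (XT.lf (nat_lit 0) (nat_lit 17540248459) (nat_lit 532) (nat_lit 5693705096) (nat_lit 76) (nat_lit 4438115136) (nat_lit 143) (nat_lit 5) (nat_lit 150) (nat_lit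 5) (nat_lit 144) (nat_lit 5) (nat_lit 339) (nat_lit 307) (nat_lit 134)) (XT.lf (nat_lit 0) (nat_lit 8439607046) (nat_lit 456) (nat_lit 12951748898) (nat_lit 532) (nat_lit 6774402830) (nat_lit 137) (nat_lit 5) (nat_lit 143) (nat_lit 5) (nat_lit 144) (nat_lit 5) (nat_lit 340) (nat_lit 307) (nat_lit 133)))) (XT.nd (nat_lit 156) (nat_lit 456) (nat_lit 0) (XT.nd (nat_lit 78) (nat_lit 456) (nat_lit 0) (XT.lf (nat_lit 0) (nat_lit 23109012154) (nat_lit 456) (nat_lit 2302458789) (nat_lit 532) (nat_lit 3261187834) (nat_lit 137) (nat_lit 5) (nat_lit 143) (nat_lit 5) (nat_lit 144) (nat_lit 5) (nat_lit 341) (nat_lit 307) (nat_lit 132)) (XT.lf (nat_lit 0) (nat_lit 519101748) (nat_lit 456) (nat_lit 20081182083) (nat_lit 76) (nat_lit 8589322544) (nat_lit 131) (nat_lit 5) (nat_lit 137) (nat_lit 5) (nat_lit 132) (nat_lit 5) (nat_lit 342) (nat_lit 307) (nat_lit 131))) (XT.nd (nat_lit 78) (nat_lit 456) (nat_lit 0)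 (XT.lf (nat_lit 0) (nat_lit 4422907576) (nat_lit 456) (nat_lit 5445949452) (nat_lit 76) (nat_lit 19849970229) (nat_lit 131) (nat_lit 5) (nat_lit 137) (nat_lit 5) (nat_lit 132) (nat_lit 5) (nat_lit 343) (nat_lit 307) (nat_lit 130)) (XT.lf (nat_lit 0) (nat_lit 8546724734) (nat_lit 532) (nat_lit 20458152501) (nat_lit 76) (nat_lit 1255963682) (nat_lit 125) (nat_lit 5) (nat_lit 132) (nat_lit 5) (nat_lit 126) (nat_lit 5) (nat_lit 344) (nat_lit 307) (nat_lit 129))))) (XT.nd (nat_lit 234) (nat_lit 836) (nat_lit 0) (XT.nd (nat_lit 78) (nat_lit 380) (nat_lit 0) (XT.lf (nat_lit 0) (nat_lit 12943797796) (nat_lit 532) (nat_lit 5299863870) (nat_lit 76) (nat_lit 12570970052) (nat_lit 125) (nat_lit 5) (nat_lit 132) (nat_lit 5) (nat_lit 126) (nat_lit 5) (nat_lit 345) (nat_lit 307) (nat_lit 128)) (XT.nd (nat_lit 78) (nat_lit 0) (nat_lit 0) (XT.lf (nat_lit 0) (nat_lit 10513905755) (nat_lit 380) (nat_lit 7056343420)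 (nat_lit 456) (nat_lit 13811865971) (nat_lit 120) (nat_lit 5) (nat_lit 125) (nat_lit 5) (nat_lit 126) (nat_lit 5) (nat_lit 346) (nat_lit 307) (nat_lit 127)) (XT.lf (nat_lit 0) (nat_lit 22428932371) (nat_lit 456) (nat_lit 5102241694) (nat_lit 76) (nat_lit 4432648667) (nat_lit 120) (nat_lit 5) (nat_lit 126) (nat_lit 5) (nat_lit 121) (nat_lit 5) (nat_lit 347) (nat_lit 307) (nat_lit 126)))) (XT.nd (nat_lit 156) (nat_lit 456) (nat_lit 0) (XT.nd (nat_lit 78) (nat_lit 0) (nat_lit 0) (XT.lf (nat_lit 0) (nat_lit 11282646954) (nat_lit 380) (nat_lit 16325607386) (nat_lit 456) (nat_lit 4949483579) (nat_lit 115) (nat_lit 5) (nat_lit 120) (nat_lit 5) (nat_lit 121) (nat_lit 5) (nat_lit 348) (nat_lit 307) (nat_lit 125)) (XT.lf (nat_lit 0) (nat_lit 28259357571) (nat_lit 380) (nat_lit 4731737596) (nat_lit 456) (nat_lit 176933861) (nat_lit 115) (nat_lit 5) (nat_lit 120) (nat_lit 5) (nat_lit 121) (nat_lit 5) (nat_lit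 349) (nat_lit 307) (nat_lit 124))) (XT.nd (nat_lit 78) (nat_lit 0) (nat_lit 0) (XT.lf (nat_lit 0) (nat_lit 4830561120) (nat_lit 456) (nat_lit 21727026152) (nat_lit 76) (nat_lit 7232150332) (nat_lit 109) (nat_lit 5) (nat_lit 115) (nat_lit 5) (nat_lit 110) (nat_lit 5) (nat_lit 350) (nat_lit 307) (nat_lit 123)) (XT.lf (nat_lit 0) (nat_lit 10078359443) (nat_lit 456) (nat_lit 4838151006) (nat_lit 76) (nat_lit 19510727813) (nat_lit 109) (nat_lit 5) (nat_lit 115) (nat_lit 5) (nat_lit 110) (nat_lit 5) (nat_lit 351) (nat_lit 307) (nat_lit 122))))))) (XT.nd (nat_lit 1092) (nat_lit 1748) (nat_lit 0) (XT.nd (nat_lit 546) (nat_lit 912) (nat_lit 0) (XT.nd (nat_lit 234) (nat_lit 684) (nat_lit 0) (XT.nd (nat_lit 78) (nat_lit 304) (nat_lit 0) (XT.lf (nat_lit 0) (nat_lit 12803041388) (nat_lit 380) (nat_lit 2800443391) (nat_lit 456) (nat_lit 19476784714) (nat_lit 104) (nat_lit 5) (nat_lit 109) (nat_lit 5) (nat_lit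 110) (nat_lit 5) (nat_lit 352) (nat_lit 307) (nat_lit 121)) (XT.nd (nat_lit 78) (nat_lit 304) (nat_lit 0) (XT.lf (nat_lit 0) (nat_lit 21433610291) (nat_lit 456) (nat_lit 4776531991) (nat_lit 76) (nat_lit 9538574268) (nat_lit 104) (nat_lit 5) (nat_lit 110) (nat_lit 5) (nat_lit 105) (nat_lit 5) (nat_lit 353) (nat_lit 307) (nat_lit 120)) (XT.lf (nat_lit 0) (nat_lit 13480404523) (nat_lit 304) (nat_lit 14112500769) (nat_lit 380) (nat_lit 8839685967) (nat_lit 100) (nat_lit 5) (nat_lit 104) (nat_lit 5) (nat_lit 105) (nat_lit 5) (nat_lit 354) (nat_lit 307) (nat_lit 119)))) (XT.nd (nat_lit 156) (nat_lit 304) (nat_lit 0) (XT.nd (nat_lit 78) (nat_lit 380) (nat_lit 0) (XT.lf (nat_lit 0) (nat_lit 32378899028) (nat_lit 304) (nat_lit 1603319963) (nat_lit 380) (nat_lit 3153408170) (nat_lit 100) (nat_lit 5) (nat_lit 104) (nat_lit 5) (nat_lit 105) (nat_lit 5) (nat_lit 355) (nat_lit 307) (nat_lit 118)) (XT.lf (nat_lit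 0) (nat_lit 2894618939) (nat_lit 380) (nat_lit 23732678722) (nat_lit 76) (nat_lit 11224361432) (nat_lit 95) (nat_lit 5) (nat_lit 100) (nat_lit 5) (nat_lit 96) (nat_lit 5) (nat_lit 356) (nat_lit 307) (nat_lit 117))) (XT.nd (nat_lit 78) (nat_lit 304) (nat_lit 0) (XT.lf (nat_lit 0) (nat_lit 9122189822) (nat_lit 380) (nat_lit 4980879941) (nat_lit 76) (nat_lit 24483323028) (nat_lit 95) (nat_lit 5) (nat_lit 100) (nat_lit 5) (nat_lit 96) (nat_lit 5) (nat_lit 357) (nat_lit 307) (nat_lit 116)) (XT.lf (nat_lit 0) (nat_lit 14614731212) (nat_lit 304) (nat_lit 1059526512) (nat_lit 380) (nat_lit 23664782588) (nat_lit 91) (nat_lit 5) (nat_lit 95) (nat_lit 5) (nat_lit 96) (nat_lit 5) (nat_lit 358) (nat_lit 307) (nat_lit 115))))) (XT.nd (nat_lit 234) (nat_lit 608) (nat_lit 0) (XT.nd (nat_lit 78) (nat_lit 304) (nat_lit 0) (XT.lf (nat_lit 0) (nat_lit 22589859991) (nat_lit 380) (nat_lit 5335865030) (nat_lit 76) (nat_lit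 12183534922) (nat_lit 91) (nat_lit 5) (nat_lit 96) (nat_lit 5) (nat_lit 92) (nat_lit 5) (nat_lit 359) (nat_lit 307) (nat_lit 114)) (XT.nd (nat_lit 78) (nat_lit 0) (nat_lit 0) (XT.lf (nat_lit 0) (nat_lit 14910858623) (nat_lit 304) (nat_lit 14953193426) (nat_lit 380) (nat_lit 11034002261) (nat_lit 87) (nat_lit 5) (nat_lit 91) (nat_lit 5) (nat_lit 92) (nat_lit 5) (nat_lit 360) (nat_lit 307) (nat_lit 113)) (XT.lf (nat_lit 0) (nat_lit 35870553779) (nat_lit 304) (nat_lit 1537138973) (nat_lit 380) (nat_lit 4301284816) (nat_lit 87) (nat_lit 5) (nat_lit 91) (nat_lit 5) (nat_lit 92) (nat_lit 5) (nat_lit 361) (nat_lit 307) (nat_lit 112)))) (XT.nd (nat_lit 156) (nat_lit 304) (nat_lit 0) (XT.nd (nat_lit 78) (nat_lit 0) (nat_lit 0) (XT.lf (nat_lit 0) (nat_lit 2845097633) (nat_lit 304) (nat_lit 27476911746) (nat_lit 76) (nat_lit 12213569246) (nat_lit 83) (nat_lit 5) (nat_lit 87) (nat_lit 5) (nat_lit 84) (nat_lit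 5) (nat_lit 362) (nat_lit 307) (nat_lit 111)) (XT.lf (nat_lit 0) (nat_lit 10191600109) (nat_lit 304) (nat_lit 6745030311) (nat_lit 76) (nat_lit 26446905878) (nat_lit 83) (nat_lit 5) (nat_lit 87) (nat_lit 5) (nat_lit 84) (nat_lit 5) (nat_lit 363) (nat_lit 307) (nat_lit 110))) (XT.nd (nat_lit 78) (nat_lit 0) (nat_lit 0) (XT.lf (nat_lit 0) (nat_lit 14895804950) (nat_lit 304) (nat_lit 3003375988) (nat_lit 380) (nat_lit 26353532819) (nat_lit 79) (nat_lit 5) (nat_lit 83) (nat_lit 5) (nat_lit 84) (nat_lit 5) (nat_lit 364) (nat_lit 307) (nat_lit 109)) (XT.lf (nat_lit 0) (nat_lit 26013380280) (nat_lit 380) (nat_lit 7935250159) (nat_lit 76) (nat_lit 11194075874) (nat_lit 79) (nat_lit 5) (nat_lit 84) (nat_lit 5) (nat_lit 80) (nat_lit 5) (nat_lit 365) (nat_lit 307) (nat_lit 108)))))) (XT.nd (nat_lit 546) (nat_lit 760) (nat_lit 0) (XT.nd (nat_lit 234) (nat_lit 456) (nat_lit 0) (XT.nd (nat_lit 78) (nat_lit 304)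 (nat_lit 0) (XT.lf (nat_lit 0) (nat_lit 14376260645) (nat_lit 228) (nat_lit 20160269335) (nat_lit 304) (nat_lit 11517904397) (nat_lit 76) (nat_lit 5) (nat_lit 79) (nat_lit 5) (nat_lit 80) (nat_lit 5) (nat_lit 366) (nat_lit 307) (nat_lit 107)) (XT.nd (nat_lit 78) (nat_lit 304) (nat_lit 0) (XT.lf (nat_lit 0) (nat_lit 37516223023) (nat_lit 228) (nat_lit 5876912040) (nat_lit 304) (nat_lit 3598047814) (nat_lit 76) (nat_lit 5) (nat_lit 79) (nat_lit 5) (nat_lit 80) (nat_lit 5) (nat_lit 367) (nat_lit 307) (nat_lit 106)) (XT.lf (nat_lit 0) (nat_lit 4685607610) (nat_lit 304) (nat_lit 34424857610) (nat_lit 76) (nat_lit 8837799910) (nat_lit 72) (nat_lit 5) (nat_lit 76) (nat_lit 5) (nat_lit 73) (nat_lit 5) (nat_lit 368) (nat_lit 307) (nat_lit 105)))) (XT.nd (nat_lit 156) (nat_lit 228) (nat_lit 0) (XT.nd (nat_lit 78) (nat_lit 228) (nat_lit 0) (XT.lf (nat_lit 0) (nat_lit 13297966934) (nat_lit 304) (nat_lit 11623521891)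 (nat_lit 76) (nat_lit 24006928256) (nat_lit 72) (nat_lit 5) (nat_lit 76) (nat_lit 5) (nat_lit 73) (nat_lit 5) (nat_lit 369) (nat_lit 307) (nat_lit 104)) (XT.lf (nat_lit 0) (nat_lit 12094435725) (nat_lit 228) (nat_lit 10188285825) (nat_lit 304) (nat_lit 27651832567) (nat_lit 69) (nat_lit 5) (nat_lit 72) (nat_lit 5) (nat_lit 73) (nat_lit 5) (nat_lit 370) (nat_lit 307) (nat_lit 103))) (XT.nd (nat_lit 78) (nat_lit 228) (nat_lit 0) (XT.lf (nat_lit 0) (nat_lit 31701279438) (nat_lit 304) (nat_lit 14257697006) (nat_lit 76) (nat_lit 5006972225) (nat_lit 69) (nat_lit 5) (nat_lit 73) (nat_lit 5) (nat_lit 70) (nat_lit 5) (nat_lit 371) (nat_lit 307) (nat_lit 102)) (XT.lf (nat_lit 0) (nat_lit 10125563020) (nat_lit 228) (nat_lit 31472889203) (nat_lit 304) (nat_lit 10423952280) (nat_lit 66) (nat_lit 5) (nat_lit 69) (nat_lit 5) (nat_lit 70) (nat_lit 5) (nat_lit 372) (nat_lit 307) (nat_lit 101))))) (XT.nd (nat_lit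 312) (nat_lit 228) (nat_lit 0) (XT.nd (nat_lit 156) (nat_lit 228) (nat_lit 0) (XT.nd (nat_lit 78) (nat_lit 304) (nat_lit 0) (XT.lf (nat_lit 0) (nat_lit 35529276374) (nat_lit 228) (nat_lit 16405120284) (nat_lit 304) (nat_lit 1171902816) (nat_lit 66) (nat_lit 5) (nat_lit 69) (nat_lit 5) (nat_lit 70) (nat_lit 5) (nat_lit 373) (nat_lit 307) (nat_lit 100)) (XT.lf (nat_lit 0) (nat_lit 7535842637) (nat_lit 228) (nat_lit 729137554) (nat_lit 304) (nat_lit 45953211176) (nat_lit 62) (nat_lit 5) (nat_lit 65) (nat_lit 5) (nat_lit 66) (nat_lit 5) (nat_lit 374) (nat_lit 307) (nat_lit 99))) (XT.nd (nat_lit 78) (nat_lit 228) (nat_lit 0) (XT.lf (nat_lit 0) (nat_lit 18286805360) (nat_lit 304) (nat_lit 21760546777) (nat_lit 76) (nat_lit 15305979155) (nat_lit 62) (nat_lit 5) (nat_lit 66) (nat_lit 5) (nat_lit 63) (nat_lit 5) (nat_lit 375) (nat_lit 307) (nat_lit 98)) (XT.lf (nat_lit 0) (nat_lit 3976095017) (nat_lit 228)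 (nat_lit 24676630198) (nat_lit 304) (nat_lit 27868498028) (nat_lit 59) (nat_lit 5) (nat_lit 62) (nat_lit 5) (nat_lit 63) (nat_lit 5) (nat_lit 376) (nat_lit 307) (nat_lit 97)))) (XT.nd (nat_lit 156) (nat_lit 228) (nat_lit 0) (XT.nd (nat_lit 78) (nat_lit 0) (nat_lit 0) (XT.lf (nat_lit 0) (nat_lit 30927754178) (nat_lit 228) (nat_lit 8619635385) (nat_lit 304) (nat_lit 18170230379) (nat_lit 59) (nat_lit 5) (nat_lit 62) (nat_lit 5) (nat_lit 63) (nat_lit 5) (nat_lit 377) (nat_lit 307) (nat_lit 96)) (XT.lf (nat_lit 0) (nat_lit 50843091250) (nat_lit 304) (nat_lit 341175723) (nat_lit 76) (nat_lit 7763416614) (nat_lit 59) (nat_lit 5) (nat_lit 63) (nat_lit 5) (nat_lit 60) (nat_lit 5) (nat_lit 378) (nat_lit 307) (nat_lit 95))) (XT.nd (nat_lit 78) (nat_lit 0) (nat_lit 0) (XT.lf (nat_lit 0) (nat_lit 2568625736) (nat_lit 228) (nat_lit 32883203558) (nat_lit 76) (nat_lit 24751675040) (nat_lit 56) (nat_lit 5) (nat_lit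 59) (nat_lit 5) (nat_lit 57) (nat_lit 5) (nat_lit 379) (nat_lit 307) (nat_lit 94)) (XT.lf (nat_lit 0) (nat_lit 13400762527) (nat_lit 228) (nat_lit 5761583840) (nat_lit 76) (nat_lit 42332198424) (nat_lit 56) (nat_lit 5) (nat_lit 59) (nat_lit 5) (nat_lit 57) (nat_lit 5) (nat_lit 380) (nat_lit 307) (nat_lit 93))))))))
noncomputable def xc207 : XT := (XT.nd (nat_lit 35568) (nat_lit 0) (nat_lit 7448) (XT.nd (nat_lit 1092) (nat_lit 532) (nat_lit 0) (XT.nd (nat_lit 546) (nat_lit 380) (nat_lit 0) (XT.nd (nat_lit 234) (nat_lit 456) (nat_lit 0) (XT.nd (nat_lit 78) (nat_lit 152) (nat_lit 0) (XT.lf (nat_lit 0) (nat_lit 22611988693) (nat_lit 228) (nat_lit 2161426391) (nat_lit 304) (nat_lit 38044435686) (nat_lit 53) (nat_lit 5) (nat_lit 56) (nat_lit 5) (nat_lit 57) (nat_lit 5) (nat_lit 381) (nat_lit 307) (nat_lit 92)) (XT.nd (nat_lit 78) (nat_lit 152) (nat_lit 0) (XT.lf (nat_lit 0) (nat_lit 36691758261) (nat_lit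 304) (nat_lit 12375312187) (nat_lit 76) (nat_lit 15107650984) (nat_lit 53) (nat_lit 5) (nat_lit 57) (nat_lit 5) (nat_lit 54) (nat_lit 5) (nat_lit 382) (nat_lit 307) (nat_lit 91)) (XT.lf (nat_lit 0) (nat_lit 16589611115) (nat_lit 152) (nat_lit 32557167950) (nat_lit 228) (nat_lit 16420146139) (nat_lit 51) (nat_lit 5) (nat_lit 53) (nat_lit 5) (nat_lit 54) (nat_lit 5) (nat_lit 383) (nat_lit 307) (nat_lit 90)))) (XT.nd (nat_lit 156) (nat_lit 152) (nat_lit 0) (XT.nd (nat_lit 78) (nat_lit 304) (nat_lit 0) (XT.lf (nat_lit 0) (nat_lit 46674326091) (nat_lit 152) (nat_lit 15424371843) (nat_lit 228) (nat_lit 4898500519) (nat_lit 51) (nat_lit 5) (nat_lit 53) (nat_lit 5) (nat_lit 54) (nat_lit 5) (nat_lit 384) (nat_lit 307) (nat_lit 89)) (XT.lf (nat_lit 0) (nat_lit 6943448964) (nat_lit 304) (nat_lit 59185680895) (nat_lit 76) (nat_lit 2335921908) (nat_lit 47) (nat_lit 5) (nat_lit 51) (nat_lit 5) (nat_lit 48) (nat_lit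 5) (nat_lit 385) (nat_lit 307) (nat_lit 88))) (XT.nd (nat_lit 78) (nat_lit 152) (nat_lit 0) (XT.lf (nat_lit 0) (nat_lit 19400497377) (nat_lit 304) (nat_lit 29990554291) (nat_lit 76) (nat_lit 20573685868) (nat_lit 47) (nat_lit 5) (nat_lit 51) (nat_lit 5) (nat_lit 48) (nat_lit 5) (nat_lit 386) (nat_lit 307) (nat_lit 87)) (XT.lf (nat_lit 0) (nat_lit 79252061) (nat_lit 152) (nat_lit 32151141610) (nat_lit 228) (nat_lit 39279046814) (nat_lit 45) (nat_lit 5) (nat_lit 47) (nat_lit 5) (nat_lit 48) (nat_lit 5) (nat_lit 387) (nat_lit 307) (nat_lit 86))))) (XT.nd (nat_lit 234) (nat_lit 228) (nat_lit 0) (XT.nd (nat_lit 78) (nat_lit 152) (nat_lit 0) (XT.lf (nat_lit 0) (nat_lit 31663235695) (nat_lit 152) (nat_lit 14083193008) (nat_lit 228) (nat_lit 27345019242) (nat_lit 45) (nat_lit 5) (nat_lit 47) (nat_lit 5) (nat_lit 48) (nat_lit 5) (nat_lit 388) (nat_lit 307) (nat_lit 85)) (XT.nd (nat_lit 78) (nat_lit 152)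 (nat_lit 0) (XT.lf (nat_lit 0) (nat_lit 59709891700) (nat_lit 228) (nat_lit 10572343716) (nat_lit 76) (nat_lit 4437422464) (nat_lit 45) (nat_lit 5) (nat_lit 48) (nat_lit 5) (nat_lit 46) (nat_lit 5) (nat_lit 389) (nat_lit 307) (nat_lit 84)) (XT.lf (nat_lit 0) (nat_lit 21486466317) (nat_lit 152) (nat_lit 52950249134) (nat_lit 228) (nat_lit 1949665594) (nat_lit 43) (nat_lit 5) (nat_lit 45) (nat_lit 5) (nat_lit 46) (nat_lit 5) (nat_lit 390) (nat_lit 307) (nat_lit 83)))) (XT.nd (nat_lit 156) (nat_lit 0) (nat_lit 0) (XT.nd (nat_lit 78) (nat_lit 152) (nat_lit 0) (XT.lf (nat_lit 0) (nat_lit 11384087470) (nat_lit 228) (nat_lit 23490344257) (nat_lit 76) (nat_lit 43222168799) (nat_lit 42) (nat_lit 5) (nat_lit 45) (nat_lit 5) (nat_lit 43) (nat_lit 5) (nat_lit 391) (nat_lit 307) (nat_lit 82)) (XT.lf (nat_lit 0) (nat_lit 9015631417) (nat_lit 152) (nat_lit 16148225906) (nat_lit 228) (nat_lit 54691135029) (nat_lit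 40) (nat_lit 5) (nat_lit 42) (nat_lit 5) (nat_lit 43) (nat_lit 5) (nat_lit 392) (nat_lit 307) (nat_lit 81))) (XT.nd (nat_lit 78) (nat_lit 0) (nat_lit 0) (XT.lf (nat_lit 0) (nat_lit 39625292586) (nat_lit 228) (nat_lit 38715749768) (nat_lit 76) (nat_lit 3317045976) (nat_lit 40) (nat_lit 5) (nat_lit 43) (nat_lit 5) (nat_lit 41) (nat_lit 5) (nat_lit 393) (nat_lit 307) (nat_lit 80)) (XT.lf (nat_lit 0) (nat_lit 54679032940) (nat_lit 228) (nat_lit 5790755912) (nat_lit 76) (nat_lit 23040735027) (nat_lit 40) (nat_lit 5) (nat_lit 43) (nat_lit 5) (nat_lit 41) (nat_lit 5) (nat_lit 394) (nat_lit 307) (nat_lit 79)))))) (XT.nd (nat_lit 33930) (nat_lit 0) (nat_lit 13072) (XT.nd (nat_lit 234) (nat_lit 152) (nat_lit 0) (XT.nd (nat_lit 78) (nat_lit 228) (nat_lit 0) (XT.lf (nat_lit 0) (nat_lit 28679252179) (nat_lit 152) (nat_lit 41779435849) (nat_lit 228) (nat_lit 14951615926) (nat_lit 38) (nat_lit 5) (nat_lit 40)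 (nat_lit 5) (nat_lit 41) (nat_lit 5) (nat_lit 395) (nat_lit 307) (nat_lit 78)) (XT.nd (nat_lit 78) (nat_lit 228) (nat_lit 0) (XT.lf (nat_lit 0) (nat_lit 64299717491) (nat_lit 152) (nat_lit 22469128192) (nat_lit 228) (nat_lit 596518881) (nat_lit 38) (nat_lit 5) (nat_lit 40) (nat_lit 5) (nat_lit 41) (nat_lit 5) (nat_lit 396) (nat_lit 307) (nat_lit 77)) (XT.lf (nat_lit 0) (nat_lit 11699313400) (nat_lit 152) (nat_lit 2324159348) (nat_lit 228) (nat_lit 75348179126) (nat_lit 35) (nat_lit 5) (nat_lit 37) (nat_lit 5) (nat_lit 38) (nat_lit 5) (nat_lit 397) (nat_lit 307) (nat_lit 76)))) (XT.nd (nat_lit 156) (nat_lit 152) (nat_lit 0) (XT.nd (nat_lit 78) (nat_lit 0) (nat_lit 0) (XT.lf (nat_lit 0) (nat_lit 29481083928) (nat_lit 228) (nat_lit 43638735283) (nat_lit 76) (nat_lit 18305801609) (nat_lit 35) (nat_lit 5) (nat_lit 38) (nat_lit 5) (nat_lit 36) (nat_lit 5) (nat_lit 398) (nat_lit 307) (nat_lit 75)) (XT.lf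 (nat_lit 0) (nat_lit 45424145033) (nat_lit 228) (nat_lit 8609382767) (nat_lit 76) (nat_lit 39507029847) (nat_lit 35) (nat_lit 5) (nat_lit 38) (nat_lit 5) (nat_lit 36) (nat_lit 5) (nat_lit 399) (nat_lit 307) (nat_lit 74))) (XT.nd (nat_lit 33462) (nat_lit 0) (nat_lit 13072) (XT.lf (nat_lit 0) (nat_lit 28015348848) (nat_lit 152) (nat_lit 34098197478) (nat_lit 228) (nat_lit 33597355252) (nat_lit 33) (nat_lit 5) (nat_lit 35) (nat_lit 5) (nat_lit 36) (nat_lit 5) (nat_lit 400) (nat_lit 307) (nat_lit 73)) (XT.lf (nat_lit 0) (nat_lit 1712700044) (nat_lit 0) (nat_lit 1712700044) (nat_lit 1140) (nat_lit 5092629942) (nat_lit 205) (nat_lit 5) (nat_lit 205) (nat_lit 3) (nat_lit 220) (nat_lit 3) (nat_lit 308) (nat_lit 308) (nat_lit 164))))) (XT.nd (nat_lit 234) (nat_lit 0) (nat_lit 76) (XT.nd (nat_lit 78) (nat_lit 0) (nat_lit 0) (XT.lf (nat_lit 0) (nat_lit 7214986843) (nat_lit 1140) (nat_lit 5831378305) (nat_lit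 1216) (nat_lit 4237165603) (nat_lit 205) (nat_lit 5) (nat_lit 220) (nat_lit 3) (nat_lit 221) (nat_lit 5) (nat_lit 309) (nat_lit 308) (nat_lit 163)) (XT.nd (nat_lit 78) (nat_lit 0) (nat_lit 76) (XT.lf (nat_lit 76) (nat_lit 2185413966) (nat_lit 0) (nat_lit 5451067326) (nat_lit 1216) (nat_lit 9900561684) (nat_lit 206) (nat_lit 5) (nat_lit 205) (nat_lit 5) (nat_lit 221) (nat_lit 5) (nat_lit 310) (nat_lit 308) (nat_lit 162)) (XT.lf (nat_lit 0) (nat_lit 8144592186) (nat_lit 1140) (nat_lit 7262379699) (nat_lit 1216) (nat_lit 2388978152) (nat_lit 206) (nat_lit 5) (nat_lit 221) (nat_lit 5) (nat_lit 222) (nat_lit 5) (nat_lit 311) (nat_lit 308) (nat_lit 161)))) (XT.nd (nat_lit 156) (nat_lit 0) (nat_lit 76) (XT.nd (nat_lit 78) (nat_lit 0) (nat_lit 76) (XT.lf (nat_lit 76) (nat_lit 1030987374) (nat_lit 0) (nat_lit 7692783317) (nat_lit 1216) (nat_lit 9337187259) (nat_lit 207) (nat_lit 5) (nat_lit 206) (nat_lit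 5) (nat_lit 222) (nat_lit 5) (nat_lit 312) (nat_lit 308) (nat_lit 160)) (XT.lf (nat_lit 0) (nat_lit 9388980342) (nat_lit 1140) (nat_lit 8617781213) (nat_lit 1216) (nat_lit 325102995) (nat_lit 207) (nat_lit 5) (nat_lit 222) (nat_lit 5) (nat_lit 223) (nat_lit 5) (nat_lit 313) (nat_lit 308) (nat_lit 159))) (XT.nd (nat_lit 78) (nat_lit 0) (nat_lit 0) (XT.lf (nat_lit 0) (nat_lit 10142704234) (nat_lit 1140) (nat_lit 34184424) (nat_lit 1216) (nat_lit 8431960840) (nat_lit 207) (nat_lit 5) (nat_lit 222) (nat_lit 5) (nat_lit 223) (nat_lit 5) (nat_lit 314) (nat_lit 308) (nat_lit 158)) (XT.lf (nat_lit 76) (nat_lit 8977450145) (nat_lit 0) (nat_lit 2020499818) (nat_lit 1216) (nat_lit 7893834385) (nat_lit 208) (nat_lit 5) (nat_lit 207) (nat_lit 5) (nat_lit 223) (nat_lit 5) (nat_lit 315) (nat_lit 308) (nat_lit 157))))))) (XT.nd (nat_lit 1092) (nat_lit 3572) (nat_lit 0) (XT.nd (nat_lit 546) (nat_lit 2280) (nat_lit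 0) (XT.nd (nat_lit 234) (nat_lit 0) (nat_lit 76) (XT.nd (nat_lit 78) (nat_lit 0) (nat_lit 0) (XT.lf (nat_lit 0) (nat_lit 11933345039) (nat_lit 1140) (nat_lit 989255735) (nat_lit 1216) (nat_lit 6258979145) (nat_lit 208) (nat_lit 5) (nat_lit 223) (nat_lit 5) (nat_lit 224) (nat_lit 5) (nat_lit 316) (nat_lit 308) (nat_lit 156)) (XT.nd (nat_lit 78) (nat_lit 0) (nat_lit 76) (XT.lf (nat_lit 76) (nat_lit 8341630955) (nat_lit 0) (nat_lit 4648379574) (nat_lit 1216) (nat_lit 6487269790) (nat_lit 209) (nat_lit 5) (nat_lit 208) (nat_lit 5) (nat_lit 224) (nat_lit 5) (nat_lit 317) (nat_lit 308) (nat_lit 155)) (XT.lf (nat_lit 0) (nat_lit 14118902275) (nat_lit 1140) (nat_lit 1851068478) (nat_lit 1216) (nat_lit 3810672197) (nat_lit 209) (nat_lit 5) (nat_lit 224) (nat_lit 5) (nat_lit 225) (nat_lit 5) (nat_lit 318) (nat_lit 308) (nat_lit 154)))) (XT.nd (nat_lit 156) (nat_lit 0) (nat_lit 76) (XT.nd (nat_lit 78) (nat_lit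 0) (nat_lit 76) (XT.lf (nat_lit 76) (nat_lit 7813742643) (nat_lit 0) (nat_lit 7582448212) (nat_lit 1216) (nat_lit 4693486506) (nat_lit 210) (nat_lit 5) (nat_lit 209) (nat_lit 5) (nat_lit 225) (nat_lit 5) (nat_lit 319) (nat_lit 308) (nat_lit 153)) (XT.lf (nat_lit 0) (nat_lit 16734392860) (nat_lit 1140) (nat_lit 2616249912) (nat_lit 1216) (nat_lit 1056668795) (nat_lit 210) (nat_lit 5) (nat_lit 225) (nat_lit 5) (nat_lit 226) (nat_lit 5) (nat_lit 320) (nat_lit 308) (nat_lit 152))) (XT.nd (nat_lit 78) (nat_lit 0) (nat_lit 0) (XT.lf (nat_lit 76) (nat_lit 7397723119) (nat_lit 0) (nat_lit 10854950453) (nat_lit 1216) (nat_lit 2477609661) (nat_lit 211) (nat_lit 5) (nat_lit 210) (nat_lit 5) (nat_lit 226) (nat_lit 5) (nat_lit 321) (nat_lit 308) (nat_lit 151)) (XT.lf (nat_lit 76) (nat_lit 17761008013) (nat_lit 0) (nat_lit 2075797721) (nat_lit 1216) (nat_lit 1225535451) (nat_lit 211) (nat_lit 5) (nat_lit 210)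 (nat_lit 5) (nat_lit 226) (nat_lit 5) (nat_lit 322) (nat_lit 308) (nat_lit 150))))) (XT.nd (nat_lit 234) (nat_lit 1292) (nat_lit 0) (XT.nd (nat_lit 78) (nat_lit 0) (nat_lit 0) (XT.lf (nat_lit 0) (nat_lit 193393738) (nat_lit 1216) (nat_lit 14304820629) (nat_lit 1292) (nat_lit 6902217584) (nat_lit 195) (nat_lit 5) (nat_lit 211) (nat_lit 5) (nat_lit 212) (nat_lit 5) (nat_lit 323) (nat_lit 308) (nat_lit 149)) (XT.nd (nat_lit 78) (nat_lit 0) (nat_lit 76) (XT.lf (nat_lit 0) (nat_lit 1678617049) (nat_lit 1216) (nat_lit 3913415872) (nat_lit 1292) (nat_lit 16154823449) (nat_lit 195) (nat_lit 5) (nat_lit 211) (nat_lit 5) (nat_lit 212) (nat_lit 5) (nat_lit 324) (nat_lit 308) (nat_lit 148)) (XT.lf (nat_lit 0) (nat_lit 3304319983) (nat_lit 1216) (nat_lit 15216912489) (nat_lit 76) (nat_lit 3579568893) (nat_lit 196) (nat_lit 5) (nat_lit 212) (nat_lit 5) (nat_lit 197) (nat_lit 5) (nat_lit 325) (nat_lit 308) (nat_lit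 147)))) (XT.nd (nat_lit 156) (nat_lit 608) (nat_lit 0) (XT.nd (nat_lit 78) (nat_lit 760) (nat_lit 0) (XT.lf (nat_lit 0) (nat_lit 5068508488) (nat_lit 1216) (nat_lit 4439468091) (nat_lit 76) (nat_lit 12954702067) (nat_lit 196) (nat_lit 5) (nat_lit 212) (nat_lit 5) (nat_lit 197) (nat_lit 5) (nat_lit 326) (nat_lit 308) (nat_lit 146)) (XT.lf (nat_lit 0) (nat_lit 6789055312) (nat_lit 760) (nat_lit 156428597) (nat_lit 836) (nat_lit 15888137715) (nat_lit 186) (nat_lit 5) (nat_lit 196) (nat_lit 5) (nat_lit 197) (nat_lit 5) (nat_lit 327) (nat_lit 308) (nat_lit 145))) (XT.nd (nat_lit 78) (nat_lit 608) (nat_lit 0) (XT.lf (nat_lit 0) (nat_lit 9009847148) (nat_lit 836) (nat_lit 4865285065) (nat_lit 76) (nat_lit 9336633383) (nat_lit 186) (nat_lit 5) (nat_lit 197) (nat_lit 5) (nat_lit 187) (nat_lit 5) (nat_lit 328) (nat_lit 308) (nat_lit 144)) (XT.lf (nat_lit 0) (nat_lit 6775331626) (nat_lit 608) (nat_lit 4422359782)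 (nat_lit 684) (nat_lit 12401720891) (nat_lit 178) (nat_lit 5) (nat_lit 186) (nat_lit 5) (nat_lit 187) (nat_lit 5) (nat_lit 329) (nat_lit 308) (nat_lit 143)))))) (XT.nd (nat_lit 546) (nat_lit 1900) (nat_lit 0) (XT.nd (nat_lit 234) (nat_lit 1140) (nat_lit 0) (XT.nd (nat_lit 78) (nat_lit 532) (nat_lit 0) (XT.lf (nat_lit 0) (nat_lit 13546849391) (nat_lit 684) (nat_lit 5188700065) (nat_lit 76) (nat_lit 5260273368) (nat_lit 178) (nat_lit 5) (nat_lit 187) (nat_lit 5) (nat_lit 179) (nat_lit 5) (nat_lit 330) (nat_lit 308) (nat_lit 142)) (XT.nd (nat_lit 78) (nat_lit 0) (nat_lit 0) (XT.lf (nat_lit 0) (nat_lit 6881562488) (nat_lit 532) (nat_lit 9189982085) (nat_lit 608) (nat_lit 8329433850) (nat_lit 171) (nat_lit 5) (nat_lit 178) (nat_lit 5) (nat_lit 179) (nat_lit 5) (nat_lit 331) (nat_lit 308) (nat_lit 141)) (XT.lf (nat_lit 0) (nat_lit 18726291640) (nat_lit 608) (nat_lit 5407891336) (nat_lit 76) (nat_lit 682480882)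 (nat_lit 171) (nat_lit 5) (nat_lit 179) (nat_lit 5) (nat_lit 172) (nat_lit 5) (nat_lit 332) (nat_lit 308) (nat_lit 140)))) (XT.nd (nat_lit 156) (nat_lit 608) (nat_lit 0) (XT.nd (nat_lit 78) (nat_lit 0) (nat_lit 0) (XT.lf (nat_lit 0) (nat_lit 7110090722) (nat_lit 532) (nat_lit 14505291639) (nat_lit 608) (nat_lit 3624800824) (nat_lit 164) (nat_lit 5) (nat_lit 171) (nat_lit 5) (nat_lit 172) (nat_lit 5) (nat_lit 333) (nat_lit 308) (nat_lit 139)) (XT.lf (nat_lit 0) (nat_lit 20109872385) (nat_lit 532) (nat_lit 4531338121) (nat_lit 608) (nat_lit 1033699885) (nat_lit 164) (nat_lit 5) (nat_lit 171) (nat_lit 5) (nat_lit 172) (nat_lit 5) (nat_lit 334) (nat_lit 308) (nat_lit 138))) (XT.nd (nat_lit 78) (nat_lit 0) (nat_lit 0) (XT.lf (nat_lit 0) (nat_lit 1726954261) (nat_lit 608) (nat_lit 18673137143) (nat_lit 76) (nat_lit 5718408643) (nat_lit 156) (nat_lit 5) (nat_lit 164) (nat_lit 5) (nat_lit 157) (nat_lit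 5) (nat_lit 335) (nat_lit 308) (nat_lit 137)) (XT.lf (nat_lit 0) (nat_lit 4646894254) (nat_lit 608) (nat_lit 5673857934) (nat_lit 76) (nat_lit 16251424768) (nat_lit 156) (nat_lit 5) (nat_lit 164) (nat_lit 5) (nat_lit 157) (nat_lit 5) (nat_lit 336) (nat_lit 308) (nat_lit 136))))) (XT.nd (nat_lit 312) (nat_lit 912) (nat_lit 0) (XT.nd (nat_lit 156) (nat_lit 456) (nat_lit 0) (XT.nd (nat_lit 78) (nat_lit 0) (nat_lit 0) (XT.lf (nat_lit 0) (nat_lit 7727114310) (nat_lit 608) (nat_lit 19174307009) (nat_lit 76) (nat_lit 135866164) (nat_lit 149) (nat_lit 5) (nat_lit 157) (nat_lit 5) (nat_lit 150) (nat_lit 5) (nat_lit 337) (nat_lit 308) (nat_lit 135)) (XT.lf (nat_lit 0) (nat_lit 11055619539) (nat_lit 608) (nat_lit 5699743468) (nat_lit 76) (nat_lit 10756315619) (nat_lit 149) (nat_lit 5) (nat_lit 157) (nat_lit 5) (nat_lit 150) (nat_lit 5) (nat_lit 338) (nat_lit 308) (nat_lit 134))) (XT.nd (nat_lit 78) (nat_lit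 0) (nat_lit 0) (XT.lf (nat_lit 0) (nat_lit 8337290647) (nat_lit 456) (nat_lit 6222784641) (nat_lit 532) (nat_lit 13437946906) (nat_lit 143) (nat_lit 5) (nat_lit 149) (nat_lit 5) (nat_lit 150) (nat_lit 5) (nat_lit 339) (nat_lit 308) (nat_lit 133)) (XT.lf (nat_lit 0) (nat_lit 18268280008) (nat_lit 532) (nat_lit 5634521631) (nat_lit 76) (nat_lit 4593199419) (nat_lit 143) (nat_lit 5) (nat_lit 150) (nat_lit 5) (nat_lit 144) (nat_lit 5) (nat_lit 340) (nat_lit 308) (nat_lit 132)))) (XT.nd (nat_lit 156) (nat_lit 456) (nat_lit 0) (XT.nd (nat_lit 78) (nat_lit 0) (nat_lit 0) (XT.lf (nat_lit 0) (nat_lit 8920535026) (nat_lit 456) (nat_lit 13310696494) (nat_lit 532) (nat_lit 6773386095) (nat_lit 137) (nat_lit 5) (nat_lit 143) (nat_lit 5) (nat_lit 144) (nat_lit 5) (nat_lit 341) (nat_lit 308) (nat_lit 131)) (XT.lf (nat_lit 0) (nat_lit 24023389090) (nat_lit 456) (nat_lit 2342789959) (nat_lit 532) (nat_lit 3160723644)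 (nat_lit 137) (nat_lit 5) (nat_lit 143) (nat_lit 5) (nat_lit 144) (nat_lit 5) (nat_lit 342) (nat_lit 308) (nat_lit 130))) (XT.nd (nat_lit 78) (nat_lit 0) (nat_lit 0) (XT.lf (nat_lit 0) (nat_lit 725892778) (nat_lit 456) (nat_lit 20455113543) (nat_lit 76) (nat_lit 8878396245) (nat_lit 131) (nat_lit 5) (nat_lit 137) (nat_lit 5) (nat_lit 132) (nat_lit 5) (nat_lit 343) (nat_lit 308) (nat_lit 129)) (XT.lf (nat_lit 0) (nat_lit 4741243326) (nat_lit 456) (nat_lit 5387479390) (nat_lit 76) (nat_lit 20475948972) (nat_lit 131) (nat_lit 5) (nat_lit 137) (nat_lit 5) (nat_lit 132) (nat_lit 5) (nat_lit 344) (nat_lit 308) (nat_lit 128))))))))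
noncomputable def xc208 : XT := (XT.nd (nat_lit 2184) (nat_lit 2584) (nat_lit 0) (XT.nd (nat_lit 1092) (nat_lit 1976) (nat_lit 0) (XT.nd (nat_lit 546) (nat_lit 1064) (nat_lit 0) (XT.nd (nat_lit 234) (nat_lit 836) (nat_lit 0) (XT.nd (nat_lit 78) (nat_lit 380) (nat_lit 0) (XT.lf (nat_lit 0) (nat_lit 8985838145) (nat_lit 532) (nat_lit 20846965141) (nat_lit 76) (nat_lit 1330234972) (nat_lit 125) (nat_lit 5) (nat_lit 132) (nat_lit 5) (nat_lit 126) (nat_lit 5) (nat_lit 345) (nat_lit 308) (nat_lit 127)) (XT.nd (nat_lit 78) (nat_lit 380) (nat_lit 0) (XT.lf (nat_lit 0) (nat_lit 13509501700) (nat_lit 532) (nat_lit 5240479267) (nat_lit 76) (nat_lit 12983625736) (nat_lit 125) (nat_lit 5) (nat_lit 132) (nat_lit 5) (nat_lit 126) (nat_lit 5) (nat_lit 346) (nat_lit 308) (nat_lit 126)) (XT.lf (nat_lit 0) (nat_lit 11045562461) (nat_lit 380) (nat_lit 7226096087) (nat_lit 456) (nat_lit 14046552871) (nat_lit 120) (nat_lit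 5) (nat_lit 125) (nat_lit 5) (nat_lit 126) (nat_lit 5) (nat_lit 347) (nat_lit 308) (nat_lit 125)))) (XT.nd (nat_lit 156) (nat_lit 456) (nat_lit 0) (XT.nd (nat_lit 78) (nat_lit 380) (nat_lit 0) (XT.lf (nat_lit 0) (nat_lit 23271416875) (nat_lit 456) (nat_lit 5040548183) (nat_lit 76) (nat_lit 4605549759) (nat_lit 120) (nat_lit 5) (nat_lit 126) (nat_lit 5) (nat_lit 121) (nat_lit 5) (nat_lit 348) (nat_lit 308) (nat_lit 124)) (XT.lf (nat_lit 0) (nat_lit 11833781627) (nat_lit 380) (nat_lit 16769440761) (nat_lit 456) (nat_lit 4926115861) (nat_lit 115) (nat_lit 5) (nat_lit 120) (nat_lit 5) (nat_lit 121) (nat_lit 5) (nat_lit 349) (nat_lit 308) (nat_lit 123))) (XT.nd (nat_lit 78) (nat_lit 456) (nat_lit 0) (XT.lf (nat_lit 0) (nat_lit 29313599719) (nat_lit 380) (nat_lit 4829092786) (nat_lit 456) (nat_lit 15395056) (nat_lit 115) (nat_lit 5) (nat_lit 120) (nat_lit 5) (nat_lit 121) (nat_lit 5) (nat_lit 350) (nat_lit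 308) (nat_lit 122)) (XT.lf (nat_lit 0) (nat_lit 5136752938) (nat_lit 456) (nat_lit 22166561810) (nat_lit 76) (nat_lit 7495157588) (nat_lit 109) (nat_lit 5) (nat_lit 115) (nat_lit 5) (nat_lit 110) (nat_lit 5) (nat_lit 351) (nat_lit 308) (nat_lit 121))))) (XT.nd (nat_lit 234) (nat_lit 684) (nat_lit 0) (XT.nd (nat_lit 78) (nat_lit 380) (nat_lit 0) (XT.lf (nat_lit 0) (nat_lit 10537287881) (nat_lit 456) (nat_lit 4777203181) (nat_lit 76) (nat_lit 20140751341) (nat_lit 109) (nat_lit 5) (nat_lit 115) (nat_lit 5) (nat_lit 110) (nat_lit 5) (nat_lit 352) (nat_lit 308) (nat_lit 120)) (XT.nd (nat_lit 78) (nat_lit 0) (nat_lit 0) (XT.lf (nat_lit 0) (nat_lit 13391204473) (nat_lit 380) (nat_lit 2834363655) (nat_lit 456) (nat_lit 19902377780) (nat_lit 104) (nat_lit 5) (nat_lit 109) (nat_lit 5) (nat_lit 110) (nat_lit 5) (nat_lit 353) (nat_lit 308) (nat_lit 119)) (XT.lf (nat_lit 0) (nat_lit 22226580084) (nat_lit 456)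 (nat_lit 4717573592) (nat_lit 76) (nat_lit 9872416489) (nat_lit 104) (nat_lit 5) (nat_lit 110) (nat_lit 5) (nat_lit 105) (nat_lit 5) (nat_lit 354) (nat_lit 308) (nat_lit 118)))) (XT.nd (nat_lit 156) (nat_lit 380) (nat_lit 0) (XT.nd (nat_lit 78) (nat_lit 0) (nat_lit 0) (XT.lf (nat_lit 0) (nat_lit 14085088131) (nat_lit 304) (nat_lit 14483123126) (nat_lit 380) (nat_lit 8952826315) (nat_lit 100) (nat_lit 5) (nat_lit 104) (nat_lit 5) (nat_lit 105) (nat_lit 5) (nat_lit 355) (nat_lit 308) (nat_lit 117)) (XT.lf (nat_lit 0) (nat_lit 33544704322) (nat_lit 304) (nat_lit 1600203381) (nat_lit 380) (nat_lit 3100388832) (nat_lit 100) (nat_lit 5) (nat_lit 104) (nat_lit 5) (nat_lit 105) (nat_lit 5) (nat_lit 356) (nat_lit 308) (nat_lit 116))) (XT.nd (nat_lit 78) (nat_lit 0) (nat_lit 0) (XT.lf (nat_lit 0) (nat_lit 3124372038) (nat_lit 380) (nat_lit 24245317046) (nat_lit 76) (nat_lit 11613135468) (nat_lit 95) (nat_lit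 5) (nat_lit 100) (nat_lit 5) (nat_lit 96) (nat_lit 5) (nat_lit 357) (nat_lit 308) (nat_lit 115)) (XT.lf (nat_lit 0) (nat_lit 9534607489) (nat_lit 380) (nat_lit 4936770381) (nat_lit 76) (nat_lit 25268350090) (nat_lit 95) (nat_lit 5) (nat_lit 100) (nat_lit 5) (nat_lit 96) (nat_lit 5) (nat_lit 358) (nat_lit 308) (nat_lit 114)))))) (XT.nd (nat_lit 546) (nat_lit 760) (nat_lit 0) (XT.nd (nat_lit 234) (nat_lit 608) (nat_lit 0) (XT.nd (nat_lit 78) (nat_lit 304) (nat_lit 0) (XT.lf (nat_lit 0) (nat_lit 15244811696) (nat_lit 304) (nat_lit 1036226559) (nat_lit 380) (nat_lit 24233985366) (nat_lit 91) (nat_lit 5) (nat_lit 95) (nat_lit 5) (nat_lit 96) (nat_lit 5) (nat_lit 359) (nat_lit 308) (nat_lit 113)) (XT.nd (nat_lit 78) (nat_lit 304) (nat_lit 0) (XT.lf (nat_lit 0) (nat_lit 23400645419) (nat_lit 380) (nat_lit 5306332312) (nat_lit 76) (nat_lit 12601478665) (nat_lit 91) (nat_lit 5) (nat_lit 96) (nat_lit 5) (nat_lit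 92) (nat_lit 5) (nat_lit 360) (nat_lit 308) (nat_lit 112)) (XT.lf (nat_lit 0) (nat_lit 15545934143) (nat_lit 304) (nat_lit 15345057464) (nat_lit 380) (nat_lit 11229987718) (nat_lit 87) (nat_lit 5) (nat_lit 91) (nat_lit 5) (nat_lit 92) (nat_lit 5) (nat_lit 361) (nat_lit 308) (nat_lit 111)))) (XT.nd (nat_lit 156) (nat_lit 304) (nat_lit 0) (XT.nd (nat_lit 78) (nat_lit 304) (nat_lit 0) (XT.lf (nat_lit 0) (nat_lit 37128951713) (nat_lit 304) (nat_lit 1528173760) (nat_lit 380) (nat_lit 4299221797) (nat_lit 87) (nat_lit 5) (nat_lit 91) (nat_lit 5) (nat_lit 92) (nat_lit 5) (nat_lit 362) (nat_lit 308) (nat_lit 110)) (XT.lf (nat_lit 0) (nat_lit 3057553604) (nat_lit 304) (nat_lit 28114779351) (nat_lit 76) (nat_lit 12635421167) (nat_lit 83) (nat_lit 5) (nat_lit 87) (nat_lit 5) (nat_lit 84) (nat_lit 5) (nat_lit 363) (nat_lit 308) (nat_lit 109))) (XT.nd (nat_lit 78) (nat_lit 304) (nat_lit 0) (XT.lf (nat_lit 0)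 (nat_lit 10620749124) (nat_lit 304) (nat_lit 6766371757) (nat_lit 76) (nat_lit 27294143001) (nat_lit 83) (nat_lit 5) (nat_lit 87) (nat_lit 5) (nat_lit 84) (nat_lit 5) (nat_lit 364) (nat_lit 308) (nat_lit 108)) (XT.lf (nat_lit 0) (nat_lit 15521913960) (nat_lit 304) (nat_lit 3035772129) (nat_lit 380) (nat_lit 27018888941) (nat_lit 79) (nat_lit 5) (nat_lit 83) (nat_lit 5) (nat_lit 84) (nat_lit 5) (nat_lit 365) (nat_lit 308) (nat_lit 107))))) (XT.nd (nat_lit 234) (nat_lit 532) (nat_lit 0) (XT.nd (nat_lit 78) (nat_lit 228) (nat_lit 0) (XT.lf (nat_lit 0) (nat_lit 26912310251) (nat_lit 380) (nat_lit 7996219990) (nat_lit 76) (nat_lit 11584829319) (nat_lit 79) (nat_lit 5) (nat_lit 84) (nat_lit 5) (nat_lit 80) (nat_lit 5) (nat_lit 366) (nat_lit 308) (nat_lit 106)) (XT.nd (nat_lit 78) (nat_lit 0) (nat_lit 0) (XT.lf (nat_lit 0) (nat_lit 14982899984) (nat_lit 228) (nat_lit 20706487755) (nat_lit 304) (nat_lit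 11743106827) (nat_lit 76) (nat_lit 5) (nat_lit 79) (nat_lit 5) (nat_lit 80) (nat_lit 5) (nat_lit 367) (nat_lit 308) (nat_lit 105)) (XT.lf (nat_lit 0) (nat_lit 38811953908) (nat_lit 228) (nat_lit 5996336236) (nat_lit 304) (nat_lit 3589159440) (nat_lit 76) (nat_lit 5) (nat_lit 79) (nat_lit 5) (nat_lit 80) (nat_lit 5) (nat_lit 368) (nat_lit 308) (nat_lit 104)))) (XT.nd (nat_lit 156) (nat_lit 228) (nat_lit 0) (XT.nd (nat_lit 78) (nat_lit 0) (nat_lit 0) (XT.lf (nat_lit 0) (nat_lit 4939590172) (nat_lit 304) (nat_lit 35283813654) (nat_lit 76) (nat_lit 9159842780) (nat_lit 72) (nat_lit 5) (nat_lit 76) (nat_lit 5) (nat_lit 73) (nat_lit 5) (nat_lit 369) (nat_lit 308) (nat_lit 103)) (XT.lf (nat_lit 0) (nat_lit 13807016946) (nat_lit 304) (nat_lit 11803499698) (nat_lit 76) (nat_lit 24782387437) (nat_lit 72) (nat_lit 5) (nat_lit 76) (nat_lit 5) (nat_lit 73) (nat_lit 5) (nat_lit 370) (nat_lit 308) (nat_lit 102)))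 (XT.nd (nat_lit 78) (nat_lit 0) (nat_lit 0) (XT.lf (nat_lit 0) (nat_lit 12624342451) (nat_lit 228) (nat_lit 10435370646) (nat_lit 304) (nat_lit 28369561974) (nat_lit 69) (nat_lit 5) (nat_lit 72) (nat_lit 5) (nat_lit 73) (nat_lit 5) (nat_lit 371) (nat_lit 308) (nat_lit 101)) (XT.lf (nat_lit 0) (nat_lit 32758213794) (nat_lit 304) (nat_lit 14520547943) (nat_lit 76) (nat_lit 5212929900) (nat_lit 69) (nat_lit 5) (nat_lit 73) (nat_lit 5) (nat_lit 70) (nat_lit 5) (nat_lit 372) (nat_lit 308) (nat_lit 100))))))) (XT.nd (nat_lit 1092) (nat_lit 912) (nat_lit 0) (XT.nd (nat_lit 546) (nat_lit 912) (nat_lit 0) (XT.nd (nat_lit 234) (nat_lit 228) (nat_lit 0) (XT.nd (nat_lit 78) (nat_lit 304) (nat_lit 0) (XT.lf (nat_lit 0) (nat_lit 10592593413) (nat_lit 228) (nat_lit 32358193389) (nat_lit 304) (nat_lit 10629101500) (nat_lit 66) (nat_lit 5) (nat_lit 69) (nat_lit 5) (nat_lit 70) (nat_lit 5) (nat_lit 373) (nat_lit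 308) (nat_lit 99)) (XT.nd (nat_lit 78) (nat_lit 304) (nat_lit 0) (XT.lf (nat_lit 0) (nat_lit 36753662920) (nat_lit 228) (nat_lit 16840106427) (nat_lit 304) (nat_lit 1102623639) (nat_lit 66) (nat_lit 5) (nat_lit 69) (nat_lit 5) (nat_lit 70) (nat_lit 5) (nat_lit 374) (nat_lit 308) (nat_lit 98)) (XT.lf (nat_lit 0) (nat_lit 7920943229) (nat_lit 228) (nat_lit 692930874) (nat_lit 304) (nat_lit 47227782593) (nat_lit 62) (nat_lit 5) (nat_lit 65) (nat_lit 5) (nat_lit 66) (nat_lit 5) (nat_lit 375) (nat_lit 308) (nat_lit 97)))) (XT.nd (nat_lit 156) (nat_lit 0) (nat_lit 0) (XT.nd (nat_lit 78) (nat_lit 228) (nat_lit 0) (XT.lf (nat_lit 0) (nat_lit 18933955943) (nat_lit 304) (nat_lit 22256521028) (nat_lit 76) (nat_lit 15820447308) (nat_lit 62) (nat_lit 5) (nat_lit 66) (nat_lit 5) (nat_lit 63) (nat_lit 5) (nat_lit 376) (nat_lit 308) (nat_lit 96)) (XT.lf (nat_lit 0) (nat_lit 4250682351) (nat_lit 228) (nat_lit 25358793639)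 (nat_lit 304) (nat_lit 28604419793) (nat_lit 59) (nat_lit 5) (nat_lit 62) (nat_lit 5) (nat_lit 63) (nat_lit 5) (nat_lit 377) (nat_lit 308) (nat_lit 95))) (XT.nd (nat_lit 78) (nat_lit 0) (nat_lit 0) (XT.lf (nat_lit 0) (nat_lit 32006367856) (nat_lit 228) (nat_lit 8821782248) (nat_lit 304) (nat_lit 18618120614) (nat_lit 59) (nat_lit 5) (nat_lit 62) (nat_lit 5) (nat_lit 63) (nat_lit 5) (nat_lit 378) (nat_lit 308) (nat_lit 94)) (XT.lf (nat_lit 0) (nat_lit 52460501861) (nat_lit 304) (nat_lit 202754375) (nat_lit 76) (nat_lit 8050048052) (nat_lit 59) (nat_lit 5) (nat_lit 63) (nat_lit 5) (nat_lit 60) (nat_lit 5) (nat_lit 379) (nat_lit 308) (nat_lit 93))))) (XT.nd (nat_lit 234) (nat_lit 456) (nat_lit 0) (XT.nd (nat_lit 78) (nat_lit 228) (nat_lit 0) (XT.lf (nat_lit 0) (nat_lit 2737477855) (nat_lit 228) (nat_lit 33720629982) (nat_lit 76) (nat_lit 25548704214) (nat_lit 56) (nat_lit 5) (nat_lit 59) (nat_lit 5)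 (nat_lit 57) (nat_lit 5) (nat_lit 380) (nat_lit 308) (nat_lit 92)) (XT.nd (nat_lit 78) (nat_lit 228) (nat_lit 0) (XT.lf (nat_lit 0) (nat_lit 13891905156) (nat_lit 228) (nat_lit 5789703508) (nat_lit 76) (nat_lit 43655056535) (nat_lit 56) (nat_lit 5) (nat_lit 59) (nat_lit 5) (nat_lit 57) (nat_lit 5) (nat_lit 381) (nat_lit 308) (nat_lit 91)) (XT.lf (nat_lit 0) (nat_lit 23433657300) (nat_lit 228) (nat_lit 2170861842) (nat_lit 304) (nat_lit 39095188993) (nat_lit 53) (nat_lit 5) (nat_lit 56) (nat_lit 5) (nat_lit 57) (nat_lit 5) (nat_lit 382) (nat_lit 308) (nat_lit 90)))) (XT.nd (nat_lit 156) (nat_lit 304) (nat_lit 0) (XT.nd (nat_lit 78) (nat_lit 152) (nat_lit 0) (XT.lf (nat_lit 0) (nat_lit 37878369470) (nat_lit 304) (nat_lit 12605353596) (nat_lit 76) (nat_lit 15613624343) (nat_lit 53) (nat_lit 5) (nat_lit 57) (nat_lit 5) (nat_lit 54) (nat_lit 5) (nat_lit 383) (nat_lit 308) (nat_lit 89)) (XT.lf (nat_lit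 0) (nat_lit 17227132915) (nat_lit 152) (nat_lit 33478751416) (nat_lit 228) (nat_lit 16825468823) (nat_lit 51) (nat_lit 5) (nat_lit 53) (nat_lit 5) (nat_lit 54) (nat_lit 5) (nat_lit 384) (nat_lit 308) (nat_lit 88))) (XT.nd (nat_lit 78) (nat_lit 304) (nat_lit 0) (XT.lf (nat_lit 0) (nat_lit 48210316521) (nat_lit 152) (nat_lit 15833577200) (nat_lit 228) (nat_lit 4960716019) (nat_lit 51) (nat_lit 5) (nat_lit 53) (nat_lit 5) (nat_lit 54) (nat_lit 5) (nat_lit 385) (nat_lit 308) (nat_lit 87)) (XT.lf (nat_lit 0) (nat_lit 7234247024) (nat_lit 304) (nat_lit 60823173763) (nat_lit 76) (nat_lit 2459072234) (nat_lit 47) (nat_lit 5) (nat_lit 51) (nat_lit 5) (nat_lit 48) (nat_lit 5) (nat_lit 386) (nat_lit 308) (nat_lit 86)))))) (XT.nd (nat_lit 546) (nat_lit 380) (nat_lit 0) (XT.nd (nat_lit 234) (nat_lit 380) (nat_lit 0) (XT.nd (nat_lit 78) (nat_lit 152) (nat_lit 0) (XT.lf (nat_lit 0) (nat_lit 20062604134) (nat_lit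 304) (nat_lit 30756215038) (nat_lit 76) (nat_lit 21242423307) (nat_lit 47) (nat_lit 5) (nat_lit 51) (nat_lit 5) (nat_lit 48) (nat_lit 5) (nat_lit 387) (nat_lit 308) (nat_lit 85)) (XT.nd (nat_lit 78) (nat_lit 0) (nat_lit 0) (XT.lf (nat_lit 0) (nat_lit 214371231) (nat_lit 152) (nat_lit 33061969307) (nat_lit 228) (nat_lit 40375978684) (nat_lit 45) (nat_lit 5) (nat_lit 47) (nat_lit 5) (nat_lit 48) (nat_lit 5) (nat_lit 388) (nat_lit 308) (nat_lit 84)) (XT.lf (nat_lit 0) (nat_lit 32742008114) (nat_lit 152) (nat_lit 14453546515) (nat_lit 228) (nat_lit 28086302310) (nat_lit 45) (nat_lit 5) (nat_lit 47) (nat_lit 5) (nat_lit 48) (nat_lit 5) (nat_lit 389) (nat_lit 308) (nat_lit 83)))) (XT.nd (nat_lit 156) (nat_lit 228) (nat_lit 0) (XT.nd (nat_lit 78) (nat_lit 152) (nat_lit 0) (XT.lf (nat_lit 0) (nat_lit 61576173197) (nat_lit 228) (nat_lit 10762612504) (nat_lit 76) (nat_lit 4620180865) (nat_lit 45) (nat_lit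 5) (nat_lit 48) (nat_lit 5) (nat_lit 46) (nat_lit 5) (nat_lit 390) (nat_lit 308) (nat_lit 82)) (XT.lf (nat_lit 0) (nat_lit 22256717698) (nat_lit 152) (nat_lit 54487107838) (nat_lit 228) (nat_lit 1931896093) (nat_lit 43) (nat_lit 5) (nat_lit 45) (nat_lit 5) (nat_lit 46) (nat_lit 5) (nat_lit 391) (nat_lit 308) (nat_lit 81))) (XT.nd (nat_lit 78) (nat_lit 152) (nat_lit 0) (XT.lf (nat_lit 0) (nat_lit 11798203659) (nat_lit 228) (nat_lit 24071583530) (nat_lit 76) (nat_lit 44567504712) (nat_lit 42) (nat_lit 5) (nat_lit 45) (nat_lit 5) (nat_lit 43) (nat_lit 5) (nat_lit 392) (nat_lit 308) (nat_lit 80)) (XT.lf (nat_lit 0) (nat_lit 9408360913) (nat_lit 152) (nat_lit 16582066561) (nat_lit 228) (nat_lit 56258037021) (nat_lit 40) (nat_lit 5) (nat_lit 42) (nat_lit 5) (nat_lit 43) (nat_lit 5) (nat_lit 393) (nat_lit 308) (nat_lit 79))))) (XT.nd (nat_lit 312) (nat_lit 228) (nat_lit 0) (XT.nd (nat_lit 156) (nat_lit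 152) (nat_lit 0) (XT.nd (nat_lit 78) (nat_lit 0) (nat_lit 0) (XT.lf (nat_lit 0) (nat_lit 40884091062) (nat_lit 228) (nat_lit 39756880782) (nat_lit 76) (nat_lit 3464730767) (nat_lit 40) (nat_lit 5) (nat_lit 43) (nat_lit 5) (nat_lit 41) (nat_lit 5) (nat_lit 394) (nat_lit 308) (nat_lit 78)) (XT.lf (nat_lit 0) (nat_lit 56387403636) (nat_lit 228) (nat_lit 5847642202) (nat_lit 76) (nat_lit 23778727381) (nat_lit 40) (nat_lit 5) (nat_lit 43) (nat_lit 5) (nat_lit 41) (nat_lit 5) (nat_lit 395) (nat_lit 308) (nat_lit 77))) (XT.nd (nat_lit 78) (nat_lit 0) (nat_lit 0) (XT.lf (nat_lit 0) (nat_lit 29655320678) (nat_lit 152) (nat_lit 42984259217) (nat_lit 228) (nat_lit 15330993623) (nat_lit 38) (nat_lit 5) (nat_lit 40) (nat_lit 5) (nat_lit 41) (nat_lit 5) (nat_lit 396) (nat_lit 308) (nat_lit 76)) (XT.lf (nat_lit 0) (nat_lit 66341030310) (nat_lit 152) (nat_lit 23096056691) (nat_lit 228) (nat_lit 547258350) (nat_lit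 38) (nat_lit 5) (nat_lit 40) (nat_lit 5) (nat_lit 41) (nat_lit 5) (nat_lit 397) (nat_lit 308) (nat_lit 75)))) (XT.nd (nat_lit 156) (nat_lit 0) (nat_lit 0) (XT.nd (nat_lit 78) (nat_lit 0) (nat_lit 0) (XT.lf (nat_lit 0) (nat_lit 12162834428) (nat_lit 152) (nat_lit 2346352128) (nat_lit 228) (nat_lit 77541641143) (nat_lit 35) (nat_lit 5) (nat_lit 37) (nat_lit 5) (nat_lit 38) (nat_lit 5) (nat_lit 398) (nat_lit 308) (nat_lit 74)) (XT.lf (nat_lit 0) (nat_lit 30429076184) (nat_lit 228) (nat_lit 44837160980) (nat_lit 76) (nat_lit 18900222726) (nat_lit 35) (nat_lit 5) (nat_lit 38) (nat_lit 5) (nat_lit 36) (nat_lit 5) (nat_lit 399) (nat_lit 308) (nat_lit 73))) (XT.nd (nat_lit 33540) (nat_lit 0) (nat_lit 12920) (XT.lf (nat_lit 0) (nat_lit 46848577869) (nat_lit 228) (nat_lit 8760153220) (nat_lit 76) (nat_lit 40736169935) (nat_lit 35) (nat_lit 5) (nat_lit 38) (nat_lit 5) (nat_lit 36) (nat_lit 5) (nat_lit 400)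 (nat_lit 308) (nat_lit 72)) (XT.lf (nat_lit 0) (nat_lit 1872966129) (nat_lit 0) (nat_lit 1872966129) (nat_lit 1140) (nat_lit 5020880285) (nat_lit 205) (nat_lit 5) (nat_lit 205) (nat_lit 3) (nat_lit 220) (nat_lit 3) (nat_lit 309) (nat_lit 309) (nat_lit 162))))))))
noncomputable def xc209 : XT := (XT.nd (nat_lit 2184) (nat_lit 5852) (nat_lit 0) (XT.nd (nat_lit 1092) (nat_lit 3724) (nat_lit 0) (XT.nd (nat_lit 546) (nat_lit 0) (nat_lit 228) (XT.nd (nat_lit 234) (nat_lit 0) (nat_lit 76) (XT.nd (nat_lit 78) (nat_lit 0) (nat_lit 0) (XT.lf (nat_lit 0) (nat_lit 7852258772) (nat_lit 1140) (nat_lit 5779736855) (nat_lit 1216) (nat_lit 4156978934) (nat_lit 205) (nat_lit 5) (nat_lit 220) (nat_lit 3) (nat_lit 221) (nat_lit 5) (nat_lit 310) (nat_lit 309) (nat_lit 161)) (XT.nd (nat_lit 78) (nat_lit 0) (nat_lit 76) (XT.lf (nat_lit 76) (nat_lit 2475337784) (nat_lit 0) (nat_lit 5800960009) (nat_lit 1216) (nat_lit 9774110109)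 (nat_lit 206) (nat_lit 5) (nat_lit 205) (nat_lit 5) (nat_lit 221) (nat_lit 5) (nat_lit 311) (nat_lit 309) (nat_lit 160)) (XT.lf (nat_lit 0) (nat_lit 8785950000) (nat_lit 1140) (nat_lit 7248310143) (nat_lit 1216) (nat_lit 2283245462) (nat_lit 206) (nat_lit 5) (nat_lit 221) (nat_lit 5) (nat_lit 222) (nat_lit 5) (nat_lit 312) (nat_lit 309) (nat_lit 159)))) (XT.nd (nat_lit 156) (nat_lit 0) (nat_lit 76) (XT.nd (nat_lit 78) (nat_lit 0) (nat_lit 76) (XT.lf (nat_lit 76) (nat_lit 1291584011) (nat_lit 0) (nat_lit 8081563858) (nat_lit 1216) (nat_lit 9217608575) (nat_lit 207) (nat_lit 5) (nat_lit 206) (nat_lit 5) (nat_lit 222) (nat_lit 5) (nat_lit 313) (nat_lit 309) (nat_lit 158)) (XT.lf (nat_lit 0) (nat_lit 10045548095) (nat_lit 1140) (nat_lit 8640182586) (nat_lit 1216) (nat_lit 184454192) (nat_lit 207) (nat_lit 5) (nat_lit 222) (nat_lit 5) (nat_lit 223) (nat_lit 5) (nat_lit 314) (nat_lit 309) (nat_lit 157)))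 (XT.nd (nat_lit 78) (nat_lit 0) (nat_lit 0) (XT.lf (nat_lit 76) (nat_lit 197906337) (nat_lit 0) (nat_lit 10614960394) (nat_lit 1216) (nat_lit 8342894469) (nat_lit 208) (nat_lit 5) (nat_lit 207) (nat_lit 5) (nat_lit 223) (nat_lit 5) (nat_lit 315) (nat_lit 309) (nat_lit 156)) (XT.lf (nat_lit 76) (nat_lit 9473780486) (nat_lit 0) (nat_lit 2209667748) (nat_lit 1216) (nat_lit 7764056499) (nat_lit 208) (nat_lit 5) (nat_lit 207) (nat_lit 5) (nat_lit 223) (nat_lit 5) (nat_lit 316) (nat_lit 309) (nat_lit 155))))) (XT.nd (nat_lit 234) (nat_lit 0) (nat_lit 76) (XT.nd (nat_lit 78) (nat_lit 0) (nat_lit 0) (XT.lf (nat_lit 0) (nat_lit 12635349316) (nat_lit 1140) (nat_lit 786626891) (nat_lit 1216) (nat_lit 6324375311) (nat_lit 208) (nat_lit 5) (nat_lit 223) (nat_lit 5) (nat_lit 224) (nat_lit 5) (nat_lit 317) (nat_lit 309) (nat_lit 154)) (XT.nd (nat_lit 78) (nat_lit 0) (nat_lit 76) (XT.lf (nat_lit 76) (nat_lit 8821908885)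 (nat_lit 0) (nat_lit 4893997533) (nat_lit 1216) (nat_lit 6335261122) (nat_lit 209) (nat_lit 5) (nat_lit 208) (nat_lit 5) (nat_lit 224) (nat_lit 5) (nat_lit 318) (nat_lit 309) (nat_lit 153)) (XT.lf (nat_lit 0) (nat_lit 14867881999) (nat_lit 1140) (nat_lit 1672153223) (nat_lit 1216) (nat_lit 3823929372) (nat_lit 209) (nat_lit 5) (nat_lit 224) (nat_lit 5) (nat_lit 225) (nat_lit 5) (nat_lit 319) (nat_lit 309) (nat_lit 152)))) (XT.nd (nat_lit 156) (nat_lit 0) (nat_lit 76) (XT.nd (nat_lit 78) (nat_lit 0) (nat_lit 76) (XT.lf (nat_lit 76) (nat_lit 8280303728) (nat_lit 0) (nat_lit 7895939026) (nat_lit 1216) (nat_lit 4506254444) (nat_lit 210) (nat_lit 5) (nat_lit 209) (nat_lit 5) (nat_lit 225) (nat_lit 5) (nat_lit 320) (nat_lit 309) (nat_lit 151)) (XT.lf (nat_lit 0) (nat_lit 17544521075) (nat_lit 1140) (nat_lit 2458964457) (nat_lit 1216) (nat_lit 1006486472) (nat_lit 210) (nat_lit 5) (nat_lit 225) (nat_lit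 5) (nat_lit 226) (nat_lit 5) (nat_lit 321) (nat_lit 309) (nat_lit 150))) (XT.nd (nat_lit 78) (nat_lit 0) (nat_lit 0) (XT.lf (nat_lit 76) (nat_lit 7853116266) (nat_lit 0) (nat_lit 11248504435) (nat_lit 1216) (nat_lit 2241223208) (nat_lit 211) (nat_lit 5) (nat_lit 210) (nat_lit 5) (nat_lit 226) (nat_lit 5) (nat_lit 322) (nat_lit 309) (nat_lit 149)) (XT.lf (nat_lit 76) (nat_lit 18520499858) (nat_lit 0) (nat_lit 2203999292) (nat_lit 1216) (nat_lit 960636716) (nat_lit 211) (nat_lit 5) (nat_lit 210) (nat_lit 5) (nat_lit 226) (nat_lit 5) (nat_lit 323) (nat_lit 309) (nat_lit 148)))))) (XT.nd (nat_lit 546) (nat_lit 1672) (nat_lit 0) (XT.nd (nat_lit 234) (nat_lit 1292) (nat_lit 0) (XT.nd (nat_lit 78) (nat_lit 0) (nat_lit 0) (XT.lf (nat_lit 0) (nat_lit 488009653) (nat_lit 1216) (nat_lit 14493882969) (nat_lit 1292) (nat_lit 7051607087) (nat_lit 195) (nat_lit 5) (nat_lit 211) (nat_lit 5) (nat_lit 212) (nat_lit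 5) (nat_lit 324) (nat_lit 309) (nat_lit 147)) (XT.nd (nat_lit 78) (nat_lit 0) (nat_lit 76) (XT.lf (nat_lit 0) (nat_lit 2009377602) (nat_lit 1216) (nat_lit 3797728757) (nat_lit 1292) (nat_lit 16583471041) (nat_lit 195) (nat_lit 5) (nat_lit 211) (nat_lit 5) (nat_lit 212) (nat_lit 5) (nat_lit 325) (nat_lit 309) (nat_lit 146)) (XT.lf (nat_lit 0) (nat_lit 3677483624) (nat_lit 1216) (nat_lit 15433697612) (nat_lit 76) (nat_lit 3644158488) (nat_lit 196) (nat_lit 5) (nat_lit 212) (nat_lit 5) (nat_lit 197) (nat_lit 5) (nat_lit 326) (nat_lit 309) (nat_lit 145)))) (XT.nd (nat_lit 156) (nat_lit 608) (nat_lit 0) (XT.nd (nat_lit 78) (nat_lit 760) (nat_lit 0) (XT.lf (nat_lit 0) (nat_lit 5486616211) (nat_lit 1216) (nat_lit 4339912084) (nat_lit 76) (nat_lit 13301792186) (nat_lit 196) (nat_lit 5) (nat_lit 212) (nat_lit 5) (nat_lit 197) (nat_lit 5) (nat_lit 327) (nat_lit 309) (nat_lit 144)) (XT.lf (nat_lit 0) (nat_lit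 7223185256) (nat_lit 760) (nat_lit 191181843) (nat_lit 836) (nat_lit 16096198146) (nat_lit 186) (nat_lit 5) (nat_lit 196) (nat_lit 5) (nat_lit 197) (nat_lit 5) (nat_lit 328) (nat_lit 309) (nat_lit 143))) (XT.nd (nat_lit 78) (nat_lit 608) (nat_lit 0) (XT.lf (nat_lit 0) (nat_lit 9532792771) (nat_lit 836) (nat_lit 4779387043) (nat_lit 76) (nat_lit 9588117043) (nat_lit 186) (nat_lit 5) (nat_lit 197) (nat_lit 5) (nat_lit 187) (nat_lit 5) (nat_lit 329) (nat_lit 309) (nat_lit 142)) (XT.lf (nat_lit 0) (nat_lit 7208175045) (nat_lit 608) (nat_lit 4572945466) (nat_lit 684) (nat_lit 12518614059) (nat_lit 178) (nat_lit 5) (nat_lit 186) (nat_lit 5) (nat_lit 187) (nat_lit 5) (nat_lit 330) (nat_lit 309) (nat_lit 141))))) (XT.nd (nat_lit 234) (nat_lit 1140) (nat_lit 0) (XT.nd (nat_lit 78) (nat_lit 532) (nat_lit 0) (XT.lf (nat_lit 0) (nat_lit 14193377350) (nat_lit 684) (nat_lit 5113860313) (nat_lit 76) (nat_lit 5401027874)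 (nat_lit 178) (nat_lit 5) (nat_lit 187) (nat_lit 5) (nat_lit 179) (nat_lit 5) (nat_lit 331) (nat_lit 309) (nat_lit 140)) (XT.nd (nat_lit 78) (nat_lit 0) (nat_lit 0) (XT.lf (nat_lit 0) (nat_lit 7316250306) (nat_lit 532) (nat_lit 9472763215) (nat_lit 608) (nat_lit 8336712928) (nat_lit 171) (nat_lit 5) (nat_lit 178) (nat_lit 5) (nat_lit 179) (nat_lit 5) (nat_lit 332) (nat_lit 309) (nat_lit 139)) (XT.lf (nat_lit 0) (nat_lit 19516482852) (nat_lit 608) (nat_lit 5341399587) (nat_lit 76) (nat_lit 696214067) (nat_lit 171) (nat_lit 5) (nat_lit 179) (nat_lit 5) (nat_lit 172) (nat_lit 5) (nat_lit 333) (nat_lit 309) (nat_lit 138)))) (XT.nd (nat_lit 156) (nat_lit 608) (nat_lit 0) (XT.nd (nat_lit 78) (nat_lit 0) (nat_lit 0) (XT.lf (nat_lit 0) (nat_lit 7549879496) (nat_lit 532) (nat_lit 14937891422) (nat_lit 608) (nat_lit 3502691025) (nat_lit 164) (nat_lit 5) (nat_lit 171) (nat_lit 5) (nat_lit 172) (nat_lit 5)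 (nat_lit 334) (nat_lit 309) (nat_lit 137)) (XT.lf (nat_lit 0) (nat_lit 20933057928) (nat_lit 532) (nat_lit 4664793832) (nat_lit 608) (nat_lit 840580955) (nat_lit 164) (nat_lit 5) (nat_lit 171) (nat_lit 5) (nat_lit 172) (nat_lit 5) (nat_lit 335) (nat_lit 309) (nat_lit 136))) (XT.nd (nat_lit 78) (nat_lit 0) (nat_lit 0) (XT.lf (nat_lit 0) (nat_lit 1994320106) (nat_lit 608) (nat_lit 19004481047) (nat_lit 76) (nat_lit 5896595983) (nat_lit 156) (nat_lit 5) (nat_lit 164) (nat_lit 5) (nat_lit 157) (nat_lit 5) (nat_lit 336) (nat_lit 309) (nat_lit 135)) (XT.lf (nat_lit 0) (nat_lit 4995579932) (nat_lit 608) (nat_lit 5621889003) (nat_lit 76) (nat_lit 16745409337) (nat_lit 156) (nat_lit 5) (nat_lit 164) (nat_lit 5) (nat_lit 157) (nat_lit 5) (nat_lit 337) (nat_lit 309) (nat_lit 134))))))) (XT.nd (nat_lit 1092) (nat_lit 2660) (nat_lit 0) (XT.nd (nat_lit 546) (nat_lit 1292) (nat_lit 0) (XT.nd (nat_lit 234) (nat_lit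 912) (nat_lit 0) (XT.nd (nat_lit 78) (nat_lit 456) (nat_lit 0) (XT.lf (nat_lit 0) (nat_lit 8164367310) (nat_lit 608) (nat_lit 19523332048) (nat_lit 76) (nat_lit 154363342) (nat_lit 149) (nat_lit 5) (nat_lit 157) (nat_lit 5) (nat_lit 150) (nat_lit 5) (nat_lit 338) (nat_lit 309) (nat_lit 133)) (XT.nd (nat_lit 78) (nat_lit 456) (nat_lit 0) (XT.lf (nat_lit 0) (nat_lit 11586744019) (nat_lit 608) (nat_lit 5651120072) (nat_lit 76) (nat_lit 11093006245) (nat_lit 149) (nat_lit 5) (nat_lit 157) (nat_lit 5) (nat_lit 150) (nat_lit 5) (nat_lit 339) (nat_lit 309) (nat_lit 132)) (XT.lf (nat_lit 0) (nat_lit 8804871972) (nat_lit 456) (nat_lit 6387742457) (nat_lit 532) (nat_lit 13639306449) (nat_lit 143) (nat_lit 5) (nat_lit 149) (nat_lit 5) (nat_lit 150) (nat_lit 5) (nat_lit 340) (nat_lit 309) (nat_lit 131)))) (XT.nd (nat_lit 156) (nat_lit 456) (nat_lit 0) (XT.nd (nat_lit 78) (nat_lit 456) (nat_lit 0) (XT.lf (nat_lit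 0) (nat_lit 19006566975) (nat_lit 532) (nat_lit 5586765294) (nat_lit 76) (nat_lit 4751676736) (nat_lit 143) (nat_lit 5) (nat_lit 150) (nat_lit 5) (nat_lit 144) (nat_lit 5) (nat_lit 341) (nat_lit 309) (nat_lit 130)) (XT.lf (nat_lit 0) (nat_lit 9402817651) (nat_lit 456) (nat_lit 13682111958) (nat_lit 532) (nat_lit 6784063576) (nat_lit 137) (nat_lit 5) (nat_lit 143) (nat_lit 5) (nat_lit 144) (nat_lit 5) (nat_lit 342) (nat_lit 309) (nat_lit 129))) (XT.nd (nat_lit 78) (nat_lit 456) (nat_lit 0) (XT.lf (nat_lit 0) (nat_lit 24952504913) (nat_lit 456) (nat_lit 2385981007) (nat_lit 532) (nat_lit 3068628750) (nat_lit 137) (nat_lit 5) (nat_lit 143) (nat_lit 5) (nat_lit 144) (nat_lit 5) (nat_lit 343) (nat_lit 309) (nat_lit 128)) (XT.lf (nat_lit 0) (nat_lit 927910845) (nat_lit 456) (nat_lit 20853380011) (nat_lit 76) (nat_lit 9174340012) (nat_lit 131) (nat_lit 5) (nat_lit 137) (nat_lit 5) (nat_lit 132) (nat_lit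 5) (nat_lit 344) (nat_lit 309) (nat_lit 127))))) (XT.nd (nat_lit 234) (nat_lit 836) (nat_lit 0) (XT.nd (nat_lit 78) (nat_lit 456) (nat_lit 0) (XT.lf (nat_lit 0) (nat_lit 5058472163) (nat_lit 456) (nat_lit 5339990240) (nat_lit 76) (nat_lit 21118957422) (nat_lit 131) (nat_lit 5) (nat_lit 137) (nat_lit 5) (nat_lit 132) (nat_lit 5) (nat_lit 345) (nat_lit 309) (nat_lit 126)) (XT.nd (nat_lit 78) (nat_lit 0) (nat_lit 0) (XT.lf (nat_lit 0) (nat_lit 9427636561) (nat_lit 532) (nat_lit 21260354174) (nat_lit 76) (nat_lit 1404633849) (nat_lit 125) (nat_lit 5) (nat_lit 132) (nat_lit 5) (nat_lit 126) (nat_lit 5) (nat_lit 346) (nat_lit 309) (nat_lit 125)) (XT.lf (nat_lit 0) (nat_lit 14081993811) (nat_lit 532) (nat_lit 5191849061) (nat_lit 76) (nat_lit 13406621719) (nat_lit 125) (nat_lit 5) (nat_lit 132) (nat_lit 5) (nat_lit 126) (nat_lit 5) (nat_lit 347) (nat_lit 309) (nat_lit 124)))) (XT.nd (nat_lit 156) (nat_lit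 456) (nat_lit 0) (XT.nd (nat_lit 78) (nat_lit 0) (nat_lit 0) (XT.lf (nat_lit 0) (nat_lit 11580755835) (nat_lit 380) (nat_lit 7403348726) (nat_lit 456) (nat_lit 14298594118) (nat_lit 120) (nat_lit 5) (nat_lit 125) (nat_lit 5) (nat_lit 126) (nat_lit 5) (nat_lit 348) (nat_lit 309) (nat_lit 123)) (XT.lf (nat_lit 0) (nat_lit 24129439231) (nat_lit 456) (nat_lit 4989332013) (nat_lit 76) (nat_lit 4781346219) (nat_lit 120) (nat_lit 5) (nat_lit 126) (nat_lit 5) (nat_lit 121) (nat_lit 5) (nat_lit 349) (nat_lit 309) (nat_lit 122))) (XT.nd (nat_lit 78) (nat_lit 76) (nat_lit 0) (XT.lf (nat_lit 0) (nat_lit 12389243058) (nat_lit 380) (nat_lit 17229225986) (nat_lit 456) (nat_lit 4911912132) (nat_lit 115) (nat_lit 5) (nat_lit 120) (nat_lit 5) (nat_lit 121) (nat_lit 5) (nat_lit 350) (nat_lit 309) (nat_lit 121)) (XT.lf (nat_lit 0) (nat_lit 138652761) (nat_lit 456) (nat_lit 4791875796) (nat_lit 76) (nat_lit 30247564520)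 (nat_lit 114) (nat_lit 5) (nat_lit 120) (nat_lit 5) (nat_lit 115) (nat_lit 5) (nat_lit 351) (nat_lit 309) (nat_lit 120)))))) (XT.nd (nat_lit 546) (nat_lit 1216) (nat_lit 0) (XT.nd (nat_lit 234) (nat_lit 684) (nat_lit 0) (XT.nd (nat_lit 78) (nat_lit 380) (nat_lit 0) (XT.lf (nat_lit 0) (nat_lit 5442872667) (nat_lit 456) (nat_lit 22631468999) (nat_lit 76) (nat_lit 7763412018) (nat_lit 109) (nat_lit 5) (nat_lit 115) (nat_lit 5) (nat_lit 110) (nat_lit 5) (nat_lit 352) (nat_lit 309) (nat_lit 119)) (XT.nd (nat_lit 78) (nat_lit 380) (nat_lit 0) (XT.lf (nat_lit 0) (nat_lit 11000995974) (nat_lit 456) (nat_lit 4726257465) (nat_lit 76) (nat_lit 20787109516) (nat_lit 109) (nat_lit 5) (nat_lit 115) (nat_lit 5) (nat_lit 110) (nat_lit 5) (nat_lit 353) (nat_lit 309) (nat_lit 118)) (XT.lf (nat_lit 0) (nat_lit 13985297891) (nat_lit 380) (nat_lit 2872177071) (nat_lit 456) (nat_lit 20349849268) (nat_lit 104) (nat_lit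 5) (nat_lit 109) (nat_lit 5) (nat_lit 110) (nat_lit 5) (nat_lit 354) (nat_lit 309) (nat_lit 117)))) (XT.nd (nat_lit 156) (nat_lit 380) (nat_lit 0) (XT.nd (nat_lit 78) (nat_lit 304) (nat_lit 0) (XT.lf (nat_lit 0) (nat_lit 23034730569) (nat_lit 456) (nat_lit 4668456669) (nat_lit 76) (nat_lit 10213536663) (nat_lit 104) (nat_lit 5) (nat_lit 110) (nat_lit 5) (nat_lit 105) (nat_lit 5) (nat_lit 355) (nat_lit 309) (nat_lit 116)) (XT.lf (nat_lit 0) (nat_lit 14696415846) (nat_lit 304) (nat_lit 14867892372) (nat_lit 380) (nat_lit 9078089178) (nat_lit 100) (nat_lit 5) (nat_lit 104) (nat_lit 5) (nat_lit 105) (nat_lit 5) (nat_lit 356) (nat_lit 309) (nat_lit 115))) (XT.nd (nat_lit 78) (nat_lit 380) (nat_lit 0) (XT.lf (nat_lit 0) (nat_lit 34734322220) (nat_lit 304) (nat_lit 1599933319) (nat_lit 380) (nat_lit 3054252996) (nat_lit 100) (nat_lit 5) (nat_lit 104) (nat_lit 5) (nat_lit 105) (nat_lit 5) (nat_lit 357)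 (nat_lit 309) (nat_lit 114)) (XT.lf (nat_lit 0) (nat_lit 3352813851) (nat_lit 380) (nat_lit 24784777569) (nat_lit 76) (nat_lit 12010585233) (nat_lit 95) (nat_lit 5) (nat_lit 100) (nat_lit 5) (nat_lit 96) (nat_lit 5) (nat_lit 358) (nat_lit 309) (nat_lit 113))))) (XT.nd (nat_lit 312) (nat_lit 608) (nat_lit 0) (XT.nd (nat_lit 156) (nat_lit 304) (nat_lit 0) (XT.nd (nat_lit 78) (nat_lit 304) (nat_lit 0) (XT.lf (nat_lit 0) (nat_lit 9951432754) (nat_lit 380) (nat_lit 4902447290) (nat_lit 76) (nat_lit 26074027487) (nat_lit 95) (nat_lit 5) (nat_lit 100) (nat_lit 5) (nat_lit 96) (nat_lit 5) (nat_lit 359) (nat_lit 309) (nat_lit 112)) (XT.lf (nat_lit 0) (nat_lit 15882793757) (nat_lit 304) (nat_lit 1015389756) (nat_lit 380) (nat_lit 24828343320) (nat_lit 91) (nat_lit 5) (nat_lit 95) (nat_lit 5) (nat_lit 96) (nat_lit 5) (nat_lit 360) (nat_lit 309) (nat_lit 111))) (XT.nd (nat_lit 78) (nat_lit 304) (nat_lit 0)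 (XT.lf (nat_lit 0) (nat_lit 24228114521) (nat_lit 380) (nat_lit 5286797925) (nat_lit 76) (nat_lit 13028950582) (nat_lit 91) (nat_lit 5) (nat_lit 96) (nat_lit 5) (nat_lit 92) (nat_lit 5) (nat_lit 361) (nat_lit 309) (nat_lit 110)) (XT.lf (nat_lit 0) (nat_lit 16189284324) (nat_lit 304) (nat_lit 15751934060) (nat_lit 380) (nat_lit 11439604277) (nat_lit 87) (nat_lit 5) (nat_lit 91) (nat_lit 5) (nat_lit 92) (nat_lit 5) (nat_lit 362) (nat_lit 309) (nat_lit 109)))) (XT.nd (nat_lit 156) (nat_lit 304) (nat_lit 0) (XT.nd (nat_lit 78) (nat_lit 304) (nat_lit 0) (XT.lf (nat_lit 0) (nat_lit 38414637892) (nat_lit 304) (nat_lit 1522101372) (nat_lit 380) (nat_lit 4304622652) (nat_lit 87) (nat_lit 5) (nat_lit 91) (nat_lit 5) (nat_lit 92) (nat_lit 5) (nat_lit 363) (nat_lit 309) (nat_lit 108)) (XT.lf (nat_lit 0) (nat_lit 3269087019) (nat_lit 304) (nat_lit 28782485389) (nat_lit 76) (nat_lit 13066745886) (nat_lit 83)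 (nat_lit 5) (nat_lit 87) (nat_lit 5) (nat_lit 84) (nat_lit 5) (nat_lit 364) (nat_lit 309) (nat_lit 107))) (XT.nd (nat_lit 78) (nat_lit 304) (nat_lit 0) (XT.lf (nat_lit 0) (nat_lit 11055688886) (nat_lit 304) (nat_lit 6798744130) (nat_lit 76) (nat_lit 28163707177) (nat_lit 83) (nat_lit 5) (nat_lit 87) (nat_lit 5) (nat_lit 84) (nat_lit 5) (nat_lit 365) (nat_lit 309) (nat_lit 106)) (XT.lf (nat_lit 0) (nat_lit 16156517425) (nat_lit 304) (nat_lit 3072452665) (nat_lit 380) (nat_lit 27711395602) (nat_lit 79) (nat_lit 5) (nat_lit 83) (nat_lit 5) (nat_lit 84) (nat_lit 5) (nat_lit 366) (nat_lit 309) (nat_lit 105))))))))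
noncomputable def xc210 : XT := (XT.nd (nat_lit 2184) (nat_lit 380) (nat_lit 0) (XT.nd (nat_lit 1092) (nat_lit 1444) (nat_lit 0) (XT.nd (nat_lit 546) (nat_lit 760) (nat_lit 0) (XT.nd (nat_lit 234) (nat_lit 532) (nat_lit 0) (XT.nd (nat_lit 78) (nat_lit 228) (nat_lit 0) (XT.lf (nat_lit 0) (nat_lit 27831404096) (nat_lit 380) (nat_lit 8069184473) (nat_lit 76) (nat_lit 11984152093) (nat_lit 79) (nat_lit 5) (nat_lit 84) (nat_lit 5) (nat_lit 80) (nat_lit 5) (nat_lit 367) (nat_lit 309) (nat_lit 104)) (XT.nd (nat_lit 78) (nat_lit 0) (nat_lit 0) (XT.lf (nat_lit 0) (nat_lit 15597672609) (nat_lit 228) (nat_lit 21272456015) (nat_lit 304) (nat_lit 11981973033) (nat_lit 76) (nat_lit 5) (nat_lit 79) (nat_lit 5) (nat_lit 80) (nat_lit 5) (nat_lit 368) (nat_lit 309) (nat_lit 103)) (XT.lf (nat_lit 0) (nat_lit 40136784006) (nat_lit 228) (nat_lit 6122608485) (nat_lit 304) (nat_lit 3586710924) (nat_lit 76) (nat_lit 5)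 (nat_lit 79) (nat_lit 5) (nat_lit 80) (nat_lit 5) (nat_lit 369) (nat_lit 309) (nat_lit 102)))) (XT.nd (nat_lit 156) (nat_lit 228) (nat_lit 0) (XT.nd (nat_lit 78) (nat_lit 0) (nat_lit 0) (XT.lf (nat_lit 0) (nat_lit 5194681765) (nat_lit 304) (nat_lit 36178514618) (nat_lit 76) (nat_lit 9488280135) (nat_lit 72) (nat_lit 5) (nat_lit 76) (nat_lit 5) (nat_lit 73) (nat_lit 5) (nat_lit 370) (nat_lit 309) (nat_lit 101)) (XT.lf (nat_lit 0) (nat_lit 14325017636) (nat_lit 304) (nat_lit 11998562509) (nat_lit 76) (nat_lit 25577938741) (nat_lit 72) (nat_lit 5) (nat_lit 76) (nat_lit 5) (nat_lit 73) (nat_lit 5) (nat_lit 371) (nat_lit 309) (nat_lit 100))) (XT.nd (nat_lit 78) (nat_lit 0) (nat_lit 0) (XT.lf (nat_lit 0) (nat_lit 13160555668) (nat_lit 228) (nat_lit 10693229811) (nat_lit 304) (nat_lit 29115242509) (nat_lit 69) (nat_lit 5) (nat_lit 72) (nat_lit 5) (nat_lit 73) (nat_lit 5) (nat_lit 372) (nat_lit 309) (nat_lit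 99)) (XT.lf (nat_lit 0) (nat_lit 33840777319) (nat_lit 304) (nat_lit 14800749194) (nat_lit 76) (nat_lit 5421866113) (nat_lit 69) (nat_lit 5) (nat_lit 73) (nat_lit 5) (nat_lit 70) (nat_lit 5) (nat_lit 373) (nat_lit 309) (nat_lit 98))))) (XT.nd (nat_lit 234) (nat_lit 228) (nat_lit 0) (XT.nd (nat_lit 78) (nat_lit 304) (nat_lit 0) (XT.lf (nat_lit 0) (nat_lit 11064262725) (nat_lit 228) (nat_lit 33273436797) (nat_lit 304) (nat_lit 10846580117) (nat_lit 66) (nat_lit 5) (nat_lit 69) (nat_lit 5) (nat_lit 70) (nat_lit 5) (nat_lit 374) (nat_lit 309) (nat_lit 97)) (XT.nd (nat_lit 78) (nat_lit 304) (nat_lit 0) (XT.lf (nat_lit 0) (nat_lit 38005682040) (nat_lit 228) (nat_lit 17291423800) (nat_lit 304) (nat_lit 1037261156) (nat_lit 66) (nat_lit 5) (nat_lit 69) (nat_lit 5) (nat_lit 70) (nat_lit 5) (nat_lit 375) (nat_lit 309) (nat_lit 96)) (XT.lf (nat_lit 0) (nat_lit 8308468136) (nat_lit 228) (nat_lit 658972069)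 (nat_lit 304) (nat_lit 48546562610) (nat_lit 62) (nat_lit 5) (nat_lit 65) (nat_lit 5) (nat_lit 66) (nat_lit 5) (nat_lit 376) (nat_lit 309) (nat_lit 95)))) (XT.nd (nat_lit 156) (nat_lit 0) (nat_lit 0) (XT.nd (nat_lit 78) (nat_lit 228) (nat_lit 0) (XT.lf (nat_lit 0) (nat_lit 19594864075) (nat_lit 304) (nat_lit 22776377889) (nat_lit 76) (nat_lit 16347175703) (nat_lit 62) (nat_lit 5) (nat_lit 66) (nat_lit 5) (nat_lit 63) (nat_lit 5) (nat_lit 377) (nat_lit 309) (nat_lit 94)) (XT.lf (nat_lit 0) (nat_lit 4524592193) (nat_lit 228) (nat_lit 26064759197) (nat_lit 304) (nat_lit 29368167264) (nat_lit 59) (nat_lit 5) (nat_lit 62) (nat_lit 5) (nat_lit 63) (nat_lit 5) (nat_lit 378) (nat_lit 309) (nat_lit 93))) (XT.nd (nat_lit 78) (nat_lit 0) (nat_lit 0) (XT.lf (nat_lit 0) (nat_lit 33108684494) (nat_lit 228) (nat_lit 9033233530) (nat_lit 304) (nat_lit 19085028190) (nat_lit 59) (nat_lit 5) (nat_lit 62) (nat_lit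 5) (nat_lit 63) (nat_lit 5) (nat_lit 379) (nat_lit 309) (nat_lit 92)) (XT.lf (nat_lit 0) (nat_lit 54121146849) (nat_lit 304) (nat_lit 68713885) (nat_lit 76) (nat_lit 8342194173) (nat_lit 59) (nat_lit 5) (nat_lit 63) (nat_lit 5) (nat_lit 60) (nat_lit 5) (nat_lit 380) (nat_lit 309) (nat_lit 91)))))) (XT.nd (nat_lit 546) (nat_lit 532) (nat_lit 0) (XT.nd (nat_lit 234) (nat_lit 456) (nat_lit 0) (XT.nd (nat_lit 78) (nat_lit 228) (nat_lit 0) (XT.lf (nat_lit 0) (nat_lit 2906126223) (nat_lit 228) (nat_lit 34591736409) (nat_lit 76) (nat_lit 26366516950) (nat_lit 56) (nat_lit 5) (nat_lit 59) (nat_lit 5) (nat_lit 57) (nat_lit 5) (nat_lit 381) (nat_lit 309) (nat_lit 90)) (XT.nd (nat_lit 78) (nat_lit 228) (nat_lit 0) (XT.lf (nat_lit 0) (nat_lit 14392666226) (nat_lit 228) (nat_lit 5826974737) (nat_lit 76) (nat_lit 45014564163) (nat_lit 56) (nat_lit 5) (nat_lit 59) (nat_lit 5) (nat_lit 57) (nat_lit 5) (nat_lit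 382) (nat_lit 309) (nat_lit 89)) (XT.lf (nat_lit 0) (nat_lit 24271749446) (nat_lit 228) (nat_lit 2183760965) (nat_lit 304) (nat_lit 40182664549) (nat_lit 53) (nat_lit 5) (nat_lit 56) (nat_lit 5) (nat_lit 57) (nat_lit 5) (nat_lit 383) (nat_lit 309) (nat_lit 88)))) (XT.nd (nat_lit 156) (nat_lit 304) (nat_lit 0) (XT.nd (nat_lit 78) (nat_lit 152) (nat_lit 0) (XT.lf (nat_lit 0) (nat_lit 39095650388) (nat_lit 304) (nat_lit 12850402736) (nat_lit 76) (nat_lit 16131749191) (nat_lit 53) (nat_lit 5) (nat_lit 57) (nat_lit 5) (nat_lit 54) (nat_lit 5) (nat_lit 384) (nat_lit 309) (nat_lit 87)) (XT.lf (nat_lit 0) (nat_lit 17875753356) (nat_lit 152) (nat_lit 34431147164) (nat_lit 228) (nat_lit 17247961513) (nat_lit 51) (nat_lit 5) (nat_lit 53) (nat_lit 5) (nat_lit 54) (nat_lit 5) (nat_lit 385) (nat_lit 309) (nat_lit 86))) (XT.nd (nat_lit 78) (nat_lit 304) (nat_lit 0) (XT.lf (nat_lit 0) (nat_lit 49784593447) (nat_lit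 152) (nat_lit 16258131317) (nat_lit 228) (nat_lit 5029662379) (nat_lit 51) (nat_lit 5) (nat_lit 53) (nat_lit 5) (nat_lit 54) (nat_lit 5) (nat_lit 386) (nat_lit 309) (nat_lit 85)) (XT.lf (nat_lit 0) (nat_lit 7529033498) (nat_lit 304) (nat_lit 62517717634) (nat_lit 76) (nat_lit 2582870481) (nat_lit 47) (nat_lit 5) (nat_lit 51) (nat_lit 5) (nat_lit 48) (nat_lit 5) (nat_lit 387) (nat_lit 309) (nat_lit 84))))) (XT.nd (nat_lit 234) (nat_lit 380) (nat_lit 0) (XT.nd (nat_lit 78) (nat_lit 152) (nat_lit 0) (XT.lf (nat_lit 0) (nat_lit 20739976495) (nat_lit 304) (nat_lit 31552540963) (nat_lit 76) (nat_lit 21928265016) (nat_lit 47) (nat_lit 5) (nat_lit 51) (nat_lit 5) (nat_lit 48) (nat_lit 5) (nat_lit 388) (nat_lit 309) (nat_lit 83)) (XT.nd (nat_lit 78) (nat_lit 0) (nat_lit 0) (XT.lf (nat_lit 0) (nat_lit 345924066) (nat_lit 152) (nat_lit 34003204810) (nat_lit 228) (nat_lit 41510493472) (nat_lit 45) (nat_lit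 5) (nat_lit 47) (nat_lit 5) (nat_lit 48) (nat_lit 5) (nat_lit 389) (nat_lit 309) (nat_lit 82)) (XT.lf (nat_lit 0) (nat_lit 33845745734) (nat_lit 152) (nat_lit 14838003807) (nat_lit 228) (nat_lit 28854362668) (nat_lit 45) (nat_lit 5) (nat_lit 47) (nat_lit 5) (nat_lit 48) (nat_lit 5) (nat_lit 390) (nat_lit 309) (nat_lit 81)))) (XT.nd (nat_lit 156) (nat_lit 228) (nat_lit 0) (XT.nd (nat_lit 78) (nat_lit 152) (nat_lit 0) (XT.lf (nat_lit 0) (nat_lit 63494138708) (nat_lit 228) (nat_lit 10965874022) (nat_lit 76) (nat_lit 4805572725) (nat_lit 45) (nat_lit 5) (nat_lit 48) (nat_lit 5) (nat_lit 46) (nat_lit 5) (nat_lit 391) (nat_lit 309) (nat_lit 80)) (XT.lf (nat_lit 0) (nat_lit 23042863371) (nat_lit 152) (nat_lit 56073037153) (nat_lit 228) (nat_lit 1917971113) (nat_lit 43) (nat_lit 5) (nat_lit 45) (nat_lit 5) (nat_lit 46) (nat_lit 5) (nat_lit 392) (nat_lit 309) (nat_lit 79))) (XT.nd (nat_lit 78) (nat_lit 152)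 (nat_lit 0) (XT.lf (nat_lit 0) (nat_lit 12220576166) (nat_lit 228) (nat_lit 24677347725) (nat_lit 76) (nat_lit 45950406798) (nat_lit 42) (nat_lit 5) (nat_lit 45) (nat_lit 5) (nat_lit 43) (nat_lit 5) (nat_lit 393) (nat_lit 309) (nat_lit 78)) (XT.lf (nat_lit 0) (nat_lit 9805854039) (nat_lit 152) (nat_lit 17031827434) (nat_lit 228) (nat_lit 57876184335) (nat_lit 40) (nat_lit 5) (nat_lit 42) (nat_lit 5) (nat_lit 43) (nat_lit 5) (nat_lit 394) (nat_lit 309) (nat_lit 77))))))) (XT.nd (nat_lit 34632) (nat_lit 0) (nat_lit 10868) (XT.nd (nat_lit 34086) (nat_lit 0) (nat_lit 12920) (XT.nd (nat_lit 234) (nat_lit 228) (nat_lit 0) (XT.nd (nat_lit 78) (nat_lit 152) (nat_lit 0) (XT.lf (nat_lit 0) (nat_lit 42176632927) (nat_lit 228) (nat_lit 40836153819) (nat_lit 76) (nat_lit 3614080751) (nat_lit 40) (nat_lit 5) (nat_lit 43) (nat_lit 5) (nat_lit 41) (nat_lit 5) (nat_lit 395) (nat_lit 309) (nat_lit 76)) (XT.nd (nat_lit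 78) (nat_lit 152) (nat_lit 0) (XT.lf (nat_lit 0) (nat_lit 58143121990) (nat_lit 228) (nat_lit 5912941967) (nat_lit 76) (nat_lit 24536174698) (nat_lit 40) (nat_lit 5) (nat_lit 43) (nat_lit 5) (nat_lit 41) (nat_lit 5) (nat_lit 396) (nat_lit 309) (nat_lit 75)) (XT.lf (nat_lit 0) (nat_lit 30654030098) (nat_lit 152) (nat_lit 44228014811) (nat_lit 228) (nat_lit 15725723338) (nat_lit 38) (nat_lit 5) (nat_lit 40) (nat_lit 5) (nat_lit 41) (nat_lit 5) (nat_lit 397) (nat_lit 309) (nat_lit 74)))) (XT.nd (nat_lit 156) (nat_lit 0) (nat_lit 0) (XT.nd (nat_lit 78) (nat_lit 228) (nat_lit 0) (XT.lf (nat_lit 0) (nat_lit 68437134812) (nat_lit 152) (nat_lit 23744499380) (nat_lit 228) (nat_lit 500375038) (nat_lit 38) (nat_lit 5) (nat_lit 40) (nat_lit 5) (nat_lit 41) (nat_lit 5) (nat_lit 398) (nat_lit 309) (nat_lit 73)) (XT.lf (nat_lit 0) (nat_lit 12633800736) (nat_lit 152) (nat_lit 2371939222) (nat_lit 228) (nat_lit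 79804752138) (nat_lit 35) (nat_lit 5) (nat_lit 37) (nat_lit 5) (nat_lit 38) (nat_lit 5) (nat_lit 399) (nat_lit 309) (nat_lit 72))) (XT.nd (nat_lit 33618) (nat_lit 0) (nat_lit 12920) (XT.lf (nat_lit 0) (nat_lit 31401859620) (nat_lit 228) (nat_lit 46077896169) (nat_lit 76) (nat_lit 19509879109) (nat_lit 35) (nat_lit 5) (nat_lit 38) (nat_lit 5) (nat_lit 36) (nat_lit 5) (nat_lit 400) (nat_lit 309) (nat_lit 71)) (XT.lf (nat_lit 0) (nat_lit 2031789747) (nat_lit 0) (nat_lit 2031789747) (nat_lit 1140) (nat_lit 4959866996) (nat_lit 205) (nat_lit 5) (nat_lit 205) (nat_lit 3) (nat_lit 220) (nat_lit 3) (nat_lit 310) (nat_lit 310) (nat_lit 160))))) (XT.nd (nat_lit 234) (nat_lit 0) (nat_lit 76) (XT.nd (nat_lit 78) (nat_lit 0) (nat_lit 0) (XT.lf (nat_lit 0) (nat_lit 8484491937) (nat_lit 1140) (nat_lit 5739552941) (nat_lit 1216) (nat_lit 4086286627) (nat_lit 205) (nat_lit 5) (nat_lit 220) (nat_lit 3) (nat_lit 221)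 (nat_lit 5) (nat_lit 311) (nat_lit 310) (nat_lit 159)) (XT.nd (nat_lit 78) (nat_lit 0) (nat_lit 76) (XT.lf (nat_lit 76) (nat_lit 2761080054) (nat_lit 0) (nat_lit 6150651608) (nat_lit 1216) (nat_lit 9668173806) (nat_lit 206) (nat_lit 5) (nat_lit 205) (nat_lit 5) (nat_lit 221) (nat_lit 5) (nat_lit 312) (nat_lit 310) (nat_lit 158)) (XT.lf (nat_lit 0) (nat_lit 9423757973) (nat_lit 1140) (nat_lit 7247132859) (nat_lit 1216) (nat_lit 2184524394) (nat_lit 206) (nat_lit 5) (nat_lit 221) (nat_lit 5) (nat_lit 222) (nat_lit 5) (nat_lit 313) (nat_lit 310) (nat_lit 157)))) (XT.nd (nat_lit 156) (nat_lit 0) (nat_lit 76) (XT.nd (nat_lit 78) (nat_lit 0) (nat_lit 76) (XT.lf (nat_lit 76) (nat_lit 1546814722) (nat_lit 0) (nat_lit 8472938138) (nat_lit 1216) (nat_lit 9117386620) (nat_lit 207) (nat_lit 5) (nat_lit 206) (nat_lit 5) (nat_lit 222) (nat_lit 5) (nat_lit 314) (nat_lit 310) (nat_lit 156)) (XT.lf (nat_lit 0) (nat_lit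 10700292182) (nat_lit 1140) (nat_lit 8676810948) (nat_lit 1216) (nat_lit 48219610) (nat_lit 207) (nat_lit 5) (nat_lit 222) (nat_lit 5) (nat_lit 223) (nat_lit 5) (nat_lit 315) (nat_lit 310) (nat_lit 155))) (XT.nd (nat_lit 78) (nat_lit 0) (nat_lit 0) (XT.lf (nat_lit 76) (nat_lit 424238515) (nat_lit 0) (nat_lit 11058217881) (nat_lit 1216) (nat_lit 8237265849) (nat_lit 208) (nat_lit 5) (nat_lit 207) (nat_lit 5) (nat_lit 223) (nat_lit 5) (nat_lit 316) (nat_lit 310) (nat_lit 154)) (XT.lf (nat_lit 76) (nat_lit 9971969617) (nat_lit 0) (nat_lit 2397131252) (nat_lit 1216) (nat_lit 7651429210) (nat_lit 208) (nat_lit 5) (nat_lit 207) (nat_lit 5) (nat_lit 223) (nat_lit 5) (nat_lit 317) (nat_lit 310) (nat_lit 153)))))) (XT.nd (nat_lit 546) (nat_lit 2280) (nat_lit 0) (XT.nd (nat_lit 234) (nat_lit 0) (nat_lit 76) (XT.nd (nat_lit 78) (nat_lit 0) (nat_lit 0) (XT.lf (nat_lit 0) (nat_lit 13338666488) (nat_lit 1140)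 (nat_lit 591254526) (nat_lit 1216) (nat_lit 6398758085) (nat_lit 208) (nat_lit 5) (nat_lit 223) (nat_lit 5) (nat_lit 224) (nat_lit 5) (nat_lit 318) (nat_lit 310) (nat_lit 152)) (XT.nd (nat_lit 78) (nat_lit 0) (nat_lit 76) (XT.lf (nat_lit 76) (nat_lit 9303390546) (nat_lit 0) (nat_lit 5140889635) (nat_lit 1216) (nat_lit 6198589988) (nat_lit 209) (nat_lit 5) (nat_lit 208) (nat_lit 5) (nat_lit 224) (nat_lit 5) (nat_lit 319) (nat_lit 310) (nat_lit 151)) (XT.lf (nat_lit 0) (nat_lit 15620651097) (nat_lit 1140) (nat_lit 1501328746) (nat_lit 1216) (nat_lit 3843385692) (nat_lit 209) (nat_lit 5) (nat_lit 224) (nat_lit 5) (nat_lit 225) (nat_lit 5) (nat_lit 320) (nat_lit 310) (nat_lit 150)))) (XT.nd (nat_lit 156) (nat_lit 0) (nat_lit 76) (XT.nd (nat_lit 78) (nat_lit 0) (nat_lit 76) (XT.lf (nat_lit 76) (nat_lit 8747535354) (nat_lit 0) (nat_lit 8213896816) (nat_lit 1216) (nat_lit 4332236067) (nat_lit 210) (nat_lit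 5) (nat_lit 209) (nat_lit 5) (nat_lit 225) (nat_lit 5) (nat_lit 321) (nat_lit 310) (nat_lit 149)) (XT.lf (nat_lit 0) (nat_lit 18361267140) (nat_lit 1140) (nat_lit 2310494770) (nat_lit 1216) (nat_lit 959499062) (nat_lit 210) (nat_lit 5) (nat_lit 225) (nat_lit 5) (nat_lit 226) (nat_lit 5) (nat_lit 322) (nat_lit 310) (nat_lit 148))) (XT.nd (nat_lit 78) (nat_lit 0) (nat_lit 0) (XT.lf (nat_lit 76) (nat_lit 8308769564) (nat_lit 0) (nat_lit 11649966984) (nat_lit 1216) (nat_lit 2015581460) (nat_lit 211) (nat_lit 5) (nat_lit 210) (nat_lit 5) (nat_lit 226) (nat_lit 5) (nat_lit 323) (nat_lit 310) (nat_lit 147)) (XT.lf (nat_lit 76) (nat_lit 19289765155) (nat_lit 0) (nat_lit 2332262393) (nat_lit 1216) (nat_lit 705107813) (nat_lit 211) (nat_lit 5) (nat_lit 210) (nat_lit 5) (nat_lit 226) (nat_lit 5) (nat_lit 324) (nat_lit 310) (nat_lit 146))))) (XT.nd (nat_lit 312) (nat_lit 1292) (nat_lit 0) (XT.nd (nat_lit 156)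 (nat_lit 0) (nat_lit 76) (XT.nd (nat_lit 78) (nat_lit 0) (nat_lit 0) (XT.lf (nat_lit 0) (nat_lit 774884934) (nat_lit 1216) (nat_lit 14702398884) (nat_lit 1292) (nat_lit 7208789172) (nat_lit 195) (nat_lit 5) (nat_lit 211) (nat_lit 5) (nat_lit 212) (nat_lit 5) (nat_lit 325) (nat_lit 310) (nat_lit 145)) (XT.lf (nat_lit 0) (nat_lit 2333964747) (nat_lit 1216) (nat_lit 3691951324) (nat_lit 1292) (nat_lit 17028192524) (nat_lit 195) (nat_lit 5) (nat_lit 211) (nat_lit 5) (nat_lit 212) (nat_lit 5) (nat_lit 326) (nat_lit 310) (nat_lit 144))) (XT.nd (nat_lit 78) (nat_lit 0) (nat_lit 0) (XT.lf (nat_lit 0) (nat_lit 4046111500) (nat_lit 1216) (nat_lit 15670747327) (nat_lit 76) (nat_lit 3713142521) (nat_lit 196) (nat_lit 5) (nat_lit 212) (nat_lit 5) (nat_lit 197) (nat_lit 5) (nat_lit 327) (nat_lit 310) (nat_lit 143)) (XT.lf (nat_lit 0) (nat_lit 5901994665) (nat_lit 1216) (nat_lit 4250729628) (nat_lit 76) (nat_lit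 13661680202) (nat_lit 196) (nat_lit 5) (nat_lit 212) (nat_lit 5) (nat_lit 197) (nat_lit 5) (nat_lit 328) (nat_lit 310) (nat_lit 142)))) (XT.nd (nat_lit 156) (nat_lit 608) (nat_lit 0) (XT.nd (nat_lit 78) (nat_lit 0) (nat_lit 0) (XT.lf (nat_lit 0) (nat_lit 7657109850) (nat_lit 760) (nat_lit 225252097) (nat_lit 836) (nat_lit 16325918193) (nat_lit 186) (nat_lit 5) (nat_lit 196) (nat_lit 5) (nat_lit 197) (nat_lit 5) (nat_lit 329) (nat_lit 310) (nat_lit 141)) (XT.lf (nat_lit 0) (nat_lit 10056923606) (nat_lit 836) (nat_lit 4704221596) (nat_lit 76) (nat_lit 9848787850) (nat_lit 186) (nat_lit 5) (nat_lit 197) (nat_lit 5) (nat_lit 187) (nat_lit 5) (nat_lit 330) (nat_lit 310) (nat_lit 140))) (XT.nd (nat_lit 78) (nat_lit 0) (nat_lit 0) (XT.lf (nat_lit 0) (nat_lit 7640824737) (nat_lit 608) (nat_lit 4727020332) (nat_lit 684) (nat_lit 12653661162) (nat_lit 178) (nat_lit 5) (nat_lit 186) (nat_lit 5) (nat_lit 187)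 (nat_lit 5) (nat_lit 331) (nat_lit 310) (nat_lit 139)) (XT.lf (nat_lit 0) (nat_lit 14845517135) (nat_lit 684) (nat_lit 5050007054) (nat_lit 76) (nat_lit 5546983966) (nat_lit 178) (nat_lit 5) (nat_lit 187) (nat_lit 5) (nat_lit 179) (nat_lit 5) (nat_lit 332) (nat_lit 310) (nat_lit 138))))))))
noncomputable def xc211 : XT := (XT.nd (nat_lit 2184) (nat_lit 3648) (nat_lit 0) (XT.nd (nat_lit 1092) (nat_lit 2736) (nat_lit 0) (XT.nd (nat_lit 546) (nat_lit 1368) (nat_lit 0) (XT.nd (nat_lit 234) (nat_lit 1140) (nat_lit 0) (XT.nd (nat_lit 78) (nat_lit 532) (nat_lit 0) (XT.lf (nat_lit 0) (nat_lit 7750876794) (nat_lit 532) (nat_lit 9763621262) (nat_lit 608) (nat_lit 8358136837) (nat_lit 171) (nat_lit 5) (nat_lit 178) (nat_lit 5) (nat_lit 179) (nat_lit 5) (nat_lit 333) (nat_lit 310) (nat_lit 137)) (XT.nd (nat_lit 78) (nat_lit 532) (nat_lit 0) (XT.lf (nat_lit 0) (nat_lit 20317268565) (nat_lit 608) (nat_lit 5286043037)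 (nat_lit 76) (nat_lit 710746223) (nat_lit 171) (nat_lit 5) (nat_lit 179) (nat_lit 5) (nat_lit 172) (nat_lit 5) (nat_lit 334) (nat_lit 310) (nat_lit 136)) (XT.lf (nat_lit 0) (nat_lit 7989860708) (nat_lit 532) (nat_lit 15383616094) (nat_lit 608) (nat_lit 3390169885) (nat_lit 164) (nat_lit 5) (nat_lit 171) (nat_lit 5) (nat_lit 172) (nat_lit 5) (nat_lit 335) (nat_lit 310) (nat_lit 135)))) (XT.nd (nat_lit 156) (nat_lit 532) (nat_lit 0) (XT.nd (nat_lit 78) (nat_lit 608) (nat_lit 0) (XT.lf (nat_lit 0) (nat_lit 21768316488) (nat_lit 532) (nat_lit 4802395830) (nat_lit 608) (nat_lit 654534432) (nat_lit 164) (nat_lit 5) (nat_lit 171) (nat_lit 5) (nat_lit 172) (nat_lit 5) (nat_lit 336) (nat_lit 310) (nat_lit 134)) (XT.lf (nat_lit 0) (nat_lit 2257333059) (nat_lit 608) (nat_lit 19358902207) (nat_lit 76) (nat_lit 6079748062) (nat_lit 156) (nat_lit 5) (nat_lit 164) (nat_lit 5) (nat_lit 157) (nat_lit 5) (nat_lit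 337) (nat_lit 310) (nat_lit 133))) (XT.nd (nat_lit 78) (nat_lit 532) (nat_lit 0) (XT.lf (nat_lit 0) (nat_lit 5342712719) (nat_lit 608) (nat_lit 5581115312) (nat_lit 76) (nat_lit 17253843656) (nat_lit 156) (nat_lit 5) (nat_lit 164) (nat_lit 5) (nat_lit 157) (nat_lit 5) (nat_lit 338) (nat_lit 310) (nat_lit 132)) (XT.lf (nat_lit 0) (nat_lit 8602944828) (nat_lit 608) (nat_lit 19895812884) (nat_lit 76) (nat_lit 172587599) (nat_lit 149) (nat_lit 5) (nat_lit 157) (nat_lit 5) (nat_lit 150) (nat_lit 5) (nat_lit 339) (nat_lit 310) (nat_lit 131))))) (XT.nd (nat_lit 234) (nat_lit 912) (nat_lit 0) (XT.nd (nat_lit 78) (nat_lit 456) (nat_lit 0) (XT.lf (nat_lit 0) (nat_lit 12122352650) (nat_lit 608) (nat_lit 5613644814) (nat_lit 76) (nat_lit 11438993866) (nat_lit 149) (nat_lit 5) (nat_lit 157) (nat_lit 5) (nat_lit 150) (nat_lit 5) (nat_lit 340) (nat_lit 310) (nat_lit 130)) (XT.nd (nat_lit 78) (nat_lit 0) (nat_lit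 0) (XT.lf (nat_lit 0) (nat_lit 9273997492) (nat_lit 456) (nat_lit 6558896154) (nat_lit 532) (nat_lit 13858289711) (nat_lit 143) (nat_lit 5) (nat_lit 149) (nat_lit 5) (nat_lit 150) (nat_lit 5) (nat_lit 341) (nat_lit 310) (nat_lit 129)) (XT.lf (nat_lit 0) (nat_lit 19756082078) (nat_lit 532) (nat_lit 5550021014) (nat_lit 76) (nat_lit 4913721180) (nat_lit 143) (nat_lit 5) (nat_lit 150) (nat_lit 5) (nat_lit 144) (nat_lit 5) (nat_lit 342) (nat_lit 310) (nat_lit 128)))) (XT.nd (nat_lit 156) (nat_lit 456) (nat_lit 0) (XT.nd (nat_lit 78) (nat_lit 0) (nat_lit 0) (XT.lf (nat_lit 0) (nat_lit 9887246015) (nat_lit 456) (nat_lit 14066271772) (nat_lit 532) (nat_lit 6806113053) (nat_lit 137) (nat_lit 5) (nat_lit 143) (nat_lit 5) (nat_lit 144) (nat_lit 5) (nat_lit 343) (nat_lit 310) (nat_lit 127)) (XT.lf (nat_lit 0) (nat_lit 25897530385) (nat_lit 456) (nat_lit 2432023015) (nat_lit 532) (nat_lit 2984500786) (nat_lit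 137) (nat_lit 5) (nat_lit 143) (nat_lit 5) (nat_lit 144) (nat_lit 5) (nat_lit 344) (nat_lit 310) (nat_lit 126))) (XT.nd (nat_lit 78) (nat_lit 0) (nat_lit 0) (XT.lf (nat_lit 0) (nat_lit 1125642867) (nat_lit 456) (nat_lit 21275958565) (nat_lit 76) (nat_lit 9477463398) (nat_lit 131) (nat_lit 5) (nat_lit 137) (nat_lit 5) (nat_lit 132) (nat_lit 5) (nat_lit 345) (nat_lit 310) (nat_lit 125)) (XT.lf (nat_lit 0) (nat_lit 5375172635) (nat_lit 456) (nat_lit 5303080388) (nat_lit 76) (nat_lit 21779606907) (nat_lit 131) (nat_lit 5) (nat_lit 137) (nat_lit 5) (nat_lit 132) (nat_lit 5) (nat_lit 346) (nat_lit 310) (nat_lit 124)))))) (XT.nd (nat_lit 546) (nat_lit 1064) (nat_lit 0) (XT.nd (nat_lit 234) (nat_lit 836) (nat_lit 0) (XT.nd (nat_lit 78) (nat_lit 380) (nat_lit 0) (XT.lf (nat_lit 0) (nat_lit 9872802610) (nat_lit 532) (nat_lit 21698315688) (nat_lit 76) (nat_lit 1479284720) (nat_lit 125) (nat_lit 5) (nat_lit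 132) (nat_lit 5) (nat_lit 126) (nat_lit 5) (nat_lit 347) (nat_lit 310) (nat_lit 123)) (XT.nd (nat_lit 78) (nat_lit 380) (nat_lit 0) (XT.lf (nat_lit 0) (nat_lit 14662062316) (nat_lit 532) (nat_lit 5153576270) (nat_lit 76) (nat_lit 13840385279) (nat_lit 125) (nat_lit 5) (nat_lit 132) (nat_lit 5) (nat_lit 126) (nat_lit 5) (nat_lit 348) (nat_lit 310) (nat_lit 122)) (XT.lf (nat_lit 0) (nat_lit 12120304535) (nat_lit 380) (nat_lit 7588188142) (nat_lit 456) (nat_lit 14567918291) (nat_lit 120) (nat_lit 5) (nat_lit 125) (nat_lit 5) (nat_lit 126) (nat_lit 5) (nat_lit 349) (nat_lit 310) (nat_lit 121)))) (XT.nd (nat_lit 156) (nat_lit 456) (nat_lit 0) (XT.nd (nat_lit 78) (nat_lit 380) (nat_lit 0) (XT.lf (nat_lit 0) (nat_lit 25004024500) (nat_lit 456) (nat_lit 4948199818) (nat_lit 76) (nat_lit 4960256459) (nat_lit 120) (nat_lit 5) (nat_lit 126) (nat_lit 5) (nat_lit 121) (nat_lit 5) (nat_lit 350) (nat_lit 310)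 (nat_lit 120)) (XT.lf (nat_lit 0) (nat_lit 12949861798) (nat_lit 380) (nat_lit 17705290249) (nat_lit 456) (nat_lit 4906581019) (nat_lit 115) (nat_lit 5) (nat_lit 120) (nat_lit 5) (nat_lit 121) (nat_lit 5) (nat_lit 351) (nat_lit 310) (nat_lit 119))) (XT.nd (nat_lit 78) (nat_lit 380) (nat_lit 0) (XT.lf (nat_lit 0) (nat_lit 288160862) (nat_lit 456) (nat_lit 4749192014) (nat_lit 76) (nat_lit 31191613501) (nat_lit 114) (nat_lit 5) (nat_lit 120) (nat_lit 5) (nat_lit 115) (nat_lit 5) (nat_lit 352) (nat_lit 310) (nat_lit 118)) (XT.lf (nat_lit 0) (nat_lit 5749449582) (nat_lit 456) (nat_lit 23121809369) (nat_lit 76) (nat_lit 8037222762) (nat_lit 109) (nat_lit 5) (nat_lit 115) (nat_lit 5) (nat_lit 110) (nat_lit 5) (nat_lit 353) (nat_lit 310) (nat_lit 117))))) (XT.nd (nat_lit 234) (nat_lit 684) (nat_lit 0) (XT.nd (nat_lit 78) (nat_lit 380) (nat_lit 0) (XT.lf (nat_lit 0) (nat_lit 11470143072) (nat_lit 456) (nat_lit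 4684934800) (nat_lit 76) (nat_lit 21450439678) (nat_lit 109) (nat_lit 5) (nat_lit 115) (nat_lit 5) (nat_lit 110) (nat_lit 5) (nat_lit 354) (nat_lit 310) (nat_lit 116)) (XT.nd (nat_lit 78) (nat_lit 0) (nat_lit 0) (XT.lf (nat_lit 0) (nat_lit 14586172016) (nat_lit 380) (nat_lit 2913835368) (nat_lit 456) (nat_lit 20819332544) (nat_lit 104) (nat_lit 5) (nat_lit 109) (nat_lit 5) (nat_lit 110) (nat_lit 5) (nat_lit 355) (nat_lit 310) (nat_lit 115)) (XT.lf (nat_lit 0) (nat_lit 23859011322) (nat_lit 456) (nat_lit 4628809991) (nat_lit 76) (nat_lit 10562310261) (nat_lit 104) (nat_lit 5) (nat_lit 110) (nat_lit 5) (nat_lit 105) (nat_lit 5) (nat_lit 356) (nat_lit 310) (nat_lit 114)))) (XT.nd (nat_lit 156) (nat_lit 380) (nat_lit 0) (XT.nd (nat_lit 78) (nat_lit 0) (nat_lit 0) (XT.lf (nat_lit 0) (nat_lit 15315246931) (nat_lit 304) (nat_lit 15267059083) (nat_lit 380) (nat_lit 9215337193) (nat_lit 100) (nat_lit 5)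 (nat_lit 104) (nat_lit 5) (nat_lit 105) (nat_lit 5) (nat_lit 357) (nat_lit 310) (nat_lit 113)) (XT.lf (nat_lit 0) (nat_lit 35949107818) (nat_lit 304) (nat_lit 1602426406) (nat_lit 380) (nat_lit 3014720721) (nat_lit 100) (nat_lit 5) (nat_lit 104) (nat_lit 5) (nat_lit 105) (nat_lit 5) (nat_lit 358) (nat_lit 310) (nat_lit 112))) (XT.nd (nat_lit 78) (nat_lit 0) (nat_lit 0) (XT.lf (nat_lit 0) (nat_lit 3580375976) (nat_lit 380) (nat_lit 25351208078) (nat_lit 76) (nat_lit 12417142492) (nat_lit 95) (nat_lit 5) (nat_lit 100) (nat_lit 5) (nat_lit 96) (nat_lit 5) (nat_lit 359) (nat_lit 310) (nat_lit 111)) (XT.lf (nat_lit 0) (nat_lit 10373255067) (nat_lit 380) (nat_lit 4877566516) (nat_lit 76) (nat_lit 26901141227) (nat_lit 95) (nat_lit 5) (nat_lit 100) (nat_lit 5) (nat_lit 96) (nat_lit 5) (nat_lit 360) (nat_lit 310) (nat_lit 110))))))) (XT.nd (nat_lit 1092) (nat_lit 1672) (nat_lit 0) (XT.nd (nat_lit 546) (nat_lit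 760) (nat_lit 0) (XT.nd (nat_lit 234) (nat_lit 608) (nat_lit 0) (XT.nd (nat_lit 78) (nat_lit 304) (nat_lit 0) (XT.lf (nat_lit 0) (nat_lit 16529545937) (nat_lit 304) (nat_lit 996908475) (nat_lit 380) (nat_lit 25448147331) (nat_lit 91) (nat_lit 5) (nat_lit 95) (nat_lit 5) (nat_lit 96) (nat_lit 5) (nat_lit 361) (nat_lit 310) (nat_lit 109)) (XT.nd (nat_lit 78) (nat_lit 304) (nat_lit 0) (XT.lf (nat_lit 0) (nat_lit 25073206367) (nat_lit 380) (nat_lit 5276937016) (nat_lit 76) (nat_lit 13466409313) (nat_lit 91) (nat_lit 5) (nat_lit 96) (nat_lit 5) (nat_lit 92) (nat_lit 5) (nat_lit 362) (nat_lit 310) (nat_lit 108)) (XT.lf (nat_lit 0) (nat_lit 16841776084) (nat_lit 304) (nat_lit 16174086644) (nat_lit 380) (nat_lit 11662815903) (nat_lit 87) (nat_lit 5) (nat_lit 91) (nat_lit 5) (nat_lit 92) (nat_lit 5) (nat_lit 363) (nat_lit 310) (nat_lit 107)))) (XT.nd (nat_lit 156) (nat_lit 304) (nat_lit 0) (XT.nd (nat_lit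 78) (nat_lit 304) (nat_lit 0) (XT.lf (nat_lit 0) (nat_lit 39729031622) (nat_lit 304) (nat_lit 1518827096) (nat_lit 380) (nat_lit 4317279290) (nat_lit 87) (nat_lit 5) (nat_lit 91) (nat_lit 5) (nat_lit 92) (nat_lit 5) (nat_lit 364) (nat_lit 310) (nat_lit 106)) (XT.lf (nat_lit 0) (nat_lit 3480089036) (nat_lit 304) (nat_lit 29480310650) (nat_lit 76) (nat_lit 13508010288) (nat_lit 83) (nat_lit 5) (nat_lit 87) (nat_lit 5) (nat_lit 84) (nat_lit 5) (nat_lit 365) (nat_lit 310) (nat_lit 105))) (XT.nd (nat_lit 78) (nat_lit 304) (nat_lit 0) (XT.lf (nat_lit 0) (nat_lit 11496999753) (nat_lit 304) (nat_lit 6841881891) (nat_lit 76) (nat_lit 29056445602) (nat_lit 83) (nat_lit 5) (nat_lit 87) (nat_lit 5) (nat_lit 84) (nat_lit 5) (nat_lit 366) (nat_lit 310) (nat_lit 104)) (XT.lf (nat_lit 0) (nat_lit 16800460800) (nat_lit 304) (nat_lit 3113355977) (nat_lit 380) (nat_lit 28431454589) (nat_lit 79) (nat_lit 5) (nat_lit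 83) (nat_lit 5) (nat_lit 84) (nat_lit 5) (nat_lit 367) (nat_lit 310) (nat_lit 103))))) (XT.nd (nat_lit 234) (nat_lit 532) (nat_lit 0) (XT.nd (nat_lit 78) (nat_lit 228) (nat_lit 0) (XT.lf (nat_lit 0) (nat_lit 28771657312) (nat_lit 380) (nat_lit 8153919903) (nat_lit 76) (nat_lit 12392482287) (nat_lit 79) (nat_lit 5) (nat_lit 84) (nat_lit 5) (nat_lit 80) (nat_lit 5) (nat_lit 368) (nat_lit 310) (nat_lit 102)) (XT.nd (nat_lit 78) (nat_lit 0) (nat_lit 0) (XT.lf (nat_lit 0) (nat_lit 16221400342) (nat_lit 228) (nat_lit 21858573541) (nat_lit 304) (nat_lit 12234516400) (nat_lit 76) (nat_lit 5) (nat_lit 79) (nat_lit 5) (nat_lit 80) (nat_lit 5) (nat_lit 369) (nat_lit 310) (nat_lit 101)) (XT.lf (nat_lit 0) (nat_lit 41492147288) (nat_lit 228) (nat_lit 6255746784) (nat_lit 304) (nat_lit 3590510480) (nat_lit 76) (nat_lit 5) (nat_lit 79) (nat_lit 5) (nat_lit 80) (nat_lit 5) (nat_lit 370) (nat_lit 310) (nat_lit 100))))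 (XT.nd (nat_lit 156) (nat_lit 228) (nat_lit 0) (XT.nd (nat_lit 78) (nat_lit 0) (nat_lit 0) (XT.lf (nat_lit 0) (nat_lit 5451289384) (nat_lit 304) (nat_lit 37109460172) (nat_lit 76) (nat_lit 9823491336) (nat_lit 72) (nat_lit 5) (nat_lit 76) (nat_lit 5) (nat_lit 73) (nat_lit 5) (nat_lit 371) (nat_lit 310) (nat_lit 99)) (XT.lf (nat_lit 0) (nat_lit 14852600366) (nat_lit 304) (nat_lit 12208606875) (nat_lit 76) (nat_lit 26394366997) (nat_lit 72) (nat_lit 5) (nat_lit 76) (nat_lit 5) (nat_lit 73) (nat_lit 5) (nat_lit 372) (nat_lit 310) (nat_lit 98))) (XT.nd (nat_lit 78) (nat_lit 0) (nat_lit 0) (XT.lf (nat_lit 0) (nat_lit 13703815116) (nat_lit 228) (nat_lit 10961993570) (nat_lit 304) (nat_lit 29889344215) (nat_lit 69) (nat_lit 5) (nat_lit 72) (nat_lit 5) (nat_lit 73) (nat_lit 5) (nat_lit 373) (nat_lit 310) (nat_lit 97)) (XT.lf (nat_lit 0) (nat_lit 34950087838) (nat_lit 304) (nat_lit 15098277949) (nat_lit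 76) (nat_lit 5634053924) (nat_lit 69) (nat_lit 5) (nat_lit 73) (nat_lit 5) (nat_lit 70) (nat_lit 5) (nat_lit 374) (nat_lit 310) (nat_lit 96)))))) (XT.nd (nat_lit 546) (nat_lit 760) (nat_lit 0) (XT.nd (nat_lit 234) (nat_lit 380) (nat_lit 0) (XT.nd (nat_lit 78) (nat_lit 304) (nat_lit 0) (XT.lf (nat_lit 0) (nat_lit 11541248114) (nat_lit 228) (nat_lit 34219323572) (nat_lit 304) (nat_lit 11076403548) (nat_lit 66) (nat_lit 5) (nat_lit 69) (nat_lit 5) (nat_lit 70) (nat_lit 5) (nat_lit 375) (nat_lit 310) (nat_lit 95)) (XT.nd (nat_lit 78) (nat_lit 304) (nat_lit 0) (XT.lf (nat_lit 0) (nat_lit 39286685032) (nat_lit 228) (nat_lit 17759373961) (nat_lit 304) (nat_lit 975588726) (nat_lit 66) (nat_lit 5) (nat_lit 69) (nat_lit 5) (nat_lit 70) (nat_lit 5) (nat_lit 376) (nat_lit 310) (nat_lit 94)) (XT.lf (nat_lit 0) (nat_lit 8699014111) (nat_lit 228) (nat_lit 627137186) (nat_lit 304) (nat_lit 49910534696) (nat_lit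 62) (nat_lit 5) (nat_lit 65) (nat_lit 5) (nat_lit 66) (nat_lit 5) (nat_lit 377) (nat_lit 310) (nat_lit 93)))) (XT.nd (nat_lit 156) (nat_lit 152) (nat_lit 0) (XT.nd (nat_lit 78) (nat_lit 228) (nat_lit 0) (XT.lf (nat_lit 0) (nat_lit 20270267216) (nat_lit 304) (nat_lit 23320317005) (nat_lit 76) (nat_lit 16886714337) (nat_lit 62) (nat_lit 5) (nat_lit 66) (nat_lit 5) (nat_lit 63) (nat_lit 5) (nat_lit 378) (nat_lit 310) (nat_lit 92)) (XT.lf (nat_lit 0) (nat_lit 4798315981) (nat_lit 228) (nat_lit 26795049366) (nat_lit 304) (nat_lit 30160245251) (nat_lit 59) (nat_lit 5) (nat_lit 62) (nat_lit 5) (nat_lit 63) (nat_lit 5) (nat_lit 379) (nat_lit 310) (nat_lit 91))) (XT.nd (nat_lit 78) (nat_lit 152) (nat_lit 0) (XT.lf (nat_lit 0) (nat_lit 34235912041) (nat_lit 228) (nat_lit 9254082374) (nat_lit 304) (nat_lit 19571203278) (nat_lit 59) (nat_lit 5) (nat_lit 62) (nat_lit 5) (nat_lit 63) (nat_lit 5) (nat_lit 380)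 (nat_lit 310) (nat_lit 90)) (XT.lf (nat_lit 0) (nat_lit 62524252) (nat_lit 152) (nat_lit 55764703562) (nat_lit 228) (nat_lit 8578274234) (nat_lit 57) (nat_lit 5) (nat_lit 59) (nat_lit 5) (nat_lit 60) (nat_lit 5) (nat_lit 381) (nat_lit 310) (nat_lit 89))))) (XT.nd (nat_lit 312) (nat_lit 456) (nat_lit 0) (XT.nd (nat_lit 156) (nat_lit 228) (nat_lit 0) (XT.nd (nat_lit 78) (nat_lit 0) (nat_lit 0) (XT.lf (nat_lit 0) (nat_lit 3074867209) (nat_lit 228) (nat_lit 35497042019) (nat_lit 76) (nat_lit 27205916276) (nat_lit 56) (nat_lit 5) (nat_lit 59) (nat_lit 5) (nat_lit 57) (nat_lit 5) (nat_lit 382) (nat_lit 310) (nat_lit 88)) (XT.lf (nat_lit 0) (nat_lit 14903627959) (nat_lit 228) (nat_lit 5873195162) (nat_lit 76) (nat_lit 46411995085) (nat_lit 56) (nat_lit 5) (nat_lit 59) (nat_lit 5) (nat_lit 57) (nat_lit 5) (nat_lit 383) (nat_lit 310) (nat_lit 87))) (XT.nd (nat_lit 78) (nat_lit 0) (nat_lit 0) (XT.lf (nat_lit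 0) (nat_lit 25127230072) (nat_lit 228) (nat_lit 2200045089) (nat_lit 304) (nat_lit 41307665538) (nat_lit 53) (nat_lit 5) (nat_lit 56) (nat_lit 5) (nat_lit 57) (nat_lit 5) (nat_lit 384) (nat_lit 310) (nat_lit 86)) (XT.lf (nat_lit 0) (nat_lit 40344804031) (nat_lit 304) (nat_lit 13110444493) (nat_lit 76) (nat_lit 16662563875) (nat_lit 53) (nat_lit 5) (nat_lit 57) (nat_lit 5) (nat_lit 54) (nat_lit 5) (nat_lit 385) (nat_lit 310) (nat_lit 85)))) (XT.nd (nat_lit 156) (nat_lit 304) (nat_lit 0) (XT.nd (nat_lit 78) (nat_lit 0) (nat_lit 0) (XT.lf (nat_lit 0) (nat_lit 18536266180) (nat_lit 152) (nat_lit 35415097891) (nat_lit 228) (nat_lit 17687851698) (nat_lit 51) (nat_lit 5) (nat_lit 53) (nat_lit 5) (nat_lit 54) (nat_lit 5) (nat_lit 386) (nat_lit 310) (nat_lit 84)) (XT.lf (nat_lit 0) (nat_lit 51398752827) (nat_lit 152) (nat_lit 16698318278) (nat_lit 228) (nat_lit 5105262289) (nat_lit 51) (nat_lit 5) (nat_lit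 53) (nat_lit 5) (nat_lit 54) (nat_lit 5) (nat_lit 387) (nat_lit 310) (nat_lit 83))) (XT.nd (nat_lit 78) (nat_lit 0) (nat_lit 0) (XT.lf (nat_lit 0) (nat_lit 7828199878) (nat_lit 304) (nat_lit 64270569041) (nat_lit 76) (nat_lit 2707510975) (nat_lit 47) (nat_lit 5) (nat_lit 51) (nat_lit 5) (nat_lit 48) (nat_lit 5) (nat_lit 388) (nat_lit 310) (nat_lit 82)) (XT.lf (nat_lit 0) (nat_lit 21433336348) (nat_lit 304) (nat_lit 32380010277) (nat_lit 76) (nat_lit 22631893917) (nat_lit 47) (nat_lit 5) (nat_lit 51) (nat_lit 5) (nat_lit 48) (nat_lit 5) (nat_lit 389) (nat_lit 310) (nat_lit 81))))))))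
noncomputable def xc212 : XT := (XT.nd (nat_lit 35802) (nat_lit 0) (nat_lit 5244) (XT.nd (nat_lit 34710) (nat_lit 0) (nat_lit 12160) (XT.nd (nat_lit 546) (nat_lit 380) (nat_lit 0) (XT.nd (nat_lit 234) (nat_lit 380) (nat_lit 0) (XT.nd (nat_lit 78) (nat_lit 0) (nat_lit 0) (XT.lf (nat_lit 0) (nat_lit 474240988) (nat_lit 152) (nat_lit 34975583379) (nat_lit 228) (nat_lit 42683450304) (nat_lit 45) (nat_lit 5) (nat_lit 47) (nat_lit 5) (nat_lit 48) (nat_lit 5) (nat_lit 390) (nat_lit 310) (nat_lit 80)) (XT.nd (nat_lit 78) (nat_lit 0) (nat_lit 0) (XT.lf (nat_lit 0) (nat_lit 34975622184) (nat_lit 152) (nat_lit 15236816178) (nat_lit 228) (nat_lit 29649743090) (nat_lit 45) (nat_lit 5) (nat_lit 47) (nat_lit 5) (nat_lit 48) (nat_lit 5) (nat_lit 391) (nat_lit 310) (nat_lit 79)) (XT.lf (nat_lit 0) (nat_lit 65465585845) (nat_lit 228) (nat_lit 11182099883) (nat_lit 76) (nat_lit 4993840608) (nat_lit 45) (nat_lit 5)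 (nat_lit 48) (nat_lit 5) (nat_lit 46) (nat_lit 5) (nat_lit 392) (nat_lit 310) (nat_lit 78)))) (XT.nd (nat_lit 156) (nat_lit 152) (nat_lit 0) (XT.nd (nat_lit 78) (nat_lit 76) (nat_lit 0) (XT.lf (nat_lit 0) (nat_lit 23845794237) (nat_lit 152) (nat_lit 57709339004) (nat_lit 228) (nat_lit 1907754696) (nat_lit 43) (nat_lit 5) (nat_lit 45) (nat_lit 5) (nat_lit 46) (nat_lit 5) (nat_lit 393) (nat_lit 310) (nat_lit 77)) (XT.lf (nat_lit 0) (nat_lit 12651691893) (nat_lit 228) (nat_lit 25307965724) (nat_lit 76) (nat_lit 47372162421) (nat_lit 42) (nat_lit 5) (nat_lit 45) (nat_lit 5) (nat_lit 43) (nat_lit 5) (nat_lit 394) (nat_lit 310) (nat_lit 76))) (XT.nd (nat_lit 78) (nat_lit 0) (nat_lit 0) (XT.lf (nat_lit 0) (nat_lit 10208656579) (nat_lit 152) (nat_lit 17497819374) (nat_lit 228) (nat_lit 59546871037) (nat_lit 40) (nat_lit 5) (nat_lit 42) (nat_lit 5) (nat_lit 43) (nat_lit 5) (nat_lit 395) (nat_lit 310) (nat_lit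 75)) (XT.lf (nat_lit 0) (nat_lit 43504161279) (nat_lit 228) (nat_lit 41954316588) (nat_lit 76) (nat_lit 3765304626) (nat_lit 40) (nat_lit 5) (nat_lit 43) (nat_lit 5) (nat_lit 41) (nat_lit 5) (nat_lit 396) (nat_lit 310) (nat_lit 74))))) (XT.nd (nat_lit 234) (nat_lit 228) (nat_lit 0) (XT.nd (nat_lit 78) (nat_lit 152) (nat_lit 0) (XT.lf (nat_lit 0) (nat_lit 59947832509) (nat_lit 228) (nat_lit 5986522608) (nat_lit 76) (nat_lit 25313814747) (nat_lit 40) (nat_lit 5) (nat_lit 43) (nat_lit 5) (nat_lit 41) (nat_lit 5) (nat_lit 397) (nat_lit 310) (nat_lit 73)) (XT.nd (nat_lit 78) (nat_lit 0) (nat_lit 0) (XT.lf (nat_lit 0) (nat_lit 31676440897) (nat_lit 152) (nat_lit 45511710584) (nat_lit 228) (nat_lit 16136037696) (nat_lit 38) (nat_lit 5) (nat_lit 40) (nat_lit 5) (nat_lit 41) (nat_lit 5) (nat_lit 398) (nat_lit 310) (nat_lit 72)) (XT.lf (nat_lit 0) (nat_lit 70590044871) (nat_lit 152) (nat_lit 24414946330)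 (nat_lit 228) (nat_lit 455718967) (nat_lit 38) (nat_lit 5) (nat_lit 40) (nat_lit 5) (nat_lit 41) (nat_lit 5) (nat_lit 399) (nat_lit 310) (nat_lit 71)))) (XT.nd (nat_lit 33774) (nat_lit 0) (nat_lit 12920) (XT.nd (nat_lit 33696) (nat_lit 0) (nat_lit 12920) (XT.lf (nat_lit 0) (nat_lit 13112806535) (nat_lit 152) (nat_lit 2400865831) (nat_lit 228) (nat_lit 82139380857) (nat_lit 35) (nat_lit 5) (nat_lit 37) (nat_lit 5) (nat_lit 38) (nat_lit 5) (nat_lit 400) (nat_lit 310) (nat_lit 70)) (XT.lf (nat_lit 0) (nat_lit 2189486425) (nat_lit 0) (nat_lit 2189486425) (nat_lit 1140) (nat_lit 4909172293) (nat_lit 205) (nat_lit 5) (nat_lit 205) (nat_lit 3) (nat_lit 220) (nat_lit 3) (nat_lit 311) (nat_lit 311) (nat_lit 158))) (XT.nd (nat_lit 78) (nat_lit 0) (nat_lit 0) (XT.lf (nat_lit 0) (nat_lit 9112921879) (nat_lit 1140) (nat_lit 5710423647) (nat_lit 1216) (nat_lit 4024690406) (nat_lit 205) (nat_lit 5) (nat_lit 220)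 (nat_lit 3) (nat_lit 221) (nat_lit 5) (nat_lit 312) (nat_lit 311) (nat_lit 157)) (XT.lf (nat_lit 76) (nat_lit 3043254653) (nat_lit 0) (nat_lit 6500750191) (nat_lit 1216) (nat_lit 9581972809) (nat_lit 206) (nat_lit 5) (nat_lit 205) (nat_lit 5) (nat_lit 221) (nat_lit 5) (nat_lit 313) (nat_lit 311) (nat_lit 156)))))) (XT.nd (nat_lit 546) (nat_lit 836) (nat_lit 0) (XT.nd (nat_lit 234) (nat_lit 0) (nat_lit 76) (XT.nd (nat_lit 78) (nat_lit 0) (nat_lit 0) (XT.lf (nat_lit 0) (nat_lit 10059217882) (nat_lit 1140) (nat_lit 7258470318) (nat_lit 1216) (nat_lit 2092440717) (nat_lit 206) (nat_lit 5) (nat_lit 221) (nat_lit 5) (nat_lit 222) (nat_lit 5) (nat_lit 314) (nat_lit 311) (nat_lit 155)) (XT.nd (nat_lit 78) (nat_lit 0) (nat_lit 0) (XT.lf (nat_lit 76) (nat_lit 1797275333) (nat_lit 0) (nat_lit 8867504606) (nat_lit 1216) (nat_lit 9035785009) (nat_lit 207) (nat_lit 5) (nat_lit 206) (nat_lit 5) (nat_lit 222) (nat_lit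 5) (nat_lit 315) (nat_lit 311) (nat_lit 154)) (XT.lf (nat_lit 76) (nat_lit 11269581463) (nat_lit 0) (nat_lit 85634982) (nat_lit 1216) (nat_lit 8642503191) (nat_lit 207) (nat_lit 5) (nat_lit 206) (nat_lit 5) (nat_lit 222) (nat_lit 5) (nat_lit 316) (nat_lit 311) (nat_lit 153)))) (XT.nd (nat_lit 156) (nat_lit 0) (nat_lit 76) (XT.nd (nat_lit 78) (nat_lit 0) (nat_lit 0) (XT.lf (nat_lit 76) (nat_lit 644709084) (nat_lit 0) (nat_lit 11507608564) (nat_lit 1216) (nat_lit 8148899374) (nat_lit 208) (nat_lit 5) (nat_lit 207) (nat_lit 5) (nat_lit 223) (nat_lit 5) (nat_lit 317) (nat_lit 311) (nat_lit 152)) (XT.lf (nat_lit 76) (nat_lit 10472821340) (nat_lit 0) (nat_lit 2583262807) (nat_lit 1216) (nat_lit 7555259027) (nat_lit 208) (nat_lit 5) (nat_lit 207) (nat_lit 5) (nat_lit 223) (nat_lit 5) (nat_lit 318) (nat_lit 311) (nat_lit 151))) (XT.nd (nat_lit 78) (nat_lit 0) (nat_lit 0) (XT.lf (nat_lit 0) (nat_lit 14044469515)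 (nat_lit 1140) (nat_lit 402590831) (nat_lit 1216) (nat_lit 6481993817) (nat_lit 208) (nat_lit 5) (nat_lit 223) (nat_lit 5) (nat_lit 224) (nat_lit 5) (nat_lit 319) (nat_lit 311) (nat_lit 150)) (XT.lf (nat_lit 76) (nat_lit 9786870051) (nat_lit 0) (nat_lit 5389443949) (nat_lit 1216) (nat_lit 6076574300) (nat_lit 209) (nat_lit 5) (nat_lit 208) (nat_lit 5) (nat_lit 224) (nat_lit 5) (nat_lit 320) (nat_lit 311) (nat_lit 149))))) (XT.nd (nat_lit 234) (nat_lit 1064) (nat_lit 0) (XT.nd (nat_lit 78) (nat_lit 0) (nat_lit 0) (XT.lf (nat_lit 0) (nat_lit 16378395559) (nat_lit 1140) (nat_lit 1338065212) (nat_lit 1216) (nat_lit 3868894105) (nat_lit 209) (nat_lit 5) (nat_lit 224) (nat_lit 5) (nat_lit 225) (nat_lit 5) (nat_lit 321) (nat_lit 311) (nat_lit 148)) (XT.nd (nat_lit 78) (nat_lit 0) (nat_lit 76) (XT.lf (nat_lit 76) (nat_lit 9216222621) (nat_lit 0) (nat_lit 8536739037) (nat_lit 1216) (nat_lit 4170746827) (nat_lit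 210) (nat_lit 5) (nat_lit 209) (nat_lit 5) (nat_lit 225) (nat_lit 5) (nat_lit 322) (nat_lit 311) (nat_lit 147)) (XT.lf (nat_lit 0) (nat_lit 19185844841) (nat_lit 1140) (nat_lit 2170328399) (nat_lit 1216) (nat_lit 915532594) (nat_lit 210) (nat_lit 5) (nat_lit 225) (nat_lit 5) (nat_lit 226) (nat_lit 5) (nat_lit 323) (nat_lit 311) (nat_lit 146)))) (XT.nd (nat_lit 156) (nat_lit 1140) (nat_lit 0) (XT.nd (nat_lit 78) (nat_lit 0) (nat_lit 0) (XT.lf (nat_lit 76) (nat_lit 8765460128) (nat_lit 0) (nat_lit 12059799123) (nat_lit 1216) (nat_lit 1799982880) (nat_lit 211) (nat_lit 5) (nat_lit 210) (nat_lit 5) (nat_lit 226) (nat_lit 5) (nat_lit 324) (nat_lit 311) (nat_lit 145)) (XT.lf (nat_lit 76) (nat_lit 20069844010) (nat_lit 0) (nat_lit 2460806118) (nat_lit 1216) (nat_lit 458235782) (nat_lit 211) (nat_lit 5) (nat_lit 210) (nat_lit 5) (nat_lit 226) (nat_lit 5) (nat_lit 325) (nat_lit 311) (nat_lit 144))) (XT.nd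 (nat_lit 78) (nat_lit 0) (nat_lit 0) (XT.lf (nat_lit 0) (nat_lit 1054739072) (nat_lit 1216) (nat_lit 14930160855) (nat_lit 1292) (nat_lit 7373807558) (nat_lit 195) (nat_lit 5) (nat_lit 211) (nat_lit 5) (nat_lit 212) (nat_lit 5) (nat_lit 326) (nat_lit 311) (nat_lit 143)) (XT.lf (nat_lit 0) (nat_lit 2653117272) (nat_lit 1216) (nat_lit 3595612781) (nat_lit 1292) (nat_lit 17489285592) (nat_lit 195) (nat_lit 5) (nat_lit 211) (nat_lit 5) (nat_lit 212) (nat_lit 5) (nat_lit 327) (nat_lit 311) (nat_lit 142))))))) (XT.nd (nat_lit 1092) (nat_lit 3420) (nat_lit 0) (XT.nd (nat_lit 546) (nat_lit 1672) (nat_lit 0) (XT.nd (nat_lit 234) (nat_lit 1140) (nat_lit 0) (XT.nd (nat_lit 78) (nat_lit 760) (nat_lit 0) (XT.lf (nat_lit 0) (nat_lit 4410970541) (nat_lit 1216) (nat_lit 15927879632) (nat_lit 76) (nat_lit 3786511798) (nat_lit 196) (nat_lit 5) (nat_lit 212) (nat_lit 5) (nat_lit 197) (nat_lit 5) (nat_lit 328) (nat_lit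 311) (nat_lit 141)) (XT.nd (nat_lit 78) (nat_lit 760) (nat_lit 0) (XT.lf (nat_lit 0) (nat_lit 6315438676) (nat_lit 1216) (nat_lit 4171464997) (nat_lit 76) (nat_lit 14034613133) (nat_lit 196) (nat_lit 5) (nat_lit 212) (nat_lit 5) (nat_lit 197) (nat_lit 5) (nat_lit 329) (nat_lit 311) (nat_lit 140)) (XT.lf (nat_lit 0) (nat_lit 8091582347) (nat_lit 760) (nat_lit 258717925) (nat_lit 836) (nat_lit 16577062599) (nat_lit 186) (nat_lit 5) (nat_lit 196) (nat_lit 5) (nat_lit 197) (nat_lit 5) (nat_lit 330) (nat_lit 311) (nat_lit 139)))) (XT.nd (nat_lit 156) (nat_lit 532) (nat_lit 0) (XT.nd (nat_lit 78) (nat_lit 608) (nat_lit 0) (XT.lf (nat_lit 0) (nat_lit 10583107751) (nat_lit 836) (nat_lit 4639346681) (nat_lit 76) (nat_lit 10118827126) (nat_lit 186) (nat_lit 5) (nat_lit 197) (nat_lit 5) (nat_lit 187) (nat_lit 5) (nat_lit 331) (nat_lit 311) (nat_lit 138)) (XT.lf (nat_lit 0) (nat_lit 8074031419) (nat_lit 608)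 (nat_lit 4884748090) (nat_lit 684) (nat_lit 12806566011) (nat_lit 178) (nat_lit 5) (nat_lit 186) (nat_lit 5) (nat_lit 187) (nat_lit 5) (nat_lit 332) (nat_lit 311) (nat_lit 137))) (XT.nd (nat_lit 78) (nat_lit 532) (nat_lit 0) (XT.lf (nat_lit 0) (nat_lit 15504228360) (nat_lit 684) (nat_lit 4996710330) (nat_lit 76) (nat_lit 5698241498) (nat_lit 178) (nat_lit 5) (nat_lit 187) (nat_lit 5) (nat_lit 179) (nat_lit 5) (nat_lit 333) (nat_lit 311) (nat_lit 136)) (XT.lf (nat_lit 0) (nat_lit 8186192220) (nat_lit 532) (nat_lit 10062821869) (nat_lit 608) (nat_lit 8393330486) (nat_lit 171) (nat_lit 5) (nat_lit 178) (nat_lit 5) (nat_lit 179) (nat_lit 5) (nat_lit 334) (nat_lit 311) (nat_lit 135))))) (XT.nd (nat_lit 234) (nat_lit 1140) (nat_lit 0) (XT.nd (nat_lit 78) (nat_lit 532) (nat_lit 0) (XT.lf (nat_lit 0) (nat_lit 21129719252) (nat_lit 608) (nat_lit 5241402028) (nat_lit 76) (nat_lit 726079104) (nat_lit 171)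 (nat_lit 5) (nat_lit 179) (nat_lit 5) (nat_lit 172) (nat_lit 5) (nat_lit 335) (nat_lit 311) (nat_lit 134)) (XT.nd (nat_lit 78) (nat_lit 0) (nat_lit 0) (XT.lf (nat_lit 0) (nat_lit 8430786453) (nat_lit 532) (nat_lit 15842850968) (nat_lit 608) (nat_lit 3286764349) (nat_lit 164) (nat_lit 5) (nat_lit 171) (nat_lit 5) (nat_lit 172) (nat_lit 5) (nat_lit 336) (nat_lit 311) (nat_lit 133)) (XT.lf (nat_lit 0) (nat_lit 22616734841) (nat_lit 532) (nat_lit 4944260319) (nat_lit 608) (nat_lit 475033928) (nat_lit 164) (nat_lit 5) (nat_lit 171) (nat_lit 5) (nat_lit 172) (nat_lit 5) (nat_lit 337) (nat_lit 311) (nat_lit 132)))) (XT.nd (nat_lit 156) (nat_lit 532) (nat_lit 0) (XT.nd (nat_lit 78) (nat_lit 0) (nat_lit 0) (XT.lf (nat_lit 0) (nat_lit 2516572846) (nat_lit 608) (nat_lit 19736338826) (nat_lit 76) (nat_lit 6268035688) (nat_lit 156) (nat_lit 5) (nat_lit 164) (nat_lit 5) (nat_lit 157) (nat_lit 5) (nat_lit 338)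 (nat_lit 311) (nat_lit 131)) (XT.lf (nat_lit 0) (nat_lit 5688935649) (nat_lit 608) (nat_lit 5551140570) (nat_lit 76) (nat_lit 17777182445) (nat_lit 156) (nat_lit 5) (nat_lit 164) (nat_lit 5) (nat_lit 157) (nat_lit 5) (nat_lit 339) (nat_lit 311) (nat_lit 130))) (XT.nd (nat_lit 78) (nat_lit 0) (nat_lit 0) (XT.lf (nat_lit 0) (nat_lit 9043563570) (nat_lit 608) (nat_lit 20291707795) (nat_lit 76) (nat_lit 190578270) (nat_lit 149) (nat_lit 5) (nat_lit 157) (nat_lit 5) (nat_lit 150) (nat_lit 5) (nat_lit 340) (nat_lit 311) (nat_lit 129)) (XT.lf (nat_lit 0) (nat_lit 12663237207) (nat_lit 608) (nat_lit 5586928454) (nat_lit 76) (nat_lit 11794603530) (nat_lit 149) (nat_lit 5) (nat_lit 157) (nat_lit 5) (nat_lit 150) (nat_lit 5) (nat_lit 341) (nat_lit 311) (nat_lit 128)))))) (XT.nd (nat_lit 546) (nat_lit 1596) (nat_lit 0) (XT.nd (nat_lit 234) (nat_lit 912) (nat_lit 0) (XT.nd (nat_lit 78) (nat_lit 456) (nat_lit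 0) (XT.lf (nat_lit 0) (nat_lit 9745430125) (nat_lit 456) (nat_lit 6736360016) (nat_lit 532) (nat_lit 14094760495) (nat_lit 143) (nat_lit 5) (nat_lit 149) (nat_lit 5) (nat_lit 150) (nat_lit 5) (nat_lit 342) (nat_lit 311) (nat_lit 127)) (XT.nd (nat_lit 78) (nat_lit 456) (nat_lit 0) (XT.lf (nat_lit 0) (nat_lit 20517789043) (nat_lit 532) (nat_lit 5523904773) (nat_lit 76) (nat_lit 5079507914) (nat_lit 143) (nat_lit 5) (nat_lit 150) (nat_lit 5) (nat_lit 144) (nat_lit 5) (nat_lit 343) (nat_lit 311) (nat_lit 126)) (XT.lf (nat_lit 0) (nat_lit 10374591867) (nat_lit 456) (nat_lit 14463466311) (nat_lit 532) (nat_lit 6839241274) (nat_lit 137) (nat_lit 5) (nat_lit 143) (nat_lit 5) (nat_lit 144) (nat_lit 5) (nat_lit 344) (nat_lit 311) (nat_lit 125)))) (XT.nd (nat_lit 156) (nat_lit 456) (nat_lit 0) (XT.nd (nat_lit 78) (nat_lit 456) (nat_lit 0) (XT.lf (nat_lit 0) (nat_lit 26859629569) (nat_lit 456) (nat_lit 2480912236)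 (nat_lit 532) (nat_lit 2907962829) (nat_lit 137) (nat_lit 5) (nat_lit 143) (nat_lit 5) (nat_lit 144) (nat_lit 5) (nat_lit 345) (nat_lit 311) (nat_lit 124)) (XT.lf (nat_lit 0) (nat_lit 1319554199) (nat_lit 456) (nat_lit 21722868818) (nat_lit 76) (nat_lit 9788079301) (nat_lit 131) (nat_lit 5) (nat_lit 137) (nat_lit 5) (nat_lit 132) (nat_lit 5) (nat_lit 346) (nat_lit 311) (nat_lit 123))) (XT.nd (nat_lit 78) (nat_lit 456) (nat_lit 0) (XT.lf (nat_lit 0) (nat_lit 5691905529) (nat_lit 456) (nat_lit 5276378135) (nat_lit 76) (nat_lit 22458521329) (nat_lit 131) (nat_lit 5) (nat_lit 137) (nat_lit 5) (nat_lit 132) (nat_lit 5) (nat_lit 347) (nat_lit 311) (nat_lit 122)) (XT.lf (nat_lit 0) (nat_lit 10322004834) (nat_lit 532) (nat_lit 22160888205) (nat_lit 76) (nat_lit 1554308804) (nat_lit 125) (nat_lit 5) (nat_lit 132) (nat_lit 5) (nat_lit 126) (nat_lit 5) (nat_lit 348) (nat_lit 311) (nat_lit 121))))) (XT.nd (nat_lit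 312) (nat_lit 836) (nat_lit 0) (XT.nd (nat_lit 156) (nat_lit 380) (nat_lit 0) (XT.nd (nat_lit 78) (nat_lit 380) (nat_lit 0) (XT.lf (nat_lit 0) (nat_lit 15250485492) (nat_lit 532) (nat_lit 5125293312) (nat_lit 76) (nat_lit 14285349791) (nat_lit 125) (nat_lit 5) (nat_lit 132) (nat_lit 5) (nat_lit 126) (nat_lit 5) (nat_lit 349) (nat_lit 311) (nat_lit 120)) (XT.lf (nat_lit 0) (nat_lit 12665010876) (nat_lit 380) (nat_lit 7780711677) (nat_lit 456) (nat_lit 14854485814) (nat_lit 120) (nat_lit 5) (nat_lit 125) (nat_lit 5) (nat_lit 126) (nat_lit 5) (nat_lit 350) (nat_lit 311) (nat_lit 119))) (XT.nd (nat_lit 78) (nat_lit 380) (nat_lit 0) (XT.lf (nat_lit 0) (nat_lit 25896196411) (nat_lit 456) (nat_lit 4916787055) (nat_lit 76) (nat_lit 5142497891) (nat_lit 120) (nat_lit 5) (nat_lit 126) (nat_lit 5) (nat_lit 121) (nat_lit 5) (nat_lit 351) (nat_lit 311) (nat_lit 118)) (XT.lf (nat_lit 0) (nat_lit 13516453087)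 (nat_lit 380) (nat_lit 18197979246) (nat_lit 456) (nat_lit 4909854916) (nat_lit 115) (nat_lit 5) (nat_lit 120) (nat_lit 5) (nat_lit 121) (nat_lit 5) (nat_lit 352) (nat_lit 311) (nat_lit 117)))) (XT.nd (nat_lit 156) (nat_lit 380) (nat_lit 0) (XT.nd (nat_lit 78) (nat_lit 380) (nat_lit 0) (XT.lf (nat_lit 0) (nat_lit 433810608) (nat_lit 456) (nat_lit 4715930140) (nat_lit 76) (nat_lit 32161881695) (nat_lit 114) (nat_lit 5) (nat_lit 120) (nat_lit 5) (nat_lit 115) (nat_lit 5) (nat_lit 353) (nat_lit 311) (nat_lit 116)) (XT.lf (nat_lit 0) (nat_lit 6056998330) (nat_lit 456) (nat_lit 23637686573) (nat_lit 76) (nat_lit 8316899519) (nat_lit 109) (nat_lit 5) (nat_lit 115) (nat_lit 5) (nat_lit 110) (nat_lit 5) (nat_lit 354) (nat_lit 311) (nat_lit 115))) (XT.nd (nat_lit 78) (nat_lit 380) (nat_lit 0) (XT.lf (nat_lit 0) (nat_lit 11945378685) (nat_lit 456) (nat_lit 4652883741) (nat_lit 76) (nat_lit 22131389833) (nat_lit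 109) (nat_lit 5) (nat_lit 115) (nat_lit 5) (nat_lit 110) (nat_lit 5) (nat_lit 355) (nat_lit 311) (nat_lit 114)) (XT.lf (nat_lit 0) (nat_lit 15194664132) (nat_lit 380) (nat_lit 2959298298) (nat_lit 456) (nat_lit 21310994995) (nat_lit 104) (nat_lit 5) (nat_lit 109) (nat_lit 5) (nat_lit 110) (nat_lit 5) (nat_lit 356) (nat_lit 311) (nat_lit 113))))))))
noncomputable def xc213 : XT := (XT.nd (nat_lit 2184) (nat_lit 1368) (nat_lit 0) (XT.nd (nat_lit 1092) (nat_lit 1520) (nat_lit 0) (XT.nd (nat_lit 546) (nat_lit 1140) (nat_lit 0) (XT.nd (nat_lit 234) (nat_lit 684) (nat_lit 0) (XT.nd (nat_lit 78) (nat_lit 304) (nat_lit 0) (XT.lf (nat_lit 0) (nat_lit 24700372045) (nat_lit 456) (nat_lit 4598289450) (nat_lit 76) (nat_lit 10919115000) (nat_lit 104) (nat_lit 5) (nat_lit 110) (nat_lit 5) (nat_lit 105) (nat_lit 5) (nat_lit 357) (nat_lit 311) (nat_lit 112)) (XT.nd (nat_lit 78) (nat_lit 0) (nat_lit 0) (XT.lf (nat_lit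 0) (nat_lit 15942428544) (nat_lit 304) (nat_lit 15680891328) (nat_lit 380) (nat_lit 9364457634) (nat_lit 100) (nat_lit 5) (nat_lit 104) (nat_lit 5) (nat_lit 105) (nat_lit 5) (nat_lit 358) (nat_lit 311) (nat_lit 111)) (XT.lf (nat_lit 0) (nat_lit 37190420087) (nat_lit 304) (nat_lit 1607606452) (nat_lit 380) (nat_lit 2981531591) (nat_lit 100) (nat_lit 5) (nat_lit 104) (nat_lit 5) (nat_lit 105) (nat_lit 5) (nat_lit 359) (nat_lit 311) (nat_lit 110)))) (XT.nd (nat_lit 156) (nat_lit 304) (nat_lit 0) (XT.nd (nat_lit 78) (nat_lit 0) (nat_lit 0) (XT.lf (nat_lit 0) (nat_lit 3807475925) (nat_lit 380) (nat_lit 25944798503) (nat_lit 76) (nat_lit 12833242122) (nat_lit 95) (nat_lit 5) (nat_lit 100) (nat_lit 5) (nat_lit 96) (nat_lit 5) (nat_lit 360) (nat_lit 311) (nat_lit 109)) (XT.lf (nat_lit 0) (nat_lit 10800655311) (nat_lit 380) (nat_lit 4861810193) (nat_lit 76) (nat_lit 27750491342) (nat_lit 95) (nat_lit 5)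 (nat_lit 100) (nat_lit 5) (nat_lit 96) (nat_lit 5) (nat_lit 361) (nat_lit 311) (nat_lit 108))) (XT.nd (nat_lit 78) (nat_lit 0) (nat_lit 0) (XT.lf (nat_lit 0) (nat_lit 17185926581) (nat_lit 304) (nat_lit 980682283) (nat_lit 380) (nat_lit 26093723631) (nat_lit 91) (nat_lit 5) (nat_lit 95) (nat_lit 5) (nat_lit 96) (nat_lit 5) (nat_lit 362) (nat_lit 311) (nat_lit 107)) (XT.lf (nat_lit 0) (nat_lit 25936863027) (nat_lit 380) (nat_lit 5276450851) (nat_lit 76) (nat_lit 13914317337) (nat_lit 91) (nat_lit 5) (nat_lit 96) (nat_lit 5) (nat_lit 92) (nat_lit 5) (nat_lit 363) (nat_lit 311) (nat_lit 106))))) (XT.nd (nat_lit 234) (nat_lit 532) (nat_lit 0) (XT.nd (nat_lit 78) (nat_lit 304) (nat_lit 0) (XT.lf (nat_lit 0) (nat_lit 17504266835) (nat_lit 304) (nat_lit 16611797284) (nat_lit 380) (nat_lit 11899611019) (nat_lit 87) (nat_lit 5) (nat_lit 91) (nat_lit 5) (nat_lit 92) (nat_lit 5) (nat_lit 364) (nat_lit 311)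 (nat_lit 105)) (XT.nd (nat_lit 78) (nat_lit 304) (nat_lit 0) (XT.lf (nat_lit 0) (nat_lit 41073560307) (nat_lit 304) (nat_lit 1518263793) (nat_lit 380) (nat_lit 4337002173) (nat_lit 87) (nat_lit 5) (nat_lit 91) (nat_lit 5) (nat_lit 92) (nat_lit 5) (nat_lit 365) (nat_lit 311) (nat_lit 104)) (XT.lf (nat_lit 0) (nat_lit 3690938503) (nat_lit 304) (nat_lit 30208579616) (nat_lit 76) (nat_lit 13959684781) (nat_lit 83) (nat_lit 5) (nat_lit 87) (nat_lit 5) (nat_lit 84) (nat_lit 5) (nat_lit 366) (nat_lit 311) (nat_lit 103)))) (XT.nd (nat_lit 156) (nat_lit 228) (nat_lit 0) (XT.nd (nat_lit 78) (nat_lit 304) (nat_lit 0) (XT.lf (nat_lit 0) (nat_lit 11945256150) (nat_lit 304) (nat_lit 6895545771) (nat_lit 76) (nat_lit 29973220703) (nat_lit 83) (nat_lit 5) (nat_lit 87) (nat_lit 5) (nat_lit 84) (nat_lit 5) (nat_lit 367) (nat_lit 311) (nat_lit 102)) (XT.lf (nat_lit 0) (nat_lit 17454580998) (nat_lit 304) (nat_lit 3158429511)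 (nat_lit 380) (nat_lit 29179503439) (nat_lit 79) (nat_lit 5) (nat_lit 83) (nat_lit 5) (nat_lit 84) (nat_lit 5) (nat_lit 368) (nat_lit 311) (nat_lit 101))) (XT.nd (nat_lit 78) (nat_lit 228) (nat_lit 0) (XT.lf (nat_lit 0) (nat_lit 29734072836) (nat_lit 380) (nat_lit 8250229361) (nat_lit 76) (nat_lit 12810260745) (nat_lit 79) (nat_lit 5) (nat_lit 84) (nat_lit 5) (nat_lit 80) (nat_lit 5) (nat_lit 369) (nat_lit 311) (nat_lit 100)) (XT.lf (nat_lit 0) (nat_lit 16854896489) (nat_lit 228) (nat_lit 22465262830) (nat_lit 304) (nat_lit 12500773473) (nat_lit 76) (nat_lit 5) (nat_lit 79) (nat_lit 5) (nat_lit 80) (nat_lit 5) (nat_lit 370) (nat_lit 311) (nat_lit 99)))))) (XT.nd (nat_lit 546) (nat_lit 760) (nat_lit 0) (XT.nd (nat_lit 234) (nat_lit 456) (nat_lit 0) (XT.nd (nat_lit 78) (nat_lit 304) (nat_lit 0) (XT.lf (nat_lit 0) (nat_lit 42879488539) (nat_lit 228) (nat_lit 6395780433) (nat_lit 304) (nat_lit 3600382670)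 (nat_lit 76) (nat_lit 5) (nat_lit 79) (nat_lit 5) (nat_lit 80) (nat_lit 5) (nat_lit 371) (nat_lit 311) (nat_lit 98)) (XT.nd (nat_lit 78) (nat_lit 0) (nat_lit 0) (XT.lf (nat_lit 0) (nat_lit 5709810785) (nat_lit 304) (nat_lit 38077197853) (nat_lit 76) (nat_lit 10165856361) (nat_lit 72) (nat_lit 5) (nat_lit 76) (nat_lit 5) (nat_lit 73) (nat_lit 5) (nat_lit 372) (nat_lit 311) (nat_lit 97)) (XT.lf (nat_lit 0) (nat_lit 15390394609) (nat_lit 304) (nat_lit 12433558164) (nat_lit 76) (nat_lit 27232470128) (nat_lit 72) (nat_lit 5) (nat_lit 76) (nat_lit 5) (nat_lit 73) (nat_lit 5) (nat_lit 373) (nat_lit 311) (nat_lit 96)))) (XT.nd (nat_lit 156) (nat_lit 228) (nat_lit 0) (XT.nd (nat_lit 78) (nat_lit 0) (nat_lit 0) (XT.lf (nat_lit 0) (nat_lit 14254851125) (nat_lit 228) (nat_lit 11241807155) (nat_lit 304) (nat_lit 30692372387) (nat_lit 69) (nat_lit 5) (nat_lit 72) (nat_lit 5) (nat_lit 73) (nat_lit 5) (nat_lit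 374) (nat_lit 311) (nat_lit 95)) (XT.lf (nat_lit 0) (nat_lit 36087276684) (nat_lit 304) (nat_lit 15413141907) (nat_lit 76) (nat_lit 5849764039) (nat_lit 69) (nat_lit 5) (nat_lit 73) (nat_lit 5) (nat_lit 70) (nat_lit 5) (nat_lit 375) (nat_lit 311) (nat_lit 94))) (XT.nd (nat_lit 78) (nat_lit 0) (nat_lit 0) (XT.lf (nat_lit 0) (nat_lit 12024216170) (nat_lit 228) (nat_lit 35196590121) (nat_lit 304) (nat_lit 11318608019) (nat_lit 66) (nat_lit 5) (nat_lit 69) (nat_lit 5) (nat_lit 70) (nat_lit 5) (nat_lit 376) (nat_lit 311) (nat_lit 93)) (XT.lf (nat_lit 0) (nat_lit 40598033751) (nat_lit 228) (nat_lit 18244278328) (nat_lit 304) (nat_lit 917392664) (nat_lit 66) (nat_lit 5) (nat_lit 69) (nat_lit 5) (nat_lit 70) (nat_lit 5) (nat_lit 377) (nat_lit 311) (nat_lit 92))))) (XT.nd (nat_lit 234) (nat_lit 228) (nat_lit 0) (XT.nd (nat_lit 78) (nat_lit 228) (nat_lit 0) (XT.lf (nat_lit 0) (nat_lit 9093165730) (nat_lit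 228) (nat_lit 597309540) (nat_lit 304) (nat_lit 51320731506) (nat_lit 62) (nat_lit 5) (nat_lit 65) (nat_lit 5) (nat_lit 66) (nat_lit 5) (nat_lit 378) (nat_lit 311) (nat_lit 91)) (XT.nd (nat_lit 78) (nat_lit 228) (nat_lit 0) (XT.lf (nat_lit 0) (nat_lit 20960906309) (nat_lit 304) (nat_lit 23888573682) (nat_lit 76) (nat_lit 17439619248) (nat_lit 62) (nat_lit 5) (nat_lit 66) (nat_lit 5) (nat_lit 63) (nat_lit 5) (nat_lit 379) (nat_lit 311) (nat_lit 90)) (XT.lf (nat_lit 0) (nat_lit 5072330520) (nat_lit 228) (nat_lit 27550213311) (nat_lit 304) (nat_lit 30981192649) (nat_lit 59) (nat_lit 5) (nat_lit 62) (nat_lit 5) (nat_lit 63) (nat_lit 5) (nat_lit 380) (nat_lit 311) (nat_lit 89)))) (XT.nd (nat_lit 156) (nat_lit 76) (nat_lit 0) (XT.nd (nat_lit 78) (nat_lit 152) (nat_lit 0) (XT.lf (nat_lit 0) (nat_lit 35389266159) (nat_lit 228) (nat_lit 9484435393) (nat_lit 304) (nat_lit 20076921941) (nat_lit 59) (nat_lit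 5) (nat_lit 62) (nat_lit 5) (nat_lit 63) (nat_lit 5) (nat_lit 381) (nat_lit 311) (nat_lit 88)) (XT.lf (nat_lit 0) (nat_lit 191375304) (nat_lit 152) (nat_lit 57389037178) (nat_lit 228) (nat_lit 8754864843) (nat_lit 57) (nat_lit 5) (nat_lit 59) (nat_lit 5) (nat_lit 60) (nat_lit 5) (nat_lit 382) (nat_lit 311) (nat_lit 87))) (XT.nd (nat_lit 78) (nat_lit 0) (nat_lit 0) (XT.lf (nat_lit 0) (nat_lit 3243988707) (nat_lit 228) (nat_lit 36437109767) (nat_lit 76) (nat_lit 28067719004) (nat_lit 56) (nat_lit 5) (nat_lit 59) (nat_lit 5) (nat_lit 57) (nat_lit 5) (nat_lit 383) (nat_lit 311) (nat_lit 86)) (XT.lf (nat_lit 0) (nat_lit 15425373188) (nat_lit 228) (nat_lit 5928183723) (nat_lit 76) (nat_lit 47848651287) (nat_lit 56) (nat_lit 5) (nat_lit 59) (nat_lit 5) (nat_lit 57) (nat_lit 5) (nat_lit 384) (nat_lit 311) (nat_lit 85))))))) (XT.nd (nat_lit 1092) (nat_lit 152) (nat_lit 0) (XT.nd (nat_lit 546) (nat_lit 380)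 (nat_lit 0) (XT.nd (nat_lit 234) (nat_lit 456) (nat_lit 0) (XT.nd (nat_lit 78) (nat_lit 152) (nat_lit 0) (XT.lf (nat_lit 0) (nat_lit 26001065961) (nat_lit 228) (nat_lit 2219643666) (nat_lit 304) (nat_lit 42471036379) (nat_lit 53) (nat_lit 5) (nat_lit 56) (nat_lit 5) (nat_lit 57) (nat_lit 5) (nat_lit 385) (nat_lit 311) (nat_lit 84)) (XT.nd (nat_lit 78) (nat_lit 152) (nat_lit 0) (XT.lf (nat_lit 0) (nat_lit 41627053261) (nat_lit 304) (nat_lit 13385490013) (nat_lit 76) (nat_lit 17206612918) (nat_lit 53) (nat_lit 5) (nat_lit 57) (nat_lit 5) (nat_lit 54) (nat_lit 5) (nat_lit 386) (nat_lit 311) (nat_lit 83)) (XT.lf (nat_lit 0) (nat_lit 19209462493) (nat_lit 152) (nat_lit 36431379004) (nat_lit 228) (nat_lit 18145390199) (nat_lit 51) (nat_lit 5) (nat_lit 53) (nat_lit 5) (nat_lit 54) (nat_lit 5) (nat_lit 387) (nat_lit 311) (nat_lit 82)))) (XT.nd (nat_lit 156) (nat_lit 152) (nat_lit 0) (XT.nd (nat_lit 78)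 (nat_lit 304) (nat_lit 0) (XT.lf (nat_lit 0) (nat_lit 53054412817) (nat_lit 152) (nat_lit 17154440812) (nat_lit 228) (nat_lit 5187452148) (nat_lit 51) (nat_lit 5) (nat_lit 53) (nat_lit 5) (nat_lit 54) (nat_lit 5) (nat_lit 388) (nat_lit 311) (nat_lit 81)) (XT.lf (nat_lit 0) (nat_lit 8132133795) (nat_lit 304) (nat_lit 66083048330) (nat_lit 76) (nat_lit 2833183829) (nat_lit 47) (nat_lit 5) (nat_lit 51) (nat_lit 5) (nat_lit 48) (nat_lit 5) (nat_lit 389) (nat_lit 311) (nat_lit 80))) (XT.nd (nat_lit 78) (nat_lit 152) (nat_lit 0) (XT.lf (nat_lit 0) (nat_lit 22143412090) (nat_lit 304) (nat_lit 33239140894) (nat_lit 76) (nat_lit 23354003671) (nat_lit 47) (nat_lit 5) (nat_lit 51) (nat_lit 5) (nat_lit 48) (nat_lit 5) (nat_lit 390) (nat_lit 311) (nat_lit 79)) (XT.lf (nat_lit 0) (nat_lit 599637225) (nat_lit 152) (nat_lit 35979872488) (nat_lit 228) (nat_lit 43895749485) (nat_lit 45) (nat_lit 5) (nat_lit 47) (nat_lit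 5) (nat_lit 48) (nat_lit 5) (nat_lit 391) (nat_lit 311) (nat_lit 78))))) (XT.nd (nat_lit 234) (nat_lit 228) (nat_lit 0) (XT.nd (nat_lit 78) (nat_lit 152) (nat_lit 0) (XT.lf (nat_lit 0) (nat_lit 36132821925) (nat_lit 152) (nat_lit 15650252322) (nat_lit 228) (nat_lit 30473017588) (nat_lit 45) (nat_lit 5) (nat_lit 47) (nat_lit 5) (nat_lit 48) (nat_lit 5) (nat_lit 392) (nat_lit 311) (nat_lit 77)) (XT.nd (nat_lit 78) (nat_lit 152) (nat_lit 0) (XT.lf (nat_lit 0) (nat_lit 67492351965) (nat_lit 228) (nat_lit 11411284851) (nat_lit 76) (nat_lit 5185224967) (nat_lit 45) (nat_lit 5) (nat_lit 48) (nat_lit 5) (nat_lit 46) (nat_lit 5) (nat_lit 393) (nat_lit 311) (nat_lit 76)) (XT.lf (nat_lit 0) (nat_lit 24666404150) (nat_lit 152) (nat_lit 59397364142) (nat_lit 228) (nat_lit 1901121233) (nat_lit 43) (nat_lit 5) (nat_lit 45) (nat_lit 5) (nat_lit 46) (nat_lit 5) (nat_lit 394) (nat_lit 311) (nat_lit 75)))) (XT.nd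 (nat_lit 156) (nat_lit 0) (nat_lit 0) (XT.nd (nat_lit 78) (nat_lit 152) (nat_lit 0) (XT.lf (nat_lit 0) (nat_lit 13092038617) (nat_lit 228) (nat_lit 25963799632) (nat_lit 76) (nat_lit 48834088364) (nat_lit 42) (nat_lit 5) (nat_lit 45) (nat_lit 5) (nat_lit 43) (nat_lit 5) (nat_lit 395) (nat_lit 311) (nat_lit 74)) (XT.lf (nat_lit 0) (nat_lit 10617307566) (nat_lit 152) (nat_lit 17980372124) (nat_lit 228) (nat_lit 61271443982) (nat_lit 40) (nat_lit 5) (nat_lit 42) (nat_lit 5) (nat_lit 43) (nat_lit 5) (nat_lit 396) (nat_lit 311) (nat_lit 73))) (XT.nd (nat_lit 78) (nat_lit 0) (nat_lit 0) (XT.lf (nat_lit 0) (nat_lit 44867943262) (nat_lit 228) (nat_lit 43112161992) (nat_lit 76) (nat_lit 3918608239) (nat_lit 40) (nat_lit 5) (nat_lit 43) (nat_lit 5) (nat_lit 41) (nat_lit 5) (nat_lit 397) (nat_lit 311) (nat_lit 72)) (XT.lf (nat_lit 0) (nat_lit 61803216168) (nat_lit 228) (nat_lit 6068269651) (nat_lit 76) (nat_lit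 26112398582) (nat_lit 40) (nat_lit 5) (nat_lit 43) (nat_lit 5) (nat_lit 41) (nat_lit 5) (nat_lit 398) (nat_lit 311) (nat_lit 71)))))) (XT.nd (nat_lit 34320) (nat_lit 0) (nat_lit 12844) (XT.nd (nat_lit 34008) (nat_lit 0) (nat_lit 12692) (XT.nd (nat_lit 33852) (nat_lit 0) (nat_lit 12692) (XT.lf (nat_lit 0) (nat_lit 32723623458) (nat_lit 152) (nat_lit 46836393911) (nat_lit 228) (nat_lit 16562189388) (nat_lit 38) (nat_lit 5) (nat_lit 40) (nat_lit 5) (nat_lit 41) (nat_lit 5) (nat_lit 399) (nat_lit 311) (nat_lit 70)) (XT.nd (nat_lit 78) (nat_lit 0) (nat_lit 0) (XT.lf (nat_lit 0) (nat_lit 2346360561) (nat_lit 0) (nat_lit 2346360561) (nat_lit 1140) (nat_lit 4868408332) (nat_lit 205) (nat_lit 5) (nat_lit 205) (nat_lit 3) (nat_lit 220) (nat_lit 3) (nat_lit 312) (nat_lit 312) (nat_lit 156)) (XT.lf (nat_lit 0) (nat_lit 9738741607) (nat_lit 1140) (nat_lit 5691976829) (nat_lit 1216) (nat_lit 3971819260) (nat_lit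 205) (nat_lit 5) (nat_lit 220) (nat_lit 3) (nat_lit 221) (nat_lit 5) (nat_lit 313) (nat_lit 312) (nat_lit 155)))) (XT.nd (nat_lit 156) (nat_lit 0) (nat_lit 76) (XT.nd (nat_lit 78) (nat_lit 0) (nat_lit 76) (XT.lf (nat_lit 76) (nat_lit 3322451432) (nat_lit 0) (nat_lit 6851846818) (nat_lit 1216) (nat_lit 9514783853) (nat_lit 206) (nat_lit 5) (nat_lit 205) (nat_lit 5) (nat_lit 221) (nat_lit 5) (nat_lit 314) (nat_lit 312) (nat_lit 154)) (XT.lf (nat_lit 0) (nat_lit 10693492459) (nat_lit 1140) (nat_lit 7281977536) (nat_lit 1216) (nat_lit 2006642528) (nat_lit 206) (nat_lit 5) (nat_lit 221) (nat_lit 5) (nat_lit 222) (nat_lit 5) (nat_lit 315) (nat_lit 312) (nat_lit 153))) (XT.nd (nat_lit 78) (nat_lit 0) (nat_lit 0) (XT.lf (nat_lit 76) (nat_lit 2043536103) (nat_lit 0) (nat_lit 9265849779) (nat_lit 1216) (nat_lit 8972120874) (nat_lit 207) (nat_lit 5) (nat_lit 206) (nat_lit 5) (nat_lit 222) (nat_lit 5) (nat_lit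 316) (nat_lit 312) (nat_lit 152)) (XT.lf (nat_lit 76) (nat_lit 11794409208) (nat_lit 0) (nat_lit 216670084) (nat_lit 1216) (nat_lit 8576790243) (nat_lit 207) (nat_lit 5) (nat_lit 206) (nat_lit 5) (nat_lit 222) (nat_lit 5) (nat_lit 317) (nat_lit 312) (nat_lit 151))))) (XT.nd (nat_lit 312) (nat_lit 0) (nat_lit 152) (XT.nd (nat_lit 156) (nat_lit 0) (nat_lit 76) (XT.nd (nat_lit 78) (nat_lit 0) (nat_lit 0) (XT.lf (nat_lit 76) (nat_lit 859868448) (nat_lit 0) (nat_lit 11963727712) (nat_lit 1216) (nat_lit 8077140084) (nat_lit 208) (nat_lit 5) (nat_lit 207) (nat_lit 5) (nat_lit 223) (nat_lit 5) (nat_lit 318) (nat_lit 312) (nat_lit 150)) (XT.lf (nat_lit 76) (nat_lit 10977120633) (nat_lit 0) (nat_lit 2768421751) (nat_lit 1216) (nat_lit 7474901001) (nat_lit 208) (nat_lit 5) (nat_lit 207) (nat_lit 5) (nat_lit 223) (nat_lit 5) (nat_lit 319) (nat_lit 312) (nat_lit 149))) (XT.nd (nat_lit 78) (nat_lit 0) (nat_lit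 0) (XT.lf (nat_lit 0) (nat_lit 14753901472) (nat_lit 1140) (nat_lit 220115506) (nat_lit 1216) (nat_lit 6573967996) (nat_lit 208) (nat_lit 5) (nat_lit 223) (nat_lit 5) (nat_lit 224) (nat_lit 5) (nat_lit 320) (nat_lit 312) (nat_lit 148)) (XT.lf (nat_lit 76) (nat_lit 10273121820) (nat_lit 0) (nat_lit 5640040100) (nat_lit 1216) (nat_lit 5968577073) (nat_lit 209) (nat_lit 5) (nat_lit 208) (nat_lit 5) (nat_lit 224) (nat_lit 5) (nat_lit 321) (nat_lit 312) (nat_lit 147)))) (XT.nd (nat_lit 156) (nat_lit 0) (nat_lit 76) (XT.nd (nat_lit 78) (nat_lit 0) (nat_lit 0) (XT.lf (nat_lit 0) (nat_lit 17142275402) (nat_lit 1140) (nat_lit 1181861238) (nat_lit 1216) (nat_lit 3900322265) (nat_lit 209) (nat_lit 5) (nat_lit 224) (nat_lit 5) (nat_lit 225) (nat_lit 5) (nat_lit 322) (nat_lit 312) (nat_lit 146)) (XT.lf (nat_lit 76) (nat_lit 9687130270) (nat_lit 0) (nat_lit 8864879400) (nat_lit 1216) (nat_lit 4021143696) (nat_lit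 210) (nat_lit 5) (nat_lit 209) (nat_lit 5) (nat_lit 225) (nat_lit 5) (nat_lit 323) (nat_lit 312) (nat_lit 145))) (XT.nd (nat_lit 78) (nat_lit 0) (nat_lit 0) (XT.lf (nat_lit 0) (nat_lit 20019446095) (nat_lit 1140) (nat_lit 2037982115) (nat_lit 1216) (nat_lit 874423361) (nat_lit 210) (nat_lit 5) (nat_lit 225) (nat_lit 5) (nat_lit 226) (nat_lit 5) (nat_lit 324) (nat_lit 312) (nat_lit 144)) (XT.lf (nat_lit 76) (nat_lit 9223944223) (nat_lit 0) (nat_lit 12478462857) (nat_lit 1216) (nat_lit 1593763662) (nat_lit 211) (nat_lit 5) (nat_lit 210) (nat_lit 5) (nat_lit 226) (nat_lit 5) (nat_lit 325) (nat_lit 312) (nat_lit 143))))))))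
noncomputable def xc214 : XT := (XT.nd (nat_lit 2184) (nat_lit 4256) (nat_lit 0) (XT.nd (nat_lit 1092) (nat_lit 3116) (nat_lit 0) (XT.nd (nat_lit 546) (nat_lit 2280) (nat_lit 0) (XT.nd (nat_lit 234) (nat_lit 684) (nat_lit 0) (XT.nd (nat_lit 78) (nat_lit 1140) (nat_lit 0) (XT.lf (nat_lit 76) (nat_lit 20861764856) (nat_lit 0) (nat_lit 2589843661) (nat_lit 1216) (nat_lit 219343336) (nat_lit 211) (nat_lit 5) (nat_lit 210) (nat_lit 5) (nat_lit 226) (nat_lit 5) (nat_lit 326) (nat_lit 312) (nat_lit 142)) (XT.nd (nat_lit 78) (nat_lit 0) (nat_lit 0) (XT.lf (nat_lit 0) (nat_lit 1328258508) (nat_lit 1216) (nat_lit 15177000552) (nat_lit 1292) (nat_lit 7546718185) (nat_lit 195) (nat_lit 5) (nat_lit 211) (nat_lit 5) (nat_lit 212) (nat_lit 5) (nat_lit 327) (nat_lit 312) (nat_lit 141)) (XT.lf (nat_lit 0) (nat_lit 2967543085) (nat_lit 1216) (nat_lit 3508272301) (nat_lit 1292) (nat_lit 17967067461) (nat_lit 195)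 (nat_lit 5) (nat_lit 211) (nat_lit 5) (nat_lit 212) (nat_lit 5) (nat_lit 328) (nat_lit 312) (nat_lit 140)))) (XT.nd (nat_lit 156) (nat_lit 760) (nat_lit 0) (XT.nd (nat_lit 78) (nat_lit 0) (nat_lit 0) (XT.lf (nat_lit 0) (nat_lit 4772798853) (nat_lit 1216) (nat_lit 16204952409) (nat_lit 76) (nat_lit 3864264943) (nat_lit 196) (nat_lit 5) (nat_lit 212) (nat_lit 5) (nat_lit 197) (nat_lit 5) (nat_lit 329) (nat_lit 312) (nat_lit 139)) (XT.lf (nat_lit 0) (nat_lit 6727716590) (nat_lit 1216) (nat_lit 4101692819) (nat_lit 76) (nat_lit 14420853266) (nat_lit 196) (nat_lit 5) (nat_lit 212) (nat_lit 5) (nat_lit 197) (nat_lit 5) (nat_lit 330) (nat_lit 312) (nat_lit 138))) (XT.nd (nat_lit 78) (nat_lit 0) (nat_lit 0) (XT.lf (nat_lit 0) (nat_lit 8527335003) (nat_lit 760) (nat_lit 291654565) (nat_lit 836) (nat_lit 16849439857) (nat_lit 186) (nat_lit 5) (nat_lit 196) (nat_lit 5) (nat_lit 197) (nat_lit 5) (nat_lit 331)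 (nat_lit 312) (nat_lit 137)) (XT.lf (nat_lit 0) (nat_lit 11112191555) (nat_lit 836) (nat_lit 4584350851) (nat_lit 76) (nat_lit 10398427042) (nat_lit 186) (nat_lit 5) (nat_lit 197) (nat_lit 5) (nat_lit 187) (nat_lit 5) (nat_lit 332) (nat_lit 312) (nat_lit 136))))) (XT.nd (nat_lit 234) (nat_lit 1140) (nat_lit 0) (XT.nd (nat_lit 78) (nat_lit 532) (nat_lit 0) (XT.lf (nat_lit 0) (nat_lit 8508524903) (nat_lit 608) (nat_lit 5046293971) (nat_lit 684) (nat_lit 12977071799) (nat_lit 178) (nat_lit 5) (nat_lit 186) (nat_lit 5) (nat_lit 187) (nat_lit 5) (nat_lit 333) (nat_lit 312) (nat_lit 135)) (XT.nd (nat_lit 78) (nat_lit 532) (nat_lit 0) (XT.lf (nat_lit 0) (nat_lit 16170454005) (nat_lit 684) (nat_lit 4953570887) (nat_lit 76) (nat_lit 5854906542) (nat_lit 178) (nat_lit 5) (nat_lit 187) (nat_lit 5) (nat_lit 179) (nat_lit 5) (nat_lit 334) (nat_lit 312) (nat_lit 134)) (XT.lf (nat_lit 0) (nat_lit 8622926183) (nat_lit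 532) (nat_lit 10370637310) (nat_lit 608) (nat_lit 8441953423) (nat_lit 171) (nat_lit 5) (nat_lit 178) (nat_lit 5) (nat_lit 179) (nat_lit 5) (nat_lit 335) (nat_lit 312) (nat_lit 133)))) (XT.nd (nat_lit 156) (nat_lit 608) (nat_lit 0) (XT.nd (nat_lit 78) (nat_lit 532) (nat_lit 0) (XT.lf (nat_lit 0) (nat_lit 21954894296) (nat_lit 608) (nat_lit 5207087581) (nat_lit 76) (nat_lit 742215794) (nat_lit 171) (nat_lit 5) (nat_lit 179) (nat_lit 5) (nat_lit 172) (nat_lit 5) (nat_lit 336) (nat_lit 312) (nat_lit 132)) (XT.lf (nat_lit 0) (nat_lit 8873388550) (nat_lit 532) (nat_lit 16315993404) (nat_lit 608) (nat_lit 3192030836) (nat_lit 164) (nat_lit 5) (nat_lit 171) (nat_lit 5) (nat_lit 172) (nat_lit 5) (nat_lit 337) (nat_lit 312) (nat_lit 131))) (XT.nd (nat_lit 78) (nat_lit 608) (nat_lit 0) (XT.lf (nat_lit 0) (nat_lit 23479390773) (nat_lit 532) (nat_lit 5090507455) (nat_lit 608) (nat_lit 301579661) (nat_lit 164)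 (nat_lit 5) (nat_lit 171) (nat_lit 5) (nat_lit 172) (nat_lit 5) (nat_lit 338) (nat_lit 312) (nat_lit 130)) (XT.lf (nat_lit 0) (nat_lit 2772595806) (nat_lit 608) (nat_lit 20136770543) (nat_lit 76) (nat_lit 6461633534) (nat_lit 156) (nat_lit 5) (nat_lit 164) (nat_lit 5) (nat_lit 157) (nat_lit 5) (nat_lit 339) (nat_lit 312) (nat_lit 129)))))) (XT.nd (nat_lit 546) (nat_lit 1672) (nat_lit 0) (XT.nd (nat_lit 234) (nat_lit 912) (nat_lit 0) (XT.nd (nat_lit 78) (nat_lit 532) (nat_lit 0) (XT.lf (nat_lit 0) (nat_lit 6034871461) (nat_lit 608) (nat_lit 5531598624) (nat_lit 76) (nat_lit 18315892846) (nat_lit 156) (nat_lit 5) (nat_lit 164) (nat_lit 5) (nat_lit 157) (nat_lit 5) (nat_lit 340) (nat_lit 312) (nat_lit 128)) (XT.nd (nat_lit 78) (nat_lit 0) (nat_lit 0) (XT.lf (nat_lit 0) (nat_lit 9486922883) (nat_lit 608) (nat_lit 20711016597) (nat_lit 76) (nat_lit 208373139) (nat_lit 149) (nat_lit 5) (nat_lit 157) (nat_lit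 5) (nat_lit 150) (nat_lit 5) (nat_lit 341) (nat_lit 312) (nat_lit 127)) (XT.lf (nat_lit 0) (nat_lit 13210175495) (nat_lit 608) (nat_lit 5570611617) (nat_lit 76) (nat_lit 12160167385) (nat_lit 149) (nat_lit 5) (nat_lit 157) (nat_lit 5) (nat_lit 150) (nat_lit 5) (nat_lit 342) (nat_lit 312) (nat_lit 126)))) (XT.nd (nat_lit 156) (nat_lit 456) (nat_lit 0) (XT.nd (nat_lit 78) (nat_lit 0) (nat_lit 0) (XT.lf (nat_lit 0) (nat_lit 10219914536) (nat_lit 456) (nat_lit 6920255866) (nat_lit 532) (nat_lit 14348616688) (nat_lit 143) (nat_lit 5) (nat_lit 149) (nat_lit 5) (nat_lit 150) (nat_lit 5) (nat_lit 343) (nat_lit 312) (nat_lit 125)) (XT.lf (nat_lit 0) (nat_lit 21292644519) (nat_lit 532) (nat_lit 5508062041) (nat_lit 76) (nat_lit 5249213444) (nat_lit 143) (nat_lit 5) (nat_lit 150) (nat_lit 5) (nat_lit 144) (nat_lit 5) (nat_lit 344) (nat_lit 312) (nat_lit 124))) (XT.nd (nat_lit 78) (nat_lit 0) (nat_lit 0) (XT.lf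 (nat_lit 0) (nat_lit 10865609499) (nat_lit 456) (nat_lit 14873999942) (nat_lit 532) (nat_lit 6883182608) (nat_lit 137) (nat_lit 5) (nat_lit 143) (nat_lit 5) (nat_lit 144) (nat_lit 5) (nat_lit 345) (nat_lit 312) (nat_lit 123)) (XT.lf (nat_lit 0) (nat_lit 27839962026) (nat_lit 456) (nat_lit 2532649934) (nat_lit 532) (nat_lit 2838662001) (nat_lit 137) (nat_lit 5) (nat_lit 143) (nat_lit 5) (nat_lit 144) (nat_lit 5) (nat_lit 346) (nat_lit 312) (nat_lit 122))))) (XT.nd (nat_lit 234) (nat_lit 760) (nat_lit 0) (XT.nd (nat_lit 78) (nat_lit 456) (nat_lit 0) (XT.lf (nat_lit 0) (nat_lit 1510090062) (nat_lit 456) (nat_lit 22194171713) (nat_lit 76) (nat_lit 10106504414) (nat_lit 131) (nat_lit 5) (nat_lit 137) (nat_lit 5) (nat_lit 132) (nat_lit 5) (nat_lit 347) (nat_lit 312) (nat_lit 121)) (XT.nd (nat_lit 78) (nat_lit 456) (nat_lit 0) (XT.lf (nat_lit 0) (nat_lit 6009215352) (nat_lit 456) (nat_lit 5259540188) (nat_lit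 76) (nat_lit 23156337875) (nat_lit 131) (nat_lit 5) (nat_lit 137) (nat_lit 5) (nat_lit 132) (nat_lit 5) (nat_lit 348) (nat_lit 312) (nat_lit 120)) (XT.lf (nat_lit 0) (nat_lit 10775899258) (nat_lit 532) (nat_lit 22648151504) (nat_lit 76) (nat_lit 1629824430) (nat_lit 125) (nat_lit 5) (nat_lit 132) (nat_lit 5) (nat_lit 126) (nat_lit 5) (nat_lit 349) (nat_lit 312) (nat_lit 119)))) (XT.nd (nat_lit 156) (nat_lit 380) (nat_lit 0) (XT.nd (nat_lit 78) (nat_lit 380) (nat_lit 0) (XT.lf (nat_lit 0) (nat_lit 15848033337) (nat_lit 532) (nat_lit 5106660512) (nat_lit 76) (nat_lit 14741955296) (nat_lit 125) (nat_lit 5) (nat_lit 132) (nat_lit 5) (nat_lit 126) (nat_lit 5) (nat_lit 350) (nat_lit 312) (nat_lit 118)) (XT.lf (nat_lit 0) (nat_lit 13215662688) (nat_lit 380) (nat_lit 7981027071) (nat_lit 456) (nat_lit 15158287958) (nat_lit 120) (nat_lit 5) (nat_lit 125) (nat_lit 5) (nat_lit 126) (nat_lit 5) (nat_lit 351)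 (nat_lit 312) (nat_lit 117))) (XT.nd (nat_lit 78) (nat_lit 380) (nat_lit 0) (XT.lf (nat_lit 0) (nat_lit 26806979161) (nat_lit 456) (nat_lit 4894756539) (nat_lit 76) (nat_lit 5328287333) (nat_lit 120) (nat_lit 5) (nat_lit 126) (nat_lit 5) (nat_lit 121) (nat_lit 5) (nat_lit 352) (nat_lit 312) (nat_lit 116)) (XT.lf (nat_lit 0) (nat_lit 14089818709) (nat_lit 380) (nat_lit 18707657232) (nat_lit 456) (nat_lit 4921488830) (nat_lit 115) (nat_lit 5) (nat_lit 120) (nat_lit 5) (nat_lit 121) (nat_lit 5) (nat_lit 353) (nat_lit 312) (nat_lit 115))))))) (XT.nd (nat_lit 1092) (nat_lit 1824) (nat_lit 0) (XT.nd (nat_lit 546) (nat_lit 1292) (nat_lit 0) (XT.nd (nat_lit 234) (nat_lit 684) (nat_lit 0) (XT.nd (nat_lit 78) (nat_lit 380) (nat_lit 0) (XT.lf (nat_lit 0) (nat_lit 575965202) (nat_lit 456) (nat_lit 4691758470) (nat_lit 76) (nat_lit 33159276359) (nat_lit 114) (nat_lit 5) (nat_lit 120) (nat_lit 5) (nat_lit 115)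 (nat_lit 5) (nat_lit 354) (nat_lit 312) (nat_lit 114)) (XT.nd (nat_lit 78) (nat_lit 0) (nat_lit 0) (XT.lf (nat_lit 0) (nat_lit 6366020242) (nat_lit 456) (nat_lit 24179245225) (nat_lit 76) (nat_lit 8602753073) (nat_lit 109) (nat_lit 5) (nat_lit 115) (nat_lit 5) (nat_lit 110) (nat_lit 5) (nat_lit 355) (nat_lit 312) (nat_lit 113)) (XT.lf (nat_lit 0) (nat_lit 12427343893) (nat_lit 456) (nat_lit 4629779044) (nat_lit 76) (nat_lit 22830619459) (nat_lit 109) (nat_lit 5) (nat_lit 115) (nat_lit 5) (nat_lit 110) (nat_lit 5) (nat_lit 356) (nat_lit 312) (nat_lit 112)))) (XT.nd (nat_lit 156) (nat_lit 304) (nat_lit 0) (XT.nd (nat_lit 78) (nat_lit 0) (nat_lit 0) (XT.lf (nat_lit 0) (nat_lit 15811600253) (nat_lit 380) (nat_lit 3008533340) (nat_lit 456) (nat_lit 21825037330) (nat_lit 104) (nat_lit 5) (nat_lit 109) (nat_lit 5) (nat_lit 110) (nat_lit 5) (nat_lit 357) (nat_lit 312) (nat_lit 111)) (XT.lf (nat_lit 0) (nat_lit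 25559764187) (nat_lit 456) (nat_lit 4576576675) (nat_lit 76) (nat_lit 11284331424) (nat_lit 104) (nat_lit 5) (nat_lit 110) (nat_lit 5) (nat_lit 105) (nat_lit 5) (nat_lit 358) (nat_lit 312) (nat_lit 110))) (XT.nd (nat_lit 78) (nat_lit 0) (nat_lit 0) (XT.lf (nat_lit 0) (nat_lit 16578797550) (nat_lit 304) (nat_lit 16109674625) (nat_lit 380) (nat_lit 9525361506) (nat_lit 100) (nat_lit 5) (nat_lit 104) (nat_lit 5) (nat_lit 105) (nat_lit 5) (nat_lit 359) (nat_lit 312) (nat_lit 109)) (XT.lf (nat_lit 0) (nat_lit 38459624097) (nat_lit 304) (nat_lit 1615404120) (nat_lit 380) (nat_lit 2954443697) (nat_lit 100) (nat_lit 5) (nat_lit 104) (nat_lit 5) (nat_lit 105) (nat_lit 5) (nat_lit 360) (nat_lit 312) (nat_lit 108))))) (XT.nd (nat_lit 234) (nat_lit 608) (nat_lit 0) (XT.nd (nat_lit 78) (nat_lit 304) (nat_lit 0) (XT.lf (nat_lit 0) (nat_lit 4034518253) (nat_lit 380) (nat_lit 26565780013) (nat_lit 76) (nat_lit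 13259322762) (nat_lit 95) (nat_lit 5) (nat_lit 100) (nat_lit 5) (nat_lit 96) (nat_lit 5) (nat_lit 361) (nat_lit 312) (nat_lit 107)) (XT.nd (nat_lit 78) (nat_lit 304) (nat_lit 0) (XT.lf (nat_lit 0) (nat_lit 11234207058) (nat_lit 380) (nat_lit 4854885427) (nat_lit 76) (nat_lit 28622892856) (nat_lit 95) (nat_lit 5) (nat_lit 100) (nat_lit 5) (nat_lit 96) (nat_lit 5) (nat_lit 362) (nat_lit 312) (nat_lit 106)) (XT.lf (nat_lit 0) (nat_lit 17852785617) (nat_lit 304) (nat_lit 966617553) (nat_lit 380) (nat_lit 26765433332) (nat_lit 91) (nat_lit 5) (nat_lit 95) (nat_lit 5) (nat_lit 96) (nat_lit 5) (nat_lit 363) (nat_lit 312) (nat_lit 105)))) (XT.nd (nat_lit 156) (nat_lit 304) (nat_lit 0) (XT.nd (nat_lit 78) (nat_lit 304) (nat_lit 0) (XT.lf (nat_lit 0) (nat_lit 26820031099) (nat_lit 380) (nat_lit 5285065542) (nat_lit 76) (nat_lit 14373141658) (nat_lit 91) (nat_lit 5) (nat_lit 96) (nat_lit 5) (nat_lit 92) (nat_lit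 5) (nat_lit 364) (nat_lit 312) (nat_lit 104)) (XT.lf (nat_lit 0) (nat_lit 18177606235) (nat_lit 304) (nat_lit 17065366625) (nat_lit 380) (nat_lit 12150001781) (nat_lit 87) (nat_lit 5) (nat_lit 91) (nat_lit 5) (nat_lit 92) (nat_lit 5) (nat_lit 365) (nat_lit 312) (nat_lit 103))) (XT.nd (nat_lit 78) (nat_lit 304) (nat_lit 0) (XT.lf (nat_lit 0) (nat_lit 42449661675) (nat_lit 304) (nat_lit 1520331533) (nat_lit 380) (nat_lit 4363619453) (nat_lit 87) (nat_lit 5) (nat_lit 91) (nat_lit 5) (nat_lit 92) (nat_lit 5) (nat_lit 366) (nat_lit 312) (nat_lit 102)) (XT.lf (nat_lit 0) (nat_lit 3902002973) (nat_lit 304) (nat_lit 30967659747) (nat_lit 76) (nat_lit 14422243996) (nat_lit 83) (nat_lit 5) (nat_lit 87) (nat_lit 5) (nat_lit 84) (nat_lit 5) (nat_lit 367) (nat_lit 312) (nat_lit 101)))))) (XT.nd (nat_lit 546) (nat_lit 988) (nat_lit 0) (XT.nd (nat_lit 234) (nat_lit 532) (nat_lit 0) (XT.nd (nat_lit 78) (nat_lit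 304) (nat_lit 0) (XT.lf (nat_lit 0) (nat_lit 12401027732) (nat_lit 304) (nat_lit 6959521603) (nat_lit 76) (nat_lit 30914911180) (nat_lit 83) (nat_lit 5) (nat_lit 87) (nat_lit 5) (nat_lit 84) (nat_lit 5) (nat_lit 368) (nat_lit 312) (nat_lit 100)) (XT.nd (nat_lit 78) (nat_lit 0) (nat_lit 0) (XT.lf (nat_lit 0) (nat_lit 18119708082) (nat_lit 304) (nat_lit 3207629427) (nat_lit 380) (nat_lit 29956015144) (nat_lit 79) (nat_lit 5) (nat_lit 83) (nat_lit 5) (nat_lit 84) (nat_lit 5) (nat_lit 369) (nat_lit 312) (nat_lit 99)) (XT.lf (nat_lit 0) (nat_lit 30719662563) (nat_lit 380) (nat_lit 8357941597) (nat_lit 76) (nat_lit 13237931739) (nat_lit 79) (nat_lit 5) (nat_lit 84) (nat_lit 5) (nat_lit 80) (nat_lit 5) (nat_lit 370) (nat_lit 312) (nat_lit 98)))) (XT.nd (nat_lit 156) (nat_lit 304) (nat_lit 0) (XT.nd (nat_lit 78) (nat_lit 0) (nat_lit 0) (XT.lf (nat_lit 0) (nat_lit 17498967493) (nat_lit 228) (nat_lit 23092969496)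 (nat_lit 304) (nat_lit 12780803352) (nat_lit 76) (nat_lit 5) (nat_lit 79) (nat_lit 5) (nat_lit 80) (nat_lit 5) (nat_lit 371) (nat_lit 312) (nat_lit 97)) (XT.lf (nat_lit 0) (nat_lit 44300265534) (nat_lit 228) (nat_lit 6542749750) (nat_lit 304) (nat_lit 3616167620) (nat_lit 76) (nat_lit 5) (nat_lit 79) (nat_lit 5) (nat_lit 80) (nat_lit 5) (nat_lit 372) (nat_lit 312) (nat_lit 96))) (XT.nd (nat_lit 78) (nat_lit 0) (nat_lit 0) (XT.lf (nat_lit 0) (nat_lit 5970635431) (nat_lit 304) (nat_lit 39082322606) (nat_lit 76) (nat_lit 10515756442) (nat_lit 72) (nat_lit 5) (nat_lit 76) (nat_lit 5) (nat_lit 73) (nat_lit 5) (nat_lit 373) (nat_lit 312) (nat_lit 95)) (XT.lf (nat_lit 0) (nat_lit 15939029091) (nat_lit 304) (nat_lit 12673369587) (nat_lit 76) (nat_lit 28093060145) (nat_lit 72) (nat_lit 5) (nat_lit 76) (nat_lit 5) (nat_lit 73) (nat_lit 5) (nat_lit 374) (nat_lit 312) (nat_lit 94))))) (XT.nd (nat_lit 312) (nat_lit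 532) (nat_lit 0) (XT.nd (nat_lit 156) (nat_lit 228) (nat_lit 0) (XT.nd (nat_lit 78) (nat_lit 0) (nat_lit 0) (XT.lf (nat_lit 0) (nat_lit 14814386145) (nat_lit 228) (nat_lit 11532830603) (nat_lit 304) (nat_lit 31524867422) (nat_lit 69) (nat_lit 5) (nat_lit 72) (nat_lit 5) (nat_lit 73) (nat_lit 5) (nat_lit 375) (nat_lit 312) (nat_lit 93)) (XT.lf (nat_lit 0) (nat_lit 37253490243) (nat_lit 304) (nat_lit 15745378391) (nat_lit 76) (nat_lit 6069265348) (nat_lit 69) (nat_lit 5) (nat_lit 73) (nat_lit 5) (nat_lit 70) (nat_lit 5) (nat_lit 376) (nat_lit 312) (nat_lit 92))) (XT.nd (nat_lit 78) (nat_lit 0) (nat_lit 0) (XT.lf (nat_lit 0) (nat_lit 12513824372) (nat_lit 228) (nat_lit 36206005444) (nat_lit 304) (nat_lit 11573250022) (nat_lit 66) (nat_lit 5) (nat_lit 69) (nat_lit 5) (nat_lit 70) (nat_lit 5) (nat_lit 377) (nat_lit 312) (nat_lit 91)) (XT.lf (nat_lit 0) (nat_lit 41941102644) (nat_lit 228) (nat_lit 18746478153)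 (nat_lit 304) (nat_lit 862471495) (nat_lit 66) (nat_lit 5) (nat_lit 69) (nat_lit 5) (nat_lit 70) (nat_lit 5) (nat_lit 378) (nat_lit 312) (nat_lit 90)))) (XT.nd (nat_lit 156) (nat_lit 228) (nat_lit 0) (XT.nd (nat_lit 78) (nat_lit 0) (nat_lit 0) (XT.lf (nat_lit 0) (nat_lit 9491496752) (nat_lit 228) (nat_lit 569379301) (nat_lit 304) (nat_lit 52778235221) (nat_lit 62) (nat_lit 5) (nat_lit 65) (nat_lit 5) (nat_lit 66) (nat_lit 5) (nat_lit 379) (nat_lit 312) (nat_lit 89)) (XT.lf (nat_lit 0) (nat_lit 21667526954) (nat_lit 304) (nat_lit 24481418250) (nat_lit 76) (nat_lit 18006453298) (nat_lit 62) (nat_lit 5) (nat_lit 66) (nat_lit 5) (nat_lit 63) (nat_lit 5) (nat_lit 380) (nat_lit 312) (nat_lit 88))) (XT.nd (nat_lit 78) (nat_lit 0) (nat_lit 0) (XT.lf (nat_lit 0) (nat_lit 5347099229) (nat_lit 228) (nat_lit 28330827038) (nat_lit 304) (nat_lit 31831582375) (nat_lit 59) (nat_lit 5) (nat_lit 62) (nat_lit 5) (nat_lit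 63) (nat_lit 5) (nat_lit 381) (nat_lit 312) (nat_lit 87)) (XT.lf (nat_lit 0) (nat_lit 36569972099) (nat_lit 228) (nat_lit 9724412462) (nat_lit 304) (nat_lit 20602485857) (nat_lit 59) (nat_lit 5) (nat_lit 62) (nat_lit 5) (nat_lit 63) (nat_lit 5) (nat_lit 382) (nat_lit 312) (nat_lit 86))))))))
noncomputable def xc215 : XT := (XT.nd (nat_lit 36036) (nat_lit 0) (nat_lit 6080) (XT.nd (nat_lit 1092) (nat_lit 152) (nat_lit 0) (XT.nd (nat_lit 546) (nat_lit 684) (nat_lit 0) (XT.nd (nat_lit 234) (nat_lit 380) (nat_lit 0) (XT.nd (nat_lit 78) (nat_lit 76) (nat_lit 0) (XT.lf (nat_lit 0) (nat_lit 316802984) (nat_lit 152) (nat_lit 59064891072) (nat_lit 228) (nat_lit 8941388987) (nat_lit 57) (nat_lit 5) (nat_lit 59) (nat_lit 5) (nat_lit 60) (nat_lit 5) (nat_lit 383) (nat_lit 312) (nat_lit 85)) (XT.nd (nat_lit 78) (nat_lit 0) (nat_lit 0) (XT.lf (nat_lit 0) (nat_lit 3413770883) (nat_lit 228) (nat_lit 37412546076)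 (nat_lit 76) (nat_lit 28952756739) (nat_lit 56) (nat_lit 5) (nat_lit 59) (nat_lit 5) (nat_lit 57) (nat_lit 5) (nat_lit 384) (nat_lit 312) (nat_lit 84)) (XT.lf (nat_lit 0) (nat_lit 15958486341) (nat_lit 228) (nat_lit 5991779736) (nat_lit 76) (nat_lit 49325864384) (nat_lit 56) (nat_lit 5) (nat_lit 59) (nat_lit 5) (nat_lit 57) (nat_lit 5) (nat_lit 385) (nat_lit 312) (nat_lit 83)))) (XT.nd (nat_lit 156) (nat_lit 152) (nat_lit 0) (XT.nd (nat_lit 78) (nat_lit 0) (nat_lit 0) (XT.lf (nat_lit 0) (nat_lit 26894227345) (nat_lit 228) (nat_lit 2242493910) (nat_lit 304) (nat_lit 43673662968) (nat_lit 53) (nat_lit 5) (nat_lit 56) (nat_lit 5) (nat_lit 57) (nat_lit 5) (nat_lit 386) (nat_lit 312) (nat_lit 82)) (XT.lf (nat_lit 0) (nat_lit 42943642321) (nat_lit 304) (nat_lit 13675575955) (nat_lit 76) (nat_lit 17764447772) (nat_lit 53) (nat_lit 5) (nat_lit 57) (nat_lit 5) (nat_lit 54) (nat_lit 5) (nat_lit 387) (nat_lit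 312) (nat_lit 81))) (XT.nd (nat_lit 78) (nat_lit 0) (nat_lit 0) (XT.lf (nat_lit 0) (nat_lit 19896132197) (nat_lit 152) (nat_lit 37480799002) (nat_lit 228) (nat_lit 18620850924) (nat_lit 51) (nat_lit 5) (nat_lit 53) (nat_lit 5) (nat_lit 54) (nat_lit 5) (nat_lit 388) (nat_lit 312) (nat_lit 80)) (XT.lf (nat_lit 0) (nat_lit 54753215910) (nat_lit 152) (nat_lit 17626820277) (nat_lit 228) (nat_lit 5276181556) (nat_lit 51) (nat_lit 5) (nat_lit 53) (nat_lit 5) (nat_lit 54) (nat_lit 5) (nat_lit 389) (nat_lit 312) (nat_lit 79))))) (XT.nd (nat_lit 234) (nat_lit 228) (nat_lit 0) (XT.nd (nat_lit 78) (nat_lit 152) (nat_lit 0) (XT.lf (nat_lit 0) (nat_lit 8441219801) (nat_lit 304) (nat_lit 67956540080) (nat_lit 76) (nat_lit 2960075398) (nat_lit 47) (nat_lit 5) (nat_lit 51) (nat_lit 5) (nat_lit 48) (nat_lit 5) (nat_lit 390) (nat_lit 312) (nat_lit 78)) (XT.nd (nat_lit 78) (nat_lit 152) (nat_lit 0) (XT.lf (nat_lit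 0) (nat_lit 22870939687) (nat_lit 304) (nat_lit 34130490170) (nat_lit 76) (nat_lit 24095299563) (nat_lit 47) (nat_lit 5) (nat_lit 51) (nat_lit 5) (nat_lit 48) (nat_lit 5) (nat_lit 391) (nat_lit 312) (nat_lit 77)) (XT.lf (nat_lit 0) (nat_lit 722413794) (nat_lit 152) (nat_lit 37016872215) (nat_lit 228) (nat_lit 45148332849) (nat_lit 45) (nat_lit 5) (nat_lit 47) (nat_lit 5) (nat_lit 48) (nat_lit 5) (nat_lit 392) (nat_lit 312) (nat_lit 76)))) (XT.nd (nat_lit 156) (nat_lit 228) (nat_lit 0) (XT.nd (nat_lit 78) (nat_lit 0) (nat_lit 0) (XT.lf (nat_lit 0) (nat_lit 37318541972) (nat_lit 152) (nat_lit 16078598292) (nat_lit 228) (nat_lit 31324791494) (nat_lit 45) (nat_lit 5) (nat_lit 47) (nat_lit 5) (nat_lit 48) (nat_lit 5) (nat_lit 393) (nat_lit 312) (nat_lit 75)) (XT.lf (nat_lit 0) (nat_lit 69576316175) (nat_lit 228) (nat_lit 11653446162) (nat_lit 76) (nat_lit 5379964618) (nat_lit 45) (nat_lit 5) (nat_lit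 48) (nat_lit 5) (nat_lit 46) (nat_lit 5) (nat_lit 394) (nat_lit 312) (nat_lit 74))) (XT.nd (nat_lit 78) (nat_lit 76) (nat_lit 0) (XT.lf (nat_lit 0) (nat_lit 25505591380) (nat_lit 152) (nat_lit 61138513050) (nat_lit 228) (nat_lit 1897954942) (nat_lit 43) (nat_lit 5) (nat_lit 45) (nat_lit 5) (nat_lit 46) (nat_lit 5) (nat_lit 395) (nat_lit 312) (nat_lit 73)) (XT.lf (nat_lit 0) (nat_lit 13542105805) (nat_lit 228) (nat_lit 26645244430) (nat_lit 76) (nat_lit 50337532233) (nat_lit 42) (nat_lit 5) (nat_lit 45) (nat_lit 5) (nat_lit 43) (nat_lit 5) (nat_lit 396) (nat_lit 312) (nat_lit 72)))))) (XT.nd (nat_lit 34398) (nat_lit 0) (nat_lit 12616) (XT.nd (nat_lit 34086) (nat_lit 0) (nat_lit 12540) (XT.nd (nat_lit 78) (nat_lit 0) (nat_lit 0) (XT.lf (nat_lit 0) (nat_lit 11032340403) (nat_lit 152) (nat_lit 18479834348) (nat_lit 228) (nat_lit 63051303592) (nat_lit 40) (nat_lit 5) (nat_lit 42) (nat_lit 5) (nat_lit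 43) (nat_lit 5) (nat_lit 397) (nat_lit 312) (nat_lit 71)) (XT.nd (nat_lit 78) (nat_lit 0) (nat_lit 0) (XT.lf (nat_lit 0) (nat_lit 46269271545) (nat_lit 228) (nat_lit 44310528176) (nat_lit 76) (nat_lit 4074195022) (nat_lit 40) (nat_lit 5) (nat_lit 43) (nat_lit 5) (nat_lit 41) (nat_lit 5) (nat_lit 398) (nat_lit 312) (nat_lit 70)) (XT.lf (nat_lit 0) (nat_lit 63710992250) (nat_lit 228) (nat_lit 6158086018) (nat_lit 76) (nat_lit 26932691449) (nat_lit 40) (nat_lit 5) (nat_lit 43) (nat_lit 5) (nat_lit 41) (nat_lit 5) (nat_lit 399) (nat_lit 312) (nat_lit 69)))) (XT.nd (nat_lit 156) (nat_lit 0) (nat_lit 0) (XT.nd (nat_lit 78) (nat_lit 0) (nat_lit 0) (XT.lf (nat_lit 0) (nat_lit 2502706269) (nat_lit 0) (nat_lit 2502706269) (nat_lit 1140) (nat_lit 4837215667) (nat_lit 205) (nat_lit 5) (nat_lit 205) (nat_lit 3) (nat_lit 220) (nat_lit 3) (nat_lit 313) (nat_lit 313) (nat_lit 154)) (XT.lf (nat_lit 0) (nat_lit 10363104883)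 (nat_lit 1140) (nat_lit 5683869580) (nat_lit 1216) (nat_lit 3927328011) (nat_lit 205) (nat_lit 5) (nat_lit 220) (nat_lit 3) (nat_lit 221) (nat_lit 5) (nat_lit 314) (nat_lit 313) (nat_lit 153))) (XT.nd (nat_lit 78) (nat_lit 0) (nat_lit 76) (XT.lf (nat_lit 76) (nat_lit 3599237936) (nat_lit 0) (nat_lit 7204517051) (nat_lit 1216) (nat_lit 9465937483) (nat_lit 206) (nat_lit 5) (nat_lit 205) (nat_lit 5) (nat_lit 221) (nat_lit 5) (nat_lit 315) (nat_lit 313) (nat_lit 152)) (XT.lf (nat_lit 0) (nat_lit 11327708524) (nat_lit 1140) (nat_lit 7317340536) (nat_lit 1216) (nat_lit 1926799000) (nat_lit 206) (nat_lit 5) (nat_lit 221) (nat_lit 5) (nat_lit 222) (nat_lit 5) (nat_lit 316) (nat_lit 313) (nat_lit 151))))) (XT.nd (nat_lit 234) (nat_lit 0) (nat_lit 76) (XT.nd (nat_lit 78) (nat_lit 0) (nat_lit 0) (XT.lf (nat_lit 76) (nat_lit 2286143450) (nat_lit 0) (nat_lit 9668549595) (nat_lit 1216) (nat_lit 8925762129) (nat_lit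 207) (nat_lit 5) (nat_lit 206) (nat_lit 5) (nat_lit 222) (nat_lit 5) (nat_lit 317) (nat_lit 313) (nat_lit 150)) (XT.nd (nat_lit 78) (nat_lit 0) (nat_lit 76) (XT.lf (nat_lit 76) (nat_lit 12324262129) (nat_lit 0) (nat_lit 344261762) (nat_lit 1216) (nat_lit 8527761550) (nat_lit 207) (nat_lit 5) (nat_lit 206) (nat_lit 5) (nat_lit 222) (nat_lit 5) (nat_lit 318) (nat_lit 313) (nat_lit 149)) (XT.lf (nat_lit 76) (nat_lit 1070241834) (nat_lit 0) (nat_lit 12427164844) (nat_lit 1216) (nat_lit 8021380698) (nat_lit 208) (nat_lit 5) (nat_lit 207) (nat_lit 5) (nat_lit 223) (nat_lit 5) (nat_lit 319) (nat_lit 313) (nat_lit 148)))) (XT.nd (nat_lit 156) (nat_lit 0) (nat_lit 76) (XT.nd (nat_lit 78) (nat_lit 0) (nat_lit 76) (XT.lf (nat_lit 76) (nat_lit 11485635545) (nat_lit 0) (nat_lit 2952955278) (nat_lit 1216) (nat_lit 7409756197) (nat_lit 208) (nat_lit 5) (nat_lit 207) (nat_lit 5) (nat_lit 223) (nat_lit 5) (nat_lit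 320) (nat_lit 313) (nat_lit 147)) (XT.lf (nat_lit 0) (nat_lit 15468078392) (nat_lit 1140) (nat_lit 43334063) (nat_lit 1216) (nat_lit 6674584495) (nat_lit 208) (nat_lit 5) (nat_lit 223) (nat_lit 5) (nat_lit 224) (nat_lit 5) (nat_lit 321) (nat_lit 313) (nat_lit 146))) (XT.nd (nat_lit 78) (nat_lit 0) (nat_lit 76) (XT.lf (nat_lit 76) (nat_lit 10762902492) (nat_lit 0) (nat_lit 5893050175) (nat_lit 1216) (nat_lit 5874004018) (nat_lit 209) (nat_lit 5) (nat_lit 208) (nat_lit 5) (nat_lit 224) (nat_lit 5) (nat_lit 322) (nat_lit 313) (nat_lit 145)) (XT.lf (nat_lit 0) (nat_lit 17913427419) (nat_lit 1140) (nat_lit 1032242205) (nat_lit 1216) (nat_lit 3937551876) (nat_lit 209) (nat_lit 5) (nat_lit 224) (nat_lit 5) (nat_lit 225) (nat_lit 5) (nat_lit 323) (nat_lit 313) (nat_lit 144))))))) (XT.nd (nat_lit 1092) (nat_lit 3876) (nat_lit 0) (XT.nd (nat_lit 546) (nat_lit 1748) (nat_lit 0) (XT.nd (nat_lit 234) (nat_lit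 1140) (nat_lit 0) (XT.nd (nat_lit 78) (nat_lit 0) (nat_lit 76) (XT.lf (nat_lit 76) (nat_lit 10161004589) (nat_lit 0) (nat_lit 9198728686) (nat_lit 1216) (nat_lit 3882822841) (nat_lit 210) (nat_lit 5) (nat_lit 209) (nat_lit 5) (nat_lit 225) (nat_lit 5) (nat_lit 324) (nat_lit 313) (nat_lit 143)) (XT.nd (nat_lit 78) (nat_lit 0) (nat_lit 0) (XT.lf (nat_lit 0) (nat_lit 20863243644) (nat_lit 1140) (nat_lit 1913000233) (nat_lit 1216) (nat_lit 836017349) (nat_lit 210) (nat_lit 5) (nat_lit 225) (nat_lit 5) (nat_lit 226) (nat_lit 5) (nat_lit 325) (nat_lit 313) (nat_lit 142)) (XT.lf (nat_lit 76) (nat_lit 9684959176) (nat_lit 0) (nat_lit 12906421946) (nat_lit 1216) (nat_lit 1396295485) (nat_lit 211) (nat_lit 5) (nat_lit 210) (nat_lit 5) (nat_lit 226) (nat_lit 5) (nat_lit 326) (nat_lit 313) (nat_lit 141)))) (XT.nd (nat_lit 156) (nat_lit 0) (nat_lit 76) (XT.nd (nat_lit 78) (nat_lit 0) (nat_lit 76) (XT.lf (nat_lit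 0) (nat_lit 11975014) (nat_lit 1216) (nat_lit 2707486919) (nat_lit 1292) (nat_lit 21654450627) (nat_lit 194) (nat_lit 5) (nat_lit 210) (nat_lit 5) (nat_lit 211) (nat_lit 5) (nat_lit 327) (nat_lit 313) (nat_lit 140)) (XT.lf (nat_lit 0) (nat_lit 1596098783) (nat_lit 1216) (nat_lit 15442787400) (nat_lit 1292) (nat_lit 7727588955) (nat_lit 195) (nat_lit 5) (nat_lit 211) (nat_lit 5) (nat_lit 212) (nat_lit 5) (nat_lit 328) (nat_lit 313) (nat_lit 139))) (XT.nd (nat_lit 78) (nat_lit 0) (nat_lit 76) (XT.lf (nat_lit 0) (nat_lit 3277921339) (nat_lit 1216) (nat_lit 3429517394) (nat_lit 1292) (nat_lit 18461874848) (nat_lit 195) (nat_lit 5) (nat_lit 211) (nat_lit 5) (nat_lit 212) (nat_lit 5) (nat_lit 329) (nat_lit 313) (nat_lit 138)) (XT.lf (nat_lit 0) (nat_lit 5132307822) (nat_lit 1216) (nat_lit 16501862023) (nat_lit 76) (nat_lit 3946408172) (nat_lit 196) (nat_lit 5) (nat_lit 212) (nat_lit 5) (nat_lit 197) (nat_lit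 5) (nat_lit 330) (nat_lit 313) (nat_lit 137))))) (XT.nd (nat_lit 234) (nat_lit 1140) (nat_lit 0) (XT.nd (nat_lit 78) (nat_lit 760) (nat_lit 0) (XT.lf (nat_lit 0) (nat_lit 7139572362) (nat_lit 1216) (nat_lit 4041016459) (nat_lit 76) (nat_lit 14820678165) (nat_lit 196) (nat_lit 5) (nat_lit 212) (nat_lit 5) (nat_lit 197) (nat_lit 5) (nat_lit 331) (nat_lit 313) (nat_lit 136)) (XT.nd (nat_lit 78) (nat_lit 0) (nat_lit 0) (XT.lf (nat_lit 0) (nat_lit 8965080951) (nat_lit 760) (nat_lit 324134150) (nat_lit 836) (nat_lit 17142900599) (nat_lit 186) (nat_lit 5) (nat_lit 196) (nat_lit 5) (nat_lit 197) (nat_lit 5) (nat_lit 332) (nat_lit 313) (nat_lit 135)) (XT.lf (nat_lit 0) (nat_lit 11645001709) (nat_lit 836) (nat_lit 4538851656) (nat_lit 76) (nat_lit 10687790638) (nat_lit 186) (nat_lit 5) (nat_lit 197) (nat_lit 5) (nat_lit 187) (nat_lit 5) (nat_lit 333) (nat_lit 313) (nat_lit 134)))) (XT.nd (nat_lit 156) (nat_lit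 532) (nat_lit 0) (XT.nd (nat_lit 78) (nat_lit 0) (nat_lit 0) (XT.lf (nat_lit 0) (nat_lit 8945015962) (nat_lit 608) (nat_lit 5211824970) (nat_lit 684) (nat_lit 13164959510) (nat_lit 178) (nat_lit 5) (nat_lit 186) (nat_lit 5) (nat_lit 187) (nat_lit 5) (nat_lit 334) (nat_lit 313) (nat_lit 133)) (XT.lf (nat_lit 0) (nat_lit 16845122526) (nat_lit 684) (nat_lit 4920218590) (nat_lit 76) (nat_lit 6017091393) (nat_lit 178) (nat_lit 5) (nat_lit 187) (nat_lit 5) (nat_lit 179) (nat_lit 5) (nat_lit 335) (nat_lit 313) (nat_lit 132))) (XT.nd (nat_lit 78) (nat_lit 0) (nat_lit 0) (XT.lf (nat_lit 0) (nat_lit 9061789477) (nat_lit 532) (nat_lit 10687346763) (nat_lit 608) (nat_lit 8503698237) (nat_lit 171) (nat_lit 5) (nat_lit 178) (nat_lit 5) (nat_lit 179) (nat_lit 5) (nat_lit 336) (nat_lit 313) (nat_lit 131)) (XT.lf (nat_lit 0) (nat_lit 22793844139) (nat_lit 608) (nat_lit 5182739827) (nat_lit 76) (nat_lit 759160670)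 (nat_lit 171) (nat_lit 5) (nat_lit 179) (nat_lit 5) (nat_lit 172) (nat_lit 5) (nat_lit 337) (nat_lit 313) (nat_lit 130)))))) (XT.nd (nat_lit 546) (nat_lit 1748) (nat_lit 0) (XT.nd (nat_lit 234) (nat_lit 988) (nat_lit 0) (XT.nd (nat_lit 78) (nat_lit 608) (nat_lit 0) (XT.lf (nat_lit 0) (nat_lit 9318380388) (nat_lit 532) (nat_lit 16803453134) (nat_lit 608) (nat_lit 3105553620) (nat_lit 164) (nat_lit 5) (nat_lit 171) (nat_lit 5) (nat_lit 172) (nat_lit 5) (nat_lit 338) (nat_lit 313) (nat_lit 129)) (XT.nd (nat_lit 78) (nat_lit 608) (nat_lit 0) (XT.lf (nat_lit 0) (nat_lit 24357355197) (nat_lit 532) (nat_lit 5241261444) (nat_lit 608) (nat_lit 133696817) (nat_lit 164) (nat_lit 5) (nat_lit 171) (nat_lit 5) (nat_lit 172) (nat_lit 5) (nat_lit 339) (nat_lit 313) (nat_lit 128)) (XT.lf (nat_lit 0) (nat_lit 3025936538) (nat_lit 608) (nat_lit 20560217190) (nat_lit 76) (nat_lit 6660720334) (nat_lit 156) (nat_lit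 5) (nat_lit 164) (nat_lit 5) (nat_lit 157) (nat_lit 5) (nat_lit 340) (nat_lit 313) (nat_lit 127)))) (XT.nd (nat_lit 156) (nat_lit 456) (nat_lit 0) (XT.nd (nat_lit 78) (nat_lit 532) (nat_lit 0) (XT.lf (nat_lit 0) (nat_lit 6381124262) (nat_lit 608) (nat_lit 5522151952) (nat_lit 76) (nat_lit 18870454869) (nat_lit 156) (nat_lit 5) (nat_lit 164) (nat_lit 5) (nat_lit 157) (nat_lit 5) (nat_lit 341) (nat_lit 313) (nat_lit 126)) (XT.lf (nat_lit 0) (nat_lit 9933706464) (nat_lit 608) (nat_lit 21153779433) (nat_lit 76) (nat_lit 226008556) (nat_lit 149) (nat_lit 5) (nat_lit 157) (nat_lit 5) (nat_lit 150) (nat_lit 5) (nat_lit 342) (nat_lit 313) (nat_lit 125))) (XT.nd (nat_lit 78) (nat_lit 456) (nat_lit 0) (XT.lf (nat_lit 0) (nat_lit 13763933084) (nat_lit 608) (nat_lit 5564363304) (nat_lit 76) (nat_lit 12536025049) (nat_lit 149) (nat_lit 5) (nat_lit 157) (nat_lit 5) (nat_lit 150) (nat_lit 5) (nat_lit 343) (nat_lit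 313) (nat_lit 124)) (XT.lf (nat_lit 0) (nat_lit 10698178961) (nat_lit 456) (nat_lit 7110713056) (nat_lit 532) (nat_lit 14619789090) (nat_lit 143) (nat_lit 5) (nat_lit 149) (nat_lit 5) (nat_lit 150) (nat_lit 5) (nat_lit 344) (nat_lit 313) (nat_lit 123))))) (XT.nd (nat_lit 312) (nat_lit 836) (nat_lit 0) (XT.nd (nat_lit 156) (nat_lit 456) (nat_lit 0) (XT.nd (nat_lit 78) (nat_lit 456) (nat_lit 0) (XT.lf (nat_lit 0) (nat_lit 22081599935) (nat_lit 532) (nat_lit 5502166306) (nat_lit 76) (nat_lit 5423015885) (nat_lit 143) (nat_lit 5) (nat_lit 150) (nat_lit 5) (nat_lit 144) (nat_lit 5) (nat_lit 345) (nat_lit 313) (nat_lit 122)) (XT.lf (nat_lit 0) (nat_lit 11361037560) (nat_lit 456) (nat_lit 15298191135) (nat_lit 532) (nat_lit 6937697782) (nat_lit 137) (nat_lit 5) (nat_lit 143) (nat_lit 5) (nat_lit 144) (nat_lit 5) (nat_lit 346) (nat_lit 313) (nat_lit 121))) (XT.nd (nat_lit 78) (nat_lit 456) (nat_lit 0) (XT.lf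 (nat_lit 0) (nat_lit 28839684941) (nat_lit 456) (nat_lit 2587242243) (nat_lit 532) (nat_lit 2776268168) (nat_lit 137) (nat_lit 5) (nat_lit 143) (nat_lit 5) (nat_lit 144) (nat_lit 5) (nat_lit 347) (nat_lit 313) (nat_lit 120)) (XT.lf (nat_lit 0) (nat_lit 1697676898) (nat_lit 456) (nat_lit 22689968427) (nat_lit 76) (nat_lit 10433059649) (nat_lit 131) (nat_lit 5) (nat_lit 137) (nat_lit 5) (nat_lit 132) (nat_lit 5) (nat_lit 348) (nat_lit 313) (nat_lit 119)))) (XT.nd (nat_lit 156) (nat_lit 380) (nat_lit 0) (XT.nd (nat_lit 78) (nat_lit 456) (nat_lit 0) (XT.lf (nat_lit 0) (nat_lit 6327631749) (nat_lit 456) (nat_lit 5252250241) (nat_lit 76) (nat_lit 23873707723) (nat_lit 131) (nat_lit 5) (nat_lit 137) (nat_lit 5) (nat_lit 132) (nat_lit 5) (nat_lit 349) (nat_lit 313) (nat_lit 118)) (XT.lf (nat_lit 0) (nat_lit 11235130877) (nat_lit 532) (nat_lit 23160225566) (nat_lit 76) (nat_lit 1705947330) (nat_lit 125)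 (nat_lit 5) (nat_lit 132) (nat_lit 5) (nat_lit 126) (nat_lit 5) (nat_lit 350) (nat_lit 313) (nat_lit 117))) (XT.nd (nat_lit 78) (nat_lit 380) (nat_lit 0) (XT.lf (nat_lit 0) (nat_lit 16455469135) (nat_lit 532) (nat_lit 5097364712) (nat_lit 76) (nat_lit 15210649069) (nat_lit 125) (nat_lit 5) (nat_lit 132) (nat_lit 5) (nat_lit 126) (nat_lit 5) (nat_lit 351) (nat_lit 313) (nat_lit 116)) (XT.lf (nat_lit 0) (nat_lit 13773035089) (nat_lit 380) (nat_lit 8189252344) (nat_lit 456) (nat_lit 15479345928) (nat_lit 120) (nat_lit 5) (nat_lit 125) (nat_lit 5) (nat_lit 126) (nat_lit 5) (nat_lit 352) (nat_lit 313) (nat_lit 115))))))))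
noncomputable def xc216 : XT := (XT.nd (nat_lit 2184) (nat_lit 1672) (nat_lit 0) (XT.nd (nat_lit 1092) (nat_lit 1900) (nat_lit 0) (XT.nd (nat_lit 546) (nat_lit 1292) (nat_lit 0) (XT.nd (nat_lit 234) (nat_lit 760) (nat_lit 0) (XT.nd (nat_lit 78) (nat_lit 456) (nat_lit 0) (XT.lf (nat_lit 0) (nat_lit 27737399166) (nat_lit 456) (nat_lit 4881797059) (nat_lit 76) (nat_lit 5517841396) (nat_lit 120) (nat_lit 5) (nat_lit 126) (nat_lit 5) (nat_lit 121) (nat_lit 5) (nat_lit 353) (nat_lit 313) (nat_lit 114)) (XT.nd (nat_lit 78) (nat_lit 76) (nat_lit 0) (XT.lf (nat_lit 0) (nat_lit 14670748759) (nat_lit 380) (nat_lit 19234707109) (nat_lit 456) (nat_lit 4941259299) (nat_lit 115) (nat_lit 5) (nat_lit 120) (nat_lit 5) (nat_lit 121) (nat_lit 5) (nat_lit 354) (nat_lit 313) (nat_lit 113)) (XT.lf (nat_lit 0) (nat_lit 714971255) (nat_lit 456) (nat_lit 4676370612) (nat_lit 76) (nat_lit 34184725036) (nat_lit 114) (nat_lit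 5) (nat_lit 120) (nat_lit 5) (nat_lit 115) (nat_lit 5) (nat_lit 355) (nat_lit 313) (nat_lit 112)))) (XT.nd (nat_lit 156) (nat_lit 380) (nat_lit 0) (XT.nd (nat_lit 78) (nat_lit 0) (nat_lit 0) (XT.lf (nat_lit 0) (nat_lit 6677004584) (nat_lit 456) (nat_lit 24746669952) (nat_lit 76) (nat_lit 8895095791) (nat_lit 109) (nat_lit 5) (nat_lit 115) (nat_lit 5) (nat_lit 110) (nat_lit 5) (nat_lit 356) (nat_lit 313) (nat_lit 111)) (XT.lf (nat_lit 0) (nat_lit 12916672690) (nat_lit 456) (nat_lit 4615320347) (nat_lit 76) (nat_lit 23548800301) (nat_lit 109) (nat_lit 5) (nat_lit 115) (nat_lit 5) (nat_lit 110) (nat_lit 5) (nat_lit 357) (nat_lit 313) (nat_lit 110))) (XT.nd (nat_lit 78) (nat_lit 0) (nat_lit 0) (XT.lf (nat_lit 0) (nat_lit 16437796877) (nat_lit 380) (nat_lit 3061515415) (nat_lit 456) (nat_lit 22361692950) (nat_lit 104) (nat_lit 5) (nat_lit 109) (nat_lit 5) (nat_lit 110) (nat_lit 5) (nat_lit 358) (nat_lit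 313) (nat_lit 109)) (XT.lf (nat_lit 0) (nat_lit 26438142540) (nat_lit 456) (nat_lit 4563377738) (nat_lit 76) (nat_lit 11658343480) (nat_lit 104) (nat_lit 5) (nat_lit 110) (nat_lit 5) (nat_lit 105) (nat_lit 5) (nat_lit 359) (nat_lit 313) (nat_lit 108))))) (XT.nd (nat_lit 234) (nat_lit 608) (nat_lit 0) (XT.nd (nat_lit 78) (nat_lit 380) (nat_lit 0) (XT.lf (nat_lit 0) (nat_lit 17225182261) (nat_lit 304) (nat_lit 16553711926) (nat_lit 380) (nat_lit 9697982700) (nat_lit 100) (nat_lit 5) (nat_lit 104) (nat_lit 5) (nat_lit 105) (nat_lit 5) (nat_lit 360) (nat_lit 313) (nat_lit 107)) (XT.nd (nat_lit 78) (nat_lit 380) (nat_lit 0) (XT.lf (nat_lit 0) (nat_lit 39758093193) (nat_lit 304) (nat_lit 1625756595) (nat_lit 380) (nat_lit 2933232686) (nat_lit 100) (nat_lit 5) (nat_lit 104) (nat_lit 5) (nat_lit 105) (nat_lit 5) (nat_lit 361) (nat_lit 313) (nat_lit 106)) (XT.lf (nat_lit 0) (nat_lit 4261895633) (nat_lit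 380) (nat_lit 27214424217) (nat_lit 76) (nat_lit 13695827468) (nat_lit 95) (nat_lit 5) (nat_lit 100) (nat_lit 5) (nat_lit 96) (nat_lit 5) (nat_lit 362) (nat_lit 313) (nat_lit 105)))) (XT.nd (nat_lit 156) (nat_lit 304) (nat_lit 0) (XT.nd (nat_lit 78) (nat_lit 304) (nat_lit 0) (XT.lf (nat_lit 0) (nat_lit 11674477767) (nat_lit 380) (nat_lit 4856523061) (nat_lit 76) (nat_lit 29519176751) (nat_lit 95) (nat_lit 5) (nat_lit 100) (nat_lit 5) (nat_lit 96) (nat_lit 5) (nat_lit 363) (nat_lit 313) (nat_lit 104)) (XT.lf (nat_lit 0) (nat_lit 18530966262) (nat_lit 304) (nat_lit 954627110) (nat_lit 380) (nat_lit 27463672034) (nat_lit 91) (nat_lit 5) (nat_lit 95) (nat_lit 5) (nat_lit 96) (nat_lit 5) (nat_lit 364) (nat_lit 313) (nat_lit 103))) (XT.nd (nat_lit 78) (nat_lit 304) (nat_lit 0) (XT.lf (nat_lit 0) (nat_lit 27723663214) (nat_lit 380) (nat_lit 5302530852) (nat_lit 76) (nat_lit 14843354478) (nat_lit 91) (nat_lit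 5) (nat_lit 96) (nat_lit 5) (nat_lit 92) (nat_lit 5) (nat_lit 365) (nat_lit 313) (nat_lit 102)) (XT.lf (nat_lit 0) (nat_lit 18862637877) (nat_lit 304) (nat_lit 17535113863) (nat_lit 380) (nat_lit 12414023402) (nat_lit 87) (nat_lit 5) (nat_lit 91) (nat_lit 5) (nat_lit 92) (nat_lit 5) (nat_lit 366) (nat_lit 313) (nat_lit 101)))))) (XT.nd (nat_lit 546) (nat_lit 1064) (nat_lit 0) (XT.nd (nat_lit 234) (nat_lit 532) (nat_lit 0) (XT.nd (nat_lit 78) (nat_lit 304) (nat_lit 0) (XT.lf (nat_lit 0) (nat_lit 43858785947) (nat_lit 304) (nat_lit 1524957246) (nat_lit 380) (nat_lit 4396976160) (nat_lit 87) (nat_lit 5) (nat_lit 91) (nat_lit 5) (nat_lit 92) (nat_lit 5) (nat_lit 367) (nat_lit 313) (nat_lit 100)) (XT.nd (nat_lit 78) (nat_lit 0) (nat_lit 0) (XT.lf (nat_lit 0) (nat_lit 4113639662) (nat_lit 304) (nat_lit 31757960858) (nat_lit 76) (nat_lit 14896167487) (nat_lit 83) (nat_lit 5) (nat_lit 87) (nat_lit 5) (nat_lit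 84) (nat_lit 5) (nat_lit 368) (nat_lit 313) (nat_lit 99)) (XT.lf (nat_lit 0) (nat_lit 12864880505) (nat_lit 304) (nat_lit 7033619211) (nat_lit 76) (nat_lit 31882413050) (nat_lit 83) (nat_lit 5) (nat_lit 87) (nat_lit 5) (nat_lit 84) (nat_lit 5) (nat_lit 369) (nat_lit 313) (nat_lit 98)))) (XT.nd (nat_lit 156) (nat_lit 228) (nat_lit 0) (XT.nd (nat_lit 78) (nat_lit 0) (nat_lit 0) (XT.lf (nat_lit 0) (nat_lit 18796666894) (nat_lit 304) (nat_lit 3260920267) (nat_lit 380) (nat_lit 30761497938) (nat_lit 79) (nat_lit 5) (nat_lit 83) (nat_lit 5) (nat_lit 84) (nat_lit 5) (nat_lit 370) (nat_lit 313) (nat_lit 97)) (XT.lf (nat_lit 0) (nat_lit 31729448822) (nat_lit 380) (nat_lit 8476909985) (nat_lit 76) (nat_lit 13675943639) (nat_lit 79) (nat_lit 5) (nat_lit 84) (nat_lit 5) (nat_lit 80) (nat_lit 5) (nat_lit 371) (nat_lit 313) (nat_lit 96))) (XT.nd (nat_lit 78) (nat_lit 0) (nat_lit 0) (XT.lf (nat_lit 0) (nat_lit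 18154414517) (nat_lit 228) (nat_lit 23742162372) (nat_lit 304) (nat_lit 13074687133) (nat_lit 76) (nat_lit 5) (nat_lit 79) (nat_lit 5) (nat_lit 80) (nat_lit 5) (nat_lit 372) (nat_lit 313) (nat_lit 95)) (XT.lf (nat_lit 0) (nat_lit 45755951169) (nat_lit 228) (nat_lit 6696705826) (nat_lit 304) (nat_lit 3637720299) (nat_lit 76) (nat_lit 5) (nat_lit 79) (nat_lit 5) (nat_lit 80) (nat_lit 5) (nat_lit 373) (nat_lit 313) (nat_lit 94))))) (XT.nd (nat_lit 234) (nat_lit 532) (nat_lit 0) (XT.nd (nat_lit 78) (nat_lit 228) (nat_lit 0) (XT.lf (nat_lit 0) (nat_lit 6234145410) (nat_lit 304) (nat_lit 40125476438) (nat_lit 76) (nat_lit 10873574681) (nat_lit 72) (nat_lit 5) (nat_lit 76) (nat_lit 5) (nat_lit 73) (nat_lit 5) (nat_lit 374) (nat_lit 313) (nat_lit 93)) (XT.nd (nat_lit 78) (nat_lit 228) (nat_lit 0) (XT.lf (nat_lit 0) (nat_lit 16499132891) (nat_lit 304) (nat_lit 12928021309) (nat_lit 76) (nat_lit 28976964130)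 (nat_lit 72) (nat_lit 5) (nat_lit 76) (nat_lit 5) (nat_lit 73) (nat_lit 5) (nat_lit 375) (nat_lit 313) (nat_lit 92)) (XT.lf (nat_lit 0) (nat_lit 15383136219) (nat_lit 228) (nat_lit 11835238588) (nat_lit 304) (nat_lit 32387404719) (nat_lit 69) (nat_lit 5) (nat_lit 72) (nat_lit 5) (nat_lit 73) (nat_lit 5) (nat_lit 376) (nat_lit 313) (nat_lit 91)))) (XT.nd (nat_lit 156) (nat_lit 304) (nat_lit 0) (XT.nd (nat_lit 78) (nat_lit 228) (nat_lit 0) (XT.lf (nat_lit 0) (nat_lit 38449891499) (nat_lit 304) (nat_lit 16095053558) (nat_lit 76) (nat_lit 6292825434) (nat_lit 69) (nat_lit 5) (nat_lit 73) (nat_lit 5) (nat_lit 70) (nat_lit 5) (nat_lit 377) (nat_lit 313) (nat_lit 90)) (XT.lf (nat_lit 0) (nat_lit 13010722481) (nat_lit 228) (nat_lit 37248371505) (nat_lit 304) (nat_lit 11840405825) (nat_lit 66) (nat_lit 5) (nat_lit 69) (nat_lit 5) (nat_lit 70) (nat_lit 5) (nat_lit 378) (nat_lit 313) (nat_lit 89))) (XT.nd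 (nat_lit 78) (nat_lit 304) (nat_lit 0) (XT.lf (nat_lit 0) (nat_lit 43317280751) (nat_lit 228) (nat_lit 19266334534) (nat_lit 304) (nat_lit 810635254) (nat_lit 66) (nat_lit 5) (nat_lit 69) (nat_lit 5) (nat_lit 70) (nat_lit 5) (nat_lit 379) (nat_lit 313) (nat_lit 88)) (XT.lf (nat_lit 0) (nat_lit 9894571423) (nat_lit 228) (nat_lit 543243105) (nat_lit 304) (nat_lit 54284177969) (nat_lit 62) (nat_lit 5) (nat_lit 65) (nat_lit 5) (nat_lit 66) (nat_lit 5) (nat_lit 380) (nat_lit 313) (nat_lit 87))))))) (XT.nd (nat_lit 1092) (nat_lit 380) (nat_lit 0) (XT.nd (nat_lit 546) (nat_lit 608) (nat_lit 0) (XT.nd (nat_lit 234) (nat_lit 456) (nat_lit 0) (XT.nd (nat_lit 78) (nat_lit 228) (nat_lit 0) (XT.lf (nat_lit 0) (nat_lit 22390880555) (nat_lit 304) (nat_lit 25099155506) (nat_lit 76) (nat_lit 18587786940) (nat_lit 62) (nat_lit 5) (nat_lit 66) (nat_lit 5) (nat_lit 63) (nat_lit 5) (nat_lit 381) (nat_lit 313) (nat_lit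 86)) (XT.nd (nat_lit 78) (nat_lit 0) (nat_lit 0) (XT.lf (nat_lit 0) (nat_lit 5623073328) (nat_lit 228) (nat_lit 29137493603) (nat_lit 304) (nat_lit 32712021358) (nat_lit 59) (nat_lit 5) (nat_lit 62) (nat_lit 5) (nat_lit 63) (nat_lit 5) (nat_lit 382) (nat_lit 313) (nat_lit 85)) (XT.lf (nat_lit 0) (nat_lit 37779266525) (nat_lit 228) (nat_lit 9974146539) (nat_lit 304) (nat_lit 21148222095) (nat_lit 59) (nat_lit 5) (nat_lit 62) (nat_lit 5) (nat_lit 63) (nat_lit 5) (nat_lit 383) (nat_lit 313) (nat_lit 84)))) (XT.nd (nat_lit 156) (nat_lit 228) (nat_lit 0) (XT.nd (nat_lit 78) (nat_lit 76) (nat_lit 0) (XT.lf (nat_lit 0) (nat_lit 439123005) (nat_lit 152) (nat_lit 60793650678) (nat_lit 228) (nat_lit 9137878558) (nat_lit 57) (nat_lit 5) (nat_lit 59) (nat_lit 5) (nat_lit 60) (nat_lit 5) (nat_lit 384) (nat_lit 313) (nat_lit 83)) (XT.lf (nat_lit 0) (nat_lit 3584486880) (nat_lit 228) (nat_lit 38424000615) (nat_lit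 76) (nat_lit 29861876876) (nat_lit 56) (nat_lit 5) (nat_lit 59) (nat_lit 5) (nat_lit 57) (nat_lit 5) (nat_lit 385) (nat_lit 313) (nat_lit 82))) (XT.nd (nat_lit 78) (nat_lit 228) (nat_lit 0) (XT.lf (nat_lit 0) (nat_lit 16503554397) (nat_lit 228) (nat_lit 6063842018) (nat_lit 76) (nat_lit 50844997048) (nat_lit 56) (nat_lit 5) (nat_lit 59) (nat_lit 5) (nat_lit 57) (nat_lit 5) (nat_lit 386) (nat_lit 313) (nat_lit 81)) (XT.lf (nat_lit 0) (nat_lit 27807689481) (nat_lit 228) (nat_lit 2268540462) (nat_lit 304) (nat_lit 44916473006) (nat_lit 53) (nat_lit 5) (nat_lit 56) (nat_lit 5) (nat_lit 57) (nat_lit 5) (nat_lit 387) (nat_lit 313) (nat_lit 80))))) (XT.nd (nat_lit 234) (nat_lit 456) (nat_lit 0) (XT.nd (nat_lit 78) (nat_lit 152) (nat_lit 0) (XT.lf (nat_lit 0) (nat_lit 44295838349) (nat_lit 304) (nat_lit 13980763811) (nat_lit 76) (nat_lit 18336627567) (nat_lit 53) (nat_lit 5) (nat_lit 57) (nat_lit 5) (nat_lit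 54) (nat_lit 5) (nat_lit 388) (nat_lit 313) (nat_lit 79)) (XT.nd (nat_lit 78) (nat_lit 0) (nat_lit 0) (XT.lf (nat_lit 0) (nat_lit 20597065395) (nat_lit 152) (nat_lit 38564199904) (nat_lit 228) (nat_lit 19114530670) (nat_lit 51) (nat_lit 5) (nat_lit 53) (nat_lit 5) (nat_lit 54) (nat_lit 5) (nat_lit 389) (nat_lit 313) (nat_lit 78)) (XT.lf (nat_lit 0) (nat_lit 56496831058) (nat_lit 152) (nat_lit 18115796665) (nat_lit 228) (nat_lit 5371412846) (nat_lit 51) (nat_lit 5) (nat_lit 53) (nat_lit 5) (nat_lit 54) (nat_lit 5) (nat_lit 390) (nat_lit 313) (nat_lit 77)))) (XT.nd (nat_lit 156) (nat_lit 152) (nat_lit 0) (XT.nd (nat_lit 78) (nat_lit 0) (nat_lit 0) (XT.lf (nat_lit 0) (nat_lit 8755840118) (nat_lit 304) (nat_lit 69892493612) (nat_lit 76) (nat_lit 3088368710) (nat_lit 47) (nat_lit 5) (nat_lit 51) (nat_lit 5) (nat_lit 48) (nat_lit 5) (nat_lit 391) (nat_lit 313) (nat_lit 76)) (XT.lf (nat_lit 0) (nat_lit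 23616663725) (nat_lit 304) (nat_lit 35054654708) (nat_lit 76) (nat_lit 24856499375) (nat_lit 47) (nat_lit 5) (nat_lit 51) (nat_lit 5) (nat_lit 48) (nat_lit 5) (nat_lit 392) (nat_lit 313) (nat_lit 75))) (XT.nd (nat_lit 78) (nat_lit 0) (nat_lit 0) (XT.lf (nat_lit 0) (nat_lit 842858431) (nat_lit 152) (nat_lit 38087415663) (nat_lit 228) (nat_lit 46442184172) (nat_lit 45) (nat_lit 5) (nat_lit 47) (nat_lit 5) (nat_lit 48) (nat_lit 5) (nat_lit 393) (nat_lit 313) (nat_lit 74)) (XT.lf (nat_lit 0) (nat_lit 38533993594) (nat_lit 152) (nat_lit 16522157485) (nat_lit 228) (nat_lit 32205701586) (nat_lit 45) (nat_lit 5) (nat_lit 47) (nat_lit 5) (nat_lit 48) (nat_lit 5) (nat_lit 394) (nat_lit 313) (nat_lit 73)))))) (XT.nd (nat_lit 34476) (nat_lit 0) (nat_lit 12540) (XT.nd (nat_lit 234) (nat_lit 152) (nat_lit 0) (XT.nd (nat_lit 78) (nat_lit 228) (nat_lit 0) (XT.lf (nat_lit 0) (nat_lit 71719401354) (nat_lit 228) (nat_lit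 11908622896) (nat_lit 76) (nat_lit 5578297199) (nat_lit 45) (nat_lit 5) (nat_lit 48) (nat_lit 5) (nat_lit 46) (nat_lit 5) (nat_lit 395) (nat_lit 313) (nat_lit 72)) (XT.nd (nat_lit 78) (nat_lit 76) (nat_lit 0) (XT.lf (nat_lit 0) (nat_lit 26364260021) (nat_lit 152) (nat_lit 62934236906) (nat_lit 228) (nat_lit 1898149384) (nat_lit 43) (nat_lit 5) (nat_lit 45) (nat_lit 5) (nat_lit 46) (nat_lit 5) (nat_lit 396) (nat_lit 313) (nat_lit 71)) (XT.lf (nat_lit 0) (nat_lit 14002385409) (nat_lit 228) (nat_lit 27352727702) (nat_lit 76) (nat_lit 51883873883) (nat_lit 42) (nat_lit 5) (nat_lit 45) (nat_lit 5) (nat_lit 43) (nat_lit 5) (nat_lit 397) (nat_lit 313) (nat_lit 70)))) (XT.nd (nat_lit 34086) (nat_lit 0) (nat_lit 12540) (XT.nd (nat_lit 78) (nat_lit 0) (nat_lit 0) (XT.lf (nat_lit 0) (nat_lit 11454283949) (nat_lit 152) (nat_lit 18996573671) (nat_lit 228) (nat_lit 64887904714) (nat_lit 40) (nat_lit 5) (nat_lit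 42) (nat_lit 5) (nat_lit 43) (nat_lit 5) (nat_lit 398) (nat_lit 313) (nat_lit 69)) (XT.lf (nat_lit 0) (nat_lit 47709465804) (nat_lit 228) (nat_lit 45550298659) (nat_lit 76) (nat_lit 4232266416) (nat_lit 40) (nat_lit 5) (nat_lit 43) (nat_lit 5) (nat_lit 41) (nat_lit 5) (nat_lit 399) (nat_lit 313) (nat_lit 68))) (XT.nd (nat_lit 78) (nat_lit 0) (nat_lit 0) (XT.lf (nat_lit 0) (nat_lit 2658808185) (nat_lit 0) (nat_lit 2658808185) (nat_lit 1140) (nat_lit 4815261806) (nat_lit 205) (nat_lit 5) (nat_lit 205) (nat_lit 3) (nat_lit 220) (nat_lit 3) (nat_lit 314) (nat_lit 314) (nat_lit 152)) (XT.lf (nat_lit 0) (nat_lit 10987129360) (nat_lit 1140) (nat_lit 5685786786) (nat_lit 1216) (nat_lit 3890895964) (nat_lit 205) (nat_lit 5) (nat_lit 220) (nat_lit 3) (nat_lit 221) (nat_lit 5) (nat_lit 315) (nat_lit 314) (nat_lit 151))))) (XT.nd (nat_lit 312) (nat_lit 0) (nat_lit 152) (XT.nd (nat_lit 156) (nat_lit 0) (nat_lit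 76) (XT.nd (nat_lit 78) (nat_lit 0) (nat_lit 76) (XT.lf (nat_lit 76) (nat_lit 3874161026) (nat_lit 0) (nat_lit 7559322398) (nat_lit 1216) (nat_lit 9434815329) (nat_lit 206) (nat_lit 5) (nat_lit 205) (nat_lit 5) (nat_lit 221) (nat_lit 5) (nat_lit 316) (nat_lit 314) (nat_lit 150)) (XT.lf (nat_lit 0) (nat_lit 11962959982) (nat_lit 1140) (nat_lit 7364274905) (nat_lit 1216) (nat_lit 1852599195) (nat_lit 206) (nat_lit 5) (nat_lit 221) (nat_lit 5) (nat_lit 222) (nat_lit 5) (nat_lit 317) (nat_lit 314) (nat_lit 149))) (XT.nd (nat_lit 78) (nat_lit 0) (nat_lit 0) (XT.lf (nat_lit 76) (nat_lit 2525621583) (nat_lit 0) (nat_lit 10076170719) (nat_lit 1216) (nat_lit 8896124895) (nat_lit 207) (nat_lit 5) (nat_lit 206) (nat_lit 5) (nat_lit 222) (nat_lit 5) (nat_lit 318) (nat_lit 314) (nat_lit 148)) (XT.lf (nat_lit 76) (nat_lit 12859906332) (nat_lit 0) (nat_lit 468730039) (nat_lit 1216) (nat_lit 8494846730) (nat_lit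 207) (nat_lit 5) (nat_lit 206) (nat_lit 5) (nat_lit 222) (nat_lit 5) (nat_lit 319) (nat_lit 314) (nat_lit 147)))) (XT.nd (nat_lit 156) (nat_lit 0) (nat_lit 76) (XT.nd (nat_lit 78) (nat_lit 0) (nat_lit 0) (XT.lf (nat_lit 76) (nat_lit 1276330928) (nat_lit 0) (nat_lit 12898504910) (nat_lit 1216) (nat_lit 7981059173) (nat_lit 208) (nat_lit 5) (nat_lit 207) (nat_lit 5) (nat_lit 223) (nat_lit 5) (nat_lit 320) (nat_lit 314) (nat_lit 146)) (XT.lf (nat_lit 76) (nat_lit 11999119018) (nat_lit 0) (nat_lit 3137199393) (nat_lit 1216) (nat_lit 7359269324) (nat_lit 208) (nat_lit 5) (nat_lit 207) (nat_lit 5) (nat_lit 223) (nat_lit 5) (nat_lit 321) (nat_lit 314) (nat_lit 145))) (XT.nd (nat_lit 78) (nat_lit 0) (nat_lit 0) (XT.lf (nat_lit 76) (nat_lit 130775684) (nat_lit 0) (nat_lit 16058573382) (nat_lit 1216) (nat_lit 6654246282) (nat_lit 209) (nat_lit 5) (nat_lit 208) (nat_lit 5) (nat_lit 224) (nat_lit 5) (nat_lit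 322) (nat_lit 314) (nat_lit 144)) (XT.lf (nat_lit 76) (nat_lit 11256952746) (nat_lit 0) (nat_lit 6148839581) (nat_lit 1216) (nat_lit 5792301275) (nat_lit 209) (nat_lit 5) (nat_lit 208) (nat_lit 5) (nat_lit 224) (nat_lit 5) (nat_lit 323) (nat_lit 314) (nat_lit 143))))))))
noncomputable def xc217 : XT := (XT.nd (nat_lit 2184) (nat_lit 4484) (nat_lit 0) (XT.nd (nat_lit 1092) (nat_lit 3496) (nat_lit 0) (XT.nd (nat_lit 546) (nat_lit 1748) (nat_lit 0) (XT.nd (nat_lit 234) (nat_lit 1140) (nat_lit 0) (XT.nd (nat_lit 78) (nat_lit 0) (nat_lit 0) (XT.lf (nat_lit 0) (nat_lit 18692967819) (nat_lit 1140) (nat_lit 888758655) (nat_lit 1216) (nat_lit 3980478076) (nat_lit 209) (nat_lit 5) (nat_lit 224) (nat_lit 5) (nat_lit 225) (nat_lit 5) (nat_lit 324) (nat_lit 314) (nat_lit 142)) (XT.nd (nat_lit 78) (nat_lit 0) (nat_lit 76) (XT.lf (nat_lit 76) (nat_lit 10638575240) (nat_lit 0) (nat_lit 9538695547) (nat_lit 1216)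 (nat_lit 3755217446) (nat_lit 210) (nat_lit 5) (nat_lit 209) (nat_lit 5) (nat_lit 225) (nat_lit 5) (nat_lit 325) (nat_lit 314) (nat_lit 141)) (XT.lf (nat_lit 0) (nat_lit 21718393631) (nat_lit 1140) (nat_lit 1794953021) (nat_lit 1216) (nat_lit 800169683) (nat_lit 210) (nat_lit 5) (nat_lit 225) (nat_lit 5) (nat_lit 226) (nat_lit 5) (nat_lit 326) (nat_lit 314) (nat_lit 140)))) (XT.nd (nat_lit 156) (nat_lit 0) (nat_lit 76) (XT.nd (nat_lit 78) (nat_lit 1216) (nat_lit 0) (XT.lf (nat_lit 76) (nat_lit 10149225198) (nat_lit 0) (nat_lit 13344142650) (nat_lit 1216) (nat_lit 1206983401) (nat_lit 211) (nat_lit 5) (nat_lit 210) (nat_lit 5) (nat_lit 226) (nat_lit 5) (nat_lit 327) (nat_lit 314) (nat_lit 139)) (XT.lf (nat_lit 0) (nat_lit 232421046) (nat_lit 1216) (nat_lit 2615458655) (nat_lit 1292) (nat_lit 22250432439) (nat_lit 194) (nat_lit 5) (nat_lit 210) (nat_lit 5) (nat_lit 211) (nat_lit 5) (nat_lit 328) (nat_lit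 314) (nat_lit 138))) (XT.nd (nat_lit 78) (nat_lit 0) (nat_lit 0) (XT.lf (nat_lit 0) (nat_lit 1858886563) (nat_lit 1216) (nat_lit 15727427259) (nat_lit 1292) (nat_lit 7916499501) (nat_lit 195) (nat_lit 5) (nat_lit 211) (nat_lit 5) (nat_lit 212) (nat_lit 5) (nat_lit 329) (nat_lit 314) (nat_lit 137)) (XT.lf (nat_lit 0) (nat_lit 3584904432) (nat_lit 1216) (nat_lit 3358962369) (nat_lit 1292) (nat_lit 18974063984) (nat_lit 195) (nat_lit 5) (nat_lit 211) (nat_lit 5) (nat_lit 212) (nat_lit 5) (nat_lit 330) (nat_lit 314) (nat_lit 136))))) (XT.nd (nat_lit 234) (nat_lit 1140) (nat_lit 0) (XT.nd (nat_lit 78) (nat_lit 760) (nat_lit 0) (XT.lf (nat_lit 0) (nat_lit 5490184120) (nat_lit 1216) (nat_lit 16818542015) (nat_lit 76) (nat_lit 4032955078) (nat_lit 196) (nat_lit 5) (nat_lit 212) (nat_lit 5) (nat_lit 197) (nat_lit 5) (nat_lit 331) (nat_lit 314) (nat_lit 135)) (XT.nd (nat_lit 78) (nat_lit 760) (nat_lit 0)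 (XT.lf (nat_lit 0) (nat_lit 7551727556) (nat_lit 1216) (nat_lit 3989066498) (nat_lit 76) (nat_lit 15234380706) (nat_lit 196) (nat_lit 5) (nat_lit 212) (nat_lit 5) (nat_lit 197) (nat_lit 5) (nat_lit 332) (nat_lit 314) (nat_lit 134)) (XT.lf (nat_lit 0) (nat_lit 9405515987) (nat_lit 760) (nat_lit 356225926) (nat_lit 836) (nat_lit 17457336120) (nat_lit 186) (nat_lit 5) (nat_lit 196) (nat_lit 5) (nat_lit 197) (nat_lit 5) (nat_lit 333) (nat_lit 314) (nat_lit 133)))) (XT.nd (nat_lit 156) (nat_lit 532) (nat_lit 0) (XT.nd (nat_lit 78) (nat_lit 608) (nat_lit 0) (XT.lf (nat_lit 0) (nat_lit 12182347242) (nat_lit 836) (nat_lit 4502494140) (nat_lit 76) (nat_lit 10987131856) (nat_lit 186) (nat_lit 5) (nat_lit 197) (nat_lit 5) (nat_lit 187) (nat_lit 5) (nat_lit 334) (nat_lit 314) (nat_lit 132)) (XT.lf (nat_lit 0) (nat_lit 9384198104) (nat_lit 608) (nat_lit 5381510080) (nat_lit 684) (nat_lit 13370046439) (nat_lit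 178) (nat_lit 5) (nat_lit 186) (nat_lit 5) (nat_lit 187) (nat_lit 5) (nat_lit 335) (nat_lit 314) (nat_lit 131))) (XT.nd (nat_lit 78) (nat_lit 532) (nat_lit 0) (XT.lf (nat_lit 0) (nat_lit 17529149876) (nat_lit 684) (nat_lit 4896310939) (nat_lit 76) (nat_lit 6184914584) (nat_lit 178) (nat_lit 5) (nat_lit 187) (nat_lit 5) (nat_lit 179) (nat_lit 5) (nat_lit 336) (nat_lit 314) (nat_lit 130)) (XT.lf (nat_lit 0) (nat_lit 9503475858) (nat_lit 532) (nat_lit 11013236591) (nat_lit 608) (nat_lit 8578289070) (nat_lit 171) (nat_lit 5) (nat_lit 178) (nat_lit 5) (nat_lit 179) (nat_lit 5) (nat_lit 337) (nat_lit 314) (nat_lit 129)))))) (XT.nd (nat_lit 546) (nat_lit 1824) (nat_lit 0) (XT.nd (nat_lit 234) (nat_lit 1064) (nat_lit 0) (XT.nd (nat_lit 78) (nat_lit 608) (nat_lit 0) (XT.lf (nat_lit 0) (nat_lit 23647612346) (nat_lit 608) (nat_lit 5168026545) (nat_lit 76) (nat_lit 776919374) (nat_lit 171) (nat_lit 5) (nat_lit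 179) (nat_lit 5) (nat_lit 172) (nat_lit 5) (nat_lit 338) (nat_lit 314) (nat_lit 128)) (XT.nd (nat_lit 78) (nat_lit 76) (nat_lit 0) (XT.lf (nat_lit 0) (nat_lit 9766458694) (nat_lit 532) (nat_lit 17305652617) (nat_lit 608) (nat_lit 3026943303) (nat_lit 164) (nat_lit 5) (nat_lit 171) (nat_lit 5) (nat_lit 172) (nat_lit 5) (nat_lit 339) (nat_lit 314) (nat_lit 127)) (XT.lf (nat_lit 0) (nat_lit 28498810) (nat_lit 608) (nat_lit 5367864043) (nat_lit 76) (nat_lit 25222907603) (nat_lit 163) (nat_lit 5) (nat_lit 171) (nat_lit 5) (nat_lit 164) (nat_lit 5) (nat_lit 340) (nat_lit 314) (nat_lit 126)))) (XT.nd (nat_lit 156) (nat_lit 532) (nat_lit 0) (XT.nd (nat_lit 78) (nat_lit 0) (nat_lit 0) (XT.lf (nat_lit 0) (nat_lit 3277109447) (nat_lit 608) (nat_lit 21006737657) (nat_lit 76) (nat_lit 6865479068) (nat_lit 156) (nat_lit 5) (nat_lit 164) (nat_lit 5) (nat_lit 157) (nat_lit 5) (nat_lit 341) (nat_lit 314) (nat_lit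 125)) (XT.lf (nat_lit 0) (nat_lit 6728281110) (nat_lit 608) (nat_lit 5522490250) (nat_lit 76) (nat_lit 19441361838) (nat_lit 156) (nat_lit 5) (nat_lit 164) (nat_lit 5) (nat_lit 157) (nat_lit 5) (nat_lit 342) (nat_lit 314) (nat_lit 124))) (XT.nd (nat_lit 78) (nat_lit 0) (nat_lit 0) (XT.lf (nat_lit 0) (nat_lit 10384583992) (nat_lit 608) (nat_lit 21620075669) (nat_lit 76) (nat_lit 243519534) (nat_lit 149) (nat_lit 5) (nat_lit 157) (nat_lit 5) (nat_lit 150) (nat_lit 5) (nat_lit 343) (nat_lit 314) (nat_lit 123)) (XT.lf (nat_lit 0) (nat_lit 14325264993) (nat_lit 608) (nat_lit 5567879497) (nat_lit 76) (nat_lit 12922523977) (nat_lit 149) (nat_lit 5) (nat_lit 157) (nat_lit 5) (nat_lit 150) (nat_lit 5) (nat_lit 344) (nat_lit 314) (nat_lit 122))))) (XT.nd (nat_lit 234) (nat_lit 912) (nat_lit 0) (XT.nd (nat_lit 78) (nat_lit 456) (nat_lit 0) (XT.lf (nat_lit 0) (nat_lit 11180936930) (nat_lit 456) (nat_lit 7307868470)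 (nat_lit 532) (nat_lit 14908240338) (nat_lit 143) (nat_lit 5) (nat_lit 149) (nat_lit 5) (nat_lit 150) (nat_lit 5) (nat_lit 345) (nat_lit 314) (nat_lit 121)) (XT.nd (nat_lit 78) (nat_lit 456) (nat_lit 0) (XT.lf (nat_lit 0) (nat_lit 22885603293) (nat_lit 532) (nat_lit 5505917698) (nat_lit 76) (nat_lit 5601095217) (nat_lit 143) (nat_lit 5) (nat_lit 150) (nat_lit 5) (nat_lit 144) (nat_lit 5) (nat_lit 346) (nat_lit 314) (nat_lit 120)) (XT.lf (nat_lit 0) (nat_lit 11861600779) (nat_lit 456) (nat_lit 15736372608) (nat_lit 532) (nat_lit 7002572703) (nat_lit 137) (nat_lit 5) (nat_lit 143) (nat_lit 5) (nat_lit 144) (nat_lit 5) (nat_lit 347) (nat_lit 314) (nat_lit 119)))) (XT.nd (nat_lit 156) (nat_lit 456) (nat_lit 0) (XT.nd (nat_lit 78) (nat_lit 456) (nat_lit 0) (XT.lf (nat_lit 0) (nat_lit 29859955190) (nat_lit 456) (nat_lit 2644700034) (nat_lit 532) (nat_lit 2720472705) (nat_lit 137) (nat_lit 5) (nat_lit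 143) (nat_lit 5) (nat_lit 144) (nat_lit 5) (nat_lit 348) (nat_lit 314) (nat_lit 118)) (XT.lf (nat_lit 0) (nat_lit 1882723647) (nat_lit 456) (nat_lit 23210399370) (nat_lit 76) (nat_lit 10768070577) (nat_lit 131) (nat_lit 5) (nat_lit 137) (nat_lit 5) (nat_lit 132) (nat_lit 5) (nat_lit 349) (nat_lit 314) (nat_lit 117))) (XT.nd (nat_lit 78) (nat_lit 456) (nat_lit 0) (XT.lf (nat_lit 0) (nat_lit 6647670839) (nat_lit 456) (nat_lit 5254217641) (nat_lit 76) (nat_lit 24611296759) (nat_lit 131) (nat_lit 5) (nat_lit 137) (nat_lit 5) (nat_lit 132) (nat_lit 5) (nat_lit 350) (nat_lit 314) (nat_lit 116)) (XT.lf (nat_lit 0) (nat_lit 11700335092) (nat_lit 532) (nat_lit 23697269599) (nat_lit 76) (nat_lit 1782790909) (nat_lit 125) (nat_lit 5) (nat_lit 132) (nat_lit 5) (nat_lit 126) (nat_lit 5) (nat_lit 351) (nat_lit 314) (nat_lit 115))))))) (XT.nd (nat_lit 1092) (nat_lit 1900) (nat_lit 0) (XT.nd (nat_lit 546) (nat_lit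 1368) (nat_lit 0) (XT.nd (nat_lit 234) (nat_lit 836) (nat_lit 0) (XT.nd (nat_lit 78) (nat_lit 380) (nat_lit 0) (XT.lf (nat_lit 0) (nat_lit 17073550965) (nat_lit 532) (nat_lit 5097117951) (nat_lit 76) (nat_lit 15691886171) (nat_lit 125) (nat_lit 5) (nat_lit 132) (nat_lit 5) (nat_lit 126) (nat_lit 5) (nat_lit 352) (nat_lit 314) (nat_lit 114)) (XT.nd (nat_lit 78) (nat_lit 0) (nat_lit 0) (XT.lf (nat_lit 0) (nat_lit 14337892200) (nat_lit 380) (nat_lit 8405515701) (nat_lit 456) (nat_lit 15817710029) (nat_lit 120) (nat_lit 5) (nat_lit 125) (nat_lit 5) (nat_lit 126) (nat_lit 5) (nat_lit 353) (nat_lit 314) (nat_lit 113)) (XT.lf (nat_lit 0) (nat_lit 28688486764) (nat_lit 456) (nat_lit 4877622093) (nat_lit 76) (nat_lit 5711376867) (nat_lit 120) (nat_lit 5) (nat_lit 126) (nat_lit 5) (nat_lit 121) (nat_lit 5) (nat_lit 354) (nat_lit 314) (nat_lit 112)))) (XT.nd (nat_lit 156) (nat_lit 380) (nat_lit 0) (XT.nd (nat_lit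 78) (nat_lit 76) (nat_lit 0) (XT.lf (nat_lit 0) (nat_lit 15260023345) (nat_lit 380) (nat_lit 19779530546) (nat_lit 456) (nat_lit 4968963385) (nat_lit 115) (nat_lit 5) (nat_lit 120) (nat_lit 5) (nat_lit 121) (nat_lit 5) (nat_lit 355) (nat_lit 314) (nat_lit 111)) (XT.lf (nat_lit 0) (nat_lit 851159855) (nat_lit 456) (nat_lit 4669484229) (nat_lit 76) (nat_lit 35239176567) (nat_lit 114) (nat_lit 5) (nat_lit 120) (nat_lit 5) (nat_lit 115) (nat_lit 5) (nat_lit 356) (nat_lit 314) (nat_lit 110))) (XT.nd (nat_lit 78) (nat_lit 0) (nat_lit 0) (XT.lf (nat_lit 0) (nat_lit 6990429751) (nat_lit 456) (nat_lit 25340184548) (nat_lit 76) (nat_lit 9194242120) (nat_lit 109) (nat_lit 5) (nat_lit 115) (nat_lit 5) (nat_lit 110) (nat_lit 5) (nat_lit 357) (nat_lit 314) (nat_lit 109)) (XT.lf (nat_lit 0) (nat_lit 13413993287) (nat_lit 456) (nat_lit 4609230926) (nat_lit 76) (nat_lit 24286617179) (nat_lit 109) (nat_lit 5) (nat_lit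 115) (nat_lit 5) (nat_lit 110) (nat_lit 5) (nat_lit 358) (nat_lit 314) (nat_lit 108))))) (XT.nd (nat_lit 234) (nat_lit 684) (nat_lit 0) (XT.nd (nat_lit 78) (nat_lit 304) (nat_lit 0) (XT.lf (nat_lit 0) (nat_lit 17074062668) (nat_lit 380) (nat_lit 3118226628) (nat_lit 456) (nat_lit 22921227404) (nat_lit 104) (nat_lit 5) (nat_lit 109) (nat_lit 5) (nat_lit 110) (nat_lit 5) (nat_lit 359) (nat_lit 314) (nat_lit 107)) (XT.nd (nat_lit 78) (nat_lit 304) (nat_lit 0) (XT.lf (nat_lit 0) (nat_lit 27336466785) (nat_lit 456) (nat_lit 4558421932) (nat_lit 76) (nat_lit 12041539079) (nat_lit 104) (nat_lit 5) (nat_lit 110) (nat_lit 5) (nat_lit 105) (nat_lit 5) (nat_lit 360) (nat_lit 314) (nat_lit 106)) (XT.lf (nat_lit 0) (nat_lit 17882404110) (nat_lit 304) (nat_lit 17013323625) (nat_lit 380) (nat_lit 9882277208) (nat_lit 100) (nat_lit 5) (nat_lit 104) (nat_lit 5) (nat_lit 105) (nat_lit 5) (nat_lit 361) (nat_lit 314)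 (nat_lit 105)))) (XT.nd (nat_lit 156) (nat_lit 304) (nat_lit 0) (XT.nd (nat_lit 78) (nat_lit 380) (nat_lit 0) (XT.lf (nat_lit 0) (nat_lit 41087211116) (nat_lit 304) (nat_lit 1638607294) (nat_lit 380) (nat_lit 2917690858) (nat_lit 100) (nat_lit 5) (nat_lit 104) (nat_lit 5) (nat_lit 105) (nat_lit 5) (nat_lit 362) (nat_lit 314) (nat_lit 104)) (XT.lf (nat_lit 0) (nat_lit 4489989879) (nat_lit 380) (nat_lit 27891042449) (nat_lit 76) (nat_lit 14143204340) (nat_lit 95) (nat_lit 5) (nat_lit 100) (nat_lit 5) (nat_lit 96) (nat_lit 5) (nat_lit 363) (nat_lit 314) (nat_lit 103))) (XT.nd (nat_lit 78) (nat_lit 304) (nat_lit 0) (XT.lf (nat_lit 0) (nat_lit 12122029942) (nat_lit 380) (nat_lit 4866476525) (nat_lit 76) (nat_lit 30440190935) (nat_lit 95) (nat_lit 5) (nat_lit 100) (nat_lit 5) (nat_lit 96) (nat_lit 5) (nat_lit 364) (nat_lit 314) (nat_lit 102)) (XT.lf (nat_lit 0) (nat_lit 19221306671) (nat_lit 304) (nat_lit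 944629888) (nat_lit 380) (nat_lit 28188869500) (nat_lit 91) (nat_lit 5) (nat_lit 95) (nat_lit 5) (nat_lit 96) (nat_lit 5) (nat_lit 365) (nat_lit 314) (nat_lit 101)))))) (XT.nd (nat_lit 546) (nat_lit 988) (nat_lit 0) (XT.nd (nat_lit 234) (nat_lit 608) (nat_lit 0) (XT.nd (nat_lit 78) (nat_lit 304) (nat_lit 0) (XT.lf (nat_lit 0) (nat_lit 28648719498) (nat_lit 380) (nat_lit 5328619071) (nat_lit 76) (nat_lit 15325433857) (nat_lit 91) (nat_lit 5) (nat_lit 96) (nat_lit 5) (nat_lit 92) (nat_lit 5) (nat_lit 366) (nat_lit 314) (nat_lit 100)) (XT.nd (nat_lit 78) (nat_lit 0) (nat_lit 0) (XT.lf (nat_lit 0) (nat_lit 19560200918) (nat_lit 304) (nat_lit 18021376761) (nat_lit 380) (nat_lit 12691733545) (nat_lit 87) (nat_lit 5) (nat_lit 91) (nat_lit 5) (nat_lit 92) (nat_lit 5) (nat_lit 367) (nat_lit 314) (nat_lit 99)) (XT.lf (nat_lit 0) (nat_lit 45302397976) (nat_lit 304) (nat_lit 1532074393) (nat_lit 380) (nat_lit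 4436933446) (nat_lit 87) (nat_lit 5) (nat_lit 91) (nat_lit 5) (nat_lit 92) (nat_lit 5) (nat_lit 368) (nat_lit 314) (nat_lit 98)))) (XT.nd (nat_lit 156) (nat_lit 304) (nat_lit 0) (XT.nd (nat_lit 78) (nat_lit 0) (nat_lit 0) (XT.lf (nat_lit 0) (nat_lit 4326196368) (nat_lit 304) (nat_lit 32579934596) (nat_lit 76) (nat_lit 15381940410) (nat_lit 83) (nat_lit 5) (nat_lit 87) (nat_lit 5) (nat_lit 84) (nat_lit 5) (nat_lit 369) (nat_lit 314) (nat_lit 97)) (XT.lf (nat_lit 0) (nat_lit 13337377907) (nat_lit 304) (nat_lit 7117671391) (nat_lit 76) (nat_lit 32876640683) (nat_lit 83) (nat_lit 5) (nat_lit 87) (nat_lit 5) (nat_lit 84) (nat_lit 5) (nat_lit 370) (nat_lit 314) (nat_lit 96))) (XT.nd (nat_lit 78) (nat_lit 0) (nat_lit 0) (XT.lf (nat_lit 0) (nat_lit 19486278626) (nat_lit 304) (nat_lit 3318274652) (nat_lit 380) (nat_lit 31596495143) (nat_lit 79) (nat_lit 5) (nat_lit 83) (nat_lit 5) (nat_lit 84) (nat_lit 5)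 (nat_lit 371) (nat_lit 314) (nat_lit 95)) (XT.lf (nat_lit 0) (nat_lit 32764465835) (nat_lit 380) (nat_lit 8607011553) (nat_lit 76) (nat_lit 14124749565) (nat_lit 79) (nat_lit 5) (nat_lit 84) (nat_lit 5) (nat_lit 80) (nat_lit 5) (nat_lit 372) (nat_lit 314) (nat_lit 94))))) (XT.nd (nat_lit 312) (nat_lit 456) (nat_lit 0) (XT.nd (nat_lit 156) (nat_lit 304) (nat_lit 0) (XT.nd (nat_lit 78) (nat_lit 0) (nat_lit 0) (XT.lf (nat_lit 0) (nat_lit 18822034981) (nat_lit 228) (nat_lit 24413333634) (nat_lit 304) (nat_lit 13382527407) (nat_lit 76) (nat_lit 5) (nat_lit 79) (nat_lit 5) (nat_lit 80) (nat_lit 5) (nat_lit 373) (nat_lit 314) (nat_lit 93)) (XT.lf (nat_lit 0) (nat_lit 47248035556) (nat_lit 228) (nat_lit 6857710294) (nat_lit 304) (nat_lit 3664909832) (nat_lit 76) (nat_lit 5) (nat_lit 79) (nat_lit 5) (nat_lit 80) (nat_lit 5) (nat_lit 374) (nat_lit 314) (nat_lit 92))) (XT.nd (nat_lit 78) (nat_lit 0) (nat_lit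 0) (XT.lf (nat_lit 0) (nat_lit 6500716304) (nat_lit 304) (nat_lit 41207348143) (nat_lit 76) (nat_lit 11239696660) (nat_lit 72) (nat_lit 5) (nat_lit 76) (nat_lit 5) (nat_lit 73) (nat_lit 5) (nat_lit 375) (nat_lit 314) (nat_lit 91)) (XT.lf (nat_lit 0) (nat_lit 17071336521) (nat_lit 304) (nat_lit 13197519629) (nat_lit 76) (nat_lit 29885025228) (nat_lit 72) (nat_lit 5) (nat_lit 76) (nat_lit 5) (nat_lit 73) (nat_lit 5) (nat_lit 376) (nat_lit 314) (nat_lit 90)))) (XT.nd (nat_lit 156) (nat_lit 228) (nat_lit 0) (XT.nd (nat_lit 78) (nat_lit 0) (nat_lit 0) (XT.lf (nat_lit 0) (nat_lit 15961812405) (nat_lit 228) (nat_lit 12149220308) (nat_lit 304) (nat_lit 33280594656) (nat_lit 69) (nat_lit 5) (nat_lit 72) (nat_lit 5) (nat_lit 73) (nat_lit 5) (nat_lit 377) (nat_lit 314) (nat_lit 89)) (XT.lf (nat_lit 0) (nat_lit 39677661549) (nat_lit 304) (nat_lit 16462261669) (nat_lit 76) (nat_lit 6520711079) (nat_lit 69) (nat_lit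 5) (nat_lit 73) (nat_lit 5) (nat_lit 70) (nat_lit 5) (nat_lit 378) (nat_lit 314) (nat_lit 88))) (XT.nd (nat_lit 78) (nat_lit 0) (nat_lit 0) (XT.lf (nat_lit 0) (nat_lit 13515553892) (nat_lit 228) (nat_lit 38324523656) (nat_lit 304) (nat_lit 12120171023) (nat_lit 66) (nat_lit 5) (nat_lit 69) (nat_lit 5) (nat_lit 70) (nat_lit 5) (nat_lit 379) (nat_lit 314) (nat_lit 87)) (XT.lf (nat_lit 0) (nat_lit 44727973674) (nat_lit 228) (nat_lit 19804228460) (nat_lit 304) (nat_lit 761704820) (nat_lit 66) (nat_lit 5) (nat_lit 69) (nat_lit 5) (nat_lit 70) (nat_lit 5) (nat_lit 380) (nat_lit 314) (nat_lit 86))))))))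
noncomputable def xc218 : XT := (XT.nd (nat_lit 36192) (nat_lit 0) (nat_lit 6460) (XT.nd (nat_lit 1092) (nat_lit 380) (nat_lit 0) (XT.nd (nat_lit 546) (nat_lit 836) (nat_lit 0) (XT.nd (nat_lit 234) (nat_lit 228) (nat_lit 0) (XT.nd (nat_lit 78) (nat_lit 228) (nat_lit 0) (XT.lf (nat_lit 0) (nat_lit 10302945720) (nat_lit 228) (nat_lit 518803689) (nat_lit 304) (nat_lit 55839742324) (nat_lit 62) (nat_lit 5) (nat_lit 65) (nat_lit 5) (nat_lit 66) (nat_lit 5) (nat_lit 381) (nat_lit 314) (nat_lit 85)) (XT.nd (nat_lit 78) (nat_lit 228) (nat_lit 0) (XT.lf (nat_lit 0) (nat_lit 23131725449) (nat_lit 304) (nat_lit 25742124242) (nat_lit 76) (nat_lit 19184198985) (nat_lit 62) (nat_lit 5) (nat_lit 66) (nat_lit 5) (nat_lit 63) (nat_lit 5) (nat_lit 382) (nat_lit 314) (nat_lit 84)) (XT.lf (nat_lit 0) (nat_lit 5900692968) (nat_lit 228) (nat_lit 29970843366) (nat_lit 304) (nat_lit 33623150604) (nat_lit 59) (nat_lit 5)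 (nat_lit 62) (nat_lit 5) (nat_lit 63) (nat_lit 5) (nat_lit 383) (nat_lit 314) (nat_lit 83)))) (XT.nd (nat_lit 156) (nat_lit 76) (nat_lit 0) (XT.nd (nat_lit 78) (nat_lit 152) (nat_lit 0) (XT.lf (nat_lit 0) (nat_lit 39018399317) (nat_lit 228) (nat_lit 10233783513) (nat_lit 304) (nat_lit 21714482937) (nat_lit 59) (nat_lit 5) (nat_lit 62) (nat_lit 5) (nat_lit 63) (nat_lit 5) (nat_lit 384) (nat_lit 314) (nat_lit 82)) (XT.lf (nat_lit 0) (nat_lit 558636530) (nat_lit 152) (nat_lit 62576752190) (nat_lit 228) (nat_lit 9344381681) (nat_lit 57) (nat_lit 5) (nat_lit 59) (nat_lit 5) (nat_lit 60) (nat_lit 5) (nat_lit 385) (nat_lit 314) (nat_lit 81))) (XT.nd (nat_lit 78) (nat_lit 0) (nat_lit 0) (XT.lf (nat_lit 0) (nat_lit 3756403493) (nat_lit 228) (nat_lit 39472166158) (nat_lit 76) (nat_lit 30795943603) (nat_lit 56) (nat_lit 5) (nat_lit 59) (nat_lit 5) (nat_lit 57) (nat_lit 5) (nat_lit 386) (nat_lit 314) (nat_lit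 80)) (XT.lf (nat_lit 0) (nat_lit 17061167831) (nat_lit 228) (nat_lit 6144248078) (nat_lit 76) (nat_lit 52407444455) (nat_lit 56) (nat_lit 5) (nat_lit 59) (nat_lit 5) (nat_lit 57) (nat_lit 5) (nat_lit 387) (nat_lit 314) (nat_lit 79))))) (XT.nd (nat_lit 234) (nat_lit 456) (nat_lit 0) (XT.nd (nat_lit 78) (nat_lit 152) (nat_lit 0) (XT.lf (nat_lit 0) (nat_lit 28742434177) (nat_lit 228) (nat_lit 2297735082) (nat_lit 304) (nat_lit 46200436373) (nat_lit 53) (nat_lit 5) (nat_lit 56) (nat_lit 5) (nat_lit 57) (nat_lit 5) (nat_lit 388) (nat_lit 314) (nat_lit 78)) (XT.nd (nat_lit 78) (nat_lit 152) (nat_lit 0) (XT.lf (nat_lit 0) (nat_lit 45684932897) (nat_lit 304) (nat_lit 14301139292) (nat_lit 76) (nat_lit 18923719855) (nat_lit 53) (nat_lit 5) (nat_lit 57) (nat_lit 5) (nat_lit 54) (nat_lit 5) (nat_lit 389) (nat_lit 314) (nat_lit 77)) (XT.lf (nat_lit 0) (nat_lit 21313053737) (nat_lit 152) (nat_lit 39682457726)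 (nat_lit 228) (nat_lit 19626748961) (nat_lit 51) (nat_lit 5) (nat_lit 53) (nat_lit 5) (nat_lit 54) (nat_lit 5) (nat_lit 390) (nat_lit 314) (nat_lit 76)))) (XT.nd (nat_lit 156) (nat_lit 152) (nat_lit 0) (XT.nd (nat_lit 78) (nat_lit 304) (nat_lit 0) (XT.lf (nat_lit 0) (nat_lit 58286955777) (nat_lit 152) (nat_lit 18621728646) (nat_lit 228) (nat_lit 5473120640) (nat_lit 51) (nat_lit 5) (nat_lit 53) (nat_lit 5) (nat_lit 54) (nat_lit 5) (nat_lit 391) (nat_lit 314) (nat_lit 75)) (XT.lf (nat_lit 0) (nat_lit 9076375367) (nat_lit 304) (nat_lit 71892423598) (nat_lit 76) (nat_lit 3218243874) (nat_lit 47) (nat_lit 5) (nat_lit 51) (nat_lit 5) (nat_lit 48) (nat_lit 5) (nat_lit 392) (nat_lit 314) (nat_lit 74))) (XT.nd (nat_lit 78) (nat_lit 152) (nat_lit 0) (XT.lf (nat_lit 0) (nat_lit 24381338439) (nat_lit 304) (nat_lit 36012270251) (nat_lit 76) (nat_lit 25638334261) (nat_lit 47) (nat_lit 5) (nat_lit 51) (nat_lit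 5) (nat_lit 48) (nat_lit 5) (nat_lit 393) (nat_lit 314) (nat_lit 73)) (XT.lf (nat_lit 0) (nat_lit 961246478) (nat_lit 152) (nat_lit 39192369438) (nat_lit 228) (nat_lit 47778329646) (nat_lit 45) (nat_lit 5) (nat_lit 47) (nat_lit 5) (nat_lit 48) (nat_lit 5) (nat_lit 394) (nat_lit 314) (nat_lit 72)))))) (XT.nd (nat_lit 34554) (nat_lit 0) (nat_lit 12540) (XT.nd (nat_lit 234) (nat_lit 228) (nat_lit 0) (XT.nd (nat_lit 78) (nat_lit 152) (nat_lit 0) (XT.lf (nat_lit 0) (nat_lit 39780403978) (nat_lit 152) (nat_lit 16981250661) (nat_lit 228) (nat_lit 33116416273) (nat_lit 45) (nat_lit 5) (nat_lit 47) (nat_lit 5) (nat_lit 48) (nat_lit 5) (nat_lit 395) (nat_lit 314) (nat_lit 71)) (XT.nd (nat_lit 78) (nat_lit 152) (nat_lit 0) (XT.lf (nat_lit 0) (nat_lit 73923576187) (nat_lit 228) (nat_lit 12176875407) (nat_lit 76) (nat_lit 5780459616) (nat_lit 45) (nat_lit 5) (nat_lit 48) (nat_lit 5) (nat_lit 46) (nat_lit 5)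 (nat_lit 396) (nat_lit 314) (nat_lit 70)) (XT.lf (nat_lit 0) (nat_lit 27243321387) (nat_lit 152) (nat_lit 64786038604) (nat_lit 228) (nat_lit 1901607008) (nat_lit 43) (nat_lit 5) (nat_lit 45) (nat_lit 5) (nat_lit 46) (nat_lit 5) (nat_lit 397) (nat_lit 314) (nat_lit 69)))) (XT.nd (nat_lit 34164) (nat_lit 0) (nat_lit 12540) (XT.nd (nat_lit 78) (nat_lit 152) (nat_lit 0) (XT.lf (nat_lit 0) (nat_lit 14473372637) (nat_lit 228) (nat_lit 28086709420) (nat_lit 76) (nat_lit 53474526855) (nat_lit 42) (nat_lit 5) (nat_lit 45) (nat_lit 5) (nat_lit 43) (nat_lit 5) (nat_lit 398) (nat_lit 314) (nat_lit 68)) (XT.lf (nat_lit 0) (nat_lit 11883663561) (nat_lit 152) (nat_lit 19530976765) (nat_lit 228) (nat_lit 66782757535) (nat_lit 40) (nat_lit 5) (nat_lit 42) (nat_lit 5) (nat_lit 43) (nat_lit 5) (nat_lit 399) (nat_lit 314) (nat_lit 67))) (XT.nd (nat_lit 78) (nat_lit 0) (nat_lit 0) (XT.lf (nat_lit 0) (nat_lit 2814942237)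 (nat_lit 0) (nat_lit 2814942237) (nat_lit 1140) (nat_lit 4802239849) (nat_lit 205) (nat_lit 5) (nat_lit 205) (nat_lit 3) (nat_lit 220) (nat_lit 3) (nat_lit 315) (nat_lit 315) (nat_lit 150)) (XT.lf (nat_lit 0) (nat_lit 11611899552) (nat_lit 1140) (nat_lit 5697439773) (nat_lit 1216) (nat_lit 3862225646) (nat_lit 205) (nat_lit 5) (nat_lit 220) (nat_lit 3) (nat_lit 221) (nat_lit 5) (nat_lit 316) (nat_lit 315) (nat_lit 149))))) (XT.nd (nat_lit 234) (nat_lit 0) (nat_lit 76) (XT.nd (nat_lit 78) (nat_lit 0) (nat_lit 76) (XT.lf (nat_lit 76) (nat_lit 4147748428) (nat_lit 0) (nat_lit 7916811689) (nat_lit 1216) (nat_lit 9420847555) (nat_lit 206) (nat_lit 5) (nat_lit 205) (nat_lit 5) (nat_lit 221) (nat_lit 5) (nat_lit 317) (nat_lit 315) (nat_lit 148)) (XT.nd (nat_lit 78) (nat_lit 0) (nat_lit 0) (XT.lf (nat_lit 0) (nat_lit 12600310655) (nat_lit 1140) (nat_lit 7422524438) (nat_lit 1216) (nat_lit 1783750954) (nat_lit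 206) (nat_lit 5) (nat_lit 221) (nat_lit 5) (nat_lit 222) (nat_lit 5) (nat_lit 318) (nat_lit 315) (nat_lit 147)) (XT.lf (nat_lit 76) (nat_lit 2762474054) (nat_lit 0) (nat_lit 10489271787) (nat_lit 1216) (nat_lit 8882671101) (nat_lit 207) (nat_lit 5) (nat_lit 206) (nat_lit 5) (nat_lit 222) (nat_lit 5) (nat_lit 319) (nat_lit 315) (nat_lit 146)))) (XT.nd (nat_lit 156) (nat_lit 0) (nat_lit 76) (XT.nd (nat_lit 78) (nat_lit 0) (nat_lit 76) (XT.lf (nat_lit 76) (nat_lit 13402095584) (nat_lit 0) (nat_lit 590380237) (nat_lit 1216) (nat_lit 8477519762) (nat_lit 207) (nat_lit 5) (nat_lit 206) (nat_lit 5) (nat_lit 222) (nat_lit 5) (nat_lit 320) (nat_lit 315) (nat_lit 145)) (XT.lf (nat_lit 76) (nat_lit 1478615425) (nat_lit 0) (nat_lit 13378329433) (nat_lit 1216) (nat_lit 7955656425) (nat_lit 208) (nat_lit 5) (nat_lit 207) (nat_lit 5) (nat_lit 223) (nat_lit 5) (nat_lit 321) (nat_lit 315) (nat_lit 144))) (XT.nd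 (nat_lit 78) (nat_lit 0) (nat_lit 76) (XT.lf (nat_lit 76) (nat_lit 12518310617) (nat_lit 0) (nat_lit 3321479818) (nat_lit 1216) (nat_lit 7322926507) (nat_lit 208) (nat_lit 5) (nat_lit 207) (nat_lit 5) (nat_lit 223) (nat_lit 5) (nat_lit 322) (nat_lit 315) (nat_lit 143)) (XT.lf (nat_lit 76) (nat_lit 300876799) (nat_lit 0) (nat_lit 16617027574) (nat_lit 1216) (nat_lit 6603463123) (nat_lit 209) (nat_lit 5) (nat_lit 208) (nat_lit 5) (nat_lit 224) (nat_lit 5) (nat_lit 323) (nat_lit 315) (nat_lit 142))))))) (XT.nd (nat_lit 1092) (nat_lit 4028) (nat_lit 0) (XT.nd (nat_lit 546) (nat_lit 1216) (nat_lit 0) (XT.nd (nat_lit 234) (nat_lit 1064) (nat_lit 0) (XT.nd (nat_lit 78) (nat_lit 0) (nat_lit 76) (XT.lf (nat_lit 76) (nat_lit 11755999042) (nat_lit 0) (nat_lit 6407767866) (nat_lit 1216) (nat_lit 5722953276) (nat_lit 209) (nat_lit 5) (nat_lit 208) (nat_lit 5) (nat_lit 224) (nat_lit 5) (nat_lit 324) (nat_lit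 315) (nat_lit 141)) (XT.nd (nat_lit 78) (nat_lit 0) (nat_lit 0) (XT.lf (nat_lit 0) (nat_lit 19481994742) (nat_lit 1140) (nat_lit 750984790) (nat_lit 1216) (nat_lit 4029008871) (nat_lit 209) (nat_lit 5) (nat_lit 224) (nat_lit 5) (nat_lit 225) (nat_lit 5) (nat_lit 325) (nat_lit 315) (nat_lit 140)) (XT.lf (nat_lit 76) (nat_lit 11120556999) (nat_lit 0) (nat_lit 9885187264) (nat_lit 1216) (nat_lit 3637795658) (nat_lit 210) (nat_lit 5) (nat_lit 209) (nat_lit 5) (nat_lit 225) (nat_lit 5) (nat_lit 326) (nat_lit 315) (nat_lit 139)))) (XT.nd (nat_lit 156) (nat_lit 1216) (nat_lit 0) (XT.nd (nat_lit 78) (nat_lit 0) (nat_lit 0) (XT.lf (nat_lit 0) (nat_lit 22586038076) (nat_lit 1140) (nat_lit 1683435207) (nat_lit 1216) (nat_lit 766744115) (nat_lit 210) (nat_lit 5) (nat_lit 225) (nat_lit 5) (nat_lit 226) (nat_lit 5) (nat_lit 327) (nat_lit 315) (nat_lit 138)) (XT.lf (nat_lit 76) (nat_lit 10617447120) (nat_lit 0)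 (nat_lit 13792094458) (nat_lit 1216) (nat_lit 1025263834) (nat_lit 211) (nat_lit 5) (nat_lit 210) (nat_lit 5) (nat_lit 226) (nat_lit 5) (nat_lit 328) (nat_lit 315) (nat_lit 137))) (XT.nd (nat_lit 78) (nat_lit 0) (nat_lit 76) (XT.lf (nat_lit 0) (nat_lit 446846578) (nat_lit 1216) (nat_lit 2530614966) (nat_lit 1292) (nat_lit 22867373534) (nat_lit 194) (nat_lit 5) (nat_lit 210) (nat_lit 5) (nat_lit 211) (nat_lit 5) (nat_lit 329) (nat_lit 315) (nat_lit 136)) (XT.lf (nat_lit 0) (nat_lit 2117221561) (nat_lit 1216) (nat_lit 16030861196) (nat_lit 1292) (nat_lit 8113540981) (nat_lit 195) (nat_lit 5) (nat_lit 211) (nat_lit 5) (nat_lit 212) (nat_lit 5) (nat_lit 330) (nat_lit 315) (nat_lit 135))))) (XT.nd (nat_lit 234) (nat_lit 1292) (nat_lit 0) (XT.nd (nat_lit 78) (nat_lit 0) (nat_lit 76) (XT.lf (nat_lit 0) (nat_lit 3889119915) (nat_lit 1216) (nat_lit 3296246891) (nat_lit 1292) (nat_lit 19504010656) (nat_lit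 195) (nat_lit 5) (nat_lit 211) (nat_lit 5) (nat_lit 212) (nat_lit 5) (nat_lit 331) (nat_lit 315) (nat_lit 134)) (XT.nd (nat_lit 78) (nat_lit 0) (nat_lit 0) (XT.lf (nat_lit 0) (nat_lit 5847091607) (nat_lit 1216) (nat_lit 17154961911) (nat_lit 76) (nat_lit 4123926445) (nat_lit 196) (nat_lit 5) (nat_lit 212) (nat_lit 5) (nat_lit 197) (nat_lit 5) (nat_lit 332) (nat_lit 315) (nat_lit 133)) (XT.lf (nat_lit 0) (nat_lit 7964883230) (nat_lit 1216) (nat_lit 3945499305) (nat_lit 76) (nat_lit 15662269132) (nat_lit 196) (nat_lit 5) (nat_lit 212) (nat_lit 5) (nat_lit 197) (nat_lit 5) (nat_lit 333) (nat_lit 315) (nat_lit 132)))) (XT.nd (nat_lit 156) (nat_lit 608) (nat_lit 0) (XT.nd (nat_lit 78) (nat_lit 0) (nat_lit 0) (XT.lf (nat_lit 0) (nat_lit 9849320270) (nat_lit 760) (nat_lit 387996455) (nat_lit 836) (nat_lit 17792677000) (nat_lit 186) (nat_lit 5) (nat_lit 196) (nat_lit 5) (nat_lit 197) (nat_lit 5) (nat_lit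 334) (nat_lit 315) (nat_lit 131)) (XT.lf (nat_lit 0) (nat_lit 12725021432) (nat_lit 836) (nat_lit 4474949428) (nat_lit 76) (nat_lit 11296675587) (nat_lit 186) (nat_lit 5) (nat_lit 197) (nat_lit 5) (nat_lit 187) (nat_lit 5) (nat_lit 335) (nat_lit 315) (nat_lit 130))) (XT.nd (nat_lit 78) (nat_lit 0) (nat_lit 0) (XT.lf (nat_lit 0) (nat_lit 9826749274) (nat_lit 608) (nat_lit 5555520526) (nat_lit 684) (nat_lit 13592184823) (nat_lit 178) (nat_lit 5) (nat_lit 186) (nat_lit 5) (nat_lit 187) (nat_lit 5) (nat_lit 336) (nat_lit 315) (nat_lit 129)) (XT.lf (nat_lit 0) (nat_lit 18223441447) (nat_lit 684) (nat_lit 4881531675) (nat_lit 76) (nat_lit 6358500903) (nat_lit 178) (nat_lit 5) (nat_lit 187) (nat_lit 5) (nat_lit 179) (nat_lit 5) (nat_lit 337) (nat_lit 315) (nat_lit 128)))))) (XT.nd (nat_lit 546) (nat_lit 1824) (nat_lit 0) (XT.nd (nat_lit 234) (nat_lit 1140) (nat_lit 0) (XT.nd (nat_lit 78) (nat_lit 532)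 (nat_lit 0) (XT.lf (nat_lit 0) (nat_lit 9948663739) (nat_lit 532) (nat_lit 11348600627) (nat_lit 608) (nat_lit 8665480222) (nat_lit 171) (nat_lit 5) (nat_lit 178) (nat_lit 5) (nat_lit 179) (nat_lit 5) (nat_lit 338) (nat_lit 315) (nat_lit 127)) (XT.nd (nat_lit 78) (nat_lit 532) (nat_lit 0) (XT.lf (nat_lit 0) (nat_lit 24517237609) (nat_lit 608) (nat_lit 5162641781) (nat_lit 76) (nat_lit 795498784) (nat_lit 171) (nat_lit 5) (nat_lit 179) (nat_lit 5) (nat_lit 172) (nat_lit 5) (nat_lit 339) (nat_lit 315) (nat_lit 126)) (XT.lf (nat_lit 0) (nat_lit 10218305215) (nat_lit 532) (nat_lit 17823027388) (nat_lit 608) (nat_lit 2955835374) (nat_lit 164) (nat_lit 5) (nat_lit 171) (nat_lit 5) (nat_lit 172) (nat_lit 5) (nat_lit 340) (nat_lit 315) (nat_lit 125)))) (XT.nd (nat_lit 156) (nat_lit 532) (nat_lit 0) (XT.nd (nat_lit 78) (nat_lit 532) (nat_lit 0) (XT.lf (nat_lit 0) (nat_lit 183486453) (nat_lit 608) (nat_lit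 5371468317) (nat_lit 76) (nat_lit 25978131696) (nat_lit 163) (nat_lit 5) (nat_lit 171) (nat_lit 5) (nat_lit 164) (nat_lit 5) (nat_lit 341) (nat_lit 315) (nat_lit 124)) (XT.lf (nat_lit 0) (nat_lit 3526610225) (nat_lit 608) (nat_lit 21476428854) (nat_lit 76) (nat_lit 7076097152) (nat_lit 156) (nat_lit 5) (nat_lit 164) (nat_lit 5) (nat_lit 157) (nat_lit 5) (nat_lit 342) (nat_lit 315) (nat_lit 123))) (XT.nd (nat_lit 78) (nat_lit 532) (nat_lit 0) (XT.lf (nat_lit 0) (nat_lit 7076913518) (nat_lit 608) (nat_lit 5532329101) (nat_lit 76) (nat_lit 20029120861) (nat_lit 156) (nat_lit 5) (nat_lit 164) (nat_lit 5) (nat_lit 157) (nat_lit 5) (nat_lit 343) (nat_lit 315) (nat_lit 122)) (XT.lf (nat_lit 0) (nat_lit 10840212694) (nat_lit 608) (nat_lit 22110022885) (nat_lit 76) (nat_lit 260939854) (nat_lit 149) (nat_lit 5) (nat_lit 157) (nat_lit 5) (nat_lit 150) (nat_lit 5) (nat_lit 344) (nat_lit 315) (nat_lit 121)))))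 (XT.nd (nat_lit 312) (nat_lit 912) (nat_lit 0) (XT.nd (nat_lit 156) (nat_lit 456) (nat_lit 0) (XT.nd (nat_lit 78) (nat_lit 456) (nat_lit 0) (XT.lf (nat_lit 0) (nat_lit 14894917294) (nat_lit 608) (nat_lit 5580881849) (nat_lit 76) (nat_lit 13320019827) (nat_lit 149) (nat_lit 5) (nat_lit 157) (nat_lit 5) (nat_lit 150) (nat_lit 5) (nat_lit 345) (nat_lit 315) (nat_lit 120)) (XT.lf (nat_lit 0) (nat_lit 11668888934) (nat_lit 456) (nat_lit 7511866540) (nat_lit 532) (nat_lit 15213963912) (nat_lit 143) (nat_lit 5) (nat_lit 149) (nat_lit 5) (nat_lit 150) (nat_lit 5) (nat_lit 346) (nat_lit 315) (nat_lit 119))) (XT.nd (nat_lit 78) (nat_lit 456) (nat_lit 0) (XT.lf (nat_lit 0) (nat_lit 23705600895) (nat_lit 532) (nat_lit 5519041692) (nat_lit 76) (nat_lit 5783633546) (nat_lit 143) (nat_lit 5) (nat_lit 150) (nat_lit 5) (nat_lit 144) (nat_lit 5) (nat_lit 347) (nat_lit 315) (nat_lit 118)) (XT.lf (nat_lit 0) (nat_lit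 12368011618) (nat_lit 456) (nat_lit 16188891479) (nat_lit 532) (nat_lit 7077617353) (nat_lit 137) (nat_lit 5) (nat_lit 143) (nat_lit 5) (nat_lit 144) (nat_lit 5) (nat_lit 348) (nat_lit 315) (nat_lit 117)))) (XT.nd (nat_lit 156) (nat_lit 456) (nat_lit 0) (XT.nd (nat_lit 78) (nat_lit 456) (nat_lit 0) (XT.lf (nat_lit 0) (nat_lit 30901931337) (nat_lit 456) (nat_lit 2705038795) (nat_lit 532) (nat_lit 2670987341) (nat_lit 137) (nat_lit 5) (nat_lit 143) (nat_lit 5) (nat_lit 144) (nat_lit 5) (nat_lit 349) (nat_lit 315) (nat_lit 116)) (XT.lf (nat_lit 0) (nat_lit 2065622966) (nat_lit 456) (nat_lit 23755643286) (nat_lit 76) (nat_lit 11111867843) (nat_lit 131) (nat_lit 5) (nat_lit 137) (nat_lit 5) (nat_lit 132) (nat_lit 5) (nat_lit 350) (nat_lit 315) (nat_lit 115))) (XT.nd (nat_lit 78) (nat_lit 456) (nat_lit 0) (XT.lf (nat_lit 0) (nat_lit 6969836508) (nat_lit 456) (nat_lit 5265176147) (nat_lit 76) (nat_lit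 25369786292) (nat_lit 131) (nat_lit 5) (nat_lit 137) (nat_lit 5) (nat_lit 132) (nat_lit 5) (nat_lit 351) (nat_lit 315) (nat_lit 114)) (XT.lf (nat_lit 0) (nat_lit 12172139082) (nat_lit 532) (nat_lit 24259481180) (nat_lit 76) (nat_lit 1860466510) (nat_lit 125) (nat_lit 5) (nat_lit 132) (nat_lit 5) (nat_lit 126) (nat_lit 5) (nat_lit 352) (nat_lit 315) (nat_lit 113))))))))
noncomputable def xc219 : XT := (XT.nd (nat_lit 2184) (nat_lit 1748) (nat_lit 0) (XT.nd (nat_lit 1092) (nat_lit 1900) (nat_lit 0) (XT.nd (nat_lit 546) (nat_lit 1368) (nat_lit 0) (XT.nd (nat_lit 234) (nat_lit 836) (nat_lit 0) (XT.nd (nat_lit 78) (nat_lit 380) (nat_lit 0) (XT.lf (nat_lit 0) (nat_lit 17703033161) (nat_lit 532) (nat_lit 5105656240) (nat_lit 76) (nat_lit 16186130012) (nat_lit 125) (nat_lit 5) (nat_lit 132) (nat_lit 5) (nat_lit 126) (nat_lit 5) (nat_lit 353) (nat_lit 315) (nat_lit 112)) (XT.nd (nat_lit 78) (nat_lit 0) (nat_lit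 0) (XT.lf (nat_lit 0) (nat_lit 14910988773) (nat_lit 380) (nat_lit 8629955454) (nat_lit 456) (nat_lit 16173458902) (nat_lit 120) (nat_lit 5) (nat_lit 125) (nat_lit 5) (nat_lit 126) (nat_lit 5) (nat_lit 354) (nat_lit 315) (nat_lit 111)) (XT.lf (nat_lit 0) (nat_lit 29661277877) (nat_lit 456) (nat_lit 4881968592) (nat_lit 76) (nat_lit 5909111075) (nat_lit 120) (nat_lit 5) (nat_lit 126) (nat_lit 5) (nat_lit 121) (nat_lit 5) (nat_lit 355) (nat_lit 315) (nat_lit 110)))) (XT.nd (nat_lit 156) (nat_lit 380) (nat_lit 0) (XT.nd (nat_lit 78) (nat_lit 76) (nat_lit 0) (XT.lf (nat_lit 0) (nat_lit 15858414227) (nat_lit 380) (nat_lit 20342548117) (nat_lit 456) (nat_lit 5004417720) (nat_lit 115) (nat_lit 5) (nat_lit 120) (nat_lit 5) (nat_lit 121) (nat_lit 5) (nat_lit 356) (nat_lit 315) (nat_lit 109)) (XT.lf (nat_lit 0) (nat_lit 984847600) (nat_lit 456) (nat_lit 4670839845) (nat_lit 76) (nat_lit 36323602105) (nat_lit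 114) (nat_lit 5) (nat_lit 120) (nat_lit 5) (nat_lit 115) (nat_lit 5) (nat_lit 357) (nat_lit 315) (nat_lit 108))) (XT.nd (nat_lit 78) (nat_lit 0) (nat_lit 0) (XT.lf (nat_lit 0) (nat_lit 7306764408) (nat_lit 456) (nat_lit 25960051219) (nat_lit 76) (nat_lit 9500509063) (nat_lit 109) (nat_lit 5) (nat_lit 115) (nat_lit 5) (nat_lit 110) (nat_lit 5) (nat_lit 358) (nat_lit 315) (nat_lit 107)) (XT.lf (nat_lit 0) (nat_lit 13919929362) (nat_lit 456) (nat_lit 4611256528) (nat_lit 76) (nat_lit 25044768781) (nat_lit 109) (nat_lit 5) (nat_lit 115) (nat_lit 5) (nat_lit 110) (nat_lit 5) (nat_lit 359) (nat_lit 315) (nat_lit 106))))) (XT.nd (nat_lit 234) (nat_lit 684) (nat_lit 0) (XT.nd (nat_lit 78) (nat_lit 304) (nat_lit 0) (XT.lf (nat_lit 0) (nat_lit 17721200076) (nat_lit 380) (nat_lit 3178656027) (nat_lit 456) (nat_lit 23503937905) (nat_lit 104) (nat_lit 5) (nat_lit 109) (nat_lit 5) (nat_lit 110) (nat_lit 5) (nat_lit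 360) (nat_lit 315) (nat_lit 105)) (XT.nd (nat_lit 78) (nat_lit 304) (nat_lit 0) (XT.lf (nat_lit 0) (nat_lit 28255702996) (nat_lit 456) (nat_lit 4561460633) (nat_lit 76) (nat_lit 12434310649) (nat_lit 104) (nat_lit 5) (nat_lit 110) (nat_lit 5) (nat_lit 105) (nat_lit 5) (nat_lit 361) (nat_lit 315) (nat_lit 104)) (XT.lf (nat_lit 0) (nat_lit 18551279270) (nat_lit 304) (nat_lit 17488847607) (nat_lit 380) (nat_lit 10078222409) (nat_lit 100) (nat_lit 5) (nat_lit 104) (nat_lit 5) (nat_lit 105) (nat_lit 5) (nat_lit 362) (nat_lit 315) (nat_lit 103)))) (XT.nd (nat_lit 156) (nat_lit 304) (nat_lit 0) (XT.nd (nat_lit 78) (nat_lit 380) (nat_lit 0) (XT.lf (nat_lit 0) (nat_lit 42448374087) (nat_lit 304) (nat_lit 1653905583) (nat_lit 380) (nat_lit 2907626326) (nat_lit 100) (nat_lit 5) (nat_lit 104) (nat_lit 5) (nat_lit 105) (nat_lit 5) (nat_lit 363) (nat_lit 315) (nat_lit 102)) (XT.lf (nat_lit 0) (nat_lit 4719172916)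 (nat_lit 380) (nat_lit 28595985153) (nat_lit 76) (nat_lit 14601907152) (nat_lit 95) (nat_lit 5) (nat_lit 100) (nat_lit 5) (nat_lit 96) (nat_lit 5) (nat_lit 364) (nat_lit 315) (nat_lit 101))) (XT.nd (nat_lit 78) (nat_lit 304) (nat_lit 0) (XT.lf (nat_lit 0) (nat_lit 12577422239) (nat_lit 380) (nat_lit 4884520753) (nat_lit 76) (nat_lit 31386801209) (nat_lit 95) (nat_lit 5) (nat_lit 100) (nat_lit 5) (nat_lit 96) (nat_lit 5) (nat_lit 365) (nat_lit 315) (nat_lit 100)) (XT.lf (nat_lit 0) (nat_lit 19924641526) (nat_lit 304) (nat_lit 936550616) (nat_lit 380) (nat_lit 28941489403) (nat_lit 91) (nat_lit 5) (nat_lit 95) (nat_lit 5) (nat_lit 96) (nat_lit 5) (nat_lit 366) (nat_lit 315) (nat_lit 99)))))) (XT.nd (nat_lit 546) (nat_lit 988) (nat_lit 0) (XT.nd (nat_lit 234) (nat_lit 608) (nat_lit 0) (XT.nd (nat_lit 78) (nat_lit 304) (nat_lit 0) (XT.lf (nat_lit 0) (nat_lit 29596169006) (nat_lit 380) (nat_lit 5363123976)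 (nat_lit 76) (nat_lit 15819864367) (nat_lit 91) (nat_lit 5) (nat_lit 96) (nat_lit 5) (nat_lit 92) (nat_lit 5) (nat_lit 367) (nat_lit 315) (nat_lit 98)) (XT.nd (nat_lit 78) (nat_lit 0) (nat_lit 0) (XT.lf (nat_lit 0) (nat_lit 20271131655) (nat_lit 304) (nat_lit 18524511685) (nat_lit 380) (nat_lit 12983211765) (nat_lit 87) (nat_lit 5) (nat_lit 91) (nat_lit 5) (nat_lit 92) (nat_lit 5) (nat_lit 368) (nat_lit 315) (nat_lit 97)) (XT.lf (nat_lit 0) (nat_lit 46781979343) (nat_lit 304) (nat_lit 1541622664) (nat_lit 380) (nat_lit 4483367871) (nat_lit 87) (nat_lit 5) (nat_lit 91) (nat_lit 5) (nat_lit 92) (nat_lit 5) (nat_lit 369) (nat_lit 315) (nat_lit 96)))) (XT.nd (nat_lit 156) (nat_lit 304) (nat_lit 0) (XT.nd (nat_lit 78) (nat_lit 0) (nat_lit 0) (XT.lf (nat_lit 0) (nat_lit 4540012343) (nat_lit 304) (nat_lit 33434073997) (nat_lit 76) (nat_lit 15880054196) (nat_lit 83) (nat_lit 5) (nat_lit 87) (nat_lit 5)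 (nat_lit 84) (nat_lit 5) (nat_lit 370) (nat_lit 315) (nat_lit 95)) (XT.lf (nat_lit 0) (nat_lit 13819081850) (nat_lit 304) (nat_lit 7211532954) (nat_lit 76) (nat_lit 33898527839) (nat_lit 83) (nat_lit 5) (nat_lit 87) (nat_lit 5) (nat_lit 84) (nat_lit 5) (nat_lit 371) (nat_lit 315) (nat_lit 94))) (XT.nd (nat_lit 78) (nat_lit 0) (nat_lit 0) (XT.lf (nat_lit 0) (nat_lit 20189362343) (nat_lit 304) (nat_lit 3379672997) (nat_lit 380) (nat_lit 32461585083) (nat_lit 79) (nat_lit 5) (nat_lit 83) (nat_lit 5) (nat_lit 84) (nat_lit 5) (nat_lit 372) (nat_lit 315) (nat_lit 93)) (XT.lf (nat_lit 0) (nat_lit 33825761153) (nat_lit 380) (nat_lit 8748146085) (nat_lit 76) (nat_lit 14584808025) (nat_lit 79) (nat_lit 5) (nat_lit 84) (nat_lit 5) (nat_lit 80) (nat_lit 5) (nat_lit 373) (nat_lit 315) (nat_lit 92))))) (XT.nd (nat_lit 234) (nat_lit 456) (nat_lit 0) (XT.nd (nat_lit 78) (nat_lit 304) (nat_lit 0) (XT.lf (nat_lit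 0) (nat_lit 19502624042) (nat_lit 228) (nat_lit 25106998976) (nat_lit 304) (nat_lit 13704447815) (nat_lit 76) (nat_lit 5) (nat_lit 79) (nat_lit 5) (nat_lit 80) (nat_lit 5) (nat_lit 374) (nat_lit 315) (nat_lit 91)) (XT.nd (nat_lit 78) (nat_lit 304) (nat_lit 0) (XT.lf (nat_lit 0) (nat_lit 48778028091) (nat_lit 228) (nat_lit 7025835129) (nat_lit 304) (nat_lit 3697618860) (nat_lit 76) (nat_lit 5) (nat_lit 79) (nat_lit 5) (nat_lit 80) (nat_lit 5) (nat_lit 375) (nat_lit 315) (nat_lit 90)) (XT.lf (nat_lit 0) (nat_lit 6770718029) (nat_lit 304) (nat_lit 42328673132) (nat_lit 76) (nat_lit 11614511030) (nat_lit 72) (nat_lit 5) (nat_lit 76) (nat_lit 5) (nat_lit 73) (nat_lit 5) (nat_lit 376) (nat_lit 315) (nat_lit 89)))) (XT.nd (nat_lit 156) (nat_lit 228) (nat_lit 0) (XT.nd (nat_lit 78) (nat_lit 228) (nat_lit 0) (XT.lf (nat_lit 0) (nat_lit 17656272962) (nat_lit 304) (nat_lit 13481896233) (nat_lit 76) (nat_lit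 30818103625) (nat_lit 72) (nat_lit 5) (nat_lit 76) (nat_lit 5) (nat_lit 73) (nat_lit 5) (nat_lit 377) (nat_lit 315) (nat_lit 88)) (XT.lf (nat_lit 0) (nat_lit 16551122145) (nat_lit 228) (nat_lit 12474979377) (nat_lit 304) (nat_lit 34205082621) (nat_lit 69) (nat_lit 5) (nat_lit 72) (nat_lit 5) (nat_lit 73) (nat_lit 5) (nat_lit 378) (nat_lit 315) (nat_lit 87))) (XT.nd (nat_lit 78) (nat_lit 228) (nat_lit 0) (XT.lf (nat_lit 0) (nat_lit 40938001109) (nat_lit 304) (nat_lit 16847124434) (nat_lit 76) (nat_lit 6753188743) (nat_lit 69) (nat_lit 5) (nat_lit 73) (nat_lit 5) (nat_lit 70) (nat_lit 5) (nat_lit 379) (nat_lit 315) (nat_lit 86)) (XT.lf (nat_lit 0) (nat_lit 14028956917) (nat_lit 228) (nat_lit 39435331104) (nat_lit 304) (nat_lit 12412660142) (nat_lit 66) (nat_lit 5) (nat_lit 69) (nat_lit 5) (nat_lit 70) (nat_lit 5) (nat_lit 380) (nat_lit 315) (nat_lit 85))))))) (XT.nd (nat_lit 1092) (nat_lit 304) (nat_lit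 0) (XT.nd (nat_lit 546) (nat_lit 684) (nat_lit 0) (XT.nd (nat_lit 234) (nat_lit 456) (nat_lit 0) (XT.nd (nat_lit 78) (nat_lit 304) (nat_lit 0) (XT.lf (nat_lit 0) (nat_lit 46174605514) (nat_lit 228) (nat_lit 20360560884) (nat_lit 304) (nat_lit 715511293) (nat_lit 66) (nat_lit 5) (nat_lit 69) (nat_lit 5) (nat_lit 70) (nat_lit 5) (nat_lit 381) (nat_lit 315) (nat_lit 84)) (XT.nd (nat_lit 78) (nat_lit 0) (nat_lit 0) (XT.lf (nat_lit 0) (nat_lit 10717168558) (nat_lit 228) (nat_lit 495969544) (nat_lit 304) (nat_lit 57446161869) (nat_lit 62) (nat_lit 5) (nat_lit 65) (nat_lit 5) (nat_lit 66) (nat_lit 5) (nat_lit 382) (nat_lit 315) (nat_lit 83)) (XT.lf (nat_lit 0) (nat_lit 23890828007) (nat_lit 304) (nat_lit 26410696830) (nat_lit 76) (nat_lit 19796277350) (nat_lit 62) (nat_lit 5) (nat_lit 66) (nat_lit 5) (nat_lit 63) (nat_lit 5) (nat_lit 383) (nat_lit 315) (nat_lit 82)))) (XT.nd (nat_lit 156) (nat_lit 228)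 (nat_lit 0) (XT.nd (nat_lit 78) (nat_lit 0) (nat_lit 0) (XT.lf (nat_lit 0) (nat_lit 6180388316) (nat_lit 228) (nat_lit 30831534277) (nat_lit 304) (nat_lit 34565645296) (nat_lit 59) (nat_lit 5) (nat_lit 62) (nat_lit 5) (nat_lit 63) (nat_lit 5) (nat_lit 384) (nat_lit 315) (nat_lit 81)) (XT.lf (nat_lit 0) (nat_lit 40288635335) (nat_lit 228) (nat_lit 10503482076) (nat_lit 304) (nat_lit 22301645749) (nat_lit 59) (nat_lit 5) (nat_lit 62) (nat_lit 5) (nat_lit 63) (nat_lit 5) (nat_lit 385) (nat_lit 315) (nat_lit 80))) (XT.nd (nat_lit 78) (nat_lit 76) (nat_lit 0) (XT.lf (nat_lit 0) (nat_lit 675631120) (nat_lit 152) (nat_lit 64415683554) (nat_lit 228) (nat_lit 9560962321) (nat_lit 57) (nat_lit 5) (nat_lit 59) (nat_lit 5) (nat_lit 60) (nat_lit 5) (nat_lit 386) (nat_lit 315) (nat_lit 79)) (XT.lf (nat_lit 0) (nat_lit 3929781813) (nat_lit 228) (nat_lit 40557778521) (nat_lit 76) (nat_lit 31755838897) (nat_lit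 56) (nat_lit 5) (nat_lit 59) (nat_lit 5) (nat_lit 57) (nat_lit 5) (nat_lit 387) (nat_lit 315) (nat_lit 78))))) (XT.nd (nat_lit 234) (nat_lit 456) (nat_lit 0) (XT.nd (nat_lit 78) (nat_lit 228) (nat_lit 0) (XT.lf (nat_lit 0) (nat_lit 17631921522) (nat_lit 228) (nat_lit 6232893364) (nat_lit 76) (nat_lit 54014635736) (nat_lit 56) (nat_lit 5) (nat_lit 59) (nat_lit 5) (nat_lit 57) (nat_lit 5) (nat_lit 388) (nat_lit 315) (nat_lit 77)) (XT.nd (nat_lit 78) (nat_lit 0) (nat_lit 0) (XT.lf (nat_lit 0) (nat_lit 29699451298) (nat_lit 228) (nat_lit 2330036355) (nat_lit 304) (nat_lit 47526565570) (nat_lit 53) (nat_lit 5) (nat_lit 56) (nat_lit 5) (nat_lit 57) (nat_lit 5) (nat_lit 389) (nat_lit 315) (nat_lit 76)) (XT.lf (nat_lit 0) (nat_lit 47112243442) (nat_lit 304) (nat_lit 14636811766) (nat_lit 76) (nat_lit 19526301335) (nat_lit 53) (nat_lit 5) (nat_lit 57) (nat_lit 5) (nat_lit 54) (nat_lit 5) (nat_lit 390) (nat_lit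 315) (nat_lit 75)))) (XT.nd (nat_lit 156) (nat_lit 304) (nat_lit 0) (XT.nd (nat_lit 78) (nat_lit 0) (nat_lit 0) (XT.lf (nat_lit 0) (nat_lit 22044891743) (nat_lit 152) (nat_lit 40836482993) (nat_lit 228) (nat_lit 20157847944) (nat_lit 51) (nat_lit 5) (nat_lit 53) (nat_lit 5) (nat_lit 54) (nat_lit 5) (nat_lit 391) (nat_lit 315) (nat_lit 74)) (XT.lf (nat_lit 0) (nat_lit 60125318231) (nat_lit 152) (nat_lit 19144993647) (nat_lit 228) (nat_lit 5581291457) (nat_lit 51) (nat_lit 5) (nat_lit 53) (nat_lit 5) (nat_lit 54) (nat_lit 5) (nat_lit 392) (nat_lit 315) (nat_lit 73))) (XT.nd (nat_lit 78) (nat_lit 0) (nat_lit 0) (XT.lf (nat_lit 0) (nat_lit 9403205271) (nat_lit 304) (nat_lit 73957910774) (nat_lit 76) (nat_lit 3349878476) (nat_lit 47) (nat_lit 5) (nat_lit 51) (nat_lit 5) (nat_lit 48) (nat_lit 5) (nat_lit 393) (nat_lit 315) (nat_lit 72)) (XT.lf (nat_lit 0) (nat_lit 25165728731) (nat_lit 304) (nat_lit 37004011628)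 (nat_lit 76) (nat_lit 26441549616) (nat_lit 47) (nat_lit 5) (nat_lit 51) (nat_lit 5) (nat_lit 48) (nat_lit 5) (nat_lit 394) (nat_lit 315) (nat_lit 71)))))) (XT.nd (nat_lit 34710) (nat_lit 0) (nat_lit 12388) (XT.nd (nat_lit 234) (nat_lit 152) (nat_lit 0) (XT.nd (nat_lit 78) (nat_lit 0) (nat_lit 0) (XT.lf (nat_lit 0) (nat_lit 1077841714) (nat_lit 152) (nat_lit 40332634164) (nat_lit 228) (nat_lit 49157838409) (nat_lit 45) (nat_lit 5) (nat_lit 47) (nat_lit 5) (nat_lit 48) (nat_lit 5) (nat_lit 395) (nat_lit 315) (nat_lit 70)) (XT.nd (nat_lit 78) (nat_lit 0) (nat_lit 0) (XT.lf (nat_lit 0) (nat_lit 41059017885) (nat_lit 152) (nat_lit 17456215989) (nat_lit 228) (nat_lit 34057635823) (nat_lit 45) (nat_lit 5) (nat_lit 47) (nat_lit 5) (nat_lit 48) (nat_lit 5) (nat_lit 396) (nat_lit 315) (nat_lit 69)) (XT.lf (nat_lit 0) (nat_lit 76190857224) (nat_lit 228) (nat_lit 12458284813) (nat_lit 76) (nat_lit 5986688468)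 (nat_lit 45) (nat_lit 5) (nat_lit 48) (nat_lit 5) (nat_lit 46) (nat_lit 5) (nat_lit 397) (nat_lit 315) (nat_lit 68)))) (XT.nd (nat_lit 34320) (nat_lit 0) (nat_lit 12312) (XT.nd (nat_lit 34242) (nat_lit 0) (nat_lit 12312) (XT.lf (nat_lit 0) (nat_lit 28143695368) (nat_lit 152) (nat_lit 66695473840) (nat_lit 228) (nat_lit 1908238726) (nat_lit 43) (nat_lit 5) (nat_lit 45) (nat_lit 5) (nat_lit 46) (nat_lit 5) (nat_lit 398) (nat_lit 315) (nat_lit 67)) (XT.lf (nat_lit 0) (nat_lit 2971376371) (nat_lit 0) (nat_lit 2971376371) (nat_lit 1140) (nat_lit 4797867219) (nat_lit 205) (nat_lit 5) (nat_lit 205) (nat_lit 3) (nat_lit 220) (nat_lit 3) (nat_lit 316) (nat_lit 316) (nat_lit 148))) (XT.nd (nat_lit 78) (nat_lit 0) (nat_lit 0) (XT.lf (nat_lit 0) (nat_lit 12238469670) (nat_lit 1140) (nat_lit 5718565043) (nat_lit 1216) (nat_lit 3841041611) (nat_lit 205) (nat_lit 5) (nat_lit 220) (nat_lit 3) (nat_lit 221) (nat_lit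 5) (nat_lit 317) (nat_lit 316) (nat_lit 147)) (XT.lf (nat_lit 76) (nat_lit 4420510196) (nat_lit 0) (nat_lit 8277522392) (nat_lit 1216) (nat_lit 9423510465) (nat_lit 206) (nat_lit 5) (nat_lit 205) (nat_lit 5) (nat_lit 221) (nat_lit 5) (nat_lit 318) (nat_lit 316) (nat_lit 146))))) (XT.nd (nat_lit 312) (nat_lit 0) (nat_lit 76) (XT.nd (nat_lit 156) (nat_lit 0) (nat_lit 0) (XT.nd (nat_lit 78) (nat_lit 0) (nat_lit 0) (XT.lf (nat_lit 0) (nat_lit 13240796998) (nat_lit 1140) (nat_lit 7491859881) (nat_lit 1216) (nat_lit 1719979839) (nat_lit 206) (nat_lit 5) (nat_lit 221) (nat_lit 5) (nat_lit 222) (nat_lit 5) (nat_lit 319) (nat_lit 316) (nat_lit 145)) (XT.lf (nat_lit 76) (nat_lit 2997185230) (nat_lit 0) (nat_lit 10908404597) (nat_lit 1216) (nat_lit 8884906215) (nat_lit 207) (nat_lit 5) (nat_lit 206) (nat_lit 5) (nat_lit 222) (nat_lit 5) (nat_lit 320) (nat_lit 316) (nat_lit 144))) (XT.nd (nat_lit 78) (nat_lit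 0) (nat_lit 76) (XT.lf (nat_lit 76) (nat_lit 13951572970) (nat_lit 0) (nat_lit 709503932) (nat_lit 1216) (nat_lit 8475296792) (nat_lit 207) (nat_lit 5) (nat_lit 206) (nat_lit 5) (nat_lit 222) (nat_lit 5) (nat_lit 321) (nat_lit 316) (nat_lit 143)) (XT.lf (nat_lit 76) (nat_lit 1677554498) (nat_lit 0) (nat_lit 13867217610) (nat_lit 1216) (nat_lit 7944694179) (nat_lit 208) (nat_lit 5) (nat_lit 207) (nat_lit 5) (nat_lit 223) (nat_lit 5) (nat_lit 322) (nat_lit 316) (nat_lit 142)))) (XT.nd (nat_lit 156) (nat_lit 0) (nat_lit 76) (XT.nd (nat_lit 78) (nat_lit 0) (nat_lit 76) (XT.lf (nat_lit 76) (nat_lit 13043938197) (nat_lit 0) (nat_lit 3506112847) (nat_lit 1216) (nat_lit 7300253197) (nat_lit 208) (nat_lit 5) (nat_lit 207) (nat_lit 5) (nat_lit 223) (nat_lit 5) (nat_lit 323) (nat_lit 316) (nat_lit 141)) (XT.lf (nat_lit 76) (nat_lit 466541660) (nat_lit 0) (nat_lit 17187832671) (nat_lit 1216) (nat_lit 6565531058)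 (nat_lit 209) (nat_lit 5) (nat_lit 208) (nat_lit 5) (nat_lit 224) (nat_lit 5) (nat_lit 324) (nat_lit 316) (nat_lit 140))) (XT.nd (nat_lit 78) (nat_lit 0) (nat_lit 76) (XT.lf (nat_lit 76) (nat_lit 12260755282) (nat_lit 0) (nat_lit 6670189513) (nat_lit 1216) (nat_lit 5665480750) (nat_lit 209) (nat_lit 5) (nat_lit 208) (nat_lit 5) (nat_lit 224) (nat_lit 5) (nat_lit 325) (nat_lit 316) (nat_lit 139)) (XT.lf (nat_lit 0) (nat_lit 20281590685) (nat_lit 1140) (nat_lit 618517044) (nat_lit 1216) (nat_lit 4083064594) (nat_lit 209) (nat_lit 5) (nat_lit 224) (nat_lit 5) (nat_lit 225) (nat_lit 5) (nat_lit 326) (nat_lit 316) (nat_lit 138))))))))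
noncomputable def xc220 : XT := (XT.nd (nat_lit 2184) (nat_lit 4788) (nat_lit 0) (XT.nd (nat_lit 1092) (nat_lit 3496) (nat_lit 0) (XT.nd (nat_lit 546) (nat_lit 1748) (nat_lit 0) (XT.nd (nat_lit 234) (nat_lit 1140) (nat_lit 0) (XT.nd (nat_lit 78) (nat_lit 0) (nat_lit 76) (XT.lf (nat_lit 76) (nat_lit 11607651417) (nat_lit 0) (nat_lit 10238610496) (nat_lit 1216) (nat_lit 3530058653) (nat_lit 210) (nat_lit 5) (nat_lit 209) (nat_lit 5) (nat_lit 225) (nat_lit 5) (nat_lit 327) (nat_lit 316) (nat_lit 137)) (XT.nd (nat_lit 78) (nat_lit 0) (nat_lit 0) (XT.lf (nat_lit 0) (nat_lit 23467307254) (nat_lit 1140) (nat_lit 1578064566) (nat_lit 1216) (nat_lit 735612534) (nat_lit 210) (nat_lit 5) (nat_lit 225) (nat_lit 5) (nat_lit 226) (nat_lit 5) (nat_lit 328) (nat_lit 316) (nat_lit 136)) (XT.lf (nat_lit 76) (nat_lit 11090316057) (nat_lit 0) (nat_lit 14250750806) (nat_lit 1216) (nat_lit 850602701) (nat_lit 211) (nat_lit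 5) (nat_lit 210) (nat_lit 5) (nat_lit 226) (nat_lit 5) (nat_lit 329) (nat_lit 316) (nat_lit 135)))) (XT.nd (nat_lit 156) (nat_lit 0) (nat_lit 76) (XT.nd (nat_lit 78) (nat_lit 0) (nat_lit 76) (XT.lf (nat_lit 0) (nat_lit 655796231) (nat_lit 1216) (nat_lit 2452600482) (nat_lit 1292) (nat_lit 23505725893) (nat_lit 194) (nat_lit 5) (nat_lit 210) (nat_lit 5) (nat_lit 211) (nat_lit 5) (nat_lit 330) (nat_lit 316) (nat_lit 134)) (XT.lf (nat_lit 0) (nat_lit 2371678353) (nat_lit 1216) (nat_lit 16353064363) (nat_lit 1292) (nat_lit 8318815903) (nat_lit 195) (nat_lit 5) (nat_lit 211) (nat_lit 5) (nat_lit 212) (nat_lit 5) (nat_lit 331) (nat_lit 316) (nat_lit 133))) (XT.nd (nat_lit 78) (nat_lit 0) (nat_lit 76) (XT.lf (nat_lit 0) (nat_lit 4191172295) (nat_lit 1216) (nat_lit 3241034618) (nat_lit 1292) (nat_lit 20052110289) (nat_lit 195) (nat_lit 5) (nat_lit 211) (nat_lit 5) (nat_lit 212) (nat_lit 5) (nat_lit 332)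 (nat_lit 316) (nat_lit 132)) (XT.lf (nat_lit 0) (nat_lit 6203673139) (nat_lit 1216) (nat_lit 17511126120) (nat_lit 76) (nat_lit 4219350068) (nat_lit 196) (nat_lit 5) (nat_lit 212) (nat_lit 5) (nat_lit 197) (nat_lit 5) (nat_lit 333) (nat_lit 316) (nat_lit 131))))) (XT.nd (nat_lit 234) (nat_lit 1140) (nat_lit 0) (XT.nd (nat_lit 78) (nat_lit 760) (nat_lit 0) (XT.lf (nat_lit 0) (nat_lit 8379721751) (nat_lit 1216) (nat_lit 3909995693) (nat_lit 76) (nat_lit 16104667137) (nat_lit 196) (nat_lit 5) (nat_lit 212) (nat_lit 5) (nat_lit 197) (nat_lit 5) (nat_lit 334) (nat_lit 316) (nat_lit 130)) (XT.nd (nat_lit 78) (nat_lit 0) (nat_lit 0) (XT.lf (nat_lit 0) (nat_lit 10297159954) (nat_lit 760) (nat_lit 419509806) (nat_lit 836) (nat_lit 18148891843) (nat_lit 186) (nat_lit 5) (nat_lit 196) (nat_lit 5) (nat_lit 197) (nat_lit 5) (nat_lit 335) (nat_lit 316) (nat_lit 129)) (XT.lf (nat_lit 0) (nat_lit 13273803626) (nat_lit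 836) (nat_lit 4455913401) (nat_lit 76) (nat_lit 11616657743) (nat_lit 186) (nat_lit 5) (nat_lit 197) (nat_lit 5) (nat_lit 187) (nat_lit 5) (nat_lit 336) (nat_lit 316) (nat_lit 128)))) (XT.nd (nat_lit 156) (nat_lit 532) (nat_lit 0) (XT.nd (nat_lit 78) (nat_lit 0) (nat_lit 0) (XT.lf (nat_lit 0) (nat_lit 10273333472) (nat_lit 608) (nat_lit 5734029994) (nat_lit 684) (nat_lit 13831260568) (nat_lit 178) (nat_lit 5) (nat_lit 186) (nat_lit 5) (nat_lit 187) (nat_lit 5) (nat_lit 337) (nat_lit 316) (nat_lit 127)) (XT.lf (nat_lit 0) (nat_lit 18928893936) (nat_lit 684) (nat_lit 4875589472) (nat_lit 76) (nat_lit 6537981429) (nat_lit 178) (nat_lit 5) (nat_lit 187) (nat_lit 5) (nat_lit 179) (nat_lit 5) (nat_lit 338) (nat_lit 316) (nat_lit 126))) (XT.nd (nat_lit 78) (nat_lit 0) (nat_lit 0) (XT.lf (nat_lit 0) (nat_lit 10398017803) (nat_lit 532) (nat_lit 11693740463) (nat_lit 608) (nat_lit 8765054846) (nat_lit 171)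 (nat_lit 5) (nat_lit 178) (nat_lit 5) (nat_lit 179) (nat_lit 5) (nat_lit 339) (nat_lit 316) (nat_lit 125)) (XT.lf (nat_lit 0) (nat_lit 25403755672) (nat_lit 608) (nat_lit 5166304558) (nat_lit 76) (nat_lit 814906993) (nat_lit 171) (nat_lit 5) (nat_lit 179) (nat_lit 5) (nat_lit 172) (nat_lit 5) (nat_lit 340) (nat_lit 316) (nat_lit 124)))))) (XT.nd (nat_lit 546) (nat_lit 1368) (nat_lit 0) (XT.nd (nat_lit 234) (nat_lit 988) (nat_lit 0) (XT.nd (nat_lit 78) (nat_lit 608) (nat_lit 0) (XT.lf (nat_lit 0) (nat_lit 10674588334) (nat_lit 532) (nat_lit 18356026432) (nat_lit 608) (nat_lit 2891888861) (nat_lit 164) (nat_lit 5) (nat_lit 171) (nat_lit 5) (nat_lit 172) (nat_lit 5) (nat_lit 341) (nat_lit 316) (nat_lit 123)) (XT.nd (nat_lit 78) (nat_lit 532) (nat_lit 0) (XT.lf (nat_lit 0) (nat_lit 334275879) (nat_lit 608) (nat_lit 5384217939) (nat_lit 76) (nat_lit 26756096502) (nat_lit 163) (nat_lit 5) (nat_lit 171)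 (nat_lit 5) (nat_lit 164) (nat_lit 5) (nat_lit 342) (nat_lit 316) (nat_lit 122)) (XT.lf (nat_lit 0) (nat_lit 3774917246) (nat_lit 608) (nat_lit 21969424771) (nat_lit 76) (nat_lit 7292766637) (nat_lit 156) (nat_lit 5) (nat_lit 164) (nat_lit 5) (nat_lit 157) (nat_lit 5) (nat_lit 343) (nat_lit 316) (nat_lit 121)))) (XT.nd (nat_lit 156) (nat_lit 456) (nat_lit 0) (XT.nd (nat_lit 78) (nat_lit 532) (nat_lit 0) (XT.lf (nat_lit 0) (nat_lit 7427578899) (nat_lit 608) (nat_lit 5551408732) (nat_lit 76) (nat_lit 20634253292) (nat_lit 156) (nat_lit 5) (nat_lit 164) (nat_lit 5) (nat_lit 157) (nat_lit 5) (nat_lit 344) (nat_lit 316) (nat_lit 120)) (XT.lf (nat_lit 0) (nat_lit 11301238833) (nat_lit 608) (nat_lit 22623775967) (nat_lit 76) (nat_lit 278302157) (nat_lit 149) (nat_lit 5) (nat_lit 157) (nat_lit 5) (nat_lit 150) (nat_lit 5) (nat_lit 345) (nat_lit 316) (nat_lit 119))) (XT.nd (nat_lit 78) (nat_lit 456) (nat_lit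 0) (XT.lf (nat_lit 0) (nat_lit 15473628656) (nat_lit 608) (nat_lit 5603116455) (nat_lit 76) (nat_lit 13728876836) (nat_lit 149) (nat_lit 5) (nat_lit 157) (nat_lit 5) (nat_lit 150) (nat_lit 5) (nat_lit 346) (nat_lit 316) (nat_lit 118)) (XT.lf (nat_lit 0) (nat_lit 12162724002) (nat_lit 456) (nat_lit 7722859274) (nat_lit 532) (nat_lit 15536983230) (nat_lit 143) (nat_lit 5) (nat_lit 149) (nat_lit 5) (nat_lit 150) (nat_lit 5) (nat_lit 347) (nat_lit 316) (nat_lit 117))))) (XT.nd (nat_lit 234) (nat_lit 912) (nat_lit 0) (XT.nd (nat_lit 78) (nat_lit 456) (nat_lit 0) (XT.lf (nat_lit 0) (nat_lit 24542539025) (nat_lit 532) (nat_lit 5541287900) (nat_lit 76) (nat_lit 5970815351) (nat_lit 143) (nat_lit 5) (nat_lit 150) (nat_lit 5) (nat_lit 144) (nat_lit 5) (nat_lit 348) (nat_lit 316) (nat_lit 116)) (XT.nd (nat_lit 78) (nat_lit 0) (nat_lit 0) (XT.lf (nat_lit 0) (nat_lit 12880971861) (nat_lit 456) (nat_lit 16656109446)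 (nat_lit 532) (nat_lit 7162664762) (nat_lit 137) (nat_lit 5) (nat_lit 143) (nat_lit 5) (nat_lit 144) (nat_lit 5) (nat_lit 349) (nat_lit 316) (nat_lit 115)) (XT.lf (nat_lit 0) (nat_lit 31966775583) (nat_lit 456) (nat_lit 2768278524) (nat_lit 532) (nat_lit 2627543067) (nat_lit 137) (nat_lit 5) (nat_lit 143) (nat_lit 5) (nat_lit 144) (nat_lit 5) (nat_lit 350) (nat_lit 316) (nat_lit 114)))) (XT.nd (nat_lit 156) (nat_lit 456) (nat_lit 0) (XT.nd (nat_lit 78) (nat_lit 0) (nat_lit 0) (XT.lf (nat_lit 0) (nat_lit 2246752377) (nat_lit 456) (nat_lit 24325916445) (nat_lit 76) (nat_lit 11464787597) (nat_lit 131) (nat_lit 5) (nat_lit 137) (nat_lit 5) (nat_lit 132) (nat_lit 5) (nat_lit 351) (nat_lit 316) (nat_lit 113)) (XT.lf (nat_lit 0) (nat_lit 7294621624) (nat_lit 456) (nat_lit 5284882752) (nat_lit 76) (nat_lit 26149873782) (nat_lit 131) (nat_lit 5) (nat_lit 137) (nat_lit 5) (nat_lit 132) (nat_lit 5) (nat_lit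 352) (nat_lit 316) (nat_lit 112))) (XT.nd (nat_lit 78) (nat_lit 0) (nat_lit 0) (XT.lf (nat_lit 0) (nat_lit 12651163126) (nat_lit 532) (nat_lit 24847095470) (nat_lit 76) (nat_lit 1939083667) (nat_lit 125) (nat_lit 5) (nat_lit 132) (nat_lit 5) (nat_lit 126) (nat_lit 5) (nat_lit 353) (nat_lit 316) (nat_lit 111)) (XT.lf (nat_lit 0) (nat_lit 18344667721) (nat_lit 532) (nat_lit 5122738408) (nat_lit 76) (nat_lit 16693852904) (nat_lit 125) (nat_lit 5) (nat_lit 132) (nat_lit 5) (nat_lit 126) (nat_lit 5) (nat_lit 354) (nat_lit 316) (nat_lit 110))))))) (XT.nd (nat_lit 1092) (nat_lit 2204) (nat_lit 0) (XT.nd (nat_lit 546) (nat_lit 988) (nat_lit 0) (XT.nd (nat_lit 234) (nat_lit 836) (nat_lit 0) (XT.nd (nat_lit 78) (nat_lit 380) (nat_lit 0) (XT.lf (nat_lit 0) (nat_lit 15493071764) (nat_lit 380) (nat_lit 8862719970) (nat_lit 456) (nat_lit 16546698839) (nat_lit 120) (nat_lit 5) (nat_lit 125) (nat_lit 5) (nat_lit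 126) (nat_lit 5) (nat_lit 355) (nat_lit 316) (nat_lit 109)) (XT.nd (nat_lit 78) (nat_lit 380) (nat_lit 0) (XT.lf (nat_lit 0) (nat_lit 30656815629) (nat_lit 456) (nat_lit 4894595844) (nat_lit 76) (nat_lit 6111262249) (nat_lit 120) (nat_lit 5) (nat_lit 126) (nat_lit 5) (nat_lit 121) (nat_lit 5) (nat_lit 356) (nat_lit 316) (nat_lit 108)) (XT.lf (nat_lit 0) (nat_lit 16466686384) (nat_lit 380) (nat_lit 20924199483) (nat_lit 456) (nat_lit 5047457626) (nat_lit 115) (nat_lit 5) (nat_lit 120) (nat_lit 5) (nat_lit 121) (nat_lit 5) (nat_lit 357) (nat_lit 316) (nat_lit 107)))) (XT.nd (nat_lit 156) (nat_lit 380) (nat_lit 0) (XT.nd (nat_lit 78) (nat_lit 380) (nat_lit 0) (XT.lf (nat_lit 0) (nat_lit 1116337554) (nat_lit 456) (nat_lit 4680199736) (nat_lit 76) (nat_lit 37438996134) (nat_lit 114) (nat_lit 5) (nat_lit 120) (nat_lit 5) (nat_lit 115) (nat_lit 5) (nat_lit 358) (nat_lit 316) (nat_lit 106)) (XT.lf (nat_lit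 0) (nat_lit 7626468578) (nat_lit 456) (nat_lit 26606569914) (nat_lit 76) (nat_lit 9814216651) (nat_lit 109) (nat_lit 5) (nat_lit 115) (nat_lit 5) (nat_lit 110) (nat_lit 5) (nat_lit 359) (nat_lit 316) (nat_lit 105))) (XT.nd (nat_lit 78) (nat_lit 380) (nat_lit 0) (XT.lf (nat_lit 0) (nat_lit 14435101260) (nat_lit 456) (nat_lit 4621164281) (nat_lit 76) (nat_lit 25823968462) (nat_lit 109) (nat_lit 5) (nat_lit 115) (nat_lit 5) (nat_lit 110) (nat_lit 5) (nat_lit 360) (nat_lit 316) (nat_lit 104)) (XT.lf (nat_lit 0) (nat_lit 18380006904) (nat_lit 380) (nat_lit 3242799383) (nat_lit 456) (nat_lit 24110152921) (nat_lit 104) (nat_lit 5) (nat_lit 109) (nat_lit 5) (nat_lit 110) (nat_lit 5) (nat_lit 361) (nat_lit 316) (nat_lit 103))))) (XT.nd (nat_lit 234) (nat_lit 684) (nat_lit 0) (XT.nd (nat_lit 78) (nat_lit 304) (nat_lit 0) (XT.lf (nat_lit 0) (nat_lit 29196825125) (nat_lit 456) (nat_lit 4572266222) (nat_lit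 76) (nat_lit 12837055680) (nat_lit 104) (nat_lit 5) (nat_lit 110) (nat_lit 5) (nat_lit 105) (nat_lit 5) (nat_lit 362) (nat_lit 316) (nat_lit 102)) (XT.nd (nat_lit 78) (nat_lit 0) (nat_lit 0) (XT.lf (nat_lit 0) (nat_lit 19232620209) (nat_lit 304) (nat_lit 17980639317) (nat_lit 380) (nat_lit 10285816404) (nat_lit 100) (nat_lit 5) (nat_lit 104) (nat_lit 5) (nat_lit 105) (nat_lit 5) (nat_lit 363) (nat_lit 316) (nat_lit 101)) (XT.lf (nat_lit 0) (nat_lit 43842992845) (nat_lit 304) (nat_lit 1671606520) (nat_lit 380) (nat_lit 2902862226) (nat_lit 100) (nat_lit 5) (nat_lit 104) (nat_lit 5) (nat_lit 105) (nat_lit 5) (nat_lit 364) (nat_lit 316) (nat_lit 100)))) (XT.nd (nat_lit 156) (nat_lit 304) (nat_lit 0) (XT.nd (nat_lit 78) (nat_lit 0) (nat_lit 0) (XT.lf (nat_lit 0) (nat_lit 4949807715) (nat_lit 380) (nat_lit 29329641340) (nat_lit 76) (nat_lit 15072395964) (nat_lit 95) (nat_lit 5) (nat_lit 100) (nat_lit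 5) (nat_lit 96) (nat_lit 5) (nat_lit 365) (nat_lit 316) (nat_lit 99)) (XT.lf (nat_lit 0) (nat_lit 13041210548) (nat_lit 380) (nat_lit 4910451165) (nat_lit 76) (nat_lit 32359892232) (nat_lit 95) (nat_lit 5) (nat_lit 100) (nat_lit 5) (nat_lit 96) (nat_lit 5) (nat_lit 366) (nat_lit 316) (nat_lit 98))) (XT.nd (nat_lit 78) (nat_lit 0) (nat_lit 0) (XT.lf (nat_lit 0) (nat_lit 20641803579) (nat_lit 304) (nat_lit 930319518) (nat_lit 380) (nat_lit 29722029134) (nat_lit 91) (nat_lit 5) (nat_lit 95) (nat_lit 5) (nat_lit 96) (nat_lit 5) (nat_lit 367) (nat_lit 316) (nat_lit 97)) (XT.lf (nat_lit 0) (nat_lit 30566991133) (nat_lit 380) (nat_lit 5405859842) (nat_lit 76) (nat_lit 16327137737) (nat_lit 91) (nat_lit 5) (nat_lit 96) (nat_lit 5) (nat_lit 92) (nat_lit 5) (nat_lit 368) (nat_lit 316) (nat_lit 96)))))) (XT.nd (nat_lit 546) (nat_lit 1064) (nat_lit 0) (XT.nd (nat_lit 234) (nat_lit 532) (nat_lit 0) (XT.nd (nat_lit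 78) (nat_lit 304) (nat_lit 0) (XT.lf (nat_lit 0) (nat_lit 20996265048) (nat_lit 304) (nat_lit 19044893675) (nat_lit 380) (nat_lit 13288559013) (nat_lit 87) (nat_lit 5) (nat_lit 91) (nat_lit 5) (nat_lit 92) (nat_lit 5) (nat_lit 369) (nat_lit 316) (nat_lit 95)) (XT.nd (nat_lit 78) (nat_lit 304) (nat_lit 0) (XT.lf (nat_lit 0) (nat_lit 48299030416) (nat_lit 304) (nat_lit 1553547694) (nat_lit 380) (nat_lit 4536170747) (nat_lit 87) (nat_lit 5) (nat_lit 91) (nat_lit 5) (nat_lit 92) (nat_lit 5) (nat_lit 370) (nat_lit 316) (nat_lit 94)) (XT.lf (nat_lit 0) (nat_lit 4755419126) (nat_lit 304) (nat_lit 34320913130) (nat_lit 76) (nat_lit 16391007216) (nat_lit 83) (nat_lit 5) (nat_lit 87) (nat_lit 5) (nat_lit 84) (nat_lit 5) (nat_lit 371) (nat_lit 316) (nat_lit 93)))) (XT.nd (nat_lit 156) (nat_lit 228) (nat_lit 0) (XT.nd (nat_lit 78) (nat_lit 304) (nat_lit 0) (XT.lf (nat_lit 0) (nat_lit 14310553736) (nat_lit 304)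 (nat_lit 7315079829) (nat_lit 76) (nat_lit 34949028717) (nat_lit 83) (nat_lit 5) (nat_lit 87) (nat_lit 5) (nat_lit 84) (nat_lit 5) (nat_lit 372) (nat_lit 316) (nat_lit 92)) (XT.lf (nat_lit 0) (nat_lit 20906736453) (nat_lit 304) (nat_lit 3445103252) (nat_lit 380) (nat_lit 33357381062) (nat_lit 79) (nat_lit 5) (nat_lit 83) (nat_lit 5) (nat_lit 84) (nat_lit 5) (nat_lit 373) (nat_lit 316) (nat_lit 91))) (XT.nd (nat_lit 78) (nat_lit 228) (nat_lit 0) (XT.lf (nat_lit 0) (nat_lit 34914397069) (nat_lit 380) (nat_lit 8900235284) (nat_lit 76) (nat_lit 15056583554) (nat_lit 79) (nat_lit 5) (nat_lit 84) (nat_lit 5) (nat_lit 80) (nat_lit 5) (nat_lit 374) (nat_lit 316) (nat_lit 90)) (XT.lf (nat_lit 0) (nat_lit 20196976033) (nat_lit 228) (nat_lit 25823697806) (nat_lit 304) (nat_lit 14040592642) (nat_lit 76) (nat_lit 5) (nat_lit 79) (nat_lit 5) (nat_lit 80) (nat_lit 5) (nat_lit 375) (nat_lit 316) (nat_lit 89)))))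 (XT.nd (nat_lit 312) (nat_lit 532) (nat_lit 0) (XT.nd (nat_lit 156) (nat_lit 228) (nat_lit 0) (XT.nd (nat_lit 78) (nat_lit 304) (nat_lit 0) (XT.lf (nat_lit 0) (nat_lit 50347459487) (nat_lit 228) (nat_lit 7201162476) (nat_lit 304) (nat_lit 3735742952) (nat_lit 76) (nat_lit 5) (nat_lit 79) (nat_lit 5) (nat_lit 80) (nat_lit 5) (nat_lit 376) (nat_lit 316) (nat_lit 88)) (XT.lf (nat_lit 0) (nat_lit 7044515633) (nat_lit 304) (nat_lit 43490233340) (nat_lit 76) (nat_lit 11998410089) (nat_lit 72) (nat_lit 5) (nat_lit 76) (nat_lit 5) (nat_lit 73) (nat_lit 5) (nat_lit 377) (nat_lit 316) (nat_lit 87))) (XT.nd (nat_lit 78) (nat_lit 228) (nat_lit 0) (XT.lf (nat_lit 0) (nat_lit 18254578688) (nat_lit 304) (nat_lit 13781207502) (nat_lit 76) (nat_lit 31777077538) (nat_lit 72) (nat_lit 5) (nat_lit 76) (nat_lit 5) (nat_lit 73) (nat_lit 5) (nat_lit 378) (nat_lit 316) (nat_lit 86)) (XT.lf (nat_lit 0) (nat_lit 17151770588)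 (nat_lit 228) (nat_lit 12812733764) (nat_lit 304) (nat_lit 35161549101) (nat_lit 69) (nat_lit 5) (nat_lit 72) (nat_lit 5) (nat_lit 73) (nat_lit 5) (nat_lit 379) (nat_lit 316) (nat_lit 85)))) (XT.nd (nat_lit 156) (nat_lit 304) (nat_lit 0) (XT.nd (nat_lit 78) (nat_lit 228) (nat_lit 0) (XT.lf (nat_lit 0) (nat_lit 42232132011) (nat_lit 304) (nat_lit 17249790419) (nat_lit 76) (nat_lit 6990525032) (nat_lit 69) (nat_lit 5) (nat_lit 73) (nat_lit 5) (nat_lit 70) (nat_lit 5) (nat_lit 380) (nat_lit 316) (nat_lit 84)) (XT.lf (nat_lit 0) (nat_lit 14551566041) (nat_lit 228) (nat_lit 40581697416) (nat_lit 304) (nat_lit 12718006285) (nat_lit 66) (nat_lit 5) (nat_lit 69) (nat_lit 5) (nat_lit 70) (nat_lit 5) (nat_lit 381) (nat_lit 316) (nat_lit 83))) (XT.nd (nat_lit 78) (nat_lit 304) (nat_lit 0) (XT.lf (nat_lit 0) (nat_lit 47658620783) (nat_lit 228) (nat_lit 20935752836) (nat_lit 304) (nat_lit 671895407) (nat_lit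 66) (nat_lit 5) (nat_lit 69) (nat_lit 5) (nat_lit 70) (nat_lit 5) (nat_lit 382) (nat_lit 316) (nat_lit 82)) (XT.lf (nat_lit 0) (nat_lit 11137782932) (nat_lit 228) (nat_lit 474654591) (nat_lit 304) (nat_lit 59104721835) (nat_lit 62) (nat_lit 5) (nat_lit 65) (nat_lit 5) (nat_lit 66) (nat_lit 5) (nat_lit 383) (nat_lit 316) (nat_lit 81))))))))
noncomputable def xc221 : XT := (XT.nd (nat_lit 36426) (nat_lit 0) (nat_lit 5320) (XT.nd (nat_lit 1092) (nat_lit 0) (nat_lit 0) (XT.nd (nat_lit 546) (nat_lit 608) (nat_lit 0) (XT.nd (nat_lit 234) (nat_lit 456) (nat_lit 0) (XT.nd (nat_lit 78) (nat_lit 228) (nat_lit 0) (XT.lf (nat_lit 0) (nat_lit 24668963719) (nat_lit 304) (nat_lit 27105278891) (nat_lit 76) (nat_lit 20424619809) (nat_lit 62) (nat_lit 5) (nat_lit 66) (nat_lit 5) (nat_lit 63) (nat_lit 5) (nat_lit 384) (nat_lit 316) (nat_lit 80)) (XT.nd (nat_lit 78) (nat_lit 0) (nat_lit 0) (XT.lf (nat_lit 0) (nat_lit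 6462580585) (nat_lit 228) (nat_lit 31720252205) (nat_lit 304) (nat_lit 35540214969) (nat_lit 59) (nat_lit 5) (nat_lit 62) (nat_lit 5) (nat_lit 63) (nat_lit 5) (nat_lit 385) (nat_lit 316) (nat_lit 79)) (XT.lf (nat_lit 0) (nat_lit 41591256162) (nat_lit 228) (nat_lit 10783413626) (nat_lit 304) (nat_lit 22910112903) (nat_lit 59) (nat_lit 5) (nat_lit 62) (nat_lit 5) (nat_lit 63) (nat_lit 5) (nat_lit 386) (nat_lit 316) (nat_lit 78)))) (XT.nd (nat_lit 156) (nat_lit 228) (nat_lit 0) (XT.nd (nat_lit 78) (nat_lit 76) (nat_lit 0) (XT.lf (nat_lit 0) (nat_lit 790381619) (nat_lit 152) (nat_lit 66311985523) (nat_lit 228) (nat_lit 9787699938) (nat_lit 57) (nat_lit 5) (nat_lit 59) (nat_lit 5) (nat_lit 60) (nat_lit 5) (nat_lit 387) (nat_lit 316) (nat_lit 77)) (XT.lf (nat_lit 0) (nat_lit 4104877846) (nat_lit 228) (nat_lit 41681616579) (nat_lit 76) (nat_lit 32742463527) (nat_lit 56) (nat_lit 5) (nat_lit 59) (nat_lit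 5) (nat_lit 57) (nat_lit 5) (nat_lit 388) (nat_lit 316) (nat_lit 76))) (XT.nd (nat_lit 78) (nat_lit 228) (nat_lit 0) (XT.lf (nat_lit 0) (nat_lit 18216415651) (nat_lit 228) (nat_lit 6329690556) (nat_lit 76) (nat_lit 55668035452) (nat_lit 56) (nat_lit 5) (nat_lit 59) (nat_lit 5) (nat_lit 57) (nat_lit 5) (nat_lit 389) (nat_lit 316) (nat_lit 75)) (XT.lf (nat_lit 0) (nat_lit 30679740235) (nat_lit 228) (nat_lit 2365409423) (nat_lit 304) (nat_lit 48895916223) (nat_lit 53) (nat_lit 5) (nat_lit 56) (nat_lit 5) (nat_lit 57) (nat_lit 5) (nat_lit 390) (nat_lit 316) (nat_lit 74))))) (XT.nd (nat_lit 234) (nat_lit 456) (nat_lit 0) (XT.nd (nat_lit 78) (nat_lit 152) (nat_lit 0) (XT.lf (nat_lit 0) (nat_lit 48579114899) (nat_lit 304) (nat_lit 14987913757) (nat_lit 76) (nat_lit 20144958585) (nat_lit 53) (nat_lit 5) (nat_lit 57) (nat_lit 5) (nat_lit 54) (nat_lit 5) (nat_lit 391) (nat_lit 316) (nat_lit 73)) (XT.nd (nat_lit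 78) (nat_lit 0) (nat_lit 0) (XT.lf (nat_lit 0) (nat_lit 22793378089) (nat_lit 152) (nat_lit 42027221310) (nat_lit 228) (nat_lit 20708192312) (nat_lit 51) (nat_lit 5) (nat_lit 53) (nat_lit 5) (nat_lit 54) (nat_lit 5) (nat_lit 392) (nat_lit 316) (nat_lit 72)) (XT.lf (nat_lit 0) (nat_lit 62013679325) (nat_lit 152) (nat_lit 19685987949) (nat_lit 228) (nat_lit 5695923336) (nat_lit 51) (nat_lit 5) (nat_lit 53) (nat_lit 5) (nat_lit 54) (nat_lit 5) (nat_lit 393) (nat_lit 316) (nat_lit 71)))) (XT.nd (nat_lit 156) (nat_lit 152) (nat_lit 0) (XT.nd (nat_lit 78) (nat_lit 0) (nat_lit 0) (XT.lf (nat_lit 0) (nat_lit 9736709331) (nat_lit 304) (nat_lit 76090602727) (nat_lit 76) (nat_lit 3483447963) (nat_lit 47) (nat_lit 5) (nat_lit 51) (nat_lit 5) (nat_lit 48) (nat_lit 5) (nat_lit 394) (nat_lit 316) (nat_lit 70)) (XT.lf (nat_lit 0) (nat_lit 25970611177) (nat_lit 304) (nat_lit 38030592783) (nat_lit 76) (nat_lit 27266905942)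 (nat_lit 47) (nat_lit 5) (nat_lit 51) (nat_lit 5) (nat_lit 48) (nat_lit 5) (nat_lit 395) (nat_lit 316) (nat_lit 69))) (XT.nd (nat_lit 78) (nat_lit 0) (nat_lit 0) (XT.lf (nat_lit 0) (nat_lit 1192897147) (nat_lit 152) (nat_lit 41509145041) (nat_lit 228) (nat_lit 50581823136) (nat_lit 45) (nat_lit 5) (nat_lit 47) (nat_lit 5) (nat_lit 48) (nat_lit 5) (nat_lit 396) (nat_lit 316) (nat_lit 68)) (XT.lf (nat_lit 0) (nat_lit 42371099278) (nat_lit 152) (nat_lit 17947409122) (nat_lit 228) (nat_lit 35030092640) (nat_lit 45) (nat_lit 5) (nat_lit 47) (nat_lit 5) (nat_lit 48) (nat_lit 5) (nat_lit 397) (nat_lit 316) (nat_lit 67)))))) (XT.nd (nat_lit 34788) (nat_lit 0) (nat_lit 12312) (XT.nd (nat_lit 34476) (nat_lit 0) (nat_lit 12160) (XT.nd (nat_lit 34320) (nat_lit 0) (nat_lit 12160) (XT.lf (nat_lit 0) (nat_lit 78523310955) (nat_lit 228) (nat_lit 12752952523) (nat_lit 76) (nat_lit 6197220466) (nat_lit 45) (nat_lit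 5) (nat_lit 48) (nat_lit 5) (nat_lit 46) (nat_lit 5) (nat_lit 398) (nat_lit 316) (nat_lit 66)) (XT.nd (nat_lit 78) (nat_lit 0) (nat_lit 0) (XT.lf (nat_lit 0) (nat_lit 3128371247) (nat_lit 0) (nat_lit 3128371247) (nat_lit 1140) (nat_lit 4801884463) (nat_lit 205) (nat_lit 5) (nat_lit 205) (nat_lit 3) (nat_lit 220) (nat_lit 3) (nat_lit 317) (nat_lit 317) (nat_lit 146)) (XT.lf (nat_lit 0) (nat_lit 12867866320) (nat_lit 1140) (nat_lit 5748923085) (nat_lit 1216) (nat_lit 3827089333) (nat_lit 205) (nat_lit 5) (nat_lit 220) (nat_lit 3) (nat_lit 221) (nat_lit 5) (nat_lit 318) (nat_lit 317) (nat_lit 145)))) (XT.nd (nat_lit 156) (nat_lit 0) (nat_lit 76) (XT.nd (nat_lit 78) (nat_lit 0) (nat_lit 76) (XT.lf (nat_lit 76) (nat_lit 4692940109) (nat_lit 0) (nat_lit 8641981868) (nat_lit 1216) (nat_lit 9442324256) (nat_lit 206) (nat_lit 5) (nat_lit 205) (nat_lit 5) (nat_lit 221) (nat_lit 5) (nat_lit 319) (nat_lit 317)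 (nat_lit 144)) (XT.lf (nat_lit 0) (nat_lit 13885430676) (nat_lit 1140) (nat_lit 7572077748) (nat_lit 1216) (nat_lit 1661028152) (nat_lit 206) (nat_lit 5) (nat_lit 221) (nat_lit 5) (nat_lit 222) (nat_lit 5) (nat_lit 320) (nat_lit 317) (nat_lit 143))) (XT.nd (nat_lit 78) (nat_lit 0) (nat_lit 0) (XT.lf (nat_lit 76) (nat_lit 3230221678) (nat_lit 0) (nat_lit 11334115267) (nat_lit 1216) (nat_lit 8902377127) (nat_lit 207) (nat_lit 5) (nat_lit 206) (nat_lit 5) (nat_lit 222) (nat_lit 5) (nat_lit 321) (nat_lit 317) (nat_lit 142)) (XT.lf (nat_lit 76) (nat_lit 14509072481) (nat_lit 0) (nat_lit 826379858) (nat_lit 1216) (nat_lit 8487734070) (nat_lit 207) (nat_lit 5) (nat_lit 206) (nat_lit 5) (nat_lit 222) (nat_lit 5) (nat_lit 322) (nat_lit 317) (nat_lit 141))))) (XT.nd (nat_lit 234) (nat_lit 0) (nat_lit 76) (XT.nd (nat_lit 78) (nat_lit 0) (nat_lit 0) (XT.lf (nat_lit 76) (nat_lit 1873588183) (nat_lit 0) (nat_lit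 14365747375) (nat_lit 1216) (nat_lit 7947732961) (nat_lit 208) (nat_lit 5) (nat_lit 207) (nat_lit 5) (nat_lit 223) (nat_lit 5) (nat_lit 323) (nat_lit 317) (nat_lit 140)) (XT.nd (nat_lit 78) (nat_lit 0) (nat_lit 76) (XT.lf (nat_lit 76) (nat_lit 13576719499) (nat_lit 0) (nat_lit 3691406172) (nat_lit 1216) (nat_lit 7290812207) (nat_lit 208) (nat_lit 5) (nat_lit 207) (nat_lit 5) (nat_lit 223) (nat_lit 5) (nat_lit 324) (nat_lit 317) (nat_lit 139)) (XT.lf (nat_lit 76) (nat_lit 628184772) (nat_lit 0) (nat_lit 17771611934) (nat_lit 1216) (nat_lit 6540010462) (nat_lit 209) (nat_lit 5) (nat_lit 208) (nat_lit 5) (nat_lit 224) (nat_lit 5) (nat_lit 325) (nat_lit 317) (nat_lit 138)))) (XT.nd (nat_lit 156) (nat_lit 0) (nat_lit 76) (XT.nd (nat_lit 78) (nat_lit 0) (nat_lit 76) (XT.lf (nat_lit 76) (nat_lit 12771924409) (nat_lit 0) (nat_lit 6936454696) (nat_lit 1216) (nat_lit 5619438835) (nat_lit 209) (nat_lit 5)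 (nat_lit 208) (nat_lit 5) (nat_lit 224) (nat_lit 5) (nat_lit 326) (nat_lit 317) (nat_lit 137)) (XT.lf (nat_lit 0) (nat_lit 21092824814) (nat_lit 1140) (nat_lit 490972743) (nat_lit 1216) (nat_lit 4142577418) (nat_lit 209) (nat_lit 5) (nat_lit 224) (nat_lit 5) (nat_lit 225) (nat_lit 5) (nat_lit 327) (nat_lit 317) (nat_lit 136))) (XT.nd (nat_lit 78) (nat_lit 0) (nat_lit 76) (XT.lf (nat_lit 76) (nat_lit 12100548421) (nat_lit 0) (nat_lit 10599371990) (nat_lit 1216) (nat_lit 3431538813) (nat_lit 210) (nat_lit 5) (nat_lit 209) (nat_lit 5) (nat_lit 225) (nat_lit 5) (nat_lit 328) (nat_lit 317) (nat_lit 135)) (XT.lf (nat_lit 0) (nat_lit 24363321980) (nat_lit 1140) (nat_lit 1478480594) (nat_lit 1216) (nat_lit 706654513) (nat_lit 210) (nat_lit 5) (nat_lit 225) (nat_lit 5) (nat_lit 226) (nat_lit 5) (nat_lit 329) (nat_lit 317) (nat_lit 134))))))) (XT.nd (nat_lit 1092) (nat_lit 3648) (nat_lit 0) (XT.nd (nat_lit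 546) (nat_lit 1748) (nat_lit 0) (XT.nd (nat_lit 234) (nat_lit 608) (nat_lit 0) (XT.nd (nat_lit 78) (nat_lit 1216) (nat_lit 0) (XT.lf (nat_lit 76) (nat_lit 11568510997) (nat_lit 0) (nat_lit 14720589773) (nat_lit 1216) (nat_lit 682493627) (nat_lit 211) (nat_lit 5) (nat_lit 210) (nat_lit 5) (nat_lit 226) (nat_lit 5) (nat_lit 330) (nat_lit 317) (nat_lit 133)) (XT.nd (nat_lit 78) (nat_lit 0) (nat_lit 76) (XT.lf (nat_lit 0) (nat_lit 859789333) (nat_lit 1216) (nat_lit 2381081944) (nat_lit 1292) (nat_lit 24165965211) (nat_lit 194) (nat_lit 5) (nat_lit 210) (nat_lit 5) (nat_lit 211) (nat_lit 5) (nat_lit 331) (nat_lit 317) (nat_lit 132)) (XT.lf (nat_lit 0) (nat_lit 2622808104) (nat_lit 1216) (nat_lit 16694044954) (nat_lit 1292) (nat_lit 8532437965) (nat_lit 195) (nat_lit 5) (nat_lit 211) (nat_lit 5) (nat_lit 212) (nat_lit 5) (nat_lit 332) (nat_lit 317) (nat_lit 131)))) (XT.nd (nat_lit 156) (nat_lit 684) (nat_lit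 0) (XT.nd (nat_lit 78) (nat_lit 0) (nat_lit 76) (XT.lf (nat_lit 0) (nat_lit 4491644746) (nat_lit 1216) (nat_lit 3193011929) (nat_lit 1292) (nat_lit 20618778049) (nat_lit 195) (nat_lit 5) (nat_lit 211) (nat_lit 5) (nat_lit 212) (nat_lit 5) (nat_lit 333) (nat_lit 317) (nat_lit 130)) (XT.lf (nat_lit 0) (nat_lit 6560552288) (nat_lit 1216) (nat_lit 17887072922) (nat_lit 76) (nat_lit 4319260600) (nat_lit 196) (nat_lit 5) (nat_lit 212) (nat_lit 5) (nat_lit 197) (nat_lit 5) (nat_lit 334) (nat_lit 317) (nat_lit 129))) (XT.nd (nat_lit 78) (nat_lit 760) (nat_lit 0) (XT.lf (nat_lit 0) (nat_lit 8796908505) (nat_lit 1216) (nat_lit 3882259659) (nat_lit 76) (nat_lit 16561913977) (nat_lit 196) (nat_lit 5) (nat_lit 212) (nat_lit 5) (nat_lit 197) (nat_lit 5) (nat_lit 335) (nat_lit 317) (nat_lit 128)) (XT.lf (nat_lit 0) (nat_lit 10749688736) (nat_lit 760) (nat_lit 450827741) (nat_lit 836) (nat_lit 18525986116) (nat_lit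 186) (nat_lit 5) (nat_lit 196) (nat_lit 5) (nat_lit 197) (nat_lit 5) (nat_lit 336) (nat_lit 317) (nat_lit 127))))) (XT.nd (nat_lit 234) (nat_lit 1140) (nat_lit 0) (XT.nd (nat_lit 78) (nat_lit 608) (nat_lit 0) (XT.lf (nat_lit 0) (nat_lit 13829460991) (nat_lit 836) (nat_lit 4445105452) (nat_lit 76) (nat_lit 11947325340) (nat_lit 186) (nat_lit 5) (nat_lit 197) (nat_lit 5) (nat_lit 187) (nat_lit 5) (nat_lit 337) (nat_lit 317) (nat_lit 126)) (XT.nd (nat_lit 78) (nat_lit 0) (nat_lit 0) (XT.lf (nat_lit 0) (nat_lit 10724602305) (nat_lit 608) (nat_lit 5917214862) (nat_lit 684) (nat_lit 14087192069) (nat_lit 178) (nat_lit 5) (nat_lit 186) (nat_lit 5) (nat_lit 187) (nat_lit 5) (nat_lit 338) (nat_lit 317) (nat_lit 125)) (XT.lf (nat_lit 0) (nat_lit 19646397143) (nat_lit 684) (nat_lit 4878216707) (nat_lit 76) (nat_lit 6723493573) (nat_lit 178) (nat_lit 5) (nat_lit 187) (nat_lit 5) (nat_lit 179) (nat_lit 5) (nat_lit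 339) (nat_lit 317) (nat_lit 124)))) (XT.nd (nat_lit 156) (nat_lit 608) (nat_lit 0) (XT.nd (nat_lit 78) (nat_lit 0) (nat_lit 0) (XT.lf (nat_lit 0) (nat_lit 10852190547) (nat_lit 532) (nat_lit 12048965737) (nat_lit 608) (nat_lit 8876823738) (nat_lit 171) (nat_lit 5) (nat_lit 178) (nat_lit 5) (nat_lit 179) (nat_lit 5) (nat_lit 340) (nat_lit 317) (nat_lit 123)) (XT.lf (nat_lit 0) (nat_lit 26308201206) (nat_lit 608) (nat_lit 5178757662) (nat_lit 76) (nat_lit 835153285) (nat_lit 171) (nat_lit 5) (nat_lit 179) (nat_lit 5) (nat_lit 172) (nat_lit 5) (nat_lit 341) (nat_lit 317) (nat_lit 122))) (XT.nd (nat_lit 78) (nat_lit 76) (nat_lit 0) (XT.lf (nat_lit 0) (nat_lit 11135964604) (nat_lit 532) (nat_lit 18905112562) (nat_lit 608) (nat_lit 2834785056) (nat_lit 164) (nat_lit 5) (nat_lit 171) (nat_lit 5) (nat_lit 172) (nat_lit 5) (nat_lit 342) (nat_lit 317) (nat_lit 121)) (XT.lf (nat_lit 0) (nat_lit 481249044)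 (nat_lit 608) (nat_lit 5405868497) (nat_lit 76) (nat_lit 27557479420) (nat_lit 163) (nat_lit 5) (nat_lit 171) (nat_lit 5) (nat_lit 164) (nat_lit 5) (nat_lit 343) (nat_lit 317) (nat_lit 120)))))) (XT.nd (nat_lit 546) (nat_lit 1672) (nat_lit 0) (XT.nd (nat_lit 234) (nat_lit 912) (nat_lit 0) (XT.nd (nat_lit 78) (nat_lit 532) (nat_lit 0) (XT.lf (nat_lit 0) (nat_lit 4022492894) (nat_lit 608) (nat_lit 22485895629) (nat_lit 76) (nat_lit 7515684399) (nat_lit 156) (nat_lit 5) (nat_lit 164) (nat_lit 5) (nat_lit 157) (nat_lit 5) (nat_lit 344) (nat_lit 317) (nat_lit 119)) (XT.nd (nat_lit 78) (nat_lit 532) (nat_lit 0) (XT.lf (nat_lit 0) (nat_lit 7780821926) (nat_lit 608) (nat_lit 5579492854) (nat_lit 76) (nat_lit 21257295224) (nat_lit 156) (nat_lit 5) (nat_lit 164) (nat_lit 5) (nat_lit 157) (nat_lit 5) (nat_lit 345) (nat_lit 317) (nat_lit 118)) (XT.lf (nat_lit 0) (nat_lit 11768299146) (nat_lit 608) (nat_lit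 23161526285) (nat_lit 76) (nat_lit 295638032) (nat_lit 149) (nat_lit 5) (nat_lit 157) (nat_lit 5) (nat_lit 150) (nat_lit 5) (nat_lit 346) (nat_lit 317) (nat_lit 117)))) (XT.nd (nat_lit 156) (nat_lit 456) (nat_lit 0) (XT.nd (nat_lit 78) (nat_lit 456) (nat_lit 0) (XT.lf (nat_lit 0) (nat_lit 16062131834) (nat_lit 608) (nat_lit 5634352705) (nat_lit 76) (nat_lit 14149468200) (nat_lit 149) (nat_lit 5) (nat_lit 157) (nat_lit 5) (nat_lit 150) (nat_lit 5) (nat_lit 347) (nat_lit 317) (nat_lit 116)) (XT.lf (nat_lit 0) (nat_lit 12663121228) (nat_lit 456) (nat_lit 7941006301) (nat_lit 532) (nat_lit 15877350809) (nat_lit 143) (nat_lit 5) (nat_lit 149) (nat_lit 5) (nat_lit 150) (nat_lit 5) (nat_lit 348) (nat_lit 317) (nat_lit 115))) (XT.nd (nat_lit 78) (nat_lit 456) (nat_lit 0) (XT.lf (nat_lit 0) (nat_lit 25397365581) (nat_lit 532) (nat_lit 5572428939) (nat_lit 76) (nat_lit 6162827736) (nat_lit 143) (nat_lit 5)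 (nat_lit 150) (nat_lit 5) (nat_lit 144) (nat_lit 5) (nat_lit 349) (nat_lit 317) (nat_lit 114)) (XT.lf (nat_lit 0) (nat_lit 13401174129) (nat_lit 456) (nat_lit 17138402988) (nat_lit 532) (nat_lit 7257570050) (nat_lit 137) (nat_lit 5) (nat_lit 143) (nat_lit 5) (nat_lit 144) (nat_lit 5) (nat_lit 350) (nat_lit 317) (nat_lit 113))))) (XT.nd (nat_lit 312) (nat_lit 760) (nat_lit 0) (XT.nd (nat_lit 156) (nat_lit 456) (nat_lit 0) (XT.nd (nat_lit 78) (nat_lit 456) (nat_lit 0) (XT.lf (nat_lit 0) (nat_lit 33055655658) (nat_lit 456) (nat_lit 2834443636) (nat_lit 532) (nat_lit 2589889111) (nat_lit 137) (nat_lit 5) (nat_lit 143) (nat_lit 5) (nat_lit 144) (nat_lit 5) (nat_lit 351) (nat_lit 317) (nat_lit 112)) (XT.lf (nat_lit 0) (nat_lit 2426475357) (nat_lit 456) (nat_lit 24921471920) (nat_lit 76) (nat_lit 11827171906) (nat_lit 131) (nat_lit 5) (nat_lit 137) (nat_lit 5) (nat_lit 132) (nat_lit 5) (nat_lit 352) (nat_lit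 317) (nat_lit 111))) (XT.nd (nat_lit 78) (nat_lit 456) (nat_lit 0) (XT.lf (nat_lit 0) (nat_lit 7622509214) (nat_lit 456) (nat_lit 5313116595) (nat_lit 76) (nat_lit 26952273569) (nat_lit 131) (nat_lit 5) (nat_lit 137) (nat_lit 5) (nat_lit 132) (nat_lit 5) (nat_lit 353) (nat_lit 317) (nat_lit 110)) (XT.lf (nat_lit 0) (nat_lit 13138021869) (nat_lit 532) (nat_lit 25460384528) (nat_lit 76) (nat_lit 2018750344) (nat_lit 125) (nat_lit 5) (nat_lit 132) (nat_lit 5) (nat_lit 126) (nat_lit 5) (nat_lit 354) (nat_lit 317) (nat_lit 109)))) (XT.nd (nat_lit 156) (nat_lit 380) (nat_lit 0) (XT.nd (nat_lit 78) (nat_lit 380) (nat_lit 0) (XT.lf (nat_lit 0) (nat_lit 18999205664) (nat_lit 532) (nat_lit 5148145020) (nat_lit 76) (nat_lit 17215536614) (nat_lit 125) (nat_lit 5) (nat_lit 132) (nat_lit 5) (nat_lit 126) (nat_lit 5) (nat_lit 355) (nat_lit 317) (nat_lit 108)) (XT.lf (nat_lit 0) (nat_lit 16084881853) (nat_lit 380)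 (nat_lit 9103967629) (nat_lit 456) (nat_lit 16937563155) (nat_lit 120) (nat_lit 5) (nat_lit 125) (nat_lit 5) (nat_lit 126) (nat_lit 5) (nat_lit 356) (nat_lit 317) (nat_lit 107))) (XT.nd (nat_lit 78) (nat_lit 380) (nat_lit 0) (XT.lf (nat_lit 0) (nat_lit 31676151934) (nat_lit 456) (nat_lit 4915284405) (nat_lit 76) (nat_lit 6318049868) (nat_lit 120) (nat_lit 5) (nat_lit 126) (nat_lit 5) (nat_lit 121) (nat_lit 5) (nat_lit 357) (nat_lit 317) (nat_lit 106)) (XT.lf (nat_lit 0) (nat_lit 17085599531) (nat_lit 380) (nat_lit 21524943587) (nat_lit 456) (nat_lit 5097936284) (nat_lit 115) (nat_lit 5) (nat_lit 120) (nat_lit 5) (nat_lit 121) (nat_lit 5) (nat_lit 358) (nat_lit 317) (nat_lit 105))))))))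
noncomputable def xc222 : XT := (XT.nd (nat_lit 2184) (nat_lit 1064) (nat_lit 0) (XT.nd (nat_lit 1092) (nat_lit 1824) (nat_lit 0) (XT.nd (nat_lit 546) (nat_lit 1292) (nat_lit 0) (XT.nd (nat_lit 234) (nat_lit 684) (nat_lit 0) (XT.nd (nat_lit 78) (nat_lit 380) (nat_lit 0) (XT.lf (nat_lit 0) (nat_lit 1245920175) (nat_lit 456) (nat_lit 4697346887) (nat_lit 76) (nat_lit 38586377504) (nat_lit 114) (nat_lit 5) (nat_lit 120) (nat_lit 5) (nat_lit 115) (nat_lit 5) (nat_lit 359) (nat_lit 317) (nat_lit 104)) (XT.nd (nat_lit 78) (nat_lit 0) (nat_lit 0) (XT.lf (nat_lit 0) (nat_lit 7949994692) (nat_lit 456) (nat_lit 27280077747) (nat_lit 76) (nat_lit 10135688411) (nat_lit 109) (nat_lit 5) (nat_lit 115) (nat_lit 5) (nat_lit 110) (nat_lit 5) (nat_lit 360) (nat_lit 317) (nat_lit 103)) (XT.lf (nat_lit 0) (nat_lit 14960127169) (nat_lit 456) (nat_lit 4638741671) (nat_lit 76) (nat_lit 26624945050) (nat_lit 109) (nat_lit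 5) (nat_lit 115) (nat_lit 5) (nat_lit 110) (nat_lit 5) (nat_lit 361) (nat_lit 317) (nat_lit 102)))) (XT.nd (nat_lit 156) (nat_lit 304) (nat_lit 0) (XT.nd (nat_lit 78) (nat_lit 0) (nat_lit 0) (XT.lf (nat_lit 0) (nat_lit 19051277811) (nat_lit 380) (nat_lit 3310658984) (nat_lit 456) (nat_lit 24740231831) (nat_lit 104) (nat_lit 5) (nat_lit 109) (nat_lit 5) (nat_lit 110) (nat_lit 5) (nat_lit 362) (nat_lit 317) (nat_lit 101)) (XT.lf (nat_lit 0) (nat_lit 30160816446) (nat_lit 456) (nat_lit 4590631089) (nat_lit 76) (nat_lit 13250177258) (nat_lit 104) (nat_lit 5) (nat_lit 110) (nat_lit 5) (nat_lit 105) (nat_lit 5) (nat_lit 363) (nat_lit 317) (nat_lit 100))) (XT.nd (nat_lit 78) (nat_lit 0) (nat_lit 0) (XT.lf (nat_lit 0) (nat_lit 19927237198) (nat_lit 304) (nat_lit 18489071865) (nat_lit 380) (nat_lit 10505077410) (nat_lit 100) (nat_lit 5) (nat_lit 104) (nat_lit 5) (nat_lit 105) (nat_lit 5) (nat_lit 364) (nat_lit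 317) (nat_lit 99)) (XT.lf (nat_lit 0) (nat_lit 45272494652) (nat_lit 304) (nat_lit 1691670607) (nat_lit 380) (nat_lit 2903235970) (nat_lit 100) (nat_lit 5) (nat_lit 104) (nat_lit 5) (nat_lit 105) (nat_lit 5) (nat_lit 365) (nat_lit 317) (nat_lit 98))))) (XT.nd (nat_lit 234) (nat_lit 608) (nat_lit 0) (XT.nd (nat_lit 78) (nat_lit 304) (nat_lit 0) (XT.lf (nat_lit 0) (nat_lit 5182249171) (nat_lit 380) (nat_lit 30092438143) (nat_lit 76) (nat_lit 15555137734) (nat_lit 95) (nat_lit 5) (nat_lit 100) (nat_lit 5) (nat_lit 96) (nat_lit 5) (nat_lit 366) (nat_lit 317) (nat_lit 97)) (XT.nd (nat_lit 78) (nat_lit 304) (nat_lit 0) (XT.lf (nat_lit 0) (nat_lit 13513949024) (nat_lit 380) (nat_lit 4944082722) (nat_lit 76) (nat_lit 33360368505) (nat_lit 95) (nat_lit 5) (nat_lit 100) (nat_lit 5) (nat_lit 96) (nat_lit 5) (nat_lit 367) (nat_lit 317) (nat_lit 96)) (XT.lf (nat_lit 0) (nat_lit 21373625135) (nat_lit 304) (nat_lit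 925872032) (nat_lit 380) (nat_lit 30531019681) (nat_lit 91) (nat_lit 5) (nat_lit 95) (nat_lit 5) (nat_lit 96) (nat_lit 5) (nat_lit 368) (nat_lit 317) (nat_lit 95)))) (XT.nd (nat_lit 156) (nat_lit 304) (nat_lit 0) (XT.nd (nat_lit 78) (nat_lit 304) (nat_lit 0) (XT.lf (nat_lit 0) (nat_lit 31562176996) (nat_lit 380) (nat_lit 5456660527) (nat_lit 76) (nat_lit 16847753489) (nat_lit 91) (nat_lit 5) (nat_lit 96) (nat_lit 5) (nat_lit 92) (nat_lit 5) (nat_lit 369) (nat_lit 317) (nat_lit 94)) (XT.lf (nat_lit 0) (nat_lit 21736436197) (nat_lit 304) (nat_lit 19582916553) (nat_lit 380) (nat_lit 13607897181) (nat_lit 87) (nat_lit 5) (nat_lit 91) (nat_lit 5) (nat_lit 92) (nat_lit 5) (nat_lit 370) (nat_lit 317) (nat_lit 93))) (XT.nd (nat_lit 78) (nat_lit 304) (nat_lit 0) (XT.lf (nat_lit 0) (nat_lit 49855072393) (nat_lit 304) (nat_lit 1567800792) (nat_lit 380) (nat_lit 4595247517) (nat_lit 87) (nat_lit 5) (nat_lit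 91) (nat_lit 5) (nat_lit 92) (nat_lit 5) (nat_lit 371) (nat_lit 317) (nat_lit 92)) (XT.lf (nat_lit 0) (nat_lit 4972741341) (nat_lit 304) (nat_lit 35241026822) (nat_lit 76) (nat_lit 16915305435) (nat_lit 83) (nat_lit 5) (nat_lit 87) (nat_lit 5) (nat_lit 84) (nat_lit 5) (nat_lit 372) (nat_lit 317) (nat_lit 91)))))) (XT.nd (nat_lit 546) (nat_lit 988) (nat_lit 0) (XT.nd (nat_lit 234) (nat_lit 532) (nat_lit 0) (XT.nd (nat_lit 78) (nat_lit 304) (nat_lit 0) (XT.lf (nat_lit 0) (nat_lit 14812355437) (nat_lit 304) (nat_lit 7428208241) (nat_lit 76) (nat_lit 36029118998) (nat_lit 83) (nat_lit 5) (nat_lit 87) (nat_lit 5) (nat_lit 84) (nat_lit 5) (nat_lit 373) (nat_lit 317) (nat_lit 90)) (XT.nd (nat_lit 78) (nat_lit 0) (nat_lit 0) (XT.lf (nat_lit 0) (nat_lit 21639220137) (nat_lit 304) (nat_lit 3514560663) (nat_lit 380) (nat_lit 34284531400) (nat_lit 79) (nat_lit 5) (nat_lit 83) (nat_lit 5) (nat_lit 84) (nat_lit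 5) (nat_lit 374) (nat_lit 317) (nat_lit 89)) (XT.lf (nat_lit 0) (nat_lit 36031452020) (nat_lit 380) (nat_lit 9063221998) (nat_lit 76) (nat_lit 15540547333) (nat_lit 79) (nat_lit 5) (nat_lit 84) (nat_lit 5) (nat_lit 80) (nat_lit 5) (nat_lit 375) (nat_lit 317) (nat_lit 88)))) (XT.nd (nat_lit 156) (nat_lit 304) (nat_lit 0) (XT.nd (nat_lit 78) (nat_lit 0) (nat_lit 0) (XT.lf (nat_lit 0) (nat_lit 20905885852) (nat_lit 228) (nat_lit 26563993490) (nat_lit 304) (nat_lit 14391126466) (nat_lit 76) (nat_lit 5) (nat_lit 79) (nat_lit 5) (nat_lit 80) (nat_lit 5) (nat_lit 376) (nat_lit 317) (nat_lit 87)) (XT.lf (nat_lit 0) (nat_lit 51957883794) (nat_lit 228) (nat_lit 7383784486) (nat_lit 304) (nat_lit 3779190041) (nat_lit 76) (nat_lit 5) (nat_lit 79) (nat_lit 5) (nat_lit 80) (nat_lit 5) (nat_lit 377) (nat_lit 317) (nat_lit 86))) (XT.nd (nat_lit 78) (nat_lit 0) (nat_lit 0) (XT.lf (nat_lit 0) (nat_lit 7322470070)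 (nat_lit 304) (nat_lit 44692857217) (nat_lit 76) (nat_lit 12391790357) (nat_lit 72) (nat_lit 5) (nat_lit 76) (nat_lit 5) (nat_lit 73) (nat_lit 5) (nat_lit 378) (nat_lit 317) (nat_lit 85)) (XT.lf (nat_lit 0) (nat_lit 18866894658) (nat_lit 304) (nat_lit 14095533899) (nat_lit 76) (nat_lit 32762844199) (nat_lit 72) (nat_lit 5) (nat_lit 76) (nat_lit 5) (nat_lit 73) (nat_lit 5) (nat_lit 379) (nat_lit 317) (nat_lit 84))))) (XT.nd (nat_lit 234) (nat_lit 532) (nat_lit 0) (XT.nd (nat_lit 78) (nat_lit 228) (nat_lit 0) (XT.lf (nat_lit 0) (nat_lit 17764461869) (nat_lit 228) (nat_lit 13162715744) (nat_lit 304) (nat_lit 36150709838) (nat_lit 69) (nat_lit 5) (nat_lit 72) (nat_lit 5) (nat_lit 73) (nat_lit 5) (nat_lit 380) (nat_lit 317) (nat_lit 83)) (XT.nd (nat_lit 78) (nat_lit 228) (nat_lit 0) (XT.lf (nat_lit 0) (nat_lit 43561298695) (nat_lit 304) (nat_lit 17670434525) (nat_lit 76) (nat_lit 7232987156) (nat_lit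 69) (nat_lit 5) (nat_lit 73) (nat_lit 5) (nat_lit 70) (nat_lit 5) (nat_lit 381) (nat_lit 317) (nat_lit 82)) (XT.lf (nat_lit 0) (nat_lit 15084013124) (nat_lit 228) (nat_lit 41764561082) (nat_lit 304) (nat_lit 13036360818) (nat_lit 66) (nat_lit 5) (nat_lit 69) (nat_lit 5) (nat_lit 70) (nat_lit 5) (nat_lit 382) (nat_lit 317) (nat_lit 81)))) (XT.nd (nat_lit 156) (nat_lit 228) (nat_lit 0) (XT.nd (nat_lit 78) (nat_lit 304) (nat_lit 0) (XT.lf (nat_lit 0) (nat_lit 49181486301) (nat_lit 228) (nat_lit 21530245560) (nat_lit 304) (nat_lit 630706972) (nat_lit 66) (nat_lit 5) (nat_lit 69) (nat_lit 5) (nat_lit 70) (nat_lit 5) (nat_lit 383) (nat_lit 317) (nat_lit 80)) (XT.lf (nat_lit 0) (nat_lit 11565327032) (nat_lit 228) (nat_lit 454777876) (nat_lit 304) (nat_lit 60816759815) (nat_lit 62) (nat_lit 5) (nat_lit 65) (nat_lit 5) (nat_lit 66) (nat_lit 5) (nat_lit 384) (nat_lit 317) (nat_lit 79))) (XT.nd (nat_lit 78)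 (nat_lit 228) (nat_lit 0) (XT.lf (nat_lit 0) (nat_lit 25466918267) (nat_lit 304) (nat_lit 27826309024) (nat_lit 76) (nat_lit 21069834733) (nat_lit 62) (nat_lit 5) (nat_lit 66) (nat_lit 5) (nat_lit 63) (nat_lit 5) (nat_lit 385) (nat_lit 317) (nat_lit 78)) (XT.lf (nat_lit 0) (nat_lit 6747683019) (nat_lit 228) (nat_lit 32637711313) (nat_lit 304) (nat_lit 36547603730) (nat_lit 59) (nat_lit 5) (nat_lit 62) (nat_lit 5) (nat_lit 63) (nat_lit 5) (nat_lit 386) (nat_lit 317) (nat_lit 77))))))) (XT.nd (nat_lit 35412) (nat_lit 0) (nat_lit 11324) (XT.nd (nat_lit 546) (nat_lit 456) (nat_lit 0) (XT.nd (nat_lit 234) (nat_lit 380) (nat_lit 0) (XT.nd (nat_lit 78) (nat_lit 228) (nat_lit 0) (XT.lf (nat_lit 0) (nat_lit 42927561824) (nat_lit 228) (nat_lit 11073762191) (nat_lit 304) (nat_lit 23540311739) (nat_lit 59) (nat_lit 5) (nat_lit 62) (nat_lit 5) (nat_lit 63) (nat_lit 5) (nat_lit 387) (nat_lit 317) (nat_lit 76))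 (XT.nd (nat_lit 78) (nat_lit 76) (nat_lit 0) (XT.lf (nat_lit 0) (nat_lit 903151006) (nat_lit 152) (nat_lit 68267252773) (nat_lit 228) (nat_lit 10024689168) (nat_lit 57) (nat_lit 5) (nat_lit 59) (nat_lit 5) (nat_lit 60) (nat_lit 5) (nat_lit 388) (nat_lit 317) (nat_lit 75)) (XT.lf (nat_lit 0) (nat_lit 4281943098) (nat_lit 228) (nat_lit 42844502349) (nat_lit 76) (nat_lit 33756738059) (nat_lit 56) (nat_lit 5) (nat_lit 59) (nat_lit 5) (nat_lit 57) (nat_lit 5) (nat_lit 389) (nat_lit 317) (nat_lit 74)))) (XT.nd (nat_lit 156) (nat_lit 152) (nat_lit 0) (XT.nd (nat_lit 78) (nat_lit 228) (nat_lit 0) (XT.lf (nat_lit 0) (nat_lit 18815256584) (nat_lit 228) (nat_lit 6434568915) (nat_lit 76) (nat_lit 57369145084) (nat_lit 56) (nat_lit 5) (nat_lit 59) (nat_lit 5) (nat_lit 57) (nat_lit 5) (nat_lit 390) (nat_lit 317) (nat_lit 73)) (XT.lf (nat_lit 0) (nat_lit 31684311344) (nat_lit 228) (nat_lit 2403825732) (nat_lit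 304) (nat_lit 50309587645) (nat_lit 53) (nat_lit 5) (nat_lit 56) (nat_lit 5) (nat_lit 57) (nat_lit 5) (nat_lit 391) (nat_lit 317) (nat_lit 72))) (XT.nd (nat_lit 78) (nat_lit 152) (nat_lit 0) (XT.lf (nat_lit 0) (nat_lit 50086921143) (nat_lit 304) (nat_lit 15354600504) (nat_lit 76) (nat_lit 20780288784) (nat_lit 53) (nat_lit 5) (nat_lit 57) (nat_lit 5) (nat_lit 54) (nat_lit 5) (nat_lit 392) (nat_lit 317) (nat_lit 71)) (XT.lf (nat_lit 0) (nat_lit 23559316856) (nat_lit 152) (nat_lit 43255653961) (nat_lit 228) (nat_lit 21278169281) (nat_lit 51) (nat_lit 5) (nat_lit 53) (nat_lit 5) (nat_lit 54) (nat_lit 5) (nat_lit 393) (nat_lit 317) (nat_lit 70))))) (XT.nd (nat_lit 234) (nat_lit 152) (nat_lit 0) (XT.nd (nat_lit 78) (nat_lit 304) (nat_lit 0) (XT.lf (nat_lit 0) (nat_lit 63953834777) (nat_lit 152) (nat_lit 20245126822) (nat_lit 228) (nat_lit 5817025502) (nat_lit 51) (nat_lit 5) (nat_lit 53) (nat_lit 5)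 (nat_lit 54) (nat_lit 5) (nat_lit 394) (nat_lit 317) (nat_lit 69)) (XT.nd (nat_lit 78) (nat_lit 0) (nat_lit 0) (XT.lf (nat_lit 0) (nat_lit 10077267488) (nat_lit 304) (nat_lit 78292214796) (nat_lit 76) (nat_lit 3619126002) (nat_lit 47) (nat_lit 5) (nat_lit 51) (nat_lit 5) (nat_lit 48) (nat_lit 5) (nat_lit 395) (nat_lit 317) (nat_lit 68)) (XT.lf (nat_lit 0) (nat_lit 26796775024) (nat_lit 304) (nat_lit 39092766864) (nat_lit 76) (nat_lit 28115179721) (nat_lit 47) (nat_lit 5) (nat_lit 51) (nat_lit 5) (nat_lit 48) (nat_lit 5) (nat_lit 396) (nat_lit 317) (nat_lit 67)))) (XT.nd (nat_lit 34476) (nat_lit 0) (nat_lit 12160) (XT.nd (nat_lit 78) (nat_lit 0) (nat_lit 0) (XT.lf (nat_lit 0) (nat_lit 1306655767) (nat_lit 152) (nat_lit 42722872454) (nat_lit 228) (nat_lit 52051440686) (nat_lit 45) (nat_lit 5) (nat_lit 47) (nat_lit 5) (nat_lit 48) (nat_lit 5) (nat_lit 397) (nat_lit 317) (nat_lit 66)) (XT.lf (nat_lit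 0) (nat_lit 43717932942) (nat_lit 152) (nat_lit 18455203300) (nat_lit 228) (nat_lit 36034551591) (nat_lit 45) (nat_lit 5) (nat_lit 47) (nat_lit 5) (nat_lit 48) (nat_lit 5) (nat_lit 398) (nat_lit 317) (nat_lit 65))) (XT.nd (nat_lit 78) (nat_lit 0) (nat_lit 0) (XT.lf (nat_lit 0) (nat_lit 3286180895) (nat_lit 0) (nat_lit 3286180895) (nat_lit 1140) (nat_lit 4814054135) (nat_lit 205) (nat_lit 5) (nat_lit 205) (nat_lit 3) (nat_lit 220) (nat_lit 3) (nat_lit 318) (nat_lit 318) (nat_lit 144)) (XT.lf (nat_lit 0) (nat_lit 13501091074) (nat_lit 1140) (nat_lit 5788297263) (nat_lit 1216) (nat_lit 3820134149) (nat_lit 205) (nat_lit 5) (nat_lit 220) (nat_lit 3) (nat_lit 221) (nat_lit 5) (nat_lit 319) (nat_lit 318) (nat_lit 143)))))) (XT.nd (nat_lit 546) (nat_lit 836) (nat_lit 0) (XT.nd (nat_lit 234) (nat_lit 0) (nat_lit 76) (XT.nd (nat_lit 78) (nat_lit 0) (nat_lit 76) (XT.lf (nat_lit 76) (nat_lit 4965516988) (nat_lit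 0) (nat_lit 9010708573) (nat_lit 1216) (nat_lit 9476850914) (nat_lit 206) (nat_lit 5) (nat_lit 205) (nat_lit 5) (nat_lit 221) (nat_lit 5) (nat_lit 320) (nat_lit 318) (nat_lit 142)) (XT.nd (nat_lit 78) (nat_lit 0) (nat_lit 0) (XT.lf (nat_lit 0) (nat_lit 14535201031) (nat_lit 1140) (nat_lit 7662999219) (nat_lit 1216) (nat_lit 1606653998) (nat_lit 206) (nat_lit 5) (nat_lit 221) (nat_lit 5) (nat_lit 222) (nat_lit 5) (nat_lit 321) (nat_lit 318) (nat_lit 141)) (XT.lf (nat_lit 76) (nat_lit 3462033496) (nat_lit 0) (nat_lit 11766945335) (nat_lit 1216) (nat_lit 8934670164) (nat_lit 207) (nat_lit 5) (nat_lit 206) (nat_lit 5) (nat_lit 222) (nat_lit 5) (nat_lit 322) (nat_lit 318) (nat_lit 140)))) (XT.nd (nat_lit 156) (nat_lit 0) (nat_lit 76) (XT.nd (nat_lit 78) (nat_lit 0) (nat_lit 76) (XT.lf (nat_lit 76) (nat_lit 15075320546) (nat_lit 0) (nat_lit 941274759) (nat_lit 1216) (nat_lit 8514426018) (nat_lit 207)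 (nat_lit 5) (nat_lit 206) (nat_lit 5) (nat_lit 222) (nat_lit 5) (nat_lit 323) (nat_lit 318) (nat_lit 139)) (XT.lf (nat_lit 76) (nat_lit 2067138698) (nat_lit 0) (nat_lit 14874496437) (nat_lit 1216) (nat_lit 7964370205) (nat_lit 208) (nat_lit 5) (nat_lit 207) (nat_lit 5) (nat_lit 223) (nat_lit 5) (nat_lit 324) (nat_lit 318) (nat_lit 138))) (XT.nd (nat_lit 78) (nat_lit 0) (nat_lit 76) (XT.lf (nat_lit 76) (nat_lit 14117363676) (nat_lit 0) (nat_lit 3877659658) (nat_lit 1216) (nat_lit 7294201870) (nat_lit 208) (nat_lit 5) (nat_lit 207) (nat_lit 5) (nat_lit 223) (nat_lit 5) (nat_lit 325) (nat_lit 318) (nat_lit 137)) (XT.lf (nat_lit 76) (nat_lit 786201644) (nat_lit 0) (nat_lit 18368992814) (nat_lit 1216) (nat_lit 6526495884) (nat_lit 209) (nat_lit 5) (nat_lit 208) (nat_lit 5) (nat_lit 224) (nat_lit 5) (nat_lit 326) (nat_lit 318) (nat_lit 136))))) (XT.nd (nat_lit 312) (nat_lit 1064) (nat_lit 0) (XT.nd (nat_lit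 156) (nat_lit 0) (nat_lit 76) (XT.nd (nat_lit 78) (nat_lit 0) (nat_lit 76) (XT.lf (nat_lit 76) (nat_lit 13290199936) (nat_lit 0) (nat_lit 7206910009) (nat_lit 1216) (nat_lit 5584415309) (nat_lit 209) (nat_lit 5) (nat_lit 208) (nat_lit 5) (nat_lit 224) (nat_lit 5) (nat_lit 327) (nat_lit 318) (nat_lit 135)) (XT.lf (nat_lit 0) (nat_lit 21916755198) (nat_lit 1140) (nat_lit 367988841) (nat_lit 1216) (nat_lit 4207490885) (nat_lit 209) (nat_lit 5) (nat_lit 224) (nat_lit 5) (nat_lit 225) (nat_lit 5) (nat_lit 328) (nat_lit 318) (nat_lit 134))) (XT.nd (nat_lit 78) (nat_lit 0) (nat_lit 76) (XT.lf (nat_lit 76) (nat_lit 12599927830) (nat_lit 0) (nat_lit 10967879288) (nat_lit 1216) (nat_lit 3341798014) (nat_lit 210) (nat_lit 5) (nat_lit 209) (nat_lit 5) (nat_lit 225) (nat_lit 5) (nat_lit 329) (nat_lit 318) (nat_lit 133)) (XT.lf (nat_lit 0) (nat_lit 25275195820) (nat_lit 1140) (nat_lit 1384343251) (nat_lit 1216)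 (nat_lit 679756876) (nat_lit 210) (nat_lit 5) (nat_lit 225) (nat_lit 5) (nat_lit 226) (nat_lit 5) (nat_lit 330) (nat_lit 318) (nat_lit 132)))) (XT.nd (nat_lit 156) (nat_lit 0) (nat_lit 76) (XT.nd (nat_lit 78) (nat_lit 1216) (nat_lit 0) (XT.lf (nat_lit 76) (nat_lit 12052700326) (nat_lit 0) (nat_lit 15202094772) (nat_lit 1216) (nat_lit 520456272) (nat_lit 211) (nat_lit 5) (nat_lit 210) (nat_lit 5) (nat_lit 226) (nat_lit 5) (nat_lit 331) (nat_lit 318) (nat_lit 131)) (XT.lf (nat_lit 0) (nat_lit 1059321551) (nat_lit 1216) (nat_lit 2315746985) (nat_lit 1292) (nat_lit 24848591015) (nat_lit 194) (nat_lit 5) (nat_lit 210) (nat_lit 5) (nat_lit 211) (nat_lit 5) (nat_lit 332) (nat_lit 318) (nat_lit 130))) (XT.nd (nat_lit 78) (nat_lit 0) (nat_lit 0) (XT.lf (nat_lit 0) (nat_lit 2871140194) (nat_lit 1216) (nat_lit 17053843267) (nat_lit 1292) (nat_lit 8754531931) (nat_lit 195) (nat_lit 5) (nat_lit 211) (nat_lit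 5) (nat_lit 212) (nat_lit 5) (nat_lit 333) (nat_lit 318) (nat_lit 129)) (XT.lf (nat_lit 0) (nat_lit 4791100735) (nat_lit 1216) (nat_lit 3151886718) (nat_lit 1292) (nat_lit 21204448989) (nat_lit 195) (nat_lit 5) (nat_lit 211) (nat_lit 5) (nat_lit 212) (nat_lit 5) (nat_lit 334) (nat_lit 318) (nat_lit 128))))))))
noncomputable def xc223 : XT := (XT.nd (nat_lit 2184) (nat_lit 4028) (nat_lit 0) (XT.nd (nat_lit 1092) (nat_lit 3040) (nat_lit 0) (XT.nd (nat_lit 546) (nat_lit 1672) (nat_lit 0) (XT.nd (nat_lit 234) (nat_lit 1140) (nat_lit 0) (XT.nd (nat_lit 78) (nat_lit 760) (nat_lit 0) (XT.lf (nat_lit 0) (nat_lit 6918334975) (nat_lit 1216) (nat_lit 18282873552) (nat_lit 76) (nat_lit 4423699414) (nat_lit 196) (nat_lit 5) (nat_lit 212) (nat_lit 5) (nat_lit 197) (nat_lit 5) (nat_lit 335) (nat_lit 318) (nat_lit 127)) (XT.nd (nat_lit 78) (nat_lit 760) (nat_lit 0) (XT.lf (nat_lit 0) (nat_lit 9217093545) (nat_lit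 1216) (nat_lit 3862017199) (nat_lit 76) (nat_lit 17034364596) (nat_lit 196) (nat_lit 5) (nat_lit 212) (nat_lit 5) (nat_lit 197) (nat_lit 5) (nat_lit 336) (nat_lit 318) (nat_lit 126)) (XT.lf (nat_lit 0) (nat_lit 11207549352) (nat_lit 760) (nat_lit 482009883) (nat_lit 836) (nat_lit 18924001082) (nat_lit 186) (nat_lit 5) (nat_lit 196) (nat_lit 5) (nat_lit 197) (nat_lit 5) (nat_lit 337) (nat_lit 318) (nat_lit 125)))) (XT.nd (nat_lit 156) (nat_lit 532) (nat_lit 0) (XT.nd (nat_lit 78) (nat_lit 608) (nat_lit 0) (XT.lf (nat_lit 0) (nat_lit 14392750190) (nat_lit 836) (nat_lit 4442267314) (nat_lit 76) (nat_lit 12288936603) (nat_lit 186) (nat_lit 5) (nat_lit 197) (nat_lit 5) (nat_lit 187) (nat_lit 5) (nat_lit 338) (nat_lit 318) (nat_lit 124)) (XT.lf (nat_lit 0) (nat_lit 11181196467) (nat_lit 608) (nat_lit 6105254417) (nat_lit 684) (nat_lit 14359929129) (nat_lit 178) (nat_lit 5) (nat_lit 186) (nat_lit 5) (nat_lit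 187) (nat_lit 5) (nat_lit 339) (nat_lit 318) (nat_lit 123))) (XT.nd (nat_lit 78) (nat_lit 532) (nat_lit 0) (XT.lf (nat_lit 0) (nat_lit 20376835706) (nat_lit 684) (nat_lit 4889168308) (nat_lit 76) (nat_lit 6915181131) (nat_lit 178) (nat_lit 5) (nat_lit 187) (nat_lit 5) (nat_lit 179) (nat_lit 5) (nat_lit 340) (nat_lit 318) (nat_lit 122)) (XT.lf (nat_lit 0) (nat_lit 11311823763) (nat_lit 532) (nat_lit 12414594442) (nat_lit 608) (nat_lit 9000624206) (nat_lit 171) (nat_lit 5) (nat_lit 178) (nat_lit 5) (nat_lit 179) (nat_lit 5) (nat_lit 341) (nat_lit 318) (nat_lit 121))))) (XT.nd (nat_lit 234) (nat_lit 1064) (nat_lit 0) (XT.nd (nat_lit 78) (nat_lit 608) (nat_lit 0) (XT.lf (nat_lit 0) (nat_lit 27231609617) (nat_lit 608) (nat_lit 5199766511) (nat_lit 76) (nat_lit 856248114) (nat_lit 171) (nat_lit 5) (nat_lit 179) (nat_lit 5) (nat_lit 172) (nat_lit 5) (nat_lit 342) (nat_lit 318) (nat_lit 120)) (XT.nd (nat_lit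 78) (nat_lit 76) (nat_lit 0) (XT.lf (nat_lit 0) (nat_lit 11603080228) (nat_lit 532) (nat_lit 19470762816) (nat_lit 608) (nat_lit 2784226316) (nat_lit 164) (nat_lit 5) (nat_lit 171) (nat_lit 5) (nat_lit 172) (nat_lit 5) (nat_lit 343) (nat_lit 318) (nat_lit 119)) (XT.lf (nat_lit 0) (nat_lit 624770207) (nat_lit 608) (nat_lit 5436198026) (nat_lit 76) (nat_lit 28382978450) (nat_lit 163) (nat_lit 5) (nat_lit 171) (nat_lit 5) (nat_lit 164) (nat_lit 5) (nat_lit 344) (nat_lit 318) (nat_lit 118)))) (XT.nd (nat_lit 156) (nat_lit 532) (nat_lit 0) (XT.nd (nat_lit 78) (nat_lit 0) (nat_lit 0) (XT.lf (nat_lit 0) (nat_lit 4269784827) (nat_lit 608) (nat_lit 23026047119) (nat_lit 76) (nat_lit 7745052341) (nat_lit 156) (nat_lit 5) (nat_lit 164) (nat_lit 5) (nat_lit 157) (nat_lit 5) (nat_lit 345) (nat_lit 318) (nat_lit 117)) (XT.lf (nat_lit 0) (nat_lit 8137175853) (nat_lit 608) (nat_lit 5616367562) (nat_lit 76) (nat_lit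 21898797975) (nat_lit 156) (nat_lit 5) (nat_lit 164) (nat_lit 5) (nat_lit 157) (nat_lit 5) (nat_lit 346) (nat_lit 318) (nat_lit 116))) (XT.nd (nat_lit 78) (nat_lit 0) (nat_lit 0) (XT.lf (nat_lit 0) (nat_lit 12242022216) (nat_lit 608) (nat_lit 23723500963) (nat_lit 76) (nat_lit 312978104) (nat_lit 149) (nat_lit 5) (nat_lit 157) (nat_lit 5) (nat_lit 150) (nat_lit 5) (nat_lit 347) (nat_lit 318) (nat_lit 115)) (XT.lf (nat_lit 0) (nat_lit 16661155106) (nat_lit 608) (nat_lit 5674382208) (nat_lit 76) (nat_lit 14582176450) (nat_lit 149) (nat_lit 5) (nat_lit 157) (nat_lit 5) (nat_lit 150) (nat_lit 5) (nat_lit 348) (nat_lit 318) (nat_lit 114)))))) (XT.nd (nat_lit 546) (nat_lit 1216) (nat_lit 0) (XT.nd (nat_lit 234) (nat_lit 912) (nat_lit 0) (XT.nd (nat_lit 78) (nat_lit 456) (nat_lit 0) (XT.lf (nat_lit 0) (nat_lit 13170751226) (nat_lit 456) (nat_lit 8166474918) (nat_lit 532) (nat_lit 16235147517) (nat_lit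 143) (nat_lit 5) (nat_lit 149) (nat_lit 5) (nat_lit 150) (nat_lit 5) (nat_lit 349) (nat_lit 318) (nat_lit 113)) (XT.nd (nat_lit 78) (nat_lit 456) (nat_lit 0) (XT.lf (nat_lit 0) (nat_lit 26271031656) (nat_lit 532) (nat_lit 5612259364) (nat_lit 76) (nat_lit 6359860673) (nat_lit 143) (nat_lit 5) (nat_lit 150) (nat_lit 5) (nat_lit 144) (nat_lit 5) (nat_lit 350) (nat_lit 318) (nat_lit 112)) (XT.lf (nat_lit 0) (nat_lit 13929303341) (nat_lit 456) (nat_lit 17636163578) (nat_lit 532) (nat_lit 7362209532) (nat_lit 137) (nat_lit 5) (nat_lit 143) (nat_lit 5) (nat_lit 144) (nat_lit 5) (nat_lit 351) (nat_lit 318) (nat_lit 111)))) (XT.nd (nat_lit 156) (nat_lit 456) (nat_lit 0) (XT.nd (nat_lit 78) (nat_lit 456) (nat_lit 0) (XT.lf (nat_lit 0) (nat_lit 34169746675) (nat_lit 456) (nat_lit 2903562868) (nat_lit 532) (nat_lit 2557791979) (nat_lit 137) (nat_lit 5) (nat_lit 143) (nat_lit 5) (nat_lit 144) (nat_lit 5) (nat_lit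 352) (nat_lit 318) (nat_lit 110)) (XT.lf (nat_lit 0) (nat_lit 2605142376) (nat_lit 456) (nat_lit 25542598952) (nat_lit 76) (nat_lit 12199369174) (nat_lit 131) (nat_lit 5) (nat_lit 137) (nat_lit 5) (nat_lit 132) (nat_lit 5) (nat_lit 353) (nat_lit 318) (nat_lit 109))) (XT.nd (nat_lit 78) (nat_lit 456) (nat_lit 0) (XT.lf (nat_lit 0) (nat_lit 7953973576) (nat_lit 456) (nat_lit 5349677932) (nat_lit 76) (nat_lit 27777717612) (nat_lit 131) (nat_lit 5) (nat_lit 137) (nat_lit 5) (nat_lit 132) (nat_lit 5) (nat_lit 354) (nat_lit 318) (nat_lit 108)) (XT.lf (nat_lit 0) (nat_lit 13633325547) (nat_lit 532) (nat_lit 26099656706) (nat_lit 76) (nat_lit 2099573167) (nat_lit 125) (nat_lit 5) (nat_lit 132) (nat_lit 5) (nat_lit 126) (nat_lit 5) (nat_lit 355) (nat_lit 318) (nat_lit 107))))) (XT.nd (nat_lit 234) (nat_lit 836) (nat_lit 0) (XT.nd (nat_lit 78) (nat_lit 380) (nat_lit 0) (XT.lf (nat_lit 0) (nat_lit 19667398359)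 (nat_lit 532) (nat_lit 5181677372) (nat_lit 76) (nat_lit 17751672920) (nat_lit 125) (nat_lit 5) (nat_lit 132) (nat_lit 5) (nat_lit 126) (nat_lit 5) (nat_lit 356) (nat_lit 318) (nat_lit 106)) (XT.nd (nat_lit 78) (nat_lit 0) (nat_lit 0) (XT.lf (nat_lit 0) (nat_lit 16687154896) (nat_lit 380) (nat_lit 9353866806) (nat_lit 456) (nat_lit 17346211637) (nat_lit 120) (nat_lit 5) (nat_lit 125) (nat_lit 5) (nat_lit 126) (nat_lit 5) (nat_lit 357) (nat_lit 318) (nat_lit 105)) (XT.lf (nat_lit 0) (nat_lit 32720349054) (nat_lit 456) (nat_lit 4943835111) (nat_lit 76) (nat_lit 6529695003) (nat_lit 120) (nat_lit 5) (nat_lit 126) (nat_lit 5) (nat_lit 121) (nat_lit 5) (nat_lit 358) (nat_lit 318) (nat_lit 104)))) (XT.nd (nat_lit 156) (nat_lit 380) (nat_lit 0) (XT.nd (nat_lit 78) (nat_lit 76) (nat_lit 0) (XT.lf (nat_lit 0) (nat_lit 17715909581) (nat_lit 380) (nat_lit 22145258883) (nat_lit 456) (nat_lit 5155723962) (nat_lit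 115) (nat_lit 5) (nat_lit 120) (nat_lit 5) (nat_lit 121) (nat_lit 5) (nat_lit 359) (nat_lit 318) (nat_lit 103)) (XT.lf (nat_lit 0) (nat_lit 1373874172) (nat_lit 456) (nat_lit 4722084015) (nat_lit 76) (nat_lit 39766790476) (nat_lit 114) (nat_lit 5) (nat_lit 120) (nat_lit 5) (nat_lit 115) (nat_lit 5) (nat_lit 360) (nat_lit 318) (nat_lit 102))) (XT.nd (nat_lit 78) (nat_lit 0) (nat_lit 0) (XT.lf (nat_lit 0) (nat_lit 8277788582) (nat_lit 456) (nat_lit 27980948489) (nat_lit 76) (nat_lit 10465251815) (nat_lit 109) (nat_lit 5) (nat_lit 115) (nat_lit 5) (nat_lit 110) (nat_lit 5) (nat_lit 361) (nat_lit 318) (nat_lit 101)) (XT.lf (nat_lit 0) (nat_lit 15495624235) (nat_lit 456) (nat_lit 4663795581) (nat_lit 76) (nat_lit 27448443646) (nat_lit 109) (nat_lit 5) (nat_lit 115) (nat_lit 5) (nat_lit 110) (nat_lit 5) (nat_lit 362) (nat_lit 318) (nat_lit 100))))))) (XT.nd (nat_lit 1092) (nat_lit 1748) (nat_lit 0) (XT.nd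 (nat_lit 546) (nat_lit 912) (nat_lit 0) (XT.nd (nat_lit 234) (nat_lit 684) (nat_lit 0) (XT.nd (nat_lit 78) (nat_lit 304) (nat_lit 0) (XT.lf (nat_lit 0) (nat_lit 19735805777) (nat_lit 380) (nat_lit 3382243452) (nat_lit 456) (nat_lit 25394564643) (nat_lit 104) (nat_lit 5) (nat_lit 109) (nat_lit 5) (nat_lit 110) (nat_lit 5) (nat_lit 363) (nat_lit 318) (nat_lit 99)) (XT.nd (nat_lit 78) (nat_lit 304) (nat_lit 0) (XT.lf (nat_lit 0) (nat_lit 31148670978) (nat_lit 456) (nat_lit 4616366687) (nat_lit 76) (nat_lit 13674084600) (nat_lit 104) (nat_lit 5) (nat_lit 110) (nat_lit 5) (nat_lit 105) (nat_lit 5) (nat_lit 364) (nat_lit 318) (nat_lit 98)) (XT.lf (nat_lit 0) (nat_lit 20635939773) (nat_lit 304) (nat_lit 19014536149) (nat_lit 380) (nat_lit 10736043206) (nat_lit 100) (nat_lit 5) (nat_lit 104) (nat_lit 5) (nat_lit 105) (nat_lit 5) (nat_lit 365) (nat_lit 318) (nat_lit 97)))) (XT.nd (nat_lit 156) (nat_lit 304)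 (nat_lit 0) (XT.nd (nat_lit 78) (nat_lit 380) (nat_lit 0) (XT.lf (nat_lit 0) (nat_lit 46738325277) (nat_lit 304) (nat_lit 1714063568) (nat_lit 380) (nat_lit 2908598558) (nat_lit 100) (nat_lit 5) (nat_lit 104) (nat_lit 5) (nat_lit 105) (nat_lit 5) (nat_lit 366) (nat_lit 318) (nat_lit 96)) (XT.lf (nat_lit 0) (nat_lit 5416844957) (nat_lit 380) (nat_lit 30884840434) (nat_lit 76) (nat_lit 16050606920) (nat_lit 95) (nat_lit 5) (nat_lit 100) (nat_lit 5) (nat_lit 96) (nat_lit 5) (nat_lit 367) (nat_lit 318) (nat_lit 95))) (XT.nd (nat_lit 78) (nat_lit 304) (nat_lit 0) (XT.lf (nat_lit 0) (nat_lit 13996191097) (nat_lit 380) (nat_lit 4985249036) (nat_lit 76) (nat_lit 34389155341) (nat_lit 95) (nat_lit 5) (nat_lit 100) (nat_lit 5) (nat_lit 96) (nat_lit 5) (nat_lit 368) (nat_lit 318) (nat_lit 94)) (XT.lf (nat_lit 0) (nat_lit 22120939506) (nat_lit 304) (nat_lit 923148550) (nat_lit 380) (nat_lit 31369025558) (nat_lit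 91) (nat_lit 5) (nat_lit 95) (nat_lit 5) (nat_lit 96) (nat_lit 5) (nat_lit 369) (nat_lit 318) (nat_lit 93))))) (XT.nd (nat_lit 234) (nat_lit 608) (nat_lit 0) (XT.nd (nat_lit 78) (nat_lit 304) (nat_lit 0) (XT.lf (nat_lit 0) (nat_lit 32582730807) (nat_lit 380) (nat_lit 5515378620) (nat_lit 76) (nat_lit 17382219574) (nat_lit 91) (nat_lit 5) (nat_lit 96) (nat_lit 5) (nat_lit 92) (nat_lit 5) (nat_lit 370) (nat_lit 318) (nat_lit 92)) (XT.nd (nat_lit 78) (nat_lit 0) (nat_lit 0) (XT.lf (nat_lit 0) (nat_lit 22492481773) (nat_lit 304) (nat_lit 20138993048) (nat_lit 380) (nat_lit 13941368706) (nat_lit 87) (nat_lit 5) (nat_lit 91) (nat_lit 5) (nat_lit 92) (nat_lit 5) (nat_lit 371) (nat_lit 318) (nat_lit 91)) (XT.lf (nat_lit 0) (nat_lit 51451649313) (nat_lit 304) (nat_lit 1584338698) (nat_lit 380) (nat_lit 4660517185) (nat_lit 87) (nat_lit 5) (nat_lit 91) (nat_lit 5) (nat_lit 92) (nat_lit 5) (nat_lit 372) (nat_lit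 318) (nat_lit 90)))) (XT.nd (nat_lit 156) (nat_lit 304) (nat_lit 0) (XT.nd (nat_lit 78) (nat_lit 0) (nat_lit 0) (XT.lf (nat_lit 0) (nat_lit 5192297454) (nat_lit 304) (nat_lit 36195030459) (nat_lit 76) (nat_lit 17453463064) (nat_lit 83) (nat_lit 5) (nat_lit 87) (nat_lit 5) (nat_lit 84) (nat_lit 5) (nat_lit 373) (nat_lit 318) (nat_lit 89)) (XT.lf (nat_lit 0) (nat_lit 15325050248) (nat_lit 304) (nat_lit 7550833937) (nat_lit 76) (nat_lit 37139796904) (nat_lit 83) (nat_lit 5) (nat_lit 87) (nat_lit 5) (nat_lit 84) (nat_lit 5) (nat_lit 374) (nat_lit 318) (nat_lit 88))) (XT.nd (nat_lit 78) (nat_lit 0) (nat_lit 0) (XT.lf (nat_lit 0) (nat_lit 22387634738) (nat_lit 304) (nat_lit 3588047546) (nat_lit 380) (nat_lit 35243719530) (nat_lit 79) (nat_lit 5) (nat_lit 83) (nat_lit 5) (nat_lit 84) (nat_lit 5) (nat_lit 375) (nat_lit 318) (nat_lit 87)) (XT.lf (nat_lit 0) (nat_lit 37178021972) (nat_lit 380) (nat_lit 9237069507)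 (nat_lit 76) (nat_lit 16037177809) (nat_lit 79) (nat_lit 5) (nat_lit 84) (nat_lit 5) (nat_lit 80) (nat_lit 5) (nat_lit 376) (nat_lit 318) (nat_lit 86)))))) (XT.nd (nat_lit 546) (nat_lit 760) (nat_lit 0) (XT.nd (nat_lit 234) (nat_lit 456) (nat_lit 0) (XT.nd (nat_lit 78) (nat_lit 304) (nat_lit 0) (XT.lf (nat_lit 0) (nat_lit 21630150312) (nat_lit 228) (nat_lit 27328473621) (nat_lit 304) (nat_lit 14756233852) (nat_lit 76) (nat_lit 5) (nat_lit 79) (nat_lit 5) (nat_lit 80) (nat_lit 5) (nat_lit 377) (nat_lit 318) (nat_lit 85)) (XT.nd (nat_lit 78) (nat_lit 304) (nat_lit 0) (XT.lf (nat_lit 0) (nat_lit 53610880390) (nat_lit 228) (nat_lit 7573803191) (nat_lit 304) (nat_lit 3827879910) (nat_lit 76) (nat_lit 5) (nat_lit 79) (nat_lit 5) (nat_lit 80) (nat_lit 5) (nat_lit 378) (nat_lit 318) (nat_lit 84)) (XT.lf (nat_lit 0) (nat_lit 7604938940) (nat_lit 304) (nat_lit 45937419799) (nat_lit 76) (nat_lit 12795053131)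 (nat_lit 72) (nat_lit 5) (nat_lit 76) (nat_lit 5) (nat_lit 73) (nat_lit 5) (nat_lit 379) (nat_lit 318) (nat_lit 83)))) (XT.nd (nat_lit 156) (nat_lit 228) (nat_lit 0) (XT.nd (nat_lit 78) (nat_lit 228) (nat_lit 0) (XT.lf (nat_lit 0) (nat_lit 19493867291) (nat_lit 304) (nat_lit 14424979397) (nat_lit 76) (nat_lit 33776320848) (nat_lit 72) (nat_lit 5) (nat_lit 76) (nat_lit 5) (nat_lit 73) (nat_lit 5) (nat_lit 380) (nat_lit 318) (nat_lit 82)) (XT.lf (nat_lit 0) (nat_lit 18389900357) (nat_lit 228) (nat_lit 13525171886) (nat_lit 304) (nat_lit 37173316027) (nat_lit 69) (nat_lit 5) (nat_lit 72) (nat_lit 5) (nat_lit 73) (nat_lit 5) (nat_lit 381) (nat_lit 318) (nat_lit 81))) (XT.nd (nat_lit 78) (nat_lit 228) (nat_lit 0) (XT.lf (nat_lit 0) (nat_lit 44926769689) (nat_lit 304) (nat_lit 18109257517) (nat_lit 76) (nat_lit 7480843368) (nat_lit 69) (nat_lit 5) (nat_lit 73) (nat_lit 5) (nat_lit 70) (nat_lit 5) (nat_lit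 382) (nat_lit 318) (nat_lit 80)) (XT.lf (nat_lit 0) (nat_lit 15626928560) (nat_lit 228) (nat_lit 42984896108) (nat_lit 304) (nat_lit 13367893103) (nat_lit 66) (nat_lit 5) (nat_lit 69) (nat_lit 5) (nat_lit 70) (nat_lit 5) (nat_lit 383) (nat_lit 318) (nat_lit 79))))) (XT.nd (nat_lit 312) (nat_lit 228) (nat_lit 0) (XT.nd (nat_lit 156) (nat_lit 228) (nat_lit 0) (XT.nd (nat_lit 78) (nat_lit 304) (nat_lit 0) (XT.lf (nat_lit 0) (nat_lit 50744693068) (nat_lit 228) (nat_lit 22144500687) (nat_lit 304) (nat_lit 591804356) (nat_lit 66) (nat_lit 5) (nat_lit 69) (nat_lit 5) (nat_lit 70) (nat_lit 5) (nat_lit 384) (nat_lit 318) (nat_lit 78)) (XT.lf (nat_lit 0) (nat_lit 12000335303) (nat_lit 228) (nat_lit 436263278) (nat_lit 304) (nat_lit 62583666534) (nat_lit 62) (nat_lit 5) (nat_lit 65) (nat_lit 5) (nat_lit 66) (nat_lit 5) (nat_lit 385) (nat_lit 318) (nat_lit 77))) (XT.nd (nat_lit 78) (nat_lit 228) (nat_lit 0)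 (XT.lf (nat_lit 0) (nat_lit 26285488579) (nat_lit 304) (nat_lit 28574258598) (nat_lit 76) (nat_lit 21732541831) (nat_lit 62) (nat_lit 5) (nat_lit 66) (nat_lit 5) (nat_lit 63) (nat_lit 5) (nat_lit 386) (nat_lit 318) (nat_lit 76)) (XT.lf (nat_lit 0) (nat_lit 7036101837) (nat_lit 228) (nat_lit 33584654455) (nat_lit 304) (nat_lit 37588590530) (nat_lit 59) (nat_lit 5) (nat_lit 62) (nat_lit 5) (nat_lit 63) (nat_lit 5) (nat_lit 387) (nat_lit 318) (nat_lit 75)))) (XT.nd (nat_lit 156) (nat_lit 76) (nat_lit 0) (XT.nd (nat_lit 78) (nat_lit 152) (nat_lit 0) (XT.lf (nat_lit 0) (nat_lit 44298872491) (nat_lit 228) (nat_lit 11374724380) (nat_lit 304) (nat_lit 24192694574) (nat_lit 59) (nat_lit 5) (nat_lit 62) (nat_lit 5) (nat_lit 63) (nat_lit 5) (nat_lit 388) (nat_lit 318) (nat_lit 74)) (XT.lf (nat_lit 0) (nat_lit 1014191184) (nat_lit 152) (nat_lit 70283135079) (nat_lit 228) (nat_lit 10272039543) (nat_lit 57) (nat_lit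 5) (nat_lit 59) (nat_lit 5) (nat_lit 60) (nat_lit 5) (nat_lit 389) (nat_lit 318) (nat_lit 73))) (XT.nd (nat_lit 78) (nat_lit 0) (nat_lit 0) (XT.lf (nat_lit 0) (nat_lit 4461225141) (nat_lit 228) (nat_lit 44047301150) (nat_lit 76) (nat_lit 34799603859) (nat_lit 56) (nat_lit 5) (nat_lit 59) (nat_lit 5) (nat_lit 57) (nat_lit 5) (nat_lit 390) (nat_lit 318) (nat_lit 72)) (XT.lf (nat_lit 0) (nat_lit 19429057728) (nat_lit 228) (nat_lit 6547473683) (nat_lit 76) (nat_lit 59119504542) (nat_lit 56) (nat_lit 5) (nat_lit 59) (nat_lit 5) (nat_lit 57) (nat_lit 5) (nat_lit 391) (nat_lit 318) (nat_lit 71))))))))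
noncomputable def xc224 : XT := (XT.nd (nat_lit 36582) (nat_lit 0) (nat_lit 3800) (XT.nd (nat_lit 35490) (nat_lit 0) (nat_lit 10716) (XT.nd (nat_lit 34944) (nat_lit 0) (nat_lit 12160) (XT.nd (nat_lit 234) (nat_lit 456) (nat_lit 0) (XT.nd (nat_lit 78) (nat_lit 152) (nat_lit 0) (XT.lf (nat_lit 0) (nat_lit 32714187374) (nat_lit 228) (nat_lit 2445262803) (nat_lit 304) (nat_lit 51768723455) (nat_lit 53) (nat_lit 5) (nat_lit 56) (nat_lit 5) (nat_lit 57) (nat_lit 5) (nat_lit 392) (nat_lit 318) (nat_lit 70)) (XT.nd (nat_lit 78) (nat_lit 152) (nat_lit 0) (XT.lf (nat_lit 0) (nat_lit 51637066526) (nat_lit 304) (nat_lit 15737049560) (nat_lit 76) (nat_lit 21432900427) (nat_lit 53) (nat_lit 5) (nat_lit 57) (nat_lit 5) (nat_lit 54) (nat_lit 5) (nat_lit 393) (nat_lit 318) (nat_lit 69)) (XT.lf (nat_lit 0) (nat_lit 24343518762) (nat_lit 152) (nat_lit 44522798564) (nat_lit 228) (nat_lit 21868188598) (nat_lit 51) (nat_lit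 5) (nat_lit 53) (nat_lit 5) (nat_lit 54) (nat_lit 5) (nat_lit 394) (nat_lit 318) (nat_lit 68)))) (XT.nd (nat_lit 156) (nat_lit 152) (nat_lit 0) (XT.nd (nat_lit 78) (nat_lit 304) (nat_lit 0) (XT.lf (nat_lit 0) (nat_lit 65947617199) (nat_lit 152) (nat_lit 20822844690) (nat_lit 228) (nat_lit 5944618052) (nat_lit 51) (nat_lit 5) (nat_lit 53) (nat_lit 5) (nat_lit 54) (nat_lit 5) (nat_lit 395) (nat_lit 318) (nat_lit 67)) (XT.lf (nat_lit 0) (nat_lit 10425260768) (nat_lit 304) (nat_lit 80564531043) (nat_lit 76) (nat_lit 3757084832) (nat_lit 47) (nat_lit 5) (nat_lit 51) (nat_lit 5) (nat_lit 48) (nat_lit 5) (nat_lit 396) (nat_lit 318) (nat_lit 66))) (XT.nd (nat_lit 78) (nat_lit 152) (nat_lit 0) (XT.lf (nat_lit 0) (nat_lit 27645023182) (nat_lit 304) (nat_lit 40191326378) (nat_lit 76) (nat_lit 28987164288) (nat_lit 47) (nat_lit 5) (nat_lit 51) (nat_lit 5) (nat_lit 48) (nat_lit 5) (nat_lit 397) (nat_lit 318)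 (nat_lit 65)) (XT.lf (nat_lit 0) (nat_lit 1419351250) (nat_lit 152) (nat_lit 43974822612) (nat_lit 228) (nat_lit 53567892811) (nat_lit 45) (nat_lit 5) (nat_lit 47) (nat_lit 5) (nat_lit 48) (nat_lit 5) (nat_lit 398) (nat_lit 318) (nat_lit 64))))) (XT.nd (nat_lit 234) (nat_lit 0) (nat_lit 76) (XT.nd (nat_lit 78) (nat_lit 0) (nat_lit 0) (XT.lf (nat_lit 0) (nat_lit 3445053353) (nat_lit 0) (nat_lit 3445053353) (nat_lit 1140) (nat_lit 4834159742) (nat_lit 205) (nat_lit 5) (nat_lit 205) (nat_lit 3) (nat_lit 220) (nat_lit 3) (nat_lit 319) (nat_lit 319) (nat_lit 142)) (XT.nd (nat_lit 78) (nat_lit 0) (nat_lit 0) (XT.lf (nat_lit 0) (nat_lit 14139122923) (nat_lit 1140) (nat_lit 5836492779) (nat_lit 1216) (nat_lit 3819960283) (nat_lit 205) (nat_lit 5) (nat_lit 220) (nat_lit 3) (nat_lit 221) (nat_lit 5) (nat_lit 320) (nat_lit 319) (nat_lit 141)) (XT.lf (nat_lit 76) (nat_lit 5238705965) (nat_lit 0) (nat_lit 9384213211)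 (nat_lit 1216) (nat_lit 9526692242) (nat_lit 206) (nat_lit 5) (nat_lit 205) (nat_lit 5) (nat_lit 221) (nat_lit 5) (nat_lit 321) (nat_lit 319) (nat_lit 140)))) (XT.nd (nat_lit 156) (nat_lit 0) (nat_lit 0) (XT.nd (nat_lit 78) (nat_lit 0) (nat_lit 0) (XT.lf (nat_lit 0) (nat_lit 15191077437) (nat_lit 1140) (nat_lit 7764469116) (nat_lit 1216) (nat_lit 1556630413) (nat_lit 206) (nat_lit 5) (nat_lit 221) (nat_lit 5) (nat_lit 222) (nat_lit 5) (nat_lit 322) (nat_lit 319) (nat_lit 139)) (XT.lf (nat_lit 76) (nat_lit 3693055559) (nat_lit 0) (nat_lit 12207432826) (nat_lit 1216) (nat_lit 8981409225) (nat_lit 207) (nat_lit 5) (nat_lit 206) (nat_lit 5) (nat_lit 222) (nat_lit 5) (nat_lit 323) (nat_lit 319) (nat_lit 138))) (XT.nd (nat_lit 78) (nat_lit 0) (nat_lit 76) (XT.lf (nat_lit 76) (nat_lit 15651037501) (nat_lit 0) (nat_lit 1054444196) (nat_lit 1216) (nat_lit 8555003416) (nat_lit 207) (nat_lit 5) (nat_lit 206)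 (nat_lit 5) (nat_lit 222) (nat_lit 5) (nat_lit 324) (nat_lit 319) (nat_lit 137)) (XT.lf (nat_lit 76) (nat_lit 2258611687) (nat_lit 0) (nat_lit 15394043273) (nat_lit 1216) (nat_lit 7994238493) (nat_lit 208) (nat_lit 5) (nat_lit 207) (nat_lit 5) (nat_lit 223) (nat_lit 5) (nat_lit 325) (nat_lit 319) (nat_lit 136)))))) (XT.nd (nat_lit 546) (nat_lit 1596) (nat_lit 0) (XT.nd (nat_lit 234) (nat_lit 0) (nat_lit 152) (XT.nd (nat_lit 78) (nat_lit 0) (nat_lit 76) (XT.lf (nat_lit 76) (nat_lit 14666572768) (nat_lit 0) (nat_lit 4065166091) (nat_lit 1216) (nat_lit 7310054317) (nat_lit 208) (nat_lit 5) (nat_lit 207) (nat_lit 5) (nat_lit 223) (nat_lit 5) (nat_lit 326) (nat_lit 319) (nat_lit 135)) (XT.nd (nat_lit 78) (nat_lit 0) (nat_lit 0) (XT.lf (nat_lit 76) (nat_lit 940970018) (nat_lit 0) (nat_lit 18980607911) (nat_lit 1216) (nat_lit 6524614362) (nat_lit 209) (nat_lit 5) (nat_lit 208) (nat_lit 5) (nat_lit 224)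 (nat_lit 5) (nat_lit 327) (nat_lit 319) (nat_lit 134)) (XT.lf (nat_lit 76) (nat_lit 13816267415) (nat_lit 0) (nat_lit 7481899166) (nat_lit 1216) (nat_lit 5560028935) (nat_lit 209) (nat_lit 5) (nat_lit 208) (nat_lit 5) (nat_lit 224) (nat_lit 5) (nat_lit 328) (nat_lit 319) (nat_lit 133)))) (XT.nd (nat_lit 156) (nat_lit 0) (nat_lit 76) (XT.nd (nat_lit 78) (nat_lit 0) (nat_lit 0) (XT.lf (nat_lit 0) (nat_lit 22754430951) (nat_lit 1140) (nat_lit 249220716) (nat_lit 1216) (nat_lit 4277759484) (nat_lit 209) (nat_lit 5) (nat_lit 224) (nat_lit 5) (nat_lit 225) (nat_lit 5) (nat_lit 329) (nat_lit 319) (nat_lit 132)) (XT.lf (nat_lit 76) (nat_lit 13106460830) (nat_lit 0) (nat_lit 11344541398) (nat_lit 1216) (nat_lit 3260426011) (nat_lit 210) (nat_lit 5) (nat_lit 209) (nat_lit 5) (nat_lit 225) (nat_lit 5) (nat_lit 330) (nat_lit 319) (nat_lit 131))) (XT.nd (nat_lit 78) (nat_lit 0) (nat_lit 0) (XT.lf (nat_lit 0)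 (nat_lit 26204037217) (nat_lit 1140) (nat_lit 1295331781) (nat_lit 1216) (nat_lit 654813289) (nat_lit 210) (nat_lit 5) (nat_lit 225) (nat_lit 5) (nat_lit 226) (nat_lit 5) (nat_lit 331) (nat_lit 319) (nat_lit 130)) (XT.lf (nat_lit 76) (nat_lit 12543543281) (nat_lit 0) (nat_lit 15695755226) (nat_lit 1216) (nat_lit 364034741) (nat_lit 211) (nat_lit 5) (nat_lit 210) (nat_lit 5) (nat_lit 226) (nat_lit 5) (nat_lit 332) (nat_lit 319) (nat_lit 129))))) (XT.nd (nat_lit 234) (nat_lit 608) (nat_lit 0) (XT.nd (nat_lit 78) (nat_lit 0) (nat_lit 76) (XT.lf (nat_lit 0) (nat_lit 1254866433) (nat_lit 1216) (nat_lit 2256302986) (nat_lit 1292) (nat_lit 25554126837) (nat_lit 194) (nat_lit 5) (nat_lit 210) (nat_lit 5) (nat_lit 211) (nat_lit 5) (nat_lit 333) (nat_lit 319) (nat_lit 128)) (XT.nd (nat_lit 78) (nat_lit 0) (nat_lit 0) (XT.lf (nat_lit 0) (nat_lit 3117183766) (nat_lit 1216) (nat_lit 17432530828) (nat_lit 1292)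 (nat_lit 8985233519) (nat_lit 195) (nat_lit 5) (nat_lit 211) (nat_lit 5) (nat_lit 212) (nat_lit 5) (nat_lit 334) (nat_lit 319) (nat_lit 127)) (XT.lf (nat_lit 0) (nat_lit 5090085569) (nat_lit 1216) (nat_lit 3117387264) (nat_lit 1292) (nat_lit 21809578216) (nat_lit 195) (nat_lit 5) (nat_lit 211) (nat_lit 5) (nat_lit 212) (nat_lit 5) (nat_lit 335) (nat_lit 319) (nat_lit 126)))) (XT.nd (nat_lit 156) (nat_lit 760) (nat_lit 0) (XT.nd (nat_lit 78) (nat_lit 0) (nat_lit 0) (XT.lf (nat_lit 0) (nat_lit 7277611029) (nat_lit 1216) (nat_lit 18698631360) (nat_lit 76) (nat_lit 4532714474) (nat_lit 196) (nat_lit 5) (nat_lit 212) (nat_lit 5) (nat_lit 197) (nat_lit 5) (nat_lit 336) (nat_lit 319) (nat_lit 125)) (XT.lf (nat_lit 0) (nat_lit 9640913152) (nat_lit 1216) (nat_lit 3849015192) (nat_lit 76) (nat_lit 17522389784) (nat_lit 196) (nat_lit 5) (nat_lit 212) (nat_lit 5) (nat_lit 197) (nat_lit 5) (nat_lit 337) (nat_lit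 319) (nat_lit 124))) (XT.nd (nat_lit 78) (nat_lit 0) (nat_lit 0) (XT.lf (nat_lit 0) (nat_lit 11671374997) (nat_lit 760) (nat_lit 513113887) (nat_lit 836) (nat_lit 19343012832) (nat_lit 186) (nat_lit 5) (nat_lit 196) (nat_lit 5) (nat_lit 197) (nat_lit 5) (nat_lit 338) (nat_lit 319) (nat_lit 123)) (XT.lf (nat_lit 0) (nat_lit 14964418990) (nat_lit 836) (nat_lit 4447161970) (nat_lit 76) (nat_lit 12641761081) (nat_lit 186) (nat_lit 5) (nat_lit 197) (nat_lit 5) (nat_lit 187) (nat_lit 5) (nat_lit 339) (nat_lit 319) (nat_lit 122))))))) (XT.nd (nat_lit 1092) (nat_lit 3192) (nat_lit 0) (XT.nd (nat_lit 546) (nat_lit 1444) (nat_lit 0) (XT.nd (nat_lit 234) (nat_lit 1140) (nat_lit 0) (XT.nd (nat_lit 78) (nat_lit 532) (nat_lit 0) (XT.lf (nat_lit 0) (nat_lit 11643747162) (nat_lit 608) (nat_lit 6298331090) (nat_lit 684) (nat_lit 14649451951) (nat_lit 178) (nat_lit 5) (nat_lit 186) (nat_lit 5) (nat_lit 187) (nat_lit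 5) (nat_lit 340) (nat_lit 319) (nat_lit 121)) (XT.nd (nat_lit 78) (nat_lit 532) (nat_lit 0) (XT.lf (nat_lit 0) (nat_lit 21121090770) (nat_lit 684) (nat_lit 4908220678) (nat_lit 76) (nat_lit 7113194348) (nat_lit 178) (nat_lit 5) (nat_lit 187) (nat_lit 5) (nat_lit 179) (nat_lit 5) (nat_lit 341) (nat_lit 319) (nat_lit 120)) (XT.lf (nat_lit 0) (nat_lit 11777549952) (nat_lit 532) (nat_lit 12790953223) (nat_lit 608) (nat_lit 9136319014) (nat_lit 171) (nat_lit 5) (nat_lit 178) (nat_lit 5) (nat_lit 179) (nat_lit 5) (nat_lit 342) (nat_lit 319) (nat_lit 119)))) (XT.nd (nat_lit 156) (nat_lit 608) (nat_lit 0) (XT.nd (nat_lit 78) (nat_lit 532) (nat_lit 0) (XT.lf (nat_lit 0) (nat_lit 28175018812) (nat_lit 608) (nat_lit 5229118088) (nat_lit 76) (nat_lit 878203096) (nat_lit 171) (nat_lit 5) (nat_lit 179) (nat_lit 5) (nat_lit 172) (nat_lit 5) (nat_lit 343) (nat_lit 319) (nat_lit 118)) (XT.lf (nat_lit 0) (nat_lit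 12076572471) (nat_lit 532) (nat_lit 20053468863) (nat_lit 608) (nat_lit 2739934940) (nat_lit 164) (nat_lit 5) (nat_lit 171) (nat_lit 5) (nat_lit 172) (nat_lit 5) (nat_lit 344) (nat_lit 319) (nat_lit 117))) (XT.nd (nat_lit 78) (nat_lit 532) (nat_lit 0) (XT.lf (nat_lit 0) (nat_lit 765187073) (nat_lit 608) (nat_lit 5475005970) (nat_lit 76) (nat_lit 29233312791) (nat_lit 163) (nat_lit 5) (nat_lit 171) (nat_lit 5) (nat_lit 164) (nat_lit 5) (nat_lit 345) (nat_lit 319) (nat_lit 116)) (XT.lf (nat_lit 0) (nat_lit 4517227176) (nat_lit 608) (nat_lit 23590119720) (nat_lit 76) (nat_lit 7981077595) (nat_lit 156) (nat_lit 5) (nat_lit 164) (nat_lit 5) (nat_lit 157) (nat_lit 5) (nat_lit 346) (nat_lit 319) (nat_lit 115))))) (XT.nd (nat_lit 234) (nat_lit 912) (nat_lit 0) (XT.nd (nat_lit 78) (nat_lit 532) (nat_lit 0) (XT.lf (nat_lit 0) (nat_lit 8497163754) (nat_lit 608) (nat_lit 5661840325) (nat_lit 76) (nat_lit 22559328597)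 (nat_lit 156) (nat_lit 5) (nat_lit 164) (nat_lit 5) (nat_lit 157) (nat_lit 5) (nat_lit 347) (nat_lit 319) (nat_lit 114)) (XT.nd (nat_lit 78) (nat_lit 0) (nat_lit 0) (XT.lf (nat_lit 0) (nat_lit 12723029792) (nat_lit 608) (nat_lit 24309962227) (nat_lit 76) (nat_lit 330352111) (nat_lit 149) (nat_lit 5) (nat_lit 157) (nat_lit 5) (nat_lit 150) (nat_lit 5) (nat_lit 348) (nat_lit 319) (nat_lit 113)) (XT.lf (nat_lit 0) (nat_lit 17271423651) (nat_lit 608) (nat_lit 5723017786) (nat_lit 76) (nat_lit 15027393845) (nat_lit 149) (nat_lit 5) (nat_lit 157) (nat_lit 5) (nat_lit 150) (nat_lit 5) (nat_lit 349) (nat_lit 319) (nat_lit 112)))) (XT.nd (nat_lit 156) (nat_lit 456) (nat_lit 0) (XT.nd (nat_lit 78) (nat_lit 0) (nat_lit 0) (XT.lf (nat_lit 0) (nat_lit 13686277535) (nat_lit 456) (nat_lit 8399440160) (nat_lit 532) (nat_lit 16610481878) (nat_lit 143) (nat_lit 5) (nat_lit 149) (nat_lit 5) (nat_lit 150) (nat_lit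 5) (nat_lit 350) (nat_lit 319) (nat_lit 111)) (XT.lf (nat_lit 0) (nat_lit 27164493088) (nat_lit 532) (nat_lit 5660594678) (nat_lit 76) (nat_lit 6562107247) (nat_lit 143) (nat_lit 5) (nat_lit 150) (nat_lit 5) (nat_lit 144) (nat_lit 5) (nat_lit 351) (nat_lit 319) (nat_lit 110))) (XT.nd (nat_lit 78) (nat_lit 0) (nat_lit 0) (XT.lf (nat_lit 0) (nat_lit 14466038119) (nat_lit 456) (nat_lit 18149797925) (nat_lit 532) (nat_lit 7476479891) (nat_lit 137) (nat_lit 5) (nat_lit 143) (nat_lit 5) (nat_lit 144) (nat_lit 5) (nat_lit 352) (nat_lit 319) (nat_lit 109)) (XT.lf (nat_lit 0) (nat_lit 35310232937) (nat_lit 456) (nat_lit 2975669210) (nat_lit 532) (nat_lit 2531034547) (nat_lit 137) (nat_lit 5) (nat_lit 143) (nat_lit 5) (nat_lit 144) (nat_lit 5) (nat_lit 353) (nat_lit 319) (nat_lit 108)))))) (XT.nd (nat_lit 546) (nat_lit 1520) (nat_lit 0) (XT.nd (nat_lit 234) (nat_lit 760) (nat_lit 0) (XT.nd (nat_lit 78) (nat_lit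 456) (nat_lit 0) (XT.lf (nat_lit 0) (nat_lit 2783091876) (nat_lit 456) (nat_lit 26189622395) (nat_lit 76) (nat_lit 12581734555) (nat_lit 131) (nat_lit 5) (nat_lit 137) (nat_lit 5) (nat_lit 132) (nat_lit 5) (nat_lit 354) (nat_lit 319) (nat_lit 107)) (XT.nd (nat_lit 78) (nat_lit 456) (nat_lit 0) (XT.lf (nat_lit 0) (nat_lit 8289481355) (nat_lit 456) (nat_lit 5394387177) (nat_lit 76) (nat_lit 28626956234) (nat_lit 131) (nat_lit 5) (nat_lit 137) (nat_lit 5) (nat_lit 132) (nat_lit 5) (nat_lit 355) (nat_lit 319) (nat_lit 106)) (XT.lf (nat_lit 0) (nat_lit 14137681163) (nat_lit 532) (nat_lit 26765256117) (nat_lit 76) (nat_lit 2181657651) (nat_lit 125) (nat_lit 5) (nat_lit 132) (nat_lit 5) (nat_lit 126) (nat_lit 5) (nat_lit 356) (nat_lit 319) (nat_lit 105)))) (XT.nd (nat_lit 156) (nat_lit 380) (nat_lit 0) (XT.nd (nat_lit 78) (nat_lit 380) (nat_lit 0) (XT.lf (nat_lit 0) (nat_lit 20349998805) (nat_lit 532)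 (nat_lit 5223156538) (nat_lit 76) (nat_lit 18302764165) (nat_lit 125) (nat_lit 5) (nat_lit 132) (nat_lit 5) (nat_lit 126) (nat_lit 5) (nat_lit 357) (nat_lit 319) (nat_lit 104)) (XT.lf (nat_lit 0) (nat_lit 17300623334) (nat_lit 380) (nat_lit 9612595872) (nat_lit 456) (nat_lit 17772830041) (nat_lit 120) (nat_lit 5) (nat_lit 125) (nat_lit 5) (nat_lit 126) (nat_lit 5) (nat_lit 358) (nat_lit 319) (nat_lit 103))) (XT.nd (nat_lit 78) (nat_lit 380) (nat_lit 0) (XT.lf (nat_lit 0) (nat_lit 33790481122) (nat_lit 456) (nat_lit 4980068133) (nat_lit 76) (nat_lit 6746420654) (nat_lit 120) (nat_lit 5) (nat_lit 126) (nat_lit 5) (nat_lit 121) (nat_lit 5) (nat_lit 359) (nat_lit 319) (nat_lit 102)) (XT.lf (nat_lit 0) (nat_lit 18358370056) (nat_lit 380) (nat_lit 22785643598) (nat_lit 456) (nat_lit 5220707293) (nat_lit 115) (nat_lit 5) (nat_lit 120) (nat_lit 5) (nat_lit 121) (nat_lit 5) (nat_lit 360) (nat_lit 319) (nat_lit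 101))))) (XT.nd (nat_lit 312) (nat_lit 684) (nat_lit 0) (XT.nd (nat_lit 156) (nat_lit 380) (nat_lit 0) (XT.nd (nat_lit 78) (nat_lit 380) (nat_lit 0) (XT.lf (nat_lit 0) (nat_lit 1500467333) (nat_lit 456) (nat_lit 4754232652) (nat_lit 76) (nat_lit 40981305782) (nat_lit 114) (nat_lit 5) (nat_lit 120) (nat_lit 5) (nat_lit 115) (nat_lit 5) (nat_lit 361) (nat_lit 319) (nat_lit 100)) (XT.lf (nat_lit 0) (nat_lit 8610290444) (nat_lit 456) (nat_lit 28709592147) (nat_lit 76) (nat_lit 10803238733) (nat_lit 109) (nat_lit 5) (nat_lit 115) (nat_lit 5) (nat_lit 110) (nat_lit 5) (nat_lit 362) (nat_lit 319) (nat_lit 99))) (XT.nd (nat_lit 78) (nat_lit 380) (nat_lit 0) (XT.lf (nat_lit 0) (nat_lit 16042209666) (nat_lit 456) (nat_lit 4696151393) (nat_lit 76) (nat_lit 28295226435) (nat_lit 109) (nat_lit 5) (nat_lit 115) (nat_lit 5) (nat_lit 110) (nat_lit 5) (nat_lit 363) (nat_lit 319) (nat_lit 98)) (XT.lf (nat_lit 0)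 (nat_lit 20434383514) (nat_lit 380) (nat_lit 3457567575) (nat_lit 456) (nat_lit 26073571775) (nat_lit 104) (nat_lit 5) (nat_lit 109) (nat_lit 5) (nat_lit 110) (nat_lit 5) (nat_lit 364) (nat_lit 319) (nat_lit 97)))) (XT.nd (nat_lit 156) (nat_lit 380) (nat_lit 0) (XT.nd (nat_lit 78) (nat_lit 304) (nat_lit 0) (XT.lf (nat_lit 0) (nat_lit 32161394881) (nat_lit 456) (nat_lit 4649302655) (nat_lit 76) (nat_lit 14109193578) (nat_lit 104) (nat_lit 5) (nat_lit 110) (nat_lit 5) (nat_lit 105) (nat_lit 5) (nat_lit 365) (nat_lit 319) (nat_lit 96)) (XT.lf (nat_lit 0) (nat_lit 21359538146) (nat_lit 304) (nat_lit 19557441012) (nat_lit 380) (nat_lit 10978770627) (nat_lit 100) (nat_lit 5) (nat_lit 104) (nat_lit 5) (nat_lit 105) (nat_lit 5) (nat_lit 366) (nat_lit 319) (nat_lit 95))) (XT.nd (nat_lit 78) (nat_lit 380) (nat_lit 0) (XT.lf (nat_lit 0) (nat_lit 48241950938) (nat_lit 304) (nat_lit 1738756134) (nat_lit 380)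 (nat_lit 2918813917) (nat_lit 100) (nat_lit 5) (nat_lit 104) (nat_lit 5) (nat_lit 105) (nat_lit 5) (nat_lit 367) (nat_lit 319) (nat_lit 94)) (XT.lf (nat_lit 0) (nat_lit 5653936327) (nat_lit 380) (nat_lit 31707350533) (nat_lit 76) (nat_lit 16559286079) (nat_lit 95) (nat_lit 5) (nat_lit 100) (nat_lit 5) (nat_lit 96) (nat_lit 5) (nat_lit 368) (nat_lit 319) (nat_lit 93))))))))
noncomputable def xc225 : XT := (XT.nd (nat_lit 2184) (nat_lit 304) (nat_lit 0) (XT.nd (nat_lit 1092) (nat_lit 1368) (nat_lit 0) (XT.nd (nat_lit 546) (nat_lit 1064) (nat_lit 0) (XT.nd (nat_lit 234) (nat_lit 608) (nat_lit 0) (XT.nd (nat_lit 78) (nat_lit 304) (nat_lit 0) (XT.lf (nat_lit 0) (nat_lit 14488490444) (nat_lit 380) (nat_lit 5033801541) (nat_lit 76) (nat_lit 35447199857) (nat_lit 95) (nat_lit 5) (nat_lit 100) (nat_lit 5) (nat_lit 96) (nat_lit 5) (nat_lit 369) (nat_lit 319) (nat_lit 92)) (XT.nd (nat_lit 78) (nat_lit 0) (nat_lit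 0) (XT.lf (nat_lit 0) (nat_lit 22884582412) (nat_lit 304) (nat_lit 922094168) (nat_lit 380) (nat_lit 32236644809) (nat_lit 91) (nat_lit 5) (nat_lit 95) (nat_lit 5) (nat_lit 96) (nat_lit 5) (nat_lit 370) (nat_lit 319) (nat_lit 91)) (XT.lf (nat_lit 0) (nat_lit 33629671210) (nat_lit 380) (nat_lit 5581884636) (nat_lit 76) (nat_lit 17931053001) (nat_lit 91) (nat_lit 5) (nat_lit 96) (nat_lit 5) (nat_lit 92) (nat_lit 5) (nat_lit 371) (nat_lit 319) (nat_lit 90)))) (XT.nd (nat_lit 156) (nat_lit 304) (nat_lit 0) (XT.nd (nat_lit 78) (nat_lit 0) (nat_lit 0) (XT.lf (nat_lit 0) (nat_lit 23265241419) (nat_lit 304) (nat_lit 20713554957) (nat_lit 380) (nat_lit 14289136217) (nat_lit 87) (nat_lit 5) (nat_lit 91) (nat_lit 5) (nat_lit 92) (nat_lit 5) (nat_lit 372) (nat_lit 319) (nat_lit 89)) (XT.lf (nat_lit 0) (nat_lit 53090330047) (nat_lit 304) (nat_lit 1603123342) (nat_lit 380) (nat_lit 4731911778) (nat_lit 87) (nat_lit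 5) (nat_lit 91) (nat_lit 5) (nat_lit 92) (nat_lit 5) (nat_lit 373) (nat_lit 319) (nat_lit 88))) (XT.nd (nat_lit 78) (nat_lit 0) (nat_lit 0) (XT.lf (nat_lit 0) (nat_lit 5414400502) (nat_lit 304) (nat_lit 37183579867) (nat_lit 76) (nat_lit 18006003204) (nat_lit 83) (nat_lit 5) (nat_lit 87) (nat_lit 5) (nat_lit 84) (nat_lit 5) (nat_lit 374) (nat_lit 319) (nat_lit 87)) (XT.lf (nat_lit 0) (nat_lit 15849203818) (nat_lit 304) (nat_lit 7682891474) (nat_lit 76) (nat_lit 38282084256) (nat_lit 83) (nat_lit 5) (nat_lit 87) (nat_lit 5) (nat_lit 84) (nat_lit 5) (nat_lit 375) (nat_lit 319) (nat_lit 86))))) (XT.nd (nat_lit 234) (nat_lit 532) (nat_lit 0) (XT.nd (nat_lit 78) (nat_lit 228) (nat_lit 0) (XT.lf (nat_lit 0) (nat_lit 23152805110) (nat_lit 304) (nat_lit 3665573094) (nat_lit 380) (nat_lit 36235664152) (nat_lit 79) (nat_lit 5) (nat_lit 83) (nat_lit 5) (nat_lit 84) (nat_lit 5) (nat_lit 376) (nat_lit 319) (nat_lit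 85)) (XT.nd (nat_lit 78) (nat_lit 228) (nat_lit 0) (XT.lf (nat_lit 0) (nat_lit 38355221799) (nat_lit 380) (nat_lit 9421760863) (nat_lit 76) (nat_lit 16546961308) (nat_lit 79) (nat_lit 5) (nat_lit 84) (nat_lit 5) (nat_lit 80) (nat_lit 5) (nat_lit 377) (nat_lit 319) (nat_lit 84)) (XT.lf (nat_lit 0) (nat_lit 22370569465) (nat_lit 228) (nat_lit 28117750326) (nat_lit 304) (nat_lit 15136119089) (nat_lit 76) (nat_lit 5) (nat_lit 79) (nat_lit 5) (nat_lit 80) (nat_lit 5) (nat_lit 378) (nat_lit 319) (nat_lit 83)))) (XT.nd (nat_lit 156) (nat_lit 228) (nat_lit 0) (XT.nd (nat_lit 78) (nat_lit 304) (nat_lit 0) (XT.lf (nat_lit 0) (nat_lit 55308055970) (nat_lit 228) (nat_lit 7771330389) (nat_lit 304) (nat_lit 3881743707) (nat_lit 76) (nat_lit 5) (nat_lit 79) (nat_lit 5) (nat_lit 80) (nat_lit 5) (nat_lit 379) (nat_lit 319) (nat_lit 82)) (XT.lf (nat_lit 0) (nat_lit 7892277198) (nat_lit 304) (nat_lit 47224842859)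 (nat_lit 76) (nat_lit 13208605039) (nat_lit 72) (nat_lit 5) (nat_lit 76) (nat_lit 5) (nat_lit 73) (nat_lit 5) (nat_lit 380) (nat_lit 319) (nat_lit 81))) (XT.nd (nat_lit 78) (nat_lit 228) (nat_lit 0) (XT.lf (nat_lit 0) (nat_lit 20136149417) (nat_lit 304) (nat_lit 14769670979) (nat_lit 76) (nat_lit 34818445730) (nat_lit 72) (nat_lit 5) (nat_lit 76) (nat_lit 5) (nat_lit 73) (nat_lit 5) (nat_lit 381) (nat_lit 319) (nat_lit 80)) (XT.lf (nat_lit 0) (nat_lit 19028791855) (nat_lit 228) (nat_lit 13900363059) (nat_lit 304) (nat_lit 38230154582) (nat_lit 69) (nat_lit 5) (nat_lit 72) (nat_lit 5) (nat_lit 73) (nat_lit 5) (nat_lit 382) (nat_lit 319) (nat_lit 79)))))) (XT.nd (nat_lit 546) (nat_lit 608) (nat_lit 0) (XT.nd (nat_lit 234) (nat_lit 532) (nat_lit 0) (XT.nd (nat_lit 78) (nat_lit 228) (nat_lit 0) (XT.lf (nat_lit 0) (nat_lit 46329839094) (nat_lit 304) (nat_lit 18566485621) (nat_lit 76) (nat_lit 7734363398)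 (nat_lit 69) (nat_lit 5) (nat_lit 73) (nat_lit 5) (nat_lit 70) (nat_lit 5) (nat_lit 383) (nat_lit 319) (nat_lit 78)) (XT.nd (nat_lit 78) (nat_lit 0) (nat_lit 0) (XT.lf (nat_lit 0) (nat_lit 16180942414) (nat_lit 228) (nat_lit 44243712661) (nat_lit 304) (nat_lit 13712790259) (nat_lit 66) (nat_lit 5) (nat_lit 69) (nat_lit 5) (nat_lit 70) (nat_lit 5) (nat_lit 384) (nat_lit 319) (nat_lit 77)) (XT.lf (nat_lit 0) (nat_lit 52349758129) (nat_lit 228) (nat_lit 22779000436) (nat_lit 304) (nat_lit 555053986) (nat_lit 66) (nat_lit 5) (nat_lit 69) (nat_lit 5) (nat_lit 70) (nat_lit 5) (nat_lit 385) (nat_lit 319) (nat_lit 76)))) (XT.nd (nat_lit 156) (nat_lit 228) (nat_lit 0) (XT.nd (nat_lit 78) (nat_lit 0) (nat_lit 0) (XT.lf (nat_lit 0) (nat_lit 12443339480) (nat_lit 228) (nat_lit 419039239) (nat_lit 304) (nat_lit 64406886706) (nat_lit 62) (nat_lit 5) (nat_lit 65) (nat_lit 5) (nat_lit 66) (nat_lit 5) (nat_lit 386)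 (nat_lit 319) (nat_lit 75)) (XT.lf (nat_lit 0) (nat_lit 27125483875) (nat_lit 304) (nat_lit 29349631613) (nat_lit 76) (nat_lit 22413372884) (nat_lit 62) (nat_lit 5) (nat_lit 66) (nat_lit 5) (nat_lit 63) (nat_lit 5) (nat_lit 387) (nat_lit 319) (nat_lit 74))) (XT.nd (nat_lit 78) (nat_lit 0) (nat_lit 0) (XT.lf (nat_lit 0) (nat_lit 7328237137) (nat_lit 228) (nat_lit 34561853626) (nat_lit 304) (nat_lit 38663989492) (nat_lit 59) (nat_lit 5) (nat_lit 62) (nat_lit 5) (nat_lit 63) (nat_lit 5) (nat_lit 388) (nat_lit 319) (nat_lit 73)) (XT.lf (nat_lit 0) (nat_lit 45706530166) (nat_lit 228) (nat_lit 11686509352) (nat_lit 304) (nat_lit 24867738757) (nat_lit 59) (nat_lit 5) (nat_lit 62) (nat_lit 5) (nat_lit 63) (nat_lit 5) (nat_lit 389) (nat_lit 319) (nat_lit 72))))) (XT.nd (nat_lit 234) (nat_lit 380) (nat_lit 0) (XT.nd (nat_lit 78) (nat_lit 76) (nat_lit 0) (XT.lf (nat_lit 0) (nat_lit 1123743744) (nat_lit 152)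 (nat_lit 72361338550) (nat_lit 228) (nat_lit 10529875251) (nat_lit 57) (nat_lit 5) (nat_lit 59) (nat_lit 5) (nat_lit 60) (nat_lit 5) (nat_lit 390) (nat_lit 319) (nat_lit 71)) (XT.nd (nat_lit 78) (nat_lit 0) (nat_lit 0) (XT.lf (nat_lit 0) (nat_lit 4642968154) (nat_lit 228) (nat_lit 45290921836) (nat_lit 76) (nat_lit 35872024116) (nat_lit 56) (nat_lit 5) (nat_lit 59) (nat_lit 5) (nat_lit 57) (nat_lit 5) (nat_lit 391) (nat_lit 319) (nat_lit 70)) (XT.lf (nat_lit 0) (nat_lit 20058440391) (nat_lit 228) (nat_lit 6668365515) (nat_lit 76) (nat_lit 60920693699) (nat_lit 56) (nat_lit 5) (nat_lit 59) (nat_lit 5) (nat_lit 57) (nat_lit 5) (nat_lit 392) (nat_lit 319) (nat_lit 69)))) (XT.nd (nat_lit 156) (nat_lit 152) (nat_lit 0) (XT.nd (nat_lit 78) (nat_lit 0) (nat_lit 0) (XT.lf (nat_lit 0) (nat_lit 33770404860) (nat_lit 228) (nat_lit 2489704011) (nat_lit 304) (nat_lit 53274512259) (nat_lit 53) (nat_lit 5) (nat_lit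 56) (nat_lit 5) (nat_lit 57) (nat_lit 5) (nat_lit 393) (nat_lit 319) (nat_lit 68)) (XT.lf (nat_lit 0) (nat_lit 53230987409) (nat_lit 304) (nat_lit 16135460455) (nat_lit 76) (nat_lit 22103414048) (nat_lit 53) (nat_lit 5) (nat_lit 57) (nat_lit 5) (nat_lit 54) (nat_lit 5) (nat_lit 394) (nat_lit 319) (nat_lit 67))) (XT.nd (nat_lit 78) (nat_lit 0) (nat_lit 0) (XT.lf (nat_lit 0) (nat_lit 25146802362) (nat_lit 152) (nat_lit 45829709767) (nat_lit 228) (nat_lit 22478682590) (nat_lit 51) (nat_lit 5) (nat_lit 53) (nat_lit 5) (nat_lit 54) (nat_lit 5) (nat_lit 395) (nat_lit 319) (nat_lit 66)) (XT.lf (nat_lit 0) (nat_lit 67996898179) (nat_lit 152) (nat_lit 21419595317) (nat_lit 228) (nat_lit 6078731676) (nat_lit 51) (nat_lit 5) (nat_lit 53) (nat_lit 5) (nat_lit 54) (nat_lit 5) (nat_lit 396) (nat_lit 319) (nat_lit 65))))))) (XT.nd (nat_lit 35646) (nat_lit 0) (nat_lit 8284) (XT.nd (nat_lit 35100) (nat_lit 0) (nat_lit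 12160) (XT.nd (nat_lit 34788) (nat_lit 0) (nat_lit 12008) (XT.nd (nat_lit 34632) (nat_lit 0) (nat_lit 12008) (XT.lf (nat_lit 0) (nat_lit 10781071899) (nat_lit 304) (nat_lit 82909405332) (nat_lit 76) (nat_lit 3897495605) (nat_lit 47) (nat_lit 5) (nat_lit 51) (nat_lit 5) (nat_lit 48) (nat_lit 5) (nat_lit 397) (nat_lit 319) (nat_lit 64)) (XT.nd (nat_lit 78) (nat_lit 0) (nat_lit 0) (XT.lf (nat_lit 0) (nat_lit 3605231262) (nat_lit 0) (nat_lit 3605231262) (nat_lit 1140) (nat_lit 4862004765) (nat_lit 205) (nat_lit 5) (nat_lit 205) (nat_lit 3) (nat_lit 220) (nat_lit 3) (nat_lit 320) (nat_lit 320) (nat_lit 140)) (XT.lf (nat_lit 0) (nat_lit 14782920626) (nat_lit 1140) (nat_lit 5893335698) (nat_lit 1216) (nat_lit 3826369922) (nat_lit 205) (nat_lit 5) (nat_lit 220) (nat_lit 3) (nat_lit 221) (nat_lit 5) (nat_lit 321) (nat_lit 320) (nat_lit 139)))) (XT.nd (nat_lit 156) (nat_lit 0) (nat_lit 76) (XT.nd (nat_lit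 78) (nat_lit 0) (nat_lit 76) (XT.lf (nat_lit 76) (nat_lit 5512959675) (nat_lit 0) (nat_lit 9762999839) (nat_lit 1216) (nat_lit 9591488013) (nat_lit 206) (nat_lit 5) (nat_lit 205) (nat_lit 5) (nat_lit 221) (nat_lit 5) (nat_lit 322) (nat_lit 320) (nat_lit 138)) (XT.lf (nat_lit 0) (nat_lit 15854011546) (nat_lit 1140) (nat_lit 7876354949) (nat_lit 1216) (nat_lit 1510744534) (nat_lit 206) (nat_lit 5) (nat_lit 221) (nat_lit 5) (nat_lit 222) (nat_lit 5) (nat_lit 323) (nat_lit 320) (nat_lit 137))) (XT.nd (nat_lit 78) (nat_lit 0) (nat_lit 0) (XT.lf (nat_lit 76) (nat_lit 3923708719) (nat_lit 0) (nat_lit 12656113281) (nat_lit 1216) (nat_lit 9042254044) (nat_lit 207) (nat_lit 5) (nat_lit 206) (nat_lit 5) (nat_lit 222) (nat_lit 5) (nat_lit 324) (nat_lit 320) (nat_lit 136)) (XT.lf (nat_lit 76) (nat_lit 16236939008) (nat_lit 0) (nat_lit 1166133319) (nat_lit 1216) (nat_lit 8609131714) (nat_lit 207) (nat_lit 5)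 (nat_lit 206) (nat_lit 5) (nat_lit 222) (nat_lit 5) (nat_lit 325) (nat_lit 320) (nat_lit 135))))) (XT.nd (nat_lit 234) (nat_lit 0) (nat_lit 76) (XT.nd (nat_lit 78) (nat_lit 0) (nat_lit 0) (XT.lf (nat_lit 76) (nat_lit 2448397398) (nat_lit 0) (nat_lit 15924968108) (nat_lit 1216) (nat_lit 8037003891) (nat_lit 208) (nat_lit 5) (nat_lit 207) (nat_lit 5) (nat_lit 223) (nat_lit 5) (nat_lit 326) (nat_lit 320) (nat_lit 134)) (XT.nd (nat_lit 78) (nat_lit 0) (nat_lit 76) (XT.lf (nat_lit 76) (nat_lit 15225043117) (nat_lit 0) (nat_lit 4254211887) (nat_lit 1216) (nat_lit 7338033852) (nat_lit 208) (nat_lit 5) (nat_lit 207) (nat_lit 5) (nat_lit 223) (nat_lit 5) (nat_lit 327) (nat_lit 320) (nat_lit 133)) (XT.lf (nat_lit 76) (nat_lit 1092851042) (nat_lit 0) (nat_lit 19607095912) (nat_lit 1216) (nat_lit 6534023828) (nat_lit 209) (nat_lit 5) (nat_lit 208) (nat_lit 5) (nat_lit 224) (nat_lit 5) (nat_lit 328) (nat_lit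 320) (nat_lit 132)))) (XT.nd (nat_lit 156) (nat_lit 0) (nat_lit 76) (XT.nd (nat_lit 78) (nat_lit 0) (nat_lit 76) (XT.lf (nat_lit 76) (nat_lit 14350805848) (nat_lit 0) (nat_lit 7761763679) (nat_lit 1216) (nat_lit 5545927895) (nat_lit 209) (nat_lit 5) (nat_lit 208) (nat_lit 5) (nat_lit 224) (nat_lit 5) (nat_lit 329) (nat_lit 320) (nat_lit 131)) (XT.lf (nat_lit 0) (nat_lit 23606894304) (nat_lit 1140) (nat_lit 134341045) (nat_lit 1216) (nat_lit 4353348252) (nat_lit 209) (nat_lit 5) (nat_lit 224) (nat_lit 5) (nat_lit 225) (nat_lit 5) (nat_lit 330) (nat_lit 320) (nat_lit 130))) (XT.nd (nat_lit 78) (nat_lit 0) (nat_lit 76) (XT.lf (nat_lit 76) (nat_lit 13620811375) (nat_lit 0) (nat_lit 11729769459) (nat_lit 1216) (nat_lit 3187038920) (nat_lit 210) (nat_lit 5) (nat_lit 209) (nat_lit 5) (nat_lit 225) (nat_lit 5) (nat_lit 331) (nat_lit 320) (nat_lit 129)) (XT.lf (nat_lit 0) (nat_lit 27150951550) (nat_lit 1140)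 (nat_lit 1211143599) (nat_lit 1216) (nat_lit 631723884) (nat_lit 210) (nat_lit 5) (nat_lit 225) (nat_lit 5) (nat_lit 226) (nat_lit 5) (nat_lit 332) (nat_lit 320) (nat_lit 128)))))) (XT.nd (nat_lit 546) (nat_lit 2280) (nat_lit 0) (XT.nd (nat_lit 234) (nat_lit 608) (nat_lit 0) (XT.nd (nat_lit 78) (nat_lit 1216) (nat_lit 0) (XT.lf (nat_lit 76) (nat_lit 13041691361) (nat_lit 0) (nat_lit 16202067238) (nat_lit 1216) (nat_lit 212796089) (nat_lit 211) (nat_lit 5) (nat_lit 210) (nat_lit 5) (nat_lit 226) (nat_lit 5) (nat_lit 333) (nat_lit 320) (nat_lit 127)) (XT.nd (nat_lit 78) (nat_lit 0) (nat_lit 76) (XT.lf (nat_lit 0) (nat_lit 1446876867) (nat_lit 1216) (nat_lit 2202475997) (nat_lit 1292) (nat_lit 26283120415) (nat_lit 194) (nat_lit 5) (nat_lit 210) (nat_lit 5) (nat_lit 211) (nat_lit 5) (nat_lit 334) (nat_lit 320) (nat_lit 126)) (XT.lf (nat_lit 0) (nat_lit 3361429193) (nat_lit 1216) (nat_lit 17830209612)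 (nat_lit 1292) (nat_lit 9224689318) (nat_lit 195) (nat_lit 5) (nat_lit 211) (nat_lit 5) (nat_lit 212) (nat_lit 5) (nat_lit 335) (nat_lit 320) (nat_lit 125)))) (XT.nd (nat_lit 156) (nat_lit 684) (nat_lit 0) (XT.nd (nat_lit 78) (nat_lit 0) (nat_lit 76) (XT.lf (nat_lit 0) (nat_lit 5389127859) (nat_lit 1216) (nat_lit 3089261172) (nat_lit 1292) (nat_lit 22434641090) (nat_lit 195) (nat_lit 5) (nat_lit 211) (nat_lit 5) (nat_lit 212) (nat_lit 5) (nat_lit 336) (nat_lit 320) (nat_lit 124)) (XT.lf (nat_lit 0) (nat_lit 7638955672) (nat_lit 1216) (nat_lit 19134481056) (nat_lit 76) (nat_lit 4646360229) (nat_lit 196) (nat_lit 5) (nat_lit 212) (nat_lit 5) (nat_lit 197) (nat_lit 5) (nat_lit 337) (nat_lit 320) (nat_lit 123))) (XT.nd (nat_lit 78) (nat_lit 760) (nat_lit 0) (XT.lf (nat_lit 0) (nat_lit 10068991335) (nat_lit 1216) (nat_lit 3843020361) (nat_lit 76) (nat_lit 18026376352) (nat_lit 196) (nat_lit 5) (nat_lit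 212) (nat_lit 5) (nat_lit 197) (nat_lit 5) (nat_lit 338) (nat_lit 320) (nat_lit 122)) (XT.lf (nat_lit 0) (nat_lit 12141790698) (nat_lit 760) (nat_lit 544195595) (nat_lit 836) (nat_lit 19783131398) (nat_lit 186) (nat_lit 5) (nat_lit 196) (nat_lit 5) (nat_lit 197) (nat_lit 5) (nat_lit 339) (nat_lit 320) (nat_lit 121))))) (XT.nd (nat_lit 312) (nat_lit 1140) (nat_lit 0) (XT.nd (nat_lit 156) (nat_lit 532) (nat_lit 0) (XT.nd (nat_lit 78) (nat_lit 608) (nat_lit 0) (XT.lf (nat_lit 0) (nat_lit 15545207809) (nat_lit 836) (nat_lit 4459572622) (nat_lit 76) (nat_lit 13006079781) (nat_lit 186) (nat_lit 5) (nat_lit 197) (nat_lit 5) (nat_lit 187) (nat_lit 5) (nat_lit 340) (nat_lit 320) (nat_lit 120)) (XT.lf (nat_lit 0) (nat_lit 12112877468) (nat_lit 608) (nat_lit 6496630670) (nat_lit 684) (nat_lit 14955770223) (nat_lit 178) (nat_lit 5) (nat_lit 186) (nat_lit 5) (nat_lit 187) (nat_lit 5) (nat_lit 341) (nat_lit 320)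 (nat_lit 119))) (XT.nd (nat_lit 78) (nat_lit 532) (nat_lit 0) (XT.lf (nat_lit 0) (nat_lit 21880041614) (nat_lit 684) (nat_lit 4935170683) (nat_lit 76) (nat_lit 7317689982) (nat_lit 178) (nat_lit 5) (nat_lit 187) (nat_lit 5) (nat_lit 179) (nat_lit 5) (nat_lit 342) (nat_lit 320) (nat_lit 118)) (XT.lf (nat_lit 0) (nat_lit 12249993687) (nat_lit 532) (nat_lit 13178377689) (nat_lit 608) (nat_lit 9283795409) (nat_lit 171) (nat_lit 5) (nat_lit 178) (nat_lit 5) (nat_lit 179) (nat_lit 5) (nat_lit 343) (nat_lit 320) (nat_lit 117)))) (XT.nd (nat_lit 156) (nat_lit 608) (nat_lit 0) (XT.nd (nat_lit 78) (nat_lit 532) (nat_lit 0) (XT.lf (nat_lit 0) (nat_lit 29139470909) (nat_lit 608) (nat_lit 5266619948) (nat_lit 76) (nat_lit 901030986) (nat_lit 171) (nat_lit 5) (nat_lit 179) (nat_lit 5) (nat_lit 172) (nat_lit 5) (nat_lit 344) (nat_lit 320) (nat_lit 116)) (XT.lf (nat_lit 0) (nat_lit 12557071018) (nat_lit 532) (nat_lit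 20653737424) (nat_lit 608) (nat_lit 2701652109) (nat_lit 164) (nat_lit 5) (nat_lit 171) (nat_lit 5) (nat_lit 172) (nat_lit 5) (nat_lit 345) (nat_lit 320) (nat_lit 115))) (XT.nd (nat_lit 78) (nat_lit 532) (nat_lit 0) (XT.lf (nat_lit 0) (nat_lit 902831873) (nat_lit 608) (nat_lit 5522112218) (nat_lit 76) (nat_lit 30109223464) (nat_lit 163) (nat_lit 5) (nat_lit 171) (nat_lit 5) (nat_lit 164) (nat_lit 5) (nat_lit 346) (nat_lit 320) (nat_lit 114)) (XT.lf (nat_lit 0) (nat_lit 4765241687) (nat_lit 608) (nat_lit 24178388103) (nat_lit 76) (nat_lit 8223972722) (nat_lit 156) (nat_lit 5) (nat_lit 164) (nat_lit 5) (nat_lit 157) (nat_lit 5) (nat_lit 347) (nat_lit 320) (nat_lit 113))))))))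
noncomputable def xc226 : XT := (XT.nd (nat_lit 2184) (nat_lit 2432) (nat_lit 0) (XT.nd (nat_lit 1092) (nat_lit 2432) (nat_lit 0) (XT.nd (nat_lit 546) (nat_lit 1672) (nat_lit 0) (XT.nd (nat_lit 234) (nat_lit 912) (nat_lit 0) (XT.nd (nat_lit 78) (nat_lit 532) (nat_lit 0) (XT.lf (nat_lit 0) (nat_lit 8861299729) (nat_lit 608) (nat_lit 5715739021) (nat_lit 76) (nat_lit 23239470396) (nat_lit 156) (nat_lit 5) (nat_lit 164) (nat_lit 5) (nat_lit 157) (nat_lit 5) (nat_lit 348) (nat_lit 320) (nat_lit 112)) (XT.nd (nat_lit 78) (nat_lit 0) (nat_lit 0) (XT.lf (nat_lit 0) (nat_lit 13211938057) (nat_lit 608) (nat_lit 24921206834) (nat_lit 76) (nat_lit 347788987) (nat_lit 149) (nat_lit 5) (nat_lit 157) (nat_lit 5) (nat_lit 150) (nat_lit 5) (nat_lit 349) (nat_lit 320) (nat_lit 111)) (XT.lf (nat_lit 0) (nat_lit 17893660896) (nat_lit 608) (nat_lit 5780092533) (nat_lit 76) (nat_lit 15485522760) (nat_lit 149) (nat_lit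 5) (nat_lit 157) (nat_lit 5) (nat_lit 150) (nat_lit 5) (nat_lit 350) (nat_lit 320) (nat_lit 110)))) (XT.nd (nat_lit 156) (nat_lit 456) (nat_lit 0) (XT.nd (nat_lit 78) (nat_lit 0) (nat_lit 0) (XT.lf (nat_lit 0) (nat_lit 14210357963) (nat_lit 456) (nat_lit 8640084873) (nat_lit 532) (nat_lit 17003489458) (nat_lit 143) (nat_lit 5) (nat_lit 149) (nat_lit 5) (nat_lit 150) (nat_lit 5) (nat_lit 351) (nat_lit 320) (nat_lit 109)) (XT.lf (nat_lit 0) (nat_lit 28078711962) (nat_lit 532) (nat_lit 5717270407) (nat_lit 76) (nat_lit 6769763898) (nat_lit 143) (nat_lit 5) (nat_lit 150) (nat_lit 5) (nat_lit 144) (nat_lit 5) (nat_lit 352) (nat_lit 320) (nat_lit 108))) (XT.nd (nat_lit 78) (nat_lit 0) (nat_lit 0) (XT.lf (nat_lit 0) (nat_lit 15012052138) (nat_lit 456) (nat_lit 18679728228) (nat_lit 532) (nat_lit 7600297402) (nat_lit 137) (nat_lit 5) (nat_lit 143) (nat_lit 5) (nat_lit 144) (nat_lit 5) (nat_lit 353) (nat_lit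 320) (nat_lit 107)) (XT.lf (nat_lit 0) (nat_lit 36478309707) (nat_lit 456) (nat_lit 3050799835) (nat_lit 532) (nat_lit 2509415210) (nat_lit 137) (nat_lit 5) (nat_lit 143) (nat_lit 5) (nat_lit 144) (nat_lit 5) (nat_lit 354) (nat_lit 320) (nat_lit 106))))) (XT.nd (nat_lit 234) (nat_lit 760) (nat_lit 0) (XT.nd (nat_lit 78) (nat_lit 456) (nat_lit 0) (XT.lf (nat_lit 0) (nat_lit 2960651207) (nat_lit 456) (nat_lit 26862902239) (nat_lit 76) (nat_lit 12974630372) (nat_lit 131) (nat_lit 5) (nat_lit 137) (nat_lit 5) (nat_lit 132) (nat_lit 5) (nat_lit 355) (nat_lit 320) (nat_lit 105)) (XT.nd (nat_lit 78) (nat_lit 456) (nat_lit 0) (XT.lf (nat_lit 0) (nat_lit 8629492566) (nat_lit 456) (nat_lit 5447084009) (nat_lit 76) (nat_lit 29500758882) (nat_lit 131) (nat_lit 5) (nat_lit 137) (nat_lit 5) (nat_lit 132) (nat_lit 5) (nat_lit 356) (nat_lit 320) (nat_lit 104)) (XT.lf (nat_lit 0) (nat_lit 14651693632) (nat_lit 532)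 (nat_lit 27457562193) (nat_lit 76) (nat_lit 2265108407) (nat_lit 125) (nat_lit 5) (nat_lit 132) (nat_lit 5) (nat_lit 126) (nat_lit 5) (nat_lit 357) (nat_lit 320) (nat_lit 103)))) (XT.nd (nat_lit 156) (nat_lit 380) (nat_lit 0) (XT.nd (nat_lit 78) (nat_lit 380) (nat_lit 0) (XT.lf (nat_lit 0) (nat_lit 21047762880) (nat_lit 532) (nat_lit 5272422490) (nat_lit 76) (nat_lit 18869323814) (nat_lit 125) (nat_lit 5) (nat_lit 132) (nat_lit 5) (nat_lit 126) (nat_lit 5) (nat_lit 358) (nat_lit 320) (nat_lit 102)) (XT.lf (nat_lit 0) (nat_lit 17926017555) (nat_lit 380) (nat_lit 9880343211) (nat_lit 456) (nat_lit 18217629660) (nat_lit 120) (nat_lit 5) (nat_lit 125) (nat_lit 5) (nat_lit 126) (nat_lit 5) (nat_lit 359) (nat_lit 320) (nat_lit 101))) (XT.nd (nat_lit 78) (nat_lit 380) (nat_lit 0) (XT.lf (nat_lit 0) (nat_lit 34887635650) (nat_lit 456) (nat_lit 5023822113) (nat_lit 76) (nat_lit 6968452071) (nat_lit 120)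 (nat_lit 5) (nat_lit 126) (nat_lit 5) (nat_lit 121) (nat_lit 5) (nat_lit 360) (nat_lit 320) (nat_lit 100)) (XT.lf (nat_lit 0) (nat_lit 19013733456) (nat_lit 380) (nat_lit 23446616006) (nat_lit 456) (nat_lit 5292788605) (nat_lit 115) (nat_lit 5) (nat_lit 120) (nat_lit 5) (nat_lit 121) (nat_lit 5) (nat_lit 361) (nat_lit 320) (nat_lit 99)))))) (XT.nd (nat_lit 546) (nat_lit 1292) (nat_lit 0) (XT.nd (nat_lit 234) (nat_lit 684) (nat_lit 0) (XT.nd (nat_lit 78) (nat_lit 380) (nat_lit 0) (XT.lf (nat_lit 0) (nat_lit 1625957304) (nat_lit 456) (nat_lit 4793632293) (nat_lit 76) (nat_lit 42231021694) (nat_lit 114) (nat_lit 5) (nat_lit 120) (nat_lit 5) (nat_lit 115) (nat_lit 5) (nat_lit 362) (nat_lit 320) (nat_lit 98)) (XT.nd (nat_lit 78) (nat_lit 0) (nat_lit 0) (XT.lf (nat_lit 0) (nat_lit 8947935763) (nat_lit 456) (nat_lit 29466454615) (nat_lit 76) (nat_lit 11149985874) (nat_lit 109) (nat_lit 5) (nat_lit 115)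 (nat_lit 5) (nat_lit 110) (nat_lit 5) (nat_lit 363) (nat_lit 320) (nat_lit 97)) (XT.lf (nat_lit 0) (nat_lit 16600501787) (nat_lit 456) (nat_lit 4735652152) (nat_lit 76) (nat_lit 29166073499) (nat_lit 109) (nat_lit 5) (nat_lit 115) (nat_lit 5) (nat_lit 110) (nat_lit 5) (nat_lit 364) (nat_lit 320) (nat_lit 96)))) (XT.nd (nat_lit 156) (nat_lit 304) (nat_lit 0) (XT.nd (nat_lit 78) (nat_lit 0) (nat_lit 0) (XT.lf (nat_lit 0) (nat_lit 21147804844) (nat_lit 380) (nat_lit 3536652147) (nat_lit 456) (nat_lit 26777703891) (nat_lit 104) (nat_lit 5) (nat_lit 109) (nat_lit 5) (nat_lit 110) (nat_lit 5) (nat_lit 365) (nat_lit 320) (nat_lit 95)) (XT.lf (nat_lit 0) (nat_lit 33200007841) (nat_lit 456) (nat_lit 4689285993) (nat_lit 76) (nat_lit 14555927242) (nat_lit 104) (nat_lit 5) (nat_lit 110) (nat_lit 5) (nat_lit 105) (nat_lit 5) (nat_lit 366) (nat_lit 320) (nat_lit 94))) (XT.nd (nat_lit 78) (nat_lit 0) (nat_lit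 0) (XT.lf (nat_lit 0) (nat_lit 22098844584) (nat_lit 304) (nat_lit 20118213426) (nat_lit 380) (nat_lit 11233335108) (nat_lit 100) (nat_lit 5) (nat_lit 104) (nat_lit 5) (nat_lit 105) (nat_lit 5) (nat_lit 367) (nat_lit 320) (nat_lit 93)) (XT.lf (nat_lit 0) (nat_lit 49784860237) (nat_lit 304) (nat_lit 1765723851) (nat_lit 380) (nat_lit 2933758297) (nat_lit 100) (nat_lit 5) (nat_lit 104) (nat_lit 5) (nat_lit 105) (nat_lit 5) (nat_lit 368) (nat_lit 320) (nat_lit 92))))) (XT.nd (nat_lit 234) (nat_lit 608) (nat_lit 0) (XT.nd (nat_lit 78) (nat_lit 304) (nat_lit 0) (XT.lf (nat_lit 0) (nat_lit 5893858896) (nat_lit 380) (nat_lit 32560507976) (nat_lit 76) (nat_lit 17081666464) (nat_lit 95) (nat_lit 5) (nat_lit 100) (nat_lit 5) (nat_lit 96) (nat_lit 5) (nat_lit 369) (nat_lit 320) (nat_lit 91)) (XT.nd (nat_lit 78) (nat_lit 304) (nat_lit 0) (XT.lf (nat_lit 0) (nat_lit 14991401933) (nat_lit 380) (nat_lit 5089608721)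 (nat_lit 76) (nat_lit 36535471972) (nat_lit 95) (nat_lit 5) (nat_lit 100) (nat_lit 5) (nat_lit 96) (nat_lit 5) (nat_lit 370) (nat_lit 320) (nat_lit 90)) (XT.lf (nat_lit 0) (nat_lit 23665393351) (nat_lit 304) (nat_lit 922658455) (nat_lit 380) (nat_lit 33134509055) (nat_lit 91) (nat_lit 5) (nat_lit 95) (nat_lit 5) (nat_lit 96) (nat_lit 5) (nat_lit 371) (nat_lit 320) (nat_lit 89)))) (XT.nd (nat_lit 156) (nat_lit 304) (nat_lit 0) (XT.nd (nat_lit 78) (nat_lit 304) (nat_lit 0) (XT.lf (nat_lit 0) (nat_lit 34704032624) (nat_lit 380) (nat_lit 5656066274) (nat_lit 76) (nat_lit 18494780463) (nat_lit 91) (nat_lit 5) (nat_lit 96) (nat_lit 5) (nat_lit 92) (nat_lit 5) (nat_lit 372) (nat_lit 320) (nat_lit 88)) (XT.lf (nat_lit 0) (nat_lit 24055559102) (nat_lit 304) (nat_lit 21307053337) (nat_lit 380) (nat_lit 14651382222) (nat_lit 87) (nat_lit 5) (nat_lit 91) (nat_lit 5) (nat_lit 92) (nat_lit 5) (nat_lit 373) (nat_lit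 320) (nat_lit 87))) (XT.nd (nat_lit 78) (nat_lit 304) (nat_lit 0) (XT.lf (nat_lit 0) (nat_lit 54772710280) (nat_lit 304) (nat_lit 1624121636) (nat_lit 380) (nat_lit 4809375849) (nat_lit 87) (nat_lit 5) (nat_lit 91) (nat_lit 5) (nat_lit 92) (nat_lit 5) (nat_lit 374) (nat_lit 320) (nat_lit 86)) (XT.lf (nat_lit 0) (nat_lit 5639358791) (nat_lit 304) (nat_lit 38207371261) (nat_lit 76) (nat_lit 18573458490) (nat_lit 83) (nat_lit 5) (nat_lit 87) (nat_lit 5) (nat_lit 84) (nat_lit 5) (nat_lit 375) (nat_lit 320) (nat_lit 85))))))) (XT.nd (nat_lit 1092) (nat_lit 608) (nat_lit 0) (XT.nd (nat_lit 546) (nat_lit 988) (nat_lit 0) (XT.nd (nat_lit 234) (nat_lit 532) (nat_lit 0) (XT.nd (nat_lit 78) (nat_lit 304) (nat_lit 0) (XT.lf (nat_lit 0) (nat_lit 16385385053) (nat_lit 304) (nat_lit 7824333557) (nat_lit 76) (nat_lit 39457027550) (nat_lit 83) (nat_lit 5) (nat_lit 87) (nat_lit 5) (nat_lit 84) (nat_lit 5) (nat_lit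 376) (nat_lit 320) (nat_lit 84)) (XT.nd (nat_lit 78) (nat_lit 0) (nat_lit 0) (XT.lf (nat_lit 0) (nat_lit 23935560938) (nat_lit 304) (nat_lit 3747153182) (nat_lit 380) (nat_lit 37261119444) (nat_lit 79) (nat_lit 5) (nat_lit 83) (nat_lit 5) (nat_lit 84) (nat_lit 5) (nat_lit 377) (nat_lit 320) (nat_lit 83)) (XT.lf (nat_lit 0) (nat_lit 39564186651) (nat_lit 380) (nat_lit 9617298288) (nat_lit 76) (nat_lit 17070392642) (nat_lit 79) (nat_lit 5) (nat_lit 84) (nat_lit 5) (nat_lit 80) (nat_lit 5) (nat_lit 378) (nat_lit 320) (nat_lit 82)))) (XT.nd (nat_lit 156) (nat_lit 304) (nat_lit 0) (XT.nd (nat_lit 78) (nat_lit 0) (nat_lit 0) (XT.lf (nat_lit 0) (nat_lit 23127947877) (nat_lit 228) (nat_lit 28932460605) (nat_lit 304) (nat_lit 15531005962) (nat_lit 76) (nat_lit 5) (nat_lit 79) (nat_lit 5) (nat_lit 80) (nat_lit 5) (nat_lit 379) (nat_lit 320) (nat_lit 81)) (XT.lf (nat_lit 0) (nat_lit 57051046512) (nat_lit 228)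 (nat_lit 7976487553) (nat_lit 304) (nat_lit 3940723494) (nat_lit 76) (nat_lit 5) (nat_lit 79) (nat_lit 5) (nat_lit 80) (nat_lit 5) (nat_lit 380) (nat_lit 320) (nat_lit 80))) (XT.nd (nat_lit 78) (nat_lit 0) (nat_lit 0) (XT.lf (nat_lit 0) (nat_lit 8184837851) (nat_lit 304) (nat_lit 48556095136) (nat_lit 76) (nat_lit 13632858585) (nat_lit 72) (nat_lit 5) (nat_lit 76) (nat_lit 5) (nat_lit 73) (nat_lit 5) (nat_lit 381) (nat_lit 320) (nat_lit 79)) (XT.lf (nat_lit 0) (nat_lit 20794401217) (nat_lit 304) (nat_lit 15129758187) (nat_lit 76) (nat_lit 35890179097) (nat_lit 72) (nat_lit 5) (nat_lit 76) (nat_lit 5) (nat_lit 73) (nat_lit 5) (nat_lit 382) (nat_lit 320) (nat_lit 78))))) (XT.nd (nat_lit 234) (nat_lit 532) (nat_lit 0) (XT.nd (nat_lit 78) (nat_lit 228) (nat_lit 0) (XT.lf (nat_lit 0) (nat_lit 19681844778) (nat_lit 228) (nat_lit 14288564465) (nat_lit 304) (nat_lit 39322048449) (nat_lit 69) (nat_lit 5)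 (nat_lit 72) (nat_lit 5) (nat_lit 73) (nat_lit 5) (nat_lit 383) (nat_lit 320) (nat_lit 77)) (XT.nd (nat_lit 78) (nat_lit 228) (nat_lit 0) (XT.lf (nat_lit 0) (nat_lit 47771828068) (nat_lit 304) (nat_lit 19042370169) (nat_lit 76) (nat_lit 7993818871) (nat_lit 69) (nat_lit 5) (nat_lit 73) (nat_lit 5) (nat_lit 70) (nat_lit 5) (nat_lit 384) (nat_lit 320) (nat_lit 76)) (XT.lf (nat_lit 0) (nat_lit 16746685512) (nat_lit 228) (nat_lit 45542057758) (nat_lit 304) (nat_lit 14071256976) (nat_lit 66) (nat_lit 5) (nat_lit 69) (nat_lit 5) (nat_lit 70) (nat_lit 5) (nat_lit 385) (nat_lit 320) (nat_lit 75)))) (XT.nd (nat_lit 156) (nat_lit 228) (nat_lit 0) (XT.nd (nat_lit 78) (nat_lit 304) (nat_lit 0) (XT.lf (nat_lit 0) (nat_lit 53998226431) (nat_lit 228) (nat_lit 23434247845) (nat_lit 304) (nat_lit 520329885) (nat_lit 66) (nat_lit 5) (nat_lit 69) (nat_lit 5) (nat_lit 70) (nat_lit 5) (nat_lit 386) (nat_lit 320) (nat_lit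 74)) (XT.lf (nat_lit 0) (nat_lit 12894869581) (nat_lit 228) (nat_lit 403038507) (nat_lit 304) (nat_lit 66287919941) (nat_lit 62) (nat_lit 5) (nat_lit 65) (nat_lit 5) (nat_lit 66) (nat_lit 5) (nat_lit 387) (nat_lit 320) (nat_lit 73))) (XT.nd (nat_lit 78) (nat_lit 228) (nat_lit 0) (XT.lf (nat_lit 0) (nat_lit 27987726701) (nat_lit 304) (nat_lit 30152964615) (nat_lit 76) (nat_lit 23112972486) (nat_lit 62) (nat_lit 5) (nat_lit 66) (nat_lit 5) (nat_lit 63) (nat_lit 5) (nat_lit 388) (nat_lit 320) (nat_lit 72)) (XT.lf (nat_lit 0) (nat_lit 7624483766) (nat_lit 228) (nat_lit 35570110439) (nat_lit 304) (nat_lit 39774650289) (nat_lit 59) (nat_lit 5) (nat_lit 62) (nat_lit 5) (nat_lit 63) (nat_lit 5) (nat_lit 389) (nat_lit 320) (nat_lit 71)))))) (XT.nd (nat_lit 546) (nat_lit 0) (nat_lit 0) (XT.nd (nat_lit 234) (nat_lit 380) (nat_lit 0) (XT.nd (nat_lit 78) (nat_lit 228) (nat_lit 0) (XT.lf (nat_lit 0) (nat_lit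 47151900358) (nat_lit 228) (nat_lit 12009338811) (nat_lit 304) (nat_lit 25565946757) (nat_lit 59) (nat_lit 5) (nat_lit 62) (nat_lit 5) (nat_lit 63) (nat_lit 5) (nat_lit 390) (nat_lit 320) (nat_lit 70)) (XT.nd (nat_lit 78) (nat_lit 76) (nat_lit 0) (XT.lf (nat_lit 0) (nat_lit 1232040677) (nat_lit 152) (nat_lit 74503626929) (nat_lit 228) (nat_lit 10798334919) (nat_lit 57) (nat_lit 5) (nat_lit 59) (nat_lit 5) (nat_lit 60) (nat_lit 5) (nat_lit 391) (nat_lit 320) (nat_lit 69)) (XT.lf (nat_lit 0) (nat_lit 4827413442) (nat_lit 228) (nat_lit 46576317085) (nat_lit 76) (nat_lit 36974984860) (nat_lit 56) (nat_lit 5) (nat_lit 59) (nat_lit 5) (nat_lit 57) (nat_lit 5) (nat_lit 392) (nat_lit 320) (nat_lit 68)))) (XT.nd (nat_lit 156) (nat_lit 152) (nat_lit 0) (XT.nd (nat_lit 78) (nat_lit 228) (nat_lit 0) (XT.lf (nat_lit 0) (nat_lit 20704034616) (nat_lit 228) (nat_lit 6797219970) (nat_lit 76) (nat_lit 62774333947)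 (nat_lit 56) (nat_lit 5) (nat_lit 59) (nat_lit 5) (nat_lit 57) (nat_lit 5) (nat_lit 393) (nat_lit 320) (nat_lit 67)) (XT.lf (nat_lit 0) (nat_lit 34854015511) (nat_lit 228) (nat_lit 2537138392) (nat_lit 304) (nat_lit 54828188386) (nat_lit 53) (nat_lit 5) (nat_lit 56) (nat_lit 5) (nat_lit 57) (nat_lit 5) (nat_lit 394) (nat_lit 320) (nat_lit 66))) (XT.nd (nat_lit 78) (nat_lit 152) (nat_lit 0) (XT.lf (nat_lit 0) (nat_lit 54870153705) (nat_lit 304) (nat_lit 16550054391) (nat_lit 76) (nat_lit 22792462939) (nat_lit 53) (nat_lit 5) (nat_lit 57) (nat_lit 5) (nat_lit 54) (nat_lit 5) (nat_lit 395) (nat_lit 320) (nat_lit 65)) (XT.lf (nat_lit 0) (nat_lit 25969995233) (nat_lit 152) (nat_lit 47177479980) (nat_lit 228) (nat_lit 23110106255) (nat_lit 51) (nat_lit 5) (nat_lit 53) (nat_lit 5) (nat_lit 54) (nat_lit 5) (nat_lit 396) (nat_lit 320) (nat_lit 64))))) (XT.nd (nat_lit 34944) (nat_lit 0) (nat_lit 11780) (XT.nd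 (nat_lit 34788) (nat_lit 0) (nat_lit 11704) (XT.nd (nat_lit 34710) (nat_lit 0) (nat_lit 11704) (XT.lf (nat_lit 0) (nat_lit 70103590366) (nat_lit 152) (nat_lit 22035852031) (nat_lit 228) (nat_lit 6219407400) (nat_lit 51) (nat_lit 5) (nat_lit 53) (nat_lit 5) (nat_lit 54) (nat_lit 5) (nat_lit 397) (nat_lit 320) (nat_lit 63)) (XT.lf (nat_lit 0) (nat_lit 3766952446) (nat_lit 0) (nat_lit 3766952446) (nat_lit 1140) (nat_lit 4897411737) (nat_lit 205) (nat_lit 5) (nat_lit 205) (nat_lit 3) (nat_lit 220) (nat_lit 3) (nat_lit 321) (nat_lit 321) (nat_lit 138))) (XT.nd (nat_lit 78) (nat_lit 0) (nat_lit 0) (XT.lf (nat_lit 0) (nat_lit 15433424943) (nat_lit 1140) (nat_lit 5958672046) (nat_lit 1216) (nat_lit 3839182350) (nat_lit 205) (nat_lit 5) (nat_lit 220) (nat_lit 3) (nat_lit 221) (nat_lit 5) (nat_lit 322) (nat_lit 321) (nat_lit 137)) (XT.lf (nat_lit 76) (nat_lit 5788719407) (nat_lit 0) (nat_lit 10147566932)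 (nat_lit 1216) (nat_lit 9670914249) (nat_lit 206) (nat_lit 5) (nat_lit 205) (nat_lit 5) (nat_lit 221) (nat_lit 5) (nat_lit 323) (nat_lit 321) (nat_lit 136)))) (XT.nd (nat_lit 156) (nat_lit 0) (nat_lit 0) (XT.nd (nat_lit 78) (nat_lit 0) (nat_lit 0) (XT.lf (nat_lit 0) (nat_lit 16524939448) (nat_lit 1140) (nat_lit 7998546021) (nat_lit 1216) (nat_lit 1468796825) (nat_lit 206) (nat_lit 5) (nat_lit 221) (nat_lit 5) (nat_lit 222) (nat_lit 5) (nat_lit 324) (nat_lit 321) (nat_lit 135)) (XT.lf (nat_lit 76) (nat_lit 4154400934) (nat_lit 0) (nat_lit 13113520755) (nat_lit 1216) (nat_lit 9116898554) (nat_lit 207) (nat_lit 5) (nat_lit 206) (nat_lit 5) (nat_lit 222) (nat_lit 5) (nat_lit 325) (nat_lit 321) (nat_lit 134))) (XT.nd (nat_lit 78) (nat_lit 0) (nat_lit 76) (XT.lf (nat_lit 76) (nat_lit 16833737424) (nat_lit 0) (nat_lit 1276577585) (nat_lit 1216) (nat_lit 8676509442) (nat_lit 207) (nat_lit 5) (nat_lit 206)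 (nat_lit 5) (nat_lit 222) (nat_lit 5) (nat_lit 326) (nat_lit 321) (nat_lit 133)) (XT.lf (nat_lit 76) (nat_lit 2636871811) (nat_lit 0) (nat_lit 16467853863) (nat_lit 1216) (nat_lit 8092364401) (nat_lit 208) (nat_lit 5) (nat_lit 207) (nat_lit 5) (nat_lit 223) (nat_lit 5) (nat_lit 327) (nat_lit 321) (nat_lit 132))))))))
noncomputable def xc227 : XT := (XT.nd (nat_lit 2184) (nat_lit 5168) (nat_lit 0) (XT.nd (nat_lit 1092) (nat_lit 3724) (nat_lit 0) (XT.nd (nat_lit 546) (nat_lit 1596) (nat_lit 0) (XT.nd (nat_lit 234) (nat_lit 0) (nat_lit 152) (XT.nd (nat_lit 78) (nat_lit 0) (nat_lit 76) (XT.lf (nat_lit 76) (nat_lit 15793466733) (nat_lit 0) (nat_lit 4445077769) (nat_lit 1216) (nat_lit 7377835444) (nat_lit 208) (nat_lit 5) (nat_lit 207) (nat_lit 5) (nat_lit 223) (nat_lit 5) (nat_lit 328) (nat_lit 321) (nat_lit 131)) (XT.nd (nat_lit 78) (nat_lit 0) (nat_lit 0) (XT.lf (nat_lit 76) (nat_lit 1242190370) (nat_lit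 0) (nat_lit 20249102516) (nat_lit 1216) (nat_lit 6554411623) (nat_lit 209) (nat_lit 5) (nat_lit 208) (nat_lit 5) (nat_lit 224) (nat_lit 5) (nat_lit 329) (nat_lit 321) (nat_lit 130)) (XT.lf (nat_lit 76) (nat_lit 14894489049) (nat_lit 0) (nat_lit 8046843508) (nat_lit 1216) (nat_lit 5541788334) (nat_lit 209) (nat_lit 5) (nat_lit 208) (nat_lit 5) (nat_lit 224) (nat_lit 5) (nat_lit 330) (nat_lit 321) (nat_lit 129)))) (XT.nd (nat_lit 156) (nat_lit 0) (nat_lit 76) (XT.nd (nat_lit 78) (nat_lit 0) (nat_lit 0) (XT.lf (nat_lit 0) (nat_lit 24475182597) (nat_lit 1140) (nat_lit 23038736) (nat_lit 1216) (nat_lit 4434232406) (nat_lit 209) (nat_lit 5) (nat_lit 224) (nat_lit 5) (nat_lit 225) (nat_lit 5) (nat_lit 331) (nat_lit 321) (nat_lit 128)) (XT.lf (nat_lit 76) (nat_lit 14143637546) (nat_lit 0) (nat_lit 12123977388) (nat_lit 1216) (nat_lit 3121277789) (nat_lit 210) (nat_lit 5) (nat_lit 209) (nat_lit 5) (nat_lit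 225) (nat_lit 5) (nat_lit 332) (nat_lit 321) (nat_lit 127))) (XT.nd (nat_lit 78) (nat_lit 0) (nat_lit 0) (XT.lf (nat_lit 0) (nat_lit 28117043123) (nat_lit 1140) (nat_lit 1131493238) (nat_lit 1216) (nat_lit 610394892) (nat_lit 210) (nat_lit 5) (nat_lit 225) (nat_lit 5) (nat_lit 226) (nat_lit 5) (nat_lit 333) (nat_lit 321) (nat_lit 126)) (XT.lf (nat_lit 76) (nat_lit 13547789667) (nat_lit 0) (nat_lit 16721534245) (nat_lit 1216) (nat_lit 66328908) (nat_lit 211) (nat_lit 5) (nat_lit 210) (nat_lit 5) (nat_lit 226) (nat_lit 5) (nat_lit 334) (nat_lit 321) (nat_lit 125))))) (XT.nd (nat_lit 234) (nat_lit 608) (nat_lit 0) (XT.nd (nat_lit 78) (nat_lit 0) (nat_lit 76) (XT.lf (nat_lit 0) (nat_lit 1635786463) (nat_lit 1216) (nat_lit 2154009719) (nat_lit 1292) (nat_lit 27036143929) (nat_lit 194) (nat_lit 5) (nat_lit 210) (nat_lit 5) (nat_lit 211) (nat_lit 5) (nat_lit 335) (nat_lit 321) (nat_lit 124)) (XT.nd (nat_lit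 78) (nat_lit 0) (nat_lit 0) (XT.lf (nat_lit 0) (nat_lit 3604349470) (nat_lit 1216) (nat_lit 18247011327) (nat_lit 1292) (nat_lit 9473056723) (nat_lit 195) (nat_lit 5) (nat_lit 211) (nat_lit 5) (nat_lit 212) (nat_lit 5) (nat_lit 336) (nat_lit 321) (nat_lit 123)) (XT.lf (nat_lit 0) (nat_lit 5688740918) (nat_lit 1216) (nat_lit 3067274374) (nat_lit 1292) (nat_lit 23080133455) (nat_lit 195) (nat_lit 5) (nat_lit 211) (nat_lit 5) (nat_lit 212) (nat_lit 5) (nat_lit 337) (nat_lit 321) (nat_lit 122)))) (XT.nd (nat_lit 156) (nat_lit 760) (nat_lit 0) (XT.nd (nat_lit 78) (nat_lit 0) (nat_lit 0) (XT.lf (nat_lit 0) (nat_lit 8002930932) (nat_lit 1216) (nat_lit 19590588024) (nat_lit 76) (nat_lit 4764697516) (nat_lit 196) (nat_lit 5) (nat_lit 212) (nat_lit 5) (nat_lit 197) (nat_lit 5) (nat_lit 338) (nat_lit 321) (nat_lit 121)) (XT.lf (nat_lit 0) (nat_lit 10501941259) (nat_lit 1216) (nat_lit 3843818290) (nat_lit 76)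 (nat_lit 18546727331) (nat_lit 196) (nat_lit 5) (nat_lit 212) (nat_lit 5) (nat_lit 197) (nat_lit 5) (nat_lit 339) (nat_lit 321) (nat_lit 120))) (XT.nd (nat_lit 78) (nat_lit 0) (nat_lit 0) (XT.lf (nat_lit 0) (nat_lit 12619414624) (nat_lit 760) (nat_lit 575309182) (nat_lit 836) (nat_lit 20244499956) (nat_lit 186) (nat_lit 5) (nat_lit 196) (nat_lit 5) (nat_lit 197) (nat_lit 5) (nat_lit 340) (nat_lit 321) (nat_lit 119)) (XT.lf (nat_lit 0) (nat_lit 16135851204) (nat_lit 836) (nat_lit 4479301730) (nat_lit 76) (nat_lit 13382185323) (nat_lit 186) (nat_lit 5) (nat_lit 197) (nat_lit 5) (nat_lit 187) (nat_lit 5) (nat_lit 341) (nat_lit 321) (nat_lit 118)))))) (XT.nd (nat_lit 546) (nat_lit 1444) (nat_lit 0) (XT.nd (nat_lit 234) (nat_lit 1140) (nat_lit 0) (XT.nd (nat_lit 78) (nat_lit 532) (nat_lit 0) (XT.lf (nat_lit 0) (nat_lit 12589203647) (nat_lit 608) (nat_lit 6700342529) (nat_lit 684) (nat_lit 15278922276)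 (nat_lit 178) (nat_lit 5) (nat_lit 186) (nat_lit 5) (nat_lit 187) (nat_lit 5) (nat_lit 342) (nat_lit 321) (nat_lit 117)) (XT.nd (nat_lit 78) (nat_lit 532) (nat_lit 0) (XT.lf (nat_lit 0) (nat_lit 22654567210) (nat_lit 684) (nat_lit 4969834706) (nat_lit 76) (nat_lit 7528831394) (nat_lit 178) (nat_lit 5) (nat_lit 187) (nat_lit 5) (nat_lit 179) (nat_lit 5) (nat_lit 343) (nat_lit 321) (nat_lit 116)) (XT.lf (nat_lit 0) (nat_lit 12729772918) (nat_lit 532) (nat_lit 13577212730) (nat_lit 608) (nat_lit 9442964210) (nat_lit 171) (nat_lit 5) (nat_lit 178) (nat_lit 5) (nat_lit 179) (nat_lit 5) (nat_lit 344) (nat_lit 321) (nat_lit 115)))) (XT.nd (nat_lit 156) (nat_lit 608) (nat_lit 0) (XT.nd (nat_lit 78) (nat_lit 532) (nat_lit 0) (XT.lf (nat_lit 0) (nat_lit 30126013913) (nat_lit 608) (nat_lit 5312099286) (nat_lit 76) (nat_lit 924745672) (nat_lit 171) (nat_lit 5) (nat_lit 179) (nat_lit 5) (nat_lit 172) (nat_lit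 5) (nat_lit 345) (nat_lit 321) (nat_lit 114)) (XT.lf (nat_lit 0) (nat_lit 13045199278) (nat_lit 532) (nat_lit 21272090705) (nat_lit 608) (nat_lit 2669136887) (nat_lit 164) (nat_lit 5) (nat_lit 171) (nat_lit 5) (nat_lit 172) (nat_lit 5) (nat_lit 346) (nat_lit 321) (nat_lit 113))) (XT.nd (nat_lit 78) (nat_lit 532) (nat_lit 0) (XT.lf (nat_lit 0) (nat_lit 1038022389) (nat_lit 608) (nat_lit 5577356194) (nat_lit 76) (nat_lit 31011473955) (nat_lit 163) (nat_lit 5) (nat_lit 171) (nat_lit 5) (nat_lit 164) (nat_lit 5) (nat_lit 347) (nat_lit 321) (nat_lit 112)) (XT.lf (nat_lit 0) (nat_lit 5014238804) (nat_lit 608) (nat_lit 24791160607) (nat_lit 76) (nat_lit 8473955924) (nat_lit 156) (nat_lit 5) (nat_lit 164) (nat_lit 5) (nat_lit 157) (nat_lit 5) (nat_lit 348) (nat_lit 321) (nat_lit 111))))) (XT.nd (nat_lit 234) (nat_lit 912) (nat_lit 0) (XT.nd (nat_lit 78) (nat_lit 532) (nat_lit 0) (XT.lf (nat_lit 0) (nat_lit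 9230090048) (nat_lit 608) (nat_lit 5777911057) (nat_lit 76) (nat_lit 23939823459) (nat_lit 156) (nat_lit 5) (nat_lit 164) (nat_lit 5) (nat_lit 157) (nat_lit 5) (nat_lit 349) (nat_lit 321) (nat_lit 110)) (XT.nd (nat_lit 78) (nat_lit 0) (nat_lit 0) (XT.lf (nat_lit 0) (nat_lit 13709358854) (nat_lit 608) (nat_lit 25557565576) (nat_lit 76) (nat_lit 365316927) (nat_lit 149) (nat_lit 5) (nat_lit 157) (nat_lit 5) (nat_lit 150) (nat_lit 5) (nat_lit 350) (nat_lit 321) (nat_lit 109)) (XT.lf (nat_lit 0) (nat_lit 18528589806) (nat_lit 608) (nat_lit 5845458937) (nat_lit 76) (nat_lit 15956976084) (nat_lit 149) (nat_lit 5) (nat_lit 157) (nat_lit 5) (nat_lit 150) (nat_lit 5) (nat_lit 351) (nat_lit 321) (nat_lit 108)))) (XT.nd (nat_lit 156) (nat_lit 456) (nat_lit 0) (XT.nd (nat_lit 78) (nat_lit 0) (nat_lit 0) (XT.lf (nat_lit 0) (nat_lit 14743645894) (nat_lit 456) (nat_lit 8888599803) (nat_lit 532) (nat_lit 17414332311)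 (nat_lit 143) (nat_lit 5) (nat_lit 149) (nat_lit 5) (nat_lit 150) (nat_lit 5) (nat_lit 352) (nat_lit 321) (nat_lit 107)) (XT.lf (nat_lit 0) (nat_lit 29014658089) (nat_lit 532) (nat_lit 5782141228) (nat_lit 76) (nat_lit 6983030661) (nat_lit 143) (nat_lit 5) (nat_lit 150) (nat_lit 5) (nat_lit 144) (nat_lit 5) (nat_lit 353) (nat_lit 321) (nat_lit 106))) (XT.nd (nat_lit 78) (nat_lit 0) (nat_lit 0) (XT.lf (nat_lit 0) (nat_lit 15568015432) (nat_lit 456) (nat_lit 19226392452) (nat_lit 532) (nat_lit 7733597224) (nat_lit 137) (nat_lit 5) (nat_lit 143) (nat_lit 5) (nat_lit 144) (nat_lit 5) (nat_lit 354) (nat_lit 321) (nat_lit 105)) (XT.lf (nat_lit 0) (nat_lit 37675184950) (nat_lit 456) (nat_lit 3128996041) (nat_lit 532) (nat_lit 2492747083) (nat_lit 137) (nat_lit 5) (nat_lit 143) (nat_lit 5) (nat_lit 144) (nat_lit 5) (nat_lit 355) (nat_lit 321) (nat_lit 104))))))) (XT.nd (nat_lit 1092) (nat_lit 2356) (nat_lit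 0) (XT.nd (nat_lit 546) (nat_lit 1140) (nat_lit 0) (XT.nd (nat_lit 234) (nat_lit 760) (nat_lit 0) (XT.nd (nat_lit 78) (nat_lit 456) (nat_lit 0) (XT.lf (nat_lit 0) (nat_lit 3138137511) (nat_lit 456) (nat_lit 27562833206) (nat_lit 76) (nat_lit 13378426527) (nat_lit 131) (nat_lit 5) (nat_lit 137) (nat_lit 5) (nat_lit 132) (nat_lit 5) (nat_lit 356) (nat_lit 321) (nat_lit 103)) (XT.nd (nat_lit 78) (nat_lit 456) (nat_lit 0) (XT.lf (nat_lit 0) (nat_lit 8974461584) (nat_lit 456) (nat_lit 5507626528) (nat_lit 76) (nat_lit 30399914895) (nat_lit 131) (nat_lit 5) (nat_lit 137) (nat_lit 5) (nat_lit 132) (nat_lit 5) (nat_lit 357) (nat_lit 321) (nat_lit 102)) (XT.lf (nat_lit 0) (nat_lit 15175966878) (nat_lit 532) (nat_lit 28176989307) (nat_lit 76) (nat_lit 2350029352) (nat_lit 125) (nat_lit 5) (nat_lit 132) (nat_lit 5) (nat_lit 126) (nat_lit 5) (nat_lit 358) (nat_lit 321) (nat_lit 101)))) (XT.nd (nat_lit 156)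 (nat_lit 380) (nat_lit 0) (XT.nd (nat_lit 78) (nat_lit 380) (nat_lit 0) (XT.lf (nat_lit 0) (nat_lit 21761450560) (nat_lit 532) (nat_lit 5329333269) (nat_lit 76) (nat_lit 19451877017) (nat_lit 125) (nat_lit 5) (nat_lit 132) (nat_lit 5) (nat_lit 126) (nat_lit 5) (nat_lit 359) (nat_lit 321) (nat_lit 100)) (XT.lf (nat_lit 0) (nat_lit 18564067214) (nat_lit 380) (nat_lit 10157307247) (nat_lit 456) (nat_lit 18680846945) (nat_lit 120) (nat_lit 5) (nat_lit 125) (nat_lit 5) (nat_lit 126) (nat_lit 5) (nat_lit 360) (nat_lit 321) (nat_lit 99))) (XT.nd (nat_lit 78) (nat_lit 380) (nat_lit 0) (XT.lf (nat_lit 0) (nat_lit 36012915012) (nat_lit 456) (nat_lit 5074953344) (nat_lit 76) (nat_lit 7196017084) (nat_lit 120) (nat_lit 5) (nat_lit 126) (nat_lit 5) (nat_lit 121) (nat_lit 5) (nat_lit 361) (nat_lit 321) (nat_lit 98)) (XT.lf (nat_lit 0) (nat_lit 19682752584) (nat_lit 380) (nat_lit 24128714740) (nat_lit 456) (nat_lit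 5371885292) (nat_lit 115) (nat_lit 5) (nat_lit 120) (nat_lit 5) (nat_lit 121) (nat_lit 5) (nat_lit 362) (nat_lit 321) (nat_lit 97))))) (XT.nd (nat_lit 234) (nat_lit 684) (nat_lit 0) (XT.nd (nat_lit 78) (nat_lit 380) (nat_lit 0) (XT.lf (nat_lit 0) (nat_lit 1750592325) (nat_lit 456) (nat_lit 4840139595) (nat_lit 76) (nat_lit 43517065116) (nat_lit 114) (nat_lit 5) (nat_lit 120) (nat_lit 5) (nat_lit 115) (nat_lit 5) (nat_lit 363) (nat_lit 321) (nat_lit 96)) (XT.nd (nat_lit 78) (nat_lit 0) (nat_lit 0) (XT.lf (nat_lit 0) (nat_lit 9291156196) (nat_lit 456) (nat_lit 30252017397) (nat_lit 76) (nat_lit 11505835229) (nat_lit 109) (nat_lit 5) (nat_lit 115) (nat_lit 5) (nat_lit 110) (nat_lit 5) (nat_lit 364) (nat_lit 321) (nat_lit 95)) (XT.lf (nat_lit 0) (nat_lit 17171121073) (nat_lit 456) (nat_lit 4782157778) (nat_lit 76) (nat_lit 30061783644) (nat_lit 109) (nat_lit 5) (nat_lit 115) (nat_lit 5) (nat_lit 110)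 (nat_lit 5) (nat_lit 365) (nat_lit 321) (nat_lit 94)))) (XT.nd (nat_lit 156) (nat_lit 304) (nat_lit 0) (XT.nd (nat_lit 78) (nat_lit 0) (nat_lit 0) (XT.lf (nat_lit 0) (nat_lit 21876866027) (nat_lit 380) (nat_lit 3619523833) (nat_lit 456) (nat_lit 27507441797) (nat_lit 104) (nat_lit 5) (nat_lit 109) (nat_lit 5) (nat_lit 110) (nat_lit 5) (nat_lit 366) (nat_lit 321) (nat_lit 93)) (XT.lf (nat_lit 0) (nat_lit 34265544426) (nat_lit 456) (nat_lit 4736180293) (nat_lit 76) (nat_lit 15014716339) (nat_lit 104) (nat_lit 5) (nat_lit 110) (nat_lit 5) (nat_lit 105) (nat_lit 5) (nat_lit 367) (nat_lit 321) (nat_lit 92))) (XT.nd (nat_lit 78) (nat_lit 0) (nat_lit 0) (XT.lf (nat_lit 0) (nat_lit 22854674747) (nat_lit 304) (nat_lit 20697298696) (nat_lit 380) (nat_lit 11499830271) (nat_lit 100) (nat_lit 5) (nat_lit 104) (nat_lit 5) (nat_lit 105) (nat_lit 5) (nat_lit 368) (nat_lit 321) (nat_lit 91)) (XT.lf (nat_lit 0) (nat_lit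 51368566069) (nat_lit 304) (nat_lit 1794946893) (nat_lit 380) (nat_lit 2953319696) (nat_lit 100) (nat_lit 5) (nat_lit 104) (nat_lit 5) (nat_lit 105) (nat_lit 5) (nat_lit 369) (nat_lit 321) (nat_lit 90)))))) (XT.nd (nat_lit 546) (nat_lit 1064) (nat_lit 0) (XT.nd (nat_lit 234) (nat_lit 608) (nat_lit 0) (XT.nd (nat_lit 78) (nat_lit 304) (nat_lit 0) (XT.lf (nat_lit 0) (nat_lit 6136943378) (nat_lit 380) (nat_lit 33444889364) (nat_lit 76) (nat_lit 17618248612) (nat_lit 95) (nat_lit 5) (nat_lit 100) (nat_lit 5) (nat_lit 96) (nat_lit 5) (nat_lit 370) (nat_lit 321) (nat_lit 89)) (XT.nd (nat_lit 78) (nat_lit 304) (nat_lit 0) (XT.lf (nat_lit 0) (nat_lit 15505482549) (nat_lit 380) (nat_lit 5152555379) (nat_lit 76) (nat_lit 37654965407) (nat_lit 95) (nat_lit 5) (nat_lit 100) (nat_lit 5) (nat_lit 96) (nat_lit 5) (nat_lit 371) (nat_lit 321) (nat_lit 88)) (XT.lf (nat_lit 0) (nat_lit 24464216935) (nat_lit 304) (nat_lit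 924795238) (nat_lit 380) (nat_lit 34063283607) (nat_lit 91) (nat_lit 5) (nat_lit 95) (nat_lit 5) (nat_lit 96) (nat_lit 5) (nat_lit 372) (nat_lit 321) (nat_lit 87)))) (XT.nd (nat_lit 156) (nat_lit 304) (nat_lit 0) (XT.nd (nat_lit 78) (nat_lit 304) (nat_lit 0) (XT.lf (nat_lit 0) (nat_lit 35806866562) (nat_lit 380) (nat_lit 5737827722) (nat_lit 76) (nat_lit 19073938960) (nat_lit 91) (nat_lit 5) (nat_lit 96) (nat_lit 5) (nat_lit 92) (nat_lit 5) (nat_lit 373) (nat_lit 321) (nat_lit 86)) (XT.lf (nat_lit 0) (nat_lit 24864284450) (nat_lit 304) (nat_lit 21919958718) (nat_lit 380) (nat_lit 15028308852) (nat_lit 87) (nat_lit 5) (nat_lit 91) (nat_lit 5) (nat_lit 92) (nat_lit 5) (nat_lit 374) (nat_lit 321) (nat_lit 85))) (XT.nd (nat_lit 78) (nat_lit 304) (nat_lit 0) (XT.lf (nat_lit 0) (nat_lit 56500414476) (nat_lit 304) (nat_lit 1647305266) (nat_lit 380) (nat_lit 4892866020) (nat_lit 87) (nat_lit 5) (nat_lit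 91) (nat_lit 5) (nat_lit 92) (nat_lit 5) (nat_lit 375) (nat_lit 321) (nat_lit 84)) (XT.lf (nat_lit 0) (nat_lit 5867476565) (nat_lit 304) (nat_lit 39267141271) (nat_lit 76) (nat_lit 19156371726) (nat_lit 83) (nat_lit 5) (nat_lit 87) (nat_lit 5) (nat_lit 84) (nat_lit 5) (nat_lit 376) (nat_lit 321) (nat_lit 83))))) (XT.nd (nat_lit 312) (nat_lit 532) (nat_lit 0) (XT.nd (nat_lit 156) (nat_lit 228) (nat_lit 0) (XT.nd (nat_lit 78) (nat_lit 304) (nat_lit 0) (XT.lf (nat_lit 0) (nat_lit 16934167003) (nat_lit 304) (nat_lit 7975130430) (nat_lit 76) (nat_lit 40665699039) (nat_lit 83) (nat_lit 5) (nat_lit 87) (nat_lit 5) (nat_lit 84) (nat_lit 5) (nat_lit 377) (nat_lit 321) (nat_lit 82)) (XT.lf (nat_lit 0) (nat_lit 24736738026) (nat_lit 304) (nat_lit 3832810209) (nat_lit 380) (nat_lit 38320875327) (nat_lit 79) (nat_lit 5) (nat_lit 83) (nat_lit 5) (nat_lit 84) (nat_lit 5) (nat_lit 378) (nat_lit 321) (nat_lit 81)))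 (XT.nd (nat_lit 78) (nat_lit 228) (nat_lit 0) (XT.lf (nat_lit 0) (nat_lit 40806073320) (nat_lit 380) (nat_lit 9823702617) (nat_lit 76) (nat_lit 17607975715) (nat_lit 79) (nat_lit 5) (nat_lit 84) (nat_lit 5) (nat_lit 80) (nat_lit 5) (nat_lit 379) (nat_lit 321) (nat_lit 80)) (XT.lf (nat_lit 0) (nat_lit 23903095889) (nat_lit 228) (nat_lit 29773266707) (nat_lit 304) (nat_lit 15941137574) (nat_lit 76) (nat_lit 5) (nat_lit 79) (nat_lit 5) (nat_lit 80) (nat_lit 5) (nat_lit 380) (nat_lit 321) (nat_lit 79)))) (XT.nd (nat_lit 156) (nat_lit 228) (nat_lit 0) (XT.nd (nat_lit 78) (nat_lit 304) (nat_lit 0) (XT.lf (nat_lit 0) (nat_lit 58841519242) (nat_lit 228) (nat_lit 8189405756) (nat_lit 304) (nat_lit 4004771833) (nat_lit 76) (nat_lit 5) (nat_lit 79) (nat_lit 5) (nat_lit 80) (nat_lit 5) (nat_lit 381) (nat_lit 321) (nat_lit 78)) (XT.lf (nat_lit 0) (nat_lit 8482972615) (nat_lit 304) (nat_lit 49932192630) (nat_lit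 76) (nat_lit 14068232687) (nat_lit 72) (nat_lit 5) (nat_lit 76) (nat_lit 5) (nat_lit 73) (nat_lit 5) (nat_lit 382) (nat_lit 321) (nat_lit 77))) (XT.nd (nat_lit 78) (nat_lit 228) (nat_lit 0) (XT.lf (nat_lit 0) (nat_lit 21469291146) (nat_lit 304) (nat_lit 15505412719) (nat_lit 76) (nat_lit 36992504222) (nat_lit 72) (nat_lit 5) (nat_lit 76) (nat_lit 5) (nat_lit 73) (nat_lit 5) (nat_lit 383) (nat_lit 321) (nat_lit 76)) (XT.lf (nat_lit 0) (nat_lit 20349771294) (nat_lit 228) (nat_lit 14690065695) (nat_lit 304) (nat_lit 40449856976) (nat_lit 69) (nat_lit 5) (nat_lit 72) (nat_lit 5) (nat_lit 73) (nat_lit 5) (nat_lit 384) (nat_lit 321) (nat_lit 75))))))))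
noncomputable def xc228 : XT := (XT.nd (nat_lit 36894) (nat_lit 0) (nat_lit 4408) (XT.nd (nat_lit 35802) (nat_lit 0) (nat_lit 10868) (XT.nd (nat_lit 546) (nat_lit 608) (nat_lit 0) (XT.nd (nat_lit 234) (nat_lit 532) (nat_lit 0) (XT.nd (nat_lit 78) (nat_lit 228) (nat_lit 0) (XT.lf (nat_lit 0) (nat_lit 49254086314) (nat_lit 304) (nat_lit 19537187300) (nat_lit 76) (nat_lit 8259483727) (nat_lit 69) (nat_lit 5) (nat_lit 73) (nat_lit 5) (nat_lit 70) (nat_lit 5) (nat_lit 385) (nat_lit 321) (nat_lit 74)) (XT.nd (nat_lit 78) (nat_lit 0) (nat_lit 0) (XT.lf (nat_lit 0) (nat_lit 17324790502) (nat_lit 228) (nat_lit 46881015991) (nat_lit 304) (nat_lit 14443515345) (nat_lit 66) (nat_lit 5) (nat_lit 69) (nat_lit 5) (nat_lit 70) (nat_lit 5) (nat_lit 386) (nat_lit 321) (nat_lit 73)) (XT.lf (nat_lit 0) (nat_lit 55691672666) (nat_lit 228) (nat_lit 24110767028) (nat_lit 304) (nat_lit 487513238) (nat_lit 66) (nat_lit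 5) (nat_lit 69) (nat_lit 5) (nat_lit 70) (nat_lit 5) (nat_lit 387) (nat_lit 321) (nat_lit 72)))) (XT.nd (nat_lit 156) (nat_lit 228) (nat_lit 0) (XT.nd (nat_lit 78) (nat_lit 0) (nat_lit 0) (XT.lf (nat_lit 0) (nat_lit 13355454868) (nat_lit 228) (nat_lit 388197899) (nat_lit 304) (nat_lit 68228321733) (nat_lit 62) (nat_lit 5) (nat_lit 65) (nat_lit 5) (nat_lit 66) (nat_lit 5) (nat_lit 388) (nat_lit 321) (nat_lit 71)) (XT.lf (nat_lit 0) (nat_lit 28873053958) (nat_lit 304) (nat_lit 30984826675) (nat_lit 76) (nat_lit 23831998776) (nat_lit 62) (nat_lit 5) (nat_lit 66) (nat_lit 5) (nat_lit 63) (nat_lit 5) (nat_lit 389) (nat_lit 321) (nat_lit 70))) (XT.nd (nat_lit 78) (nat_lit 0) (nat_lit 0) (XT.lf (nat_lit 0) (nat_lit 7925232150) (nat_lit 228) (nat_lit 36610256643) (nat_lit 304) (nat_lit 40921458572) (nat_lit 59) (nat_lit 5) (nat_lit 62) (nat_lit 5) (nat_lit 63) (nat_lit 5) (nat_lit 390) (nat_lit 321) (nat_lit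 69)) (XT.lf (nat_lit 0) (nat_lit 48636373747) (nat_lit 228) (nat_lit 12343447025) (nat_lit 304) (nat_lit 26287846300) (nat_lit 59) (nat_lit 5) (nat_lit 62) (nat_lit 5) (nat_lit 63) (nat_lit 5) (nat_lit 391) (nat_lit 321) (nat_lit 68))))) (XT.nd (nat_lit 234) (nat_lit 380) (nat_lit 0) (XT.nd (nat_lit 78) (nat_lit 76) (nat_lit 0) (XT.lf (nat_lit 0) (nat_lit 1339305056) (nat_lit 152) (nat_lit 76711822948) (nat_lit 228) (nat_lit 11077571431) (nat_lit 57) (nat_lit 5) (nat_lit 59) (nat_lit 5) (nat_lit 60) (nat_lit 5) (nat_lit 392) (nat_lit 321) (nat_lit 67)) (XT.nd (nat_lit 78) (nat_lit 0) (nat_lit 0) (XT.lf (nat_lit 0) (nat_lit 5014799936) (nat_lit 228) (nat_lit 47904483772) (nat_lit 76) (nat_lit 38109495995) (nat_lit 56) (nat_lit 5) (nat_lit 59) (nat_lit 5) (nat_lit 57) (nat_lit 5) (nat_lit 393) (nat_lit 321) (nat_lit 66)) (XT.lf (nat_lit 0) (nat_lit 21366480014) (nat_lit 228) (nat_lit 6934027030) (nat_lit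 76) (nat_lit 64682089780) (nat_lit 56) (nat_lit 5) (nat_lit 59) (nat_lit 5) (nat_lit 57) (nat_lit 5) (nat_lit 394) (nat_lit 321) (nat_lit 65)))) (XT.nd (nat_lit 156) (nat_lit 152) (nat_lit 0) (XT.nd (nat_lit 78) (nat_lit 0) (nat_lit 0) (XT.lf (nat_lit 0) (nat_lit 35966087579) (nat_lit 228) (nat_lit 2587560452) (nat_lit 304) (nat_lit 56431032678) (nat_lit 53) (nat_lit 5) (nat_lit 56) (nat_lit 5) (nat_lit 57) (nat_lit 5) (nat_lit 395) (nat_lit 321) (nat_lit 64)) (XT.lf (nat_lit 0) (nat_lit 56556070432) (nat_lit 304) (nat_lit 16981074001) (nat_lit 76) (nat_lit 23500693862) (nat_lit 53) (nat_lit 5) (nat_lit 57) (nat_lit 5) (nat_lit 54) (nat_lit 5) (nat_lit 396) (nat_lit 321) (nat_lit 63))) (XT.nd (nat_lit 34788) (nat_lit 0) (nat_lit 11704) (XT.lf (nat_lit 0) (nat_lit 26813935131) (nat_lit 152) (nat_lit 48567240160) (nat_lit 228) (nat_lit 23762937378) (nat_lit 51) (nat_lit 5) (nat_lit 53) (nat_lit 5)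 (nat_lit 54) (nat_lit 5) (nat_lit 397) (nat_lit 321) (nat_lit 62)) (XT.lf (nat_lit 0) (nat_lit 3930450458) (nat_lit 0) (nat_lit 3930450458) (nat_lit 1140) (nat_lit 4940221382) (nat_lit 205) (nat_lit 5) (nat_lit 205) (nat_lit 3) (nat_lit 220) (nat_lit 3) (nat_lit 322) (nat_lit 322) (nat_lit 136)))))) (XT.nd (nat_lit 546) (nat_lit 836) (nat_lit 0) (XT.nd (nat_lit 234) (nat_lit 0) (nat_lit 76) (XT.nd (nat_lit 78) (nat_lit 0) (nat_lit 0) (XT.lf (nat_lit 0) (nat_lit 16091560784) (nat_lit 1140) (nat_lit 6032366958) (nat_lit 1216) (nat_lit 3858233144) (nat_lit 205) (nat_lit 5) (nat_lit 220) (nat_lit 3) (nat_lit 221) (nat_lit 5) (nat_lit 323) (nat_lit 322) (nat_lit 135)) (XT.nd (nat_lit 78) (nat_lit 0) (nat_lit 76) (XT.lf (nat_lit 76) (nat_lit 6066416187) (nat_lit 0) (nat_lit 10538408396) (nat_lit 1216) (nat_lit 9764681600) (nat_lit 206) (nat_lit 5) (nat_lit 205) (nat_lit 5) (nat_lit 221) (nat_lit 5) (nat_lit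 324) (nat_lit 322) (nat_lit 134)) (XT.lf (nat_lit 0) (nat_lit 17204783734) (nat_lit 1140) (nat_lit 8130952607) (nat_lit 1216) (nat_lit 1430600341) (nat_lit 206) (nat_lit 5) (nat_lit 221) (nat_lit 5) (nat_lit 222) (nat_lit 5) (nat_lit 325) (nat_lit 322) (nat_lit 133)))) (XT.nd (nat_lit 156) (nat_lit 0) (nat_lit 76) (XT.nd (nat_lit 78) (nat_lit 0) (nat_lit 0) (XT.lf (nat_lit 76) (nat_lit 4385528347) (nat_lit 0) (nat_lit 13580188772) (nat_lit 1216) (nat_lit 9205069371) (nat_lit 207) (nat_lit 5) (nat_lit 206) (nat_lit 5) (nat_lit 222) (nat_lit 5) (nat_lit 326) (nat_lit 322) (nat_lit 132)) (XT.lf (nat_lit 76) (nat_lit 17442143124) (nat_lit 0) (nat_lit 1386003451) (nat_lit 1216) (nat_lit 8756866725) (nat_lit 207) (nat_lit 5) (nat_lit 206) (nat_lit 5) (nat_lit 222) (nat_lit 5) (nat_lit 327) (nat_lit 322) (nat_lit 131))) (XT.nd (nat_lit 78) (nat_lit 0) (nat_lit 0) (XT.lf (nat_lit 76) (nat_lit 2824397696)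 (nat_lit 0) (nat_lit 17023287077) (nat_lit 1216) (nat_lit 8160048514) (nat_lit 208) (nat_lit 5) (nat_lit 207) (nat_lit 5) (nat_lit 223) (nat_lit 5) (nat_lit 328) (nat_lit 322) (nat_lit 130)) (XT.lf (nat_lit 76) (nat_lit 16372532608) (nat_lit 0) (nat_lit 4638039421) (nat_lit 1216) (nat_lit 7429183304) (nat_lit 208) (nat_lit 5) (nat_lit 207) (nat_lit 5) (nat_lit 223) (nat_lit 5) (nat_lit 329) (nat_lit 322) (nat_lit 129))))) (XT.nd (nat_lit 234) (nat_lit 1064) (nat_lit 0) (XT.nd (nat_lit 78) (nat_lit 0) (nat_lit 0) (XT.lf (nat_lit 76) (nat_lit 1389319213) (nat_lit 0) (nat_lit 20907281337) (nat_lit 1216) (nat_lit 6585493100) (nat_lit 209) (nat_lit 5) (nat_lit 208) (nat_lit 5) (nat_lit 224) (nat_lit 5) (nat_lit 330) (nat_lit 322) (nat_lit 128)) (XT.nd (nat_lit 78) (nat_lit 0) (nat_lit 76) (XT.lf (nat_lit 76) (nat_lit 15447986956) (nat_lit 0) (nat_lit 8337477693) (nat_lit 1216) (nat_lit 5547312982) (nat_lit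 209) (nat_lit 5) (nat_lit 208) (nat_lit 5) (nat_lit 224) (nat_lit 5) (nat_lit 331) (nat_lit 322) (nat_lit 127)) (XT.lf (nat_lit 76) (nat_lit 86673392) (nat_lit 0) (nat_lit 25274489973) (nat_lit 1216) (nat_lit 4434556767) (nat_lit 210) (nat_lit 5) (nat_lit 209) (nat_lit 5) (nat_lit 225) (nat_lit 5) (nat_lit 332) (nat_lit 322) (nat_lit 126)))) (XT.nd (nat_lit 156) (nat_lit 1140) (nat_lit 0) (XT.nd (nat_lit 78) (nat_lit 0) (nat_lit 76) (XT.lf (nat_lit 76) (nat_lit 14675592849) (nat_lit 0) (nat_lit 12527582509) (nat_lit 1216) (nat_lit 3062807255) (nat_lit 210) (nat_lit 5) (nat_lit 209) (nat_lit 5) (nat_lit 225) (nat_lit 5) (nat_lit 333) (nat_lit 322) (nat_lit 125)) (XT.lf (nat_lit 0) (nat_lit 29103417107) (nat_lit 1140) (nat_lit 1056111360) (nat_lit 1216) (nat_lit 590738307) (nat_lit 210) (nat_lit 5) (nat_lit 225) (nat_lit 5) (nat_lit 226) (nat_lit 5) (nat_lit 334) (nat_lit 322) (nat_lit 124))) (XT.nd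 (nat_lit 78) (nat_lit 0) (nat_lit 0) (XT.lf (nat_lit 0) (nat_lit 74279699) (nat_lit 1216) (nat_lit 17179637901) (nat_lit 1292) (nat_lit 13987448422) (nat_lit 194) (nat_lit 5) (nat_lit 210) (nat_lit 5) (nat_lit 211) (nat_lit 5) (nat_lit 335) (nat_lit 322) (nat_lit 123)) (XT.lf (nat_lit 0) (nat_lit 1822010863) (nat_lit 1216) (nat_lit 2110664548) (nat_lit 1292) (nat_lit 27813794277) (nat_lit 194) (nat_lit 5) (nat_lit 210) (nat_lit 5) (nat_lit 211) (nat_lit 5) (nat_lit 336) (nat_lit 322) (nat_lit 122))))))) (XT.nd (nat_lit 1092) (nat_lit 3572) (nat_lit 0) (XT.nd (nat_lit 546) (nat_lit 1672) (nat_lit 0) (XT.nd (nat_lit 234) (nat_lit 1292) (nat_lit 0) (XT.nd (nat_lit 78) (nat_lit 0) (nat_lit 0) (XT.lf (nat_lit 0) (nat_lit 3846401530) (nat_lit 1216) (nat_lit 18683096780) (nat_lit 1292) (nat_lit 9730503892) (nat_lit 195) (nat_lit 5) (nat_lit 211) (nat_lit 5) (nat_lit 212) (nat_lit 5) (nat_lit 337) (nat_lit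 322) (nat_lit 121)) (XT.nd (nat_lit 78) (nat_lit 0) (nat_lit 76) (XT.lf (nat_lit 0) (nat_lit 5989424094) (nat_lit 1216) (nat_lit 3051210191) (nat_lit 1292) (nat_lit 23746571893) (nat_lit 195) (nat_lit 5) (nat_lit 211) (nat_lit 5) (nat_lit 212) (nat_lit 5) (nat_lit 338) (nat_lit 322) (nat_lit 120)) (XT.lf (nat_lit 0) (nat_lit 8370087000) (nat_lit 1216) (nat_lit 20067147721) (nat_lit 76) (nat_lit 4887793479) (nat_lit 196) (nat_lit 5) (nat_lit 212) (nat_lit 5) (nat_lit 197) (nat_lit 5) (nat_lit 339) (nat_lit 322) (nat_lit 119)))) (XT.nd (nat_lit 156) (nat_lit 608) (nat_lit 0) (XT.nd (nat_lit 78) (nat_lit 760) (nat_lit 0) (XT.lf (nat_lit 0) (nat_lit 10940366623) (nat_lit 1216) (nat_lit 3851212504) (nat_lit 76) (nat_lit 19083862198) (nat_lit 196) (nat_lit 5) (nat_lit 212) (nat_lit 5) (nat_lit 197) (nat_lit 5) (nat_lit 340) (nat_lit 322) (nat_lit 118)) (XT.lf (nat_lit 0) (nat_lit 13104859354) (nat_lit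 760) (nat_lit 606507301) (nat_lit 836) (nat_lit 20727294109) (nat_lit 186) (nat_lit 5) (nat_lit 196) (nat_lit 5) (nat_lit 197) (nat_lit 5) (nat_lit 341) (nat_lit 322) (nat_lit 117))) (XT.nd (nat_lit 78) (nat_lit 608) (nat_lit 0) (XT.lf (nat_lit 0) (nat_lit 16737079309) (nat_lit 836) (nat_lit 4506170111) (nat_lit 76) (nat_lit 13770382100) (nat_lit 186) (nat_lit 5) (nat_lit 197) (nat_lit 5) (nat_lit 187) (nat_lit 5) (nat_lit 342) (nat_lit 322) (nat_lit 116)) (XT.lf (nat_lit 0) (nat_lit 13073336401) (nat_lit 608) (nat_lit 6909659845) (nat_lit 684) (nat_lit 15618974313) (nat_lit 178) (nat_lit 5) (nat_lit 186) (nat_lit 5) (nat_lit 187) (nat_lit 5) (nat_lit 343) (nat_lit 322) (nat_lit 115))))) (XT.nd (nat_lit 234) (nat_lit 1140) (nat_lit 0) (XT.nd (nat_lit 78) (nat_lit 532) (nat_lit 0) (XT.lf (nat_lit 0) (nat_lit 23445547753) (nat_lit 684) (nat_lit 5012047763) (nat_lit 76) (nat_lit 7746788627) (nat_lit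 178) (nat_lit 5) (nat_lit 187) (nat_lit 5) (nat_lit 179) (nat_lit 5) (nat_lit 344) (nat_lit 322) (nat_lit 114)) (XT.nd (nat_lit 78) (nat_lit 0) (nat_lit 0) (XT.lf (nat_lit 0) (nat_lit 13217500227) (nat_lit 532) (nat_lit 13987812844) (nat_lit 608) (nat_lit 9613758970) (nat_lit 171) (nat_lit 5) (nat_lit 178) (nat_lit 5) (nat_lit 179) (nat_lit 5) (nat_lit 345) (nat_lit 322) (nat_lit 113)) (XT.lf (nat_lit 0) (nat_lit 31135703349) (nat_lit 608) (nat_lit 5365402070) (nat_lit 76) (nat_lit 949362164) (nat_lit 171) (nat_lit 5) (nat_lit 179) (nat_lit 5) (nat_lit 172) (nat_lit 5) (nat_lit 346) (nat_lit 322) (nat_lit 112)))) (XT.nd (nat_lit 156) (nat_lit 532) (nat_lit 0) (XT.nd (nat_lit 78) (nat_lit 76) (nat_lit 0) (XT.lf (nat_lit 0) (nat_lit 13541575645) (nat_lit 532) (nat_lit 21909066847) (nat_lit 608) (nat_lit 2642165293) (nat_lit 164) (nat_lit 5) (nat_lit 171) (nat_lit 5) (nat_lit 172) (nat_lit 5) (nat_lit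 347) (nat_lit 322) (nat_lit 111)) (XT.lf (nat_lit 0) (nat_lit 1171062919) (nat_lit 608) (nat_lit 5640596015) (nat_lit 76) (nat_lit 31940850869) (nat_lit 163) (nat_lit 5) (nat_lit 171) (nat_lit 5) (nat_lit 164) (nat_lit 5) (nat_lit 348) (nat_lit 322) (nat_lit 110))) (XT.nd (nat_lit 78) (nat_lit 0) (nat_lit 0) (XT.lf (nat_lit 0) (nat_lit 5264618713) (nat_lit 608) (nat_lit 25428778790) (nat_lit 76) (nat_lit 8731251254) (nat_lit 156) (nat_lit 5) (nat_lit 164) (nat_lit 5) (nat_lit 157) (nat_lit 5) (nat_lit 349) (nat_lit 322) (nat_lit 109)) (XT.lf (nat_lit 0) (nat_lit 9604034250) (nat_lit 608) (nat_lit 5848222529) (nat_lit 76) (nat_lit 24661005204) (nat_lit 156) (nat_lit 5) (nat_lit 164) (nat_lit 5) (nat_lit 157) (nat_lit 5) (nat_lit 350) (nat_lit 322) (nat_lit 108)))))) (XT.nd (nat_lit 546) (nat_lit 1672) (nat_lit 0) (XT.nd (nat_lit 234) (nat_lit 912) (nat_lit 0) (XT.nd (nat_lit 78) (nat_lit 456) (nat_lit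 0) (XT.lf (nat_lit 0) (nat_lit 14215900866) (nat_lit 608) (nat_lit 26219402862) (nat_lit 76) (nat_lit 382963466) (nat_lit 149) (nat_lit 5) (nat_lit 157) (nat_lit 5) (nat_lit 150) (nat_lit 5) (nat_lit 351) (nat_lit 322) (nat_lit 107)) (XT.nd (nat_lit 78) (nat_lit 456) (nat_lit 0) (XT.lf (nat_lit 0) (nat_lit 19176934146) (nat_lit 608) (nat_lit 5918988063) (nat_lit 76) (nat_lit 16442177630) (nat_lit 149) (nat_lit 5) (nat_lit 157) (nat_lit 5) (nat_lit 150) (nat_lit 5) (nat_lit 352) (nat_lit 322) (nat_lit 106)) (XT.lf (nat_lit 0) (nat_lit 15286791534) (nat_lit 456) (nat_lit 9145183695) (nat_lit 532) (nat_lit 17843198485) (nat_lit 143) (nat_lit 5) (nat_lit 149) (nat_lit 5) (nat_lit 150) (nat_lit 5) (nat_lit 353) (nat_lit 322) (nat_lit 105)))) (XT.nd (nat_lit 156) (nat_lit 456) (nat_lit 0) (XT.nd (nat_lit 78) (nat_lit 456) (nat_lit 0) (XT.lf (nat_lit 0) (nat_lit 29973310452) (nat_lit 532) (nat_lit 5855080164)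 (nat_lit 76) (nat_lit 7202111407) (nat_lit 143) (nat_lit 5) (nat_lit 150) (nat_lit 5) (nat_lit 144) (nat_lit 5) (nat_lit 354) (nat_lit 322) (nat_lit 104)) (XT.lf (nat_lit 0) (nat_lit 16134595654) (nat_lit 456) (nat_lit 19790244624) (nat_lit 532) (nat_lit 7876332730) (nat_lit 137) (nat_lit 5) (nat_lit 143) (nat_lit 5) (nat_lit 144) (nat_lit 5) (nat_lit 355) (nat_lit 322) (nat_lit 103))) (XT.nd (nat_lit 78) (nat_lit 456) (nat_lit 0) (XT.lf (nat_lit 0) (nat_lit 38902081041) (nat_lit 456) (nat_lit 3210303202) (nat_lit 532) (nat_lit 2480857252) (nat_lit 137) (nat_lit 5) (nat_lit 143) (nat_lit 5) (nat_lit 144) (nat_lit 5) (nat_lit 356) (nat_lit 322) (nat_lit 102)) (XT.lf (nat_lit 0) (nat_lit 3315858569) (nat_lit 456) (nat_lit 28289844414) (nat_lit 76) (nat_lit 13793500922) (nat_lit 131) (nat_lit 5) (nat_lit 137) (nat_lit 5) (nat_lit 132) (nat_lit 5) (nat_lit 357) (nat_lit 322) (nat_lit 101))))) (XT.nd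 (nat_lit 312) (nat_lit 836) (nat_lit 0) (XT.nd (nat_lit 156) (nat_lit 380) (nat_lit 0) (XT.nd (nat_lit 78) (nat_lit 456) (nat_lit 0) (XT.lf (nat_lit 0) (nat_lit 9324838085) (nat_lit 456) (nat_lit 5575890481) (nat_lit 76) (nat_lit 31325234283) (nat_lit 131) (nat_lit 5) (nat_lit 137) (nat_lit 5) (nat_lit 132) (nat_lit 5) (nat_lit 358) (nat_lit 322) (nat_lit 100)) (XT.lf (nat_lit 0) (nat_lit 15711104908) (nat_lit 532) (nat_lit 28923986466) (nat_lit 76) (nat_lit 2436523912) (nat_lit 125) (nat_lit 5) (nat_lit 132) (nat_lit 5) (nat_lit 126) (nat_lit 5) (nat_lit 359) (nat_lit 322) (nat_lit 99))) (XT.nd (nat_lit 78) (nat_lit 380) (nat_lit 0) (XT.lf (nat_lit 0) (nat_lit 22491827109) (nat_lit 532) (nat_lit 5393764219) (nat_lit 76) (nat_lit 20050961171) (nat_lit 125) (nat_lit 5) (nat_lit 132) (nat_lit 5) (nat_lit 126) (nat_lit 5) (nat_lit 360) (nat_lit 322) (nat_lit 98)) (XT.lf (nat_lit 0) (nat_lit 19215502504)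 (nat_lit 380) (nat_lit 10443696499) (nat_lit 456) (nat_lit 19162743176) (nat_lit 120) (nat_lit 5) (nat_lit 125) (nat_lit 5) (nat_lit 126) (nat_lit 5) (nat_lit 361) (nat_lit 322) (nat_lit 97)))) (XT.nd (nat_lit 156) (nat_lit 456) (nat_lit 0) (XT.nd (nat_lit 78) (nat_lit 380) (nat_lit 0) (XT.lf (nat_lit 0) (nat_lit 37167437905) (nat_lit 456) (nat_lit 5133335008) (nat_lit 76) (nat_lit 7429346413) (nat_lit 120) (nat_lit 5) (nat_lit 126) (nat_lit 5) (nat_lit 121) (nat_lit 5) (nat_lit 362) (nat_lit 322) (nat_lit 96)) (XT.lf (nat_lit 0) (nat_lit 20366181834) (nat_lit 380) (nat_lit 24832499128) (nat_lit 456) (nat_lit 5457929238) (nat_lit 115) (nat_lit 5) (nat_lit 120) (nat_lit 5) (nat_lit 121) (nat_lit 5) (nat_lit 363) (nat_lit 322) (nat_lit 95))) (XT.nd (nat_lit 78) (nat_lit 380) (nat_lit 0) (XT.lf (nat_lit 0) (nat_lit 1874611935) (nat_lit 456) (nat_lit 4893627629) (nat_lit 76) (nat_lit 44840592689) (nat_lit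 114) (nat_lit 5) (nat_lit 120) (nat_lit 5) (nat_lit 115) (nat_lit 5) (nat_lit 364) (nat_lit 322) (nat_lit 94)) (XT.lf (nat_lit 0) (nat_lit 9640380429) (nat_lit 456) (nat_lit 31066797396) (nat_lit 76) (nat_lit 11871134499) (nat_lit 109) (nat_lit 5) (nat_lit 115) (nat_lit 5) (nat_lit 110) (nat_lit 5) (nat_lit 365) (nat_lit 322) (nat_lit 93))))))))
noncomputable def xc229 : XT := (XT.nd (nat_lit 2184) (nat_lit 304) (nat_lit 0) (XT.nd (nat_lit 1092) (nat_lit 1672) (nat_lit 0) (XT.nd (nat_lit 546) (nat_lit 1216) (nat_lit 0) (XT.nd (nat_lit 234) (nat_lit 684) (nat_lit 0) (XT.nd (nat_lit 78) (nat_lit 380) (nat_lit 0) (XT.lf (nat_lit 0) (nat_lit 17754691159) (nat_lit 456) (nat_lit 4835544334) (nat_lit 76) (nat_lit 30983175225) (nat_lit 109) (nat_lit 5) (nat_lit 115) (nat_lit 5) (nat_lit 110) (nat_lit 5) (nat_lit 366) (nat_lit 322) (nat_lit 92)) (XT.nd (nat_lit 78) (nat_lit 0) (nat_lit 0) (XT.lf (nat_lit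 0) (nat_lit 22622367066) (nat_lit 380) (nat_lit 3706215046) (nat_lit 456) (nat_lit 28263296392) (nat_lit 104) (nat_lit 5) (nat_lit 109) (nat_lit 5) (nat_lit 110) (nat_lit 5) (nat_lit 367) (nat_lit 322) (nat_lit 91)) (XT.lf (nat_lit 0) (nat_lit 35359055438) (nat_lit 456) (nat_lit 4789865023) (nat_lit 76) (nat_lit 15485999831) (nat_lit 104) (nat_lit 5) (nat_lit 110) (nat_lit 5) (nat_lit 105) (nat_lit 5) (nat_lit 368) (nat_lit 322) (nat_lit 90)))) (XT.nd (nat_lit 156) (nat_lit 380) (nat_lit 0) (XT.nd (nat_lit 78) (nat_lit 0) (nat_lit 0) (XT.lf (nat_lit 0) (nat_lit 23627848995) (nat_lit 304) (nat_lit 21295160692) (nat_lit 380) (nat_lit 11778367557) (nat_lit 100) (nat_lit 5) (nat_lit 104) (nat_lit 5) (nat_lit 105) (nat_lit 5) (nat_lit 369) (nat_lit 322) (nat_lit 89)) (XT.lf (nat_lit 0) (nat_lit 52994607522) (nat_lit 304) (nat_lit 1826409898) (nat_lit 380) (nat_lit 2977397325) (nat_lit 100) (nat_lit 5)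 (nat_lit 104) (nat_lit 5) (nat_lit 105) (nat_lit 5) (nat_lit 370) (nat_lit 322) (nat_lit 88))) (XT.nd (nat_lit 78) (nat_lit 0) (nat_lit 0) (XT.lf (nat_lit 0) (nat_lit 6383516298) (nat_lit 380) (nat_lit 34361108275) (nat_lit 76) (nat_lit 18169542940) (nat_lit 95) (nat_lit 5) (nat_lit 100) (nat_lit 5) (nat_lit 96) (nat_lit 5) (nat_lit 371) (nat_lit 322) (nat_lit 87)) (XT.lf (nat_lit 0) (nat_lit 16031292286) (nat_lit 380) (nat_lit 5222541972) (nat_lit 76) (nat_lit 38806698708) (nat_lit 95) (nat_lit 5) (nat_lit 100) (nat_lit 5) (nat_lit 96) (nat_lit 5) (nat_lit 372) (nat_lit 322) (nat_lit 86))))) (XT.nd (nat_lit 234) (nat_lit 608) (nat_lit 0) (XT.nd (nat_lit 78) (nat_lit 304) (nat_lit 0) (XT.lf (nat_lit 0) (nat_lit 25281904197) (nat_lit 304) (nat_lit 928462395) (nat_lit 380) (nat_lit 35023667627) (nat_lit 91) (nat_lit 5) (nat_lit 95) (nat_lit 5) (nat_lit 96) (nat_lit 5) (nat_lit 373) (nat_lit 322) (nat_lit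 85)) (XT.nd (nat_lit 78) (nat_lit 304) (nat_lit 0) (XT.lf (nat_lit 0) (nat_lit 36939242941) (nat_lit 380) (nat_lit 5827089012) (nat_lit 76) (nat_lit 19669076426) (nat_lit 91) (nat_lit 5) (nat_lit 96) (nat_lit 5) (nat_lit 92) (nat_lit 5) (nat_lit 374) (nat_lit 322) (nat_lit 84)) (XT.lf (nat_lit 0) (nat_lit 25692274039) (nat_lit 304) (nat_lit 22552761344) (nat_lit 380) (nat_lit 15420137628) (nat_lit 87) (nat_lit 5) (nat_lit 91) (nat_lit 5) (nat_lit 92) (nat_lit 5) (nat_lit 375) (nat_lit 322) (nat_lit 83)))) (XT.nd (nat_lit 156) (nat_lit 304) (nat_lit 0) (XT.nd (nat_lit 78) (nat_lit 304) (nat_lit 0) (XT.lf (nat_lit 0) (nat_lit 58275097838) (nat_lit 304) (nat_lit 1672650506) (nat_lit 380) (nat_lit 4982350555) (nat_lit 87) (nat_lit 5) (nat_lit 91) (nat_lit 5) (nat_lit 92) (nat_lit 5) (nat_lit 376) (nat_lit 322) (nat_lit 82)) (XT.lf (nat_lit 0) (nat_lit 6099054647) (nat_lit 304) (nat_lit 40363667030)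 (nat_lit 76) (nat_lit 19755296531) (nat_lit 83) (nat_lit 5) (nat_lit 87) (nat_lit 5) (nat_lit 84) (nat_lit 5) (nat_lit 377) (nat_lit 322) (nat_lit 81))) (XT.nd (nat_lit 78) (nat_lit 304) (nat_lit 0) (XT.lf (nat_lit 0) (nat_lit 17496127726) (nat_lit 304) (nat_lit 8135269314) (nat_lit 76) (nat_lit 41909197828) (nat_lit 83) (nat_lit 5) (nat_lit 87) (nat_lit 5) (nat_lit 84) (nat_lit 5) (nat_lit 378) (nat_lit 322) (nat_lit 80)) (XT.lf (nat_lit 0) (nat_lit 25557179558) (nat_lit 304) (nat_lit 3922572941) (nat_lit 380) (nat_lit 39415757783) (nat_lit 79) (nat_lit 5) (nat_lit 83) (nat_lit 5) (nat_lit 84) (nat_lit 5) (nat_lit 379) (nat_lit 322) (nat_lit 79)))))) (XT.nd (nat_lit 546) (nat_lit 912) (nat_lit 0) (XT.nd (nat_lit 234) (nat_lit 532) (nat_lit 0) (XT.nd (nat_lit 78) (nat_lit 228) (nat_lit 0) (XT.lf (nat_lit 0) (nat_lit 42082061599) (nat_lit 380) (nat_lit 10041012790) (nat_lit 76) (nat_lit 18160224123)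 (nat_lit 79) (nat_lit 5) (nat_lit 84) (nat_lit 5) (nat_lit 80) (nat_lit 5) (nat_lit 380) (nat_lit 322) (nat_lit 78)) (XT.nd (nat_lit 78) (nat_lit 0) (nat_lit 0) (XT.lf (nat_lit 0) (nat_lit 24696830839) (nat_lit 228) (nat_lit 30640856530) (nat_lit 304) (nat_lit 16366776200) (nat_lit 76) (nat_lit 5) (nat_lit 79) (nat_lit 5) (nat_lit 80) (nat_lit 5) (nat_lit 381) (nat_lit 322) (nat_lit 77)) (XT.lf (nat_lit 0) (nat_lit 60681174599) (nat_lit 228) (nat_lit 8410225620) (nat_lit 304) (nat_lit 4073851395) (nat_lit 76) (nat_lit 5) (nat_lit 79) (nat_lit 5) (nat_lit 80) (nat_lit 5) (nat_lit 382) (nat_lit 322) (nat_lit 76)))) (XT.nd (nat_lit 156) (nat_lit 228) (nat_lit 0) (XT.nd (nat_lit 78) (nat_lit 0) (nat_lit 0) (XT.lf (nat_lit 0) (nat_lit 8787032563) (nat_lit 304) (nat_lit 51354198978) (nat_lit 76) (nat_lit 14515153213) (nat_lit 72) (nat_lit 5) (nat_lit 76) (nat_lit 5) (nat_lit 73) (nat_lit 5) (nat_lit 383)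 (nat_lit 322) (nat_lit 75)) (XT.lf (nat_lit 0) (nat_lit 22161496840) (nat_lit 304) (nat_lit 15896828080) (nat_lit 76) (nat_lit 38126428422) (nat_lit 72) (nat_lit 5) (nat_lit 76) (nat_lit 5) (nat_lit 73) (nat_lit 5) (nat_lit 384) (nat_lit 322) (nat_lit 74))) (XT.nd (nat_lit 78) (nat_lit 0) (nat_lit 0) (XT.lf (nat_lit 0) (nat_lit 21033288443) (nat_lit 228) (nat_lit 15105170811) (nat_lit 304) (nat_lit 41614476328) (nat_lit 69) (nat_lit 5) (nat_lit 72) (nat_lit 5) (nat_lit 73) (nat_lit 5) (nat_lit 385) (nat_lit 322) (nat_lit 73)) (XT.lf (nat_lit 0) (nat_lit 50777993572) (nat_lit 304) (nat_lit 20051237716) (nat_lit 76) (nat_lit 8531634616) (nat_lit 69) (nat_lit 5) (nat_lit 73) (nat_lit 5) (nat_lit 70) (nat_lit 5) (nat_lit 386) (nat_lit 322) (nat_lit 72))))) (XT.nd (nat_lit 234) (nat_lit 380) (nat_lit 0) (XT.nd (nat_lit 78) (nat_lit 304) (nat_lit 0) (XT.lf (nat_lit 0) (nat_lit 17915892899) (nat_lit 228)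 (nat_lit 48261710303) (nat_lit 304) (nat_lit 14829804744) (nat_lit 66) (nat_lit 5) (nat_lit 69) (nat_lit 5) (nat_lit 70) (nat_lit 5) (nat_lit 387) (nat_lit 322) (nat_lit 71)) (XT.nd (nat_lit 78) (nat_lit 304) (nat_lit 0) (XT.lf (nat_lit 0) (nat_lit 57431703119) (nat_lit 228) (nat_lit 24809103468) (nat_lit 304) (nat_lit 456491974) (nat_lit 66) (nat_lit 5) (nat_lit 69) (nat_lit 5) (nat_lit 70) (nat_lit 5) (nat_lit 388) (nat_lit 322) (nat_lit 70)) (XT.lf (nat_lit 0) (nat_lit 13825624781) (nat_lit 228) (nat_lit 374458065) (nat_lit 304) (nat_lit 70229704512) (nat_lit 62) (nat_lit 5) (nat_lit 65) (nat_lit 5) (nat_lit 66) (nat_lit 5) (nat_lit 389) (nat_lit 322) (nat_lit 69)))) (XT.nd (nat_lit 156) (nat_lit 152) (nat_lit 0) (XT.nd (nat_lit 78) (nat_lit 228) (nat_lit 0) (XT.lf (nat_lit 0) (nat_lit 29782317926) (nat_lit 304) (nat_lit 31845819417) (nat_lit 76) (nat_lit 24571124178) (nat_lit 62) (nat_lit 5)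 (nat_lit 66) (nat_lit 5) (nat_lit 63) (nat_lit 5) (nat_lit 390) (nat_lit 322) (nat_lit 68)) (XT.lf (nat_lit 0) (nat_lit 8230869094) (nat_lit 228) (nat_lit 37683154683) (nat_lit 304) (nat_lit 42105336445) (nat_lit 59) (nat_lit 5) (nat_lit 62) (nat_lit 5) (nat_lit 63) (nat_lit 5) (nat_lit 391) (nat_lit 322) (nat_lit 67))) (XT.nd (nat_lit 78) (nat_lit 152) (nat_lit 0) (XT.lf (nat_lit 0) (nat_lit 50161367852) (nat_lit 228) (nat_lit 12689080863) (nat_lit 304) (nat_lit 27033990539) (nat_lit 59) (nat_lit 5) (nat_lit 62) (nat_lit 5) (nat_lit 63) (nat_lit 5) (nat_lit 392) (nat_lit 322) (nat_lit 66)) (XT.lf (nat_lit 0) (nat_lit 1445751677) (nat_lit 152) (nat_lit 78987809751) (nat_lit 228) (nat_lit 11367751779) (nat_lit 57) (nat_lit 5) (nat_lit 59) (nat_lit 5) (nat_lit 60) (nat_lit 5) (nat_lit 393) (nat_lit 322) (nat_lit 65))))))) (XT.nd (nat_lit 35880) (nat_lit 0) (nat_lit 8968) (XT.nd (nat_lit 35334) (nat_lit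 0) (nat_lit 11628) (XT.nd (nat_lit 234) (nat_lit 0) (nat_lit 0) (XT.nd (nat_lit 78) (nat_lit 228) (nat_lit 0) (XT.lf (nat_lit 0) (nat_lit 5205364672) (nat_lit 228) (nat_lit 49276463392) (nat_lit 76) (nat_lit 39276592345) (nat_lit 56) (nat_lit 5) (nat_lit 59) (nat_lit 5) (nat_lit 57) (nat_lit 5) (nat_lit 394) (nat_lit 322) (nat_lit 64)) (XT.nd (nat_lit 78) (nat_lit 228) (nat_lit 0) (XT.lf (nat_lit 0) (nat_lit 22046426587) (nat_lit 228) (nat_lit 7078790663) (nat_lit 76) (nat_lit 66645670406) (nat_lit 56) (nat_lit 5) (nat_lit 59) (nat_lit 5) (nat_lit 57) (nat_lit 5) (nat_lit 395) (nat_lit 322) (nat_lit 63)) (XT.lf (nat_lit 0) (nat_lit 37107707216) (nat_lit 228) (nat_lit 2640970005) (nat_lit 304) (nat_lit 58084373350) (nat_lit 53) (nat_lit 5) (nat_lit 56) (nat_lit 5) (nat_lit 57) (nat_lit 5) (nat_lit 396) (nat_lit 322) (nat_lit 62)))) (XT.nd (nat_lit 34944) (nat_lit 0) (nat_lit 11552) (XT.nd (nat_lit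 34866) (nat_lit 0) (nat_lit 11552) (XT.lf (nat_lit 0) (nat_lit 58290279282) (nat_lit 304) (nat_lit 17428783135) (nat_lit 76) (nat_lit 24228767780) (nat_lit 53) (nat_lit 5) (nat_lit 57) (nat_lit 5) (nat_lit 54) (nat_lit 5) (nat_lit 397) (nat_lit 322) (nat_lit 61)) (XT.lf (nat_lit 0) (nat_lit 4095955110) (nat_lit 0) (nat_lit 4095955110) (nat_lit 1140) (nat_lit 4990291812) (nat_lit 205) (nat_lit 5) (nat_lit 205) (nat_lit 3) (nat_lit 220) (nat_lit 3) (nat_lit 323) (nat_lit 323) (nat_lit 134))) (XT.nd (nat_lit 78) (nat_lit 0) (nat_lit 0) (XT.lf (nat_lit 0) (nat_lit 16758239263) (nat_lit 1140) (nat_lit 6114303893) (nat_lit 1216) (nat_lit 3883373412) (nat_lit 205) (nat_lit 5) (nat_lit 220) (nat_lit 3) (nat_lit 221) (nat_lit 5) (nat_lit 324) (nat_lit 323) (nat_lit 133)) (XT.lf (nat_lit 76) (nat_lit 6346471825) (nat_lit 0) (nat_lit 10936014562) (nat_lit 1216) (nat_lit 9872533843) (nat_lit 206) (nat_lit 5)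 (nat_lit 205) (nat_lit 5) (nat_lit 221) (nat_lit 5) (nat_lit 325) (nat_lit 323) (nat_lit 132))))) (XT.nd (nat_lit 234) (nat_lit 0) (nat_lit 76) (XT.nd (nat_lit 78) (nat_lit 0) (nat_lit 0) (XT.lf (nat_lit 0) (nat_lit 17894455479) (nat_lit 1140) (nat_lit 8273505189) (nat_lit 1216) (nat_lit 1395980047) (nat_lit 206) (nat_lit 5) (nat_lit 221) (nat_lit 5) (nat_lit 222) (nat_lit 5) (nat_lit 326) (nat_lit 323) (nat_lit 131)) (XT.nd (nat_lit 78) (nat_lit 0) (nat_lit 0) (XT.lf (nat_lit 76) (nat_lit 4617476311) (nat_lit 0) (nat_lit 14056651269) (nat_lit 1216) (nat_lit 9306524365) (nat_lit 207) (nat_lit 5) (nat_lit 206) (nat_lit 5) (nat_lit 222) (nat_lit 5) (nat_lit 327) (nat_lit 323) (nat_lit 130)) (XT.lf (nat_lit 76) (nat_lit 18062865781) (nat_lit 0) (nat_lit 1494629024) (nat_lit 1216) (nat_lit 8849963904) (nat_lit 207) (nat_lit 5) (nat_lit 206) (nat_lit 5) (nat_lit 222) (nat_lit 5) (nat_lit 328) (nat_lit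 323) (nat_lit 129)))) (XT.nd (nat_lit 156) (nat_lit 0) (nat_lit 76) (XT.nd (nat_lit 78) (nat_lit 0) (nat_lit 0) (XT.lf (nat_lit 76) (nat_lit 3011325620) (nat_lit 0) (nat_lit 17591858814) (nat_lit 1216) (nat_lit 8239813850) (nat_lit 208) (nat_lit 5) (nat_lit 207) (nat_lit 5) (nat_lit 223) (nat_lit 5) (nat_lit 329) (nat_lit 323) (nat_lit 128)) (XT.lf (nat_lit 76) (nat_lit 16962927998) (nat_lit 0) (nat_lit 4833368103) (nat_lit 1216) (nat_lit 7491829561) (nat_lit 208) (nat_lit 5) (nat_lit 207) (nat_lit 5) (nat_lit 223) (nat_lit 5) (nat_lit 330) (nat_lit 323) (nat_lit 127))) (XT.nd (nat_lit 78) (nat_lit 0) (nat_lit 0) (XT.lf (nat_lit 76) (nat_lit 1534555328) (nat_lit 0) (nat_lit 21582294806) (nat_lit 1216) (nat_lit 6627010318) (nat_lit 209) (nat_lit 5) (nat_lit 208) (nat_lit 5) (nat_lit 224) (nat_lit 5) (nat_lit 331) (nat_lit 323) (nat_lit 126)) (XT.lf (nat_lit 76) (nat_lit 16011966893) (nat_lit 0) (nat_lit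 8634004964) (nat_lit 1216) (nat_lit 5562229872) (nat_lit 209) (nat_lit 5) (nat_lit 208) (nat_lit 5) (nat_lit 224) (nat_lit 5) (nat_lit 332) (nat_lit 323) (nat_lit 125)))))) (XT.nd (nat_lit 546) (nat_lit 1748) (nat_lit 0) (XT.nd (nat_lit 234) (nat_lit 1140) (nat_lit 0) (XT.nd (nat_lit 78) (nat_lit 0) (nat_lit 0) (XT.lf (nat_lit 76) (nat_lit 193784445) (nat_lit 0) (nat_lit 26071448749) (nat_lit 1216) (nat_lit 4419914957) (nat_lit 210) (nat_lit 5) (nat_lit 209) (nat_lit 5) (nat_lit 225) (nat_lit 5) (nat_lit 333) (nat_lit 323) (nat_lit 124)) (XT.nd (nat_lit 78) (nat_lit 0) (nat_lit 76) (XT.lf (nat_lit 76) (nat_lit 15217327481) (nat_lit 0) (nat_lit 12941006176) (nat_lit 1216) (nat_lit 3011314275) (nat_lit 210) (nat_lit 5) (nat_lit 209) (nat_lit 5) (nat_lit 225) (nat_lit 5) (nat_lit 334) (nat_lit 323) (nat_lit 123)) (XT.lf (nat_lit 0) (nat_lit 30111181407) (nat_lit 1140) (nat_lit 984743825) (nat_lit 1216)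 (nat_lit 572671568) (nat_lit 210) (nat_lit 5) (nat_lit 225) (nat_lit 5) (nat_lit 226) (nat_lit 5) (nat_lit 335) (nat_lit 323) (nat_lit 122)))) (XT.nd (nat_lit 156) (nat_lit 0) (nat_lit 76) (XT.nd (nat_lit 78) (nat_lit 0) (nat_lit 0) (XT.lf (nat_lit 0) (nat_lit 209664213) (nat_lit 1216) (nat_lit 17590206201) (nat_lit 1292) (nat_lit 14374611710) (nat_lit 194) (nat_lit 5) (nat_lit 210) (nat_lit 5) (nat_lit 211) (nat_lit 5) (nat_lit 336) (nat_lit 323) (nat_lit 121)) (XT.lf (nat_lit 0) (nat_lit 2005948978) (nat_lit 1216) (nat_lit 2072216682) (nat_lit 1292) (nat_lit 28616693383) (nat_lit 194) (nat_lit 5) (nat_lit 210) (nat_lit 5) (nat_lit 211) (nat_lit 5) (nat_lit 337) (nat_lit 323) (nat_lit 120))) (XT.nd (nat_lit 78) (nat_lit 0) (nat_lit 0) (XT.lf (nat_lit 0) (nat_lit 4088027507) (nat_lit 1216) (nat_lit 19138655301) (nat_lit 1292) (nat_lit 9997209723) (nat_lit 195) (nat_lit 5) (nat_lit 211) (nat_lit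 5) (nat_lit 212) (nat_lit 5) (nat_lit 338) (nat_lit 323) (nat_lit 119)) (XT.lf (nat_lit 0) (nat_lit 6291664031) (nat_lit 1216) (nat_lit 3040868455) (nat_lit 1292) (nat_lit 24434494015) (nat_lit 195) (nat_lit 5) (nat_lit 211) (nat_lit 5) (nat_lit 212) (nat_lit 5) (nat_lit 339) (nat_lit 323) (nat_lit 118))))) (XT.nd (nat_lit 312) (nat_lit 1140) (nat_lit 0) (XT.nd (nat_lit 156) (nat_lit 760) (nat_lit 0) (XT.nd (nat_lit 78) (nat_lit 0) (nat_lit 0) (XT.lf (nat_lit 0) (nat_lit 8740963519) (nat_lit 1216) (nat_lit 20564385130) (nat_lit 76) (nat_lit 5015721503) (nat_lit 196) (nat_lit 5) (nat_lit 212) (nat_lit 5) (nat_lit 197) (nat_lit 5) (nat_lit 340) (nat_lit 323) (nat_lit 117)) (XT.lf (nat_lit 0) (nat_lit 11384862971) (nat_lit 1216) (nat_lit 3865023614) (nat_lit 76) (nat_lit 19638217112) (nat_lit 196) (nat_lit 5) (nat_lit 212) (nat_lit 5) (nat_lit 197) (nat_lit 5) (nat_lit 341) (nat_lit 323) (nat_lit 116)))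 (XT.nd (nat_lit 78) (nat_lit 0) (nat_lit 0) (XT.lf (nat_lit 0) (nat_lit 13598733093) (nat_lit 760) (nat_lit 637841217) (nat_lit 836) (nat_lit 21231721241) (nat_lit 186) (nat_lit 5) (nat_lit 196) (nat_lit 5) (nat_lit 197) (nat_lit 5) (nat_lit 342) (nat_lit 323) (nat_lit 115)) (XT.lf (nat_lit 0) (nat_lit 17349619221) (nat_lit 836) (nat_lit 4540016095) (nat_lit 76) (nat_lit 14170986462) (nat_lit 186) (nat_lit 5) (nat_lit 197) (nat_lit 5) (nat_lit 187) (nat_lit 5) (nat_lit 343) (nat_lit 323) (nat_lit 114)))) (XT.nd (nat_lit 156) (nat_lit 532) (nat_lit 0) (XT.nd (nat_lit 78) (nat_lit 0) (nat_lit 0) (XT.lf (nat_lit 0) (nat_lit 13565882091) (nat_lit 608) (nat_lit 7124779822) (nat_lit 684) (nat_lit 15976019712) (nat_lit 178) (nat_lit 5) (nat_lit 186) (nat_lit 5) (nat_lit 187) (nat_lit 5) (nat_lit 344) (nat_lit 323) (nat_lit 113)) (XT.lf (nat_lit 0) (nat_lit 24253866138) (nat_lit 684) (nat_lit 5061662674)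 (nat_lit 76) (nat_lit 7971738512) (nat_lit 178) (nat_lit 5) (nat_lit 187) (nat_lit 5) (nat_lit 179) (nat_lit 5) (nat_lit 345) (nat_lit 323) (nat_lit 112))) (XT.nd (nat_lit 78) (nat_lit 0) (nat_lit 0) (XT.lf (nat_lit 0) (nat_lit 13713784045) (nat_lit 532) (nat_lit 14410542461) (nat_lit 608) (nat_lit 9796135198) (nat_lit 171) (nat_lit 5) (nat_lit 178) (nat_lit 5) (nat_lit 179) (nat_lit 5) (nat_lit 346) (nat_lit 323) (nat_lit 111)) (XT.lf (nat_lit 0) (nat_lit 32169603856) (nat_lit 608) (nat_lit 5426392227) (nat_lit 76) (nat_lit 974896589) (nat_lit 171) (nat_lit 5) (nat_lit 179) (nat_lit 5) (nat_lit 172) (nat_lit 5) (nat_lit 347) (nat_lit 323) (nat_lit 110))))))))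
noncomputable def xc230 : XT := (XT.nd (nat_lit 2184) (nat_lit 2888) (nat_lit 0) (XT.nd (nat_lit 1092) (nat_lit 2584) (nat_lit 0) (XT.nd (nat_lit 546) (nat_lit 1368) (nat_lit 0) (XT.nd (nat_lit 234) (nat_lit 988) (nat_lit 0) (XT.nd (nat_lit 78) (nat_lit 608) (nat_lit 0) (XT.lf (nat_lit 0) (nat_lit 14046814703) (nat_lit 532) (nat_lit 22565220388) (nat_lit 608) (nat_lit 2620529412) (nat_lit 164) (nat_lit 5) (nat_lit 171) (nat_lit 5) (nat_lit 172) (nat_lit 5) (nat_lit 348) (nat_lit 323) (nat_lit 109)) (XT.nd (nat_lit 78) (nat_lit 532) (nat_lit 0) (XT.lf (nat_lit 0) (nat_lit 1302245196) (nat_lit 608) (nat_lit 5711707697) (nat_lit 76) (nat_lit 32898164617) (nat_lit 163) (nat_lit 5) (nat_lit 171) (nat_lit 5) (nat_lit 164) (nat_lit 5) (nat_lit 349) (nat_lit 323) (nat_lit 108)) (XT.lf (nat_lit 0) (nat_lit 5516772323) (nat_lit 608) (nat_lit 26091617047) (nat_lit 76) (nat_lit 8996088831) (nat_lit 156) (nat_lit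 5) (nat_lit 164) (nat_lit 5) (nat_lit 157) (nat_lit 5) (nat_lit 350) (nat_lit 323) (nat_lit 107)))) (XT.nd (nat_lit 156) (nat_lit 456) (nat_lit 0) (XT.nd (nat_lit 78) (nat_lit 532) (nat_lit 0) (XT.lf (nat_lit 0) (nat_lit 9983626198) (nat_lit 608) (nat_lit 5926557451) (nat_lit 76) (nat_lit 25403650932) (nat_lit 156) (nat_lit 5) (nat_lit 164) (nat_lit 5) (nat_lit 157) (nat_lit 5) (nat_lit 351) (nat_lit 323) (nat_lit 106)) (XT.lf (nat_lit 0) (nat_lit 14732170752) (nat_lit 608) (nat_lit 26907116363) (nat_lit 76) (nat_lit 400755538) (nat_lit 149) (nat_lit 5) (nat_lit 157) (nat_lit 5) (nat_lit 150) (nat_lit 5) (nat_lit 352) (nat_lit 323) (nat_lit 105))) (XT.nd (nat_lit 78) (nat_lit 456) (nat_lit 0) (XT.lf (nat_lit 0) (nat_lit 19839419705) (nat_lit 608) (nat_lit 6000568788) (nat_lit 76) (nat_lit 16941562539) (nat_lit 149) (nat_lit 5) (nat_lit 157) (nat_lit 5) (nat_lit 150) (nat_lit 5) (nat_lit 353) (nat_lit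 323) (nat_lit 104)) (XT.lf (nat_lit 0) (nat_lit 15840443129) (nat_lit 456) (nat_lit 9410043397) (nat_lit 532) (nat_lit 18290301589) (nat_lit 143) (nat_lit 5) (nat_lit 149) (nat_lit 5) (nat_lit 150) (nat_lit 5) (nat_lit 354) (nat_lit 323) (nat_lit 103))))) (XT.nd (nat_lit 234) (nat_lit 912) (nat_lit 0) (XT.nd (nat_lit 78) (nat_lit 456) (nat_lit 0) (XT.lf (nat_lit 0) (nat_lit 30955658620) (nat_lit 532) (nat_lit 5935977831) (nat_lit 76) (nat_lit 7427214080) (nat_lit 143) (nat_lit 5) (nat_lit 150) (nat_lit 5) (nat_lit 144) (nat_lit 5) (nat_lit 355) (nat_lit 323) (nat_lit 102)) (XT.nd (nat_lit 78) (nat_lit 0) (nat_lit 0) (XT.lf (nat_lit 0) (nat_lit 16712459292) (nat_lit 456) (nat_lit 20371755148) (nat_lit 532) (nat_lit 8028474902) (nat_lit 137) (nat_lit 5) (nat_lit 143) (nat_lit 5) (nat_lit 144) (nat_lit 5) (nat_lit 356) (nat_lit 323) (nat_lit 101)) (XT.lf (nat_lit 0) (nat_lit 40160236452) (nat_lit 456)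 (nat_lit 3294770730) (nat_lit 532) (nat_lit 2473586067) (nat_lit 137) (nat_lit 5) (nat_lit 143) (nat_lit 5) (nat_lit 144) (nat_lit 5) (nat_lit 357) (nat_lit 323) (nat_lit 100)))) (XT.nd (nat_lit 156) (nat_lit 456) (nat_lit 0) (XT.nd (nat_lit 78) (nat_lit 0) (nat_lit 0) (XT.lf (nat_lit 0) (nat_lit 3494113601) (nat_lit 456) (nat_lit 29044399123) (nat_lit 76) (nat_lit 14220239872) (nat_lit 131) (nat_lit 5) (nat_lit 137) (nat_lit 5) (nat_lit 132) (nat_lit 5) (nat_lit 358) (nat_lit 323) (nat_lit 99)) (XT.lf (nat_lit 0) (nat_lit 9681067961) (nat_lit 456) (nat_lit 5651768532) (nat_lit 76) (nat_lit 32277548518) (nat_lit 131) (nat_lit 5) (nat_lit 137) (nat_lit 5) (nat_lit 132) (nat_lit 5) (nat_lit 359) (nat_lit 323) (nat_lit 98))) (XT.nd (nat_lit 78) (nat_lit 0) (nat_lit 0) (XT.lf (nat_lit 0) (nat_lit 16257712843) (nat_lit 532) (nat_lit 29699037081) (nat_lit 76) (nat_lit 2524695205) (nat_lit 125) (nat_lit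 5) (nat_lit 132) (nat_lit 5) (nat_lit 126) (nat_lit 5) (nat_lit 360) (nat_lit 323) (nat_lit 97)) (XT.lf (nat_lit 0) (nat_lit 23239664241) (nat_lit 532) (nat_lit 5465607263) (nat_lit 76) (nat_lit 20667126488) (nat_lit 125) (nat_lit 5) (nat_lit 132) (nat_lit 5) (nat_lit 126) (nat_lit 5) (nat_lit 361) (nat_lit 323) (nat_lit 96)))))) (XT.nd (nat_lit 546) (nat_lit 988) (nat_lit 0) (XT.nd (nat_lit 234) (nat_lit 836) (nat_lit 0) (XT.nd (nat_lit 78) (nat_lit 380) (nat_lit 0) (XT.lf (nat_lit 0) (nat_lit 19881055403) (nat_lit 380) (nat_lit 10739729643) (nat_lit 456) (nat_lit 19663604189) (nat_lit 120) (nat_lit 5) (nat_lit 125) (nat_lit 5) (nat_lit 126) (nat_lit 5) (nat_lit 362) (nat_lit 323) (nat_lit 95)) (XT.nd (nat_lit 78) (nat_lit 380) (nat_lit 0) (XT.lf (nat_lit 0) (nat_lit 38352340808) (nat_lit 456) (nat_lit 5198856467) (nat_lit 76) (nat_lit 7668673990) (nat_lit 120) (nat_lit 5) (nat_lit 126) (nat_lit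 5) (nat_lit 121) (nat_lit 5) (nat_lit 363) (nat_lit 323) (nat_lit 94)) (XT.lf (nat_lit 0) (nat_lit 21064778443) (nat_lit 380) (nat_lit 25558549554) (nat_lit 456) (nat_lit 5550866274) (nat_lit 115) (nat_lit 5) (nat_lit 120) (nat_lit 5) (nat_lit 121) (nat_lit 5) (nat_lit 364) (nat_lit 323) (nat_lit 93)))) (XT.nd (nat_lit 156) (nat_lit 380) (nat_lit 0) (XT.nd (nat_lit 78) (nat_lit 380) (nat_lit 0) (XT.lf (nat_lit 0) (nat_lit 1998247635) (nat_lit 456) (nat_lit 4953985187) (nat_lit 76) (nat_lit 46202791918) (nat_lit 114) (nat_lit 5) (nat_lit 120) (nat_lit 5) (nat_lit 115) (nat_lit 5) (nat_lit 365) (nat_lit 323) (nat_lit 92)) (XT.lf (nat_lit 0) (nat_lit 9996035000) (nat_lit 456) (nat_lit 31911346776) (nat_lit 76) (nat_lit 12246237536) (nat_lit 109) (nat_lit 5) (nat_lit 115) (nat_lit 5) (nat_lit 110) (nat_lit 5) (nat_lit 366) (nat_lit 323) (nat_lit 91))) (XT.nd (nat_lit 78) (nat_lit 380) (nat_lit 0) (XT.lf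 (nat_lit 0) (nat_lit 18351839814) (nat_lit 456) (nat_lit 4895703342) (nat_lit 76) (nat_lit 31931086988) (nat_lit 109) (nat_lit 5) (nat_lit 115) (nat_lit 5) (nat_lit 110) (nat_lit 5) (nat_lit 367) (nat_lit 323) (nat_lit 90)) (XT.lf (nat_lit 0) (nat_lit 23385112975) (nat_lit 380) (nat_lit 3796763829) (nat_lit 456) (nat_lit 29045808669) (nat_lit 104) (nat_lit 5) (nat_lit 109) (nat_lit 5) (nat_lit 110) (nat_lit 5) (nat_lit 368) (nat_lit 323) (nat_lit 89))))) (XT.nd (nat_lit 234) (nat_lit 684) (nat_lit 0) (XT.nd (nat_lit 78) (nat_lit 304) (nat_lit 0) (XT.lf (nat_lit 0) (nat_lit 36481609247) (nat_lit 456) (nat_lit 4850234856) (nat_lit 76) (nat_lit 15970225412) (nat_lit 104) (nat_lit 5) (nat_lit 110) (nat_lit 5) (nat_lit 105) (nat_lit 5) (nat_lit 369) (nat_lit 323) (nat_lit 88)) (XT.nd (nat_lit 78) (nat_lit 0) (nat_lit 0) (XT.lf (nat_lit 0) (nat_lit 24419193660) (nat_lit 304) (nat_lit 21912282113) (nat_lit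 380) (nat_lit 12069075902) (nat_lit 100) (nat_lit 5) (nat_lit 104) (nat_lit 5) (nat_lit 105) (nat_lit 5) (nat_lit 370) (nat_lit 323) (nat_lit 87)) (XT.lf (nat_lit 0) (nat_lit 54664551762) (nat_lit 304) (nat_lit 1860101807) (nat_lit 380) (nat_lit 3005901107) (nat_lit 100) (nat_lit 5) (nat_lit 104) (nat_lit 5) (nat_lit 105) (nat_lit 5) (nat_lit 371) (nat_lit 323) (nat_lit 86)))) (XT.nd (nat_lit 156) (nat_lit 304) (nat_lit 0) (XT.nd (nat_lit 78) (nat_lit 0) (nat_lit 0) (XT.lf (nat_lit 0) (nat_lit 6633900681) (nat_lit 380) (nat_lit 35309815243) (nat_lit 76) (nat_lit 18736070334) (nat_lit 95) (nat_lit 5) (nat_lit 100) (nat_lit 5) (nat_lit 96) (nat_lit 5) (nat_lit 372) (nat_lit 323) (nat_lit 85)) (XT.lf (nat_lit 0) (nat_lit 16569395030) (nat_lit 380) (nat_lit 5299483979) (nat_lit 76) (nat_lit 39991716278) (nat_lit 95) (nat_lit 5) (nat_lit 100) (nat_lit 5) (nat_lit 96) (nat_lit 5) (nat_lit 373) (nat_lit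 323) (nat_lit 84))) (XT.nd (nat_lit 78) (nat_lit 0) (nat_lit 0) (XT.lf (nat_lit 0) (nat_lit 26119313867) (nat_lit 304) (nat_lit 933621668) (nat_lit 380) (nat_lit 36016394351) (nat_lit 91) (nat_lit 5) (nat_lit 95) (nat_lit 5) (nat_lit 96) (nat_lit 5) (nat_lit 374) (nat_lit 323) (nat_lit 83)) (XT.lf (nat_lit 0) (nat_lit 38102251394) (nat_lit 380) (nat_lit 5923785421) (nat_lit 76) (nat_lit 20280752355) (nat_lit 91) (nat_lit 5) (nat_lit 96) (nat_lit 5) (nat_lit 92) (nat_lit 5) (nat_lit 375) (nat_lit 323) (nat_lit 82))))))) (XT.nd (nat_lit 1092) (nat_lit 988) (nat_lit 0) (XT.nd (nat_lit 546) (nat_lit 760) (nat_lit 0) (XT.nd (nat_lit 234) (nat_lit 532) (nat_lit 0) (XT.nd (nat_lit 78) (nat_lit 304) (nat_lit 0) (XT.lf (nat_lit 0) (nat_lit 26540392676) (nat_lit 304) (nat_lit 23205971449) (nat_lit 380) (nat_lit 15827109285) (nat_lit 87) (nat_lit 5) (nat_lit 91) (nat_lit 5) (nat_lit 92) (nat_lit 5) (nat_lit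 376) (nat_lit 323) (nat_lit 81)) (XT.nd (nat_lit 78) (nat_lit 304) (nat_lit 0) (XT.lf (nat_lit 0) (nat_lit 60098448264) (nat_lit 304) (nat_lit 1700138045) (nat_lit 380) (nat_lit 5077808963) (nat_lit 87) (nat_lit 5) (nat_lit 91) (nat_lit 5) (nat_lit 92) (nat_lit 5) (nat_lit 377) (nat_lit 323) (nat_lit 80)) (XT.lf (nat_lit 0) (nat_lit 6334391057) (nat_lit 304) (nat_lit 41497766334) (nat_lit 76) (nat_lit 20370797968) (nat_lit 83) (nat_lit 5) (nat_lit 87) (nat_lit 5) (nat_lit 84) (nat_lit 5) (nat_lit 378) (nat_lit 323) (nat_lit 79)))) (XT.nd (nat_lit 156) (nat_lit 228) (nat_lit 0) (XT.nd (nat_lit 78) (nat_lit 304) (nat_lit 0) (XT.lf (nat_lit 0) (nat_lit 18071851141) (nat_lit 304) (nat_lit 8304753891) (nat_lit 76) (nat_lit 43188650988) (nat_lit 83) (nat_lit 5) (nat_lit 87) (nat_lit 5) (nat_lit 84) (nat_lit 5) (nat_lit 379) (nat_lit 323) (nat_lit 78)) (XT.lf (nat_lit 0) (nat_lit 26397737334) (nat_lit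 304) (nat_lit 4016476376) (nat_lit 380) (nat_lit 40546629232) (nat_lit 79) (nat_lit 5) (nat_lit 83) (nat_lit 5) (nat_lit 84) (nat_lit 5) (nat_lit 380) (nat_lit 323) (nat_lit 77))) (XT.nd (nat_lit 78) (nat_lit 228) (nat_lit 0) (XT.lf (nat_lit 0) (nat_lit 43393355645) (nat_lit 380) (nat_lit 10269285396) (nat_lit 76) (nat_lit 18727661761) (nat_lit 79) (nat_lit 5) (nat_lit 84) (nat_lit 5) (nat_lit 80) (nat_lit 5) (nat_lit 381) (nat_lit 323) (nat_lit 76)) (XT.lf (nat_lit 0) (nat_lit 25509978268) (nat_lit 228) (nat_lit 31535944062) (nat_lit 304) (nat_lit 16808203182) (nat_lit 76) (nat_lit 5) (nat_lit 79) (nat_lit 5) (nat_lit 80) (nat_lit 5) (nat_lit 382) (nat_lit 323) (nat_lit 75))))) (XT.nd (nat_lit 234) (nat_lit 456) (nat_lit 0) (XT.nd (nat_lit 78) (nat_lit 304) (nat_lit 0) (XT.lf (nat_lit 0) (nat_lit 62571748191) (nat_lit 228) (nat_lit 8639097278) (nat_lit 304) (nat_lit 4147934602) (nat_lit 76) (nat_lit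 5) (nat_lit 79) (nat_lit 5) (nat_lit 80) (nat_lit 5) (nat_lit 383) (nat_lit 323) (nat_lit 74)) (XT.nd (nat_lit 78) (nat_lit 0) (nat_lit 0) (XT.lf (nat_lit 0) (nat_lit 9097368744) (nat_lit 304) (nat_lit 52823225898) (nat_lit 76) (nat_lit 14974053512) (nat_lit 72) (nat_lit 5) (nat_lit 76) (nat_lit 5) (nat_lit 73) (nat_lit 5) (nat_lit 384) (nat_lit 323) (nat_lit 73)) (XT.lf (nat_lit 0) (nat_lit 22871706021) (nat_lit 304) (nat_lit 16304219283) (nat_lit 76) (nat_lit 39292984092) (nat_lit 72) (nat_lit 5) (nat_lit 76) (nat_lit 5) (nat_lit 73) (nat_lit 5) (nat_lit 385) (nat_lit 323) (nat_lit 72)))) (XT.nd (nat_lit 156) (nat_lit 228) (nat_lit 0) (XT.nd (nat_lit 78) (nat_lit 0) (nat_lit 0) (XT.lf (nat_lit 0) (nat_lit 21733119230) (nat_lit 228) (nat_lit 15534198444) (nat_lit 304) (nat_lit 42816839964) (nat_lit 69) (nat_lit 5) (nat_lit 72) (nat_lit 5) (nat_lit 73) (nat_lit 5) (nat_lit 386) (nat_lit 323) (nat_lit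 71)) (XT.lf (nat_lit 0) (nat_lit 52344961118) (nat_lit 304) (nat_lit 20584846482) (nat_lit 76) (nat_lit 8810551301) (nat_lit 69) (nat_lit 5) (nat_lit 73) (nat_lit 5) (nat_lit 70) (nat_lit 5) (nat_lit 387) (nat_lit 323) (nat_lit 70))) (XT.nd (nat_lit 78) (nat_lit 0) (nat_lit 0) (XT.lf (nat_lit 0) (nat_lit 18520632087) (nat_lit 228) (nat_lit 49685302806) (nat_lit 304) (nat_lit 15230381739) (nat_lit 66) (nat_lit 5) (nat_lit 69) (nat_lit 5) (nat_lit 70) (nat_lit 5) (nat_lit 388) (nat_lit 323) (nat_lit 69)) (XT.lf (nat_lit 0) (nat_lit 59219957515) (nat_lit 228) (nat_lit 25529824333) (nat_lit 304) (nat_lit 427160376) (nat_lit 66) (nat_lit 5) (nat_lit 69) (nat_lit 5) (nat_lit 70) (nat_lit 5) (nat_lit 389) (nat_lit 323) (nat_lit 68)))))) (XT.nd (nat_lit 546) (nat_lit 228) (nat_lit 0) (XT.nd (nat_lit 234) (nat_lit 228) (nat_lit 0) (XT.nd (nat_lit 78) (nat_lit 228) (nat_lit 0) (XT.lf (nat_lit 0) (nat_lit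 14305909848) (nat_lit 228) (nat_lit 361763283) (nat_lit 304) (nat_lit 72293738759) (nat_lit 62) (nat_lit 5) (nat_lit 65) (nat_lit 5) (nat_lit 66) (nat_lit 5) (nat_lit 390) (nat_lit 323) (nat_lit 67)) (XT.nd (nat_lit 78) (nat_lit 228) (nat_lit 0) (XT.lf (nat_lit 0) (nat_lit 30716387285) (nat_lit 304) (nat_lit 32736577110) (nat_lit 76) (nat_lit 25331036148) (nat_lit 62) (nat_lit 5) (nat_lit 66) (nat_lit 5) (nat_lit 63) (nat_lit 5) (nat_lit 391) (nat_lit 323) (nat_lit 66)) (XT.lf (nat_lit 0) (nat_lit 8541778557) (nat_lit 228) (nat_lit 38789698282) (nat_lit 304) (nat_lit 43327242995) (nat_lit 59) (nat_lit 5) (nat_lit 62) (nat_lit 5) (nat_lit 63) (nat_lit 5) (nat_lit 392) (nat_lit 323) (nat_lit 65)))) (XT.nd (nat_lit 156) (nat_lit 76) (nat_lit 0) (XT.nd (nat_lit 78) (nat_lit 152) (nat_lit 0) (XT.lf (nat_lit 0) (nat_lit 51728328685) (nat_lit 228) (nat_lit 13046499850) (nat_lit 304) (nat_lit 27804958272)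 (nat_lit 59) (nat_lit 5) (nat_lit 62) (nat_lit 5) (nat_lit 63) (nat_lit 5) (nat_lit 393) (nat_lit 323) (nat_lit 64)) (XT.lf (nat_lit 0) (nat_lit 1551587673) (nat_lit 152) (nat_lit 81333532380) (nat_lit 228) (nat_lit 11669056935) (nat_lit 57) (nat_lit 5) (nat_lit 59) (nat_lit 5) (nat_lit 60) (nat_lit 5) (nat_lit 394) (nat_lit 323) (nat_lit 63))) (XT.nd (nat_lit 78) (nat_lit 0) (nat_lit 0) (XT.lf (nat_lit 0) (nat_lit 5399343255) (nat_lit 228) (nat_lit 50693342558) (nat_lit 76) (nat_lit 40477334710) (nat_lit 56) (nat_lit 5) (nat_lit 59) (nat_lit 5) (nat_lit 57) (nat_lit 5) (nat_lit 395) (nat_lit 323) (nat_lit 62)) (XT.lf (nat_lit 0) (nat_lit 22744535543) (nat_lit 228) (nat_lit 7231528427) (nat_lit 76) (nat_lit 68666831387) (nat_lit 56) (nat_lit 5) (nat_lit 59) (nat_lit 5) (nat_lit 57) (nat_lit 5) (nat_lit 396) (nat_lit 323) (nat_lit 61))))) (XT.nd (nat_lit 35178) (nat_lit 0) (nat_lit 11628) (XT.nd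 (nat_lit 35022) (nat_lit 0) (nat_lit 11552) (XT.nd (nat_lit 34944) (nat_lit 0) (nat_lit 11552) (XT.lf (nat_lit 0) (nat_lit 38279979821) (nat_lit 228) (nat_lit 2697372014) (nat_lit 304) (nat_lit 59789586887) (nat_lit 53) (nat_lit 5) (nat_lit 56) (nat_lit 5) (nat_lit 57) (nat_lit 5) (nat_lit 397) (nat_lit 323) (nat_lit 60)) (XT.lf (nat_lit 0) (nat_lit 4263692977) (nat_lit 0) (nat_lit 4263692977) (nat_lit 1140) (nat_lit 5047497774) (nat_lit 205) (nat_lit 5) (nat_lit 205) (nat_lit 3) (nat_lit 220) (nat_lit 3) (nat_lit 324) (nat_lit 324) (nat_lit 132))) (XT.nd (nat_lit 78) (nat_lit 0) (nat_lit 0) (XT.lf (nat_lit 0) (nat_lit 17434359666) (nat_lit 1140) (nat_lit 6204383897) (nat_lit 1216) (nat_lit 3914469085) (nat_lit 205) (nat_lit 5) (nat_lit 220) (nat_lit 3) (nat_lit 221) (nat_lit 5) (nat_lit 325) (nat_lit 324) (nat_lit 131)) (XT.lf (nat_lit 76) (nat_lit 6629299905) (nat_lit 0) (nat_lit 11340873124)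 (nat_lit 1216) (nat_lit 9994246474) (nat_lit 206) (nat_lit 5) (nat_lit 205) (nat_lit 5) (nat_lit 221) (nat_lit 5) (nat_lit 326) (nat_lit 324) (nat_lit 130)))) (XT.nd (nat_lit 156) (nat_lit 0) (nat_lit 0) (XT.nd (nat_lit 78) (nat_lit 0) (nat_lit 0) (XT.lf (nat_lit 0) (nat_lit 18594856147) (nat_lit 1140) (nat_lit 8426153745) (nat_lit 1216) (nat_lit 1364772159) (nat_lit 206) (nat_lit 5) (nat_lit 221) (nat_lit 5) (nat_lit 222) (nat_lit 5) (nat_lit 327) (nat_lit 324) (nat_lit 129)) (XT.lf (nat_lit 76) (nat_lit 4850620370) (nat_lit 0) (nat_lit 14543443496) (nat_lit 1216) (nat_lit 9421051336) (nat_lit 207) (nat_lit 5) (nat_lit 206) (nat_lit 5) (nat_lit 222) (nat_lit 5) (nat_lit 328) (nat_lit 324) (nat_lit 128))) (XT.nd (nat_lit 78) (nat_lit 0) (nat_lit 76) (XT.lf (nat_lit 76) (nat_lit 18696615608) (nat_lit 0) (nat_lit 1602664680) (nat_lit 1216) (nat_lit 8955590239) (nat_lit 207) (nat_lit 5) (nat_lit 206)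 (nat_lit 5) (nat_lit 222) (nat_lit 5) (nat_lit 329) (nat_lit 324) (nat_lit 127)) (XT.lf (nat_lit 76) (nat_lit 3197994914) (nat_lit 0) (nat_lit 18174165549) (nat_lit 1216) (nat_lit 8331445895) (nat_lit 208) (nat_lit 5) (nat_lit 207) (nat_lit 5) (nat_lit 223) (nat_lit 5) (nat_lit 330) (nat_lit 324) (nat_lit 126))))))))
noncomputable def xc231 : XT := (XT.nd (nat_lit 2184) (nat_lit 5168) (nat_lit 0) (XT.nd (nat_lit 1092) (nat_lit 3724) (nat_lit 0) (XT.nd (nat_lit 546) (nat_lit 608) (nat_lit 0) (XT.nd (nat_lit 234) (nat_lit 988) (nat_lit 0) (XT.nd (nat_lit 78) (nat_lit 0) (nat_lit 76) (XT.lf (nat_lit 76) (nat_lit 17565339649) (nat_lit 0) (nat_lit 5031331253) (nat_lit 1216) (nat_lit 7565553020) (nat_lit 208) (nat_lit 5) (nat_lit 207) (nat_lit 5) (nat_lit 223) (nat_lit 5) (nat_lit 331) (nat_lit 324) (nat_lit 125)) (XT.nd (nat_lit 78) (nat_lit 0) (nat_lit 0) (XT.lf (nat_lit 76) (nat_lit 1678203958) (nat_lit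 0) (nat_lit 22274815049) (nat_lit 1216) (nat_lit 6678730822) (nat_lit 209) (nat_lit 5) (nat_lit 208) (nat_lit 5) (nat_lit 224) (nat_lit 5) (nat_lit 332) (nat_lit 324) (nat_lit 124)) (XT.lf (nat_lit 76) (nat_lit 16587094803) (nat_lit 0) (nat_lit 8936764335) (nat_lit 1216) (nat_lit 5586291132) (nat_lit 209) (nat_lit 5) (nat_lit 208) (nat_lit 5) (nat_lit 224) (nat_lit 5) (nat_lit 333) (nat_lit 324) (nat_lit 123)))) (XT.nd (nat_lit 156) (nat_lit 1140) (nat_lit 0) (XT.nd (nat_lit 78) (nat_lit 0) (nat_lit 0) (XT.lf (nat_lit 76) (nat_lit 298109480) (nat_lit 0) (nat_lit 26890093369) (nat_lit 1216) (nat_lit 4413311244) (nat_lit 210) (nat_lit 5) (nat_lit 209) (nat_lit 5) (nat_lit 225) (nat_lit 5) (nat_lit 334) (nat_lit 324) (nat_lit 122)) (XT.lf (nat_lit 76) (nat_lit 15769489539) (nat_lit 0) (nat_lit 13364674378) (nat_lit 1216) (nat_lit 2966506944) (nat_lit 210) (nat_lit 5) (nat_lit 209) (nat_lit 5) (nat_lit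 225) (nat_lit 5) (nat_lit 335) (nat_lit 324) (nat_lit 121))) (XT.nd (nat_lit 78) (nat_lit 1216) (nat_lit 0) (XT.lf (nat_lit 0) (nat_lit 31141448498) (nat_lit 1140) (nat_lit 917150805) (nat_lit 1216) (nat_lit 556117256) (nat_lit 210) (nat_lit 5) (nat_lit 225) (nat_lit 5) (nat_lit 226) (nat_lit 5) (nat_lit 336) (nat_lit 324) (nat_lit 120)) (XT.lf (nat_lit 0) (nat_lit 341466556) (nat_lit 1216) (nat_lit 18019108695) (nat_lit 1292) (nat_lit 14775253243) (nat_lit 194) (nat_lit 5) (nat_lit 210) (nat_lit 5) (nat_lit 211) (nat_lit 5) (nat_lit 337) (nat_lit 324) (nat_lit 119))))) (XT.nd (nat_lit 234) (nat_lit 608) (nat_lit 0) (XT.nd (nat_lit 78) (nat_lit 0) (nat_lit 76) (XT.lf (nat_lit 0) (nat_lit 2187984163) (nat_lit 1216) (nat_lit 2038457268) (nat_lit 1292) (nat_lit 29445488535) (nat_lit 194) (nat_lit 5) (nat_lit 210) (nat_lit 5) (nat_lit 211) (nat_lit 5) (nat_lit 338) (nat_lit 324) (nat_lit 118)) (XT.nd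 (nat_lit 78) (nat_lit 0) (nat_lit 0) (XT.lf (nat_lit 0) (nat_lit 4329655918) (nat_lit 1216) (nat_lit 19613904239) (nat_lit 1292) (nat_lit 10273363844) (nat_lit 195) (nat_lit 5) (nat_lit 211) (nat_lit 5) (nat_lit 212) (nat_lit 5) (nat_lit 339) (nat_lit 324) (nat_lit 117)) (XT.lf (nat_lit 0) (nat_lit 6595935880) (nat_lit 1216) (nat_lit 3036064683) (nat_lit 1292) (nat_lit 25144458767) (nat_lit 195) (nat_lit 5) (nat_lit 211) (nat_lit 5) (nat_lit 212) (nat_lit 5) (nat_lit 340) (nat_lit 324) (nat_lit 116)))) (XT.nd (nat_lit 156) (nat_lit 760) (nat_lit 0) (XT.nd (nat_lit 78) (nat_lit 0) (nat_lit 0) (XT.lf (nat_lit 0) (nat_lit 9116090822) (nat_lit 1216) (nat_lit 21082554290) (nat_lit 76) (nat_lit 5148561157) (nat_lit 196) (nat_lit 5) (nat_lit 212) (nat_lit 5) (nat_lit 197) (nat_lit 5) (nat_lit 341) (nat_lit 324) (nat_lit 115)) (XT.lf (nat_lit 0) (nat_lit 11836018954) (nat_lit 1216) (nat_lit 3885088504)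 (nat_lit 76) (nat_lit 20210245187) (nat_lit 196) (nat_lit 5) (nat_lit 212) (nat_lit 5) (nat_lit 197) (nat_lit 5) (nat_lit 342) (nat_lit 324) (nat_lit 114))) (XT.nd (nat_lit 78) (nat_lit 0) (nat_lit 0) (XT.lf (nat_lit 0) (nat_lit 14101640848) (nat_lit 760) (nat_lit 669360935) (nat_lit 836) (nat_lit 21758019949) (nat_lit 186) (nat_lit 5) (nat_lit 196) (nat_lit 5) (nat_lit 197) (nat_lit 5) (nat_lit 343) (nat_lit 324) (nat_lit 113)) (XT.lf (nat_lit 0) (nat_lit 17974196338) (nat_lit 836) (nat_lit 4580694740) (nat_lit 76) (nat_lit 14584326914) (nat_lit 186) (nat_lit 5) (nat_lit 197) (nat_lit 5) (nat_lit 187) (nat_lit 5) (nat_lit 344) (nat_lit 324) (nat_lit 112)))))) (XT.nd (nat_lit 546) (nat_lit 1444) (nat_lit 0) (XT.nd (nat_lit 234) (nat_lit 1140) (nat_lit 0) (XT.nd (nat_lit 78) (nat_lit 532) (nat_lit 0) (XT.lf (nat_lit 0) (nat_lit 14067443903) (nat_lit 608) (nat_lit 7345903914) (nat_lit 684) (nat_lit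 16350178397) (nat_lit 178) (nat_lit 5) (nat_lit 186) (nat_lit 5) (nat_lit 187) (nat_lit 5) (nat_lit 345) (nat_lit 324) (nat_lit 111)) (XT.nd (nat_lit 78) (nat_lit 532) (nat_lit 0) (XT.lf (nat_lit 0) (nat_lit 25080409403) (nat_lit 684) (nat_lit 5118549296) (nat_lit 76) (nat_lit 8203864771) (nat_lit 178) (nat_lit 5) (nat_lit 187) (nat_lit 5) (nat_lit 179) (nat_lit 5) (nat_lit 346) (nat_lit 324) (nat_lit 110)) (XT.lf (nat_lit 0) (nat_lit 14219229813) (nat_lit 532) (nat_lit 14845776288) (nat_lit 608) (nat_lit 9990069644) (nat_lit 171) (nat_lit 5) (nat_lit 178) (nat_lit 5) (nat_lit 179) (nat_lit 5) (nat_lit 347) (nat_lit 324) (nat_lit 109)))) (XT.nd (nat_lit 156) (nat_lit 608) (nat_lit 0) (XT.nd (nat_lit 78) (nat_lit 532) (nat_lit 0) (XT.lf (nat_lit 0) (nat_lit 33228790762) (nat_lit 608) (nat_lit 5494950885) (nat_lit 76) (nat_lit 1001366185) (nat_lit 171) (nat_lit 5) (nat_lit 179) (nat_lit 5) (nat_lit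 172) (nat_lit 5) (nat_lit 348) (nat_lit 324) (nat_lit 108)) (XT.lf (nat_lit 0) (nat_lit 14561528399) (nat_lit 532) (nat_lit 23241122739) (nat_lit 608) (nat_lit 2604036575) (nat_lit 164) (nat_lit 5) (nat_lit 171) (nat_lit 5) (nat_lit 172) (nat_lit 5) (nat_lit 349) (nat_lit 324) (nat_lit 107))) (XT.nd (nat_lit 78) (nat_lit 532) (nat_lit 0) (XT.lf (nat_lit 0) (nat_lit 1431849256) (nat_lit 608) (nat_lit 5790584427) (nat_lit 76) (nat_lit 33884250118) (nat_lit 163) (nat_lit 5) (nat_lit 171) (nat_lit 5) (nat_lit 164) (nat_lit 5) (nat_lit 350) (nat_lit 324) (nat_lit 106)) (XT.lf (nat_lit 0) (nat_lit 5771082211) (nat_lit 608) (nat_lit 26780082302) (nat_lit 76) (nat_lit 9268705061) (nat_lit 156) (nat_lit 5) (nat_lit 164) (nat_lit 5) (nat_lit 157) (nat_lit 5) (nat_lit 351) (nat_lit 324) (nat_lit 105))))) (XT.nd (nat_lit 234) (nat_lit 912) (nat_lit 0) (XT.nd (nat_lit 78) (nat_lit 532) (nat_lit 0) (XT.lf (nat_lit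 0) (nat_lit 10369355099) (nat_lit 608) (nat_lit 6012817032) (nat_lit 76) (nat_lit 26168414407) (nat_lit 156) (nat_lit 5) (nat_lit 164) (nat_lit 5) (nat_lit 157) (nat_lit 5) (nat_lit 352) (nat_lit 324) (nat_lit 104)) (XT.nd (nat_lit 78) (nat_lit 0) (nat_lit 0) (XT.lf (nat_lit 0) (nat_lit 15258774258) (nat_lit 608) (nat_lit 27621136731) (nat_lit 76) (nat_lit 418719545) (nat_lit 149) (nat_lit 5) (nat_lit 157) (nat_lit 5) (nat_lit 150) (nat_lit 5) (nat_lit 353) (nat_lit 324) (nat_lit 103)) (XT.lf (nat_lit 0) (nat_lit 20516775484) (nat_lit 608) (nat_lit 6090107092) (nat_lit 76) (nat_lit 17455577707) (nat_lit 149) (nat_lit 5) (nat_lit 157) (nat_lit 5) (nat_lit 150) (nat_lit 5) (nat_lit 354) (nat_lit 324) (nat_lit 102)))) (XT.nd (nat_lit 156) (nat_lit 456) (nat_lit 0) (XT.nd (nat_lit 78) (nat_lit 0) (nat_lit 0) (XT.lf (nat_lit 0) (nat_lit 16405248137) (nat_lit 456) (nat_lit 9683393989) (nat_lit 532) (nat_lit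 18755880416) (nat_lit 143) (nat_lit 5) (nat_lit 149) (nat_lit 5) (nat_lit 150) (nat_lit 5) (nat_lit 355) (nat_lit 324) (nat_lit 101)) (XT.lf (nat_lit 0) (nat_lit 31962704150) (nat_lit 532) (nat_lit 6024741738) (nat_lit 76) (nat_lit 7658550939) (nat_lit 143) (nat_lit 5) (nat_lit 150) (nat_lit 5) (nat_lit 144) (nat_lit 5) (nat_lit 356) (nat_lit 324) (nat_lit 100))) (XT.nd (nat_lit 78) (nat_lit 0) (nat_lit 0) (XT.lf (nat_lit 0) (nat_lit 17302272858) (nat_lit 456) (nat_lit 20971411135) (nat_lit 532) (nat_lit 8190011769) (nat_lit 137) (nat_lit 5) (nat_lit 143) (nat_lit 5) (nat_lit 144) (nat_lit 5) (nat_lit 357) (nat_lit 324) (nat_lit 99)) (XT.lf (nat_lit 0) (nat_lit 41450907416) (nat_lit 456) (nat_lit 3382452039) (nat_lit 532) (nat_lit 2470786484) (nat_lit 137) (nat_lit 5) (nat_lit 143) (nat_lit 5) (nat_lit 144) (nat_lit 5) (nat_lit 358) (nat_lit 324) (nat_lit 98))))))) (XT.nd (nat_lit 1092) (nat_lit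 2356) (nat_lit 0) (XT.nd (nat_lit 546) (nat_lit 1140) (nat_lit 0) (XT.nd (nat_lit 234) (nat_lit 760) (nat_lit 0) (XT.nd (nat_lit 78) (nat_lit 456) (nat_lit 0) (XT.lf (nat_lit 0) (nat_lit 3673194032) (nat_lit 456) (nat_lit 29826994531) (nat_lit 76) (nat_lit 14659038531) (nat_lit 131) (nat_lit 5) (nat_lit 137) (nat_lit 5) (nat_lit 132) (nat_lit 5) (nat_lit 359) (nat_lit 324) (nat_lit 97)) (XT.nd (nat_lit 78) (nat_lit 456) (nat_lit 0) (XT.lf (nat_lit 0) (nat_lit 10043594196) (nat_lit 456) (nat_lit 5735169582) (nat_lit 76) (nat_lit 33257711345) (nat_lit 131) (nat_lit 5) (nat_lit 137) (nat_lit 5) (nat_lit 132) (nat_lit 5) (nat_lit 360) (nat_lit 324) (nat_lit 96)) (XT.lf (nat_lit 0) (nat_lit 16816397936) (nat_lit 532) (nat_lit 30502658793) (nat_lit 76) (nat_lit 2614646237) (nat_lit 125) (nat_lit 5) (nat_lit 132) (nat_lit 5) (nat_lit 126) (nat_lit 5) (nat_lit 361) (nat_lit 324) (nat_lit 95)))) (XT.nd (nat_lit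 156) (nat_lit 380) (nat_lit 0) (XT.nd (nat_lit 78) (nat_lit 380) (nat_lit 0) (XT.lf (nat_lit 0) (nat_lit 24005741264) (nat_lit 532) (nat_lit 5544770238) (nat_lit 76) (nat_lit 21300936570) (nat_lit 125) (nat_lit 5) (nat_lit 132) (nat_lit 5) (nat_lit 126) (nat_lit 5) (nat_lit 362) (nat_lit 324) (nat_lit 94)) (XT.lf (nat_lit 0) (nat_lit 20561460885) (nat_lit 380) (nat_lit 11045635596) (nat_lit 456) (nat_lit 20183740157) (nat_lit 120) (nat_lit 5) (nat_lit 125) (nat_lit 5) (nat_lit 126) (nat_lit 5) (nat_lit 363) (nat_lit 324) (nat_lit 93))) (XT.nd (nat_lit 78) (nat_lit 380) (nat_lit 0) (XT.lf (nat_lit 0) (nat_lit 39568779414) (nat_lit 456) (nat_lit 5271422604) (nat_lit 76) (nat_lit 7914237257) (nat_lit 120) (nat_lit 5) (nat_lit 126) (nat_lit 5) (nat_lit 121) (nat_lit 5) (nat_lit 364) (nat_lit 324) (nat_lit 92)) (XT.lf (nat_lit 0) (nat_lit 21779303710) (nat_lit 380) (nat_lit 26307467838) (nat_lit 456)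 (nat_lit 5650655678) (nat_lit 115) (nat_lit 5) (nat_lit 120) (nat_lit 5) (nat_lit 121) (nat_lit 5) (nat_lit 365) (nat_lit 324) (nat_lit 91))))) (XT.nd (nat_lit 234) (nat_lit 684) (nat_lit 0) (XT.nd (nat_lit 78) (nat_lit 380) (nat_lit 0) (XT.lf (nat_lit 0) (nat_lit 2121723523) (nat_lit 456) (nat_lit 5021116129) (nat_lit 76) (nat_lit 47604882321) (nat_lit 114) (nat_lit 5) (nat_lit 120) (nat_lit 5) (nat_lit 115) (nat_lit 5) (nat_lit 366) (nat_lit 324) (nat_lit 90)) (XT.nd (nat_lit 78) (nat_lit 0) (nat_lit 0) (XT.lf (nat_lit 0) (nat_lit 10358545099) (nat_lit 456) (nat_lit 32786252886) (nat_lit 76) (nat_lit 12631504765) (nat_lit 109) (nat_lit 5) (nat_lit 115) (nat_lit 5) (nat_lit 110) (nat_lit 5) (nat_lit 367) (nat_lit 324) (nat_lit 89)) (XT.lf (nat_lit 0) (nat_lit 18963199911) (nat_lit 456) (nat_lit 4962541148) (nat_lit 76) (nat_lit 32906378921) (nat_lit 109) (nat_lit 5) (nat_lit 115) (nat_lit 5) (nat_lit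 110) (nat_lit 5) (nat_lit 368) (nat_lit 324) (nat_lit 88)))) (XT.nd (nat_lit 156) (nat_lit 304) (nat_lit 0) (XT.nd (nat_lit 78) (nat_lit 0) (nat_lit 0) (XT.lf (nat_lit 0) (nat_lit 24165915018) (nat_lit 380) (nat_lit 3891213762) (nat_lit 456) (nat_lit 29855549773) (nat_lit 104) (nat_lit 5) (nat_lit 109) (nat_lit 5) (nat_lit 110) (nat_lit 5) (nat_lit 369) (nat_lit 324) (nat_lit 87)) (XT.lf (nat_lit 0) (nat_lit 37634293122) (nat_lit 456) (nat_lit 4917199044) (nat_lit 76) (nat_lit 16467850023) (nat_lit 104) (nat_lit 5) (nat_lit 110) (nat_lit 5) (nat_lit 105) (nat_lit 5) (nat_lit 370) (nat_lit 324) (nat_lit 86))) (XT.nd (nat_lit 78) (nat_lit 0) (nat_lit 0) (XT.lf (nat_lit 0) (nat_lit 25229542299) (nat_lit 304) (nat_lit 22549164763) (nat_lit 380) (nat_lit 12372101444) (nat_lit 100) (nat_lit 5) (nat_lit 104) (nat_lit 5) (nat_lit 105) (nat_lit 5) (nat_lit 371) (nat_lit 324) (nat_lit 85)) (XT.lf (nat_lit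 0) (nat_lit 56379995917) (nat_lit 304) (nat_lit 1896015721) (nat_lit 380) (nat_lit 3038751212) (nat_lit 100) (nat_lit 5) (nat_lit 104) (nat_lit 5) (nat_lit 105) (nat_lit 5) (nat_lit 372) (nat_lit 324) (nat_lit 84)))))) (XT.nd (nat_lit 546) (nat_lit 1064) (nat_lit 0) (XT.nd (nat_lit 234) (nat_lit 608) (nat_lit 0) (XT.nd (nat_lit 78) (nat_lit 304) (nat_lit 0) (XT.lf (nat_lit 0) (nat_lit 6888416707) (nat_lit 380) (nat_lit 36291697805) (nat_lit 76) (nat_lit 19318362744) (nat_lit 95) (nat_lit 5) (nat_lit 100) (nat_lit 5) (nat_lit 96) (nat_lit 5) (nat_lit 373) (nat_lit 324) (nat_lit 83)) (XT.nd (nat_lit 78) (nat_lit 304) (nat_lit 0) (XT.lf (nat_lit 0) (nat_lit 17120359410) (nat_lit 380) (nat_lit 5383311318) (nat_lit 76) (nat_lit 41211089416) (nat_lit 95) (nat_lit 5) (nat_lit 100) (nat_lit 5) (nat_lit 96) (nat_lit 5) (nat_lit 374) (nat_lit 324) (nat_lit 82)) (XT.lf (nat_lit 0) (nat_lit 26977313628) (nat_lit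 304) (nat_lit 940238482) (nat_lit 380) (nat_lit 37042231356) (nat_lit 91) (nat_lit 5) (nat_lit 95) (nat_lit 5) (nat_lit 96) (nat_lit 5) (nat_lit 375) (nat_lit 324) (nat_lit 81)))) (XT.nd (nat_lit 156) (nat_lit 304) (nat_lit 0) (XT.nd (nat_lit 78) (nat_lit 304) (nat_lit 0) (XT.lf (nat_lit 0) (nat_lit 39297002567) (nat_lit 380) (nat_lit 6027866916) (nat_lit 76) (nat_lit 20909538425) (nat_lit 91) (nat_lit 5) (nat_lit 96) (nat_lit 5) (nat_lit 92) (nat_lit 5) (nat_lit 376) (nat_lit 324) (nat_lit 80)) (XT.lf (nat_lit 0) (nat_lit 27409514641) (nat_lit 304) (nat_lit 23880119547) (nat_lit 380) (nat_lit 16249483623) (nat_lit 87) (nat_lit 5) (nat_lit 91) (nat_lit 5) (nat_lit 92) (nat_lit 5) (nat_lit 377) (nat_lit 324) (nat_lit 79))) (XT.nd (nat_lit 78) (nat_lit 304) (nat_lit 0) (XT.lf (nat_lit 0) (nat_lit 61972188300) (nat_lit 304) (nat_lit 1729752822) (nat_lit 380) (nat_lit 5179231639) (nat_lit 87) (nat_lit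 5) (nat_lit 91) (nat_lit 5) (nat_lit 92) (nat_lit 5) (nat_lit 378) (nat_lit 324) (nat_lit 78)) (XT.lf (nat_lit 0) (nat_lit 6573781606) (nat_lit 304) (nat_lit 42670297865) (nat_lit 76) (nat_lit 21003453194) (nat_lit 83) (nat_lit 5) (nat_lit 87) (nat_lit 5) (nat_lit 84) (nat_lit 5) (nat_lit 379) (nat_lit 324) (nat_lit 77))))) (XT.nd (nat_lit 312) (nat_lit 532) (nat_lit 0) (XT.nd (nat_lit 156) (nat_lit 228) (nat_lit 0) (XT.nd (nat_lit 78) (nat_lit 304) (nat_lit 0) (XT.lf (nat_lit 0) (nat_lit 18661927857) (nat_lit 304) (nat_lit 8483603830) (nat_lit 76) (nat_lit 44505214679) (nat_lit 83) (nat_lit 5) (nat_lit 87) (nat_lit 5) (nat_lit 84) (nat_lit 5) (nat_lit 380) (nat_lit 324) (nat_lit 76)) (XT.lf (nat_lit 0) (nat_lit 27259272988) (nat_lit 304) (nat_lit 4114561625) (nat_lit 380) (nat_lit 41714388949) (nat_lit 79) (nat_lit 5) (nat_lit 83) (nat_lit 5) (nat_lit 84) (nat_lit 5) (nat_lit 381) (nat_lit 324)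 (nat_lit 75))) (XT.nd (nat_lit 78) (nat_lit 228) (nat_lit 0) (XT.lf (nat_lit 0) (nat_lit 44741185345) (nat_lit 380) (nat_lit 10508594256) (nat_lit 76) (nat_lit 19310823421) (nat_lit 79) (nat_lit 5) (nat_lit 84) (nat_lit 5) (nat_lit 80) (nat_lit 5) (nat_lit 382) (nat_lit 324) (nat_lit 74)) (XT.lf (nat_lit 0) (nat_lit 26343373106) (nat_lit 228) (nat_lit 32459269849) (nat_lit 304) (nat_lit 17265718856) (nat_lit 76) (nat_lit 5) (nat_lit 79) (nat_lit 5) (nat_lit 80) (nat_lit 5) (nat_lit 383) (nat_lit 324) (nat_lit 73)))) (XT.nd (nat_lit 156) (nat_lit 228) (nat_lit 0) (XT.nd (nat_lit 78) (nat_lit 304) (nat_lit 0) (XT.lf (nat_lit 0) (nat_lit 64515012762) (nat_lit 228) (nat_lit 8876180357) (nat_lit 304) (nat_lit 4227003299) (nat_lit 76) (nat_lit 5) (nat_lit 79) (nat_lit 5) (nat_lit 80) (nat_lit 5) (nat_lit 384) (nat_lit 324) (nat_lit 72)) (XT.lf (nat_lit 0) (nat_lit 9414332792) (nat_lit 304) (nat_lit 54340433704)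 (nat_lit 76) (nat_lit 15445374940) (nat_lit 72) (nat_lit 5) (nat_lit 76) (nat_lit 5) (nat_lit 73) (nat_lit 5) (nat_lit 385) (nat_lit 324) (nat_lit 71))) (XT.nd (nat_lit 78) (nat_lit 228) (nat_lit 0) (XT.lf (nat_lit 0) (nat_lit 23600617382) (nat_lit 304) (nat_lit 16727822589) (nat_lit 76) (nat_lit 40493229754) (nat_lit 72) (nat_lit 5) (nat_lit 76) (nat_lit 5) (nat_lit 73) (nat_lit 5) (nat_lit 386) (nat_lit 324) (nat_lit 70)) (XT.lf (nat_lit 0) (nat_lit 22449993695) (nat_lit 228) (nat_lit 15977481923) (nat_lit 304) (nat_lit 44057919153) (nat_lit 69) (nat_lit 5) (nat_lit 72) (nat_lit 5) (nat_lit 73) (nat_lit 5) (nat_lit 387) (nat_lit 324) (nat_lit 69))))))))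
noncomputable def xc232 : XT := (XT.nd (nat_lit 37206) (nat_lit 0) (nat_lit 3344) (XT.nd (nat_lit 36114) (nat_lit 0) (nat_lit 10488) (XT.nd (nat_lit 546) (nat_lit 228) (nat_lit 0) (XT.nd (nat_lit 234) (nat_lit 532) (nat_lit 0) (XT.nd (nat_lit 78) (nat_lit 228) (nat_lit 0) (XT.lf (nat_lit 0) (nat_lit 53956433279) (nat_lit 304) (nat_lit 21138362877) (nat_lit 76) (nat_lit 9096517051) (nat_lit 69) (nat_lit 5) (nat_lit 73) (nat_lit 5) (nat_lit 70) (nat_lit 5) (nat_lit 388) (nat_lit 324) (nat_lit 68)) (XT.nd (nat_lit 78) (nat_lit 0) (nat_lit 0) (XT.lf (nat_lit 0) (nat_lit 19139652314) (nat_lit 228) (nat_lit 51152995639) (nat_lit 304) (nat_lit 15645520029) (nat_lit 66) (nat_lit 5) (nat_lit 69) (nat_lit 5) (nat_lit 70) (nat_lit 5) (nat_lit 389) (nat_lit 324) (nat_lit 67)) (XT.lf (nat_lit 0) (nat_lit 61058110866) (nat_lit 228) (nat_lit 26273518819) (nat_lit 304) (nat_lit 399418720) (nat_lit 66) (nat_lit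 5) (nat_lit 69) (nat_lit 5) (nat_lit 70) (nat_lit 5) (nat_lit 390) (nat_lit 324) (nat_lit 66)))) (XT.nd (nat_lit 156) (nat_lit 228) (nat_lit 0) (XT.nd (nat_lit 78) (nat_lit 0) (nat_lit 0) (XT.lf (nat_lit 0) (nat_lit 14796842562) (nat_lit 228) (nat_lit 350061254) (nat_lit 304) (nat_lit 74422154194) (nat_lit 62) (nat_lit 5) (nat_lit 65) (nat_lit 5) (nat_lit 66) (nat_lit 5) (nat_lit 391) (nat_lit 324) (nat_lit 65)) (XT.lf (nat_lit 0) (nat_lit 31676148129) (nat_lit 304) (nat_lit 33657766807) (nat_lit 76) (nat_lit 26112437913) (nat_lit 62) (nat_lit 5) (nat_lit 66) (nat_lit 5) (nat_lit 63) (nat_lit 5) (nat_lit 392) (nat_lit 324) (nat_lit 64))) (XT.nd (nat_lit 78) (nat_lit 0) (nat_lit 0) (XT.lf (nat_lit 0) (nat_lit 8858342397) (nat_lit 228) (nat_lit 39930813076) (nat_lit 304) (nat_lit 44588174864) (nat_lit 59) (nat_lit 5) (nat_lit 62) (nat_lit 5) (nat_lit 63) (nat_lit 5) (nat_lit 393) (nat_lit 324) (nat_lit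 63)) (XT.lf (nat_lit 0) (nat_lit 53338732412) (nat_lit 228) (nat_lit 13415976250) (nat_lit 304) (nat_lit 28601354184) (nat_lit 59) (nat_lit 5) (nat_lit 62) (nat_lit 5) (nat_lit 63) (nat_lit 5) (nat_lit 394) (nat_lit 324) (nat_lit 62))))) (XT.nd (nat_lit 35256) (nat_lit 0) (nat_lit 11324) (XT.nd (nat_lit 78) (nat_lit 76) (nat_lit 0) (XT.lf (nat_lit 0) (nat_lit 1657013092) (nat_lit 152) (nat_lit 83750999314) (nat_lit 228) (nat_lit 11981681761) (nat_lit 57) (nat_lit 5) (nat_lit 59) (nat_lit 5) (nat_lit 60) (nat_lit 5) (nat_lit 395) (nat_lit 324) (nat_lit 61)) (XT.nd (nat_lit 35100) (nat_lit 0) (nat_lit 11324) (XT.lf (nat_lit 0) (nat_lit 5596970309) (nat_lit 228) (nat_lit 52156253557) (nat_lit 76) (nat_lit 41712810935) (nat_lit 56) (nat_lit 5) (nat_lit 59) (nat_lit 5) (nat_lit 57) (nat_lit 5) (nat_lit 396) (nat_lit 324) (nat_lit 60)) (XT.lf (nat_lit 0) (nat_lit 4433887876) (nat_lit 0) (nat_lit 4433887876)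 (nat_lit 1140) (nat_lit 5111729954) (nat_lit 205) (nat_lit 5) (nat_lit 205) (nat_lit 3) (nat_lit 220) (nat_lit 3) (nat_lit 325) (nat_lit 325) (nat_lit 130)))) (XT.nd (nat_lit 156) (nat_lit 0) (nat_lit 76) (XT.nd (nat_lit 78) (nat_lit 0) (nat_lit 0) (XT.lf (nat_lit 0) (nat_lit 18120811350) (nat_lit 1140) (nat_lit 6302524921) (nat_lit 1216) (nat_lit 3951400254) (nat_lit 205) (nat_lit 5) (nat_lit 220) (nat_lit 3) (nat_lit 221) (nat_lit 5) (nat_lit 326) (nat_lit 325) (nat_lit 129)) (XT.lf (nat_lit 76) (nat_lit 6915306743) (nat_lit 0) (nat_lit 11753470065) (nat_lit 1216) (nat_lit 10129625396) (nat_lit 206) (nat_lit 5) (nat_lit 205) (nat_lit 5) (nat_lit 221) (nat_lit 5) (nat_lit 327) (nat_lit 325) (nat_lit 128))) (XT.nd (nat_lit 78) (nat_lit 0) (nat_lit 0) (XT.lf (nat_lit 0) (nat_lit 19306879419) (nat_lit 1140) (nat_lit 8588867098) (nat_lit 1216) (nat_lit 1336823544) (nat_lit 206) (nat_lit 5) (nat_lit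 221) (nat_lit 5) (nat_lit 222) (nat_lit 5) (nat_lit 328) (nat_lit 325) (nat_lit 127)) (XT.lf (nat_lit 76) (nat_lit 5085327189) (nat_lit 0) (nat_lit 15041102903) (nat_lit 1216) (nat_lit 9548466776) (nat_lit 207) (nat_lit 5) (nat_lit 206) (nat_lit 5) (nat_lit 222) (nat_lit 5) (nat_lit 329) (nat_lit 325) (nat_lit 126)))))) (XT.nd (nat_lit 546) (nat_lit 912) (nat_lit 0) (XT.nd (nat_lit 234) (nat_lit 0) (nat_lit 152) (XT.nd (nat_lit 78) (nat_lit 0) (nat_lit 76) (XT.lf (nat_lit 76) (nat_lit 19344104570) (nat_lit 0) (nat_lit 1710313652) (nat_lit 1216) (nat_lit 9073562704) (nat_lit 207) (nat_lit 5) (nat_lit 206) (nat_lit 5) (nat_lit 222) (nat_lit 5) (nat_lit 330) (nat_lit 325) (nat_lit 125)) (XT.nd (nat_lit 78) (nat_lit 0) (nat_lit 0) (XT.lf (nat_lit 76) (nat_lit 3384734579) (nat_lit 0) (nat_lit 18770810037) (nat_lit 1216) (nat_lit 8434756817) (nat_lit 208) (nat_lit 5) (nat_lit 207) (nat_lit 5) (nat_lit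 223) (nat_lit 5) (nat_lit 331) (nat_lit 325) (nat_lit 124)) (XT.lf (nat_lit 76) (nat_lit 18180455000) (nat_lit 0) (nat_lit 5232193057) (nat_lit 1216) (nat_lit 7650158004) (nat_lit 208) (nat_lit 5) (nat_lit 207) (nat_lit 5) (nat_lit 223) (nat_lit 5) (nat_lit 332) (nat_lit 325) (nat_lit 123)))) (XT.nd (nat_lit 156) (nat_lit 0) (nat_lit 76) (XT.nd (nat_lit 78) (nat_lit 0) (nat_lit 0) (XT.lf (nat_lit 76) (nat_lit 1820558720) (nat_lit 0) (nat_lit 22985524765) (nat_lit 1216) (nat_lit 6740446498) (nat_lit 209) (nat_lit 5) (nat_lit 208) (nat_lit 5) (nat_lit 224) (nat_lit 5) (nat_lit 333) (nat_lit 325) (nat_lit 122)) (XT.lf (nat_lit 76) (nat_lit 17174036427) (nat_lit 0) (nat_lit 9246095677) (nat_lit 1216) (nat_lit 5619271857) (nat_lit 209) (nat_lit 5) (nat_lit 208) (nat_lit 5) (nat_lit 224) (nat_lit 5) (nat_lit 334) (nat_lit 325) (nat_lit 121))) (XT.nd (nat_lit 78) (nat_lit 0) (nat_lit 0) (XT.lf (nat_lit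 76) (nat_lit 399909302) (nat_lit 0) (nat_lit 27731202011) (nat_lit 1216) (nat_lit 4414500135) (nat_lit 210) (nat_lit 5) (nat_lit 209) (nat_lit 5) (nat_lit 225) (nat_lit 5) (nat_lit 335) (nat_lit 325) (nat_lit 120)) (XT.lf (nat_lit 76) (nat_lit 16332726204) (nat_lit 0) (nat_lit 13799018339) (nat_lit 1216) (nat_lit 2928113370) (nat_lit 210) (nat_lit 5) (nat_lit 209) (nat_lit 5) (nat_lit 225) (nat_lit 5) (nat_lit 336) (nat_lit 325) (nat_lit 119))))) (XT.nd (nat_lit 234) (nat_lit 0) (nat_lit 76) (XT.nd (nat_lit 78) (nat_lit 1216) (nat_lit 0) (XT.lf (nat_lit 0) (nat_lit 32195337207) (nat_lit 1140) (nat_lit 853105960) (nat_lit 1216) (nat_lit 541002810) (nat_lit 210) (nat_lit 5) (nat_lit 225) (nat_lit 5) (nat_lit 226) (nat_lit 5) (nat_lit 337) (nat_lit 325) (nat_lit 118)) (XT.nd (nat_lit 78) (nat_lit 0) (nat_lit 0) (XT.lf (nat_lit 0) (nat_lit 470018043) (nat_lit 1216) (nat_lit 18466550000) (nat_lit 1292)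 (nat_lit 15189670405) (nat_lit 194) (nat_lit 5) (nat_lit 210) (nat_lit 5) (nat_lit 211) (nat_lit 5) (nat_lit 338) (nat_lit 325) (nat_lit 117)) (XT.lf (nat_lit 0) (nat_lit 2368485329) (nat_lit 1216) (nat_lit 2009191611) (nat_lit 1292) (nat_lit 30300852768) (nat_lit 194) (nat_lit 5) (nat_lit 210) (nat_lit 5) (nat_lit 211) (nat_lit 5) (nat_lit 339) (nat_lit 325) (nat_lit 116)))) (XT.nd (nat_lit 156) (nat_lit 0) (nat_lit 76) (XT.nd (nat_lit 78) (nat_lit 0) (nat_lit 0) (XT.lf (nat_lit 0) (nat_lit 4571702808) (nat_lit 1216) (nat_lit 20109088526) (nat_lit 1292) (nat_lit 10559166635) (nat_lit 195) (nat_lit 5) (nat_lit 211) (nat_lit 5) (nat_lit 212) (nat_lit 5) (nat_lit 340) (nat_lit 325) (nat_lit 115)) (XT.lf (nat_lit 0) (nat_lit 6902704454) (nat_lit 1216) (nat_lit 3036629303) (nat_lit 1292) (nat_lit 25877046778) (nat_lit 195) (nat_lit 5) (nat_lit 211) (nat_lit 5) (nat_lit 212) (nat_lit 5) (nat_lit 341)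 (nat_lit 325) (nat_lit 114))) (XT.nd (nat_lit 78) (nat_lit 0) (nat_lit 0) (XT.lf (nat_lit 0) (nat_lit 9495991114) (nat_lit 1216) (nat_lit 21621937891) (nat_lit 76) (nat_lit 5286398148) (nat_lit 196) (nat_lit 5) (nat_lit 212) (nat_lit 5) (nat_lit 197) (nat_lit 5) (nat_lit 342) (nat_lit 325) (nat_lit 113)) (XT.lf (nat_lit 0) (nat_lit 12294417549) (nat_lit 1216) (nat_lit 3911259578) (nat_lit 76) (nat_lit 20800416773) (nat_lit 196) (nat_lit 5) (nat_lit 212) (nat_lit 5) (nat_lit 197) (nat_lit 5) (nat_lit 343) (nat_lit 325) (nat_lit 112))))))) (XT.nd (nat_lit 1092) (nat_lit 3268) (nat_lit 0) (XT.nd (nat_lit 546) (nat_lit 1596) (nat_lit 0) (XT.nd (nat_lit 234) (nat_lit 1064) (nat_lit 0) (XT.nd (nat_lit 78) (nat_lit 608) (nat_lit 0) (XT.lf (nat_lit 0) (nat_lit 14614185560) (nat_lit 760) (nat_lit 701115325) (nat_lit 836) (nat_lit 22306459550) (nat_lit 186) (nat_lit 5) (nat_lit 196) (nat_lit 5) (nat_lit 197)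 (nat_lit 5) (nat_lit 344) (nat_lit 325) (nat_lit 111)) (XT.nd (nat_lit 78) (nat_lit 608) (nat_lit 0) (XT.lf (nat_lit 0) (nat_lit 18611535660) (nat_lit 836) (nat_lit 4628077088) (nat_lit 76) (nat_lit 15010744325) (nat_lit 186) (nat_lit 5) (nat_lit 197) (nat_lit 5) (nat_lit 187) (nat_lit 5) (nat_lit 345) (nat_lit 325) (nat_lit 110)) (XT.lf (nat_lit 0) (nat_lit 14578622984) (nat_lit 608) (nat_lit 7573238047) (nat_lit 684) (nat_lit 16741596270) (nat_lit 178) (nat_lit 5) (nat_lit 186) (nat_lit 5) (nat_lit 187) (nat_lit 5) (nat_lit 346) (nat_lit 325) (nat_lit 109)))) (XT.nd (nat_lit 156) (nat_lit 532) (nat_lit 0) (XT.nd (nat_lit 78) (nat_lit 532) (nat_lit 0) (XT.lf (nat_lit 0) (nat_lit 25926070136) (nat_lit 684) (nat_lit 5182593795) (nat_lit 76) (nat_lit 8443358133) (nat_lit 178) (nat_lit 5) (nat_lit 187) (nat_lit 5) (nat_lit 179) (nat_lit 5) (nat_lit 347) (nat_lit 325) (nat_lit 108)) (XT.lf (nat_lit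 0) (nat_lit 14734441118) (nat_lit 532) (nat_lit 15293899651) (nat_lit 608) (nat_lit 10195559639) (nat_lit 171) (nat_lit 5) (nat_lit 178) (nat_lit 5) (nat_lit 179) (nat_lit 5) (nat_lit 348) (nat_lit 325) (nat_lit 107))) (XT.nd (nat_lit 78) (nat_lit 532) (nat_lit 0) (XT.lf (nat_lit 0) (nat_lit 34314351620) (nat_lit 608) (nat_lit 5570975669) (nat_lit 76) (nat_lit 1028789297) (nat_lit 171) (nat_lit 5) (nat_lit 179) (nat_lit 5) (nat_lit 172) (nat_lit 5) (nat_lit 349) (nat_lit 325) (nat_lit 106)) (XT.lf (nat_lit 0) (nat_lit 15086327173) (nat_lit 532) (nat_lit 23937362680) (nat_lit 608) (nat_lit 2592508583) (nat_lit 164) (nat_lit 5) (nat_lit 171) (nat_lit 5) (nat_lit 172) (nat_lit 5) (nat_lit 350) (nat_lit 325) (nat_lit 105))))) (XT.nd (nat_lit 234) (nat_lit 988) (nat_lit 0) (XT.nd (nat_lit 78) (nat_lit 532) (nat_lit 0) (XT.lf (nat_lit 0) (nat_lit 1560144261) (nat_lit 608) (nat_lit 5877135874) (nat_lit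 76) (nat_lit 34899967519) (nat_lit 163) (nat_lit 5) (nat_lit 171) (nat_lit 5) (nat_lit 164) (nat_lit 5) (nat_lit 351) (nat_lit 325) (nat_lit 104)) (XT.nd (nat_lit 78) (nat_lit 0) (nat_lit 0) (XT.lf (nat_lit 0) (nat_lit 6027923528) (nat_lit 608) (nat_lit 27494613759) (nat_lit 76) (nat_lit 9549342861) (nat_lit 156) (nat_lit 5) (nat_lit 164) (nat_lit 5) (nat_lit 157) (nat_lit 5) (nat_lit 352) (nat_lit 325) (nat_lit 103)) (XT.lf (nat_lit 0) (nat_lit 10761706481) (nat_lit 608) (nat_lit 6106919008) (nat_lit 76) (nat_lit 26955968439) (nat_lit 156) (nat_lit 5) (nat_lit 164) (nat_lit 5) (nat_lit 157) (nat_lit 5) (nat_lit 353) (nat_lit 325) (nat_lit 102)))) (XT.nd (nat_lit 156) (nat_lit 456) (nat_lit 0) (XT.nd (nat_lit 78) (nat_lit 0) (nat_lit 0) (XT.lf (nat_lit 0) (nat_lit 15796317279) (nat_lit 608) (nat_lit 28361927376) (nat_lit 76) (nat_lit 436881414) (nat_lit 149) (nat_lit 5) (nat_lit 157) (nat_lit 5)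 (nat_lit 150) (nat_lit 5) (nat_lit 354) (nat_lit 325) (nat_lit 101)) (XT.lf (nat_lit 0) (nat_lit 21209734859) (nat_lit 608) (nat_lit 6187525395) (nat_lit 76) (nat_lit 17984682206) (nat_lit 149) (nat_lit 5) (nat_lit 157) (nat_lit 5) (nat_lit 150) (nat_lit 5) (nat_lit 355) (nat_lit 325) (nat_lit 100))) (XT.nd (nat_lit 78) (nat_lit 0) (nat_lit 0) (XT.lf (nat_lit 0) (nat_lit 16981854364) (nat_lit 456) (nat_lit 9965458906) (nat_lit 532) (nat_lit 19240198623) (nat_lit 143) (nat_lit 5) (nat_lit 149) (nat_lit 5) (nat_lit 150) (nat_lit 5) (nat_lit 356) (nat_lit 325) (nat_lit 99)) (XT.lf (nat_lit 0) (nat_lit 32995461955) (nat_lit 532) (nat_lit 6121295634) (nat_lit 76) (nat_lit 7896338795) (nat_lit 143) (nat_lit 5) (nat_lit 150) (nat_lit 5) (nat_lit 144) (nat_lit 5) (nat_lit 357) (nat_lit 325) (nat_lit 98)))))) (XT.nd (nat_lit 546) (nat_lit 1520) (nat_lit 0) (XT.nd (nat_lit 234) (nat_lit 836) (nat_lit 0) (XT.nd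 (nat_lit 78) (nat_lit 456) (nat_lit 0) (XT.lf (nat_lit 0) (nat_lit 17904704024) (nat_lit 456) (nat_lit 21589716757) (nat_lit 532) (nat_lit 8360947883) (nat_lit 137) (nat_lit 5) (nat_lit 143) (nat_lit 5) (nat_lit 144) (nat_lit 5) (nat_lit 358) (nat_lit 325) (nat_lit 97)) (XT.nd (nat_lit 78) (nat_lit 456) (nat_lit 0) (XT.lf (nat_lit 0) (nat_lit 42775369571) (nat_lit 456) (nat_lit 3473404520) (nat_lit 532) (nat_lit 2472323439) (nat_lit 137) (nat_lit 5) (nat_lit 143) (nat_lit 5) (nat_lit 144) (nat_lit 5) (nat_lit 359) (nat_lit 325) (nat_lit 96)) (XT.lf (nat_lit 0) (nat_lit 3853384218) (nat_lit 456) (nat_lit 30638161642) (nat_lit 76) (nat_lit 15110301310) (nat_lit 131) (nat_lit 5) (nat_lit 137) (nat_lit 5) (nat_lit 132) (nat_lit 5) (nat_lit 360) (nat_lit 325) (nat_lit 95)))) (XT.nd (nat_lit 156) (nat_lit 380) (nat_lit 0) (XT.nd (nat_lit 78) (nat_lit 456) (nat_lit 0) (XT.lf (nat_lit 0) (nat_lit 10412857717)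 (nat_lit 456) (nat_lit 5826018141) (nat_lit 76) (nat_lit 34266599600) (nat_lit 131) (nat_lit 5) (nat_lit 137) (nat_lit 5) (nat_lit 132) (nat_lit 5) (nat_lit 361) (nat_lit 325) (nat_lit 94)) (XT.lf (nat_lit 0) (nat_lit 17387770549) (nat_lit 532) (nat_lit 31335403370) (nat_lit 76) (nat_lit 2706480079) (nat_lit 125) (nat_lit 5) (nat_lit 132) (nat_lit 5) (nat_lit 126) (nat_lit 5) (nat_lit 362) (nat_lit 325) (nat_lit 93))) (XT.nd (nat_lit 78) (nat_lit 380) (nat_lit 0) (XT.lf (nat_lit 0) (nat_lit 24790846195) (nat_lit 532) (nat_lit 5631176269) (nat_lit 76) (nat_lit 21952968992) (nat_lit 125) (nat_lit 5) (nat_lit 132) (nat_lit 5) (nat_lit 126) (nat_lit 5) (nat_lit 363) (nat_lit 325) (nat_lit 92)) (XT.lf (nat_lit 0) (nat_lit 21257458090) (nat_lit 380) (nat_lit 11361653606) (nat_lit 456) (nat_lit 20723485412) (nat_lit 120) (nat_lit 5) (nat_lit 125) (nat_lit 5) (nat_lit 126) (nat_lit 5) (nat_lit 364) (nat_lit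 325) (nat_lit 91))))) (XT.nd (nat_lit 312) (nat_lit 684) (nat_lit 0) (XT.nd (nat_lit 156) (nat_lit 456) (nat_lit 0) (XT.nd (nat_lit 78) (nat_lit 380) (nat_lit 0) (XT.lf (nat_lit 0) (nat_lit 40817930063) (nat_lit 456) (nat_lit 5350953201) (nat_lit 76) (nat_lit 8166277485) (nat_lit 120) (nat_lit 5) (nat_lit 126) (nat_lit 5) (nat_lit 121) (nat_lit 5) (nat_lit 365) (nat_lit 325) (nat_lit 90)) (XT.lf (nat_lit 0) (nat_lit 22510524197) (nat_lit 380) (nat_lit 27079877657) (nat_lit 456) (nat_lit 5757269718) (nat_lit 115) (nat_lit 5) (nat_lit 120) (nat_lit 5) (nat_lit 121) (nat_lit 5) (nat_lit 366) (nat_lit 325) (nat_lit 89))) (XT.nd (nat_lit 78) (nat_lit 380) (nat_lit 0) (XT.lf (nat_lit 0) (nat_lit 2245256894) (nat_lit 456) (nat_lit 5094938778) (nat_lit 76) (nat_lit 49048116588) (nat_lit 114) (nat_lit 5) (nat_lit 120) (nat_lit 5) (nat_lit 115) (nat_lit 5) (nat_lit 367) (nat_lit 325) (nat_lit 88)) (XT.lf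 (nat_lit 0) (nat_lit 10728335338) (nat_lit 456) (nat_lit 33692138245) (nat_lit 76) (nat_lit 13027303620) (nat_lit 109) (nat_lit 5) (nat_lit 115) (nat_lit 5) (nat_lit 110) (nat_lit 5) (nat_lit 368) (nat_lit 325) (nat_lit 87)))) (XT.nd (nat_lit 156) (nat_lit 304) (nat_lit 0) (XT.nd (nat_lit 78) (nat_lit 380) (nat_lit 0) (XT.lf (nat_lit 0) (nat_lit 19589410360) (nat_lit 456) (nat_lit 5035978327) (nat_lit 76) (nat_lit 33909933116) (nat_lit 109) (nat_lit 5) (nat_lit 115) (nat_lit 5) (nat_lit 110) (nat_lit 5) (nat_lit 369) (nat_lit 325) (nat_lit 86)) (XT.lf (nat_lit 0) (nat_lit 24965591926) (nat_lit 380) (nat_lit 3989613873) (nat_lit 456) (nat_lit 30693121106) (nat_lit 104) (nat_lit 5) (nat_lit 109) (nat_lit 5) (nat_lit 110) (nat_lit 5) (nat_lit 370) (nat_lit 325) (nat_lit 85))) (XT.nd (nat_lit 78) (nat_lit 304) (nat_lit 0) (XT.lf (nat_lit 0) (nat_lit 38818214553) (nat_lit 456) (nat_lit 4990680839) (nat_lit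 76) (nat_lit 16979340372) (nat_lit 104) (nat_lit 5) (nat_lit 110) (nat_lit 5) (nat_lit 105) (nat_lit 5) (nat_lit 371) (nat_lit 325) (nat_lit 84)) (XT.lf (nat_lit 0) (nat_lit 26059736919) (nat_lit 304) (nat_lit 23206329861) (nat_lit 380) (nat_lit 12687607275) (nat_lit 100) (nat_lit 5) (nat_lit 104) (nat_lit 5) (nat_lit 105) (nat_lit 5) (nat_lit 372) (nat_lit 325) (nat_lit 83))))))))
noncomputable def xc233 : XT := (XT.nd (nat_lit 37284) (nat_lit 0) (nat_lit 6536) (XT.nd (nat_lit 1092) (nat_lit 1140) (nat_lit 0) (XT.nd (nat_lit 546) (nat_lit 1140) (nat_lit 0) (XT.nd (nat_lit 234) (nat_lit 608) (nat_lit 0) (XT.nd (nat_lit 78) (nat_lit 380) (nat_lit 0) (XT.lf (nat_lit 0) (nat_lit 58142568951) (nat_lit 304) (nat_lit 1934148771) (nat_lit 380) (nat_lit 3075877621) (nat_lit 100) (nat_lit 5) (nat_lit 104) (nat_lit 5) (nat_lit 105) (nat_lit 5) (nat_lit 373) (nat_lit 325) (nat_lit 82)) (XT.nd (nat_lit 78)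 (nat_lit 0) (nat_lit 0) (XT.lf (nat_lit 0) (nat_lit 7147382343) (nat_lit 380) (nat_lit 37307480603) (nat_lit 76) (nat_lit 19916963771) (nat_lit 95) (nat_lit 5) (nat_lit 100) (nat_lit 5) (nat_lit 96) (nat_lit 5) (nat_lit 374) (nat_lit 325) (nat_lit 81)) (XT.lf (nat_lit 0) (nat_lit 17684759644) (nat_lit 380) (nat_lit 5473967807) (nat_lit 76) (nat_lit 42465917385) (nat_lit 95) (nat_lit 5) (nat_lit 100) (nat_lit 5) (nat_lit 96) (nat_lit 5) (nat_lit 375) (nat_lit 325) (nat_lit 80)))) (XT.nd (nat_lit 156) (nat_lit 304) (nat_lit 0) (XT.nd (nat_lit 78) (nat_lit 0) (nat_lit 0) (XT.lf (nat_lit 0) (nat_lit 27856781350) (nat_lit 304) (nat_lit 948281780) (nat_lit 380) (nat_lit 38101980882) (nat_lit 91) (nat_lit 5) (nat_lit 95) (nat_lit 5) (nat_lit 96) (nat_lit 5) (nat_lit 376) (nat_lit 325) (nat_lit 79)) (XT.lf (nat_lit 0) (nat_lit 40524629424) (nat_lit 380) (nat_lit 6139297637) (nat_lit 76) (nat_lit 21556019129)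 (nat_lit 91) (nat_lit 5) (nat_lit 96) (nat_lit 5) (nat_lit 92) (nat_lit 5) (nat_lit 377) (nat_lit 325) (nat_lit 78))) (XT.nd (nat_lit 78) (nat_lit 0) (nat_lit 0) (XT.lf (nat_lit 0) (nat_lit 28300524923) (nat_lit 304) (nat_lit 24575756761) (nat_lit 380) (nat_lit 16687539401) (nat_lit 87) (nat_lit 5) (nat_lit 91) (nat_lit 5) (nat_lit 92) (nat_lit 5) (nat_lit 378) (nat_lit 325) (nat_lit 77)) (XT.lf (nat_lit 0) (nat_lit 63898077096) (nat_lit 304) (nat_lit 1761483880) (nat_lit 380) (nat_lit 5286619530) (nat_lit 87) (nat_lit 5) (nat_lit 91) (nat_lit 5) (nat_lit 92) (nat_lit 5) (nat_lit 379) (nat_lit 325) (nat_lit 76))))) (XT.nd (nat_lit 234) (nat_lit 532) (nat_lit 0) (XT.nd (nat_lit 78) (nat_lit 304) (nat_lit 0) (XT.lf (nat_lit 0) (nat_lit 6817520475) (nat_lit 304) (nat_lit 43882161483) (nat_lit 76) (nat_lit 21653852092) (nat_lit 83) (nat_lit 5) (nat_lit 87) (nat_lit 5) (nat_lit 84) (nat_lit 5) (nat_lit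 380) (nat_lit 325) (nat_lit 75)) (XT.nd (nat_lit 78) (nat_lit 304) (nat_lit 0) (XT.lf (nat_lit 0) (nat_lit 19266956004) (nat_lit 304) (nat_lit 8671854354) (nat_lit 76) (nat_lit 45860075296) (nat_lit 83) (nat_lit 5) (nat_lit 87) (nat_lit 5) (nat_lit 84) (nat_lit 5) (nat_lit 381) (nat_lit 325) (nat_lit 74)) (XT.lf (nat_lit 0) (nat_lit 28142659185) (nat_lit 304) (nat_lit 4216875802) (nat_lit 380) (nat_lit 42919973544) (nat_lit 79) (nat_lit 5) (nat_lit 83) (nat_lit 5) (nat_lit 84) (nat_lit 5) (nat_lit 382) (nat_lit 325) (nat_lit 73)))) (XT.nd (nat_lit 156) (nat_lit 304) (nat_lit 0) (XT.nd (nat_lit 78) (nat_lit 228) (nat_lit 0) (XT.lf (nat_lit 0) (nat_lit 46126807681) (nat_lit 380) (nat_lit 10759030044) (nat_lit 76) (nat_lit 19910255397) (nat_lit 79) (nat_lit 5) (nat_lit 84) (nat_lit 5) (nat_lit 80) (nat_lit 5) (nat_lit 383) (nat_lit 325) (nat_lit 72)) (XT.lf (nat_lit 0) (nat_lit 27197860828) (nat_lit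 228) (nat_lit 33411601498) (nat_lit 304) (nat_lit 17739642518) (nat_lit 76) (nat_lit 5) (nat_lit 79) (nat_lit 5) (nat_lit 80) (nat_lit 5) (nat_lit 384) (nat_lit 325) (nat_lit 71))) (XT.nd (nat_lit 78) (nat_lit 304) (nat_lit 0) (XT.lf (nat_lit 0) (nat_lit 66512780164) (nat_lit 228) (nat_lit 9121643975) (nat_lit 304) (nat_lit 4311048443) (nat_lit 76) (nat_lit 5) (nat_lit 79) (nat_lit 5) (nat_lit 80) (nat_lit 5) (nat_lit 385) (nat_lit 325) (nat_lit 70)) (XT.lf (nat_lit 0) (nat_lit 9738277514) (nat_lit 304) (nat_lit 55907031888) (nat_lit 76) (nat_lit 15929567391) (nat_lit 72) (nat_lit 5) (nat_lit 76) (nat_lit 5) (nat_lit 73) (nat_lit 5) (nat_lit 386) (nat_lit 325) (nat_lit 69)))))) (XT.nd (nat_lit 546) (nat_lit 380) (nat_lit 0) (XT.nd (nat_lit 234) (nat_lit 532) (nat_lit 0) (XT.nd (nat_lit 78) (nat_lit 228) (nat_lit 0) (XT.lf (nat_lit 0) (nat_lit 24348941475) (nat_lit 304) (nat_lit 17167895298) (nat_lit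 76) (nat_lit 41728251115) (nat_lit 72) (nat_lit 5) (nat_lit 76) (nat_lit 5) (nat_lit 73) (nat_lit 5) (nat_lit 387) (nat_lit 325) (nat_lit 68)) (XT.nd (nat_lit 78) (nat_lit 0) (nat_lit 0) (XT.lf (nat_lit 0) (nat_lit 23184649965) (nat_lit 228) (nat_lit 16435369418) (nat_lit 304) (nat_lit 45338723548) (nat_lit 69) (nat_lit 5) (nat_lit 72) (nat_lit 5) (nat_lit 73) (nat_lit 5) (nat_lit 388) (nat_lit 325) (nat_lit 67)) (XT.lf (nat_lit 0) (nat_lit 55613888958) (nat_lit 304) (nat_lit 21712160290) (nat_lit 76) (nat_lit 9389819019) (nat_lit 69) (nat_lit 5) (nat_lit 73) (nat_lit 5) (nat_lit 70) (nat_lit 5) (nat_lit 389) (nat_lit 325) (nat_lit 66)))) (XT.nd (nat_lit 156) (nat_lit 304) (nat_lit 0) (XT.nd (nat_lit 78) (nat_lit 0) (nat_lit 0) (XT.lf (nat_lit 0) (nat_lit 19773603656) (nat_lit 228) (nat_lit 52666031873) (nat_lit 304) (nat_lit 16075510419) (nat_lit 66) (nat_lit 5) (nat_lit 69) (nat_lit 5) (nat_lit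 70) (nat_lit 5) (nat_lit 390) (nat_lit 325) (nat_lit 65)) (XT.lf (nat_lit 0) (nat_lit 62947875330) (nat_lit 228) (nat_lit 27040798525) (nat_lit 304) (nat_lit 373172921) (nat_lit 66) (nat_lit 5) (nat_lit 69) (nat_lit 5) (nat_lit 70) (nat_lit 5) (nat_lit 391) (nat_lit 325) (nat_lit 64))) (XT.nd (nat_lit 78) (nat_lit 0) (nat_lit 0) (XT.lf (nat_lit 0) (nat_lit 15298958243) (nat_lit 228) (nat_lit 339302908) (nat_lit 304) (nat_lit 76616741029) (nat_lit 62) (nat_lit 5) (nat_lit 65) (nat_lit 5) (nat_lit 66) (nat_lit 5) (nat_lit 392) (nat_lit 325) (nat_lit 63)) (XT.lf (nat_lit 0) (nat_lit 32662504988) (nat_lit 304) (nat_lit 34610088541) (nat_lit 76) (nat_lit 26916049225) (nat_lit 62) (nat_lit 5) (nat_lit 66) (nat_lit 5) (nat_lit 63) (nat_lit 5) (nat_lit 393) (nat_lit 325) (nat_lit 62))))) (XT.nd (nat_lit 35334) (nat_lit 0) (nat_lit 11248) (XT.nd (nat_lit 78) (nat_lit 152) (nat_lit 0) (XT.lf (nat_lit 0) (nat_lit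 9180941083) (nat_lit 228) (nat_lit 41107457278) (nat_lit 304) (nat_lit 45889166872) (nat_lit 59) (nat_lit 5) (nat_lit 62) (nat_lit 5) (nat_lit 63) (nat_lit 5) (nat_lit 394) (nat_lit 325) (nat_lit 61)) (XT.nd (nat_lit 78) (nat_lit 152) (nat_lit 0) (XT.lf (nat_lit 0) (nat_lit 54994087020) (nat_lit 228) (nat_lit 13797795158) (nat_lit 304) (nat_lit 29423809141) (nat_lit 59) (nat_lit 5) (nat_lit 62) (nat_lit 5) (nat_lit 63) (nat_lit 5) (nat_lit 395) (nat_lit 325) (nat_lit 60)) (XT.lf (nat_lit 0) (nat_lit 1762221447) (nat_lit 152) (nat_lit 86242284089) (nat_lit 228) (nat_lit 12305834936) (nat_lit 57) (nat_lit 5) (nat_lit 59) (nat_lit 5) (nat_lit 60) (nat_lit 5) (nat_lit 396) (nat_lit 325) (nat_lit 59)))) (XT.nd (nat_lit 156) (nat_lit 0) (nat_lit 0) (XT.nd (nat_lit 78) (nat_lit 0) (nat_lit 0) (XT.lf (nat_lit 0) (nat_lit 4606761342) (nat_lit 0) (nat_lit 4606761342) (nat_lit 1140) (nat_lit 5182894321) (nat_lit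 205) (nat_lit 5) (nat_lit 205) (nat_lit 3) (nat_lit 220) (nat_lit 3) (nat_lit 326) (nat_lit 326) (nat_lit 128)) (XT.lf (nat_lit 0) (nat_lit 18818475555) (nat_lit 1140) (nat_lit 6408661191) (nat_lit 1216) (nat_lit 3994060555) (nat_lit 205) (nat_lit 5) (nat_lit 220) (nat_lit 3) (nat_lit 221) (nat_lit 5) (nat_lit 327) (nat_lit 326) (nat_lit 127))) (XT.nd (nat_lit 78) (nat_lit 0) (nat_lit 76) (XT.lf (nat_lit 76) (nat_lit 7204892291) (nat_lit 0) (nat_lit 12174290537) (nat_lit 1216) (nat_lit 10278505700) (nat_lit 206) (nat_lit 5) (nat_lit 205) (nat_lit 5) (nat_lit 221) (nat_lit 5) (nat_lit 328) (nat_lit 326) (nat_lit 126)) (XT.lf (nat_lit 0) (nat_lit 20031412965) (nat_lit 1140) (nat_lit 8761632311) (nat_lit 1216) (nat_lit 1311991140) (nat_lit 206) (nat_lit 5) (nat_lit 221) (nat_lit 5) (nat_lit 222) (nat_lit 5) (nat_lit 329) (nat_lit 326) (nat_lit 125))))))) (XT.nd (nat_lit 1092) (nat_lit 3876) (nat_lit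 0) (XT.nd (nat_lit 546) (nat_lit 912) (nat_lit 0) (XT.nd (nat_lit 234) (nat_lit 0) (nat_lit 76) (XT.nd (nat_lit 78) (nat_lit 0) (nat_lit 0) (XT.lf (nat_lit 76) (nat_lit 5321955445) (nat_lit 0) (nat_lit 15550170001) (nat_lit 1216) (nat_lit 9688614719) (nat_lit 207) (nat_lit 5) (nat_lit 206) (nat_lit 5) (nat_lit 222) (nat_lit 5) (nat_lit 330) (nat_lit 326) (nat_lit 124)) (XT.nd (nat_lit 78) (nat_lit 0) (nat_lit 76) (XT.lf (nat_lit 76) (nat_lit 20006047551) (nat_lit 0) (nat_lit 1817772587) (nat_lit 1216) (nat_lit 9203724866) (nat_lit 207) (nat_lit 5) (nat_lit 206) (nat_lit 5) (nat_lit 222) (nat_lit 5) (nat_lit 331) (nat_lit 326) (nat_lit 123)) (XT.lf (nat_lit 76) (nat_lit 3571864152) (nat_lit 0) (nat_lit 19382402169) (nat_lit 1216) (nat_lit 8549584370) (nat_lit 208) (nat_lit 5) (nat_lit 207) (nat_lit 5) (nat_lit 223) (nat_lit 5) (nat_lit 332) (nat_lit 326) (nat_lit 122)))) (XT.nd (nat_lit 156) (nat_lit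 0) (nat_lit 76) (XT.nd (nat_lit 78) (nat_lit 0) (nat_lit 76) (XT.lf (nat_lit 76) (nat_lit 18808963345) (nat_lit 0) (nat_lit 5436214995) (nat_lit 1216) (nat_lit 7745473277) (nat_lit 208) (nat_lit 5) (nat_lit 207) (nat_lit 5) (nat_lit 223) (nat_lit 5) (nat_lit 333) (nat_lit 326) (nat_lit 121)) (XT.lf (nat_lit 76) (nat_lit 1961902452) (nat_lit 0) (nat_lit 23715118092) (nat_lit 1216) (nat_lit 6811972506) (nat_lit 209) (nat_lit 5) (nat_lit 208) (nat_lit 5) (nat_lit 224) (nat_lit 5) (nat_lit 334) (nat_lit 326) (nat_lit 120))) (XT.nd (nat_lit 78) (nat_lit 0) (nat_lit 76) (XT.lf (nat_lit 76) (nat_lit 17773458462) (nat_lit 0) (nat_lit 9562340279) (nat_lit 1216) (nat_lit 5660969055) (nat_lit 209) (nat_lit 5) (nat_lit 208) (nat_lit 5) (nat_lit 224) (nat_lit 5) (nat_lit 335) (nat_lit 326) (nat_lit 119)) (XT.lf (nat_lit 76) (nat_lit 499432774) (nat_lit 0) (nat_lit 28595568877) (nat_lit 1216) (nat_lit 4423256710)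 (nat_lit 210) (nat_lit 5) (nat_lit 209) (nat_lit 5) (nat_lit 225) (nat_lit 5) (nat_lit 336) (nat_lit 326) (nat_lit 118))))) (XT.nd (nat_lit 234) (nat_lit 0) (nat_lit 0) (XT.nd (nat_lit 78) (nat_lit 1140) (nat_lit 0) (XT.lf (nat_lit 76) (nat_lit 16907684877) (nat_lit 0) (nat_lit 14244475108) (nat_lit 1216) (nat_lit 2895880626) (nat_lit 210) (nat_lit 5) (nat_lit 209) (nat_lit 5) (nat_lit 225) (nat_lit 5) (nat_lit 337) (nat_lit 326) (nat_lit 117)) (XT.nd (nat_lit 78) (nat_lit 1216) (nat_lit 0) (XT.lf (nat_lit 0) (nat_lit 33273974449) (nat_lit 1140) (nat_lit 792395652) (nat_lit 1216) (nat_lit 527260264) (nat_lit 210) (nat_lit 5) (nat_lit 225) (nat_lit 5) (nat_lit 226) (nat_lit 5) (nat_lit 338) (nat_lit 326) (nat_lit 116)) (XT.lf (nat_lit 0) (nat_lit 595634741) (nat_lit 1216) (nat_lit 18932760699) (nat_lit 1292) (nat_lit 15618175640) (nat_lit 194) (nat_lit 5) (nat_lit 210) (nat_lit 5) (nat_lit 211) (nat_lit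 5) (nat_lit 339) (nat_lit 326) (nat_lit 115)))) (XT.nd (nat_lit 156) (nat_lit 0) (nat_lit 76) (XT.nd (nat_lit 78) (nat_lit 0) (nat_lit 76) (XT.lf (nat_lit 0) (nat_lit 2547808002) (nat_lit 1216) (nat_lit 1984238426) (nat_lit 1292) (nat_lit 31183485267) (nat_lit 194) (nat_lit 5) (nat_lit 210) (nat_lit 5) (nat_lit 211) (nat_lit 5) (nat_lit 340) (nat_lit 326) (nat_lit 114)) (XT.lf (nat_lit 0) (nat_lit 4814572821) (nat_lit 1216) (nat_lit 20624480288) (nat_lit 1292) (nat_lit 10854829253) (nat_lit 195) (nat_lit 5) (nat_lit 211) (nat_lit 5) (nat_lit 212) (nat_lit 5) (nat_lit 341) (nat_lit 326) (nat_lit 113))) (XT.nd (nat_lit 78) (nat_lit 0) (nat_lit 76) (XT.lf (nat_lit 0) (nat_lit 7212425325) (nat_lit 1216) (nat_lit 3042406926) (nat_lit 1292) (nat_lit 26632860724) (nat_lit 195) (nat_lit 5) (nat_lit 211) (nat_lit 5) (nat_lit 212) (nat_lit 5) (nat_lit 342) (nat_lit 326) (nat_lit 112)) (XT.lf (nat_lit 0) (nat_lit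 9881179610) (nat_lit 1216) (nat_lit 22182846920) (nat_lit 76) (nat_lit 5429324296) (nat_lit 196) (nat_lit 5) (nat_lit 212) (nat_lit 5) (nat_lit 197) (nat_lit 5) (nat_lit 343) (nat_lit 326) (nat_lit 111)))))) (XT.nd (nat_lit 546) (nat_lit 2128) (nat_lit 0) (XT.nd (nat_lit 234) (nat_lit 1140) (nat_lit 0) (XT.nd (nat_lit 78) (nat_lit 760) (nat_lit 0) (XT.lf (nat_lit 0) (nat_lit 12760637224) (nat_lit 1216) (nat_lit 3943404057) (nat_lit 76) (nat_lit 21409219765) (nat_lit 196) (nat_lit 5) (nat_lit 212) (nat_lit 5) (nat_lit 197) (nat_lit 5) (nat_lit 344) (nat_lit 326) (nat_lit 110)) (XT.nd (nat_lit 78) (nat_lit 0) (nat_lit 0) (XT.lf (nat_lit 0) (nat_lit 15136969207) (nat_lit 760) (nat_lit 733152237) (nat_lit 836) (nat_lit 22877339643) (nat_lit 186) (nat_lit 5) (nat_lit 196) (nat_lit 5) (nat_lit 197) (nat_lit 5) (nat_lit 345) (nat_lit 326) (nat_lit 109)) (XT.lf (nat_lit 0) (nat_lit 19262363050) (nat_lit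 836) (nat_lit 4682049484) (nat_lit 76) (nat_lit 15450592155) (nat_lit 186) (nat_lit 5) (nat_lit 197) (nat_lit 5) (nat_lit 187) (nat_lit 5) (nat_lit 346) (nat_lit 326) (nat_lit 108)))) (XT.nd (nat_lit 156) (nat_lit 532) (nat_lit 0) (XT.nd (nat_lit 78) (nat_lit 0) (nat_lit 0) (XT.lf (nat_lit 0) (nat_lit 15100019532) (nat_lit 608) (nat_lit 7806992842) (nat_lit 684) (nat_lit 17150444705) (nat_lit 178) (nat_lit 5) (nat_lit 186) (nat_lit 5) (nat_lit 187) (nat_lit 5) (nat_lit 347) (nat_lit 326) (nat_lit 107)) (XT.lf (nat_lit 0) (nat_lit 26791747848) (nat_lit 684) (nat_lit 5253697983) (nat_lit 76) (nat_lit 8690416458) (nat_lit 178) (nat_lit 5) (nat_lit 187) (nat_lit 5) (nat_lit 179) (nat_lit 5) (nat_lit 348) (nat_lit 326) (nat_lit 106))) (XT.nd (nat_lit 78) (nat_lit 0) (nat_lit 0) (XT.lf (nat_lit 0) (nat_lit 15260020785) (nat_lit 532) (nat_lit 15755308848) (nat_lit 608) (nat_lit 10412622495) (nat_lit 171)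 (nat_lit 5) (nat_lit 178) (nat_lit 5) (nat_lit 179) (nat_lit 5) (nat_lit 349) (nat_lit 326) (nat_lit 105)) (XT.lf (nat_lit 0) (nat_lit 35427387726) (nat_lit 608) (nat_lit 5654380042) (nat_lit 76) (nat_lit 1057185379) (nat_lit 171) (nat_lit 5) (nat_lit 179) (nat_lit 5) (nat_lit 172) (nat_lit 5) (nat_lit 350) (nat_lit 326) (nat_lit 104))))) (XT.nd (nat_lit 312) (nat_lit 988) (nat_lit 0) (XT.nd (nat_lit 156) (nat_lit 532) (nat_lit 0) (XT.nd (nat_lit 78) (nat_lit 76) (nat_lit 0) (XT.lf (nat_lit 0) (nat_lit 15621821053) (nat_lit 532) (nat_lit 24654546864) (nat_lit 608) (nat_lit 2585780975) (nat_lit 164) (nat_lit 5) (nat_lit 171) (nat_lit 5) (nat_lit 172) (nat_lit 5) (nat_lit 351) (nat_lit 326) (nat_lit 103)) (XT.lf (nat_lit 0) (nat_lit 1687389278) (nat_lit 608) (nat_lit 5971287554) (nat_lit 76) (nat_lit 35946202945) (nat_lit 163) (nat_lit 5) (nat_lit 171) (nat_lit 5) (nat_lit 164) (nat_lit 5) (nat_lit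 352) (nat_lit 326) (nat_lit 102))) (XT.nd (nat_lit 78) (nat_lit 0) (nat_lit 0) (XT.lf (nat_lit 0) (nat_lit 6287664853) (nat_lit 608) (nat_lit 28235682720) (nat_lit 76) (nat_lit 9838251884) (nat_lit 156) (nat_lit 5) (nat_lit 164) (nat_lit 5) (nat_lit 157) (nat_lit 5) (nat_lit 353) (nat_lit 326) (nat_lit 101)) (XT.lf (nat_lit 0) (nat_lit 11161163131) (nat_lit 608) (nat_lit 6208797013) (nat_lit 76) (nat_lit 27767005490) (nat_lit 156) (nat_lit 5) (nat_lit 164) (nat_lit 5) (nat_lit 157) (nat_lit 5) (nat_lit 354) (nat_lit 326) (nat_lit 100)))) (XT.nd (nat_lit 156) (nat_lit 456) (nat_lit 0) (XT.nd (nat_lit 78) (nat_lit 0) (nat_lit 0) (XT.lf (nat_lit 0) (nat_lit 16345406904) (nat_lit 608) (nat_lit 29129984314) (nat_lit 76) (nat_lit 455266660) (nat_lit 149) (nat_lit 5) (nat_lit 157) (nat_lit 5) (nat_lit 150) (nat_lit 5) (nat_lit 355) (nat_lit 326) (nat_lit 99)) (XT.lf (nat_lit 0) (nat_lit 21919036717) (nat_lit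 608) (nat_lit 6292761950) (nat_lit 76) (nat_lit 18529347725) (nat_lit 149) (nat_lit 5) (nat_lit 157) (nat_lit 5) (nat_lit 150) (nat_lit 5) (nat_lit 356) (nat_lit 326) (nat_lit 98))) (XT.nd (nat_lit 78) (nat_lit 0) (nat_lit 0) (XT.lf (nat_lit 0) (nat_lit 17570911072) (nat_lit 456) (nat_lit 10256470084) (nat_lit 532) (nat_lit 19743544457) (nat_lit 143) (nat_lit 5) (nat_lit 149) (nat_lit 5) (nat_lit 150) (nat_lit 5) (nat_lit 357) (nat_lit 326) (nat_lit 97)) (XT.lf (nat_lit 0) (nat_lit 34054961670) (nat_lit 532) (nat_lit 6225578902) (nat_lit 76) (nat_lit 8140799256) (nat_lit 143) (nat_lit 5) (nat_lit 150) (nat_lit 5) (nat_lit 144) (nat_lit 5) (nat_lit 358) (nat_lit 326) (nat_lit 96))))))))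
noncomputable def xc234 : XT := (XT.nd (nat_lit 2184) (nat_lit 1292) (nat_lit 0) (XT.nd (nat_lit 1092) (nat_lit 2128) (nat_lit 0) (XT.nd (nat_lit 546) (nat_lit 1216) (nat_lit 0) (XT.nd (nat_lit 234) (nat_lit 836) (nat_lit 0) (XT.nd (nat_lit 78) (nat_lit 456) (nat_lit 0) (XT.lf (nat_lit 0) (nat_lit 18520422749) (nat_lit 456) (nat_lit 22227193619) (nat_lit 532) (nat_lit 8541303854) (nat_lit 137) (nat_lit 5) (nat_lit 143) (nat_lit 5) (nat_lit 144) (nat_lit 5) (nat_lit 359) (nat_lit 326) (nat_lit 95)) (XT.nd (nat_lit 78) (nat_lit 456) (nat_lit 0) (XT.lf (nat_lit 0) (nat_lit 44134919595) (nat_lit 456) (nat_lit 3567689529) (nat_lit 532) (nat_lit 2478073272) (nat_lit 137) (nat_lit 5) (nat_lit 143) (nat_lit 5) (nat_lit 144) (nat_lit 5) (nat_lit 360) (nat_lit 326) (nat_lit 94)) (XT.lf (nat_lit 0) (nat_lit 4034962147) (nat_lit 456) (nat_lit 31478465201) (nat_lit 76) (nat_lit 15574442306) (nat_lit 131) (nat_lit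 5) (nat_lit 137) (nat_lit 5) (nat_lit 132) (nat_lit 5) (nat_lit 361) (nat_lit 326) (nat_lit 93)))) (XT.nd (nat_lit 156) (nat_lit 380) (nat_lit 0) (XT.nd (nat_lit 78) (nat_lit 456) (nat_lit 0) (XT.lf (nat_lit 0) (nat_lit 10789298208) (nat_lit 456) (nat_lit 5924253743) (nat_lit 76) (nat_lit 35305114051) (nat_lit 131) (nat_lit 5) (nat_lit 137) (nat_lit 5) (nat_lit 132) (nat_lit 5) (nat_lit 362) (nat_lit 326) (nat_lit 92)) (XT.lf (nat_lit 0) (nat_lit 17972445116) (nat_lit 532) (nat_lit 32197856660) (nat_lit 76) (nat_lit 2800300038) (nat_lit 125) (nat_lit 5) (nat_lit 132) (nat_lit 5) (nat_lit 126) (nat_lit 5) (nat_lit 363) (nat_lit 326) (nat_lit 91))) (XT.nd (nat_lit 78) (nat_lit 380) (nat_lit 0) (XT.lf (nat_lit 0) (nat_lit 25595776873) (nat_lit 532) (nat_lit 5724763197) (nat_lit 76) (nat_lit 22623815884) (nat_lit 125) (nat_lit 5) (nat_lit 132) (nat_lit 5) (nat_lit 126) (nat_lit 5) (nat_lit 364) (nat_lit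 326) (nat_lit 90)) (XT.lf (nat_lit 0) (nat_lit 21969791483) (nat_lit 380) (nat_lit 11688033370) (nat_lit 456) (nat_lit 21283198316) (nat_lit 120) (nat_lit 5) (nat_lit 125) (nat_lit 5) (nat_lit 126) (nat_lit 5) (nat_lit 365) (nat_lit 326) (nat_lit 89))))) (XT.nd (nat_lit 234) (nat_lit 760) (nat_lit 0) (XT.nd (nat_lit 78) (nat_lit 456) (nat_lit 0) (XT.lf (nat_lit 0) (nat_lit 42100991168) (nat_lit 456) (nat_lit 5437382370) (nat_lit 76) (nat_lit 8425040067) (nat_lit 120) (nat_lit 5) (nat_lit 126) (nat_lit 5) (nat_lit 121) (nat_lit 5) (nat_lit 366) (nat_lit 326) (nat_lit 88)) (XT.nd (nat_lit 78) (nat_lit 76) (nat_lit 0) (XT.lf (nat_lit 0) (nat_lit 23259212884) (nat_lit 380) (nat_lit 27876424976) (nat_lit 456) (nat_lit 5870693219) (nat_lit 115) (nat_lit 5) (nat_lit 120) (nat_lit 5) (nat_lit 121) (nat_lit 5) (nat_lit 367) (nat_lit 326) (nat_lit 87)) (XT.lf (nat_lit 0) (nat_lit 2369058813) (nat_lit 456)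 (nat_lit 5175385363) (nat_lit 76) (nat_lit 50533781782) (nat_lit 114) (nat_lit 5) (nat_lit 120) (nat_lit 5) (nat_lit 115) (nat_lit 5) (nat_lit 368) (nat_lit 326) (nat_lit 86)))) (XT.nd (nat_lit 156) (nat_lit 380) (nat_lit 0) (XT.nd (nat_lit 78) (nat_lit 0) (nat_lit 0) (XT.lf (nat_lit 0) (nat_lit 11105830497) (nat_lit 456) (nat_lit 34629660591) (nat_lit 76) (nat_lit 13434008969) (nat_lit 109) (nat_lit 5) (nat_lit 115) (nat_lit 5) (nat_lit 110) (nat_lit 5) (nat_lit 369) (nat_lit 326) (nat_lit 85)) (XT.lf (nat_lit 0) (nat_lit 20231117039) (nat_lit 456) (nat_lit 5115949131) (nat_lit 76) (nat_lit 34942654644) (nat_lit 109) (nat_lit 5) (nat_lit 115) (nat_lit 5) (nat_lit 110) (nat_lit 5) (nat_lit 370) (nat_lit 326) (nat_lit 84))) (XT.nd (nat_lit 78) (nat_lit 0) (nat_lit 0) (XT.lf (nat_lit 0) (nat_lit 25784971086) (nat_lit 380) (nat_lit 4092018567) (nat_lit 456) (nat_lit 31559154479) (nat_lit 104) (nat_lit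 5) (nat_lit 109) (nat_lit 5) (nat_lit 110) (nat_lit 5) (nat_lit 371) (nat_lit 326) (nat_lit 83)) (XT.lf (nat_lit 0) (nat_lit 40034502564) (nat_lit 456) (nat_lit 5070616952) (nat_lit 76) (nat_lit 17505173452) (nat_lit 104) (nat_lit 5) (nat_lit 110) (nat_lit 5) (nat_lit 105) (nat_lit 5) (nat_lit 372) (nat_lit 326) (nat_lit 82)))))) (XT.nd (nat_lit 546) (nat_lit 836) (nat_lit 0) (XT.nd (nat_lit 234) (nat_lit 608) (nat_lit 0) (XT.nd (nat_lit 78) (nat_lit 380) (nat_lit 0) (XT.lf (nat_lit 0) (nat_lit 26910629179) (nat_lit 304) (nat_lit 23884318376) (nat_lit 380) (nat_lit 13015773234) (nat_lit 100) (nat_lit 5) (nat_lit 104) (nat_lit 5) (nat_lit 105) (nat_lit 5) (nat_lit 373) (nat_lit 326) (nat_lit 81)) (XT.nd (nat_lit 78) (nat_lit 380) (nat_lit 0) (XT.lf (nat_lit 0) (nat_lit 59953933546) (nat_lit 304) (nat_lit 1974501991) (nat_lit 380) (nat_lit 3117219716) (nat_lit 100) (nat_lit 5) (nat_lit 104) (nat_lit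 5) (nat_lit 105) (nat_lit 5) (nat_lit 374) (nat_lit 326) (nat_lit 80)) (XT.lf (nat_lit 0) (nat_lit 7411113961) (nat_lit 380) (nat_lit 38357925555) (nat_lit 76) (nat_lit 20532429273) (nat_lit 95) (nat_lit 5) (nat_lit 100) (nat_lit 5) (nat_lit 96) (nat_lit 5) (nat_lit 375) (nat_lit 326) (nat_lit 79)))) (XT.nd (nat_lit 156) (nat_lit 304) (nat_lit 0) (XT.nd (nat_lit 78) (nat_lit 304) (nat_lit 0) (XT.lf (nat_lit 0) (nat_lit 18263176363) (nat_lit 380) (nat_lit 5571410660) (nat_lit 76) (nat_lit 43757328488) (nat_lit 95) (nat_lit 5) (nat_lit 100) (nat_lit 5) (nat_lit 96) (nat_lit 5) (nat_lit 376) (nat_lit 326) (nat_lit 78)) (XT.lf (nat_lit 0) (nat_lit 28758606303) (nat_lit 304) (nat_lit 957723864) (nat_lit 380) (nat_lit 39196480203) (nat_lit 91) (nat_lit 5) (nat_lit 95) (nat_lit 5) (nat_lit 96) (nat_lit 5) (nat_lit 377) (nat_lit 326) (nat_lit 77))) (XT.nd (nat_lit 78) (nat_lit 304) (nat_lit 0) (XT.lf (nat_lit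 0) (nat_lit 41786288544) (nat_lit 380) (nat_lit 6258055427) (nat_lit 76) (nat_lit 22220792408) (nat_lit 91) (nat_lit 5) (nat_lit 96) (nat_lit 5) (nat_lit 92) (nat_lit 5) (nat_lit 378) (nat_lit 326) (nat_lit 76)) (XT.lf (nat_lit 0) (nat_lit 29214320426) (nat_lit 304) (nat_lit 25293455166) (nat_lit 380) (nat_lit 17141574264) (nat_lit 87) (nat_lit 5) (nat_lit 91) (nat_lit 5) (nat_lit 92) (nat_lit 5) (nat_lit 379) (nat_lit 326) (nat_lit 75))))) (XT.nd (nat_lit 234) (nat_lit 532) (nat_lit 0) (XT.nd (nat_lit 78) (nat_lit 304) (nat_lit 0) (XT.lf (nat_lit 0) (nat_lit 65877912376) (nat_lit 304) (nat_lit 1795324223) (nat_lit 380) (nat_lit 5399983825) (nat_lit 87) (nat_lit 5) (nat_lit 91) (nat_lit 5) (nat_lit 92) (nat_lit 5) (nat_lit 380) (nat_lit 326) (nat_lit 74)) (XT.nd (nat_lit 78) (nat_lit 0) (nat_lit 0) (XT.lf (nat_lit 0) (nat_lit 7065900760) (nat_lit 304) (nat_lit 45134298569) (nat_lit 76) (nat_lit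 22322597924) (nat_lit 83) (nat_lit 5) (nat_lit 87) (nat_lit 5) (nat_lit 84) (nat_lit 5) (nat_lit 381) (nat_lit 326) (nat_lit 73)) (XT.lf (nat_lit 0) (nat_lit 19887542034) (nat_lit 304) (nat_lit 8869555850) (nat_lit 76) (nat_lit 47254450632) (nat_lit 83) (nat_lit 5) (nat_lit 87) (nat_lit 5) (nat_lit 84) (nat_lit 5) (nat_lit 382) (nat_lit 326) (nat_lit 72)))) (XT.nd (nat_lit 156) (nat_lit 228) (nat_lit 0) (XT.nd (nat_lit 78) (nat_lit 0) (nat_lit 0) (XT.lf (nat_lit 0) (nat_lit 29048780799) (nat_lit 304) (nat_lit 4323471932) (nat_lit 380) (nat_lit 44164357487) (nat_lit 79) (nat_lit 5) (nat_lit 83) (nat_lit 5) (nat_lit 84) (nat_lit 5) (nat_lit 383) (nat_lit 326) (nat_lit 71)) (XT.lf (nat_lit 0) (nat_lit 47551508109) (nat_lit 380) (nat_lit 11020699956) (nat_lit 76) (nat_lit 20526516093) (nat_lit 79) (nat_lit 5) (nat_lit 84) (nat_lit 5) (nat_lit 80) (nat_lit 5) (nat_lit 384) (nat_lit 326) (nat_lit 70)))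 (XT.nd (nat_lit 78) (nat_lit 0) (nat_lit 0) (XT.lf (nat_lit 0) (nat_lit 28074298614) (nat_lit 228) (nat_lit 34393734211) (nat_lit 304) (nat_lit 18230312419) (nat_lit 76) (nat_lit 5) (nat_lit 79) (nat_lit 5) (nat_lit 80) (nat_lit 5) (nat_lit 385) (nat_lit 326) (nat_lit 69)) (XT.lf (nat_lit 0) (nat_lit 68566903336) (nat_lit 228) (nat_lit 9375666758) (nat_lit 304) (nat_lit 4400069824) (nat_lit 76) (nat_lit 5) (nat_lit 79) (nat_lit 5) (nat_lit 80) (nat_lit 5) (nat_lit 386) (nat_lit 326) (nat_lit 68))))))) (XT.nd (nat_lit 36348) (nat_lit 0) (nat_lit 9652) (XT.nd (nat_lit 546) (nat_lit 228) (nat_lit 0) (XT.nd (nat_lit 234) (nat_lit 532) (nat_lit 0) (XT.nd (nat_lit 78) (nat_lit 228) (nat_lit 0) (XT.lf (nat_lit 0) (nat_lit 10069557462) (nat_lit 304) (nat_lit 57524279768) (nat_lit 76) (nat_lit 16427089819) (nat_lit 72) (nat_lit 5) (nat_lit 76) (nat_lit 5) (nat_lit 73) (nat_lit 5) (nat_lit 387) (nat_lit 326)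 (nat_lit 67)) (XT.nd (nat_lit 78) (nat_lit 228) (nat_lit 0) (XT.lf (nat_lit 0) (nat_lit 25117401586) (nat_lit 304) (nat_lit 17624715578) (nat_lit 76) (nat_lit 42999162150) (nat_lit 72) (nat_lit 5) (nat_lit 76) (nat_lit 5) (nat_lit 73) (nat_lit 5) (nat_lit 388) (nat_lit 326) (nat_lit 66)) (XT.lf (nat_lit 0) (nat_lit 23937835292) (nat_lit 228) (nat_lit 16908224107) (nat_lit 304) (nat_lit 46660301807) (nat_lit 69) (nat_lit 5) (nat_lit 72) (nat_lit 5) (nat_lit 73) (nat_lit 5) (nat_lit 389) (nat_lit 326) (nat_lit 65)))) (XT.nd (nat_lit 156) (nat_lit 304) (nat_lit 0) (XT.nd (nat_lit 78) (nat_lit 228) (nat_lit 0) (XT.lf (nat_lit 0) (nat_lit 57318843172) (nat_lit 304) (nat_lit 22306636162) (nat_lit 76) (nat_lit 9690748633) (nat_lit 69) (nat_lit 5) (nat_lit 73) (nat_lit 5) (nat_lit 70) (nat_lit 5) (nat_lit 390) (nat_lit 326) (nat_lit 64)) (XT.lf (nat_lit 0) (nat_lit 20423142968) (nat_lit 228) (nat_lit 54225696461)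 (nat_lit 304) (nat_lit 16520660818) (nat_lit 66) (nat_lit 5) (nat_lit 69) (nat_lit 5) (nat_lit 70) (nat_lit 5) (nat_lit 391) (nat_lit 326) (nat_lit 63))) (XT.nd (nat_lit 78) (nat_lit 304) (nat_lit 0) (XT.lf (nat_lit 0) (nat_lit 64891002078) (nat_lit 228) (nat_lit 27832297851) (nat_lit 304) (nat_lit 348334212) (nat_lit 66) (nat_lit 5) (nat_lit 69) (nat_lit 5) (nat_lit 70) (nat_lit 5) (nat_lit 392) (nat_lit 326) (nat_lit 62)) (XT.lf (nat_lit 0) (nat_lit 15812795880) (nat_lit 228) (nat_lit 329442234) (nat_lit 304) (nat_lit 78879351290) (nat_lit 62) (nat_lit 5) (nat_lit 65) (nat_lit 5) (nat_lit 66) (nat_lit 5) (nat_lit 393) (nat_lit 326) (nat_lit 61))))) (XT.nd (nat_lit 35490) (nat_lit 0) (nat_lit 11096) (XT.nd (nat_lit 78) (nat_lit 228) (nat_lit 0) (XT.lf (nat_lit 0) (nat_lit 33676381848) (nat_lit 304) (nat_lit 35594275570) (nat_lit 76) (nat_lit 27742607123) (nat_lit 62) (nat_lit 5) (nat_lit 66) (nat_lit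 5) (nat_lit 63) (nat_lit 5) (nat_lit 394) (nat_lit 326) (nat_lit 60)) (XT.nd (nat_lit 35334) (nat_lit 0) (nat_lit 11096) (XT.lf (nat_lit 0) (nat_lit 9509954398) (nat_lit 228) (nat_lit 42320622376) (nat_lit 304) (nat_lit 47231292685) (nat_lit 59) (nat_lit 5) (nat_lit 62) (nat_lit 5) (nat_lit 63) (nat_lit 5) (nat_lit 395) (nat_lit 326) (nat_lit 59)) (XT.lf (nat_lit 0) (nat_lit 4782533067) (nat_lit 0) (nat_lit 4782533067) (nat_lit 1140) (nat_lit 5260911519) (nat_lit 205) (nat_lit 5) (nat_lit 205) (nat_lit 3) (nat_lit 220) (nat_lit 3) (nat_lit 327) (nat_lit 327) (nat_lit 126)))) (XT.nd (nat_lit 156) (nat_lit 0) (nat_lit 76) (XT.nd (nat_lit 78) (nat_lit 0) (nat_lit 0) (XT.lf (nat_lit 0) (nat_lit 19528227169) (nat_lit 1140) (nat_lit 6522742614) (nat_lit 1216) (nat_lit 4042356585) (nat_lit 205) (nat_lit 5) (nat_lit 220) (nat_lit 3) (nat_lit 221) (nat_lit 5) (nat_lit 328) (nat_lit 327) (nat_lit 125)) (XT.lf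 (nat_lit 76) (nat_lit 7498451017) (nat_lit 0) (nat_lit 12603819725) (nat_lit 1216) (nat_lit 10440750533) (nat_lit 206) (nat_lit 5) (nat_lit 205) (nat_lit 5) (nat_lit 221) (nat_lit 5) (nat_lit 329) (nat_lit 327) (nat_lit 124))) (XT.nd (nat_lit 78) (nat_lit 0) (nat_lit 0) (XT.lf (nat_lit 0) (nat_lit 20769340144) (nat_lit 1140) (nat_lit 8944454132) (nat_lit 1216) (nat_lit 1290141421) (nat_lit 206) (nat_lit 5) (nat_lit 221) (nat_lit 5) (nat_lit 222) (nat_lit 5) (nat_lit 330) (nat_lit 327) (nat_lit 123)) (XT.lf (nat_lit 76) (nat_lit 5560856676) (nat_lit 0) (nat_lit 16071189203) (nat_lit 1216) (nat_lit 9841365667) (nat_lit 207) (nat_lit 5) (nat_lit 206) (nat_lit 5) (nat_lit 222) (nat_lit 5) (nat_lit 331) (nat_lit 327) (nat_lit 122)))))) (XT.nd (nat_lit 546) (nat_lit 1520) (nat_lit 0) (XT.nd (nat_lit 234) (nat_lit 0) (nat_lit 152) (XT.nd (nat_lit 78) (nat_lit 0) (nat_lit 76) (XT.lf (nat_lit 76) (nat_lit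 20683163509) (nat_lit 0) (nat_lit 1925232077) (nat_lit 1216) (nat_lit 9345945841) (nat_lit 207) (nat_lit 5) (nat_lit 206) (nat_lit 5) (nat_lit 222) (nat_lit 5) (nat_lit 332) (nat_lit 327) (nat_lit 121)) (XT.nd (nat_lit 78) (nat_lit 0) (nat_lit 0) (XT.lf (nat_lit 76) (nat_lit 3759694537) (nat_lit 0) (nat_lit 20009559813) (nat_lit 1216) (nat_lit 8675790865) (nat_lit 208) (nat_lit 5) (nat_lit 207) (nat_lit 5) (nat_lit 223) (nat_lit 5) (nat_lit 333) (nat_lit 327) (nat_lit 120)) (XT.lf (nat_lit 76) (nat_lit 19451556965) (nat_lit 0) (nat_lit 5643656376) (nat_lit 1216) (nat_lit 7851351032) (nat_lit 208) (nat_lit 5) (nat_lit 207) (nat_lit 5) (nat_lit 223) (nat_lit 5) (nat_lit 334) (nat_lit 327) (nat_lit 119)))) (XT.nd (nat_lit 156) (nat_lit 0) (nat_lit 76) (XT.nd (nat_lit 78) (nat_lit 0) (nat_lit 0) (XT.lf (nat_lit 76) (nat_lit 2102508014) (nat_lit 0) (nat_lit 24464301472) (nat_lit 1216) (nat_lit 6893146285)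 (nat_lit 209) (nat_lit 5) (nat_lit 208) (nat_lit 5) (nat_lit 224) (nat_lit 5) (nat_lit 335) (nat_lit 327) (nat_lit 118)) (XT.lf (nat_lit 76) (nat_lit 18386029680) (nat_lit 0) (nat_lit 9885841397) (nat_lit 1216) (nat_lit 5711200654) (nat_lit 209) (nat_lit 5) (nat_lit 208) (nat_lit 5) (nat_lit 224) (nat_lit 5) (nat_lit 336) (nat_lit 327) (nat_lit 117))) (XT.nd (nat_lit 78) (nat_lit 0) (nat_lit 0) (XT.lf (nat_lit 76) (nat_lit 596917589) (nat_lit 0) (nat_lit 29484005088) (nat_lit 1216) (nat_lit 4439375629) (nat_lit 210) (nat_lit 5) (nat_lit 209) (nat_lit 5) (nat_lit 225) (nat_lit 5) (nat_lit 337) (nat_lit 327) (nat_lit 116)) (XT.lf (nat_lit 76) (nat_lit 17495014288) (nat_lit 0) (nat_lit 14701488142) (nat_lit 1216) (nat_lit 2869573762) (nat_lit 210) (nat_lit 5) (nat_lit 209) (nat_lit 5) (nat_lit 225) (nat_lit 5) (nat_lit 338) (nat_lit 327) (nat_lit 115))))) (XT.nd (nat_lit 312) (nat_lit 608) (nat_lit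 0) (XT.nd (nat_lit 156) (nat_lit 0) (nat_lit 0) (XT.nd (nat_lit 78) (nat_lit 1216) (nat_lit 0) (XT.lf (nat_lit 0) (nat_lit 34378496941) (nat_lit 1140) (nat_lit 734818208) (nat_lit 1216) (nat_lit 514825993) (nat_lit 210) (nat_lit 5) (nat_lit 225) (nat_lit 5) (nat_lit 226) (nat_lit 5) (nat_lit 339) (nat_lit 327) (nat_lit 114)) (XT.lf (nat_lit 0) (nat_lit 718618456) (nat_lit 1216) (nat_lit 19417996983) (nat_lit 1292) (nat_lit 16061096555) (nat_lit 194) (nat_lit 5) (nat_lit 210) (nat_lit 5) (nat_lit 211) (nat_lit 5) (nat_lit 340) (nat_lit 327) (nat_lit 113))) (XT.nd (nat_lit 78) (nat_lit 0) (nat_lit 76) (XT.lf (nat_lit 0) (nat_lit 2726295322) (nat_lit 1216) (nat_lit 1963429136) (nat_lit 1292) (nat_lit 32094111812) (nat_lit 194) (nat_lit 5) (nat_lit 210) (nat_lit 5) (nat_lit 211) (nat_lit 5) (nat_lit 341) (nat_lit 327) (nat_lit 112)) (XT.lf (nat_lit 0) (nat_lit 5058660236) (nat_lit 1216) (nat_lit 21160378526)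 (nat_lit 1292) (nat_lit 11160573687) (nat_lit 195) (nat_lit 5) (nat_lit 211) (nat_lit 5) (nat_lit 212) (nat_lit 5) (nat_lit 342) (nat_lit 327) (nat_lit 111)))) (XT.nd (nat_lit 156) (nat_lit 684) (nat_lit 0) (XT.nd (nat_lit 78) (nat_lit 0) (nat_lit 76) (XT.lf (nat_lit 0) (nat_lit 7525545881) (nat_lit 1216) (nat_lit 3053255666) (nat_lit 1292) (nat_lit 27412525727) (nat_lit 195) (nat_lit 5) (nat_lit 211) (nat_lit 5) (nat_lit 212) (nat_lit 5) (nat_lit 343) (nat_lit 327) (nat_lit 110)) (XT.lf (nat_lit 0) (nat_lit 10272165629) (nat_lit 1216) (nat_lit 22765620378) (nat_lit 76) (nat_lit 5577437510) (nat_lit 196) (nat_lit 5) (nat_lit 212) (nat_lit 5) (nat_lit 197) (nat_lit 5) (nat_lit 344) (nat_lit 327) (nat_lit 109))) (XT.nd (nat_lit 78) (nat_lit 760) (nat_lit 0) (XT.lf (nat_lit 0) (nat_lit 13235253069) (nat_lit 1216) (nat_lit 3981403315) (nat_lit 76) (nat_lit 22037159935) (nat_lit 196) (nat_lit 5) (nat_lit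 212) (nat_lit 5) (nat_lit 197) (nat_lit 5) (nat_lit 345) (nat_lit 327) (nat_lit 108)) (XT.lf (nat_lit 0) (nat_lit 15670593864) (nat_lit 760) (nat_lit 765518612) (nat_lit 836) (nat_lit 23470989747) (nat_lit 186) (nat_lit 5) (nat_lit 196) (nat_lit 5) (nat_lit 197) (nat_lit 5) (nat_lit 346) (nat_lit 327) (nat_lit 107))))))))
noncomputable def xc235 : XT := (XT.nd (nat_lit 2184) (nat_lit 2888) (nat_lit 0) (XT.nd (nat_lit 1092) (nat_lit 2812) (nat_lit 0) (XT.nd (nat_lit 546) (nat_lit 1976) (nat_lit 0) (XT.nd (nat_lit 234) (nat_lit 1140) (nat_lit 0) (XT.nd (nat_lit 78) (nat_lit 608) (nat_lit 0) (XT.lf (nat_lit 0) (nat_lit 19927406455) (nat_lit 836) (nat_lit 4742512932) (nat_lit 76) (nat_lit 15904236699) (nat_lit 186) (nat_lit 5) (nat_lit 197) (nat_lit 5) (nat_lit 187) (nat_lit 5) (nat_lit 347) (nat_lit 327) (nat_lit 106)) (XT.nd (nat_lit 78) (nat_lit 0) (nat_lit 0) (XT.lf (nat_lit 0) (nat_lit 15632233860)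 (nat_lit 608) (nat_lit 8047383846) (nat_lit 684) (nat_lit 17576920105) (nat_lit 178) (nat_lit 5) (nat_lit 186) (nat_lit 5) (nat_lit 187) (nat_lit 5) (nat_lit 348) (nat_lit 327) (nat_lit 105)) (XT.lf (nat_lit 0) (nat_lit 27678350324) (nat_lit 684) (nat_lit 5331778689) (nat_lit 76) (nat_lit 8945244874) (nat_lit 178) (nat_lit 5) (nat_lit 187) (nat_lit 5) (nat_lit 179) (nat_lit 5) (nat_lit 349) (nat_lit 327) (nat_lit 104)))) (XT.nd (nat_lit 156) (nat_lit 608) (nat_lit 0) (XT.nd (nat_lit 78) (nat_lit 0) (nat_lit 0) (XT.lf (nat_lit 0) (nat_lit 15796571934) (nat_lit 532) (nat_lit 16230411518) (nat_lit 608) (nat_lit 10641294945) (nat_lit 171) (nat_lit 5) (nat_lit 178) (nat_lit 5) (nat_lit 179) (nat_lit 5) (nat_lit 350) (nat_lit 327) (nat_lit 103)) (XT.lf (nat_lit 0) (nat_lit 36569015613) (nat_lit 608) (nat_lit 5745092698) (nat_lit 76) (nat_lit 1086574993) (nat_lit 171) (nat_lit 5) (nat_lit 179) (nat_lit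 5) (nat_lit 172) (nat_lit 5) (nat_lit 351) (nat_lit 327) (nat_lit 102))) (XT.nd (nat_lit 78) (nat_lit 76) (nat_lit 0) (XT.lf (nat_lit 0) (nat_lit 16168620716) (nat_lit 532) (nat_lit 25393300344) (nat_lit 608) (nat_lit 2583702350) (nat_lit 164) (nat_lit 5) (nat_lit 171) (nat_lit 5) (nat_lit 172) (nat_lit 5) (nat_lit 352) (nat_lit 327) (nat_lit 101)) (XT.lf (nat_lit 0) (nat_lit 1813834021) (nat_lit 608) (nat_lit 6072980241) (nat_lit 76) (nat_lit 37023869268) (nat_lit 163) (nat_lit 5) (nat_lit 171) (nat_lit 5) (nat_lit 164) (nat_lit 5) (nat_lit 353) (nat_lit 327) (nat_lit 100))))) (XT.nd (nat_lit 234) (nat_lit 912) (nat_lit 0) (XT.nd (nat_lit 78) (nat_lit 532) (nat_lit 0) (XT.lf (nat_lit 0) (nat_lit 6550669028) (nat_lit 608) (nat_lit 29003792458) (nat_lit 76) (nat_lit 10135688759) (nat_lit 156) (nat_lit 5) (nat_lit 164) (nat_lit 5) (nat_lit 157) (nat_lit 5) (nat_lit 354) (nat_lit 327) (nat_lit 99))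 (XT.nd (nat_lit 78) (nat_lit 532) (nat_lit 0) (XT.lf (nat_lit 0) (nat_lit 11568206014) (nat_lit 608) (nat_lit 6318400008) (nat_lit 76) (nat_lit 28602238294) (nat_lit 156) (nat_lit 5) (nat_lit 164) (nat_lit 5) (nat_lit 157) (nat_lit 5) (nat_lit 355) (nat_lit 327) (nat_lit 98)) (XT.lf (nat_lit 0) (nat_lit 16906652425) (nat_lit 608) (nat_lit 29925836070) (nat_lit 76) (nat_lit 473900439) (nat_lit 149) (nat_lit 5) (nat_lit 157) (nat_lit 5) (nat_lit 150) (nat_lit 5) (nat_lit 356) (nat_lit 327) (nat_lit 97)))) (XT.nd (nat_lit 156) (nat_lit 456) (nat_lit 0) (XT.nd (nat_lit 78) (nat_lit 456) (nat_lit 0) (XT.lf (nat_lit 0) (nat_lit 22645426569) (nat_lit 608) (nat_lit 6405770271) (nat_lit 76) (nat_lit 19090059010) (nat_lit 149) (nat_lit 5) (nat_lit 157) (nat_lit 5) (nat_lit 150) (nat_lit 5) (nat_lit 357) (nat_lit 327) (nat_lit 96)) (XT.lf (nat_lit 0) (nat_lit 18173070054) (nat_lit 456) (nat_lit 10556668108)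 (nat_lit 532) (nat_lit 20266230540) (nat_lit 143) (nat_lit 5) (nat_lit 149) (nat_lit 5) (nat_lit 150) (nat_lit 5) (nat_lit 358) (nat_lit 327) (nat_lit 95))) (XT.nd (nat_lit 78) (nat_lit 456) (nat_lit 0) (XT.lf (nat_lit 0) (nat_lit 35142248994) (nat_lit 532) (nat_lit 6337546004) (nat_lit 76) (nat_lit 8392158965) (nat_lit 143) (nat_lit 5) (nat_lit 150) (nat_lit 5) (nat_lit 144) (nat_lit 5) (nat_lit 359) (nat_lit 327) (nat_lit 94)) (XT.lf (nat_lit 0) (nat_lit 19150102361) (nat_lit 456) (nat_lit 22884381149) (nat_lit 532) (nat_lit 8731115912) (nat_lit 137) (nat_lit 5) (nat_lit 143) (nat_lit 5) (nat_lit 144) (nat_lit 5) (nat_lit 360) (nat_lit 327) (nat_lit 93)))))) (XT.nd (nat_lit 546) (nat_lit 1520) (nat_lit 0) (XT.nd (nat_lit 234) (nat_lit 836) (nat_lit 0) (XT.nd (nat_lit 78) (nat_lit 456) (nat_lit 0) (XT.lf (nat_lit 0) (nat_lit 45530876822) (nat_lit 456) (nat_lit 3665372372) (nat_lit 532) (nat_lit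 2487923182) (nat_lit 137) (nat_lit 5) (nat_lit 143) (nat_lit 5) (nat_lit 144) (nat_lit 5) (nat_lit 361) (nat_lit 327) (nat_lit 92)) (XT.nd (nat_lit 78) (nat_lit 0) (nat_lit 0) (XT.lf (nat_lit 0) (nat_lit 4218200099) (nat_lit 456) (nat_lit 32348503680) (nat_lit 76) (nat_lit 16051885733) (nat_lit 131) (nat_lit 5) (nat_lit 137) (nat_lit 5) (nat_lit 132) (nat_lit 5) (nat_lit 362) (nat_lit 327) (nat_lit 91)) (XT.lf (nat_lit 0) (nat_lit 11173354909) (nat_lit 456) (nat_lit 6029830407) (nat_lit 76) (nat_lit 36374180247) (nat_lit 131) (nat_lit 5) (nat_lit 137) (nat_lit 5) (nat_lit 132) (nat_lit 5) (nat_lit 363) (nat_lit 327) (nat_lit 90)))) (XT.nd (nat_lit 156) (nat_lit 380) (nat_lit 0) (XT.nd (nat_lit 78) (nat_lit 0) (nat_lit 0) (XT.lf (nat_lit 0) (nat_lit 18571041082) (nat_lit 532) (nat_lit 33090638612) (nat_lit 76) (nat_lit 2896209838) (nat_lit 125) (nat_lit 5) (nat_lit 132) (nat_lit 5) (nat_lit 126)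 (nat_lit 5) (nat_lit 364) (nat_lit 327) (nat_lit 89)) (XT.lf (nat_lit 0) (nat_lit 26421342036) (nat_lit 532) (nat_lit 5825483037) (nat_lit 76) (nat_lit 23314084534) (nat_lit 125) (nat_lit 5) (nat_lit 132) (nat_lit 5) (nat_lit 126) (nat_lit 5) (nat_lit 365) (nat_lit 327) (nat_lit 88))) (XT.nd (nat_lit 78) (nat_lit 0) (nat_lit 0) (XT.lf (nat_lit 0) (nat_lit 22699211979) (nat_lit 380) (nat_lit 12025035156) (nat_lit 456) (nat_lit 21863261182) (nat_lit 120) (nat_lit 5) (nat_lit 125) (nat_lit 5) (nat_lit 126) (nat_lit 5) (nat_lit 366) (nat_lit 327) (nat_lit 87)) (XT.lf (nat_lit 0) (nat_lit 43419184636) (nat_lit 456) (nat_lit 5530658025) (nat_lit 76) (nat_lit 8690774828) (nat_lit 120) (nat_lit 5) (nat_lit 126) (nat_lit 5) (nat_lit 121) (nat_lit 5) (nat_lit 367) (nat_lit 327) (nat_lit 86))))) (XT.nd (nat_lit 234) (nat_lit 684) (nat_lit 0) (XT.nd (nat_lit 78) (nat_lit 456) (nat_lit 0) (XT.lf (nat_lit 0)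 (nat_lit 24026150324) (nat_lit 380) (nat_lit 28697778512) (nat_lit 456) (nat_lit 5990923178) (nat_lit 115) (nat_lit 5) (nat_lit 120) (nat_lit 5) (nat_lit 121) (nat_lit 5) (nat_lit 368) (nat_lit 327) (nat_lit 85)) (XT.nd (nat_lit 78) (nat_lit 380) (nat_lit 0) (XT.lf (nat_lit 0) (nat_lit 2493334662) (nat_lit 456) (nat_lit 5262401492) (nat_lit 76) (nat_lit 52063200548) (nat_lit 114) (nat_lit 5) (nat_lit 120) (nat_lit 5) (nat_lit 115) (nat_lit 5) (nat_lit 369) (nat_lit 327) (nat_lit 84)) (XT.lf (nat_lit 0) (nat_lit 11491456255) (nat_lit 456) (nat_lit 35599512986) (nat_lit 76) (nat_lit 13852003542) (nat_lit 109) (nat_lit 5) (nat_lit 115) (nat_lit 5) (nat_lit 110) (nat_lit 5) (nat_lit 370) (nat_lit 327) (nat_lit 83)))) (XT.nd (nat_lit 156) (nat_lit 304) (nat_lit 0) (XT.nd (nat_lit 78) (nat_lit 380) (nat_lit 0) (XT.lf (nat_lit 0) (nat_lit 20888973698) (nat_lit 456) (nat_lit 5202400981) (nat_lit 76) (nat_lit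 36005472443) (nat_lit 109) (nat_lit 5) (nat_lit 115) (nat_lit 5) (nat_lit 110) (nat_lit 5) (nat_lit 371) (nat_lit 327) (nat_lit 82)) (XT.lf (nat_lit 0) (nat_lit 26624889719) (nat_lit 380) (nat_lit 4198487558) (nat_lit 456) (nat_lit 32454312316) (nat_lit 104) (nat_lit 5) (nat_lit 109) (nat_lit 5) (nat_lit 110) (nat_lit 5) (nat_lit 372) (nat_lit 327) (nat_lit 81))) (XT.nd (nat_lit 78) (nat_lit 304) (nat_lit 0) (XT.lf (nat_lit 0) (nat_lit 41284309037) (nat_lit 456) (nat_lit 5156957054) (nat_lit 76) (nat_lit 18045837063) (nat_lit 104) (nat_lit 5) (nat_lit 110) (nat_lit 5) (nat_lit 105) (nat_lit 5) (nat_lit 373) (nat_lit 327) (nat_lit 80)) (XT.lf (nat_lit 0) (nat_lit 27783081574) (nat_lit 304) (nat_lit 24583691381) (nat_lit 380) (nat_lit 13356795719) (nat_lit 100) (nat_lit 5) (nat_lit 104) (nat_lit 5) (nat_lit 105) (nat_lit 5) (nat_lit 374) (nat_lit 327) (nat_lit 79))))))) (XT.nd (nat_lit 1092) (nat_lit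 760) (nat_lit 0) (XT.nd (nat_lit 546) (nat_lit 1140) (nat_lit 0) (XT.nd (nat_lit 234) (nat_lit 608) (nat_lit 0) (XT.nd (nat_lit 78) (nat_lit 380) (nat_lit 0) (XT.lf (nat_lit 0) (nat_lit 61815787980) (nat_lit 304) (nat_lit 2017080209) (nat_lit 380) (nat_lit 3162725908) (nat_lit 100) (nat_lit 5) (nat_lit 104) (nat_lit 5) (nat_lit 105) (nat_lit 5) (nat_lit 375) (nat_lit 327) (nat_lit 78)) (XT.nd (nat_lit 78) (nat_lit 0) (nat_lit 0) (XT.lf (nat_lit 0) (nat_lit 7679926923) (nat_lit 380) (nat_lit 39443832078) (nat_lit 76) (nat_lit 21165327959) (nat_lit 95) (nat_lit 5) (nat_lit 100) (nat_lit 5) (nat_lit 96) (nat_lit 5) (nat_lit 376) (nat_lit 327) (nat_lit 77)) (XT.lf (nat_lit 0) (nat_lit 18856197424) (nat_lit 380) (nat_lit 5675610025) (nat_lit 76) (nat_lit 45086481165) (nat_lit 95) (nat_lit 5) (nat_lit 100) (nat_lit 5) (nat_lit 96) (nat_lit 5) (nat_lit 377) (nat_lit 327) (nat_lit 76)))) (XT.nd (nat_lit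 156) (nat_lit 304) (nat_lit 0) (XT.nd (nat_lit 78) (nat_lit 0) (nat_lit 0) (XT.lf (nat_lit 0) (nat_lit 29683690359) (nat_lit 304) (nat_lit 968540254) (nat_lit 380) (nat_lit 40326602053) (nat_lit 91) (nat_lit 5) (nat_lit 95) (nat_lit 5) (nat_lit 96) (nat_lit 5) (nat_lit 378) (nat_lit 327) (nat_lit 75)) (XT.lf (nat_lit 0) (nat_lit 43083161428) (nat_lit 380) (nat_lit 6384131392) (nat_lit 76) (nat_lit 22904470290) (nat_lit 91) (nat_lit 5) (nat_lit 96) (nat_lit 5) (nat_lit 92) (nat_lit 5) (nat_lit 379) (nat_lit 327) (nat_lit 74))) (XT.nd (nat_lit 78) (nat_lit 0) (nat_lit 0) (XT.lf (nat_lit 0) (nat_lit 30151811171) (nat_lit 304) (nat_lit 26033808167) (nat_lit 380) (nat_lit 17611904705) (nat_lit 87) (nat_lit 5) (nat_lit 91) (nat_lit 5) (nat_lit 92) (nat_lit 5) (nat_lit 380) (nat_lit 327) (nat_lit 73)) (XT.lf (nat_lit 0) (nat_lit 67913532400) (nat_lit 304) (nat_lit 1831270694) (nat_lit 380) (nat_lit 5519345682)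 (nat_lit 87) (nat_lit 5) (nat_lit 91) (nat_lit 5) (nat_lit 92) (nat_lit 5) (nat_lit 381) (nat_lit 327) (nat_lit 72))))) (XT.nd (nat_lit 234) (nat_lit 532) (nat_lit 0) (XT.nd (nat_lit 78) (nat_lit 304) (nat_lit 0) (XT.lf (nat_lit 0) (nat_lit 7319215016) (nat_lit 304) (nat_lit 46427692445) (nat_lit 76) (nat_lit 23010307975) (nat_lit 83) (nat_lit 5) (nat_lit 87) (nat_lit 5) (nat_lit 84) (nat_lit 5) (nat_lit 382) (nat_lit 327) (nat_lit 71)) (XT.nd (nat_lit 78) (nat_lit 304) (nat_lit 0) (XT.lf (nat_lit 0) (nat_lit 20524301531) (nat_lit 304) (nat_lit 9076773514) (nat_lit 76) (nat_lit 48689591057) (nat_lit 83) (nat_lit 5) (nat_lit 87) (nat_lit 5) (nat_lit 84) (nat_lit 5) (nat_lit 383) (nat_lit 327) (nat_lit 70)) (XT.lf (nat_lit 0) (nat_lit 29978536087) (nat_lit 304) (nat_lit 4434408870) (nat_lit 380) (nat_lit 45448553681) (nat_lit 79) (nat_lit 5) (nat_lit 83) (nat_lit 5) (nat_lit 84) (nat_lit 5) (nat_lit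 384) (nat_lit 327) (nat_lit 69)))) (XT.nd (nat_lit 156) (nat_lit 304) (nat_lit 0) (XT.nd (nat_lit 78) (nat_lit 228) (nat_lit 0) (XT.lf (nat_lit 0) (nat_lit 49016601941) (nat_lit 380) (nat_lit 11293727412) (nat_lit 76) (nat_lit 21160176629) (nat_lit 79) (nat_lit 5) (nat_lit 84) (nat_lit 5) (nat_lit 80) (nat_lit 5) (nat_lit 385) (nat_lit 327) (nat_lit 68)) (XT.lf (nat_lit 0) (nat_lit 28973556472) (nat_lit 228) (nat_lit 35406491348) (nat_lit 304) (nat_lit 18738085799) (nat_lit 76) (nat_lit 5) (nat_lit 79) (nat_lit 5) (nat_lit 80) (nat_lit 5) (nat_lit 386) (nat_lit 327) (nat_lit 67))) (XT.nd (nat_lit 78) (nat_lit 304) (nat_lit 0) (XT.lf (nat_lit 0) (nat_lit 70679278301) (nat_lit 228) (nat_lit 9638436868) (nat_lit 304) (nat_lit 4494075810) (nat_lit 76) (nat_lit 5) (nat_lit 79) (nat_lit 5) (nat_lit 80) (nat_lit 5) (nat_lit 387) (nat_lit 327) (nat_lit 66)) (XT.lf (nat_lit 0) (nat_lit 10408529494) (nat_lit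 304) (nat_lit 59193487211) (nat_lit 76) (nat_lit 16938410768) (nat_lit 72) (nat_lit 5) (nat_lit 76) (nat_lit 5) (nat_lit 73) (nat_lit 5) (nat_lit 388) (nat_lit 327) (nat_lit 65)))))) (XT.nd (nat_lit 35958) (nat_lit 0) (nat_lit 10868) (XT.nd (nat_lit 234) (nat_lit 532) (nat_lit 0) (XT.nd (nat_lit 78) (nat_lit 228) (nat_lit 0) (XT.lf (nat_lit 0) (nat_lit 25906734612) (nat_lit 304) (nat_lit 18098582336) (nat_lit 76) (nat_lit 44307106193) (nat_lit 72) (nat_lit 5) (nat_lit 76) (nat_lit 5) (nat_lit 73) (nat_lit 5) (nat_lit 389) (nat_lit 327) (nat_lit 64)) (XT.nd (nat_lit 78) (nat_lit 0) (nat_lit 0) (XT.lf (nat_lit 0) (nat_lit 24710307073) (nat_lit 228) (nat_lit 17396424366) (nat_lit 304) (nat_lit 48023742262) (nat_lit 69) (nat_lit 5) (nat_lit 72) (nat_lit 5) (nat_lit 73) (nat_lit 5) (nat_lit 390) (nat_lit 327) (nat_lit 63)) (XT.lf (nat_lit 0) (nat_lit 59072848606) (nat_lit 304) (nat_lit 22922211968) (nat_lit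 76) (nat_lit 9999601965) (nat_lit 69) (nat_lit 5) (nat_lit 73) (nat_lit 5) (nat_lit 70) (nat_lit 5) (nat_lit 391) (nat_lit 327) (nat_lit 62)))) (XT.nd (nat_lit 156) (nat_lit 304) (nat_lit 0) (XT.nd (nat_lit 78) (nat_lit 0) (nat_lit 0) (XT.lf (nat_lit 0) (nat_lit 21088934817) (nat_lit 228) (nat_lit 55833317229) (nat_lit 304) (nat_lit 16981296277) (nat_lit 66) (nat_lit 5) (nat_lit 69) (nat_lit 5) (nat_lit 70) (nat_lit 5) (nat_lit 392) (nat_lit 327) (nat_lit 61)) (XT.lf (nat_lit 0) (nat_lit 66889283170) (nat_lit 228) (nat_lit 28648674432) (nat_lit 304) (nat_lit 324818836) (nat_lit 66) (nat_lit 5) (nat_lit 69) (nat_lit 5) (nat_lit 70) (nat_lit 5) (nat_lit 393) (nat_lit 327) (nat_lit 60))) (XT.nd (nat_lit 35490) (nat_lit 0) (nat_lit 10868) (XT.lf (nat_lit 0) (nat_lit 16338898947) (nat_lit 228) (nat_lit 320436103) (nat_lit 304) (nat_lit 81211900205) (nat_lit 62) (nat_lit 5) (nat_lit 65) (nat_lit 5) (nat_lit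 66) (nat_lit 5) (nat_lit 394) (nat_lit 327) (nat_lit 59)) (XT.lf (nat_lit 0) (nat_lit 4961421335) (nat_lit 0) (nat_lit 4961421335) (nat_lit 1140) (nat_lit 5345716306) (nat_lit 205) (nat_lit 5) (nat_lit 205) (nat_lit 3) (nat_lit 220) (nat_lit 3) (nat_lit 328) (nat_lit 328) (nat_lit 124))))) (XT.nd (nat_lit 312) (nat_lit 0) (nat_lit 76) (XT.nd (nat_lit 156) (nat_lit 0) (nat_lit 76) (XT.nd (nat_lit 78) (nat_lit 0) (nat_lit 0) (XT.lf (nat_lit 0) (nat_lit 20250936409) (nat_lit 1140) (nat_lit 6644734241) (nat_lit 1216) (nat_lit 4096207368) (nat_lit 205) (nat_lit 5) (nat_lit 220) (nat_lit 3) (nat_lit 221) (nat_lit 5) (nat_lit 329) (nat_lit 328) (nat_lit 123)) (XT.lf (nat_lit 76) (nat_lit 7796372742) (nat_lit 0) (nat_lit 13042543678) (nat_lit 1216) (nat_lit 10616250043) (nat_lit 206) (nat_lit 5) (nat_lit 205) (nat_lit 5) (nat_lit 221) (nat_lit 5) (nat_lit 330) (nat_lit 328) (nat_lit 122))) (XT.nd (nat_lit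 78) (nat_lit 0) (nat_lit 0) (XT.lf (nat_lit 0) (nat_lit 21521541651) (nat_lit 1140) (nat_lit 9137354495) (nat_lit 1216) (nat_lit 1271149882) (nat_lit 206) (nat_lit 5) (nat_lit 221) (nat_lit 5) (nat_lit 222) (nat_lit 5) (nat_lit 331) (nat_lit 328) (nat_lit 121)) (XT.lf (nat_lit 76) (nat_lit 5802376096) (nat_lit 0) (nat_lit 16604709649) (nat_lit 1216) (nat_lit 10006615597) (nat_lit 207) (nat_lit 5) (nat_lit 206) (nat_lit 5) (nat_lit 222) (nat_lit 5) (nat_lit 332) (nat_lit 328) (nat_lit 120)))) (XT.nd (nat_lit 156) (nat_lit 0) (nat_lit 76) (XT.nd (nat_lit 78) (nat_lit 0) (nat_lit 76) (XT.lf (nat_lit 76) (nat_lit 21376176590) (nat_lit 0) (nat_lit 2032877165) (nat_lit 1216) (nat_lit 9500119324) (nat_lit 207) (nat_lit 5) (nat_lit 206) (nat_lit 5) (nat_lit 222) (nat_lit 5) (nat_lit 333) (nat_lit 328) (nat_lit 119)) (XT.lf (nat_lit 76) (nat_lit 3948528791) (nat_lit 0) (nat_lit 20652909647) (nat_lit 1216)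 (nat_lit 8813262219) (nat_lit 208) (nat_lit 5) (nat_lit 207) (nat_lit 5) (nat_lit 223) (nat_lit 5) (nat_lit 334) (nat_lit 328) (nat_lit 118))) (XT.nd (nat_lit 78) (nat_lit 0) (nat_lit 76) (XT.lf (nat_lit 76) (nat_lit 20108932234) (nat_lit 0) (nat_lit 5854774843) (nat_lit 1216) (nat_lit 7967665959) (nat_lit 208) (nat_lit 5) (nat_lit 207) (nat_lit 5) (nat_lit 223) (nat_lit 5) (nat_lit 335) (nat_lit 328) (nat_lit 117)) (XT.lf (nat_lit 76) (nat_lit 2242639045) (nat_lit 0) (nat_lit 25233794506) (nat_lit 1216) (nat_lit 6983826623) (nat_lit 209) (nat_lit 5) (nat_lit 208) (nat_lit 5) (nat_lit 224) (nat_lit 5) (nat_lit 336) (nat_lit 328) (nat_lit 116))))))))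
noncomputable def xc236 : XT := (XT.nd (nat_lit 2184) (nat_lit 4940) (nat_lit 0) (XT.nd (nat_lit 1092) (nat_lit 3572) (nat_lit 0) (XT.nd (nat_lit 546) (nat_lit 1216) (nat_lit 0) (XT.nd (nat_lit 234) (nat_lit 1064) (nat_lit 0) (XT.nd (nat_lit 78) (nat_lit 0) (nat_lit 76) (XT.lf (nat_lit 76) (nat_lit 19012422018) (nat_lit 0) (nat_lit 10216944785) (nat_lit 1216) (nat_lit 5769804586) (nat_lit 209) (nat_lit 5) (nat_lit 208) (nat_lit 5) (nat_lit 224) (nat_lit 5) (nat_lit 337) (nat_lit 328) (nat_lit 115)) (XT.nd (nat_lit 78) (nat_lit 0) (nat_lit 0) (XT.lf (nat_lit 76) (nat_lit 692591005) (nat_lit 0) (nat_lit 30397339591) (nat_lit 1216) (nat_lit 4462670216) (nat_lit 210) (nat_lit 5) (nat_lit 209) (nat_lit 5) (nat_lit 225) (nat_lit 5) (nat_lit 338) (nat_lit 328) (nat_lit 114)) (XT.lf (nat_lit 76) (nat_lit 18095365580) (nat_lit 0) (nat_lit 15170507884) (nat_lit 1216) (nat_lit 2848974875) (nat_lit 210) (nat_lit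 5) (nat_lit 209) (nat_lit 5) (nat_lit 225) (nat_lit 5) (nat_lit 339) (nat_lit 328) (nat_lit 113)))) (XT.nd (nat_lit 156) (nat_lit 0) (nat_lit 0) (XT.nd (nat_lit 78) (nat_lit 1216) (nat_lit 0) (XT.lf (nat_lit 0) (nat_lit 35510052865) (nat_lit 1140) (nat_lit 680183224) (nat_lit 1216) (nat_lit 503640479) (nat_lit 210) (nat_lit 5) (nat_lit 225) (nat_lit 5) (nat_lit 226) (nat_lit 5) (nat_lit 340) (nat_lit 328) (nat_lit 112)) (XT.lf (nat_lit 0) (nat_lit 839257670) (nat_lit 1216) (nat_lit 19922540346) (nat_lit 1292) (nat_lit 16518776041) (nat_lit 194) (nat_lit 5) (nat_lit 210) (nat_lit 5) (nat_lit 211) (nat_lit 5) (nat_lit 341) (nat_lit 328) (nat_lit 111))) (XT.nd (nat_lit 78) (nat_lit 0) (nat_lit 76) (XT.lf (nat_lit 0) (nat_lit 2904278998) (nat_lit 1216) (nat_lit 1946607207) (nat_lit 1292) (nat_lit 33033485252) (nat_lit 194) (nat_lit 5) (nat_lit 210) (nat_lit 5) (nat_lit 211) (nat_lit 5) (nat_lit 342)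 (nat_lit 328) (nat_lit 110)) (XT.lf (nat_lit 0) (nat_lit 5304349943) (nat_lit 1216) (nat_lit 21717108846) (nat_lit 1292) (nat_lit 11476632821) (nat_lit 195) (nat_lit 5) (nat_lit 211) (nat_lit 5) (nat_lit 212) (nat_lit 5) (nat_lit 343) (nat_lit 328) (nat_lit 109))))) (XT.nd (nat_lit 234) (nat_lit 1292) (nat_lit 0) (XT.nd (nat_lit 78) (nat_lit 0) (nat_lit 76) (XT.lf (nat_lit 0) (nat_lit 7842506334) (nat_lit 1216) (nat_lit 3069046505) (nat_lit 1292) (nat_lit 28216689773) (nat_lit 195) (nat_lit 5) (nat_lit 211) (nat_lit 5) (nat_lit 212) (nat_lit 5) (nat_lit 344) (nat_lit 328) (nat_lit 108)) (XT.nd (nat_lit 78) (nat_lit 0) (nat_lit 0) (XT.lf (nat_lit 0) (nat_lit 10669453634) (nat_lit 1216) (nat_lit 23370625044) (nat_lit 76) (nat_lit 5730841778) (nat_lit 196) (nat_lit 5) (nat_lit 212) (nat_lit 5) (nat_lit 197) (nat_lit 5) (nat_lit 345) (nat_lit 328) (nat_lit 107)) (XT.lf (nat_lit 0) (nat_lit 13718837882)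 (nat_lit 1216) (nat_lit 4025152264) (nat_lit 76) (nat_lit 22684761280) (nat_lit 196) (nat_lit 5) (nat_lit 212) (nat_lit 5) (nat_lit 197) (nat_lit 5) (nat_lit 346) (nat_lit 328) (nat_lit 106)))) (XT.nd (nat_lit 156) (nat_lit 608) (nat_lit 0) (XT.nd (nat_lit 78) (nat_lit 0) (nat_lit 0) (XT.lf (nat_lit 0) (nat_lit 16215662741) (nat_lit 760) (nat_lit 798260595) (nat_lit 836) (nat_lit 24087768996) (nat_lit 186) (nat_lit 5) (nat_lit 196) (nat_lit 5) (nat_lit 197) (nat_lit 5) (nat_lit 347) (nat_lit 328) (nat_lit 105)) (XT.lf (nat_lit 0) (nat_lit 20607397104) (nat_lit 836) (nat_lit 4809382499) (nat_lit 76) (nat_lit 16372057342) (nat_lit 186) (nat_lit 5) (nat_lit 197) (nat_lit 5) (nat_lit 187) (nat_lit 5) (nat_lit 348) (nat_lit 328) (nat_lit 104))) (XT.nd (nat_lit 78) (nat_lit 0) (nat_lit 0) (XT.lf (nat_lit 0) (nat_lit 16175867424) (nat_lit 608) (nat_lit 8294631752) (nat_lit 684) (nat_lit 18021243504) (nat_lit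 178) (nat_lit 5) (nat_lit 186) (nat_lit 5) (nat_lit 187) (nat_lit 5) (nat_lit 349) (nat_lit 328) (nat_lit 103)) (XT.lf (nat_lit 0) (nat_lit 28586794944) (nat_lit 684) (nat_lit 5416767176) (nat_lit 76) (nat_lit 9208055913) (nat_lit 178) (nat_lit 5) (nat_lit 187) (nat_lit 5) (nat_lit 179) (nat_lit 5) (nat_lit 350) (nat_lit 328) (nat_lit 102)))))) (XT.nd (nat_lit 546) (nat_lit 1368) (nat_lit 0) (XT.nd (nat_lit 234) (nat_lit 1140) (nat_lit 0) (XT.nd (nat_lit 78) (nat_lit 532) (nat_lit 0) (XT.lf (nat_lit 0) (nat_lit 16344699016) (nat_lit 532) (nat_lit 16719627007) (nat_lit 608) (nat_lit 10881632648) (nat_lit 171) (nat_lit 5) (nat_lit 178) (nat_lit 5) (nat_lit 179) (nat_lit 5) (nat_lit 351) (nat_lit 328) (nat_lit 101)) (XT.nd (nat_lit 78) (nat_lit 532) (nat_lit 0) (XT.lf (nat_lit 0) (nat_lit 37740368536) (nat_lit 608) (nat_lit 5843056993) (nat_lit 76) (nat_lit 1116979815) (nat_lit 171) (nat_lit 5) (nat_lit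 179) (nat_lit 5) (nat_lit 172) (nat_lit 5) (nat_lit 352) (nat_lit 328) (nat_lit 100)) (XT.lf (nat_lit 0) (nat_lit 16727338525) (nat_lit 532) (nat_lit 26154267111) (nat_lit 608) (nat_lit 2586133719) (nat_lit 164) (nat_lit 5) (nat_lit 171) (nat_lit 5) (nat_lit 172) (nat_lit 5) (nat_lit 353) (nat_lit 328) (nat_lit 99)))) (XT.nd (nat_lit 156) (nat_lit 532) (nat_lit 0) (XT.nd (nat_lit 78) (nat_lit 532) (nat_lit 0) (XT.lf (nat_lit 0) (nat_lit 1939719552) (nat_lit 608) (nat_lit 6182169424) (nat_lit 76) (nat_lit 38133906898) (nat_lit 163) (nat_lit 5) (nat_lit 171) (nat_lit 5) (nat_lit 164) (nat_lit 5) (nat_lit 354) (nat_lit 328) (nat_lit 98)) (XT.lf (nat_lit 0) (nat_lit 6817293943) (nat_lit 608) (nat_lit 29799478159) (nat_lit 76) (nat_lit 10441917323) (nat_lit 156) (nat_lit 5) (nat_lit 164) (nat_lit 5) (nat_lit 157) (nat_lit 5) (nat_lit 355) (nat_lit 328) (nat_lit 97))) (XT.nd (nat_lit 78) (nat_lit 532)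 (nat_lit 0) (XT.lf (nat_lit 0) (nat_lit 11983315150) (nat_lit 608) (nat_lit 6435691743) (nat_lit 76) (nat_lit 29462400493) (nat_lit 156) (nat_lit 5) (nat_lit 164) (nat_lit 5) (nat_lit 157) (nat_lit 5) (nat_lit 356) (nat_lit 328) (nat_lit 96)) (XT.lf (nat_lit 0) (nat_lit 17480666319) (nat_lit 608) (nat_lit 30750043640) (nat_lit 76) (nat_lit 492807601) (nat_lit 149) (nat_lit 5) (nat_lit 157) (nat_lit 5) (nat_lit 150) (nat_lit 5) (nat_lit 357) (nat_lit 328) (nat_lit 95))))) (XT.nd (nat_lit 234) (nat_lit 912) (nat_lit 0) (XT.nd (nat_lit 78) (nat_lit 456) (nat_lit 0) (XT.lf (nat_lit 0) (nat_lit 23389657639) (nat_lit 608) (nat_lit 6526518610) (nat_lit 76) (nat_lit 19667314323) (nat_lit 149) (nat_lit 5) (nat_lit 157) (nat_lit 5) (nat_lit 150) (nat_lit 5) (nat_lit 358) (nat_lit 328) (nat_lit 94)) (XT.nd (nat_lit 78) (nat_lit 0) (nat_lit 0) (XT.lf (nat_lit 0) (nat_lit 18788986682) (nat_lit 456) (nat_lit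 10866302378) (nat_lit 532) (nat_lit 20808593693) (nat_lit 143) (nat_lit 5) (nat_lit 149) (nat_lit 5) (nat_lit 150) (nat_lit 5) (nat_lit 359) (nat_lit 328) (nat_lit 93)) (XT.lf (nat_lit 0) (nat_lit 36258387021) (nat_lit 532) (nat_lit 6457165961) (nat_lit 76) (nat_lit 8650649845) (nat_lit 143) (nat_lit 5) (nat_lit 150) (nat_lit 5) (nat_lit 144) (nat_lit 5) (nat_lit 360) (nat_lit 328) (nat_lit 92)))) (XT.nd (nat_lit 156) (nat_lit 456) (nat_lit 0) (XT.nd (nat_lit 78) (nat_lit 0) (nat_lit 0) (XT.lf (nat_lit 0) (nat_lit 19794420616) (nat_lit 456) (nat_lit 23561837008) (nat_lit 532) (nat_lit 8930435516) (nat_lit 137) (nat_lit 5) (nat_lit 143) (nat_lit 5) (nat_lit 144) (nat_lit 5) (nat_lit 361) (nat_lit 328) (nat_lit 91)) (XT.lf (nat_lit 0) (nat_lit 46964584859) (nat_lit 456) (nat_lit 3766522304) (nat_lit 532) (nat_lit 2501770709) (nat_lit 137) (nat_lit 5) (nat_lit 143) (nat_lit 5) (nat_lit 144) (nat_lit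 5) (nat_lit 362) (nat_lit 328) (nat_lit 90))) (XT.nd (nat_lit 78) (nat_lit 0) (nat_lit 0) (XT.lf (nat_lit 0) (nat_lit 4403365281) (nat_lit 456) (nat_lit 33248909325) (nat_lit 76) (nat_lit 16543066358) (nat_lit 131) (nat_lit 5) (nat_lit 137) (nat_lit 5) (nat_lit 132) (nat_lit 5) (nat_lit 363) (nat_lit 328) (nat_lit 89)) (XT.lf (nat_lit 0) (nat_lit 11565467380) (nat_lit 456) (nat_lit 6142716129) (nat_lit 76) (nat_lit 37474749396) (nat_lit 131) (nat_lit 5) (nat_lit 137) (nat_lit 5) (nat_lit 132) (nat_lit 5) (nat_lit 364) (nat_lit 328) (nat_lit 88))))))) (XT.nd (nat_lit 1092) (nat_lit 2204) (nat_lit 0) (XT.nd (nat_lit 546) (nat_lit 1064) (nat_lit 0) (XT.nd (nat_lit 234) (nat_lit 836) (nat_lit 0) (XT.nd (nat_lit 78) (nat_lit 380) (nat_lit 0) (XT.lf (nat_lit 0) (nat_lit 19184183827) (nat_lit 532) (nat_lit 34014403347) (nat_lit 76) (nat_lit 2994313778) (nat_lit 125) (nat_lit 5) (nat_lit 132) (nat_lit 5)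 (nat_lit 126) (nat_lit 5) (nat_lit 365) (nat_lit 328) (nat_lit 87)) (XT.nd (nat_lit 78) (nat_lit 380) (nat_lit 0) (XT.lf (nat_lit 0) (nat_lit 27268362406) (nat_lit 532) (nat_lit 5933301486) (nat_lit 76) (nat_lit 24024397987) (nat_lit 125) (nat_lit 5) (nat_lit 132) (nat_lit 5) (nat_lit 126) (nat_lit 5) (nat_lit 366) (nat_lit 328) (nat_lit 86)) (XT.lf (nat_lit 0) (nat_lit 23446478047) (nat_lit 380) (nat_lit 12372929941) (nat_lit 456) (nat_lit 22464080232) (nat_lit 120) (nat_lit 5) (nat_lit 125) (nat_lit 5) (nat_lit 126) (nat_lit 5) (nat_lit 367) (nat_lit 328) (nat_lit 85)))) (XT.nd (nat_lit 156) (nat_lit 456) (nat_lit 0) (XT.nd (nat_lit 78) (nat_lit 380) (nat_lit 0) (XT.lf (nat_lit 0) (nat_lit 44773757283) (nat_lit 456) (nat_lit 5630741385) (nat_lit 76) (nat_lit 8963736322) (nat_lit 120) (nat_lit 5) (nat_lit 126) (nat_lit 5) (nat_lit 121) (nat_lit 5) (nat_lit 368) (nat_lit 328) (nat_lit 84)) (XT.lf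 (nat_lit 0) (nat_lit 24812125760) (nat_lit 380) (nat_lit 29544630226) (nat_lit 456) (nat_lit 6117968398) (nat_lit 115) (nat_lit 5) (nat_lit 120) (nat_lit 5) (nat_lit 121) (nat_lit 5) (nat_lit 369) (nat_lit 328) (nat_lit 83))) (XT.nd (nat_lit 78) (nat_lit 380) (nat_lit 0) (XT.lf (nat_lit 0) (nat_lit 2618284653) (nat_lit 456) (nat_lit 5355945672) (nat_lit 76) (nat_lit 53637732357) (nat_lit 114) (nat_lit 5) (nat_lit 120) (nat_lit 5) (nat_lit 115) (nat_lit 5) (nat_lit 370) (nat_lit 328) (nat_lit 82)) (XT.lf (nat_lit 0) (nat_lit 11885639892) (nat_lit 456) (nat_lit 36602423984) (nat_lit 76) (nat_lit 14281678367) (nat_lit 109) (nat_lit 5) (nat_lit 115) (nat_lit 5) (nat_lit 110) (nat_lit 5) (nat_lit 371) (nat_lit 328) (nat_lit 81))))) (XT.nd (nat_lit 234) (nat_lit 684) (nat_lit 0) (XT.nd (nat_lit 78) (nat_lit 380) (nat_lit 0) (XT.lf (nat_lit 0) (nat_lit 21563642860) (nat_lit 456) (nat_lit 5295293989) (nat_lit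 76) (nat_lit 37099340226) (nat_lit 109) (nat_lit 5) (nat_lit 115) (nat_lit 5) (nat_lit 110) (nat_lit 5) (nat_lit 372) (nat_lit 328) (nat_lit 80)) (XT.nd (nat_lit 78) (nat_lit 0) (nat_lit 0) (XT.lf (nat_lit 0) (nat_lit 27486196030) (nat_lit 380) (nat_lit 4309085821) (nat_lit 456) (nat_lit 33379287904) (nat_lit 104) (nat_lit 5) (nat_lit 109) (nat_lit 5) (nat_lit 110) (nat_lit 5) (nat_lit 373) (nat_lit 328) (nat_lit 79)) (XT.lf (nat_lit 0) (nat_lit 42568810027) (nat_lit 456) (nat_lit 5249663309) (nat_lit 76) (nat_lit 18601830335) (nat_lit 104) (nat_lit 5) (nat_lit 110) (nat_lit 5) (nat_lit 105) (nat_lit 5) (nat_lit 374) (nat_lit 328) (nat_lit 78)))) (XT.nd (nat_lit 156) (nat_lit 380) (nat_lit 0) (XT.nd (nat_lit 78) (nat_lit 0) (nat_lit 0) (XT.lf (nat_lit 0) (nat_lit 28677968612) (nat_lit 304) (nat_lit 25305030432) (nat_lit 380) (nat_lit 13710887552) (nat_lit 100) (nat_lit 5) (nat_lit 104) (nat_lit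 5) (nat_lit 105) (nat_lit 5) (nat_lit 375) (nat_lit 328) (nat_lit 77)) (XT.lf (nat_lit 0) (nat_lit 63729868017) (nat_lit 304) (nat_lit 2061891945) (nat_lit 380) (nat_lit 3212353279) (nat_lit 100) (nat_lit 5) (nat_lit 104) (nat_lit 5) (nat_lit 105) (nat_lit 5) (nat_lit 376) (nat_lit 328) (nat_lit 76))) (XT.nd (nat_lit 78) (nat_lit 0) (nat_lit 0) (XT.lf (nat_lit 0) (nat_lit 7954136157) (nat_lit 380) (nat_lit 40566037375) (nat_lit 76) (nat_lit 21816241994) (nat_lit 95) (nat_lit 5) (nat_lit 100) (nat_lit 5) (nat_lit 96) (nat_lit 5) (nat_lit 377) (nat_lit 328) (nat_lit 75)) (XT.lf (nat_lit 0) (nat_lit 19464418712) (nat_lit 380) (nat_lit 5786548554) (nat_lit 76) (nat_lit 46454565112) (nat_lit 95) (nat_lit 5) (nat_lit 100) (nat_lit 5) (nat_lit 96) (nat_lit 5) (nat_lit 378) (nat_lit 328) (nat_lit 74)))))) (XT.nd (nat_lit 546) (nat_lit 988) (nat_lit 0) (XT.nd (nat_lit 234) (nat_lit 608) (nat_lit 0) (XT.nd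 (nat_lit 78) (nat_lit 304) (nat_lit 0) (XT.lf (nat_lit 0) (nat_lit 30632949177) (nat_lit 304) (nat_lit 980709549) (nat_lit 380) (nat_lit 41493255091) (nat_lit 91) (nat_lit 5) (nat_lit 95) (nat_lit 5) (nat_lit 96) (nat_lit 5) (nat_lit 379) (nat_lit 328) (nat_lit 73)) (XT.nd (nat_lit 78) (nat_lit 304) (nat_lit 0) (XT.lf (nat_lit 0) (nat_lit 44416455806) (nat_lit 380) (nat_lit 6517529499) (nat_lit 76) (nat_lit 23607679533) (nat_lit 91) (nat_lit 5) (nat_lit 96) (nat_lit 5) (nat_lit 92) (nat_lit 5) (nat_lit 380) (nat_lit 328) (nat_lit 72)) (XT.lf (nat_lit 0) (nat_lit 31113921479) (nat_lit 304) (nat_lit 26797430902) (nat_lit 380) (nat_lit 18098866062) (nat_lit 87) (nat_lit 5) (nat_lit 91) (nat_lit 5) (nat_lit 92) (nat_lit 5) (nat_lit 381) (nat_lit 328) (nat_lit 71)))) (XT.nd (nat_lit 156) (nat_lit 304) (nat_lit 0) (XT.nd (nat_lit 78) (nat_lit 304) (nat_lit 0) (XT.lf (nat_lit 0) (nat_lit 70006817957) (nat_lit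 304) (nat_lit 1869323854) (nat_lit 380) (nat_lit 5644735971) (nat_lit 87) (nat_lit 5) (nat_lit 91) (nat_lit 5) (nat_lit 92) (nat_lit 5) (nat_lit 382) (nat_lit 328) (nat_lit 70)) (XT.lf (nat_lit 0) (nat_lit 7577755773) (nat_lit 304) (nat_lit 47763368838) (nat_lit 76) (nat_lit 23717614210) (nat_lit 83) (nat_lit 5) (nat_lit 87) (nat_lit 5) (nat_lit 84) (nat_lit 5) (nat_lit 383) (nat_lit 328) (nat_lit 69))) (XT.nd (nat_lit 78) (nat_lit 304) (nat_lit 0) (XT.lf (nat_lit 0) (nat_lit 21177860002) (nat_lit 304) (nat_lit 9293587031) (nat_lit 76) (nat_lit 50166780727) (nat_lit 83) (nat_lit 5) (nat_lit 87) (nat_lit 5) (nat_lit 84) (nat_lit 5) (nat_lit 384) (nat_lit 328) (nat_lit 68)) (XT.lf (nat_lit 0) (nat_lit 30932837842) (nat_lit 304) (nat_lit 4549751231) (nat_lit 380) (nat_lit 46773614089) (nat_lit 79) (nat_lit 5) (nat_lit 83) (nat_lit 5) (nat_lit 84) (nat_lit 5) (nat_lit 385) (nat_lit 328) (nat_lit 67)))))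 (XT.nd (nat_lit 312) (nat_lit 456) (nat_lit 0) (XT.nd (nat_lit 156) (nat_lit 304) (nat_lit 0) (XT.nd (nat_lit 78) (nat_lit 228) (nat_lit 0) (XT.lf (nat_lit 0) (nat_lit 50523435740) (nat_lit 380) (nat_lit 11578251797) (nat_lit 76) (nat_lit 21811821453) (nat_lit 79) (nat_lit 5) (nat_lit 84) (nat_lit 5) (nat_lit 80) (nat_lit 5) (nat_lit 386) (nat_lit 328) (nat_lit 66)) (XT.lf (nat_lit 0) (nat_lit 29896518374) (nat_lit 228) (nat_lit 36450725027) (nat_lit 304) (nat_lit 19263338947) (nat_lit 76) (nat_lit 5) (nat_lit 79) (nat_lit 5) (nat_lit 80) (nat_lit 5) (nat_lit 387) (nat_lit 328) (nat_lit 65))) (XT.nd (nat_lit 78) (nat_lit 304) (nat_lit 0) (XT.lf (nat_lit 0) (nat_lit 72851846172) (nat_lit 228) (nat_lit 9910152051) (nat_lit 304) (nat_lit 4593083107) (nat_lit 76) (nat_lit 5) (nat_lit 79) (nat_lit 5) (nat_lit 80) (nat_lit 5) (nat_lit 388) (nat_lit 328) (nat_lit 64)) (XT.lf (nat_lit 0) (nat_lit 10755553319)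 (nat_lit 304) (nat_lit 60916015410) (nat_lit 76) (nat_lit 17464008895) (nat_lit 72) (nat_lit 5) (nat_lit 76) (nat_lit 5) (nat_lit 73) (nat_lit 5) (nat_lit 389) (nat_lit 328) (nat_lit 63)))) (XT.nd (nat_lit 156) (nat_lit 228) (nat_lit 0) (XT.nd (nat_lit 78) (nat_lit 228) (nat_lit 0) (XT.lf (nat_lit 0) (nat_lit 26717691932) (nat_lit 304) (nat_lit 18589815130) (nat_lit 76) (nat_lit 45653257053) (nat_lit 72) (nat_lit 5) (nat_lit 76) (nat_lit 5) (nat_lit 73) (nat_lit 5) (nat_lit 390) (nat_lit 328) (nat_lit 62)) (XT.lf (nat_lit 0) (nat_lit 25502833856) (nat_lit 228) (nat_lit 17900363978) (nat_lit 304) (nat_lit 49430173637) (nat_lit 69) (nat_lit 5) (nat_lit 72) (nat_lit 5) (nat_lit 73) (nat_lit 5) (nat_lit 391) (nat_lit 328) (nat_lit 61))) (XT.nd (nat_lit 78) (nat_lit 228) (nat_lit 0) (XT.lf (nat_lit 0) (nat_lit 60877497200) (nat_lit 304) (nat_lit 23559333243) (nat_lit 76) (nat_lit 10316680110) (nat_lit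 69) (nat_lit 5) (nat_lit 73) (nat_lit 5) (nat_lit 70) (nat_lit 5) (nat_lit 392) (nat_lit 328) (nat_lit 60)) (XT.lf (nat_lit 0) (nat_lit 21771652405) (nat_lit 228) (nat_lit 57490265916) (nat_lit 304) (nat_lit 17457759046) (nat_lit 66) (nat_lit 5) (nat_lit 69) (nat_lit 5) (nat_lit 70) (nat_lit 5) (nat_lit 393) (nat_lit 328) (nat_lit 59))))))))
noncomputable def xc237 : XT := (XT.nd (nat_lit 2184) (nat_lit 5548) (nat_lit 0) (XT.nd (nat_lit 1092) (nat_lit 2888) (nat_lit 0) (XT.nd (nat_lit 546) (nat_lit 836) (nat_lit 0) (XT.nd (nat_lit 234) (nat_lit 0) (nat_lit 76) (XT.nd (nat_lit 78) (nat_lit 0) (nat_lit 0) (XT.lf (nat_lit 0) (nat_lit 5143643443) (nat_lit 0) (nat_lit 5143643443) (nat_lit 1140) (nat_lit 5437257031) (nat_lit 205) (nat_lit 5) (nat_lit 205) (nat_lit 3) (nat_lit 220) (nat_lit 3) (nat_lit 329) (nat_lit 329) (nat_lit 122)) (XT.nd (nat_lit 78) (nat_lit 0) (nat_lit 0) (XT.lf (nat_lit 0) (nat_lit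 20987470464) (nat_lit 1140) (nat_lit 6774615761) (nat_lit 1216) (nat_lit 4155543854) (nat_lit 205) (nat_lit 5) (nat_lit 220) (nat_lit 3) (nat_lit 221) (nat_lit 5) (nat_lit 330) (nat_lit 329) (nat_lit 121)) (XT.lf (nat_lit 76) (nat_lit 8099043446) (nat_lit 0) (nat_lit 13490950124) (nat_lit 1216) (nat_lit 10804920401) (nat_lit 206) (nat_lit 5) (nat_lit 205) (nat_lit 5) (nat_lit 221) (nat_lit 5) (nat_lit 331) (nat_lit 329) (nat_lit 120)))) (XT.nd (nat_lit 156) (nat_lit 0) (nat_lit 0) (XT.nd (nat_lit 78) (nat_lit 0) (nat_lit 0) (XT.lf (nat_lit 0) (nat_lit 22288897112) (nat_lit 1140) (nat_lit 9340372045) (nat_lit 1216) (nat_lit 1254900572) (nat_lit 206) (nat_lit 5) (nat_lit 221) (nat_lit 5) (nat_lit 222) (nat_lit 5) (nat_lit 332) (nat_lit 329) (nat_lit 119)) (XT.lf (nat_lit 76) (nat_lit 6046853374) (nat_lit 0) (nat_lit 17151286012) (nat_lit 1216) (nat_lit 10184285043) (nat_lit 207) (nat_lit 5) (nat_lit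 206) (nat_lit 5) (nat_lit 222) (nat_lit 5) (nat_lit 333) (nat_lit 329) (nat_lit 118))) (XT.nd (nat_lit 78) (nat_lit 0) (nat_lit 76) (XT.lf (nat_lit 76) (nat_lit 22085817222) (nat_lit 0) (nat_lit 2140887824) (nat_lit 1216) (nat_lit 9666162688) (nat_lit 207) (nat_lit 5) (nat_lit 206) (nat_lit 5) (nat_lit 222) (nat_lit 5) (nat_lit 334) (nat_lit 329) (nat_lit 117)) (XT.lf (nat_lit 76) (nat_lit 4138662868) (nat_lit 0) (nat_lit 21313087982) (nat_lit 1216) (nat_lit 8961907072) (nat_lit 208) (nat_lit 5) (nat_lit 207) (nat_lit 5) (nat_lit 223) (nat_lit 5) (nat_lit 335) (nat_lit 329) (nat_lit 116))))) (XT.nd (nat_lit 234) (nat_lit 988) (nat_lit 0) (XT.nd (nat_lit 78) (nat_lit 0) (nat_lit 76) (XT.lf (nat_lit 76) (nat_lit 20781790700) (nat_lit 0) (nat_lit 6069826870) (nat_lit 1216) (nat_lit 8094314371) (nat_lit 208) (nat_lit 5) (nat_lit 207) (nat_lit 5) (nat_lit 223) (nat_lit 5) (nat_lit 336) (nat_lit 329)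 (nat_lit 115)) (XT.nd (nat_lit 78) (nat_lit 0) (nat_lit 0) (XT.lf (nat_lit 76) (nat_lit 2382550689) (nat_lit 0) (nat_lit 26024330813) (nat_lit 1216) (nat_lit 7083892792) (nat_lit 209) (nat_lit 5) (nat_lit 208) (nat_lit 5) (nat_lit 224) (nat_lit 5) (nat_lit 337) (nat_lit 329) (nat_lit 114)) (XT.lf (nat_lit 76) (nat_lit 19653311642) (nat_lit 0) (nat_lit 10555999218) (nat_lit 1216) (nat_lit 5836637918) (nat_lit 209) (nat_lit 5) (nat_lit 208) (nat_lit 5) (nat_lit 224) (nat_lit 5) (nat_lit 338) (nat_lit 329) (nat_lit 113)))) (XT.nd (nat_lit 156) (nat_lit 1140) (nat_lit 0) (XT.nd (nat_lit 78) (nat_lit 0) (nat_lit 0) (XT.lf (nat_lit 76) (nat_lit 786670544) (nat_lit 0) (nat_lit 31336420068) (nat_lit 1216) (nat_lit 4492971584) (nat_lit 210) (nat_lit 5) (nat_lit 209) (nat_lit 5) (nat_lit 225) (nat_lit 5) (nat_lit 339) (nat_lit 329) (nat_lit 112)) (XT.lf (nat_lit 76) (nat_lit 18709393351) (nat_lit 0) (nat_lit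 15651992333) (nat_lit 1216) (nat_lit 2833882240) (nat_lit 210) (nat_lit 5) (nat_lit 209) (nat_lit 5) (nat_lit 225) (nat_lit 5) (nat_lit 340) (nat_lit 329) (nat_lit 111))) (XT.nd (nat_lit 78) (nat_lit 1216) (nat_lit 0) (XT.lf (nat_lit 0) (nat_lit 36669803519) (nat_lit 1140) (nat_lit 628310910) (nat_lit 1216) (nat_lit 493648088) (nat_lit 210) (nat_lit 5) (nat_lit 225) (nat_lit 5) (nat_lit 226) (nat_lit 5) (nat_lit 341) (nat_lit 329) (nat_lit 110)) (XT.lf (nat_lit 0) (nat_lit 957828426) (nat_lit 1216) (nat_lit 20446697330) (nat_lit 1292) (nat_lit 16991572416) (nat_lit 194) (nat_lit 5) (nat_lit 210) (nat_lit 5) (nat_lit 211) (nat_lit 5) (nat_lit 342) (nat_lit 329) (nat_lit 109)))))) (XT.nd (nat_lit 546) (nat_lit 2280) (nat_lit 0) (XT.nd (nat_lit 234) (nat_lit 608) (nat_lit 0) (XT.nd (nat_lit 78) (nat_lit 0) (nat_lit 76) (XT.lf (nat_lit 0) (nat_lit 3082080208) (nat_lit 1216) (nat_lit 1933627534) (nat_lit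 1292) (nat_lit 34002386017) (nat_lit 194) (nat_lit 5) (nat_lit 210) (nat_lit 5) (nat_lit 211) (nat_lit 5) (nat_lit 343) (nat_lit 329) (nat_lit 108)) (XT.nd (nat_lit 78) (nat_lit 0) (nat_lit 0) (XT.lf (nat_lit 0) (nat_lit 5552018380) (nat_lit 1216) (nat_lit 22295023246) (nat_lit 1292) (nat_lit 11803250519) (nat_lit 195) (nat_lit 5) (nat_lit 211) (nat_lit 5) (nat_lit 212) (nat_lit 5) (nat_lit 344) (nat_lit 329) (nat_lit 107)) (XT.lf (nat_lit 0) (nat_lit 8163740688) (nat_lit 1216) (nat_lit 3089662692) (nat_lit 1292) (nat_lit 29046024169) (nat_lit 195) (nat_lit 5) (nat_lit 211) (nat_lit 5) (nat_lit 212) (nat_lit 5) (nat_lit 345) (nat_lit 329) (nat_lit 106)))) (XT.nd (nat_lit 156) (nat_lit 760) (nat_lit 0) (XT.nd (nat_lit 78) (nat_lit 0) (nat_lit 0) (XT.lf (nat_lit 0) (nat_lit 11073544254) (nat_lit 1216) (nat_lit 23998255299) (nat_lit 76) (nat_lit 5889647174) (nat_lit 196) (nat_lit 5) (nat_lit 212) (nat_lit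 5) (nat_lit 197) (nat_lit 5) (nat_lit 346) (nat_lit 329) (nat_lit 105)) (XT.lf (nat_lit 0) (nat_lit 14211963222) (nat_lit 1216) (nat_lit 4074558777) (nat_lit 76) (nat_lit 23352566392) (nat_lit 196) (nat_lit 5) (nat_lit 212) (nat_lit 5) (nat_lit 197) (nat_lit 5) (nat_lit 347) (nat_lit 329) (nat_lit 104))) (XT.nd (nat_lit 78) (nat_lit 0) (nat_lit 0) (XT.lf (nat_lit 0) (nat_lit 16772781187) (nat_lit 760) (nat_lit 831423631) (nat_lit 836) (nat_lit 24728065895) (nat_lit 186) (nat_lit 5) (nat_lit 196) (nat_lit 5) (nat_lit 197) (nat_lit 5) (nat_lit 348) (nat_lit 329) (nat_lit 103)) (XT.lf (nat_lit 0) (nat_lit 21303070666) (nat_lit 836) (nat_lit 4882586755) (nat_lit 76) (nat_lit 16854446834) (nat_lit 186) (nat_lit 5) (nat_lit 197) (nat_lit 5) (nat_lit 187) (nat_lit 5) (nat_lit 349) (nat_lit 329) (nat_lit 102))))) (XT.nd (nat_lit 234) (nat_lit 1140) (nat_lit 0) (XT.nd (nat_lit 78) (nat_lit 532) (nat_lit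 0) (XT.lf (nat_lit 0) (nat_lit 16731523830) (nat_lit 608) (nat_lit 8548962637) (nat_lit 684) (nat_lit 18483660239) (nat_lit 178) (nat_lit 5) (nat_lit 186) (nat_lit 5) (nat_lit 187) (nat_lit 5) (nat_lit 350) (nat_lit 329) (nat_lit 101)) (XT.nd (nat_lit 78) (nat_lit 532) (nat_lit 0) (XT.lf (nat_lit 0) (nat_lit 29518009980) (nat_lit 684) (nat_lit 5508608608) (nat_lit 76) (nat_lit 9479069663) (nat_lit 178) (nat_lit 5) (nat_lit 187) (nat_lit 5) (nat_lit 179) (nat_lit 5) (nat_lit 351) (nat_lit 329) (nat_lit 100)) (XT.lf (nat_lit 0) (nat_lit 16905008809) (nat_lit 532) (nat_lit 17223386751) (nat_lit 608) (nat_lit 11133709731) (nat_lit 171) (nat_lit 5) (nat_lit 178) (nat_lit 5) (nat_lit 179) (nat_lit 5) (nat_lit 352) (nat_lit 329) (nat_lit 99)))) (XT.nd (nat_lit 156) (nat_lit 608) (nat_lit 0) (XT.nd (nat_lit 78) (nat_lit 532) (nat_lit 0) (XT.lf (nat_lit 0) (nat_lit 38942597930) (nat_lit 608) (nat_lit 5948230419)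 (nat_lit 76) (nat_lit 1148422636) (nat_lit 171) (nat_lit 5) (nat_lit 179) (nat_lit 5) (nat_lit 172) (nat_lit 5) (nat_lit 353) (nat_lit 329) (nat_lit 98)) (XT.lf (nat_lit 0) (nat_lit 17298589530) (nat_lit 532) (nat_lit 26938110656) (nat_lit 608) (nat_lit 2592947912) (nat_lit 164) (nat_lit 5) (nat_lit 171) (nat_lit 5) (nat_lit 172) (nat_lit 5) (nat_lit 354) (nat_lit 329) (nat_lit 97))) (XT.nd (nat_lit 78) (nat_lit 532) (nat_lit 0) (XT.lf (nat_lit 0) (nat_lit 2065278949) (nat_lit 608) (nat_lit 6298824793) (nat_lit 76) (nat_lit 39277284602) (nat_lit 163) (nat_lit 5) (nat_lit 171) (nat_lit 5) (nat_lit 164) (nat_lit 5) (nat_lit 355) (nat_lit 329) (nat_lit 96)) (XT.lf (nat_lit 0) (nat_lit 7087893301) (nat_lit 608) (nat_lit 30623306906) (nat_lit 76) (nat_lit 10757208872) (nat_lit 156) (nat_lit 5) (nat_lit 164) (nat_lit 5) (nat_lit 157) (nat_lit 5) (nat_lit 356) (nat_lit 329) (nat_lit 95))))))) (XT.nd (nat_lit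 1092) (nat_lit 2432) (nat_lit 0) (XT.nd (nat_lit 546) (nat_lit 1672) (nat_lit 0) (XT.nd (nat_lit 234) (nat_lit 912) (nat_lit 0) (XT.nd (nat_lit 78) (nat_lit 532) (nat_lit 0) (XT.lf (nat_lit 0) (nat_lit 12406970468) (nat_lit 608) (nat_lit 6560650264) (nat_lit 76) (nat_lit 30348247294) (nat_lit 156) (nat_lit 5) (nat_lit 164) (nat_lit 5) (nat_lit 157) (nat_lit 5) (nat_lit 357) (nat_lit 329) (nat_lit 94)) (XT.nd (nat_lit 78) (nat_lit 0) (nat_lit 0) (XT.lf (nat_lit 0) (nat_lit 18068065214) (nat_lit 608) (nat_lit 31603200513) (nat_lit 76) (nat_lit 512012744) (nat_lit 149) (nat_lit 5) (nat_lit 157) (nat_lit 5) (nat_lit 150) (nat_lit 5) (nat_lit 358) (nat_lit 329) (nat_lit 93)) (XT.lf (nat_lit 0) (nat_lit 24152491937) (nat_lit 608) (nat_lit 6654989473) (nat_lit 76) (nat_lit 20261625903) (nat_lit 149) (nat_lit 5) (nat_lit 157) (nat_lit 5) (nat_lit 150) (nat_lit 5) (nat_lit 359) (nat_lit 329) (nat_lit 92))))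 (XT.nd (nat_lit 156) (nat_lit 456) (nat_lit 0) (XT.nd (nat_lit 78) (nat_lit 0) (nat_lit 0) (XT.lf (nat_lit 0) (nat_lit 19419320931) (nat_lit 456) (nat_lit 11185631280) (nat_lit 532) (nat_lit 21370994813) (nat_lit 143) (nat_lit 5) (nat_lit 149) (nat_lit 5) (nat_lit 150) (nat_lit 5) (nat_lit 360) (nat_lit 329) (nat_lit 91)) (XT.lf (nat_lit 0) (nat_lit 37404457566) (nat_lit 532) (nat_lit 6584421874) (nat_lit 76) (nat_lit 8916509345) (nat_lit 143) (nat_lit 5) (nat_lit 150) (nat_lit 5) (nat_lit 144) (nat_lit 5) (nat_lit 361) (nat_lit 329) (nat_lit 90))) (XT.nd (nat_lit 78) (nat_lit 0) (nat_lit 0) (XT.lf (nat_lit 0) (nat_lit 20454060741) (nat_lit 456) (nat_lit 24260137517) (nat_lit 532) (nat_lit 9139329002) (nat_lit 137) (nat_lit 5) (nat_lit 143) (nat_lit 5) (nat_lit 144) (nat_lit 5) (nat_lit 362) (nat_lit 329) (nat_lit 89)) (XT.lf (nat_lit 0) (nat_lit 48437413188) (nat_lit 456) (nat_lit 3871212536) (nat_lit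 532) (nat_lit 2519523267) (nat_lit 137) (nat_lit 5) (nat_lit 143) (nat_lit 5) (nat_lit 144) (nat_lit 5) (nat_lit 363) (nat_lit 329) (nat_lit 88))))) (XT.nd (nat_lit 234) (nat_lit 760) (nat_lit 0) (XT.nd (nat_lit 78) (nat_lit 456) (nat_lit 0) (XT.lf (nat_lit 0) (nat_lit 4590720438) (nat_lit 456) (nat_lit 34180348266) (nat_lit 76) (nat_lit 17048429942) (nat_lit 131) (nat_lit 5) (nat_lit 137) (nat_lit 5) (nat_lit 132) (nat_lit 5) (nat_lit 364) (nat_lit 329) (nat_lit 87)) (XT.nd (nat_lit 78) (nat_lit 456) (nat_lit 0) (XT.lf (nat_lit 0) (nat_lit 11966076255) (nat_lit 456) (nat_lit 6262892430) (nat_lit 76) (nat_lit 38607799250) (nat_lit 131) (nat_lit 5) (nat_lit 137) (nat_lit 5) (nat_lit 132) (nat_lit 5) (nat_lit 365) (nat_lit 329) (nat_lit 86)) (XT.lf (nat_lit 0) (nat_lit 19812505564) (nat_lit 532) (nat_lit 34969839290) (nat_lit 76) (nat_lit 3094716897) (nat_lit 125) (nat_lit 5) (nat_lit 132) (nat_lit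 5) (nat_lit 126) (nat_lit 5) (nat_lit 366) (nat_lit 329) (nat_lit 85)))) (XT.nd (nat_lit 156) (nat_lit 380) (nat_lit 0) (XT.nd (nat_lit 78) (nat_lit 380) (nat_lit 0) (XT.lf (nat_lit 0) (nat_lit 28137671746) (nat_lit 532) (nat_lit 6048197466) (nat_lit 76) (nat_lit 24755395661) (nat_lit 125) (nat_lit 5) (nat_lit 132) (nat_lit 5) (nat_lit 126) (nat_lit 5) (nat_lit 367) (nat_lit 329) (nat_lit 84)) (XT.lf (nat_lit 0) (nat_lit 24212356796) (nat_lit 380) (nat_lit 12731999573) (nat_lit 456) (nat_lit 23086085601) (nat_lit 120) (nat_lit 5) (nat_lit 125) (nat_lit 5) (nat_lit 126) (nat_lit 5) (nat_lit 368) (nat_lit 329) (nat_lit 83))) (XT.nd (nat_lit 78) (nat_lit 380) (nat_lit 0) (XT.lf (nat_lit 0) (nat_lit 46165982264) (nat_lit 456) (nat_lit 5737606524) (nat_lit 76) (nat_lit 9244184136) (nat_lit 120) (nat_lit 5) (nat_lit 126) (nat_lit 5) (nat_lit 121) (nat_lit 5) (nat_lit 369) (nat_lit 329) (nat_lit 82)) (XT.lf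 (nat_lit 0) (nat_lit 25617938232) (nat_lit 380) (nat_lit 30417695835) (nat_lit 456) (nat_lit 6251849164) (nat_lit 115) (nat_lit 5) (nat_lit 120) (nat_lit 5) (nat_lit 121) (nat_lit 5) (nat_lit 370) (nat_lit 329) (nat_lit 81)))))) (XT.nd (nat_lit 546) (nat_lit 1292) (nat_lit 0) (XT.nd (nat_lit 234) (nat_lit 684) (nat_lit 0) (XT.nd (nat_lit 78) (nat_lit 380) (nat_lit 0) (XT.lf (nat_lit 0) (nat_lit 2744104333) (nat_lit 456) (nat_lit 5455988861) (nat_lit 76) (nat_lit 55258774775) (nat_lit 114) (nat_lit 5) (nat_lit 120) (nat_lit 5) (nat_lit 115) (nat_lit 5) (nat_lit 371) (nat_lit 329) (nat_lit 80)) (XT.nd (nat_lit 78) (nat_lit 0) (nat_lit 0) (XT.lf (nat_lit 0) (nat_lit 12288810983) (nat_lit 456) (nat_lit 37639157847) (nat_lit 76) (nat_lit 14723433194) (nat_lit 109) (nat_lit 5) (nat_lit 115) (nat_lit 5) (nat_lit 110) (nat_lit 5) (nat_lit 372) (nat_lit 329) (nat_lit 79)) (XT.lf (nat_lit 0) (nat_lit 22255796704)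 (nat_lit 456) (nat_lit 5394600522) (nat_lit 76) (nat_lit 38225237400) (nat_lit 109) (nat_lit 5) (nat_lit 115) (nat_lit 5) (nat_lit 110) (nat_lit 5) (nat_lit 373) (nat_lit 329) (nat_lit 78)))) (XT.nd (nat_lit 156) (nat_lit 304) (nat_lit 0) (XT.nd (nat_lit 78) (nat_lit 0) (nat_lit 0) (XT.lf (nat_lit 0) (nat_lit 28369750352) (nat_lit 380) (nat_lit 4423883550) (nat_lit 456) (nat_lit 34334805685) (nat_lit 104) (nat_lit 5) (nat_lit 109) (nat_lit 5) (nat_lit 110) (nat_lit 5) (nat_lit 374) (nat_lit 329) (nat_lit 77)) (XT.lf (nat_lit 0) (nat_lit 43889207082) (nat_lit 456) (nat_lit 5348709945) (nat_lit 76) (nat_lit 19173664264) (nat_lit 104) (nat_lit 5) (nat_lit 110) (nat_lit 5) (nat_lit 105) (nat_lit 5) (nat_lit 375) (nat_lit 329) (nat_lit 76))) (XT.nd (nat_lit 78) (nat_lit 0) (nat_lit 0) (XT.lf (nat_lit 0) (nat_lit 29596177959) (nat_lit 304) (nat_lit 26048937975) (nat_lit 380) (nat_lit 14078277862) (nat_lit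 100) (nat_lit 5) (nat_lit 104) (nat_lit 5) (nat_lit 105) (nat_lit 5) (nat_lit 376) (nat_lit 329) (nat_lit 75)) (XT.lf (nat_lit 0) (nat_lit 65697948804) (nat_lit 304) (nat_lit 2108949315) (nat_lit 380) (nat_lit 3266067259) (nat_lit 100) (nat_lit 5) (nat_lit 104) (nat_lit 5) (nat_lit 105) (nat_lit 5) (nat_lit 377) (nat_lit 329) (nat_lit 74))))) (XT.nd (nat_lit 312) (nat_lit 608) (nat_lit 0) (XT.nd (nat_lit 156) (nat_lit 304) (nat_lit 0) (XT.nd (nat_lit 78) (nat_lit 0) (nat_lit 0) (XT.lf (nat_lit 0) (nat_lit 8234056714) (nat_lit 380) (nat_lit 41725416776) (nat_lit 76) (nat_lit 22485767615) (nat_lit 95) (nat_lit 5) (nat_lit 100) (nat_lit 5) (nat_lit 96) (nat_lit 5) (nat_lit 378) (nat_lit 329) (nat_lit 73)) (XT.lf (nat_lit 0) (nat_lit 20088444936) (nat_lit 380) (nat_lit 5904221010) (nat_lit 76) (nat_lit 47862802415) (nat_lit 95) (nat_lit 5) (nat_lit 100) (nat_lit 5) (nat_lit 96) (nat_lit 5) (nat_lit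 379) (nat_lit 329) (nat_lit 72))) (XT.nd (nat_lit 78) (nat_lit 0) (nat_lit 0) (XT.lf (nat_lit 0) (nat_lit 31607313378) (nat_lit 304) (nat_lit 994213301) (nat_lit 380) (nat_lit 42697384420) (nat_lit 91) (nat_lit 5) (nat_lit 95) (nat_lit 5) (nat_lit 96) (nat_lit 5) (nat_lit 380) (nat_lit 329) (nat_lit 71)) (XT.lf (nat_lit 0) (nat_lit 45787406956) (nat_lit 380) (nat_lit 6658266210) (nat_lit 76) (nat_lit 24331062275) (nat_lit 91) (nat_lit 5) (nat_lit 96) (nat_lit 5) (nat_lit 92) (nat_lit 5) (nat_lit 381) (nat_lit 329) (nat_lit 70)))) (XT.nd (nat_lit 156) (nat_lit 304) (nat_lit 0) (XT.nd (nat_lit 78) (nat_lit 0) (nat_lit 0) (XT.lf (nat_lit 0) (nat_lit 32101591149) (nat_lit 304) (nat_lit 27584960662) (nat_lit 380) (nat_lit 18602812548) (nat_lit 87) (nat_lit 5) (nat_lit 91) (nat_lit 5) (nat_lit 92) (nat_lit 5) (nat_lit 382) (nat_lit 329) (nat_lit 69)) (XT.lf (nat_lit 0) (nat_lit 72159694365) (nat_lit 304)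 (nat_lit 1909487874) (nat_lit 380) (nat_lit 5776195044) (nat_lit 87) (nat_lit 5) (nat_lit 91) (nat_lit 5) (nat_lit 92) (nat_lit 5) (nat_lit 383) (nat_lit 329) (nat_lit 68))) (XT.nd (nat_lit 78) (nat_lit 0) (nat_lit 0) (XT.lf (nat_lit 0) (nat_lit 7841816043) (nat_lit 304) (nat_lit 49142396418) (nat_lit 76) (nat_lit 24445163936) (nat_lit 83) (nat_lit 5) (nat_lit 87) (nat_lit 5) (nat_lit 84) (nat_lit 5) (nat_lit 384) (nat_lit 329) (nat_lit 67)) (XT.lf (nat_lit 0) (nat_lit 21848853662) (nat_lit 304) (nat_lit 9520090288) (nat_lit 76) (nat_lit 51687338808) (nat_lit 83) (nat_lit 5) (nat_lit 87) (nat_lit 5) (nat_lit 84) (nat_lit 5) (nat_lit 385) (nat_lit 329) (nat_lit 66))))))))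
noncomputable def xc238 : XT := (XT.nd (nat_lit 37908) (nat_lit 0) (nat_lit 1976) (XT.nd (nat_lit 36816) (nat_lit 0) (nat_lit 8892) (XT.nd (nat_lit 36270) (nat_lit 0) (nat_lit 10336) (XT.nd (nat_lit 234) (nat_lit 532) (nat_lit 0) (XT.nd (nat_lit 78) (nat_lit 228) (nat_lit 0) (XT.lf (nat_lit 0) (nat_lit 31912614544) (nat_lit 304) (nat_lit 4669569336) (nat_lit 380) (nat_lit 48140630409) (nat_lit 79) (nat_lit 5) (nat_lit 83) (nat_lit 5) (nat_lit 84) (nat_lit 5) (nat_lit 386) (nat_lit 329) (nat_lit 65)) (XT.nd (nat_lit 78) (nat_lit 228) (nat_lit 0) (XT.lf (nat_lit 0) (nat_lit 52073388734) (nat_lit 380) (nat_lit 11874428234) (nat_lit 76) (nat_lit 22482048965) (nat_lit 79) (nat_lit 5) (nat_lit 84) (nat_lit 5) (nat_lit 80) (nat_lit 5) (nat_lit 387) (nat_lit 329) (nat_lit 64)) (XT.lf (nat_lit 0) (nat_lit 30844083365) (nat_lit 228) (nat_lit 37527316755) (nat_lit 304) (nat_lit 19806467293) (nat_lit 76) (nat_lit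 5) (nat_lit 79) (nat_lit 5) (nat_lit 80) (nat_lit 5) (nat_lit 388) (nat_lit 329) (nat_lit 63)))) (XT.nd (nat_lit 156) (nat_lit 228) (nat_lit 0) (XT.nd (nat_lit 78) (nat_lit 304) (nat_lit 0) (XT.lf (nat_lit 0) (nat_lit 75086595187) (nat_lit 228) (nat_lit 10191019697) (nat_lit 304) (nat_lit 4697116550) (nat_lit 76) (nat_lit 5) (nat_lit 79) (nat_lit 5) (nat_lit 80) (nat_lit 5) (nat_lit 389) (nat_lit 329) (nat_lit 62)) (XT.lf (nat_lit 0) (nat_lit 11110992036) (nat_lit 304) (nat_lit 62693277740) (nat_lit 76) (nat_lit 18004373506) (nat_lit 72) (nat_lit 5) (nat_lit 76) (nat_lit 5) (nat_lit 73) (nat_lit 5) (nat_lit 390) (nat_lit 329) (nat_lit 61))) (XT.nd (nat_lit 78) (nat_lit 228) (nat_lit 0) (XT.lf (nat_lit 0) (nat_lit 27551040280) (nat_lit 304) (nat_lit 19098754115) (nat_lit 76) (nat_lit 47038820147) (nat_lit 72) (nat_lit 5) (nat_lit 76) (nat_lit 5) (nat_lit 73) (nat_lit 5) (nat_lit 391) (nat_lit 329)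 (nat_lit 60)) (XT.lf (nat_lit 0) (nat_lit 26316196346) (nat_lit 228) (nat_lit 18420452360) (nat_lit 304) (nat_lit 50880765816) (nat_lit 69) (nat_lit 5) (nat_lit 72) (nat_lit 5) (nat_lit 73) (nat_lit 5) (nat_lit 392) (nat_lit 329) (nat_lit 59))))) (XT.nd (nat_lit 234) (nat_lit 0) (nat_lit 76) (XT.nd (nat_lit 78) (nat_lit 0) (nat_lit 0) (XT.lf (nat_lit 0) (nat_lit 5329416095) (nat_lit 0) (nat_lit 5329416095) (nat_lit 1140) (nat_lit 5535495145) (nat_lit 205) (nat_lit 5) (nat_lit 205) (nat_lit 3) (nat_lit 220) (nat_lit 3) (nat_lit 330) (nat_lit 330) (nat_lit 120)) (XT.nd (nat_lit 78) (nat_lit 0) (nat_lit 0) (XT.lf (nat_lit 0) (nat_lit 21738695070) (nat_lit 1140) (nat_lit 6912381044) (nat_lit 1216) (nat_lit 4220308450) (nat_lit 205) (nat_lit 5) (nat_lit 220) (nat_lit 3) (nat_lit 221) (nat_lit 5) (nat_lit 331) (nat_lit 330) (nat_lit 119)) (XT.lf (nat_lit 76) (nat_lit 8406846045) (nat_lit 0) (nat_lit 13949529261)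 (nat_lit 1216) (nat_lit 11006702905) (nat_lit 206) (nat_lit 5) (nat_lit 205) (nat_lit 5) (nat_lit 221) (nat_lit 5) (nat_lit 332) (nat_lit 330) (nat_lit 118)))) (XT.nd (nat_lit 156) (nat_lit 0) (nat_lit 0) (XT.nd (nat_lit 78) (nat_lit 0) (nat_lit 0) (XT.lf (nat_lit 0) (nat_lit 23072286631) (nat_lit 1140) (nat_lit 9553561731) (nat_lit 1216) (nat_lit 1241285635) (nat_lit 206) (nat_lit 5) (nat_lit 221) (nat_lit 5) (nat_lit 222) (nat_lit 5) (nat_lit 333) (nat_lit 330) (nat_lit 117)) (XT.lf (nat_lit 76) (nat_lit 6294623378) (nat_lit 0) (nat_lit 17711479295) (nat_lit 1216) (nat_lit 10374318239) (nat_lit 207) (nat_lit 5) (nat_lit 206) (nat_lit 5) (nat_lit 222) (nat_lit 5) (nat_lit 334) (nat_lit 330) (nat_lit 116))) (XT.nd (nat_lit 78) (nat_lit 0) (nat_lit 76) (XT.lf (nat_lit 76) (nat_lit 22812823198) (nat_lit 0) (nat_lit 2249439412) (nat_lit 1216) (nat_lit 9844016156) (nat_lit 207) (nat_lit 5) (nat_lit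 206) (nat_lit 5) (nat_lit 222) (nat_lit 5) (nat_lit 335) (nat_lit 330) (nat_lit 115)) (XT.lf (nat_lit 76) (nat_lit 4330386345) (nat_lit 0) (nat_lit 21990741574) (nat_lit 1216) (nat_lit 9121655967) (nat_lit 208) (nat_lit 5) (nat_lit 207) (nat_lit 5) (nat_lit 223) (nat_lit 5) (nat_lit 336) (nat_lit 330) (nat_lit 114)))))) (XT.nd (nat_lit 546) (nat_lit 608) (nat_lit 0) (XT.nd (nat_lit 234) (nat_lit 988) (nat_lit 0) (XT.nd (nat_lit 78) (nat_lit 0) (nat_lit 76) (XT.lf (nat_lit 76) (nat_lit 21470840141) (nat_lit 0) (nat_lit 6289068233) (nat_lit 1216) (nat_lit 8231213397) (nat_lit 208) (nat_lit 5) (nat_lit 207) (nat_lit 5) (nat_lit 223) (nat_lit 5) (nat_lit 337) (nat_lit 330) (nat_lit 113)) (XT.nd (nat_lit 78) (nat_lit 0) (nat_lit 0) (XT.lf (nat_lit 76) (nat_lit 2522490281) (nat_lit 0) (nat_lit 26836658882) (nat_lit 1216) (nat_lit 7193243746) (nat_lit 209) (nat_lit 5) (nat_lit 208) (nat_lit 5) (nat_lit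 224) (nat_lit 5) (nat_lit 338) (nat_lit 330) (nat_lit 112)) (XT.lf (nat_lit 76) (nat_lit 20309379993) (nat_lit 0) (nat_lit 10903357004) (nat_lit 1216) (nat_lit 5911576056) (nat_lit 209) (nat_lit 5) (nat_lit 208) (nat_lit 5) (nat_lit 224) (nat_lit 5) (nat_lit 339) (nat_lit 330) (nat_lit 111)))) (XT.nd (nat_lit 156) (nat_lit 1140) (nat_lit 0) (XT.nd (nat_lit 78) (nat_lit 0) (nat_lit 0) (XT.lf (nat_lit 76) (nat_lit 879364645) (nat_lit 0) (nat_lit 32302113847) (nat_lit 1216) (nat_lit 4530127837) (nat_lit 210) (nat_lit 5) (nat_lit 209) (nat_lit 5) (nat_lit 225) (nat_lit 5) (nat_lit 340) (nat_lit 330) (nat_lit 110)) (XT.lf (nat_lit 76) (nat_lit 19337756691) (nat_lit 0) (nat_lit 16146407615) (nat_lit 1216) (nat_lit 2824109489) (nat_lit 210) (nat_lit 5) (nat_lit 209) (nat_lit 5) (nat_lit 225) (nat_lit 5) (nat_lit 341) (nat_lit 330) (nat_lit 109))) (XT.nd (nat_lit 78) (nat_lit 1216) (nat_lit 0) (XT.lf (nat_lit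 0) (nat_lit 37858924929) (nat_lit 1140) (nat_lit 579031468) (nat_lit 1216) (nat_lit 484796859) (nat_lit 210) (nat_lit 5) (nat_lit 225) (nat_lit 5) (nat_lit 226) (nat_lit 5) (nat_lit 342) (nat_lit 330) (nat_lit 108)) (XT.lf (nat_lit 0) (nat_lit 1074595162) (nat_lit 1216) (nat_lit 20990799329) (nat_lit 1292) (nat_lit 17479859596) (nat_lit 194) (nat_lit 5) (nat_lit 210) (nat_lit 5) (nat_lit 211) (nat_lit 5) (nat_lit 343) (nat_lit 330) (nat_lit 107))))) (XT.nd (nat_lit 234) (nat_lit 608) (nat_lit 0) (XT.nd (nat_lit 78) (nat_lit 0) (nat_lit 76) (XT.lf (nat_lit 0) (nat_lit 3260010462) (nat_lit 1216) (nat_lit 1924355854) (nat_lit 1292) (nat_lit 35001622653) (nat_lit 194) (nat_lit 5) (nat_lit 210) (nat_lit 5) (nat_lit 211) (nat_lit 5) (nat_lit 344) (nat_lit 330) (nat_lit 106)) (XT.nd (nat_lit 78) (nat_lit 0) (nat_lit 0) (XT.lf (nat_lit 0) (nat_lit 5802034430) (nat_lit 1216) (nat_lit 22894499955) (nat_lit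 1292) (nat_lit 12140681726) (nat_lit 195) (nat_lit 5) (nat_lit 211) (nat_lit 5) (nat_lit 212) (nat_lit 5) (nat_lit 345) (nat_lit 330) (nat_lit 105)) (XT.lf (nat_lit 0) (nat_lit 8489677665) (nat_lit 1216) (nat_lit 3114999185) (nat_lit 1292) (nat_lit 29901224012) (nat_lit 195) (nat_lit 5) (nat_lit 211) (nat_lit 5) (nat_lit 212) (nat_lit 5) (nat_lit 346) (nat_lit 330) (nat_lit 104)))) (XT.nd (nat_lit 156) (nat_lit 760) (nat_lit 0) (XT.nd (nat_lit 78) (nat_lit 0) (nat_lit 0) (XT.lf (nat_lit 0) (nat_lit 11484935245) (nat_lit 1216) (nat_lit 24648933002) (nat_lit 76) (nat_lit 6053969865) (nat_lit 196) (nat_lit 5) (nat_lit 212) (nat_lit 5) (nat_lit 197) (nat_lit 5) (nat_lit 347) (nat_lit 330) (nat_lit 103)) (XT.lf (nat_lit 0) (nat_lit 14715200433) (nat_lit 1216) (nat_lit 4129543157) (nat_lit 76) (nat_lit 24041136856) (nat_lit 196) (nat_lit 5) (nat_lit 212) (nat_lit 5) (nat_lit 197) (nat_lit 5) (nat_lit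 348) (nat_lit 330) (nat_lit 102))) (XT.nd (nat_lit 78) (nat_lit 0) (nat_lit 0) (XT.lf (nat_lit 0) (nat_lit 17342557670) (nat_lit 760) (nat_lit 865052566) (nat_lit 836) (nat_lit 25392298134) (nat_lit 186) (nat_lit 5) (nat_lit 196) (nat_lit 5) (nat_lit 197) (nat_lit 5) (nat_lit 349) (nat_lit 330) (nat_lit 101)) (XT.lf (nat_lit 0) (nat_lit 22015168394) (nat_lit 836) (nat_lit 4962067262) (nat_lit 76) (nat_lit 17351811572) (nat_lit 186) (nat_lit 5) (nat_lit 197) (nat_lit 5) (nat_lit 187) (nat_lit 5) (nat_lit 350) (nat_lit 330) (nat_lit 100))))))) (XT.nd (nat_lit 1092) (nat_lit 3192) (nat_lit 0) (XT.nd (nat_lit 546) (nat_lit 1444) (nat_lit 0) (XT.nd (nat_lit 234) (nat_lit 1140) (nat_lit 0) (XT.nd (nat_lit 78) (nat_lit 532) (nat_lit 0) (XT.lf (nat_lit 0) (nat_lit 17299809807) (nat_lit 608) (nat_lit 8810608188) (nat_lit 684) (nat_lit 18964439656) (nat_lit 178) (nat_lit 5) (nat_lit 186) (nat_lit 5) (nat_lit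 187) (nat_lit 5) (nat_lit 351) (nat_lit 330) (nat_lit 99)) (XT.nd (nat_lit 78) (nat_lit 532) (nat_lit 0) (XT.lf (nat_lit 0) (nat_lit 30472935884) (nat_lit 684) (nat_lit 5607261547) (nat_lit 76) (nat_lit 9758513931) (nat_lit 178) (nat_lit 5) (nat_lit 187) (nat_lit 5) (nat_lit 179) (nat_lit 5) (nat_lit 352) (nat_lit 330) (nat_lit 98)) (XT.lf (nat_lit 0) (nat_lit 17478111399) (nat_lit 532) (nat_lit 17742134667) (nat_lit 608) (nat_lit 11397618377) (nat_lit 171) (nat_lit 5) (nat_lit 178) (nat_lit 5) (nat_lit 179) (nat_lit 5) (nat_lit 353) (nat_lit 330) (nat_lit 97)))) (XT.nd (nat_lit 156) (nat_lit 608) (nat_lit 0) (XT.nd (nat_lit 78) (nat_lit 532) (nat_lit 0) (XT.lf (nat_lit 0) (nat_lit 40176874866) (nat_lit 608) (nat_lit 6060584125) (nat_lit 76) (nat_lit 1180927372) (nat_lit 171) (nat_lit 5) (nat_lit 179) (nat_lit 5) (nat_lit 172) (nat_lit 5) (nat_lit 354) (nat_lit 330) (nat_lit 96)) (XT.lf (nat_lit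 0) (nat_lit 17882992450) (nat_lit 532) (nat_lit 27745514539) (nat_lit 608) (nat_lit 2604029007) (nat_lit 164) (nat_lit 5) (nat_lit 171) (nat_lit 5) (nat_lit 172) (nat_lit 5) (nat_lit 355) (nat_lit 330) (nat_lit 95))) (XT.nd (nat_lit 78) (nat_lit 532) (nat_lit 0) (XT.lf (nat_lit 0) (nat_lit 2190737940) (nat_lit 608) (nat_lit 6422929782) (nat_lit 76) (nat_lit 40455000348) (nat_lit 163) (nat_lit 5) (nat_lit 171) (nat_lit 5) (nat_lit 164) (nat_lit 5) (nat_lit 356) (nat_lit 330) (nat_lit 94)) (XT.lf (nat_lit 0) (nat_lit 7362817346) (nat_lit 608) (nat_lit 31475877734) (nat_lit 76) (nat_lit 11081842406) (nat_lit 156) (nat_lit 5) (nat_lit 164) (nat_lit 5) (nat_lit 157) (nat_lit 5) (nat_lit 357) (nat_lit 330) (nat_lit 93))))) (XT.nd (nat_lit 234) (nat_lit 912) (nat_lit 0) (XT.nd (nat_lit 78) (nat_lit 532) (nat_lit 0) (XT.lf (nat_lit 0) (nat_lit 12839652637) (nat_lit 608) (nat_lit 6693267463) (nat_lit 76)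 (nat_lit 31260556137) (nat_lit 156) (nat_lit 5) (nat_lit 164) (nat_lit 5) (nat_lit 157) (nat_lit 5) (nat_lit 358) (nat_lit 330) (nat_lit 92)) (XT.nd (nat_lit 78) (nat_lit 0) (nat_lit 0) (XT.lf (nat_lit 0) (nat_lit 18669470829) (nat_lit 608) (nat_lit 32485932747) (nat_lit 76) (nat_lit 531540263) (nat_lit 149) (nat_lit 5) (nat_lit 157) (nat_lit 5) (nat_lit 150) (nat_lit 5) (nat_lit 359) (nat_lit 330) (nat_lit 91)) (XT.lf (nat_lit 0) (nat_lit 24934701316) (nat_lit 608) (nat_lit 6791179175) (nat_lit 76) (nat_lit 20873520444) (nat_lit 149) (nat_lit 5) (nat_lit 157) (nat_lit 5) (nat_lit 150) (nat_lit 5) (nat_lit 360) (nat_lit 330) (nat_lit 90)))) (XT.nd (nat_lit 156) (nat_lit 456) (nat_lit 0) (XT.nd (nat_lit 78) (nat_lit 0) (nat_lit 0) (XT.lf (nat_lit 0) (nat_lit 20064738385) (nat_lit 456) (nat_lit 11514922371) (nat_lit 532) (nat_lit 21953818793) (nat_lit 143) (nat_lit 5) (nat_lit 149) (nat_lit 5) (nat_lit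 150) (nat_lit 5) (nat_lit 361) (nat_lit 330) (nat_lit 89)) (XT.lf (nat_lit 0) (nat_lit 38581562481) (nat_lit 532) (nat_lit 6719310486) (nat_lit 76) (nat_lit 9189980688) (nat_lit 143) (nat_lit 5) (nat_lit 150) (nat_lit 5) (nat_lit 144) (nat_lit 5) (nat_lit 362) (nat_lit 330) (nat_lit 88))) (XT.nd (nat_lit 78) (nat_lit 0) (nat_lit 0) (XT.lf (nat_lit 0) (nat_lit 21129712450) (nat_lit 456) (nat_lit 24979878111) (nat_lit 532) (nat_lit 9357877257) (nat_lit 137) (nat_lit 5) (nat_lit 143) (nat_lit 5) (nat_lit 144) (nat_lit 5) (nat_lit 363) (nat_lit 330) (nat_lit 87)) (XT.lf (nat_lit 0) (nat_lit 49950758775) (nat_lit 456) (nat_lit 3979520241) (nat_lit 532) (nat_lit 2541097688) (nat_lit 137) (nat_lit 5) (nat_lit 143) (nat_lit 5) (nat_lit 144) (nat_lit 5) (nat_lit 364) (nat_lit 330) (nat_lit 86)))))) (XT.nd (nat_lit 546) (nat_lit 1520) (nat_lit 0) (XT.nd (nat_lit 234) (nat_lit 760) (nat_lit 0) (XT.nd (nat_lit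 78) (nat_lit 456) (nat_lit 0) (XT.lf (nat_lit 0) (nat_lit 4780524432) (nat_lit 456) (nat_lit 35143520671) (nat_lit 76) (nat_lit 17568433687) (nat_lit 131) (nat_lit 5) (nat_lit 137) (nat_lit 5) (nat_lit 132) (nat_lit 5) (nat_lit 365) (nat_lit 330) (nat_lit 85)) (XT.nd (nat_lit 78) (nat_lit 456) (nat_lit 0) (XT.lf (nat_lit 0) (nat_lit 12375623961) (nat_lit 456) (nat_lit 6390353919) (nat_lit 76) (nat_lit 39774335020) (nat_lit 131) (nat_lit 5) (nat_lit 137) (nat_lit 5) (nat_lit 132) (nat_lit 5) (nat_lit 366) (nat_lit 330) (nat_lit 84)) (XT.lf (nat_lit 0) (nat_lit 20456646234) (nat_lit 532) (nat_lit 35957669357) (nat_lit 76) (nat_lit 3197525136) (nat_lit 125) (nat_lit 5) (nat_lit 132) (nat_lit 5) (nat_lit 126) (nat_lit 5) (nat_lit 367) (nat_lit 330) (nat_lit 83)))) (XT.nd (nat_lit 156) (nat_lit 380) (nat_lit 0) (XT.nd (nat_lit 78) (nat_lit 380) (nat_lit 0) (XT.lf (nat_lit 0) (nat_lit 29030117921) (nat_lit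 532) (nat_lit 6170162698) (nat_lit 76) (nat_lit 25507733969) (nat_lit 125) (nat_lit 5) (nat_lit 132) (nat_lit 5) (nat_lit 126) (nat_lit 5) (nat_lit 368) (nat_lit 330) (nat_lit 82)) (XT.lf (nat_lit 0) (nat_lit 24997625047) (nat_lit 380) (nat_lit 13102536932) (nat_lit 456) (nat_lit 23729731382) (nat_lit 120) (nat_lit 5) (nat_lit 125) (nat_lit 5) (nat_lit 126) (nat_lit 5) (nat_lit 369) (nat_lit 330) (nat_lit 81))) (XT.nd (nat_lit 78) (nat_lit 380) (nat_lit 0) (XT.lf (nat_lit 0) (nat_lit 47597160489) (nat_lit 456) (nat_lit 5851239948) (nat_lit 76) (nat_lit 9532383186) (nat_lit 120) (nat_lit 5) (nat_lit 126) (nat_lit 5) (nat_lit 121) (nat_lit 5) (nat_lit 370) (nat_lit 330) (nat_lit 80)) (XT.lf (nat_lit 0) (nat_lit 26444397673) (nat_lit 380) (nat_lit 31317715354) (nat_lit 456) (nat_lit 6392596942) (nat_lit 115) (nat_lit 5) (nat_lit 120) (nat_lit 5) (nat_lit 121) (nat_lit 5) (nat_lit 371) (nat_lit 330)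 (nat_lit 79))))) (XT.nd (nat_lit 312) (nat_lit 684) (nat_lit 0) (XT.nd (nat_lit 156) (nat_lit 380) (nat_lit 0) (XT.nd (nat_lit 78) (nat_lit 380) (nat_lit 0) (XT.lf (nat_lit 0) (nat_lit 2870985045) (nat_lit 456) (nat_lit 5562514052) (nat_lit 76) (nat_lit 56927764757) (nat_lit 114) (nat_lit 5) (nat_lit 120) (nat_lit 5) (nat_lit 115) (nat_lit 5) (nat_lit 372) (nat_lit 330) (nat_lit 78)) (XT.lf (nat_lit 0) (nat_lit 12701402068) (nat_lit 456) (nat_lit 38710514828) (nat_lit 76) (nat_lit 15177676935) (nat_lit 109) (nat_lit 5) (nat_lit 115) (nat_lit 5) (nat_lit 110) (nat_lit 5) (nat_lit 373) (nat_lit 330) (nat_lit 77))) (XT.nd (nat_lit 78) (nat_lit 380) (nat_lit 0) (XT.lf (nat_lit 0) (nat_lit 22966117940) (nat_lit 456) (nat_lit 5500304795) (nat_lit 76) (nat_lit 39384170002) (nat_lit 109) (nat_lit 5) (nat_lit 115) (nat_lit 5) (nat_lit 110) (nat_lit 5) (nat_lit 374) (nat_lit 330) (nat_lit 76)) (XT.lf (nat_lit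 0) (nat_lit 29276426274) (nat_lit 380) (nat_lit 4542956127) (nat_lit 456) (nat_lit 35321621600) (nat_lit 104) (nat_lit 5) (nat_lit 109) (nat_lit 5) (nat_lit 110) (nat_lit 5) (nat_lit 375) (nat_lit 330) (nat_lit 75)))) (XT.nd (nat_lit 156) (nat_lit 380) (nat_lit 0) (XT.nd (nat_lit 78) (nat_lit 304) (nat_lit 0) (XT.lf (nat_lit 0) (nat_lit 45246728572) (nat_lit 456) (nat_lit 5454082864) (nat_lit 76) (nat_lit 19761862239) (nat_lit 104) (nat_lit 5) (nat_lit 110) (nat_lit 5) (nat_lit 105) (nat_lit 5) (nat_lit 376) (nat_lit 330) (nat_lit 74)) (XT.lf (nat_lit 0) (nat_lit 30538611596) (nat_lit 304) (nat_lit 26816037777) (nat_lit 380) (nat_lit 14459212005) (nat_lit 100) (nat_lit 5) (nat_lit 104) (nat_lit 5) (nat_lit 105) (nat_lit 5) (nat_lit 377) (nat_lit 330) (nat_lit 73))) (XT.nd (nat_lit 78) (nat_lit 380) (nat_lit 0) (XT.lf (nat_lit 0) (nat_lit 67721846781) (nat_lit 304) (nat_lit 2158267952) (nat_lit 380)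 (nat_lit 3323841323) (nat_lit 100) (nat_lit 5) (nat_lit 104) (nat_lit 5) (nat_lit 105) (nat_lit 5) (nat_lit 378) (nat_lit 330) (nat_lit 72)) (XT.lf (nat_lit 0) (nat_lit 8520004301) (nat_lit 380) (nat_lit 42922884133) (nat_lit 76) (nat_lit 23174515741) (nat_lit 95) (nat_lit 5) (nat_lit 100) (nat_lit 5) (nat_lit 96) (nat_lit 5) (nat_lit 379) (nat_lit 330) (nat_lit 71))))))))
noncomputable def xc239 : XT := (XT.nd (nat_lit 38064) (nat_lit 0) (nat_lit 2812) (XT.nd (nat_lit 36972) (nat_lit 0) (nat_lit 9272) (XT.nd (nat_lit 546) (nat_lit 836) (nat_lit 0) (XT.nd (nat_lit 234) (nat_lit 608) (nat_lit 0) (XT.nd (nat_lit 78) (nat_lit 304) (nat_lit 0) (XT.lf (nat_lit 0) (nat_lit 20728890406) (nat_lit 380) (nat_lit 6028633907) (nat_lit 76) (nat_lit 49312448718) (nat_lit 95) (nat_lit 5) (nat_lit 100) (nat_lit 5) (nat_lit 96) (nat_lit 5) (nat_lit 380) (nat_lit 330) (nat_lit 70)) (XT.nd (nat_lit 78) (nat_lit 0)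 (nat_lit 0) (XT.lf (nat_lit 0) (nat_lit 32607729712) (nat_lit 304) (nat_lit 1009035896) (nat_lit 380) (nat_lit 43939972158) (nat_lit 91) (nat_lit 5) (nat_lit 95) (nat_lit 5) (nat_lit 96) (nat_lit 5) (nat_lit 381) (nat_lit 330) (nat_lit 69)) (XT.lf (nat_lit 0) (nat_lit 47197279024) (nat_lit 380) (nat_lit 6806370145) (nat_lit 76) (nat_lit 25075276692) (nat_lit 91) (nat_lit 5) (nat_lit 96) (nat_lit 5) (nat_lit 92) (nat_lit 5) (nat_lit 382) (nat_lit 330) (nat_lit 68)))) (XT.nd (nat_lit 156) (nat_lit 304) (nat_lit 0) (XT.nd (nat_lit 78) (nat_lit 0) (nat_lit 0) (XT.lf (nat_lit 0) (nat_lit 33115776620) (nat_lit 304) (nat_lit 28397057351) (nat_lit 380) (nat_lit 19124117307) (nat_lit 87) (nat_lit 5) (nat_lit 91) (nat_lit 5) (nat_lit 92) (nat_lit 5) (nat_lit 383) (nat_lit 330) (nat_lit 67)) (XT.lf (nat_lit 0) (nat_lit 74374133485) (nat_lit 304) (nat_lit 1951770440) (nat_lit 380) (nat_lit 5913772529) (nat_lit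 87) (nat_lit 5) (nat_lit 91) (nat_lit 5) (nat_lit 92) (nat_lit 5) (nat_lit 384) (nat_lit 330) (nat_lit 66))) (XT.nd (nat_lit 78) (nat_lit 0) (nat_lit 0) (XT.lf (nat_lit 0) (nat_lit 8111689806) (nat_lit 304) (nat_lit 50565887385) (nat_lit 76) (nat_lit 25193620465) (nat_lit 83) (nat_lit 5) (nat_lit 87) (nat_lit 5) (nat_lit 84) (nat_lit 5) (nat_lit 385) (nat_lit 330) (nat_lit 65)) (XT.lf (nat_lit 0) (nat_lit 22537930225) (nat_lit 304) (nat_lit 9756391126) (nat_lit 76) (nat_lit 53252620731) (nat_lit 83) (nat_lit 5) (nat_lit 87) (nat_lit 5) (nat_lit 84) (nat_lit 5) (nat_lit 386) (nat_lit 330) (nat_lit 64))))) (XT.nd (nat_lit 234) (nat_lit 304) (nat_lit 0) (XT.nd (nat_lit 78) (nat_lit 228) (nat_lit 0) (XT.lf (nat_lit 0) (nat_lit 32918811499) (nat_lit 304) (nat_lit 4793939164) (nat_lit 380) (nat_lit 49550734793) (nat_lit 79) (nat_lit 5) (nat_lit 83) (nat_lit 5) (nat_lit 84) (nat_lit 5) (nat_lit 387) (nat_lit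 330) (nat_lit 63)) (XT.nd (nat_lit 78) (nat_lit 228) (nat_lit 0) (XT.lf (nat_lit 0) (nat_lit 53667874232) (nat_lit 380) (nat_lit 12182427396) (nat_lit 76) (nat_lit 23171472134) (nat_lit 79) (nat_lit 5) (nat_lit 84) (nat_lit 5) (nat_lit 80) (nat_lit 5) (nat_lit 388) (nat_lit 330) (nat_lit 62)) (XT.lf (nat_lit 0) (nat_lit 31817166672) (nat_lit 228) (nat_lit 38637178088) (nat_lit 304) (nat_lit 20367885535) (nat_lit 76) (nat_lit 5) (nat_lit 79) (nat_lit 5) (nat_lit 80) (nat_lit 5) (nat_lit 389) (nat_lit 330) (nat_lit 61)))) (XT.nd (nat_lit 36036) (nat_lit 0) (nat_lit 10108) (XT.nd (nat_lit 78) (nat_lit 304) (nat_lit 0) (XT.lf (nat_lit 0) (nat_lit 77385562758) (nat_lit 228) (nat_lit 10481256919) (nat_lit 304) (nat_lit 4806208903) (nat_lit 76) (nat_lit 5) (nat_lit 79) (nat_lit 5) (nat_lit 80) (nat_lit 5) (nat_lit 390) (nat_lit 330) (nat_lit 60)) (XT.lf (nat_lit 0) (nat_lit 11475212661) (nat_lit 304) (nat_lit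 64526740666) (nat_lit 76) (nat_lit 18560005082) (nat_lit 72) (nat_lit 5) (nat_lit 76) (nat_lit 5) (nat_lit 73) (nat_lit 5) (nat_lit 391) (nat_lit 330) (nat_lit 59))) (XT.nd (nat_lit 78) (nat_lit 0) (nat_lit 0) (XT.lf (nat_lit 0) (nat_lit 5518955802) (nat_lit 0) (nat_lit 5518955802) (nat_lit 1140) (nat_lit 5640404756) (nat_lit 205) (nat_lit 5) (nat_lit 205) (nat_lit 3) (nat_lit 220) (nat_lit 3) (nat_lit 331) (nat_lit 331) (nat_lit 118)) (XT.lf (nat_lit 0) (nat_lit 22505476049) (nat_lit 1140) (nat_lit 7058037714) (nat_lit 1216) (nat_lit 4290454587) (nat_lit 205) (nat_lit 5) (nat_lit 220) (nat_lit 3) (nat_lit 221) (nat_lit 5) (nat_lit 332) (nat_lit 331) (nat_lit 117)))))) (XT.nd (nat_lit 546) (nat_lit 836) (nat_lit 0) (XT.nd (nat_lit 234) (nat_lit 0) (nat_lit 76) (XT.nd (nat_lit 78) (nat_lit 0) (nat_lit 76) (XT.lf (nat_lit 76) (nat_lit 8720161141) (nat_lit 0) (nat_lit 14418774525) (nat_lit 1216) (nat_lit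 11221563143) (nat_lit 206) (nat_lit 5) (nat_lit 205) (nat_lit 5) (nat_lit 221) (nat_lit 5) (nat_lit 333) (nat_lit 331) (nat_lit 116)) (XT.nd (nat_lit 78) (nat_lit 0) (nat_lit 0) (XT.lf (nat_lit 0) (nat_lit 23872592288) (nat_lit 1140) (nat_lit 9776994413) (nat_lit 1216) (nat_lit 1230204895) (nat_lit 206) (nat_lit 5) (nat_lit 221) (nat_lit 5) (nat_lit 222) (nat_lit 5) (nat_lit 334) (nat_lit 331) (nat_lit 115)) (XT.lf (nat_lit 76) (nat_lit 6546016894) (nat_lit 0) (nat_lit 18285857609) (nat_lit 1216) (nat_lit 10576682337) (nat_lit 207) (nat_lit 5) (nat_lit 206) (nat_lit 5) (nat_lit 222) (nat_lit 5) (nat_lit 335) (nat_lit 331) (nat_lit 114)))) (XT.nd (nat_lit 156) (nat_lit 0) (nat_lit 76) (XT.nd (nat_lit 78) (nat_lit 0) (nat_lit 76) (XT.lf (nat_lit 76) (nat_lit 23557940724) (nat_lit 0) (nat_lit 2358703115) (nat_lit 1216) (nat_lit 10033642030) (nat_lit 207) (nat_lit 5) (nat_lit 206) (nat_lit 5) (nat_lit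 222) (nat_lit 5) (nat_lit 336) (nat_lit 331) (nat_lit 113)) (XT.lf (nat_lit 76) (nat_lit 4523983100) (nat_lit 0) (nat_lit 22686528440) (nat_lit 1216) (nat_lit 9292460592) (nat_lit 208) (nat_lit 5) (nat_lit 207) (nat_lit 5) (nat_lit 223) (nat_lit 5) (nat_lit 337) (nat_lit 331) (nat_lit 112))) (XT.nd (nat_lit 78) (nat_lit 0) (nat_lit 76) (XT.lf (nat_lit 76) (nat_lit 22176795602) (nat_lit 0) (nat_lit 6512754472) (nat_lit 1216) (nat_lit 8378300233) (nat_lit 208) (nat_lit 5) (nat_lit 207) (nat_lit 5) (nat_lit 223) (nat_lit 5) (nat_lit 338) (nat_lit 331) (nat_lit 111)) (XT.lf (nat_lit 76) (nat_lit 2662698001) (nat_lit 0) (nat_lit 27671542930) (nat_lit 1216) (nat_lit 7311797369) (nat_lit 209) (nat_lit 5) (nat_lit 208) (nat_lit 5) (nat_lit 224) (nat_lit 5) (nat_lit 339) (nat_lit 331) (nat_lit 110))))) (XT.nd (nat_lit 234) (nat_lit 1064) (nat_lit 0) (XT.nd (nat_lit 78) (nat_lit 0) (nat_lit 76) (XT.lf (nat_lit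 76) (nat_lit 20981314802) (nat_lit 0) (nat_lit 11259374493) (nat_lit 1216) (nat_lit 5994511988) (nat_lit 209) (nat_lit 5) (nat_lit 208) (nat_lit 5) (nat_lit 224) (nat_lit 5) (nat_lit 340) (nat_lit 331) (nat_lit 109)) (XT.nd (nat_lit 78) (nat_lit 0) (nat_lit 0) (XT.lf (nat_lit 76) (nat_lit 970873292) (nat_lit 0) (nat_lit 33295308827) (nat_lit 1216) (nat_lit 4574003306) (nat_lit 210) (nat_lit 5) (nat_lit 209) (nat_lit 5) (nat_lit 225) (nat_lit 5) (nat_lit 341) (nat_lit 331) (nat_lit 108)) (XT.lf (nat_lit 76) (nat_lit 19981120175) (nat_lit 0) (nat_lit 16654228547) (nat_lit 1216) (nat_lit 2819484845) (nat_lit 210) (nat_lit 5) (nat_lit 209) (nat_lit 5) (nat_lit 225) (nat_lit 5) (nat_lit 342) (nat_lit 331) (nat_lit 107)))) (XT.nd (nat_lit 156) (nat_lit 0) (nat_lit 0) (XT.nd (nat_lit 78) (nat_lit 1216) (nat_lit 0) (XT.lf (nat_lit 0) (nat_lit 39078609451) (nat_lit 1140) (nat_lit 532184512) (nat_lit 1216)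 (nat_lit 477038313) (nat_lit 210) (nat_lit 5) (nat_lit 225) (nat_lit 5) (nat_lit 226) (nat_lit 5) (nat_lit 343) (nat_lit 331) (nat_lit 106)) (XT.lf (nat_lit 0) (nat_lit 1189811510) (nat_lit 1216) (nat_lit 21555202428) (nat_lit 1292) (nat_lit 17984027282) (nat_lit 194) (nat_lit 5) (nat_lit 210) (nat_lit 5) (nat_lit 211) (nat_lit 5) (nat_lit 344) (nat_lit 331) (nat_lit 105))) (XT.nd (nat_lit 78) (nat_lit 0) (nat_lit 76) (XT.lf (nat_lit 0) (nat_lit 3438372420) (nat_lit 1216) (nat_lit 1918668199) (nat_lit 1292) (nat_lit 36032032399) (nat_lit 194) (nat_lit 5) (nat_lit 210) (nat_lit 5) (nat_lit 211) (nat_lit 5) (nat_lit 345) (nat_lit 331) (nat_lit 104)) (XT.lf (nat_lit 0) (nat_lit 6054760275) (nat_lit 1216) (nat_lit 23515943315) (nat_lit 1292) (nat_lit 12489192584) (nat_lit 195) (nat_lit 5) (nat_lit 211) (nat_lit 5) (nat_lit 212) (nat_lit 5) (nat_lit 346) (nat_lit 331) (nat_lit 103))))))) (XT.nd (nat_lit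 1092) (nat_lit 3040) (nat_lit 0) (XT.nd (nat_lit 546) (nat_lit 2204) (nat_lit 0) (XT.nd (nat_lit 234) (nat_lit 1292) (nat_lit 0) (XT.nd (nat_lit 78) (nat_lit 0) (nat_lit 76) (XT.lf (nat_lit 0) (nat_lit 8820741599) (nat_lit 1216) (nat_lit 3144962133) (nat_lit 1292) (nat_lit 30783008700) (nat_lit 195) (nat_lit 5) (nat_lit 211) (nat_lit 5) (nat_lit 212) (nat_lit 5) (nat_lit 347) (nat_lit 331) (nat_lit 102)) (XT.nd (nat_lit 78) (nat_lit 0) (nat_lit 0) (XT.lf (nat_lit 0) (nat_lit 11904122443) (nat_lit 1216) (nat_lit 25323107415) (nat_lit 76) (nat_lit 6223932137) (nat_lit 196) (nat_lit 5) (nat_lit 212) (nat_lit 5) (nat_lit 197) (nat_lit 5) (nat_lit 348) (nat_lit 331) (nat_lit 101)) (XT.lf (nat_lit 0) (nat_lit 15229121631) (nat_lit 1216) (nat_lit 4190037629) (nat_lit 76) (nat_lit 24751053657) (nat_lit 196) (nat_lit 5) (nat_lit 212) (nat_lit 5) (nat_lit 197) (nat_lit 5) (nat_lit 349) (nat_lit 331) (nat_lit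 100)))) (XT.nd (nat_lit 156) (nat_lit 608) (nat_lit 0) (XT.nd (nat_lit 78) (nat_lit 0) (nat_lit 0) (XT.lf (nat_lit 0) (nat_lit 17925604733) (nat_lit 760) (nat_lit 899191744) (nat_lit 836) (nat_lit 26080912457) (nat_lit 186) (nat_lit 5) (nat_lit 196) (nat_lit 5) (nat_lit 197) (nat_lit 5) (nat_lit 350) (nat_lit 331) (nat_lit 99)) (XT.lf (nat_lit 0) (nat_lit 22744438234) (nat_lit 836) (nat_lit 5047778091) (nat_lit 76) (nat_lit 17864571908) (nat_lit 186) (nat_lit 5) (nat_lit 197) (nat_lit 5) (nat_lit 187) (nat_lit 5) (nat_lit 351) (nat_lit 331) (nat_lit 98))) (XT.nd (nat_lit 78) (nat_lit 0) (nat_lit 0) (XT.lf (nat_lit 0) (nat_lit 17881336160) (nat_lit 608) (nat_lit 9079805945) (nat_lit 684) (nat_lit 19463874881) (nat_lit 178) (nat_lit 5) (nat_lit 186) (nat_lit 5) (nat_lit 187) (nat_lit 5) (nat_lit 352) (nat_lit 331) (nat_lit 97)) (XT.lf (nat_lit 0) (nat_lit 31452526548) (nat_lit 684) (nat_lit 5712697492)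 (nat_lit 76) (nat_lit 10046624403) (nat_lit 178) (nat_lit 5) (nat_lit 187) (nat_lit 5) (nat_lit 179) (nat_lit 5) (nat_lit 353) (nat_lit 331) (nat_lit 96))))) (XT.nd (nat_lit 234) (nat_lit 1140) (nat_lit 0) (XT.nd (nat_lit 78) (nat_lit 532) (nat_lit 0) (XT.lf (nat_lit 0) (nat_lit 18064621134) (nat_lit 532) (nat_lit 18276327553) (nat_lit 608) (nat_lit 11673468462) (nat_lit 171) (nat_lit 5) (nat_lit 178) (nat_lit 5) (nat_lit 179) (nat_lit 5) (nat_lit 354) (nat_lit 331) (nat_lit 95)) (XT.nd (nat_lit 78) (nat_lit 532) (nat_lit 0) (XT.lf (nat_lit 0) (nat_lit 41444391498) (nat_lit 608) (nat_lit 6180102463) (nat_lit 76) (nat_lit 1214519069) (nat_lit 171) (nat_lit 5) (nat_lit 179) (nat_lit 5) (nat_lit 172) (nat_lit 5) (nat_lit 355) (nat_lit 331) (nat_lit 94)) (XT.lf (nat_lit 0) (nat_lit 18481170633) (nat_lit 532) (nat_lit 28577182985) (nat_lit 608) (nat_lit 2619271810) (nat_lit 164) (nat_lit 5) (nat_lit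 171) (nat_lit 5) (nat_lit 172) (nat_lit 5) (nat_lit 356) (nat_lit 331) (nat_lit 93)))) (XT.nd (nat_lit 156) (nat_lit 532) (nat_lit 0) (XT.nd (nat_lit 78) (nat_lit 532) (nat_lit 0) (XT.lf (nat_lit 0) (nat_lit 2316315506) (nat_lit 608) (nat_lit 6554481137) (nat_lit 76) (nat_lit 41668082169) (nat_lit 163) (nat_lit 5) (nat_lit 171) (nat_lit 5) (nat_lit 164) (nat_lit 5) (nat_lit 357) (nat_lit 331) (nat_lit 92)) (XT.lf (nat_lit 0) (nat_lit 7642413569) (nat_lit 608) (nat_lit 32357821727) (nat_lit 76) (nat_lit 11416104887) (nat_lit 156) (nat_lit 5) (nat_lit 164) (nat_lit 5) (nat_lit 157) (nat_lit 5) (nat_lit 358) (nat_lit 331) (nat_lit 91))) (XT.nd (nat_lit 78) (nat_lit 532) (nat_lit 0) (XT.lf (nat_lit 0) (nat_lit 13281843869) (nat_lit 608) (nat_lit 6833548652) (nat_lit 76) (nat_lit 32200127393) (nat_lit 156) (nat_lit 5) (nat_lit 164) (nat_lit 5) (nat_lit 157) (nat_lit 5) (nat_lit 359) (nat_lit 331) (nat_lit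 90)) (XT.lf (nat_lit 0) (nat_lit 19285510896) (nat_lit 608) (nat_lit 33398899096) (nat_lit 76) (nat_lit 551414397) (nat_lit 149) (nat_lit 5) (nat_lit 157) (nat_lit 5) (nat_lit 150) (nat_lit 5) (nat_lit 360) (nat_lit 331) (nat_lit 89)))))) (XT.nd (nat_lit 546) (nat_lit 1672) (nat_lit 0) (XT.nd (nat_lit 234) (nat_lit 912) (nat_lit 0) (XT.nd (nat_lit 78) (nat_lit 456) (nat_lit 0) (XT.lf (nat_lit 0) (nat_lit 25737068512) (nat_lit 608) (nat_lit 6935097431) (nat_lit 76) (nat_lit 21503539578) (nat_lit 149) (nat_lit 5) (nat_lit 157) (nat_lit 5) (nat_lit 150) (nat_lit 5) (nat_lit 361) (nat_lit 331) (nat_lit 88)) (XT.nd (nat_lit 78) (nat_lit 0) (nat_lit 0) (XT.lf (nat_lit 0) (nat_lit 20725911214) (nat_lit 456) (nat_lit 11854452568) (nat_lit 532) (nat_lit 22557474488) (nat_lit 143) (nat_lit 5) (nat_lit 149) (nat_lit 5) (nat_lit 150) (nat_lit 5) (nat_lit 362) (nat_lit 331) (nat_lit 87)) (XT.lf (nat_lit 0) (nat_lit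 39790824973) (nat_lit 532) (nat_lit 6861841781) (nat_lit 76) (nat_lit 9471313121) (nat_lit 143) (nat_lit 5) (nat_lit 150) (nat_lit 5) (nat_lit 144) (nat_lit 5) (nat_lit 363) (nat_lit 331) (nat_lit 86)))) (XT.nd (nat_lit 156) (nat_lit 456) (nat_lit 0) (XT.nd (nat_lit 78) (nat_lit 0) (nat_lit 0) (XT.lf (nat_lit 0) (nat_lit 21822072941) (nat_lit 456) (nat_lit 25721673803) (nat_lit 532) (nat_lit 9586175441) (nat_lit 137) (nat_lit 5) (nat_lit 143) (nat_lit 5) (nat_lit 144) (nat_lit 5) (nat_lit 364) (nat_lit 331) (nat_lit 85)) (XT.lf (nat_lit 0) (nat_lit 51506047671) (nat_lit 456) (nat_lit 4091526574) (nat_lit 532) (nat_lit 2566419811) (nat_lit 137) (nat_lit 5) (nat_lit 143) (nat_lit 5) (nat_lit 144) (nat_lit 5) (nat_lit 365) (nat_lit 331) (nat_lit 84))) (XT.nd (nat_lit 78) (nat_lit 0) (nat_lit 0) (XT.lf (nat_lit 0) (nat_lit 4973032805) (nat_lit 456) (nat_lit 36139160967) (nat_lit 76) (nat_lit 18103546691)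 (nat_lit 131) (nat_lit 5) (nat_lit 137) (nat_lit 5) (nat_lit 132) (nat_lit 5) (nat_lit 366) (nat_lit 331) (nat_lit 83)) (XT.lf (nat_lit 0) (nat_lit 12794555437) (nat_lit 456) (nat_lit 6525107911) (nat_lit 76) (nat_lit 40975390307) (nat_lit 131) (nat_lit 5) (nat_lit 137) (nat_lit 5) (nat_lit 132) (nat_lit 5) (nat_lit 367) (nat_lit 331) (nat_lit 82))))) (XT.nd (nat_lit 312) (nat_lit 836) (nat_lit 0) (XT.nd (nat_lit 156) (nat_lit 380) (nat_lit 0) (XT.nd (nat_lit 78) (nat_lit 0) (nat_lit 0) (XT.lf (nat_lit 0) (nat_lit 21117254380) (nat_lit 532) (nat_lit 36978651194) (nat_lit 76) (nat_lit 3302845490) (nat_lit 125) (nat_lit 5) (nat_lit 132) (nat_lit 5) (nat_lit 126) (nat_lit 5) (nat_lit 368) (nat_lit 331) (nat_lit 81)) (XT.lf (nat_lit 0) (nat_lit 29946563944) (nat_lit 532) (nat_lit 6299201323) (nat_lit 76) (nat_lit 26282086959) (nat_lit 125) (nat_lit 5) (nat_lit 132) (nat_lit 5) (nat_lit 126) (nat_lit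 5) (nat_lit 369) (nat_lit 331) (nat_lit 80))) (XT.nd (nat_lit 78) (nat_lit 0) (nat_lit 0) (XT.lf (nat_lit 0) (nat_lit 25803070386) (nat_lit 380) (nat_lit 13484846117) (nat_lit 456) (nat_lit 24395495707) (nat_lit 120) (nat_lit 5) (nat_lit 125) (nat_lit 5) (nat_lit 126) (nat_lit 5) (nat_lit 370) (nat_lit 331) (nat_lit 79)) (XT.lf (nat_lit 0) (nat_lit 49068622063) (nat_lit 456) (nat_lit 5971640214) (nat_lit 76) (nat_lit 9828604023) (nat_lit 120) (nat_lit 5) (nat_lit 126) (nat_lit 5) (nat_lit 121) (nat_lit 5) (nat_lit 371) (nat_lit 331) (nat_lit 78)))) (XT.nd (nat_lit 156) (nat_lit 380) (nat_lit 0) (XT.nd (nat_lit 78) (nat_lit 76) (nat_lit 0) (XT.lf (nat_lit 0) (nat_lit 27292325977) (nat_lit 380) (nat_lit 32245453662) (nat_lit 456) (nat_lit 6540254106) (nat_lit 115) (nat_lit 5) (nat_lit 120) (nat_lit 5) (nat_lit 121) (nat_lit 5) (nat_lit 372) (nat_lit 331) (nat_lit 77)) (XT.lf (nat_lit 0) (nat_lit 2999114392)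 (nat_lit 456) (nat_lit 5675515900) (nat_lit 76) (nat_lit 58646179977) (nat_lit 114) (nat_lit 5) (nat_lit 120) (nat_lit 5) (nat_lit 115) (nat_lit 5) (nat_lit 373) (nat_lit 331) (nat_lit 76))) (XT.nd (nat_lit 78) (nat_lit 0) (nat_lit 0) (XT.lf (nat_lit 0) (nat_lit 13123849310) (nat_lit 456) (nat_lit 39817331494) (nat_lit 76) (nat_lit 15644828097) (nat_lit 109) (nat_lit 5) (nat_lit 115) (nat_lit 5) (nat_lit 110) (nat_lit 5) (nat_lit 374) (nat_lit 331) (nat_lit 75)) (XT.lf (nat_lit 0) (nat_lit 23695300682) (nat_lit 456) (nat_lit 5612402503) (nat_lit 76) (nat_lit 40577171660) (nat_lit 109) (nat_lit 5) (nat_lit 115) (nat_lit 5) (nat_lit 110) (nat_lit 5) (nat_lit 375) (nat_lit 331) (nat_lit 74))))))))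
noncomputable def xc240 : XT := (XT.nd (nat_lit 38220) (nat_lit 0) (nat_lit 2964) (XT.nd (nat_lit 1092) (nat_lit 228) (nat_lit 0) (XT.nd (nat_lit 546) (nat_lit 912) (nat_lit 0) (XT.nd (nat_lit 234) (nat_lit 684) (nat_lit 0) (XT.nd (nat_lit 78) (nat_lit 304) (nat_lit 0) (XT.lf (nat_lit 0) (nat_lit 30207111759) (nat_lit 380) (nat_lit 4666384098) (nat_lit 456) (nat_lit 36340523472) (nat_lit 104) (nat_lit 5) (nat_lit 109) (nat_lit 5) (nat_lit 110) (nat_lit 5) (nat_lit 376) (nat_lit 331) (nat_lit 73)) (XT.nd (nat_lit 78) (nat_lit 304) (nat_lit 0) (XT.lf (nat_lit 0) (nat_lit 46642631020) (nat_lit 456) (nat_lit 5565779268) (nat_lit 76) (nat_lit 20366960585) (nat_lit 104) (nat_lit 5) (nat_lit 110) (nat_lit 5) (nat_lit 105) (nat_lit 5) (nat_lit 377) (nat_lit 331) (nat_lit 72)) (XT.lf (nat_lit 0) (nat_lit 31506186947) (nat_lit 304) (nat_lit 27606975373) (nat_lit 380) (nat_lit 14853951517) (nat_lit 100) (nat_lit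 5) (nat_lit 104) (nat_lit 5) (nat_lit 105) (nat_lit 5) (nat_lit 378) (nat_lit 331) (nat_lit 71)))) (XT.nd (nat_lit 156) (nat_lit 304) (nat_lit 0) (XT.nd (nat_lit 78) (nat_lit 380) (nat_lit 0) (XT.lf (nat_lit 0) (nat_lit 69803421605) (nat_lit 304) (nat_lit 2209866926) (nat_lit 380) (nat_lit 3385656710) (nat_lit 100) (nat_lit 5) (nat_lit 104) (nat_lit 5) (nat_lit 105) (nat_lit 5) (nat_lit 379) (nat_lit 331) (nat_lit 70)) (XT.lf (nat_lit 0) (nat_lit 8812295810) (nat_lit 380) (nat_lit 44159392275) (nat_lit 76) (nat_lit 23883112601) (nat_lit 95) (nat_lit 5) (nat_lit 100) (nat_lit 5) (nat_lit 96) (nat_lit 5) (nat_lit 380) (nat_lit 331) (nat_lit 69))) (XT.nd (nat_lit 78) (nat_lit 304) (nat_lit 0) (XT.lf (nat_lit 0) (nat_lit 21386379817) (nat_lit 380) (nat_lit 6159805174) (nat_lit 76) (nat_lit 50804794401) (nat_lit 95) (nat_lit 5) (nat_lit 100) (nat_lit 5) (nat_lit 96) (nat_lit 5) (nat_lit 381) (nat_lit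 331) (nat_lit 68)) (XT.lf (nat_lit 0) (nat_lit 33635162219) (nat_lit 304) (nat_lit 1025164449) (nat_lit 380) (nat_lit 45222038044) (nat_lit 91) (nat_lit 5) (nat_lit 95) (nat_lit 5) (nat_lit 96) (nat_lit 5) (nat_lit 382) (nat_lit 331) (nat_lit 67))))) (XT.nd (nat_lit 234) (nat_lit 608) (nat_lit 0) (XT.nd (nat_lit 78) (nat_lit 304) (nat_lit 0) (XT.lf (nat_lit 0) (nat_lit 48647366364) (nat_lit 380) (nat_lit 6961881778) (nat_lit 76) (nat_lit 25840997665) (nat_lit 91) (nat_lit 5) (nat_lit 96) (nat_lit 5) (nat_lit 92) (nat_lit 5) (nat_lit 383) (nat_lit 331) (nat_lit 66)) (XT.nd (nat_lit 78) (nat_lit 0) (nat_lit 0) (XT.lf (nat_lit 0) (nat_lit 34157452141) (nat_lit 304) (nat_lit 29234403955) (nat_lit 380) (nat_lit 19663172509) (nat_lit 87) (nat_lit 5) (nat_lit 91) (nat_lit 5) (nat_lit 92) (nat_lit 5) (nat_lit 384) (nat_lit 331) (nat_lit 65)) (XT.lf (nat_lit 0) (nat_lit 76652155763) (nat_lit 304) (nat_lit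 1996182664) (nat_lit 380) (nat_lit 6057527145) (nat_lit 87) (nat_lit 5) (nat_lit 91) (nat_lit 5) (nat_lit 92) (nat_lit 5) (nat_lit 385) (nat_lit 331) (nat_lit 64)))) (XT.nd (nat_lit 156) (nat_lit 304) (nat_lit 0) (XT.nd (nat_lit 78) (nat_lit 0) (nat_lit 0) (XT.lf (nat_lit 0) (nat_lit 8387672494) (nat_lit 304) (nat_lit 52034998113) (nat_lit 76) (nat_lit 25963663796) (nat_lit 83) (nat_lit 5) (nat_lit 87) (nat_lit 5) (nat_lit 84) (nat_lit 5) (nat_lit 386) (nat_lit 331) (nat_lit 63)) (XT.lf (nat_lit 0) (nat_lit 23245749679) (nat_lit 304) (nat_lit 10002611119) (nat_lit 76) (nat_lit 54864019466) (nat_lit 83) (nat_lit 5) (nat_lit 87) (nat_lit 5) (nat_lit 84) (nat_lit 5) (nat_lit 387) (nat_lit 331) (nat_lit 62))) (XT.nd (nat_lit 78) (nat_lit 0) (nat_lit 0) (XT.lf (nat_lit 0) (nat_lit 33952391979) (nat_lit 304) (nat_lit 4922942322) (nat_lit 380) (nat_lit 51005100622) (nat_lit 79) (nat_lit 5) (nat_lit 83)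 (nat_lit 5) (nat_lit 84) (nat_lit 5) (nat_lit 388) (nat_lit 331) (nat_lit 61)) (XT.lf (nat_lit 0) (nat_lit 55308341070) (nat_lit 380) (nat_lit 12502435343) (nat_lit 76) (nat_lit 23880719135) (nat_lit 79) (nat_lit 5) (nat_lit 84) (nat_lit 5) (nat_lit 80) (nat_lit 5) (nat_lit 389) (nat_lit 331) (nat_lit 60)))))) (XT.nd (nat_lit 36582) (nat_lit 0) (nat_lit 9956) (XT.nd (nat_lit 36270) (nat_lit 0) (nat_lit 9804) (XT.nd (nat_lit 36114) (nat_lit 0) (nat_lit 9804) (XT.lf (nat_lit 0) (nat_lit 32816700812) (nat_lit 228) (nat_lit 39781251325) (nat_lit 304) (nat_lit 20948027787) (nat_lit 76) (nat_lit 5) (nat_lit 79) (nat_lit 5) (nat_lit 80) (nat_lit 5) (nat_lit 390) (nat_lit 331) (nat_lit 59)) (XT.nd (nat_lit 78) (nat_lit 0) (nat_lit 0) (XT.lf (nat_lit 0) (nat_lit 5712479255) (nat_lit 0) (nat_lit 5712479255) (nat_lit 1140) (nat_lit 5751972217) (nat_lit 205) (nat_lit 5) (nat_lit 205) (nat_lit 3) (nat_lit 220)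 (nat_lit 3) (nat_lit 332) (nat_lit 332) (nat_lit 116)) (XT.lf (nat_lit 0) (nat_lit 23288680792) (nat_lit 1140) (nat_lit 7211606765) (nat_lit 1216) (nat_lit 4365946322) (nat_lit 205) (nat_lit 5) (nat_lit 220) (nat_lit 3) (nat_lit 221) (nat_lit 5) (nat_lit 333) (nat_lit 332) (nat_lit 115)))) (XT.nd (nat_lit 156) (nat_lit 0) (nat_lit 76) (XT.nd (nat_lit 78) (nat_lit 0) (nat_lit 76) (XT.lf (nat_lit 76) (nat_lit 9039367742) (nat_lit 0) (nat_lit 14899183350) (nat_lit 1216) (nat_lit 11449490224) (nat_lit 206) (nat_lit 5) (nat_lit 205) (nat_lit 5) (nat_lit 221) (nat_lit 5) (nat_lit 334) (nat_lit 332) (nat_lit 114)) (XT.lf (nat_lit 0) (nat_lit 24690699605) (nat_lit 1140) (nat_lit 10010756532) (nat_lit 1216) (nat_lit 1221565460) (nat_lit 206) (nat_lit 5) (nat_lit 221) (nat_lit 5) (nat_lit 222) (nat_lit 5) (nat_lit 335) (nat_lit 332) (nat_lit 113))) (XT.nd (nat_lit 78) (nat_lit 0) (nat_lit 0) (XT.lf (nat_lit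 76) (nat_lit 6801361313) (nat_lit 0) (nat_lit 18874996949) (nat_lit 1216) (nat_lit 10791366680) (nat_lit 207) (nat_lit 5) (nat_lit 206) (nat_lit 5) (nat_lit 222) (nat_lit 5) (nat_lit 336) (nat_lit 332) (nat_lit 112)) (XT.lf (nat_lit 76) (nat_lit 24321925462) (nat_lit 0) (nat_lit 2468846355) (nat_lit 1216) (nat_lit 10235023983) (nat_lit 207) (nat_lit 5) (nat_lit 206) (nat_lit 5) (nat_lit 222) (nat_lit 5) (nat_lit 337) (nat_lit 332) (nat_lit 111))))) (XT.nd (nat_lit 234) (nat_lit 0) (nat_lit 76) (XT.nd (nat_lit 78) (nat_lit 0) (nat_lit 0) (XT.lf (nat_lit 76) (nat_lit 4719731969) (nat_lit 0) (nat_lit 23401118654) (nat_lit 1216) (nat_lit 9474293084) (nat_lit 208) (nat_lit 5) (nat_lit 207) (nat_lit 5) (nat_lit 223) (nat_lit 5) (nat_lit 338) (nat_lit 332) (nat_lit 110)) (XT.nd (nat_lit 78) (nat_lit 0) (nat_lit 76) (XT.lf (nat_lit 76) (nat_lit 22900380417) (nat_lit 0) (nat_lit 6741141341) (nat_lit 1216)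 (nat_lit 8535531447) (nat_lit 208) (nat_lit 5) (nat_lit 207) (nat_lit 5) (nat_lit 223) (nat_lit 5) (nat_lit 339) (nat_lit 332) (nat_lit 109)) (XT.lf (nat_lit 76) (nat_lit 2803407494) (nat_lit 0) (nat_lit 28529763760) (nat_lit 1216) (nat_lit 7439489786) (nat_lit 209) (nat_lit 5) (nat_lit 208) (nat_lit 5) (nat_lit 224) (nat_lit 5) (nat_lit 340) (nat_lit 332) (nat_lit 108)))) (XT.nd (nat_lit 156) (nat_lit 0) (nat_lit 76) (XT.nd (nat_lit 78) (nat_lit 0) (nat_lit 76) (XT.lf (nat_lit 76) (nat_lit 21669811093) (nat_lit 0) (nat_lit 11624412565) (nat_lit 1216) (nat_lit 6085355597) (nat_lit 209) (nat_lit 5) (nat_lit 208) (nat_lit 5) (nat_lit 224) (nat_lit 5) (nat_lit 341) (nat_lit 332) (nat_lit 107)) (XT.lf (nat_lit 76) (nat_lit 1061388601) (nat_lit 0) (nat_lit 34316914406) (nat_lit 1216) (nat_lit 4624477843) (nat_lit 210) (nat_lit 5) (nat_lit 209) (nat_lit 5) (nat_lit 225) (nat_lit 5) (nat_lit 342) (nat_lit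 332) (nat_lit 106))) (XT.nd (nat_lit 78) (nat_lit 0) (nat_lit 76) (XT.lf (nat_lit 76) (nat_lit 20640154859) (nat_lit 0) (nat_lit 17175939204) (nat_lit 1216) (nat_lit 2819850398) (nat_lit 210) (nat_lit 5) (nat_lit 209) (nat_lit 5) (nat_lit 225) (nat_lit 5) (nat_lit 343) (nat_lit 332) (nat_lit 105)) (XT.lf (nat_lit 0) (nat_lit 40330067342) (nat_lit 1140) (nat_lit 487618519) (nat_lit 1216) (nat_lit 470327263) (nat_lit 210) (nat_lit 5) (nat_lit 225) (nat_lit 5) (nat_lit 226) (nat_lit 5) (nat_lit 344) (nat_lit 332) (nat_lit 104))))))) (XT.nd (nat_lit 1092) (nat_lit 3648) (nat_lit 0) (XT.nd (nat_lit 546) (nat_lit 1748) (nat_lit 0) (XT.nd (nat_lit 234) (nat_lit 608) (nat_lit 0) (XT.nd (nat_lit 78) (nat_lit 0) (nat_lit 0) (XT.lf (nat_lit 0) (nat_lit 1303721044) (nat_lit 1216) (nat_lit 22140287307) (nat_lit 1292) (nat_lit 18504481175) (nat_lit 194) (nat_lit 5) (nat_lit 210) (nat_lit 5) (nat_lit 211) (nat_lit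 5) (nat_lit 345) (nat_lit 332) (nat_lit 103)) (XT.nd (nat_lit 78) (nat_lit 0) (nat_lit 76) (XT.lf (nat_lit 0) (nat_lit 3617460669) (nat_lit 1216) (nat_lit 1916450386) (nat_lit 1292) (nat_lit 37094481793) (nat_lit 194) (nat_lit 5) (nat_lit 210) (nat_lit 5) (nat_lit 211) (nat_lit 5) (nat_lit 346) (nat_lit 332) (nat_lit 102)) (XT.lf (nat_lit 0) (nat_lit 6310552213) (nat_lit 1216) (nat_lit 24159783724) (nat_lit 1292) (nat_lit 12849060563) (nat_lit 195) (nat_lit 5) (nat_lit 211) (nat_lit 5) (nat_lit 212) (nat_lit 5) (nat_lit 347) (nat_lit 332) (nat_lit 101)))) (XT.nd (nat_lit 156) (nat_lit 684) (nat_lit 0) (XT.nd (nat_lit 78) (nat_lit 0) (nat_lit 76) (XT.lf (nat_lit 0) (nat_lit 9157353293) (nat_lit 1216) (nat_lit 3179468385) (nat_lit 1292) (nat_lit 31692122457) (nat_lit 195) (nat_lit 5) (nat_lit 211) (nat_lit 5) (nat_lit 212) (nat_lit 5) (nat_lit 348) (nat_lit 332) (nat_lit 100)) (XT.lf (nat_lit 0) (nat_lit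 12331600665) (nat_lit 1216) (nat_lit 26021255179) (nat_lit 76) (nat_lit 6399662427) (nat_lit 196) (nat_lit 5) (nat_lit 212) (nat_lit 5) (nat_lit 197) (nat_lit 5) (nat_lit 349) (nat_lit 332) (nat_lit 99))) (XT.nd (nat_lit 78) (nat_lit 760) (nat_lit 0) (XT.lf (nat_lit 0) (nat_lit 15754300667) (nat_lit 1216) (nat_lit 4255985886) (nat_lit 76) (nat_lit 25482917622) (nat_lit 196) (nat_lit 5) (nat_lit 212) (nat_lit 5) (nat_lit 197) (nat_lit 5) (nat_lit 350) (nat_lit 332) (nat_lit 98)) (XT.lf (nat_lit 0) (nat_lit 18522539935) (nat_lit 760) (nat_lit 933885096) (nat_lit 836) (nat_lit 26794384584) (nat_lit 186) (nat_lit 5) (nat_lit 196) (nat_lit 5) (nat_lit 197) (nat_lit 5) (nat_lit 351) (nat_lit 332) (nat_lit 97))))) (XT.nd (nat_lit 234) (nat_lit 1140) (nat_lit 0) (XT.nd (nat_lit 78) (nat_lit 608) (nat_lit 0) (XT.lf (nat_lit 0) (nat_lit 23491635918) (nat_lit 836) (nat_lit 5139685382) (nat_lit 76) (nat_lit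 18393162462) (nat_lit 186) (nat_lit 5) (nat_lit 197) (nat_lit 5) (nat_lit 187) (nat_lit 5) (nat_lit 352) (nat_lit 332) (nat_lit 96)) (XT.nd (nat_lit 78) (nat_lit 0) (nat_lit 0) (XT.lf (nat_lit 0) (nat_lit 18476718708) (nat_lit 608) (nat_lit 9356799530) (nat_lit 684) (nat_lit 19982282631) (nat_lit 178) (nat_lit 5) (nat_lit 186) (nat_lit 5) (nat_lit 187) (nat_lit 5) (nat_lit 353) (nat_lit 332) (nat_lit 95)) (XT.lf (nat_lit 0) (nat_lit 32457750555) (nat_lit 684) (nat_lit 5824900454) (nat_lit 76) (nat_lit 10343644829) (nat_lit 178) (nat_lit 5) (nat_lit 187) (nat_lit 5) (nat_lit 179) (nat_lit 5) (nat_lit 354) (nat_lit 332) (nat_lit 94)))) (XT.nd (nat_lit 156) (nat_lit 608) (nat_lit 0) (XT.nd (nat_lit 78) (nat_lit 0) (nat_lit 0) (XT.lf (nat_lit 0) (nat_lit 18665157555) (nat_lit 532) (nat_lit 18826435502) (nat_lit 608) (nat_lit 11961387223) (nat_lit 171) (nat_lit 5) (nat_lit 178) (nat_lit 5) (nat_lit 179)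 (nat_lit 5) (nat_lit 355) (nat_lit 332) (nat_lit 93)) (XT.lf (nat_lit 0) (nat_lit 42746362498) (nat_lit 608) (nat_lit 6306782579) (nat_lit 76) (nat_lit 1249223918) (nat_lit 171) (nat_lit 5) (nat_lit 179) (nat_lit 5) (nat_lit 172) (nat_lit 5) (nat_lit 356) (nat_lit 332) (nat_lit 92))) (XT.nd (nat_lit 78) (nat_lit 76) (nat_lit 0) (XT.lf (nat_lit 0) (nat_lit 19093752995) (nat_lit 532) (nat_lit 29433841495) (nat_lit 608) (nat_lit 2638581355) (nat_lit 164) (nat_lit 5) (nat_lit 171) (nat_lit 5) (nat_lit 172) (nat_lit 5) (nat_lit 357) (nat_lit 332) (nat_lit 91)) (XT.lf (nat_lit 0) (nat_lit 2442224452) (nat_lit 608) (nat_lit 6693488519) (nat_lit 76) (nat_lit 42917589061) (nat_lit 163) (nat_lit 5) (nat_lit 171) (nat_lit 5) (nat_lit 164) (nat_lit 5) (nat_lit 358) (nat_lit 332) (nat_lit 90)))))) (XT.nd (nat_lit 546) (nat_lit 1672) (nat_lit 0) (XT.nd (nat_lit 234) (nat_lit 912) (nat_lit 0) (XT.nd (nat_lit 78)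 (nat_lit 532) (nat_lit 0) (XT.lf (nat_lit 0) (nat_lit 7927027388) (nat_lit 608) (nat_lit 33269802170) (nat_lit 76) (nat_lit 11760291502) (nat_lit 156) (nat_lit 5) (nat_lit 164) (nat_lit 5) (nat_lit 157) (nat_lit 5) (nat_lit 359) (nat_lit 332) (nat_lit 89)) (XT.nd (nat_lit 78) (nat_lit 532) (nat_lit 0) (XT.lf (nat_lit 0) (nat_lit 13734028711) (nat_lit 608) (nat_lit 6981512191) (nat_lit 76) (nat_lit 33167785067) (nat_lit 156) (nat_lit 5) (nat_lit 164) (nat_lit 5) (nat_lit 157) (nat_lit 5) (nat_lit 360) (nat_lit 332) (nat_lit 88)) (XT.lf (nat_lit 0) (nat_lit 19916820065) (nat_lit 608) (nat_lit 34342791196) (nat_lit 76) (nat_lit 571659276) (nat_lit 149) (nat_lit 5) (nat_lit 157) (nat_lit 5) (nat_lit 150) (nat_lit 5) (nat_lit 361) (nat_lit 332) (nat_lit 87)))) (XT.nd (nat_lit 156) (nat_lit 456) (nat_lit 0) (XT.nd (nat_lit 78) (nat_lit 456) (nat_lit 0) (XT.lf (nat_lit 0) (nat_lit 26560388181) (nat_lit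 608) (nat_lit 7086766982) (nat_lit 76) (nat_lit 22152240374) (nat_lit 149) (nat_lit 5) (nat_lit 157) (nat_lit 5) (nat_lit 150) (nat_lit 5) (nat_lit 362) (nat_lit 332) (nat_lit 86)) (XT.lf (nat_lit 0) (nat_lit 21403519144) (nat_lit 456) (nat_lit 12204508359) (nat_lit 532) (nat_lit 23182394718) (nat_lit 143) (nat_lit 5) (nat_lit 149) (nat_lit 5) (nat_lit 150) (nat_lit 5) (nat_lit 363) (nat_lit 332) (nat_lit 85))) (XT.nd (nat_lit 78) (nat_lit 456) (nat_lit 0) (XT.lf (nat_lit 0) (nat_lit 41033390911) (nat_lit 532) (nat_lit 7012038613) (nat_lit 76) (nat_lit 9760762169) (nat_lit 143) (nat_lit 5) (nat_lit 150) (nat_lit 5) (nat_lit 144) (nat_lit 5) (nat_lit 364) (nat_lit 332) (nat_lit 84)) (XT.lf (nat_lit 0) (nat_lit 22531847880) (nat_lit 456) (nat_lit 26486159673) (nat_lit 532) (nat_lit 9824332735) (nat_lit 137) (nat_lit 5) (nat_lit 143) (nat_lit 5) (nat_lit 144) (nat_lit 5) (nat_lit 365) (nat_lit 332)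 (nat_lit 83))))) (XT.nd (nat_lit 312) (nat_lit 760) (nat_lit 0) (XT.nd (nat_lit 156) (nat_lit 456) (nat_lit 0) (XT.nd (nat_lit 78) (nat_lit 456) (nat_lit 0) (XT.lf (nat_lit 0) (nat_lit 53104736627) (nat_lit 456) (nat_lit 4207316698) (nat_lit 532) (nat_lit 2595424085) (nat_lit 137) (nat_lit 5) (nat_lit 143) (nat_lit 5) (nat_lit 144) (nat_lit 5) (nat_lit 366) (nat_lit 332) (nat_lit 82)) (XT.lf (nat_lit 0) (nat_lit 5168498311) (nat_lit 456) (nat_lit 37168038102) (nat_lit 76) (nat_lit 18654250408) (nat_lit 131) (nat_lit 5) (nat_lit 137) (nat_lit 5) (nat_lit 132) (nat_lit 5) (nat_lit 367) (nat_lit 332) (nat_lit 81))) (XT.nd (nat_lit 78) (nat_lit 456) (nat_lit 0) (XT.lf (nat_lit 0) (nat_lit 13223318820) (nat_lit 456) (nat_lit 6667174066) (nat_lit 76) (nat_lit 42212028051) (nat_lit 131) (nat_lit 5) (nat_lit 137) (nat_lit 5) (nat_lit 132) (nat_lit 5) (nat_lit 368) (nat_lit 332) (nat_lit 80)) (XT.lf (nat_lit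 0) (nat_lit 21794988017) (nat_lit 532) (nat_lit 38033577471) (nat_lit 76) (nat_lit 3410786167) (nat_lit 125) (nat_lit 5) (nat_lit 132) (nat_lit 5) (nat_lit 126) (nat_lit 5) (nat_lit 369) (nat_lit 332) (nat_lit 79)))) (XT.nd (nat_lit 156) (nat_lit 380) (nat_lit 0) (XT.nd (nat_lit 78) (nat_lit 380) (nat_lit 0) (XT.lf (nat_lit 0) (nat_lit 30887889022) (nat_lit 532) (nat_lit 6435329539) (nat_lit 76) (nat_lit 27079146959) (nat_lit 125) (nat_lit 5) (nat_lit 132) (nat_lit 5) (nat_lit 126) (nat_lit 5) (nat_lit 370) (nat_lit 332) (nat_lit 78)) (XT.lf (nat_lit 0) (nat_lit 26629492206) (nat_lit 380) (nat_lit 13879242643) (nat_lit 456) (nat_lit 25083880877) (nat_lit 120) (nat_lit 5) (nat_lit 125) (nat_lit 5) (nat_lit 126) (nat_lit 5) (nat_lit 371) (nat_lit 332) (nat_lit 77))) (XT.nd (nat_lit 78) (nat_lit 380) (nat_lit 0) (XT.lf (nat_lit 0) (nat_lit 50581727723) (nat_lit 456) (nat_lit 6098817574) (nat_lit 76)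 (nat_lit 10133123130) (nat_lit 120) (nat_lit 5) (nat_lit 126) (nat_lit 5) (nat_lit 121) (nat_lit 5) (nat_lit 372) (nat_lit 332) (nat_lit 76)) (XT.lf (nat_lit 0) (nat_lit 28162558075) (nat_lit 380) (nat_lit 33201701094) (nat_lit 456) (nat_lit 6694873697) (nat_lit 115) (nat_lit 5) (nat_lit 120) (nat_lit 5) (nat_lit 121) (nat_lit 5) (nat_lit 373) (nat_lit 332) (nat_lit 75))))))))
noncomputable def xc241 : XT := (XT.nd (nat_lit 38376) (nat_lit 0) (nat_lit 3116) (XT.nd (nat_lit 1092) (nat_lit 304) (nat_lit 0) (XT.nd (nat_lit 546) (nat_lit 1292) (nat_lit 0) (XT.nd (nat_lit 234) (nat_lit 684) (nat_lit 0) (XT.nd (nat_lit 78) (nat_lit 380) (nat_lit 0) (XT.lf (nat_lit 0) (nat_lit 3128676659) (nat_lit 456) (nat_lit 5795000366) (nat_lit 76) (nat_lit 60415540188) (nat_lit 114) (nat_lit 5) (nat_lit 120) (nat_lit 5) (nat_lit 115) (nat_lit 5) (nat_lit 374) (nat_lit 332) (nat_lit 74)) (XT.nd (nat_lit 78) (nat_lit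 0) (nat_lit 0) (XT.lf (nat_lit 0) (nat_lit 13556593142) (nat_lit 456) (nat_lit 40960481113) (nat_lit 76) (nat_lit 16125315229) (nat_lit 109) (nat_lit 5) (nat_lit 115) (nat_lit 5) (nat_lit 110) (nat_lit 5) (nat_lit 375) (nat_lit 332) (nat_lit 73)) (XT.lf (nat_lit 0) (nat_lit 24444051307) (nat_lit 456) (nat_lit 5730900475) (nat_lit 76) (nat_lit 41805304567) (nat_lit 109) (nat_lit 5) (nat_lit 115) (nat_lit 5) (nat_lit 110) (nat_lit 5) (nat_lit 376) (nat_lit 332) (nat_lit 72)))) (XT.nd (nat_lit 156) (nat_lit 304) (nat_lit 0) (XT.nd (nat_lit 78) (nat_lit 0) (nat_lit 0) (XT.lf (nat_lit 0) (nat_lit 31162710253) (nat_lit 380) (nat_lit 4794253165) (nat_lit 456) (nat_lit 37392331431) (nat_lit 104) (nat_lit 5) (nat_lit 109) (nat_lit 5) (nat_lit 110) (nat_lit 5) (nat_lit 377) (nat_lit 332) (nat_lit 71)) (XT.lf (nat_lit 0) (nat_lit 48078200450) (nat_lit 456) (nat_lit 5683807334) (nat_lit 76) (nat_lit 20989509114)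 (nat_lit 104) (nat_lit 5) (nat_lit 110) (nat_lit 5) (nat_lit 105) (nat_lit 5) (nat_lit 378) (nat_lit 332) (nat_lit 70))) (XT.nd (nat_lit 78) (nat_lit 0) (nat_lit 0) (XT.lf (nat_lit 0) (nat_lit 32499838011) (nat_lit 304) (nat_lit 28422418553) (nat_lit 380) (nat_lit 15262774089) (nat_lit 100) (nat_lit 5) (nat_lit 104) (nat_lit 5) (nat_lit 105) (nat_lit 5) (nat_lit 379) (nat_lit 332) (nat_lit 69)) (XT.lf (nat_lit 0) (nat_lit 71944578094) (nat_lit 304) (nat_lit 2263768680) (nat_lit 380) (nat_lit 3451502165) (nat_lit 100) (nat_lit 5) (nat_lit 104) (nat_lit 5) (nat_lit 105) (nat_lit 5) (nat_lit 380) (nat_lit 332) (nat_lit 68))))) (XT.nd (nat_lit 234) (nat_lit 608) (nat_lit 0) (XT.nd (nat_lit 78) (nat_lit 304) (nat_lit 0) (XT.lf (nat_lit 0) (nat_lit 9111249830) (nat_lit 380) (nat_lit 45435933509) (nat_lit 76) (nat_lit 24612200370) (nat_lit 95) (nat_lit 5) (nat_lit 100) (nat_lit 5) (nat_lit 96) (nat_lit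 5) (nat_lit 381) (nat_lit 332) (nat_lit 67)) (XT.nd (nat_lit 78) (nat_lit 304) (nat_lit 0) (XT.lf (nat_lit 0) (nat_lit 22061549023) (nat_lit 380) (nat_lit 6297763859) (nat_lit 76) (nat_lit 52341165797) (nat_lit 95) (nat_lit 5) (nat_lit 100) (nat_lit 5) (nat_lit 96) (nat_lit 5) (nat_lit 382) (nat_lit 332) (nat_lit 66)) (XT.lf (nat_lit 0) (nat_lit 34690593384) (nat_lit 304) (nat_lit 1042588698) (nat_lit 380) (nat_lit 46544640105) (nat_lit 91) (nat_lit 5) (nat_lit 95) (nat_lit 5) (nat_lit 96) (nat_lit 5) (nat_lit 383) (nat_lit 332) (nat_lit 65)))) (XT.nd (nat_lit 156) (nat_lit 304) (nat_lit 0) (XT.nd (nat_lit 78) (nat_lit 304) (nat_lit 0) (XT.lf (nat_lit 0) (nat_lit 50138994885) (nat_lit 380) (nat_lit 7124853161) (nat_lit 76) (nat_lit 26628917454) (nat_lit 91) (nat_lit 5) (nat_lit 96) (nat_lit 5) (nat_lit 92) (nat_lit 5) (nat_lit 384) (nat_lit 332) (nat_lit 64)) (XT.lf (nat_lit 0) (nat_lit 35227610922)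 (nat_lit 304) (nat_lit 30097707055) (nat_lit 380) (nat_lit 20220389470) (nat_lit 87) (nat_lit 5) (nat_lit 91) (nat_lit 5) (nat_lit 92) (nat_lit 5) (nat_lit 385) (nat_lit 332) (nat_lit 63))) (XT.nd (nat_lit 78) (nat_lit 304) (nat_lit 0) (XT.lf (nat_lit 0) (nat_lit 78995832297) (nat_lit 304) (nat_lit 2042739000) (nat_lit 380) (nat_lit 6207526538) (nat_lit 87) (nat_lit 5) (nat_lit 91) (nat_lit 5) (nat_lit 92) (nat_lit 5) (nat_lit 386) (nat_lit 332) (nat_lit 62)) (XT.lf (nat_lit 0) (nat_lit 8670061452) (nat_lit 304) (nat_lit 53550929861) (nat_lit 76) (nat_lit 26755991295) (nat_lit 83) (nat_lit 5) (nat_lit 87) (nat_lit 5) (nat_lit 84) (nat_lit 5) (nat_lit 387) (nat_lit 332) (nat_lit 61)))))) (XT.nd (nat_lit 36738) (nat_lit 0) (nat_lit 9652) (XT.nd (nat_lit 36426) (nat_lit 0) (nat_lit 9576) (XT.nd (nat_lit 78) (nat_lit 304) (nat_lit 0) (XT.lf (nat_lit 0) (nat_lit 23972985066) (nat_lit 304) (nat_lit 10258885379)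 (nat_lit 76) (nat_lit 56522966832) (nat_lit 83) (nat_lit 5) (nat_lit 87) (nat_lit 5) (nat_lit 84) (nat_lit 5) (nat_lit 388) (nat_lit 332) (nat_lit 60)) (XT.nd (nat_lit 36270) (nat_lit 0) (nat_lit 9576) (XT.lf (nat_lit 0) (nat_lit 35014338360) (nat_lit 304) (nat_lit 5056666018) (nat_lit 380) (nat_lit 52504943324) (nat_lit 79) (nat_lit 5) (nat_lit 83) (nat_lit 5) (nat_lit 84) (nat_lit 5) (nat_lit 389) (nat_lit 332) (nat_lit 59)) (XT.lf (nat_lit 0) (nat_lit 5910203692) (nat_lit 0) (nat_lit 5910203692) (nat_lit 1140) (nat_lit 5870195743) (nat_lit 205) (nat_lit 5) (nat_lit 205) (nat_lit 3) (nat_lit 220) (nat_lit 3) (nat_lit 333) (nat_lit 333) (nat_lit 114)))) (XT.nd (nat_lit 156) (nat_lit 0) (nat_lit 76) (XT.nd (nat_lit 78) (nat_lit 0) (nat_lit 0) (XT.lf (nat_lit 0) (nat_lit 24089179714) (nat_lit 1140) (nat_lit 7373122202) (nat_lit 1216) (nat_lit 4446757964) (nat_lit 205) (nat_lit 5) (nat_lit 220) (nat_lit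 3) (nat_lit 221) (nat_lit 5) (nat_lit 334) (nat_lit 333) (nat_lit 113)) (XT.lf (nat_lit 76) (nat_lit 9364843964) (nat_lit 0) (nat_lit 15391257907) (nat_lit 1216) (nat_lit 11690496079) (nat_lit 206) (nat_lit 5) (nat_lit 205) (nat_lit 5) (nat_lit 221) (nat_lit 5) (nat_lit 335) (nat_lit 333) (nat_lit 112))) (XT.nd (nat_lit 78) (nat_lit 0) (nat_lit 0) (XT.lf (nat_lit 0) (nat_lit 25527498969) (nat_lit 1140) (nat_lit 10254949797) (nat_lit 1216) (nat_lit 1215281344) (nat_lit 206) (nat_lit 5) (nat_lit 221) (nat_lit 5) (nat_lit 222) (nat_lit 5) (nat_lit 336) (nat_lit 333) (nat_lit 111)) (XT.lf (nat_lit 76) (nat_lit 7060981295) (nat_lit 0) (nat_lit 19479481952) (nat_lit 1216) (nat_lit 11018382139) (nat_lit 207) (nat_lit 5) (nat_lit 206) (nat_lit 5) (nat_lit 222) (nat_lit 5) (nat_lit 337) (nat_lit 333) (nat_lit 110))))) (XT.nd (nat_lit 234) (nat_lit 0) (nat_lit 152) (XT.nd (nat_lit 78) (nat_lit 0) (nat_lit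 76) (XT.lf (nat_lit 76) (nat_lit 25105543559) (nat_lit 0) (nat_lit 2580033197) (nat_lit 1216) (nat_lit 10448166409) (nat_lit 207) (nat_lit 5) (nat_lit 206) (nat_lit 5) (nat_lit 222) (nat_lit 5) (nat_lit 338) (nat_lit 333) (nat_lit 109)) (XT.nd (nat_lit 78) (nat_lit 0) (nat_lit 0) (XT.lf (nat_lit 76) (nat_lit 4917907372) (nat_lit 0) (nat_lit 24135195160) (nat_lit 1216) (nat_lit 9667145378) (nat_lit 208) (nat_lit 5) (nat_lit 207) (nat_lit 5) (nat_lit 223) (nat_lit 5) (nat_lit 339) (nat_lit 333) (nat_lit 108)) (XT.lf (nat_lit 76) (nat_lit 23642327212) (nat_lit 0) (nat_lit 6974485237) (nat_lit 1216) (nat_lit 8702882344) (nat_lit 208) (nat_lit 5) (nat_lit 207) (nat_lit 5) (nat_lit 223) (nat_lit 5) (nat_lit 340) (nat_lit 333) (nat_lit 107)))) (XT.nd (nat_lit 156) (nat_lit 0) (nat_lit 76) (XT.nd (nat_lit 78) (nat_lit 0) (nat_lit 0) (XT.lf (nat_lit 76) (nat_lit 2944846463) (nat_lit 0) (nat_lit 29412119622)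 (nat_lit 1216) (nat_lit 7576274721) (nat_lit 209) (nat_lit 5) (nat_lit 208) (nat_lit 5) (nat_lit 224) (nat_lit 5) (nat_lit 341) (nat_lit 333) (nat_lit 106)) (XT.lf (nat_lit 76) (nat_lit 22375572168) (nat_lit 0) (nat_lit 11998837125) (nat_lit 1216) (nat_lit 6184033004) (nat_lit 209) (nat_lit 5) (nat_lit 208) (nat_lit 5) (nat_lit 224) (nat_lit 5) (nat_lit 342) (nat_lit 333) (nat_lit 105))) (XT.nd (nat_lit 78) (nat_lit 0) (nat_lit 0) (XT.lf (nat_lit 76) (nat_lit 1151095384) (nat_lit 0) (nat_lit 35367862421) (nat_lit 1216) (nat_lit 4681446166) (nat_lit 210) (nat_lit 5) (nat_lit 209) (nat_lit 5) (nat_lit 225) (nat_lit 5) (nat_lit 343) (nat_lit 333) (nat_lit 104)) (XT.lf (nat_lit 76) (nat_lit 21315539237) (nat_lit 0) (nat_lit 17712033480) (nat_lit 1216) (nat_lit 2825061432) (nat_lit 210) (nat_lit 5) (nat_lit 209) (nat_lit 5) (nat_lit 225) (nat_lit 5) (nat_lit 344) (nat_lit 333) (nat_lit 103))))))) (XT.nd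 (nat_lit 1092) (nat_lit 3344) (nat_lit 0) (XT.nd (nat_lit 546) (nat_lit 2280) (nat_lit 0) (XT.nd (nat_lit 234) (nat_lit 0) (nat_lit 76) (XT.nd (nat_lit 78) (nat_lit 1216) (nat_lit 0) (XT.lf (nat_lit 0) (nat_lit 41614528328) (nat_lit 1140) (nat_lit 445190302) (nat_lit 1216) (nat_lit 464621641) (nat_lit 210) (nat_lit 5) (nat_lit 225) (nat_lit 5) (nat_lit 226) (nat_lit 5) (nat_lit 345) (nat_lit 333) (nat_lit 102)) (XT.nd (nat_lit 78) (nat_lit 0) (nat_lit 0) (XT.lf (nat_lit 0) (nat_lit 1416557992) (nat_lit 1216) (nat_lit 22746459170) (nat_lit 1292) (nat_lit 19041643204) (nat_lit 194) (nat_lit 5) (nat_lit 210) (nat_lit 5) (nat_lit 211) (nat_lit 5) (nat_lit 346) (nat_lit 333) (nat_lit 101)) (XT.lf (nat_lit 0) (nat_lit 3797562467) (nat_lit 1216) (nat_lit 1917597533) (nat_lit 1292) (nat_lit 38189867309) (nat_lit 194) (nat_lit 5) (nat_lit 210) (nat_lit 5) (nat_lit 211) (nat_lit 5) (nat_lit 347) (nat_lit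 333) (nat_lit 100)))) (XT.nd (nat_lit 156) (nat_lit 0) (nat_lit 76) (XT.nd (nat_lit 78) (nat_lit 0) (nat_lit 0) (XT.lf (nat_lit 0) (nat_lit 6569761446) (nat_lit 1216) (nat_lit 24826477612) (nat_lit 1292) (nat_lit 13220574609) (nat_lit 195) (nat_lit 5) (nat_lit 211) (nat_lit 5) (nat_lit 212) (nat_lit 5) (nat_lit 348) (nat_lit 333) (nat_lit 99)) (XT.lf (nat_lit 0) (nat_lit 9499930850) (nat_lit 1216) (nat_lit 3218445035) (nat_lit 1292) (nat_lit 32629334897) (nat_lit 195) (nat_lit 5) (nat_lit 211) (nat_lit 5) (nat_lit 212) (nat_lit 5) (nat_lit 349) (nat_lit 333) (nat_lit 98))) (XT.nd (nat_lit 78) (nat_lit 0) (nat_lit 0) (XT.lf (nat_lit 0) (nat_lit 12767864594) (nat_lit 1216) (nat_lit 26743880337) (nat_lit 76) (nat_lit 6581295363) (nat_lit 196) (nat_lit 5) (nat_lit 212) (nat_lit 5) (nat_lit 197) (nat_lit 5) (nat_lit 350) (nat_lit 333) (nat_lit 97)) (XT.lf (nat_lit 0) (nat_lit 16291314065) (nat_lit 1216)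 (nat_lit 4327342649) (nat_lit 76) (nat_lit 26237349872) (nat_lit 196) (nat_lit 5) (nat_lit 212) (nat_lit 5) (nat_lit 197) (nat_lit 5) (nat_lit 351) (nat_lit 333) (nat_lit 96))))) (XT.nd (nat_lit 234) (nat_lit 1064) (nat_lit 0) (XT.nd (nat_lit 78) (nat_lit 608) (nat_lit 0) (XT.lf (nat_lit 0) (nat_lit 19133986762) (nat_lit 760) (nat_lit 969176227) (nat_lit 836) (nat_lit 27533219188) (nat_lit 186) (nat_lit 5) (nat_lit 196) (nat_lit 5) (nat_lit 197) (nat_lit 5) (nat_lit 352) (nat_lit 333) (nat_lit 95)) (XT.nd (nat_lit 78) (nat_lit 608) (nat_lit 0) (XT.lf (nat_lit 0) (nat_lit 24257526042) (nat_lit 836) (nat_lit 5237766931) (nat_lit 76) (nat_lit 18938032457) (nat_lit 186) (nat_lit 5) (nat_lit 197) (nat_lit 5) (nat_lit 187) (nat_lit 5) (nat_lit 353) (nat_lit 333) (nat_lit 94)) (XT.lf (nat_lit 0) (nat_lit 19086579194) (nat_lit 608) (nat_lit 9641838898) (nat_lit 684) (nat_lit 20520003069) (nat_lit 178) (nat_lit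 5) (nat_lit 186) (nat_lit 5) (nat_lit 187) (nat_lit 5) (nat_lit 354) (nat_lit 333) (nat_lit 93)))) (XT.nd (nat_lit 156) (nat_lit 532) (nat_lit 0) (XT.nd (nat_lit 78) (nat_lit 532) (nat_lit 0) (XT.lf (nat_lit 0) (nat_lit 33489592424) (nat_lit 684) (nat_lit 5943866561) (nat_lit 76) (nat_lit 10649827200) (nat_lit 178) (nat_lit 5) (nat_lit 187) (nat_lit 5) (nat_lit 179) (nat_lit 5) (nat_lit 355) (nat_lit 333) (nat_lit 92)) (XT.lf (nat_lit 0) (nat_lit 19280346316) (nat_lit 532) (nat_lit 19392942322) (nat_lit 608) (nat_lit 12261518978) (nat_lit 171) (nat_lit 5) (nat_lit 178) (nat_lit 5) (nat_lit 179) (nat_lit 5) (nat_lit 356) (nat_lit 333) (nat_lit 91))) (XT.nd (nat_lit 78) (nat_lit 532) (nat_lit 0) (XT.lf (nat_lit 0) (nat_lit 44084026495) (nat_lit 608) (nat_lit 6440634036) (nat_lit 76) (nat_lit 1285069264) (nat_lit 171) (nat_lit 5) (nat_lit 179) (nat_lit 5) (nat_lit 172) (nat_lit 5) (nat_lit 357) (nat_lit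 333) (nat_lit 90)) (XT.lf (nat_lit 0) (nat_lit 19721374938) (nat_lit 532) (nat_lit 30316237473) (nat_lit 608) (nat_lit 2661872446) (nat_lit 164) (nat_lit 5) (nat_lit 171) (nat_lit 5) (nat_lit 172) (nat_lit 5) (nat_lit 358) (nat_lit 333) (nat_lit 89)))))) (XT.nd (nat_lit 546) (nat_lit 1748) (nat_lit 0) (XT.nd (nat_lit 234) (nat_lit 988) (nat_lit 0) (XT.nd (nat_lit 78) (nat_lit 532) (nat_lit 0) (XT.lf (nat_lit 0) (nat_lit 2568671957) (nat_lit 608) (nat_lit 6839974152) (nat_lit 76) (nat_lit 44204611903) (nat_lit 163) (nat_lit 5) (nat_lit 171) (nat_lit 5) (nat_lit 164) (nat_lit 5) (nat_lit 359) (nat_lit 333) (nat_lit 88)) (XT.nd (nat_lit 78) (nat_lit 0) (nat_lit 0) (XT.lf (nat_lit 0) (nat_lit 8217002797) (nat_lit 608) (nat_lit 34212514759) (nat_lit 76) (nat_lit 12114705928) (nat_lit 156) (nat_lit 5) (nat_lit 164) (nat_lit 5) (nat_lit 157) (nat_lit 5) (nat_lit 360) (nat_lit 333) (nat_lit 87)) (XT.lf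 (nat_lit 0) (nat_lit 14196694803) (nat_lit 608) (nat_lit 7137189133) (nat_lit 76) (nat_lit 34164377533) (nat_lit 156) (nat_lit 5) (nat_lit 164) (nat_lit 5) (nat_lit 157) (nat_lit 5) (nat_lit 361) (nat_lit 333) (nat_lit 86)))) (XT.nd (nat_lit 156) (nat_lit 456) (nat_lit 0) (XT.nd (nat_lit 78) (nat_lit 0) (nat_lit 0) (XT.lf (nat_lit 0) (nat_lit 20564040797) (nat_lit 608) (nat_lit 35318333794) (nat_lit 76) (nat_lit 592298966) (nat_lit 149) (nat_lit 5) (nat_lit 157) (nat_lit 5) (nat_lit 150) (nat_lit 5) (nat_lit 362) (nat_lit 333) (nat_lit 85)) (XT.lf (nat_lit 0) (nat_lit 27405467914) (nat_lit 608) (nat_lit 7246223255) (nat_lit 76) (nat_lit 22820195848) (nat_lit 149) (nat_lit 5) (nat_lit 157) (nat_lit 5) (nat_lit 150) (nat_lit 5) (nat_lit 363) (nat_lit 333) (nat_lit 84))) (XT.nd (nat_lit 78) (nat_lit 0) (nat_lit 0) (XT.lf (nat_lit 0) (nat_lit 22098250408) (nat_lit 456) (nat_lit 12565386011) (nat_lit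 532) (nat_lit 23829036316) (nat_lit 143) (nat_lit 5) (nat_lit 149) (nat_lit 5) (nat_lit 150) (nat_lit 5) (nat_lit 364) (nat_lit 333) (nat_lit 83)) (XT.lf (nat_lit 0) (nat_lit 42310430144) (nat_lit 532) (nat_lit 7169936370) (nat_lit 76) (nat_lit 10058589892) (nat_lit 143) (nat_lit 5) (nat_lit 150) (nat_lit 5) (nat_lit 144) (nat_lit 5) (nat_lit 365) (nat_lit 333) (nat_lit 82))))) (XT.nd (nat_lit 312) (nat_lit 836) (nat_lit 0) (XT.nd (nat_lit 156) (nat_lit 456) (nat_lit 0) (XT.nd (nat_lit 78) (nat_lit 0) (nat_lit 0) (XT.lf (nat_lit 0) (nat_lit 23259752370) (nat_lit 456) (nat_lit 27273991383) (nat_lit 532) (nat_lit 10072472116) (nat_lit 137) (nat_lit 5) (nat_lit 143) (nat_lit 5) (nat_lit 144) (nat_lit 5) (nat_lit 366) (nat_lit 333) (nat_lit 81)) (XT.lf (nat_lit 0) (nat_lit 54748314700) (nat_lit 456) (nat_lit 4326979810) (nat_lit 532) (nat_lit 2628053214) (nat_lit 137) (nat_lit 5) (nat_lit 143) (nat_lit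 5) (nat_lit 144) (nat_lit 5) (nat_lit 367) (nat_lit 333) (nat_lit 80))) (XT.nd (nat_lit 78) (nat_lit 0) (nat_lit 0) (XT.lf (nat_lit 0) (nat_lit 5367171434) (nat_lit 456) (nat_lit 38230955864) (nat_lit 76) (nat_lit 19221039119) (nat_lit 131) (nat_lit 5) (nat_lit 137) (nat_lit 5) (nat_lit 132) (nat_lit 5) (nat_lit 368) (nat_lit 333) (nat_lit 79)) (XT.lf (nat_lit 0) (nat_lit 13662366127) (nat_lit 456) (nat_lit 6816584064) (nat_lit 76) (nat_lit 43485341514) (nat_lit 131) (nat_lit 5) (nat_lit 137) (nat_lit 5) (nat_lit 132) (nat_lit 5) (nat_lit 369) (nat_lit 333) (nat_lit 78)))) (XT.nd (nat_lit 156) (nat_lit 380) (nat_lit 0) (XT.nd (nat_lit 78) (nat_lit 0) (nat_lit 0) (XT.lf (nat_lit 0) (nat_lit 22490515482) (nat_lit 532) (nat_lit 39123276228) (nat_lit 76) (nat_lit 3521456733) (nat_lit 125) (nat_lit 5) (nat_lit 132) (nat_lit 5) (nat_lit 126) (nat_lit 5) (nat_lit 370) (nat_lit 333) (nat_lit 77)) (XT.lf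 (nat_lit 0) (nat_lit 31854989601) (nat_lit 532) (nat_lit 6578575283) (nat_lit 76) (nat_lit 27899625232) (nat_lit 125) (nat_lit 5) (nat_lit 132) (nat_lit 5) (nat_lit 126) (nat_lit 5) (nat_lit 371) (nat_lit 333) (nat_lit 76))) (XT.nd (nat_lit 78) (nat_lit 0) (nat_lit 0) (XT.lf (nat_lit 0) (nat_lit 27477702740) (nat_lit 380) (nat_lit 14286053651) (nat_lit 456) (nat_lit 25795413514) (nat_lit 120) (nat_lit 5) (nat_lit 125) (nat_lit 5) (nat_lit 126) (nat_lit 5) (nat_lit 372) (nat_lit 333) (nat_lit 75)) (XT.lf (nat_lit 0) (nat_lit 52137870286) (nat_lit 456) (nat_lit 6232793651) (nat_lit 76) (nat_lit 10446223231) (nat_lit 120) (nat_lit 5) (nat_lit 126) (nat_lit 5) (nat_lit 121) (nat_lit 5) (nat_lit 373) (nat_lit 333) (nat_lit 74))))))))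
noncomputable def xc242 : XT := (XT.nd (nat_lit 38532) (nat_lit 0) (nat_lit 2432) (XT.nd (nat_lit 1092) (nat_lit 304) (nat_lit 0) (XT.nd (nat_lit 546) (nat_lit 988) (nat_lit 0) (XT.nd (nat_lit 234) (nat_lit 684) (nat_lit 0) (XT.nd (nat_lit 78) (nat_lit 456) (nat_lit 0) (XT.lf (nat_lit 0) (nat_lit 29055942989) (nat_lit 380) (nat_lit 34187274063) (nat_lit 456) (nat_lit 6856519199) (nat_lit 115) (nat_lit 5) (nat_lit 120) (nat_lit 5) (nat_lit 121) (nat_lit 5) (nat_lit 374) (nat_lit 333) (nat_lit 73)) (XT.nd (nat_lit 78) (nat_lit 380) (nat_lit 0) (XT.lf (nat_lit 0) (nat_lit 3259853233) (nat_lit 456) (nat_lit 5920984405) (nat_lit 76) (nat_lit 62237408610) (nat_lit 114) (nat_lit 5) (nat_lit 120) (nat_lit 5) (nat_lit 115) (nat_lit 5) (nat_lit 375) (nat_lit 333) (nat_lit 72)) (XT.lf (nat_lit 0) (nat_lit 14000078902) (nat_lit 456) (nat_lit 42140874087) (nat_lit 76) (nat_lit 16619577362) (nat_lit 109) (nat_lit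 5) (nat_lit 115) (nat_lit 5) (nat_lit 110) (nat_lit 5) (nat_lit 376) (nat_lit 333) (nat_lit 71)))) (XT.nd (nat_lit 156) (nat_lit 304) (nat_lit 0) (XT.nd (nat_lit 78) (nat_lit 380) (nat_lit 0) (XT.lf (nat_lit 0) (nat_lit 25213089318) (nat_lit 456) (nat_lit 5855816364) (nat_lit 76) (nat_lit 43069660476) (nat_lit 109) (nat_lit 5) (nat_lit 115) (nat_lit 5) (nat_lit 110) (nat_lit 5) (nat_lit 377) (nat_lit 333) (nat_lit 70)) (XT.lf (nat_lit 0) (nat_lit 32144141792) (nat_lit 380) (nat_lit 4926654184) (nat_lit 456) (nat_lit 38477898391) (nat_lit 104) (nat_lit 5) (nat_lit 109) (nat_lit 5) (nat_lit 110) (nat_lit 5) (nat_lit 378) (nat_lit 333) (nat_lit 69))) (XT.nd (nat_lit 78) (nat_lit 304) (nat_lit 0) (XT.lf (nat_lit 0) (nat_lit 49554753740) (nat_lit 456) (nat_lit 5808185903) (nat_lit 76) (nat_lit 21630071672) (nat_lit 104) (nat_lit 5) (nat_lit 110) (nat_lit 5) (nat_lit 105) (nat_lit 5) (nat_lit 379) (nat_lit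 333) (nat_lit 68)) (XT.lf (nat_lit 0) (nat_lit 33520516492) (nat_lit 304) (nat_lit 29263057853) (nat_lit 380) (nat_lit 15685973578) (nat_lit 100) (nat_lit 5) (nat_lit 104) (nat_lit 5) (nat_lit 105) (nat_lit 5) (nat_lit 380) (nat_lit 333) (nat_lit 67))))) (XT.nd (nat_lit 234) (nat_lit 608) (nat_lit 0) (XT.nd (nat_lit 78) (nat_lit 380) (nat_lit 0) (XT.lf (nat_lit 0) (nat_lit 74147268195) (nat_lit 304) (nat_lit 2319998967) (nat_lit 380) (nat_lit 3521373702) (nat_lit 100) (nat_lit 5) (nat_lit 104) (nat_lit 5) (nat_lit 105) (nat_lit 5) (nat_lit 381) (nat_lit 333) (nat_lit 66)) (XT.nd (nat_lit 78) (nat_lit 0) (nat_lit 0) (XT.lf (nat_lit 0) (nat_lit 9417187141) (nat_lit 380) (nat_lit 46753540184) (nat_lit 76) (nat_lit 25362437802) (nat_lit 95) (nat_lit 5) (nat_lit 100) (nat_lit 5) (nat_lit 96) (nat_lit 5) (nat_lit 382) (nat_lit 333) (nat_lit 65)) (XT.lf (nat_lit 0) (nat_lit 22755045800) (nat_lit 380) (nat_lit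 6442549853) (nat_lit 76) (nat_lit 53922926422) (nat_lit 95) (nat_lit 5) (nat_lit 100) (nat_lit 5) (nat_lit 96) (nat_lit 5) (nat_lit 383) (nat_lit 333) (nat_lit 64)))) (XT.nd (nat_lit 156) (nat_lit 304) (nat_lit 0) (XT.nd (nat_lit 78) (nat_lit 0) (nat_lit 0) (XT.lf (nat_lit 0) (nat_lit 35775025295) (nat_lit 304) (nat_lit 1061300910) (nat_lit 380) (nat_lit 47908875358) (nat_lit 91) (nat_lit 5) (nat_lit 95) (nat_lit 5) (nat_lit 96) (nat_lit 5) (nat_lit 384) (nat_lit 333) (nat_lit 63)) (XT.lf (nat_lit 0) (nat_lit 51673523418) (nat_lit 380) (nat_lit 7295347676) (nat_lit 76) (nat_lit 27439746388) (nat_lit 91) (nat_lit 5) (nat_lit 96) (nat_lit 5) (nat_lit 92) (nat_lit 5) (nat_lit 385) (nat_lit 333) (nat_lit 62))) (XT.nd (nat_lit 78) (nat_lit 0) (nat_lit 0) (XT.lf (nat_lit 0) (nat_lit 36327266299) (nat_lit 304) (nat_lit 30987697350) (nat_lit 380) (nat_lit 20796198803) (nat_lit 87) (nat_lit 5) (nat_lit 91)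 (nat_lit 5) (nat_lit 92) (nat_lit 5) (nat_lit 386) (nat_lit 333) (nat_lit 61)) (XT.lf (nat_lit 0) (nat_lit 81407286925) (nat_lit 304) (nat_lit 2091457172) (nat_lit 380) (nat_lit 6363847139) (nat_lit 87) (nat_lit 5) (nat_lit 91) (nat_lit 5) (nat_lit 92) (nat_lit 5) (nat_lit 387) (nat_lit 333) (nat_lit 60)))))) (XT.nd (nat_lit 36894) (nat_lit 0) (nat_lit 9424) (XT.nd (nat_lit 36582) (nat_lit 0) (nat_lit 9272) (XT.nd (nat_lit 36426) (nat_lit 0) (nat_lit 9272) (XT.lf (nat_lit 0) (nat_lit 8959156399) (nat_lit 304) (nat_lit 55114929531) (nat_lit 76) (nat_lit 27571318396) (nat_lit 83) (nat_lit 5) (nat_lit 87) (nat_lit 5) (nat_lit 84) (nat_lit 5) (nat_lit 388) (nat_lit 333) (nat_lit 59)) (XT.nd (nat_lit 78) (nat_lit 0) (nat_lit 0) (XT.lf (nat_lit 0) (nat_lit 6112347261) (nat_lit 0) (nat_lit 6112347261) (nat_lit 1140) (nat_lit 5995085062) (nat_lit 205) (nat_lit 5) (nat_lit 205) (nat_lit 3) (nat_lit 220)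 (nat_lit 3) (nat_lit 334) (nat_lit 334) (nat_lit 112)) (XT.lf (nat_lit 0) (nat_lit 24907847657) (nat_lit 1140) (nat_lit 7542630727) (nat_lit 1216) (nat_lit 4532873732) (nat_lit 205) (nat_lit 5) (nat_lit 220) (nat_lit 3) (nat_lit 221) (nat_lit 5) (nat_lit 335) (nat_lit 334) (nat_lit 111)))) (XT.nd (nat_lit 156) (nat_lit 0) (nat_lit 76) (XT.nd (nat_lit 78) (nat_lit 0) (nat_lit 76) (XT.lf (nat_lit 76) (nat_lit 9696967706) (nat_lit 0) (nat_lit 15895505831) (nat_lit 1216) (nat_lit 11944614815) (nat_lit 206) (nat_lit 5) (nat_lit 205) (nat_lit 5) (nat_lit 221) (nat_lit 5) (nat_lit 336) (nat_lit 334) (nat_lit 110)) (XT.lf (nat_lit 0) (nat_lit 26383887022) (nat_lit 1140) (nat_lit 10509690919) (nat_lit 1216) (nat_lit 1211273125) (nat_lit 206) (nat_lit 5) (nat_lit 221) (nat_lit 5) (nat_lit 222) (nat_lit 5) (nat_lit 337) (nat_lit 334) (nat_lit 109))) (XT.nd (nat_lit 78) (nat_lit 0) (nat_lit 0) (XT.lf (nat_lit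 76) (nat_lit 7325199407) (nat_lit 0) (nat_lit 20099906654) (nat_lit 1216) (nat_lit 11257760503) (nat_lit 207) (nat_lit 5) (nat_lit 206) (nat_lit 5) (nat_lit 222) (nat_lit 5) (nat_lit 338) (nat_lit 334) (nat_lit 108)) (XT.lf (nat_lit 76) (nat_lit 25909572654) (nat_lit 0) (nat_lit 2692424721) (nat_lit 1216) (nat_lit 10673093829) (nat_lit 207) (nat_lit 5) (nat_lit 206) (nat_lit 5) (nat_lit 222) (nat_lit 5) (nat_lit 339) (nat_lit 334) (nat_lit 107))))) (XT.nd (nat_lit 234) (nat_lit 0) (nat_lit 76) (XT.nd (nat_lit 78) (nat_lit 0) (nat_lit 0) (XT.lf (nat_lit 76) (nat_lit 5118779916) (nat_lit 0) (nat_lit 24889454564) (nat_lit 1216) (nat_lit 9871028627) (nat_lit 208) (nat_lit 5) (nat_lit 207) (nat_lit 5) (nat_lit 223) (nat_lit 5) (nat_lit 340) (nat_lit 334) (nat_lit 106)) (XT.nd (nat_lit 78) (nat_lit 0) (nat_lit 76) (XT.lf (nat_lit 76) (nat_lit 24403378895) (nat_lit 0) (nat_lit 7213043629) (nat_lit 1216)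 (nat_lit 8880346374) (nat_lit 208) (nat_lit 5) (nat_lit 207) (nat_lit 5) (nat_lit 223) (nat_lit 5) (nat_lit 341) (nat_lit 334) (nat_lit 105)) (XT.lf (nat_lit 76) (nat_lit 3087237238) (nat_lit 0) (nat_lit 30319427077) (nat_lit 1216) (nat_lit 7722122904) (nat_lit 209) (nat_lit 5) (nat_lit 208) (nat_lit 5) (nat_lit 224) (nat_lit 5) (nat_lit 342) (nat_lit 334) (nat_lit 104)))) (XT.nd (nat_lit 156) (nat_lit 0) (nat_lit 76) (XT.nd (nat_lit 78) (nat_lit 0) (nat_lit 76) (XT.lf (nat_lit 76) (nat_lit 23099310577) (nat_lit 0) (nat_lit 12383019585) (nat_lit 1216) (nat_lit 6290485976) (nat_lit 209) (nat_lit 5) (nat_lit 208) (nat_lit 5) (nat_lit 224) (nat_lit 5) (nat_lit 343) (nat_lit 334) (nat_lit 103)) (XT.lf (nat_lit 76) (nat_lit 1240171675) (nat_lit 0) (nat_lit 36449108100) (nat_lit 1216) (nat_lit 4744817243) (nat_lit 210) (nat_lit 5) (nat_lit 209) (nat_lit 5) (nat_lit 225) (nat_lit 5) (nat_lit 344) (nat_lit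 334) (nat_lit 102))) (XT.nd (nat_lit 78) (nat_lit 0) (nat_lit 76) (XT.lf (nat_lit 76) (nat_lit 22007960200) (nat_lit 0) (nat_lit 18263015655) (nat_lit 1216) (nat_lit 2834985791) (nat_lit 210) (nat_lit 5) (nat_lit 209) (nat_lit 5) (nat_lit 225) (nat_lit 5) (nat_lit 345) (nat_lit 334) (nat_lit 101)) (XT.lf (nat_lit 0) (nat_lit 42933243155) (nat_lit 1140) (nat_lit 404764532) (nat_lit 1216) (nat_lit 459882338) (nat_lit 210) (nat_lit 5) (nat_lit 225) (nat_lit 5) (nat_lit 226) (nat_lit 5) (nat_lit 346) (nat_lit 334) (nat_lit 100))))))) (XT.nd (nat_lit 1092) (nat_lit 3648) (nat_lit 0) (XT.nd (nat_lit 546) (nat_lit 1748) (nat_lit 0) (XT.nd (nat_lit 234) (nat_lit 608) (nat_lit 0) (XT.nd (nat_lit 78) (nat_lit 0) (nat_lit 0) (XT.lf (nat_lit 0) (nat_lit 1528547914) (nat_lit 1216) (nat_lit 23374147736) (nat_lit 1292) (nat_lit 19595951784) (nat_lit 194) (nat_lit 5) (nat_lit 210) (nat_lit 5) (nat_lit 211) (nat_lit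 5) (nat_lit 347) (nat_lit 334) (nat_lit 99)) (XT.nd (nat_lit 78) (nat_lit 0) (nat_lit 76) (XT.lf (nat_lit 0) (nat_lit 3978958449) (nat_lit 1216) (nat_lit 1922013606) (nat_lit 1292) (nat_lit 39319116031) (nat_lit 194) (nat_lit 5) (nat_lit 210) (nat_lit 5) (nat_lit 211) (nat_lit 5) (nat_lit 348) (nat_lit 334) (nat_lit 98)) (XT.lf (nat_lit 0) (nat_lit 6832734831) (nat_lit 1216) (nat_lit 25516507472) (nat_lit 1292) (nat_lit 13604035309) (nat_lit 195) (nat_lit 5) (nat_lit 211) (nat_lit 5) (nat_lit 212) (nat_lit 5) (nat_lit 349) (nat_lit 334) (nat_lit 97)))) (XT.nd (nat_lit 156) (nat_lit 684) (nat_lit 0) (XT.nd (nat_lit 78) (nat_lit 0) (nat_lit 76) (XT.lf (nat_lit 0) (nat_lit 9848890466) (nat_lit 1216) (nat_lit 3261829000) (nat_lit 1292) (nat_lit 33595441606) (nat_lit 195) (nat_lit 5) (nat_lit 211) (nat_lit 5) (nat_lit 212) (nat_lit 5) (nat_lit 350) (nat_lit 334) (nat_lit 96)) (XT.lf (nat_lit 0) (nat_lit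 13213409637) (nat_lit 1216) (nat_lit 27491514405) (nat_lit 76) (nat_lit 6768971817) (nat_lit 196) (nat_lit 5) (nat_lit 212) (nat_lit 5) (nat_lit 197) (nat_lit 5) (nat_lit 351) (nat_lit 334) (nat_lit 95))) (XT.nd (nat_lit 78) (nat_lit 760) (nat_lit 0) (XT.lf (nat_lit 0) (nat_lit 16840741939) (nat_lit 1216) (nat_lit 4404073276) (nat_lit 76) (nat_lit 27014992303) (nat_lit 196) (nat_lit 5) (nat_lit 212) (nat_lit 5) (nat_lit 197) (nat_lit 5) (nat_lit 352) (nat_lit 334) (nat_lit 94)) (XT.lf (nat_lit 0) (nat_lit 19760575531) (nat_lit 760) (nat_lit 1005108501) (nat_lit 836) (nat_lit 28297949920) (nat_lit 186) (nat_lit 5) (nat_lit 196) (nat_lit 5) (nat_lit 197) (nat_lit 5) (nat_lit 353) (nat_lit 334) (nat_lit 93))))) (XT.nd (nat_lit 234) (nat_lit 1140) (nat_lit 0) (XT.nd (nat_lit 78) (nat_lit 608) (nat_lit 0) (XT.lf (nat_lit 0) (nat_lit 25042883125) (nat_lit 836) (nat_lit 5342011813) (nat_lit 76) (nat_lit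 19499646069) (nat_lit 186) (nat_lit 5) (nat_lit 197) (nat_lit 5) (nat_lit 187) (nat_lit 5) (nat_lit 354) (nat_lit 334) (nat_lit 92)) (XT.nd (nat_lit 78) (nat_lit 0) (nat_lit 0) (XT.lf (nat_lit 0) (nat_lit 19711546185) (nat_lit 608) (nat_lit 9935180578) (nat_lit 684) (nat_lit 21077399710) (nat_lit 178) (nat_lit 5) (nat_lit 186) (nat_lit 5) (nat_lit 187) (nat_lit 5) (nat_lit 355) (nat_lit 334) (nat_lit 91)) (XT.lf (nat_lit 0) (nat_lit 34549053833) (nat_lit 684) (nat_lit 6069603704) (nat_lit 76) (nat_lit 10965431947) (nat_lit 178) (nat_lit 5) (nat_lit 187) (nat_lit 5) (nat_lit 179) (nat_lit 5) (nat_lit 356) (nat_lit 334) (nat_lit 90)))) (XT.nd (nat_lit 156) (nat_lit 608) (nat_lit 0) (XT.nd (nat_lit 78) (nat_lit 0) (nat_lit 0) (XT.lf (nat_lit 0) (nat_lit 19910820081) (nat_lit 532) (nat_lit 19976345970) (nat_lit 608) (nat_lit 12574024872) (nat_lit 171) (nat_lit 5) (nat_lit 178) (nat_lit 5) (nat_lit 179)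 (nat_lit 5) (nat_lit 357) (nat_lit 334) (nat_lit 89)) (XT.lf (nat_lit 0) (nat_lit 45458647509) (nat_lit 608) (nat_lit 6581678470) (nat_lit 76) (nat_lit 1322083617) (nat_lit 171) (nat_lit 5) (nat_lit 179) (nat_lit 5) (nat_lit 172) (nat_lit 5) (nat_lit 358) (nat_lit 334) (nat_lit 88))) (XT.nd (nat_lit 78) (nat_lit 76) (nat_lit 0) (XT.lf (nat_lit 0) (nat_lit 20364679259) (nat_lit 532) (nat_lit 31225140879) (nat_lit 608) (nat_lit 2689069228) (nat_lit 164) (nat_lit 5) (nat_lit 171) (nat_lit 5) (nat_lit 172) (nat_lit 5) (nat_lit 359) (nat_lit 334) (nat_lit 87)) (XT.lf (nat_lit 0) (nat_lit 2695860094) (nat_lit 608) (nat_lit 6993972487) (nat_lit 76) (nat_lit 45530274411) (nat_lit 163) (nat_lit 5) (nat_lit 171) (nat_lit 5) (nat_lit 164) (nat_lit 5) (nat_lit 360) (nat_lit 334) (nat_lit 86)))))) (XT.nd (nat_lit 546) (nat_lit 1672) (nat_lit 0) (XT.nd (nat_lit 234) (nat_lit 912) (nat_lit 0) (XT.nd (nat_lit 78)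 (nat_lit 532) (nat_lit 0) (XT.lf (nat_lit 0) (nat_lit 8512683008) (nat_lit 608) (nat_lit 35186687849) (nat_lit 76) (nat_lit 12479660615) (nat_lit 156) (nat_lit 5) (nat_lit 164) (nat_lit 5) (nat_lit 157) (nat_lit 5) (nat_lit 361) (nat_lit 334) (nat_lit 85)) (XT.nd (nat_lit 78) (nat_lit 532) (nat_lit 0) (XT.lf (nat_lit 0) (nat_lit 14670333635) (nat_lit 608) (nat_lit 7300622911) (nat_lit 76) (nat_lit 35190778286) (nat_lit 156) (nat_lit 5) (nat_lit 164) (nat_lit 5) (nat_lit 157) (nat_lit 5) (nat_lit 362) (nat_lit 334) (nat_lit 84)) (XT.lf (nat_lit 0) (nat_lit 21227824241) (nat_lit 608) (nat_lit 36326285035) (nat_lit 76) (nat_lit 613357511) (nat_lit 149) (nat_lit 5) (nat_lit 157) (nat_lit 5) (nat_lit 150) (nat_lit 5) (nat_lit 363) (nat_lit 334) (nat_lit 83)))) (XT.nd (nat_lit 156) (nat_lit 456) (nat_lit 0) (XT.nd (nat_lit 78) (nat_lit 456) (nat_lit 0) (XT.lf (nat_lit 0) (nat_lit 28273129253) (nat_lit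 608) (nat_lit 7413514057) (nat_lit 76) (nat_lit 23507995487) (nat_lit 149) (nat_lit 5) (nat_lit 157) (nat_lit 5) (nat_lit 150) (nat_lit 5) (nat_lit 364) (nat_lit 334) (nat_lit 82)) (XT.lf (nat_lit 0) (nat_lit 22810802680) (nat_lit 456) (nat_lit 12937391800) (nat_lit 532) (nat_lit 24497880218) (nat_lit 143) (nat_lit 5) (nat_lit 149) (nat_lit 5) (nat_lit 150) (nat_lit 5) (nat_lit 365) (nat_lit 334) (nat_lit 81))) (XT.nd (nat_lit 78) (nat_lit 456) (nat_lit 0) (XT.lf (nat_lit 0) (nat_lit 43623137812) (nat_lit 532) (nat_lit 7335582675) (nat_lit 76) (nat_lit 10365065148) (nat_lit 143) (nat_lit 5) (nat_lit 150) (nat_lit 5) (nat_lit 144) (nat_lit 5) (nat_lit 366) (nat_lit 334) (nat_lit 80)) (XT.lf (nat_lit 0) (nat_lit 24006511907) (nat_lit 456) (nat_lit 28085845698) (nat_lit 532) (nat_lit 10330730168) (nat_lit 137) (nat_lit 5) (nat_lit 143) (nat_lit 5) (nat_lit 144) (nat_lit 5) (nat_lit 367) (nat_lit 334)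 (nat_lit 79))))) (XT.nd (nat_lit 312) (nat_lit 760) (nat_lit 0) (XT.nd (nat_lit 156) (nat_lit 456) (nat_lit 0) (XT.nd (nat_lit 78) (nat_lit 456) (nat_lit 0) (XT.lf (nat_lit 0) (nat_lit 56438304884) (nat_lit 456) (nat_lit 4450609179) (nat_lit 532) (nat_lit 2664257809) (nat_lit 137) (nat_lit 5) (nat_lit 143) (nat_lit 5) (nat_lit 144) (nat_lit 5) (nat_lit 368) (nat_lit 334) (nat_lit 78)) (XT.lf (nat_lit 0) (nat_lit 5569300890) (nat_lit 456) (nat_lit 39328753255) (nat_lit 76) (nat_lit 19804420410) (nat_lit 131) (nat_lit 5) (nat_lit 137) (nat_lit 5) (nat_lit 132) (nat_lit 5) (nat_lit 369) (nat_lit 334) (nat_lit 77))) (XT.nd (nat_lit 78) (nat_lit 456) (nat_lit 0) (XT.lf (nat_lit 0) (nat_lit 14112153919) (nat_lit 456) (nat_lit 6973381309) (nat_lit 76) (nat_lit 44796455271) (nat_lit 131) (nat_lit 5) (nat_lit 137) (nat_lit 5) (nat_lit 132) (nat_lit 5) (nat_lit 370) (nat_lit 334) (nat_lit 76)) (XT.lf (nat_lit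 0) (nat_lit 23204516294) (nat_lit 532) (nat_lit 40248611270) (nat_lit 76) (nat_lit 3634968265) (nat_lit 125) (nat_lit 5) (nat_lit 132) (nat_lit 5) (nat_lit 126) (nat_lit 5) (nat_lit 371) (nat_lit 334) (nat_lit 75)))) (XT.nd (nat_lit 156) (nat_lit 380) (nat_lit 0) (XT.nd (nat_lit 78) (nat_lit 380) (nat_lit 0) (XT.lf (nat_lit 0) (nat_lit 32848780403) (nat_lit 532) (nat_lit 6728977934) (nat_lit 76) (nat_lit 28744252659) (nat_lit 125) (nat_lit 5) (nat_lit 132) (nat_lit 5) (nat_lit 126) (nat_lit 5) (nat_lit 372) (nat_lit 334) (nat_lit 74)) (XT.lf (nat_lit 0) (nat_lit 28348528090) (nat_lit 380) (nat_lit 14705618132) (nat_lit 456) (nat_lit 26530644768) (nat_lit 120) (nat_lit 5) (nat_lit 125) (nat_lit 5) (nat_lit 126) (nat_lit 5) (nat_lit 373) (nat_lit 334) (nat_lit 73))) (XT.nd (nat_lit 78) (nat_lit 380) (nat_lit 0) (XT.lf (nat_lit 0) (nat_lit 53738476121) (nat_lit 456) (nat_lit 6373601148) (nat_lit 76)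 (nat_lit 10768193590) (nat_lit 120) (nat_lit 5) (nat_lit 126) (nat_lit 5) (nat_lit 121) (nat_lit 5) (nat_lit 374) (nat_lit 334) (nat_lit 72)) (XT.lf (nat_lit 0) (nat_lit 29973344883) (nat_lit 380) (nat_lit 35203015705) (nat_lit 456) (nat_lit 7025264346) (nat_lit 115) (nat_lit 5) (nat_lit 120) (nat_lit 5) (nat_lit 121) (nat_lit 5) (nat_lit 375) (nat_lit 334) (nat_lit 71))))))))
noncomputable def xc243 : XT := (XT.nd (nat_lit 38610) (nat_lit 0) (nat_lit 1672) (XT.nd (nat_lit 37518) (nat_lit 0) (nat_lit 8132) (XT.nd (nat_lit 546) (nat_lit 988) (nat_lit 0) (XT.nd (nat_lit 234) (nat_lit 684) (nat_lit 0) (XT.nd (nat_lit 78) (nat_lit 380) (nat_lit 0) (XT.lf (nat_lit 0) (nat_lit 3392822997) (nat_lit 456) (nat_lit 6053495667) (nat_lit 76) (nat_lit 64113393360) (nat_lit 114) (nat_lit 5) (nat_lit 120) (nat_lit 5) (nat_lit 115) (nat_lit 5) (nat_lit 376) (nat_lit 334) (nat_lit 70)) (XT.nd (nat_lit 78) (nat_lit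 0) (nat_lit 0) (XT.lf (nat_lit 0) (nat_lit 14454757455) (nat_lit 456) (nat_lit 43359458441) (nat_lit 76) (nat_lit 17128064463) (nat_lit 109) (nat_lit 5) (nat_lit 115) (nat_lit 5) (nat_lit 110) (nat_lit 5) (nat_lit 377) (nat_lit 334) (nat_lit 69)) (XT.lf (nat_lit 0) (nat_lit 26003148197) (nat_lit 456) (nat_lit 5987178361) (nat_lit 76) (nat_lit 44371361727) (nat_lit 109) (nat_lit 5) (nat_lit 115) (nat_lit 5) (nat_lit 110) (nat_lit 5) (nat_lit 378) (nat_lit 334) (nat_lit 68)))) (XT.nd (nat_lit 156) (nat_lit 304) (nat_lit 0) (XT.nd (nat_lit 78) (nat_lit 0) (nat_lit 0) (XT.lf (nat_lit 0) (nat_lit 33152344105) (nat_lit 380) (nat_lit 5063683165) (nat_lit 456) (nat_lit 39598110559) (nat_lit 104) (nat_lit 5) (nat_lit 109) (nat_lit 5) (nat_lit 110) (nat_lit 5) (nat_lit 379) (nat_lit 334) (nat_lit 67)) (XT.lf (nat_lit 0) (nat_lit 51073639991) (nat_lit 456) (nat_lit 5938944204) (nat_lit 76) (nat_lit 22289226706)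 (nat_lit 104) (nat_lit 5) (nat_lit 110) (nat_lit 5) (nat_lit 105) (nat_lit 5) (nat_lit 380) (nat_lit 334) (nat_lit 66))) (XT.nd (nat_lit 78) (nat_lit 0) (nat_lit 0) (XT.lf (nat_lit 0) (nat_lit 34569192917) (nat_lit 304) (nat_lit 30129607090) (nat_lit 380) (nat_lit 16123860039) (nat_lit 100) (nat_lit 5) (nat_lit 104) (nat_lit 5) (nat_lit 105) (nat_lit 5) (nat_lit 381) (nat_lit 334) (nat_lit 65)) (XT.lf (nat_lit 0) (nat_lit 76413492969) (nat_lit 304) (nat_lit 2378586801) (nat_lit 380) (nat_lit 3595274383) (nat_lit 100) (nat_lit 5) (nat_lit 104) (nat_lit 5) (nat_lit 105) (nat_lit 5) (nat_lit 382) (nat_lit 334) (nat_lit 64))))) (XT.nd (nat_lit 234) (nat_lit 304) (nat_lit 0) (XT.nd (nat_lit 78) (nat_lit 304) (nat_lit 0) (XT.lf (nat_lit 0) (nat_lit 9730431209) (nat_lit 380) (nat_lit 48113285300) (nat_lit 76) (nat_lit 26134500888) (nat_lit 95) (nat_lit 5) (nat_lit 100) (nat_lit 5) (nat_lit 96) (nat_lit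 5) (nat_lit 383) (nat_lit 334) (nat_lit 63)) (XT.nd (nat_lit 78) (nat_lit 304) (nat_lit 0) (XT.lf (nat_lit 0) (nat_lit 23467530624) (nat_lit 380) (nat_lit 6594213640) (nat_lit 76) (nat_lit 55551478246) (nat_lit 95) (nat_lit 5) (nat_lit 100) (nat_lit 5) (nat_lit 96) (nat_lit 5) (nat_lit 384) (nat_lit 334) (nat_lit 62)) (XT.lf (nat_lit 0) (nat_lit 36889480794) (nat_lit 304) (nat_lit 1081295796) (nat_lit 380) (nat_lit 49315880567) (nat_lit 91) (nat_lit 5) (nat_lit 95) (nat_lit 5) (nat_lit 96) (nat_lit 5) (nat_lit 385) (nat_lit 334) (nat_lit 61)))) (XT.nd (nat_lit 156) (nat_lit 0) (nat_lit 0) (XT.nd (nat_lit 78) (nat_lit 304) (nat_lit 0) (XT.lf (nat_lit 0) (nat_lit 53252345095) (nat_lit 380) (nat_lit 7473439815) (nat_lit 76) (nat_lit 28274213555) (nat_lit 91) (nat_lit 5) (nat_lit 96) (nat_lit 5) (nat_lit 92) (nat_lit 5) (nat_lit 386) (nat_lit 334) (nat_lit 60)) (XT.lf (nat_lit 0) (nat_lit 37457452890)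 (nat_lit 304) (nat_lit 31905130215) (nat_lit 380) (nat_lit 21391050598) (nat_lit 87) (nat_lit 5) (nat_lit 91) (nat_lit 5) (nat_lit 92) (nat_lit 5) (nat_lit 387) (nat_lit 334) (nat_lit 59))) (XT.nd (nat_lit 36504) (nat_lit 0) (nat_lit 8968) (XT.lf (nat_lit 0) (nat_lit 83888698350) (nat_lit 304) (nat_lit 2142358115) (nat_lit 380) (nat_lit 6526574039) (nat_lit 87) (nat_lit 5) (nat_lit 91) (nat_lit 5) (nat_lit 92) (nat_lit 5) (nat_lit 388) (nat_lit 334) (nat_lit 58)) (XT.lf (nat_lit 0) (nat_lit 6319129366) (nat_lit 0) (nat_lit 6319129366) (nat_lit 1140) (nat_lit 6126661101) (nat_lit 205) (nat_lit 5) (nat_lit 205) (nat_lit 3) (nat_lit 220) (nat_lit 3) (nat_lit 335) (nat_lit 335) (nat_lit 110)))))) (XT.nd (nat_lit 546) (nat_lit 836) (nat_lit 0) (XT.nd (nat_lit 234) (nat_lit 0) (nat_lit 76) (XT.nd (nat_lit 78) (nat_lit 0) (nat_lit 0) (XT.lf (nat_lit 0) (nat_lit 25745565273) (nat_lit 1140) (nat_lit 7720191447)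 (nat_lit 1216) (nat_lit 4624287438) (nat_lit 205) (nat_lit 5) (nat_lit 220) (nat_lit 3) (nat_lit 221) (nat_lit 5) (nat_lit 336) (nat_lit 335) (nat_lit 109)) (XT.nd (nat_lit 78) (nat_lit 0) (nat_lit 76) (XT.lf (nat_lit 76) (nat_lit 10036117310) (nat_lit 0) (nat_lit 16412440934) (nat_lit 1216) (nat_lit 12211902128) (nat_lit 206) (nat_lit 5) (nat_lit 205) (nat_lit 5) (nat_lit 221) (nat_lit 5) (nat_lit 337) (nat_lit 335) (nat_lit 108)) (XT.lf (nat_lit 0) (nat_lit 27260768025) (nat_lit 1140) (nat_lit 10775111374) (nat_lit 1216) (nat_lit 1209467610) (nat_lit 206) (nat_lit 5) (nat_lit 221) (nat_lit 5) (nat_lit 222) (nat_lit 5) (nat_lit 338) (nat_lit 335) (nat_lit 107)))) (XT.nd (nat_lit 156) (nat_lit 0) (nat_lit 76) (XT.nd (nat_lit 78) (nat_lit 0) (nat_lit 0) (XT.lf (nat_lit 76) (nat_lit 7594336737) (nat_lit 0) (nat_lit 20736875240) (nat_lit 1216) (nat_lit 11509553928) (nat_lit 207) (nat_lit 5) (nat_lit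 206) (nat_lit 5) (nat_lit 222) (nat_lit 5) (nat_lit 339) (nat_lit 335) (nat_lit 106)) (XT.lf (nat_lit 76) (nat_lit 26734802890) (nat_lit 0) (nat_lit 2806179391) (nat_lit 1216) (nat_lit 10909850342) (nat_lit 207) (nat_lit 5) (nat_lit 206) (nat_lit 5) (nat_lit 222) (nat_lit 5) (nat_lit 340) (nat_lit 335) (nat_lit 105))) (XT.nd (nat_lit 78) (nat_lit 0) (nat_lit 0) (XT.lf (nat_lit 76) (nat_lit 5322616970) (nat_lit 0) (nat_lit 25664607944) (nat_lit 1216) (nat_lit 10085972651) (nat_lit 208) (nat_lit 5) (nat_lit 207) (nat_lit 5) (nat_lit 223) (nat_lit 5) (nat_lit 341) (nat_lit 335) (nat_lit 104)) (XT.lf (nat_lit 76) (nat_lit 25184289638) (nat_lit 0) (nat_lit 7457075465) (nat_lit 1216) (nat_lit 9067934596) (nat_lit 208) (nat_lit 5) (nat_lit 207) (nat_lit 5) (nat_lit 223) (nat_lit 5) (nat_lit 342) (nat_lit 335) (nat_lit 103))))) (XT.nd (nat_lit 234) (nat_lit 1064) (nat_lit 0) (XT.nd (nat_lit 78) (nat_lit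 0) (nat_lit 0) (XT.lf (nat_lit 76) (nat_lit 3230797310) (nat_lit 0) (nat_lit 31252521877) (nat_lit 1216) (nat_lit 7877021525) (nat_lit 209) (nat_lit 5) (nat_lit 208) (nat_lit 5) (nat_lit 224) (nat_lit 5) (nat_lit 343) (nat_lit 335) (nat_lit 102)) (XT.nd (nat_lit 78) (nat_lit 0) (nat_lit 76) (XT.lf (nat_lit 76) (nat_lit 23841749074) (nat_lit 0) (nat_lit 12777337345) (nat_lit 1216) (nat_lit 6404671364) (nat_lit 209) (nat_lit 5) (nat_lit 208) (nat_lit 5) (nat_lit 224) (nat_lit 5) (nat_lit 344) (nat_lit 335) (nat_lit 101)) (XT.lf (nat_lit 76) (nat_lit 1328789239) (nat_lit 0) (nat_lit 37561631023) (nat_lit 1216) (nat_lit 4814513717) (nat_lit 210) (nat_lit 5) (nat_lit 209) (nat_lit 5) (nat_lit 225) (nat_lit 5) (nat_lit 345) (nat_lit 335) (nat_lit 100)))) (XT.nd (nat_lit 156) (nat_lit 1140) (nat_lit 0) (XT.nd (nat_lit 78) (nat_lit 0) (nat_lit 76) (XT.lf (nat_lit 76) (nat_lit 22718113971) (nat_lit 0) (nat_lit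 18829400960) (nat_lit 1216) (nat_lit 2849503285) (nat_lit 210) (nat_lit 5) (nat_lit 209) (nat_lit 5) (nat_lit 225) (nat_lit 5) (nat_lit 346) (nat_lit 335) (nat_lit 99)) (XT.lf (nat_lit 0) (nat_lit 44287485126) (nat_lit 1140) (nat_lit 366213265) (nat_lit 1216) (nat_lit 456073047) (nat_lit 210) (nat_lit 5) (nat_lit 225) (nat_lit 5) (nat_lit 226) (nat_lit 5) (nat_lit 347) (nat_lit 335) (nat_lit 98))) (XT.nd (nat_lit 78) (nat_lit 0) (nat_lit 0) (XT.lf (nat_lit 0) (nat_lit 1639908340) (nat_lit 1216) (nat_lit 24023807263) (nat_lit 1292) (nat_lit 20167862087) (nat_lit 194) (nat_lit 5) (nat_lit 210) (nat_lit 5) (nat_lit 211) (nat_lit 5) (nat_lit 348) (nat_lit 335) (nat_lit 97)) (XT.lf (nat_lit 0) (nat_lit 4161923308) (nat_lit 1216) (nat_lit 1929610998) (nat_lit 1292) (nat_lit 40483186356) (nat_lit 194) (nat_lit 5) (nat_lit 210) (nat_lit 5) (nat_lit 211) (nat_lit 5) (nat_lit 349) (nat_lit 335) (nat_lit 96)))))))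 (XT.nd (nat_lit 1092) (nat_lit 3572) (nat_lit 0) (XT.nd (nat_lit 546) (nat_lit 1672) (nat_lit 0) (XT.nd (nat_lit 234) (nat_lit 1292) (nat_lit 0) (XT.nd (nat_lit 78) (nat_lit 0) (nat_lit 0) (XT.lf (nat_lit 0) (nat_lit 7099815605) (nat_lit 1216) (nat_lit 26230381933) (nat_lit 1292) (nat_lit 13999755070) (nat_lit 195) (nat_lit 5) (nat_lit 211) (nat_lit 5) (nat_lit 212) (nat_lit 5) (nat_lit 350) (nat_lit 335) (nat_lit 95)) (XT.nd (nat_lit 78) (nat_lit 0) (nat_lit 76) (XT.lf (nat_lit 0) (nat_lit 10204647209) (nat_lit 1216) (nat_lit 3309566624) (nat_lit 1292) (nat_lit 34591264759) (nat_lit 195) (nat_lit 5) (nat_lit 211) (nat_lit 5) (nat_lit 212) (nat_lit 5) (nat_lit 351) (nat_lit 335) (nat_lit 94)) (XT.lf (nat_lit 0) (nat_lit 13668732753) (nat_lit 1216) (nat_lit 28264716484) (nat_lit 76) (nat_lit 6962838968) (nat_lit 196) (nat_lit 5) (nat_lit 212) (nat_lit 5) (nat_lit 197) (nat_lit 5) (nat_lit 352) (nat_lit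 335) (nat_lit 93)))) (XT.nd (nat_lit 156) (nat_lit 608) (nat_lit 0) (XT.nd (nat_lit 78) (nat_lit 760) (nat_lit 0) (XT.lf (nat_lit 0) (nat_lit 17403168883) (nat_lit 1216) (nat_lit 4486153384) (nat_lit 76) (nat_lit 27816508088) (nat_lit 196) (nat_lit 5) (nat_lit 212) (nat_lit 5) (nat_lit 197) (nat_lit 5) (nat_lit 353) (nat_lit 335) (nat_lit 92)) (XT.lf (nat_lit 0) (nat_lit 20402944278) (nat_lit 760) (nat_lit 1041725125) (nat_lit 836) (nat_lit 29089139484) (nat_lit 186) (nat_lit 5) (nat_lit 196) (nat_lit 5) (nat_lit 197) (nat_lit 5) (nat_lit 354) (nat_lit 335) (nat_lit 91))) (XT.nd (nat_lit 78) (nat_lit 608) (nat_lit 0) (XT.lf (nat_lit 0) (nat_lit 25848492647) (nat_lit 836) (nat_lit 5452420036) (nat_lit 76) (nat_lit 20078482787) (nat_lit 186) (nat_lit 5) (nat_lit 197) (nat_lit 5) (nat_lit 187) (nat_lit 5) (nat_lit 355) (nat_lit 335) (nat_lit 90)) (XT.lf (nat_lit 0) (nat_lit 20352255955) (nat_lit 608)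 (nat_lit 10237087926) (nat_lit 684) (nat_lit 21654859367) (nat_lit 178) (nat_lit 5) (nat_lit 186) (nat_lit 5) (nat_lit 187) (nat_lit 5) (nat_lit 356) (nat_lit 335) (nat_lit 89))))) (XT.nd (nat_lit 234) (nat_lit 1140) (nat_lit 0) (XT.nd (nat_lit 78) (nat_lit 532) (nat_lit 0) (XT.lf (nat_lit 0) (nat_lit 35637154855) (nat_lit 684) (nat_lit 6202131202) (nat_lit 76) (nat_lit 11290728143) (nat_lit 178) (nat_lit 5) (nat_lit 187) (nat_lit 5) (nat_lit 179) (nat_lit 5) (nat_lit 357) (nat_lit 335) (nat_lit 88)) (XT.nd (nat_lit 78) (nat_lit 0) (nat_lit 0) (XT.lf (nat_lit 0) (nat_lit 20557219408) (nat_lit 532) (nat_lit 20577158998) (nat_lit 608) (nat_lit 12899082666) (nat_lit 171) (nat_lit 5) (nat_lit 178) (nat_lit 5) (nat_lit 179) (nat_lit 5) (nat_lit 358) (nat_lit 335) (nat_lit 87)) (XT.lf (nat_lit 0) (nat_lit 46871516388) (nat_lit 608) (nat_lit 6729949271) (nat_lit 76) (nat_lit 1360296672) (nat_lit 171) (nat_lit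 5) (nat_lit 179) (nat_lit 5) (nat_lit 172) (nat_lit 5) (nat_lit 359) (nat_lit 335) (nat_lit 86)))) (XT.nd (nat_lit 156) (nat_lit 532) (nat_lit 0) (XT.nd (nat_lit 78) (nat_lit 76) (nat_lit 0) (XT.lf (nat_lit 0) (nat_lit 21024317037) (nat_lit 532) (nat_lit 32161344895) (nat_lit 608) (nat_lit 2720104778) (nat_lit 164) (nat_lit 5) (nat_lit 171) (nat_lit 5) (nat_lit 172) (nat_lit 5) (nat_lit 360) (nat_lit 335) (nat_lit 85)) (XT.lf (nat_lit 0) (nat_lit 2823986324) (nat_lit 608) (nat_lit 7155529913) (nat_lit 76) (nat_lit 46895734109) (nat_lit 163) (nat_lit 5) (nat_lit 171) (nat_lit 5) (nat_lit 164) (nat_lit 5) (nat_lit 361) (nat_lit 335) (nat_lit 84))) (XT.nd (nat_lit 78) (nat_lit 0) (nat_lit 0) (XT.lf (nat_lit 0) (nat_lit 8814411059) (nat_lit 608) (nat_lit 36193082760) (nat_lit 76) (nat_lit 12855477061) (nat_lit 156) (nat_lit 5) (nat_lit 164) (nat_lit 5) (nat_lit 157) (nat_lit 5) (nat_lit 362) (nat_lit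 335) (nat_lit 83)) (XT.lf (nat_lit 0) (nat_lit 15155441276) (nat_lit 608) (nat_lit 7471869050) (nat_lit 76) (nat_lit 36247886709) (nat_lit 156) (nat_lit 5) (nat_lit 164) (nat_lit 5) (nat_lit 157) (nat_lit 5) (nat_lit 363) (nat_lit 335) (nat_lit 82)))))) (XT.nd (nat_lit 546) (nat_lit 1672) (nat_lit 0) (XT.nd (nat_lit 234) (nat_lit 912) (nat_lit 0) (XT.nd (nat_lit 78) (nat_lit 456) (nat_lit 0) (XT.lf (nat_lit 0) (nat_lit 21908831106) (nat_lit 608) (nat_lit 37367436794) (nat_lit 76) (nat_lit 634858977) (nat_lit 149) (nat_lit 5) (nat_lit 157) (nat_lit 5) (nat_lit 150) (nat_lit 5) (nat_lit 364) (nat_lit 335) (nat_lit 81)) (XT.nd (nat_lit 78) (nat_lit 456) (nat_lit 0) (XT.lf (nat_lit 0) (nat_lit 29164208701) (nat_lit 608) (nat_lit 7588699292) (nat_lit 76) (nat_lit 24216245780) (nat_lit 149) (nat_lit 5) (nat_lit 157) (nat_lit 5) (nat_lit 150) (nat_lit 5) (nat_lit 365) (nat_lit 335) (nat_lit 80)) (XT.lf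 (nat_lit 0) (nat_lit 23541884004) (nat_lit 456) (nat_lit 13320842246) (nat_lit 532) (nat_lit 25189431586) (nat_lit 143) (nat_lit 5) (nat_lit 149) (nat_lit 5) (nat_lit 150) (nat_lit 5) (nat_lit 366) (nat_lit 335) (nat_lit 79)))) (XT.nd (nat_lit 156) (nat_lit 456) (nat_lit 0) (XT.nd (nat_lit 78) (nat_lit 456) (nat_lit 0) (XT.lf (nat_lit 0) (nat_lit 44972735673) (nat_lit 532) (nat_lit 7509037103) (nat_lit 76) (nat_lit 10680463854) (nat_lit 143) (nat_lit 5) (nat_lit 150) (nat_lit 5) (nat_lit 144) (nat_lit 5) (nat_lit 367) (nat_lit 335) (nat_lit 78)) (XT.lf (nat_lit 0) (nat_lit 24772863325) (nat_lit 456) (nat_lit 28922421044) (nat_lit 532) (nat_lit 10599256927) (nat_lit 137) (nat_lit 5) (nat_lit 143) (nat_lit 5) (nat_lit 144) (nat_lit 5) (nat_lit 368) (nat_lit 335) (nat_lit 77))) (XT.nd (nat_lit 78) (nat_lit 456) (nat_lit 0) (XT.lf (nat_lit 0) (nat_lit 58176265740) (nat_lit 456) (nat_lit 4578302188)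 (nat_lit 532) (nat_lit 2703996081) (nat_lit 137) (nat_lit 5) (nat_lit 143) (nat_lit 5) (nat_lit 144) (nat_lit 5) (nat_lit 369) (nat_lit 335) (nat_lit 76)) (XT.lf (nat_lit 0) (nat_lit 5775134100) (nat_lit 456) (nat_lit 40462304904) (nat_lit 76) (nat_lit 20404915655) (nat_lit 131) (nat_lit 5) (nat_lit 137) (nat_lit 5) (nat_lit 132) (nat_lit 5) (nat_lit 370) (nat_lit 335) (nat_lit 75))))) (XT.nd (nat_lit 312) (nat_lit 836) (nat_lit 0) (XT.nd (nat_lit 156) (nat_lit 380) (nat_lit 0) (XT.nd (nat_lit 78) (nat_lit 456) (nat_lit 0) (XT.lf (nat_lit 0) (nat_lit 14573143957) (nat_lit 456) (nat_lit 7137620662) (nat_lit 76) (nat_lit 46146526243) (nat_lit 131) (nat_lit 5) (nat_lit 137) (nat_lit 5) (nat_lit 132) (nat_lit 5) (nat_lit 371) (nat_lit 335) (nat_lit 74)) (XT.lf (nat_lit 0) (nat_lit 23937681991) (nat_lit 532) (nat_lit 41410482611) (nat_lit 76) (nat_lit 3751433497) (nat_lit 125) (nat_lit 5) (nat_lit 132)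 (nat_lit 5) (nat_lit 126) (nat_lit 5) (nat_lit 372) (nat_lit 335) (nat_lit 73))) (XT.nd (nat_lit 78) (nat_lit 380) (nat_lit 0) (XT.lf (nat_lit 0) (nat_lit 33870195473) (nat_lit 532) (nat_lit 6886588052) (nat_lit 76) (nat_lit 29613780418) (nat_lit 125) (nat_lit 5) (nat_lit 132) (nat_lit 5) (nat_lit 126) (nat_lit 5) (nat_lit 373) (nat_lit 335) (nat_lit 72)) (XT.lf (nat_lit 0) (nat_lit 29242809239) (nat_lit 380) (nat_lit 15138287168) (nat_lit 456) (nat_lit 27290150545) (nat_lit 120) (nat_lit 5) (nat_lit 125) (nat_lit 5) (nat_lit 126) (nat_lit 5) (nat_lit 374) (nat_lit 335) (nat_lit 71)))) (XT.nd (nat_lit 156) (nat_lit 456) (nat_lit 0) (XT.nd (nat_lit 78) (nat_lit 380) (nat_lit 0) (XT.lf (nat_lit 0) (nat_lit 55385006618) (nat_lit 456) (nat_lit 6521283579) (nat_lit 76) (nat_lit 11099330322) (nat_lit 120) (nat_lit 5) (nat_lit 126) (nat_lit 5) (nat_lit 121) (nat_lit 5) (nat_lit 375) (nat_lit 335) (nat_lit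 70)) (XT.lf (nat_lit 0) (nat_lit 30915644111) (nat_lit 380) (nat_lit 36249796552) (nat_lit 456) (nat_lit 7201192954) (nat_lit 115) (nat_lit 5) (nat_lit 120) (nat_lit 5) (nat_lit 121) (nat_lit 5) (nat_lit 376) (nat_lit 335) (nat_lit 69))) (XT.nd (nat_lit 78) (nat_lit 380) (nat_lit 0) (XT.lf (nat_lit 0) (nat_lit 3527762713) (nat_lit 456) (nat_lit 6192572240) (nat_lit 76) (nat_lit 66045148908) (nat_lit 114) (nat_lit 5) (nat_lit 120) (nat_lit 5) (nat_lit 115) (nat_lit 5) (nat_lit 377) (nat_lit 335) (nat_lit 68)) (XT.lf (nat_lit 0) (nat_lit 14921085810) (nat_lit 456) (nat_lit 44617220354) (nat_lit 76) (nat_lit 17651237888) (nat_lit 109) (nat_lit 5) (nat_lit 115) (nat_lit 5) (nat_lit 110) (nat_lit 5) (nat_lit 378) (nat_lit 335) (nat_lit 67))))))))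
noncomputable def xc244 : XT := (XT.nd (nat_lit 38766) (nat_lit 0) (nat_lit 684) (XT.nd (nat_lit 37674) (nat_lit 0) (nat_lit 7828) (XT.nd (nat_lit 546) (nat_lit 304) (nat_lit 0) (XT.nd (nat_lit 234) (nat_lit 684) (nat_lit 0) (XT.nd (nat_lit 78) (nat_lit 380) (nat_lit 0) (XT.lf (nat_lit 0) (nat_lit 26814976266) (nat_lit 456) (nat_lit 6125024935) (nat_lit 76) (nat_lit 45711562280) (nat_lit 109) (nat_lit 5) (nat_lit 115) (nat_lit 5) (nat_lit 110) (nat_lit 5) (nat_lit 379) (nat_lit 335) (nat_lit 66)) (XT.nd (nat_lit 78) (nat_lit 0) (nat_lit 0) (XT.lf (nat_lit 0) (nat_lit 34188273706) (nat_lit 380) (nat_lit 5205441294) (nat_lit 456) (nat_lit 40753887994) (nat_lit 104) (nat_lit 5) (nat_lit 109) (nat_lit 5) (nat_lit 110) (nat_lit 5) (nat_lit 380) (nat_lit 335) (nat_lit 65)) (XT.lf (nat_lit 0) (nat_lit 52636241912) (nat_lit 456) (nat_lit 6076121601) (nat_lit 76) (nat_lit 22967567833) (nat_lit 104) (nat_lit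 5) (nat_lit 110) (nat_lit 5) (nat_lit 105) (nat_lit 5) (nat_lit 381) (nat_lit 335) (nat_lit 64)))) (XT.nd (nat_lit 156) (nat_lit 380) (nat_lit 0) (XT.nd (nat_lit 78) (nat_lit 0) (nat_lit 0) (XT.lf (nat_lit 0) (nat_lit 35646857761) (nat_lit 304) (nat_lit 31022803910) (nat_lit 380) (nat_lit 16576759792) (nat_lit 100) (nat_lit 5) (nat_lit 104) (nat_lit 5) (nat_lit 105) (nat_lit 5) (nat_lit 382) (nat_lit 335) (nat_lit 63)) (XT.lf (nat_lit 0) (nat_lit 78745304609) (nat_lit 304) (nat_lit 2439564412) (nat_lit 380) (nat_lit 3673214121) (nat_lit 100) (nat_lit 5) (nat_lit 104) (nat_lit 5) (nat_lit 105) (nat_lit 5) (nat_lit 383) (nat_lit 335) (nat_lit 62))) (XT.nd (nat_lit 78) (nat_lit 0) (nat_lit 0) (XT.lf (nat_lit 0) (nat_lit 10051308660) (nat_lit 380) (nat_lit 49516283172) (nat_lit 76) (nat_lit 26929083518) (nat_lit 95) (nat_lit 5) (nat_lit 100) (nat_lit 5) (nat_lit 96) (nat_lit 5) (nat_lit 384) (nat_lit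 335) (nat_lit 61)) (XT.lf (nat_lit 0) (nat_lit 24199677431) (nat_lit 380) (nat_lit 6752816081) (nat_lit 76) (nat_lit 57228262985) (nat_lit 95) (nat_lit 5) (nat_lit 100) (nat_lit 5) (nat_lit 96) (nat_lit 5) (nat_lit 385) (nat_lit 335) (nat_lit 60))))) (XT.nd (nat_lit 36816) (nat_lit 0) (nat_lit 8664) (XT.nd (nat_lit 78) (nat_lit 0) (nat_lit 0) (XT.lf (nat_lit 0) (nat_lit 38035004638) (nat_lit 304) (nat_lit 1102570431) (nat_lit 380) (nat_lit 50766833040) (nat_lit 91) (nat_lit 5) (nat_lit 95) (nat_lit 5) (nat_lit 96) (nat_lit 5) (nat_lit 386) (nat_lit 335) (nat_lit 59)) (XT.nd (nat_lit 36660) (nat_lit 0) (nat_lit 8664) (XT.lf (nat_lit 0) (nat_lit 54876888747) (nat_lit 380) (nat_lit 7659214985) (nat_lit 76) (nat_lit 29133067519) (nat_lit 91) (nat_lit 5) (nat_lit 96) (nat_lit 5) (nat_lit 92) (nat_lit 5) (nat_lit 387) (nat_lit 335) (nat_lit 58)) (XT.lf (nat_lit 0) (nat_lit 6530771007) (nat_lit 0) (nat_lit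 6530771007) (nat_lit 1140) (nat_lit 6264955690) (nat_lit 205) (nat_lit 5) (nat_lit 205) (nat_lit 3) (nat_lit 220) (nat_lit 3) (nat_lit 336) (nat_lit 336) (nat_lit 108)))) (XT.nd (nat_lit 156) (nat_lit 0) (nat_lit 76) (XT.nd (nat_lit 78) (nat_lit 0) (nat_lit 0) (XT.lf (nat_lit 0) (nat_lit 26603220370) (nat_lit 1140) (nat_lit 7905875612) (nat_lit 1216) (nat_lit 4721002200) (nat_lit 205) (nat_lit 5) (nat_lit 220) (nat_lit 3) (nat_lit 221) (nat_lit 5) (nat_lit 337) (nat_lit 336) (nat_lit 107)) (XT.lf (nat_lit 76) (nat_lit 10382672196) (nat_lit 0) (nat_lit 16942583912) (nat_lit 1216) (nat_lit 12492434767) (nat_lit 206) (nat_lit 5) (nat_lit 205) (nat_lit 5) (nat_lit 221) (nat_lit 5) (nat_lit 338) (nat_lit 336) (nat_lit 106))) (XT.nd (nat_lit 78) (nat_lit 0) (nat_lit 0) (XT.lf (nat_lit 0) (nat_lit 28159055192) (nat_lit 1140) (nat_lit 11051357201) (nat_lit 1216) (nat_lit 1209797535) (nat_lit 206) (nat_lit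 5) (nat_lit 221) (nat_lit 5) (nat_lit 222) (nat_lit 5) (nat_lit 339) (nat_lit 336) (nat_lit 105)) (XT.lf (nat_lit 76) (nat_lit 7868713496) (nat_lit 0) (nat_lit 21391002787) (nat_lit 1216) (nat_lit 11773834427) (nat_lit 207) (nat_lit 5) (nat_lit 206) (nat_lit 5) (nat_lit 222) (nat_lit 5) (nat_lit 340) (nat_lit 336) (nat_lit 104)))))) (XT.nd (nat_lit 546) (nat_lit 912) (nat_lit 0) (XT.nd (nat_lit 234) (nat_lit 0) (nat_lit 152) (XT.nd (nat_lit 78) (nat_lit 0) (nat_lit 76) (XT.lf (nat_lit 76) (nat_lit 27582037906) (nat_lit 0) (nat_lit 2921453403) (nat_lit 1216) (nat_lit 11158499135) (nat_lit 207) (nat_lit 5) (nat_lit 206) (nat_lit 5) (nat_lit 222) (nat_lit 5) (nat_lit 341) (nat_lit 336) (nat_lit 103)) (XT.nd (nat_lit 78) (nat_lit 0) (nat_lit 0) (XT.lf (nat_lit 76) (nat_lit 5529683223) (nat_lit 0) (nat_lit 26461381645) (nat_lit 1216) (nat_lit 10312025452) (nat_lit 208) (nat_lit 5) (nat_lit 207) (nat_lit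 5) (nat_lit 223) (nat_lit 5) (nat_lit 342) (nat_lit 336) (nat_lit 102)) (XT.lf (nat_lit 76) (nat_lit 25985825845) (nat_lit 0) (nat_lit 7706841576) (nat_lit 1216) (nat_lit 9265675179) (nat_lit 208) (nat_lit 5) (nat_lit 207) (nat_lit 5) (nat_lit 223) (nat_lit 5) (nat_lit 343) (nat_lit 336) (nat_lit 101)))) (XT.nd (nat_lit 156) (nat_lit 0) (nat_lit 76) (XT.nd (nat_lit 78) (nat_lit 0) (nat_lit 0) (XT.lf (nat_lit 76) (nat_lit 3375739851) (nat_lit 0) (nat_lit 32212259836) (nat_lit 1216) (nat_lit 8040973733) (nat_lit 209) (nat_lit 5) (nat_lit 208) (nat_lit 5) (nat_lit 224) (nat_lit 5) (nat_lit 344) (nat_lit 336) (nat_lit 100)) (XT.lf (nat_lit 76) (nat_lit 24603621567) (nat_lit 0) (nat_lit 13182174264) (nat_lit 1216) (nat_lit 6526560595) (nat_lit 209) (nat_lit 5) (nat_lit 208) (nat_lit 5) (nat_lit 224) (nat_lit 5) (nat_lit 345) (nat_lit 336) (nat_lit 99))) (XT.nd (nat_lit 78) (nat_lit 0) (nat_lit 0) (XT.lf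 (nat_lit 76) (nat_lit 1417114047) (nat_lit 0) (nat_lit 38706436104) (nat_lit 1216) (nat_lit 4890471381) (nat_lit 210) (nat_lit 5) (nat_lit 209) (nat_lit 5) (nat_lit 225) (nat_lit 5) (nat_lit 346) (nat_lit 336) (nat_lit 98)) (XT.lf (nat_lit 76) (nat_lit 23446707032) (nat_lit 0) (nat_lit 19411716144) (nat_lit 1216) (nat_lit 2868505133) (nat_lit 210) (nat_lit 5) (nat_lit 209) (nat_lit 5) (nat_lit 225) (nat_lit 5) (nat_lit 347) (nat_lit 336) (nat_lit 97))))) (XT.nd (nat_lit 234) (nat_lit 0) (nat_lit 76) (XT.nd (nat_lit 78) (nat_lit 1216) (nat_lit 0) (XT.lf (nat_lit 0) (nat_lit 45678551640) (nat_lit 1140) (nat_lit 329415515) (nat_lit 1216) (nat_lit 453160119) (nat_lit 210) (nat_lit 5) (nat_lit 225) (nat_lit 5) (nat_lit 226) (nat_lit 5) (nat_lit 348) (nat_lit 336) (nat_lit 96)) (XT.nd (nat_lit 78) (nat_lit 0) (nat_lit 0) (XT.lf (nat_lit 0) (nat_lit 1750849382) (nat_lit 1216) (nat_lit 24695916611) (nat_lit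 1292) (nat_lit 20757846342) (nat_lit 194) (nat_lit 5) (nat_lit 210) (nat_lit 5) (nat_lit 211) (nat_lit 5) (nat_lit 349) (nat_lit 336) (nat_lit 95)) (XT.lf (nat_lit 0) (nat_lit 4346726437) (nat_lit 1216) (nat_lit 1940310135) (nat_lit 1292) (nat_lit 41683068736) (nat_lit 194) (nat_lit 5) (nat_lit 210) (nat_lit 5) (nat_lit 211) (nat_lit 5) (nat_lit 350) (nat_lit 336) (nat_lit 94)))) (XT.nd (nat_lit 156) (nat_lit 0) (nat_lit 76) (XT.nd (nat_lit 78) (nat_lit 0) (nat_lit 0) (XT.lf (nat_lit 0) (nat_lit 7371344081) (nat_lit 1216) (nat_lit 26968635871) (nat_lit 1292) (nat_lit 14408058309) (nat_lit 195) (nat_lit 5) (nat_lit 211) (nat_lit 5) (nat_lit 212) (nat_lit 5) (nat_lit 351) (nat_lit 336) (nat_lit 93)) (XT.lf (nat_lit 0) (nat_lit 10567615759) (nat_lit 1216) (nat_lit 3361613312) (nat_lit 1292) (nat_lit 35617653757) (nat_lit 195) (nat_lit 5) (nat_lit 211) (nat_lit 5) (nat_lit 212) (nat_lit 5) (nat_lit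 352) (nat_lit 336) (nat_lit 92))) (XT.nd (nat_lit 78) (nat_lit 0) (nat_lit 0) (XT.lf (nat_lit 0) (nat_lit 14134333266) (nat_lit 1216) (nat_lit 29064073426) (nat_lit 76) (nat_lit 7163050365) (nat_lit 196) (nat_lit 5) (nat_lit 212) (nat_lit 5) (nat_lit 197) (nat_lit 5) (nat_lit 353) (nat_lit 336) (nat_lit 91)) (XT.lf (nat_lit 0) (nat_lit 17979184853) (nat_lit 1216) (nat_lit 4573568516) (nat_lit 76) (nat_lit 28642582193) (nat_lit 196) (nat_lit 5) (nat_lit 212) (nat_lit 5) (nat_lit 197) (nat_lit 5) (nat_lit 354) (nat_lit 336) (nat_lit 90))))))) (XT.nd (nat_lit 1092) (nat_lit 3268) (nat_lit 0) (XT.nd (nat_lit 546) (nat_lit 1596) (nat_lit 0) (XT.nd (nat_lit 234) (nat_lit 1064) (nat_lit 0) (XT.nd (nat_lit 78) (nat_lit 608) (nat_lit 0) (XT.lf (nat_lit 0) (nat_lit 21061739630) (nat_lit 760) (nat_lit 1079069223) (nat_lit 836) (nat_lit 29907379760) (nat_lit 186) (nat_lit 5) (nat_lit 196) (nat_lit 5) (nat_lit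 197) (nat_lit 5) (nat_lit 355) (nat_lit 336) (nat_lit 89)) (XT.nd (nat_lit 78) (nat_lit 608) (nat_lit 0) (XT.lf (nat_lit 0) (nat_lit 26675152091) (nat_lit 836) (nat_lit 5569002222) (nat_lit 76) (nat_lit 20675037794) (nat_lit 186) (nat_lit 5) (nat_lit 197) (nat_lit 5) (nat_lit 187) (nat_lit 5) (nat_lit 356) (nat_lit 336) (nat_lit 88)) (XT.lf (nat_lit 0) (nat_lit 21009353358) (nat_lit 608) (nat_lit 10547831378) (nat_lit 684) (nat_lit 22252792136) (nat_lit 178) (nat_lit 5) (nat_lit 186) (nat_lit 5) (nat_lit 187) (nat_lit 5) (nat_lit 357) (nat_lit 336) (nat_lit 87)))) (XT.nd (nat_lit 156) (nat_lit 532) (nat_lit 0) (XT.nd (nat_lit 78) (nat_lit 532) (nat_lit 0) (XT.lf (nat_lit 0) (nat_lit 36754935167) (nat_lit 684) (nat_lit 6341479507) (nat_lit 76) (nat_lit 11625993712) (nat_lit 178) (nat_lit 5) (nat_lit 187) (nat_lit 5) (nat_lit 179) (nat_lit 5) (nat_lit 358) (nat_lit 336) (nat_lit 86)) (XT.lf (nat_lit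 0) (nat_lit 21220193624) (nat_lit 532) (nat_lit 21195909011) (nat_lit 608) (nat_lit 13236886561) (nat_lit 171) (nat_lit 5) (nat_lit 178) (nat_lit 5) (nat_lit 179) (nat_lit 5) (nat_lit 359) (nat_lit 336) (nat_lit 85))) (XT.nd (nat_lit 78) (nat_lit 532) (nat_lit 0) (XT.lf (nat_lit 0) (nat_lit 48323952249) (nat_lit 608) (nat_lit 6885491303) (nat_lit 76) (nat_lit 1399739324) (nat_lit 171) (nat_lit 5) (nat_lit 179) (nat_lit 5) (nat_lit 172) (nat_lit 5) (nat_lit 360) (nat_lit 336) (nat_lit 84)) (XT.lf (nat_lit 0) (nat_lit 21700948518) (nat_lit 532) (nat_lit 33125666615) (nat_lit 608) (nat_lit 2754920734) (nat_lit 164) (nat_lit 5) (nat_lit 171) (nat_lit 5) (nat_lit 172) (nat_lit 5) (nat_lit 361) (nat_lit 336) (nat_lit 83))))) (XT.nd (nat_lit 234) (nat_lit 988) (nat_lit 0) (XT.nd (nat_lit 78) (nat_lit 532) (nat_lit 0) (XT.lf (nat_lit 0) (nat_lit 2953243973) (nat_lit 608) (nat_lit 7324704484) (nat_lit 76)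 (nat_lit 48302183346) (nat_lit 163) (nat_lit 5) (nat_lit 171) (nat_lit 5) (nat_lit 164) (nat_lit 5) (nat_lit 362) (nat_lit 336) (nat_lit 82)) (XT.nd (nat_lit 78) (nat_lit 0) (nat_lit 0) (XT.lf (nat_lit 0) (nat_lit 9122530412) (nat_lit 608) (nat_lit 37232494128) (nat_lit 76) (nat_lit 13242486106) (nat_lit 156) (nat_lit 5) (nat_lit 164) (nat_lit 5) (nat_lit 157) (nat_lit 5) (nat_lit 363) (nat_lit 336) (nat_lit 81)) (XT.lf (nat_lit 0) (nat_lit 15652519098) (nat_lit 608) (nat_lit 7650994913) (nat_lit 76) (nat_lit 37336628877) (nat_lit 156) (nat_lit 5) (nat_lit 164) (nat_lit 5) (nat_lit 157) (nat_lit 5) (nat_lit 364) (nat_lit 336) (nat_lit 80)))) (XT.nd (nat_lit 156) (nat_lit 456) (nat_lit 0) (XT.nd (nat_lit 78) (nat_lit 0) (nat_lit 0) (XT.lf (nat_lit 0) (nat_lit 22607732515) (nat_lit 608) (nat_lit 38442615056) (nat_lit 76) (nat_lit 656827492) (nat_lit 149) (nat_lit 5) (nat_lit 157) (nat_lit 5) (nat_lit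 150) (nat_lit 5) (nat_lit 365) (nat_lit 336) (nat_lit 79)) (XT.lf (nat_lit 0) (nat_lit 30079558725) (nat_lit 608) (nat_lit 7771850716) (nat_lit 76) (nat_lit 24945570770) (nat_lit 149) (nat_lit 5) (nat_lit 157) (nat_lit 5) (nat_lit 150) (nat_lit 5) (nat_lit 366) (nat_lit 336) (nat_lit 78))) (XT.nd (nat_lit 78) (nat_lit 0) (nat_lit 0) (XT.lf (nat_lit 0) (nat_lit 24292213711) (nat_lit 456) (nat_lit 13716064357) (nat_lit 532) (nat_lit 25904219974) (nat_lit 143) (nat_lit 5) (nat_lit 149) (nat_lit 5) (nat_lit 150) (nat_lit 5) (nat_lit 367) (nat_lit 336) (nat_lit 77)) (XT.lf (nat_lit 0) (nat_lit 46360473429) (nat_lit 532) (nat_lit 7690370944) (nat_lit 76) (nat_lit 11005069260) (nat_lit 143) (nat_lit 5) (nat_lit 150) (nat_lit 5) (nat_lit 144) (nat_lit 5) (nat_lit 368) (nat_lit 336) (nat_lit 76)))))) (XT.nd (nat_lit 546) (nat_lit 1520) (nat_lit 0) (XT.nd (nat_lit 234) (nat_lit 836) (nat_lit 0) (XT.nd (nat_lit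 78) (nat_lit 456) (nat_lit 0) (XT.lf (nat_lit 0) (nat_lit 25559555739) (nat_lit 456) (nat_lit 29784438077) (nat_lit 532) (nat_lit 10878215740) (nat_lit 137) (nat_lit 5) (nat_lit 143) (nat_lit 5) (nat_lit 144) (nat_lit 5) (nat_lit 369) (nat_lit 336) (nat_lit 75)) (XT.nd (nat_lit 78) (nat_lit 456) (nat_lit 0) (XT.lf (nat_lit 0) (nat_lit 59963793047) (nat_lit 456) (nat_lit 4710160381) (nat_lit 532) (nat_lit 2747233541) (nat_lit 137) (nat_lit 5) (nat_lit 143) (nat_lit 5) (nat_lit 144) (nat_lit 5) (nat_lit 370) (nat_lit 336) (nat_lit 74)) (XT.lf (nat_lit 0) (nat_lit 5984917658) (nat_lit 456) (nat_lit 41632521540) (nat_lit 76) (nat_lit 21023060517) (nat_lit 131) (nat_lit 5) (nat_lit 137) (nat_lit 5) (nat_lit 132) (nat_lit 5) (nat_lit 371) (nat_lit 336) (nat_lit 73)))) (XT.nd (nat_lit 156) (nat_lit 380) (nat_lit 0) (XT.nd (nat_lit 78) (nat_lit 456) (nat_lit 0) (XT.lf (nat_lit 0) (nat_lit 15045803843) (nat_lit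 456) (nat_lit 7309368204) (nat_lit 76) (nat_lit 47536744740) (nat_lit 131) (nat_lit 5) (nat_lit 137) (nat_lit 5) (nat_lit 132) (nat_lit 5) (nat_lit 372) (nat_lit 336) (nat_lit 72)) (XT.lf (nat_lit 0) (nat_lit 24690716974) (nat_lit 532) (nat_lit 42609826972) (nat_lit 76) (nat_lit 3870966967) (nat_lit 125) (nat_lit 5) (nat_lit 132) (nat_lit 5) (nat_lit 126) (nat_lit 5) (nat_lit 373) (nat_lit 336) (nat_lit 71))) (XT.nd (nat_lit 78) (nat_lit 380) (nat_lit 0) (XT.lf (nat_lit 0) (nat_lit 34920189223) (nat_lit 532) (nat_lit 7051467133) (nat_lit 76) (nat_lit 30508980690) (nat_lit 125) (nat_lit 5) (nat_lit 132) (nat_lit 5) (nat_lit 126) (nat_lit 5) (nat_lit 374) (nat_lit 336) (nat_lit 70)) (XT.lf (nat_lit 0) (nat_lit 30161403071) (nat_lit 380) (nat_lit 15584424181) (nat_lit 456) (nat_lit 28074531783) (nat_lit 120) (nat_lit 5) (nat_lit 125) (nat_lit 5) (nat_lit 126) (nat_lit 5) (nat_lit 375) (nat_lit 336)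 (nat_lit 69))))) (XT.nd (nat_lit 312) (nat_lit 684) (nat_lit 0) (XT.nd (nat_lit 156) (nat_lit 456) (nat_lit 0) (XT.nd (nat_lit 78) (nat_lit 380) (nat_lit 0) (XT.lf (nat_lit 0) (nat_lit 57078959696) (nat_lit 456) (nat_lit 6675895030) (nat_lit 76) (nat_lit 11439936704) (nat_lit 120) (nat_lit 5) (nat_lit 126) (nat_lit 5) (nat_lit 121) (nat_lit 5) (nat_lit 376) (nat_lit 336) (nat_lit 68)) (XT.lf (nat_lit 0) (nat_lit 31883738264) (nat_lit 380) (nat_lit 37328515236) (nat_lit 456) (nat_lit 7384398766) (nat_lit 115) (nat_lit 5) (nat_lit 120) (nat_lit 5) (nat_lit 121) (nat_lit 5) (nat_lit 377) (nat_lit 336) (nat_lit 67))) (XT.nd (nat_lit 78) (nat_lit 380) (nat_lit 0) (XT.lf (nat_lit 0) (nat_lit 3664847387) (nat_lit 456) (nat_lit 6338262409) (nat_lit 76) (nat_lit 68034377584) (nat_lit 114) (nat_lit 5) (nat_lit 120) (nat_lit 5) (nat_lit 115) (nat_lit 5) (nat_lit 378) (nat_lit 336) (nat_lit 66)) (XT.lf (nat_lit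 0) (nat_lit 15399527726) (nat_lit 456) (nat_lit 45915184755) (nat_lit 76) (nat_lit 18189570851) (nat_lit 109) (nat_lit 5) (nat_lit 115) (nat_lit 5) (nat_lit 110) (nat_lit 5) (nat_lit 379) (nat_lit 336) (nat_lit 65)))) (XT.nd (nat_lit 156) (nat_lit 304) (nat_lit 0) (XT.nd (nat_lit 78) (nat_lit 380) (nat_lit 0) (XT.lf (nat_lit 0) (nat_lit 27649337537) (nat_lit 456) (nat_lit 6269404606) (nat_lit 76) (nat_lit 47091448785) (nat_lit 109) (nat_lit 5) (nat_lit 115) (nat_lit 5) (nat_lit 110) (nat_lit 5) (nat_lit 380) (nat_lit 336) (nat_lit 64)) (XT.lf (nat_lit 0) (nat_lit 35252907004) (nat_lit 380) (nat_lit 5352034955) (nat_lit 456) (nat_lit 41946185205) (nat_lit 104) (nat_lit 5) (nat_lit 109) (nat_lit 5) (nat_lit 110) (nat_lit 5) (nat_lit 381) (nat_lit 336) (nat_lit 63))) (XT.nd (nat_lit 78) (nat_lit 304) (nat_lit 0) (XT.lf (nat_lit 0) (nat_lit 54243977225) (nat_lit 456) (nat_lit 6219767368) (nat_lit 76)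 (nat_lit 23665704423) (nat_lit 104) (nat_lit 5) (nat_lit 110) (nat_lit 5) (nat_lit 105) (nat_lit 5) (nat_lit 382) (nat_lit 336) (nat_lit 62)) (XT.lf (nat_lit 0) (nat_lit 36754522573) (nat_lit 304) (nat_lit 31943410364) (nat_lit 380) (nat_lit 17045015504) (nat_lit 100) (nat_lit 5) (nat_lit 104) (nat_lit 5) (nat_lit 105) (nat_lit 5) (nat_lit 383) (nat_lit 336) (nat_lit 61))))))))
noncomputable def xc245 : XT := (XT.nd (nat_lit 38922) (nat_lit 0) (nat_lit 380) (XT.nd (nat_lit 37830) (nat_lit 0) (nat_lit 5776) (XT.nd (nat_lit 37284) (nat_lit 0) (nat_lit 8436) (XT.nd (nat_lit 36972) (nat_lit 0) (nat_lit 8360) (XT.nd (nat_lit 78) (nat_lit 380) (nat_lit 0) (XT.lf (nat_lit 0) (nat_lit 81144808484) (nat_lit 304) (nat_lit 2502967206) (nat_lit 380) (nat_lit 3755209495) (nat_lit 100) (nat_lit 5) (nat_lit 104) (nat_lit 5) (nat_lit 105) (nat_lit 5) (nat_lit 384) (nat_lit 336) (nat_lit 60)) (XT.nd (nat_lit 78)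 (nat_lit 0) (nat_lit 0) (XT.lf (nat_lit 0) (nat_lit 10380149752) (nat_lit 380) (nat_lit 50963690144) (nat_lit 76) (nat_lit 27746898152) (nat_lit 95) (nat_lit 5) (nat_lit 100) (nat_lit 5) (nat_lit 96) (nat_lit 5) (nat_lit 385) (nat_lit 336) (nat_lit 59)) (XT.lf (nat_lit 0) (nat_lit 24952174388) (nat_lit 380) (nat_lit 6918428211) (nat_lit 76) (nat_lit 58954763426) (nat_lit 95) (nat_lit 5) (nat_lit 100) (nat_lit 5) (nat_lit 96) (nat_lit 5) (nat_lit 386) (nat_lit 336) (nat_lit 58)))) (XT.nd (nat_lit 156) (nat_lit 0) (nat_lit 0) (XT.nd (nat_lit 78) (nat_lit 0) (nat_lit 0) (XT.lf (nat_lit 0) (nat_lit 6747495117) (nat_lit 0) (nat_lit 6747495117) (nat_lit 1140) (nat_lit 6410011304) (nat_lit 205) (nat_lit 5) (nat_lit 205) (nat_lit 3) (nat_lit 220) (nat_lit 3) (nat_lit 337) (nat_lit 337) (nat_lit 106)) (XT.lf (nat_lit 0) (nat_lit 27481709231) (nat_lit 1140) (nat_lit 8099766389) (nat_lit 1216) (nat_lit 4823030172)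 (nat_lit 205) (nat_lit 5) (nat_lit 220) (nat_lit 3) (nat_lit 221) (nat_lit 5) (nat_lit 338) (nat_lit 337) (nat_lit 105))) (XT.nd (nat_lit 78) (nat_lit 0) (nat_lit 76) (XT.lf (nat_lit 76) (nat_lit 10737013486) (nat_lit 0) (nat_lit 17486463042) (nat_lit 1216) (nat_lit 12786310059) (nat_lit 206) (nat_lit 5) (nat_lit 205) (nat_lit 5) (nat_lit 221) (nat_lit 5) (nat_lit 339) (nat_lit 337) (nat_lit 104)) (XT.lf (nat_lit 0) (nat_lit 29079672005) (nat_lit 1140) (nat_lit 11338588825) (nat_lit 1216) (nat_lit 1212201271) (nat_lit 206) (nat_lit 5) (nat_lit 221) (nat_lit 5) (nat_lit 222) (nat_lit 5) (nat_lit 340) (nat_lit 337) (nat_lit 103))))) (XT.nd (nat_lit 234) (nat_lit 0) (nat_lit 76) (XT.nd (nat_lit 78) (nat_lit 0) (nat_lit 0) (XT.lf (nat_lit 76) (nat_lit 8148649590) (nat_lit 0) (nat_lit 22062916007) (nat_lit 1216) (nat_lit 12050693424) (nat_lit 207) (nat_lit 5) (nat_lit 206) (nat_lit 5) (nat_lit 222) (nat_lit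 5) (nat_lit 341) (nat_lit 337) (nat_lit 102)) (XT.nd (nat_lit 78) (nat_lit 0) (nat_lit 76) (XT.lf (nat_lit 76) (nat_lit 28452095828) (nat_lit 0) (nat_lit 3038401021) (nat_lit 1216) (nat_lit 11419122036) (nat_lit 207) (nat_lit 5) (nat_lit 206) (nat_lit 5) (nat_lit 222) (nat_lit 5) (nat_lit 342) (nat_lit 337) (nat_lit 101)) (XT.lf (nat_lit 76) (nat_lit 5740241213) (nat_lit 0) (nat_lit 27280518091) (nat_lit 1216) (nat_lit 10549252764) (nat_lit 208) (nat_lit 5) (nat_lit 207) (nat_lit 5) (nat_lit 223) (nat_lit 5) (nat_lit 343) (nat_lit 337) (nat_lit 100)))) (XT.nd (nat_lit 156) (nat_lit 0) (nat_lit 76) (XT.nd (nat_lit 78) (nat_lit 0) (nat_lit 76) (XT.lf (nat_lit 76) (nat_lit 26808767118) (nat_lit 0) (nat_lit 7962605073) (nat_lit 1216) (nat_lit 9473612957) (nat_lit 208) (nat_lit 5) (nat_lit 207) (nat_lit 5) (nat_lit 223) (nat_lit 5) (nat_lit 344) (nat_lit 337) (nat_lit 99)) (XT.lf (nat_lit 76) (nat_lit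 3522274202) (nat_lit 0) (nat_lit 33199517727) (nat_lit 1216) (nat_lit 8213998178) (nat_lit 209) (nat_lit 5) (nat_lit 208) (nat_lit 5) (nat_lit 224) (nat_lit 5) (nat_lit 345) (nat_lit 337) (nat_lit 98))) (XT.nd (nat_lit 78) (nat_lit 0) (nat_lit 76) (XT.lf (nat_lit 76) (nat_lit 25385674054) (nat_lit 0) (nat_lit 13597921139) (nat_lit 1216) (nat_lit 6656139192) (nat_lit 209) (nat_lit 5) (nat_lit 208) (nat_lit 5) (nat_lit 224) (nat_lit 5) (nat_lit 346) (nat_lit 337) (nat_lit 97)) (XT.lf (nat_lit 76) (nat_lit 1505306732) (nat_lit 0) (nat_lit 39884554582) (nat_lit 1216) (nat_lit 4972638678) (nat_lit 210) (nat_lit 5) (nat_lit 209) (nat_lit 5) (nat_lit 225) (nat_lit 5) (nat_lit 347) (nat_lit 337) (nat_lit 96)))))) (XT.nd (nat_lit 546) (nat_lit 1748) (nat_lit 0) (XT.nd (nat_lit 234) (nat_lit 0) (nat_lit 0) (XT.nd (nat_lit 78) (nat_lit 1140) (nat_lit 0) (XT.lf (nat_lit 76) (nat_lit 24194457043) (nat_lit 0)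 (nat_lit 20010500050) (nat_lit 1216) (nat_lit 2891893447) (nat_lit 210) (nat_lit 5) (nat_lit 209) (nat_lit 5) (nat_lit 225) (nat_lit 5) (nat_lit 348) (nat_lit 337) (nat_lit 95)) (XT.nd (nat_lit 78) (nat_lit 1216) (nat_lit 0) (XT.lf (nat_lit 0) (nat_lit 47107765726) (nat_lit 1140) (nat_lit 294256838) (nat_lit 1216) (nat_lit 451112432) (nat_lit 210) (nat_lit 5) (nat_lit 225) (nat_lit 5) (nat_lit 226) (nat_lit 5) (nat_lit 349) (nat_lit 337) (nat_lit 94)) (XT.lf (nat_lit 0) (nat_lit 1861574310) (nat_lit 1216) (nat_lit 25390979358) (nat_lit 1292) (nat_lit 21366394149) (nat_lit 194) (nat_lit 5) (nat_lit 210) (nat_lit 5) (nat_lit 211) (nat_lit 5) (nat_lit 350) (nat_lit 337) (nat_lit 93)))) (XT.nd (nat_lit 156) (nat_lit 0) (nat_lit 76) (XT.nd (nat_lit 78) (nat_lit 0) (nat_lit 76) (XT.lf (nat_lit 0) (nat_lit 4533632546) (nat_lit 1216) (nat_lit 1954039098) (nat_lit 1292) (nat_lit 42919786445) (nat_lit 194)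 (nat_lit 5) (nat_lit 210) (nat_lit 5) (nat_lit 211) (nat_lit 5) (nat_lit 351) (nat_lit 337) (nat_lit 92)) (XT.lf (nat_lit 0) (nat_lit 7647658320) (nat_lit 1216) (nat_lit 27731830568) (nat_lit 1292) (nat_lit 14829281665) (nat_lit 195) (nat_lit 5) (nat_lit 211) (nat_lit 5) (nat_lit 212) (nat_lit 5) (nat_lit 352) (nat_lit 337) (nat_lit 91))) (XT.nd (nat_lit 78) (nat_lit 0) (nat_lit 76) (XT.lf (nat_lit 0) (nat_lit 10938211141) (nat_lit 1216) (nat_lit 3417933187) (nat_lit 1292) (nat_lit 36675485900) (nat_lit 195) (nat_lit 5) (nat_lit 211) (nat_lit 5) (nat_lit 212) (nat_lit 5) (nat_lit 353) (nat_lit 337) (nat_lit 90)) (XT.lf (nat_lit 0) (nat_lit 14610713655) (nat_lit 1216) (nat_lit 29890200027) (nat_lit 76) (nat_lit 7369766014) (nat_lit 196) (nat_lit 5) (nat_lit 212) (nat_lit 5) (nat_lit 197) (nat_lit 5) (nat_lit 354) (nat_lit 337) (nat_lit 89))))) (XT.nd (nat_lit 234) (nat_lit 1140) (nat_lit 0) (XT.nd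 (nat_lit 78) (nat_lit 760) (nat_lit 0) (XT.lf (nat_lit 0) (nat_lit 18569386021) (nat_lit 1216) (nat_lit 4666313823) (nat_lit 76) (nat_lit 29493921929) (nat_lit 196) (nat_lit 5) (nat_lit 212) (nat_lit 5) (nat_lit 197) (nat_lit 5) (nat_lit 355) (nat_lit 337) (nat_lit 88)) (XT.nd (nat_lit 78) (nat_lit 0) (nat_lit 0) (XT.lf (nat_lit 0) (nat_lit 21737617668) (nat_lit 760) (nat_lit 1117183918) (nat_lit 836) (nat_lit 30753291974) (nat_lit 186) (nat_lit 5) (nat_lit 196) (nat_lit 5) (nat_lit 197) (nat_lit 5) (nat_lit 356) (nat_lit 337) (nat_lit 87)) (XT.lf (nat_lit 0) (nat_lit 27523671961) (nat_lit 836) (nat_lit 5691779316) (nat_lit 76) (nat_lit 21289822365) (nat_lit 186) (nat_lit 5) (nat_lit 197) (nat_lit 5) (nat_lit 187) (nat_lit 5) (nat_lit 357) (nat_lit 337) (nat_lit 86)))) (XT.nd (nat_lit 156) (nat_lit 532) (nat_lit 0) (XT.nd (nat_lit 78) (nat_lit 0) (nat_lit 0) (XT.lf (nat_lit 0) (nat_lit 21683492687)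 (nat_lit 608) (nat_lit 10867688710) (nat_lit 684) (nat_lit 22871631426) (nat_lit 178) (nat_lit 5) (nat_lit 186) (nat_lit 5) (nat_lit 187) (nat_lit 5) (nat_lit 358) (nat_lit 337) (nat_lit 85)) (XT.lf (nat_lit 0) (nat_lit 37903455281) (nat_lit 684) (nat_lit 6487689930) (nat_lit 76) (nat_lit 11971515652) (nat_lit 178) (nat_lit 5) (nat_lit 187) (nat_lit 5) (nat_lit 179) (nat_lit 5) (nat_lit 359) (nat_lit 337) (nat_lit 84))) (XT.nd (nat_lit 78) (nat_lit 0) (nat_lit 0) (XT.lf (nat_lit 0) (nat_lit 21900401690) (nat_lit 532) (nat_lit 21833139136) (nat_lit 608) (nat_lit 13587647051) (nat_lit 171) (nat_lit 5) (nat_lit 178) (nat_lit 5) (nat_lit 179) (nat_lit 5) (nat_lit 360) (nat_lit 337) (nat_lit 83)) (XT.lf (nat_lit 0) (nat_lit 49817303930) (nat_lit 608) (nat_lit 7048360647) (nat_lit 76) (nat_lit 1440443683) (nat_lit 171) (nat_lit 5) (nat_lit 179) (nat_lit 5) (nat_lit 172) (nat_lit 5) (nat_lit 361) (nat_lit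 337) (nat_lit 82))))))) (XT.nd (nat_lit 1092) (nat_lit 1900) (nat_lit 0) (XT.nd (nat_lit 546) (nat_lit 1368) (nat_lit 0) (XT.nd (nat_lit 234) (nat_lit 988) (nat_lit 0) (XT.nd (nat_lit 78) (nat_lit 608) (nat_lit 0) (XT.lf (nat_lit 0) (nat_lit 22395243983) (nat_lit 532) (nat_lit 34118947759) (nat_lit 608) (nat_lit 2793466944) (nat_lit 164) (nat_lit 5) (nat_lit 171) (nat_lit 5) (nat_lit 172) (nat_lit 5) (nat_lit 362) (nat_lit 337) (nat_lit 81)) (XT.nd (nat_lit 78) (nat_lit 532) (nat_lit 0) (XT.lf (nat_lit 0) (nat_lit 3083822684) (nat_lit 608) (nat_lit 7501565680) (nat_lit 76) (nat_lit 49750850329) (nat_lit 163) (nat_lit 5) (nat_lit 171) (nat_lit 5) (nat_lit 164) (nat_lit 5) (nat_lit 363) (nat_lit 337) (nat_lit 80)) (XT.lf (nat_lit 0) (nat_lit 9437385532) (nat_lit 608) (nat_lit 38305750303) (nat_lit 76) (nat_lit 13641028229) (nat_lit 156) (nat_lit 5) (nat_lit 164) (nat_lit 5) (nat_lit 157) (nat_lit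 5) (nat_lit 364) (nat_lit 337) (nat_lit 79)))) (XT.nd (nat_lit 156) (nat_lit 456) (nat_lit 0) (XT.nd (nat_lit 78) (nat_lit 532) (nat_lit 0) (XT.lf (nat_lit 0) (nat_lit 16162074484) (nat_lit 608) (nat_lit 7838079470) (nat_lit 76) (nat_lit 38457958364) (nat_lit 156) (nat_lit 5) (nat_lit 164) (nat_lit 5) (nat_lit 157) (nat_lit 5) (nat_lit 365) (nat_lit 337) (nat_lit 78)) (XT.lf (nat_lit 0) (nat_lit 23325210862) (nat_lit 608) (nat_lit 39552680348) (nat_lit 76) (nat_lit 679287285) (nat_lit 149) (nat_lit 5) (nat_lit 157) (nat_lit 5) (nat_lit 150) (nat_lit 5) (nat_lit 366) (nat_lit 337) (nat_lit 77))) (XT.nd (nat_lit 78) (nat_lit 456) (nat_lit 0) (XT.lf (nat_lit 0) (nat_lit 31020048760) (nat_lit 608) (nat_lit 7963051713) (nat_lit 76) (nat_lit 25696612620) (nat_lit 149) (nat_lit 5) (nat_lit 157) (nat_lit 5) (nat_lit 150) (nat_lit 5) (nat_lit 367) (nat_lit 337) (nat_lit 76)) (XT.lf (nat_lit 0) (nat_lit 25062523328)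 (nat_lit 456) (nat_lit 14123395891) (nat_lit 532) (nat_lit 26642799528) (nat_lit 143) (nat_lit 5) (nat_lit 149) (nat_lit 5) (nat_lit 150) (nat_lit 5) (nat_lit 368) (nat_lit 337) (nat_lit 75))))) (XT.nd (nat_lit 234) (nat_lit 912) (nat_lit 0) (XT.nd (nat_lit 78) (nat_lit 456) (nat_lit 0) (XT.lf (nat_lit 0) (nat_lit 47787630063) (nat_lit 532) (nat_lit 7879666979) (nat_lit 76) (nat_lit 11339172219) (nat_lit 143) (nat_lit 5) (nat_lit 150) (nat_lit 5) (nat_lit 144) (nat_lit 5) (nat_lit 369) (nat_lit 337) (nat_lit 74)) (XT.nd (nat_lit 78) (nat_lit 0) (nat_lit 0) (XT.lf (nat_lit 0) (nat_lit 26367351474) (nat_lit 456) (nat_lit 30672640275) (nat_lit 532) (nat_lit 11167783161) (nat_lit 137) (nat_lit 5) (nat_lit 143) (nat_lit 5) (nat_lit 144) (nat_lit 5) (nat_lit 370) (nat_lit 337) (nat_lit 73)) (XT.lf (nat_lit 0) (nat_lit 61802521463) (nat_lit 456) (nat_lit 4846289518) (nat_lit 532) (nat_lit 2793942731) (nat_lit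 137) (nat_lit 5) (nat_lit 143) (nat_lit 5) (nat_lit 144) (nat_lit 5) (nat_lit 371) (nat_lit 337) (nat_lit 72)))) (XT.nd (nat_lit 156) (nat_lit 456) (nat_lit 0) (XT.nd (nat_lit 78) (nat_lit 0) (nat_lit 0) (XT.lf (nat_lit 0) (nat_lit 6198897777) (nat_lit 456) (nat_lit 42840350508) (nat_lit 76) (nat_lit 21659405449) (nat_lit 131) (nat_lit 5) (nat_lit 137) (nat_lit 5) (nat_lit 132) (nat_lit 5) (nat_lit 372) (nat_lit 337) (nat_lit 71)) (XT.lf (nat_lit 0) (nat_lit 15530607657) (nat_lit 456) (nat_lit 7488701019) (nat_lit 76) (nat_lit 48968335546) (nat_lit 131) (nat_lit 5) (nat_lit 137) (nat_lit 5) (nat_lit 132) (nat_lit 5) (nat_lit 373) (nat_lit 337) (nat_lit 70))) (XT.nd (nat_lit 78) (nat_lit 0) (nat_lit 0) (XT.lf (nat_lit 0) (nat_lit 25464339343) (nat_lit 532) (nat_lit 43847618325) (nat_lit 76) (nat_lit 3993685160) (nat_lit 125) (nat_lit 5) (nat_lit 132) (nat_lit 5) (nat_lit 126) (nat_lit 5) (nat_lit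 374) (nat_lit 337) (nat_lit 69)) (XT.lf (nat_lit 0) (nat_lit 35999737483) (nat_lit 532) (nat_lit 7223687403) (nat_lit 76) (nat_lit 31430647376) (nat_lit 125) (nat_lit 5) (nat_lit 132) (nat_lit 5) (nat_lit 126) (nat_lit 5) (nat_lit 375) (nat_lit 337) (nat_lit 68)))))) (XT.nd (nat_lit 546) (nat_lit 304) (nat_lit 0) (XT.nd (nat_lit 234) (nat_lit 836) (nat_lit 0) (XT.nd (nat_lit 78) (nat_lit 380) (nat_lit 0) (XT.lf (nat_lit 0) (nat_lit 31105183381) (nat_lit 380) (nat_lit 16044405203) (nat_lit 456) (nat_lit 28884414755) (nat_lit 120) (nat_lit 5) (nat_lit 125) (nat_lit 5) (nat_lit 126) (nat_lit 5) (nat_lit 376) (nat_lit 337) (nat_lit 67)) (XT.nd (nat_lit 78) (nat_lit 380) (nat_lit 0) (XT.lf (nat_lit 0) (nat_lit 58821871308) (nat_lit 456) (nat_lit 6837499946) (nat_lit 76) (nat_lit 11790323487) (nat_lit 120) (nat_lit 5) (nat_lit 126) (nat_lit 5) (nat_lit 121) (nat_lit 5) (nat_lit 377) (nat_lit 337) (nat_lit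 66)) (XT.lf (nat_lit 0) (nat_lit 32878543210) (nat_lit 380) (nat_lit 38440099212) (nat_lit 456) (nat_lit 7574985327) (nat_lit 115) (nat_lit 5) (nat_lit 120) (nat_lit 5) (nat_lit 121) (nat_lit 5) (nat_lit 378) (nat_lit 337) (nat_lit 65)))) (XT.nd (nat_lit 156) (nat_lit 380) (nat_lit 0) (XT.nd (nat_lit 78) (nat_lit 380) (nat_lit 0) (XT.lf (nat_lit 0) (nat_lit 3804250620) (nat_lit 456) (nat_lit 6490624440) (nat_lit 76) (nat_lit 70082831108) (nat_lit 114) (nat_lit 5) (nat_lit 120) (nat_lit 5) (nat_lit 115) (nat_lit 5) (nat_lit 379) (nat_lit 337) (nat_lit 64)) (XT.lf (nat_lit 0) (nat_lit 15890554318) (nat_lit 456) (nat_lit 47254415951) (nat_lit 76) (nat_lit 18743548886) (nat_lit 109) (nat_lit 5) (nat_lit 115) (nat_lit 5) (nat_lit 110) (nat_lit 5) (nat_lit 380) (nat_lit 337) (nat_lit 63))) (XT.nd (nat_lit 78) (nat_lit 380) (nat_lit 0) (XT.lf (nat_lit 0) (nat_lit 28507012575) (nat_lit 456) (nat_lit 6420375728)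 (nat_lit 76) (nat_lit 48512241675) (nat_lit 109) (nat_lit 5) (nat_lit 115) (nat_lit 5) (nat_lit 110) (nat_lit 5) (nat_lit 381) (nat_lit 337) (nat_lit 62)) (XT.lf (nat_lit 0) (nat_lit 36347241397) (nat_lit 380) (nat_lit 5503575759) (nat_lit 456) (nat_lit 43175991792) (nat_lit 104) (nat_lit 5) (nat_lit 109) (nat_lit 5) (nat_lit 110) (nat_lit 5) (nat_lit 382) (nat_lit 337) (nat_lit 61))))) (XT.nd (nat_lit 37206) (nat_lit 0) (nat_lit 7980) (XT.nd (nat_lit 156) (nat_lit 0) (nat_lit 0) (XT.nd (nat_lit 78) (nat_lit 304) (nat_lit 0) (XT.lf (nat_lit 0) (nat_lit 55898300082) (nat_lit 456) (nat_lit 6369940480) (nat_lit 76) (nat_lit 24384262185) (nat_lit 104) (nat_lit 5) (nat_lit 110) (nat_lit 5) (nat_lit 105) (nat_lit 5) (nat_lit 383) (nat_lit 337) (nat_lit 60)) (XT.lf (nat_lit 0) (nat_lit 37893221101) (nat_lit 304) (nat_lit 32892213511) (nat_lit 380) (nat_lit 17528986309) (nat_lit 100) (nat_lit 5) (nat_lit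 104) (nat_lit 5) (nat_lit 105) (nat_lit 5) (nat_lit 384) (nat_lit 337) (nat_lit 59))) (XT.nd (nat_lit 36972) (nat_lit 0) (nat_lit 7980) (XT.lf (nat_lit 0) (nat_lit 83614165215) (nat_lit 304) (nat_lit 2568833733) (nat_lit 380) (nat_lit 3841283585) (nat_lit 100) (nat_lit 5) (nat_lit 104) (nat_lit 5) (nat_lit 105) (nat_lit 5) (nat_lit 385) (nat_lit 337) (nat_lit 58)) (XT.lf (nat_lit 0) (nat_lit 6969526890) (nat_lit 0) (nat_lit 6969526890) (nat_lit 1140) (nat_lit 6561880823) (nat_lit 205) (nat_lit 5) (nat_lit 205) (nat_lit 3) (nat_lit 220) (nat_lit 3) (nat_lit 338) (nat_lit 338) (nat_lit 104)))) (XT.nd (nat_lit 156) (nat_lit 0) (nat_lit 76) (XT.nd (nat_lit 78) (nat_lit 0) (nat_lit 0) (XT.lf (nat_lit 0) (nat_lit 28381937915) (nat_lit 1140) (nat_lit 8301958653) (nat_lit 1216) (nat_lit 4930392305) (nat_lit 205) (nat_lit 5) (nat_lit 220) (nat_lit 3) (nat_lit 221) (nat_lit 5) (nat_lit 339) (nat_lit 338)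 (nat_lit 103)) (XT.lf (nat_lit 76) (nat_lit 11099524611) (nat_lit 0) (nat_lit 18044614867) (nat_lit 1216) (nat_lit 13093645471) (nat_lit 206) (nat_lit 5) (nat_lit 205) (nat_lit 5) (nat_lit 221) (nat_lit 5) (nat_lit 340) (nat_lit 338) (nat_lit 102))) (XT.nd (nat_lit 78) (nat_lit 0) (nat_lit 0) (XT.lf (nat_lit 0) (nat_lit 30023553500) (nat_lit 1140) (nat_lit 11636980922) (nat_lit 1216) (nat_lit 1216622554) (nat_lit 206) (nat_lit 5) (nat_lit 221) (nat_lit 5) (nat_lit 222) (nat_lit 5) (nat_lit 341) (nat_lit 338) (nat_lit 101)) (XT.lf (nat_lit 76) (nat_lit 8434465179) (nat_lit 0) (nat_lit 22753253988) (nat_lit 1216) (nat_lit 12340241340) (nat_lit 207) (nat_lit 5) (nat_lit 206) (nat_lit 5) (nat_lit 222) (nat_lit 5) (nat_lit 342) (nat_lit 338) (nat_lit 100))))))))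
noncomputable def xc246 : XT := (XT.nd (nat_lit 2184) (nat_lit 2964) (nat_lit 0) (XT.nd (nat_lit 1092) (nat_lit 3876) (nat_lit 0) (XT.nd (nat_lit 546) (nat_lit 912) (nat_lit 0) (XT.nd (nat_lit 234) (nat_lit 0) (nat_lit 152) (XT.nd (nat_lit 78) (nat_lit 0) (nat_lit 76) (XT.lf (nat_lit 76) (nat_lit 29345810258) (nat_lit 0) (nat_lit 3157174898) (nat_lit 1216) (nat_lit 11691819108) (nat_lit 207) (nat_lit 5) (nat_lit 206) (nat_lit 5) (nat_lit 222) (nat_lit 5) (nat_lit 343) (nat_lit 338) (nat_lit 99)) (XT.nd (nat_lit 78) (nat_lit 0) (nat_lit 0) (XT.lf (nat_lit 76) (nat_lit 5954551845) (nat_lit 0) (nat_lit 28122776595) (nat_lit 1216) (nat_lit 10797737651) (nat_lit 208) (nat_lit 5) (nat_lit 207) (nat_lit 5) (nat_lit 223) (nat_lit 5) (nat_lit 344) (nat_lit 338) (nat_lit 98)) (XT.lf (nat_lit 76) (nat_lit 27653907216) (nat_lit 0) (nat_lit 8224631731) (nat_lit 1216) (nat_lit 9691809020) (nat_lit 208) (nat_lit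 5) (nat_lit 207) (nat_lit 5) (nat_lit 223) (nat_lit 5) (nat_lit 345) (nat_lit 338) (nat_lit 97)))) (XT.nd (nat_lit 156) (nat_lit 0) (nat_lit 76) (XT.nd (nat_lit 78) (nat_lit 0) (nat_lit 0) (XT.lf (nat_lit 76) (nat_lit 3670606351) (nat_lit 0) (nat_lit 34215194178) (nat_lit 1216) (nat_lit 8396128589) (nat_lit 209) (nat_lit 5) (nat_lit 208) (nat_lit 5) (nat_lit 224) (nat_lit 5) (nat_lit 346) (nat_lit 338) (nat_lit 96)) (XT.lf (nat_lit 76) (nat_lit 26188665560) (nat_lit 0) (nat_lit 14024976170) (nat_lit 1216) (nat_lit 6793406344) (nat_lit 209) (nat_lit 5) (nat_lit 208) (nat_lit 5) (nat_lit 224) (nat_lit 5) (nat_lit 347) (nat_lit 338) (nat_lit 95))) (XT.nd (nat_lit 78) (nat_lit 0) (nat_lit 0) (XT.lf (nat_lit 76) (nat_lit 1593523021) (nat_lit 0) (nat_lit 41097045026) (nat_lit 1216) (nat_lit 5060976246) (nat_lit 210) (nat_lit 5) (nat_lit 209) (nat_lit 5) (nat_lit 225) (nat_lit 5) (nat_lit 348) (nat_lit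 338) (nat_lit 94)) (XT.lf (nat_lit 76) (nat_lit 24962093751) (nat_lit 0) (nat_lit 20626304185) (nat_lit 1216) (nat_lit 2919580744) (nat_lit 210) (nat_lit 5) (nat_lit 209) (nat_lit 5) (nat_lit 225) (nat_lit 5) (nat_lit 349) (nat_lit 338) (nat_lit 93))))) (XT.nd (nat_lit 234) (nat_lit 0) (nat_lit 76) (XT.nd (nat_lit 78) (nat_lit 1216) (nat_lit 0) (XT.lf (nat_lit 0) (nat_lit 48576477571) (nat_lit 1140) (nat_lit 260628947) (nat_lit 1216) (nat_lit 449901257) (nat_lit 210) (nat_lit 5) (nat_lit 225) (nat_lit 5) (nat_lit 226) (nat_lit 5) (nat_lit 350) (nat_lit 338) (nat_lit 92)) (XT.nd (nat_lit 78) (nat_lit 0) (nat_lit 0) (XT.lf (nat_lit 0) (nat_lit 1972280098) (nat_lit 1216) (nat_lit 26109523942) (nat_lit 1292) (nat_lit 21994012816) (nat_lit 194) (nat_lit 5) (nat_lit 210) (nat_lit 5) (nat_lit 211) (nat_lit 5) (nat_lit 351) (nat_lit 338) (nat_lit 91)) (XT.lf (nat_lit 0) (nat_lit 4722902260) (nat_lit 1216)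 (nat_lit 1970733284) (nat_lit 1292) (nat_lit 44194396390) (nat_lit 194) (nat_lit 5) (nat_lit 210) (nat_lit 5) (nat_lit 211) (nat_lit 5) (nat_lit 352) (nat_lit 338) (nat_lit 90)))) (XT.nd (nat_lit 156) (nat_lit 0) (nat_lit 76) (XT.nd (nat_lit 78) (nat_lit 0) (nat_lit 0) (XT.lf (nat_lit 0) (nat_lit 7929094778) (nat_lit 1216) (nat_lit 28520553908) (nat_lit 1292) (nat_lit 15263774223) (nat_lit 195) (nat_lit 5) (nat_lit 211) (nat_lit 5) (nat_lit 212) (nat_lit 5) (nat_lit 353) (nat_lit 338) (nat_lit 89)) (XT.lf (nat_lit 0) (nat_lit 11316849424) (nat_lit 1216) (nat_lit 3478498779) (nat_lit 1292) (nat_lit 37765667087) (nat_lit 195) (nat_lit 5) (nat_lit 211) (nat_lit 5) (nat_lit 212) (nat_lit 5) (nat_lit 354) (nat_lit 338) (nat_lit 88))) (XT.nd (nat_lit 78) (nat_lit 0) (nat_lit 0) (XT.lf (nat_lit 0) (nat_lit 15098380329) (nat_lit 1216) (nat_lit 30743739282) (nat_lit 76) (nat_lit 7583152461) (nat_lit 196)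 (nat_lit 5) (nat_lit 212) (nat_lit 5) (nat_lit 197) (nat_lit 5) (nat_lit 355) (nat_lit 338) (nat_lit 87)) (XT.lf (nat_lit 0) (nat_lit 19174375626) (nat_lit 1216) (nat_lit 4764393775) (nat_lit 76) (nat_lit 30371257516) (nat_lit 196) (nat_lit 5) (nat_lit 212) (nat_lit 5) (nat_lit 197) (nat_lit 5) (nat_lit 356) (nat_lit 338) (nat_lit 86)))))) (XT.nd (nat_lit 546) (nat_lit 1596) (nat_lit 0) (XT.nd (nat_lit 234) (nat_lit 1064) (nat_lit 0) (XT.nd (nat_lit 78) (nat_lit 608) (nat_lit 0) (XT.lf (nat_lit 0) (nat_lit 22431244783) (nat_lit 760) (nat_lit 1156112405) (nat_lit 836) (nat_lit 31627526910) (nat_lit 186) (nat_lit 5) (nat_lit 196) (nat_lit 5) (nat_lit 197) (nat_lit 5) (nat_lit 357) (nat_lit 338) (nat_lit 85)) (XT.nd (nat_lit 78) (nat_lit 608) (nat_lit 0) (XT.lf (nat_lit 0) (nat_lit 28394876801) (nat_lit 836) (nat_lit 5820782320) (nat_lit 76) (nat_lit 21923364276) (nat_lit 186) (nat_lit 5) (nat_lit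 197) (nat_lit 5) (nat_lit 187) (nat_lit 5) (nat_lit 358) (nat_lit 338) (nat_lit 84)) (XT.lf (nat_lit 0) (nat_lit 22375338525) (nat_lit 608) (nat_lit 11196945302) (nat_lit 684) (nat_lit 23511834027) (nat_lit 178) (nat_lit 5) (nat_lit 186) (nat_lit 5) (nat_lit 187) (nat_lit 5) (nat_lit 359) (nat_lit 338) (nat_lit 83)))) (XT.nd (nat_lit 156) (nat_lit 532) (nat_lit 0) (XT.nd (nat_lit 78) (nat_lit 532) (nat_lit 0) (XT.lf (nat_lit 0) (nat_lit 39083797755) (nat_lit 684) (nat_lit 6640814395) (nat_lit 76) (nat_lit 12327590265) (nat_lit 178) (nat_lit 5) (nat_lit 187) (nat_lit 5) (nat_lit 179) (nat_lit 5) (nat_lit 360) (nat_lit 338) (nat_lit 82)) (XT.lf (nat_lit 0) (nat_lit 22598513050) (nat_lit 532) (nat_lit 22489408504) (nat_lit 608) (nat_lit 13951590811) (nat_lit 171) (nat_lit 5) (nat_lit 178) (nat_lit 5) (nat_lit 179) (nat_lit 5) (nat_lit 361) (nat_lit 338) (nat_lit 81))) (XT.nd (nat_lit 78) (nat_lit 532)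 (nat_lit 0) (XT.lf (nat_lit 0) (nat_lit 51352951441) (nat_lit 608) (nat_lit 7218624365) (nat_lit 76) (nat_lit 1482443099) (nat_lit 171) (nat_lit 5) (nat_lit 179) (nat_lit 5) (nat_lit 172) (nat_lit 5) (nat_lit 362) (nat_lit 338) (nat_lit 80)) (XT.lf (nat_lit 0) (nat_lit 23107884609) (nat_lit 532) (nat_lit 35142055399) (nat_lit 608) (nat_lit 2835701142) (nat_lit 164) (nat_lit 5) (nat_lit 171) (nat_lit 5) (nat_lit 172) (nat_lit 5) (nat_lit 363) (nat_lit 338) (nat_lit 79))))) (XT.nd (nat_lit 234) (nat_lit 988) (nat_lit 0) (XT.nd (nat_lit 78) (nat_lit 532) (nat_lit 0) (XT.lf (nat_lit 0) (nat_lit 3215908853) (nat_lit 608) (nat_lit 7686194195) (nat_lit 76) (nat_lit 51243000199) (nat_lit 163) (nat_lit 5) (nat_lit 171) (nat_lit 5) (nat_lit 164) (nat_lit 5) (nat_lit 364) (nat_lit 338) (nat_lit 78)) (XT.nd (nat_lit 78) (nat_lit 0) (nat_lit 0) (XT.lf (nat_lit 0) (nat_lit 9759322450) (nat_lit 608) (nat_lit 39413713793)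 (nat_lit 76) (nat_lit 14051453854) (nat_lit 156) (nat_lit 5) (nat_lit 164) (nat_lit 5) (nat_lit 157) (nat_lit 5) (nat_lit 365) (nat_lit 338) (nat_lit 77)) (XT.lf (nat_lit 0) (nat_lit 16684621526) (nat_lit 608) (nat_lit 8033213098) (nat_lit 76) (nat_lit 39612857094) (nat_lit 156) (nat_lit 5) (nat_lit 164) (nat_lit 5) (nat_lit 157) (nat_lit 5) (nat_lit 366) (nat_lit 338) (nat_lit 76)))) (XT.nd (nat_lit 156) (nat_lit 456) (nat_lit 0) (XT.nd (nat_lit 78) (nat_lit 0) (nat_lit 0) (XT.lf (nat_lit 0) (nat_lit 24061960658) (nat_lit 608) (nat_lit 40698528211) (nat_lit 76) (nat_lit 702262725) (nat_lit 149) (nat_lit 5) (nat_lit 157) (nat_lit 5) (nat_lit 150) (nat_lit 5) (nat_lit 367) (nat_lit 338) (nat_lit 75)) (XT.lf (nat_lit 0) (nat_lit 31986566213) (nat_lit 608) (nat_lit 8162397102) (nat_lit 76) (nat_lit 26470032185) (nat_lit 149) (nat_lit 5) (nat_lit 157) (nat_lit 5) (nat_lit 150) (nat_lit 5) (nat_lit 368)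 (nat_lit 338) (nat_lit 74))) (XT.nd (nat_lit 78) (nat_lit 0) (nat_lit 0) (XT.lf (nat_lit 0) (nat_lit 25853557483) (nat_lit 456) (nat_lit 14543185620) (nat_lit 532) (nat_lit 27405749227) (nat_lit 143) (nat_lit 5) (nat_lit 149) (nat_lit 5) (nat_lit 150) (nat_lit 5) (nat_lit 369) (nat_lit 338) (nat_lit 73)) (XT.lf (nat_lit 0) (nat_lit 49255515192) (nat_lit 532) (nat_lit 8077019291) (nat_lit 76) (nat_lit 11683071470) (nat_lit 143) (nat_lit 5) (nat_lit 150) (nat_lit 5) (nat_lit 144) (nat_lit 5) (nat_lit 370) (nat_lit 338) (nat_lit 72))))))) (XT.nd (nat_lit 38142) (nat_lit 0) (nat_lit 6840) (XT.nd (nat_lit 546) (nat_lit 1216) (nat_lit 0) (XT.nd (nat_lit 234) (nat_lit 836) (nat_lit 0) (XT.nd (nat_lit 78) (nat_lit 456) (nat_lit 0) (XT.lf (nat_lit 0) (nat_lit 27197026993) (nat_lit 456) (nat_lit 31587794557) (nat_lit 532) (nat_lit 11468148872) (nat_lit 137) (nat_lit 5) (nat_lit 143) (nat_lit 5) (nat_lit 144)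 (nat_lit 5) (nat_lit 371) (nat_lit 338) (nat_lit 71)) (XT.nd (nat_lit 78) (nat_lit 456) (nat_lit 0) (XT.lf (nat_lit 0) (nat_lit 63694126208) (nat_lit 456) (nat_lit 4986799634) (nat_lit 532) (nat_lit 2844102970) (nat_lit 137) (nat_lit 5) (nat_lit 143) (nat_lit 5) (nat_lit 144) (nat_lit 5) (nat_lit 372) (nat_lit 338) (nat_lit 70)) (XT.lf (nat_lit 0) (nat_lit 6417320729) (nat_lit 456) (nat_lit 44086776333) (nat_lit 76) (nat_lit 22314516218) (nat_lit 131) (nat_lit 5) (nat_lit 137) (nat_lit 5) (nat_lit 132) (nat_lit 5) (nat_lit 373) (nat_lit 338) (nat_lit 69)))) (XT.nd (nat_lit 156) (nat_lit 380) (nat_lit 0) (XT.nd (nat_lit 78) (nat_lit 456) (nat_lit 0) (XT.lf (nat_lit 0) (nat_lit 16028036584) (nat_lit 456) (nat_lit 7675707010) (nat_lit 76) (nat_lit 50442559015) (nat_lit 131) (nat_lit 5) (nat_lit 137) (nat_lit 5) (nat_lit 132) (nat_lit 5) (nat_lit 374) (nat_lit 338) (nat_lit 68)) (XT.lf (nat_lit 0) (nat_lit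 26259281739) (nat_lit 532) (nat_lit 45124868482) (nat_lit 76) (nat_lit 4119706653) (nat_lit 125) (nat_lit 5) (nat_lit 132) (nat_lit 5) (nat_lit 126) (nat_lit 5) (nat_lit 375) (nat_lit 338) (nat_lit 67))) (XT.nd (nat_lit 78) (nat_lit 380) (nat_lit 0) (XT.lf (nat_lit 0) (nat_lit 37109838555) (nat_lit 532) (nat_lit 7403331625) (nat_lit 76) (nat_lit 32379596834) (nat_lit 125) (nat_lit 5) (nat_lit 132) (nat_lit 5) (nat_lit 126) (nat_lit 5) (nat_lit 376) (nat_lit 338) (nat_lit 66)) (XT.lf (nat_lit 0) (nat_lit 32075041886) (nat_lit 380) (nat_lit 16518619155) (nat_lit 456) (nat_lit 29720451410) (nat_lit 120) (nat_lit 5) (nat_lit 125) (nat_lit 5) (nat_lit 126) (nat_lit 5) (nat_lit 377) (nat_lit 338) (nat_lit 65))))) (XT.nd (nat_lit 234) (nat_lit 760) (nat_lit 0) (XT.nd (nat_lit 78) (nat_lit 456) (nat_lit 0) (XT.lf (nat_lit 0) (nat_lit 60615316985) (nat_lit 456) (nat_lit 7006172937) (nat_lit 76) (nat_lit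 12150809214) (nat_lit 120) (nat_lit 5) (nat_lit 126) (nat_lit 5) (nat_lit 121) (nat_lit 5) (nat_lit 378) (nat_lit 338) (nat_lit 64)) (XT.nd (nat_lit 78) (nat_lit 76) (nat_lit 0) (XT.lf (nat_lit 0) (nat_lit 33900994142) (nat_lit 380) (nat_lit 39585505525) (nat_lit 456) (nat_lit 7773065877) (nat_lit 115) (nat_lit 5) (nat_lit 120) (nat_lit 5) (nat_lit 121) (nat_lit 5) (nat_lit 379) (nat_lit 338) (nat_lit 63)) (XT.lf (nat_lit 0) (nat_lit 3946144951) (nat_lit 456) (nat_lit 6649726395) (nat_lit 76) (nat_lit 72192312173) (nat_lit 114) (nat_lit 5) (nat_lit 120) (nat_lit 5) (nat_lit 115) (nat_lit 5) (nat_lit 380) (nat_lit 338) (nat_lit 62)))) (XT.nd (nat_lit 156) (nat_lit 380) (nat_lit 0) (XT.nd (nat_lit 78) (nat_lit 0) (nat_lit 0) (XT.lf (nat_lit 0) (nat_lit 16394644649) (nat_lit 456) (nat_lit 48636018316) (nat_lit 76) (nat_lit 19313670330) (nat_lit 109) (nat_lit 5) (nat_lit 115) (nat_lit 5) (nat_lit 110)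 (nat_lit 5) (nat_lit 381) (nat_lit 338) (nat_lit 61)) (XT.lf (nat_lit 0) (nat_lit 29388799362) (nat_lit 456) (nat_lit 6578006307) (nat_lit 76) (nat_lit 49975196282) (nat_lit 109) (nat_lit 5) (nat_lit 115) (nat_lit 5) (nat_lit 110) (nat_lit 5) (nat_lit 382) (nat_lit 338) (nat_lit 60))) (XT.nd (nat_lit 78) (nat_lit 0) (nat_lit 0) (XT.lf (nat_lit 0) (nat_lit 37472296383) (nat_lit 380) (nat_lit 5660180585) (nat_lit 456) (nat_lit 44444333126) (nat_lit 104) (nat_lit 5) (nat_lit 109) (nat_lit 5) (nat_lit 110) (nat_lit 5) (nat_lit 383) (nat_lit 338) (nat_lit 59)) (XT.lf (nat_lit 0) (nat_lit 57600702510) (nat_lit 456) (nat_lit 6526709437) (nat_lit 76) (nat_lit 25123883771) (nat_lit 104) (nat_lit 5) (nat_lit 110) (nat_lit 5) (nat_lit 105) (nat_lit 5) (nat_lit 384) (nat_lit 338) (nat_lit 58)))))) (XT.nd (nat_lit 546) (nat_lit 836) (nat_lit 0) (XT.nd (nat_lit 234) (nat_lit 0) (nat_lit 76) (XT.nd (nat_lit 78)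 (nat_lit 0) (nat_lit 0) (XT.lf (nat_lit 0) (nat_lit 7197094098) (nat_lit 0) (nat_lit 7197094098) (nat_lit 1140) (nat_lit 6720627322) (nat_lit 205) (nat_lit 5) (nat_lit 205) (nat_lit 3) (nat_lit 220) (nat_lit 3) (nat_lit 339) (nat_lit 339) (nat_lit 102)) (XT.nd (nat_lit 78) (nat_lit 0) (nat_lit 0) (XT.lf (nat_lit 0) (nat_lit 29304823526) (nat_lit 1140) (nat_lit 8512558814) (nat_lit 1216) (nat_lit 5043118127) (nat_lit 205) (nat_lit 5) (nat_lit 220) (nat_lit 3) (nat_lit 221) (nat_lit 5) (nat_lit 340) (nat_lit 339) (nat_lit 101)) (XT.lf (nat_lit 76) (nat_lit 11470591903) (nat_lit 0) (nat_lit 18617584884) (nat_lit 1216) (nat_lit 13414578230) (nat_lit 206) (nat_lit 5) (nat_lit 205) (nat_lit 5) (nat_lit 221) (nat_lit 5) (nat_lit 341) (nat_lit 339) (nat_lit 100)))) (XT.nd (nat_lit 156) (nat_lit 0) (nat_lit 0) (XT.nd (nat_lit 78) (nat_lit 0) (nat_lit 0) (XT.lf (nat_lit 0) (nat_lit 30991647544) (nat_lit 1140)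 (nat_lit 11946722296) (nat_lit 1216) (nat_lit 1223010235) (nat_lit 206) (nat_lit 5) (nat_lit 221) (nat_lit 5) (nat_lit 222) (nat_lit 5) (nat_lit 342) (nat_lit 339) (nat_lit 99)) (XT.lf (nat_lit 76) (nat_lit 8726481227) (nat_lit 0) (nat_lit 23462668934) (nat_lit 1216) (nat_lit 12642607232) (nat_lit 207) (nat_lit 5) (nat_lit 206) (nat_lit 5) (nat_lit 222) (nat_lit 5) (nat_lit 343) (nat_lit 339) (nat_lit 98))) (XT.nd (nat_lit 78) (nat_lit 0) (nat_lit 76) (XT.lf (nat_lit 76) (nat_lit 30264031257) (nat_lit 0) (nat_lit 3277926383) (nat_lit 1216) (nat_lit 11976708294) (nat_lit 207) (nat_lit 5) (nat_lit 206) (nat_lit 5) (nat_lit 222) (nat_lit 5) (nat_lit 344) (nat_lit 339) (nat_lit 97)) (XT.lf (nat_lit 76) (nat_lit 6172874890) (nat_lit 0) (nat_lit 28988934171) (nat_lit 1216) (nat_lit 11057580144) (nat_lit 208) (nat_lit 5) (nat_lit 207) (nat_lit 5) (nat_lit 223) (nat_lit 5) (nat_lit 345) (nat_lit 339) (nat_lit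 96))))) (XT.nd (nat_lit 312) (nat_lit 988) (nat_lit 0) (XT.nd (nat_lit 156) (nat_lit 0) (nat_lit 76) (XT.nd (nat_lit 78) (nat_lit 0) (nat_lit 76) (XT.lf (nat_lit 76) (nat_lit 28522055004) (nat_lit 0) (nat_lit 8493190370) (nat_lit 1216) (nat_lit 9920340342) (nat_lit 208) (nat_lit 5) (nat_lit 207) (nat_lit 5) (nat_lit 223) (nat_lit 5) (nat_lit 346) (nat_lit 339) (nat_lit 95)) (XT.lf (nat_lit 76) (nat_lit 3820939380) (nat_lit 0) (nat_lit 35260210583) (nat_lit 1216) (nat_lit 8587413394) (nat_lit 209) (nat_lit 5) (nat_lit 208) (nat_lit 5) (nat_lit 224) (nat_lit 5) (nat_lit 347) (nat_lit 339) (nat_lit 94))) (XT.nd (nat_lit 78) (nat_lit 0) (nat_lit 76) (XT.lf (nat_lit 76) (nat_lit 27013369060) (nat_lit 0) (nat_lit 14463745436) (nat_lit 1216) (nat_lit 6938374503) (nat_lit 209) (nat_lit 5) (nat_lit 208) (nat_lit 5) (nat_lit 224) (nat_lit 5) (nat_lit 348) (nat_lit 339) (nat_lit 93)) (XT.lf (nat_lit 76) (nat_lit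 1681914146) (nat_lit 0) (nat_lit 42344994370) (nat_lit 1216) (nat_lit 5155456498) (nat_lit 210) (nat_lit 5) (nat_lit 209) (nat_lit 5) (nat_lit 225) (nat_lit 5) (nat_lit 349) (nat_lit 339) (nat_lit 92)))) (XT.nd (nat_lit 156) (nat_lit 1140) (nat_lit 0) (XT.nd (nat_lit 78) (nat_lit 0) (nat_lit 76) (XT.lf (nat_lit 76) (nat_lit 25750359898) (nat_lit 0) (nat_lit 21259693304) (nat_lit 1216) (nat_lit 2951489491) (nat_lit 210) (nat_lit 5) (nat_lit 209) (nat_lit 5) (nat_lit 225) (nat_lit 5) (nat_lit 350) (nat_lit 339) (nat_lit 91)) (XT.lf (nat_lit 0) (nat_lit 50086066057) (nat_lit 1140) (nat_lit 228429343) (nat_lit 1216) (nat_lit 449500144) (nat_lit 210) (nat_lit 5) (nat_lit 225) (nat_lit 5) (nat_lit 226) (nat_lit 5) (nat_lit 351) (nat_lit 339) (nat_lit 90))) (XT.nd (nat_lit 78) (nat_lit 0) (nat_lit 0) (XT.lf (nat_lit 0) (nat_lit 2083157955) (nat_lit 1216) (nat_lit 26852103848) (nat_lit 1292) (nat_lit 22641227716)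 (nat_lit 194) (nat_lit 5) (nat_lit 210) (nat_lit 5) (nat_lit 211) (nat_lit 5) (nat_lit 352) (nat_lit 339) (nat_lit 89)) (XT.lf (nat_lit 0) (nat_lit 4914792681) (nat_lit 1216) (nat_lit 1990335075) (nat_lit 1292) (nat_lit 45507989948) (nat_lit 194) (nat_lit 5) (nat_lit 210) (nat_lit 5) (nat_lit 211) (nat_lit 5) (nat_lit 353) (nat_lit 339) (nat_lit 88))))))))
noncomputable def xc247 : XT := (XT.nd (nat_lit 2184) (nat_lit 380) (nat_lit 0) (XT.nd (nat_lit 1092) (nat_lit 3192) (nat_lit 0) (XT.nd (nat_lit 546) (nat_lit 1672) (nat_lit 0) (XT.nd (nat_lit 234) (nat_lit 1292) (nat_lit 0) (XT.nd (nat_lit 78) (nat_lit 0) (nat_lit 0) (XT.lf (nat_lit 0) (nat_lit 8215988931) (nat_lit 1216) (nat_lit 29335420619) (nat_lit 1292) (nat_lit 15711897750) (nat_lit 195) (nat_lit 5) (nat_lit 211) (nat_lit 5) (nat_lit 212) (nat_lit 5) (nat_lit 354) (nat_lit 339) (nat_lit 87)) (XT.nd (nat_lit 78) (nat_lit 0) (nat_lit 76) (XT.lf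 (nat_lit 0) (nat_lit 11703948412) (nat_lit 1216) (nat_lit 3543290726) (nat_lit 1292) (nat_lit 38889132537) (nat_lit 195) (nat_lit 5) (nat_lit 211) (nat_lit 5) (nat_lit 212) (nat_lit 5) (nat_lit 355) (nat_lit 339) (nat_lit 86)) (XT.lf (nat_lit 0) (nat_lit 15597844384) (nat_lit 1216) (nat_lit 31625362662) (nat_lit 76) (nat_lit 7803382888) (nat_lit 196) (nat_lit 5) (nat_lit 212) (nat_lit 5) (nat_lit 197) (nat_lit 5) (nat_lit 356) (nat_lit 339) (nat_lit 85)))) (XT.nd (nat_lit 156) (nat_lit 608) (nat_lit 0) (XT.nd (nat_lit 78) (nat_lit 760) (nat_lit 0) (XT.lf (nat_lit 0) (nat_lit 19794764802) (nat_lit 1216) (nat_lit 4867821901) (nat_lit 76) (nat_lit 31275342671) (nat_lit 196) (nat_lit 5) (nat_lit 212) (nat_lit 5) (nat_lit 197) (nat_lit 5) (nat_lit 357) (nat_lit 339) (nat_lit 84)) (XT.lf (nat_lit 0) (nat_lit 23143298524) (nat_lit 760) (nat_lit 1195898020) (nat_lit 836) (nat_lit 32530765176) (nat_lit 186)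 (nat_lit 5) (nat_lit 196) (nat_lit 5) (nat_lit 197) (nat_lit 5) (nat_lit 358) (nat_lit 339) (nat_lit 83))) (XT.nd (nat_lit 78) (nat_lit 608) (nat_lit 0) (XT.lf (nat_lit 0) (nat_lit 29289606206) (nat_lit 836) (nat_lit 5956052057) (nat_lit 76) (nat_lit 22576208234) (nat_lit 186) (nat_lit 5) (nat_lit 197) (nat_lit 5) (nat_lit 187) (nat_lit 5) (nat_lit 359) (nat_lit 339) (nat_lit 82)) (XT.lf (nat_lit 0) (nat_lit 23085566593) (nat_lit 608) (nat_lit 11535894411) (nat_lit 684) (nat_lit 24173880214) (nat_lit 178) (nat_lit 5) (nat_lit 186) (nat_lit 5) (nat_lit 187) (nat_lit 5) (nat_lit 360) (nat_lit 339) (nat_lit 81))))) (XT.nd (nat_lit 234) (nat_lit 1140) (nat_lit 0) (XT.nd (nat_lit 78) (nat_lit 532) (nat_lit 0) (XT.lf (nat_lit 0) (nat_lit 40297068417) (nat_lit 684) (nat_lit 6800915222) (nat_lit 76) (nat_lit 12694523397) (nat_lit 178) (nat_lit 5) (nat_lit 187) (nat_lit 5) (nat_lit 179) (nat_lit 5) (nat_lit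 361) (nat_lit 339) (nat_lit 80)) (XT.nd (nat_lit 78) (nat_lit 0) (nat_lit 0) (XT.lf (nat_lit 0) (nat_lit 23315208482) (nat_lit 532) (nat_lit 23165292753) (nat_lit 608) (nat_lit 14328960619) (nat_lit 171) (nat_lit 5) (nat_lit 178) (nat_lit 5) (nat_lit 179) (nat_lit 5) (nat_lit 362) (nat_lit 339) (nat_lit 79)) (XT.lf (nat_lit 0) (nat_lit 52932307440) (nat_lit 608) (nat_lit 7396360303) (nat_lit 76) (nat_lit 1525772181) (nat_lit 171) (nat_lit 5) (nat_lit 179) (nat_lit 5) (nat_lit 172) (nat_lit 5) (nat_lit 363) (nat_lit 339) (nat_lit 78)))) (XT.nd (nat_lit 156) (nat_lit 532) (nat_lit 0) (XT.nd (nat_lit 78) (nat_lit 76) (nat_lit 0) (XT.lf (nat_lit 0) (nat_lit 23839563325) (nat_lit 532) (nat_lit 36195882720) (nat_lit 608) (nat_lit 2881588644) (nat_lit 164) (nat_lit 5) (nat_lit 171) (nat_lit 5) (nat_lit 172) (nat_lit 5) (nat_lit 364) (nat_lit 339) (nat_lit 77)) (XT.lf (nat_lit 0) (nat_lit 3349686042) (nat_lit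 608) (nat_lit 7878681751) (nat_lit 76) (nat_lit 52779936128) (nat_lit 163) (nat_lit 5) (nat_lit 171) (nat_lit 5) (nat_lit 164) (nat_lit 5) (nat_lit 365) (nat_lit 339) (nat_lit 76))) (XT.nd (nat_lit 78) (nat_lit 0) (nat_lit 0) (XT.lf (nat_lit 0) (nat_lit 10088689316) (nat_lit 608) (nat_lit 40557281753) (nat_lit 76) (nat_lit 14474123662) (nat_lit 156) (nat_lit 5) (nat_lit 164) (nat_lit 5) (nat_lit 157) (nat_lit 5) (nat_lit 366) (nat_lit 339) (nat_lit 75)) (XT.lf (nat_lit 0) (nat_lit 17220681718) (nat_lit 608) (nat_lit 8236497400) (nat_lit 76) (nat_lit 40802336198) (nat_lit 156) (nat_lit 5) (nat_lit 164) (nat_lit 5) (nat_lit 157) (nat_lit 5) (nat_lit 367) (nat_lit 339) (nat_lit 74)))))) (XT.nd (nat_lit 546) (nat_lit 1292) (nat_lit 0) (XT.nd (nat_lit 234) (nat_lit 912) (nat_lit 0) (XT.nd (nat_lit 78) (nat_lit 456) (nat_lit 0) (XT.lf (nat_lit 0) (nat_lit 24818689371) (nat_lit 608) (nat_lit 41881089724)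 (nat_lit 76) (nat_lit 725778360) (nat_lit 149) (nat_lit 5) (nat_lit 157) (nat_lit 5) (nat_lit 150) (nat_lit 5) (nat_lit 368) (nat_lit 339) (nat_lit 73)) (XT.nd (nat_lit 78) (nat_lit 456) (nat_lit 0) (XT.lf (nat_lit 0) (nat_lit 32980017465) (nat_lit 608) (nat_lit 8369992964) (nat_lit 76) (nat_lit 27266509610) (nat_lit 149) (nat_lit 5) (nat_lit 157) (nat_lit 5) (nat_lit 150) (nat_lit 5) (nat_lit 369) (nat_lit 339) (nat_lit 72)) (XT.lf (nat_lit 0) (nat_lit 26666074807) (nat_lit 456) (nat_lit 14975793615) (nat_lit 532) (nat_lit 28193673154) (nat_lit 143) (nat_lit 5) (nat_lit 149) (nat_lit 5) (nat_lit 150) (nat_lit 5) (nat_lit 370) (nat_lit 339) (nat_lit 71)))) (XT.nd (nat_lit 156) (nat_lit 456) (nat_lit 0) (XT.nd (nat_lit 78) (nat_lit 456) (nat_lit 0) (XT.lf (nat_lit 0) (nat_lit 50765470428) (nat_lit 532) (nat_lit 8282533097) (nat_lit 76) (nat_lit 12037073921) (nat_lit 143) (nat_lit 5) (nat_lit 150)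 (nat_lit 5) (nat_lit 144) (nat_lit 5) (nat_lit 371) (nat_lit 339) (nat_lit 70)) (XT.lf (nat_lit 0) (nat_lit 28049373824) (nat_lit 456) (nat_lit 32530691918) (nat_lit 532) (nat_lit 11779515628) (nat_lit 137) (nat_lit 5) (nat_lit 143) (nat_lit 5) (nat_lit 144) (nat_lit 5) (nat_lit 372) (nat_lit 339) (nat_lit 69))) (XT.nd (nat_lit 78) (nat_lit 456) (nat_lit 0) (XT.lf (nat_lit 0) (nat_lit 65640324772) (nat_lit 456) (nat_lit 5131805104) (nat_lit 532) (nat_lit 2897700127) (nat_lit 137) (nat_lit 5) (nat_lit 143) (nat_lit 5) (nat_lit 144) (nat_lit 5) (nat_lit 373) (nat_lit 339) (nat_lit 68)) (XT.lf (nat_lit 0) (nat_lit 6640433261) (nat_lit 456) (nat_lit 45372821333) (nat_lit 76) (nat_lit 22988974426) (nat_lit 131) (nat_lit 5) (nat_lit 137) (nat_lit 5) (nat_lit 132) (nat_lit 5) (nat_lit 374) (nat_lit 339) (nat_lit 67))))) (XT.nd (nat_lit 234) (nat_lit 836) (nat_lit 0) (XT.nd (nat_lit 78) (nat_lit 456) (nat_lit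 0) (XT.lf (nat_lit 0) (nat_lit 16538579536) (nat_lit 456) (nat_lit 7870484735) (nat_lit 76) (nat_lit 51960712214) (nat_lit 131) (nat_lit 5) (nat_lit 137) (nat_lit 5) (nat_lit 132) (nat_lit 5) (nat_lit 375) (nat_lit 339) (nat_lit 66)) (XT.nd (nat_lit 78) (nat_lit 0) (nat_lit 0) (XT.lf (nat_lit 0) (nat_lit 27076292180) (nat_lit 532) (nat_lit 46442627741) (nat_lit 76) (nat_lit 4249152257) (nat_lit 125) (nat_lit 5) (nat_lit 132) (nat_lit 5) (nat_lit 126) (nat_lit 5) (nat_lit 376) (nat_lit 339) (nat_lit 65)) (XT.lf (nat_lit 0) (nat_lit 38251514283) (nat_lit 532) (nat_lit 7590492936) (nat_lit 76) (nat_lit 33356668627) (nat_lit 125) (nat_lit 5) (nat_lit 132) (nat_lit 5) (nat_lit 126) (nat_lit 5) (nat_lit 377) (nat_lit 339) (nat_lit 64)))) (XT.nd (nat_lit 156) (nat_lit 456) (nat_lit 0) (XT.nd (nat_lit 78) (nat_lit 0) (nat_lit 0) (XT.lf (nat_lit 0) (nat_lit 33071889245) (nat_lit 380) (nat_lit 17007468139)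 (nat_lit 456) (nat_lit 30583319747) (nat_lit 120) (nat_lit 5) (nat_lit 125) (nat_lit 5) (nat_lit 126) (nat_lit 5) (nat_lit 378) (nat_lit 339) (nat_lit 63)) (XT.lf (nat_lit 0) (nat_lit 62460913396) (nat_lit 456) (nat_lit 7181998611) (nat_lit 76) (nat_lit 12521720541) (nat_lit 120) (nat_lit 5) (nat_lit 126) (nat_lit 5) (nat_lit 121) (nat_lit 5) (nat_lit 379) (nat_lit 339) (nat_lit 62))) (XT.nd (nat_lit 78) (nat_lit 76) (nat_lit 0) (XT.lf (nat_lit 0) (nat_lit 34952046621) (nat_lit 380) (nat_lit 40765721588) (nat_lit 456) (nat_lit 7978763265) (nat_lit 115) (nat_lit 5) (nat_lit 120) (nat_lit 5) (nat_lit 121) (nat_lit 5) (nat_lit 380) (nat_lit 339) (nat_lit 61)) (XT.lf (nat_lit 0) (nat_lit 4090702183) (nat_lit 456) (nat_lit 6815645956) (nat_lit 76) (nat_lit 74364676064) (nat_lit 114) (nat_lit 5) (nat_lit 120) (nat_lit 5) (nat_lit 115) (nat_lit 5) (nat_lit 381) (nat_lit 339) (nat_lit 60))))))) (XT.nd (nat_lit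 38298) (nat_lit 0) (nat_lit 4104) (XT.nd (nat_lit 37752) (nat_lit 0) (nat_lit 7372) (XT.nd (nat_lit 37440) (nat_lit 0) (nat_lit 7296) (XT.nd (nat_lit 78) (nat_lit 0) (nat_lit 0) (XT.lf (nat_lit 0) (nat_lit 16912286327) (nat_lit 456) (nat_lit 50061137029) (nat_lit 76) (nat_lit 19900446806) (nat_lit 109) (nat_lit 5) (nat_lit 115) (nat_lit 5) (nat_lit 110) (nat_lit 5) (nat_lit 382) (nat_lit 339) (nat_lit 59)) (XT.nd (nat_lit 37284) (nat_lit 0) (nat_lit 7296) (XT.lf (nat_lit 0) (nat_lit 30295514157) (nat_lit 456) (nat_lit 6742373839) (nat_lit 76) (nat_lit 51481603982) (nat_lit 109) (nat_lit 5) (nat_lit 115) (nat_lit 5) (nat_lit 110) (nat_lit 5) (nat_lit 383) (nat_lit 339) (nat_lit 58)) (XT.lf (nat_lit 0) (nat_lit 7430427415) (nat_lit 0) (nat_lit 7430427415) (nat_lit 1140) (nat_lit 6886323882) (nat_lit 205) (nat_lit 5) (nat_lit 205) (nat_lit 3) (nat_lit 220) (nat_lit 3) (nat_lit 340) (nat_lit 340) (nat_lit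 100)))) (XT.nd (nat_lit 156) (nat_lit 0) (nat_lit 76) (XT.nd (nat_lit 78) (nat_lit 0) (nat_lit 0) (XT.lf (nat_lit 0) (nat_lit 30251295476) (nat_lit 1140) (nat_lit 8731684661) (nat_lit 1216) (nat_lit 5161245541) (nat_lit 205) (nat_lit 5) (nat_lit 220) (nat_lit 3) (nat_lit 221) (nat_lit 5) (nat_lit 341) (nat_lit 340) (nat_lit 99)) (XT.lf (nat_lit 76) (nat_lit 11850605176) (nat_lit 0) (nat_lit 19205928220) (nat_lit 1216) (nat_lit 13749264984) (nat_lit 206) (nat_lit 5) (nat_lit 205) (nat_lit 5) (nat_lit 221) (nat_lit 5) (nat_lit 342) (nat_lit 340) (nat_lit 98))) (XT.nd (nat_lit 78) (nat_lit 0) (nat_lit 0) (XT.lf (nat_lit 0) (nat_lit 31984916096) (nat_lit 1140) (nat_lit 12268015799) (nat_lit 1216) (nat_lit 1231318041) (nat_lit 206) (nat_lit 5) (nat_lit 221) (nat_lit 5) (nat_lit 222) (nat_lit 5) (nat_lit 343) (nat_lit 340) (nat_lit 97)) (XT.lf (nat_lit 76) (nat_lit 9025020024) (nat_lit 0) (nat_lit 24191826904)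 (nat_lit 1216) (nat_lit 12957938471) (nat_lit 207) (nat_lit 5) (nat_lit 206) (nat_lit 5) (nat_lit 222) (nat_lit 5) (nat_lit 344) (nat_lit 340) (nat_lit 96))))) (XT.nd (nat_lit 234) (nat_lit 0) (nat_lit 152) (XT.nd (nat_lit 78) (nat_lit 0) (nat_lit 76) (XT.lf (nat_lit 76) (nat_lit 31207626332) (nat_lit 0) (nat_lit 3400805827) (nat_lit 1216) (nat_lit 12273925098) (nat_lit 207) (nat_lit 5) (nat_lit 206) (nat_lit 5) (nat_lit 222) (nat_lit 5) (nat_lit 345) (nat_lit 340) (nat_lit 95)) (XT.nd (nat_lit 78) (nat_lit 0) (nat_lit 0) (XT.lf (nat_lit 76) (nat_lit 6395469459) (nat_lit 0) (nat_lit 29879786358) (nat_lit 1216) (nat_lit 11328896918) (nat_lit 208) (nat_lit 5) (nat_lit 207) (nat_lit 5) (nat_lit 223) (nat_lit 5) (nat_lit 346) (nat_lit 340) (nat_lit 94)) (XT.lf (nat_lit 76) (nat_lit 29414035414) (nat_lit 0) (nat_lit 8768553229) (nat_lit 1216) (nat_lit 10159299455) (nat_lit 208) (nat_lit 5) (nat_lit 207)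 (nat_lit 5) (nat_lit 223) (nat_lit 5) (nat_lit 347) (nat_lit 340) (nat_lit 93)))) (XT.nd (nat_lit 156) (nat_lit 0) (nat_lit 76) (XT.nd (nat_lit 78) (nat_lit 0) (nat_lit 0) (XT.lf (nat_lit 76) (nat_lit 3973473905) (nat_lit 0) (nat_lit 36335512027) (nat_lit 1216) (nat_lit 8787915377) (nat_lit 209) (nat_lit 5) (nat_lit 208) (nat_lit 5) (nat_lit 224) (nat_lit 5) (nat_lit 348) (nat_lit 340) (nat_lit 92)) (XT.lf (nat_lit 76) (nat_lit 27860572407) (nat_lit 0) (nat_lit 14914643358) (nat_lit 1216) (nat_lit 7091069021) (nat_lit 209) (nat_lit 5) (nat_lit 208) (nat_lit 5) (nat_lit 224) (nat_lit 5) (nat_lit 349) (nat_lit 340) (nat_lit 91))) (XT.nd (nat_lit 78) (nat_lit 0) (nat_lit 0) (XT.lf (nat_lit 76) (nat_lit 1770627234) (nat_lit 0) (nat_lit 43629518953) (nat_lit 1216) (nat_lit 5256063226) (nat_lit 210) (nat_lit 5) (nat_lit 209) (nat_lit 5) (nat_lit 225) (nat_lit 5) (nat_lit 350) (nat_lit 340) (nat_lit 90))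 (XT.lf (nat_lit 76) (nat_lit 26560012116) (nat_lit 0) (nat_lit 21911245998) (nat_lit 1216) (nat_lit 2987551684) (nat_lit 210) (nat_lit 5) (nat_lit 209) (nat_lit 5) (nat_lit 225) (nat_lit 5) (nat_lit 351) (nat_lit 340) (nat_lit 89)))))) (XT.nd (nat_lit 546) (nat_lit 2356) (nat_lit 0) (XT.nd (nat_lit 234) (nat_lit 0) (nat_lit 76) (XT.nd (nat_lit 78) (nat_lit 1216) (nat_lit 0) (XT.lf (nat_lit 0) (nat_lit 51637940298) (nat_lit 1140) (nat_lit 197560976) (nat_lit 1216) (nat_lit 449884808) (nat_lit 210) (nat_lit 5) (nat_lit 225) (nat_lit 5) (nat_lit 226) (nat_lit 5) (nat_lit 352) (nat_lit 340) (nat_lit 88)) (XT.nd (nat_lit 78) (nat_lit 0) (nat_lit 0) (XT.lf (nat_lit 0) (nat_lit 2194393813) (nat_lit 1216) (nat_lit 27619297830) (nat_lit 1292) (nat_lit 23308582670) (nat_lit 194) (nat_lit 5) (nat_lit 210) (nat_lit 5) (nat_lit 211) (nat_lit 5) (nat_lit 353) (nat_lit 340) (nat_lit 87)) (XT.lf (nat_lit 0) (nat_lit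 5109557937) (nat_lit 1216) (nat_lit 2012793543) (nat_lit 1292) (nat_lit 46861693843) (nat_lit 194) (nat_lit 5) (nat_lit 210) (nat_lit 5) (nat_lit 211) (nat_lit 5) (nat_lit 354) (nat_lit 340) (nat_lit 86)))) (XT.nd (nat_lit 156) (nat_lit 0) (nat_lit 76) (XT.nd (nat_lit 78) (nat_lit 0) (nat_lit 0) (XT.lf (nat_lit 0) (nat_lit 8508675885) (nat_lit 1216) (nat_lit 30177072541) (nat_lit 1292) (nat_lit 16174026952) (nat_lit 195) (nat_lit 5) (nat_lit 211) (nat_lit 5) (nat_lit 212) (nat_lit 5) (nat_lit 355) (nat_lit 340) (nat_lit 85)) (XT.lf (nat_lit 0) (nat_lit 12099928307) (nat_lit 1216) (nat_lit 3612297510) (nat_lit 1292) (nat_lit 40046847551) (nat_lit 195) (nat_lit 5) (nat_lit 211) (nat_lit 5) (nat_lit 212) (nat_lit 5) (nat_lit 356) (nat_lit 340) (nat_lit 84))) (XT.nd (nat_lit 78) (nat_lit 0) (nat_lit 0) (XT.lf (nat_lit 0) (nat_lit 16109622344) (nat_lit 1216) (nat_lit 32535770447) (nat_lit 76) (nat_lit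 8030637219) (nat_lit 196) (nat_lit 5) (nat_lit 212) (nat_lit 5) (nat_lit 197) (nat_lit 5) (nat_lit 357) (nat_lit 340) (nat_lit 83)) (XT.lf (nat_lit 0) (nat_lit 20431173405) (nat_lit 1216) (nat_lit 4976620543) (nat_lit 76) (nat_lit 32206955227) (nat_lit 196) (nat_lit 5) (nat_lit 212) (nat_lit 5) (nat_lit 197) (nat_lit 5) (nat_lit 358) (nat_lit 340) (nat_lit 82))))) (XT.nd (nat_lit 312) (nat_lit 1140) (nat_lit 0) (XT.nd (nat_lit 156) (nat_lit 608) (nat_lit 0) (XT.nd (nat_lit 78) (nat_lit 0) (nat_lit 0) (XT.lf (nat_lit 0) (nat_lit 23874468435) (nat_lit 760) (nat_lit 1236584313) (nat_lit 836) (nat_lit 33463717501) (nat_lit 186) (nat_lit 5) (nat_lit 196) (nat_lit 5) (nat_lit 197) (nat_lit 5) (nat_lit 359) (nat_lit 340) (nat_lit 81)) (XT.lf (nat_lit 0) (nat_lit 30208715827) (nat_lit 836) (nat_lit 6097638951) (nat_lit 76) (nat_lit 23248916320) (nat_lit 186) (nat_lit 5) (nat_lit 197) (nat_lit 5) (nat_lit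 187) (nat_lit 5) (nat_lit 360) (nat_lit 340) (nat_lit 80))) (XT.nd (nat_lit 78) (nat_lit 0) (nat_lit 0) (XT.lf (nat_lit 0) (nat_lit 23814864585) (nat_lit 608) (nat_lit 11884837442) (nat_lit 684) (nat_lit 24858273891) (nat_lit 178) (nat_lit 5) (nat_lit 186) (nat_lit 5) (nat_lit 187) (nat_lit 5) (nat_lit 361) (nat_lit 340) (nat_lit 79)) (XT.lf (nat_lit 0) (nat_lit 41544397597) (nat_lit 684) (nat_lit 6968064928) (nat_lit 76) (nat_lit 13072630683) (nat_lit 178) (nat_lit 5) (nat_lit 187) (nat_lit 5) (nat_lit 179) (nat_lit 5) (nat_lit 362) (nat_lit 340) (nat_lit 78)))) (XT.nd (nat_lit 156) (nat_lit 608) (nat_lit 0) (XT.nd (nat_lit 78) (nat_lit 0) (nat_lit 0) (XT.lf (nat_lit 0) (nat_lit 24051180940) (nat_lit 532) (nat_lit 23861384529) (nat_lit 608) (nat_lit 14720015303) (nat_lit 171) (nat_lit 5) (nat_lit 178) (nat_lit 5) (nat_lit 179) (nat_lit 5) (nat_lit 363) (nat_lit 340) (nat_lit 77)) (XT.lf (nat_lit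 0) (nat_lit 54556818709) (nat_lit 608) (nat_lit 7581656906) (nat_lit 76) (nat_lit 1570466817) (nat_lit 171) (nat_lit 5) (nat_lit 179) (nat_lit 5) (nat_lit 172) (nat_lit 5) (nat_lit 364) (nat_lit 340) (nat_lit 76))) (XT.nd (nat_lit 78) (nat_lit 76) (nat_lit 0) (XT.lf (nat_lit 0) (nat_lit 24590985664) (nat_lit 532) (nat_lit 37281349793) (nat_lit 608) (nat_lit 2931102065) (nat_lit 164) (nat_lit 5) (nat_lit 171) (nat_lit 5) (nat_lit 172) (nat_lit 5) (nat_lit 365) (nat_lit 340) (nat_lit 75)) (XT.lf (nat_lit 0) (nat_lit 3485335379) (nat_lit 608) (nat_lit 8079130930) (nat_lit 76) (nat_lit 54363000460) (nat_lit 163) (nat_lit 5) (nat_lit 171) (nat_lit 5) (nat_lit 164) (nat_lit 5) (nat_lit 366) (nat_lit 340) (nat_lit 74))))))))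
noncomputable def xc248 : XT := (XT.nd (nat_lit 39546) (nat_lit 0) (nat_lit 456) (XT.nd (nat_lit 1092) (nat_lit 456) (nat_lit 0) (XT.nd (nat_lit 546) (nat_lit 1292) (nat_lit 0) (XT.nd (nat_lit 234) (nat_lit 912) (nat_lit 0) (XT.nd (nat_lit 78) (nat_lit 532) (nat_lit 0) (XT.lf (nat_lit 0) (nat_lit 10425836934) (nat_lit 608) (nat_lit 41737386526) (nat_lit 76) (nat_lit 14909408917) (nat_lit 156) (nat_lit 5) (nat_lit 164) (nat_lit 5) (nat_lit 157) (nat_lit 5) (nat_lit 367) (nat_lit 340) (nat_lit 73)) (XT.nd (nat_lit 78) (nat_lit 532) (nat_lit 0) (XT.lf (nat_lit 0) (nat_lit 17770784634) (nat_lit 608) (nat_lit 8448045060) (nat_lit 76) (nat_lit 42027436909) (nat_lit 156) (nat_lit 5) (nat_lit 164) (nat_lit 5) (nat_lit 157) (nat_lit 5) (nat_lit 368) (nat_lit 340) (nat_lit 72)) (XT.lf (nat_lit 0) (nat_lit 25596118271) (nat_lit 608) (nat_lit 43101332075) (nat_lit 76) (nat_lit 749858954) (nat_lit 149) (nat_lit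 5) (nat_lit 157) (nat_lit 5) (nat_lit 150) (nat_lit 5) (nat_lit 369) (nat_lit 340) (nat_lit 71)))) (XT.nd (nat_lit 156) (nat_lit 456) (nat_lit 0) (XT.nd (nat_lit 78) (nat_lit 456) (nat_lit 0) (XT.lf (nat_lit 0) (nat_lit 34001328880) (nat_lit 608) (nat_lit 8585956499) (nat_lit 76) (nat_lit 28086744940) (nat_lit 149) (nat_lit 5) (nat_lit 157) (nat_lit 5) (nat_lit 150) (nat_lit 5) (nat_lit 370) (nat_lit 340) (nat_lit 70)) (XT.lf (nat_lit 0) (nat_lit 27500848832) (nat_lit 456) (nat_lit 15421591531) (nat_lit 532) (nat_lit 29007200805) (nat_lit 143) (nat_lit 5) (nat_lit 149) (nat_lit 5) (nat_lit 150) (nat_lit 5) (nat_lit 371) (nat_lit 340) (nat_lit 69))) (XT.nd (nat_lit 78) (nat_lit 456) (nat_lit 0) (XT.lf (nat_lit 0) (nat_lit 52318870755) (nat_lit 532) (nat_lit 8496324601) (nat_lit 76) (nat_lit 12401494940) (nat_lit 143) (nat_lit 5) (nat_lit 150) (nat_lit 5) (nat_lit 144) (nat_lit 5) (nat_lit 372) (nat_lit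 340) (nat_lit 68)) (XT.lf (nat_lit 0) (nat_lit 28925199483) (nat_lit 456) (nat_lit 33502148094) (nat_lit 532) (nat_lit 12102099220) (nat_lit 137) (nat_lit 5) (nat_lit 143) (nat_lit 5) (nat_lit 144) (nat_lit 5) (nat_lit 373) (nat_lit 340) (nat_lit 67))))) (XT.nd (nat_lit 234) (nat_lit 836) (nat_lit 0) (XT.nd (nat_lit 78) (nat_lit 456) (nat_lit 0) (XT.lf (nat_lit 0) (nat_lit 67642878636) (nat_lit 456) (nat_lit 5281424711) (nat_lit 532) (nat_lit 2954726396) (nat_lit 137) (nat_lit 5) (nat_lit 143) (nat_lit 5) (nat_lit 144) (nat_lit 5) (nat_lit 374) (nat_lit 340) (nat_lit 66)) (XT.nd (nat_lit 78) (nat_lit 0) (nat_lit 0) (XT.lf (nat_lit 0) (nat_lit 6868483010) (nat_lit 456) (nat_lit 46699546278) (nat_lit 76) (nat_lit 23683378055) (nat_lit 131) (nat_lit 5) (nat_lit 137) (nat_lit 5) (nat_lit 132) (nat_lit 5) (nat_lit 375) (nat_lit 340) (nat_lit 65)) (XT.lf (nat_lit 0) (nat_lit 17062733769) (nat_lit 456)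 (nat_lit 8073143262) (nat_lit 76) (nat_lit 53524130081) (nat_lit 131) (nat_lit 5) (nat_lit 137) (nat_lit 5) (nat_lit 132) (nat_lit 5) (nat_lit 376) (nat_lit 340) (nat_lit 64)))) (XT.nd (nat_lit 156) (nat_lit 380) (nat_lit 0) (XT.nd (nat_lit 78) (nat_lit 0) (nat_lit 0) (XT.lf (nat_lit 0) (nat_lit 27916134897) (nat_lit 532) (nat_lit 47801985566) (nat_lit 76) (nat_lit 4382145162) (nat_lit 125) (nat_lit 5) (nat_lit 132) (nat_lit 5) (nat_lit 126) (nat_lit 5) (nat_lit 377) (nat_lit 340) (nat_lit 63)) (XT.lf (nat_lit 0) (nat_lit 39425811121) (nat_lit 532) (nat_lit 7785274708) (nat_lit 76) (nat_lit 34362726296) (nat_lit 125) (nat_lit 5) (nat_lit 132) (nat_lit 5) (nat_lit 126) (nat_lit 5) (nat_lit 378) (nat_lit 340) (nat_lit 62))) (XT.nd (nat_lit 78) (nat_lit 0) (nat_lit 0) (XT.lf (nat_lit 0) (nat_lit 34096656066) (nat_lit 380) (nat_lit 17511367751) (nat_lit 456) (nat_lit 31473724227) (nat_lit 120) (nat_lit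 5) (nat_lit 125) (nat_lit 5) (nat_lit 126) (nat_lit 5) (nat_lit 379) (nat_lit 340) (nat_lit 61)) (XT.lf (nat_lit 0) (nat_lit 64360319930) (nat_lit 456) (nat_lit 7365071433) (nat_lit 76) (nat_lit 12903392565) (nat_lit 120) (nat_lit 5) (nat_lit 126) (nat_lit 5) (nat_lit 121) (nat_lit 5) (nat_lit 380) (nat_lit 340) (nat_lit 60)))))) (XT.nd (nat_lit 37908) (nat_lit 0) (nat_lit 6992) (XT.nd (nat_lit 37596) (nat_lit 0) (nat_lit 6916) (XT.nd (nat_lit 78) (nat_lit 76) (nat_lit 0) (XT.lf (nat_lit 0) (nat_lit 36032677636) (nat_lit 380) (nat_lit 41981766001) (nat_lit 456) (nat_lit 8192209876) (nat_lit 115) (nat_lit 5) (nat_lit 120) (nat_lit 5) (nat_lit 121) (nat_lit 5) (nat_lit 381) (nat_lit 340) (nat_lit 59)) (XT.nd (nat_lit 37440) (nat_lit 0) (nat_lit 6916) (XT.lf (nat_lit 0) (nat_lit 4238093702) (nat_lit 456) (nat_lit 6988470288) (nat_lit 76) (nat_lit 76601832319) (nat_lit 114) (nat_lit 5) (nat_lit 120)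 (nat_lit 5) (nat_lit 115) (nat_lit 5) (nat_lit 382) (nat_lit 340) (nat_lit 58)) (XT.lf (nat_lit 0) (nat_lit 7669760723) (nat_lit 0) (nat_lit 7669760723) (nat_lit 1140) (nat_lit 7059053423) (nat_lit 205) (nat_lit 5) (nat_lit 205) (nat_lit 3) (nat_lit 220) (nat_lit 3) (nat_lit 341) (nat_lit 341) (nat_lit 98)))) (XT.nd (nat_lit 156) (nat_lit 0) (nat_lit 76) (XT.nd (nat_lit 78) (nat_lit 0) (nat_lit 0) (XT.lf (nat_lit 0) (nat_lit 31222296725) (nat_lit 1140) (nat_lit 8959465234) (nat_lit 1216) (nat_lit 5284820648) (nat_lit 205) (nat_lit 5) (nat_lit 220) (nat_lit 3) (nat_lit 221) (nat_lit 5) (nat_lit 342) (nat_lit 341) (nat_lit 97)) (XT.lf (nat_lit 76) (nat_lit 12239958299) (nat_lit 0) (nat_lit 19810210308) (nat_lit 1216) (nat_lit 14097881502) (nat_lit 206) (nat_lit 5) (nat_lit 205) (nat_lit 5) (nat_lit 221) (nat_lit 5) (nat_lit 343) (nat_lit 341) (nat_lit 96))) (XT.nd (nat_lit 78) (nat_lit 0) (nat_lit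 0) (XT.lf (nat_lit 0) (nat_lit 33004336446) (nat_lit 1140) (nat_lit 12601078267) (nat_lit 1216) (nat_lit 1241504353) (nat_lit 206) (nat_lit 5) (nat_lit 221) (nat_lit 5) (nat_lit 222) (nat_lit 5) (nat_lit 344) (nat_lit 341) (nat_lit 95)) (XT.lf (nat_lit 76) (nat_lit 9330405709) (nat_lit 0) (nat_lit 24941408558) (nat_lit 1216) (nat_lit 13286400465) (nat_lit 207) (nat_lit 5) (nat_lit 206) (nat_lit 5) (nat_lit 222) (nat_lit 5) (nat_lit 345) (nat_lit 341) (nat_lit 94))))) (XT.nd (nat_lit 234) (nat_lit 0) (nat_lit 152) (XT.nd (nat_lit 78) (nat_lit 0) (nat_lit 76) (XT.lf (nat_lit 76) (nat_lit 32177481417) (nat_lit 0) (nat_lit 3525962863) (nat_lit 1216) (nat_lit 12583622308) (nat_lit 207) (nat_lit 5) (nat_lit 206) (nat_lit 5) (nat_lit 222) (nat_lit 5) (nat_lit 346) (nat_lit 341) (nat_lit 93)) (XT.nd (nat_lit 78) (nat_lit 0) (nat_lit 0) (XT.lf (nat_lit 76) (nat_lit 6622594474) (nat_lit 0) (nat_lit 30796148053)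 (nat_lit 1216) (nat_lit 11611821013) (nat_lit 208) (nat_lit 5) (nat_lit 207) (nat_lit 5) (nat_lit 223) (nat_lit 5) (nat_lit 347) (nat_lit 341) (nat_lit 92)) (XT.lf (nat_lit 76) (nat_lit 30330690390) (nat_lit 0) (nat_lit 9050996335) (nat_lit 1216) (nat_lit 10408794155) (nat_lit 208) (nat_lit 5) (nat_lit 207) (nat_lit 5) (nat_lit 223) (nat_lit 5) (nat_lit 348) (nat_lit 341) (nat_lit 91)))) (XT.nd (nat_lit 156) (nat_lit 0) (nat_lit 76) (XT.nd (nat_lit 78) (nat_lit 0) (nat_lit 0) (XT.lf (nat_lit 76) (nat_lit 4128408486) (nat_lit 0) (nat_lit 37442068223) (nat_lit 1216) (nat_lit 8997711365) (nat_lit 209) (nat_lit 5) (nat_lit 208) (nat_lit 5) (nat_lit 224) (nat_lit 5) (nat_lit 349) (nat_lit 341) (nat_lit 90)) (XT.lf (nat_lit 76) (nat_lit 28731079252) (nat_lit 0) (nat_lit 15378093178) (nat_lit 1216) (nat_lit 7251527817) (nat_lit 209) (nat_lit 5) (nat_lit 208) (nat_lit 5) (nat_lit 224) (nat_lit 5) (nat_lit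 350) (nat_lit 341) (nat_lit 89))) (XT.nd (nat_lit 78) (nat_lit 0) (nat_lit 0) (XT.lf (nat_lit 76) (nat_lit 1859805684) (nat_lit 0) (nat_lit 44951765584) (nat_lit 1216) (nat_lit 5362791248) (nat_lit 210) (nat_lit 5) (nat_lit 209) (nat_lit 5) (nat_lit 225) (nat_lit 5) (nat_lit 351) (nat_lit 341) (nat_lit 88)) (XT.lf (nat_lit 76) (nat_lit 27391821832) (nat_lit 0) (nat_lit 22581555283) (nat_lit 1216) (nat_lit 3027708452) (nat_lit 210) (nat_lit 5) (nat_lit 209) (nat_lit 5) (nat_lit 225) (nat_lit 5) (nat_lit 352) (nat_lit 341) (nat_lit 87))))))) (XT.nd (nat_lit 1092) (nat_lit 3344) (nat_lit 0) (XT.nd (nat_lit 546) (nat_lit 2280) (nat_lit 0) (XT.nd (nat_lit 234) (nat_lit 0) (nat_lit 76) (XT.nd (nat_lit 78) (nat_lit 1216) (nat_lit 0) (XT.lf (nat_lit 0) (nat_lit 53233541190) (nat_lit 1140) (nat_lit 167931911) (nat_lit 1216) (nat_lit 451033026) (nat_lit 210) (nat_lit 5) (nat_lit 225) (nat_lit 5) (nat_lit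 226) (nat_lit 5) (nat_lit 353) (nat_lit 341) (nat_lit 86)) (XT.nd (nat_lit 78) (nat_lit 0) (nat_lit 0) (XT.lf (nat_lit 0) (nat_lit 2306168808) (nat_lit 1216) (nat_lit 28411710178) (nat_lit 1292) (nat_lit 23996640341) (nat_lit 194) (nat_lit 5) (nat_lit 210) (nat_lit 5) (nat_lit 211) (nat_lit 5) (nat_lit 354) (nat_lit 341) (nat_lit 85)) (XT.lf (nat_lit 0) (nat_lit 5307449704) (nat_lit 1216) (nat_lit 2038064157) (nat_lit 1292) (nat_lit 48256671057) (nat_lit 194) (nat_lit 5) (nat_lit 210) (nat_lit 5) (nat_lit 211) (nat_lit 5) (nat_lit 355) (nat_lit 341) (nat_lit 84)))) (XT.nd (nat_lit 156) (nat_lit 0) (nat_lit 76) (XT.nd (nat_lit 78) (nat_lit 0) (nat_lit 0) (XT.lf (nat_lit 0) (nat_lit 8807490961) (nat_lit 1216) (nat_lit 31046178953) (nat_lit 1292) (nat_lit 16650549739) (nat_lit 195) (nat_lit 5) (nat_lit 211) (nat_lit 5) (nat_lit 212) (nat_lit 5) (nat_lit 356) (nat_lit 341) (nat_lit 83)) (XT.lf (nat_lit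 0) (nat_lit 12505212369) (nat_lit 1216) (nat_lit 3685515207) (nat_lit 1292) (nat_lit 41239808297) (nat_lit 195) (nat_lit 5) (nat_lit 211) (nat_lit 5) (nat_lit 212) (nat_lit 5) (nat_lit 357) (nat_lit 341) (nat_lit 82))) (XT.nd (nat_lit 78) (nat_lit 0) (nat_lit 0) (XT.lf (nat_lit 0) (nat_lit 16634236897) (nat_lit 1216) (nat_lit 33475692090) (nat_lit 76) (nat_lit 8265102235) (nat_lit 196) (nat_lit 5) (nat_lit 212) (nat_lit 5) (nat_lit 197) (nat_lit 5) (nat_lit 358) (nat_lit 341) (nat_lit 81)) (XT.lf (nat_lit 0) (nat_lit 21084230823) (nat_lit 1216) (nat_lit 5090820645) (nat_lit 76) (nat_lit 33166897767) (nat_lit 196) (nat_lit 5) (nat_lit 212) (nat_lit 5) (nat_lit 197) (nat_lit 5) (nat_lit 359) (nat_lit 341) (nat_lit 80))))) (XT.nd (nat_lit 234) (nat_lit 1064) (nat_lit 0) (XT.nd (nat_lit 78) (nat_lit 608) (nat_lit 0) (XT.lf (nat_lit 0) (nat_lit 24625456900) (nat_lit 760) (nat_lit 1278215119) (nat_lit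 836) (nat_lit 34427125086) (nat_lit 186) (nat_lit 5) (nat_lit 196) (nat_lit 5) (nat_lit 197) (nat_lit 5) (nat_lit 360) (nat_lit 341) (nat_lit 79)) (XT.nd (nat_lit 78) (nat_lit 608) (nat_lit 0) (XT.lf (nat_lit 0) (nat_lit 31153078381) (nat_lit 836) (nat_lit 6245602838) (nat_lit 76) (nat_lit 23942068455) (nat_lit 186) (nat_lit 5) (nat_lit 197) (nat_lit 5) (nat_lit 187) (nat_lit 5) (nat_lit 361) (nat_lit 341) (nat_lit 78)) (XT.lf (nat_lit 0) (nat_lit 24563933008) (nat_lit 608) (nat_lit 12244084232) (nat_lit 684) (nat_lit 25565542770) (nat_lit 178) (nat_lit 5) (nat_lit 186) (nat_lit 5) (nat_lit 187) (nat_lit 5) (nat_lit 362) (nat_lit 341) (nat_lit 77)))) (XT.nd (nat_lit 156) (nat_lit 532) (nat_lit 0) (XT.nd (nat_lit 78) (nat_lit 532) (nat_lit 0) (XT.lf (nat_lit 0) (nat_lit 42826941351) (nat_lit 684) (nat_lit 7142346059) (nat_lit 76) (nat_lit 13462237810) (nat_lit 178) (nat_lit 5) (nat_lit 187) (nat_lit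 5) (nat_lit 179) (nat_lit 5) (nat_lit 363) (nat_lit 341) (nat_lit 76)) (XT.lf (nat_lit 0) (nat_lit 24807136393) (nat_lit 532) (nat_lit 24578294020) (nat_lit 608) (nat_lit 15125029717) (nat_lit 171) (nat_lit 5) (nat_lit 178) (nat_lit 5) (nat_lit 179) (nat_lit 5) (nat_lit 364) (nat_lit 341) (nat_lit 75))) (XT.nd (nat_lit 78) (nat_lit 532) (nat_lit 0) (XT.lf (nat_lit 0) (nat_lit 56227967653) (nat_lit 608) (nat_lit 7774613064) (nat_lit 76) (nat_lit 1616564204) (nat_lit 171) (nat_lit 5) (nat_lit 179) (nat_lit 5) (nat_lit 172) (nat_lit 5) (nat_lit 365) (nat_lit 341) (nat_lit 74)) (XT.lf (nat_lit 0) (nat_lit 25362870611) (nat_lit 532) (nat_lit 38399404380) (nat_lit 608) (nat_lit 2984221065) (nat_lit 164) (nat_lit 5) (nat_lit 171) (nat_lit 5) (nat_lit 172) (nat_lit 5) (nat_lit 366) (nat_lit 341) (nat_lit 73)))))) (XT.nd (nat_lit 546) (nat_lit 1748) (nat_lit 0) (XT.nd (nat_lit 234) (nat_lit 988) (nat_lit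 0) (XT.nd (nat_lit 78) (nat_lit 532) (nat_lit 0) (XT.lf (nat_lit 0) (nat_lit 3623035939) (nat_lit 608) (nat_lit 8287655039) (nat_lit 76) (nat_lit 55993575881) (nat_lit 163) (nat_lit 5) (nat_lit 171) (nat_lit 5) (nat_lit 164) (nat_lit 5) (nat_lit 367) (nat_lit 341) (nat_lit 72)) (XT.nd (nat_lit 78) (nat_lit 0) (nat_lit 0) (XT.lf (nat_lit 0) (nat_lit 10771119288) (nat_lit 608) (nat_lit 42954996216) (nat_lit 76) (nat_lit 15357691792) (nat_lit 156) (nat_lit 5) (nat_lit 164) (nat_lit 5) (nat_lit 157) (nat_lit 5) (nat_lit 368) (nat_lit 341) (nat_lit 71)) (XT.lf (nat_lit 0) (nat_lit 18335468606) (nat_lit 608) (nat_lit 8667979707) (nat_lit 76) (nat_lit 43289231480) (nat_lit 156) (nat_lit 5) (nat_lit 164) (nat_lit 5) (nat_lit 157) (nat_lit 5) (nat_lit 369) (nat_lit 341) (nat_lit 70)))) (XT.nd (nat_lit 156) (nat_lit 456) (nat_lit 0) (XT.nd (nat_lit 78) (nat_lit 0) (nat_lit 0) (XT.lf (nat_lit 0) (nat_lit 26394983267)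 (nat_lit 608) (nat_lit 44360259169) (nat_lit 76) (nat_lit 774529520) (nat_lit 149) (nat_lit 5) (nat_lit 157) (nat_lit 5) (nat_lit 150) (nat_lit 5) (nat_lit 370) (nat_lit 341) (nat_lit 69)) (XT.lf (nat_lit 0) (nat_lit 35051447823) (nat_lit 608) (nat_lit 8810415905) (nat_lit 76) (nat_lit 28931458741) (nat_lit 149) (nat_lit 5) (nat_lit 157) (nat_lit 5) (nat_lit 150) (nat_lit 5) (nat_lit 371) (nat_lit 341) (nat_lit 68))) (XT.nd (nat_lit 78) (nat_lit 0) (nat_lit 0) (XT.lf (nat_lit 0) (nat_lit 28358668887) (nat_lit 456) (nat_lit 15880962916) (nat_lit 532) (nat_lit 29846987436) (nat_lit 143) (nat_lit 5) (nat_lit 149) (nat_lit 5) (nat_lit 150) (nat_lit 5) (nat_lit 372) (nat_lit 341) (nat_lit 67)) (XT.lf (nat_lit 0) (nat_lit 53917125929) (nat_lit 532) (nat_lit 8718520882) (nat_lit 76) (nat_lit 12776658650) (nat_lit 143) (nat_lit 5) (nat_lit 150) (nat_lit 5) (nat_lit 144) (nat_lit 5) (nat_lit 373) (nat_lit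 341) (nat_lit 66))))) (XT.nd (nat_lit 312) (nat_lit 836) (nat_lit 0) (XT.nd (nat_lit 156) (nat_lit 456) (nat_lit 0) (XT.nd (nat_lit 78) (nat_lit 0) (nat_lit 0) (XT.lf (nat_lit 0) (nat_lit 29825328400) (nat_lit 456) (nat_lit 34503004240) (nat_lit 532) (nat_lit 12436128474) (nat_lit 137) (nat_lit 5) (nat_lit 143) (nat_lit 5) (nat_lit 144) (nat_lit 5) (nat_lit 374) (nat_lit 341) (nat_lit 65)) (XT.lf (nat_lit 0) (nat_lit 69703595027) (nat_lit 456) (nat_lit 5435781728) (nat_lit 532) (nat_lit 3015180108) (nat_lit 137) (nat_lit 5) (nat_lit 143) (nat_lit 5) (nat_lit 144) (nat_lit 5) (nat_lit 375) (nat_lit 341) (nat_lit 64))) (XT.nd (nat_lit 78) (nat_lit 0) (nat_lit 0) (XT.lf (nat_lit 0) (nat_lit 7101718905) (nat_lit 456) (nat_lit 48068051098) (nat_lit 76) (nat_lit 24398342019) (nat_lit 131) (nat_lit 5) (nat_lit 137) (nat_lit 5) (nat_lit 132) (nat_lit 5) (nat_lit 376) (nat_lit 341) (nat_lit 63)) (XT.lf (nat_lit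 0) (nat_lit 17601005495) (nat_lit 456) (nat_lit 8283802057) (nat_lit 76) (nat_lit 55134186627) (nat_lit 131) (nat_lit 5) (nat_lit 137) (nat_lit 5) (nat_lit 132) (nat_lit 5) (nat_lit 377) (nat_lit 341) (nat_lit 62)))) (XT.nd (nat_lit 156) (nat_lit 380) (nat_lit 0) (XT.nd (nat_lit 78) (nat_lit 0) (nat_lit 0) (XT.lf (nat_lit 0) (nat_lit 28779591187) (nat_lit 532) (nat_lit 49204071330) (nat_lit 76) (nat_lit 4518811080) (nat_lit 125) (nat_lit 5) (nat_lit 132) (nat_lit 5) (nat_lit 126) (nat_lit 5) (nat_lit 378) (nat_lit 341) (nat_lit 61)) (XT.lf (nat_lit 0) (nat_lit 40633801225) (nat_lit 532) (nat_lit 7987790422) (nat_lit 76) (nat_lit 35398658145) (nat_lit 125) (nat_lit 5) (nat_lit 132) (nat_lit 5) (nat_lit 126) (nat_lit 5) (nat_lit 379) (nat_lit 341) (nat_lit 60))) (XT.nd (nat_lit 78) (nat_lit 0) (nat_lit 0) (XT.lf (nat_lit 0) (nat_lit 35150293936) (nat_lit 380) (nat_lit 18030747399) (nat_lit 456) (nat_lit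 32392396211) (nat_lit 120) (nat_lit 5) (nat_lit 125) (nat_lit 5) (nat_lit 126) (nat_lit 5) (nat_lit 380) (nat_lit 341) (nat_lit 59)) (XT.lf (nat_lit 0) (nat_lit 66315240312) (nat_lit 456) (nat_lit 7555495593) (nat_lit 76) (nat_lit 13296169153) (nat_lit 120) (nat_lit 5) (nat_lit 126) (nat_lit 5) (nat_lit 121) (nat_lit 5) (nat_lit 381) (nat_lit 341) (nat_lit 58))))))))
noncomputable def xc249 : XT := (XT.nd (nat_lit 2184) (nat_lit 2356) (nat_lit 0) (XT.nd (nat_lit 1092) (nat_lit 2888) (nat_lit 0) (XT.nd (nat_lit 546) (nat_lit 836) (nat_lit 0) (XT.nd (nat_lit 234) (nat_lit 0) (nat_lit 76) (XT.nd (nat_lit 78) (nat_lit 0) (nat_lit 0) (XT.lf (nat_lit 0) (nat_lit 7915331428) (nat_lit 0) (nat_lit 7915331428) (nat_lit 1140) (nat_lit 7238908564) (nat_lit 205) (nat_lit 5) (nat_lit 205) (nat_lit 3) (nat_lit 220) (nat_lit 3) (nat_lit 342) (nat_lit 342) (nat_lit 96)) (XT.nd (nat_lit 78) (nat_lit 0) (nat_lit 0)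 (XT.lf (nat_lit 0) (nat_lit 32218785011) (nat_lit 1140) (nat_lit 9196040720) (nat_lit 1216) (nat_lit 5413897591) (nat_lit 205) (nat_lit 5) (nat_lit 220) (nat_lit 3) (nat_lit 221) (nat_lit 5) (nat_lit 343) (nat_lit 342) (nat_lit 95)) (XT.lf (nat_lit 76) (nat_lit 12639049749) (nat_lit 0) (nat_lit 20431007560) (nat_lit 1216) (nat_lit 14460622422) (nat_lit 206) (nat_lit 5) (nat_lit 205) (nat_lit 5) (nat_lit 221) (nat_lit 5) (nat_lit 344) (nat_lit 342) (nat_lit 94)))) (XT.nd (nat_lit 156) (nat_lit 0) (nat_lit 0) (XT.nd (nat_lit 78) (nat_lit 0) (nat_lit 0) (XT.lf (nat_lit 0) (nat_lit 34050902459) (nat_lit 1140) (nat_lit 12946140490) (nat_lit 1216) (nat_lit 1253531999) (nat_lit 206) (nat_lit 5) (nat_lit 221) (nat_lit 5) (nat_lit 222) (nat_lit 5) (nat_lit 345) (nat_lit 342) (nat_lit 93)) (XT.lf (nat_lit 76) (nat_lit 9642964769) (nat_lit 0) (nat_lit 25712109903) (nat_lit 1216) (nat_lit 13628176418) (nat_lit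 207) (nat_lit 5) (nat_lit 206) (nat_lit 5) (nat_lit 222) (nat_lit 5) (nat_lit 346) (nat_lit 342) (nat_lit 92))) (XT.nd (nat_lit 78) (nat_lit 0) (nat_lit 76) (XT.lf (nat_lit 76) (nat_lit 33174501868) (nat_lit 0) (nat_lit 3653546689) (nat_lit 1216) (nat_lit 12905969752) (nat_lit 207) (nat_lit 5) (nat_lit 206) (nat_lit 5) (nat_lit 222) (nat_lit 5) (nat_lit 347) (nat_lit 342) (nat_lit 91)) (XT.lf (nat_lit 76) (nat_lit 6854509118) (nat_lit 0) (nat_lit 31738854348) (nat_lit 1216) (nat_lit 11906501582) (nat_lit 208) (nat_lit 5) (nat_lit 207) (nat_lit 5) (nat_lit 223) (nat_lit 5) (nat_lit 348) (nat_lit 342) (nat_lit 90))))) (XT.nd (nat_lit 234) (nat_lit 988) (nat_lit 0) (XT.nd (nat_lit 78) (nat_lit 0) (nat_lit 76) (XT.lf (nat_lit 76) (nat_lit 31272879850) (nat_lit 0) (nat_lit 9340799869) (nat_lit 1216) (nat_lit 10668947240) (nat_lit 208) (nat_lit 5) (nat_lit 207) (nat_lit 5) (nat_lit 223) (nat_lit 5) (nat_lit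 349) (nat_lit 342) (nat_lit 89)) (XT.nd (nat_lit 78) (nat_lit 0) (nat_lit 0) (XT.lf (nat_lit 76) (nat_lit 4285940035) (nat_lit 0) (nat_lit 38580874463) (nat_lit 1216) (nat_lit 9216891954) (nat_lit 209) (nat_lit 5) (nat_lit 208) (nat_lit 5) (nat_lit 224) (nat_lit 5) (nat_lit 350) (nat_lit 342) (nat_lit 88)) (XT.lf (nat_lit 76) (nat_lit 29625709974) (nat_lit 0) (nat_lit 15854527423) (nat_lit 1216) (nat_lit 7419801076) (nat_lit 209) (nat_lit 5) (nat_lit 208) (nat_lit 5) (nat_lit 224) (nat_lit 5) (nat_lit 351) (nat_lit 342) (nat_lit 87)))) (XT.nd (nat_lit 156) (nat_lit 1140) (nat_lit 0) (XT.nd (nat_lit 78) (nat_lit 0) (nat_lit 0) (XT.lf (nat_lit 76) (nat_lit 1949589516) (nat_lit 0) (nat_lit 46312912634) (nat_lit 1216) (nat_lit 5475646070) (nat_lit 210) (nat_lit 5) (nat_lit 209) (nat_lit 5) (nat_lit 225) (nat_lit 5) (nat_lit 352) (nat_lit 342) (nat_lit 86)) (XT.lf (nat_lit 76) (nat_lit 28246576159) (nat_lit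 0) (nat_lit 23271229206) (nat_lit 1216) (nat_lit 3071909692) (nat_lit 210) (nat_lit 5) (nat_lit 209) (nat_lit 5) (nat_lit 225) (nat_lit 5) (nat_lit 353) (nat_lit 342) (nat_lit 85))) (XT.nd (nat_lit 78) (nat_lit 1216) (nat_lit 0) (XT.lf (nat_lit 0) (nat_lit 54874342961) (nat_lit 1140) (nat_lit 139455029) (nat_lit 1216) (nat_lit 452924534) (nat_lit 210) (nat_lit 5) (nat_lit 225) (nat_lit 5) (nat_lit 226) (nat_lit 5) (nat_lit 354) (nat_lit 342) (nat_lit 84)) (XT.lf (nat_lit 0) (nat_lit 2418659725) (nat_lit 1216) (nat_lit 29229971005) (nat_lit 1292) (nat_lit 24705982657) (nat_lit 194) (nat_lit 5) (nat_lit 210) (nat_lit 5) (nat_lit 211) (nat_lit 5) (nat_lit 355) (nat_lit 342) (nat_lit 83)))))) (XT.nd (nat_lit 546) (nat_lit 2280) (nat_lit 0) (XT.nd (nat_lit 234) (nat_lit 608) (nat_lit 0) (XT.nd (nat_lit 78) (nat_lit 0) (nat_lit 76) (XT.lf (nat_lit 0) (nat_lit 5508717713) (nat_lit 1216) (nat_lit 2066108531)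 (nat_lit 1292) (nat_lit 49694121776) (nat_lit 194) (nat_lit 5) (nat_lit 210) (nat_lit 5) (nat_lit 211) (nat_lit 5) (nat_lit 356) (nat_lit 342) (nat_lit 82)) (XT.nd (nat_lit 78) (nat_lit 0) (nat_lit 0) (XT.lf (nat_lit 0) (nat_lit 9112770265) (nat_lit 1216) (nat_lit 31943436916) (nat_lit 1292) (nat_lit 17141867512) (nat_lit 195) (nat_lit 5) (nat_lit 211) (nat_lit 5) (nat_lit 212) (nat_lit 5) (nat_lit 357) (nat_lit 342) (nat_lit 81)) (XT.lf (nat_lit 0) (nat_lit 12920227552) (nat_lit 1216) (nat_lit 3762947260) (nat_lit 1292) (nat_lit 42469042624) (nat_lit 195) (nat_lit 5) (nat_lit 211) (nat_lit 5) (nat_lit 212) (nat_lit 5) (nat_lit 358) (nat_lit 342) (nat_lit 80)))) (XT.nd (nat_lit 156) (nat_lit 760) (nat_lit 0) (XT.nd (nat_lit 78) (nat_lit 0) (nat_lit 0) (XT.lf (nat_lit 0) (nat_lit 17172217611) (nat_lit 1216) (nat_lit 34445886624) (nat_lit 76) (nat_lit 8506971693) (nat_lit 196) (nat_lit 5) (nat_lit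 212) (nat_lit 5) (nat_lit 197) (nat_lit 5) (nat_lit 359) (nat_lit 342) (nat_lit 79)) (XT.lf (nat_lit 0) (nat_lit 21754576784) (nat_lit 1216) (nat_lit 5210461547) (nat_lit 76) (nat_lit 34155998284) (nat_lit 196) (nat_lit 5) (nat_lit 212) (nat_lit 5) (nat_lit 197) (nat_lit 5) (nat_lit 360) (nat_lit 342) (nat_lit 78))) (XT.nd (nat_lit 78) (nat_lit 0) (nat_lit 0) (XT.lf (nat_lit 0) (nat_lit 25396979973) (nat_lit 760) (nat_lit 1320834621) (nat_lit 836) (nat_lit 35421759991) (nat_lit 186) (nat_lit 5) (nat_lit 196) (nat_lit 5) (nat_lit 197) (nat_lit 5) (nat_lit 361) (nat_lit 342) (nat_lit 77)) (XT.lf (nat_lit 0) (nat_lit 32123584654) (nat_lit 836) (nat_lit 6400012792) (nat_lit 76) (nat_lit 24656262872) (nat_lit 186) (nat_lit 5) (nat_lit 197) (nat_lit 5) (nat_lit 187) (nat_lit 5) (nat_lit 362) (nat_lit 342) (nat_lit 76))))) (XT.nd (nat_lit 234) (nat_lit 1140) (nat_lit 0) (XT.nd (nat_lit 78) (nat_lit 532)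 (nat_lit 0) (XT.lf (nat_lit 0) (nat_lit 25333486011) (nat_lit 608) (nat_lit 12613953338) (nat_lit 684) (nat_lit 26296238587) (nat_lit 178) (nat_lit 5) (nat_lit 186) (nat_lit 5) (nat_lit 187) (nat_lit 5) (nat_lit 363) (nat_lit 342) (nat_lit 75)) (XT.nd (nat_lit 78) (nat_lit 532) (nat_lit 0) (XT.lf (nat_lit 0) (nat_lit 44145882712) (nat_lit 684) (nat_lit 7323851038) (nat_lit 76) (nat_lit 13863680782) (nat_lit 178) (nat_lit 5) (nat_lit 187) (nat_lit 5) (nat_lit 179) (nat_lit 5) (nat_lit 364) (nat_lit 342) (nat_lit 74)) (XT.lf (nat_lit 0) (nat_lit 25583794658) (nat_lit 532) (nat_lit 25316649492) (nat_lit 608) (nat_lit 15544294752) (nat_lit 171) (nat_lit 5) (nat_lit 178) (nat_lit 5) (nat_lit 179) (nat_lit 5) (nat_lit 365) (nat_lit 342) (nat_lit 73)))) (XT.nd (nat_lit 156) (nat_lit 608) (nat_lit 0) (XT.nd (nat_lit 78) (nat_lit 532) (nat_lit 0) (XT.lf (nat_lit 0) (nat_lit 57947273816) (nat_lit 608) (nat_lit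 7975337978) (nat_lit 76) (nat_lit 1664102871) (nat_lit 171) (nat_lit 5) (nat_lit 179) (nat_lit 5) (nat_lit 172) (nat_lit 5) (nat_lit 366) (nat_lit 342) (nat_lit 72)) (XT.lf (nat_lit 0) (nat_lit 26155951448) (nat_lit 532) (nat_lit 39551022758) (nat_lit 608) (nat_lit 3040932105) (nat_lit 164) (nat_lit 5) (nat_lit 171) (nat_lit 5) (nat_lit 172) (nat_lit 5) (nat_lit 367) (nat_lit 342) (nat_lit 71))) (XT.nd (nat_lit 78) (nat_lit 532) (nat_lit 0) (XT.lf (nat_lit 0) (nat_lit 3762965116) (nat_lit 608) (nat_lit 8504377989) (nat_lit 76) (nat_lit 57673086624) (nat_lit 163) (nat_lit 5) (nat_lit 171) (nat_lit 5) (nat_lit 164) (nat_lit 5) (nat_lit 368) (nat_lit 342) (nat_lit 70)) (XT.lf (nat_lit 0) (nat_lit 11124894065) (nat_lit 608) (nat_lit 44211115322) (nat_lit 76) (nat_lit 15819365715) (nat_lit 156) (nat_lit 5) (nat_lit 164) (nat_lit 5) (nat_lit 157) (nat_lit 5) (nat_lit 369) (nat_lit 342) (nat_lit 69)))))))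 (XT.nd (nat_lit 38766) (nat_lit 0) (nat_lit 5244) (XT.nd (nat_lit 546) (nat_lit 912) (nat_lit 0) (XT.nd (nat_lit 234) (nat_lit 912) (nat_lit 0) (XT.nd (nat_lit 78) (nat_lit 532) (nat_lit 0) (XT.lf (nat_lit 0) (nat_lit 18915281400) (nat_lit 608) (nat_lit 8896435817) (nat_lit 76) (nat_lit 44588824123) (nat_lit 156) (nat_lit 5) (nat_lit 164) (nat_lit 5) (nat_lit 157) (nat_lit 5) (nat_lit 370) (nat_lit 342) (nat_lit 68)) (XT.nd (nat_lit 78) (nat_lit 0) (nat_lit 0) (XT.lf (nat_lit 0) (nat_lit 27216035752) (nat_lit 608) (nat_lit 45658912295) (nat_lit 76) (nat_lit 799815360) (nat_lit 149) (nat_lit 5) (nat_lit 157) (nat_lit 5) (nat_lit 150) (nat_lit 5) (nat_lit 371) (nat_lit 342) (nat_lit 67)) (XT.lf (nat_lit 0) (nat_lit 36131343672) (nat_lit 608) (nat_lit 9043510276) (nat_lit 76) (nat_lit 29801392751) (nat_lit 149) (nat_lit 5) (nat_lit 157) (nat_lit 5) (nat_lit 150) (nat_lit 5) (nat_lit 372) (nat_lit 342)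 (nat_lit 66)))) (XT.nd (nat_lit 156) (nat_lit 456) (nat_lit 0) (XT.nd (nat_lit 78) (nat_lit 0) (nat_lit 0) (XT.lf (nat_lit 0) (nat_lit 29240341000) (nat_lit 456) (nat_lit 16354303518) (nat_lit 532) (nat_lit 30713714438) (nat_lit 143) (nat_lit 5) (nat_lit 149) (nat_lit 5) (nat_lit 150) (nat_lit 5) (nat_lit 373) (nat_lit 342) (nat_lit 65)) (XT.lf (nat_lit 0) (nat_lit 55561681889) (nat_lit 532) (nat_lit 8949259790) (nat_lit 76) (nat_lit 13162898237) (nat_lit 143) (nat_lit 5) (nat_lit 150) (nat_lit 5) (nat_lit 144) (nat_lit 5) (nat_lit 374) (nat_lit 342) (nat_lit 64))) (XT.nd (nat_lit 78) (nat_lit 0) (nat_lit 0) (XT.lf (nat_lit 0) (nat_lit 30750602846) (nat_lit 456) (nat_lit 35534127644) (nat_lit 532) (nat_lit 12781845260) (nat_lit 137) (nat_lit 5) (nat_lit 143) (nat_lit 5) (nat_lit 144) (nat_lit 5) (nat_lit 375) (nat_lit 342) (nat_lit 63)) (XT.lf (nat_lit 0) (nat_lit 71824328697) (nat_lit 456) (nat_lit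 5595003992) (nat_lit 532) (nat_lit 3079065542) (nat_lit 137) (nat_lit 5) (nat_lit 143) (nat_lit 5) (nat_lit 144) (nat_lit 5) (nat_lit 376) (nat_lit 342) (nat_lit 62))))) (XT.nd (nat_lit 234) (nat_lit 0) (nat_lit 0) (XT.nd (nat_lit 78) (nat_lit 456) (nat_lit 0) (XT.lf (nat_lit 0) (nat_lit 7340391553) (nat_lit 456) (nat_lit 49479475639) (nat_lit 76) (nat_lit 25134498730) (nat_lit 131) (nat_lit 5) (nat_lit 137) (nat_lit 5) (nat_lit 132) (nat_lit 5) (nat_lit 377) (nat_lit 342) (nat_lit 61)) (XT.nd (nat_lit 78) (nat_lit 456) (nat_lit 0) (XT.lf (nat_lit 0) (nat_lit 18153910495) (nat_lit 456) (nat_lit 8502590884) (nat_lit 76) (nat_lit 56792296158) (nat_lit 131) (nat_lit 5) (nat_lit 137) (nat_lit 5) (nat_lit 132) (nat_lit 5) (nat_lit 378) (nat_lit 342) (nat_lit 60)) (XT.lf (nat_lit 0) (nat_lit 29667460253) (nat_lit 532) (nat_lit 50650055095) (nat_lit 76) (nat_lit 4659278384) (nat_lit 125) (nat_lit 5) (nat_lit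 132) (nat_lit 5) (nat_lit 126) (nat_lit 5) (nat_lit 379) (nat_lit 342) (nat_lit 59)))) (XT.nd (nat_lit 37830) (nat_lit 0) (nat_lit 6080) (XT.nd (nat_lit 37752) (nat_lit 0) (nat_lit 6080) (XT.lf (nat_lit 0) (nat_lit 41876583543) (nat_lit 532) (nat_lit 8198163576) (nat_lit 76) (nat_lit 36465378056) (nat_lit 125) (nat_lit 5) (nat_lit 132) (nat_lit 5) (nat_lit 126) (nat_lit 5) (nat_lit 380) (nat_lit 342) (nat_lit 58)) (XT.lf (nat_lit 0) (nat_lit 8167380760) (nat_lit 0) (nat_lit 8167380760) (nat_lit 1140) (nat_lit 7425991493) (nat_lit 205) (nat_lit 5) (nat_lit 205) (nat_lit 3) (nat_lit 220) (nat_lit 3) (nat_lit 343) (nat_lit 343) (nat_lit 94))) (XT.nd (nat_lit 78) (nat_lit 0) (nat_lit 0) (XT.lf (nat_lit 0) (nat_lit 33241734069) (nat_lit 1140) (nat_lit 9441562369) (nat_lit 1216) (nat_lit 5548538407) (nat_lit 205) (nat_lit 5) (nat_lit 220) (nat_lit 3) (nat_lit 221) (nat_lit 5) (nat_lit 344) (nat_lit 343)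 (nat_lit 93)) (XT.lf (nat_lit 76) (nat_lit 13048283172) (nat_lit 0) (nat_lit 21068908041) (nat_lit 1216) (nat_lit 14837701039) (nat_lit 206) (nat_lit 5) (nat_lit 205) (nat_lit 5) (nat_lit 221) (nat_lit 5) (nat_lit 345) (nat_lit 343) (nat_lit 92)))))) (XT.nd (nat_lit 546) (nat_lit 912) (nat_lit 0) (XT.nd (nat_lit 234) (nat_lit 0) (nat_lit 76) (XT.nd (nat_lit 78) (nat_lit 0) (nat_lit 0) (XT.lf (nat_lit 0) (nat_lit 35125625800) (nat_lit 1140) (nat_lit 13303447199) (nat_lit 1216) (nat_lit 1267368061) (nat_lit 206) (nat_lit 5) (nat_lit 221) (nat_lit 5) (nat_lit 222) (nat_lit 5) (nat_lit 346) (nat_lit 343) (nat_lit 91)) (XT.nd (nat_lit 78) (nat_lit 0) (nat_lit 0) (XT.lf (nat_lit 76) (nat_lit 9963026536) (nat_lit 0) (nat_lit 26504643044) (nat_lit 1216) (nat_lit 13983467123) (nat_lit 207) (nat_lit 5) (nat_lit 206) (nat_lit 5) (nat_lit 222) (nat_lit 5) (nat_lit 347) (nat_lit 343) (nat_lit 90)) (XT.lf (nat_lit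 76) (nat_lit 34199613452) (nat_lit 0) (nat_lit 3783706337) (nat_lit 1216) (nat_lit 13241154100) (nat_lit 207) (nat_lit 5) (nat_lit 206) (nat_lit 5) (nat_lit 222) (nat_lit 5) (nat_lit 348) (nat_lit 343) (nat_lit 89)))) (XT.nd (nat_lit 156) (nat_lit 0) (nat_lit 76) (XT.nd (nat_lit 78) (nat_lit 0) (nat_lit 0) (XT.lf (nat_lit 76) (nat_lit 7091473273) (nat_lit 0) (nat_lit 32708761381) (nat_lit 1216) (nat_lit 12213103678) (nat_lit 208) (nat_lit 5) (nat_lit 207) (nat_lit 5) (nat_lit 223) (nat_lit 5) (nat_lit 349) (nat_lit 343) (nat_lit 88)) (XT.lf (nat_lit 76) (nat_lit 32241482634) (nat_lit 0) (nat_lit 9638248528) (nat_lit 1216) (nat_lit 10939896287) (nat_lit 208) (nat_lit 5) (nat_lit 207) (nat_lit 5) (nat_lit 223) (nat_lit 5) (nat_lit 350) (nat_lit 343) (nat_lit 87))) (XT.nd (nat_lit 78) (nat_lit 0) (nat_lit 0) (XT.lf (nat_lit 76) (nat_lit 4446264201) (nat_lit 0) (nat_lit 39752952590) (nat_lit 1216) (nat_lit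 9445561261) (nat_lit 209) (nat_lit 5) (nat_lit 208) (nat_lit 5) (nat_lit 224) (nat_lit 5) (nat_lit 351) (nat_lit 343) (nat_lit 86)) (XT.lf (nat_lit 76) (nat_lit 30545302599) (nat_lit 0) (nat_lit 16344388385) (nat_lit 1216) (nat_lit 7595950981) (nat_lit 209) (nat_lit 5) (nat_lit 208) (nat_lit 5) (nat_lit 224) (nat_lit 5) (nat_lit 352) (nat_lit 343) (nat_lit 85))))) (XT.nd (nat_lit 312) (nat_lit 0) (nat_lit 0) (XT.nd (nat_lit 156) (nat_lit 1140) (nat_lit 0) (XT.nd (nat_lit 78) (nat_lit 0) (nat_lit 0) (XT.lf (nat_lit 76) (nat_lit 2040115718) (nat_lit 0) (nat_lit 47714171144) (nat_lit 1216) (nat_lit 5594643594) (nat_lit 210) (nat_lit 5) (nat_lit 209) (nat_lit 5) (nat_lit 225) (nat_lit 5) (nat_lit 353) (nat_lit 343) (nat_lit 84)) (XT.lf (nat_lit 76) (nat_lit 29125078799) (nat_lit 0) (nat_lit 23980891452) (nat_lit 1216) (nat_lit 3120113722) (nat_lit 210) (nat_lit 5) (nat_lit 209) (nat_lit 5) (nat_lit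 225) (nat_lit 5) (nat_lit 354) (nat_lit 343) (nat_lit 83))) (XT.nd (nat_lit 78) (nat_lit 1216) (nat_lit 0) (XT.lf (nat_lit 0) (nat_lit 56561854742) (nat_lit 1140) (nat_lit 112047728) (nat_lit 1216) (nat_lit 455540942) (nat_lit 210) (nat_lit 5) (nat_lit 225) (nat_lit 5) (nat_lit 226) (nat_lit 5) (nat_lit 355) (nat_lit 343) (nat_lit 82)) (XT.lf (nat_lit 0) (nat_lit 2532039437) (nat_lit 1216) (nat_lit 30074736591) (nat_lit 1292) (nat_lit 25437211251) (nat_lit 194) (nat_lit 5) (nat_lit 210) (nat_lit 5) (nat_lit 211) (nat_lit 5) (nat_lit 356) (nat_lit 343) (nat_lit 81)))) (XT.nd (nat_lit 156) (nat_lit 0) (nat_lit 76) (XT.nd (nat_lit 78) (nat_lit 0) (nat_lit 76) (XT.lf (nat_lit 0) (nat_lit 5713610235) (nat_lit 1216) (nat_lit 2096894171) (nat_lit 1292) (nat_lit 51175284376) (nat_lit 194) (nat_lit 5) (nat_lit 210) (nat_lit 5) (nat_lit 211) (nat_lit 5) (nat_lit 357) (nat_lit 343) (nat_lit 80)) (XT.lf (nat_lit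 0) (nat_lit 9424851248) (nat_lit 1216) (nat_lit 32869571671) (nat_lit 1292) (nat_lit 17648395458) (nat_lit 195) (nat_lit 5) (nat_lit 211) (nat_lit 5) (nat_lit 212) (nat_lit 5) (nat_lit 358) (nat_lit 343) (nat_lit 79))) (XT.nd (nat_lit 78) (nat_lit 0) (nat_lit 76) (XT.lf (nat_lit 0) (nat_lit 13345405130) (nat_lit 1216) (nat_lit 3844604267) (nat_lit 1292) (nat_lit 43735610913) (nat_lit 195) (nat_lit 5) (nat_lit 211) (nat_lit 5) (nat_lit 212) (nat_lit 5) (nat_lit 359) (nat_lit 343) (nat_lit 78)) (XT.lf (nat_lit 0) (nat_lit 17724101651) (nat_lit 1216) (nat_lit 35447143110) (nat_lit 76) (nat_lit 8756446459) (nat_lit 196) (nat_lit 5) (nat_lit 212) (nat_lit 5) (nat_lit 197) (nat_lit 5) (nat_lit 360) (nat_lit 343) (nat_lit 77))))))))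
noncomputable def xc250 : XT := (XT.nd (nat_lit 40014) (nat_lit 0) (nat_lit 456) (XT.nd (nat_lit 1092) (nat_lit 912) (nat_lit 0) (XT.nd (nat_lit 546) (nat_lit 2128) (nat_lit 0) (XT.nd (nat_lit 234) (nat_lit 1140) (nat_lit 0) (XT.nd (nat_lit 78) (nat_lit 760) (nat_lit 0) (XT.lf (nat_lit 0) (nat_lit 22442862157) (nat_lit 1216) (nat_lit 5335590818) (nat_lit 76) (nat_lit 35175110868) (nat_lit 196) (nat_lit 5) (nat_lit 212) (nat_lit 5) (nat_lit 197) (nat_lit 5) (nat_lit 361) (nat_lit 343) (nat_lit 76)) (XT.nd (nat_lit 78) (nat_lit 0) (nat_lit 0) (XT.lf (nat_lit 0) (nat_lit 26189768217) (nat_lit 760) (nat_lit 1364487417) (nat_lit 836) (nat_lit 36448425564) (nat_lit 186) (nat_lit 5) (nat_lit 196) (nat_lit 5) (nat_lit 197) (nat_lit 5) (nat_lit 362) (nat_lit 343) (nat_lit 75)) (XT.lf (nat_lit 0) (nat_lit 33121144509) (nat_lit 836) (nat_lit 6560946975) (nat_lit 76) (nat_lit 25392116621) (nat_lit 186) (nat_lit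 5) (nat_lit 197) (nat_lit 5) (nat_lit 187) (nat_lit 5) (nat_lit 363) (nat_lit 343) (nat_lit 74)))) (XT.nd (nat_lit 156) (nat_lit 532) (nat_lit 0) (XT.nd (nat_lit 78) (nat_lit 0) (nat_lit 0) (XT.lf (nat_lit 0) (nat_lit 26124252220) (nat_lit 608) (nat_lit 12994772334) (nat_lit 684) (nat_lit 27050937352) (nat_lit 178) (nat_lit 5) (nat_lit 186) (nat_lit 5) (nat_lit 187) (nat_lit 5) (nat_lit 364) (nat_lit 343) (nat_lit 73)) (XT.lf (nat_lit 0) (nat_lit 45502432932) (nat_lit 684) (nat_lit 7512682034) (nat_lit 76) (nat_lit 14277306200) (nat_lit 178) (nat_lit 5) (nat_lit 187) (nat_lit 5) (nat_lit 179) (nat_lit 5) (nat_lit 365) (nat_lit 343) (nat_lit 72))) (XT.nd (nat_lit 78) (nat_lit 0) (nat_lit 0) (XT.lf (nat_lit 0) (nat_lit 26381890244) (nat_lit 532) (nat_lit 26077097841) (nat_lit 608) (nat_lit 15978117368) (nat_lit 171) (nat_lit 5) (nat_lit 178) (nat_lit 5) (nat_lit 179) (nat_lit 5) (nat_lit 366) (nat_lit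 343) (nat_lit 71)) (XT.lf (nat_lit 0) (nat_lit 59716295418) (nat_lit 608) (nat_lit 8183951046) (nat_lit 76) (nat_lit 1713122706) (nat_lit 171) (nat_lit 5) (nat_lit 179) (nat_lit 5) (nat_lit 172) (nat_lit 5) (nat_lit 367) (nat_lit 343) (nat_lit 70))))) (XT.nd (nat_lit 234) (nat_lit 988) (nat_lit 0) (XT.nd (nat_lit 78) (nat_lit 608) (nat_lit 0) (XT.lf (nat_lit 0) (nat_lit 26970976601) (nat_lit 532) (nat_lit 40737210568) (nat_lit 608) (nat_lit 3101228226) (nat_lit 164) (nat_lit 5) (nat_lit 171) (nat_lit 5) (nat_lit 172) (nat_lit 5) (nat_lit 368) (nat_lit 343) (nat_lit 69)) (XT.nd (nat_lit 78) (nat_lit 532) (nat_lit 0) (XT.lf (nat_lit 0) (nat_lit 3905298973) (nat_lit 608) (nat_lit 8729434202) (nat_lit 76) (nat_lit 59402999711) (nat_lit 163) (nat_lit 5) (nat_lit 171) (nat_lit 5) (nat_lit 164) (nat_lit 5) (nat_lit 369) (nat_lit 343) (nat_lit 68)) (XT.lf (nat_lit 0) (nat_lit 11487523154) (nat_lit 608)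 (nat_lit 45506785401) (nat_lit 76) (nat_lit 16294835713) (nat_lit 156) (nat_lit 5) (nat_lit 164) (nat_lit 5) (nat_lit 157) (nat_lit 5) (nat_lit 370) (nat_lit 343) (nat_lit 67)))) (XT.nd (nat_lit 156) (nat_lit 456) (nat_lit 0) (XT.nd (nat_lit 78) (nat_lit 532) (nat_lit 0) (XT.lf (nat_lit 0) (nat_lit 19510780879) (nat_lit 608) (nat_lit 9133558619) (nat_lit 76) (nat_lit 45927351979) (nat_lit 156) (nat_lit 5) (nat_lit 164) (nat_lit 5) (nat_lit 157) (nat_lit 5) (nat_lit 371) (nat_lit 343) (nat_lit 66)) (XT.lf (nat_lit 0) (nat_lit 28060043440) (nat_lit 608) (nat_lit 46998370823) (nat_lit 76) (nat_lit 825742100) (nat_lit 149) (nat_lit 5) (nat_lit 157) (nat_lit 5) (nat_lit 150) (nat_lit 5) (nat_lit 372) (nat_lit 343) (nat_lit 65))) (XT.nd (nat_lit 78) (nat_lit 456) (nat_lit 0) (XT.lf (nat_lit 0) (nat_lit 37242008852) (nat_lit 608) (nat_lit 9285389525) (nat_lit 76) (nat_lit 30697310533) (nat_lit 149) (nat_lit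 5) (nat_lit 157) (nat_lit 5) (nat_lit 150) (nat_lit 5) (nat_lit 373) (nat_lit 343) (nat_lit 64)) (XT.lf (nat_lit 0) (nat_lit 30146688798) (nat_lit 456) (nat_lit 16842021619) (nat_lit 532) (nat_lit 31608089749) (nat_lit 143) (nat_lit 5) (nat_lit 149) (nat_lit 5) (nat_lit 150) (nat_lit 5) (nat_lit 374) (nat_lit 343) (nat_lit 63)))))) (XT.nd (nat_lit 38376) (nat_lit 0) (nat_lit 5624) (XT.nd (nat_lit 234) (nat_lit 456) (nat_lit 0) (XT.nd (nat_lit 78) (nat_lit 456) (nat_lit 0) (XT.lf (nat_lit 0) (nat_lit 57254022196) (nat_lit 532) (nat_lit 9188689871) (nat_lit 76) (nat_lit 13560556252) (nat_lit 143) (nat_lit 5) (nat_lit 150) (nat_lit 5) (nat_lit 144) (nat_lit 5) (nat_lit 375) (nat_lit 343) (nat_lit 62)) (XT.nd (nat_lit 78) (nat_lit 0) (nat_lit 0) (XT.lf (nat_lit 0) (nat_lit 31701883863) (nat_lit 456) (nat_lit 36596412456) (nat_lit 532) (nat_lit 13139504531) (nat_lit 137) (nat_lit 5) (nat_lit 143) (nat_lit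 5) (nat_lit 144) (nat_lit 5) (nat_lit 376) (nat_lit 343) (nat_lit 61)) (XT.lf (nat_lit 0) (nat_lit 74006983734) (nat_lit 456) (nat_lit 5759223998) (nat_lit 532) (nat_lit 3146392764) (nat_lit 137) (nat_lit 5) (nat_lit 143) (nat_lit 5) (nat_lit 144) (nat_lit 5) (nat_lit 377) (nat_lit 343) (nat_lit 60)))) (XT.nd (nat_lit 37986) (nat_lit 0) (nat_lit 5624) (XT.nd (nat_lit 78) (nat_lit 0) (nat_lit 0) (XT.lf (nat_lit 0) (nat_lit 7584753625) (nat_lit 456) (nat_lit 50935000456) (nat_lit 76) (nat_lit 25892498674) (nat_lit 131) (nat_lit 5) (nat_lit 137) (nat_lit 5) (nat_lit 132) (nat_lit 5) (nat_lit 378) (nat_lit 343) (nat_lit 59)) (XT.lf (nat_lit 0) (nat_lit 18721974728) (nat_lit 456) (nat_lit 8729649725) (nat_lit 76) (nat_lit 58499914540) (nat_lit 131) (nat_lit 5) (nat_lit 137) (nat_lit 5) (nat_lit 132) (nat_lit 5) (nat_lit 379) (nat_lit 343) (nat_lit 58))) (XT.nd (nat_lit 78) (nat_lit 0) (nat_lit 0) (XT.lf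 (nat_lit 0) (nat_lit 8426154081) (nat_lit 0) (nat_lit 8426154081) (nat_lit 1140) (nat_lit 7620413875) (nat_lit 205) (nat_lit 5) (nat_lit 205) (nat_lit 3) (nat_lit 220) (nat_lit 3) (nat_lit 344) (nat_lit 344) (nat_lit 92)) (XT.lf (nat_lit 0) (nat_lit 34292134839) (nat_lit 1140) (nat_lit 9696192431) (nat_lit 1216) (nat_lit 5688812909) (nat_lit 205) (nat_lit 5) (nat_lit 220) (nat_lit 3) (nat_lit 221) (nat_lit 5) (nat_lit 345) (nat_lit 344) (nat_lit 91))))) (XT.nd (nat_lit 234) (nat_lit 0) (nat_lit 76) (XT.nd (nat_lit 78) (nat_lit 0) (nat_lit 76) (XT.lf (nat_lit 76) (nat_lit 13468067919) (nat_lit 0) (nat_lit 21724512142) (nat_lit 1216) (nat_lit 15229349127) (nat_lit 206) (nat_lit 5) (nat_lit 205) (nat_lit 5) (nat_lit 221) (nat_lit 5) (nat_lit 346) (nat_lit 344) (nat_lit 90)) (XT.nd (nat_lit 78) (nat_lit 0) (nat_lit 0) (XT.lf (nat_lit 0) (nat_lit 36229537157) (nat_lit 1140) (nat_lit 13673257086) (nat_lit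 1216) (nat_lit 1282983694) (nat_lit 206) (nat_lit 5) (nat_lit 221) (nat_lit 5) (nat_lit 222) (nat_lit 5) (nat_lit 347) (nat_lit 344) (nat_lit 89)) (XT.lf (nat_lit 76) (nat_lit 10290923670) (nat_lit 0) (nat_lit 27319736945) (nat_lit 1216) (nat_lit 14352490802) (nat_lit 207) (nat_lit 5) (nat_lit 206) (nat_lit 5) (nat_lit 222) (nat_lit 5) (nat_lit 348) (nat_lit 344) (nat_lit 88)))) (XT.nd (nat_lit 156) (nat_lit 0) (nat_lit 76) (XT.nd (nat_lit 78) (nat_lit 0) (nat_lit 76) (XT.lf (nat_lit 76) (nat_lit 35253763348) (nat_lit 0) (nat_lit 3916590934) (nat_lit 1216) (nat_lit 13589378689) (nat_lit 207) (nat_lit 5) (nat_lit 206) (nat_lit 5) (nat_lit 222) (nat_lit 5) (nat_lit 349) (nat_lit 344) (nat_lit 87)) (XT.lf (nat_lit 76) (nat_lit 7333747946) (nat_lit 0) (nat_lit 33706747196) (nat_lit 1216) (nat_lit 12531808079) (nat_lit 208) (nat_lit 5) (nat_lit 207) (nat_lit 5) (nat_lit 223) (nat_lit 5) (nat_lit 350)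 (nat_lit 344) (nat_lit 86))) (XT.nd (nat_lit 78) (nat_lit 0) (nat_lit 76) (XT.lf (nat_lit 76) (nat_lit 33237397477) (nat_lit 0) (nat_lit 9943631880) (nat_lit 1216) (nat_lit 11221793458) (nat_lit 208) (nat_lit 5) (nat_lit 207) (nat_lit 5) (nat_lit 223) (nat_lit 5) (nat_lit 351) (nat_lit 344) (nat_lit 85)) (XT.lf (nat_lit 76) (nat_lit 4609575744) (nat_lit 0) (nat_lit 40959351982) (nat_lit 1216) (nat_lit 9683836713) (nat_lit 209) (nat_lit 5) (nat_lit 208) (nat_lit 5) (nat_lit 224) (nat_lit 5) (nat_lit 352) (nat_lit 344) (nat_lit 84))))))) (XT.nd (nat_lit 1092) (nat_lit 3116) (nat_lit 0) (XT.nd (nat_lit 546) (nat_lit 1216) (nat_lit 0) (XT.nd (nat_lit 234) (nat_lit 1064) (nat_lit 0) (XT.nd (nat_lit 78) (nat_lit 0) (nat_lit 76) (XT.lf (nat_lit 76) (nat_lit 31490713732) (nat_lit 0) (nat_lit 16848128594) (nat_lit 1216) (nat_lit 7780051466) (nat_lit 209) (nat_lit 5) (nat_lit 208) (nat_lit 5) (nat_lit 224)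 (nat_lit 5) (nat_lit 353) (nat_lit 344) (nat_lit 83)) (XT.nd (nat_lit 78) (nat_lit 0) (nat_lit 0) (XT.lf (nat_lit 76) (nat_lit 2131518565) (nat_lit 0) (nat_lit 49156785958) (nat_lit 1216) (nat_lit 5719809834) (nat_lit 210) (nat_lit 5) (nat_lit 209) (nat_lit 5) (nat_lit 225) (nat_lit 5) (nat_lit 354) (nat_lit 344) (nat_lit 82)) (XT.lf (nat_lit 76) (nat_lit 30028150944) (nat_lit 0) (nat_lit 24711181962) (nat_lit 1216) (nat_lit 3172286970) (nat_lit 210) (nat_lit 5) (nat_lit 209) (nat_lit 5) (nat_lit 225) (nat_lit 5) (nat_lit 355) (nat_lit 344) (nat_lit 81)))) (XT.nd (nat_lit 156) (nat_lit 0) (nat_lit 0) (XT.nd (nat_lit 78) (nat_lit 1216) (nat_lit 0) (XT.lf (nat_lit 0) (nat_lit 58297622149) (nat_lit 1140) (nat_lit 85631659) (nat_lit 1216) (nat_lit 458865641) (nat_lit 210) (nat_lit 5) (nat_lit 225) (nat_lit 5) (nat_lit 226) (nat_lit 5) (nat_lit 356) (nat_lit 344) (nat_lit 80)) (XT.lf (nat_lit 0) (nat_lit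 2646477310) (nat_lit 1216) (nat_lit 30946689741) (nat_lit 1292) (nat_lit 26190947924) (nat_lit 194) (nat_lit 5) (nat_lit 210) (nat_lit 5) (nat_lit 211) (nat_lit 5) (nat_lit 357) (nat_lit 344) (nat_lit 79))) (XT.nd (nat_lit 78) (nat_lit 0) (nat_lit 76) (XT.lf (nat_lit 0) (nat_lit 5922374552) (nat_lit 1216) (nat_lit 2130394250) (nat_lit 1292) (nat_lit 52701436437) (nat_lit 194) (nat_lit 5) (nat_lit 210) (nat_lit 5) (nat_lit 211) (nat_lit 5) (nat_lit 358) (nat_lit 344) (nat_lit 78)) (XT.lf (nat_lit 0) (nat_lit 9744073244) (nat_lit 1216) (nat_lit 33825337063) (nat_lit 1292) (nat_lit 18170562866) (nat_lit 195) (nat_lit 5) (nat_lit 211) (nat_lit 5) (nat_lit 212) (nat_lit 5) (nat_lit 359) (nat_lit 344) (nat_lit 77))))) (XT.nd (nat_lit 234) (nat_lit 1292) (nat_lit 0) (XT.nd (nat_lit 78) (nat_lit 0) (nat_lit 76) (XT.lf (nat_lit 0) (nat_lit 13781181322) (nat_lit 1216) (nat_lit 3930503795) (nat_lit 1292) (nat_lit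 45040606953) (nat_lit 195) (nat_lit 5) (nat_lit 211) (nat_lit 5) (nat_lit 212) (nat_lit 5) (nat_lit 360) (nat_lit 344) (nat_lit 76)) (XT.nd (nat_lit 78) (nat_lit 0) (nat_lit 0) (XT.lf (nat_lit 0) (nat_lit 18290434476) (nat_lit 1216) (nat_lit 36480281116) (nat_lit 76) (nat_lit 9013734645) (nat_lit 196) (nat_lit 5) (nat_lit 212) (nat_lit 5) (nat_lit 197) (nat_lit 5) (nat_lit 361) (nat_lit 344) (nat_lit 75)) (XT.lf (nat_lit 0) (nat_lit 23149749745) (nat_lit 1216) (nat_lit 5466264089) (nat_lit 76) (nat_lit 36225116420) (nat_lit 196) (nat_lit 5) (nat_lit 212) (nat_lit 5) (nat_lit 197) (nat_lit 5) (nat_lit 362) (nat_lit 344) (nat_lit 74)))) (XT.nd (nat_lit 156) (nat_lit 608) (nat_lit 0) (XT.nd (nat_lit 78) (nat_lit 0) (nat_lit 0) (XT.lf (nat_lit 0) (nat_lit 27004567537) (nat_lit 760) (nat_lit 1409218587) (nat_lit 836) (nat_lit 37507956919) (nat_lit 186) (nat_lit 5) (nat_lit 196) (nat_lit 5) (nat_lit 197)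 (nat_lit 5) (nat_lit 363) (nat_lit 344) (nat_lit 73)) (XT.lf (nat_lit 0) (nat_lit 34146687899) (nat_lit 836) (nat_lit 6728492512) (nat_lit 76) (nat_lit 26150266078) (nat_lit 186) (nat_lit 5) (nat_lit 197) (nat_lit 5) (nat_lit 187) (nat_lit 5) (nat_lit 364) (nat_lit 344) (nat_lit 72))) (XT.nd (nat_lit 78) (nat_lit 0) (nat_lit 0) (XT.lf (nat_lit 0) (nat_lit 26936975573) (nat_lit 608) (nat_lit 13386878108) (nat_lit 684) (nat_lit 27830239633) (nat_lit 178) (nat_lit 5) (nat_lit 186) (nat_lit 5) (nat_lit 187) (nat_lit 5) (nat_lit 365) (nat_lit 344) (nat_lit 71)) (XT.lf (nat_lit 0) (nat_lit 46897832755) (nat_lit 684) (nat_lit 7708950858) (nat_lit 76) (nat_lit 14703471549) (nat_lit 178) (nat_lit 5) (nat_lit 187) (nat_lit 5) (nat_lit 179) (nat_lit 5) (nat_lit 366) (nat_lit 344) (nat_lit 70)))))) (XT.nd (nat_lit 546) (nat_lit 912) (nat_lit 0) (XT.nd (nat_lit 234) (nat_lit 1140) (nat_lit 0) (XT.nd (nat_lit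 78) (nat_lit 532) (nat_lit 0) (XT.lf (nat_lit 0) (nat_lit 27202173180) (nat_lit 532) (nat_lit 26860305172) (nat_lit 608) (nat_lit 16426820652) (nat_lit 171) (nat_lit 5) (nat_lit 178) (nat_lit 5) (nat_lit 179) (nat_lit 5) (nat_lit 367) (nat_lit 344) (nat_lit 69)) (XT.nd (nat_lit 78) (nat_lit 532) (nat_lit 0) (XT.lf (nat_lit 0) (nat_lit 61536630909) (nat_lit 608) (nat_lit 8400581773) (nat_lit 76) (nat_lit 1763664986) (nat_lit 171) (nat_lit 5) (nat_lit 179) (nat_lit 5) (nat_lit 172) (nat_lit 5) (nat_lit 368) (nat_lit 344) (nat_lit 68)) (XT.lf (nat_lit 0) (nat_lit 27808710489) (nat_lit 532) (nat_lit 41959003694) (nat_lit 608) (nat_lit 3165108844) (nat_lit 164) (nat_lit 5) (nat_lit 171) (nat_lit 5) (nat_lit 172) (nat_lit 5) (nat_lit 369) (nat_lit 344) (nat_lit 67)))) (XT.nd (nat_lit 156) (nat_lit 532) (nat_lit 0) (XT.nd (nat_lit 78) (nat_lit 532) (nat_lit 0) (XT.lf (nat_lit 0) (nat_lit 4050212589) (nat_lit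 608) (nat_lit 8962968538) (nat_lit 76) (nat_lit 61184826236) (nat_lit 163) (nat_lit 5) (nat_lit 171) (nat_lit 5) (nat_lit 164) (nat_lit 5) (nat_lit 370) (nat_lit 344) (nat_lit 66)) (XT.lf (nat_lit 0) (nat_lit 11859373156) (nat_lit 608) (nat_lit 46843085786) (nat_lit 76) (nat_lit 16784518778) (nat_lit 156) (nat_lit 5) (nat_lit 164) (nat_lit 5) (nat_lit 157) (nat_lit 5) (nat_lit 371) (nat_lit 344) (nat_lit 65))) (XT.nd (nat_lit 78) (nat_lit 532) (nat_lit 0) (XT.lf (nat_lit 0) (nat_lit 20122535671) (nat_lit 608) (nat_lit 9379504040) (nat_lit 76) (nat_lit 47305986124) (nat_lit 156) (nat_lit 5) (nat_lit 164) (nat_lit 5) (nat_lit 157) (nat_lit 5) (nat_lit 372) (nat_lit 344) (nat_lit 64)) (XT.lf (nat_lit 0) (nat_lit 28927791218) (nat_lit 608) (nat_lit 48379752958) (nat_lit 76) (nat_lit 852335722) (nat_lit 149) (nat_lit 5) (nat_lit 157) (nat_lit 5) (nat_lit 150) (nat_lit 5) (nat_lit 373) (nat_lit 344) (nat_lit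 63))))) (XT.nd (nat_lit 312) (nat_lit 0) (nat_lit 0) (XT.nd (nat_lit 156) (nat_lit 456) (nat_lit 0) (XT.nd (nat_lit 78) (nat_lit 456) (nat_lit 0) (XT.lf (nat_lit 0) (nat_lit 38384459870) (nat_lit 608) (nat_lit 9536214328) (nat_lit 76) (nat_lit 31619998158) (nat_lit 149) (nat_lit 5) (nat_lit 157) (nat_lit 5) (nat_lit 150) (nat_lit 5) (nat_lit 374) (nat_lit 344) (nat_lit 62)) (XT.lf (nat_lit 0) (nat_lit 31078554415) (nat_lit 456) (nat_lit 17344538366) (nat_lit 532) (nat_lit 32530848304) (nat_lit 143) (nat_lit 5) (nat_lit 149) (nat_lit 5) (nat_lit 150) (nat_lit 5) (nat_lit 375) (nat_lit 344) (nat_lit 61))) (XT.nd (nat_lit 78) (nat_lit 456) (nat_lit 0) (XT.lf (nat_lit 0) (nat_lit 58995669490) (nat_lit 532) (nat_lit 9436970312) (nat_lit 76) (nat_lit 13969984938) (nat_lit 143) (nat_lit 5) (nat_lit 150) (nat_lit 5) (nat_lit 144) (nat_lit 5) (nat_lit 376) (nat_lit 344) (nat_lit 60)) (XT.lf (nat_lit 0) (nat_lit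 32680052200) (nat_lit 456) (nat_lit 37690780448) (nat_lit 532) (nat_lit 13509374382) (nat_lit 137) (nat_lit 5) (nat_lit 143) (nat_lit 5) (nat_lit 144) (nat_lit 5) (nat_lit 377) (nat_lit 344) (nat_lit 59)))) (XT.nd (nat_lit 38142) (nat_lit 0) (nat_lit 5168) (XT.nd (nat_lit 38064) (nat_lit 0) (nat_lit 5168) (XT.lf (nat_lit 0) (nat_lit 76253515403) (nat_lit 456) (nat_lit 5928578988) (nat_lit 532) (nat_lit 3217177474) (nat_lit 137) (nat_lit 5) (nat_lit 143) (nat_lit 5) (nat_lit 144) (nat_lit 5) (nat_lit 378) (nat_lit 344) (nat_lit 58)) (XT.lf (nat_lit 0) (nat_lit 8691901187) (nat_lit 0) (nat_lit 8691901187) (nat_lit 1140) (nat_lit 7822296756) (nat_lit 205) (nat_lit 5) (nat_lit 205) (nat_lit 3) (nat_lit 220) (nat_lit 3) (nat_lit 345) (nat_lit 345) (nat_lit 90))) (XT.nd (nat_lit 78) (nat_lit 0) (nat_lit 0) (XT.lf (nat_lit 0) (nat_lit 35370996677) (nat_lit 1140) (nat_lit 9960104117) (nat_lit 1216) (nat_lit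 5834798581) (nat_lit 205) (nat_lit 5) (nat_lit 220) (nat_lit 3) (nat_lit 221) (nat_lit 5) (nat_lit 346) (nat_lit 345) (nat_lit 89)) (XT.lf (nat_lit 76) (nat_lit 13898819592) (nat_lit 0) (nat_lit 22398433254) (nat_lit 1216) (nat_lit 15635816796) (nat_lit 206) (nat_lit 5) (nat_lit 205) (nat_lit 5) (nat_lit 221) (nat_lit 5) (nat_lit 347) (nat_lit 345) (nat_lit 88))))))))
noncomputable def xc251 : XT := (XT.nd (nat_lit 2184) (nat_lit 456) (nat_lit 0) (XT.nd (nat_lit 1092) (nat_lit 3420) (nat_lit 0) (XT.nd (nat_lit 546) (nat_lit 912) (nat_lit 0) (XT.nd (nat_lit 234) (nat_lit 0) (nat_lit 76) (XT.nd (nat_lit 78) (nat_lit 0) (nat_lit 0) (XT.lf (nat_lit 0) (nat_lit 37363687466) (nat_lit 1140) (nat_lit 14055842838) (nat_lit 1216) (nat_lit 1300353959) (nat_lit 206) (nat_lit 5) (nat_lit 221) (nat_lit 5) (nat_lit 222) (nat_lit 5) (nat_lit 348) (nat_lit 345) (nat_lit 87)) (XT.nd (nat_lit 78) (nat_lit 0) (nat_lit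 0) (XT.lf (nat_lit 76) (nat_lit 10626992635) (nat_lit 0) (nat_lit 28158138186) (nat_lit 1216) (nat_lit 14735482969) (nat_lit 207) (nat_lit 5) (nat_lit 206) (nat_lit 5) (nat_lit 222) (nat_lit 5) (nat_lit 349) (nat_lit 345) (nat_lit 86)) (XT.lf (nat_lit 76) (nat_lit 36337921157) (nat_lit 0) (nat_lit 4052349956) (nat_lit 1216) (nat_lit 13950863393) (nat_lit 207) (nat_lit 5) (nat_lit 206) (nat_lit 5) (nat_lit 222) (nat_lit 5) (nat_lit 350) (nat_lit 345) (nat_lit 85)))) (XT.nd (nat_lit 156) (nat_lit 0) (nat_lit 76) (XT.nd (nat_lit 78) (nat_lit 0) (nat_lit 0) (XT.lf (nat_lit 76) (nat_lit 7581595689) (nat_lit 0) (nat_lit 34733712618) (nat_lit 1216) (nat_lit 12862811139) (nat_lit 208) (nat_lit 5) (nat_lit 207) (nat_lit 5) (nat_lit 223) (nat_lit 5) (nat_lit 351) (nat_lit 345) (nat_lit 84)) (XT.lf (nat_lit 76) (nat_lit 34261543970) (nat_lit 0) (nat_lit 10257244726) (nat_lit 1216) (nat_lit 11514805337) (nat_lit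 208) (nat_lit 5) (nat_lit 207) (nat_lit 5) (nat_lit 223) (nat_lit 5) (nat_lit 352) (nat_lit 345) (nat_lit 83))) (XT.nd (nat_lit 78) (nat_lit 0) (nat_lit 0) (XT.lf (nat_lit 76) (nat_lit 4776068896) (nat_lit 0) (nat_lit 42201150558) (nat_lit 1216) (nat_lit 9931848858) (nat_lit 209) (nat_lit 5) (nat_lit 208) (nat_lit 5) (nat_lit 224) (nat_lit 5) (nat_lit 353) (nat_lit 345) (nat_lit 82)) (XT.lf (nat_lit 76) (nat_lit 32462819493) (nat_lit 0) (nat_lit 17366211304) (nat_lit 1216) (nat_lit 7972188004) (nat_lit 209) (nat_lit 5) (nat_lit 208) (nat_lit 5) (nat_lit 224) (nat_lit 5) (nat_lit 354) (nat_lit 345) (nat_lit 81))))) (XT.nd (nat_lit 234) (nat_lit 1140) (nat_lit 0) (XT.nd (nat_lit 78) (nat_lit 0) (nat_lit 0) (XT.lf (nat_lit 76) (nat_lit 2223929928) (nat_lit 0) (nat_lit 50642036882) (nat_lit 1216) (nat_lit 5851180669) (nat_lit 210) (nat_lit 5) (nat_lit 209) (nat_lit 5) (nat_lit 225) (nat_lit 5) (nat_lit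 355) (nat_lit 345) (nat_lit 80)) (XT.nd (nat_lit 78) (nat_lit 0) (nat_lit 76) (XT.lf (nat_lit 76) (nat_lit 30956632178) (nat_lit 0) (nat_lit 25462757563) (nat_lit 1216) (nat_lit 3228403676) (nat_lit 210) (nat_lit 5) (nat_lit 209) (nat_lit 5) (nat_lit 225) (nat_lit 5) (nat_lit 356) (nat_lit 345) (nat_lit 79)) (XT.lf (nat_lit 0) (nat_lit 60083228885) (nat_lit 1140) (nat_lit 60132458) (nat_lit 1216) (nat_lit 462883727) (nat_lit 210) (nat_lit 5) (nat_lit 225) (nat_lit 5) (nat_lit 226) (nat_lit 5) (nat_lit 357) (nat_lit 345) (nat_lit 78)))) (XT.nd (nat_lit 156) (nat_lit 0) (nat_lit 76) (XT.nd (nat_lit 78) (nat_lit 0) (nat_lit 0) (XT.lf (nat_lit 0) (nat_lit 2762139600) (nat_lit 1216) (nat_lit 31846540195) (nat_lit 1292) (nat_lit 26967835129) (nat_lit 194) (nat_lit 5) (nat_lit 210) (nat_lit 5) (nat_lit 211) (nat_lit 5) (nat_lit 358) (nat_lit 345) (nat_lit 77)) (XT.lf (nat_lit 0) (nat_lit 6135257410) (nat_lit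 1216) (nat_lit 2166587400) (nat_lit 1292) (nat_lit 54273895809) (nat_lit 194) (nat_lit 5) (nat_lit 210) (nat_lit 5) (nat_lit 211) (nat_lit 5) (nat_lit 359) (nat_lit 345) (nat_lit 76))) (XT.nd (nat_lit 78) (nat_lit 0) (nat_lit 0) (XT.lf (nat_lit 0) (nat_lit 10070778002) (nat_lit 1216) (nat_lit 34811516010) (nat_lit 1292) (nat_lit 18708813453) (nat_lit 195) (nat_lit 5) (nat_lit 211) (nat_lit 5) (nat_lit 212) (nat_lit 5) (nat_lit 360) (nat_lit 345) (nat_lit 75)) (XT.lf (nat_lit 0) (nat_lit 14227997888) (nat_lit 1216) (nat_lit 4020670205) (nat_lit 1292) (nat_lit 46385158853) (nat_lit 195) (nat_lit 5) (nat_lit 211) (nat_lit 5) (nat_lit 212) (nat_lit 5) (nat_lit 361) (nat_lit 345) (nat_lit 74)))))) (XT.nd (nat_lit 546) (nat_lit 1672) (nat_lit 0) (XT.nd (nat_lit 234) (nat_lit 1140) (nat_lit 0) (XT.nd (nat_lit 78) (nat_lit 760) (nat_lit 0) (XT.lf (nat_lit 0) (nat_lit 18871770544) (nat_lit 1216) (nat_lit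 37546151245) (nat_lit 76) (nat_lit 9279051758) (nat_lit 196) (nat_lit 5) (nat_lit 212) (nat_lit 5) (nat_lit 197) (nat_lit 5) (nat_lit 362) (nat_lit 345) (nat_lit 73)) (XT.nd (nat_lit 78) (nat_lit 760) (nat_lit 0) (XT.lf (nat_lit 0) (nat_lit 23875915086) (nat_lit 1216) (nat_lit 5602544920) (nat_lit 76) (nat_lit 37306923382) (nat_lit 196) (nat_lit 5) (nat_lit 212) (nat_lit 5) (nat_lit 197) (nat_lit 5) (nat_lit 363) (nat_lit 345) (nat_lit 72)) (XT.lf (nat_lit 0) (nat_lit 27842140017) (nat_lit 760) (nat_lit 1455073755) (nat_lit 836) (nat_lit 38601221442) (nat_lit 186) (nat_lit 5) (nat_lit 196) (nat_lit 5) (nat_lit 197) (nat_lit 5) (nat_lit 364) (nat_lit 345) (nat_lit 71)))) (XT.nd (nat_lit 156) (nat_lit 532) (nat_lit 0) (XT.nd (nat_lit 78) (nat_lit 608) (nat_lit 0) (XT.lf (nat_lit 0) (nat_lit 35201165880) (nat_lit 836) (nat_lit 6902745371) (nat_lit 76) (nat_lit 26931367479) (nat_lit 186) (nat_lit 5)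 (nat_lit 197) (nat_lit 5) (nat_lit 187) (nat_lit 5) (nat_lit 365) (nat_lit 345) (nat_lit 70)) (XT.lf (nat_lit 0) (nat_lit 27772416150) (nat_lit 608) (nat_lit 13790617172) (nat_lit 684) (nat_lit 28634770877) (nat_lit 178) (nat_lit 5) (nat_lit 186) (nat_lit 5) (nat_lit 187) (nat_lit 5) (nat_lit 366) (nat_lit 345) (nat_lit 69))) (XT.nd (nat_lit 78) (nat_lit 532) (nat_lit 0) (XT.lf (nat_lit 0) (nat_lit 48333353688) (nat_lit 684) (nat_lit 7912778874) (nat_lit 76) (nat_lit 15142545498) (nat_lit 178) (nat_lit 5) (nat_lit 187) (nat_lit 5) (nat_lit 179) (nat_lit 5) (nat_lit 367) (nat_lit 345) (nat_lit 68)) (XT.lf (nat_lit 0) (nat_lit 28045409860) (nat_lit 532) (nat_lit 27666957381) (nat_lit 608) (nat_lit 16890743910) (nat_lit 171) (nat_lit 5) (nat_lit 178) (nat_lit 5) (nat_lit 179) (nat_lit 5) (nat_lit 368) (nat_lit 345) (nat_lit 67))))) (XT.nd (nat_lit 234) (nat_lit 1064) (nat_lit 0) (XT.nd (nat_lit 78)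 (nat_lit 608) (nat_lit 0) (XT.lf (nat_lit 0) (nat_lit 63409920550) (nat_lit 608) (nat_lit 8625369700) (nat_lit 76) (nat_lit 1815772409) (nat_lit 171) (nat_lit 5) (nat_lit 179) (nat_lit 5) (nat_lit 172) (nat_lit 5) (nat_lit 369) (nat_lit 345) (nat_lit 66)) (XT.nd (nat_lit 78) (nat_lit 76) (nat_lit 0) (XT.lf (nat_lit 0) (nat_lit 28669934374) (nat_lit 532) (nat_lit 43217469167) (nat_lit 608) (nat_lit 3232579568) (nat_lit 164) (nat_lit 5) (nat_lit 171) (nat_lit 5) (nat_lit 172) (nat_lit 5) (nat_lit 370) (nat_lit 345) (nat_lit 65)) (XT.lf (nat_lit 0) (nat_lit 4197880382) (nat_lit 608) (nat_lit 9205136234) (nat_lit 76) (nat_lit 63020122680) (nat_lit 163) (nat_lit 5) (nat_lit 171) (nat_lit 5) (nat_lit 164) (nat_lit 5) (nat_lit 371) (nat_lit 345) (nat_lit 64)))) (XT.nd (nat_lit 156) (nat_lit 532) (nat_lit 0) (XT.nd (nat_lit 78) (nat_lit 0) (nat_lit 0) (XT.lf (nat_lit 0) (nat_lit 12240815871) (nat_lit 608)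 (nat_lit 48221134343) (nat_lit 76) (nat_lit 17288844230) (nat_lit 156) (nat_lit 5) (nat_lit 164) (nat_lit 5) (nat_lit 157) (nat_lit 5) (nat_lit 372) (nat_lit 345) (nat_lit 63)) (XT.lf (nat_lit 0) (nat_lit 20751125839) (nat_lit 608) (nat_lit 9634438660) (nat_lit 76) (nat_lit 48725932591) (nat_lit 156) (nat_lit 5) (nat_lit 164) (nat_lit 5) (nat_lit 157) (nat_lit 5) (nat_lit 373) (nat_lit 345) (nat_lit 62))) (XT.nd (nat_lit 78) (nat_lit 0) (nat_lit 0) (XT.lf (nat_lit 0) (nat_lit 29820081996) (nat_lit 608) (nat_lit 49804216535) (nat_lit 76) (nat_lit 879622599) (nat_lit 149) (nat_lit 5) (nat_lit 157) (nat_lit 5) (nat_lit 150) (nat_lit 5) (nat_lit 374) (nat_lit 345) (nat_lit 61)) (XT.lf (nat_lit 0) (nat_lit 39559738366) (nat_lit 608) (nat_lit 9796156086) (nat_lit 76) (nat_lit 32570264904) (nat_lit 149) (nat_lit 5) (nat_lit 157) (nat_lit 5) (nat_lit 150) (nat_lit 5) (nat_lit 375) (nat_lit 345) (nat_lit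 60))))))) (XT.nd (nat_lit 39234) (nat_lit 0) (nat_lit 1520) (XT.nd (nat_lit 38688) (nat_lit 0) (nat_lit 4788) (XT.nd (nat_lit 38376) (nat_lit 0) (nat_lit 4712) (XT.nd (nat_lit 78) (nat_lit 0) (nat_lit 0) (XT.lf (nat_lit 0) (nat_lit 32036799399) (nat_lit 456) (nat_lit 17862288127) (nat_lit 532) (nat_lit 33482752509) (nat_lit 143) (nat_lit 5) (nat_lit 149) (nat_lit 5) (nat_lit 150) (nat_lit 5) (nat_lit 376) (nat_lit 345) (nat_lit 59)) (XT.nd (nat_lit 38220) (nat_lit 0) (nat_lit 4712) (XT.lf (nat_lit 0) (nat_lit 60788186977) (nat_lit 532) (nat_lit 9694270905) (nat_lit 76) (nat_lit 14391546545) (nat_lit 143) (nat_lit 5) (nat_lit 150) (nat_lit 5) (nat_lit 144) (nat_lit 5) (nat_lit 377) (nat_lit 345) (nat_lit 58)) (XT.lf (nat_lit 0) (nat_lit 8964876606) (nat_lit 0) (nat_lit 8964876606) (nat_lit 1140) (nat_lit 8031770508) (nat_lit 205) (nat_lit 5) (nat_lit 205) (nat_lit 3) (nat_lit 220) (nat_lit 3) (nat_lit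 346) (nat_lit 346) (nat_lit 88)))) (XT.nd (nat_lit 156) (nat_lit 0) (nat_lit 76) (XT.nd (nat_lit 78) (nat_lit 0) (nat_lit 0) (XT.lf (nat_lit 0) (nat_lit 36479348552) (nat_lit 1140) (nat_lit 10233481576) (nat_lit 1216) (nat_lit 5986580482) (nat_lit 205) (nat_lit 5) (nat_lit 220) (nat_lit 3) (nat_lit 221) (nat_lit 5) (nat_lit 347) (nat_lit 346) (nat_lit 87)) (XT.lf (nat_lit 76) (nat_lit 14340960573) (nat_lit 0) (nat_lit 23091298447) (nat_lit 1216) (nat_lit 16057372397) (nat_lit 206) (nat_lit 5) (nat_lit 205) (nat_lit 5) (nat_lit 221) (nat_lit 5) (nat_lit 348) (nat_lit 346) (nat_lit 86))) (XT.nd (nat_lit 78) (nat_lit 0) (nat_lit 0) (XT.lf (nat_lit 0) (nat_lit 38529149126) (nat_lit 1140) (nat_lit 14451491202) (nat_lit 1216) (nat_lit 1319457662) (nat_lit 206) (nat_lit 5) (nat_lit 221) (nat_lit 5) (nat_lit 222) (nat_lit 5) (nat_lit 349) (nat_lit 346) (nat_lit 85)) (XT.lf (nat_lit 76) (nat_lit 10971574170)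 (nat_lit 0) (nat_lit 29020611743) (nat_lit 1216) (nat_lit 15132696334) (nat_lit 207) (nat_lit 5) (nat_lit 206) (nat_lit 5) (nat_lit 222) (nat_lit 5) (nat_lit 350) (nat_lit 346) (nat_lit 84))))) (XT.nd (nat_lit 234) (nat_lit 0) (nat_lit 152) (XT.nd (nat_lit 78) (nat_lit 0) (nat_lit 76) (XT.lf (nat_lit 76) (nat_lit 37453079913) (nat_lit 0) (nat_lit 4191133476) (nat_lit 1216) (nat_lit 14325844514) (nat_lit 207) (nat_lit 5) (nat_lit 206) (nat_lit 5) (nat_lit 222) (nat_lit 5) (nat_lit 351) (nat_lit 346) (nat_lit 83)) (XT.nd (nat_lit 78) (nat_lit 0) (nat_lit 0) (XT.lf (nat_lit 76) (nat_lit 7835281005) (nat_lit 0) (nat_lit 35790582141) (nat_lit 1216) (nat_lit 13206324673) (nat_lit 208) (nat_lit 5) (nat_lit 207) (nat_lit 5) (nat_lit 223) (nat_lit 5) (nat_lit 352) (nat_lit 346) (nat_lit 82)) (XT.lf (nat_lit 76) (nat_lit 35314863536) (nat_lit 0) (nat_lit 10579387451) (nat_lit 1216) (nat_lit 11819112798) (nat_lit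 208) (nat_lit 5) (nat_lit 207) (nat_lit 5) (nat_lit 223) (nat_lit 5) (nat_lit 353) (nat_lit 346) (nat_lit 81)))) (XT.nd (nat_lit 156) (nat_lit 0) (nat_lit 76) (XT.nd (nat_lit 78) (nat_lit 0) (nat_lit 0) (XT.lf (nat_lit 76) (nat_lit 4945937709) (nat_lit 0) (nat_lit 43479455805) (nat_lit 1216) (nat_lit 10189741211) (nat_lit 209) (nat_lit 5) (nat_lit 208) (nat_lit 5) (nat_lit 224) (nat_lit 5) (nat_lit 354) (nat_lit 346) (nat_lit 80)) (XT.lf (nat_lit 76) (nat_lit 33462516453) (nat_lit 0) (nat_lit 17899110973) (nat_lit 1216) (nat_lit 8172457418) (nat_lit 209) (nat_lit 5) (nat_lit 208) (nat_lit 5) (nat_lit 224) (nat_lit 5) (nat_lit 355) (nat_lit 346) (nat_lit 79))) (XT.nd (nat_lit 78) (nat_lit 0) (nat_lit 0) (XT.lf (nat_lit 76) (nat_lit 2317479579) (nat_lit 0) (nat_lit 52171239874) (nat_lit 1216) (nat_lit 5988801620) (nat_lit 210) (nat_lit 5) (nat_lit 209) (nat_lit 5) (nat_lit 225) (nat_lit 5) (nat_lit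 356) (nat_lit 346) (nat_lit 78)) (XT.lf (nat_lit 76) (nat_lit 31911381390) (nat_lit 0) (nat_lit 26236292605) (nat_lit 1216) (nat_lit 3288445623) (nat_lit 210) (nat_lit 5) (nat_lit 209) (nat_lit 5) (nat_lit 225) (nat_lit 5) (nat_lit 357) (nat_lit 346) (nat_lit 77)))))) (XT.nd (nat_lit 546) (nat_lit 2356) (nat_lit 0) (XT.nd (nat_lit 234) (nat_lit 0) (nat_lit 76) (XT.nd (nat_lit 78) (nat_lit 1216) (nat_lit 0) (XT.lf (nat_lit 0) (nat_lit 61920298351) (nat_lit 1140) (nat_lit 35479507) (nat_lit 1216) (nat_lit 467581924) (nat_lit 210) (nat_lit 5) (nat_lit 225) (nat_lit 5) (nat_lit 226) (nat_lit 5) (nat_lit 358) (nat_lit 346) (nat_lit 76)) (XT.nd (nat_lit 78) (nat_lit 0) (nat_lit 0) (XT.lf (nat_lit 0) (nat_lit 2879189829) (nat_lit 1216) (nat_lit 32775025063) (nat_lit 1292) (nat_lit 27768536473) (nat_lit 194) (nat_lit 5) (nat_lit 210) (nat_lit 5) (nat_lit 211) (nat_lit 5) (nat_lit 359) (nat_lit 346) (nat_lit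 75)) (XT.lf (nat_lit 0) (nat_lit 6352505463) (nat_lit 1216) (nat_lit 2205457510) (nat_lit 1292) (nat_lit 55894021703) (nat_lit 194) (nat_lit 5) (nat_lit 210) (nat_lit 5) (nat_lit 211) (nat_lit 5) (nat_lit 360) (nat_lit 346) (nat_lit 74)))) (XT.nd (nat_lit 156) (nat_lit 0) (nat_lit 76) (XT.nd (nat_lit 78) (nat_lit 0) (nat_lit 0) (XT.lf (nat_lit 0) (nat_lit 10405310203) (nat_lit 1216) (nat_lit 35828921001) (nat_lit 1292) (nat_lit 19263605712) (nat_lit 195) (nat_lit 5) (nat_lit 211) (nat_lit 5) (nat_lit 212) (nat_lit 5) (nat_lit 361) (nat_lit 346) (nat_lit 73)) (XT.lf (nat_lit 0) (nat_lit 14686302738) (nat_lit 1216) (nat_lit 4115134497) (nat_lit 1292) (nat_lit 47770429983) (nat_lit 195) (nat_lit 5) (nat_lit 211) (nat_lit 5) (nat_lit 212) (nat_lit 5) (nat_lit 362) (nat_lit 346) (nat_lit 72))) (XT.nd (nat_lit 78) (nat_lit 0) (nat_lit 0) (XT.lf (nat_lit 0) (nat_lit 19468673998) (nat_lit 1216) (nat_lit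 38645635693) (nat_lit 76) (nat_lit 9552620854) (nat_lit 196) (nat_lit 5) (nat_lit 212) (nat_lit 5) (nat_lit 197) (nat_lit 5) (nat_lit 363) (nat_lit 346) (nat_lit 71)) (XT.lf (nat_lit 0) (nat_lit 24622047235) (nat_lit 1216) (nat_lit 5744504676) (nat_lit 76) (nat_lit 38421468504) (nat_lit 196) (nat_lit 5) (nat_lit 212) (nat_lit 5) (nat_lit 197) (nat_lit 5) (nat_lit 364) (nat_lit 346) (nat_lit 70))))) (XT.nd (nat_lit 312) (nat_lit 1140) (nat_lit 0) (XT.nd (nat_lit 156) (nat_lit 608) (nat_lit 0) (XT.nd (nat_lit 78) (nat_lit 0) (nat_lit 0) (XT.lf (nat_lit 0) (nat_lit 28703264764) (nat_lit 760) (nat_lit 1502099151) (nat_lit 836) (nat_lit 39729119350) (nat_lit 186) (nat_lit 5) (nat_lit 196) (nat_lit 5) (nat_lit 197) (nat_lit 5) (nat_lit 365) (nat_lit 346) (nat_lit 69)) (XT.lf (nat_lit 0) (nat_lit 36285551637) (nat_lit 836) (nat_lit 7083810278) (nat_lit 76) (nat_lit 27736097474) (nat_lit 186) (nat_lit 5)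 (nat_lit 197) (nat_lit 5) (nat_lit 187) (nat_lit 5) (nat_lit 366) (nat_lit 346) (nat_lit 68))) (XT.nd (nat_lit 78) (nat_lit 0) (nat_lit 0) (XT.lf (nat_lit 0) (nat_lit 28631351015) (nat_lit 608) (nat_lit 14206345981) (nat_lit 684) (nat_lit 29465181763) (nat_lit 178) (nat_lit 5) (nat_lit 186) (nat_lit 5) (nat_lit 187) (nat_lit 5) (nat_lit 367) (nat_lit 346) (nat_lit 67)) (XT.lf (nat_lit 0) (nat_lit 49810299299) (nat_lit 684) (nat_lit 8124296928) (nat_lit 76) (nat_lit 15594908207) (nat_lit 178) (nat_lit 5) (nat_lit 187) (nat_lit 5) (nat_lit 179) (nat_lit 5) (nat_lit 368) (nat_lit 346) (nat_lit 66)))) (XT.nd (nat_lit 156) (nat_lit 608) (nat_lit 0) (XT.nd (nat_lit 78) (nat_lit 0) (nat_lit 0) (XT.lf (nat_lit 0) (nat_lit 28912383887) (nat_lit 532) (nat_lit 28497760762) (nat_lit 608) (nat_lit 17370242774) (nat_lit 171) (nat_lit 5) (nat_lit 178) (nat_lit 5) (nat_lit 179) (nat_lit 5) (nat_lit 369) (nat_lit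 346) (nat_lit 65)) (XT.lf (nat_lit 0) (nat_lit 65337848021) (nat_lit 608) (nat_lit 8858464351) (nat_lit 76) (nat_lit 1869489122) (nat_lit 171) (nat_lit 5) (nat_lit 179) (nat_lit 5) (nat_lit 172) (nat_lit 5) (nat_lit 370) (nat_lit 346) (nat_lit 64))) (XT.nd (nat_lit 78) (nat_lit 76) (nat_lit 0) (XT.lf (nat_lit 0) (nat_lit 29555447213) (nat_lit 532) (nat_lit 44513706091) (nat_lit 608) (nat_lit 3303652024) (nat_lit 164) (nat_lit 5) (nat_lit 171) (nat_lit 5) (nat_lit 172) (nat_lit 5) (nat_lit 371) (nat_lit 346) (nat_lit 63)) (XT.lf (nat_lit 0) (nat_lit 4348476437) (nat_lit 608) (nat_lit 9456102876) (nat_lit 76) (nat_lit 64910492274) (nat_lit 163) (nat_lit 5) (nat_lit 171) (nat_lit 5) (nat_lit 164) (nat_lit 5) (nat_lit 372) (nat_lit 346) (nat_lit 62))))))))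
noncomputable def xc252 : XT := (XT.nd (nat_lit 40482) (nat_lit 0) (nat_lit 532) (XT.nd (nat_lit 39390) (nat_lit 0) (nat_lit 1672) (XT.nd (nat_lit 38844) (nat_lit 0) (nat_lit 4332) (XT.nd (nat_lit 234) (nat_lit 0) (nat_lit 0) (XT.nd (nat_lit 78) (nat_lit 532) (nat_lit 0) (XT.lf (nat_lit 0) (nat_lit 12632228792) (nat_lit 608) (nat_lit 49642088275) (nat_lit 76) (nat_lit 17808254103) (nat_lit 156) (nat_lit 5) (nat_lit 164) (nat_lit 5) (nat_lit 157) (nat_lit 5) (nat_lit 373) (nat_lit 346) (nat_lit 61)) (XT.nd (nat_lit 78) (nat_lit 532) (nat_lit 0) (XT.lf (nat_lit 0) (nat_lit 21397143541) (nat_lit 608) (nat_lit 9898539685) (nat_lit 76) (nat_lit 50188433429) (nat_lit 156) (nat_lit 5) (nat_lit 164) (nat_lit 5) (nat_lit 157) (nat_lit 5) (nat_lit 374) (nat_lit 346) (nat_lit 60)) (XT.lf (nat_lit 0) (nat_lit 30737737564) (nat_lit 608) (nat_lit 51272959853) (nat_lit 76) (nat_lit 907629530) (nat_lit 149) (nat_lit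 5) (nat_lit 157) (nat_lit 5) (nat_lit 150) (nat_lit 5) (nat_lit 375) (nat_lit 346) (nat_lit 59)))) (XT.nd (nat_lit 38454) (nat_lit 0) (nat_lit 4256) (XT.nd (nat_lit 38376) (nat_lit 0) (nat_lit 4256) (XT.lf (nat_lit 0) (nat_lit 40768912175) (nat_lit 608) (nat_lit 10065396907) (nat_lit 76) (nat_lit 33548943971) (nat_lit 149) (nat_lit 5) (nat_lit 157) (nat_lit 5) (nat_lit 150) (nat_lit 5) (nat_lit 376) (nat_lit 346) (nat_lit 58)) (XT.lf (nat_lit 0) (nat_lit 9245339903) (nat_lit 0) (nat_lit 9245339903) (nat_lit 1140) (nat_lit 8248974778) (nat_lit 205) (nat_lit 5) (nat_lit 205) (nat_lit 3) (nat_lit 220) (nat_lit 3) (nat_lit 347) (nat_lit 347) (nat_lit 86))) (XT.nd (nat_lit 78) (nat_lit 0) (nat_lit 0) (XT.lf (nat_lit 0) (nat_lit 37618240248) (nat_lit 1140) (nat_lit 10516519896) (nat_lit 1216) (nat_lit 6144251177) (nat_lit 205) (nat_lit 5) (nat_lit 220) (nat_lit 3) (nat_lit 221) (nat_lit 5) (nat_lit 348)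 (nat_lit 347) (nat_lit 85)) (XT.lf (nat_lit 76) (nat_lit 14794920555) (nat_lit 0) (nat_lit 23803749150) (nat_lit 1216) (nat_lit 16494302445) (nat_lit 206) (nat_lit 5) (nat_lit 205) (nat_lit 5) (nat_lit 221) (nat_lit 5) (nat_lit 349) (nat_lit 347) (nat_lit 84))))) (XT.nd (nat_lit 234) (nat_lit 0) (nat_lit 76) (XT.nd (nat_lit 78) (nat_lit 0) (nat_lit 0) (XT.lf (nat_lit 0) (nat_lit 39727017225) (nat_lit 1140) (nat_lit 14860503068) (nat_lit 1216) (nat_lit 1340277215) (nat_lit 206) (nat_lit 5) (nat_lit 221) (nat_lit 5) (nat_lit 222) (nat_lit 5) (nat_lit 350) (nat_lit 347) (nat_lit 83)) (XT.nd (nat_lit 78) (nat_lit 0) (nat_lit 0) (XT.lf (nat_lit 76) (nat_lit 11325013746) (nat_lit 0) (nat_lit 29907941767) (nat_lit 1216) (nat_lit 15544400739) (nat_lit 207) (nat_lit 5) (nat_lit 206) (nat_lit 5) (nat_lit 222) (nat_lit 5) (nat_lit 351) (nat_lit 347) (nat_lit 82)) (XT.lf (nat_lit 76) (nat_lit 38600257118) (nat_lit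 0) (nat_lit 4333092403) (nat_lit 1216) (nat_lit 14714574718) (nat_lit 207) (nat_lit 5) (nat_lit 206) (nat_lit 5) (nat_lit 222) (nat_lit 5) (nat_lit 352) (nat_lit 347) (nat_lit 81)))) (XT.nd (nat_lit 156) (nat_lit 0) (nat_lit 76) (XT.nd (nat_lit 78) (nat_lit 0) (nat_lit 0) (XT.lf (nat_lit 76) (nat_lit 8095070743) (nat_lit 0) (nat_lit 36878304832) (nat_lit 1216) (nat_lit 13562575871) (nat_lit 208) (nat_lit 5) (nat_lit 207) (nat_lit 5) (nat_lit 223) (nat_lit 5) (nat_lit 353) (nat_lit 347) (nat_lit 80)) (XT.lf (nat_lit 76) (nat_lit 36398320421) (nat_lit 0) (nat_lit 10910366382) (nat_lit 1216) (nat_lit 12134910898) (nat_lit 208) (nat_lit 5) (nat_lit 207) (nat_lit 5) (nat_lit 223) (nat_lit 5) (nat_lit 354) (nat_lit 347) (nat_lit 79))) (XT.nd (nat_lit 78) (nat_lit 0) (nat_lit 0) (XT.lf (nat_lit 76) (nat_lit 5119376398) (nat_lit 0) (nat_lit 44795405819) (nat_lit 1216) (nat_lit 10457670122) (nat_lit 209)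 (nat_lit 5) (nat_lit 208) (nat_lit 5) (nat_lit 224) (nat_lit 5) (nat_lit 355) (nat_lit 347) (nat_lit 78)) (XT.lf (nat_lit 76) (nat_lit 34490722585) (nat_lit 0) (nat_lit 18447313758) (nat_lit 1216) (nat_lit 8380967717) (nat_lit 209) (nat_lit 5) (nat_lit 208) (nat_lit 5) (nat_lit 224) (nat_lit 5) (nat_lit 356) (nat_lit 347) (nat_lit 77)))))) (XT.nd (nat_lit 546) (nat_lit 1748) (nat_lit 0) (XT.nd (nat_lit 234) (nat_lit 1140) (nat_lit 0) (XT.nd (nat_lit 78) (nat_lit 0) (nat_lit 0) (XT.lf (nat_lit 76) (nat_lit 2412295468) (nat_lit 0) (nat_lit 53745748251) (nat_lit 1216) (nat_lit 6132727646) (nat_lit 210) (nat_lit 5) (nat_lit 209) (nat_lit 5) (nat_lit 225) (nat_lit 5) (nat_lit 357) (nat_lit 347) (nat_lit 76)) (XT.nd (nat_lit 78) (nat_lit 0) (nat_lit 76) (XT.lf (nat_lit 76) (nat_lit 32893277686) (nat_lit 0) (nat_lit 27032479617) (nat_lit 1216) (nat_lit 3352401882) (nat_lit 210) (nat_lit 5) (nat_lit 209)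 (nat_lit 5) (nat_lit 225) (nat_lit 5) (nat_lit 358) (nat_lit 347) (nat_lit 75)) (XT.lf (nat_lit 0) (nat_lit 63810495292) (nat_lit 1140) (nat_lit 11605704) (nat_lit 1216) (nat_lit 472948513) (nat_lit 210) (nat_lit 5) (nat_lit 225) (nat_lit 5) (nat_lit 226) (nat_lit 5) (nat_lit 359) (nat_lit 347) (nat_lit 74)))) (XT.nd (nat_lit 156) (nat_lit 0) (nat_lit 76) (XT.nd (nat_lit 78) (nat_lit 0) (nat_lit 0) (XT.lf (nat_lit 0) (nat_lit 2997789146) (nat_lit 1216) (nat_lit 33732909298) (nat_lit 1292) (nat_lit 28593737246) (nat_lit 194) (nat_lit 5) (nat_lit 210) (nat_lit 5) (nat_lit 211) (nat_lit 5) (nat_lit 360) (nat_lit 347) (nat_lit 73)) (XT.lf (nat_lit 0) (nat_lit 6574365697) (nat_lit 1216) (nat_lit 2246993549) (nat_lit 1292) (nat_lit 57563215828) (nat_lit 194) (nat_lit 5) (nat_lit 210) (nat_lit 5) (nat_lit 211) (nat_lit 5) (nat_lit 361) (nat_lit 347) (nat_lit 72))) (XT.nd (nat_lit 78) (nat_lit 0) (nat_lit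 0) (XT.lf (nat_lit 0) (nat_lit 10748017969) (nat_lit 1216) (nat_lit 36878394636) (nat_lit 1292) (nat_lit 19835413267) (nat_lit 195) (nat_lit 5) (nat_lit 211) (nat_lit 5) (nat_lit 212) (nat_lit 5) (nat_lit 362) (nat_lit 347) (nat_lit 71)) (XT.lf (nat_lit 0) (nat_lit 15156550519) (nat_lit 1216) (nat_lit 4213934168) (nat_lit 1292) (nat_lit 49197619953) (nat_lit 195) (nat_lit 5) (nat_lit 211) (nat_lit 5) (nat_lit 212) (nat_lit 5) (nat_lit 363) (nat_lit 347) (nat_lit 70))))) (XT.nd (nat_lit 234) (nat_lit 1140) (nat_lit 0) (XT.nd (nat_lit 78) (nat_lit 760) (nat_lit 0) (XT.lf (nat_lit 0) (nat_lit 20081719360) (nat_lit 1216) (nat_lit 39779648850) (nat_lit 76) (nat_lit 9834672703) (nat_lit 196) (nat_lit 5) (nat_lit 212) (nat_lit 5) (nat_lit 197) (nat_lit 5) (nat_lit 364) (nat_lit 347) (nat_lit 69)) (XT.nd (nat_lit 78) (nat_lit 760) (nat_lit 0) (XT.lf (nat_lit 0) (nat_lit 25388849567) (nat_lit 1216) (nat_lit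 5892222424) (nat_lit 76) (nat_lit 39569717630) (nat_lit 196) (nat_lit 5) (nat_lit 212) (nat_lit 5) (nat_lit 197) (nat_lit 5) (nat_lit 365) (nat_lit 347) (nat_lit 68)) (XT.lf (nat_lit 0) (nat_lit 29588738752) (nat_lit 760) (nat_lit 1550341674) (nat_lit 836) (nat_lit 40892584282) (nat_lit 186) (nat_lit 5) (nat_lit 196) (nat_lit 5) (nat_lit 197) (nat_lit 5) (nat_lit 366) (nat_lit 347) (nat_lit 67)))) (XT.nd (nat_lit 156) (nat_lit 532) (nat_lit 0) (XT.nd (nat_lit 78) (nat_lit 608) (nat_lit 0) (XT.lf (nat_lit 0) (nat_lit 37400841517) (nat_lit 836) (nat_lit 7271800642) (nat_lit 76) (nat_lit 28565153695) (nat_lit 186) (nat_lit 5) (nat_lit 197) (nat_lit 5) (nat_lit 187) (nat_lit 5) (nat_lit 367) (nat_lit 347) (nat_lit 66)) (XT.lf (nat_lit 0) (nat_lit 29514575059) (nat_lit 608) (nat_lit 14634431255) (nat_lit 684) (nat_lit 30322148582) (nat_lit 178) (nat_lit 5) (nat_lit 186) (nat_lit 5) (nat_lit 187) (nat_lit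 5) (nat_lit 368) (nat_lit 347) (nat_lit 65))) (XT.nd (nat_lit 78) (nat_lit 532) (nat_lit 0) (XT.lf (nat_lit 0) (nat_lit 51330006524) (nat_lit 684) (nat_lit 8343645299) (nat_lit 76) (nat_lit 16060951649) (nat_lit 178) (nat_lit 5) (nat_lit 187) (nat_lit 5) (nat_lit 179) (nat_lit 5) (nat_lit 369) (nat_lit 347) (nat_lit 64)) (XT.lf (nat_lit 0) (nat_lit 29803896916) (nat_lit 532) (nat_lit 29353442627) (nat_lit 608) (nat_lit 17865689341) (nat_lit 171) (nat_lit 5) (nat_lit 178) (nat_lit 5) (nat_lit 179) (nat_lit 5) (nat_lit 370) (nat_lit 347) (nat_lit 63))))))) (XT.nd (nat_lit 39546) (nat_lit 0) (nat_lit 1140) (XT.nd (nat_lit 39000) (nat_lit 0) (nat_lit 3724) (XT.nd (nat_lit 234) (nat_lit 532) (nat_lit 0) (XT.nd (nat_lit 78) (nat_lit 608) (nat_lit 0) (XT.lf (nat_lit 0) (nat_lit 67322142059) (nat_lit 608) (nat_lit 9100025201) (nat_lit 76) (nat_lit 1924860761) (nat_lit 171) (nat_lit 5) (nat_lit 179) (nat_lit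 5) (nat_lit 172) (nat_lit 5) (nat_lit 371) (nat_lit 347) (nat_lit 62)) (XT.nd (nat_lit 78) (nat_lit 76) (nat_lit 0) (XT.lf (nat_lit 0) (nat_lit 30466066524) (nat_lit 532) (nat_lit 45848846607) (nat_lit 608) (nat_lit 3378343702) (nat_lit 164) (nat_lit 5) (nat_lit 171) (nat_lit 5) (nat_lit 172) (nat_lit 5) (nat_lit 372) (nat_lit 347) (nat_lit 61)) (XT.lf (nat_lit 0) (nat_lit 4502174809) (nat_lit 608) (nat_lit 9716044380) (nat_lit 76) (nat_lit 66857586393) (nat_lit 163) (nat_lit 5) (nat_lit 171) (nat_lit 5) (nat_lit 164) (nat_lit 5) (nat_lit 373) (nat_lit 347) (nat_lit 60)))) (XT.nd (nat_lit 38610) (nat_lit 0) (nat_lit 3724) (XT.nd (nat_lit 78) (nat_lit 0) (nat_lit 0) (XT.lf (nat_lit 0) (nat_lit 13033995584) (nat_lit 608) (nat_lit 51107144967) (nat_lit 76) (nat_lit 18343203532) (nat_lit 156) (nat_lit 5) (nat_lit 164) (nat_lit 5) (nat_lit 157) (nat_lit 5) (nat_lit 374) (nat_lit 347) (nat_lit 59)) (XT.lf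 (nat_lit 0) (nat_lit 22061193700) (nat_lit 608) (nat_lit 10171994947) (nat_lit 76) (nat_lit 51694767797) (nat_lit 156) (nat_lit 5) (nat_lit 164) (nat_lit 5) (nat_lit 157) (nat_lit 5) (nat_lit 375) (nat_lit 347) (nat_lit 58))) (XT.nd (nat_lit 78) (nat_lit 0) (nat_lit 0) (XT.lf (nat_lit 0) (nat_lit 9533555976) (nat_lit 0) (nat_lit 9533555976) (nat_lit 1140) (nat_lit 8474058457) (nat_lit 205) (nat_lit 5) (nat_lit 205) (nat_lit 3) (nat_lit 220) (nat_lit 3) (nat_lit 348) (nat_lit 348) (nat_lit 84)) (XT.lf (nat_lit 0) (nat_lit 38788743568) (nat_lit 1140) (nat_lit 10809425119) (nat_lit 1216) (nat_lit 6307910677) (nat_lit 205) (nat_lit 5) (nat_lit 220) (nat_lit 3) (nat_lit 221) (nat_lit 5) (nat_lit 349) (nat_lit 348) (nat_lit 83))))) (XT.nd (nat_lit 234) (nat_lit 0) (nat_lit 76) (XT.nd (nat_lit 78) (nat_lit 0) (nat_lit 76) (XT.lf (nat_lit 76) (nat_lit 15261137071) (nat_lit 0) (nat_lit 24536441838) (nat_lit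 1216) (nat_lit 16946911589) (nat_lit 206) (nat_lit 5) (nat_lit 205) (nat_lit 5) (nat_lit 221) (nat_lit 5) (nat_lit 350) (nat_lit 348) (nat_lit 82)) (XT.nd (nat_lit 78) (nat_lit 0) (nat_lit 0) (XT.lf (nat_lit 0) (nat_lit 40958410760) (nat_lit 1140) (nat_lit 15283193578) (nat_lit 1216) (nat_lit 1362798496) (nat_lit 206) (nat_lit 5) (nat_lit 221) (nat_lit 5) (nat_lit 222) (nat_lit 5) (nat_lit 351) (nat_lit 348) (nat_lit 81)) (XT.lf (nat_lit 76) (nat_lit 11687662029) (nat_lit 0) (nat_lit 30820932372) (nat_lit 1216) (nat_lit 15970883118) (nat_lit 207) (nat_lit 5) (nat_lit 206) (nat_lit 5) (nat_lit 222) (nat_lit 5) (nat_lit 352) (nat_lit 348) (nat_lit 80)))) (XT.nd (nat_lit 156) (nat_lit 0) (nat_lit 76) (XT.nd (nat_lit 78) (nat_lit 0) (nat_lit 76) (XT.lf (nat_lit 76) (nat_lit 39780495774) (nat_lit 0) (nat_lit 4478378721) (nat_lit 1216) (nat_lit 15117322986) (nat_lit 207) (nat_lit 5) (nat_lit 206) (nat_lit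 5) (nat_lit 222) (nat_lit 5) (nat_lit 353) (nat_lit 348) (nat_lit 79)) (XT.lf (nat_lit 76) (nat_lit 8361234495) (nat_lit 0) (nat_lit 37997855247) (nat_lit 1216) (nat_lit 13931807239) (nat_lit 208) (nat_lit 5) (nat_lit 207) (nat_lit 5) (nat_lit 223) (nat_lit 5) (nat_lit 354) (nat_lit 348) (nat_lit 78))) (XT.nd (nat_lit 78) (nat_lit 0) (nat_lit 76) (XT.lf (nat_lit 76) (nat_lit 37512902684) (nat_lit 0) (nat_lit 11250494140) (nat_lit 1216) (nat_lit 12462408800) (nat_lit 208) (nat_lit 5) (nat_lit 207) (nat_lit 5) (nat_lit 223) (nat_lit 5) (nat_lit 355) (nat_lit 348) (nat_lit 77)) (XT.lf (nat_lit 76) (nat_lit 5296579670) (nat_lit 0) (nat_lit 46150170378) (nat_lit 1216) (nat_lit 10735804669) (nat_lit 209) (nat_lit 5) (nat_lit 208) (nat_lit 5) (nat_lit 224) (nat_lit 5) (nat_lit 356) (nat_lit 348) (nat_lit 76)))))) (XT.nd (nat_lit 546) (nat_lit 1748) (nat_lit 0) (XT.nd (nat_lit 234) (nat_lit 1064) (nat_lit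 0) (XT.nd (nat_lit 78) (nat_lit 0) (nat_lit 76) (XT.lf (nat_lit 76) (nat_lit 35548378224) (nat_lit 0) (nat_lit 19011318010) (nat_lit 1216) (nat_lit 8597837956) (nat_lit 209) (nat_lit 5) (nat_lit 208) (nat_lit 5) (nat_lit 224) (nat_lit 5) (nat_lit 357) (nat_lit 348) (nat_lit 75)) (XT.nd (nat_lit 78) (nat_lit 0) (nat_lit 0) (XT.lf (nat_lit 76) (nat_lit 2508503997) (nat_lit 0) (nat_lit 55366953934) (nat_lit 1216) (nat_lit 6283022961) (nat_lit 210) (nat_lit 5) (nat_lit 209) (nat_lit 5) (nat_lit 225) (nat_lit 5) (nat_lit 358) (nat_lit 348) (nat_lit 74)) (XT.lf (nat_lit 76) (nat_lit 33903221323) (nat_lit 0) (nat_lit 27852029963) (nat_lit 1216) (nat_lit 3420268585) (nat_lit 210) (nat_lit 5) (nat_lit 209) (nat_lit 5) (nat_lit 225) (nat_lit 5) (nat_lit 359) (nat_lit 348) (nat_lit 73)))) (XT.nd (nat_lit 156) (nat_lit 0) (nat_lit 0) (XT.nd (nat_lit 78) (nat_lit 1216) (nat_lit 0) (XT.lf (nat_lit 76) (nat_lit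 11782681) (nat_lit 0) (nat_lit 65743858039) (nat_lit 1216) (nat_lit 467303851) (nat_lit 211) (nat_lit 5) (nat_lit 210) (nat_lit 5) (nat_lit 226) (nat_lit 5) (nat_lit 360) (nat_lit 348) (nat_lit 72)) (XT.lf (nat_lit 0) (nat_lit 3118096674) (nat_lit 1216) (nat_lit 34720986202) (nat_lit 1292) (nat_lit 29444144970) (nat_lit 194) (nat_lit 5) (nat_lit 210) (nat_lit 5) (nat_lit 211) (nat_lit 5) (nat_lit 361) (nat_lit 348) (nat_lit 71))) (XT.nd (nat_lit 78) (nat_lit 0) (nat_lit 76) (XT.lf (nat_lit 0) (nat_lit 6801085847) (nat_lit 1216) (nat_lit 2291189399) (nat_lit 1292) (nat_lit 59282923572) (nat_lit 194) (nat_lit 5) (nat_lit 210) (nat_lit 5) (nat_lit 211) (nat_lit 5) (nat_lit 362) (nat_lit 348) (nat_lit 70)) (XT.lf (nat_lit 0) (nat_lit 11099253361) (nat_lit 1216) (nat_lit 37960810199) (nat_lit 1292) (nat_lit 20424725248) (nat_lit 195) (nat_lit 5) (nat_lit 211) (nat_lit 5) (nat_lit 212) (nat_lit 5) (nat_lit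 363) (nat_lit 348) (nat_lit 69))))) (XT.nd (nat_lit 312) (nat_lit 1140) (nat_lit 0) (XT.nd (nat_lit 156) (nat_lit 684) (nat_lit 0) (XT.nd (nat_lit 78) (nat_lit 0) (nat_lit 76) (XT.lf (nat_lit 0) (nat_lit 15639203203) (nat_lit 1216) (nat_lit 4317113090) (nat_lit 1292) (nat_lit 50667965623) (nat_lit 195) (nat_lit 5) (nat_lit 211) (nat_lit 5) (nat_lit 212) (nat_lit 5) (nat_lit 364) (nat_lit 348) (nat_lit 68)) (XT.lf (nat_lit 0) (nat_lit 20711492218) (nat_lit 1216) (nat_lit 40949137934) (nat_lit 76) (nat_lit 10125445964) (nat_lit 196) (nat_lit 5) (nat_lit 212) (nat_lit 5) (nat_lit 197) (nat_lit 5) (nat_lit 365) (nat_lit 348) (nat_lit 67))) (XT.nd (nat_lit 78) (nat_lit 760) (nat_lit 0) (XT.lf (nat_lit 0) (nat_lit 26177040565) (nat_lit 1216) (nat_lit 6045784843) (nat_lit 76) (nat_lit 40752666518) (nat_lit 196) (nat_lit 5) (nat_lit 212) (nat_lit 5) (nat_lit 197) (nat_lit 5) (nat_lit 366) (nat_lit 348)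 (nat_lit 66)) (XT.lf (nat_lit 0) (nat_lit 30499377675) (nat_lit 760) (nat_lit 1599848954) (nat_lit 836) (nat_lit 42092583935) (nat_lit 186) (nat_lit 5) (nat_lit 196) (nat_lit 5) (nat_lit 197) (nat_lit 5) (nat_lit 367) (nat_lit 348) (nat_lit 65)))) (XT.nd (nat_lit 156) (nat_lit 532) (nat_lit 0) (XT.nd (nat_lit 78) (nat_lit 608) (nat_lit 0) (XT.lf (nat_lit 0) (nat_lit 38548056064) (nat_lit 836) (nat_lit 7466838490) (nat_lit 76) (nat_lit 29419255347) (nat_lit 186) (nat_lit 5) (nat_lit 197) (nat_lit 5) (nat_lit 187) (nat_lit 5) (nat_lit 368) (nat_lit 348) (nat_lit 64)) (XT.lf (nat_lit 0) (nat_lit 30422901852) (nat_lit 608) (nat_lit 15075250312) (nat_lit 684) (nat_lit 31206373664) (nat_lit 178) (nat_lit 5) (nat_lit 186) (nat_lit 5) (nat_lit 187) (nat_lit 5) (nat_lit 369) (nat_lit 348) (nat_lit 63))) (XT.nd (nat_lit 78) (nat_lit 532) (nat_lit 0) (XT.lf (nat_lit 0) (nat_lit 52893847004) (nat_lit 684) (nat_lit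 8570973663) (nat_lit 76) (nat_lit 16541079940) (nat_lit 178) (nat_lit 5) (nat_lit 187) (nat_lit 5) (nat_lit 179) (nat_lit 5) (nat_lit 370) (nat_lit 348) (nat_lit 62)) (XT.lf (nat_lit 0) (nat_lit 30720769514) (nat_lit 532) (nat_lit 30234751950) (nat_lit 608) (nat_lit 18377472336) (nat_lit 171) (nat_lit 5) (nat_lit 178) (nat_lit 5) (nat_lit 179) (nat_lit 5) (nat_lit 371) (nat_lit 348) (nat_lit 61))))))))
noncomputable def xc253 : XT := (XT.nd (nat_lit 79560) (nat_lit 0) (nat_lit 1140) (XT.nd (nat_lit 39702) (nat_lit 0) (nat_lit 608) (XT.nd (nat_lit 39156) (nat_lit 0) (nat_lit 3268) (XT.nd (nat_lit 38844) (nat_lit 0) (nat_lit 3192) (XT.nd (nat_lit 78) (nat_lit 608) (nat_lit 0) (XT.lf (nat_lit 0) (nat_lit 69364578115) (nat_lit 608) (nat_lit 9350221657) (nat_lit 76) (nat_lit 1981934480) (nat_lit 171) (nat_lit 5) (nat_lit 179) (nat_lit 5) (nat_lit 172) (nat_lit 5) (nat_lit 372) (nat_lit 348) (nat_lit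 60)) (XT.nd (nat_lit 78) (nat_lit 76) (nat_lit 0) (XT.lf (nat_lit 0) (nat_lit 31402629247) (nat_lit 532) (nat_lit 47224056875) (nat_lit 608) (nat_lit 3456677817) (nat_lit 164) (nat_lit 5) (nat_lit 171) (nat_lit 5) (nat_lit 172) (nat_lit 5) (nat_lit 373) (nat_lit 348) (nat_lit 59)) (XT.lf (nat_lit 0) (nat_lit 4659149828) (nat_lit 608) (nat_lit 9985146993) (nat_lit 76) (nat_lit 68863106002) (nat_lit 163) (nat_lit 5) (nat_lit 171) (nat_lit 5) (nat_lit 164) (nat_lit 5) (nat_lit 374) (nat_lit 348) (nat_lit 58)))) (XT.nd (nat_lit 156) (nat_lit 0) (nat_lit 0) (XT.nd (nat_lit 78) (nat_lit 0) (nat_lit 0) (XT.lf (nat_lit 0) (nat_lit 9829795359) (nat_lit 0) (nat_lit 9829795359) (nat_lit 1140) (nat_lit 8707179669) (nat_lit 205) (nat_lit 5) (nat_lit 205) (nat_lit 3) (nat_lit 220) (nat_lit 3) (nat_lit 349) (nat_lit 349) (nat_lit 82)) (XT.lf (nat_lit 0) (nat_lit 39991953536) (nat_lit 1140) (nat_lit 11112414279)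 (nat_lit 1216) (nat_lit 6477666391) (nat_lit 205) (nat_lit 5) (nat_lit 220) (nat_lit 3) (nat_lit 221) (nat_lit 5) (nat_lit 350) (nat_lit 349) (nat_lit 81))) (XT.nd (nat_lit 78) (nat_lit 0) (nat_lit 76) (XT.lf (nat_lit 76) (nat_lit 15740056016) (nat_lit 0) (nat_lit 25290048728) (nat_lit 1216) (nat_lit 17415522603) (nat_lit 206) (nat_lit 5) (nat_lit 205) (nat_lit 5) (nat_lit 221) (nat_lit 5) (nat_lit 351) (nat_lit 349) (nat_lit 80)) (XT.lf (nat_lit 0) (nat_lit 42224473874) (nat_lit 1140) (nat_lit 15719892248) (nat_lit 1216) (nat_lit 1387010722) (nat_lit 206) (nat_lit 5) (nat_lit 221) (nat_lit 5) (nat_lit 222) (nat_lit 5) (nat_lit 352) (nat_lit 349) (nat_lit 79))))) (XT.nd (nat_lit 234) (nat_lit 0) (nat_lit 76) (XT.nd (nat_lit 78) (nat_lit 0) (nat_lit 0) (XT.lf (nat_lit 76) (nat_lit 12059875329) (nat_lit 0) (nat_lit 31760408447) (nat_lit 1216) (nat_lit 16412447502) (nat_lit 207) (nat_lit 5) (nat_lit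 206) (nat_lit 5) (nat_lit 222) (nat_lit 5) (nat_lit 353) (nat_lit 349) (nat_lit 78)) (XT.nd (nat_lit 78) (nat_lit 0) (nat_lit 76) (XT.lf (nat_lit 76) (nat_lit 40994865443) (nat_lit 0) (nat_lit 4627145717) (nat_lit 1216) (nat_lit 15534374608) (nat_lit 207) (nat_lit 5) (nat_lit 206) (nat_lit 5) (nat_lit 222) (nat_lit 5) (nat_lit 354) (nat_lit 349) (nat_lit 77)) (XT.lf (nat_lit 76) (nat_lit 8634044976) (nat_lit 0) (nat_lit 39150234367) (nat_lit 1216) (nat_lit 14314276578) (nat_lit 208) (nat_lit 5) (nat_lit 207) (nat_lit 5) (nat_lit 223) (nat_lit 5) (nat_lit 355) (nat_lit 349) (nat_lit 76)))) (XT.nd (nat_lit 156) (nat_lit 0) (nat_lit 76) (XT.nd (nat_lit 78) (nat_lit 0) (nat_lit 76) (XT.lf (nat_lit 76) (nat_lit 38659623208) (nat_lit 0) (nat_lit 11600089996) (nat_lit 1216) (nat_lit 12801829726) (nat_lit 208) (nat_lit 5) (nat_lit 207) (nat_lit 5) (nat_lit 223) (nat_lit 5) (nat_lit 356) (nat_lit 349) (nat_lit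 75)) (XT.lf (nat_lit 76) (nat_lit 5477743042) (nat_lit 0) (nat_lit 47544952032) (nat_lit 1216) (nat_lit 11024326583) (nat_lit 209) (nat_lit 5) (nat_lit 208) (nat_lit 5) (nat_lit 224) (nat_lit 5) (nat_lit 357) (nat_lit 349) (nat_lit 74))) (XT.nd (nat_lit 78) (nat_lit 0) (nat_lit 76) (XT.lf (nat_lit 76) (nat_lit 36636447028) (nat_lit 0) (nat_lit 19591634777) (nat_lit 1216) (nat_lit 8823198118) (nat_lit 209) (nat_lit 5) (nat_lit 208) (nat_lit 5) (nat_lit 224) (nat_lit 5) (nat_lit 358) (nat_lit 349) (nat_lit 73)) (XT.lf (nat_lit 76) (nat_lit 2606230288) (nat_lit 0) (nat_lit 57036288725) (nat_lit 1216) (nat_lit 6439760879) (nat_lit 210) (nat_lit 5) (nat_lit 209) (nat_lit 5) (nat_lit 225) (nat_lit 5) (nat_lit 359) (nat_lit 349) (nat_lit 72)))))) (XT.nd (nat_lit 546) (nat_lit 1748) (nat_lit 0) (XT.nd (nat_lit 234) (nat_lit 0) (nat_lit 0) (XT.nd (nat_lit 78) (nat_lit 1140) (nat_lit 0) (XT.lf (nat_lit 76)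 (nat_lit 34942134633) (nat_lit 0) (nat_lit 28695674524) (nat_lit 1216) (nat_lit 3492048710) (nat_lit 210) (nat_lit 5) (nat_lit 209) (nat_lit 5) (nat_lit 225) (nat_lit 5) (nat_lit 360) (nat_lit 349) (nat_lit 71)) (XT.nd (nat_lit 78) (nat_lit 1216) (nat_lit 0) (XT.lf (nat_lit 76) (nat_lit 34734392) (nat_lit 0) (nat_lit 67722746785) (nat_lit 1216) (nat_lit 451246895) (nat_lit 211) (nat_lit 5) (nat_lit 210) (nat_lit 5) (nat_lit 226) (nat_lit 5) (nat_lit 361) (nat_lit 349) (nat_lit 70)) (XT.lf (nat_lit 0) (nat_lit 3240269845) (nat_lit 1216) (nat_lit 35740077967) (nat_lit 1292) (nat_lit 30320489969) (nat_lit 194) (nat_lit 5) (nat_lit 210) (nat_lit 5) (nat_lit 211) (nat_lit 5) (nat_lit 362) (nat_lit 349) (nat_lit 69)))) (XT.nd (nat_lit 156) (nat_lit 0) (nat_lit 76) (XT.nd (nat_lit 78) (nat_lit 0) (nat_lit 76) (XT.lf (nat_lit 0) (nat_lit 7032914801) (nat_lit 1216) (nat_lit 2338043701) (nat_lit 1292) (nat_lit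 61054635210) (nat_lit 194) (nat_lit 5) (nat_lit 210) (nat_lit 5) (nat_lit 211) (nat_lit 5) (nat_lit 363) (nat_lit 349) (nat_lit 68)) (XT.lf (nat_lit 0) (nat_lit 11459372873) (nat_lit 1216) (nat_lit 39077072270) (nat_lit 1292) (nat_lit 21032046686) (nat_lit 195) (nat_lit 5) (nat_lit 211) (nat_lit 5) (nat_lit 212) (nat_lit 5) (nat_lit 364) (nat_lit 349) (nat_lit 67))) (XT.nd (nat_lit 78) (nat_lit 0) (nat_lit 76) (XT.lf (nat_lit 0) (nat_lit 16134730669) (nat_lit 1216) (nat_lit 4424721400) (nat_lit 1292) (nat_lit 52182742145) (nat_lit 195) (nat_lit 5) (nat_lit 211) (nat_lit 5) (nat_lit 212) (nat_lit 5) (nat_lit 365) (nat_lit 349) (nat_lit 66)) (XT.lf (nat_lit 0) (nat_lit 21358589908) (nat_lit 1216) (nat_lit 42155083671) (nat_lit 76) (nat_lit 10425187360) (nat_lit 196) (nat_lit 5) (nat_lit 212) (nat_lit 5) (nat_lit 197) (nat_lit 5) (nat_lit 366) (nat_lit 349) (nat_lit 65))))) (XT.nd (nat_lit 234) (nat_lit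 1140) (nat_lit 0) (XT.nd (nat_lit 78) (nat_lit 760) (nat_lit 0) (XT.lf (nat_lit 0) (nat_lit 26987354621) (nat_lit 1216) (nat_lit 6205286155) (nat_lit 76) (nat_lit 41971341676) (nat_lit 196) (nat_lit 5) (nat_lit 212) (nat_lit 5) (nat_lit 197) (nat_lit 5) (nat_lit 367) (nat_lit 349) (nat_lit 64)) (XT.nd (nat_lit 78) (nat_lit 0) (nat_lit 0) (XT.lf (nat_lit 0) (nat_lit 31436016806) (nat_lit 760) (nat_lit 1650669411) (nat_lit 836) (nat_lit 43330120736) (nat_lit 186) (nat_lit 5) (nat_lit 196) (nat_lit 5) (nat_lit 197) (nat_lit 5) (nat_lit 368) (nat_lit 349) (nat_lit 63)) (XT.lf (nat_lit 0) (nat_lit 39728241079) (nat_lit 836) (nat_lit 7669054437) (nat_lit 76) (nat_lit 30299143821) (nat_lit 186) (nat_lit 5) (nat_lit 197) (nat_lit 5) (nat_lit 187) (nat_lit 5) (nat_lit 369) (nat_lit 349) (nat_lit 62)))) (XT.nd (nat_lit 156) (nat_lit 532) (nat_lit 0) (XT.nd (nat_lit 78) (nat_lit 0) (nat_lit 0) (XT.lf (nat_lit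 0) (nat_lit 31357164496) (nat_lit 608) (nat_lit 15529191411) (nat_lit 684) (nat_lit 32118585823) (nat_lit 178) (nat_lit 5) (nat_lit 186) (nat_lit 5) (nat_lit 187) (nat_lit 5) (nat_lit 370) (nat_lit 349) (nat_lit 61)) (XT.lf (nat_lit 0) (nat_lit 54503228427) (nat_lit 684) (nat_lit 8806441081) (nat_lit 76) (nat_lit 17035709682) (nat_lit 178) (nat_lit 5) (nat_lit 187) (nat_lit 5) (nat_lit 179) (nat_lit 5) (nat_lit 371) (nat_lit 349) (nat_lit 60))) (XT.nd (nat_lit 78) (nat_lit 0) (nat_lit 0) (XT.lf (nat_lit 0) (nat_lit 31663842021) (nat_lit 532) (nat_lit 31142460023) (nat_lit 608) (nat_lit 18905997292) (nat_lit 171) (nat_lit 5) (nat_lit 178) (nat_lit 5) (nat_lit 179) (nat_lit 5) (nat_lit 372) (nat_lit 349) (nat_lit 59)) (XT.lf (nat_lit 0) (nat_lit 71466980059) (nat_lit 608) (nat_lit 9609233068) (nat_lit 76) (nat_lit 2040758992) (nat_lit 171) (nat_lit 5) (nat_lit 179) (nat_lit 5) (nat_lit 172) (nat_lit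 5) (nat_lit 373) (nat_lit 349) (nat_lit 58))))))) (XT.nd (nat_lit 1092) (nat_lit 1216) (nat_lit 0) (XT.nd (nat_lit 546) (nat_lit 836) (nat_lit 0) (XT.nd (nat_lit 234) (nat_lit 0) (nat_lit 76) (XT.nd (nat_lit 78) (nat_lit 0) (nat_lit 0) (XT.lf (nat_lit 0) (nat_lit 10134334525) (nat_lit 0) (nat_lit 10134334525) (nat_lit 1140) (nat_lit 8948505775) (nat_lit 205) (nat_lit 5) (nat_lit 205) (nat_lit 3) (nat_lit 220) (nat_lit 3) (nat_lit 350) (nat_lit 350) (nat_lit 80)) (XT.nd (nat_lit 78) (nat_lit 0) (nat_lit 0) (XT.lf (nat_lit 0) (nat_lit 41228989604) (nat_lit 1140) (nat_lit 11425715453) (nat_lit 1216) (nat_lit 6653633101) (nat_lit 205) (nat_lit 5) (nat_lit 220) (nat_lit 3) (nat_lit 221) (nat_lit 5) (nat_lit 351) (nat_lit 350) (nat_lit 79)) (XT.lf (nat_lit 76) (nat_lit 16232132174) (nat_lit 0) (nat_lit 26065258469) (nat_lit 1216) (nat_lit 17900476421) (nat_lit 206) (nat_lit 5) (nat_lit 205) (nat_lit 5)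 (nat_lit 221) (nat_lit 5) (nat_lit 352) (nat_lit 350) (nat_lit 78)))) (XT.nd (nat_lit 156) (nat_lit 0) (nat_lit 0) (XT.nd (nat_lit 78) (nat_lit 0) (nat_lit 0) (XT.lf (nat_lit 0) (nat_lit 43526377090) (nat_lit 1140) (nat_lit 16170943124) (nat_lit 1216) (nat_lit 1412906341) (nat_lit 206) (nat_lit 5) (nat_lit 221) (nat_lit 5) (nat_lit 222) (nat_lit 5) (nat_lit 353) (nat_lit 350) (nat_lit 77)) (XT.lf (nat_lit 76) (nat_lit 12442016051) (nat_lit 0) (nat_lit 32727216461) (nat_lit 1216) (nat_lit 16869415036) (nat_lit 207) (nat_lit 5) (nat_lit 206) (nat_lit 5) (nat_lit 222) (nat_lit 5) (nat_lit 354) (nat_lit 350) (nat_lit 76))) (XT.nd (nat_lit 78) (nat_lit 0) (nat_lit 76) (XT.lf (nat_lit 76) (nat_lit 42244463310) (nat_lit 0) (nat_lit 4779548207) (nat_lit 1216) (nat_lit 15966031195) (nat_lit 207) (nat_lit 5) (nat_lit 206) (nat_lit 5) (nat_lit 222) (nat_lit 5) (nat_lit 355) (nat_lit 350) (nat_lit 75)) (XT.lf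 (nat_lit 76) (nat_lit 8913778407) (nat_lit 0) (nat_lit 40336470555) (nat_lit 1216) (nat_lit 14710256975) (nat_lit 208) (nat_lit 5) (nat_lit 207) (nat_lit 5) (nat_lit 223) (nat_lit 5) (nat_lit 356) (nat_lit 350) (nat_lit 74))))) (XT.nd (nat_lit 234) (nat_lit 988) (nat_lit 0) (XT.nd (nat_lit 78) (nat_lit 0) (nat_lit 76) (XT.lf (nat_lit 76) (nat_lit 39839520720) (nat_lit 0) (nat_lit 11959480227) (nat_lit 1216) (nat_lit 13153410928) (nat_lit 208) (nat_lit 5) (nat_lit 207) (nat_lit 5) (nat_lit 223) (nat_lit 5) (nat_lit 357) (nat_lit 350) (nat_lit 73)) (XT.nd (nat_lit 78) (nat_lit 0) (nat_lit 0) (XT.lf (nat_lit 76) (nat_lit 5663063156) (nat_lit 0) (nat_lit 48980987221) (nat_lit 1216) (nat_lit 11323430190) (nat_lit 209) (nat_lit 5) (nat_lit 208) (nat_lit 5) (nat_lit 224) (nat_lit 5) (nat_lit 358) (nat_lit 350) (nat_lit 72)) (XT.lf (nat_lit 76) (nat_lit 37755916966) (nat_lit 0) (nat_lit 20188788312) (nat_lit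 1216) (nat_lit 9057189022) (nat_lit 209) (nat_lit 5) (nat_lit 208) (nat_lit 5) (nat_lit 224) (nat_lit 5) (nat_lit 359) (nat_lit 350) (nat_lit 71)))) (XT.nd (nat_lit 156) (nat_lit 1140) (nat_lit 0) (XT.nd (nat_lit 78) (nat_lit 0) (nat_lit 0) (XT.lf (nat_lit 76) (nat_lit 2705598430) (nat_lit 0) (nat_lit 58755225603) (nat_lit 1216) (nat_lit 6603023674) (nat_lit 210) (nat_lit 5) (nat_lit 209) (nat_lit 5) (nat_lit 225) (nat_lit 5) (nat_lit 360) (nat_lit 350) (nat_lit 70)) (XT.lf (nat_lit 76) (nat_lit 36010962977) (nat_lit 0) (nat_lit 29564164387) (nat_lit 1216) (nat_lit 3567751888) (nat_lit 210) (nat_lit 5) (nat_lit 209) (nat_lit 5) (nat_lit 225) (nat_lit 5) (nat_lit 361) (nat_lit 350) (nat_lit 69))) (XT.nd (nat_lit 78) (nat_lit 1216) (nat_lit 0) (XT.lf (nat_lit 76) (nat_lit 57077423) (nat_lit 0) (nat_lit 69760624877) (nat_lit 1216) (nat_lit 436434720) (nat_lit 211) (nat_lit 5) (nat_lit 210) (nat_lit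 5) (nat_lit 226) (nat_lit 5) (nat_lit 362) (nat_lit 350) (nat_lit 68)) (XT.lf (nat_lit 0) (nat_lit 3364464717) (nat_lit 1216) (nat_lit 36791036247) (nat_lit 1292) (nat_lit 31223525960) (nat_lit 194) (nat_lit 5) (nat_lit 210) (nat_lit 5) (nat_lit 211) (nat_lit 5) (nat_lit 363) (nat_lit 350) (nat_lit 67)))))) (XT.nd (nat_lit 546) (nat_lit 608) (nat_lit 0) (XT.nd (nat_lit 234) (nat_lit 608) (nat_lit 0) (XT.nd (nat_lit 78) (nat_lit 0) (nat_lit 76) (XT.lf (nat_lit 0) (nat_lit 7270102999) (nat_lit 1216) (nat_lit 2387559712) (nat_lit 1292) (nat_lit 62879887172) (nat_lit 194) (nat_lit 5) (nat_lit 210) (nat_lit 5) (nat_lit 211) (nat_lit 5) (nat_lit 364) (nat_lit 350) (nat_lit 66)) (XT.nd (nat_lit 78) (nat_lit 0) (nat_lit 0) (XT.lf (nat_lit 0) (nat_lit 11828737913) (nat_lit 1216) (nat_lit 40228117367) (nat_lit 1292) (nat_lit 21657898916) (nat_lit 195) (nat_lit 5) (nat_lit 211) (nat_lit 5) (nat_lit 212) (nat_lit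 5) (nat_lit 365) (nat_lit 350) (nat_lit 65)) (XT.lf (nat_lit 0) (nat_lit 16643611282) (nat_lit 1216) (nat_lit 4536815400) (nat_lit 1292) (nat_lit 53743264050) (nat_lit 195) (nat_lit 5) (nat_lit 211) (nat_lit 5) (nat_lit 212) (nat_lit 5) (nat_lit 366) (nat_lit 350) (nat_lit 64)))) (XT.nd (nat_lit 156) (nat_lit 760) (nat_lit 0) (XT.nd (nat_lit 78) (nat_lit 0) (nat_lit 0) (XT.lf (nat_lit 0) (nat_lit 22023622205) (nat_lit 1216) (nat_lit 43398501003) (nat_lit 76) (nat_lit 10734151877) (nat_lit 196) (nat_lit 5) (nat_lit 212) (nat_lit 5) (nat_lit 197) (nat_lit 5) (nat_lit 367) (nat_lit 350) (nat_lit 63)) (XT.lf (nat_lit 0) (nat_lit 27820542832) (nat_lit 1216) (nat_lit 6370828061) (nat_lit 76) (nat_lit 43226801243) (nat_lit 196) (nat_lit 5) (nat_lit 212) (nat_lit 5) (nat_lit 197) (nat_lit 5) (nat_lit 368) (nat_lit 350) (nat_lit 62))) (XT.nd (nat_lit 78) (nat_lit 0) (nat_lit 0) (XT.lf (nat_lit 0) (nat_lit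 32399511864) (nat_lit 760) (nat_lit 1702852315) (nat_lit 836) (nat_lit 44606232562) (nat_lit 186) (nat_lit 5) (nat_lit 196) (nat_lit 5) (nat_lit 197) (nat_lit 5) (nat_lit 369) (nat_lit 350) (nat_lit 61)) (XT.lf (nat_lit 0) (nat_lit 40942468680) (nat_lit 836) (nat_lit 7878587653) (nat_lit 76) (nat_lit 31205583319) (nat_lit 186) (nat_lit 5) (nat_lit 197) (nat_lit 5) (nat_lit 187) (nat_lit 5) (nat_lit 370) (nat_lit 350) (nat_lit 60))))) (XT.nd (nat_lit 39234) (nat_lit 0) (nat_lit 2052) (XT.nd (nat_lit 39078) (nat_lit 0) (nat_lit 2052) (XT.nd (nat_lit 78) (nat_lit 0) (nat_lit 0) (XT.lf (nat_lit 0) (nat_lit 32318216492) (nat_lit 608) (nat_lit 15996654098) (nat_lit 684) (nat_lit 33059540842) (nat_lit 178) (nat_lit 5) (nat_lit 186) (nat_lit 5) (nat_lit 187) (nat_lit 5) (nat_lit 371) (nat_lit 350) (nat_lit 59)) (XT.lf (nat_lit 0) (nat_lit 56159595912) (nat_lit 684) (nat_lit 9050215997) (nat_lit 76) (nat_lit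 17545270314) (nat_lit 178) (nat_lit 5) (nat_lit 187) (nat_lit 5) (nat_lit 179) (nat_lit 5) (nat_lit 372) (nat_lit 350) (nat_lit 58))) (XT.nd (nat_lit 78) (nat_lit 0) (nat_lit 0) (XT.lf (nat_lit 0) (nat_lit 10447456186) (nat_lit 0) (nat_lit 10447456186) (nat_lit 1140) (nat_lit 9198213390) (nat_lit 205) (nat_lit 5) (nat_lit 205) (nat_lit 3) (nat_lit 220) (nat_lit 3) (nat_lit 351) (nat_lit 351) (nat_lit 78)) (XT.lf (nat_lit 0) (nat_lit 42500996876) (nat_lit 1140) (nat_lit 11749567835) (nat_lit 1216) (nat_lit 6835932939) (nat_lit 205) (nat_lit 5) (nat_lit 220) (nat_lit 3) (nat_lit 221) (nat_lit 5) (nat_lit 352) (nat_lit 351) (nat_lit 77)))) (XT.nd (nat_lit 156) (nat_lit 0) (nat_lit 76) (XT.nd (nat_lit 78) (nat_lit 0) (nat_lit 76) (XT.lf (nat_lit 76) (nat_lit 16737829740) (nat_lit 0) (nat_lit 26862776860) (nat_lit 1216) (nat_lit 18402132187) (nat_lit 206) (nat_lit 5) (nat_lit 205) (nat_lit 5) (nat_lit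 221) (nat_lit 5) (nat_lit 353) (nat_lit 351) (nat_lit 76)) (XT.lf (nat_lit 0) (nat_lit 44865318557) (nat_lit 1140) (nat_lit 16636704944) (nat_lit 1216) (nat_lit 1440480917) (nat_lit 206) (nat_lit 5) (nat_lit 221) (nat_lit 5) (nat_lit 222) (nat_lit 5) (nat_lit 354) (nat_lit 351) (nat_lit 75))) (XT.nd (nat_lit 78) (nat_lit 0) (nat_lit 0) (XT.lf (nat_lit 76) (nat_lit 12834453139) (nat_lit 0) (nat_lit 33722225302) (nat_lit 1216) (nat_lit 17342124039) (nat_lit 207) (nat_lit 5) (nat_lit 206) (nat_lit 5) (nat_lit 222) (nat_lit 5) (nat_lit 355) (nat_lit 351) (nat_lit 74)) (XT.lf (nat_lit 76) (nat_lit 43530415274) (nat_lit 0) (nat_lit 4935742757) (nat_lit 1216) (nat_lit 16412610724) (nat_lit 207) (nat_lit 5) (nat_lit 206) (nat_lit 5) (nat_lit 222) (nat_lit 5) (nat_lit 356) (nat_lit 351) (nat_lit 73))))))))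
noncomputable def xc254 : XT := (XT.nd (nat_lit 41262) (nat_lit 0) (nat_lit 608) (XT.nd (nat_lit 1092) (nat_lit 0) (nat_lit 0) (XT.nd (nat_lit 546) (nat_lit 1596) (nat_lit 0) (XT.nd (nat_lit 234) (nat_lit 0) (nat_lit 76) (XT.nd (nat_lit 78) (nat_lit 0) (nat_lit 0) (XT.lf (nat_lit 76) (nat_lit 9200714882) (nat_lit 0) (nat_lit 41557620527) (nat_lit 1216) (nat_lit 15120036829) (nat_lit 208) (nat_lit 5) (nat_lit 207) (nat_lit 5) (nat_lit 223) (nat_lit 5) (nat_lit 357) (nat_lit 351) (nat_lit 72)) (XT.nd (nat_lit 78) (nat_lit 0) (nat_lit 76) (XT.lf (nat_lit 76) (nat_lit 41053660830) (nat_lit 0) (nat_lit 12328998474) (nat_lit 1216) (nat_lit 13517403688) (nat_lit 208) (nat_lit 5) (nat_lit 207) (nat_lit 5) (nat_lit 223) (nat_lit 5) (nat_lit 358) (nat_lit 351) (nat_lit 71)) (XT.lf (nat_lit 76) (nat_lit 5852738087) (nat_lit 0) (nat_lit 50459547413) (nat_lit 1216) (nat_lit 11633322377) (nat_lit 209) (nat_lit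 5) (nat_lit 208) (nat_lit 5) (nat_lit 224) (nat_lit 5) (nat_lit 359) (nat_lit 351) (nat_lit 70)))) (XT.nd (nat_lit 156) (nat_lit 0) (nat_lit 76) (XT.nd (nat_lit 78) (nat_lit 0) (nat_lit 76) (XT.lf (nat_lit 76) (nat_lit 38907801306) (nat_lit 0) (nat_lit 20803316598) (nat_lit 1216) (nat_lit 9299962248) (nat_lit 209) (nat_lit 5) (nat_lit 208) (nat_lit 5) (nat_lit 224) (nat_lit 5) (nat_lit 360) (nat_lit 351) (nat_lit 69)) (XT.lf (nat_lit 76) (nat_lit 2806731727) (nat_lit 0) (nat_lit 60525280067) (nat_lit 1216) (nat_lit 6772902459) (nat_lit 210) (nat_lit 5) (nat_lit 209) (nat_lit 5) (nat_lit 225) (nat_lit 5) (nat_lit 361) (nat_lit 351) (nat_lit 68))) (XT.nd (nat_lit 78) (nat_lit 0) (nat_lit 76) (XT.lf (nat_lit 76) (nat_lit 37110675696) (nat_lit 0) (nat_lit 30458271548) (nat_lit 1216) (nat_lit 3647394226) (nat_lit 210) (nat_lit 5) (nat_lit 209) (nat_lit 5) (nat_lit 225) (nat_lit 5) (nat_lit 362) (nat_lit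 351) (nat_lit 67)) (XT.lf (nat_lit 76) (nat_lit 78867981) (nat_lit 0) (nat_lit 71859283654) (nat_lit 1216) (nat_lit 422805562) (nat_lit 211) (nat_lit 5) (nat_lit 210) (nat_lit 5) (nat_lit 226) (nat_lit 5) (nat_lit 363) (nat_lit 351) (nat_lit 66))))) (XT.nd (nat_lit 234) (nat_lit 608) (nat_lit 0) (XT.nd (nat_lit 78) (nat_lit 0) (nat_lit 0) (XT.lf (nat_lit 0) (nat_lit 3490836283) (nat_lit 1216) (nat_lit 37874742772) (nat_lit 1292) (nat_lit 32154030676) (nat_lit 194) (nat_lit 5) (nat_lit 210) (nat_lit 5) (nat_lit 211) (nat_lit 5) (nat_lit 364) (nat_lit 351) (nat_lit 65)) (XT.nd (nat_lit 78) (nat_lit 0) (nat_lit 76) (XT.lf (nat_lit 0) (nat_lit 7512902812) (nat_lit 1216) (nat_lit 2439745181) (nat_lit 1292) (nat_lit 64760263338) (nat_lit 194) (nat_lit 5) (nat_lit 210) (nat_lit 5) (nat_lit 211) (nat_lit 5) (nat_lit 365) (nat_lit 351) (nat_lit 64)) (XT.lf (nat_lit 0) (nat_lit 12207715287) (nat_lit 1216)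 (nat_lit 41414914634) (nat_lit 1292) (nat_lit 22302820000) (nat_lit 195) (nat_lit 5) (nat_lit 211) (nat_lit 5) (nat_lit 212) (nat_lit 5) (nat_lit 366) (nat_lit 351) (nat_lit 63)))) (XT.nd (nat_lit 156) (nat_lit 684) (nat_lit 0) (XT.nd (nat_lit 78) (nat_lit 0) (nat_lit 76) (XT.lf (nat_lit 0) (nat_lit 17166332472) (nat_lit 1216) (nat_lit 4653457479) (nat_lit 1292) (nat_lit 55350886356) (nat_lit 195) (nat_lit 5) (nat_lit 211) (nat_lit 5) (nat_lit 212) (nat_lit 5) (nat_lit 367) (nat_lit 351) (nat_lit 62)) (XT.lf (nat_lit 0) (nat_lit 22707212011) (nat_lit 1216) (nat_lit 44680439840) (nat_lit 76) (nat_lit 11052602954) (nat_lit 196) (nat_lit 5) (nat_lit 212) (nat_lit 5) (nat_lit 197) (nat_lit 5) (nat_lit 368) (nat_lit 351) (nat_lit 61))) (XT.nd (nat_lit 78) (nat_lit 760) (nat_lit 0) (XT.lf (nat_lit 0) (nat_lit 28677373816) (nat_lit 1216) (nat_lit 6542519706) (nat_lit 76) (nat_lit 44520135883) (nat_lit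 196) (nat_lit 5) (nat_lit 212) (nat_lit 5) (nat_lit 197) (nat_lit 5) (nat_lit 369) (nat_lit 351) (nat_lit 60)) (XT.lf (nat_lit 0) (nat_lit 33390739895) (nat_lit 760) (nat_lit 1756447850) (nat_lit 836) (nat_lit 45921993490) (nat_lit 186) (nat_lit 5) (nat_lit 196) (nat_lit 5) (nat_lit 197) (nat_lit 5) (nat_lit 370) (nat_lit 351) (nat_lit 59)))))) (XT.nd (nat_lit 39624) (nat_lit 0) (nat_lit 1596) (XT.nd (nat_lit 39312) (nat_lit 0) (nat_lit 1444) (XT.nd (nat_lit 39156) (nat_lit 0) (nat_lit 1444) (XT.lf (nat_lit 0) (nat_lit 42191838384) (nat_lit 836) (nat_lit 8095585853) (nat_lit 76) (nat_lit 32139361511) (nat_lit 186) (nat_lit 5) (nat_lit 197) (nat_lit 5) (nat_lit 187) (nat_lit 5) (nat_lit 371) (nat_lit 351) (nat_lit 58)) (XT.nd (nat_lit 78) (nat_lit 0) (nat_lit 0) (XT.lf (nat_lit 0) (nat_lit 10769449600) (nat_lit 0) (nat_lit 10769449600) (nat_lit 1140) (nat_lit 9456488420) (nat_lit 205) (nat_lit 5)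 (nat_lit 205) (nat_lit 3) (nat_lit 220) (nat_lit 3) (nat_lit 352) (nat_lit 352) (nat_lit 76)) (XT.lf (nat_lit 0) (nat_lit 43809147326) (nat_lit 1140) (nat_lit 12084221820) (nat_lit 1216) (nat_lit 7024695389) (nat_lit 205) (nat_lit 5) (nat_lit 220) (nat_lit 3) (nat_lit 221) (nat_lit 5) (nat_lit 353) (nat_lit 352) (nat_lit 75)))) (XT.nd (nat_lit 156) (nat_lit 0) (nat_lit 76) (XT.nd (nat_lit 78) (nat_lit 0) (nat_lit 76) (XT.lf (nat_lit 76) (nat_lit 17257622848) (nat_lit 0) (nat_lit 27683327559) (nat_lit 1216) (nat_lit 18920867350) (nat_lit 206) (nat_lit 5) (nat_lit 205) (nat_lit 5) (nat_lit 221) (nat_lit 5) (nat_lit 354) (nat_lit 352) (nat_lit 74)) (XT.lf (nat_lit 0) (nat_lit 46242525315) (nat_lit 1140) (nat_lit 17117551333) (nat_lit 1216) (nat_lit 1469733035) (nat_lit 206) (nat_lit 5) (nat_lit 221) (nat_lit 5) (nat_lit 222) (nat_lit 5) (nat_lit 355) (nat_lit 352) (nat_lit 73))) (XT.nd (nat_lit 78)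 (nat_lit 0) (nat_lit 0) (XT.lf (nat_lit 76) (nat_lit 13237562524) (nat_lit 0) (nat_lit 34746327114) (nat_lit 1216) (nat_lit 17830930084) (nat_lit 207) (nat_lit 5) (nat_lit 206) (nat_lit 5) (nat_lit 222) (nat_lit 5) (nat_lit 356) (nat_lit 352) (nat_lit 72)) (XT.lf (nat_lit 76) (nat_lit 44853877044) (nat_lit 0) (nat_lit 5095887906) (nat_lit 1216) (nat_lit 16874447613) (nat_lit 207) (nat_lit 5) (nat_lit 206) (nat_lit 5) (nat_lit 222) (nat_lit 5) (nat_lit 357) (nat_lit 352) (nat_lit 71))))) (XT.nd (nat_lit 234) (nat_lit 0) (nat_lit 76) (XT.nd (nat_lit 78) (nat_lit 0) (nat_lit 0) (XT.lf (nat_lit 76) (nat_lit 9495138744) (nat_lit 0) (nat_lit 42814770347) (nat_lit 1216) (nat_lit 15543919908) (nat_lit 208) (nat_lit 5) (nat_lit 207) (nat_lit 5) (nat_lit 223) (nat_lit 5) (nat_lit 358) (nat_lit 352) (nat_lit 70)) (XT.nd (nat_lit 78) (nat_lit 0) (nat_lit 76) (XT.lf (nat_lit 76) (nat_lit 42303137078) (nat_lit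 0) (nat_lit 12708986102) (nat_lit 1216) (nat_lit 13894073345) (nat_lit 208) (nat_lit 5) (nat_lit 207) (nat_lit 5) (nat_lit 223) (nat_lit 5) (nat_lit 359) (nat_lit 352) (nat_lit 69)) (XT.lf (nat_lit 76) (nat_lit 6046967638) (nat_lit 0) (nat_lit 51981940278) (nat_lit 1216) (nat_lit 11954222587) (nat_lit 209) (nat_lit 5) (nat_lit 208) (nat_lit 5) (nat_lit 224) (nat_lit 5) (nat_lit 360) (nat_lit 352) (nat_lit 68)))) (XT.nd (nat_lit 156) (nat_lit 0) (nat_lit 76) (XT.nd (nat_lit 78) (nat_lit 0) (nat_lit 76) (XT.lf (nat_lit 76) (nat_lit 40093139626) (nat_lit 0) (nat_lit 21435771866) (nat_lit 1216) (nat_lit 9551680085) (nat_lit 209) (nat_lit 5) (nat_lit 208) (nat_lit 5) (nat_lit 224) (nat_lit 5) (nat_lit 361) (nat_lit 352) (nat_lit 67)) (XT.lf (nat_lit 76) (nat_lit 2909752931) (nat_lit 0) (nat_lit 62348011507) (nat_lit 1216) (nat_lit 6949497087) (nat_lit 210) (nat_lit 5) (nat_lit 209) (nat_lit 5) (nat_lit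 225) (nat_lit 5) (nat_lit 362) (nat_lit 352) (nat_lit 66))) (XT.nd (nat_lit 78) (nat_lit 0) (nat_lit 76) (XT.lf (nat_lit 76) (nat_lit 38242267085) (nat_lit 0) (nat_lit 31378789635) (nat_lit 1216) (nat_lit 3730998144) (nat_lit 210) (nat_lit 5) (nat_lit 209) (nat_lit 5) (nat_lit 225) (nat_lit 5) (nat_lit 363) (nat_lit 352) (nat_lit 65)) (XT.lf (nat_lit 76) (nat_lit 100159682) (nat_lit 0) (nat_lit 74020566952) (nat_lit 1216) (nat_lit 410301492) (nat_lit 211) (nat_lit 5) (nat_lit 210) (nat_lit 5) (nat_lit 226) (nat_lit 5) (nat_lit 364) (nat_lit 352) (nat_lit 64))))))) (XT.nd (nat_lit 40326) (nat_lit 0) (nat_lit 0) (XT.nd (nat_lit 39780) (nat_lit 0) (nat_lit 836) (XT.nd (nat_lit 234) (nat_lit 0) (nat_lit 76) (XT.nd (nat_lit 78) (nat_lit 0) (nat_lit 0) (XT.lf (nat_lit 0) (nat_lit 3619538773) (nat_lit 1216) (nat_lit 38992109984) (nat_lit 1292) (nat_lit 33112806500) (nat_lit 194) (nat_lit 5) (nat_lit 210)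 (nat_lit 5) (nat_lit 211) (nat_lit 5) (nat_lit 365) (nat_lit 352) (nat_lit 63)) (XT.nd (nat_lit 78) (nat_lit 0) (nat_lit 76) (XT.lf (nat_lit 0) (nat_lit 7761568927) (nat_lit 1216) (nat_lit 2494612224) (nat_lit 1292) (nat_lit 66697396387) (nat_lit 194) (nat_lit 5) (nat_lit 210) (nat_lit 5) (nat_lit 211) (nat_lit 5) (nat_lit 366) (nat_lit 352) (nat_lit 62)) (XT.lf (nat_lit 0) (nat_lit 12596677669) (nat_lit 1216) (nat_lit 42638466556) (nat_lit 1292) (nat_lit 22967365168) (nat_lit 195) (nat_lit 5) (nat_lit 211) (nat_lit 5) (nat_lit 212) (nat_lit 5) (nat_lit 367) (nat_lit 352) (nat_lit 61)))) (XT.nd (nat_lit 156) (nat_lit 0) (nat_lit 76) (XT.nd (nat_lit 78) (nat_lit 0) (nat_lit 76) (XT.lf (nat_lit 0) (nat_lit 17703391303) (nat_lit 1216) (nat_lit 4774716042) (nat_lit 1292) (nat_lit 57007005731) (nat_lit 195) (nat_lit 5) (nat_lit 211) (nat_lit 5) (nat_lit 212) (nat_lit 5) (nat_lit 368) (nat_lit 352) (nat_lit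 60)) (XT.lf (nat_lit 0) (nat_lit 23409996039) (nat_lit 1216) (nat_lit 46001985854) (nat_lit 76) (nat_lit 11380812696) (nat_lit 196) (nat_lit 5) (nat_lit 212) (nat_lit 5) (nat_lit 197) (nat_lit 5) (nat_lit 369) (nat_lit 352) (nat_lit 59))) (XT.nd (nat_lit 39312) (nat_lit 0) (nat_lit 684) (XT.lf (nat_lit 0) (nat_lit 29558634514) (nat_lit 1216) (nat_lit 6720477645) (nat_lit 76) (nat_lit 45852469720) (nat_lit 196) (nat_lit 5) (nat_lit 212) (nat_lit 5) (nat_lit 197) (nat_lit 5) (nat_lit 370) (nat_lit 352) (nat_lit 58)) (XT.lf (nat_lit 0) (nat_lit 11100610879) (nat_lit 0) (nat_lit 11100610879) (nat_lit 1140) (nat_lit 9723526110) (nat_lit 205) (nat_lit 5) (nat_lit 205) (nat_lit 3) (nat_lit 220) (nat_lit 3) (nat_lit 353) (nat_lit 353) (nat_lit 74))))) (XT.nd (nat_lit 234) (nat_lit 0) (nat_lit 76) (XT.nd (nat_lit 78) (nat_lit 0) (nat_lit 0) (XT.lf (nat_lit 0) (nat_lit 45154641034) (nat_lit 1140) (nat_lit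 12429939116) (nat_lit 1216) (nat_lit 7220057291) (nat_lit 205) (nat_lit 5) (nat_lit 220) (nat_lit 3) (nat_lit 221) (nat_lit 5) (nat_lit 354) (nat_lit 353) (nat_lit 73)) (XT.nd (nat_lit 78) (nat_lit 0) (nat_lit 76) (XT.lf (nat_lit 76) (nat_lit 17791996095) (nat_lit 0) (nat_lit 28527652810) (nat_lit 1216) (nat_lit 19457077778) (nat_lit 206) (nat_lit 5) (nat_lit 205) (nat_lit 5) (nat_lit 221) (nat_lit 5) (nat_lit 355) (nat_lit 353) (nat_lit 72)) (XT.lf (nat_lit 0) (nat_lit 47659254557) (nat_lit 1140) (nat_lit 17613871012) (nat_lit 1216) (nat_lit 1500664210) (nat_lit 206) (nat_lit 5) (nat_lit 221) (nat_lit 5) (nat_lit 222) (nat_lit 5) (nat_lit 356) (nat_lit 353) (nat_lit 71)))) (XT.nd (nat_lit 156) (nat_lit 0) (nat_lit 76) (XT.nd (nat_lit 78) (nat_lit 0) (nat_lit 0) (XT.lf (nat_lit 76) (nat_lit 13651727566) (nat_lit 0) (nat_lit 35800438157) (nat_lit 1216) (nat_lit 18336206110) (nat_lit 207) (nat_lit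 5) (nat_lit 206) (nat_lit 5) (nat_lit 222) (nat_lit 5) (nat_lit 357) (nat_lit 353) (nat_lit 70)) (XT.lf (nat_lit 76) (nat_lit 46216035264) (nat_lit 0) (nat_lit 5260144378) (nat_lit 1216) (nat_lit 17351892812) (nat_lit 207) (nat_lit 5) (nat_lit 206) (nat_lit 5) (nat_lit 222) (nat_lit 5) (nat_lit 358) (nat_lit 353) (nat_lit 69))) (XT.nd (nat_lit 78) (nat_lit 0) (nat_lit 0) (XT.lf (nat_lit 76) (nat_lit 9797338948) (nat_lit 0) (nat_lit 44109036441) (nat_lit 1216) (nat_lit 15982225414) (nat_lit 208) (nat_lit 5) (nat_lit 207) (nat_lit 5) (nat_lit 223) (nat_lit 5) (nat_lit 359) (nat_lit 353) (nat_lit 68)) (XT.lf (nat_lit 76) (nat_lit 43589072008) (nat_lit 0) (nat_lit 13099792563) (nat_lit 1216) (nat_lit 14283699342) (nat_lit 208) (nat_lit 5) (nat_lit 207) (nat_lit 5) (nat_lit 223) (nat_lit 5) (nat_lit 360) (nat_lit 353) (nat_lit 67)))))) (XT.nd (nat_lit 546) (nat_lit 0) (nat_lit 76) (XT.nd (nat_lit 234)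 (nat_lit 1064) (nat_lit 0) (XT.nd (nat_lit 78) (nat_lit 0) (nat_lit 0) (XT.lf (nat_lit 76) (nat_lit 6245953638) (nat_lit 0) (nat_lit 53549510884) (nat_lit 1216) (nat_lit 12286362828) (nat_lit 209) (nat_lit 5) (nat_lit 208) (nat_lit 5) (nat_lit 224) (nat_lit 5) (nat_lit 361) (nat_lit 353) (nat_lit 66)) (XT.nd (nat_lit 78) (nat_lit 0) (nat_lit 76) (XT.lf (nat_lit 76) (nat_lit 41312998836) (nat_lit 0) (nat_lit 22086721136) (nat_lit 1216) (nat_lit 9812515500) (nat_lit 209) (nat_lit 5) (nat_lit 208) (nat_lit 5) (nat_lit 224) (nat_lit 5) (nat_lit 362) (nat_lit 353) (nat_lit 65)) (XT.lf (nat_lit 76) (nat_lit 3014784468) (nat_lit 0) (nat_lit 64225024610) (nat_lit 1216) (nat_lit 7132916069) (nat_lit 210) (nat_lit 5) (nat_lit 209) (nat_lit 5) (nat_lit 225) (nat_lit 5) (nat_lit 363) (nat_lit 353) (nat_lit 64)))) (XT.nd (nat_lit 156) (nat_lit 1140) (nat_lit 0) (XT.nd (nat_lit 78) (nat_lit 0) (nat_lit 76) (XT.lf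 (nat_lit 76) (nat_lit 39406757379) (nat_lit 0) (nat_lit 32326534642) (nat_lit 1216) (nat_lit 3818592234) (nat_lit 210) (nat_lit 5) (nat_lit 209) (nat_lit 5) (nat_lit 225) (nat_lit 5) (nat_lit 364) (nat_lit 353) (nat_lit 63)) (XT.lf (nat_lit 76) (nat_lit 121003725) (nat_lit 0) (nat_lit 76246372752) (nat_lit 1216) (nat_lit 398868209) (nat_lit 211) (nat_lit 5) (nat_lit 210) (nat_lit 5) (nat_lit 226) (nat_lit 5) (nat_lit 365) (nat_lit 353) (nat_lit 62))) (XT.nd (nat_lit 78) (nat_lit 0) (nat_lit 0) (XT.lf (nat_lit 0) (nat_lit 3750725936) (nat_lit 1216) (nat_lit 40144081719) (nat_lit 1292) (nat_lit 34100681131) (nat_lit 194) (nat_lit 5) (nat_lit 210) (nat_lit 5) (nat_lit 211) (nat_lit 5) (nat_lit 366) (nat_lit 353) (nat_lit 61)) (XT.lf (nat_lit 0) (nat_lit 8016358713) (nat_lit 1216) (nat_lit 2552177228) (nat_lit 1292) (nat_lit 68692969187) (nat_lit 194) (nat_lit 5) (nat_lit 210) (nat_lit 5) (nat_lit 211)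 (nat_lit 5) (nat_lit 367) (nat_lit 353) (nat_lit 60))))) (XT.nd (nat_lit 39702) (nat_lit 0) (nat_lit 760) (XT.nd (nat_lit 39546) (nat_lit 0) (nat_lit 760) (XT.nd (nat_lit 78) (nat_lit 0) (nat_lit 0) (XT.lf (nat_lit 0) (nat_lit 12996004074) (nat_lit 1216) (nat_lit 43899809715) (nat_lit 1292) (nat_lit 23652107273) (nat_lit 195) (nat_lit 5) (nat_lit 211) (nat_lit 5) (nat_lit 212) (nat_lit 5) (nat_lit 368) (nat_lit 353) (nat_lit 59)) (XT.lf (nat_lit 0) (nat_lit 18255295057) (nat_lit 1216) (nat_lit 4900665448) (nat_lit 1292) (nat_lit 58713061680) (nat_lit 195) (nat_lit 5) (nat_lit 211) (nat_lit 5) (nat_lit 212) (nat_lit 5) (nat_lit 369) (nat_lit 353) (nat_lit 58))) (XT.nd (nat_lit 78) (nat_lit 0) (nat_lit 0) (XT.lf (nat_lit 0) (nat_lit 11441243298) (nat_lit 0) (nat_lit 11441243298) (nat_lit 1140) (nat_lit 9999531109) (nat_lit 205) (nat_lit 5) (nat_lit 205) (nat_lit 3) (nat_lit 220) (nat_lit 3) (nat_lit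 354) (nat_lit 354) (nat_lit 72)) (XT.lf (nat_lit 0) (nat_lit 46538707438) (nat_lit 1140) (nat_lit 12786992856) (nat_lit 1216) (nat_lit 7422162865) (nat_lit 205) (nat_lit 5) (nat_lit 220) (nat_lit 3) (nat_lit 221) (nat_lit 5) (nat_lit 355) (nat_lit 354) (nat_lit 71)))) (XT.nd (nat_lit 156) (nat_lit 0) (nat_lit 76) (XT.nd (nat_lit 78) (nat_lit 0) (nat_lit 76) (XT.lf (nat_lit 76) (nat_lit 18341445074) (nat_lit 0) (nat_lit 29396514183) (nat_lit 1216) (nat_lit 20011177902) (nat_lit 206) (nat_lit 5) (nat_lit 205) (nat_lit 5) (nat_lit 221) (nat_lit 5) (nat_lit 356) (nat_lit 354) (nat_lit 70)) (XT.lf (nat_lit 0) (nat_lit 49116794927) (nat_lit 1140) (nat_lit 18126068026) (nat_lit 1216) (nat_lit 1533278805) (nat_lit 206) (nat_lit 5) (nat_lit 221) (nat_lit 5) (nat_lit 222) (nat_lit 5) (nat_lit 357) (nat_lit 354) (nat_lit 69))) (XT.nd (nat_lit 78) (nat_lit 0) (nat_lit 0) (XT.lf (nat_lit 76) (nat_lit 14077339499)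 (nat_lit 0) (nat_lit 36885499685) (nat_lit 1216) (nat_lit 18858342556) (nat_lit 207) (nat_lit 5) (nat_lit 206) (nat_lit 5) (nat_lit 222) (nat_lit 5) (nat_lit 358) (nat_lit 354) (nat_lit 68)) (XT.lf (nat_lit 76) (nat_lit 47618108658) (nat_lit 0) (nat_lit 5428675295) (nat_lit 1216) (nat_lit 17845313929) (nat_lit 207) (nat_lit 5) (nat_lit 206) (nat_lit 5) (nat_lit 222) (nat_lit 5) (nat_lit 359) (nat_lit 354) (nat_lit 67))))))))
noncomputable def xc255 : XT := (XT.nd (nat_lit 81510) (nat_lit 0) (nat_lit 836) (XT.nd (nat_lit 40638) (nat_lit 0) (nat_lit 836) (XT.nd (nat_lit 546) (nat_lit 988) (nat_lit 0) (XT.nd (nat_lit 234) (nat_lit 0) (nat_lit 76) (XT.nd (nat_lit 78) (nat_lit 0) (nat_lit 0) (XT.lf (nat_lit 76) (nat_lit 10107609425) (nat_lit 0) (nat_lit 45441566639) (nat_lit 1216) (nat_lit 16435288095) (nat_lit 208) (nat_lit 5) (nat_lit 207) (nat_lit 5) (nat_lit 223) (nat_lit 5) (nat_lit 360) (nat_lit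 354) (nat_lit 66)) (XT.nd (nat_lit 78) (nat_lit 0) (nat_lit 76) (XT.lf (nat_lit 76) (nat_lit 44912618253) (nat_lit 0) (nat_lit 13501775762) (nat_lit 1216) (nat_lit 14686575291) (nat_lit 208) (nat_lit 5) (nat_lit 207) (nat_lit 5) (nat_lit 223) (nat_lit 5) (nat_lit 361) (nat_lit 354) (nat_lit 65)) (XT.lf (nat_lit 76) (nat_lit 6449900229) (nat_lit 0) (nat_lit 55163642924) (nat_lit 1216) (nat_lit 12629987706) (nat_lit 209) (nat_lit 5) (nat_lit 208) (nat_lit 5) (nat_lit 224) (nat_lit 5) (nat_lit 362) (nat_lit 354) (nat_lit 64)))) (XT.nd (nat_lit 156) (nat_lit 0) (nat_lit 76) (XT.nd (nat_lit 78) (nat_lit 0) (nat_lit 76) (XT.lf (nat_lit 76) (nat_lit 42568474219) (nat_lit 0) (nat_lit 22756746764) (nat_lit 1216) (nat_lit 10082652123) (nat_lit 209) (nat_lit 5) (nat_lit 208) (nat_lit 5) (nat_lit 224) (nat_lit 5) (nat_lit 363) (nat_lit 354) (nat_lit 63)) (XT.lf (nat_lit 76) (nat_lit 3121948664) (nat_lit 0)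 (nat_lit 66157970802) (nat_lit 1216) (nat_lit 7323276508) (nat_lit 210) (nat_lit 5) (nat_lit 209) (nat_lit 5) (nat_lit 225) (nat_lit 5) (nat_lit 364) (nat_lit 354) (nat_lit 62))) (XT.nd (nat_lit 78) (nat_lit 0) (nat_lit 76) (XT.lf (nat_lit 76) (nat_lit 40605193752) (nat_lit 0) (nat_lit 33302345685) (nat_lit 1216) (nat_lit 3910211124) (nat_lit 210) (nat_lit 5) (nat_lit 209) (nat_lit 5) (nat_lit 225) (nat_lit 5) (nat_lit 365) (nat_lit 354) (nat_lit 61)) (XT.lf (nat_lit 76) (nat_lit 141449042) (nat_lit 0) (nat_lit 78538654868) (nat_lit 1216) (nat_lit 388454833) (nat_lit 211) (nat_lit 5) (nat_lit 210) (nat_lit 5) (nat_lit 226) (nat_lit 5) (nat_lit 366) (nat_lit 354) (nat_lit 60))))) (XT.nd (nat_lit 39780) (nat_lit 0) (nat_lit 836) (XT.nd (nat_lit 78) (nat_lit 0) (nat_lit 0) (XT.lf (nat_lit 0) (nat_lit 3884551325) (nat_lit 1216) (nat_lit 41331633915) (nat_lit 1292) (nat_lit 35118508272) (nat_lit 194)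 (nat_lit 5) (nat_lit 210) (nat_lit 5) (nat_lit 211) (nat_lit 5) (nat_lit 367) (nat_lit 354) (nat_lit 59)) (XT.nd (nat_lit 39624) (nat_lit 0) (nat_lit 836) (XT.lf (nat_lit 0) (nat_lit 8277532591) (nat_lit 1216) (nat_lit 2612460743) (nat_lit 1292) (nat_lit 70748716231) (nat_lit 194) (nat_lit 5) (nat_lit 210) (nat_lit 5) (nat_lit 211) (nat_lit 5) (nat_lit 368) (nat_lit 354) (nat_lit 58)) (XT.lf (nat_lit 0) (nat_lit 11791657610) (nat_lit 0) (nat_lit 11791657610) (nat_lit 1140) (nat_lit 10284717547) (nat_lit 205) (nat_lit 5) (nat_lit 205) (nat_lit 3) (nat_lit 220) (nat_lit 3) (nat_lit 355) (nat_lit 355) (nat_lit 70)))) (XT.nd (nat_lit 156) (nat_lit 0) (nat_lit 76) (XT.nd (nat_lit 78) (nat_lit 0) (nat_lit 0) (XT.lf (nat_lit 0) (nat_lit 47962606594) (nat_lit 1140) (nat_lit 13155667743) (nat_lit 1216) (nat_lit 7631163745) (nat_lit 205) (nat_lit 5) (nat_lit 220) (nat_lit 3) (nat_lit 221) (nat_lit 5) (nat_lit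 356) (nat_lit 355) (nat_lit 69)) (XT.lf (nat_lit 76) (nat_lit 18906476904) (nat_lit 0) (nat_lit 30290693319) (nat_lit 1216) (nat_lit 20583600891) (nat_lit 206) (nat_lit 5) (nat_lit 205) (nat_lit 5) (nat_lit 221) (nat_lit 5) (nat_lit 357) (nat_lit 355) (nat_lit 68))) (XT.nd (nat_lit 78) (nat_lit 0) (nat_lit 0) (XT.lf (nat_lit 0) (nat_lit 50616467813) (nat_lit 1140) (nat_lit 18654561993) (nat_lit 1216) (nat_lit 1567583954) (nat_lit 206) (nat_lit 5) (nat_lit 221) (nat_lit 5) (nat_lit 222) (nat_lit 5) (nat_lit 358) (nat_lit 355) (nat_lit 67)) (XT.lf (nat_lit 76) (nat_lit 14514797874) (nat_lit 0) (nat_lit 38002478837) (nat_lit 1216) (nat_lit 19397747525) (nat_lit 207) (nat_lit 5) (nat_lit 206) (nat_lit 5) (nat_lit 222) (nat_lit 5) (nat_lit 359) (nat_lit 355) (nat_lit 66)))))) (XT.nd (nat_lit 546) (nat_lit 76) (nat_lit 0) (XT.nd (nat_lit 234) (nat_lit 0) (nat_lit 152) (XT.nd (nat_lit 78) (nat_lit 0) (nat_lit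 76) (XT.lf (nat_lit 76) (nat_lit 49061349190) (nat_lit 0) (nat_lit 5601646390) (nat_lit 1216) (nat_lit 18355095378) (nat_lit 207) (nat_lit 5) (nat_lit 206) (nat_lit 5) (nat_lit 222) (nat_lit 5) (nat_lit 360) (nat_lit 355) (nat_lit 65)) (XT.nd (nat_lit 78) (nat_lit 0) (nat_lit 0) (XT.lf (nat_lit 76) (nat_lit 10426249441) (nat_lit 0) (nat_lit 46813541233) (nat_lit 1216) (nat_lit 16903458358) (nat_lit 208) (nat_lit 5) (nat_lit 207) (nat_lit 5) (nat_lit 223) (nat_lit 5) (nat_lit 361) (nat_lit 355) (nat_lit 64)) (XT.lf (nat_lit 76) (nat_lit 46274959649) (nat_lit 0) (nat_lit 13915302427) (nat_lit 1216) (nat_lit 15103009074) (nat_lit 208) (nat_lit 5) (nat_lit 207) (nat_lit 5) (nat_lit 223) (nat_lit 5) (nat_lit 362) (nat_lit 355) (nat_lit 63)))) (XT.nd (nat_lit 156) (nat_lit 0) (nat_lit 76) (XT.nd (nat_lit 78) (nat_lit 0) (nat_lit 0) (XT.lf (nat_lit 76) (nat_lit 6659014147) (nat_lit 0) (nat_lit 56825759972)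 (nat_lit 1216) (nat_lit 12985354481) (nat_lit 209) (nat_lit 5) (nat_lit 208) (nat_lit 5) (nat_lit 224) (nat_lit 5) (nat_lit 363) (nat_lit 355) (nat_lit 62)) (XT.lf (nat_lit 76) (nat_lit 43860690496) (nat_lit 0) (nat_lit 23446446992) (nat_lit 1216) (nat_lit 10362284254) (nat_lit 209) (nat_lit 5) (nat_lit 208) (nat_lit 5) (nat_lit 224) (nat_lit 5) (nat_lit 364) (nat_lit 355) (nat_lit 61))) (XT.nd (nat_lit 78) (nat_lit 0) (nat_lit 0) (XT.lf (nat_lit 76) (nat_lit 3231367951) (nat_lit 0) (nat_lit 68148549736) (nat_lit 1216) (nat_lit 7520704049) (nat_lit 210) (nat_lit 5) (nat_lit 209) (nat_lit 5) (nat_lit 225) (nat_lit 5) (nat_lit 365) (nat_lit 355) (nat_lit 60)) (XT.lf (nat_lit 76) (nat_lit 41838651338) (nat_lit 0) (nat_lit 34307085774) (nat_lit 1216) (nat_lit 4005895366) (nat_lit 210) (nat_lit 5) (nat_lit 209) (nat_lit 5) (nat_lit 225) (nat_lit 5) (nat_lit 366) (nat_lit 355) (nat_lit 59))))) (XT.nd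 (nat_lit 40014) (nat_lit 0) (nat_lit 76) (XT.nd (nat_lit 39858) (nat_lit 0) (nat_lit 0) (XT.nd (nat_lit 39780) (nat_lit 380) (nat_lit 0) (XT.lf (nat_lit 76) (nat_lit 161542458) (nat_lit 0) (nat_lit 80899424688) (nat_lit 1216) (nat_lit 379013727) (nat_lit 211) (nat_lit 5) (nat_lit 210) (nat_lit 5) (nat_lit 226) (nat_lit 5) (nat_lit 367) (nat_lit 355) (nat_lit 58)) (XT.lf (nat_lit 0) (nat_lit 12152172361) (nat_lit 0) (nat_lit 12152172361) (nat_lit 1140) (nat_lit 10579309129) (nat_lit 205) (nat_lit 5) (nat_lit 205) (nat_lit 3) (nat_lit 220) (nat_lit 3) (nat_lit 356) (nat_lit 356) (nat_lit 68))) (XT.nd (nat_lit 78) (nat_lit 0) (nat_lit 0) (XT.lf (nat_lit 0) (nat_lit 49427630454) (nat_lit 1140) (nat_lit 13536260202) (nat_lit 1216) (nat_lit 7847219021) (nat_lit 205) (nat_lit 5) (nat_lit 220) (nat_lit 3) (nat_lit 221) (nat_lit 5) (nat_lit 357) (nat_lit 356) (nat_lit 67)) (XT.lf (nat_lit 76) (nat_lit 19487610770)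 (nat_lit 0) (nat_lit 31210992694) (nat_lit 1216) (nat_lit 21174798853) (nat_lit 206) (nat_lit 5) (nat_lit 205) (nat_lit 5) (nat_lit 221) (nat_lit 5) (nat_lit 358) (nat_lit 356) (nat_lit 66)))) (XT.nd (nat_lit 156) (nat_lit 0) (nat_lit 0) (XT.nd (nat_lit 78) (nat_lit 0) (nat_lit 0) (XT.lf (nat_lit 0) (nat_lit 52159628676) (nat_lit 1140) (nat_lit 19199788378) (nat_lit 1216) (nat_lit 1603589496) (nat_lit 206) (nat_lit 5) (nat_lit 221) (nat_lit 5) (nat_lit 222) (nat_lit 5) (nat_lit 359) (nat_lit 356) (nat_lit 65)) (XT.lf (nat_lit 76) (nat_lit 14964511006) (nat_lit 0) (nat_lit 39152369547) (nat_lit 1216) (nat_lit 19954846971) (nat_lit 207) (nat_lit 5) (nat_lit 206) (nat_lit 5) (nat_lit 222) (nat_lit 5) (nat_lit 360) (nat_lit 356) (nat_lit 64))) (XT.nd (nat_lit 78) (nat_lit 0) (nat_lit 76) (XT.lf (nat_lit 76) (nat_lit 50547043254) (nat_lit 0) (nat_lit 5779226214) (nat_lit 1216) (nat_lit 18881638550) (nat_lit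 207) (nat_lit 5) (nat_lit 206) (nat_lit 5) (nat_lit 222) (nat_lit 5) (nat_lit 361) (nat_lit 356) (nat_lit 63)) (XT.lf (nat_lit 76) (nat_lit 10753563961) (nat_lit 0) (nat_lit 48226174065) (nat_lit 1216) (nat_lit 17387102424) (nat_lit 208) (nat_lit 5) (nat_lit 207) (nat_lit 5) (nat_lit 223) (nat_lit 5) (nat_lit 362) (nat_lit 356) (nat_lit 62))))))) (XT.nd (nat_lit 80964) (nat_lit 0) (nat_lit 0) (XT.nd (nat_lit 40404) (nat_lit 0) (nat_lit 0) (XT.nd (nat_lit 234) (nat_lit 152) (nat_lit 0) (XT.nd (nat_lit 78) (nat_lit 0) (nat_lit 76) (XT.lf (nat_lit 76) (nat_lit 47677312358) (nat_lit 0) (nat_lit 14340748485) (nat_lit 1216) (nat_lit 15533322953) (nat_lit 208) (nat_lit 5) (nat_lit 207) (nat_lit 5) (nat_lit 223) (nat_lit 5) (nat_lit 363) (nat_lit 356) (nat_lit 61)) (XT.nd (nat_lit 78) (nat_lit 0) (nat_lit 0) (XT.lf (nat_lit 76) (nat_lit 6873505008) (nat_lit 0) (nat_lit 58537326777) (nat_lit 1216) (nat_lit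 13352733141) (nat_lit 209) (nat_lit 5) (nat_lit 208) (nat_lit 5) (nat_lit 224) (nat_lit 5) (nat_lit 364) (nat_lit 356) (nat_lit 60)) (XT.lf (nat_lit 76) (nat_lit 45190802897) (nat_lit 0) (nat_lit 24156436524) (nat_lit 1216) (nat_lit 10651616884) (nat_lit 209) (nat_lit 5) (nat_lit 208) (nat_lit 5) (nat_lit 224) (nat_lit 5) (nat_lit 365) (nat_lit 356) (nat_lit 59)))) (XT.nd (nat_lit 40014) (nat_lit 0) (nat_lit 0) (XT.nd (nat_lit 39936) (nat_lit 304) (nat_lit 0) (XT.lf (nat_lit 76) (nat_lit 3343165081) (nat_lit 0) (nat_lit 70198510809) (nat_lit 1216) (nat_lit 7725332848) (nat_lit 210) (nat_lit 5) (nat_lit 209) (nat_lit 5) (nat_lit 225) (nat_lit 5) (nat_lit 366) (nat_lit 356) (nat_lit 58)) (XT.lf (nat_lit 0) (nat_lit 12523114214) (nat_lit 0) (nat_lit 12523114214) (nat_lit 1140) (nat_lit 10883539243) (nat_lit 205) (nat_lit 5) (nat_lit 205) (nat_lit 3) (nat_lit 220) (nat_lit 3) (nat_lit 357) (nat_lit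 357) (nat_lit 66))) (XT.nd (nat_lit 78) (nat_lit 0) (nat_lit 0) (XT.lf (nat_lit 0) (nat_lit 50935104162) (nat_lit 1140) (nat_lit 13929078544) (nat_lit 1216) (nat_lit 8070495298) (nat_lit 205) (nat_lit 5) (nat_lit 220) (nat_lit 3) (nat_lit 221) (nat_lit 5) (nat_lit 358) (nat_lit 357) (nat_lit 65)) (XT.lf (nat_lit 76) (nat_lit 20085378463) (nat_lit 0) (nat_lit 32158236392) (nat_lit 1216) (nat_lit 21785243060) (nat_lit 206) (nat_lit 5) (nat_lit 205) (nat_lit 5) (nat_lit 221) (nat_lit 5) (nat_lit 359) (nat_lit 357) (nat_lit 64))))) (XT.nd (nat_lit 234) (nat_lit 76) (nat_lit 0) (XT.nd (nat_lit 78) (nat_lit 0) (nat_lit 0) (XT.lf (nat_lit 0) (nat_lit 53747668388) (nat_lit 1140) (nat_lit 19762198774) (nat_lit 1216) (nat_lit 1641307912) (nat_lit 206) (nat_lit 5) (nat_lit 221) (nat_lit 5) (nat_lit 222) (nat_lit 5) (nat_lit 360) (nat_lit 357) (nat_lit 63)) (XT.nd (nat_lit 78) (nat_lit 0) (nat_lit 0) (XT.lf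 (nat_lit 76) (nat_lit 15426896422) (nat_lit 0) (nat_lit 40336193481) (nat_lit 1216) (nat_lit 20530084915) (nat_lit 207) (nat_lit 5) (nat_lit 206) (nat_lit 5) (nat_lit 222) (nat_lit 5) (nat_lit 361) (nat_lit 357) (nat_lit 62)) (XT.lf (nat_lit 76) (nat_lit 52076512887) (nat_lit 0) (nat_lit 5961586347) (nat_lit 1216) (nat_lit 19425362013) (nat_lit 207) (nat_lit 5) (nat_lit 206) (nat_lit 5) (nat_lit 222) (nat_lit 5) (nat_lit 362) (nat_lit 357) (nat_lit 61)))) (XT.nd (nat_lit 156) (nat_lit 152) (nat_lit 0) (XT.nd (nat_lit 78) (nat_lit 0) (nat_lit 0) (XT.lf (nat_lit 76) (nat_lit 11089864006) (nat_lit 0) (nat_lit 49680713641) (nat_lit 1216) (nat_lit 17886602494) (nat_lit 208) (nat_lit 5) (nat_lit 207) (nat_lit 5) (nat_lit 223) (nat_lit 5) (nat_lit 363) (nat_lit 357) (nat_lit 60)) (XT.lf (nat_lit 76) (nat_lit 49120926025) (nat_lit 0) (nat_lit 14778499439) (nat_lit 1216) (nat_lit 15977853707) (nat_lit 208)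 (nat_lit 5) (nat_lit 207) (nat_lit 5) (nat_lit 223) (nat_lit 5) (nat_lit 364) (nat_lit 357) (nat_lit 59))) (XT.nd (nat_lit 40092) (nat_lit 228) (nat_lit 0) (XT.lf (nat_lit 76) (nat_lit 7093585582) (nat_lit 0) (nat_lit 60299850582) (nat_lit 1216) (nat_lit 13732406497) (nat_lit 209) (nat_lit 5) (nat_lit 208) (nat_lit 5) (nat_lit 224) (nat_lit 5) (nat_lit 365) (nat_lit 357) (nat_lit 58)) (XT.lf (nat_lit 0) (nat_lit 12904818276) (nat_lit 0) (nat_lit 12904818276) (nat_lit 1140) (nat_lit 11197651076) (nat_lit 205) (nat_lit 5) (nat_lit 205) (nat_lit 3) (nat_lit 220) (nat_lit 3) (nat_lit 358) (nat_lit 358) (nat_lit 64)))))) (XT.nd (nat_lit 40716) (nat_lit 0) (nat_lit 0) (XT.nd (nat_lit 234) (nat_lit 0) (nat_lit 0) (XT.nd (nat_lit 78) (nat_lit 0) (nat_lit 0) (XT.lf (nat_lit 0) (nat_lit 52486387370) (nat_lit 1140) (nat_lit 14334443159) (nat_lit 1216) (nat_lit 8301166767) (nat_lit 205) (nat_lit 5) (nat_lit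 220) (nat_lit 3) (nat_lit 221) (nat_lit 5) (nat_lit 359) (nat_lit 358) (nat_lit 63)) (XT.nd (nat_lit 78) (nat_lit 0) (nat_lit 76) (XT.lf (nat_lit 76) (nat_lit 20700324934) (nat_lit 0) (nat_lit 33133270898) (nat_lit 1216) (nat_lit 22415424200) (nat_lit 206) (nat_lit 5) (nat_lit 205) (nat_lit 5) (nat_lit 221) (nat_lit 5) (nat_lit 360) (nat_lit 358) (nat_lit 62)) (XT.lf (nat_lit 0) (nat_lit 55382014597) (nat_lit 1140) (nat_lit 20342261217) (nat_lit 1216) (nat_lit 1680754266) (nat_lit 206) (nat_lit 5) (nat_lit 221) (nat_lit 5) (nat_lit 222) (nat_lit 5) (nat_lit 361) (nat_lit 358) (nat_lit 61)))) (XT.nd (nat_lit 156) (nat_lit 76) (nat_lit 0) (XT.nd (nat_lit 78) (nat_lit 0) (nat_lit 0) (XT.lf (nat_lit 76) (nat_lit 15902381311) (nat_lit 0) (nat_lit 41555000981) (nat_lit 1216) (nat_lit 21123923682) (nat_lit 207) (nat_lit 5) (nat_lit 206) (nat_lit 5) (nat_lit 222) (nat_lit 5) (nat_lit 362) (nat_lit 358)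 (nat_lit 60)) (XT.lf (nat_lit 76) (nat_lit 53651117008) (nat_lit 0) (nat_lit 6148901603) (nat_lit 1216) (nat_lit 19986701727) (nat_lit 207) (nat_lit 5) (nat_lit 206) (nat_lit 5) (nat_lit 222) (nat_lit 5) (nat_lit 363) (nat_lit 358) (nat_lit 59))) (XT.nd (nat_lit 40248) (nat_lit 152) (nat_lit 0) (XT.lf (nat_lit 76) (nat_lit 11435467010) (nat_lit 0) (nat_lit 51178444273) (nat_lit 1216) (nat_lit 18402356943) (nat_lit 208) (nat_lit 5) (nat_lit 207) (nat_lit 5) (nat_lit 223) (nat_lit 5) (nat_lit 364) (nat_lit 358) (nat_lit 58)) (XT.lf (nat_lit 0) (nat_lit 13297628424) (nat_lit 0) (nat_lit 13297628424) (nat_lit 1140) (nat_lit 11521897750) (nat_lit 205) (nat_lit 5) (nat_lit 205) (nat_lit 3) (nat_lit 220) (nat_lit 3) (nat_lit 359) (nat_lit 359) (nat_lit 62))))) (XT.nd (nat_lit 40638) (nat_lit 0) (nat_lit 0) (XT.nd (nat_lit 156) (nat_lit 0) (nat_lit 76) (XT.nd (nat_lit 78) (nat_lit 0) (nat_lit 0) (XT.lf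 (nat_lit 0) (nat_lit 54082875571) (nat_lit 1140) (nat_lit 14752686707) (nat_lit 1216) (nat_lit 8539415277) (nat_lit 205) (nat_lit 5) (nat_lit 220) (nat_lit 3) (nat_lit 221) (nat_lit 5) (nat_lit 360) (nat_lit 359) (nat_lit 61)) (XT.lf (nat_lit 76) (nat_lit 21333008843) (nat_lit 0) (nat_lit 34136965900) (nat_lit 1216) (nat_lit 23065852662) (nat_lit 206) (nat_lit 5) (nat_lit 205) (nat_lit 5) (nat_lit 221) (nat_lit 5) (nat_lit 361) (nat_lit 359) (nat_lit 60))) (XT.nd (nat_lit 78) (nat_lit 0) (nat_lit 0) (XT.lf (nat_lit 0) (nat_lit 57064133116) (nat_lit 1140) (nat_lit 20940460507) (nat_lit 1216) (nat_lit 1721946162) (nat_lit 206) (nat_lit 5) (nat_lit 221) (nat_lit 5) (nat_lit 222) (nat_lit 5) (nat_lit 362) (nat_lit 359) (nat_lit 59)) (XT.lf (nat_lit 76) (nat_lit 16391402977) (nat_lit 0) (nat_lit 42809872045) (nat_lit 1216) (nat_lit 21736844162) (nat_lit 207) (nat_lit 5) (nat_lit 206) (nat_lit 5) (nat_lit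 222) (nat_lit 5) (nat_lit 363) (nat_lit 359) (nat_lit 58)))) (XT.nd (nat_lit 156) (nat_lit 0) (nat_lit 0) (XT.nd (nat_lit 78) (nat_lit 0) (nat_lit 0) (XT.lf (nat_lit 0) (nat_lit 13701897649) (nat_lit 0) (nat_lit 13701897649) (nat_lit 1140) (nat_lit 11856542468) (nat_lit 205) (nat_lit 5) (nat_lit 205) (nat_lit 3) (nat_lit 220) (nat_lit 3) (nat_lit 360) (nat_lit 360) (nat_lit 60)) (XT.lf (nat_lit 0) (nat_lit 55726001466) (nat_lit 1140) (nat_lit 15184154341) (nat_lit 1216) (nat_lit 8785430431) (nat_lit 205) (nat_lit 5) (nat_lit 220) (nat_lit 3) (nat_lit 221) (nat_lit 5) (nat_lit 361) (nat_lit 360) (nat_lit 59))) (XT.nd (nat_lit 40560) (nat_lit 0) (nat_lit 0) (XT.lf (nat_lit 76) (nat_lit 21984003125) (nat_lit 0) (nat_lit 35170215111) (nat_lit 1216) (nat_lit 23737058834) (nat_lit 206) (nat_lit 5) (nat_lit 205) (nat_lit 5) (nat_lit 221) (nat_lit 5) (nat_lit 362) (nat_lit 360) (nat_lit 58)) (XT.lf (nat_lit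 0) (nat_lit 14117988390) (nat_lit 0) (nat_lit 14117988390) (nat_lit 1140) (nat_lit 12201858674) (nat_lit 205) (nat_lit 5) (nat_lit 205) (nat_lit 3) (nat_lit 220) (nat_lit 3) (nat_lit 361) (nat_lit 361) (nat_lit 58))))))))

set_option maxRecDepth 10000000 in
noncomputable def Tp : PT := (PT.nd (nat_lit 5496270) (PT.nd (nat_lit 4846920) (PT.nd (nat_lit 4237662) (PT.nd (nat_lit 3669198) (PT.nd (nat_lit 3222492) pc0 pc1) (PT.nd (nat_lit 324870) pc2 pc3)) (PT.nd (nat_lit 365118) (PT.nd (nat_lit 202800) pc4 pc5) (PT.nd (nat_lit 122226) pc6 pc7))) (PT.nd (nat_lit 404352) (PT.nd (nat_lit 203268) (PT.nd (nat_lit 121290) pc8 pc9) (PT.nd (nat_lit 120120) pc10 pc11)) (PT.nd (nat_lit 123006) (PT.nd (nat_lit 42588) pc12 pc13) (PT.nd (nat_lit 79872) pc14 pc15)))) (PT.nd (nat_lit 403962) (PT.nd (nat_lit 203736) (PT.nd (nat_lit 120900) (PT.nd (nat_lit 41964) pc16 pc17) (PT.nd (nat_lit 41496) pc18 pc19)) (PT.nd (nat_lit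 118794) (PT.nd (nat_lit 41262) pc20 pc21) (PT.nd (nat_lit 40794) pc22 pc23))) (PT.nd (nat_lit 207090) (PT.nd (nat_lit 81588) (PT.nd (nat_lit 40482) pc24 pc25) (PT.nd (nat_lit 44226) pc26 pc27)) (PT.nd (nat_lit 238446) (PT.nd (nat_lit 116922) pc28 pc29) (PT.nd (nat_lit 168636) pc30 pc31)))))

set_option maxRecDepth 10000000 in
noncomputable def Tx : XT := (XT.nd (nat_lit 7509606) (nat_lit 0) (nat_lit 152) XT.nil (XT.nd (nat_lit 7188948) (nat_lit 0) (nat_lit 0) (XT.nd (nat_lit 3453372) (nat_lit 0) (nat_lit 684) (XT.nd (nat_lit 2428920) (nat_lit 0) (nat_lit 304) (XT.nd (nat_lit 1701180) (nat_lit 0) (nat_lit 152) (XT.nd (nat_lit 1175928) (nat_lit 0) (nat_lit 152) (XT.nd (nat_lit 811122) (nat_lit 0) (nat_lit 0) (XT.nd (nat_lit 567060) (nat_lit 0) (nat_lit 0) (XT.nd (nat_lit 365508) (nat_lit 0) (nat_lit 0) (XT.nd (nat_lit 243594) (nat_lit 0) (nat_lit 0) xc0 xc1) (XT.nd (nat_lit 120510) (nat_lit 0) (nat_lit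 0) xc2 xc3)) (XT.nd (nat_lit 122616) (nat_lit 0) (nat_lit 0) (XT.nd (nat_lit 42510) (nat_lit 0) (nat_lit 0) xc4 xc5) (XT.nd (nat_lit 79638) (nat_lit 0) (nat_lit 0) xc6 xc7))) (XT.nd (nat_lit 202254) (nat_lit 0) (nat_lit 152) (XT.nd (nat_lit 120042) (nat_lit 0) (nat_lit 76) (XT.nd (nat_lit 41652) (nat_lit 0) (nat_lit 0) xc8 xc9) (XT.nd (nat_lit 41184) (nat_lit 0) (nat_lit 76) xc10 xc11)) (XT.nd (nat_lit 81588) (nat_lit 0) (nat_lit 0) (XT.nd (nat_lit 40872) (nat_lit 0) (nat_lit 0) xc12 xc13) (XT.nd (nat_lit 40560) (nat_lit 0) (nat_lit 0) xc14 xc15)))) (XT.nd (nat_lit 283296) (nat_lit 0) (nat_lit 0) (XT.nd (nat_lit 160212) (nat_lit 0) (nat_lit 0) (XT.nd (nat_lit 80340) (nat_lit 0) (nat_lit 0) (XT.nd (nat_lit 40248) (nat_lit 0) (nat_lit 0) xc16 xc17) (XT.nd (nat_lit 40014) (nat_lit 0) (nat_lit 0) xc18 xc19)) (XT.nd (nat_lit 44148) (nat_lit 0) (nat_lit 0) (XT.nd (nat_lit 4446) (nat_lit 0) (nat_lit 0)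 xc20 xc21) (XT.nd (nat_lit 39546) (nat_lit 0) (nat_lit 0) xc22 xc23))) (XT.nd (nat_lit 121680) (nat_lit 0) (nat_lit 0) (XT.nd (nat_lit 43680) (nat_lit 0) (nat_lit 0) (XT.nd (nat_lit 39234) (nat_lit 0) (nat_lit 76) xc24 xc25) (XT.nd (nat_lit 39078) (nat_lit 0) (nat_lit 0) xc26 xc27)) (XT.nd (nat_lit 43212) (nat_lit 0) (nat_lit 0) (XT.nd (nat_lit 38766) (nat_lit 0) (nat_lit 228) xc28 xc29) (XT.nd (nat_lit 38610) (nat_lit 0) (nat_lit 0) xc30 xc31))))) (XT.nd (nat_lit 370188) (nat_lit 0) (nat_lit 76) (XT.nd (nat_lit 203268) (nat_lit 0) (nat_lit 76) (XT.nd (nat_lit 85332) (nat_lit 0) (nat_lit 0) (XT.nd (nat_lit 42744) (nat_lit 0) (nat_lit 0) (XT.nd (nat_lit 4446) (nat_lit 152) (nat_lit 0) xc32 xc33) (XT.nd (nat_lit 38142) (nat_lit 0) (nat_lit 228) xc34 xc35)) (XT.nd (nat_lit 75816) (nat_lit 0) (nat_lit 76) (XT.nd (nat_lit 37986) (nat_lit 0) (nat_lit 0) xc36 xc37) (XT.nd (nat_lit 4446) (nat_lit 456) (nat_lit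 0) xc38 xc39))) (XT.nd (nat_lit 83772) (nat_lit 0) (nat_lit 0) (XT.nd (nat_lit 41964) (nat_lit 0) (nat_lit 0) (XT.nd (nat_lit 4446) (nat_lit 152) (nat_lit 0) xc40 xc41) (XT.nd (nat_lit 37362) (nat_lit 0) (nat_lit 608) xc42 xc43)) (XT.nd (nat_lit 41652) (nat_lit 0) (nat_lit 0) (XT.nd (nat_lit 37206) (nat_lit 0) (nat_lit 304) xc44 xc45) (XT.nd (nat_lit 37050) (nat_lit 0) (nat_lit 152) xc46 xc47)))) (XT.nd (nat_lit 196248) (nat_lit 0) (nat_lit 0) (XT.nd (nat_lit 114660) (nat_lit 0) (nat_lit 0) (XT.nd (nat_lit 41340) (nat_lit 0) (nat_lit 0) (XT.nd (nat_lit 36894) (nat_lit 0) (nat_lit 0) xc48 xc49) (XT.nd (nat_lit 36738) (nat_lit 0) (nat_lit 0) xc50 xc51)) (XT.nd (nat_lit 40872) (nat_lit 0) (nat_lit 0) (XT.nd (nat_lit 4446) (nat_lit 1064) (nat_lit 0) xc52 xc53) (XT.nd (nat_lit 4446) (nat_lit 988) (nat_lit 0) xc54 xc55))) (XT.nd (nat_lit 80964) (nat_lit 0) (nat_lit 0) (XT.nd (nat_lit 40560) (nat_lit 0)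 (nat_lit 0) (XT.nd (nat_lit 4446) (nat_lit 912) (nat_lit 0) xc56 xc57) (XT.nd (nat_lit 4446) (nat_lit 988) (nat_lit 0) xc58 xc59)) (XT.nd (nat_lit 40248) (nat_lit 0) (nat_lit 0) (XT.nd (nat_lit 4446) (nat_lit 1140) (nat_lit 0) xc60 xc61) (XT.nd (nat_lit 4446) (nat_lit 1444) (nat_lit 0) xc62 xc63)))))) (XT.nd (nat_lit 533676) (nat_lit 0) (nat_lit 152) (XT.nd (nat_lit 285168) (nat_lit 0) (nat_lit 76) (XT.nd (nat_lit 128232) (nat_lit 0) (nat_lit 76) (XT.nd (nat_lit 48828) (nat_lit 0) (nat_lit 0) (XT.nd (nat_lit 8892) (nat_lit 76) (nat_lit 0) (XT.nd (nat_lit 4446) (nat_lit 1672) (nat_lit 0) xc64 xc65) (XT.nd (nat_lit 35490) (nat_lit 0) (nat_lit 152) xc66 xc67)) (XT.nd (nat_lit 39780) (nat_lit 0) (nat_lit 76) (XT.nd (nat_lit 35334) (nat_lit 0) (nat_lit 380) xc68 xc69) (XT.nd (nat_lit 35178) (nat_lit 0) (nat_lit 760) xc70 xc71))) (XT.nd (nat_lit 78780) (nat_lit 0) (nat_lit 0) (XT.nd (nat_lit 39468) (nat_lit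 0) (nat_lit 0) (XT.nd (nat_lit 35022) (nat_lit 0) (nat_lit 1292) xc72 xc73) (XT.nd (nat_lit 34866) (nat_lit 0) (nat_lit 2508) xc74 xc75)) (XT.nd (nat_lit 39156) (nat_lit 0) (nat_lit 0) (XT.nd (nat_lit 4446) (nat_lit 152) (nat_lit 0) xc76 xc77) (XT.nd (nat_lit 4446) (nat_lit 608) (nat_lit 0) xc78 xc79)))) (XT.nd (nat_lit 124956) (nat_lit 0) (nat_lit 76) (XT.nd (nat_lit 47736) (nat_lit 0) (nat_lit 0) (XT.nd (nat_lit 38844) (nat_lit 0) (nat_lit 304) (XT.nd (nat_lit 4446) (nat_lit 1368) (nat_lit 0) xc80 xc81) (XT.nd (nat_lit 4446) (nat_lit 3040) (nat_lit 0) xc82 xc83)) (XT.nd (nat_lit 38688) (nat_lit 0) (nat_lit 0) (XT.nd (nat_lit 34242) (nat_lit 0) (nat_lit 1064) xc84 xc85) (XT.nd (nat_lit 34086) (nat_lit 0) (nat_lit 2888) xc86 xc87))) (XT.nd (nat_lit 76596) (nat_lit 0) (nat_lit 0) (XT.nd (nat_lit 38376) (nat_lit 0) (nat_lit 0) (XT.nd (nat_lit 4446) (nat_lit 228) (nat_lit 0) xc88 xc89) (XT.nd (nat_lit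 4446) (nat_lit 988) (nat_lit 0) xc90 xc91)) (XT.nd (nat_lit 8892) (nat_lit 304) (nat_lit 0) (XT.nd (nat_lit 4446) (nat_lit 2964) (nat_lit 0) xc92 xc93) (XT.nd (nat_lit 33618) (nat_lit 0) (nat_lit 1520) xc94 xc95))))) (XT.nd (nat_lit 244296) (nat_lit 0) (nat_lit 76) (XT.nd (nat_lit 122148) (nat_lit 0) (nat_lit 0) (XT.nd (nat_lit 75660) (nat_lit 0) (nat_lit 0) (XT.nd (nat_lit 37908) (nat_lit 0) (nat_lit 0) (XT.nd (nat_lit 33462) (nat_lit 0) (nat_lit 4712) xc96 xc97) (XT.nd (nat_lit 4446) (nat_lit 684) (nat_lit 0) xc98 xc99)) (XT.nd (nat_lit 8892) (nat_lit 228) (nat_lit 0) (XT.nd (nat_lit 4446) (nat_lit 2356) (nat_lit 0) xc100 xc101) (XT.nd (nat_lit 33150) (nat_lit 0) (nat_lit 1444) xc102 xc103))) (XT.nd (nat_lit 75426) (nat_lit 0) (nat_lit 76) (XT.nd (nat_lit 37674) (nat_lit 0) (nat_lit 0) (XT.nd (nat_lit 33228) (nat_lit 0) (nat_lit 4940) xc104 xc105) (XT.nd (nat_lit 4446) (nat_lit 684) (nat_lit 0)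 xc106 xc107)) (XT.nd (nat_lit 8892) (nat_lit 152) (nat_lit 0) (XT.nd (nat_lit 4446) (nat_lit 2584) (nat_lit 0) xc108 xc109) (XT.nd (nat_lit 33384) (nat_lit 0) (nat_lit 1368) xc110 xc111)))) (XT.nd (nat_lit 122850) (nat_lit 0) (nat_lit 76) (XT.nd (nat_lit 75894) (nat_lit 0) (nat_lit 76) (XT.nd (nat_lit 37908) (nat_lit 0) (nat_lit 0) (XT.nd (nat_lit 33462) (nat_lit 0) (nat_lit 4332) xc112 xc113) (XT.nd (nat_lit 4446) (nat_lit 532) (nat_lit 0) xc114 xc115)) (XT.nd (nat_lit 38064) (nat_lit 0) (nat_lit 836) (XT.nd (nat_lit 4446) (nat_lit 2128) (nat_lit 0) xc116 xc117) (XT.nd (nat_lit 4446) (nat_lit 5016) (nat_lit 0) xc118 xc119))) (XT.nd (nat_lit 76362) (nat_lit 0) (nat_lit 76) (XT.nd (nat_lit 38142) (nat_lit 0) (nat_lit 0) (XT.nd (nat_lit 33696) (nat_lit 0) (nat_lit 2812) xc120 xc121) (XT.nd (nat_lit 4446) (nat_lit 152) (nat_lit 0) xc122 xc123)) (XT.nd (nat_lit 38298) (nat_lit 0) (nat_lit 228) (XT.nd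 (nat_lit 4446) (nat_lit 1064) (nat_lit 0) xc124 xc125) (XT.nd (nat_lit 4446) (nat_lit 3268) (nat_lit 0) xc126 xc127))))))) (XT.nd (nat_lit 1212432) (nat_lit 0) (nat_lit 1216) (XT.nd (nat_lit 563316) (nat_lit 0) (nat_lit 304) (XT.nd (nat_lit 279630) (nat_lit 0) (nat_lit 152) (XT.nd (nat_lit 154206) (nat_lit 0) (nat_lit 76) (XT.nd (nat_lit 76908) (nat_lit 0) (nat_lit 0) (XT.nd (nat_lit 38376) (nat_lit 0) (nat_lit 0) (XT.nd (nat_lit 33930) (nat_lit 0) (nat_lit 1292) xc128 xc129) (XT.nd (nat_lit 34086) (nat_lit 0) (nat_lit 3420) xc130 xc131)) (XT.nd (nat_lit 38610) (nat_lit 0) (nat_lit 0) (XT.nd (nat_lit 4446) (nat_lit 228) (nat_lit 0) xc132 xc133) (XT.nd (nat_lit 4446) (nat_lit 1064) (nat_lit 0) xc134 xc135))) (XT.nd (nat_lit 47658) (nat_lit 0) (nat_lit 0) (XT.nd (nat_lit 8892) (nat_lit 76) (nat_lit 0) (XT.nd (nat_lit 4446) (nat_lit 2888) (nat_lit 0) xc136 xc137) (XT.nd (nat_lit 34320) (nat_lit 0)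 (nat_lit 684) xc138 xc139)) (XT.nd (nat_lit 38844) (nat_lit 0) (nat_lit 0) (XT.nd (nat_lit 34398) (nat_lit 0) (nat_lit 2128) xc140 xc141) (XT.nd (nat_lit 34476) (nat_lit 0) (nat_lit 4560) xc142 xc143)))) (XT.nd (nat_lit 126126) (nat_lit 0) (nat_lit 76) (XT.nd (nat_lit 78078) (nat_lit 0) (nat_lit 76) (XT.nd (nat_lit 39000) (nat_lit 0) (nat_lit 0) (XT.nd (nat_lit 4446) (nat_lit 380) (nat_lit 0) xc144 xc145) (XT.nd (nat_lit 4446) (nat_lit 1216) (nat_lit 0) xc146 xc147)) (XT.nd (nat_lit 39156) (nat_lit 0) (nat_lit 456) (XT.nd (nat_lit 4446) (nat_lit 2812) (nat_lit 0) xc148 xc149) (XT.nd (nat_lit 4446) (nat_lit 4788) (nat_lit 0) xc150 xc151))) (XT.nd (nat_lit 78546) (nat_lit 0) (nat_lit 0) (XT.nd (nat_lit 39234) (nat_lit 0) (nat_lit 0) (XT.nd (nat_lit 34788) (nat_lit 0) (nat_lit 1444) xc152 xc153) (XT.nd (nat_lit 34866) (nat_lit 0) (nat_lit 2812) xc154 xc155)) (XT.nd (nat_lit 39468) (nat_lit 0) (nat_lit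 76) (XT.nd (nat_lit 35022) (nat_lit 0) (nat_lit 4712) xc156 xc157) (XT.nd (nat_lit 4446) (nat_lit 228) (nat_lit 0) xc158 xc159))))) (XT.nd (nat_lit 288912) (nat_lit 0) (nat_lit 380) (XT.nd (nat_lit 159276) (nat_lit 0) (nat_lit 152) (XT.nd (nat_lit 79326) (nat_lit 0) (nat_lit 0) (XT.nd (nat_lit 39624) (nat_lit 0) (nat_lit 0) (XT.nd (nat_lit 4446) (nat_lit 912) (nat_lit 0) xc160 xc161) (XT.nd (nat_lit 4446) (nat_lit 1748) (nat_lit 0) xc162 xc163)) (XT.nd (nat_lit 39858) (nat_lit 0) (nat_lit 152) (XT.nd (nat_lit 4446) (nat_lit 2736) (nat_lit 0) xc164 xc165) (XT.nd (nat_lit 4446) (nat_lit 3952) (nat_lit 0) xc166 xc167))) (XT.nd (nat_lit 49062) (nat_lit 0) (nat_lit 0) (XT.nd (nat_lit 8892) (nat_lit 228) (nat_lit 0) (XT.nd (nat_lit 4446) (nat_lit 4484) (nat_lit 0) xc168 xc169) (XT.nd (nat_lit 35724) (nat_lit 0) (nat_lit 532) xc170 xc171)) (XT.nd (nat_lit 40248) (nat_lit 0) (nat_lit 76) (XT.nd (nat_lit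 35802) (nat_lit 0) (nat_lit 836) xc172 xc173) (XT.nd (nat_lit 35880) (nat_lit 0) (nat_lit 988) xc174 xc175)))) (XT.nd (nat_lit 163020) (nat_lit 0) (nat_lit 228) (XT.nd (nat_lit 81354) (nat_lit 0) (nat_lit 76) (XT.nd (nat_lit 40638) (nat_lit 0) (nat_lit 0) (XT.nd (nat_lit 36192) (nat_lit 0) (nat_lit 912) xc176 xc177) (XT.nd (nat_lit 36270) (nat_lit 0) (nat_lit 912) xc178 xc179)) (XT.nd (nat_lit 40794) (nat_lit 0) (nat_lit 0) (XT.nd (nat_lit 36348) (nat_lit 0) (nat_lit 760) xc180 xc181) (XT.nd (nat_lit 36426) (nat_lit 0) (nat_lit 608) xc182 xc183))) (XT.nd (nat_lit 114426) (nat_lit 0) (nat_lit 152) (XT.nd (nat_lit 41028) (nat_lit 0) (nat_lit 76) (XT.nd (nat_lit 36582) (nat_lit 0) (nat_lit 304) xc184 xc185) (XT.nd (nat_lit 36660) (nat_lit 0) (nat_lit 0) xc186 xc187)) (XT.nd (nat_lit 41262) (nat_lit 0) (nat_lit 0) (XT.nd (nat_lit 4446) (nat_lit 4408) (nat_lit 0) xc188 xc189) (XT.nd (nat_lit 4446) (nat_lit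 3344) (nat_lit 0) xc190 xc191)))))) (XT.nd (nat_lit 778050) (nat_lit 0) (nat_lit 1368) (XT.nd (nat_lit 368004) (nat_lit 0) (nat_lit 608) (XT.nd (nat_lit 166530) (nat_lit 0) (nat_lit 152) (XT.nd (nat_lit 83070) (nat_lit 0) (nat_lit 76) (XT.nd (nat_lit 41496) (nat_lit 0) (nat_lit 0) (XT.nd (nat_lit 4446) (nat_lit 2204) (nat_lit 0) xc192 xc193) (XT.nd (nat_lit 4446) (nat_lit 1216) (nat_lit 0) xc194 xc195)) (XT.nd (nat_lit 41652) (nat_lit 0) (nat_lit 76) (XT.nd (nat_lit 4446) (nat_lit 380) (nat_lit 0) xc196 xc197) (XT.nd (nat_lit 37362) (nat_lit 0) (nat_lit 3040) xc198 xc199))) (XT.nd (nat_lit 83850) (nat_lit 0) (nat_lit 152) (XT.nd (nat_lit 41886) (nat_lit 0) (nat_lit 152) (XT.nd (nat_lit 37440) (nat_lit 0) (nat_lit 1368) xc200 xc201) (XT.nd (nat_lit 37518) (nat_lit 0) (nat_lit 152) xc202 xc203)) (XT.nd (nat_lit 75348) (nat_lit 0) (nat_lit 152) (XT.nd (nat_lit 37596) (nat_lit 0) (nat_lit 152) xc204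 xc205) (XT.nd (nat_lit 4446) (nat_lit 1748) (nat_lit 0) xc206 xc207)))) (XT.nd (nat_lit 203814) (nat_lit 0) (nat_lit 380) (XT.nd (nat_lit 84786) (nat_lit 0) (nat_lit 0) (XT.nd (nat_lit 42354) (nat_lit 0) (nat_lit 0) (XT.nd (nat_lit 37908) (nat_lit 0) (nat_lit 3344) xc208 xc209) (XT.nd (nat_lit 37986) (nat_lit 0) (nat_lit 912) xc210 xc211)) (XT.nd (nat_lit 76284) (nat_lit 0) (nat_lit 380) (XT.nd (nat_lit 38064) (nat_lit 0) (nat_lit 228) xc212 xc213) (XT.nd (nat_lit 4446) (nat_lit 1444) (nat_lit 0) xc214 xc215))) (XT.nd (nat_lit 119886) (nat_lit 0) (nat_lit 380) (XT.nd (nat_lit 42822) (nat_lit 0) (nat_lit 0) (XT.nd (nat_lit 38376) (nat_lit 0) (nat_lit 1976) xc216 xc217) (XT.nd (nat_lit 38454) (nat_lit 0) (nat_lit 228) xc218 xc219)) (XT.nd (nat_lit 43134) (nat_lit 0) (nat_lit 0) (XT.nd (nat_lit 4446) (nat_lit 1292) (nat_lit 0) xc220 xc221) (XT.nd (nat_lit 38766) (nat_lit 0) (nat_lit 836) xc222 xc223)))))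 (XT.nd (nat_lit 527046) (nat_lit 0) (nat_lit 2356) (XT.nd (nat_lit 243516) (nat_lit 0) (nat_lit 836) (XT.nd (nat_lit 121368) (nat_lit 0) (nat_lit 456) (XT.nd (nat_lit 77844) (nat_lit 0) (nat_lit 456) (XT.nd (nat_lit 38844) (nat_lit 0) (nat_lit 152) xc224 xc225) (XT.nd (nat_lit 39078) (nat_lit 0) (nat_lit 1368) xc226 xc227)) (XT.nd (nat_lit 78390) (nat_lit 0) (nat_lit 152) (XT.nd (nat_lit 39156) (nat_lit 0) (nat_lit 152) xc228 xc229) (XT.nd (nat_lit 39312) (nat_lit 0) (nat_lit 1216) xc230 xc231))) (XT.nd (nat_lit 158574) (nat_lit 0) (nat_lit 760) (XT.nd (nat_lit 79014) (nat_lit 0) (nat_lit 228) (XT.nd (nat_lit 39468) (nat_lit 0) (nat_lit 76) xc232 xc233) (XT.nd (nat_lit 39702) (nat_lit 0) (nat_lit 228) xc234 xc235)) (XT.nd (nat_lit 44460) (nat_lit 0) (nat_lit 228) (XT.nd (nat_lit 40014) (nat_lit 0) (nat_lit 1292) xc236 xc237) (XT.nd (nat_lit 40170) (nat_lit 0) (nat_lit 228) xc238 xc239)))) (XT.nd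 (nat_lit 365040) (nat_lit 0) (nat_lit 2888) (XT.nd (nat_lit 162786) (nat_lit 0) (nat_lit 1140) (XT.nd (nat_lit 81120) (nat_lit 0) (nat_lit 532) (XT.nd (nat_lit 40482) (nat_lit 0) (nat_lit 228) xc240 xc241) (XT.nd (nat_lit 40794) (nat_lit 0) (nat_lit 304) xc242 xc243)) (XT.nd (nat_lit 119106) (nat_lit 0) (nat_lit 988) (XT.nd (nat_lit 41028) (nat_lit 0) (nat_lit 304) xc244 xc245) (XT.nd (nat_lit 41496) (nat_lit 0) (nat_lit 380) xc246 xc247))) (XT.nd (nat_lit 244296) (nat_lit 0) (nat_lit 2660) (XT.nd (nat_lit 121446) (nat_lit 0) (nat_lit 1292) (XT.nd (nat_lit 79326) (nat_lit 0) (nat_lit 836) xc248 xc249) (XT.nd (nat_lit 80262) (nat_lit 0) (nat_lit 912) xc250 xc251)) (XT.nd (nat_lit 201942) (nat_lit 0) (nat_lit 2812) (XT.nd (nat_lit 81198) (nat_lit 0) (nat_lit 1064) xc252 xc253) (XT.nd (nat_lit 122148) (nat_lit 0) (nat_lit 608) xc254 xc255)))))))) XT.nil))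

set_option maxRecDepth 10000000 in
noncomputable def Te : XT := XT.nil

set_option maxRecDepth 10000000 in
noncomputable def Tz : ZL := (ZL.cons (nat_lit 76) (nat_lit 3) (nat_lit 109123633589194412662) (ZL.cons (nat_lit 152) (nat_lit 6) (nat_lit 215264633331950497876) (ZL.cons (nat_lit 228) (nat_lit 6) (nat_lit 212376662915192632678) (ZL.cons (nat_lit 304) (nat_lit 3) (nat_lit 106142976175558480853) (ZL.cons (nat_lit 380) (nat_lit 6) (nat_lit 209402053385932031522) (ZL.cons (nat_lit 456) (nat_lit 6) (nat_lit 206610416524678555442) (ZL.cons (nat_lit 532) (nat_lit 3) (nat_lit 103261174007933612202) (ZL.cons (nat_lit 608) (nat_lit 6) (nat_lit 203735030557587475082) (ZL.cons (nat_lit 684) (nat_lit 6) (nat_lit 201037665490983607078) (ZL.cons (nat_lit 760) (nat_lit 3) (nat_lit 100476081042185332159) (ZL.cons (nat_lit 836) (nat_lit 6) (nat_lit 198259379472381623032) (ZL.cons (nat_lit 912) (nat_lit 6)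 (nat_lit 195654329804774923902) (ZL.cons (nat_lit 988) (nat_lit 3) (nat_lit 97785658394322926633) (ZL.cons (nat_lit 1064) (nat_lit 6) (nat_lit 192971128647140023798) (ZL.cons (nat_lit 1140) (nat_lit 6) (nat_lit 190456543038808449926) (ZL.cons (nat_lit 1216) (nat_lit 3) (nat_lit 95187973938759045042) (ZL.cons (nat_lit 1292) (nat_lit 6) (nat_lit 187866519862226928838) (ZL.cons (nat_lit 1368) (nat_lit 6) (nat_lit 185440651897175508952) (ZL.cons (nat_lit 1444) (nat_lit 3) (nat_lit 92681202083883696299) (ZL.cons (nat_lit 1520) (nat_lit 6) (nat_lit 182942007893172546468) (ZL.cons (nat_lit 1596) (nat_lit 6) (nat_lit 180603216129076239606) (ZL.cons (nat_lit 1672) (nat_lit 3) (nat_lit 90263623729873985653) (ZL.cons (nat_lit 1748) (nat_lit 6) (nat_lit 178343985271024407282) (ZL.cons (nat_lit 1824) (nat_lit 6) (nat_lit 178194260612057043540) (ZL.cons (nat_lit 1900) (nat_lit 6) (nat_lit 175941008817902751688)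 (ZL.cons (nat_lit 1976) (nat_lit 3) (nat_lit 87933626414131828123) (ZL.cons (nat_lit 2052) (nat_lit 6) (nat_lit 173765523216494087140) (ZL.cons (nat_lit 2128) (nat_lit 6) (nat_lit 173620159469923831076) (ZL.cons (nat_lit 2204) (nat_lit 6) (nat_lit 171451017057404067214) (ZL.cons (nat_lit 2280) (nat_lit 3) (nat_lit 85689704650236453296) (ZL.cons (nat_lit 2356) (nat_lit 6) (nat_lit 169357930223547793990) (ZL.cons (nat_lit 2432) (nat_lit 6) (nat_lit 169216800372508710436) (ZL.cons (nat_lit 2508) (nat_lit 6) (nat_lit 167130443027744671946) (ZL.cons (nat_lit 2584) (nat_lit 3) (nat_lit 83530460466818374507) (ZL.cons (nat_lit 2660) (nat_lit 6) (nat_lit 165118514235491191480) (ZL.cons (nat_lit 2736) (nat_lit 6) (nat_lit 164981494962637712304) (ZL.cons (nat_lit 2812) (nat_lit 6) (nat_lit 163179255999716202892) (ZL.cons (nat_lit 2888) (nat_lit 6) (nat_lit 162976705485362183670) (ZL.cons (nat_lit 2964) (nat_lit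 3) (nat_lit 81454604153308313713) (ZL.cons (nat_lit 3040) (nat_lit 6) (nat_lit 161044800744014485468) (ZL.cons (nat_lit 3116) (nat_lit 6) (nat_lit 160911772323768389178) (ZL.cons (nat_lit 3192) (nat_lit 6) (nat_lit 159184092666490527478) (ZL.cons (nat_lit 3268) (nat_lit 6) (nat_lit 158987441681680800076) (ZL.cons (nat_lit 3344) (nat_lit 3) (nat_lit 79460955220090130015) (ZL.cons (nat_lit 3420) (nat_lit 6) (nat_lit 157134534926394754456) (ZL.cons (nat_lit 3496) (nat_lit 6) (nat_lit 157005381120330583298) (ZL.cons (nat_lit 3572) (nat_lit 6) (nat_lit 155351433013172623734) (ZL.cons (nat_lit 3648) (nat_lit 6) (nat_lit 155160509726949587420) (ZL.cons (nat_lit 3724) (nat_lit 3) (nat_lit 77548443581192978154) (ZL.cons (nat_lit 3800) (nat_lit 6) (nat_lit 153636577891798971098) (ZL.cons (nat_lit 3876) (nat_lit 6) (nat_lit 153385684236489657934) (ZL.cons (nat_lit 3952) (nat_lit 6) (nat_lit 153260292191767161666)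 (ZL.cons (nat_lit 4028) (nat_lit 6) (nat_lit 151679353830561072568) (ZL.cons (nat_lit 4104) (nat_lit 6) (nat_lit 151493991416752299450) (ZL.cons (nat_lit 4180) (nat_lit 3) (nat_lit 75716110968296717147) (ZL.cons (nat_lit 4256) (nat_lit 6) (nat_lit 150040027540847971398) (ZL.cons (nat_lit 4332) (nat_lit 6) (nat_lit 149796441467732133376) (ZL.cons (nat_lit 4408) (nat_lit 6) (nat_lit 149674701618486991370) (ZL.cons (nat_lit 4484) (nat_lit 6) (nat_lit 148166159048634704074) (ZL.cons (nat_lit 4560) (nat_lit 6) (nat_lit 147986195540082497164) (ZL.cons (nat_lit 4636) (nat_lit 3) (nat_lit 73963112585498110157) (ZL.cons (nat_lit 4712) (nat_lit 6) (nat_lit 146601719640841382722) (ZL.cons (nat_lit 4788) (nat_lit 6) (nat_lit 146365228307719209886) (ZL.cons (nat_lit 4864) (nat_lit 6) (nat_lit 146247034279325868132) (ZL.cons (nat_lit 4940) (nat_lit 6) (nat_lit 145101756258461864478) (ZL.cons (nat_lit 5016) (nat_lit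 6) (nat_lit 144810383542262054820) (ZL.cons (nat_lit 5092) (nat_lit 6) (nat_lit 144635661689298747140) (ZL.cons (nat_lit 5168) (nat_lit 3) (nat_lit 72288719014995841118) (ZL.cons (nat_lit 5244) (nat_lit 6) (nat_lit 143320302641488787850) (ZL.cons (nat_lit 5320) (nat_lit 6) (nat_lit 143090699405447843348) (ZL.cons (nat_lit 5396) (nat_lit 6) (nat_lit 142975947921570812518) (ZL.cons (nat_lit 5472) (nat_lit 6) (nat_lit 141893683592961840102) (ZL.cons (nat_lit 5548) (nat_lit 6) (nat_lit 141610797460729015190) (ZL.cons (nat_lit 5624) (nat_lit 6) (nat_lit 141441164593774347538) (ZL.cons (nat_lit 5700) (nat_lit 3) (nat_lit 70692318384602190806) (ZL.cons (nat_lit 5776) (nat_lit 6) (nat_lit 140194662736938139420) (ZL.cons (nat_lit 5852) (nat_lit 6) (nat_lit 139971746973791591358) (ZL.cons (nat_lit 5928) (nat_lit 6) (nat_lit 139860337766143988610) (ZL.cons (nat_lit 6004) (nat_lit 6) (nat_lit 138841057834802000704)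 (ZL.cons (nat_lit 6080) (nat_lit 6) (nat_lit 138566411104478869722) (ZL.cons (nat_lit 6156) (nat_lit 6) (nat_lit 138401719000639386564) (ZL.cons (nat_lit 6232) (nat_lit 3) (nat_lit 69173418808780874871) (ZL.cons (nat_lit 6308) (nat_lit 6) (nat_lit 137548799992755625720) (ZL.cons (nat_lit 6384) (nat_lit 6) (nat_lit 137223929022455229766) (ZL.cons (nat_lit 6460) (nat_lit 6) (nat_lit 137007505951439163688) (ZL.cons (nat_lit 6536) (nat_lit 6) (nat_lit 136899341672169646456) (ZL.cons (nat_lit 6612) (nat_lit 6) (nat_lit 135943127685124728506) (ZL.cons (nat_lit 6688) (nat_lit 6) (nat_lit 135676480374131397456) (ZL.cons (nat_lit 6764) (nat_lit 6) (nat_lit 135516585127685297304) (ZL.cons (nat_lit 6840) (nat_lit 3) (nat_lit 67731651115746708447) (ZL.cons (nat_lit 6916) (nat_lit 6) (nat_lit 134722887945687756764) (ZL.cons (nat_lit 6992) (nat_lit 6) (nat_lit 134407479236658246130) (ZL.cons (nat_lit 7068) (nat_lit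 6) (nat_lit 134197359750234881006) (ZL.cons (nat_lit 7144) (nat_lit 6) (nat_lit 134092345886866417676) (ZL.cons (nat_lit 7220) (nat_lit 6) (nat_lit 133562143575245777382) (ZL.cons (nat_lit 7296) (nat_lit 6) (nat_lit 133199393703074344820) (ZL.cons (nat_lit 7372) (nat_lit 6) (nat_lit 132940512818614800112) (ZL.cons (nat_lit 7448) (nat_lit 6) (nat_lit 132785274715269071810) (ZL.cons (nat_lit 7524) (nat_lit 3) (nat_lit 66366771874046244445) (ZL.cons (nat_lit 7600) (nat_lit 6) (nat_lit 132051168164661027984) (ZL.cons (nat_lit 7676) (nat_lit 6) (nat_lit 131744946117059561348) (ZL.cons (nat_lit 7752) (nat_lit 6) (nat_lit 131540946615677653462) (ZL.cons (nat_lit 7828) (nat_lit 6) (nat_lit 131438991408523805570) (ZL.cons (nat_lit 7904) (nat_lit 6) (nat_lit 130961799317549779132) (ZL.cons (nat_lit 7980) (nat_lit 6) (nat_lit 130609614975635766934) (ZL.cons (nat_lit 8056) (nat_lit 6) (nat_lit 130358274311111937120)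 (ZL.cons (nat_lit 8132) (nat_lit 6) (nat_lit 130207557705921909644) (ZL.cons (nat_lit 8208) (nat_lit 3) (nat_lit 65078666732972322336) (ZL.cons (nat_lit 8284) (nat_lit 6) (nat_lit 129930335286048947652) (ZL.cons (nat_lit 8360) (nat_lit 6) (nat_lit 129533527357423726176) (ZL.cons (nat_lit 8436) (nat_lit 6) (nat_lit 129236224398587350800) (ZL.cons (nat_lit 8512) (nat_lit 6) (nat_lit 129038166630255401396) (ZL.cons (nat_lit 8588) (nat_lit 6) (nat_lit 128939180992241956840) (ZL.cons (nat_lit 8664) (nat_lit 6) (nat_lit 128955874790907707582) (ZL.cons (nat_lit 8740) (nat_lit 6) (nat_lit 128515742991689079034) (ZL.cons (nat_lit 8816) (nat_lit 6) (nat_lit 128173816446141494380) (ZL.cons (nat_lit 8892) (nat_lit 6) (nat_lit 127929796383496999414) (ZL.cons (nat_lit 8968) (nat_lit 6) (nat_lit 127783469582341632930) (ZL.cons (nat_lit 9044) (nat_lit 3) (nat_lit 63867354092152726673) (ZL.cons (nat_lit 9120) (nat_lit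 6) (nat_lit 127555372552287008832) (ZL.cons (nat_lit 9196) (nat_lit 6) (nat_lit 127170122136146017106) (ZL.cons (nat_lit 9272) (nat_lit 6) (nat_lit 126881478486790312862) (ZL.cons (nat_lit 9348) (nat_lit 6) (nat_lit 126689189391322400816) (ZL.cons (nat_lit 9424) (nat_lit 6) (nat_lit 126593086830144299304) (ZL.cons (nat_lit 9500) (nat_lit 6) (nat_lit 126651576880581144824) (ZL.cons (nat_lit 9576) (nat_lit 6) (nat_lit 126224264454155291866) (ZL.cons (nat_lit 9652) (nat_lit 6) (nat_lit 125892296934206180550) (ZL.cons (nat_lit 9728) (nat_lit 6) (nat_lit 125655384252027059226) (ZL.cons (nat_lit 9804) (nat_lit 6) (nat_lit 125513319396536412152) (ZL.cons (nat_lit 9880) (nat_lit 3) (nat_lit 62732989116697245112) (ZL.cons (nat_lit 9956) (nat_lit 6) (nat_lit 125803566252198151792) (ZL.cons (nat_lit 10032) (nat_lit 6) (nat_lit 125335416922583113172) (ZL.cons (nat_lit 10108) (nat_lit 6) (nat_lit 124961387392349140624)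 (ZL.cons (nat_lit 10184) (nat_lit 6) (nat_lit 124681150839576612228) (ZL.cons (nat_lit 10260) (nat_lit 6) (nat_lit 124494462397374755876) (ZL.cons (nat_lit 10336) (nat_lit 6) (nat_lit 124401158939920288386) (ZL.cons (nat_lit 10412) (nat_lit 6) (nat_lit 124502802878537816010) (ZL.cons (nat_lit 10488) (nat_lit 6) (nat_lit 124087936445114657800) (ZL.cons (nat_lit 10564) (nat_lit 6) (nat_lit 123765637882057268172) (ZL.cons (nat_lit 10640) (nat_lit 6) (nat_lit 123535625569262004748) (ZL.cons (nat_lit 10716) (nat_lit 6) (nat_lit 123397698525096327980) (ZL.cons (nat_lit 10792) (nat_lit 3) (nat_lit 61675868115391891209) (ZL.cons (nat_lit 10868) (nat_lit 6) (nat_lit 123725694795184797698) (ZL.cons (nat_lit 10944) (nat_lit 6) (nat_lit 123271180882937187386) (ZL.cons (nat_lit 11020) (nat_lit 6) (nat_lit 122908045416690612096) (ZL.cons (nat_lit 11096) (nat_lit 6) (nat_lit 122635971093610487440) (ZL.cons (nat_lit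 11172) (nat_lit 6) (nat_lit 122454720178851403600) (ZL.cons (nat_lit 11248) (nat_lit 6) (nat_lit 122364134297827648760) (ZL.cons (nat_lit 11324) (nat_lit 6) (nat_lit 123003413646043458508) (ZL.cons (nat_lit 11400) (nat_lit 6) (nat_lit 122510407035908030626) (ZL.cons (nat_lit 11476) (nat_lit 6) (nat_lit 122107624090837003234) (ZL.cons (nat_lit 11552) (nat_lit 6) (nat_lit 121794712864567692916) (ZL.cons (nat_lit 11628) (nat_lit 6) (nat_lit 121571399939523747844) (ZL.cons (nat_lit 11704) (nat_lit 6) (nat_lit 121437490187906585932) (ZL.cons (nat_lit 11780) (nat_lit 3) (nat_lit 60696433300597688327) (ZL.cons (nat_lit 11856) (nat_lit 6) (nat_lit 122335328311663092414) (ZL.cons (nat_lit 11932) (nat_lit 6) (nat_lit 121804950150180268830) (ZL.cons (nat_lit 12008) (nat_lit 6) (nat_lit 121363674507221423868) (ZL.cons (nat_lit 12084) (nat_lit 6) (nat_lit 121011115802127661448) (ZL.cons (nat_lit 12160) (nat_lit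 6) (nat_lit 120746965973894530714) (ZL.cons (nat_lit 12236) (nat_lit 6) (nat_lit 120570994211992507570) (ZL.cons (nat_lit 12312) (nat_lit 6) (nat_lit 120483046754687891220) (ZL.cons (nat_lit 12388) (nat_lit 6) (nat_lit 121720855028159289394) (ZL.cons (nat_lit 12464) (nat_lit 6) (nat_lit 121154193807115887458) (ZL.cons (nat_lit 12540) (nat_lit 6) (nat_lit 120675546612809646794) (ZL.cons (nat_lit 12616) (nat_lit 6) (nat_lit 120284495209828066804) (ZL.cons (nat_lit 12692) (nat_lit 6) (nat_lit 119980697902770483968) (ZL.cons (nat_lit 12768) (nat_lit 6) (nat_lit 119763889237679275162) (ZL.cons (nat_lit 12844) (nat_lit 6) (nat_lit 119633879770089797580) (ZL.cons (nat_lit 12920) (nat_lit 3) (nat_lit 59795277949748195254) (ZL.cons (nat_lit 12996) (nat_lit 6) (nat_lit 120557569384667548696) (ZL.cons (nat_lit 13072) (nat_lit 6) (nat_lit 120042639130800729680) (ZL.cons (nat_lit 13148) (nat_lit 6) (nat_lit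 119614216176471753988) (ZL.cons (nat_lit 13224) (nat_lit 6) (nat_lit 119271926171526353582) (ZL.cons (nat_lit 13300) (nat_lit 6) (nat_lit 119015470027610692674) (ZL.cons (nat_lit 13376) (nat_lit 6) (nat_lit 118844623656832029430) (ZL.cons (nat_lit 13452) (nat_lit 6) (nat_lit 118759237775953761126) (ZL.cons (nat_lit 13528) (nat_lit 6) (nat_lit 120014555560524375358) (ZL.cons (nat_lit 13604) (nat_lit 6) (nat_lit 119464399035239519108) (ZL.cons (nat_lit 13680) (nat_lit 6) (nat_lit 118999693021349965064) (ZL.cons (nat_lit 13756) (nat_lit 6) (nat_lit 118620031465057168956) (ZL.cons (nat_lit 13832) (nat_lit 6) (nat_lit 118325082623253690478) (ZL.cons (nat_lit 13908) (nat_lit 6) (nat_lit 118114588773650575132) (ZL.cons (nat_lit 13984) (nat_lit 6) (nat_lit 117988365989583121166) (ZL.cons (nat_lit 14060) (nat_lit 3) (nat_lit 58973151989649129967) (ZL.cons (nat_lit 14136) (nat_lit 6) (nat_lit 119524677856587601560)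 (ZL.cons (nat_lit 14212) (nat_lit 6) (nat_lit 118940321067790087802) (ZL.cons (nat_lit 14288) (nat_lit 6) (nat_lit 118440388782482496524) (ZL.cons (nat_lit 14364) (nat_lit 6) (nat_lit 118024444166629122064) (ZL.cons (nat_lit 14440) (nat_lit 6) (nat_lit 117692123773478247884) (ZL.cons (nat_lit 14516) (nat_lit 6) (nat_lit 117443137225987314968) (ZL.cons (nat_lit 14592) (nat_lit 6) (nat_lit 117277266963095408900) (ZL.cons (nat_lit 14668) (nat_lit 6) (nat_lit 117194368049621362006) (ZL.cons (nat_lit 14744) (nat_lit 6) (nat_lit 118369810925427082586) (ZL.cons (nat_lit 14820) (nat_lit 6) (nat_lit 118702664671013235236) (ZL.cons (nat_lit 14896) (nat_lit 6) (nat_lit 119087508224378059252) (ZL.cons (nat_lit 14972) (nat_lit 6) (nat_lit 118469947296247868300) (ZL.cons (nat_lit 15048) (nat_lit 6) (nat_lit 117935814747427619514) (ZL.cons (nat_lit 15124) (nat_lit 6) (nat_lit 117484643860156207820) (ZL.cons (nat_lit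 15200) (nat_lit 6) (nat_lit 117116040407444755288) (ZL.cons (nat_lit 15276) (nat_lit 6) (nat_lit 116829682308606426670) (ZL.cons (nat_lit 15352) (nat_lit 6) (nat_lit 116625319347826703032) (ZL.cons (nat_lit 15428) (nat_lit 6) (nat_lit 116502772955528204036) (ZL.cons (nat_lit 15504) (nat_lit 3) (nat_lit 58230968026169509187) (ZL.cons (nat_lit 15580) (nat_lit 6) (nat_lit 116600694684562950272) (ZL.cons (nat_lit 15656) (nat_lit 6) (nat_lit 116652354546737245160) (ZL.cons (nat_lit 15732) (nat_lit 6) (nat_lit 116755719410771229948) (ZL.cons (nat_lit 15808) (nat_lit 6) (nat_lit 116910879595478138218) (ZL.cons (nat_lit 15884) (nat_lit 6) (nat_lit 117117970677718393482) (ZL.cons (nat_lit 15960) (nat_lit 6) (nat_lit 117377173610864827030) (ZL.cons (nat_lit 16036) (nat_lit 6) (nat_lit 117688714882917275552) (ZL.cons (nat_lit 16112) (nat_lit 6) (nat_lit 118052866714404716914) (ZL.cons (nat_lit 16188) (nat_lit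 6) (nat_lit 117485530026251790934) (ZL.cons (nat_lit 16264) (nat_lit 6) (nat_lit 117000158875467721732) (ZL.cons (nat_lit 16340) (nat_lit 6) (nat_lit 116596329151338231966) (ZL.cons (nat_lit 16416) (nat_lit 6) (nat_lit 116273687992939324996) (ZL.cons (nat_lit 16492) (nat_lit 6) (nat_lit 116031953480812205656) (ZL.cons (nat_lit 16568) (nat_lit 6) (nat_lit 115870914390625889090) (ZL.cons (nat_lit 16644) (nat_lit 6) (nat_lit 115790430008612251326) (ZL.cons (nat_lit 16720) (nat_lit 3) (nat_lit 57900137579438091228) (ZL.cons (nat_lit 16796) (nat_lit 6) (nat_lit 115826486813082844396) (ZL.cons (nat_lit 16872) (nat_lit 6) (nat_lit 115905144679090001078) (ZL.cons (nat_lit 16948) (nat_lit 6) (nat_lit 116036317487071833516) (ZL.cons (nat_lit 17024) (nat_lit 6) (nat_lit 116220119854045024868) (ZL.cons (nat_lit 17100) (nat_lit 6) (nat_lit 116456712384019551702) (ZL.cons (nat_lit 17176) (nat_lit 6) (nat_lit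 116746301808332284968) (ZL.cons (nat_lit 17252) (nat_lit 6) (nat_lit 117089141166286022202) (ZL.cons (nat_lit 17328) (nat_lit 6) (nat_lit 116570565876169275806) (ZL.cons (nat_lit 17404) (nat_lit 6) (nat_lit 116132535888527128532) (ZL.cons (nat_lit 17480) (nat_lit 6) (nat_lit 115774668458710184328) (ZL.cons (nat_lit 17556) (nat_lit 6) (nat_lit 115496650887022486636) (ZL.cons (nat_lit 17632) (nat_lit 6) (nat_lit 115298240245488774368) (ZL.cons (nat_lit 17708) (nat_lit 6) (nat_lit 115179263165587319034) (ZL.cons (nat_lit 17784) (nat_lit 3) (nat_lit 57569807843381433466) (ZL.cons (nat_lit 17860) (nat_lit 6) (nat_lit 115074828685432256164) (ZL.cons (nat_lit 17936) (nat_lit 6) (nat_lit 115128038343471779898) (ZL.cons (nat_lit 18012) (nat_lit 6) (nat_lit 115234504153426784230) (ZL.cons (nat_lit 18088) (nat_lit 6) (nat_lit 115394319143674899750) (ZL.cons (nat_lit 18164) (nat_lit 6) (nat_lit 115607622958382362672)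 (ZL.cons (nat_lit 18240) (nat_lit 6) (nat_lit 115874601979523189224) (ZL.cons (nat_lit 18316) (nat_lit 6) (nat_lit 116195489489737211202) (ZL.cons (nat_lit 18392) (nat_lit 6) (nat_lit 115724255362762386734) (ZL.cons (nat_lit 18468) (nat_lit 6) (nat_lit 115332187669432785022) (ZL.cons (nat_lit 18544) (nat_lit 6) (nat_lit 115018943826327050096) (ZL.cons (nat_lit 18620) (nat_lit 6) (nat_lit 114784250125232759476) (ZL.cons (nat_lit 18696) (nat_lit 6) (nat_lit 114627901493983908440) (ZL.cons (nat_lit 18772) (nat_lit 6) (nat_lit 114549761317271638768) (ZL.cons (nat_lit 18848) (nat_lit 3) (nat_lit 57198361687565125900) (ZL.cons (nat_lit 18924) (nat_lit 6) (nat_lit 114423721378963113594) (ZL.cons (nat_lit 19000) (nat_lit 6) (nat_lit 114504738980950484978) (ZL.cons (nat_lit 19076) (nat_lit 6) (nat_lit 114639846973171772392) (ZL.cons (nat_lit 19152) (nat_lit 6) (nat_lit 114829163411154159482) (ZL.cons (nat_lit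 19228) (nat_lit 6) (nat_lit 115072853717027922122) (ZL.cons (nat_lit 19304) (nat_lit 6) (nat_lit 115371130824070037386) (ZL.cons (nat_lit 19380) (nat_lit 6) (nat_lit 114945858991407758480) (ZL.cons (nat_lit 19456) (nat_lit 6) (nat_lit 114598414884789366046) (ZL.cons (nat_lit 19532) (nat_lit 6) (nat_lit 114328494912277038192) (ZL.cons (nat_lit 19608) (nat_lit 6) (nat_lit 114135863221467608804) (ZL.cons (nat_lit 19684) (nat_lit 6) (nat_lit 114020351493407943430) (ZL.cons (nat_lit 19760) (nat_lit 3) (nat_lit 56990929397760062930) (ZL.cons (nat_lit 19836) (nat_lit 6) (nat_lit 113791578362973654792) (ZL.cons (nat_lit 19912) (nat_lit 6) (nat_lit 113846384310754364236) (ZL.cons (nat_lit 19988) (nat_lit 6) (nat_lit 113956044095008018702) (ZL.cons (nat_lit 20064) (nat_lit 6) (nat_lit 114120653534963577686) (ZL.cons (nat_lit 20140) (nat_lit 6) (nat_lit 114340356464112264494) (ZL.cons (nat_lit 20216) (nat_lit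 6) (nat_lit 114615344855887315846) (ZL.cons (nat_lit 20292) (nat_lit 6) (nat_lit 114234696609936246218) (ZL.cons (nat_lit 20368) (nat_lit 6) (nat_lit 113930576373911260856) (ZL.cons (nat_lit 20444) (nat_lit 6) (nat_lit 113702718411683794234) (ZL.cons (nat_lit 20520) (nat_lit 6) (nat_lit 113550923624063550508) (ZL.cons (nat_lit 20596) (nat_lit 6) (nat_lit 113475059374828337236) (ZL.cons (nat_lit 20672) (nat_lit 3) (nat_lit 56615528468764133531) (ZL.cons (nat_lit 20748) (nat_lit 6) (nat_lit 113258864881476114712) (ZL.cons (nat_lit 20824) (nat_lit 6) (nat_lit 113342313011523107238) (ZL.cons (nat_lit 20900) (nat_lit 6) (nat_lit 113481474243511033274) (ZL.cons (nat_lit 20976) (nat_lit 6) (nat_lit 113676470174632891976) (ZL.cons (nat_lit 21052) (nat_lit 6) (nat_lit 113927471189682867496) (ZL.cons (nat_lit 21128) (nat_lit 6) (nat_lit 113590146814325204940) (ZL.cons (nat_lit 21204) (nat_lit 6) (nat_lit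 113328088588585080810) (ZL.cons (nat_lit 21280) (nat_lit 6) (nat_lit 113141067529546799850) (ZL.cons (nat_lit 21356) (nat_lit 6) (nat_lit 113028920220751008226) (ZL.cons (nat_lit 21432) (nat_lit 3) (nat_lit 56495774334701806262) (ZL.cons (nat_lit 21508) (nat_lit 6) (nat_lit 112741667326624134054) (ZL.cons (nat_lit 21584) (nat_lit 6) (nat_lit 112798117452838264786) (ZL.cons (nat_lit 21660) (nat_lit 6) (nat_lit 112911067030619528882) (ZL.cons (nat_lit 21736) (nat_lit 6) (nat_lit 113080614753773754636) (ZL.cons (nat_lit 21812) (nat_lit 6) (nat_lit 113306908770796902050) (ZL.cons (nat_lit 21888) (nat_lit 6) (nat_lit 113011646405724100726) (ZL.cons (nat_lit 21964) (nat_lit 6) (nat_lit 112790425083173162258) (ZL.cons (nat_lit 22040) (nat_lit 6) (nat_lit 112643051502959333400) (ZL.cons (nat_lit 22116) (nat_lit 6) (nat_lit 112569396892051359346) (ZL.cons (nat_lit 22192) (nat_lit 3) (nat_lit 56147169863002431139)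 (ZL.cons (nat_lit 22268) (nat_lit 6) (nat_lit 112322981908271145360) (ZL.cons (nat_lit 22344) (nat_lit 6) (nat_lit 112408933482219547662) (ZL.cons (nat_lit 22420) (nat_lit 6) (nat_lit 112552269551167111476) (ZL.cons (nat_lit 22496) (nat_lit 6) (nat_lit 112753115360222625942) (ZL.cons (nat_lit 22572) (nat_lit 6) (nat_lit 112498689898339010280) (ZL.cons (nat_lit 22648) (nat_lit 6) (nat_lit 112317116054612523914) (ZL.cons (nat_lit 22724) (nat_lit 6) (nat_lit 112208235172286512626) (ZL.cons (nat_lit 22800) (nat_lit 3) (nat_lit 56085976056362967137) (ZL.cons (nat_lit 22876) (nat_lit 6) (nat_lit 111916491210841059246) (ZL.cons (nat_lit 22952) (nat_lit 6) (nat_lit 111974634840841613898) (ZL.cons (nat_lit 23028) (nat_lit 6) (nat_lit 112090972905956315918) (ZL.cons (nat_lit 23104) (nat_lit 6) (nat_lit 112265607060805168444) (ZL.cons (nat_lit 23180) (nat_lit 6) (nat_lit 112050829077746004884) (ZL.cons (nat_lit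 23256) (nat_lit 6) (nat_lit 111907747931907336088) (ZL.cons (nat_lit 23332) (nat_lit 6) (nat_lit 111836238600928720502) (ZL.cons (nat_lit 23408) (nat_lit 3) (nat_lit 55789145087250854158) (ZL.cons (nat_lit 23484) (nat_lit 6) (nat_lit 111607791622235979886) (ZL.cons (nat_lit 23560) (nat_lit 6) (nat_lit 111696321743402834256) (ZL.cons (nat_lit 23636) (nat_lit 6) (nat_lit 111843957894418824988) (ZL.cons (nat_lit 23712) (nat_lit 6) (nat_lit 111667672609247478998) (ZL.cons (nat_lit 23788) (nat_lit 6) (nat_lit 111561963014756205904) (ZL.cons (nat_lit 23864) (nat_lit 3) (nat_lit 55763368371669084335) (ZL.cons (nat_lit 23940) (nat_lit 6) (nat_lit 111308083283784446526) (ZL.cons (nat_lit 24016) (nat_lit 6) (nat_lit 111367971222685017814) (ZL.cons (nat_lit 24092) (nat_lit 6) (nat_lit 111487799429753160896) (ZL.cons (nat_lit 24168) (nat_lit 6) (nat_lit 111348885695929210608) (ZL.cons (nat_lit 24244) (nat_lit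 6) (nat_lit 111279459160998515866) (ZL.cons (nat_lit 24320) (nat_lit 3) (nat_lit 55537623972207290219) (ZL.cons (nat_lit 24396) (nat_lit 6) (nat_lit 111105634435580880156) (ZL.cons (nat_lit 24472) (nat_lit 6) (nat_lit 111196820460382740156) (ZL.cons (nat_lit 24548) (nat_lit 6) (nat_lit 111094189786119368220) (ZL.cons (nat_lit 24624) (nat_lit 3) (nat_lit 55529994761303355356) (ZL.cons (nat_lit 24700) (nat_lit 6) (nat_lit 110909082155771592420) (ZL.cons (nat_lit 24776) (nat_lit 6) (nat_lit 110970766732839180850) (ZL.cons (nat_lit 24852) (nat_lit 6) (nat_lit 110903362329993846148) (ZL.cons (nat_lit 24928) (nat_lit 3) (nat_lit 55389071319273320818) (ZL.cons (nat_lit 25004) (nat_lit 6) (nat_lit 110809440724447930348) (ZL.cons (nat_lit 25080) (nat_lit 3) (nat_lit 55388118292557626577) (ZL.cons (nat_lit 25156) (nat_lit 6) (nat_lit 110712701470735637072) (ZL.cons (nat_lit 25232) (nat_lit 1) (nat_lit 18446744073709551617)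 ZL.nil))))))))))))))))))))))))))))))))))))))))))))))))))))))))))))))))))))))))))))))))))))))))))))))))))))))))))))))))))))))))))))))))))))))))))))))))))))))))))))))))))))))))))))))))))))))))))))))))))))))))))))))))))))))))))))))))))))))))))))))))))))))))))))))))))))))))))))))))))))))))))))))))))))))))))))))))))))))))))))))))))))))))))))

noncomputable def vl : XL := ⟨(nat_lit 0), (nat_lit 76), (nat_lit 213037656), (nat_lit 152), (nat_lit 168042832), (nat_lit 152), (nat_lit 168042832), (nat_lit 1), (nat_lit 4), (nat_lit 2), (nat_lit 5), (nat_lit 2), (nat_lit 4), (nat_lit 0), (nat_lit 0), (nat_lit 0)⟩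

noncomputable def cp0 : Nat := (nat_lit 14207619528695851757191126839947027222116827640790169178641706384101813202000232136172168894332883378428586179306257687428955832098221824664397821650238792457279978293790415005159702117819366700157706819507563775098670350738188536390007862944658954901459501668645966205494323551949154463631257610150150608709866207353635724692404476331571536374357135681006572388687040969487675608262081114700256367129825949869117681702054731687617290694906368824319346787534701266708388735521323075678444226303990728006169736384852549180523877580287272183787684967694546990331175926376683355873664271860736294806379126022940567045905787265353558168611079728327077220866777973203060891632665923021835231117135304390141556221192040503428178615796879268421654870803607496025126424677416522881372255926617125124746113116308752220064442186084780301833445960907308346245178467031860307088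07026467972813107718086332679169946860604421637865312922969077054869578553288379847998016267004559987415599729001966216333375062749141407576436188831329326933176373179281923077099339116419072754397319940141156249485848515554870662969783025634575562912034357506123831555835596045047111528826039061352190945519791772408935006297514363749963343292958817693931523855185478065558038794295749202726529363911503543873043152466690935425928799189363326173322648376714093648527478036589494827096792370864895985177485029811958371119357472310341269158843893194129045376892613731921213451607180468086981064629250881464950791449068720095017556558984257532831952873761117174677814482968167158535169148780261878974160590889626806598297944786974983097750497323283277783222117976563203375816954196496050503414898883602575625136842984307537346403495759081424714948487115319534501508435130586931604224156727975709973561441501641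58631081793614770562066900312283594351301270473174642852093097354079793601102254491850204479038527716376618425759249799493111244976060472662740102730615931021712034596519556994008723028183784645354947480141505983723628958249302929863593765147562790137663586045198056533952364816921083157669786327899621167168009792958873365244271552705646641169839062128974743110481260634433335877789934373848969925759242547907417329439829093146253952080247618578820431259265553891918593918742149066662674223303064208786032540878641053232644954809554574242576014244732055855402603100474778843359800609862213108357851489205011214619222074453291150701550779347675987964639885735529332397209066870460837441121694928514952251968473114949185092457588394729311395644792431419186474556432223933594119008639228307331024924578650615914381755500260483510655018852313547121154943695610231663347027395746145836853587117632751234807091665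09147963087850654213967020840010198871712256960772471306452567578133519994299678386800919373841870304435049449962017080483244498146247653385795736515524509657040370404386584344456901999566140934856024139192210325641820340777521952987338975058866594104055825601869669958317480250917232734646602213039667514273976238776022075353843125083239298754771947303315780147768448767869901809183602788934973385073521560486201280699735582574969585468600643754644623663859983683311976439152319339199857733972839020155916539894186086867893387537859939941398147930987307377690847999274750193085554797002982338295477822863783024038598035899128043507575142863502089443171673006940473393495398671563854658929664386175616684662416399891343743156915437271052094797955658605445450284228439410131681842748136451750728738914259300125380099656038560357900377061230312859558133536829734633016561132995745945714261243210313106810858370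44965357606642306075534769177539592314597743382302982097188856925395012994857992895732653279273007437636863384517285520740461273657356555506500242635239986269450825247246560748595170133002006233076075605988085192483227403032360515040943430841356470399377019562221977591598564322704014492575470452344323887930332097290157927454642453345997223852423773269288669183230430797158382070474775705084770500151476343055448276650484394830243893917117318486096762341039816607895325708231085443081642396769765920865256849080749607992113180384777636776959973613720255690474800362099506857942635605946995274417156424257714317592260995835583567266809285812888086739261534710721903640518934075023272412345431413003335530198117817153423029761136239448645256764873032016862906131468523450764421575578911436591231334566087934991651823035868267512033689911138008109659546483038470665806355556803837448020078401474601275265535074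52595896336037398511298620646876863214776387780345506298288264651577145605340008426161035436000618411400433173172891549046085496296719881490189607279768139442513825513198350567259350157383019904275080534649959443289972931786682796911642197302875924390711016427936900795311079857098658990693081244485732302423366891929426465881000996708406387266580225330171932845259146321425953937522182443902165502275160455903559501794834390917972025199839779069668896809603416881272449746103683155551243645402912699212368845001936874153114468693918995896414988696917956276052029313330417293925426804185030434944110011097823596653267938070893045393655995927639298940412023056385766077479629761613228769665935139060626546338327323385181619167773455697370022773981022449718525664000507894547476916337710503610139344408896099441519937485156032255886679458810698820283879435578347507223044056099632579620816719413330584823942873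37831440556608204843496974350894407680937197245869268773324967389457778802636332869959914722782583702431938763845819222048813591904250810066541977798863687758163731841494555450196543772263430469322907001303045360996025406332409036749845046116252389852325327027624999411518041124801402813290552819038536874682667359533824171732749411482140781728047666794219109768454356730014367994873859654538017697047493418148758262489181753343701715481694947224674661660954560903164379256678899001024509010490009649913639302874053716698601027349995078701034986108628228354500639393878360210879627823911998051246581139087865757923729671094535407914181710425401761676543645684504747086909474635046324600167869396020063992273293666873121425524711921200245845871460002904749676178994372744099230966251749871299921172910823796801118396907416937104246933185432616314008639766045783018903551108715543288161616361090223909496918145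14218228551450002665940223317577182845841833901457893169258908915144549443743522764472033603409218658786664148207872989184916238648321494567387358021535102654305624734302202622348210031701485484275355873076759366302236844170784748584374811107951982263919120295150068105128287334344435851581148678487640193798133346549411262508471800867521775951344271768709730220788967094933372619521697236448255036423659423484646893733054972229780166549906753673913543241239973943114137554725163297029668089571937932413971453834659119788694764164594177261153581121650108615948637530705373290262563026888747954628213048507002660734835843397273076392905224487694238003606782929130151503812601536220374223582950082758400784853387234845837469768363198228773240659773102256864977008967701295885183294722101837202581264861063913542089095085336259994715981580781404302316162544332829463124236712093337847080367484591983846548939464675037829712020128545919396665479187962766010428081544788425529709597403486231914078745349119736402970954789462263374278390379932762508130381134997987300625387985594821007707091337055770749278576270312489214156409762130985199285308387774117737552000090495430919712713935245266148117630328920291071462949323895067122964067619835824626732766253907729428132976097259610969121433354532283127693312)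

noncomputable def cp1 : Nat := (nat_lit 17678568997894712710632123653302737650477134579436394443763273509067244591068374501315615427321361765874758297141400435233443224971272902525872603356950214583457308310695620389722126652275713178047188701158740899542787759787780200672598298953389862731150106375528373181781015794729975777549042021933127289445322736574417988389013979304261592503071358451905467999509721652566465466113735228312005456791170285913148088710435799279655588327967050991112526800398528380165047705401122430927849773145938329816101931609160410254770154938837488780996924519310776814057961816796722909440714617430537587291256102397378205100679549081225286015779473549758982225695885595112530272642284152081226782361102154727437646295628671638685252007950196766090150947858438788819476248826711138243973608956682079690737533423302256876448337540622169355163782497501445590123155533132896351736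71546792551187173830978300712976173248377228940787751720106871355486654007025411077814581206721140034671176529850818247512173597887122118327294937937899735587656110467562825300257887674567820035697196145405089375907028936392104080037247298983883395403417798177636639953461641101659886420335314837841739592410434236289320022745449108641689526267245661477743243653460738678664533787227774195606385067370204406376167957400309277697425529545131585732576402233415804549267866704647022725222616004081383405827015803292400055080869086073811161171451644571747291311698522047635192111643266099646217516564034392944506929689496363648575710397592132941699004563466697603161168607982034065208263387385905550040850474289611828830760378624588834077536070789557236307836967701576462539108593389992639390436122412685700419660379445829462033279877077633340855618952680467590842778750407249227155988894779906299055612471439108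89040329873118483524880831689000599271546947439871260901976669265811192388309242042460475453683305202589605900020602603972666289782332093141775201495667337504739873308514733871528904431437653438113405137258730637784666666579807258169008502301176178072173007061785684235404620712665360887177991384073299054646925452281614840277904771511487733548288424000632740997386311500000206097655117715032505820111207090430233287907849458063908217049836582782005836540767917851028981944466892692847940590988542793360831367772909100350484711101753583116594056335555910868921903401667310616143523931974836976235232924717203426136739821984917003467253055509526662954556096682452043942394498739544521324316957512774651018528339969973768717893972106521387674461065447092925096432288002375265729437170868651749369478938153211216180987515031269571770208679775812529599601042582775849389361992594760721326408848075890305822965176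03430279838476959953353101900279130510378805122897244553045258794777652113572813810619225987195516957820421103910628891264561705475066900786182672021594889418439974867481807015424538480050025950956127585473839419724400484872842404077924228855666814015981784456475198845198445818291944307629542895281530890147718503875228772626023216426104782471114488499100834040127216281305057470301254008863104049132475354215882400968736430166448414985768115182057035517806610942068218670104910352108675199812184138489415245687548682353205709624042880066563149994743924469210645410436497820065385465702466645148402095610913572284896428308889922052298429953145642639809387646315307972805063420090871558660355672672375947609800686814237441404439182186803852300224642385616216831007613087311678394993541405561344292481720423088056320546666499689831739898272824396845405420613801759103225557642730064007669360523089806473108439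69942956046503945652936618519205043004425043028623846464282266467521171211131414861434001159786616899357585932245949945734583029910210591485843933660758106104527440673250554331190395595236122817862572932174336153434569350739714838939910205623435910409447194167677778625028462541039524748716548648660226834857993543842939951224501954856104845868130529580781514905623405069137094593987265837627989905583591397757628228734324233598855089453480744657697458165394126447199419777483472746218030697225311804859892578215808264081363262626528915442128762258677580787920534063426873734700589443162840093665776243847736655893687090303586916590876961995412164393747788568005396476632676315054784835294198648792092486811686355084483819061534520498311603278347664139038386217051249836911366454994869773161470648916644012846885308519370424622775056175454467005346606219553367286731919559514221386182238923588859375587552282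89250354111657805818849033489597268827305749947182255379962415082952413098016727619040526482994543818204149711529103046555968880645707672197114549848288670904785138455436717486401344395621949828086097031390906457201199835611383619995205312009910804653905417941682323345527720546231460673982249059865158530878724582032136892837091997605998432535738568430699253209137137669234988109040734463523616054514418870254686316716250932352433517095621780642197610463316644408607035142273016126787851648799537452688536076762055655129888407921251980146518288681937341871096418510256466706119780256661011114034607609723600538702964825824252967134463199647482371154788037510345230878736383569041506715739297333688623362362009366364630885892375689762288208895268871259039784871621646447235569806080384565779968462830131164509920199219536802576971662626281637374322695223200070884062661479753518054466931634937889553905428735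74755724375191859771890264738232423860433161149294880756797764839864640455485632335509118508357349749011193372092642868588169333526136183370037673491261749432178953900554244809590318227568247547665724565792625522351933101146516676855928160158867000232550320311541246275801027567409440921370914143488056141016913081641155322110625371328688989002859517894001970956413946482103160532481177724426987531193545388494101663308618108183047633285919184424115709368725223489294935914544554618827798695154962704147731721015739345464897139364301997139330480193747722084837350000901050203940621225318977944598350466429196762970877538396419602811114678479703626579354282635731955896757921682958291906155447488122309399565203373559263558442837341081969772494439515465085536368385814015833112422047824217513954487179460856232899429293114095564555606096503090022148940206248360778426467958846689341045810377883030520887408338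89884438434770825832792159648787428349291437552379621808137928380361405411607772198877184171674585439606705430266323172990628301701259363513286318232889992401354939009108464887185389362124819345915183239456990762480660669312386818134719927100057136779084898949244926433922658155262569498236973230739293995283137256149404999289304081103500612553514251664828454207782610668542754560229972200179108037218545415830482990970978441016124508550455311730322095696715601657303004848957597262027651388903858499945396387846727084820980848318624797289948903751718161602550229074034713956411358590173084237511494927710705740682581236132740636986634705364929818898540338993308441390715457234489107094498031711846914071383890662525066701030637612906747301303282638585295861948158506703238196269219583691016405251856520363366632807556364280274041424209431601342760025529067524239624006424200190780303110434253493372548805804873948081446716982011558025111547974799052783047979139240506897143679347423113254308186478449481872486344289182802696773704140488809294985896556682950498036837679887992134971435009196311837963692749171633585979010097903928334269469229389933592931833060668552784056703812586409045771230894703968677540201869487076995313069253814415039934766992123526467956053946023293200223124491128698249936896)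

noncomputable def rc0 : Nat := (nat_lit 14112013935650142994344032246468716606431954398414199511880341272942890424880836013109804290299134573297414571979332234657721117650449795416588350489695246144128249332277854248069820574626098348581605827034586731275408690876289031530178576831420134081925170449353383000763778677619168214041162302796095213717408723481412010992426547839388241626484344736308691518370642593897194580672982897647951820149338642067320314516306763393229513929475821087453281853677260990537820001930785433092682717071258899647898913779809628137879254239890365036757272542869121791484059250258827292193613593537245880860143513180918549121714847250340016914394428534724014414291391593320616298172343380029991109989732985021280994801602247632120399038546992038511739293244114148852906221335686962084890416638045117988438440932593762006635803923377141299841693466662263806362534953883954712486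05966928067792789654398455382027802651307810909210396351812329767835528919234625607526719980953027001012385271603127835129940001079159694565085742135106283103701425050618196412539193815803800492027826634652613048879024026963489038612197694372482147518338391975185927678820680862089866288161270835191161223251651876840365245001638753208410799303647954672768260396723507063733669473966396058428770295099635911040985634641721394195294473190020211142905210535692998273666173861123668447985726275673811163301175446366840738094085360772075305929932509624652443561611733288447602662015026400793626176167158747201060969506577887259353795742381779118639430976836784946013850195815745939019335747027282792129888175844031607937496023132936785946914820300833362590813929001294837705918516874640407799699121910351646583941042518317550918904194078371353851645806289359863010620198570801299070499908526094774925870303621735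06547277009238593092553075938004865476744133888857590266520493705576405707648997154822928412026371490047617056352561419326133636938537601511610288525918683642496387417900383760721957109061180544744243122675085449168683126034030136894588926676757616147146117684573243883750698392042949543618255819772675351336230837091084477408953015208926528193575571323136706844150971486845015180254617364670046182376079472368926826265939850557530436478580247055494003407890699091210490297901155490520369792427707162835751751139306906943446944996275993526586889408440007909237911121113557225167660180728391038019635569528504077274716409962873961525018481559963063281026973287964290466738336001604194997322317883030184337754872727692561321893677612331894788071906250741005762402694490900936294630408638436292349323516566805029379431041452605254167895128400787163776838247075644479447833137435456018930973262322022978594782115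89660603549779314647215121113820385800826477407917813525193448590808691511814522011836969165939285726041534030408548529996110451925943890968730213604404295488081185692847141936120219122661320153111592827622181721506046417805934531990707209856101867256593987305928958853700633437498498779277786299825992435996003097817927295628023353551313572771251387307619399706992999601668333194711421885295216760820371258072459582382894816477489485545363762656684538955173047541409612797054370593928622481247396455031291867599227581188537684873185783859525043860660418159576962154439239879651469772115675776367875056419710956821065389580356289805376377093420679319740869623754019368729066318954992708731467378101730297009116299965346579141841046585125878176025154381717742762960640707140365319165728206237395232466354832295070823832089594780430985849808871259125708140455517387994541966390297120656908679037357864620064552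36176403594713235358043777419205245436331985528674257932484409091726582941154464984664044914179971116300716815163266852288224349645840960423136415180306013961109864901812213827900221296694115429957682792103103101428648734215296356425607498804769414404074699084769752465210209755451438730161057805454008936104800282738902124661884605159978050882460181752865926977632926939452164337656447068231964669850068959329074838951558951437377437028591614808412168964245217950221405030996673006690374502014552248697348326074517504809730162646414570543155612860755057578803336270724719847566692801625987331657394688358242113369009505520042686756908290625579860064285048091210381345313599118914535082896304270253846937838408827580839964701900599847726251696943118898751582716054296622014241785859372241981394796806946661570684617525260933059910733934825806832721708263717497740130281827116277206157927976373515833892569857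29943983918928139280854415331873353813698999033423064756294813120562784574561943645816401044580406639490100682998901147094646824019530225865967746738477831134572181218518552782214231893987236633209346254659604286845174013459750867809099922271958781170002363985384942520735142944202138529162828421737875372117990311288935439132248857144535871526226452203769000894639480477866245610249089425804949325321591189401880638586601767403433133340009092204131890660774775296044457701296847091720244999226086528630802747300147093857068698700607141892891939479692720594778357013609397488768985022801419077578752124383250010595162985105380598457423289481977282295456665437392656340707006960062333715201184087799090567023910848393722960126632279186074389121710813381080175852462775091675166081514182490942506386710321693399998236261744740520317701650454766770881523811706844771534340702221025762594374304680060157029321427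69146191199616942575007210073896219906326508992906502704689881341245411580626108695852377174443786847028697338707957295010058432677246419896779277317803957178989424787895736294557029453352286573686760990338336488280565094608550086908047147674922133949083061175099908374239192217516139696152230958000349177219580489131177541498540145470075073486244338978080224045608628751370952823203548849676701771846253913507840827254397570667542562156791282893745900149028749967479370838844220151453332503806991709923139977342909052504681586793379976135416785632704045403613816497807229690811809063603628635304390044930215872766351815964713881742397857575006863616039978809844722957864699804919446999494854917500756956247475767089962689790210673988801807613704273997726887367182789994671322080406052330081256670349541254224165249786067556329275723222032889966985100360614797094275459162711701056243025629244868643309121018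85206322497145180487080025918055174068216517974364227033278205739717630868699322609389287908673623650310727235391746300500895685418372295555894487918778802987245616551065288526486253022173164657335398885032664350099140307171894015197703940239032740740017557006916536800053718789404571661685969802446717899563615910422520071927101232839896288430595192945893690390283397216012421029533233236644649988337653195744144725971814140243898981788841745275120131336640685425453050493592298448856655159001541447899725377382641294070726754798920289210676456756969886079856621778564176423566338743778352526683094333757772739542773619257348754279134706017453162737913834614153955021857014652711406023914202484776345938763343215902572454368192041019109432937659716480223559197473978712170683276792775664306082075577835203263181832434667413860299732873169403819373385122853280889169128901398255630611579968744813986155999524772977441231962720269741559508165679205453614508039555478042509702118491433358711750198954099096195411161308477547215232474933557838901856247362904889138657071076407278052510175377908886110300841060835239872749603486574706345026079569993798209083628024080707613137223576184293829664170037513834940301483645143088924696120805828158505423417444533876744768911930326821194694832895430986433560576)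

noncomputable def rc1 : Nat := (nat_lit 14317690072347653105885645319118462862477222649231474197272485628747228454859070859239554884276625501879550912387408459084809263153712336067157511678698410121136963936598975835624084646717460514575757312785847870197900637132967578764477696009216149199239906337588563427498420670375374414387975239122194850992637789745009313156485239859039819973270139804690603827785884182181360677856454854700672183427597810978929242658745404166483166388069537704840438339631694494948918506380545007036785826000644746463499430163899644397475787008122740332846332110350085129489759795041481222545659513004438433866744832209656537402593154635781025780263081474351887003904963353892789475726301377107223283762212673298823485951408228807900892511528679350680261212565139114363175885015569751736481596979736597830566473641399668292708702803003827010992634304925248588068678523632620643813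41121931167110407924853723906455615645154008631839797050499141063198274468197340863536644500768360753782111650799070584629662864652632417426837494240024994434422527705625350508003159962252175142721680195753831971635599752010558787769604214583545779746900740183841883061797618140216279143938870041788289246090773806901667696368112697533569702634598274667339316883441189707116855437809829576342181801495821338691449479756622105820511768691369552741773959816635446857798376233748557834736249592373322640235655254914363390306523863685872963965422750050618721522156409502207652085438656317360655310890018756032069257939975846404698320286575341589512887947127077740493082697105986928735924556244996845612646441185309263745559312551584032435868821890995973032185619036198310482695848130574403759511332551074242281136776521528631742037004295612934478010617282393358372748431302121796806571416801754238694059885305291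36364266497955666046318442757841643974599453764590491565591282642190746643003532215827680109285593530387461793497060299045270780303181875061577886839082884197674435104046446894051414428253193197829284217440589397997391462284104645416008805028400152753503725533916353014728677524808668575828427307658369634424632277733625664260350513755204289713000508269731673104412937013482157159039883736791504495295132985792555226479006077363707301680602644040155976657144897220094753510928971088046717978432779855492901713850297822404756653057444909249364332453437884546754867341388056187277450759602879657998814200805952098088929760946516353120581323462069741135719203702926675616002840245801291116347843835937870141993027153152738887807544233311037694766154962391273786149814315094636449403087915647207758201702101152884719469313955254020651397064932292320728255469691295878702017077101715922560869094492439825699614267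77086233949446349745432457935245620681114828786293990541148503541097072112395150060650101754470474999073115257569225033357596312900282069755686362359134738236995105800907696259975517358892323874486031343339499787736187722694687933175956780912274721150509293905051044366307553653630114383629052411996397500379683835518294659939993554487824940437272726947562409835464309103159861027026421211810447005056093246346656684563910515558000591736662966810865166239074423463853304617856894925572081529550959975034378619736816771872214939542467681608379235269774764822843397746314697108797084901998893087857274513961264184833667951272984287939057779167110652589295862540640270873832875849506902657049478914019389900585203593697521225059364197190696942828278856915801317584492028197751953479713958615234266644450491524154972767062780004002306159197647551800856586537983795082755783420332117867697130839466984838445809501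69091524129640336963626291277237952094517734528761930697567119030726956061110680363456371715577475777002331100618952012608617118838648308427987813593135931353575506693852153094283063223209605055383651819568158985046030083738250540683474963435813037062518300337863836319216446358073501936883238855887510207015287859540230259942816434584608720021355754493279744088036550565990054991761393715148546692018911574007314781592540116545152308182709433966538211433147345557057097029919902368963632043137009352586322831473384730053221737240831638413712152692892039321710654122675500307022840109532982351822921194484766255718067360783199908187415572452856937488578983965591725095662728709354987921590951892613988679884025370780635403928243828560959892526521184930874929287779466786612352343335671479660179667428410243764423654776522134659379981621077652834845516980008988636613346174097421753530115980437141178847883159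59523594060684046505924522333380932424433516493622049757503486495040001006361547075592125890585227716008453030075795273881833698690879783799145723298353191114676710069060276323324779265245246278248679833977336190520807401669976946278565797447966704347461810160926911161661320857258191790276117442751807331010940440905433783724495344188991665148038417707641598464070403386875304728020593482239541671005500564309001566098654497865333748063794605260818828285636814002350454926674492442939001936950280434012386813215604766769440835603951401703724294770565124678101033522647752723356473611309026669698898132478060585672320708404216162768988466068455565880510087256606595006627699272014196781381636689165852270572391210053268557349217481444482757649569400243312465522593448703484294998843680140793779136888107916672594891272562048239014462958523288560596954017700704890360160163720085739829519195579153637597538027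59628520436763350959445214493615894816184728803384815246979138156522337222047997223388824598316583116961739269007634094125286137341557174645050819657020045018078587201860665075941084715883883970273285462974352077044952803936475302119647497130835784070797612323259052264040967796252287464864330160465256664995132357093314548629841116698487928625912297653188574510045431718842868471700784006309667371310875682327364996460604340928239835508296740931460603818253877392632462931672468661563210248937460640118331134175623666107937408175675682232559541157371802400429138239205908737361894032003205739722350713756534520994661739407263627860917498240964856624509866605187314336326213235584776284808725119895505251404262892855356925458958696673725504712869844235019702210725977657784331057951036396692703774725470397182380419136502494567255828923921444062682721137168742700238385746505985326545001653008300431304570933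68522370301095685151753389334709297117151544687218636906022661732160261261345715262159945247199545692405271062806839535364257307818790087634495072418033909130838753165123929349290498481638499994165380069042217897148577372115631721004589938145769145803942514844028341024013610293747156855223591217481925359131827165744849729243839898496292213759601453506762765493675044935593054685314398290459745104336476412218114737467783340811083279289969166945452440603038363810960578047504297983527330885759389045279428344209134900933162486780495413112948457704449284111848358367323991292281649079328243805039958864814796868620558598845925804777677967496208674441712219328130441095342504299435314249722338445899038100345692068349235783569560334797068188000755659348206147849897967864248723124413799062266199248603690314829283683956175904551951029262987138181140556315384115191944580308248019271916740034239209764324441592547506899822220754618419724089019684956483137769931440536357945679105344956935803941812186947133557033592414409911509681056753208275504901558759795339983642569584801122843697422691107444540596481184317911450645251702650941020274866870930300992746664099317001730465903424174870545162261426671811351493039038123837880408892493617670245023357459794715169307250925510473451547640604213499716960256)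

noncomputable def rc2 : Nat := (nat_lit 14466961147262592554412717530841166628888543404887935287893180138153265341713848962216911400433616258558341395658943179280805675059247894615751355602056407512298841307892561179913305646817947856543891399634551072754608141409275640852833539673738701413108671026788700623060764288673891489163217442723108127972134175701938187687726730590471898873544588013986430676337759937417363661614120732658126731351706986460455798076998340802767711436398713323760811244593780813433019244761585867848371566561031410759496089348308151263936683715605643856646583124316450744999398506664932942929951578980332026283789688652599025995410484122885058386660522330705557475570807512566005084887430012023824340260787883349156947228470542628607350429237694185338258676114034158548017891324446586158988141312037506739584309488727896814323017296128150245946455383448911982909428823314905775786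43222420511083520212227845224404040831171921446053890943045585424242922248555360271293612723602258765110290411165000446713945204097650715973840699155963841277345862262629830725637241072097818577723464718804823710230927127046941772314602296833997115082746875500096603774213615829339456457066376986971643875019392547197943793948859998812638742124376979793392002043945955341395785037301153021316112416966524013683763280241637036115294189005798572154071911150167106695998655289409224056404213407593864762502843744552130689678663389538031873682629749708950423870289610088146619227112473550209197454671393970017375236392784990666083771340171154422605500462463511487002586151951310824662572589776408451433470478916975266007198840976203465621525609401750974833900808601008869234964570318033445427843668460020807415914087075000919953587279185027002888181605460820710839582109212810970286235673151859925753404098703081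30149822997198104352701729274475345151480103244230611067853650986913649202228061659303053317764899814856873715738122453779410564621587348292294170458871521273831455134559223031062310444930704779145022683549533580324107653163974793717253912012572005891381857613499090801402440265410267070881576435906528526110095055609297714698931916065143010361631523060076043618674223731033601437861510752067250023256843882387035450879601788140712316576005033961000561679336237744579394969410758420421672297745922983666432274999007390881868792739499337126974806255088700704663787838287330269269538498396786555232930301192720689416277863579893316723029518548762966663310846198667386459594183065035288158297188497237895929038688561746268690944544908414771425529865270787344199584346753779770512296591913843466861074676609459616716339986991673852727930285358995357191360207757340018463533003060703633632429941229918020404238670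28090190910781596378351147969880803673093943270382722464387421379744558119826057039108675062903802810920305507846513126945388547204132858640891038569205453554514492691047356364442109912460199344687532327268352055595518072062821982960598703734887366456282129765430202340748389975368084134226094839391236137483217517186332771492700889246104565565525400789506883661809833496828690049312528467507958234924060269046325443246404900095941567412649090117714083725418275796694594785407682277496628205725202240761278819858262371409477423036110149084954166596953167931554069353477337693311004230453624710650861805860810015257103630423975396432345744105965186983532414300254824858962910044981404889946547949141802767599284050672842964713666747184009200913426277177412851252765734162885521411552624665814280750720626368818707084254299254702130496541793136174113419645846324475519182205091685029618892555285345412018844968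66841807083622791280525690688267871729629875723207385524678588512704028623812003246000217354247885819121946115904081276445468945086138652707748314151853396628038267486939791072032147554902216455456237125839109100884785576068934306985501949137945481093990139370944831471527923826107590570349969578398476071824619079121947173847315753783751550858015352859662302057383494113424309497451471572579387042909309707724167107406116190496290125206652142384772998689898753552741233909123698898261670168885317353491468053616299455365331989131482142691067418056591112083505323919333809909780236556695125958016257292936847129603193796705109085879403826296144182298459151714398700751983533822439596379292651907680696982076022940176807374205080710139017590138358755714467420988273928350040930773401009310898926451213124336869727568736287281053022765232755632108460067295067342809892438700859089957006428731883778496674699681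54744027735859657505927103386046190762883481885861218869999866585575492408998702718899012974128250377489884920219311296870160488737690338636904471004146165488802463289076429319059118188045260132389617544333432701090271343653043658883725608308954204320177770108173158426076301742075828453763151314544815949708489620398906776550176070280287278499123612181268320739509188436835004029941432185006151270437958093982144183739296996920593650542330224287403812426917425504684161373665558282339071566454696530620334490790253294767213154067653609318326735785217534289392868458670954732067497295611217479741989828771600896733694839873034255547419051338035699882486063714958461119907900247551777443807128461078698148163589958352506674048092653270759619240821217213206199916799360774894690212750242985859917235331769305324155413906104192323007262262280017840973114052598326835631363838650481683371409090193973304441799777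73621553941498258269342345483956375763625104107171709440242711241309437128964405567807500263212251740013350102592319777052515965175366274719010387613267284103956563075938026233573329743360209424035444386644320794661741190026201557654339625896082806556772512290251495218781525809114050240609854078874741633147187640813675323235233530586835831822842027297730047861923963533139620897433611962129729712730892019921897142318952086723329176726156444345130073415378896017901475787722865168053320808683194810589893315646876093971378829218719009633461663760345218504970672115745574763111347831288666556693503210751372714046111385631112153562903991962699449854118473592235632523642864286575938745182465059152609886720839712141499319811921127381012818036242238808191115019246492674468617421316823067029437123275706457810174628612499037847074789995544168987175076595401658568484208112391016208439964331400787299993898114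03731303241868758950772540389092165515081742111062894191614657736928643812508915255034507506824421045742645886797258359489550917166323091308610314447281091201197622055712537718053574119212759398144741599064518236819668031100049185903975391266495078484566869740490850234107762702929258621887734511381225806288266534151193325665263542636751434524668329557143774610666173367242326123661947354557958655024456289973422147181157407239245248575592704292105449995893680439093521407157937805205813644250874288851106953747552550896499824191535122973397785533483113027900155331041369898563542618175755977523126461423502943526234459077178620150007400569730115104621698757484437356380582279840191410363875511711986085776343614135567313417869031932775327157336774262184701941973322043960496357728354040408447199224232618126935742705416644891282761276455486562623850613267828677445166913978442174231274261683553473153268345827637050600285578826314964885347008305904258138991442249431959695550819874386721701601383532235635530726263932847146001311058687206836904688753735970277637544059887723928386469657587751832266580252406092777815813387624684273451654463790531162646708695520942823727184488626469988136079599176604006139396344730615709302087581038072223421508078567499389375598629772877695493662200547336928624640)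

noncomputable def rc3 : Nat := (nat_lit 14645526799193445313623069774449267546661795059361497274097687728167646681668362707604574140012791663085853669748143076684185158669989653560557383862982342964589122282699214366101061404270826219620076334630114708911462827314361779614759355797012613709056850662746518471860309156675674815956479253434710697703823115897612825493008147411464747953154415530586604159857292887397817398487889359562711431242394526804095929685663771566122105018249305954037872176217254744265446281503651685366310638429457706064472535572060316589873756616571683471394586604208411367662855380311438100974081928920004520905280106041524853717463821837933491347000728939975595162332789525191915275826614189433150352452979563797348074699691268930075892498897078846788738573696342296685487162191987678952759920168823376950035674036997134983401003236561156918631809721341298428578366503171392395847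61538687544484227030792507126766803829025858853149845501962074448780291531686211074123124449138668572234519151385877893131882817394336654725964654971698479355111943730617962925704687911942856447584519287663414286925891031054188805065516940780381798975720671271452157423128119253307883430916200262067828470499717316170427579359217920615433550831871634721946339468106668040448157337017531257308553444703240723359815825919337613833700433726348497648388552477953611911202324993255552338254872416098888787377807620542219613473634390705283062219880590112741602105699710158662665995466351696195685986917009059072279119515691460701219286890234859721550902826894654734145918696489356577188450895953439708129273764982111949852348176247946567095265567828132841363991640851658749245142600558698775691430242835952644718321305547602379891895042662675837338786972513627623935907682948710176391084828570185728338063949136285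40498111243409845317776594134223550425812622442141941392987645037852528609153239025608887929449197297169165158480634361317818572395944167490863708114792644347068075371780128793015948342292541715980375154900068842042749828138558313933256069073926389826668620909275625252046555121679043652425003094544274481759966248255669163373331333090155543375826862818620730163517221502684278278875541104338307126264007063433733043654430798386552154740625323234311568466869523002442548576767013722440505494552818142573118467881521372080172471589675943911849983097750748146692773841528792930574707159785808367829131705281202452576909516089126794629831572314899645276170555577179442380634694935670723974650355323210803854910319270710239214036152859307972212786270288033496492961241695503903004275858300150580868675010031531388693567103389683929680522969294000402008034314144036210606470934059340556568143734218811854793291906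30886289788399974347859739529656380728041501607226430831927012138496741791086555111188258992032698640274205753084174696543705461101150088131464879666855775565549152877137408253133440078970857440845444795910532965226409087631949229031789874572876312899300031976304147659905097367055859912987635047320021117583516299281433178708505322393143666775102295677872115998440873757232329285293624731116406306938656540220915604945507640066087778856619098983699468137944300464029402809923773111414660604732503869427170344606994993525899413750984439112238959493619416244239964087574216075112245618854453833111951701643445920954196274188852895278211330599108883905520008820465345679270527278661790381629941090831164014005262815091116158923812951629330476034936816932541196586471477129966708895286859377084988772876648970983371133238904040509520904531714578545679465237948170709736429480354735194017444350904503939689558927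00876601790603736308412969709622627178384410754828888636175019856418436911029765885431225141655859021772713980402672566902923724607262318035792769595938660620091323376045599916798024829195525615485907164376343650975910700742274289510062886694862152412114596649721770507969918840554961117122310507170593522593011092998189861604756707666819963464582986178600085539206802941573080914097989044345545157323183220059782155409438787543189303617870723690812330549477711632332913878545583815931045358759780006700724486661650491277805028417370804282800294908250775949202419866160130648557937007395569929975169114459130762971228874911935523492444746100360266094264560394640948649067067384498896181340743700414371681793949938280081813584885275869252328868469907568947349553993373322769932652146800991819464003621103059830607239943023840158880190194012731453201689235863065361439261599085180662552361245382412720957099359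03269356757457441454825813986045768024700387903217794779746699854660262366082792718483971370877502206838379756710831722426934543978704184302283187344872695236136684508942022693848013284917569757783843789539223812672314204780208952453660380777920704599344398010723820435094188438523443879204028304000217932429502846773259076944134771324243070283043540754393084661232251403300950510256904160427057230450196923861426544557738670034061974906543599954349535359047765307890099811332607446300741624606365469044524761841365125156698424543391227041841410249773955414245171954472208143001739110171504425450334911763022964083495633130771575496903243237861227680367972435539444262113251225979994207247801255327318515285427836858743350537569558829970173110078888190716430872056694931876312911313615113030387990358340105190654881933743557666876831760255309097340514825923105431309051659449523205501296328537639978157307068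75948849712068363967856012289464776705059451332592186199915759801958573204998183132401021989200796905329667062906132946520266432634104802433885578549022745755648875798117822899527111644792804821993134625700445307218640483231480176078428967445592179688515210079907565232071002377660542314830136120920158762744967701150332004945059917514478089891940180218131830635879883486790045774780839435449450848366720942433397986670544173729497565604582453459876771046386878723521519219355696628967058768718982023112810209699880504265918518659356111370826333268153331042399258031984734108574379667548723416325976339408822480260186921265665823845836363541383252951322525099348861179511152493116481073289995479424460094323524978861225177563375467773014685298259508815964380940744518767935188233525221511184043444608820385532187953507003186286301306183817363752812429689200268491249444247246173945033727766218605727971680557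19335078320776374792772028844293229059970278202447115204581241430178519683943914658686962254462807720489901218952729255767448468572171024694340545101442484432695233861304329863492004036219611518792384457695743169726480468095639874732296573433806032213496665059899051801925799730329448851877673160899879369936455810379497173212348497795916581363045423505842194092872180334415300402958601081341799438935690917718352649848256929166688274180190575584172416389807158892534251025399313514233967159312126911752792128087333611058164640346565338214068308087751185389115392661119355569350816882950987676585681050612625248411800325959746637105918141699738610058238727668474545509428112454561801933011228345221581130512752170436159844946685952689053527043338513163188450995070508092824990680119853846229794480791349213257951307286525708811777605721096415601658192694986795862700095825657485455320658502628658250824938362837015472189084068788362972598029372744319501442637833247920005597693581788176793780311963183584772184188958576172824640849310182704800162481850900852030389313137981805106066482373150968047534118906788993141738133907665550468007199765463241139603084232488197936039563585576117136468088272673732580955391526421320087081298743202609897556667057672793969614001038569183750990144056331086539522048)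

noncomputable def rc4 : Nat := (nat_lit 14883611346797056843399779022082678301132049264089943028821219713334247619242999329081478197622572961371147201826024795524312555507793096680666074197141402423638901080422969809343792245588977294120660188075518481629807193929690190589024811633659120775799464684270108979557714610535039960701890024708418086743921671799395610045614647911053251771392701261556489431389281324132157907751454100578575942447646409782710016143481433270614323540293241197258574728934515676972729180914092435977897588325329218210906552352354868741608140689307517881525149629511159131424850799343498911177560599892477163462818657196524441934231994232452060207547743481154730515064595784022662232262181531322928647159508458160518891795219521912281263312601989362154033468944263555167380532493306011930790478262608273705505824766239557293687993036964351670761896605443700461687359895256232133038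31298571178121588993315514690737468069834604819015740127624329801100679274969068072063893835588749147746840283725653395004637188086435864924041113586770965010271228874304733227028437048466874723438457755523122811329438311106680786961162111431943151802297213683860154833612878891235308675526923552559573353503037811779137007903128268403267397145293804175468286027121825389160913487539773202315351007474405035461743070243337094485998517504630745327434115840825042507799529574827769644255348303795642202555266493399507877171121062996101934077601568899964910699837249300490048211012834646842134954103903453078865871818393511989325760227525370626678926881926043616930544782386782436898427234526023263351693848877201234729937225429384126526063464043620408556363998729619489423141850130421215317203356662768810330278043450409907590965530820061438897691797890080494754699384705822438876571958724679910815631328485299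03488197149523645135384830637872718562336794417118166926868790125385689375622481169210817283961083860079775632567580888832410350619838000937651864711783941121149660908666405340673463380722372293698245849313289598694072801072137715752301907753834224574646837808409327902356378438823790485049890551368523683307519690386054753440446230241605998675019456656478458365533245173551293750548328734742037824132283785295822948850582984023430282667830804711228567508893952873362907478273574243186459426728694955595747732476216548620675346633102566066131005072962880062337076702744687757929041464264587663345148490213024296939651537688318548096370532408934949830505883585547236566380025762952587001515213409707970534790495852944044624111257469030724425222958732144255083691877969044928782040297661784174854494628251137571171918247841467027341813011429412583929103035166232476547725070757656918077288669859259910641905633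39913844323856812223519727168757457277394171344385994560292616470634176204388228830700274462376342141335294083109302572270159175399386969190342239508311095173417760402945561959441756804292377064492312070386999721896492741349796000049089939684255195846121142876968676240582975583037816280145520598235493794932665853321266026921191579513237743671827939558585568038484839099197163485120091473821568986633078705068919829901736120232463379507366898182230872258496292119447633313464560137563564633495834788422467015323241219649561447643214302798028363720532158350127537179505968839915757114043587228802663289761367930960187090021754502983159131657630590754301369424387620490885883640555802593293194721649429079745530094985042589396800015078291839902887482143948293997625097007197590955590802724259026848151483402701587417507522946042967908417579856224078112481145550102256821427682560606442806024856429878336880446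66049041417694922146496080556537721772152063489023431705998164812812597321187605282663856595379386545202497851694344111285343174177921656662873620926179767514957426289445354521078511943271072813494758394143076546313434049847877081447313944444280650238263186983255869559484797313313729877359156839592672206569576481160331608226596740541004741171999995097147480569129734941109277076470815270792278588540805588858958773182410503599902374349129930484568730190049895038924211191377245221554321051381276059497595960964915104765049244286451417415021893336899814660864953555745452423127731594852969471541602404125698792220304191598977429301638980917073952002888148798588639309689801980559355353114696571084074440848107904290028091389199944132173380971908190246791525918353716442044858118804559340393486413609925449348621236146565202262645400234299679911987639748250428650211302794924228424238682839776833557013240752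50195486573214892112131628522142824880395999300569531161467870089178963148493566597979523822708665589136790312522205818545249360116862924650695395012332297836534053429060066087659459317769702354376739454061594334669654154898823200618815207819888548175417899996593155655731425307093593165808536966077455380577748020707045277256904510408045514041846161119086271474110559257504151010345567573112779642466370370080180461779354740688008259800747323277101581152004075243857336768526129319480990408532196063604642417618571821523327225657697959134985514065866486627240601514670722170025247198872201533899734084187015690987325367890671042255357098920052643373234547957767788359112326689171793979758343046982339794403869614276161267375441667020355318508602732288268869106660992828223477203807576505109613138730740234838906800508674075607951690530498919483465070302665916779244637401593380327867569621191063519632877225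78917408800050484995541951093487618543331792574544920771360767500279309422020093796088159018665560274481296639362905405643150711134206092200133899313502373261813221962852035563395181448758475077372652558778562934734188441696915708869295561368142512019102534962578681025794181262125967077591733832717590084395900861693486304221208682062702361053111803757945024809582459181225977620526867249228980530791779926608785945675005961003128736260216036237085160951870512310358523633995354097079530839959339268893813636711176179753321903142905551198419964637316783325415268103581798435231971179406611248196137977106076809030203631877409924433557460522066674965975786424014952099769022191122305476874554423178749390628584686604959284218643508906825397202391414973363911904105520027937793347887170104695890119570619986707140245519782449102907743248368665259430385546550084351257383031102225367629727680973050739320684297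82116867633990669614832408667379592002917916422990300329055875266722997139778586070870525899937274876439212686947322884436580460172110507610944702737218365177338571715098352139646651542548291883105493405062630207977737955066005343816927920505626437059611514900277649946514979889143676836976077636695033558277985138207804757240177703501545201821387519049366059568338504018377669364607432577351565135730207711418541301794865435461488307098802442505308396415221761196841685335836661084185771744149422338946247210214169046869361179204987484691191604063941009262246486582880197441732755654111891235142492821985354302928928261159315596793962888242429715883307725491349753641012765484100018807322771431431095772465724126882529672888253469916214443568431040981120930375303421298328369289840321230486059616780415681969804322909687275960491863758128930697279822414535564135051380135131976208136522846191918272064612313688706937905405887196503732464152479049163097543765960812132432277971783489207869896664415153405484693146169401804387628305045844156561095050725069906837899911077727312386868136260485616824307671816992615249540947213169360128333267174119736053924566516665375483632679219571118621549818668303890101814255506948853506435073517552871196842141715289433706828722046365586153040517305539895920427008)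

noncomputable def rc5 : Nat := (nat_lit 15189676230641773992180128434435398165804196177625504213942194090877667428971656177377543983411467064080857445777521673264850847295010087926020543882469063497431406181071640585466431423391953604726908608663577068627191166010516873524124920904888676778535224387318653235679507498104702656201337299705586463782467894348789339035154871288455164140253640586497625246444879128639274607442817273173576978187282161907452672804708655016310950063151107092929608048467068622402806650563397777943651846907742004070767078327172725198350944790959253806046950829232857766078623833199027551703857436069768032265556840944062007718319556009197148877604498255886159471316122179541255202458109899243282605738266139523597822811368174045818303970562848022610751323559201950872674983835115557171197945678401461737509741278640473494951314678276884120176581254205016787379988024949987966546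35266864259194295897237058345111297286687742376593503262040661651754664635380965149941842992196557444171775959782299446455531055924950703937486168643118670542483344567830710010411489952595087614718520379450216094222796266448083604128655229379858453383403890006194039974421232835155384073186105169982858566507099291961800061102563551498000526124660516770599317181647879192514961226449520767438444144574074004286039775408337400203183047116302599837362150052920973403014617198851419138512673909541234189849084079980197935966757291321524267777126209407011186694758107365732742086412591930520736423938715697144946416759729749509249200567737369751793936914107749113588350949206985443777810322962373307823436850316110377721476217222569195272271427509783717788596241936940780464956853785279676328901331816835591426807921607609679642057815354469115009792358893303188476147685769332442768832117171117573373205210168843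04572565339038269964794625933449809077724681339650679957541607906383109914419833158944619019510925477399147933916670997167204547731204955478893576585436905153682389606397247944377715834064048374180533390362331063640651094173557982496646148808154802691533257013662181613044225068137501277390928208990544144775749653608467038434664872112357993490784554488498320992485208965352256501684553059209026361184812165486429636877511906764716108807906128197859461872379850823384120656170117729927559603034599236400336441050548714267094965273050691269687897233009722711243755754192944814790973831009166788869075671267205038741246252273244869062406194986048940846445096125587420990363510270720263942604474839796973133589752617336999757150760348845610973348723372226983902593010938213260453221356592989811997585290742990080626487331555191325962771063913128115637162615468341148052985623221951866723322835503334918956750413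62366502110283208695511551187508360015674704824975199372579104445039390600575024536638327856957090250152236272528750743346515631124060630296557296852476016555465033976041571297781857116053234676363310254754646339357897463907711990548733102184671118577984600160209709138799142909421972843443112847309686791663766356083230020339874735261710649599480455628261685281942631654093504689164125330015841199712592691133376519288565602149885347347635891848811826846648953973948068625163587825362905114721820939612739635059556330993759420993975293958365770358194517779940296597561819882870912935566065914022771515244064441960977399785051723338071893290287714382860428274980345658327753435651287677769102825762719734389598884057296495959589842491640000968366488995910929431905190528174332421475856822804266989757370063252496122778809193887370972999697677494053355610188087205715735297990913564563766255200424706674433974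93599111905844328523530961262192522446193655656990720912704121686477010851430591223294482904319668661036239629693993464369861810069396770042073808023144561348603939994051121394079951920522808372162831754434199025860105265012783014222159682171559248754831970920848876922190592514861674429052373453963298385750970048723205218568508326094551119825736266855085969871915777657037914258510521139353404067823467694778807518476043339547238636266010013460463506513642823486360846547418882321242216645394789483171250461832775378598865512430499231601356945111283071694815147123775681220973863828713620653603474155118159962081927313114633359852665251655067398927516832486672423640233211288824517519414560525539069791170470332264990128556853964214056222655135743924954231899206842851334965160175489601286279852803106970831052629670545486116570689201002535229712202776811062959415623464885657243536159814964194919815425914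44335657780513589639519248856815008415210909718571793306277765568863037129086018642881779729503151788284833405360031423281436666332742454910997405386977032641203937327765202494860028179983195036754876090853889139920590162333643897350603451778977052843447796246593343329869006655072684507056719589675930136676986523008314561510691559774305454863875626524381472809851194879652342659858738964491239631116725970955033853608046022314401073759457090864063619420894437333522141678996992989055555843863803298585373060751324721613217261802050639296360463411012538205190870379969022750589963743346399961289755727056992238236978046045654250472789330119509079708941843194982561804302943828181468756416296968072689098187314007245513265544237203207596177962155919724812675686955021079699770043002644436957410307508388579269417216006074502647783343326251001243955391831467442173515897226911256256371353274071488841638455343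90213007523915162524249952621929658666493817527085434316917850199095200268931722378507814841733973238626771153666822247348447437216325002301774204209888784424728318652769323290100050412972050530490931378812062529727752197152614778693765170563068306260289201716571683041142089752811256215451970184710636730336602843606205496086336986174154463910678190059764013148276182763284761692943211554029014342025633341538277557840287487158212673957384485712662178287011230396714455436236719648651431315429045915569118407134535876807318680912982845632568527272798586165468737351553108003655367936546534893174905401889600399512206034672484033778906960071749743899196328235786347764353073067048746650393291560489812633613511967102762975308284823416431412304144439765059617594905619425835570947341685430890948689622565886241232505208592935943784006938214414825792492044100501445305979662867022890098363847578044285019157778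56955610457679900303493734937205770556909951933905407364795041760172786813177192450212281086098100444742147844649901919359571858064014146635587452374582174655929034353437674188152960007603084648247486754959368108756159209694067422057644366593773776316724804391384515515565693472401678765809263443975349652639151756294468629852693961010466981901540910954903177359412295377660627747165918420420042422718416022725098962437653838609370181431745152150810612100521808430389816160376238882318695996088081824597479157160102433288547688759159725785092459924574648713855461831820174935653648219804232193787406857851164770993809051031551624508055360099083112748179526703395323920383919376018607289272521627909466806355459747938370996616156428477972499502515013639248959113268017680184991253322610037569914319527578225793381514982242791501186888703686707295356520776646898643118577808645476689962315291219966160549972720043767840973387472223740654258553730553606744793937194443049163920490204847142672267450151481655700737477492549700588438059966654707564408116701519555128229858001775892914250975926341351680590977285787617054245807365771058706039475732763099605773650765554146034519418670742360200732881921194990128036889288489598652789726330235480109026377479742563527107799062205048376758977153620035621617664)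

noncomputable def rc6 : Nat := (nat_lit 15554473349656811972637440107539275915352999805301172098948298395010646962676537553323994253376653987003793969177140775766514047697306712234486365779597053204627549506431778427193454771371066499757437238735411531242281280101572570367097231285513041777065868748922767881174504413944754886711109254081935320510804191740460820218018566016262429528648971432625763323040743832023066647837280773317084324845764830724279949047789725187405290302981302674601628411298970802808974027976660126874483546249894396343876595745620758953891822010871732995282211042331353332747321483224155431392178982676618417060997656857626234577092392442147519664798808461055516381628585460168250140710760246357948815392590472871766231277120657053847879177070869590342240748894215485123639708240105263885464050235881916504822251336263233257459251962943747802055123750272685170893953217450114570693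36276267764807694730596016142014526764962162413129972667342559305912326248319604510263460547161988645006746214705258532747578908275611550301633878755425621766447974192771147286358929156469977398799117932984977904242639412620747515911798932339602729508767203309159077497132045732174875398672182463930709537342925198149552687022002609044448517240544362982847226803219369101028785379671127816910816840574472073176076572257572087207546311560522331778504965541917066711381633114001216711012778989019469924208136778983098570354853892492124727076409925128624450353128733664957008857139574875114118884095002357334706745179212395532410200330469578731777028390721344707182664034274920582005442996595444034062016305959005362008610760985707992927422089682263443034683720625951931172514122140130028535912205437805505758921122592616442012448858994586717135081683455110492148342985380359781262414239935902718941576666135758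65107082350487570778660391964527638611204428722786678590583119926187113406922913169873260546737136479154243188480655631496167189933528226641705127487242415868459210274542842720372905808249122801616412418215446672788301571853566925918170352622422253523145616649908029135483088707864799909975214286209190262758919131030481930173184555061393981299880201042660958062054264677161038225686368199291564173310856983103233800848553033602942634682861473059346314293401013062064458355440152680725526705912898972212496316117273727864571890167542931412471337760258911246745588549011949152787551573898115641900916955943936202584958125323975139584001820753868149774132983119883590752727522504064690531312418449038150742707742887457788663168872383065214023895175120639538306480879975359663509318682073860061082055402328893988928791646356188208854858073065055066975317410206621838337017391772559102581705853541426162533740983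66652870231980153931229630281675640269543779024738008035595141867290193022296083891642391351529517688925804635304067671085789211693023532481927938188537612683589951383493958765210592641276652023551253310833512273045270299902212150402676643238520307420185543890232504086132980232255935296567421465271620204264608451669816364235158665399231355568953516171564302471584746987615710110717836317880625810125458453692499834233353130755505022387455118409178537073039866297711276347987836603158909045362105932004712412379962628861385701857114759913845548957432161023063586098498056693389878599787945301060911967019780689832464540953187359714355878215175026970459191076596959342880325249991521724914099640140760014691908160120781887112369477578870706065075629894635182490615872510743331336931321587936898647730252756213466409219469367394121027729885555715514565825176342461598463488918698167794995847639805366443983281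16834780619617780200635156088834877389878650017422784332535184889133589374043833550789450905195307493785649404430689766609931042707055027789732942216695240901189683005248091659541636637713928243880448072933716412818968573434297363943520707899692606688906427485325477983475136101393145347037916517741475941012195163394836058393400877076766969206271922898033012668290170101098725751568281262035065032027888876938171564536775193318768057684015231051411398383181700722104837938456721026797059538475234293950833155287776177344529466741863367151956260245563635284373117520415472487435466418948365698183494791565530685071498902053679761947546902888676897540074368644329309807997762363442820925681205068685385817290329412076903818360474589522448426673387307032078881216134098343943257591680572097709355055632259997318227232855266032663991908955136094427434731389749798754092374609094588419104504852432266384833586056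05155091832220257601289020442091022515863870059401594371686236186899744627056554662534547189109784390396534229256527296816897866293239960532263374638891955790188859418271378278585181992148371431263114507813991371897564768912967903011193374975432894089110857771001878220294243256713854462438641108017290271763405868848417557124684184854085644448717231049761713726280794879261405484135867749090508123333848704529933397086546161734821118202045158993278197465550155835589232183262350335702955706780155705863591571661790558654676406944577767835365627560109149984500845627322403837548193896724102596850979875036867264346468556822495220900904197547999634080934055793006306600058838959572894986565752509344802785208496877118039313270603610133806305633071572944545027299941826917629023011077571593129382095148916641228724410599726353132950679429527601379985672031536193982768541748723426149388841656726649442942464677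93571762705909451222445126407765480346282630759293832440350638863722552702767720268402276330612485570160580118746295287306162497266333650814104536949549395068627431188400949951776268825882542458462893961199761382348500616609584511111707274678215545701462691651712204627181703983571597448166726668688131099666020707058052050725875385472196893019002787159748677559478176117492682384491899348571990375969867096065207252240811802140241050543169784743689714610149248848918150434522688662739819037409647197706103511297987370869511288792192889341996109745046154073745565052422834842067655249500134331851799140787198388591623695211401445074337742609365763065153542790847657309770822026461672082626907091672795814148096880505472475746991441755856841217454410415934020879536949020389217163858955147553944624875427894836849957597784726031613988120631665401307374541658897529653848692787352662145522786776165347853937800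87307329005072993493829917424026965534644431322718951797223466902176701818200198070573324679359333838797366231449797304603840897702651005804191244941374989184478172686974217438252245889383009054565074426782201175606537936822962025837878014261431012879997220598566536236082561325487330932494762683073516125906473342791201254138076094087682771915717423455343927300501960246967714732529097412527999821901606931899715674531078745728753493121813279587722923270763098320293959047822452213926857034382918883395169030345122306349228817651349771064034545378209573111491090791383789663079376639100295233563597088490383293836664592259050852129801889227747695984996643032431102090428110057447911883392947871534477326508592282317401670629885507192127312736451344726080002890717394535556111389280518891834519747599181957002031433447031869748558784923278504183451381290357687800762588134049620554613745792402997063547974971011355775282700124687063787656545925961828377785180732240335479775316907449939620593556287718530961001508091724529539755142233052887548330598384267244788934807720331355693876526933535521751379162012292667019901899692893674212302837280075169045906256371556992106156526245717398937183267276843799823457805224205572185364314850147351628075997419096952576350757393904168125293752505161755255635968)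

noncomputable def rc7 : Nat := (nat_lit 15958744890369046862419556647247871126861582037446175768391902785054370420904786969147531524718957183040284641109944001585713824653946839188224407991401274165227516578183995146778553961278783708160478339678880429489126172100013279221373195280029446251509092724920969900262679113197075009658051271723164112085039445169674292574039737578891449086222795684995932304256387783869584169332047489607777087443731001038288862237211696999453901111594793477849522290114840055512503833468907659007854539173715051272553808380583631260481627876581927411458169945276193872539817267965316667319107657540382521423752655126562752748128583778873427209222834382962262581434203968622641572721479873903009971388937917840020088873143405772928929389900213917923395103497671448195525497036754993461397794697117530161065835434609513913400263762578283951031912708057495016246657589120099871925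11168744899252131655357210624368589148478571321916001143436516235238707422427997787848374291628420702132552158704324061751793785483613683304224288664196428907947876344147702677651973087230893347138717373016350258539107326056024102927727160572262965783362632102931162280703932003448249225933467140650448789105908912601818127672297211278733181854890346587650633413159606196842733699409607319973494992852187591468382650936085782586558316698510445392476139285694068467690661035979599406260017778411181553660616075030112972012312025598435583870485728007819259639738156021211015304510119377037137723101970113340102143199138857965271682424153707147998624603178502585188621784490179931728651620192758656140590917959123820482130424078044953913147805754382510665995279861375010648943259786112027691381512335311078141381184973616034029442372713043890067764892238103456914343850524916484324696047651170080233506390279897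99959007179836412887552769272044414939726217780312308266737277494115673483590598831400406833543009226991946823165948939040607239207166483421078268126499594108086872306079719966636271688820971832566845132523310191037821450926674783563965438785696928783801107075870013569793590590050032530529528523482853637983842741077932544502119560879606259897969589503480787354721896592666624090015736395747192661795088621696132843356790071539794049258191462128139609614333116406066314224853116258402113048341733727207119240095136488171417652055800713398723770147518500349343425805419802121754645708079396621273225036108336107509749344601950791601704629043724205998884835226589858585904803444738514521707834951730979048421761532366141377091780642197945811883623829908650116627764208887882578594828162366073608302524864932219887353753172775463428908069176454247355066427028019147130892250243151727576729893815111398246665487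53188754207045161761773365629211132764320188587590543509739159779756926421393564574186625305137714055117548856753556888819293387479463044485724593291662920995109396529276618108517403909326318255294816186977822832454325446450264977592742415076463207647400673530193534995953553254235975519493824149140635089929242601735034426513242259187299108792282766043547589579008611100911579485435110669640640886597935600262897485265882659620504953930351914402543276018267335068676146594978994604411544314077559813786577324433168296850712242611211820087457138594161629812681285078896676352017911724035950217019269053343326014056837933232988038356702726073118060964937032361415785281500144810696831494713886702343653596133434889104099207054212811881749744498067930840749267894644289433989223605649706047325414301594577559753703896445559200966835422572534089798970417638365213949983295580620592595281728669348903021891377955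75504058739176542577544574878827728385859066314786870210224492132699471936812202336748279735140982212038533755139377955258946216062603913584186961098073487796981990715118354279477978568231424878766644605594865805242073799577087154732015134152740340741906779148907646446101922508799793245344395066404971901370519269817576647307058252109380749708952854025226615162043160697367052191811179161652185551838132328496812843428277130205311572464163605312844162539151895861814866526801754889208402265422359667758918690677954061474027189363599758091828559813255978482031131378639216397619618617028505847834172525114775174140897382718391828027452941441205621177549158044338930601029345999988069995672032076383719349016498105232446203769993050855075357360858163583352465903065736717271849121004377778465934508489258230357090629567457073483408267273766968359021386717022067198549184798804164812172827639881168274269974811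16356486469929362457161908891522334946480743263373014772631669449158866043440124747108979272762690241643748894555306742335647027502518308048336773651359954996664267878852545793993730254521027764827409484960179370233114237863049642741916501849398461507777814901932940861373110178794386467608337811595970462558275336207504897625259816780109182160953756714950629656871662101239549232213112779976955317990450375100889214338819878765614698119657990385534539905306933768814615955333284946305943850588526067246326780003297438438835692680494624784413361125415971282724606141409241360850014913898540009999292314194295391838066543108473019362433403982053940152093855336629507764956264241023912376189318415634708895804467791038684173971696774778570221728597127741747001975293942544374069089648763500073376309203636226612922878738558059940144354557922624648915029878809234783256328701009232555072206257591945168704979854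80538539915867943241282004124049617435915708320892958573618033742858253558346935892012852788682724010146745557809747779862222664123970911886140040829201054585145195538539197957214956272526653247033879903975005190769534332461533451601263221130335037464739500149808007842024346575541895458629776814281382965243144262498188061992049186917430152609842192710841239481360960388681096464224868080296278413751739362105506862113924883630081107817586014083813011313816873586418882442030918427913034338038059308354033400225425087421928732030541379241596657485134118832782335458121789488298734672970688395296224296175071234843757697324999003713943344747206665408574858901561921305308008778222036059925770079840765257121516125185598140877680464270190652975137716090127086167585737548541908128766903910460690278904378166292045191814373283533987501353340188728881091291854327610435966431520974700234134622633513103921066538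15403641472366355720800575749193472706606573831508785734462224378385115064693687177499991330600006649536596506679432992184867958245783886689955131674554684270144868592865345540344404339756832280140978481267399630092166587546488514539020652099551007257169041120727255196318342728464737619485126044069456728955694071939950541401057322074822054430931720511474519508758062294801987007562796566001630436806441407774873611446889679517257058767665654596032799821812556419237302205870210122764247571015871455320716170040585676304215199897188037727978084888965050735860976692186697896185622589577185090049866054478060518463127482962125997973127895745671011061268401320337194031621221583044304406289456136429193127634404686341584134049327210051019355156297670864603135516087212682497841385948002351957956998748082847493922807119363254576278055416760773789694982493381703657024008999749306551522863253032417033613108639937579259021550488982790239102723070798954799989173592693755453716962664959881409729605267830302486432760303390311059432073298520607180257509477198477055853405099619109542760181146411098473841180215177398867950374594233283715036663374172035142010857882826322973798183007345624484018038268219495211365999411669207336651606952961417161374721566424895817741149436304843041045191894102562947727360)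

noncomputable def rc8 : Nat := (nat_lit 16383591481940670534659871040141365620476925164710251901879105463371360635591862980974354495322600207337216744110673866177801048591941710508924206069575169302109936921092271941310517385752238129998196116296773122529121375830276173654350027472896898865553427727586978477258056734698588347704563857147379358645472697806593992204870926686281788403534030988004098512486130365330672131543500972989159610549566194250432072447384681456657838849111739579874957078140310913138739044431963607644596536718643040942486422187195929832476687944611883729861195240806785254568242558179910454779127290897026869780600645731426421056040838250581665730952337001625857979292357173743305330393022931266362085635723678298039934961014604900351367600940340353631644635963429399726909631268908297711842567799974654639614682540709188674332028643079447611574716549621525713326743155291448610100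29500410787485094929935984077296873147895826787677062375705860384455924026390527552144087962912574601117372492520855624503480020380402852885774334311381531692087023060270954725032504699022589841324093065026473502774760654981095649419122917415208398642979488554358802296618747093092421472405424196614946588436636709612301831655835453169433694212492175317955028133036531034553382789751200942318087365049525746187944249960269921917667461367002291193962428535960416913459214839314299913697024371385328241888130876309735891042871425017438321713369015641609551879028201538960609520784286286057140959428214213439669261916475145638131868494889025325210306791163342326894555654633665501382706664383081978202193182221829133789691351723407167577613148187359846617012969231936009957254879982169692568714913152376322508727273667007388800392782022141241920252178695767020838383938412722130775833103377024279733120140414100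30858970102701586291891473484742713027488381420667855142252328047454289840751772884612361723300106423117938991741256229791770061166474782662868090416784815997569658941154882346944954750710711650650580902619552323685621876310708222201960804747301628331839423890194109387994519730668561473754504671050043710446310283317529951171923056778904678793126321208542365069277258771926607064537657447689006272757318915797573473515733780002403574680855795250584482925488611147600503101275570651834741982801400983470717304162300203586752279980250653885150031745536281870713595765103765707497656151474984356391400096743365065431821845810826578067411579949564989410619568835949935122831063453461377268041717990918063754748839709729576445462266122538210104136412938169186685755741512946123633981211102783602377637097282760481452151888564636434425255228464590136775918911151709902966701063571780473163949475056875891190894898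00251357155496396540608366975669832237206207622682656137207495462215867834571595943236038992387936899112607797358165862114590166965248119984765466915579209379982057321622385161844703412729873988813894108843014291389886318550016236430154311998845795310359734058170447497035845071190923498272765896771285797916717929091256254438103407698085815439675692115383720325971545410357343683431063556665837617058843088074165184611117187445577462807827662158963756209002382341598291768010803829550279232553375645323662964958043722032580794985463979980115724870046507965217238146519248223537104267300000241715837919628749747104420804562934269722874903440698894403317869717305276714698435323912714482905031244070406343237248913909148592918861532386650947929777871165546918204071970212018698734048272476921357083078871213503038716878847521381208931833423204539779313971839377492687561991673836849391761383385601091301480464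86364751020140673714765887057117404680710396222557100734392576819135304010223029284378984217067087227372083078167856440196331086651642978976802685885482404047763452451989190452691185959912239032089200060050368173871928933458065280756254550059631451449928273094833238646119773283528443377408388025582302718899500741506768973174655153420776782980093176597513193969368264606895977280809967790769220786487094807161486277035344814103129871855575000106394319019143257765881260170789541971475612205566343250974705746561438956963745868154149432351177576961956275452065761651189357759688409691217675255487373274132034980591056249486045156733344404551229310451381107012315165119572464940830167024784789157593108202504267650529223262099777201152028634757265419949619546007374229682804401943008517321737704198375742574145973392510127001705813453532543786367391241544739503013598795414739495909177113198847421884411161390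94175427970980668584786032884712997874021457853645675943321826200875204731956801914922688936162239978408861705331017676675153820243184906465907225933305015020595286611857221829174344049664852115458320552806643639112447777458025599201898959265121813476094600915593310832942893015903410304272694935386143592442002872550520309753459002520016533682012433628319677508836310527122748183630980841974337020493263046885113392015354017275015800711027021276067960742837814139321254264232086206479527281674050038921359332080069751830981792991608776648469417901043143120013669924963451318812275142144007398167094771377989717709978998337977103424122737619095710935924072108086155143525554543358286874492204809788889955582984307073947977671557061764269606528962916169376448985175416277647899048707150472320202985554543707472686079758271122445016254420344192083435835076273843382922924925423881293447078743849677472100773354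21991881533176562680705640805003988438283218983602312761699319230184225919100245895746384272746877625721551646232606879929020873276168368925469766923448934988020436104827606844046270967559618160414939376274149442292819660304961633218528890585672404829831233994364700420872551472027648309006347980992927385450467311969761005804332267360142749136444457013048657867188696053387880997990668140509368281063788917270466525481583463506865205162920094663889259089257972945589673766853869876687722218953614856494578693365933244387424690534074539807690815660747351727483011270152954077531417066974195954254513380054228884024655974821688360130044445671623537088099694431424800081840119567789468675582877627751407520950001620275469329234628678271417495213309292494817690671955131107134163143555829777975344475604574745497131495909345672021404644240846205101399804607845522214669443528066029817765647632770533118058540930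47925959566060588727380984872179687219242622553910948190895960037579338969247520180845663956161766175026606260588530424665744566741486496542459092071628598898669639076547099981512494334304204483426847334229401949247387954065876117480141270495094698189226740635976710352507463219898782839731941831451244474687606170725389213763829664425607453056336231465525297367064737335573627763782651910918745248821792255798889505708658443717091515065201959181252436532033334224753765522609011639394461036087043278241196254088935464515803319678504112960718283325708299483260106345421156847009057465845443123469502517479884018403021922998133325663143617769714068683537978254810595044160646472051073528677327274105447275417662979483129860108211973599853389988750852920957404458307458960513264332877836748845387887726459038280056696670451577079685217249499761617294580521103154360827706251040146188906914632117566848149815070322765912220032126682311148771952397955592245853528345249776581257486748076567353646549961716754026505720525122072767623187091513119800051028577924764108565648543379071377773140677599373995387984895867822491857329583816986489330394896918183880637841022941000611176591651085436794112680679068040421816364230575756521927999947792570418035077744460191620253837595226843562569513648164423134609408)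

noncomputable def rc9 : Nat := (nat_lit 16960843621582047274725090486063781185412268479536036316396625646905950974474261723927361924476331160054165216045782686730666242234437588503318631122563224308131310851276209213230774049353221691790641877739515923784417048099418625055201470946002030363980591720423185152790183080295683402489233639703672005393601595589004713265552416338793672972435415287817540636373290041000302914479148196147182653427693714967691067502892485222905958861019970653614934339305675518034731920395793472606821720904837986070810838528160276396349772761245845749007056067000608908963566373208447156695665280995884558037980544010895219902860256365963047588831201757490758334387942947402152158814863735839882523883879181716915908468149175501677662456237096403871939660106792839734229183624265497329155858693543007731245887566653849902932830750967738372607043596997311986062092615127552307800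68178520121735846621247063416145261089155064644898727889421806900567079075483727009363265902865509447556751603567176300512236178295702860155059583763836811672518263750829655226522684701905519965244635882044058243887034567356210781869994831373251537822182863466423366105389183019855201714243045032869064139258193622873051118815425743764861139922953711847413821060339764894446381581067602658074626680132441605443040441021031544103364141383700439319726966672493484157470475965696296968637243059988607545108041331161920433184554340345310268009818490866167997138258397819873637156451639476783492762748958174988293636633461010209322309666822963635189848982593796190570033774418070839483592424215860707626555418323123505059510352293791701787690201333992225026347910988746967656242792018755388461341292874483029171646619517512399504771785193852380159350649861070979508233582197695623517391973667018805167222100259430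57269869990375931192993674458613532604271303554156862325594159285305486406652858894076314821272648710223210486949810175457180338792828146234572205273443950560466604790413385095241939359738461030016340693462549007931307177166797289894088177983679330023068154919120728154665356954736598326403580749755667952020954314088478219724476727785780302025417225891527553231558078561797177140779137027041580723741175294661671645871510331501743975635170355068637724046676759153670174173282011759425771806043178032205039290936839737983617193396006431528887651872106547663184781074693449516970754196971954391497394244713949917300368487798154315700507140394145524681653284536185012430870714724797336380765401812971612101574744530625528948960723032900966262029234285998085565383071233050917300279723567415301426009620328785461981475092264600793024832917794398484523970536535525502560971583766178029911803667114652739348628391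34384687000360883919893560873444101808286368756215332403075393300602527200593630165275280959099069313649764226630696763230440476272860806038211339132120808727467895316430007227834174591273038210730431845583548691467656683122448611366033710447038468137726710112710101981840837198424732706122539878477963690305519472191098836073575670213128407082142917779795393693352087252478703300453421843001341089075950633146980639174004614877895733314112053880332393008497120202696109813454272239346547108167331455914275288400690263234316862945832095557594482041502768086424220020419962235484799980950755836576452928968566582651718525906282225661213564642547128752179133853418070560654045252375062033404844985555610055178672691076073307161659422910946484353656956561435555014287275534541185547773853332225178131324837023010009568792872228511233225127777632818085535756602857764619116522316268957260387606819309005561597973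65175060965189391076682336809282839679964442010313275081704179916490963275772926647938514050467518465575102146586136158981382589431032925090389870103852361617108969738274461936323601162949419479945100901362956694916043871567805278271246799791725714751684925538683555262715482107903028788386767711057450330995816323564006433577842861488852548847469272352934506783447329479147766518500803519922849215267622942696053323064693352833873920123650976097902376076317250107460274102792160453792017023521565575660772227737049893666029831626318890922707609199323352344221460757211251419798841467288502242439906794939646885512821160970133367719184682106734314951785894290599871824325553848561506719516678332721085822426523898483779817066771051120176071899401579848532374268687131582357285107336321561736763862919735879123273084423241739019129584399759357691912915408209709939024986135294130760953115610117342882975664976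72738101156857514061430574563168910572344274191425884103484806402303418896689306576370117670523840067539249530486830071210236025852340511295697243075528237401069473124739983982487459372758153478901031166551978421644896325452563412457053969776098040194610447888301169986427953160674879038137358615497223549856964110092652193328194716644594095440423825728155134624497067354070804235100765609368550340982846007436884330587542287234930784289509359234464204924162931831439822240903850731298167578900230481510005051784457104563437873895498203940749384728718994375114557854063809499893826623797830098184672458632506497630039355013478606992758545148672592055087858367796498190102519704741929232177671609858454372919222808503228907731140964130006490660689078083466833440905720220012239257184738622826676143451568879126554073353390560787057968584786954546996865345006370247820354040589465277584620672572698714049884091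99928879988089308366864631652636954581613269271678037366241143474677885517623457842790508125574367788179007297949748686426730508459323594428536268437963711230696995479201309648926811417952847388867068557626114940991884661132137653523911756981334770491358877292661394449115148461618795782488277098924992982333446063654679625443378683345261986301827858468756896943001129174760167078833395411263171864517821995911748795178730730002410557818907303696428665372556180569864461407097644096675756473504150380607577175915216877429944822562047682720059144571141921734832720477378637450400062706508978789492089147076359045794285514121999749344127789346542940274409453311010325280885591223504082812142359766245758430871654130205367304110275418356292152737052534618637322009264429844926146267743861053628445923029244820167892015245957235588767904197060591254527719277383936677981919332125872860730272500272381793893992386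37440268972841870813712351424383630565620700332142990052450206910295662222401780810458340908128355428003245391373487697932671963184278588856004808738365373672654940612775138342417922935488940636919361489071115632805695401024251285015381692624292883084135148165504122455165313036834341378461746490804070585045231752244006814739347846474627253462106625676252707555309178217753500657245323261599944493440497592197501444325719728389473357924576541901924287959227023223305863071333608567422005273927545032399702501611843597553336066207418727434914239793608135395417862752179689487679276419182067831267837058007688763093704298713643719693813140915020267528973970656467673468597334046322504483869067660646453939564980370894924094563532324004381078789078488767915081590183995850202933221926923996229779547998336326527083388448817967643225524839458842769354892612198738610737706666192893742552403786052563625079909148645159478442614894715267803756623051957253192694512524655991126853292694545172517701099422635167402994655134079601607307962039023023624925036462868002603033413865553747228769810217730391732408562277785789036913832296776107247696631146787730698673205170259929138157508827559456134693384499658340106496874586172687139049196964311912740454959148309744417688909060342096448232338372883636044169216)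

noncomputable def rc10 : Nat := (nat_lit 1753613972592301849654529044199463604217025013800256112612519005052229311847623551328608970475508245196986268104006263667192808181647761918281808807852934701068107776040003518762282034559107580901266348699980552979396002813163231374417704099103412106118508134184720352423912485266523731232925065662235515335882066021108143459650993116177068209428315271815514799487222562928799362804980907681240265433883158896692698975168113067634822525971650681517651294172725966000265372900567780517861198412951217893765858312450246786220654758743260681013829604023792162219763396109304053598873432029567440451516817233922797529999880756531198987186940444119158255665191759828728740078981034026903880492824420880184005973425541861028507968002646838993457792028675549280036158520289016035352463533114862344693493486320571789027612489641613239464452182693118946860565092685048409619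17290398393665080151283414898010557487111404251039362615011058324616678240820142793807725083443143092299698460817327202588989225298191114384836047285278289626912897537391186727328835492627230216801969513629136097570334417253300168104745743485004336007812870883509266673245111688501036397159241985508217023711800482899930643744296560765153838311995384460869340237172582356873304785823402077432849013241607646953576667364482897561002814714578476174502074397030610687891921977527227842293115193051552037179684606137286367701794739634076998821868337834345415889436344863520066212151208462462728355508572307086433383607786545339082600139205334229198094040884029902465083585716299543039672292363836718455718189742848019274444093785707758654848057115164647526690311696378012015989127604731811192183269715918170257563763899919759474330287202690476082283957735631565564025286815444582800796756270665059886558214702317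26639377320828093484060791636758461751478806116573029308689347911051640107760918446150830876075441666271682165588965575947529204497683829036871305897027635294788519795805350265097531311153675126595156647788828776456606379523667894129927351674201358223180689533146250828135347898068401386839279481229224369063640009665581928285556419493215159439635840870227241475191097061712936705983176614317168041835581923287267974065691726636435693266221660878551844706240399404107039266892040551761266249515342570369078086288713780690225485878899521131700363817343617667221849642069452193803137223817853952861695077330439329378415128689374401844361160119051047999736134165686384811504069906210454785873566400426460090729792486889637584907097509175043210702521625912296861811417808670215348500656965317140929825665833012666797775003371608184396079634420225747646685965474008724697409884409455832725738985932899658049049462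20572211949106251657425739800149249838138470422861345546211632833953288612599952691912717651892457364930015239875584950404244062906832916797238749878355412985240549127288666654328203954629017473252386154922101753269778524473411771178341122240920431253614672524529097539634420779879791848429720776844908151650071144645919642545879337365828950675869331255923346082314115168001611688950230770880440545253219870462875631217313016829304456453130482543336775123903721615752165415111807378518558163626291551618849700485108898265485316283412682502083351539612804651392283545063223533660848116710667971759709898939645991904416680147288954746498832012592613881387497695619956196740425535362069232684301698759856824370515296901296831362459504906308416865910029633253150521334856401713203385462871038864284684344956333572157413320225993566941549681633643067659020475388327815135610619590925984033309503981720878685152957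22415766681962880294763712328700715219625127029509584483498333451486298904370008049801154545549806977014716673746277926492887946310106687612978610410872054667598871437550585149277466235076560312523374368317868937796216158974319260202965300418209560578048187561756978392972803191445090289936690633395152376791745217734581340118505397348074216221860837744944670286678971118427315306658525711328929460433588770029909015734404268287330232416873509860653848645271111260020176518215191966043516569307303170948030331365351173668848266461540879573168929467796329599495221326256966459953932362155145065185798141842137740575508542958573423434988253975712450765737605149617579596999605379650784931111463670632988878304959830193504872657619552653853387631081787279116719510174053291067699977113072650859057983780532403758691479612975673723620118166275587305559377754322935547986127675718634129903249778495137485055925674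25871756003560615719560293880079638987139612145016764951443442689961018811333844995070886885681496932667734396390194962566660281348027856323125524955248981291435147279995254326378024245528906556662920760479682983521740628311520735272283612710732674197401235586214726345129793069263095803261214695391965683216021737136817531979132799693267440403091758609230153317075985326925271866413440432591746259439649762663515075238258455236296974952955342855388155487657143743730382830212088917921331787367492667232125995072330460295028891781343674308038093942532964400724856017570621770788712711549383169544959773279581326513090434296107037910961896683136429320524146146527454506119970313769461376218891008806896878460460627977028633135960230979112431773577286268295649183959674130098428876193265136683873899657200411689655493528666886590276056084598205130222439949425481592560069379601883837739358155424766452629126055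61659121789869950734163001696590371402497807813892470295333606236007341949190457167269450728763569880497437737624216298452047630127043123851805851864584485883986491842396448465623390745690396596271137990491814247497893310391190056433455061845250212957998919302211332101549107104935513426982426668917765343660434022501658842093276100866887456203477401082134529826181115042499883853006535638069281674825371840001261604222161470278782157751400788904893443448973106013155663578121735292946620147308215926298713277939699244292157516393096664382196358232283935948692009022391770682818347840325693506346286956687164427715764070423227856359826899415117193702644733662741544548810306970759029680415251824625592530884124984917370478080388022465129455712467627599409595250059045559465429563671557928651453564217213982248299407340948358077005532762750888765400634867390211927493595566487114052707507959530320226582254887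037553796831936988620020058398332729626182303806396192830924228833822845608773317647653597329323848037720569557667005434735701240018668320094899708964763943413823931391109987495870933438695826596567300496675338064893221122166600984529418288698424527518120995169153565176541578910938738110977098564410960423664143547811951643223226767281887838036205275486694837601456017523355743857475351952895022247557147905117999756208894430935774506132480064228412124495437658502682391263967622850236525385126366364945296779274322350829331030290700654461174303248497032756521948584638438325993407058361188005596760218239633488632055519676991717370678529737450615791415485382727806798984638069983941515173433455085798625378807435184704304155600708192095602397727915134852120679625944156351467825103794402087928524783098350056326351480912182085153628475645744010592741407821958339593275202399523239067160960927137970563111249492598397436732698470519453959057252015011148157194283502107817545809197883290950646960317841968552982911406020313090079134490400349080538553161796187051434403900749888973745075848620433045129781557560848890494156800559966371520304798861043902254708591928551534125007588636340464817226456715509623266258585690072162722614388708952968039081764312797786707967354927981590737978820149864151646208)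

noncomputable def rc11 : Nat := (nat_lit 1767856899789471271063212365330273765047713457943639444376327350906724459106837450131561542732136176587475829714140043523344322497127290252587260335695021458345730831069562038972212665227571317804718870115874089954278775978778020067259829895338986273115010637552837318178101579472997577754904202193312728944532273657441798838901397930426159250307135845190546799950972165256646546611373522831200545679117028591314808871043579927965558832796705099111252680039852838016504770540112243092784977314593832981610193160916041025477015493883748878099692451931077681405796181679672290944071461743053758729125610239737820510067954908122528601577947354975898222569588559511253027264228415208122678236110215472743764629562867163868525200795019676609015094785843878881947624882671113824397360895668207969073753342330225687644833754062216935516378249750144559012315553313289635173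67154679255118717383097830071297617324837722894078775172010687135548665400702541107781458120672114003467117652985081824751217359788712211832729493793789973558765611046756282530025788767456782003569719614540508937590702893639210408003724729898388339540341779817763663995346164110165988642033531483784173959241043423628932002274544910864168952626724566147774324365346073867866453378722777419560638506737020440637616795740030927769742552954513158573257640223341580454926786670464702272522261600408138340582701580329240005508086908607381116117145164457174729131169852204763519211164326609964621751656403439294450692968949636364857571039759213294169900456346669760316116860798203406520826338738590555004085047428961182883076037862458883407753607078955723630783696770157646253910859338999263939043612241268570041966037944582946203327987707763334085561895268046759084277875040724922715598889477990629905561247143910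88904032987311848352488083168900059927154694743987126090197666926581119238830924204246047545368330520258960590002060260397266628978233209314177520149566733750473987330851473387152890443143765343811340513725873063778466666657980725816900850230117617807217300706178568423540462071266536088717799138407329905464692545228161484027790477151148773354828842400063274099738631150000020609765511771503250582011120709043023328790784945806390821704983658278200583654076791785102898194446689269284794059098854279336083136777290910035048471110175358311659405633555591086892190340166731061614352393197483697623523292471720342613673982198491700346725305550952666295455609668245204394239449873954452132431695751277465101852833996997376871789397210652138767446106544709292509643228800237526572943717086865174936947893815321121618098751503126957177020867977581252959960104258277584938936199259476072132640884807589030582296517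60343027983847695995335310190027913051037880512289724455304525879477765211357281381061922598719551695782042110391062889126456170547506690078618267202159488941843997486748180701542453848005002595095612758547383941972440048487284240407792422885566681401598178445647519884519844581829194430762954289528153089014771850387522877262602321642610478247111448849910083404012721628130505747030125400886310404913247535421588240096873643016644841498576811518205703551780661094206821867010491035210867519981218413848941524568754868235320570962404288006656314999474392446921064541043649782006538546570246664514840209561091357228489642830888992205229842995314564263980938764631530797280506342009087155866035567267237594760980068681423744140443918218680385230022464238561621683100761308731167839499354140556134429248172042308805632054666649968983173989827282439684540542061380175910322555764273006400766936052308980647310843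96994295604650394565293661851920504300442504302862384646428226646752117121113141486143400115978661689935758593224594994573458302991021059148584393366075810610452744067325055433119039559523612281786257293217433615343456935073971483893991020562343591040944719416767777862502846254103952474871654864866022683485799354384293995122450195485610484586813052958078151490562340506913709459398726583762798990558359139775762822873432423359885508945348074465769745816539412644719941977748347274621803069722531180485989257821580826408136326262652891544212876225867758078792053406342687373470058944316284009366577624384773665589368709030358691659087696199541216439374778856800539647663267631505478483529419864879209248681168635508448381906153452049831160327834766413903838621705124983691136645499486977316147064891664401284688530851937042462277505617545446700534660621955336728673191955951422138618223892358885937558755228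28925035411165780581884903348959726882730574994718225537996241508295241309801672761904052648299454381820414971152910304655596888064570767219711454984828867090478513845543671748640134439562194982808609703139090645720119983561138361999520531200991080465390541794168232334552772054623146067398224905986515853087872458203213689283709199760599843253573856843069925320913713766923498810904073446352361605451441887025468631671625093235243351709562178064219761046331664440860703514227301612678785164879953745268853607676205565512988840792125198014651828868193734187109641851025646670611978025666101111403460760972360053870296482582425296713446319964748237115478803751034523087873638356904150671573929733368862336236200936636463088589237568976228820889526887125903978487162164644723556980608038456577996846283013116450992019921953680257697166262628163737432269522320007088406266147975351805446693163493788955390542873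57475572437519185977189026473823242386043316114929488075679776483986464045548563233550911850835734974901119337209264286858816933352613618337003767349126174943217895390055424480959031822756824754766572456579262552235193310114651667685592816015886700023255032031154124627580102756740944092137091414348805614101691308164115532211062537132868898900285951789400197095641394648210316053248117772442698753119354538849410166330861810818304763328591918442411570936872522348929493591454455461882779869515496270414773172101573934546489713936430199713933048019374772208483735000090105020394062122531897794459835046642919676297087753839641960281111467847970362657935428263573195589675792168295829190615544748812230939956520337355926355844283734108196977249443951546508553636838581401583311242204782421751395448717946085623289942929311409556455560609650309002214894020624836077842646795884668934104581037788303052088740833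889884438434770825832792159648787428349291437552379621808137928380361405411607772198877184171674585439606705430266323172990628301701259363513286318232889992401354939009108464887185389362124819345915183239456990762480660669312386818134719927100057136779084898949244926433922658155262569498236973230739293995283137256149404999289304081103500612553514251664828454207782610668542754560229972200179108037218545415830482990970978441016124508550455311730322095696715601657303004848957597262027651388903858499945396387846727084820980848318624797289948903751718161602550229074034713956411358590173084237511494927710705740682581236132740636986634705364929818898540338993308441390715457234489107094498031711846914071383890662525066701030637612906747301303282638585295861948158506703238196269219583691016405251856520363366632807556364280274041424209431601342760025529067524239624006424200190780303110434253493372548805804873948081446716982011558025111547974799052783047979139240506897143679347423113254308186478449481872486344289182802696773704140488809294985896556682950498036837679887992134971435009196311837963692749171633585979010097903928334269469229389933592931833060668552784056703812586409045771230894703968677540201869487076995313069253814415039934766992123526467956053946023293200223124491128698249936896)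

end Vale.Agent.Lib.P154.PChain.BM.S6
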