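import Vale.Agent.Lib.P154.PChain.BM.R6_1

set_option linter.all false

namespace Vale.Agent.Lib.P154.PChain.BM.S7

open Vale.Agent.Lib.P154.Chain

noncomputable def pc0 : PT := (PT.nd (nat_lit 3060018) (PT.nd (nat_lit 2816580) (PT.nd (nat_lit 2694822) (PT.nd (nat_lit 2654106) (PT.nd (nat_lit 2410512) (PT.nd (nat_lit 2369952) PT.nil (PT.lf (nat_lit 76) (nat_lit 3) (nat_lit 1) (nat_lit 1) (nat_lit 166) (nat_lit 58) (nat_lit 166))) (PT.nd (nat_lit 78) (PT.lf (nat_lit 152) (nat_lit 6) (nat_lit 2) (nat_lit 3) (nat_lit 165) (nat_lit 59) (nat_lit 166)) (PT.lf (nat_lit 152) (nat_lit 6) (nat_lit 2) (nat_lit 1) (nat_lit 166) (nat_lit 59) (nat_lit 165)))) (PT.nd (nat_lit 40560) (PT.nd (nat_lit 78) (PT.lf (nat_lit 836) (nat_lit 6) (nat_lit 11) (nat_lit 3) (nat_lit 162) (nat_lit 65) (nat_lit 163)) (PT.lf (nat_lit 836) (nat_lit 6) (nat_lit 11) (nat_lit 1) (nat_lit 163) (nat_lit 65) (nat_lit 162))) (PT.nd (nat_lit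 78) (PT.lf (nat_lit 912) (nat_lit 6) (nat_lit 12) (nat_lit 3) (nat_lit 161) (nat_lit 66) (nat_lit 163)) (PT.lf (nat_lit 988) (nat_lit 3) (nat_lit 13) (nat_lit 1) (nat_lit 162) (nat_lit 66) (nat_lit 162))))) (PT.nd (nat_lit 81042) (PT.nd (nat_lit 40482) (PT.lf (nat_lit 912) (nat_lit 6) (nat_lit 12) (nat_lit 1) (nat_lit 163) (nat_lit 66) (nat_lit 161)) (PT.nd (nat_lit 78) (PT.lf (nat_lit 1064) (nat_lit 6) (nat_lit 14) (nat_lit 3) (nat_lit 161) (nat_lit 67) (nat_lit 162)) (PT.lf (nat_lit 1064) (nat_lit 6) (nat_lit 14) (nat_lit 1) (nat_lit 162) (nat_lit 67) (nat_lit 161)))) (PT.nd (nat_lit 156) (PT.nd (nat_lit 78) (PT.lf (nat_lit 1140) (nat_lit 6) (nat_lit 15) (nat_lit 3) (nat_lit 160) (nat_lit 68) (nat_lit 162)) (PT.lf (nat_lit 1216) (nat_lit 3) (nat_lit 16) (nat_lit 1) (nat_lit 161) (nat_lit 68) (nat_lit 161))) (PT.nd (nat_lit 40482) (PT.lf (nat_lit 1140) (nat_lit 6) (nat_lit 15) (nat_lit 1) (nat_lit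 162) (nat_lit 68) (nat_lit 160)) (PT.lf (nat_lit 1292) (nat_lit 6) (nat_lit 17) (nat_lit 3) (nat_lit 160) (nat_lit 69) (nat_lit 161)))))) (PT.nd (nat_lit 121758) (PT.nd (nat_lit 40638) (PT.nd (nat_lit 40482) (PT.lf (nat_lit 1292) (nat_lit 6) (nat_lit 17) (nat_lit 1) (nat_lit 161) (nat_lit 69) (nat_lit 160)) (PT.nd (nat_lit 78) (PT.lf (nat_lit 1368) (nat_lit 6) (nat_lit 18) (nat_lit 3) (nat_lit 159) (nat_lit 70) (nat_lit 161)) (PT.lf (nat_lit 1444) (nat_lit 3) (nat_lit 19) (nat_lit 1) (nat_lit 160) (nat_lit 70) (nat_lit 160)))) (PT.nd (nat_lit 40560) (PT.nd (nat_lit 40482) (PT.lf (nat_lit 1368) (nat_lit 6) (nat_lit 18) (nat_lit 1) (nat_lit 161) (nat_lit 70) (nat_lit 159)) (PT.lf (nat_lit 1520) (nat_lit 6) (nat_lit 20) (nat_lit 3) (nat_lit 159) (nat_lit 71) (nat_lit 160))) (PT.nd (nat_lit 40482) (PT.lf (nat_lit 1520) (nat_lit 6) (nat_lit 20) (nat_lit 1) (nat_lit 160) (nat_lit 71) (nat_lit 159)) (PT.lf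 (nat_lit 1596) (nat_lit 6) (nat_lit 21) (nat_lit 3) (nat_lit 158) (nat_lit 72) (nat_lit 160))))) (PT.nd (nat_lit 40638) (PT.nd (nat_lit 78) (PT.lf (nat_lit 1672) (nat_lit 3) (nat_lit 22) (nat_lit 1) (nat_lit 159) (nat_lit 72) (nat_lit 159)) (PT.nd (nat_lit 40482) (PT.lf (nat_lit 1596) (nat_lit 6) (nat_lit 21) (nat_lit 1) (nat_lit 160) (nat_lit 72) (nat_lit 158)) (PT.lf (nat_lit 1824) (nat_lit 6) (nat_lit 24) (nat_lit 3) (nat_lit 158) (nat_lit 73) (nat_lit 159)))) (PT.nd (nat_lit 40560) (PT.nd (nat_lit 40482) (PT.lf (nat_lit 1824) (nat_lit 6) (nat_lit 24) (nat_lit 1) (nat_lit 159) (nat_lit 73) (nat_lit 158)) (PT.lf (nat_lit 1900) (nat_lit 6) (nat_lit 25) (nat_lit 3) (nat_lit 157) (nat_lit 74) (nat_lit 159))) (PT.nd (nat_lit 78) (PT.lf (nat_lit 1976) (nat_lit 3) (nat_lit 26) (nat_lit 1) (nat_lit 158) (nat_lit 74) (nat_lit 158)) (PT.lf (nat_lit 1900) (nat_lit 6) (nat_lit 25) (nat_lit 1) (nat_lit 159)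 (nat_lit 74) (nat_lit 157))))))) (PT.nd (nat_lit 162396) (PT.nd (nat_lit 81198) (PT.nd (nat_lit 234) (PT.nd (nat_lit 78) (PT.lf (nat_lit 2052) (nat_lit 6) (nat_lit 27) (nat_lit 3) (nat_lit 156) (nat_lit 75) (nat_lit 159)) (PT.nd (nat_lit 78) (PT.lf (nat_lit 2128) (nat_lit 6) (nat_lit 28) (nat_lit 3) (nat_lit 157) (nat_lit 75) (nat_lit 158)) (PT.lf (nat_lit 2128) (nat_lit 6) (nat_lit 28) (nat_lit 1) (nat_lit 158) (nat_lit 75) (nat_lit 157)))) (PT.nd (nat_lit 40482) (PT.nd (nat_lit 40404) (PT.lf (nat_lit 2052) (nat_lit 6) (nat_lit 27) (nat_lit 1) (nat_lit 159) (nat_lit 75) (nat_lit 156)) (PT.lf (nat_lit 2204) (nat_lit 6) (nat_lit 29) (nat_lit 3) (nat_lit 156) (nat_lit 76) (nat_lit 158))) (PT.nd (nat_lit 78) (PT.lf (nat_lit 2280) (nat_lit 3) (nat_lit 30) (nat_lit 1) (nat_lit 157) (nat_lit 76) (nat_lit 157)) (PT.lf (nat_lit 2204) (nat_lit 6) (nat_lit 29) (nat_lit 1) (nat_lit 158) (nat_lit 76) (nat_lit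 156))))) (PT.nd (nat_lit 234) (PT.nd (nat_lit 78) (PT.lf (nat_lit 2356) (nat_lit 6) (nat_lit 31) (nat_lit 3) (nat_lit 155) (nat_lit 77) (nat_lit 158)) (PT.nd (nat_lit 78) (PT.lf (nat_lit 2432) (nat_lit 6) (nat_lit 32) (nat_lit 3) (nat_lit 156) (nat_lit 77) (nat_lit 157)) (PT.lf (nat_lit 2432) (nat_lit 6) (nat_lit 32) (nat_lit 1) (nat_lit 157) (nat_lit 77) (nat_lit 156)))) (PT.nd (nat_lit 40482) (PT.nd (nat_lit 40404) (PT.lf (nat_lit 2356) (nat_lit 6) (nat_lit 31) (nat_lit 1) (nat_lit 158) (nat_lit 77) (nat_lit 155)) (PT.lf (nat_lit 2508) (nat_lit 6) (nat_lit 33) (nat_lit 3) (nat_lit 155) (nat_lit 78) (nat_lit 157))) (PT.nd (nat_lit 78) (PT.lf (nat_lit 2584) (nat_lit 3) (nat_lit 34) (nat_lit 1) (nat_lit 156) (nat_lit 78) (nat_lit 156)) (PT.lf (nat_lit 2508) (nat_lit 6) (nat_lit 33) (nat_lit 1) (nat_lit 157) (nat_lit 78) (nat_lit 155)))))) (PT.nd (nat_lit 81198) (PT.nd (nat_lit 234) (PT.nd (nat_lit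 78) (PT.lf (nat_lit 2660) (nat_lit 6) (nat_lit 35) (nat_lit 3) (nat_lit 154) (nat_lit 79) (nat_lit 157)) (PT.nd (nat_lit 78) (PT.lf (nat_lit 2736) (nat_lit 6) (nat_lit 36) (nat_lit 3) (nat_lit 155) (nat_lit 79) (nat_lit 156)) (PT.lf (nat_lit 2736) (nat_lit 6) (nat_lit 36) (nat_lit 1) (nat_lit 156) (nat_lit 79) (nat_lit 155)))) (PT.nd (nat_lit 40482) (PT.nd (nat_lit 40404) (PT.lf (nat_lit 2660) (nat_lit 6) (nat_lit 35) (nat_lit 1) (nat_lit 157) (nat_lit 79) (nat_lit 154)) (PT.lf (nat_lit 2888) (nat_lit 6) (nat_lit 38) (nat_lit 3) (nat_lit 154) (nat_lit 80) (nat_lit 156))) (PT.nd (nat_lit 78) (PT.lf (nat_lit 2964) (nat_lit 3) (nat_lit 39) (nat_lit 1) (nat_lit 155) (nat_lit 80) (nat_lit 155)) (PT.lf (nat_lit 2888) (nat_lit 6) (nat_lit 38) (nat_lit 1) (nat_lit 156) (nat_lit 80) (nat_lit 154))))) (PT.nd (nat_lit 234) (PT.nd (nat_lit 78) (PT.lf (nat_lit 3040) (nat_lit 6) (nat_lit 40) (nat_lit 3) (nat_lit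 153) (nat_lit 81) (nat_lit 156)) (PT.nd (nat_lit 78) (PT.lf (nat_lit 3116) (nat_lit 6) (nat_lit 41) (nat_lit 3) (nat_lit 154) (nat_lit 81) (nat_lit 155)) (PT.lf (nat_lit 3116) (nat_lit 6) (nat_lit 41) (nat_lit 1) (nat_lit 155) (nat_lit 81) (nat_lit 154)))) (PT.nd (nat_lit 40404) (PT.nd (nat_lit 40326) (PT.lf (nat_lit 3040) (nat_lit 6) (nat_lit 40) (nat_lit 1) (nat_lit 156) (nat_lit 81) (nat_lit 153)) (PT.lf (nat_lit 3192) (nat_lit 6) (nat_lit 42) (nat_lit 3) (nat_lit 152) (nat_lit 82) (nat_lit 156))) (PT.nd (nat_lit 78) (PT.lf (nat_lit 3268) (nat_lit 6) (nat_lit 43) (nat_lit 3) (nat_lit 153) (nat_lit 82) (nat_lit 155)) (PT.lf (nat_lit 3344) (nat_lit 3) (nat_lit 44) (nat_lit 1) (nat_lit 154) (nat_lit 82) (nat_lit 154))))))))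
noncomputable def pc1 : PT := (PT.nd (nat_lit 243516) (PT.nd (nat_lit 121836) (PT.nd (nat_lit 81042) (PT.nd (nat_lit 40482) (PT.nd (nat_lit 78) (PT.lf (nat_lit 3268) (nat_lit 6) (nat_lit 43) (nat_lit 1) (nat_lit 155) (nat_lit 82) (nat_lit 153)) (PT.nd (nat_lit 40326) (PT.lf (nat_lit 3192) (nat_lit 6) (nat_lit 42) (nat_lit 1) (nat_lit 156) (nat_lit 82) (nat_lit 152)) (PT.lf (nat_lit 3420) (nat_lit 6) (nat_lit 45) (nat_lit 3) (nat_lit 152) (nat_lit 83) (nat_lit 155)))) (PT.nd (nat_lit 156) (PT.nd (nat_lit 78) (PT.lf (nat_lit 3496) (nat_lit 6) (nat_lit 46) (nat_lit 3) (nat_lit 153) (nat_lit 83) (nat_lit 154)) (PT.lf (nat_lit 3496) (nat_lit 6) (nat_lit 46) (nat_lit 1) (nat_lit 154) (nat_lit 83) (nat_lit 153))) (PT.nd (nat_lit 40326) (PT.lf (nat_lit 3420) (nat_lit 6) (nat_lit 45) (nat_lit 1) (nat_lit 155) (nat_lit 83) (nat_lit 152)) (PT.lf (nat_lit 3572) (nat_lit 6) (nat_lit 47) (nat_lit 3) (nat_lit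 151) (nat_lit 84) (nat_lit 155))))) (PT.nd (nat_lit 234) (PT.nd (nat_lit 78) (PT.lf (nat_lit 3648) (nat_lit 6) (nat_lit 48) (nat_lit 3) (nat_lit 152) (nat_lit 84) (nat_lit 154)) (PT.nd (nat_lit 78) (PT.lf (nat_lit 3724) (nat_lit 3) (nat_lit 49) (nat_lit 1) (nat_lit 153) (nat_lit 84) (nat_lit 153)) (PT.lf (nat_lit 3648) (nat_lit 6) (nat_lit 48) (nat_lit 1) (nat_lit 154) (nat_lit 84) (nat_lit 152)))) (PT.nd (nat_lit 40404) (PT.nd (nat_lit 40326) (PT.lf (nat_lit 3572) (nat_lit 6) (nat_lit 47) (nat_lit 1) (nat_lit 155) (nat_lit 84) (nat_lit 151)) (PT.lf (nat_lit 3876) (nat_lit 6) (nat_lit 51) (nat_lit 3) (nat_lit 151) (nat_lit 85) (nat_lit 154))) (PT.nd (nat_lit 78) (PT.lf (nat_lit 3952) (nat_lit 6) (nat_lit 52) (nat_lit 3) (nat_lit 152) (nat_lit 85) (nat_lit 153)) (PT.lf (nat_lit 3952) (nat_lit 6) (nat_lit 52) (nat_lit 1) (nat_lit 153) (nat_lit 85) (nat_lit 152)))))) (PT.nd (nat_lit 80964) (PT.nd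 (nat_lit 40482) (PT.nd (nat_lit 40326) (PT.lf (nat_lit 3876) (nat_lit 6) (nat_lit 51) (nat_lit 1) (nat_lit 154) (nat_lit 85) (nat_lit 151)) (PT.nd (nat_lit 78) (PT.lf (nat_lit 4028) (nat_lit 6) (nat_lit 53) (nat_lit 3) (nat_lit 150) (nat_lit 86) (nat_lit 154)) (PT.lf (nat_lit 4104) (nat_lit 6) (nat_lit 54) (nat_lit 3) (nat_lit 151) (nat_lit 86) (nat_lit 153)))) (PT.nd (nat_lit 156) (PT.nd (nat_lit 78) (PT.lf (nat_lit 4180) (nat_lit 3) (nat_lit 55) (nat_lit 1) (nat_lit 152) (nat_lit 86) (nat_lit 152)) (PT.lf (nat_lit 4104) (nat_lit 6) (nat_lit 54) (nat_lit 1) (nat_lit 153) (nat_lit 86) (nat_lit 151))) (PT.nd (nat_lit 40248) (PT.lf (nat_lit 4028) (nat_lit 6) (nat_lit 53) (nat_lit 1) (nat_lit 154) (nat_lit 86) (nat_lit 150)) (PT.lf (nat_lit 4256) (nat_lit 6) (nat_lit 56) (nat_lit 3) (nat_lit 149) (nat_lit 87) (nat_lit 154))))) (PT.nd (nat_lit 234) (PT.nd (nat_lit 78) (PT.lf (nat_lit 4332) (nat_lit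 6) (nat_lit 57) (nat_lit 3) (nat_lit 150) (nat_lit 87) (nat_lit 153)) (PT.nd (nat_lit 78) (PT.lf (nat_lit 4408) (nat_lit 6) (nat_lit 58) (nat_lit 3) (nat_lit 151) (nat_lit 87) (nat_lit 152)) (PT.lf (nat_lit 4408) (nat_lit 6) (nat_lit 58) (nat_lit 1) (nat_lit 152) (nat_lit 87) (nat_lit 151)))) (PT.nd (nat_lit 40326) (PT.nd (nat_lit 78) (PT.lf (nat_lit 4332) (nat_lit 6) (nat_lit 57) (nat_lit 1) (nat_lit 153) (nat_lit 87) (nat_lit 150)) (PT.lf (nat_lit 4256) (nat_lit 6) (nat_lit 56) (nat_lit 1) (nat_lit 154) (nat_lit 87) (nat_lit 149))) (PT.nd (nat_lit 78) (PT.lf (nat_lit 4484) (nat_lit 6) (nat_lit 59) (nat_lit 3) (nat_lit 149) (nat_lit 88) (nat_lit 153)) (PT.lf (nat_lit 4560) (nat_lit 6) (nat_lit 60) (nat_lit 3) (nat_lit 150) (nat_lit 88) (nat_lit 152))))))) (PT.nd (nat_lit 81354) (PT.nd (nat_lit 40716) (PT.nd (nat_lit 40404) (PT.nd (nat_lit 78) (PT.lf (nat_lit 4636) (nat_lit 3) (nat_lit 61) (nat_lit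 1) (nat_lit 151) (nat_lit 88) (nat_lit 151)) (PT.nd (nat_lit 78) (PT.lf (nat_lit 4560) (nat_lit 6) (nat_lit 60) (nat_lit 1) (nat_lit 152) (nat_lit 88) (nat_lit 150)) (PT.lf (nat_lit 4484) (nat_lit 6) (nat_lit 59) (nat_lit 1) (nat_lit 153) (nat_lit 88) (nat_lit 149)))) (PT.nd (nat_lit 156) (PT.nd (nat_lit 78) (PT.lf (nat_lit 4712) (nat_lit 6) (nat_lit 62) (nat_lit 3) (nat_lit 148) (nat_lit 89) (nat_lit 153)) (PT.lf (nat_lit 4788) (nat_lit 6) (nat_lit 63) (nat_lit 3) (nat_lit 149) (nat_lit 89) (nat_lit 152))) (PT.nd (nat_lit 78) (PT.lf (nat_lit 4864) (nat_lit 6) (nat_lit 64) (nat_lit 3) (nat_lit 150) (nat_lit 89) (nat_lit 151)) (PT.lf (nat_lit 4864) (nat_lit 6) (nat_lit 64) (nat_lit 1) (nat_lit 151) (nat_lit 89) (nat_lit 150))))) (PT.nd (nat_lit 40326) (PT.nd (nat_lit 78) (PT.lf (nat_lit 4788) (nat_lit 6) (nat_lit 63) (nat_lit 1) (nat_lit 152) (nat_lit 89) (nat_lit 149)) (PT.nd (nat_lit 40170) (PT.lf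 (nat_lit 4712) (nat_lit 6) (nat_lit 62) (nat_lit 1) (nat_lit 153) (nat_lit 89) (nat_lit 148)) (PT.lf (nat_lit 4940) (nat_lit 6) (nat_lit 65) (nat_lit 3) (nat_lit 147) (nat_lit 90) (nat_lit 153)))) (PT.nd (nat_lit 156) (PT.nd (nat_lit 78) (PT.lf (nat_lit 5016) (nat_lit 6) (nat_lit 66) (nat_lit 3) (nat_lit 148) (nat_lit 90) (nat_lit 152)) (PT.lf (nat_lit 5092) (nat_lit 6) (nat_lit 67) (nat_lit 3) (nat_lit 149) (nat_lit 90) (nat_lit 151))) (PT.nd (nat_lit 78) (PT.lf (nat_lit 5168) (nat_lit 3) (nat_lit 68) (nat_lit 1) (nat_lit 150) (nat_lit 90) (nat_lit 150)) (PT.lf (nat_lit 5092) (nat_lit 6) (nat_lit 67) (nat_lit 1) (nat_lit 151) (nat_lit 90) (nat_lit 149)))))) (PT.nd (nat_lit 40638) (PT.nd (nat_lit 40326) (PT.nd (nat_lit 78) (PT.lf (nat_lit 5016) (nat_lit 6) (nat_lit 66) (nat_lit 1) (nat_lit 152) (nat_lit 90) (nat_lit 148)) (PT.nd (nat_lit 40170) (PT.lf (nat_lit 4940) (nat_lit 6) (nat_lit 65) (nat_lit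 1) (nat_lit 153) (nat_lit 90) (nat_lit 147)) (PT.lf (nat_lit 5244) (nat_lit 6) (nat_lit 69) (nat_lit 3) (nat_lit 147) (nat_lit 91) (nat_lit 152)))) (PT.nd (nat_lit 156) (PT.nd (nat_lit 78) (PT.lf (nat_lit 5320) (nat_lit 6) (nat_lit 70) (nat_lit 3) (nat_lit 148) (nat_lit 91) (nat_lit 151)) (PT.lf (nat_lit 5396) (nat_lit 6) (nat_lit 71) (nat_lit 3) (nat_lit 149) (nat_lit 91) (nat_lit 150))) (PT.nd (nat_lit 78) (PT.lf (nat_lit 5396) (nat_lit 6) (nat_lit 71) (nat_lit 1) (nat_lit 150) (nat_lit 91) (nat_lit 149)) (PT.lf (nat_lit 5320) (nat_lit 6) (nat_lit 70) (nat_lit 1) (nat_lit 151) (nat_lit 91) (nat_lit 148))))) (PT.nd (nat_lit 40326) (PT.nd (nat_lit 40170) (PT.lf (nat_lit 5244) (nat_lit 6) (nat_lit 69) (nat_lit 1) (nat_lit 152) (nat_lit 91) (nat_lit 147)) (PT.nd (nat_lit 78) (PT.lf (nat_lit 5472) (nat_lit 6) (nat_lit 72) (nat_lit 3) (nat_lit 146) (nat_lit 92) (nat_lit 152)) (PT.lf (nat_lit 5548)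 (nat_lit 6) (nat_lit 73) (nat_lit 3) (nat_lit 147) (nat_lit 92) (nat_lit 151)))) (PT.nd (nat_lit 156) (PT.nd (nat_lit 78) (PT.lf (nat_lit 5624) (nat_lit 6) (nat_lit 74) (nat_lit 3) (nat_lit 148) (nat_lit 92) (nat_lit 150)) (PT.lf (nat_lit 5700) (nat_lit 3) (nat_lit 75) (nat_lit 1) (nat_lit 149) (nat_lit 92) (nat_lit 149))) (PT.nd (nat_lit 78) (PT.lf (nat_lit 5624) (nat_lit 6) (nat_lit 74) (nat_lit 1) (nat_lit 150) (nat_lit 92) (nat_lit 148)) (PT.lf (nat_lit 5548) (nat_lit 6) (nat_lit 73) (nat_lit 1) (nat_lit 151) (nat_lit 92) (nat_lit 147))))))))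
noncomputable def pc2 : PT := (PT.nd (nat_lit 162396) (PT.nd (nat_lit 121290) (PT.nd (nat_lit 80730) (PT.nd (nat_lit 40326) (PT.nd (nat_lit 40170) (PT.lf (nat_lit 5472) (nat_lit 6) (nat_lit 72) (nat_lit 1) (nat_lit 152) (nat_lit 92) (nat_lit 146)) (PT.nd (nat_lit 78) (PT.lf (nat_lit 5776) (nat_lit 6) (nat_lit 76) (nat_lit 3) (nat_lit 146) (nat_lit 93) (nat_lit 151)) (PT.lf (nat_lit 5852) (nat_lit 6) (nat_lit 77) (nat_lit 3) (nat_lit 147) (nat_lit 93) (nat_lit 150)))) (PT.nd (nat_lit 156) (PT.nd (nat_lit 78) (PT.lf (nat_lit 5928) (nat_lit 6) (nat_lit 78) (nat_lit 3) (nat_lit 148) (nat_lit 93) (nat_lit 149)) (PT.lf (nat_lit 5928) (nat_lit 6) (nat_lit 78) (nat_lit 1) (nat_lit 149) (nat_lit 93) (nat_lit 148))) (PT.nd (nat_lit 78) (PT.lf (nat_lit 5852) (nat_lit 6) (nat_lit 77) (nat_lit 1) (nat_lit 150) (nat_lit 93) (nat_lit 147)) (PT.lf (nat_lit 5776) (nat_lit 6) (nat_lit 76) (nat_lit 1) (nat_lit 151)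 (nat_lit 93) (nat_lit 146))))) (PT.nd (nat_lit 234) (PT.nd (nat_lit 78) (PT.lf (nat_lit 6004) (nat_lit 6) (nat_lit 79) (nat_lit 3) (nat_lit 145) (nat_lit 94) (nat_lit 151)) (PT.nd (nat_lit 78) (PT.lf (nat_lit 6080) (nat_lit 6) (nat_lit 80) (nat_lit 3) (nat_lit 146) (nat_lit 94) (nat_lit 150)) (PT.lf (nat_lit 6156) (nat_lit 6) (nat_lit 81) (nat_lit 3) (nat_lit 147) (nat_lit 94) (nat_lit 149)))) (PT.nd (nat_lit 156) (PT.nd (nat_lit 78) (PT.lf (nat_lit 6232) (nat_lit 3) (nat_lit 82) (nat_lit 1) (nat_lit 148) (nat_lit 94) (nat_lit 148)) (PT.lf (nat_lit 6156) (nat_lit 6) (nat_lit 81) (nat_lit 1) (nat_lit 149) (nat_lit 94) (nat_lit 147))) (PT.nd (nat_lit 78) (PT.lf (nat_lit 6080) (nat_lit 6) (nat_lit 80) (nat_lit 1) (nat_lit 150) (nat_lit 94) (nat_lit 146)) (PT.lf (nat_lit 6004) (nat_lit 6) (nat_lit 79) (nat_lit 1) (nat_lit 151) (nat_lit 94) (nat_lit 145)))))) (PT.nd (nat_lit 546) (PT.nd (nat_lit 234)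 (PT.nd (nat_lit 78) (PT.lf (nat_lit 6308) (nat_lit 6) (nat_lit 83) (nat_lit 3) (nat_lit 144) (nat_lit 95) (nat_lit 151)) (PT.nd (nat_lit 78) (PT.lf (nat_lit 6384) (nat_lit 6) (nat_lit 84) (nat_lit 3) (nat_lit 145) (nat_lit 95) (nat_lit 150)) (PT.lf (nat_lit 6460) (nat_lit 6) (nat_lit 85) (nat_lit 3) (nat_lit 146) (nat_lit 95) (nat_lit 149)))) (PT.nd (nat_lit 156) (PT.nd (nat_lit 78) (PT.lf (nat_lit 6536) (nat_lit 6) (nat_lit 86) (nat_lit 3) (nat_lit 147) (nat_lit 95) (nat_lit 148)) (PT.lf (nat_lit 6536) (nat_lit 6) (nat_lit 86) (nat_lit 1) (nat_lit 148) (nat_lit 95) (nat_lit 147))) (PT.nd (nat_lit 78) (PT.lf (nat_lit 6460) (nat_lit 6) (nat_lit 85) (nat_lit 1) (nat_lit 149) (nat_lit 95) (nat_lit 146)) (PT.lf (nat_lit 6384) (nat_lit 6) (nat_lit 84) (nat_lit 1) (nat_lit 150) (nat_lit 95) (nat_lit 145))))) (PT.nd (nat_lit 40248) (PT.nd (nat_lit 40092) (PT.lf (nat_lit 6308) (nat_lit 6) (nat_lit 83)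 (nat_lit 1) (nat_lit 151) (nat_lit 95) (nat_lit 144)) (PT.nd (nat_lit 78) (PT.lf (nat_lit 6612) (nat_lit 6) (nat_lit 87) (nat_lit 3) (nat_lit 144) (nat_lit 96) (nat_lit 150)) (PT.lf (nat_lit 6688) (nat_lit 6) (nat_lit 88) (nat_lit 3) (nat_lit 145) (nat_lit 96) (nat_lit 149)))) (PT.nd (nat_lit 156) (PT.nd (nat_lit 78) (PT.lf (nat_lit 6764) (nat_lit 6) (nat_lit 89) (nat_lit 3) (nat_lit 146) (nat_lit 96) (nat_lit 148)) (PT.lf (nat_lit 6840) (nat_lit 3) (nat_lit 90) (nat_lit 1) (nat_lit 147) (nat_lit 96) (nat_lit 147))) (PT.nd (nat_lit 78) (PT.lf (nat_lit 6764) (nat_lit 6) (nat_lit 89) (nat_lit 1) (nat_lit 148) (nat_lit 96) (nat_lit 146)) (PT.lf (nat_lit 6688) (nat_lit 6) (nat_lit 88) (nat_lit 1) (nat_lit 149) (nat_lit 96) (nat_lit 145))))))) (PT.nd (nat_lit 81042) (PT.nd (nat_lit 40560) (PT.nd (nat_lit 40248) (PT.nd (nat_lit 40092) (PT.lf (nat_lit 6612) (nat_lit 6) (nat_lit 87) (nat_lit 1) (nat_lit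 150) (nat_lit 96) (nat_lit 144)) (PT.nd (nat_lit 78) (PT.lf (nat_lit 6916) (nat_lit 6) (nat_lit 91) (nat_lit 3) (nat_lit 143) (nat_lit 97) (nat_lit 150)) (PT.lf (nat_lit 6992) (nat_lit 6) (nat_lit 92) (nat_lit 3) (nat_lit 144) (nat_lit 97) (nat_lit 149)))) (PT.nd (nat_lit 156) (PT.nd (nat_lit 78) (PT.lf (nat_lit 7068) (nat_lit 6) (nat_lit 93) (nat_lit 3) (nat_lit 145) (nat_lit 97) (nat_lit 148)) (PT.lf (nat_lit 7144) (nat_lit 6) (nat_lit 94) (nat_lit 3) (nat_lit 146) (nat_lit 97) (nat_lit 147))) (PT.nd (nat_lit 78) (PT.lf (nat_lit 7144) (nat_lit 6) (nat_lit 94) (nat_lit 1) (nat_lit 147) (nat_lit 97) (nat_lit 146)) (PT.lf (nat_lit 7068) (nat_lit 6) (nat_lit 93) (nat_lit 1) (nat_lit 148) (nat_lit 97) (nat_lit 145))))) (PT.nd (nat_lit 40170) (PT.nd (nat_lit 78) (PT.lf (nat_lit 6992) (nat_lit 6) (nat_lit 92) (nat_lit 1) (nat_lit 149) (nat_lit 97) (nat_lit 144)) (PT.nd (nat_lit 40014) (PT.lf (nat_lit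 6916) (nat_lit 6) (nat_lit 91) (nat_lit 1) (nat_lit 150) (nat_lit 97) (nat_lit 143)) (PT.lf (nat_lit 7220) (nat_lit 6) (nat_lit 95) (nat_lit 3) (nat_lit 142) (nat_lit 98) (nat_lit 150)))) (PT.nd (nat_lit 156) (PT.nd (nat_lit 78) (PT.lf (nat_lit 7296) (nat_lit 6) (nat_lit 96) (nat_lit 3) (nat_lit 143) (nat_lit 98) (nat_lit 149)) (PT.lf (nat_lit 7372) (nat_lit 6) (nat_lit 97) (nat_lit 3) (nat_lit 144) (nat_lit 98) (nat_lit 148))) (PT.nd (nat_lit 78) (PT.lf (nat_lit 7448) (nat_lit 6) (nat_lit 98) (nat_lit 3) (nat_lit 145) (nat_lit 98) (nat_lit 147)) (PT.lf (nat_lit 7524) (nat_lit 3) (nat_lit 99) (nat_lit 1) (nat_lit 146) (nat_lit 98) (nat_lit 146)))))) (PT.nd (nat_lit 40482) (PT.nd (nat_lit 234) (PT.nd (nat_lit 78) (PT.lf (nat_lit 7448) (nat_lit 6) (nat_lit 98) (nat_lit 1) (nat_lit 147) (nat_lit 98) (nat_lit 145)) (PT.nd (nat_lit 78) (PT.lf (nat_lit 7372) (nat_lit 6) (nat_lit 97) (nat_lit 1) (nat_lit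 148) (nat_lit 98) (nat_lit 144)) (PT.lf (nat_lit 7296) (nat_lit 6) (nat_lit 96) (nat_lit 1) (nat_lit 149) (nat_lit 98) (nat_lit 143)))) (PT.nd (nat_lit 40092) (PT.nd (nat_lit 40014) (PT.lf (nat_lit 7220) (nat_lit 6) (nat_lit 95) (nat_lit 1) (nat_lit 150) (nat_lit 98) (nat_lit 142)) (PT.lf (nat_lit 7600) (nat_lit 6) (nat_lit 100) (nat_lit 3) (nat_lit 142) (nat_lit 99) (nat_lit 149))) (PT.nd (nat_lit 78) (PT.lf (nat_lit 7676) (nat_lit 6) (nat_lit 101) (nat_lit 3) (nat_lit 143) (nat_lit 99) (nat_lit 148)) (PT.lf (nat_lit 7752) (nat_lit 6) (nat_lit 102) (nat_lit 3) (nat_lit 144) (nat_lit 99) (nat_lit 147))))) (PT.nd (nat_lit 234) (PT.nd (nat_lit 78) (PT.lf (nat_lit 7828) (nat_lit 6) (nat_lit 103) (nat_lit 3) (nat_lit 145) (nat_lit 99) (nat_lit 146)) (PT.nd (nat_lit 78) (PT.lf (nat_lit 7828) (nat_lit 6) (nat_lit 103) (nat_lit 1) (nat_lit 146) (nat_lit 99) (nat_lit 145)) (PT.lf (nat_lit 7752) (nat_lit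 6) (nat_lit 102) (nat_lit 1) (nat_lit 147) (nat_lit 99) (nat_lit 144)))) (PT.nd (nat_lit 40092) (PT.nd (nat_lit 78) (PT.lf (nat_lit 7676) (nat_lit 6) (nat_lit 101) (nat_lit 1) (nat_lit 148) (nat_lit 99) (nat_lit 143)) (PT.lf (nat_lit 7600) (nat_lit 6) (nat_lit 100) (nat_lit 1) (nat_lit 149) (nat_lit 99) (nat_lit 142))) (PT.nd (nat_lit 78) (PT.lf (nat_lit 7904) (nat_lit 6) (nat_lit 104) (nat_lit 3) (nat_lit 141) (nat_lit 100) (nat_lit 149)) (PT.lf (nat_lit 7980) (nat_lit 6) (nat_lit 105) (nat_lit 3) (nat_lit 142) (nat_lit 100) (nat_lit 148))))))))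
noncomputable def pc3 : PT := (PT.nd (nat_lit 121758) (PT.nd (nat_lit 40950) (PT.nd (nat_lit 40404) (PT.nd (nat_lit 234) (PT.nd (nat_lit 78) (PT.lf (nat_lit 8056) (nat_lit 6) (nat_lit 106) (nat_lit 3) (nat_lit 143) (nat_lit 100) (nat_lit 147)) (PT.nd (nat_lit 78) (PT.lf (nat_lit 8132) (nat_lit 6) (nat_lit 107) (nat_lit 3) (nat_lit 144) (nat_lit 100) (nat_lit 146)) (PT.lf (nat_lit 8208) (nat_lit 3) (nat_lit 108) (nat_lit 1) (nat_lit 145) (nat_lit 100) (nat_lit 145)))) (PT.nd (nat_lit 156) (PT.nd (nat_lit 78) (PT.lf (nat_lit 8132) (nat_lit 6) (nat_lit 107) (nat_lit 1) (nat_lit 146) (nat_lit 100) (nat_lit 144)) (PT.lf (nat_lit 8056) (nat_lit 6) (nat_lit 106) (nat_lit 1) (nat_lit 147) (nat_lit 100) (nat_lit 143))) (PT.nd (nat_lit 78) (PT.lf (nat_lit 7980) (nat_lit 6) (nat_lit 105) (nat_lit 1) (nat_lit 148) (nat_lit 100) (nat_lit 142)) (PT.lf (nat_lit 7904) (nat_lit 6) (nat_lit 104) (nat_lit 1) (nat_lit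 149) (nat_lit 100) (nat_lit 141))))) (PT.nd (nat_lit 234) (PT.nd (nat_lit 78) (PT.lf (nat_lit 8284) (nat_lit 6) (nat_lit 109) (nat_lit 3) (nat_lit 140) (nat_lit 101) (nat_lit 149)) (PT.nd (nat_lit 78) (PT.lf (nat_lit 8360) (nat_lit 6) (nat_lit 110) (nat_lit 3) (nat_lit 141) (nat_lit 101) (nat_lit 148)) (PT.lf (nat_lit 8436) (nat_lit 6) (nat_lit 111) (nat_lit 3) (nat_lit 142) (nat_lit 101) (nat_lit 147)))) (PT.nd (nat_lit 156) (PT.nd (nat_lit 78) (PT.lf (nat_lit 8512) (nat_lit 6) (nat_lit 112) (nat_lit 3) (nat_lit 143) (nat_lit 101) (nat_lit 146)) (PT.lf (nat_lit 8588) (nat_lit 6) (nat_lit 113) (nat_lit 3) (nat_lit 144) (nat_lit 101) (nat_lit 145))) (PT.nd (nat_lit 78) (PT.lf (nat_lit 8588) (nat_lit 6) (nat_lit 113) (nat_lit 1) (nat_lit 145) (nat_lit 101) (nat_lit 144)) (PT.lf (nat_lit 8512) (nat_lit 6) (nat_lit 112) (nat_lit 1) (nat_lit 146) (nat_lit 101) (nat_lit 143)))))) (PT.nd (nat_lit 40404)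 (PT.nd (nat_lit 40092) (PT.nd (nat_lit 78) (PT.lf (nat_lit 8436) (nat_lit 6) (nat_lit 111) (nat_lit 1) (nat_lit 147) (nat_lit 101) (nat_lit 142)) (PT.nd (nat_lit 78) (PT.lf (nat_lit 8360) (nat_lit 6) (nat_lit 110) (nat_lit 1) (nat_lit 148) (nat_lit 101) (nat_lit 141)) (PT.lf (nat_lit 8284) (nat_lit 6) (nat_lit 109) (nat_lit 1) (nat_lit 149) (nat_lit 101) (nat_lit 140)))) (PT.nd (nat_lit 156) (PT.nd (nat_lit 78) (PT.lf (nat_lit 8740) (nat_lit 6) (nat_lit 115) (nat_lit 3) (nat_lit 140) (nat_lit 102) (nat_lit 148)) (PT.lf (nat_lit 8816) (nat_lit 6) (nat_lit 116) (nat_lit 3) (nat_lit 141) (nat_lit 102) (nat_lit 147))) (PT.nd (nat_lit 78) (PT.lf (nat_lit 8892) (nat_lit 6) (nat_lit 117) (nat_lit 3) (nat_lit 142) (nat_lit 102) (nat_lit 146)) (PT.lf (nat_lit 8968) (nat_lit 6) (nat_lit 118) (nat_lit 3) (nat_lit 143) (nat_lit 102) (nat_lit 145))))) (PT.nd (nat_lit 234) (PT.nd (nat_lit 78) (PT.lf (nat_lit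 9044) (nat_lit 3) (nat_lit 119) (nat_lit 1) (nat_lit 144) (nat_lit 102) (nat_lit 144)) (PT.nd (nat_lit 78) (PT.lf (nat_lit 8968) (nat_lit 6) (nat_lit 118) (nat_lit 1) (nat_lit 145) (nat_lit 102) (nat_lit 143)) (PT.lf (nat_lit 8892) (nat_lit 6) (nat_lit 117) (nat_lit 1) (nat_lit 146) (nat_lit 102) (nat_lit 142)))) (PT.nd (nat_lit 40014) (PT.nd (nat_lit 78) (PT.lf (nat_lit 8816) (nat_lit 6) (nat_lit 116) (nat_lit 1) (nat_lit 147) (nat_lit 102) (nat_lit 141)) (PT.lf (nat_lit 8740) (nat_lit 6) (nat_lit 115) (nat_lit 1) (nat_lit 148) (nat_lit 102) (nat_lit 140))) (PT.nd (nat_lit 78) (PT.lf (nat_lit 9120) (nat_lit 6) (nat_lit 120) (nat_lit 3) (nat_lit 139) (nat_lit 103) (nat_lit 148)) (PT.lf (nat_lit 9196) (nat_lit 6) (nat_lit 121) (nat_lit 3) (nat_lit 140) (nat_lit 103) (nat_lit 147))))))) (PT.nd (nat_lit 40872) (PT.nd (nat_lit 546) (PT.nd (nat_lit 234) (PT.nd (nat_lit 78) (PT.lf (nat_lit 9272) (nat_lit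 6) (nat_lit 122) (nat_lit 3) (nat_lit 141) (nat_lit 103) (nat_lit 146)) (PT.nd (nat_lit 78) (PT.lf (nat_lit 9348) (nat_lit 6) (nat_lit 123) (nat_lit 3) (nat_lit 142) (nat_lit 103) (nat_lit 145)) (PT.lf (nat_lit 9424) (nat_lit 6) (nat_lit 124) (nat_lit 3) (nat_lit 143) (nat_lit 103) (nat_lit 144)))) (PT.nd (nat_lit 156) (PT.nd (nat_lit 78) (PT.lf (nat_lit 9424) (nat_lit 6) (nat_lit 124) (nat_lit 1) (nat_lit 144) (nat_lit 103) (nat_lit 143)) (PT.lf (nat_lit 9348) (nat_lit 6) (nat_lit 123) (nat_lit 1) (nat_lit 145) (nat_lit 103) (nat_lit 142))) (PT.nd (nat_lit 78) (PT.lf (nat_lit 9272) (nat_lit 6) (nat_lit 122) (nat_lit 1) (nat_lit 146) (nat_lit 103) (nat_lit 141)) (PT.lf (nat_lit 9196) (nat_lit 6) (nat_lit 121) (nat_lit 1) (nat_lit 147) (nat_lit 103) (nat_lit 140))))) (PT.nd (nat_lit 40014) (PT.nd (nat_lit 39858) (PT.lf (nat_lit 9120) (nat_lit 6) (nat_lit 120) (nat_lit 1) (nat_lit 148) (nat_lit 103)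 (nat_lit 139)) (PT.nd (nat_lit 78) (PT.lf (nat_lit 9500) (nat_lit 6) (nat_lit 125) (nat_lit 3) (nat_lit 138) (nat_lit 104) (nat_lit 148)) (PT.lf (nat_lit 9576) (nat_lit 6) (nat_lit 126) (nat_lit 3) (nat_lit 139) (nat_lit 104) (nat_lit 147)))) (PT.nd (nat_lit 156) (PT.nd (nat_lit 78) (PT.lf (nat_lit 9652) (nat_lit 6) (nat_lit 127) (nat_lit 3) (nat_lit 140) (nat_lit 104) (nat_lit 146)) (PT.lf (nat_lit 9728) (nat_lit 6) (nat_lit 128) (nat_lit 3) (nat_lit 141) (nat_lit 104) (nat_lit 145))) (PT.nd (nat_lit 78) (PT.lf (nat_lit 9804) (nat_lit 6) (nat_lit 129) (nat_lit 3) (nat_lit 142) (nat_lit 104) (nat_lit 144)) (PT.lf (nat_lit 9880) (nat_lit 3) (nat_lit 130) (nat_lit 1) (nat_lit 143) (nat_lit 104) (nat_lit 143)))))) (PT.nd (nat_lit 40248) (PT.nd (nat_lit 234) (PT.nd (nat_lit 78) (PT.lf (nat_lit 9804) (nat_lit 6) (nat_lit 129) (nat_lit 1) (nat_lit 144) (nat_lit 104) (nat_lit 142)) (PT.nd (nat_lit 78)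 (PT.lf (nat_lit 9728) (nat_lit 6) (nat_lit 128) (nat_lit 1) (nat_lit 145) (nat_lit 104) (nat_lit 141)) (PT.lf (nat_lit 9652) (nat_lit 6) (nat_lit 127) (nat_lit 1) (nat_lit 146) (nat_lit 104) (nat_lit 140)))) (PT.nd (nat_lit 39858) (PT.nd (nat_lit 78) (PT.lf (nat_lit 9576) (nat_lit 6) (nat_lit 126) (nat_lit 1) (nat_lit 147) (nat_lit 104) (nat_lit 139)) (PT.lf (nat_lit 9500) (nat_lit 6) (nat_lit 125) (nat_lit 1) (nat_lit 148) (nat_lit 104) (nat_lit 138))) (PT.nd (nat_lit 78) (PT.lf (nat_lit 9956) (nat_lit 6) (nat_lit 131) (nat_lit 3) (nat_lit 137) (nat_lit 105) (nat_lit 148)) (PT.lf (nat_lit 10032) (nat_lit 6) (nat_lit 132) (nat_lit 3) (nat_lit 138) (nat_lit 105) (nat_lit 147))))) (PT.nd (nat_lit 234) (PT.nd (nat_lit 78) (PT.lf (nat_lit 10108) (nat_lit 6) (nat_lit 133) (nat_lit 3) (nat_lit 139) (nat_lit 105) (nat_lit 146)) (PT.nd (nat_lit 78) (PT.lf (nat_lit 10184) (nat_lit 6) (nat_lit 134) (nat_lit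 3) (nat_lit 140) (nat_lit 105) (nat_lit 145)) (PT.lf (nat_lit 10260) (nat_lit 6) (nat_lit 135) (nat_lit 3) (nat_lit 141) (nat_lit 105) (nat_lit 144)))) (PT.nd (nat_lit 156) (PT.nd (nat_lit 78) (PT.lf (nat_lit 10336) (nat_lit 6) (nat_lit 136) (nat_lit 3) (nat_lit 142) (nat_lit 105) (nat_lit 143)) (PT.lf (nat_lit 10336) (nat_lit 6) (nat_lit 136) (nat_lit 1) (nat_lit 143) (nat_lit 105) (nat_lit 142))) (PT.nd (nat_lit 78) (PT.lf (nat_lit 10260) (nat_lit 6) (nat_lit 135) (nat_lit 1) (nat_lit 144) (nat_lit 105) (nat_lit 141)) (PT.lf (nat_lit 10184) (nat_lit 6) (nat_lit 134) (nat_lit 1) (nat_lit 145) (nat_lit 105) (nat_lit 140))))))))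
noncomputable def pc4 : PT := (PT.nd (nat_lit 121212) (PT.nd (nat_lit 80496) (PT.nd (nat_lit 40248) (PT.nd (nat_lit 39936) (PT.nd (nat_lit 78) (PT.lf (nat_lit 10108) (nat_lit 6) (nat_lit 133) (nat_lit 1) (nat_lit 146) (nat_lit 105) (nat_lit 139)) (PT.nd (nat_lit 78) (PT.lf (nat_lit 10032) (nat_lit 6) (nat_lit 132) (nat_lit 1) (nat_lit 147) (nat_lit 105) (nat_lit 138)) (PT.lf (nat_lit 9956) (nat_lit 6) (nat_lit 131) (nat_lit 1) (nat_lit 148) (nat_lit 105) (nat_lit 137)))) (PT.nd (nat_lit 156) (PT.nd (nat_lit 78) (PT.lf (nat_lit 10412) (nat_lit 6) (nat_lit 137) (nat_lit 3) (nat_lit 137) (nat_lit 106) (nat_lit 147)) (PT.lf (nat_lit 10488) (nat_lit 6) (nat_lit 138) (nat_lit 3) (nat_lit 138) (nat_lit 106) (nat_lit 146))) (PT.nd (nat_lit 78) (PT.lf (nat_lit 10564) (nat_lit 6) (nat_lit 139) (nat_lit 3) (nat_lit 139) (nat_lit 106) (nat_lit 145)) (PT.lf (nat_lit 10640) (nat_lit 6) (nat_lit 140) (nat_lit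 3) (nat_lit 140) (nat_lit 106) (nat_lit 144))))) (PT.nd (nat_lit 234) (PT.nd (nat_lit 78) (PT.lf (nat_lit 10716) (nat_lit 6) (nat_lit 141) (nat_lit 3) (nat_lit 141) (nat_lit 106) (nat_lit 143)) (PT.nd (nat_lit 78) (PT.lf (nat_lit 10792) (nat_lit 3) (nat_lit 142) (nat_lit 1) (nat_lit 142) (nat_lit 106) (nat_lit 142)) (PT.lf (nat_lit 10716) (nat_lit 6) (nat_lit 141) (nat_lit 1) (nat_lit 143) (nat_lit 106) (nat_lit 141)))) (PT.nd (nat_lit 156) (PT.nd (nat_lit 78) (PT.lf (nat_lit 10640) (nat_lit 6) (nat_lit 140) (nat_lit 1) (nat_lit 144) (nat_lit 106) (nat_lit 140)) (PT.lf (nat_lit 10564) (nat_lit 6) (nat_lit 139) (nat_lit 1) (nat_lit 145) (nat_lit 106) (nat_lit 139))) (PT.nd (nat_lit 78) (PT.lf (nat_lit 10488) (nat_lit 6) (nat_lit 138) (nat_lit 1) (nat_lit 146) (nat_lit 106) (nat_lit 138)) (PT.lf (nat_lit 10412) (nat_lit 6) (nat_lit 137) (nat_lit 1) (nat_lit 147) (nat_lit 106) (nat_lit 137)))))) (PT.nd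 (nat_lit 546) (PT.nd (nat_lit 234) (PT.nd (nat_lit 78) (PT.lf (nat_lit 10868) (nat_lit 6) (nat_lit 143) (nat_lit 3) (nat_lit 136) (nat_lit 107) (nat_lit 147)) (PT.nd (nat_lit 78) (PT.lf (nat_lit 10944) (nat_lit 6) (nat_lit 144) (nat_lit 3) (nat_lit 137) (nat_lit 107) (nat_lit 146)) (PT.lf (nat_lit 11020) (nat_lit 6) (nat_lit 145) (nat_lit 3) (nat_lit 138) (nat_lit 107) (nat_lit 145)))) (PT.nd (nat_lit 156) (PT.nd (nat_lit 78) (PT.lf (nat_lit 11096) (nat_lit 6) (nat_lit 146) (nat_lit 3) (nat_lit 139) (nat_lit 107) (nat_lit 144)) (PT.lf (nat_lit 11172) (nat_lit 6) (nat_lit 147) (nat_lit 3) (nat_lit 140) (nat_lit 107) (nat_lit 143))) (PT.nd (nat_lit 78) (PT.lf (nat_lit 11248) (nat_lit 6) (nat_lit 148) (nat_lit 3) (nat_lit 141) (nat_lit 107) (nat_lit 142)) (PT.lf (nat_lit 11248) (nat_lit 6) (nat_lit 148) (nat_lit 1) (nat_lit 142) (nat_lit 107) (nat_lit 141))))) (PT.nd (nat_lit 234) (PT.nd (nat_lit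 78) (PT.lf (nat_lit 11172) (nat_lit 6) (nat_lit 147) (nat_lit 1) (nat_lit 143) (nat_lit 107) (nat_lit 140)) (PT.nd (nat_lit 78) (PT.lf (nat_lit 11096) (nat_lit 6) (nat_lit 146) (nat_lit 1) (nat_lit 144) (nat_lit 107) (nat_lit 139)) (PT.lf (nat_lit 11020) (nat_lit 6) (nat_lit 145) (nat_lit 1) (nat_lit 145) (nat_lit 107) (nat_lit 138)))) (PT.nd (nat_lit 39780) (PT.nd (nat_lit 78) (PT.lf (nat_lit 10944) (nat_lit 6) (nat_lit 144) (nat_lit 1) (nat_lit 146) (nat_lit 107) (nat_lit 137)) (PT.lf (nat_lit 10868) (nat_lit 6) (nat_lit 143) (nat_lit 1) (nat_lit 147) (nat_lit 107) (nat_lit 136))) (PT.nd (nat_lit 78) (PT.lf (nat_lit 11324) (nat_lit 6) (nat_lit 149) (nat_lit 3) (nat_lit 135) (nat_lit 108) (nat_lit 147)) (PT.lf (nat_lit 11400) (nat_lit 6) (nat_lit 150) (nat_lit 3) (nat_lit 136) (nat_lit 108) (nat_lit 146))))))) (PT.nd (nat_lit 40638) (PT.nd (nat_lit 546) (PT.nd (nat_lit 234) (PT.nd (nat_lit 78)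 (PT.lf (nat_lit 11476) (nat_lit 6) (nat_lit 151) (nat_lit 3) (nat_lit 137) (nat_lit 108) (nat_lit 145)) (PT.nd (nat_lit 78) (PT.lf (nat_lit 11552) (nat_lit 6) (nat_lit 152) (nat_lit 3) (nat_lit 138) (nat_lit 108) (nat_lit 144)) (PT.lf (nat_lit 11628) (nat_lit 6) (nat_lit 153) (nat_lit 3) (nat_lit 139) (nat_lit 108) (nat_lit 143)))) (PT.nd (nat_lit 156) (PT.nd (nat_lit 78) (PT.lf (nat_lit 11704) (nat_lit 6) (nat_lit 154) (nat_lit 3) (nat_lit 140) (nat_lit 108) (nat_lit 142)) (PT.lf (nat_lit 11780) (nat_lit 3) (nat_lit 155) (nat_lit 1) (nat_lit 141) (nat_lit 108) (nat_lit 141))) (PT.nd (nat_lit 78) (PT.lf (nat_lit 11704) (nat_lit 6) (nat_lit 154) (nat_lit 1) (nat_lit 142) (nat_lit 108) (nat_lit 140)) (PT.lf (nat_lit 11628) (nat_lit 6) (nat_lit 153) (nat_lit 1) (nat_lit 143) (nat_lit 108) (nat_lit 139))))) (PT.nd (nat_lit 234) (PT.nd (nat_lit 78) (PT.lf (nat_lit 11552) (nat_lit 6) (nat_lit 152) (nat_lit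 1) (nat_lit 144) (nat_lit 108) (nat_lit 138)) (PT.nd (nat_lit 78) (PT.lf (nat_lit 11476) (nat_lit 6) (nat_lit 151) (nat_lit 1) (nat_lit 145) (nat_lit 108) (nat_lit 137)) (PT.lf (nat_lit 11400) (nat_lit 6) (nat_lit 150) (nat_lit 1) (nat_lit 146) (nat_lit 108) (nat_lit 136)))) (PT.nd (nat_lit 39702) (PT.nd (nat_lit 39624) (PT.lf (nat_lit 11324) (nat_lit 6) (nat_lit 149) (nat_lit 1) (nat_lit 147) (nat_lit 108) (nat_lit 135)) (PT.lf (nat_lit 11856) (nat_lit 6) (nat_lit 156) (nat_lit 3) (nat_lit 134) (nat_lit 109) (nat_lit 147))) (PT.nd (nat_lit 78) (PT.lf (nat_lit 11932) (nat_lit 6) (nat_lit 157) (nat_lit 3) (nat_lit 135) (nat_lit 109) (nat_lit 146)) (PT.lf (nat_lit 12008) (nat_lit 6) (nat_lit 158) (nat_lit 3) (nat_lit 136) (nat_lit 109) (nat_lit 145)))))) (PT.nd (nat_lit 546) (PT.nd (nat_lit 234) (PT.nd (nat_lit 78) (PT.lf (nat_lit 12084) (nat_lit 6) (nat_lit 159) (nat_lit 3) (nat_lit 137) (nat_lit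 109) (nat_lit 144)) (PT.nd (nat_lit 78) (PT.lf (nat_lit 12160) (nat_lit 6) (nat_lit 160) (nat_lit 3) (nat_lit 138) (nat_lit 109) (nat_lit 143)) (PT.lf (nat_lit 12236) (nat_lit 6) (nat_lit 161) (nat_lit 3) (nat_lit 139) (nat_lit 109) (nat_lit 142)))) (PT.nd (nat_lit 156) (PT.nd (nat_lit 78) (PT.lf (nat_lit 12312) (nat_lit 6) (nat_lit 162) (nat_lit 3) (nat_lit 140) (nat_lit 109) (nat_lit 141)) (PT.lf (nat_lit 12312) (nat_lit 6) (nat_lit 162) (nat_lit 1) (nat_lit 141) (nat_lit 109) (nat_lit 140))) (PT.nd (nat_lit 78) (PT.lf (nat_lit 12236) (nat_lit 6) (nat_lit 161) (nat_lit 1) (nat_lit 142) (nat_lit 109) (nat_lit 139)) (PT.lf (nat_lit 12160) (nat_lit 6) (nat_lit 160) (nat_lit 1) (nat_lit 143) (nat_lit 109) (nat_lit 138))))) (PT.nd (nat_lit 234) (PT.nd (nat_lit 78) (PT.lf (nat_lit 12084) (nat_lit 6) (nat_lit 159) (nat_lit 1) (nat_lit 144) (nat_lit 109) (nat_lit 137)) (PT.nd (nat_lit 78) (PT.lf (nat_lit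 12008) (nat_lit 6) (nat_lit 158) (nat_lit 1) (nat_lit 145) (nat_lit 109) (nat_lit 136)) (PT.lf (nat_lit 11932) (nat_lit 6) (nat_lit 157) (nat_lit 1) (nat_lit 146) (nat_lit 109) (nat_lit 135)))) (PT.nd (nat_lit 39624) (PT.nd (nat_lit 39546) (PT.lf (nat_lit 11856) (nat_lit 6) (nat_lit 156) (nat_lit 1) (nat_lit 147) (nat_lit 109) (nat_lit 134)) (PT.lf (nat_lit 12388) (nat_lit 6) (nat_lit 163) (nat_lit 3) (nat_lit 133) (nat_lit 110) (nat_lit 147))) (PT.nd (nat_lit 78) (PT.lf (nat_lit 12464) (nat_lit 6) (nat_lit 164) (nat_lit 3) (nat_lit 134) (nat_lit 110) (nat_lit 146)) (PT.lf (nat_lit 12540) (nat_lit 6) (nat_lit 165) (nat_lit 3) (nat_lit 135) (nat_lit 110) (nat_lit 145))))))))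
noncomputable def pc5 : PT := (PT.nd (nat_lit 81120) (PT.nd (nat_lit 40560) (PT.nd (nat_lit 546) (PT.nd (nat_lit 234) (PT.nd (nat_lit 78) (PT.lf (nat_lit 12616) (nat_lit 6) (nat_lit 166) (nat_lit 3) (nat_lit 136) (nat_lit 110) (nat_lit 144)) (PT.nd (nat_lit 78) (PT.lf (nat_lit 12692) (nat_lit 6) (nat_lit 167) (nat_lit 3) (nat_lit 137) (nat_lit 110) (nat_lit 143)) (PT.lf (nat_lit 12768) (nat_lit 6) (nat_lit 168) (nat_lit 3) (nat_lit 138) (nat_lit 110) (nat_lit 142)))) (PT.nd (nat_lit 156) (PT.nd (nat_lit 78) (PT.lf (nat_lit 12844) (nat_lit 6) (nat_lit 169) (nat_lit 3) (nat_lit 139) (nat_lit 110) (nat_lit 141)) (PT.lf (nat_lit 12920) (nat_lit 3) (nat_lit 170) (nat_lit 1) (nat_lit 140) (nat_lit 110) (nat_lit 140))) (PT.nd (nat_lit 78) (PT.lf (nat_lit 12844) (nat_lit 6) (nat_lit 169) (nat_lit 1) (nat_lit 141) (nat_lit 110) (nat_lit 139)) (PT.lf (nat_lit 12768) (nat_lit 6) (nat_lit 168) (nat_lit 1)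 (nat_lit 142) (nat_lit 110) (nat_lit 138))))) (PT.nd (nat_lit 234) (PT.nd (nat_lit 78) (PT.lf (nat_lit 12692) (nat_lit 6) (nat_lit 167) (nat_lit 1) (nat_lit 143) (nat_lit 110) (nat_lit 137)) (PT.nd (nat_lit 78) (PT.lf (nat_lit 12616) (nat_lit 6) (nat_lit 166) (nat_lit 1) (nat_lit 144) (nat_lit 110) (nat_lit 136)) (PT.lf (nat_lit 12540) (nat_lit 6) (nat_lit 165) (nat_lit 1) (nat_lit 145) (nat_lit 110) (nat_lit 135)))) (PT.nd (nat_lit 39624) (PT.nd (nat_lit 78) (PT.lf (nat_lit 12464) (nat_lit 6) (nat_lit 164) (nat_lit 1) (nat_lit 146) (nat_lit 110) (nat_lit 134)) (PT.lf (nat_lit 12388) (nat_lit 6) (nat_lit 163) (nat_lit 1) (nat_lit 147) (nat_lit 110) (nat_lit 133))) (PT.nd (nat_lit 78) (PT.lf (nat_lit 12996) (nat_lit 6) (nat_lit 171) (nat_lit 3) (nat_lit 133) (nat_lit 111) (nat_lit 146)) (PT.lf (nat_lit 13072) (nat_lit 6) (nat_lit 172) (nat_lit 3) (nat_lit 134) (nat_lit 111) (nat_lit 145)))))) (PT.nd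 (nat_lit 546) (PT.nd (nat_lit 234) (PT.nd (nat_lit 78) (PT.lf (nat_lit 13148) (nat_lit 6) (nat_lit 173) (nat_lit 3) (nat_lit 135) (nat_lit 111) (nat_lit 144)) (PT.nd (nat_lit 78) (PT.lf (nat_lit 13224) (nat_lit 6) (nat_lit 174) (nat_lit 3) (nat_lit 136) (nat_lit 111) (nat_lit 143)) (PT.lf (nat_lit 13300) (nat_lit 6) (nat_lit 175) (nat_lit 3) (nat_lit 137) (nat_lit 111) (nat_lit 142)))) (PT.nd (nat_lit 156) (PT.nd (nat_lit 78) (PT.lf (nat_lit 13376) (nat_lit 6) (nat_lit 176) (nat_lit 3) (nat_lit 138) (nat_lit 111) (nat_lit 141)) (PT.lf (nat_lit 13452) (nat_lit 6) (nat_lit 177) (nat_lit 3) (nat_lit 139) (nat_lit 111) (nat_lit 140))) (PT.nd (nat_lit 78) (PT.lf (nat_lit 13452) (nat_lit 6) (nat_lit 177) (nat_lit 1) (nat_lit 140) (nat_lit 111) (nat_lit 139)) (PT.lf (nat_lit 13376) (nat_lit 6) (nat_lit 176) (nat_lit 1) (nat_lit 141) (nat_lit 111) (nat_lit 138))))) (PT.nd (nat_lit 234) (PT.nd (nat_lit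 78) (PT.lf (nat_lit 13300) (nat_lit 6) (nat_lit 175) (nat_lit 1) (nat_lit 142) (nat_lit 111) (nat_lit 137)) (PT.nd (nat_lit 78) (PT.lf (nat_lit 13224) (nat_lit 6) (nat_lit 174) (nat_lit 1) (nat_lit 143) (nat_lit 111) (nat_lit 136)) (PT.lf (nat_lit 13148) (nat_lit 6) (nat_lit 173) (nat_lit 1) (nat_lit 144) (nat_lit 111) (nat_lit 135)))) (PT.nd (nat_lit 39624) (PT.nd (nat_lit 78) (PT.lf (nat_lit 13072) (nat_lit 6) (nat_lit 172) (nat_lit 1) (nat_lit 145) (nat_lit 111) (nat_lit 134)) (PT.lf (nat_lit 12996) (nat_lit 6) (nat_lit 171) (nat_lit 1) (nat_lit 146) (nat_lit 111) (nat_lit 133))) (PT.nd (nat_lit 78) (PT.lf (nat_lit 13528) (nat_lit 6) (nat_lit 178) (nat_lit 3) (nat_lit 132) (nat_lit 112) (nat_lit 146)) (PT.lf (nat_lit 13604) (nat_lit 6) (nat_lit 179) (nat_lit 3) (nat_lit 133) (nat_lit 112) (nat_lit 145))))))) (PT.nd (nat_lit 40482) (PT.nd (nat_lit 546) (PT.nd (nat_lit 234) (PT.nd (nat_lit 78)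 (PT.lf (nat_lit 13680) (nat_lit 6) (nat_lit 180) (nat_lit 3) (nat_lit 134) (nat_lit 112) (nat_lit 144)) (PT.nd (nat_lit 78) (PT.lf (nat_lit 13756) (nat_lit 6) (nat_lit 181) (nat_lit 3) (nat_lit 135) (nat_lit 112) (nat_lit 143)) (PT.lf (nat_lit 13832) (nat_lit 6) (nat_lit 182) (nat_lit 3) (nat_lit 136) (nat_lit 112) (nat_lit 142)))) (PT.nd (nat_lit 156) (PT.nd (nat_lit 78) (PT.lf (nat_lit 13908) (nat_lit 6) (nat_lit 183) (nat_lit 3) (nat_lit 137) (nat_lit 112) (nat_lit 141)) (PT.lf (nat_lit 13984) (nat_lit 6) (nat_lit 184) (nat_lit 3) (nat_lit 138) (nat_lit 112) (nat_lit 140))) (PT.nd (nat_lit 78) (PT.lf (nat_lit 14060) (nat_lit 3) (nat_lit 185) (nat_lit 1) (nat_lit 139) (nat_lit 112) (nat_lit 139)) (PT.lf (nat_lit 13984) (nat_lit 6) (nat_lit 184) (nat_lit 1) (nat_lit 140) (nat_lit 112) (nat_lit 138))))) (PT.nd (nat_lit 234) (PT.nd (nat_lit 78) (PT.lf (nat_lit 13908) (nat_lit 6) (nat_lit 183) (nat_lit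 1) (nat_lit 141) (nat_lit 112) (nat_lit 137)) (PT.nd (nat_lit 78) (PT.lf (nat_lit 13832) (nat_lit 6) (nat_lit 182) (nat_lit 1) (nat_lit 142) (nat_lit 112) (nat_lit 136)) (PT.lf (nat_lit 13756) (nat_lit 6) (nat_lit 181) (nat_lit 1) (nat_lit 143) (nat_lit 112) (nat_lit 135)))) (PT.nd (nat_lit 156) (PT.nd (nat_lit 78) (PT.lf (nat_lit 13680) (nat_lit 6) (nat_lit 180) (nat_lit 1) (nat_lit 144) (nat_lit 112) (nat_lit 134)) (PT.lf (nat_lit 13604) (nat_lit 6) (nat_lit 179) (nat_lit 1) (nat_lit 145) (nat_lit 112) (nat_lit 133))) (PT.nd (nat_lit 39468) (PT.lf (nat_lit 13528) (nat_lit 6) (nat_lit 178) (nat_lit 1) (nat_lit 146) (nat_lit 112) (nat_lit 132)) (PT.lf (nat_lit 14136) (nat_lit 6) (nat_lit 186) (nat_lit 3) (nat_lit 131) (nat_lit 113) (nat_lit 146)))))) (PT.nd (nat_lit 546) (PT.nd (nat_lit 234) (PT.nd (nat_lit 78) (PT.lf (nat_lit 14212) (nat_lit 6) (nat_lit 187) (nat_lit 3) (nat_lit 132) (nat_lit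 113) (nat_lit 145)) (PT.nd (nat_lit 78) (PT.lf (nat_lit 14288) (nat_lit 6) (nat_lit 188) (nat_lit 3) (nat_lit 133) (nat_lit 113) (nat_lit 144)) (PT.lf (nat_lit 14364) (nat_lit 6) (nat_lit 189) (nat_lit 3) (nat_lit 134) (nat_lit 113) (nat_lit 143)))) (PT.nd (nat_lit 156) (PT.nd (nat_lit 78) (PT.lf (nat_lit 14440) (nat_lit 6) (nat_lit 190) (nat_lit 3) (nat_lit 135) (nat_lit 113) (nat_lit 142)) (PT.lf (nat_lit 14516) (nat_lit 6) (nat_lit 191) (nat_lit 3) (nat_lit 136) (nat_lit 113) (nat_lit 141))) (PT.nd (nat_lit 78) (PT.lf (nat_lit 14592) (nat_lit 6) (nat_lit 192) (nat_lit 3) (nat_lit 137) (nat_lit 113) (nat_lit 140)) (PT.lf (nat_lit 14668) (nat_lit 6) (nat_lit 193) (nat_lit 3) (nat_lit 138) (nat_lit 113) (nat_lit 139))))) (PT.nd (nat_lit 234) (PT.nd (nat_lit 78) (PT.lf (nat_lit 14668) (nat_lit 6) (nat_lit 193) (nat_lit 1) (nat_lit 139) (nat_lit 113) (nat_lit 138)) (PT.nd (nat_lit 78) (PT.lf (nat_lit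 14592) (nat_lit 6) (nat_lit 192) (nat_lit 1) (nat_lit 140) (nat_lit 113) (nat_lit 137)) (PT.lf (nat_lit 14516) (nat_lit 6) (nat_lit 191) (nat_lit 1) (nat_lit 141) (nat_lit 113) (nat_lit 136)))) (PT.nd (nat_lit 156) (PT.nd (nat_lit 78) (PT.lf (nat_lit 14440) (nat_lit 6) (nat_lit 190) (nat_lit 1) (nat_lit 142) (nat_lit 113) (nat_lit 135)) (PT.lf (nat_lit 14364) (nat_lit 6) (nat_lit 189) (nat_lit 1) (nat_lit 143) (nat_lit 113) (nat_lit 134))) (PT.nd (nat_lit 78) (PT.lf (nat_lit 14288) (nat_lit 6) (nat_lit 188) (nat_lit 1) (nat_lit 144) (nat_lit 113) (nat_lit 133)) (PT.lf (nat_lit 14212) (nat_lit 6) (nat_lit 187) (nat_lit 1) (nat_lit 145) (nat_lit 113) (nat_lit 132))))))))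
noncomputable def pc6 : PT := (PT.nd (nat_lit 80730) (PT.nd (nat_lit 40404) (PT.nd (nat_lit 39858) (PT.nd (nat_lit 39546) (PT.nd (nat_lit 39390) (PT.lf (nat_lit 14136) (nat_lit 6) (nat_lit 186) (nat_lit 1) (nat_lit 146) (nat_lit 113) (nat_lit 131)) (PT.nd (nat_lit 78) (PT.lf (nat_lit 14896) (nat_lit 6) (nat_lit 196) (nat_lit 3) (nat_lit 130) (nat_lit 114) (nat_lit 146)) (PT.lf (nat_lit 14972) (nat_lit 6) (nat_lit 197) (nat_lit 3) (nat_lit 131) (nat_lit 114) (nat_lit 145)))) (PT.nd (nat_lit 156) (PT.nd (nat_lit 78) (PT.lf (nat_lit 15048) (nat_lit 6) (nat_lit 198) (nat_lit 3) (nat_lit 132) (nat_lit 114) (nat_lit 144)) (PT.lf (nat_lit 15124) (nat_lit 6) (nat_lit 199) (nat_lit 3) (nat_lit 133) (nat_lit 114) (nat_lit 143))) (PT.nd (nat_lit 78) (PT.lf (nat_lit 15200) (nat_lit 6) (nat_lit 200) (nat_lit 3) (nat_lit 134) (nat_lit 114) (nat_lit 142)) (PT.lf (nat_lit 15276) (nat_lit 6) (nat_lit 201) (nat_lit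 3) (nat_lit 135) (nat_lit 114) (nat_lit 141))))) (PT.nd (nat_lit 234) (PT.nd (nat_lit 78) (PT.lf (nat_lit 15352) (nat_lit 6) (nat_lit 202) (nat_lit 3) (nat_lit 136) (nat_lit 114) (nat_lit 140)) (PT.nd (nat_lit 78) (PT.lf (nat_lit 15428) (nat_lit 6) (nat_lit 203) (nat_lit 3) (nat_lit 137) (nat_lit 114) (nat_lit 139)) (PT.lf (nat_lit 15504) (nat_lit 3) (nat_lit 204) (nat_lit 1) (nat_lit 138) (nat_lit 114) (nat_lit 138)))) (PT.nd (nat_lit 156) (PT.nd (nat_lit 78) (PT.lf (nat_lit 15428) (nat_lit 6) (nat_lit 203) (nat_lit 1) (nat_lit 139) (nat_lit 114) (nat_lit 137)) (PT.lf (nat_lit 15352) (nat_lit 6) (nat_lit 202) (nat_lit 1) (nat_lit 140) (nat_lit 114) (nat_lit 136))) (PT.nd (nat_lit 78) (PT.lf (nat_lit 15276) (nat_lit 6) (nat_lit 201) (nat_lit 1) (nat_lit 141) (nat_lit 114) (nat_lit 135)) (PT.lf (nat_lit 15200) (nat_lit 6) (nat_lit 200) (nat_lit 1) (nat_lit 142) (nat_lit 114) (nat_lit 134)))))) (PT.nd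 (nat_lit 39780) (PT.nd (nat_lit 234) (PT.nd (nat_lit 78) (PT.lf (nat_lit 15124) (nat_lit 6) (nat_lit 199) (nat_lit 1) (nat_lit 143) (nat_lit 114) (nat_lit 133)) (PT.nd (nat_lit 78) (PT.lf (nat_lit 15048) (nat_lit 6) (nat_lit 198) (nat_lit 1) (nat_lit 144) (nat_lit 114) (nat_lit 132)) (PT.lf (nat_lit 14972) (nat_lit 6) (nat_lit 197) (nat_lit 1) (nat_lit 145) (nat_lit 114) (nat_lit 131)))) (PT.nd (nat_lit 39390) (PT.nd (nat_lit 39312) (PT.lf (nat_lit 14896) (nat_lit 6) (nat_lit 196) (nat_lit 1) (nat_lit 146) (nat_lit 114) (nat_lit 130)) (PT.lf (nat_lit 14820) (nat_lit 6) (nat_lit 195) (nat_lit 3) (nat_lit 129) (nat_lit 115) (nat_lit 146))) (PT.nd (nat_lit 78) (PT.lf (nat_lit 16112) (nat_lit 6) (nat_lit 212) (nat_lit 3) (nat_lit 130) (nat_lit 115) (nat_lit 145)) (PT.lf (nat_lit 16188) (nat_lit 6) (nat_lit 213) (nat_lit 3) (nat_lit 131) (nat_lit 115) (nat_lit 144))))) (PT.nd (nat_lit 234) (PT.nd (nat_lit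 78) (PT.lf (nat_lit 16264) (nat_lit 6) (nat_lit 214) (nat_lit 3) (nat_lit 132) (nat_lit 115) (nat_lit 143)) (PT.nd (nat_lit 78) (PT.lf (nat_lit 16340) (nat_lit 6) (nat_lit 215) (nat_lit 3) (nat_lit 133) (nat_lit 115) (nat_lit 142)) (PT.lf (nat_lit 16416) (nat_lit 6) (nat_lit 216) (nat_lit 3) (nat_lit 134) (nat_lit 115) (nat_lit 141)))) (PT.nd (nat_lit 156) (PT.nd (nat_lit 78) (PT.lf (nat_lit 16492) (nat_lit 6) (nat_lit 217) (nat_lit 3) (nat_lit 135) (nat_lit 115) (nat_lit 140)) (PT.lf (nat_lit 16568) (nat_lit 6) (nat_lit 218) (nat_lit 3) (nat_lit 136) (nat_lit 115) (nat_lit 139))) (PT.nd (nat_lit 78) (PT.lf (nat_lit 16644) (nat_lit 6) (nat_lit 219) (nat_lit 3) (nat_lit 137) (nat_lit 115) (nat_lit 138)) (PT.lf (nat_lit 16644) (nat_lit 6) (nat_lit 219) (nat_lit 1) (nat_lit 138) (nat_lit 115) (nat_lit 137))))))) (PT.nd (nat_lit 40248) (PT.nd (nat_lit 546) (PT.nd (nat_lit 234) (PT.nd (nat_lit 78) (PT.lf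 (nat_lit 16568) (nat_lit 6) (nat_lit 218) (nat_lit 1) (nat_lit 139) (nat_lit 115) (nat_lit 136)) (PT.nd (nat_lit 78) (PT.lf (nat_lit 16492) (nat_lit 6) (nat_lit 217) (nat_lit 1) (nat_lit 140) (nat_lit 115) (nat_lit 135)) (PT.lf (nat_lit 16416) (nat_lit 6) (nat_lit 216) (nat_lit 1) (nat_lit 141) (nat_lit 115) (nat_lit 134)))) (PT.nd (nat_lit 156) (PT.nd (nat_lit 78) (PT.lf (nat_lit 16340) (nat_lit 6) (nat_lit 215) (nat_lit 1) (nat_lit 142) (nat_lit 115) (nat_lit 133)) (PT.lf (nat_lit 16264) (nat_lit 6) (nat_lit 214) (nat_lit 1) (nat_lit 143) (nat_lit 115) (nat_lit 132))) (PT.nd (nat_lit 78) (PT.lf (nat_lit 16188) (nat_lit 6) (nat_lit 213) (nat_lit 1) (nat_lit 144) (nat_lit 115) (nat_lit 131)) (PT.lf (nat_lit 16112) (nat_lit 6) (nat_lit 212) (nat_lit 1) (nat_lit 145) (nat_lit 115) (nat_lit 130))))) (PT.nd (nat_lit 39390) (PT.nd (nat_lit 39234) (PT.lf (nat_lit 14820) (nat_lit 6) (nat_lit 195) (nat_lit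 1) (nat_lit 146) (nat_lit 115) (nat_lit 129)) (PT.nd (nat_lit 78) (PT.lf (nat_lit 14744) (nat_lit 6) (nat_lit 194) (nat_lit 3) (nat_lit 128) (nat_lit 116) (nat_lit 146)) (PT.lf (nat_lit 16036) (nat_lit 6) (nat_lit 211) (nat_lit 3) (nat_lit 129) (nat_lit 116) (nat_lit 145)))) (PT.nd (nat_lit 156) (PT.nd (nat_lit 78) (PT.lf (nat_lit 17252) (nat_lit 6) (nat_lit 227) (nat_lit 3) (nat_lit 130) (nat_lit 116) (nat_lit 144)) (PT.lf (nat_lit 17328) (nat_lit 6) (nat_lit 228) (nat_lit 3) (nat_lit 131) (nat_lit 116) (nat_lit 143))) (PT.nd (nat_lit 78) (PT.lf (nat_lit 17404) (nat_lit 6) (nat_lit 229) (nat_lit 3) (nat_lit 132) (nat_lit 116) (nat_lit 142)) (PT.lf (nat_lit 17480) (nat_lit 6) (nat_lit 230) (nat_lit 3) (nat_lit 133) (nat_lit 116) (nat_lit 141)))))) (PT.nd (nat_lit 546) (PT.nd (nat_lit 234) (PT.nd (nat_lit 78) (PT.lf (nat_lit 17556) (nat_lit 6) (nat_lit 231) (nat_lit 3) (nat_lit 134) (nat_lit 116)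 (nat_lit 140)) (PT.nd (nat_lit 78) (PT.lf (nat_lit 17632) (nat_lit 6) (nat_lit 232) (nat_lit 3) (nat_lit 135) (nat_lit 116) (nat_lit 139)) (PT.lf (nat_lit 17708) (nat_lit 6) (nat_lit 233) (nat_lit 3) (nat_lit 136) (nat_lit 116) (nat_lit 138)))) (PT.nd (nat_lit 156) (PT.nd (nat_lit 78) (PT.lf (nat_lit 17784) (nat_lit 3) (nat_lit 234) (nat_lit 1) (nat_lit 137) (nat_lit 116) (nat_lit 137)) (PT.lf (nat_lit 17708) (nat_lit 6) (nat_lit 233) (nat_lit 1) (nat_lit 138) (nat_lit 116) (nat_lit 136))) (PT.nd (nat_lit 78) (PT.lf (nat_lit 17632) (nat_lit 6) (nat_lit 232) (nat_lit 1) (nat_lit 139) (nat_lit 116) (nat_lit 135)) (PT.lf (nat_lit 17556) (nat_lit 6) (nat_lit 231) (nat_lit 1) (nat_lit 140) (nat_lit 116) (nat_lit 134))))) (PT.nd (nat_lit 234) (PT.nd (nat_lit 78) (PT.lf (nat_lit 17480) (nat_lit 6) (nat_lit 230) (nat_lit 1) (nat_lit 141) (nat_lit 116) (nat_lit 133)) (PT.nd (nat_lit 78) (PT.lf (nat_lit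 17404) (nat_lit 6) (nat_lit 229) (nat_lit 1) (nat_lit 142) (nat_lit 116) (nat_lit 132)) (PT.lf (nat_lit 17328) (nat_lit 6) (nat_lit 228) (nat_lit 1) (nat_lit 143) (nat_lit 116) (nat_lit 131)))) (PT.nd (nat_lit 156) (PT.nd (nat_lit 78) (PT.lf (nat_lit 17252) (nat_lit 6) (nat_lit 227) (nat_lit 1) (nat_lit 144) (nat_lit 116) (nat_lit 130)) (PT.lf (nat_lit 16036) (nat_lit 6) (nat_lit 211) (nat_lit 1) (nat_lit 145) (nat_lit 116) (nat_lit 129))) (PT.nd (nat_lit 39234) (PT.lf (nat_lit 14744) (nat_lit 6) (nat_lit 194) (nat_lit 1) (nat_lit 146) (nat_lit 116) (nat_lit 128)) (PT.lf (nat_lit 15960) (nat_lit 6) (nat_lit 210) (nat_lit 3) (nat_lit 128) (nat_lit 117) (nat_lit 145))))))))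
noncomputable def pc7 : PT := (PT.nd (nat_lit 41340) (PT.nd (nat_lit 1092) (PT.nd (nat_lit 546) (PT.nd (nat_lit 234) (PT.nd (nat_lit 78) (PT.lf (nat_lit 17176) (nat_lit 6) (nat_lit 226) (nat_lit 3) (nat_lit 129) (nat_lit 117) (nat_lit 144)) (PT.nd (nat_lit 78) (PT.lf (nat_lit 18316) (nat_lit 6) (nat_lit 241) (nat_lit 3) (nat_lit 130) (nat_lit 117) (nat_lit 143)) (PT.lf (nat_lit 18392) (nat_lit 6) (nat_lit 242) (nat_lit 3) (nat_lit 131) (nat_lit 117) (nat_lit 142)))) (PT.nd (nat_lit 156) (PT.nd (nat_lit 78) (PT.lf (nat_lit 18468) (nat_lit 6) (nat_lit 243) (nat_lit 3) (nat_lit 132) (nat_lit 117) (nat_lit 141)) (PT.lf (nat_lit 18544) (nat_lit 6) (nat_lit 244) (nat_lit 3) (nat_lit 133) (nat_lit 117) (nat_lit 140))) (PT.nd (nat_lit 78) (PT.lf (nat_lit 18620) (nat_lit 6) (nat_lit 245) (nat_lit 3) (nat_lit 134) (nat_lit 117) (nat_lit 139)) (PT.lf (nat_lit 18696) (nat_lit 6) (nat_lit 246) (nat_lit 3) (nat_lit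 135) (nat_lit 117) (nat_lit 138))))) (PT.nd (nat_lit 234) (PT.nd (nat_lit 78) (PT.lf (nat_lit 18772) (nat_lit 6) (nat_lit 247) (nat_lit 3) (nat_lit 136) (nat_lit 117) (nat_lit 137)) (PT.nd (nat_lit 78) (PT.lf (nat_lit 18772) (nat_lit 6) (nat_lit 247) (nat_lit 1) (nat_lit 137) (nat_lit 117) (nat_lit 136)) (PT.lf (nat_lit 18696) (nat_lit 6) (nat_lit 246) (nat_lit 1) (nat_lit 138) (nat_lit 117) (nat_lit 135)))) (PT.nd (nat_lit 156) (PT.nd (nat_lit 78) (PT.lf (nat_lit 18620) (nat_lit 6) (nat_lit 245) (nat_lit 1) (nat_lit 139) (nat_lit 117) (nat_lit 134)) (PT.lf (nat_lit 18544) (nat_lit 6) (nat_lit 244) (nat_lit 1) (nat_lit 140) (nat_lit 117) (nat_lit 133))) (PT.nd (nat_lit 78) (PT.lf (nat_lit 18468) (nat_lit 6) (nat_lit 243) (nat_lit 1) (nat_lit 141) (nat_lit 117) (nat_lit 132)) (PT.lf (nat_lit 18392) (nat_lit 6) (nat_lit 242) (nat_lit 1) (nat_lit 142) (nat_lit 117) (nat_lit 131)))))) (PT.nd (nat_lit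 39702) (PT.nd (nat_lit 39390) (PT.nd (nat_lit 78) (PT.lf (nat_lit 18316) (nat_lit 6) (nat_lit 241) (nat_lit 1) (nat_lit 143) (nat_lit 117) (nat_lit 130)) (PT.nd (nat_lit 78) (PT.lf (nat_lit 17176) (nat_lit 6) (nat_lit 226) (nat_lit 1) (nat_lit 144) (nat_lit 117) (nat_lit 129)) (PT.lf (nat_lit 15960) (nat_lit 6) (nat_lit 210) (nat_lit 1) (nat_lit 145) (nat_lit 117) (nat_lit 128)))) (PT.nd (nat_lit 156) (PT.nd (nat_lit 78) (PT.lf (nat_lit 15884) (nat_lit 6) (nat_lit 209) (nat_lit 3) (nat_lit 127) (nat_lit 118) (nat_lit 145)) (PT.lf (nat_lit 17100) (nat_lit 6) (nat_lit 225) (nat_lit 3) (nat_lit 128) (nat_lit 118) (nat_lit 144))) (PT.nd (nat_lit 78) (PT.lf (nat_lit 18240) (nat_lit 6) (nat_lit 240) (nat_lit 3) (nat_lit 129) (nat_lit 118) (nat_lit 143)) (PT.lf (nat_lit 19304) (nat_lit 6) (nat_lit 254) (nat_lit 3) (nat_lit 130) (nat_lit 118) (nat_lit 142))))) (PT.nd (nat_lit 234) (PT.nd (nat_lit 78) (PT.lf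 (nat_lit 19380) (nat_lit 6) (nat_lit 255) (nat_lit 3) (nat_lit 131) (nat_lit 118) (nat_lit 141)) (PT.nd (nat_lit 78) (PT.lf (nat_lit 19456) (nat_lit 6) (nat_lit 256) (nat_lit 3) (nat_lit 132) (nat_lit 118) (nat_lit 140)) (PT.lf (nat_lit 19532) (nat_lit 6) (nat_lit 257) (nat_lit 3) (nat_lit 133) (nat_lit 118) (nat_lit 139)))) (PT.nd (nat_lit 156) (PT.nd (nat_lit 78) (PT.lf (nat_lit 19608) (nat_lit 6) (nat_lit 258) (nat_lit 3) (nat_lit 134) (nat_lit 118) (nat_lit 138)) (PT.lf (nat_lit 19684) (nat_lit 6) (nat_lit 259) (nat_lit 3) (nat_lit 135) (nat_lit 118) (nat_lit 137))) (PT.nd (nat_lit 78) (PT.lf (nat_lit 19760) (nat_lit 3) (nat_lit 260) (nat_lit 1) (nat_lit 136) (nat_lit 118) (nat_lit 136)) (PT.lf (nat_lit 19684) (nat_lit 6) (nat_lit 259) (nat_lit 1) (nat_lit 137) (nat_lit 118) (nat_lit 135))))))) (PT.nd (nat_lit 40170) (PT.nd (nat_lit 546) (PT.nd (nat_lit 234) (PT.nd (nat_lit 78) (PT.lf (nat_lit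 19608) (nat_lit 6) (nat_lit 258) (nat_lit 1) (nat_lit 138) (nat_lit 118) (nat_lit 134)) (PT.nd (nat_lit 78) (PT.lf (nat_lit 19532) (nat_lit 6) (nat_lit 257) (nat_lit 1) (nat_lit 139) (nat_lit 118) (nat_lit 133)) (PT.lf (nat_lit 19456) (nat_lit 6) (nat_lit 256) (nat_lit 1) (nat_lit 140) (nat_lit 118) (nat_lit 132)))) (PT.nd (nat_lit 156) (PT.nd (nat_lit 78) (PT.lf (nat_lit 19380) (nat_lit 6) (nat_lit 255) (nat_lit 1) (nat_lit 141) (nat_lit 118) (nat_lit 131)) (PT.lf (nat_lit 19304) (nat_lit 6) (nat_lit 254) (nat_lit 1) (nat_lit 142) (nat_lit 118) (nat_lit 130))) (PT.nd (nat_lit 78) (PT.lf (nat_lit 18240) (nat_lit 6) (nat_lit 240) (nat_lit 1) (nat_lit 143) (nat_lit 118) (nat_lit 129)) (PT.lf (nat_lit 17100) (nat_lit 6) (nat_lit 225) (nat_lit 1) (nat_lit 144) (nat_lit 118) (nat_lit 128))))) (PT.nd (nat_lit 39312) (PT.nd (nat_lit 39156) (PT.lf (nat_lit 15884) (nat_lit 6) (nat_lit 209) (nat_lit 1) (nat_lit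 145) (nat_lit 118) (nat_lit 127)) (PT.nd (nat_lit 78) (PT.lf (nat_lit 15808) (nat_lit 6) (nat_lit 208) (nat_lit 3) (nat_lit 126) (nat_lit 119) (nat_lit 145)) (PT.lf (nat_lit 17024) (nat_lit 6) (nat_lit 224) (nat_lit 3) (nat_lit 127) (nat_lit 119) (nat_lit 144)))) (PT.nd (nat_lit 156) (PT.nd (nat_lit 78) (PT.lf (nat_lit 18164) (nat_lit 6) (nat_lit 239) (nat_lit 3) (nat_lit 128) (nat_lit 119) (nat_lit 143)) (PT.lf (nat_lit 19228) (nat_lit 6) (nat_lit 253) (nat_lit 3) (nat_lit 129) (nat_lit 119) (nat_lit 142))) (PT.nd (nat_lit 78) (PT.lf (nat_lit 20216) (nat_lit 6) (nat_lit 266) (nat_lit 3) (nat_lit 130) (nat_lit 119) (nat_lit 141)) (PT.lf (nat_lit 20292) (nat_lit 6) (nat_lit 267) (nat_lit 3) (nat_lit 131) (nat_lit 119) (nat_lit 140)))))) (PT.nd (nat_lit 546) (PT.nd (nat_lit 234) (PT.nd (nat_lit 78) (PT.lf (nat_lit 20368) (nat_lit 6) (nat_lit 268) (nat_lit 3) (nat_lit 132) (nat_lit 119) (nat_lit 139))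 (PT.nd (nat_lit 78) (PT.lf (nat_lit 20444) (nat_lit 6) (nat_lit 269) (nat_lit 3) (nat_lit 133) (nat_lit 119) (nat_lit 138)) (PT.lf (nat_lit 20520) (nat_lit 6) (nat_lit 270) (nat_lit 3) (nat_lit 134) (nat_lit 119) (nat_lit 137)))) (PT.nd (nat_lit 156) (PT.nd (nat_lit 78) (PT.lf (nat_lit 20596) (nat_lit 6) (nat_lit 271) (nat_lit 3) (nat_lit 135) (nat_lit 119) (nat_lit 136)) (PT.lf (nat_lit 20596) (nat_lit 6) (nat_lit 271) (nat_lit 1) (nat_lit 136) (nat_lit 119) (nat_lit 135))) (PT.nd (nat_lit 78) (PT.lf (nat_lit 20520) (nat_lit 6) (nat_lit 270) (nat_lit 1) (nat_lit 137) (nat_lit 119) (nat_lit 134)) (PT.lf (nat_lit 20444) (nat_lit 6) (nat_lit 269) (nat_lit 1) (nat_lit 138) (nat_lit 119) (nat_lit 133))))) (PT.nd (nat_lit 234) (PT.nd (nat_lit 78) (PT.lf (nat_lit 20368) (nat_lit 6) (nat_lit 268) (nat_lit 1) (nat_lit 139) (nat_lit 119) (nat_lit 132)) (PT.nd (nat_lit 78) (PT.lf (nat_lit 20292) (nat_lit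 6) (nat_lit 267) (nat_lit 1) (nat_lit 140) (nat_lit 119) (nat_lit 131)) (PT.lf (nat_lit 20216) (nat_lit 6) (nat_lit 266) (nat_lit 1) (nat_lit 141) (nat_lit 119) (nat_lit 130)))) (PT.nd (nat_lit 156) (PT.nd (nat_lit 78) (PT.lf (nat_lit 19228) (nat_lit 6) (nat_lit 253) (nat_lit 1) (nat_lit 142) (nat_lit 119) (nat_lit 129)) (PT.lf (nat_lit 18164) (nat_lit 6) (nat_lit 239) (nat_lit 1) (nat_lit 143) (nat_lit 119) (nat_lit 128))) (PT.nd (nat_lit 78) (PT.lf (nat_lit 17024) (nat_lit 6) (nat_lit 224) (nat_lit 1) (nat_lit 144) (nat_lit 119) (nat_lit 127)) (PT.lf (nat_lit 15808) (nat_lit 6) (nat_lit 208) (nat_lit 1) (nat_lit 145) (nat_lit 119) (nat_lit 126))))))))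
noncomputable def pc8 : PT := (PT.nd (nat_lit 41106) (PT.nd (nat_lit 1092) (PT.nd (nat_lit 546) (PT.nd (nat_lit 234) (PT.nd (nat_lit 78) (PT.lf (nat_lit 15732) (nat_lit 6) (nat_lit 207) (nat_lit 3) (nat_lit 125) (nat_lit 120) (nat_lit 145)) (PT.nd (nat_lit 78) (PT.lf (nat_lit 16948) (nat_lit 6) (nat_lit 223) (nat_lit 3) (nat_lit 126) (nat_lit 120) (nat_lit 144)) (PT.lf (nat_lit 18088) (nat_lit 6) (nat_lit 238) (nat_lit 3) (nat_lit 127) (nat_lit 120) (nat_lit 143)))) (PT.nd (nat_lit 156) (PT.nd (nat_lit 78) (PT.lf (nat_lit 19152) (nat_lit 6) (nat_lit 252) (nat_lit 3) (nat_lit 128) (nat_lit 120) (nat_lit 142)) (PT.lf (nat_lit 20140) (nat_lit 6) (nat_lit 265) (nat_lit 3) (nat_lit 129) (nat_lit 120) (nat_lit 141))) (PT.nd (nat_lit 78) (PT.lf (nat_lit 21052) (nat_lit 6) (nat_lit 277) (nat_lit 3) (nat_lit 130) (nat_lit 120) (nat_lit 140)) (PT.lf (nat_lit 21128) (nat_lit 6) (nat_lit 278) (nat_lit 3) (nat_lit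 131) (nat_lit 120) (nat_lit 139))))) (PT.nd (nat_lit 234) (PT.nd (nat_lit 78) (PT.lf (nat_lit 21204) (nat_lit 6) (nat_lit 279) (nat_lit 3) (nat_lit 132) (nat_lit 120) (nat_lit 138)) (PT.nd (nat_lit 78) (PT.lf (nat_lit 21280) (nat_lit 6) (nat_lit 280) (nat_lit 3) (nat_lit 133) (nat_lit 120) (nat_lit 137)) (PT.lf (nat_lit 21356) (nat_lit 6) (nat_lit 281) (nat_lit 3) (nat_lit 134) (nat_lit 120) (nat_lit 136)))) (PT.nd (nat_lit 156) (PT.nd (nat_lit 78) (PT.lf (nat_lit 21432) (nat_lit 3) (nat_lit 282) (nat_lit 1) (nat_lit 135) (nat_lit 120) (nat_lit 135)) (PT.lf (nat_lit 21356) (nat_lit 6) (nat_lit 281) (nat_lit 1) (nat_lit 136) (nat_lit 120) (nat_lit 134))) (PT.nd (nat_lit 78) (PT.lf (nat_lit 21280) (nat_lit 6) (nat_lit 280) (nat_lit 1) (nat_lit 137) (nat_lit 120) (nat_lit 133)) (PT.lf (nat_lit 21204) (nat_lit 6) (nat_lit 279) (nat_lit 1) (nat_lit 138) (nat_lit 120) (nat_lit 132)))))) (PT.nd (nat_lit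 39468) (PT.nd (nat_lit 234) (PT.nd (nat_lit 78) (PT.lf (nat_lit 21128) (nat_lit 6) (nat_lit 278) (nat_lit 1) (nat_lit 139) (nat_lit 120) (nat_lit 131)) (PT.nd (nat_lit 78) (PT.lf (nat_lit 21052) (nat_lit 6) (nat_lit 277) (nat_lit 1) (nat_lit 140) (nat_lit 120) (nat_lit 130)) (PT.lf (nat_lit 20140) (nat_lit 6) (nat_lit 265) (nat_lit 1) (nat_lit 141) (nat_lit 120) (nat_lit 129)))) (PT.nd (nat_lit 156) (PT.nd (nat_lit 78) (PT.lf (nat_lit 19152) (nat_lit 6) (nat_lit 252) (nat_lit 1) (nat_lit 142) (nat_lit 120) (nat_lit 128)) (PT.lf (nat_lit 18088) (nat_lit 6) (nat_lit 238) (nat_lit 1) (nat_lit 143) (nat_lit 120) (nat_lit 127))) (PT.nd (nat_lit 78) (PT.lf (nat_lit 16948) (nat_lit 6) (nat_lit 223) (nat_lit 1) (nat_lit 144) (nat_lit 120) (nat_lit 126)) (PT.lf (nat_lit 15732) (nat_lit 6) (nat_lit 207) (nat_lit 1) (nat_lit 145) (nat_lit 120) (nat_lit 125))))) (PT.nd (nat_lit 234) (PT.nd (nat_lit 78) (PT.lf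 (nat_lit 15656) (nat_lit 6) (nat_lit 206) (nat_lit 3) (nat_lit 124) (nat_lit 121) (nat_lit 145)) (PT.nd (nat_lit 78) (PT.lf (nat_lit 16872) (nat_lit 6) (nat_lit 222) (nat_lit 3) (nat_lit 125) (nat_lit 121) (nat_lit 144)) (PT.lf (nat_lit 18012) (nat_lit 6) (nat_lit 237) (nat_lit 3) (nat_lit 126) (nat_lit 121) (nat_lit 143)))) (PT.nd (nat_lit 156) (PT.nd (nat_lit 78) (PT.lf (nat_lit 19076) (nat_lit 6) (nat_lit 251) (nat_lit 3) (nat_lit 127) (nat_lit 121) (nat_lit 142)) (PT.lf (nat_lit 20064) (nat_lit 6) (nat_lit 264) (nat_lit 3) (nat_lit 128) (nat_lit 121) (nat_lit 141))) (PT.nd (nat_lit 78) (PT.lf (nat_lit 20976) (nat_lit 6) (nat_lit 276) (nat_lit 3) (nat_lit 129) (nat_lit 121) (nat_lit 140)) (PT.lf (nat_lit 21812) (nat_lit 6) (nat_lit 287) (nat_lit 3) (nat_lit 130) (nat_lit 121) (nat_lit 139))))))) (PT.nd (nat_lit 1092) (PT.nd (nat_lit 546) (PT.nd (nat_lit 234) (PT.nd (nat_lit 78) (PT.lf (nat_lit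 21888) (nat_lit 6) (nat_lit 288) (nat_lit 3) (nat_lit 131) (nat_lit 121) (nat_lit 138)) (PT.nd (nat_lit 78) (PT.lf (nat_lit 21964) (nat_lit 6) (nat_lit 289) (nat_lit 3) (nat_lit 132) (nat_lit 121) (nat_lit 137)) (PT.lf (nat_lit 22040) (nat_lit 6) (nat_lit 290) (nat_lit 3) (nat_lit 133) (nat_lit 121) (nat_lit 136)))) (PT.nd (nat_lit 156) (PT.nd (nat_lit 78) (PT.lf (nat_lit 22116) (nat_lit 6) (nat_lit 291) (nat_lit 3) (nat_lit 134) (nat_lit 121) (nat_lit 135)) (PT.lf (nat_lit 22116) (nat_lit 6) (nat_lit 291) (nat_lit 1) (nat_lit 135) (nat_lit 121) (nat_lit 134))) (PT.nd (nat_lit 78) (PT.lf (nat_lit 22040) (nat_lit 6) (nat_lit 290) (nat_lit 1) (nat_lit 136) (nat_lit 121) (nat_lit 133)) (PT.lf (nat_lit 21964) (nat_lit 6) (nat_lit 289) (nat_lit 1) (nat_lit 137) (nat_lit 121) (nat_lit 132))))) (PT.nd (nat_lit 234) (PT.nd (nat_lit 78) (PT.lf (nat_lit 21888) (nat_lit 6) (nat_lit 288) (nat_lit 1) (nat_lit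 138) (nat_lit 121) (nat_lit 131)) (PT.nd (nat_lit 78) (PT.lf (nat_lit 21812) (nat_lit 6) (nat_lit 287) (nat_lit 1) (nat_lit 139) (nat_lit 121) (nat_lit 130)) (PT.lf (nat_lit 20976) (nat_lit 6) (nat_lit 276) (nat_lit 1) (nat_lit 140) (nat_lit 121) (nat_lit 129)))) (PT.nd (nat_lit 156) (PT.nd (nat_lit 78) (PT.lf (nat_lit 20064) (nat_lit 6) (nat_lit 264) (nat_lit 1) (nat_lit 141) (nat_lit 121) (nat_lit 128)) (PT.lf (nat_lit 19076) (nat_lit 6) (nat_lit 251) (nat_lit 1) (nat_lit 142) (nat_lit 121) (nat_lit 127))) (PT.nd (nat_lit 78) (PT.lf (nat_lit 18012) (nat_lit 6) (nat_lit 237) (nat_lit 1) (nat_lit 143) (nat_lit 121) (nat_lit 126)) (PT.lf (nat_lit 16872) (nat_lit 6) (nat_lit 222) (nat_lit 1) (nat_lit 144) (nat_lit 121) (nat_lit 125)))))) (PT.nd (nat_lit 39390) (PT.nd (nat_lit 39078) (PT.nd (nat_lit 38922) (PT.lf (nat_lit 15656) (nat_lit 6) (nat_lit 206) (nat_lit 1) (nat_lit 145) (nat_lit 121) (nat_lit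 124)) (PT.nd (nat_lit 78) (PT.lf (nat_lit 15580) (nat_lit 6) (nat_lit 205) (nat_lit 3) (nat_lit 123) (nat_lit 122) (nat_lit 145)) (PT.lf (nat_lit 16796) (nat_lit 6) (nat_lit 221) (nat_lit 3) (nat_lit 124) (nat_lit 122) (nat_lit 144)))) (PT.nd (nat_lit 156) (PT.nd (nat_lit 78) (PT.lf (nat_lit 17936) (nat_lit 6) (nat_lit 236) (nat_lit 3) (nat_lit 125) (nat_lit 122) (nat_lit 143)) (PT.lf (nat_lit 19000) (nat_lit 6) (nat_lit 250) (nat_lit 3) (nat_lit 126) (nat_lit 122) (nat_lit 142))) (PT.nd (nat_lit 78) (PT.lf (nat_lit 19988) (nat_lit 6) (nat_lit 263) (nat_lit 3) (nat_lit 127) (nat_lit 122) (nat_lit 141)) (PT.lf (nat_lit 20900) (nat_lit 6) (nat_lit 275) (nat_lit 3) (nat_lit 128) (nat_lit 122) (nat_lit 140))))) (PT.nd (nat_lit 234) (PT.nd (nat_lit 78) (PT.lf (nat_lit 21736) (nat_lit 6) (nat_lit 286) (nat_lit 3) (nat_lit 129) (nat_lit 122) (nat_lit 139)) (PT.nd (nat_lit 78) (PT.lf (nat_lit 22496) (nat_lit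 6) (nat_lit 296) (nat_lit 3) (nat_lit 130) (nat_lit 122) (nat_lit 138)) (PT.lf (nat_lit 22572) (nat_lit 6) (nat_lit 297) (nat_lit 3) (nat_lit 131) (nat_lit 122) (nat_lit 137)))) (PT.nd (nat_lit 156) (PT.nd (nat_lit 78) (PT.lf (nat_lit 22648) (nat_lit 6) (nat_lit 298) (nat_lit 3) (nat_lit 132) (nat_lit 122) (nat_lit 136)) (PT.lf (nat_lit 22724) (nat_lit 6) (nat_lit 299) (nat_lit 3) (nat_lit 133) (nat_lit 122) (nat_lit 135))) (PT.nd (nat_lit 78) (PT.lf (nat_lit 22800) (nat_lit 3) (nat_lit 300) (nat_lit 1) (nat_lit 134) (nat_lit 122) (nat_lit 134)) (PT.lf (nat_lit 22724) (nat_lit 6) (nat_lit 299) (nat_lit 1) (nat_lit 135) (nat_lit 122) (nat_lit 133))))))))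
noncomputable def pc9 : PT := (PT.nd (nat_lit 40950) (PT.nd (nat_lit 39858) (PT.nd (nat_lit 546) (PT.nd (nat_lit 234) (PT.nd (nat_lit 78) (PT.lf (nat_lit 22648) (nat_lit 6) (nat_lit 298) (nat_lit 1) (nat_lit 136) (nat_lit 122) (nat_lit 132)) (PT.nd (nat_lit 78) (PT.lf (nat_lit 22572) (nat_lit 6) (nat_lit 297) (nat_lit 1) (nat_lit 137) (nat_lit 122) (nat_lit 131)) (PT.lf (nat_lit 22496) (nat_lit 6) (nat_lit 296) (nat_lit 1) (nat_lit 138) (nat_lit 122) (nat_lit 130)))) (PT.nd (nat_lit 156) (PT.nd (nat_lit 78) (PT.lf (nat_lit 21736) (nat_lit 6) (nat_lit 286) (nat_lit 1) (nat_lit 139) (nat_lit 122) (nat_lit 129)) (PT.lf (nat_lit 20900) (nat_lit 6) (nat_lit 275) (nat_lit 1) (nat_lit 140) (nat_lit 122) (nat_lit 128))) (PT.nd (nat_lit 78) (PT.lf (nat_lit 19988) (nat_lit 6) (nat_lit 263) (nat_lit 1) (nat_lit 141) (nat_lit 122) (nat_lit 127)) (PT.lf (nat_lit 19000) (nat_lit 6) (nat_lit 250) (nat_lit 1)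 (nat_lit 142) (nat_lit 122) (nat_lit 126))))) (PT.nd (nat_lit 39000) (PT.nd (nat_lit 78) (PT.lf (nat_lit 17936) (nat_lit 6) (nat_lit 236) (nat_lit 1) (nat_lit 143) (nat_lit 122) (nat_lit 125)) (PT.nd (nat_lit 78) (PT.lf (nat_lit 16796) (nat_lit 6) (nat_lit 221) (nat_lit 1) (nat_lit 144) (nat_lit 122) (nat_lit 124)) (PT.lf (nat_lit 15580) (nat_lit 6) (nat_lit 205) (nat_lit 1) (nat_lit 145) (nat_lit 122) (nat_lit 123)))) (PT.nd (nat_lit 156) (PT.nd (nat_lit 78) (PT.lf (nat_lit 15580) (nat_lit 6) (nat_lit 205) (nat_lit 5) (nat_lit 122) (nat_lit 123) (nat_lit 145)) (PT.lf (nat_lit 16720) (nat_lit 3) (nat_lit 220) (nat_lit 3) (nat_lit 123) (nat_lit 123) (nat_lit 144))) (PT.nd (nat_lit 78) (PT.lf (nat_lit 17860) (nat_lit 6) (nat_lit 235) (nat_lit 3) (nat_lit 124) (nat_lit 123) (nat_lit 143)) (PT.lf (nat_lit 18924) (nat_lit 6) (nat_lit 249) (nat_lit 3) (nat_lit 125) (nat_lit 123) (nat_lit 142)))))) (PT.nd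 (nat_lit 546) (PT.nd (nat_lit 234) (PT.nd (nat_lit 78) (PT.lf (nat_lit 19912) (nat_lit 6) (nat_lit 262) (nat_lit 3) (nat_lit 126) (nat_lit 123) (nat_lit 141)) (PT.nd (nat_lit 78) (PT.lf (nat_lit 20824) (nat_lit 6) (nat_lit 274) (nat_lit 3) (nat_lit 127) (nat_lit 123) (nat_lit 140)) (PT.lf (nat_lit 21660) (nat_lit 6) (nat_lit 285) (nat_lit 3) (nat_lit 128) (nat_lit 123) (nat_lit 139)))) (PT.nd (nat_lit 156) (PT.nd (nat_lit 78) (PT.lf (nat_lit 22420) (nat_lit 6) (nat_lit 295) (nat_lit 3) (nat_lit 129) (nat_lit 123) (nat_lit 138)) (PT.lf (nat_lit 23104) (nat_lit 6) (nat_lit 304) (nat_lit 3) (nat_lit 130) (nat_lit 123) (nat_lit 137))) (PT.nd (nat_lit 78) (PT.lf (nat_lit 23180) (nat_lit 6) (nat_lit 305) (nat_lit 3) (nat_lit 131) (nat_lit 123) (nat_lit 136)) (PT.lf (nat_lit 23256) (nat_lit 6) (nat_lit 306) (nat_lit 3) (nat_lit 132) (nat_lit 123) (nat_lit 135))))) (PT.nd (nat_lit 234) (PT.nd (nat_lit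 78) (PT.lf (nat_lit 23332) (nat_lit 6) (nat_lit 307) (nat_lit 3) (nat_lit 133) (nat_lit 123) (nat_lit 134)) (PT.nd (nat_lit 78) (PT.lf (nat_lit 23332) (nat_lit 6) (nat_lit 307) (nat_lit 1) (nat_lit 134) (nat_lit 123) (nat_lit 133)) (PT.lf (nat_lit 23256) (nat_lit 6) (nat_lit 306) (nat_lit 1) (nat_lit 135) (nat_lit 123) (nat_lit 132)))) (PT.nd (nat_lit 156) (PT.nd (nat_lit 78) (PT.lf (nat_lit 23180) (nat_lit 6) (nat_lit 305) (nat_lit 1) (nat_lit 136) (nat_lit 123) (nat_lit 131)) (PT.lf (nat_lit 23104) (nat_lit 6) (nat_lit 304) (nat_lit 1) (nat_lit 137) (nat_lit 123) (nat_lit 130))) (PT.nd (nat_lit 78) (PT.lf (nat_lit 22420) (nat_lit 6) (nat_lit 295) (nat_lit 1) (nat_lit 138) (nat_lit 123) (nat_lit 129)) (PT.lf (nat_lit 21660) (nat_lit 6) (nat_lit 285) (nat_lit 1) (nat_lit 139) (nat_lit 123) (nat_lit 128))))))) (PT.nd (nat_lit 39780) (PT.nd (nat_lit 39234) (PT.nd (nat_lit 234) (PT.nd (nat_lit 78)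 (PT.lf (nat_lit 20824) (nat_lit 6) (nat_lit 274) (nat_lit 1) (nat_lit 140) (nat_lit 123) (nat_lit 127)) (PT.nd (nat_lit 78) (PT.lf (nat_lit 19912) (nat_lit 6) (nat_lit 262) (nat_lit 1) (nat_lit 141) (nat_lit 123) (nat_lit 126)) (PT.lf (nat_lit 18924) (nat_lit 6) (nat_lit 249) (nat_lit 1) (nat_lit 142) (nat_lit 123) (nat_lit 125)))) (PT.nd (nat_lit 156) (PT.nd (nat_lit 78) (PT.lf (nat_lit 17860) (nat_lit 6) (nat_lit 235) (nat_lit 1) (nat_lit 143) (nat_lit 123) (nat_lit 124)) (PT.lf (nat_lit 16720) (nat_lit 3) (nat_lit 220) (nat_lit 0) (nat_lit 144) (nat_lit 123) (nat_lit 123))) (PT.nd (nat_lit 38766) (PT.lf (nat_lit 15580) (nat_lit 6) (nat_lit 205) (nat_lit 0) (nat_lit 145) (nat_lit 123) (nat_lit 122)) (PT.lf (nat_lit 15656) (nat_lit 6) (nat_lit 206) (nat_lit 5) (nat_lit 121) (nat_lit 124) (nat_lit 145))))) (PT.nd (nat_lit 234) (PT.nd (nat_lit 78) (PT.lf (nat_lit 16796) (nat_lit 6) (nat_lit 221)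 (nat_lit 5) (nat_lit 122) (nat_lit 124) (nat_lit 144)) (PT.nd (nat_lit 78) (PT.lf (nat_lit 17860) (nat_lit 6) (nat_lit 235) (nat_lit 5) (nat_lit 123) (nat_lit 124) (nat_lit 143)) (PT.lf (nat_lit 18848) (nat_lit 3) (nat_lit 248) (nat_lit 3) (nat_lit 124) (nat_lit 124) (nat_lit 142)))) (PT.nd (nat_lit 156) (PT.nd (nat_lit 78) (PT.lf (nat_lit 19836) (nat_lit 6) (nat_lit 261) (nat_lit 3) (nat_lit 125) (nat_lit 124) (nat_lit 141)) (PT.lf (nat_lit 20748) (nat_lit 6) (nat_lit 273) (nat_lit 3) (nat_lit 126) (nat_lit 124) (nat_lit 140))) (PT.nd (nat_lit 78) (PT.lf (nat_lit 21584) (nat_lit 6) (nat_lit 284) (nat_lit 3) (nat_lit 127) (nat_lit 124) (nat_lit 139)) (PT.lf (nat_lit 22344) (nat_lit 6) (nat_lit 294) (nat_lit 3) (nat_lit 128) (nat_lit 124) (nat_lit 138)))))) (PT.nd (nat_lit 546) (PT.nd (nat_lit 234) (PT.nd (nat_lit 78) (PT.lf (nat_lit 23028) (nat_lit 6) (nat_lit 303) (nat_lit 3) (nat_lit 129) (nat_lit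 124) (nat_lit 137)) (PT.nd (nat_lit 78) (PT.lf (nat_lit 23636) (nat_lit 6) (nat_lit 311) (nat_lit 3) (nat_lit 130) (nat_lit 124) (nat_lit 136)) (PT.lf (nat_lit 23712) (nat_lit 6) (nat_lit 312) (nat_lit 3) (nat_lit 131) (nat_lit 124) (nat_lit 135)))) (PT.nd (nat_lit 156) (PT.nd (nat_lit 78) (PT.lf (nat_lit 23788) (nat_lit 6) (nat_lit 313) (nat_lit 3) (nat_lit 132) (nat_lit 124) (nat_lit 134)) (PT.lf (nat_lit 23864) (nat_lit 3) (nat_lit 314) (nat_lit 1) (nat_lit 133) (nat_lit 124) (nat_lit 133))) (PT.nd (nat_lit 78) (PT.lf (nat_lit 23788) (nat_lit 6) (nat_lit 313) (nat_lit 1) (nat_lit 134) (nat_lit 124) (nat_lit 132)) (PT.lf (nat_lit 23712) (nat_lit 6) (nat_lit 312) (nat_lit 1) (nat_lit 135) (nat_lit 124) (nat_lit 131))))) (PT.nd (nat_lit 234) (PT.nd (nat_lit 78) (PT.lf (nat_lit 23636) (nat_lit 6) (nat_lit 311) (nat_lit 1) (nat_lit 136) (nat_lit 124) (nat_lit 130)) (PT.nd (nat_lit 78) (PT.lf (nat_lit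 23028) (nat_lit 6) (nat_lit 303) (nat_lit 1) (nat_lit 137) (nat_lit 124) (nat_lit 129)) (PT.lf (nat_lit 22344) (nat_lit 6) (nat_lit 294) (nat_lit 1) (nat_lit 138) (nat_lit 124) (nat_lit 128)))) (PT.nd (nat_lit 156) (PT.nd (nat_lit 78) (PT.lf (nat_lit 21584) (nat_lit 6) (nat_lit 284) (nat_lit 1) (nat_lit 139) (nat_lit 124) (nat_lit 127)) (PT.lf (nat_lit 20748) (nat_lit 6) (nat_lit 273) (nat_lit 1) (nat_lit 140) (nat_lit 124) (nat_lit 126))) (PT.nd (nat_lit 78) (PT.lf (nat_lit 19836) (nat_lit 6) (nat_lit 261) (nat_lit 1) (nat_lit 141) (nat_lit 124) (nat_lit 125)) (PT.lf (nat_lit 18848) (nat_lit 3) (nat_lit 248) (nat_lit 0) (nat_lit 142) (nat_lit 124) (nat_lit 124))))))))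
noncomputable def pc10 : PT := (PT.nd (nat_lit 40794) (PT.nd (nat_lit 39702) (PT.nd (nat_lit 39156) (PT.nd (nat_lit 38844) (PT.nd (nat_lit 78) (PT.lf (nat_lit 17860) (nat_lit 6) (nat_lit 235) (nat_lit 0) (nat_lit 143) (nat_lit 124) (nat_lit 123)) (PT.nd (nat_lit 78) (PT.lf (nat_lit 16796) (nat_lit 6) (nat_lit 221) (nat_lit 0) (nat_lit 144) (nat_lit 124) (nat_lit 122)) (PT.lf (nat_lit 15656) (nat_lit 6) (nat_lit 206) (nat_lit 0) (nat_lit 145) (nat_lit 124) (nat_lit 121)))) (PT.nd (nat_lit 156) (PT.nd (nat_lit 78) (PT.lf (nat_lit 15732) (nat_lit 6) (nat_lit 207) (nat_lit 5) (nat_lit 120) (nat_lit 125) (nat_lit 145)) (PT.lf (nat_lit 16872) (nat_lit 6) (nat_lit 222) (nat_lit 5) (nat_lit 121) (nat_lit 125) (nat_lit 144))) (PT.nd (nat_lit 78) (PT.lf (nat_lit 17936) (nat_lit 6) (nat_lit 236) (nat_lit 5) (nat_lit 122) (nat_lit 125) (nat_lit 143)) (PT.lf (nat_lit 18924) (nat_lit 6) (nat_lit 249) (nat_lit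 5) (nat_lit 123) (nat_lit 125) (nat_lit 142))))) (PT.nd (nat_lit 234) (PT.nd (nat_lit 78) (PT.lf (nat_lit 19836) (nat_lit 6) (nat_lit 261) (nat_lit 5) (nat_lit 124) (nat_lit 125) (nat_lit 141)) (PT.nd (nat_lit 78) (PT.lf (nat_lit 20672) (nat_lit 3) (nat_lit 272) (nat_lit 3) (nat_lit 125) (nat_lit 125) (nat_lit 140)) (PT.lf (nat_lit 21508) (nat_lit 6) (nat_lit 283) (nat_lit 3) (nat_lit 126) (nat_lit 125) (nat_lit 139)))) (PT.nd (nat_lit 156) (PT.nd (nat_lit 78) (PT.lf (nat_lit 22268) (nat_lit 6) (nat_lit 293) (nat_lit 3) (nat_lit 127) (nat_lit 125) (nat_lit 138)) (PT.lf (nat_lit 22952) (nat_lit 6) (nat_lit 302) (nat_lit 3) (nat_lit 128) (nat_lit 125) (nat_lit 137))) (PT.nd (nat_lit 78) (PT.lf (nat_lit 23560) (nat_lit 6) (nat_lit 310) (nat_lit 3) (nat_lit 129) (nat_lit 125) (nat_lit 136)) (PT.lf (nat_lit 24092) (nat_lit 6) (nat_lit 317) (nat_lit 3) (nat_lit 130) (nat_lit 125) (nat_lit 135)))))) (PT.nd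 (nat_lit 546) (PT.nd (nat_lit 234) (PT.nd (nat_lit 78) (PT.lf (nat_lit 24168) (nat_lit 6) (nat_lit 318) (nat_lit 3) (nat_lit 131) (nat_lit 125) (nat_lit 134)) (PT.nd (nat_lit 78) (PT.lf (nat_lit 24244) (nat_lit 6) (nat_lit 319) (nat_lit 3) (nat_lit 132) (nat_lit 125) (nat_lit 133)) (PT.lf (nat_lit 24244) (nat_lit 6) (nat_lit 319) (nat_lit 1) (nat_lit 133) (nat_lit 125) (nat_lit 132)))) (PT.nd (nat_lit 156) (PT.nd (nat_lit 78) (PT.lf (nat_lit 24168) (nat_lit 6) (nat_lit 318) (nat_lit 1) (nat_lit 134) (nat_lit 125) (nat_lit 131)) (PT.lf (nat_lit 24092) (nat_lit 6) (nat_lit 317) (nat_lit 1) (nat_lit 135) (nat_lit 125) (nat_lit 130))) (PT.nd (nat_lit 78) (PT.lf (nat_lit 23560) (nat_lit 6) (nat_lit 310) (nat_lit 1) (nat_lit 136) (nat_lit 125) (nat_lit 129)) (PT.lf (nat_lit 22952) (nat_lit 6) (nat_lit 302) (nat_lit 1) (nat_lit 137) (nat_lit 125) (nat_lit 128))))) (PT.nd (nat_lit 234) (PT.nd (nat_lit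 78) (PT.lf (nat_lit 22268) (nat_lit 6) (nat_lit 293) (nat_lit 1) (nat_lit 138) (nat_lit 125) (nat_lit 127)) (PT.nd (nat_lit 78) (PT.lf (nat_lit 21508) (nat_lit 6) (nat_lit 283) (nat_lit 1) (nat_lit 139) (nat_lit 125) (nat_lit 126)) (PT.lf (nat_lit 20672) (nat_lit 3) (nat_lit 272) (nat_lit 0) (nat_lit 140) (nat_lit 125) (nat_lit 125)))) (PT.nd (nat_lit 156) (PT.nd (nat_lit 78) (PT.lf (nat_lit 19836) (nat_lit 6) (nat_lit 261) (nat_lit 0) (nat_lit 141) (nat_lit 125) (nat_lit 124)) (PT.lf (nat_lit 18924) (nat_lit 6) (nat_lit 249) (nat_lit 0) (nat_lit 142) (nat_lit 125) (nat_lit 123))) (PT.nd (nat_lit 78) (PT.lf (nat_lit 17936) (nat_lit 6) (nat_lit 236) (nat_lit 0) (nat_lit 143) (nat_lit 125) (nat_lit 122)) (PT.lf (nat_lit 16872) (nat_lit 6) (nat_lit 222) (nat_lit 0) (nat_lit 144) (nat_lit 125) (nat_lit 121))))))) (PT.nd (nat_lit 39624) (PT.nd (nat_lit 39078) (PT.nd (nat_lit 38766) (PT.nd (nat_lit 38610)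 (PT.lf (nat_lit 15732) (nat_lit 6) (nat_lit 207) (nat_lit 0) (nat_lit 145) (nat_lit 125) (nat_lit 120)) (PT.nd (nat_lit 78) (PT.lf (nat_lit 15808) (nat_lit 6) (nat_lit 208) (nat_lit 5) (nat_lit 119) (nat_lit 126) (nat_lit 145)) (PT.lf (nat_lit 16948) (nat_lit 6) (nat_lit 223) (nat_lit 5) (nat_lit 120) (nat_lit 126) (nat_lit 144)))) (PT.nd (nat_lit 156) (PT.nd (nat_lit 78) (PT.lf (nat_lit 18012) (nat_lit 6) (nat_lit 237) (nat_lit 5) (nat_lit 121) (nat_lit 126) (nat_lit 143)) (PT.lf (nat_lit 19000) (nat_lit 6) (nat_lit 250) (nat_lit 5) (nat_lit 122) (nat_lit 126) (nat_lit 142))) (PT.nd (nat_lit 78) (PT.lf (nat_lit 19912) (nat_lit 6) (nat_lit 262) (nat_lit 5) (nat_lit 123) (nat_lit 126) (nat_lit 141)) (PT.lf (nat_lit 20748) (nat_lit 6) (nat_lit 273) (nat_lit 5) (nat_lit 124) (nat_lit 126) (nat_lit 140))))) (PT.nd (nat_lit 234) (PT.nd (nat_lit 78) (PT.lf (nat_lit 21508) (nat_lit 6) (nat_lit 283) (nat_lit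 5) (nat_lit 125) (nat_lit 126) (nat_lit 139)) (PT.nd (nat_lit 78) (PT.lf (nat_lit 22192) (nat_lit 3) (nat_lit 292) (nat_lit 3) (nat_lit 126) (nat_lit 126) (nat_lit 138)) (PT.lf (nat_lit 22876) (nat_lit 6) (nat_lit 301) (nat_lit 3) (nat_lit 127) (nat_lit 126) (nat_lit 137)))) (PT.nd (nat_lit 156) (PT.nd (nat_lit 78) (PT.lf (nat_lit 23484) (nat_lit 6) (nat_lit 309) (nat_lit 3) (nat_lit 128) (nat_lit 126) (nat_lit 136)) (PT.lf (nat_lit 24016) (nat_lit 6) (nat_lit 316) (nat_lit 3) (nat_lit 129) (nat_lit 126) (nat_lit 135))) (PT.nd (nat_lit 78) (PT.lf (nat_lit 24472) (nat_lit 6) (nat_lit 322) (nat_lit 3) (nat_lit 130) (nat_lit 126) (nat_lit 134)) (PT.lf (nat_lit 24548) (nat_lit 6) (nat_lit 323) (nat_lit 3) (nat_lit 131) (nat_lit 126) (nat_lit 133)))))) (PT.nd (nat_lit 546) (PT.nd (nat_lit 234) (PT.nd (nat_lit 78) (PT.lf (nat_lit 24624) (nat_lit 3) (nat_lit 324) (nat_lit 1) (nat_lit 132) (nat_lit 126)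 (nat_lit 132)) (PT.nd (nat_lit 78) (PT.lf (nat_lit 24548) (nat_lit 6) (nat_lit 323) (nat_lit 1) (nat_lit 133) (nat_lit 126) (nat_lit 131)) (PT.lf (nat_lit 24472) (nat_lit 6) (nat_lit 322) (nat_lit 1) (nat_lit 134) (nat_lit 126) (nat_lit 130)))) (PT.nd (nat_lit 156) (PT.nd (nat_lit 78) (PT.lf (nat_lit 24016) (nat_lit 6) (nat_lit 316) (nat_lit 1) (nat_lit 135) (nat_lit 126) (nat_lit 129)) (PT.lf (nat_lit 23484) (nat_lit 6) (nat_lit 309) (nat_lit 1) (nat_lit 136) (nat_lit 126) (nat_lit 128))) (PT.nd (nat_lit 78) (PT.lf (nat_lit 22876) (nat_lit 6) (nat_lit 301) (nat_lit 1) (nat_lit 137) (nat_lit 126) (nat_lit 127)) (PT.lf (nat_lit 22192) (nat_lit 3) (nat_lit 292) (nat_lit 0) (nat_lit 138) (nat_lit 126) (nat_lit 126))))) (PT.nd (nat_lit 234) (PT.nd (nat_lit 78) (PT.lf (nat_lit 21508) (nat_lit 6) (nat_lit 283) (nat_lit 0) (nat_lit 139) (nat_lit 126) (nat_lit 125)) (PT.nd (nat_lit 78) (PT.lf (nat_lit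 20748) (nat_lit 6) (nat_lit 273) (nat_lit 0) (nat_lit 140) (nat_lit 126) (nat_lit 124)) (PT.lf (nat_lit 19912) (nat_lit 6) (nat_lit 262) (nat_lit 0) (nat_lit 141) (nat_lit 126) (nat_lit 123)))) (PT.nd (nat_lit 156) (PT.nd (nat_lit 78) (PT.lf (nat_lit 19000) (nat_lit 6) (nat_lit 250) (nat_lit 0) (nat_lit 142) (nat_lit 126) (nat_lit 122)) (PT.lf (nat_lit 18012) (nat_lit 6) (nat_lit 237) (nat_lit 0) (nat_lit 143) (nat_lit 126) (nat_lit 121))) (PT.nd (nat_lit 78) (PT.lf (nat_lit 16948) (nat_lit 6) (nat_lit 223) (nat_lit 0) (nat_lit 144) (nat_lit 126) (nat_lit 120)) (PT.lf (nat_lit 15808) (nat_lit 6) (nat_lit 208) (nat_lit 0) (nat_lit 145) (nat_lit 126) (nat_lit 119))))))))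
noncomputable def pc11 : PT := (PT.nd (nat_lit 40482) (PT.nd (nat_lit 1092) (PT.nd (nat_lit 546) (PT.nd (nat_lit 234) (PT.nd (nat_lit 78) (PT.lf (nat_lit 15884) (nat_lit 6) (nat_lit 209) (nat_lit 5) (nat_lit 118) (nat_lit 127) (nat_lit 145)) (PT.nd (nat_lit 78) (PT.lf (nat_lit 17024) (nat_lit 6) (nat_lit 224) (nat_lit 5) (nat_lit 119) (nat_lit 127) (nat_lit 144)) (PT.lf (nat_lit 18088) (nat_lit 6) (nat_lit 238) (nat_lit 5) (nat_lit 120) (nat_lit 127) (nat_lit 143)))) (PT.nd (nat_lit 156) (PT.nd (nat_lit 78) (PT.lf (nat_lit 19076) (nat_lit 6) (nat_lit 251) (nat_lit 5) (nat_lit 121) (nat_lit 127) (nat_lit 142)) (PT.lf (nat_lit 19988) (nat_lit 6) (nat_lit 263) (nat_lit 5) (nat_lit 122) (nat_lit 127) (nat_lit 141))) (PT.nd (nat_lit 78) (PT.lf (nat_lit 20824) (nat_lit 6) (nat_lit 274) (nat_lit 5) (nat_lit 123) (nat_lit 127) (nat_lit 140)) (PT.lf (nat_lit 21584) (nat_lit 6) (nat_lit 284) (nat_lit 5)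 (nat_lit 124) (nat_lit 127) (nat_lit 139))))) (PT.nd (nat_lit 234) (PT.nd (nat_lit 78) (PT.lf (nat_lit 22268) (nat_lit 6) (nat_lit 293) (nat_lit 5) (nat_lit 125) (nat_lit 127) (nat_lit 138)) (PT.nd (nat_lit 78) (PT.lf (nat_lit 22876) (nat_lit 6) (nat_lit 301) (nat_lit 5) (nat_lit 126) (nat_lit 127) (nat_lit 137)) (PT.lf (nat_lit 23408) (nat_lit 3) (nat_lit 308) (nat_lit 3) (nat_lit 127) (nat_lit 127) (nat_lit 136)))) (PT.nd (nat_lit 156) (PT.nd (nat_lit 78) (PT.lf (nat_lit 23940) (nat_lit 6) (nat_lit 315) (nat_lit 3) (nat_lit 128) (nat_lit 127) (nat_lit 135)) (PT.lf (nat_lit 24396) (nat_lit 6) (nat_lit 321) (nat_lit 3) (nat_lit 129) (nat_lit 127) (nat_lit 134))) (PT.nd (nat_lit 78) (PT.lf (nat_lit 24776) (nat_lit 6) (nat_lit 326) (nat_lit 3) (nat_lit 130) (nat_lit 127) (nat_lit 133)) (PT.lf (nat_lit 24852) (nat_lit 6) (nat_lit 327) (nat_lit 3) (nat_lit 131) (nat_lit 127) (nat_lit 132)))))) (PT.nd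 (nat_lit 546) (PT.nd (nat_lit 234) (PT.nd (nat_lit 78) (PT.lf (nat_lit 24852) (nat_lit 6) (nat_lit 327) (nat_lit 1) (nat_lit 132) (nat_lit 127) (nat_lit 131)) (PT.nd (nat_lit 78) (PT.lf (nat_lit 24776) (nat_lit 6) (nat_lit 326) (nat_lit 1) (nat_lit 133) (nat_lit 127) (nat_lit 130)) (PT.lf (nat_lit 24396) (nat_lit 6) (nat_lit 321) (nat_lit 1) (nat_lit 134) (nat_lit 127) (nat_lit 129)))) (PT.nd (nat_lit 156) (PT.nd (nat_lit 78) (PT.lf (nat_lit 23940) (nat_lit 6) (nat_lit 315) (nat_lit 1) (nat_lit 135) (nat_lit 127) (nat_lit 128)) (PT.lf (nat_lit 23408) (nat_lit 3) (nat_lit 308) (nat_lit 0) (nat_lit 136) (nat_lit 127) (nat_lit 127))) (PT.nd (nat_lit 78) (PT.lf (nat_lit 22876) (nat_lit 6) (nat_lit 301) (nat_lit 0) (nat_lit 137) (nat_lit 127) (nat_lit 126)) (PT.lf (nat_lit 22268) (nat_lit 6) (nat_lit 293) (nat_lit 0) (nat_lit 138) (nat_lit 127) (nat_lit 125))))) (PT.nd (nat_lit 234) (PT.nd (nat_lit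 78) (PT.lf (nat_lit 21584) (nat_lit 6) (nat_lit 284) (nat_lit 0) (nat_lit 139) (nat_lit 127) (nat_lit 124)) (PT.nd (nat_lit 78) (PT.lf (nat_lit 20824) (nat_lit 6) (nat_lit 274) (nat_lit 0) (nat_lit 140) (nat_lit 127) (nat_lit 123)) (PT.lf (nat_lit 19988) (nat_lit 6) (nat_lit 263) (nat_lit 0) (nat_lit 141) (nat_lit 127) (nat_lit 122)))) (PT.nd (nat_lit 156) (PT.nd (nat_lit 78) (PT.lf (nat_lit 19076) (nat_lit 6) (nat_lit 251) (nat_lit 0) (nat_lit 142) (nat_lit 127) (nat_lit 121)) (PT.lf (nat_lit 18088) (nat_lit 6) (nat_lit 238) (nat_lit 0) (nat_lit 143) (nat_lit 127) (nat_lit 120))) (PT.nd (nat_lit 78) (PT.lf (nat_lit 17024) (nat_lit 6) (nat_lit 224) (nat_lit 0) (nat_lit 144) (nat_lit 127) (nat_lit 119)) (PT.lf (nat_lit 15884) (nat_lit 6) (nat_lit 209) (nat_lit 0) (nat_lit 145) (nat_lit 127) (nat_lit 118))))))) (PT.nd (nat_lit 1092) (PT.nd (nat_lit 546) (PT.nd (nat_lit 234) (PT.nd (nat_lit 78) (PT.lf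 (nat_lit 14744) (nat_lit 6) (nat_lit 194) (nat_lit 5) (nat_lit 116) (nat_lit 128) (nat_lit 146)) (PT.nd (nat_lit 78) (PT.lf (nat_lit 15960) (nat_lit 6) (nat_lit 210) (nat_lit 5) (nat_lit 117) (nat_lit 128) (nat_lit 145)) (PT.lf (nat_lit 17100) (nat_lit 6) (nat_lit 225) (nat_lit 5) (nat_lit 118) (nat_lit 128) (nat_lit 144)))) (PT.nd (nat_lit 156) (PT.nd (nat_lit 78) (PT.lf (nat_lit 18164) (nat_lit 6) (nat_lit 239) (nat_lit 5) (nat_lit 119) (nat_lit 128) (nat_lit 143)) (PT.lf (nat_lit 19152) (nat_lit 6) (nat_lit 252) (nat_lit 5) (nat_lit 120) (nat_lit 128) (nat_lit 142))) (PT.nd (nat_lit 78) (PT.lf (nat_lit 20064) (nat_lit 6) (nat_lit 264) (nat_lit 5) (nat_lit 121) (nat_lit 128) (nat_lit 141)) (PT.lf (nat_lit 20900) (nat_lit 6) (nat_lit 275) (nat_lit 5) (nat_lit 122) (nat_lit 128) (nat_lit 140))))) (PT.nd (nat_lit 234) (PT.nd (nat_lit 78) (PT.lf (nat_lit 21660) (nat_lit 6) (nat_lit 285) (nat_lit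 5) (nat_lit 123) (nat_lit 128) (nat_lit 139)) (PT.nd (nat_lit 78) (PT.lf (nat_lit 22344) (nat_lit 6) (nat_lit 294) (nat_lit 5) (nat_lit 124) (nat_lit 128) (nat_lit 138)) (PT.lf (nat_lit 22952) (nat_lit 6) (nat_lit 302) (nat_lit 5) (nat_lit 125) (nat_lit 128) (nat_lit 137)))) (PT.nd (nat_lit 156) (PT.nd (nat_lit 78) (PT.lf (nat_lit 23484) (nat_lit 6) (nat_lit 309) (nat_lit 5) (nat_lit 126) (nat_lit 128) (nat_lit 136)) (PT.lf (nat_lit 23940) (nat_lit 6) (nat_lit 315) (nat_lit 5) (nat_lit 127) (nat_lit 128) (nat_lit 135))) (PT.nd (nat_lit 78) (PT.lf (nat_lit 24320) (nat_lit 3) (nat_lit 320) (nat_lit 3) (nat_lit 128) (nat_lit 128) (nat_lit 134)) (PT.lf (nat_lit 24700) (nat_lit 6) (nat_lit 325) (nat_lit 3) (nat_lit 129) (nat_lit 128) (nat_lit 133)))))) (PT.nd (nat_lit 546) (PT.nd (nat_lit 234) (PT.nd (nat_lit 78) (PT.lf (nat_lit 25004) (nat_lit 6) (nat_lit 329) (nat_lit 3) (nat_lit 130) (nat_lit 128)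 (nat_lit 132)) (PT.nd (nat_lit 78) (PT.lf (nat_lit 25080) (nat_lit 3) (nat_lit 330) (nat_lit 1) (nat_lit 131) (nat_lit 128) (nat_lit 131)) (PT.lf (nat_lit 25004) (nat_lit 6) (nat_lit 329) (nat_lit 1) (nat_lit 132) (nat_lit 128) (nat_lit 130)))) (PT.nd (nat_lit 156) (PT.nd (nat_lit 78) (PT.lf (nat_lit 24700) (nat_lit 6) (nat_lit 325) (nat_lit 1) (nat_lit 133) (nat_lit 128) (nat_lit 129)) (PT.lf (nat_lit 24320) (nat_lit 3) (nat_lit 320) (nat_lit 0) (nat_lit 134) (nat_lit 128) (nat_lit 128))) (PT.nd (nat_lit 78) (PT.lf (nat_lit 23940) (nat_lit 6) (nat_lit 315) (nat_lit 0) (nat_lit 135) (nat_lit 128) (nat_lit 127)) (PT.lf (nat_lit 23484) (nat_lit 6) (nat_lit 309) (nat_lit 0) (nat_lit 136) (nat_lit 128) (nat_lit 126))))) (PT.nd (nat_lit 234) (PT.nd (nat_lit 78) (PT.lf (nat_lit 22952) (nat_lit 6) (nat_lit 302) (nat_lit 0) (nat_lit 137) (nat_lit 128) (nat_lit 125)) (PT.nd (nat_lit 78) (PT.lf (nat_lit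 22344) (nat_lit 6) (nat_lit 294) (nat_lit 0) (nat_lit 138) (nat_lit 128) (nat_lit 124)) (PT.lf (nat_lit 21660) (nat_lit 6) (nat_lit 285) (nat_lit 0) (nat_lit 139) (nat_lit 128) (nat_lit 123)))) (PT.nd (nat_lit 156) (PT.nd (nat_lit 78) (PT.lf (nat_lit 20900) (nat_lit 6) (nat_lit 275) (nat_lit 0) (nat_lit 140) (nat_lit 128) (nat_lit 122)) (PT.lf (nat_lit 20064) (nat_lit 6) (nat_lit 264) (nat_lit 0) (nat_lit 141) (nat_lit 128) (nat_lit 121))) (PT.nd (nat_lit 78) (PT.lf (nat_lit 19152) (nat_lit 6) (nat_lit 252) (nat_lit 0) (nat_lit 142) (nat_lit 128) (nat_lit 120)) (PT.lf (nat_lit 18164) (nat_lit 6) (nat_lit 239) (nat_lit 0) (nat_lit 143) (nat_lit 128) (nat_lit 119))))))))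
noncomputable def pc12 : PT := (PT.nd (nat_lit 40326) (PT.nd (nat_lit 39234) (PT.nd (nat_lit 38688) (PT.nd (nat_lit 38376) (PT.nd (nat_lit 78) (PT.lf (nat_lit 17100) (nat_lit 6) (nat_lit 225) (nat_lit 0) (nat_lit 144) (nat_lit 128) (nat_lit 118)) (PT.nd (nat_lit 78) (PT.lf (nat_lit 15960) (nat_lit 6) (nat_lit 210) (nat_lit 0) (nat_lit 145) (nat_lit 128) (nat_lit 117)) (PT.lf (nat_lit 14744) (nat_lit 6) (nat_lit 194) (nat_lit 0) (nat_lit 146) (nat_lit 128) (nat_lit 116)))) (PT.nd (nat_lit 156) (PT.nd (nat_lit 78) (PT.lf (nat_lit 14820) (nat_lit 6) (nat_lit 195) (nat_lit 5) (nat_lit 115) (nat_lit 129) (nat_lit 146)) (PT.lf (nat_lit 16036) (nat_lit 6) (nat_lit 211) (nat_lit 5) (nat_lit 116) (nat_lit 129) (nat_lit 145))) (PT.nd (nat_lit 78) (PT.lf (nat_lit 17176) (nat_lit 6) (nat_lit 226) (nat_lit 5) (nat_lit 117) (nat_lit 129) (nat_lit 144)) (PT.lf (nat_lit 18240) (nat_lit 6) (nat_lit 240) (nat_lit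 5) (nat_lit 118) (nat_lit 129) (nat_lit 143))))) (PT.nd (nat_lit 234) (PT.nd (nat_lit 78) (PT.lf (nat_lit 19228) (nat_lit 6) (nat_lit 253) (nat_lit 5) (nat_lit 119) (nat_lit 129) (nat_lit 142)) (PT.nd (nat_lit 78) (PT.lf (nat_lit 20140) (nat_lit 6) (nat_lit 265) (nat_lit 5) (nat_lit 120) (nat_lit 129) (nat_lit 141)) (PT.lf (nat_lit 20976) (nat_lit 6) (nat_lit 276) (nat_lit 5) (nat_lit 121) (nat_lit 129) (nat_lit 140)))) (PT.nd (nat_lit 156) (PT.nd (nat_lit 78) (PT.lf (nat_lit 21736) (nat_lit 6) (nat_lit 286) (nat_lit 5) (nat_lit 122) (nat_lit 129) (nat_lit 139)) (PT.lf (nat_lit 22420) (nat_lit 6) (nat_lit 295) (nat_lit 5) (nat_lit 123) (nat_lit 129) (nat_lit 138))) (PT.nd (nat_lit 78) (PT.lf (nat_lit 23028) (nat_lit 6) (nat_lit 303) (nat_lit 5) (nat_lit 124) (nat_lit 129) (nat_lit 137)) (PT.lf (nat_lit 23560) (nat_lit 6) (nat_lit 310) (nat_lit 5) (nat_lit 125) (nat_lit 129) (nat_lit 136)))))) (PT.nd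 (nat_lit 546) (PT.nd (nat_lit 234) (PT.nd (nat_lit 78) (PT.lf (nat_lit 24016) (nat_lit 6) (nat_lit 316) (nat_lit 5) (nat_lit 126) (nat_lit 129) (nat_lit 135)) (PT.nd (nat_lit 78) (PT.lf (nat_lit 24396) (nat_lit 6) (nat_lit 321) (nat_lit 5) (nat_lit 127) (nat_lit 129) (nat_lit 134)) (PT.lf (nat_lit 24700) (nat_lit 6) (nat_lit 325) (nat_lit 5) (nat_lit 128) (nat_lit 129) (nat_lit 133)))) (PT.nd (nat_lit 156) (PT.nd (nat_lit 78) (PT.lf (nat_lit 24928) (nat_lit 3) (nat_lit 328) (nat_lit 3) (nat_lit 129) (nat_lit 129) (nat_lit 132)) (PT.lf (nat_lit 25156) (nat_lit 6) (nat_lit 331) (nat_lit 3) (nat_lit 130) (nat_lit 129) (nat_lit 131))) (PT.nd (nat_lit 78) (PT.lf (nat_lit 25156) (nat_lit 6) (nat_lit 331) (nat_lit 1) (nat_lit 131) (nat_lit 129) (nat_lit 130)) (PT.lf (nat_lit 24928) (nat_lit 3) (nat_lit 328) (nat_lit 0) (nat_lit 132) (nat_lit 129) (nat_lit 129))))) (PT.nd (nat_lit 234) (PT.nd (nat_lit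 78) (PT.lf (nat_lit 24700) (nat_lit 6) (nat_lit 325) (nat_lit 0) (nat_lit 133) (nat_lit 129) (nat_lit 128)) (PT.nd (nat_lit 78) (PT.lf (nat_lit 24396) (nat_lit 6) (nat_lit 321) (nat_lit 0) (nat_lit 134) (nat_lit 129) (nat_lit 127)) (PT.lf (nat_lit 24016) (nat_lit 6) (nat_lit 316) (nat_lit 0) (nat_lit 135) (nat_lit 129) (nat_lit 126)))) (PT.nd (nat_lit 156) (PT.nd (nat_lit 78) (PT.lf (nat_lit 23560) (nat_lit 6) (nat_lit 310) (nat_lit 0) (nat_lit 136) (nat_lit 129) (nat_lit 125)) (PT.lf (nat_lit 23028) (nat_lit 6) (nat_lit 303) (nat_lit 0) (nat_lit 137) (nat_lit 129) (nat_lit 124))) (PT.nd (nat_lit 78) (PT.lf (nat_lit 22420) (nat_lit 6) (nat_lit 295) (nat_lit 0) (nat_lit 138) (nat_lit 129) (nat_lit 123)) (PT.lf (nat_lit 21736) (nat_lit 6) (nat_lit 286) (nat_lit 0) (nat_lit 139) (nat_lit 129) (nat_lit 122))))))) (PT.nd (nat_lit 39156) (PT.nd (nat_lit 38610) (PT.nd (nat_lit 234) (PT.nd (nat_lit 78)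 (PT.lf (nat_lit 20976) (nat_lit 6) (nat_lit 276) (nat_lit 0) (nat_lit 140) (nat_lit 129) (nat_lit 121)) (PT.nd (nat_lit 78) (PT.lf (nat_lit 20140) (nat_lit 6) (nat_lit 265) (nat_lit 0) (nat_lit 141) (nat_lit 129) (nat_lit 120)) (PT.lf (nat_lit 19228) (nat_lit 6) (nat_lit 253) (nat_lit 0) (nat_lit 142) (nat_lit 129) (nat_lit 119)))) (PT.nd (nat_lit 156) (PT.nd (nat_lit 78) (PT.lf (nat_lit 18240) (nat_lit 6) (nat_lit 240) (nat_lit 0) (nat_lit 143) (nat_lit 129) (nat_lit 118)) (PT.lf (nat_lit 17176) (nat_lit 6) (nat_lit 226) (nat_lit 0) (nat_lit 144) (nat_lit 129) (nat_lit 117))) (PT.nd (nat_lit 78) (PT.lf (nat_lit 16036) (nat_lit 6) (nat_lit 211) (nat_lit 0) (nat_lit 145) (nat_lit 129) (nat_lit 116)) (PT.lf (nat_lit 14820) (nat_lit 6) (nat_lit 195) (nat_lit 0) (nat_lit 146) (nat_lit 129) (nat_lit 115))))) (PT.nd (nat_lit 234) (PT.nd (nat_lit 78) (PT.lf (nat_lit 14896) (nat_lit 6) (nat_lit 196) (nat_lit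 5) (nat_lit 114) (nat_lit 130) (nat_lit 146)) (PT.nd (nat_lit 78) (PT.lf (nat_lit 16112) (nat_lit 6) (nat_lit 212) (nat_lit 5) (nat_lit 115) (nat_lit 130) (nat_lit 145)) (PT.lf (nat_lit 17252) (nat_lit 6) (nat_lit 227) (nat_lit 5) (nat_lit 116) (nat_lit 130) (nat_lit 144)))) (PT.nd (nat_lit 156) (PT.nd (nat_lit 78) (PT.lf (nat_lit 18316) (nat_lit 6) (nat_lit 241) (nat_lit 5) (nat_lit 117) (nat_lit 130) (nat_lit 143)) (PT.lf (nat_lit 19304) (nat_lit 6) (nat_lit 254) (nat_lit 5) (nat_lit 118) (nat_lit 130) (nat_lit 142))) (PT.nd (nat_lit 78) (PT.lf (nat_lit 20216) (nat_lit 6) (nat_lit 266) (nat_lit 5) (nat_lit 119) (nat_lit 130) (nat_lit 141)) (PT.lf (nat_lit 21052) (nat_lit 6) (nat_lit 277) (nat_lit 5) (nat_lit 120) (nat_lit 130) (nat_lit 140)))))) (PT.nd (nat_lit 546) (PT.nd (nat_lit 234) (PT.nd (nat_lit 78) (PT.lf (nat_lit 21812) (nat_lit 6) (nat_lit 287) (nat_lit 5) (nat_lit 121) (nat_lit 130)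 (nat_lit 139)) (PT.nd (nat_lit 78) (PT.lf (nat_lit 22496) (nat_lit 6) (nat_lit 296) (nat_lit 5) (nat_lit 122) (nat_lit 130) (nat_lit 138)) (PT.lf (nat_lit 23104) (nat_lit 6) (nat_lit 304) (nat_lit 5) (nat_lit 123) (nat_lit 130) (nat_lit 137)))) (PT.nd (nat_lit 156) (PT.nd (nat_lit 78) (PT.lf (nat_lit 23636) (nat_lit 6) (nat_lit 311) (nat_lit 5) (nat_lit 124) (nat_lit 130) (nat_lit 136)) (PT.lf (nat_lit 24092) (nat_lit 6) (nat_lit 317) (nat_lit 5) (nat_lit 125) (nat_lit 130) (nat_lit 135))) (PT.nd (nat_lit 78) (PT.lf (nat_lit 24472) (nat_lit 6) (nat_lit 322) (nat_lit 5) (nat_lit 126) (nat_lit 130) (nat_lit 134)) (PT.lf (nat_lit 24776) (nat_lit 6) (nat_lit 326) (nat_lit 5) (nat_lit 127) (nat_lit 130) (nat_lit 133))))) (PT.nd (nat_lit 234) (PT.nd (nat_lit 78) (PT.lf (nat_lit 25004) (nat_lit 6) (nat_lit 329) (nat_lit 5) (nat_lit 128) (nat_lit 130) (nat_lit 132)) (PT.nd (nat_lit 78) (PT.lf (nat_lit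 25156) (nat_lit 6) (nat_lit 331) (nat_lit 5) (nat_lit 129) (nat_lit 130) (nat_lit 131)) (PT.lf (nat_lit 25232) (nat_lit 1) (nat_lit 332) (nat_lit 0) (nat_lit 130) (nat_lit 130) (nat_lit 130)))) (PT.nd (nat_lit 156) (PT.nd (nat_lit 78) (PT.lf (nat_lit 25156) (nat_lit 6) (nat_lit 331) (nat_lit 0) (nat_lit 131) (nat_lit 130) (nat_lit 129)) (PT.lf (nat_lit 25004) (nat_lit 6) (nat_lit 329) (nat_lit 0) (nat_lit 132) (nat_lit 130) (nat_lit 128))) (PT.nd (nat_lit 78) (PT.lf (nat_lit 24776) (nat_lit 6) (nat_lit 326) (nat_lit 0) (nat_lit 133) (nat_lit 130) (nat_lit 127)) (PT.lf (nat_lit 24472) (nat_lit 6) (nat_lit 322) (nat_lit 0) (nat_lit 134) (nat_lit 130) (nat_lit 126))))))))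
noncomputable def pc13 : PT := (PT.nd (nat_lit 40170) (PT.nd (nat_lit 39078) (PT.nd (nat_lit 546) (PT.nd (nat_lit 234) (PT.nd (nat_lit 78) (PT.lf (nat_lit 24092) (nat_lit 6) (nat_lit 317) (nat_lit 0) (nat_lit 135) (nat_lit 130) (nat_lit 125)) (PT.nd (nat_lit 78) (PT.lf (nat_lit 23636) (nat_lit 6) (nat_lit 311) (nat_lit 0) (nat_lit 136) (nat_lit 130) (nat_lit 124)) (PT.lf (nat_lit 23104) (nat_lit 6) (nat_lit 304) (nat_lit 0) (nat_lit 137) (nat_lit 130) (nat_lit 123)))) (PT.nd (nat_lit 156) (PT.nd (nat_lit 78) (PT.lf (nat_lit 22496) (nat_lit 6) (nat_lit 296) (nat_lit 0) (nat_lit 138) (nat_lit 130) (nat_lit 122)) (PT.lf (nat_lit 21812) (nat_lit 6) (nat_lit 287) (nat_lit 0) (nat_lit 139) (nat_lit 130) (nat_lit 121))) (PT.nd (nat_lit 78) (PT.lf (nat_lit 21052) (nat_lit 6) (nat_lit 277) (nat_lit 0) (nat_lit 140) (nat_lit 130) (nat_lit 120)) (PT.lf (nat_lit 20216) (nat_lit 6) (nat_lit 266) (nat_lit 0)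 (nat_lit 141) (nat_lit 130) (nat_lit 119))))) (PT.nd (nat_lit 234) (PT.nd (nat_lit 78) (PT.lf (nat_lit 19304) (nat_lit 6) (nat_lit 254) (nat_lit 0) (nat_lit 142) (nat_lit 130) (nat_lit 118)) (PT.nd (nat_lit 78) (PT.lf (nat_lit 18316) (nat_lit 6) (nat_lit 241) (nat_lit 0) (nat_lit 143) (nat_lit 130) (nat_lit 117)) (PT.lf (nat_lit 17252) (nat_lit 6) (nat_lit 227) (nat_lit 0) (nat_lit 144) (nat_lit 130) (nat_lit 116)))) (PT.nd (nat_lit 38142) (PT.nd (nat_lit 78) (PT.lf (nat_lit 16112) (nat_lit 6) (nat_lit 212) (nat_lit 0) (nat_lit 145) (nat_lit 130) (nat_lit 115)) (PT.lf (nat_lit 14896) (nat_lit 6) (nat_lit 196) (nat_lit 0) (nat_lit 146) (nat_lit 130) (nat_lit 114))) (PT.nd (nat_lit 78) (PT.lf (nat_lit 14136) (nat_lit 6) (nat_lit 186) (nat_lit 5) (nat_lit 113) (nat_lit 131) (nat_lit 146)) (PT.lf (nat_lit 14972) (nat_lit 6) (nat_lit 197) (nat_lit 5) (nat_lit 114) (nat_lit 131) (nat_lit 145)))))) (PT.nd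 (nat_lit 546) (PT.nd (nat_lit 234) (PT.nd (nat_lit 78) (PT.lf (nat_lit 16188) (nat_lit 6) (nat_lit 213) (nat_lit 5) (nat_lit 115) (nat_lit 131) (nat_lit 144)) (PT.nd (nat_lit 78) (PT.lf (nat_lit 17328) (nat_lit 6) (nat_lit 228) (nat_lit 5) (nat_lit 116) (nat_lit 131) (nat_lit 143)) (PT.lf (nat_lit 18392) (nat_lit 6) (nat_lit 242) (nat_lit 5) (nat_lit 117) (nat_lit 131) (nat_lit 142)))) (PT.nd (nat_lit 156) (PT.nd (nat_lit 78) (PT.lf (nat_lit 19380) (nat_lit 6) (nat_lit 255) (nat_lit 5) (nat_lit 118) (nat_lit 131) (nat_lit 141)) (PT.lf (nat_lit 20292) (nat_lit 6) (nat_lit 267) (nat_lit 5) (nat_lit 119) (nat_lit 131) (nat_lit 140))) (PT.nd (nat_lit 78) (PT.lf (nat_lit 21128) (nat_lit 6) (nat_lit 278) (nat_lit 5) (nat_lit 120) (nat_lit 131) (nat_lit 139)) (PT.lf (nat_lit 21888) (nat_lit 6) (nat_lit 288) (nat_lit 5) (nat_lit 121) (nat_lit 131) (nat_lit 138))))) (PT.nd (nat_lit 234) (PT.nd (nat_lit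 78) (PT.lf (nat_lit 22572) (nat_lit 6) (nat_lit 297) (nat_lit 5) (nat_lit 122) (nat_lit 131) (nat_lit 137)) (PT.nd (nat_lit 78) (PT.lf (nat_lit 23180) (nat_lit 6) (nat_lit 305) (nat_lit 5) (nat_lit 123) (nat_lit 131) (nat_lit 136)) (PT.lf (nat_lit 23712) (nat_lit 6) (nat_lit 312) (nat_lit 5) (nat_lit 124) (nat_lit 131) (nat_lit 135)))) (PT.nd (nat_lit 156) (PT.nd (nat_lit 78) (PT.lf (nat_lit 24168) (nat_lit 6) (nat_lit 318) (nat_lit 5) (nat_lit 125) (nat_lit 131) (nat_lit 134)) (PT.lf (nat_lit 24548) (nat_lit 6) (nat_lit 323) (nat_lit 5) (nat_lit 126) (nat_lit 131) (nat_lit 133))) (PT.nd (nat_lit 78) (PT.lf (nat_lit 24852) (nat_lit 6) (nat_lit 327) (nat_lit 5) (nat_lit 127) (nat_lit 131) (nat_lit 132)) (PT.lf (nat_lit 25080) (nat_lit 3) (nat_lit 330) (nat_lit 4) (nat_lit 128) (nat_lit 131) (nat_lit 131))))))) (PT.nd (nat_lit 1092) (PT.nd (nat_lit 546) (PT.nd (nat_lit 234) (PT.nd (nat_lit 78) (PT.lf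 (nat_lit 25156) (nat_lit 6) (nat_lit 331) (nat_lit 4) (nat_lit 129) (nat_lit 131) (nat_lit 130)) (PT.nd (nat_lit 78) (PT.lf (nat_lit 25156) (nat_lit 6) (nat_lit 331) (nat_lit 2) (nat_lit 130) (nat_lit 131) (nat_lit 129)) (PT.lf (nat_lit 25080) (nat_lit 3) (nat_lit 330) (nat_lit 0) (nat_lit 131) (nat_lit 131) (nat_lit 128)))) (PT.nd (nat_lit 156) (PT.nd (nat_lit 78) (PT.lf (nat_lit 24852) (nat_lit 6) (nat_lit 327) (nat_lit 0) (nat_lit 132) (nat_lit 131) (nat_lit 127)) (PT.lf (nat_lit 24548) (nat_lit 6) (nat_lit 323) (nat_lit 0) (nat_lit 133) (nat_lit 131) (nat_lit 126))) (PT.nd (nat_lit 78) (PT.lf (nat_lit 24168) (nat_lit 6) (nat_lit 318) (nat_lit 0) (nat_lit 134) (nat_lit 131) (nat_lit 125)) (PT.lf (nat_lit 23712) (nat_lit 6) (nat_lit 312) (nat_lit 0) (nat_lit 135) (nat_lit 131) (nat_lit 124))))) (PT.nd (nat_lit 234) (PT.nd (nat_lit 78) (PT.lf (nat_lit 23180) (nat_lit 6) (nat_lit 305) (nat_lit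 0) (nat_lit 136) (nat_lit 131) (nat_lit 123)) (PT.nd (nat_lit 78) (PT.lf (nat_lit 22572) (nat_lit 6) (nat_lit 297) (nat_lit 0) (nat_lit 137) (nat_lit 131) (nat_lit 122)) (PT.lf (nat_lit 21888) (nat_lit 6) (nat_lit 288) (nat_lit 0) (nat_lit 138) (nat_lit 131) (nat_lit 121)))) (PT.nd (nat_lit 156) (PT.nd (nat_lit 78) (PT.lf (nat_lit 21128) (nat_lit 6) (nat_lit 278) (nat_lit 0) (nat_lit 139) (nat_lit 131) (nat_lit 120)) (PT.lf (nat_lit 20292) (nat_lit 6) (nat_lit 267) (nat_lit 0) (nat_lit 140) (nat_lit 131) (nat_lit 119))) (PT.nd (nat_lit 78) (PT.lf (nat_lit 19380) (nat_lit 6) (nat_lit 255) (nat_lit 0) (nat_lit 141) (nat_lit 131) (nat_lit 118)) (PT.lf (nat_lit 18392) (nat_lit 6) (nat_lit 242) (nat_lit 0) (nat_lit 142) (nat_lit 131) (nat_lit 117)))))) (PT.nd (nat_lit 38454) (PT.nd (nat_lit 234) (PT.nd (nat_lit 78) (PT.lf (nat_lit 17328) (nat_lit 6) (nat_lit 228) (nat_lit 0) (nat_lit 143) (nat_lit 131)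 (nat_lit 116)) (PT.nd (nat_lit 78) (PT.lf (nat_lit 16188) (nat_lit 6) (nat_lit 213) (nat_lit 0) (nat_lit 144) (nat_lit 131) (nat_lit 115)) (PT.lf (nat_lit 14972) (nat_lit 6) (nat_lit 197) (nat_lit 0) (nat_lit 145) (nat_lit 131) (nat_lit 114)))) (PT.nd (nat_lit 38064) (PT.nd (nat_lit 37986) (PT.lf (nat_lit 14136) (nat_lit 6) (nat_lit 186) (nat_lit 0) (nat_lit 146) (nat_lit 131) (nat_lit 113)) (PT.lf (nat_lit 13528) (nat_lit 6) (nat_lit 178) (nat_lit 5) (nat_lit 112) (nat_lit 132) (nat_lit 146))) (PT.nd (nat_lit 78) (PT.lf (nat_lit 14212) (nat_lit 6) (nat_lit 187) (nat_lit 5) (nat_lit 113) (nat_lit 132) (nat_lit 145)) (PT.lf (nat_lit 15048) (nat_lit 6) (nat_lit 198) (nat_lit 5) (nat_lit 114) (nat_lit 132) (nat_lit 144))))) (PT.nd (nat_lit 234) (PT.nd (nat_lit 78) (PT.lf (nat_lit 16264) (nat_lit 6) (nat_lit 214) (nat_lit 5) (nat_lit 115) (nat_lit 132) (nat_lit 143)) (PT.nd (nat_lit 78) (PT.lf (nat_lit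 17404) (nat_lit 6) (nat_lit 229) (nat_lit 5) (nat_lit 116) (nat_lit 132) (nat_lit 142)) (PT.lf (nat_lit 18468) (nat_lit 6) (nat_lit 243) (nat_lit 5) (nat_lit 117) (nat_lit 132) (nat_lit 141)))) (PT.nd (nat_lit 156) (PT.nd (nat_lit 78) (PT.lf (nat_lit 19456) (nat_lit 6) (nat_lit 256) (nat_lit 5) (nat_lit 118) (nat_lit 132) (nat_lit 140)) (PT.lf (nat_lit 20368) (nat_lit 6) (nat_lit 268) (nat_lit 5) (nat_lit 119) (nat_lit 132) (nat_lit 139))) (PT.nd (nat_lit 78) (PT.lf (nat_lit 21204) (nat_lit 6) (nat_lit 279) (nat_lit 5) (nat_lit 120) (nat_lit 132) (nat_lit 138)) (PT.lf (nat_lit 21964) (nat_lit 6) (nat_lit 289) (nat_lit 5) (nat_lit 121) (nat_lit 132) (nat_lit 137))))))))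
noncomputable def pc14 : PT := (PT.nd (nat_lit 39936) (PT.nd (nat_lit 1092) (PT.nd (nat_lit 546) (PT.nd (nat_lit 234) (PT.nd (nat_lit 78) (PT.lf (nat_lit 22648) (nat_lit 6) (nat_lit 298) (nat_lit 5) (nat_lit 122) (nat_lit 132) (nat_lit 136)) (PT.nd (nat_lit 78) (PT.lf (nat_lit 23256) (nat_lit 6) (nat_lit 306) (nat_lit 5) (nat_lit 123) (nat_lit 132) (nat_lit 135)) (PT.lf (nat_lit 23788) (nat_lit 6) (nat_lit 313) (nat_lit 5) (nat_lit 124) (nat_lit 132) (nat_lit 134)))) (PT.nd (nat_lit 156) (PT.nd (nat_lit 78) (PT.lf (nat_lit 24244) (nat_lit 6) (nat_lit 319) (nat_lit 5) (nat_lit 125) (nat_lit 132) (nat_lit 133)) (PT.lf (nat_lit 24624) (nat_lit 3) (nat_lit 324) (nat_lit 4) (nat_lit 126) (nat_lit 132) (nat_lit 132))) (PT.nd (nat_lit 78) (PT.lf (nat_lit 24852) (nat_lit 6) (nat_lit 327) (nat_lit 4) (nat_lit 127) (nat_lit 132) (nat_lit 131)) (PT.lf (nat_lit 25004) (nat_lit 6) (nat_lit 329) (nat_lit 4)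 (nat_lit 128) (nat_lit 132) (nat_lit 130))))) (PT.nd (nat_lit 234) (PT.nd (nat_lit 78) (PT.lf (nat_lit 24928) (nat_lit 3) (nat_lit 328) (nat_lit 2) (nat_lit 129) (nat_lit 132) (nat_lit 129)) (PT.nd (nat_lit 78) (PT.lf (nat_lit 25004) (nat_lit 6) (nat_lit 329) (nat_lit 2) (nat_lit 130) (nat_lit 132) (nat_lit 128)) (PT.lf (nat_lit 24852) (nat_lit 6) (nat_lit 327) (nat_lit 2) (nat_lit 131) (nat_lit 132) (nat_lit 127)))) (PT.nd (nat_lit 156) (PT.nd (nat_lit 78) (PT.lf (nat_lit 24624) (nat_lit 3) (nat_lit 324) (nat_lit 0) (nat_lit 132) (nat_lit 132) (nat_lit 126)) (PT.lf (nat_lit 24244) (nat_lit 6) (nat_lit 319) (nat_lit 0) (nat_lit 133) (nat_lit 132) (nat_lit 125))) (PT.nd (nat_lit 78) (PT.lf (nat_lit 23788) (nat_lit 6) (nat_lit 313) (nat_lit 0) (nat_lit 134) (nat_lit 132) (nat_lit 124)) (PT.lf (nat_lit 23256) (nat_lit 6) (nat_lit 306) (nat_lit 0) (nat_lit 135) (nat_lit 132) (nat_lit 123)))))) (PT.nd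 (nat_lit 546) (PT.nd (nat_lit 234) (PT.nd (nat_lit 78) (PT.lf (nat_lit 22648) (nat_lit 6) (nat_lit 298) (nat_lit 0) (nat_lit 136) (nat_lit 132) (nat_lit 122)) (PT.nd (nat_lit 78) (PT.lf (nat_lit 21964) (nat_lit 6) (nat_lit 289) (nat_lit 0) (nat_lit 137) (nat_lit 132) (nat_lit 121)) (PT.lf (nat_lit 21204) (nat_lit 6) (nat_lit 279) (nat_lit 0) (nat_lit 138) (nat_lit 132) (nat_lit 120)))) (PT.nd (nat_lit 156) (PT.nd (nat_lit 78) (PT.lf (nat_lit 20368) (nat_lit 6) (nat_lit 268) (nat_lit 0) (nat_lit 139) (nat_lit 132) (nat_lit 119)) (PT.lf (nat_lit 19456) (nat_lit 6) (nat_lit 256) (nat_lit 0) (nat_lit 140) (nat_lit 132) (nat_lit 118))) (PT.nd (nat_lit 78) (PT.lf (nat_lit 18468) (nat_lit 6) (nat_lit 243) (nat_lit 0) (nat_lit 141) (nat_lit 132) (nat_lit 117)) (PT.lf (nat_lit 17404) (nat_lit 6) (nat_lit 229) (nat_lit 0) (nat_lit 142) (nat_lit 132) (nat_lit 116))))) (PT.nd (nat_lit 234) (PT.nd (nat_lit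 78) (PT.lf (nat_lit 16264) (nat_lit 6) (nat_lit 214) (nat_lit 0) (nat_lit 143) (nat_lit 132) (nat_lit 115)) (PT.nd (nat_lit 78) (PT.lf (nat_lit 15048) (nat_lit 6) (nat_lit 198) (nat_lit 0) (nat_lit 144) (nat_lit 132) (nat_lit 114)) (PT.lf (nat_lit 14212) (nat_lit 6) (nat_lit 187) (nat_lit 0) (nat_lit 145) (nat_lit 132) (nat_lit 113)))) (PT.nd (nat_lit 37908) (PT.nd (nat_lit 37830) (PT.lf (nat_lit 13528) (nat_lit 6) (nat_lit 178) (nat_lit 0) (nat_lit 146) (nat_lit 132) (nat_lit 112)) (PT.lf (nat_lit 12388) (nat_lit 6) (nat_lit 163) (nat_lit 5) (nat_lit 110) (nat_lit 133) (nat_lit 147))) (PT.nd (nat_lit 78) (PT.lf (nat_lit 12996) (nat_lit 6) (nat_lit 171) (nat_lit 5) (nat_lit 111) (nat_lit 133) (nat_lit 146)) (PT.lf (nat_lit 13604) (nat_lit 6) (nat_lit 179) (nat_lit 5) (nat_lit 112) (nat_lit 133) (nat_lit 145))))))) (PT.nd (nat_lit 1092) (PT.nd (nat_lit 546) (PT.nd (nat_lit 234) (PT.nd (nat_lit 78)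 (PT.lf (nat_lit 14288) (nat_lit 6) (nat_lit 188) (nat_lit 5) (nat_lit 113) (nat_lit 133) (nat_lit 144)) (PT.nd (nat_lit 78) (PT.lf (nat_lit 15124) (nat_lit 6) (nat_lit 199) (nat_lit 5) (nat_lit 114) (nat_lit 133) (nat_lit 143)) (PT.lf (nat_lit 16340) (nat_lit 6) (nat_lit 215) (nat_lit 5) (nat_lit 115) (nat_lit 133) (nat_lit 142)))) (PT.nd (nat_lit 156) (PT.nd (nat_lit 78) (PT.lf (nat_lit 17480) (nat_lit 6) (nat_lit 230) (nat_lit 5) (nat_lit 116) (nat_lit 133) (nat_lit 141)) (PT.lf (nat_lit 18544) (nat_lit 6) (nat_lit 244) (nat_lit 5) (nat_lit 117) (nat_lit 133) (nat_lit 140))) (PT.nd (nat_lit 78) (PT.lf (nat_lit 19532) (nat_lit 6) (nat_lit 257) (nat_lit 5) (nat_lit 118) (nat_lit 133) (nat_lit 139)) (PT.lf (nat_lit 20444) (nat_lit 6) (nat_lit 269) (nat_lit 5) (nat_lit 119) (nat_lit 133) (nat_lit 138))))) (PT.nd (nat_lit 234) (PT.nd (nat_lit 78) (PT.lf (nat_lit 21280) (nat_lit 6) (nat_lit 280) (nat_lit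 5) (nat_lit 120) (nat_lit 133) (nat_lit 137)) (PT.nd (nat_lit 78) (PT.lf (nat_lit 22040) (nat_lit 6) (nat_lit 290) (nat_lit 5) (nat_lit 121) (nat_lit 133) (nat_lit 136)) (PT.lf (nat_lit 22724) (nat_lit 6) (nat_lit 299) (nat_lit 5) (nat_lit 122) (nat_lit 133) (nat_lit 135)))) (PT.nd (nat_lit 156) (PT.nd (nat_lit 78) (PT.lf (nat_lit 23332) (nat_lit 6) (nat_lit 307) (nat_lit 5) (nat_lit 123) (nat_lit 133) (nat_lit 134)) (PT.lf (nat_lit 23864) (nat_lit 3) (nat_lit 314) (nat_lit 4) (nat_lit 124) (nat_lit 133) (nat_lit 133))) (PT.nd (nat_lit 78) (PT.lf (nat_lit 24244) (nat_lit 6) (nat_lit 319) (nat_lit 4) (nat_lit 125) (nat_lit 133) (nat_lit 132)) (PT.lf (nat_lit 24548) (nat_lit 6) (nat_lit 323) (nat_lit 4) (nat_lit 126) (nat_lit 133) (nat_lit 131)))))) (PT.nd (nat_lit 546) (PT.nd (nat_lit 234) (PT.nd (nat_lit 78) (PT.lf (nat_lit 24776) (nat_lit 6) (nat_lit 326) (nat_lit 4) (nat_lit 127) (nat_lit 133)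 (nat_lit 130)) (PT.nd (nat_lit 78) (PT.lf (nat_lit 24700) (nat_lit 6) (nat_lit 325) (nat_lit 4) (nat_lit 128) (nat_lit 133) (nat_lit 129)) (PT.lf (nat_lit 24700) (nat_lit 6) (nat_lit 325) (nat_lit 2) (nat_lit 129) (nat_lit 133) (nat_lit 128)))) (PT.nd (nat_lit 156) (PT.nd (nat_lit 78) (PT.lf (nat_lit 24776) (nat_lit 6) (nat_lit 326) (nat_lit 2) (nat_lit 130) (nat_lit 133) (nat_lit 127)) (PT.lf (nat_lit 24548) (nat_lit 6) (nat_lit 323) (nat_lit 2) (nat_lit 131) (nat_lit 133) (nat_lit 126))) (PT.nd (nat_lit 78) (PT.lf (nat_lit 24244) (nat_lit 6) (nat_lit 319) (nat_lit 2) (nat_lit 132) (nat_lit 133) (nat_lit 125)) (PT.lf (nat_lit 23864) (nat_lit 3) (nat_lit 314) (nat_lit 0) (nat_lit 133) (nat_lit 133) (nat_lit 124))))) (PT.nd (nat_lit 234) (PT.nd (nat_lit 78) (PT.lf (nat_lit 23332) (nat_lit 6) (nat_lit 307) (nat_lit 0) (nat_lit 134) (nat_lit 133) (nat_lit 123)) (PT.nd (nat_lit 78) (PT.lf (nat_lit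 22724) (nat_lit 6) (nat_lit 299) (nat_lit 0) (nat_lit 135) (nat_lit 133) (nat_lit 122)) (PT.lf (nat_lit 22040) (nat_lit 6) (nat_lit 290) (nat_lit 0) (nat_lit 136) (nat_lit 133) (nat_lit 121)))) (PT.nd (nat_lit 156) (PT.nd (nat_lit 78) (PT.lf (nat_lit 21280) (nat_lit 6) (nat_lit 280) (nat_lit 0) (nat_lit 137) (nat_lit 133) (nat_lit 120)) (PT.lf (nat_lit 20444) (nat_lit 6) (nat_lit 269) (nat_lit 0) (nat_lit 138) (nat_lit 133) (nat_lit 119))) (PT.nd (nat_lit 78) (PT.lf (nat_lit 19532) (nat_lit 6) (nat_lit 257) (nat_lit 0) (nat_lit 139) (nat_lit 133) (nat_lit 118)) (PT.lf (nat_lit 18544) (nat_lit 6) (nat_lit 244) (nat_lit 0) (nat_lit 140) (nat_lit 133) (nat_lit 117))))))))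
noncomputable def pc15 : PT := (PT.nd (nat_lit 39780) (PT.nd (nat_lit 38688) (PT.nd (nat_lit 38142) (PT.nd (nat_lit 234) (PT.nd (nat_lit 78) (PT.lf (nat_lit 17480) (nat_lit 6) (nat_lit 230) (nat_lit 0) (nat_lit 141) (nat_lit 133) (nat_lit 116)) (PT.nd (nat_lit 78) (PT.lf (nat_lit 16340) (nat_lit 6) (nat_lit 215) (nat_lit 0) (nat_lit 142) (nat_lit 133) (nat_lit 115)) (PT.lf (nat_lit 15124) (nat_lit 6) (nat_lit 199) (nat_lit 0) (nat_lit 143) (nat_lit 133) (nat_lit 114)))) (PT.nd (nat_lit 156) (PT.nd (nat_lit 78) (PT.lf (nat_lit 14288) (nat_lit 6) (nat_lit 188) (nat_lit 0) (nat_lit 144) (nat_lit 133) (nat_lit 113)) (PT.lf (nat_lit 13604) (nat_lit 6) (nat_lit 179) (nat_lit 0) (nat_lit 145) (nat_lit 133) (nat_lit 112))) (PT.nd (nat_lit 78) (PT.lf (nat_lit 12996) (nat_lit 6) (nat_lit 171) (nat_lit 0) (nat_lit 146) (nat_lit 133) (nat_lit 111)) (PT.lf (nat_lit 12388) (nat_lit 6) (nat_lit 163) (nat_lit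 0) (nat_lit 147) (nat_lit 133) (nat_lit 110))))) (PT.nd (nat_lit 234) (PT.nd (nat_lit 78) (PT.lf (nat_lit 11856) (nat_lit 6) (nat_lit 156) (nat_lit 5) (nat_lit 109) (nat_lit 134) (nat_lit 147)) (PT.nd (nat_lit 78) (PT.lf (nat_lit 12464) (nat_lit 6) (nat_lit 164) (nat_lit 5) (nat_lit 110) (nat_lit 134) (nat_lit 146)) (PT.lf (nat_lit 13072) (nat_lit 6) (nat_lit 172) (nat_lit 5) (nat_lit 111) (nat_lit 134) (nat_lit 145)))) (PT.nd (nat_lit 156) (PT.nd (nat_lit 78) (PT.lf (nat_lit 13680) (nat_lit 6) (nat_lit 180) (nat_lit 5) (nat_lit 112) (nat_lit 134) (nat_lit 144)) (PT.lf (nat_lit 14364) (nat_lit 6) (nat_lit 189) (nat_lit 5) (nat_lit 113) (nat_lit 134) (nat_lit 143))) (PT.nd (nat_lit 78) (PT.lf (nat_lit 15200) (nat_lit 6) (nat_lit 200) (nat_lit 5) (nat_lit 114) (nat_lit 134) (nat_lit 142)) (PT.lf (nat_lit 16416) (nat_lit 6) (nat_lit 216) (nat_lit 5) (nat_lit 115) (nat_lit 134) (nat_lit 141)))))) (PT.nd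 (nat_lit 546) (PT.nd (nat_lit 234) (PT.nd (nat_lit 78) (PT.lf (nat_lit 17556) (nat_lit 6) (nat_lit 231) (nat_lit 5) (nat_lit 116) (nat_lit 134) (nat_lit 140)) (PT.nd (nat_lit 78) (PT.lf (nat_lit 18620) (nat_lit 6) (nat_lit 245) (nat_lit 5) (nat_lit 117) (nat_lit 134) (nat_lit 139)) (PT.lf (nat_lit 19608) (nat_lit 6) (nat_lit 258) (nat_lit 5) (nat_lit 118) (nat_lit 134) (nat_lit 138)))) (PT.nd (nat_lit 156) (PT.nd (nat_lit 78) (PT.lf (nat_lit 20520) (nat_lit 6) (nat_lit 270) (nat_lit 5) (nat_lit 119) (nat_lit 134) (nat_lit 137)) (PT.lf (nat_lit 21356) (nat_lit 6) (nat_lit 281) (nat_lit 5) (nat_lit 120) (nat_lit 134) (nat_lit 136))) (PT.nd (nat_lit 78) (PT.lf (nat_lit 22116) (nat_lit 6) (nat_lit 291) (nat_lit 5) (nat_lit 121) (nat_lit 134) (nat_lit 135)) (PT.lf (nat_lit 22800) (nat_lit 3) (nat_lit 300) (nat_lit 4) (nat_lit 122) (nat_lit 134) (nat_lit 134))))) (PT.nd (nat_lit 234) (PT.nd (nat_lit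 78) (PT.lf (nat_lit 23332) (nat_lit 6) (nat_lit 307) (nat_lit 4) (nat_lit 123) (nat_lit 134) (nat_lit 133)) (PT.nd (nat_lit 78) (PT.lf (nat_lit 23788) (nat_lit 6) (nat_lit 313) (nat_lit 4) (nat_lit 124) (nat_lit 134) (nat_lit 132)) (PT.lf (nat_lit 24168) (nat_lit 6) (nat_lit 318) (nat_lit 4) (nat_lit 125) (nat_lit 134) (nat_lit 131)))) (PT.nd (nat_lit 156) (PT.nd (nat_lit 78) (PT.lf (nat_lit 24472) (nat_lit 6) (nat_lit 322) (nat_lit 4) (nat_lit 126) (nat_lit 134) (nat_lit 130)) (PT.lf (nat_lit 24396) (nat_lit 6) (nat_lit 321) (nat_lit 4) (nat_lit 127) (nat_lit 134) (nat_lit 129))) (PT.nd (nat_lit 78) (PT.lf (nat_lit 24320) (nat_lit 3) (nat_lit 320) (nat_lit 2) (nat_lit 128) (nat_lit 134) (nat_lit 128)) (PT.lf (nat_lit 24396) (nat_lit 6) (nat_lit 321) (nat_lit 2) (nat_lit 129) (nat_lit 134) (nat_lit 127))))))) (PT.nd (nat_lit 1092) (PT.nd (nat_lit 546) (PT.nd (nat_lit 234) (PT.nd (nat_lit 78) (PT.lf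 (nat_lit 24472) (nat_lit 6) (nat_lit 322) (nat_lit 2) (nat_lit 130) (nat_lit 134) (nat_lit 126)) (PT.nd (nat_lit 78) (PT.lf (nat_lit 24168) (nat_lit 6) (nat_lit 318) (nat_lit 2) (nat_lit 131) (nat_lit 134) (nat_lit 125)) (PT.lf (nat_lit 23788) (nat_lit 6) (nat_lit 313) (nat_lit 2) (nat_lit 132) (nat_lit 134) (nat_lit 124)))) (PT.nd (nat_lit 156) (PT.nd (nat_lit 78) (PT.lf (nat_lit 23332) (nat_lit 6) (nat_lit 307) (nat_lit 2) (nat_lit 133) (nat_lit 134) (nat_lit 123)) (PT.lf (nat_lit 22800) (nat_lit 3) (nat_lit 300) (nat_lit 0) (nat_lit 134) (nat_lit 134) (nat_lit 122))) (PT.nd (nat_lit 78) (PT.lf (nat_lit 22116) (nat_lit 6) (nat_lit 291) (nat_lit 0) (nat_lit 135) (nat_lit 134) (nat_lit 121)) (PT.lf (nat_lit 21356) (nat_lit 6) (nat_lit 281) (nat_lit 0) (nat_lit 136) (nat_lit 134) (nat_lit 120))))) (PT.nd (nat_lit 234) (PT.nd (nat_lit 78) (PT.lf (nat_lit 20520) (nat_lit 6) (nat_lit 270) (nat_lit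 0) (nat_lit 137) (nat_lit 134) (nat_lit 119)) (PT.nd (nat_lit 78) (PT.lf (nat_lit 19608) (nat_lit 6) (nat_lit 258) (nat_lit 0) (nat_lit 138) (nat_lit 134) (nat_lit 118)) (PT.lf (nat_lit 18620) (nat_lit 6) (nat_lit 245) (nat_lit 0) (nat_lit 139) (nat_lit 134) (nat_lit 117)))) (PT.nd (nat_lit 156) (PT.nd (nat_lit 78) (PT.lf (nat_lit 17556) (nat_lit 6) (nat_lit 231) (nat_lit 0) (nat_lit 140) (nat_lit 134) (nat_lit 116)) (PT.lf (nat_lit 16416) (nat_lit 6) (nat_lit 216) (nat_lit 0) (nat_lit 141) (nat_lit 134) (nat_lit 115))) (PT.nd (nat_lit 78) (PT.lf (nat_lit 15200) (nat_lit 6) (nat_lit 200) (nat_lit 0) (nat_lit 142) (nat_lit 134) (nat_lit 114)) (PT.lf (nat_lit 14364) (nat_lit 6) (nat_lit 189) (nat_lit 0) (nat_lit 143) (nat_lit 134) (nat_lit 113)))))) (PT.nd (nat_lit 38064) (PT.nd (nat_lit 234) (PT.nd (nat_lit 78) (PT.lf (nat_lit 13680) (nat_lit 6) (nat_lit 180) (nat_lit 0) (nat_lit 144) (nat_lit 134)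 (nat_lit 112)) (PT.nd (nat_lit 78) (PT.lf (nat_lit 13072) (nat_lit 6) (nat_lit 172) (nat_lit 0) (nat_lit 145) (nat_lit 134) (nat_lit 111)) (PT.lf (nat_lit 12464) (nat_lit 6) (nat_lit 164) (nat_lit 0) (nat_lit 146) (nat_lit 134) (nat_lit 110)))) (PT.nd (nat_lit 37674) (PT.nd (nat_lit 37596) (PT.lf (nat_lit 11856) (nat_lit 6) (nat_lit 156) (nat_lit 0) (nat_lit 147) (nat_lit 134) (nat_lit 109)) (PT.lf (nat_lit 11324) (nat_lit 6) (nat_lit 149) (nat_lit 5) (nat_lit 108) (nat_lit 135) (nat_lit 147))) (PT.nd (nat_lit 78) (PT.lf (nat_lit 11932) (nat_lit 6) (nat_lit 157) (nat_lit 5) (nat_lit 109) (nat_lit 135) (nat_lit 146)) (PT.lf (nat_lit 12540) (nat_lit 6) (nat_lit 165) (nat_lit 5) (nat_lit 110) (nat_lit 135) (nat_lit 145))))) (PT.nd (nat_lit 312) (PT.nd (nat_lit 156) (PT.nd (nat_lit 78) (PT.lf (nat_lit 13148) (nat_lit 6) (nat_lit 173) (nat_lit 5) (nat_lit 111) (nat_lit 135) (nat_lit 144)) (PT.lf (nat_lit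 13756) (nat_lit 6) (nat_lit 181) (nat_lit 5) (nat_lit 112) (nat_lit 135) (nat_lit 143))) (PT.nd (nat_lit 78) (PT.lf (nat_lit 14440) (nat_lit 6) (nat_lit 190) (nat_lit 5) (nat_lit 113) (nat_lit 135) (nat_lit 142)) (PT.lf (nat_lit 15276) (nat_lit 6) (nat_lit 201) (nat_lit 5) (nat_lit 114) (nat_lit 135) (nat_lit 141)))) (PT.nd (nat_lit 156) (PT.nd (nat_lit 78) (PT.lf (nat_lit 16492) (nat_lit 6) (nat_lit 217) (nat_lit 5) (nat_lit 115) (nat_lit 135) (nat_lit 140)) (PT.lf (nat_lit 17632) (nat_lit 6) (nat_lit 232) (nat_lit 5) (nat_lit 116) (nat_lit 135) (nat_lit 139))) (PT.nd (nat_lit 78) (PT.lf (nat_lit 18696) (nat_lit 6) (nat_lit 246) (nat_lit 5) (nat_lit 117) (nat_lit 135) (nat_lit 138)) (PT.lf (nat_lit 19684) (nat_lit 6) (nat_lit 259) (nat_lit 5) (nat_lit 118) (nat_lit 135) (nat_lit 137))))))))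
noncomputable def pc16 : PT := (PT.nd (nat_lit 2184) (PT.nd (nat_lit 1092) (PT.nd (nat_lit 546) (PT.nd (nat_lit 234) (PT.nd (nat_lit 78) (PT.lf (nat_lit 20596) (nat_lit 6) (nat_lit 271) (nat_lit 5) (nat_lit 119) (nat_lit 135) (nat_lit 136)) (PT.nd (nat_lit 78) (PT.lf (nat_lit 21432) (nat_lit 3) (nat_lit 282) (nat_lit 4) (nat_lit 120) (nat_lit 135) (nat_lit 135)) (PT.lf (nat_lit 22116) (nat_lit 6) (nat_lit 291) (nat_lit 4) (nat_lit 121) (nat_lit 135) (nat_lit 134)))) (PT.nd (nat_lit 156) (PT.nd (nat_lit 78) (PT.lf (nat_lit 22724) (nat_lit 6) (nat_lit 299) (nat_lit 4) (nat_lit 122) (nat_lit 135) (nat_lit 133)) (PT.lf (nat_lit 23256) (nat_lit 6) (nat_lit 306) (nat_lit 4) (nat_lit 123) (nat_lit 135) (nat_lit 132))) (PT.nd (nat_lit 78) (PT.lf (nat_lit 23712) (nat_lit 6) (nat_lit 312) (nat_lit 4) (nat_lit 124) (nat_lit 135) (nat_lit 131)) (PT.lf (nat_lit 24092) (nat_lit 6) (nat_lit 317) (nat_lit 4) (nat_lit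 125) (nat_lit 135) (nat_lit 130))))) (PT.nd (nat_lit 234) (PT.nd (nat_lit 78) (PT.lf (nat_lit 24016) (nat_lit 6) (nat_lit 316) (nat_lit 4) (nat_lit 126) (nat_lit 135) (nat_lit 129)) (PT.nd (nat_lit 78) (PT.lf (nat_lit 23940) (nat_lit 6) (nat_lit 315) (nat_lit 4) (nat_lit 127) (nat_lit 135) (nat_lit 128)) (PT.lf (nat_lit 23940) (nat_lit 6) (nat_lit 315) (nat_lit 2) (nat_lit 128) (nat_lit 135) (nat_lit 127)))) (PT.nd (nat_lit 156) (PT.nd (nat_lit 78) (PT.lf (nat_lit 24016) (nat_lit 6) (nat_lit 316) (nat_lit 2) (nat_lit 129) (nat_lit 135) (nat_lit 126)) (PT.lf (nat_lit 24092) (nat_lit 6) (nat_lit 317) (nat_lit 2) (nat_lit 130) (nat_lit 135) (nat_lit 125))) (PT.nd (nat_lit 78) (PT.lf (nat_lit 23712) (nat_lit 6) (nat_lit 312) (nat_lit 2) (nat_lit 131) (nat_lit 135) (nat_lit 124)) (PT.lf (nat_lit 23256) (nat_lit 6) (nat_lit 306) (nat_lit 2) (nat_lit 132) (nat_lit 135) (nat_lit 123)))))) (PT.nd (nat_lit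 546) (PT.nd (nat_lit 234) (PT.nd (nat_lit 78) (PT.lf (nat_lit 22724) (nat_lit 6) (nat_lit 299) (nat_lit 2) (nat_lit 133) (nat_lit 135) (nat_lit 122)) (PT.nd (nat_lit 78) (PT.lf (nat_lit 22116) (nat_lit 6) (nat_lit 291) (nat_lit 2) (nat_lit 134) (nat_lit 135) (nat_lit 121)) (PT.lf (nat_lit 21432) (nat_lit 3) (nat_lit 282) (nat_lit 0) (nat_lit 135) (nat_lit 135) (nat_lit 120)))) (PT.nd (nat_lit 156) (PT.nd (nat_lit 78) (PT.lf (nat_lit 20596) (nat_lit 6) (nat_lit 271) (nat_lit 0) (nat_lit 136) (nat_lit 135) (nat_lit 119)) (PT.lf (nat_lit 19684) (nat_lit 6) (nat_lit 259) (nat_lit 0) (nat_lit 137) (nat_lit 135) (nat_lit 118))) (PT.nd (nat_lit 78) (PT.lf (nat_lit 18696) (nat_lit 6) (nat_lit 246) (nat_lit 0) (nat_lit 138) (nat_lit 135) (nat_lit 117)) (PT.lf (nat_lit 17632) (nat_lit 6) (nat_lit 232) (nat_lit 0) (nat_lit 139) (nat_lit 135) (nat_lit 116))))) (PT.nd (nat_lit 234) (PT.nd (nat_lit 78) (PT.lf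 (nat_lit 16492) (nat_lit 6) (nat_lit 217) (nat_lit 0) (nat_lit 140) (nat_lit 135) (nat_lit 115)) (PT.nd (nat_lit 78) (PT.lf (nat_lit 15276) (nat_lit 6) (nat_lit 201) (nat_lit 0) (nat_lit 141) (nat_lit 135) (nat_lit 114)) (PT.lf (nat_lit 14440) (nat_lit 6) (nat_lit 190) (nat_lit 0) (nat_lit 142) (nat_lit 135) (nat_lit 113)))) (PT.nd (nat_lit 156) (PT.nd (nat_lit 78) (PT.lf (nat_lit 13756) (nat_lit 6) (nat_lit 181) (nat_lit 0) (nat_lit 143) (nat_lit 135) (nat_lit 112)) (PT.lf (nat_lit 13148) (nat_lit 6) (nat_lit 173) (nat_lit 0) (nat_lit 144) (nat_lit 135) (nat_lit 111))) (PT.nd (nat_lit 78) (PT.lf (nat_lit 12540) (nat_lit 6) (nat_lit 165) (nat_lit 0) (nat_lit 145) (nat_lit 135) (nat_lit 110)) (PT.lf (nat_lit 11932) (nat_lit 6) (nat_lit 157) (nat_lit 0) (nat_lit 146) (nat_lit 135) (nat_lit 109))))))) (PT.nd (nat_lit 38532) (PT.nd (nat_lit 37986) (PT.nd (nat_lit 37674) (PT.nd (nat_lit 37518) (PT.lf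 (nat_lit 11324) (nat_lit 6) (nat_lit 149) (nat_lit 0) (nat_lit 147) (nat_lit 135) (nat_lit 108)) (PT.nd (nat_lit 78) (PT.lf (nat_lit 10868) (nat_lit 6) (nat_lit 143) (nat_lit 5) (nat_lit 107) (nat_lit 136) (nat_lit 147)) (PT.lf (nat_lit 11400) (nat_lit 6) (nat_lit 150) (nat_lit 5) (nat_lit 108) (nat_lit 136) (nat_lit 146)))) (PT.nd (nat_lit 156) (PT.nd (nat_lit 78) (PT.lf (nat_lit 12008) (nat_lit 6) (nat_lit 158) (nat_lit 5) (nat_lit 109) (nat_lit 136) (nat_lit 145)) (PT.lf (nat_lit 12616) (nat_lit 6) (nat_lit 166) (nat_lit 5) (nat_lit 110) (nat_lit 136) (nat_lit 144))) (PT.nd (nat_lit 78) (PT.lf (nat_lit 13224) (nat_lit 6) (nat_lit 174) (nat_lit 5) (nat_lit 111) (nat_lit 136) (nat_lit 143)) (PT.lf (nat_lit 13832) (nat_lit 6) (nat_lit 182) (nat_lit 5) (nat_lit 112) (nat_lit 136) (nat_lit 142))))) (PT.nd (nat_lit 234) (PT.nd (nat_lit 78) (PT.lf (nat_lit 14516) (nat_lit 6) (nat_lit 191) (nat_lit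 5) (nat_lit 113) (nat_lit 136) (nat_lit 141)) (PT.nd (nat_lit 78) (PT.lf (nat_lit 15352) (nat_lit 6) (nat_lit 202) (nat_lit 5) (nat_lit 114) (nat_lit 136) (nat_lit 140)) (PT.lf (nat_lit 16568) (nat_lit 6) (nat_lit 218) (nat_lit 5) (nat_lit 115) (nat_lit 136) (nat_lit 139)))) (PT.nd (nat_lit 156) (PT.nd (nat_lit 78) (PT.lf (nat_lit 17708) (nat_lit 6) (nat_lit 233) (nat_lit 5) (nat_lit 116) (nat_lit 136) (nat_lit 138)) (PT.lf (nat_lit 18772) (nat_lit 6) (nat_lit 247) (nat_lit 5) (nat_lit 117) (nat_lit 136) (nat_lit 137))) (PT.nd (nat_lit 78) (PT.lf (nat_lit 19760) (nat_lit 3) (nat_lit 260) (nat_lit 4) (nat_lit 118) (nat_lit 136) (nat_lit 136)) (PT.lf (nat_lit 20596) (nat_lit 6) (nat_lit 271) (nat_lit 4) (nat_lit 119) (nat_lit 136) (nat_lit 135)))))) (PT.nd (nat_lit 546) (PT.nd (nat_lit 234) (PT.nd (nat_lit 78) (PT.lf (nat_lit 21356) (nat_lit 6) (nat_lit 281) (nat_lit 4) (nat_lit 120) (nat_lit 136)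 (nat_lit 134)) (PT.nd (nat_lit 78) (PT.lf (nat_lit 22040) (nat_lit 6) (nat_lit 290) (nat_lit 4) (nat_lit 121) (nat_lit 136) (nat_lit 133)) (PT.lf (nat_lit 22648) (nat_lit 6) (nat_lit 298) (nat_lit 4) (nat_lit 122) (nat_lit 136) (nat_lit 132)))) (PT.nd (nat_lit 156) (PT.nd (nat_lit 78) (PT.lf (nat_lit 23180) (nat_lit 6) (nat_lit 305) (nat_lit 4) (nat_lit 123) (nat_lit 136) (nat_lit 131)) (PT.lf (nat_lit 23636) (nat_lit 6) (nat_lit 311) (nat_lit 4) (nat_lit 124) (nat_lit 136) (nat_lit 130))) (PT.nd (nat_lit 78) (PT.lf (nat_lit 23560) (nat_lit 6) (nat_lit 310) (nat_lit 4) (nat_lit 125) (nat_lit 136) (nat_lit 129)) (PT.lf (nat_lit 23484) (nat_lit 6) (nat_lit 309) (nat_lit 4) (nat_lit 126) (nat_lit 136) (nat_lit 128))))) (PT.nd (nat_lit 234) (PT.nd (nat_lit 78) (PT.lf (nat_lit 23408) (nat_lit 3) (nat_lit 308) (nat_lit 2) (nat_lit 127) (nat_lit 136) (nat_lit 127)) (PT.nd (nat_lit 78) (PT.lf (nat_lit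 23484) (nat_lit 6) (nat_lit 309) (nat_lit 2) (nat_lit 128) (nat_lit 136) (nat_lit 126)) (PT.lf (nat_lit 23560) (nat_lit 6) (nat_lit 310) (nat_lit 2) (nat_lit 129) (nat_lit 136) (nat_lit 125)))) (PT.nd (nat_lit 156) (PT.nd (nat_lit 78) (PT.lf (nat_lit 23636) (nat_lit 6) (nat_lit 311) (nat_lit 2) (nat_lit 130) (nat_lit 136) (nat_lit 124)) (PT.lf (nat_lit 23180) (nat_lit 6) (nat_lit 305) (nat_lit 2) (nat_lit 131) (nat_lit 136) (nat_lit 123))) (PT.nd (nat_lit 78) (PT.lf (nat_lit 22648) (nat_lit 6) (nat_lit 298) (nat_lit 2) (nat_lit 132) (nat_lit 136) (nat_lit 122)) (PT.lf (nat_lit 22040) (nat_lit 6) (nat_lit 290) (nat_lit 2) (nat_lit 133) (nat_lit 136) (nat_lit 121))))))))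
noncomputable def pc17 : PT := (PT.nd (nat_lit 39468) (PT.nd (nat_lit 38376) (PT.nd (nat_lit 546) (PT.nd (nat_lit 234) (PT.nd (nat_lit 78) (PT.lf (nat_lit 21356) (nat_lit 6) (nat_lit 281) (nat_lit 2) (nat_lit 134) (nat_lit 136) (nat_lit 120)) (PT.nd (nat_lit 78) (PT.lf (nat_lit 20596) (nat_lit 6) (nat_lit 271) (nat_lit 2) (nat_lit 135) (nat_lit 136) (nat_lit 119)) (PT.lf (nat_lit 19760) (nat_lit 3) (nat_lit 260) (nat_lit 0) (nat_lit 136) (nat_lit 136) (nat_lit 118)))) (PT.nd (nat_lit 156) (PT.nd (nat_lit 78) (PT.lf (nat_lit 18772) (nat_lit 6) (nat_lit 247) (nat_lit 0) (nat_lit 137) (nat_lit 136) (nat_lit 117)) (PT.lf (nat_lit 17708) (nat_lit 6) (nat_lit 233) (nat_lit 0) (nat_lit 138) (nat_lit 136) (nat_lit 116))) (PT.nd (nat_lit 78) (PT.lf (nat_lit 16568) (nat_lit 6) (nat_lit 218) (nat_lit 0) (nat_lit 139) (nat_lit 136) (nat_lit 115)) (PT.lf (nat_lit 15352) (nat_lit 6) (nat_lit 202) (nat_lit 0)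 (nat_lit 140) (nat_lit 136) (nat_lit 114))))) (PT.nd (nat_lit 234) (PT.nd (nat_lit 78) (PT.lf (nat_lit 14516) (nat_lit 6) (nat_lit 191) (nat_lit 0) (nat_lit 141) (nat_lit 136) (nat_lit 113)) (PT.nd (nat_lit 78) (PT.lf (nat_lit 13832) (nat_lit 6) (nat_lit 182) (nat_lit 0) (nat_lit 142) (nat_lit 136) (nat_lit 112)) (PT.lf (nat_lit 13224) (nat_lit 6) (nat_lit 174) (nat_lit 0) (nat_lit 143) (nat_lit 136) (nat_lit 111)))) (PT.nd (nat_lit 156) (PT.nd (nat_lit 78) (PT.lf (nat_lit 12616) (nat_lit 6) (nat_lit 166) (nat_lit 0) (nat_lit 144) (nat_lit 136) (nat_lit 110)) (PT.lf (nat_lit 12008) (nat_lit 6) (nat_lit 158) (nat_lit 0) (nat_lit 145) (nat_lit 136) (nat_lit 109))) (PT.nd (nat_lit 78) (PT.lf (nat_lit 11400) (nat_lit 6) (nat_lit 150) (nat_lit 0) (nat_lit 146) (nat_lit 136) (nat_lit 108)) (PT.lf (nat_lit 10868) (nat_lit 6) (nat_lit 143) (nat_lit 0) (nat_lit 147) (nat_lit 136) (nat_lit 107)))))) (PT.nd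 (nat_lit 546) (PT.nd (nat_lit 234) (PT.nd (nat_lit 78) (PT.lf (nat_lit 9956) (nat_lit 6) (nat_lit 131) (nat_lit 5) (nat_lit 105) (nat_lit 137) (nat_lit 148)) (PT.nd (nat_lit 78) (PT.lf (nat_lit 10412) (nat_lit 6) (nat_lit 137) (nat_lit 5) (nat_lit 106) (nat_lit 137) (nat_lit 147)) (PT.lf (nat_lit 10944) (nat_lit 6) (nat_lit 144) (nat_lit 5) (nat_lit 107) (nat_lit 137) (nat_lit 146)))) (PT.nd (nat_lit 156) (PT.nd (nat_lit 78) (PT.lf (nat_lit 11476) (nat_lit 6) (nat_lit 151) (nat_lit 5) (nat_lit 108) (nat_lit 137) (nat_lit 145)) (PT.lf (nat_lit 12084) (nat_lit 6) (nat_lit 159) (nat_lit 5) (nat_lit 109) (nat_lit 137) (nat_lit 144))) (PT.nd (nat_lit 78) (PT.lf (nat_lit 12692) (nat_lit 6) (nat_lit 167) (nat_lit 5) (nat_lit 110) (nat_lit 137) (nat_lit 143)) (PT.lf (nat_lit 13300) (nat_lit 6) (nat_lit 175) (nat_lit 5) (nat_lit 111) (nat_lit 137) (nat_lit 142))))) (PT.nd (nat_lit 234) (PT.nd (nat_lit 78)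 (PT.lf (nat_lit 13908) (nat_lit 6) (nat_lit 183) (nat_lit 5) (nat_lit 112) (nat_lit 137) (nat_lit 141)) (PT.nd (nat_lit 78) (PT.lf (nat_lit 14592) (nat_lit 6) (nat_lit 192) (nat_lit 5) (nat_lit 113) (nat_lit 137) (nat_lit 140)) (PT.lf (nat_lit 15428) (nat_lit 6) (nat_lit 203) (nat_lit 5) (nat_lit 114) (nat_lit 137) (nat_lit 139)))) (PT.nd (nat_lit 156) (PT.nd (nat_lit 78) (PT.lf (nat_lit 16644) (nat_lit 6) (nat_lit 219) (nat_lit 5) (nat_lit 115) (nat_lit 137) (nat_lit 138)) (PT.lf (nat_lit 17784) (nat_lit 3) (nat_lit 234) (nat_lit 4) (nat_lit 116) (nat_lit 137) (nat_lit 137))) (PT.nd (nat_lit 78) (PT.lf (nat_lit 18772) (nat_lit 6) (nat_lit 247) (nat_lit 4) (nat_lit 117) (nat_lit 137) (nat_lit 136)) (PT.lf (nat_lit 19684) (nat_lit 6) (nat_lit 259) (nat_lit 4) (nat_lit 118) (nat_lit 137) (nat_lit 135))))))) (PT.nd (nat_lit 1092) (PT.nd (nat_lit 546) (PT.nd (nat_lit 234) (PT.nd (nat_lit 78) (PT.lf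 (nat_lit 20520) (nat_lit 6) (nat_lit 270) (nat_lit 4) (nat_lit 119) (nat_lit 137) (nat_lit 134)) (PT.nd (nat_lit 78) (PT.lf (nat_lit 21280) (nat_lit 6) (nat_lit 280) (nat_lit 4) (nat_lit 120) (nat_lit 137) (nat_lit 133)) (PT.lf (nat_lit 21964) (nat_lit 6) (nat_lit 289) (nat_lit 4) (nat_lit 121) (nat_lit 137) (nat_lit 132)))) (PT.nd (nat_lit 156) (PT.nd (nat_lit 78) (PT.lf (nat_lit 22572) (nat_lit 6) (nat_lit 297) (nat_lit 4) (nat_lit 122) (nat_lit 137) (nat_lit 131)) (PT.lf (nat_lit 23104) (nat_lit 6) (nat_lit 304) (nat_lit 4) (nat_lit 123) (nat_lit 137) (nat_lit 130))) (PT.nd (nat_lit 78) (PT.lf (nat_lit 23028) (nat_lit 6) (nat_lit 303) (nat_lit 4) (nat_lit 124) (nat_lit 137) (nat_lit 129)) (PT.lf (nat_lit 22952) (nat_lit 6) (nat_lit 302) (nat_lit 4) (nat_lit 125) (nat_lit 137) (nat_lit 128))))) (PT.nd (nat_lit 234) (PT.nd (nat_lit 78) (PT.lf (nat_lit 22876) (nat_lit 6) (nat_lit 301) (nat_lit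 4) (nat_lit 126) (nat_lit 137) (nat_lit 127)) (PT.nd (nat_lit 78) (PT.lf (nat_lit 22876) (nat_lit 6) (nat_lit 301) (nat_lit 2) (nat_lit 127) (nat_lit 137) (nat_lit 126)) (PT.lf (nat_lit 22952) (nat_lit 6) (nat_lit 302) (nat_lit 2) (nat_lit 128) (nat_lit 137) (nat_lit 125)))) (PT.nd (nat_lit 156) (PT.nd (nat_lit 78) (PT.lf (nat_lit 23028) (nat_lit 6) (nat_lit 303) (nat_lit 2) (nat_lit 129) (nat_lit 137) (nat_lit 124)) (PT.lf (nat_lit 23104) (nat_lit 6) (nat_lit 304) (nat_lit 2) (nat_lit 130) (nat_lit 137) (nat_lit 123))) (PT.nd (nat_lit 78) (PT.lf (nat_lit 22572) (nat_lit 6) (nat_lit 297) (nat_lit 2) (nat_lit 131) (nat_lit 137) (nat_lit 122)) (PT.lf (nat_lit 21964) (nat_lit 6) (nat_lit 289) (nat_lit 2) (nat_lit 132) (nat_lit 137) (nat_lit 121)))))) (PT.nd (nat_lit 546) (PT.nd (nat_lit 234) (PT.nd (nat_lit 78) (PT.lf (nat_lit 21280) (nat_lit 6) (nat_lit 280) (nat_lit 2) (nat_lit 133) (nat_lit 137)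 (nat_lit 120)) (PT.nd (nat_lit 78) (PT.lf (nat_lit 20520) (nat_lit 6) (nat_lit 270) (nat_lit 2) (nat_lit 134) (nat_lit 137) (nat_lit 119)) (PT.lf (nat_lit 19684) (nat_lit 6) (nat_lit 259) (nat_lit 2) (nat_lit 135) (nat_lit 137) (nat_lit 118)))) (PT.nd (nat_lit 156) (PT.nd (nat_lit 78) (PT.lf (nat_lit 18772) (nat_lit 6) (nat_lit 247) (nat_lit 2) (nat_lit 136) (nat_lit 137) (nat_lit 117)) (PT.lf (nat_lit 17784) (nat_lit 3) (nat_lit 234) (nat_lit 0) (nat_lit 137) (nat_lit 137) (nat_lit 116))) (PT.nd (nat_lit 78) (PT.lf (nat_lit 16644) (nat_lit 6) (nat_lit 219) (nat_lit 0) (nat_lit 138) (nat_lit 137) (nat_lit 115)) (PT.lf (nat_lit 15428) (nat_lit 6) (nat_lit 203) (nat_lit 0) (nat_lit 139) (nat_lit 137) (nat_lit 114))))) (PT.nd (nat_lit 234) (PT.nd (nat_lit 78) (PT.lf (nat_lit 14592) (nat_lit 6) (nat_lit 192) (nat_lit 0) (nat_lit 140) (nat_lit 137) (nat_lit 113)) (PT.nd (nat_lit 78) (PT.lf (nat_lit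 13908) (nat_lit 6) (nat_lit 183) (nat_lit 0) (nat_lit 141) (nat_lit 137) (nat_lit 112)) (PT.lf (nat_lit 13300) (nat_lit 6) (nat_lit 175) (nat_lit 0) (nat_lit 142) (nat_lit 137) (nat_lit 111)))) (PT.nd (nat_lit 156) (PT.nd (nat_lit 78) (PT.lf (nat_lit 12692) (nat_lit 6) (nat_lit 167) (nat_lit 0) (nat_lit 143) (nat_lit 137) (nat_lit 110)) (PT.lf (nat_lit 12084) (nat_lit 6) (nat_lit 159) (nat_lit 0) (nat_lit 144) (nat_lit 137) (nat_lit 109))) (PT.nd (nat_lit 78) (PT.lf (nat_lit 11476) (nat_lit 6) (nat_lit 151) (nat_lit 0) (nat_lit 145) (nat_lit 137) (nat_lit 108)) (PT.lf (nat_lit 10944) (nat_lit 6) (nat_lit 144) (nat_lit 0) (nat_lit 146) (nat_lit 137) (nat_lit 107))))))))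
noncomputable def pc18 : PT := (PT.nd (nat_lit 39312) (PT.nd (nat_lit 38220) (PT.nd (nat_lit 37674) (PT.nd (nat_lit 37362) (PT.nd (nat_lit 78) (PT.lf (nat_lit 10412) (nat_lit 6) (nat_lit 137) (nat_lit 0) (nat_lit 147) (nat_lit 137) (nat_lit 106)) (PT.nd (nat_lit 37206) (PT.lf (nat_lit 9956) (nat_lit 6) (nat_lit 131) (nat_lit 0) (nat_lit 148) (nat_lit 137) (nat_lit 105)) (PT.lf (nat_lit 9500) (nat_lit 6) (nat_lit 125) (nat_lit 5) (nat_lit 104) (nat_lit 138) (nat_lit 148)))) (PT.nd (nat_lit 156) (PT.nd (nat_lit 78) (PT.lf (nat_lit 10032) (nat_lit 6) (nat_lit 132) (nat_lit 5) (nat_lit 105) (nat_lit 138) (nat_lit 147)) (PT.lf (nat_lit 10488) (nat_lit 6) (nat_lit 138) (nat_lit 5) (nat_lit 106) (nat_lit 138) (nat_lit 146))) (PT.nd (nat_lit 78) (PT.lf (nat_lit 11020) (nat_lit 6) (nat_lit 145) (nat_lit 5) (nat_lit 107) (nat_lit 138) (nat_lit 145)) (PT.lf (nat_lit 11552) (nat_lit 6) (nat_lit 152) (nat_lit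 5) (nat_lit 108) (nat_lit 138) (nat_lit 144))))) (PT.nd (nat_lit 234) (PT.nd (nat_lit 78) (PT.lf (nat_lit 12160) (nat_lit 6) (nat_lit 160) (nat_lit 5) (nat_lit 109) (nat_lit 138) (nat_lit 143)) (PT.nd (nat_lit 78) (PT.lf (nat_lit 12768) (nat_lit 6) (nat_lit 168) (nat_lit 5) (nat_lit 110) (nat_lit 138) (nat_lit 142)) (PT.lf (nat_lit 13376) (nat_lit 6) (nat_lit 176) (nat_lit 5) (nat_lit 111) (nat_lit 138) (nat_lit 141)))) (PT.nd (nat_lit 156) (PT.nd (nat_lit 78) (PT.lf (nat_lit 13984) (nat_lit 6) (nat_lit 184) (nat_lit 5) (nat_lit 112) (nat_lit 138) (nat_lit 140)) (PT.lf (nat_lit 14668) (nat_lit 6) (nat_lit 193) (nat_lit 5) (nat_lit 113) (nat_lit 138) (nat_lit 139))) (PT.nd (nat_lit 78) (PT.lf (nat_lit 15504) (nat_lit 3) (nat_lit 204) (nat_lit 4) (nat_lit 114) (nat_lit 138) (nat_lit 138)) (PT.lf (nat_lit 16644) (nat_lit 6) (nat_lit 219) (nat_lit 4) (nat_lit 115) (nat_lit 138) (nat_lit 137)))))) (PT.nd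 (nat_lit 546) (PT.nd (nat_lit 234) (PT.nd (nat_lit 78) (PT.lf (nat_lit 17708) (nat_lit 6) (nat_lit 233) (nat_lit 4) (nat_lit 116) (nat_lit 138) (nat_lit 136)) (PT.nd (nat_lit 78) (PT.lf (nat_lit 18696) (nat_lit 6) (nat_lit 246) (nat_lit 4) (nat_lit 117) (nat_lit 138) (nat_lit 135)) (PT.lf (nat_lit 19608) (nat_lit 6) (nat_lit 258) (nat_lit 4) (nat_lit 118) (nat_lit 138) (nat_lit 134)))) (PT.nd (nat_lit 156) (PT.nd (nat_lit 78) (PT.lf (nat_lit 20444) (nat_lit 6) (nat_lit 269) (nat_lit 4) (nat_lit 119) (nat_lit 138) (nat_lit 133)) (PT.lf (nat_lit 21204) (nat_lit 6) (nat_lit 279) (nat_lit 4) (nat_lit 120) (nat_lit 138) (nat_lit 132))) (PT.nd (nat_lit 78) (PT.lf (nat_lit 21888) (nat_lit 6) (nat_lit 288) (nat_lit 4) (nat_lit 121) (nat_lit 138) (nat_lit 131)) (PT.lf (nat_lit 22496) (nat_lit 6) (nat_lit 296) (nat_lit 4) (nat_lit 122) (nat_lit 138) (nat_lit 130))))) (PT.nd (nat_lit 234) (PT.nd (nat_lit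 78) (PT.lf (nat_lit 22420) (nat_lit 6) (nat_lit 295) (nat_lit 4) (nat_lit 123) (nat_lit 138) (nat_lit 129)) (PT.nd (nat_lit 78) (PT.lf (nat_lit 22344) (nat_lit 6) (nat_lit 294) (nat_lit 4) (nat_lit 124) (nat_lit 138) (nat_lit 128)) (PT.lf (nat_lit 22268) (nat_lit 6) (nat_lit 293) (nat_lit 4) (nat_lit 125) (nat_lit 138) (nat_lit 127)))) (PT.nd (nat_lit 156) (PT.nd (nat_lit 78) (PT.lf (nat_lit 22192) (nat_lit 3) (nat_lit 292) (nat_lit 2) (nat_lit 126) (nat_lit 138) (nat_lit 126)) (PT.lf (nat_lit 22268) (nat_lit 6) (nat_lit 293) (nat_lit 2) (nat_lit 127) (nat_lit 138) (nat_lit 125))) (PT.nd (nat_lit 78) (PT.lf (nat_lit 22344) (nat_lit 6) (nat_lit 294) (nat_lit 2) (nat_lit 128) (nat_lit 138) (nat_lit 124)) (PT.lf (nat_lit 22420) (nat_lit 6) (nat_lit 295) (nat_lit 2) (nat_lit 129) (nat_lit 138) (nat_lit 123))))))) (PT.nd (nat_lit 1092) (PT.nd (nat_lit 546) (PT.nd (nat_lit 234) (PT.nd (nat_lit 78) (PT.lf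 (nat_lit 22496) (nat_lit 6) (nat_lit 296) (nat_lit 2) (nat_lit 130) (nat_lit 138) (nat_lit 122)) (PT.nd (nat_lit 78) (PT.lf (nat_lit 21888) (nat_lit 6) (nat_lit 288) (nat_lit 2) (nat_lit 131) (nat_lit 138) (nat_lit 121)) (PT.lf (nat_lit 21204) (nat_lit 6) (nat_lit 279) (nat_lit 2) (nat_lit 132) (nat_lit 138) (nat_lit 120)))) (PT.nd (nat_lit 156) (PT.nd (nat_lit 78) (PT.lf (nat_lit 20444) (nat_lit 6) (nat_lit 269) (nat_lit 2) (nat_lit 133) (nat_lit 138) (nat_lit 119)) (PT.lf (nat_lit 19608) (nat_lit 6) (nat_lit 258) (nat_lit 2) (nat_lit 134) (nat_lit 138) (nat_lit 118))) (PT.nd (nat_lit 78) (PT.lf (nat_lit 18696) (nat_lit 6) (nat_lit 246) (nat_lit 2) (nat_lit 135) (nat_lit 138) (nat_lit 117)) (PT.lf (nat_lit 17708) (nat_lit 6) (nat_lit 233) (nat_lit 2) (nat_lit 136) (nat_lit 138) (nat_lit 116))))) (PT.nd (nat_lit 234) (PT.nd (nat_lit 78) (PT.lf (nat_lit 16644) (nat_lit 6) (nat_lit 219) (nat_lit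 2) (nat_lit 137) (nat_lit 138) (nat_lit 115)) (PT.nd (nat_lit 78) (PT.lf (nat_lit 15504) (nat_lit 3) (nat_lit 204) (nat_lit 0) (nat_lit 138) (nat_lit 138) (nat_lit 114)) (PT.lf (nat_lit 14668) (nat_lit 6) (nat_lit 193) (nat_lit 0) (nat_lit 139) (nat_lit 138) (nat_lit 113)))) (PT.nd (nat_lit 156) (PT.nd (nat_lit 78) (PT.lf (nat_lit 13984) (nat_lit 6) (nat_lit 184) (nat_lit 0) (nat_lit 140) (nat_lit 138) (nat_lit 112)) (PT.lf (nat_lit 13376) (nat_lit 6) (nat_lit 176) (nat_lit 0) (nat_lit 141) (nat_lit 138) (nat_lit 111))) (PT.nd (nat_lit 78) (PT.lf (nat_lit 12768) (nat_lit 6) (nat_lit 168) (nat_lit 0) (nat_lit 142) (nat_lit 138) (nat_lit 110)) (PT.lf (nat_lit 12160) (nat_lit 6) (nat_lit 160) (nat_lit 0) (nat_lit 143) (nat_lit 138) (nat_lit 109)))))) (PT.nd (nat_lit 37596) (PT.nd (nat_lit 234) (PT.nd (nat_lit 78) (PT.lf (nat_lit 11552) (nat_lit 6) (nat_lit 152) (nat_lit 0) (nat_lit 144) (nat_lit 138)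 (nat_lit 108)) (PT.nd (nat_lit 78) (PT.lf (nat_lit 11020) (nat_lit 6) (nat_lit 145) (nat_lit 0) (nat_lit 145) (nat_lit 138) (nat_lit 107)) (PT.lf (nat_lit 10488) (nat_lit 6) (nat_lit 138) (nat_lit 0) (nat_lit 146) (nat_lit 138) (nat_lit 106)))) (PT.nd (nat_lit 37206) (PT.nd (nat_lit 78) (PT.lf (nat_lit 10032) (nat_lit 6) (nat_lit 132) (nat_lit 0) (nat_lit 147) (nat_lit 138) (nat_lit 105)) (PT.lf (nat_lit 9500) (nat_lit 6) (nat_lit 125) (nat_lit 0) (nat_lit 148) (nat_lit 138) (nat_lit 104))) (PT.nd (nat_lit 78) (PT.lf (nat_lit 9120) (nat_lit 6) (nat_lit 120) (nat_lit 5) (nat_lit 103) (nat_lit 139) (nat_lit 148)) (PT.lf (nat_lit 9576) (nat_lit 6) (nat_lit 126) (nat_lit 5) (nat_lit 104) (nat_lit 139) (nat_lit 147))))) (PT.nd (nat_lit 234) (PT.nd (nat_lit 78) (PT.lf (nat_lit 10108) (nat_lit 6) (nat_lit 133) (nat_lit 5) (nat_lit 105) (nat_lit 139) (nat_lit 146)) (PT.nd (nat_lit 78) (PT.lf (nat_lit 10564)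 (nat_lit 6) (nat_lit 139) (nat_lit 5) (nat_lit 106) (nat_lit 139) (nat_lit 145)) (PT.lf (nat_lit 11096) (nat_lit 6) (nat_lit 146) (nat_lit 5) (nat_lit 107) (nat_lit 139) (nat_lit 144)))) (PT.nd (nat_lit 156) (PT.nd (nat_lit 78) (PT.lf (nat_lit 11628) (nat_lit 6) (nat_lit 153) (nat_lit 5) (nat_lit 108) (nat_lit 139) (nat_lit 143)) (PT.lf (nat_lit 12236) (nat_lit 6) (nat_lit 161) (nat_lit 5) (nat_lit 109) (nat_lit 139) (nat_lit 142))) (PT.nd (nat_lit 78) (PT.lf (nat_lit 12844) (nat_lit 6) (nat_lit 169) (nat_lit 5) (nat_lit 110) (nat_lit 139) (nat_lit 141)) (PT.lf (nat_lit 13452) (nat_lit 6) (nat_lit 177) (nat_lit 5) (nat_lit 111) (nat_lit 139) (nat_lit 140))))))))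
noncomputable def pc19 : PT := (PT.nd (nat_lit 2184) (PT.nd (nat_lit 1092) (PT.nd (nat_lit 546) (PT.nd (nat_lit 234) (PT.nd (nat_lit 78) (PT.lf (nat_lit 14060) (nat_lit 3) (nat_lit 185) (nat_lit 4) (nat_lit 112) (nat_lit 139) (nat_lit 139)) (PT.nd (nat_lit 78) (PT.lf (nat_lit 14668) (nat_lit 6) (nat_lit 193) (nat_lit 4) (nat_lit 113) (nat_lit 139) (nat_lit 138)) (PT.lf (nat_lit 15428) (nat_lit 6) (nat_lit 203) (nat_lit 4) (nat_lit 114) (nat_lit 139) (nat_lit 137)))) (PT.nd (nat_lit 156) (PT.nd (nat_lit 78) (PT.lf (nat_lit 16568) (nat_lit 6) (nat_lit 218) (nat_lit 4) (nat_lit 115) (nat_lit 139) (nat_lit 136)) (PT.lf (nat_lit 17632) (nat_lit 6) (nat_lit 232) (nat_lit 4) (nat_lit 116) (nat_lit 139) (nat_lit 135))) (PT.nd (nat_lit 78) (PT.lf (nat_lit 18620) (nat_lit 6) (nat_lit 245) (nat_lit 4) (nat_lit 117) (nat_lit 139) (nat_lit 134)) (PT.lf (nat_lit 19532) (nat_lit 6) (nat_lit 257) (nat_lit 4) (nat_lit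 118) (nat_lit 139) (nat_lit 133))))) (PT.nd (nat_lit 234) (PT.nd (nat_lit 78) (PT.lf (nat_lit 20368) (nat_lit 6) (nat_lit 268) (nat_lit 4) (nat_lit 119) (nat_lit 139) (nat_lit 132)) (PT.nd (nat_lit 78) (PT.lf (nat_lit 21128) (nat_lit 6) (nat_lit 278) (nat_lit 4) (nat_lit 120) (nat_lit 139) (nat_lit 131)) (PT.lf (nat_lit 21812) (nat_lit 6) (nat_lit 287) (nat_lit 4) (nat_lit 121) (nat_lit 139) (nat_lit 130)))) (PT.nd (nat_lit 156) (PT.nd (nat_lit 78) (PT.lf (nat_lit 21736) (nat_lit 6) (nat_lit 286) (nat_lit 4) (nat_lit 122) (nat_lit 139) (nat_lit 129)) (PT.lf (nat_lit 21660) (nat_lit 6) (nat_lit 285) (nat_lit 4) (nat_lit 123) (nat_lit 139) (nat_lit 128))) (PT.nd (nat_lit 78) (PT.lf (nat_lit 21584) (nat_lit 6) (nat_lit 284) (nat_lit 4) (nat_lit 124) (nat_lit 139) (nat_lit 127)) (PT.lf (nat_lit 21508) (nat_lit 6) (nat_lit 283) (nat_lit 4) (nat_lit 125) (nat_lit 139) (nat_lit 126)))))) (PT.nd (nat_lit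 546) (PT.nd (nat_lit 234) (PT.nd (nat_lit 78) (PT.lf (nat_lit 21508) (nat_lit 6) (nat_lit 283) (nat_lit 2) (nat_lit 126) (nat_lit 139) (nat_lit 125)) (PT.nd (nat_lit 78) (PT.lf (nat_lit 21584) (nat_lit 6) (nat_lit 284) (nat_lit 2) (nat_lit 127) (nat_lit 139) (nat_lit 124)) (PT.lf (nat_lit 21660) (nat_lit 6) (nat_lit 285) (nat_lit 2) (nat_lit 128) (nat_lit 139) (nat_lit 123)))) (PT.nd (nat_lit 156) (PT.nd (nat_lit 78) (PT.lf (nat_lit 21736) (nat_lit 6) (nat_lit 286) (nat_lit 2) (nat_lit 129) (nat_lit 139) (nat_lit 122)) (PT.lf (nat_lit 21812) (nat_lit 6) (nat_lit 287) (nat_lit 2) (nat_lit 130) (nat_lit 139) (nat_lit 121))) (PT.nd (nat_lit 78) (PT.lf (nat_lit 21128) (nat_lit 6) (nat_lit 278) (nat_lit 2) (nat_lit 131) (nat_lit 139) (nat_lit 120)) (PT.lf (nat_lit 20368) (nat_lit 6) (nat_lit 268) (nat_lit 2) (nat_lit 132) (nat_lit 139) (nat_lit 119))))) (PT.nd (nat_lit 234) (PT.nd (nat_lit 78) (PT.lf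 (nat_lit 19532) (nat_lit 6) (nat_lit 257) (nat_lit 2) (nat_lit 133) (nat_lit 139) (nat_lit 118)) (PT.nd (nat_lit 78) (PT.lf (nat_lit 18620) (nat_lit 6) (nat_lit 245) (nat_lit 2) (nat_lit 134) (nat_lit 139) (nat_lit 117)) (PT.lf (nat_lit 17632) (nat_lit 6) (nat_lit 232) (nat_lit 2) (nat_lit 135) (nat_lit 139) (nat_lit 116)))) (PT.nd (nat_lit 156) (PT.nd (nat_lit 78) (PT.lf (nat_lit 16568) (nat_lit 6) (nat_lit 218) (nat_lit 2) (nat_lit 136) (nat_lit 139) (nat_lit 115)) (PT.lf (nat_lit 15428) (nat_lit 6) (nat_lit 203) (nat_lit 2) (nat_lit 137) (nat_lit 139) (nat_lit 114))) (PT.nd (nat_lit 78) (PT.lf (nat_lit 14668) (nat_lit 6) (nat_lit 193) (nat_lit 2) (nat_lit 138) (nat_lit 139) (nat_lit 113)) (PT.lf (nat_lit 14060) (nat_lit 3) (nat_lit 185) (nat_lit 0) (nat_lit 139) (nat_lit 139) (nat_lit 112))))))) (PT.nd (nat_lit 37986) (PT.nd (nat_lit 546) (PT.nd (nat_lit 234) (PT.nd (nat_lit 78) (PT.lf (nat_lit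 13452) (nat_lit 6) (nat_lit 177) (nat_lit 0) (nat_lit 140) (nat_lit 139) (nat_lit 111)) (PT.nd (nat_lit 78) (PT.lf (nat_lit 12844) (nat_lit 6) (nat_lit 169) (nat_lit 0) (nat_lit 141) (nat_lit 139) (nat_lit 110)) (PT.lf (nat_lit 12236) (nat_lit 6) (nat_lit 161) (nat_lit 0) (nat_lit 142) (nat_lit 139) (nat_lit 109)))) (PT.nd (nat_lit 156) (PT.nd (nat_lit 78) (PT.lf (nat_lit 11628) (nat_lit 6) (nat_lit 153) (nat_lit 0) (nat_lit 143) (nat_lit 139) (nat_lit 108)) (PT.lf (nat_lit 11096) (nat_lit 6) (nat_lit 146) (nat_lit 0) (nat_lit 144) (nat_lit 139) (nat_lit 107))) (PT.nd (nat_lit 78) (PT.lf (nat_lit 10564) (nat_lit 6) (nat_lit 139) (nat_lit 0) (nat_lit 145) (nat_lit 139) (nat_lit 106)) (PT.lf (nat_lit 10108) (nat_lit 6) (nat_lit 133) (nat_lit 0) (nat_lit 146) (nat_lit 139) (nat_lit 105))))) (PT.nd (nat_lit 37128) (PT.nd (nat_lit 78) (PT.lf (nat_lit 9576) (nat_lit 6) (nat_lit 126) (nat_lit 0) (nat_lit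 147) (nat_lit 139) (nat_lit 104)) (PT.nd (nat_lit 36972) (PT.lf (nat_lit 9120) (nat_lit 6) (nat_lit 120) (nat_lit 0) (nat_lit 148) (nat_lit 139) (nat_lit 103)) (PT.lf (nat_lit 8284) (nat_lit 6) (nat_lit 109) (nat_lit 5) (nat_lit 101) (nat_lit 140) (nat_lit 149)))) (PT.nd (nat_lit 156) (PT.nd (nat_lit 78) (PT.lf (nat_lit 8740) (nat_lit 6) (nat_lit 115) (nat_lit 5) (nat_lit 102) (nat_lit 140) (nat_lit 148)) (PT.lf (nat_lit 9196) (nat_lit 6) (nat_lit 121) (nat_lit 5) (nat_lit 103) (nat_lit 140) (nat_lit 147))) (PT.nd (nat_lit 78) (PT.lf (nat_lit 9652) (nat_lit 6) (nat_lit 127) (nat_lit 5) (nat_lit 104) (nat_lit 140) (nat_lit 146)) (PT.lf (nat_lit 10184) (nat_lit 6) (nat_lit 134) (nat_lit 5) (nat_lit 105) (nat_lit 140) (nat_lit 145)))))) (PT.nd (nat_lit 546) (PT.nd (nat_lit 234) (PT.nd (nat_lit 78) (PT.lf (nat_lit 10640) (nat_lit 6) (nat_lit 140) (nat_lit 5) (nat_lit 106) (nat_lit 140) (nat_lit 144))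 (PT.nd (nat_lit 78) (PT.lf (nat_lit 11172) (nat_lit 6) (nat_lit 147) (nat_lit 5) (nat_lit 107) (nat_lit 140) (nat_lit 143)) (PT.lf (nat_lit 11704) (nat_lit 6) (nat_lit 154) (nat_lit 5) (nat_lit 108) (nat_lit 140) (nat_lit 142)))) (PT.nd (nat_lit 156) (PT.nd (nat_lit 78) (PT.lf (nat_lit 12312) (nat_lit 6) (nat_lit 162) (nat_lit 5) (nat_lit 109) (nat_lit 140) (nat_lit 141)) (PT.lf (nat_lit 12920) (nat_lit 3) (nat_lit 170) (nat_lit 4) (nat_lit 110) (nat_lit 140) (nat_lit 140))) (PT.nd (nat_lit 78) (PT.lf (nat_lit 13452) (nat_lit 6) (nat_lit 177) (nat_lit 4) (nat_lit 111) (nat_lit 140) (nat_lit 139)) (PT.lf (nat_lit 13984) (nat_lit 6) (nat_lit 184) (nat_lit 4) (nat_lit 112) (nat_lit 140) (nat_lit 138))))) (PT.nd (nat_lit 234) (PT.nd (nat_lit 78) (PT.lf (nat_lit 14592) (nat_lit 6) (nat_lit 192) (nat_lit 4) (nat_lit 113) (nat_lit 140) (nat_lit 137)) (PT.nd (nat_lit 78) (PT.lf (nat_lit 15352) (nat_lit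 6) (nat_lit 202) (nat_lit 4) (nat_lit 114) (nat_lit 140) (nat_lit 136)) (PT.lf (nat_lit 16492) (nat_lit 6) (nat_lit 217) (nat_lit 4) (nat_lit 115) (nat_lit 140) (nat_lit 135)))) (PT.nd (nat_lit 156) (PT.nd (nat_lit 78) (PT.lf (nat_lit 17556) (nat_lit 6) (nat_lit 231) (nat_lit 4) (nat_lit 116) (nat_lit 140) (nat_lit 134)) (PT.lf (nat_lit 18544) (nat_lit 6) (nat_lit 244) (nat_lit 4) (nat_lit 117) (nat_lit 140) (nat_lit 133))) (PT.nd (nat_lit 78) (PT.lf (nat_lit 19456) (nat_lit 6) (nat_lit 256) (nat_lit 4) (nat_lit 118) (nat_lit 140) (nat_lit 132)) (PT.lf (nat_lit 20292) (nat_lit 6) (nat_lit 267) (nat_lit 4) (nat_lit 119) (nat_lit 140) (nat_lit 131))))))))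
noncomputable def pc20 : PT := (PT.nd (nat_lit 2184) (PT.nd (nat_lit 1092) (PT.nd (nat_lit 546) (PT.nd (nat_lit 234) (PT.nd (nat_lit 78) (PT.lf (nat_lit 21052) (nat_lit 6) (nat_lit 277) (nat_lit 4) (nat_lit 120) (nat_lit 140) (nat_lit 130)) (PT.nd (nat_lit 78) (PT.lf (nat_lit 20976) (nat_lit 6) (nat_lit 276) (nat_lit 4) (nat_lit 121) (nat_lit 140) (nat_lit 129)) (PT.lf (nat_lit 20900) (nat_lit 6) (nat_lit 275) (nat_lit 4) (nat_lit 122) (nat_lit 140) (nat_lit 128)))) (PT.nd (nat_lit 156) (PT.nd (nat_lit 78) (PT.lf (nat_lit 20824) (nat_lit 6) (nat_lit 274) (nat_lit 4) (nat_lit 123) (nat_lit 140) (nat_lit 127)) (PT.lf (nat_lit 20748) (nat_lit 6) (nat_lit 273) (nat_lit 4) (nat_lit 124) (nat_lit 140) (nat_lit 126))) (PT.nd (nat_lit 78) (PT.lf (nat_lit 20672) (nat_lit 3) (nat_lit 272) (nat_lit 2) (nat_lit 125) (nat_lit 140) (nat_lit 125)) (PT.lf (nat_lit 20748) (nat_lit 6) (nat_lit 273) (nat_lit 2) (nat_lit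 126) (nat_lit 140) (nat_lit 124))))) (PT.nd (nat_lit 234) (PT.nd (nat_lit 78) (PT.lf (nat_lit 20824) (nat_lit 6) (nat_lit 274) (nat_lit 2) (nat_lit 127) (nat_lit 140) (nat_lit 123)) (PT.nd (nat_lit 78) (PT.lf (nat_lit 20900) (nat_lit 6) (nat_lit 275) (nat_lit 2) (nat_lit 128) (nat_lit 140) (nat_lit 122)) (PT.lf (nat_lit 20976) (nat_lit 6) (nat_lit 276) (nat_lit 2) (nat_lit 129) (nat_lit 140) (nat_lit 121)))) (PT.nd (nat_lit 156) (PT.nd (nat_lit 78) (PT.lf (nat_lit 21052) (nat_lit 6) (nat_lit 277) (nat_lit 2) (nat_lit 130) (nat_lit 140) (nat_lit 120)) (PT.lf (nat_lit 20292) (nat_lit 6) (nat_lit 267) (nat_lit 2) (nat_lit 131) (nat_lit 140) (nat_lit 119))) (PT.nd (nat_lit 78) (PT.lf (nat_lit 19456) (nat_lit 6) (nat_lit 256) (nat_lit 2) (nat_lit 132) (nat_lit 140) (nat_lit 118)) (PT.lf (nat_lit 18544) (nat_lit 6) (nat_lit 244) (nat_lit 2) (nat_lit 133) (nat_lit 140) (nat_lit 117)))))) (PT.nd (nat_lit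 546) (PT.nd (nat_lit 234) (PT.nd (nat_lit 78) (PT.lf (nat_lit 17556) (nat_lit 6) (nat_lit 231) (nat_lit 2) (nat_lit 134) (nat_lit 140) (nat_lit 116)) (PT.nd (nat_lit 78) (PT.lf (nat_lit 16492) (nat_lit 6) (nat_lit 217) (nat_lit 2) (nat_lit 135) (nat_lit 140) (nat_lit 115)) (PT.lf (nat_lit 15352) (nat_lit 6) (nat_lit 202) (nat_lit 2) (nat_lit 136) (nat_lit 140) (nat_lit 114)))) (PT.nd (nat_lit 156) (PT.nd (nat_lit 78) (PT.lf (nat_lit 14592) (nat_lit 6) (nat_lit 192) (nat_lit 2) (nat_lit 137) (nat_lit 140) (nat_lit 113)) (PT.lf (nat_lit 13984) (nat_lit 6) (nat_lit 184) (nat_lit 2) (nat_lit 138) (nat_lit 140) (nat_lit 112))) (PT.nd (nat_lit 78) (PT.lf (nat_lit 13452) (nat_lit 6) (nat_lit 177) (nat_lit 2) (nat_lit 139) (nat_lit 140) (nat_lit 111)) (PT.lf (nat_lit 12920) (nat_lit 3) (nat_lit 170) (nat_lit 0) (nat_lit 140) (nat_lit 140) (nat_lit 110))))) (PT.nd (nat_lit 234) (PT.nd (nat_lit 78) (PT.lf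 (nat_lit 12312) (nat_lit 6) (nat_lit 162) (nat_lit 0) (nat_lit 141) (nat_lit 140) (nat_lit 109)) (PT.nd (nat_lit 78) (PT.lf (nat_lit 11704) (nat_lit 6) (nat_lit 154) (nat_lit 0) (nat_lit 142) (nat_lit 140) (nat_lit 108)) (PT.lf (nat_lit 11172) (nat_lit 6) (nat_lit 147) (nat_lit 0) (nat_lit 143) (nat_lit 140) (nat_lit 107)))) (PT.nd (nat_lit 156) (PT.nd (nat_lit 78) (PT.lf (nat_lit 10640) (nat_lit 6) (nat_lit 140) (nat_lit 0) (nat_lit 144) (nat_lit 140) (nat_lit 106)) (PT.lf (nat_lit 10184) (nat_lit 6) (nat_lit 134) (nat_lit 0) (nat_lit 145) (nat_lit 140) (nat_lit 105))) (PT.nd (nat_lit 78) (PT.lf (nat_lit 9652) (nat_lit 6) (nat_lit 127) (nat_lit 0) (nat_lit 146) (nat_lit 140) (nat_lit 104)) (PT.lf (nat_lit 9196) (nat_lit 6) (nat_lit 121) (nat_lit 0) (nat_lit 147) (nat_lit 140) (nat_lit 103))))))) (PT.nd (nat_lit 37830) (PT.nd (nat_lit 37284) (PT.nd (nat_lit 36972) (PT.nd (nat_lit 78) (PT.lf (nat_lit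 8740) (nat_lit 6) (nat_lit 115) (nat_lit 0) (nat_lit 148) (nat_lit 140) (nat_lit 102)) (PT.nd (nat_lit 36816) (PT.lf (nat_lit 8284) (nat_lit 6) (nat_lit 109) (nat_lit 0) (nat_lit 149) (nat_lit 140) (nat_lit 101)) (PT.lf (nat_lit 7904) (nat_lit 6) (nat_lit 104) (nat_lit 5) (nat_lit 100) (nat_lit 141) (nat_lit 149)))) (PT.nd (nat_lit 156) (PT.nd (nat_lit 78) (PT.lf (nat_lit 8360) (nat_lit 6) (nat_lit 110) (nat_lit 5) (nat_lit 101) (nat_lit 141) (nat_lit 148)) (PT.lf (nat_lit 8816) (nat_lit 6) (nat_lit 116) (nat_lit 5) (nat_lit 102) (nat_lit 141) (nat_lit 147))) (PT.nd (nat_lit 78) (PT.lf (nat_lit 9272) (nat_lit 6) (nat_lit 122) (nat_lit 5) (nat_lit 103) (nat_lit 141) (nat_lit 146)) (PT.lf (nat_lit 9728) (nat_lit 6) (nat_lit 128) (nat_lit 5) (nat_lit 104) (nat_lit 141) (nat_lit 145))))) (PT.nd (nat_lit 234) (PT.nd (nat_lit 78) (PT.lf (nat_lit 10260) (nat_lit 6) (nat_lit 135) (nat_lit 5) (nat_lit 105)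 (nat_lit 141) (nat_lit 144)) (PT.nd (nat_lit 78) (PT.lf (nat_lit 10716) (nat_lit 6) (nat_lit 141) (nat_lit 5) (nat_lit 106) (nat_lit 141) (nat_lit 143)) (PT.lf (nat_lit 11248) (nat_lit 6) (nat_lit 148) (nat_lit 5) (nat_lit 107) (nat_lit 141) (nat_lit 142)))) (PT.nd (nat_lit 156) (PT.nd (nat_lit 78) (PT.lf (nat_lit 11780) (nat_lit 3) (nat_lit 155) (nat_lit 4) (nat_lit 108) (nat_lit 141) (nat_lit 141)) (PT.lf (nat_lit 12312) (nat_lit 6) (nat_lit 162) (nat_lit 4) (nat_lit 109) (nat_lit 141) (nat_lit 140))) (PT.nd (nat_lit 78) (PT.lf (nat_lit 12844) (nat_lit 6) (nat_lit 169) (nat_lit 4) (nat_lit 110) (nat_lit 141) (nat_lit 139)) (PT.lf (nat_lit 13376) (nat_lit 6) (nat_lit 176) (nat_lit 4) (nat_lit 111) (nat_lit 141) (nat_lit 138)))))) (PT.nd (nat_lit 546) (PT.nd (nat_lit 234) (PT.nd (nat_lit 78) (PT.lf (nat_lit 13908) (nat_lit 6) (nat_lit 183) (nat_lit 4) (nat_lit 112) (nat_lit 141) (nat_lit 137))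 (PT.nd (nat_lit 78) (PT.lf (nat_lit 14516) (nat_lit 6) (nat_lit 191) (nat_lit 4) (nat_lit 113) (nat_lit 141) (nat_lit 136)) (PT.lf (nat_lit 15276) (nat_lit 6) (nat_lit 201) (nat_lit 4) (nat_lit 114) (nat_lit 141) (nat_lit 135)))) (PT.nd (nat_lit 156) (PT.nd (nat_lit 78) (PT.lf (nat_lit 16416) (nat_lit 6) (nat_lit 216) (nat_lit 4) (nat_lit 115) (nat_lit 141) (nat_lit 134)) (PT.lf (nat_lit 17480) (nat_lit 6) (nat_lit 230) (nat_lit 4) (nat_lit 116) (nat_lit 141) (nat_lit 133))) (PT.nd (nat_lit 78) (PT.lf (nat_lit 18468) (nat_lit 6) (nat_lit 243) (nat_lit 4) (nat_lit 117) (nat_lit 141) (nat_lit 132)) (PT.lf (nat_lit 19380) (nat_lit 6) (nat_lit 255) (nat_lit 4) (nat_lit 118) (nat_lit 141) (nat_lit 131))))) (PT.nd (nat_lit 234) (PT.nd (nat_lit 78) (PT.lf (nat_lit 20216) (nat_lit 6) (nat_lit 266) (nat_lit 4) (nat_lit 119) (nat_lit 141) (nat_lit 130)) (PT.nd (nat_lit 78) (PT.lf (nat_lit 20140) (nat_lit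 6) (nat_lit 265) (nat_lit 4) (nat_lit 120) (nat_lit 141) (nat_lit 129)) (PT.lf (nat_lit 20064) (nat_lit 6) (nat_lit 264) (nat_lit 4) (nat_lit 121) (nat_lit 141) (nat_lit 128)))) (PT.nd (nat_lit 156) (PT.nd (nat_lit 78) (PT.lf (nat_lit 19988) (nat_lit 6) (nat_lit 263) (nat_lit 4) (nat_lit 122) (nat_lit 141) (nat_lit 127)) (PT.lf (nat_lit 19912) (nat_lit 6) (nat_lit 262) (nat_lit 4) (nat_lit 123) (nat_lit 141) (nat_lit 126))) (PT.nd (nat_lit 78) (PT.lf (nat_lit 19836) (nat_lit 6) (nat_lit 261) (nat_lit 4) (nat_lit 124) (nat_lit 141) (nat_lit 125)) (PT.lf (nat_lit 19836) (nat_lit 6) (nat_lit 261) (nat_lit 2) (nat_lit 125) (nat_lit 141) (nat_lit 124))))))))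
noncomputable def pc21 : PT := (PT.nd (nat_lit 38766) (PT.nd (nat_lit 1092) (PT.nd (nat_lit 546) (PT.nd (nat_lit 234) (PT.nd (nat_lit 78) (PT.lf (nat_lit 19912) (nat_lit 6) (nat_lit 262) (nat_lit 2) (nat_lit 126) (nat_lit 141) (nat_lit 123)) (PT.nd (nat_lit 78) (PT.lf (nat_lit 19988) (nat_lit 6) (nat_lit 263) (nat_lit 2) (nat_lit 127) (nat_lit 141) (nat_lit 122)) (PT.lf (nat_lit 20064) (nat_lit 6) (nat_lit 264) (nat_lit 2) (nat_lit 128) (nat_lit 141) (nat_lit 121)))) (PT.nd (nat_lit 156) (PT.nd (nat_lit 78) (PT.lf (nat_lit 20140) (nat_lit 6) (nat_lit 265) (nat_lit 2) (nat_lit 129) (nat_lit 141) (nat_lit 120)) (PT.lf (nat_lit 20216) (nat_lit 6) (nat_lit 266) (nat_lit 2) (nat_lit 130) (nat_lit 141) (nat_lit 119))) (PT.nd (nat_lit 78) (PT.lf (nat_lit 19380) (nat_lit 6) (nat_lit 255) (nat_lit 2) (nat_lit 131) (nat_lit 141) (nat_lit 118)) (PT.lf (nat_lit 18468) (nat_lit 6) (nat_lit 243) (nat_lit 2)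 (nat_lit 132) (nat_lit 141) (nat_lit 117))))) (PT.nd (nat_lit 234) (PT.nd (nat_lit 78) (PT.lf (nat_lit 17480) (nat_lit 6) (nat_lit 230) (nat_lit 2) (nat_lit 133) (nat_lit 141) (nat_lit 116)) (PT.nd (nat_lit 78) (PT.lf (nat_lit 16416) (nat_lit 6) (nat_lit 216) (nat_lit 2) (nat_lit 134) (nat_lit 141) (nat_lit 115)) (PT.lf (nat_lit 15276) (nat_lit 6) (nat_lit 201) (nat_lit 2) (nat_lit 135) (nat_lit 141) (nat_lit 114)))) (PT.nd (nat_lit 156) (PT.nd (nat_lit 78) (PT.lf (nat_lit 14516) (nat_lit 6) (nat_lit 191) (nat_lit 2) (nat_lit 136) (nat_lit 141) (nat_lit 113)) (PT.lf (nat_lit 13908) (nat_lit 6) (nat_lit 183) (nat_lit 2) (nat_lit 137) (nat_lit 141) (nat_lit 112))) (PT.nd (nat_lit 78) (PT.lf (nat_lit 13376) (nat_lit 6) (nat_lit 176) (nat_lit 2) (nat_lit 138) (nat_lit 141) (nat_lit 111)) (PT.lf (nat_lit 12844) (nat_lit 6) (nat_lit 169) (nat_lit 2) (nat_lit 139) (nat_lit 141) (nat_lit 110)))))) (PT.nd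 (nat_lit 546) (PT.nd (nat_lit 234) (PT.nd (nat_lit 78) (PT.lf (nat_lit 12312) (nat_lit 6) (nat_lit 162) (nat_lit 2) (nat_lit 140) (nat_lit 141) (nat_lit 109)) (PT.nd (nat_lit 78) (PT.lf (nat_lit 11780) (nat_lit 3) (nat_lit 155) (nat_lit 0) (nat_lit 141) (nat_lit 141) (nat_lit 108)) (PT.lf (nat_lit 11248) (nat_lit 6) (nat_lit 148) (nat_lit 0) (nat_lit 142) (nat_lit 141) (nat_lit 107)))) (PT.nd (nat_lit 156) (PT.nd (nat_lit 78) (PT.lf (nat_lit 10716) (nat_lit 6) (nat_lit 141) (nat_lit 0) (nat_lit 143) (nat_lit 141) (nat_lit 106)) (PT.lf (nat_lit 10260) (nat_lit 6) (nat_lit 135) (nat_lit 0) (nat_lit 144) (nat_lit 141) (nat_lit 105))) (PT.nd (nat_lit 78) (PT.lf (nat_lit 9728) (nat_lit 6) (nat_lit 128) (nat_lit 0) (nat_lit 145) (nat_lit 141) (nat_lit 104)) (PT.lf (nat_lit 9272) (nat_lit 6) (nat_lit 122) (nat_lit 0) (nat_lit 146) (nat_lit 141) (nat_lit 103))))) (PT.nd (nat_lit 36816) (PT.nd (nat_lit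 78) (PT.lf (nat_lit 8816) (nat_lit 6) (nat_lit 116) (nat_lit 0) (nat_lit 147) (nat_lit 141) (nat_lit 102)) (PT.nd (nat_lit 78) (PT.lf (nat_lit 8360) (nat_lit 6) (nat_lit 110) (nat_lit 0) (nat_lit 148) (nat_lit 141) (nat_lit 101)) (PT.lf (nat_lit 7904) (nat_lit 6) (nat_lit 104) (nat_lit 0) (nat_lit 149) (nat_lit 141) (nat_lit 100)))) (PT.nd (nat_lit 156) (PT.nd (nat_lit 78) (PT.lf (nat_lit 7220) (nat_lit 6) (nat_lit 95) (nat_lit 5) (nat_lit 98) (nat_lit 142) (nat_lit 150)) (PT.lf (nat_lit 7600) (nat_lit 6) (nat_lit 100) (nat_lit 5) (nat_lit 99) (nat_lit 142) (nat_lit 149))) (PT.nd (nat_lit 78) (PT.lf (nat_lit 7980) (nat_lit 6) (nat_lit 105) (nat_lit 5) (nat_lit 100) (nat_lit 142) (nat_lit 148)) (PT.lf (nat_lit 8436) (nat_lit 6) (nat_lit 111) (nat_lit 5) (nat_lit 101) (nat_lit 142) (nat_lit 147))))))) (PT.nd (nat_lit 1092) (PT.nd (nat_lit 546) (PT.nd (nat_lit 234) (PT.nd (nat_lit 78) (PT.lf (nat_lit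 8892) (nat_lit 6) (nat_lit 117) (nat_lit 5) (nat_lit 102) (nat_lit 142) (nat_lit 146)) (PT.nd (nat_lit 78) (PT.lf (nat_lit 9348) (nat_lit 6) (nat_lit 123) (nat_lit 5) (nat_lit 103) (nat_lit 142) (nat_lit 145)) (PT.lf (nat_lit 9804) (nat_lit 6) (nat_lit 129) (nat_lit 5) (nat_lit 104) (nat_lit 142) (nat_lit 144)))) (PT.nd (nat_lit 156) (PT.nd (nat_lit 78) (PT.lf (nat_lit 10336) (nat_lit 6) (nat_lit 136) (nat_lit 5) (nat_lit 105) (nat_lit 142) (nat_lit 143)) (PT.lf (nat_lit 10792) (nat_lit 3) (nat_lit 142) (nat_lit 4) (nat_lit 106) (nat_lit 142) (nat_lit 142))) (PT.nd (nat_lit 78) (PT.lf (nat_lit 11248) (nat_lit 6) (nat_lit 148) (nat_lit 4) (nat_lit 107) (nat_lit 142) (nat_lit 141)) (PT.lf (nat_lit 11704) (nat_lit 6) (nat_lit 154) (nat_lit 4) (nat_lit 108) (nat_lit 142) (nat_lit 140))))) (PT.nd (nat_lit 234) (PT.nd (nat_lit 78) (PT.lf (nat_lit 12236) (nat_lit 6) (nat_lit 161) (nat_lit 4) (nat_lit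 109) (nat_lit 142) (nat_lit 139)) (PT.nd (nat_lit 78) (PT.lf (nat_lit 12768) (nat_lit 6) (nat_lit 168) (nat_lit 4) (nat_lit 110) (nat_lit 142) (nat_lit 138)) (PT.lf (nat_lit 13300) (nat_lit 6) (nat_lit 175) (nat_lit 4) (nat_lit 111) (nat_lit 142) (nat_lit 137)))) (PT.nd (nat_lit 156) (PT.nd (nat_lit 78) (PT.lf (nat_lit 13832) (nat_lit 6) (nat_lit 182) (nat_lit 4) (nat_lit 112) (nat_lit 142) (nat_lit 136)) (PT.lf (nat_lit 14440) (nat_lit 6) (nat_lit 190) (nat_lit 4) (nat_lit 113) (nat_lit 142) (nat_lit 135))) (PT.nd (nat_lit 78) (PT.lf (nat_lit 15200) (nat_lit 6) (nat_lit 200) (nat_lit 4) (nat_lit 114) (nat_lit 142) (nat_lit 134)) (PT.lf (nat_lit 16340) (nat_lit 6) (nat_lit 215) (nat_lit 4) (nat_lit 115) (nat_lit 142) (nat_lit 133)))))) (PT.nd (nat_lit 546) (PT.nd (nat_lit 234) (PT.nd (nat_lit 78) (PT.lf (nat_lit 17404) (nat_lit 6) (nat_lit 229) (nat_lit 4) (nat_lit 116) (nat_lit 142) (nat_lit 132))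 (PT.nd (nat_lit 78) (PT.lf (nat_lit 18392) (nat_lit 6) (nat_lit 242) (nat_lit 4) (nat_lit 117) (nat_lit 142) (nat_lit 131)) (PT.lf (nat_lit 19304) (nat_lit 6) (nat_lit 254) (nat_lit 4) (nat_lit 118) (nat_lit 142) (nat_lit 130)))) (PT.nd (nat_lit 156) (PT.nd (nat_lit 78) (PT.lf (nat_lit 19228) (nat_lit 6) (nat_lit 253) (nat_lit 4) (nat_lit 119) (nat_lit 142) (nat_lit 129)) (PT.lf (nat_lit 19152) (nat_lit 6) (nat_lit 252) (nat_lit 4) (nat_lit 120) (nat_lit 142) (nat_lit 128))) (PT.nd (nat_lit 78) (PT.lf (nat_lit 19076) (nat_lit 6) (nat_lit 251) (nat_lit 4) (nat_lit 121) (nat_lit 142) (nat_lit 127)) (PT.lf (nat_lit 19000) (nat_lit 6) (nat_lit 250) (nat_lit 4) (nat_lit 122) (nat_lit 142) (nat_lit 126))))) (PT.nd (nat_lit 234) (PT.nd (nat_lit 78) (PT.lf (nat_lit 18924) (nat_lit 6) (nat_lit 249) (nat_lit 4) (nat_lit 123) (nat_lit 142) (nat_lit 125)) (PT.nd (nat_lit 78) (PT.lf (nat_lit 18848) (nat_lit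 3) (nat_lit 248) (nat_lit 2) (nat_lit 124) (nat_lit 142) (nat_lit 124)) (PT.lf (nat_lit 18924) (nat_lit 6) (nat_lit 249) (nat_lit 2) (nat_lit 125) (nat_lit 142) (nat_lit 123)))) (PT.nd (nat_lit 156) (PT.nd (nat_lit 78) (PT.lf (nat_lit 19000) (nat_lit 6) (nat_lit 250) (nat_lit 2) (nat_lit 126) (nat_lit 142) (nat_lit 122)) (PT.lf (nat_lit 19076) (nat_lit 6) (nat_lit 251) (nat_lit 2) (nat_lit 127) (nat_lit 142) (nat_lit 121))) (PT.nd (nat_lit 78) (PT.lf (nat_lit 19152) (nat_lit 6) (nat_lit 252) (nat_lit 2) (nat_lit 128) (nat_lit 142) (nat_lit 120)) (PT.lf (nat_lit 19228) (nat_lit 6) (nat_lit 253) (nat_lit 2) (nat_lit 129) (nat_lit 142) (nat_lit 119))))))))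
noncomputable def pc22 : PT := (PT.nd (nat_lit 38610) (PT.nd (nat_lit 1092) (PT.nd (nat_lit 546) (PT.nd (nat_lit 234) (PT.nd (nat_lit 78) (PT.lf (nat_lit 19304) (nat_lit 6) (nat_lit 254) (nat_lit 2) (nat_lit 130) (nat_lit 142) (nat_lit 118)) (PT.nd (nat_lit 78) (PT.lf (nat_lit 18392) (nat_lit 6) (nat_lit 242) (nat_lit 2) (nat_lit 131) (nat_lit 142) (nat_lit 117)) (PT.lf (nat_lit 17404) (nat_lit 6) (nat_lit 229) (nat_lit 2) (nat_lit 132) (nat_lit 142) (nat_lit 116)))) (PT.nd (nat_lit 156) (PT.nd (nat_lit 78) (PT.lf (nat_lit 16340) (nat_lit 6) (nat_lit 215) (nat_lit 2) (nat_lit 133) (nat_lit 142) (nat_lit 115)) (PT.lf (nat_lit 15200) (nat_lit 6) (nat_lit 200) (nat_lit 2) (nat_lit 134) (nat_lit 142) (nat_lit 114))) (PT.nd (nat_lit 78) (PT.lf (nat_lit 14440) (nat_lit 6) (nat_lit 190) (nat_lit 2) (nat_lit 135) (nat_lit 142) (nat_lit 113)) (PT.lf (nat_lit 13832) (nat_lit 6) (nat_lit 182) (nat_lit 2)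 (nat_lit 136) (nat_lit 142) (nat_lit 112))))) (PT.nd (nat_lit 234) (PT.nd (nat_lit 78) (PT.lf (nat_lit 13300) (nat_lit 6) (nat_lit 175) (nat_lit 2) (nat_lit 137) (nat_lit 142) (nat_lit 111)) (PT.nd (nat_lit 78) (PT.lf (nat_lit 12768) (nat_lit 6) (nat_lit 168) (nat_lit 2) (nat_lit 138) (nat_lit 142) (nat_lit 110)) (PT.lf (nat_lit 12236) (nat_lit 6) (nat_lit 161) (nat_lit 2) (nat_lit 139) (nat_lit 142) (nat_lit 109)))) (PT.nd (nat_lit 156) (PT.nd (nat_lit 78) (PT.lf (nat_lit 11704) (nat_lit 6) (nat_lit 154) (nat_lit 2) (nat_lit 140) (nat_lit 142) (nat_lit 108)) (PT.lf (nat_lit 11248) (nat_lit 6) (nat_lit 148) (nat_lit 2) (nat_lit 141) (nat_lit 142) (nat_lit 107))) (PT.nd (nat_lit 78) (PT.lf (nat_lit 10792) (nat_lit 3) (nat_lit 142) (nat_lit 0) (nat_lit 142) (nat_lit 142) (nat_lit 106)) (PT.lf (nat_lit 10336) (nat_lit 6) (nat_lit 136) (nat_lit 0) (nat_lit 143) (nat_lit 142) (nat_lit 105)))))) (PT.nd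 (nat_lit 36972) (PT.nd (nat_lit 234) (PT.nd (nat_lit 78) (PT.lf (nat_lit 9804) (nat_lit 6) (nat_lit 129) (nat_lit 0) (nat_lit 144) (nat_lit 142) (nat_lit 104)) (PT.nd (nat_lit 78) (PT.lf (nat_lit 9348) (nat_lit 6) (nat_lit 123) (nat_lit 0) (nat_lit 145) (nat_lit 142) (nat_lit 103)) (PT.lf (nat_lit 8892) (nat_lit 6) (nat_lit 117) (nat_lit 0) (nat_lit 146) (nat_lit 142) (nat_lit 102)))) (PT.nd (nat_lit 156) (PT.nd (nat_lit 78) (PT.lf (nat_lit 8436) (nat_lit 6) (nat_lit 111) (nat_lit 0) (nat_lit 147) (nat_lit 142) (nat_lit 101)) (PT.lf (nat_lit 7980) (nat_lit 6) (nat_lit 105) (nat_lit 0) (nat_lit 148) (nat_lit 142) (nat_lit 100))) (PT.nd (nat_lit 78) (PT.lf (nat_lit 7600) (nat_lit 6) (nat_lit 100) (nat_lit 0) (nat_lit 149) (nat_lit 142) (nat_lit 99)) (PT.lf (nat_lit 7220) (nat_lit 6) (nat_lit 95) (nat_lit 0) (nat_lit 150) (nat_lit 142) (nat_lit 98))))) (PT.nd (nat_lit 234) (PT.nd (nat_lit 78) (PT.lf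 (nat_lit 6916) (nat_lit 6) (nat_lit 91) (nat_lit 5) (nat_lit 97) (nat_lit 143) (nat_lit 150)) (PT.nd (nat_lit 78) (PT.lf (nat_lit 7296) (nat_lit 6) (nat_lit 96) (nat_lit 5) (nat_lit 98) (nat_lit 143) (nat_lit 149)) (PT.lf (nat_lit 7676) (nat_lit 6) (nat_lit 101) (nat_lit 5) (nat_lit 99) (nat_lit 143) (nat_lit 148)))) (PT.nd (nat_lit 156) (PT.nd (nat_lit 78) (PT.lf (nat_lit 8056) (nat_lit 6) (nat_lit 106) (nat_lit 5) (nat_lit 100) (nat_lit 143) (nat_lit 147)) (PT.lf (nat_lit 8512) (nat_lit 6) (nat_lit 112) (nat_lit 5) (nat_lit 101) (nat_lit 143) (nat_lit 146))) (PT.nd (nat_lit 78) (PT.lf (nat_lit 8968) (nat_lit 6) (nat_lit 118) (nat_lit 5) (nat_lit 102) (nat_lit 143) (nat_lit 145)) (PT.lf (nat_lit 9424) (nat_lit 6) (nat_lit 124) (nat_lit 5) (nat_lit 103) (nat_lit 143) (nat_lit 144))))))) (PT.nd (nat_lit 1092) (PT.nd (nat_lit 546) (PT.nd (nat_lit 234) (PT.nd (nat_lit 78) (PT.lf (nat_lit 9880) (nat_lit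 3) (nat_lit 130) (nat_lit 4) (nat_lit 104) (nat_lit 143) (nat_lit 143)) (PT.nd (nat_lit 78) (PT.lf (nat_lit 10336) (nat_lit 6) (nat_lit 136) (nat_lit 4) (nat_lit 105) (nat_lit 143) (nat_lit 142)) (PT.lf (nat_lit 10716) (nat_lit 6) (nat_lit 141) (nat_lit 4) (nat_lit 106) (nat_lit 143) (nat_lit 141)))) (PT.nd (nat_lit 156) (PT.nd (nat_lit 78) (PT.lf (nat_lit 11172) (nat_lit 6) (nat_lit 147) (nat_lit 4) (nat_lit 107) (nat_lit 143) (nat_lit 140)) (PT.lf (nat_lit 11628) (nat_lit 6) (nat_lit 153) (nat_lit 4) (nat_lit 108) (nat_lit 143) (nat_lit 139))) (PT.nd (nat_lit 78) (PT.lf (nat_lit 12160) (nat_lit 6) (nat_lit 160) (nat_lit 4) (nat_lit 109) (nat_lit 143) (nat_lit 138)) (PT.lf (nat_lit 12692) (nat_lit 6) (nat_lit 167) (nat_lit 4) (nat_lit 110) (nat_lit 143) (nat_lit 137))))) (PT.nd (nat_lit 234) (PT.nd (nat_lit 78) (PT.lf (nat_lit 13224) (nat_lit 6) (nat_lit 174) (nat_lit 4) (nat_lit 111) (nat_lit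 143) (nat_lit 136)) (PT.nd (nat_lit 78) (PT.lf (nat_lit 13756) (nat_lit 6) (nat_lit 181) (nat_lit 4) (nat_lit 112) (nat_lit 143) (nat_lit 135)) (PT.lf (nat_lit 14364) (nat_lit 6) (nat_lit 189) (nat_lit 4) (nat_lit 113) (nat_lit 143) (nat_lit 134)))) (PT.nd (nat_lit 156) (PT.nd (nat_lit 78) (PT.lf (nat_lit 15124) (nat_lit 6) (nat_lit 199) (nat_lit 4) (nat_lit 114) (nat_lit 143) (nat_lit 133)) (PT.lf (nat_lit 16264) (nat_lit 6) (nat_lit 214) (nat_lit 4) (nat_lit 115) (nat_lit 143) (nat_lit 132))) (PT.nd (nat_lit 78) (PT.lf (nat_lit 17328) (nat_lit 6) (nat_lit 228) (nat_lit 4) (nat_lit 116) (nat_lit 143) (nat_lit 131)) (PT.lf (nat_lit 18316) (nat_lit 6) (nat_lit 241) (nat_lit 4) (nat_lit 117) (nat_lit 143) (nat_lit 130)))))) (PT.nd (nat_lit 546) (PT.nd (nat_lit 234) (PT.nd (nat_lit 78) (PT.lf (nat_lit 18240) (nat_lit 6) (nat_lit 240) (nat_lit 4) (nat_lit 118) (nat_lit 143) (nat_lit 129)) (PT.nd (nat_lit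 78) (PT.lf (nat_lit 18164) (nat_lit 6) (nat_lit 239) (nat_lit 4) (nat_lit 119) (nat_lit 143) (nat_lit 128)) (PT.lf (nat_lit 18088) (nat_lit 6) (nat_lit 238) (nat_lit 4) (nat_lit 120) (nat_lit 143) (nat_lit 127)))) (PT.nd (nat_lit 156) (PT.nd (nat_lit 78) (PT.lf (nat_lit 18012) (nat_lit 6) (nat_lit 237) (nat_lit 4) (nat_lit 121) (nat_lit 143) (nat_lit 126)) (PT.lf (nat_lit 17936) (nat_lit 6) (nat_lit 236) (nat_lit 4) (nat_lit 122) (nat_lit 143) (nat_lit 125))) (PT.nd (nat_lit 78) (PT.lf (nat_lit 17860) (nat_lit 6) (nat_lit 235) (nat_lit 4) (nat_lit 123) (nat_lit 143) (nat_lit 124)) (PT.lf (nat_lit 17860) (nat_lit 6) (nat_lit 235) (nat_lit 2) (nat_lit 124) (nat_lit 143) (nat_lit 123))))) (PT.nd (nat_lit 234) (PT.nd (nat_lit 78) (PT.lf (nat_lit 17936) (nat_lit 6) (nat_lit 236) (nat_lit 2) (nat_lit 125) (nat_lit 143) (nat_lit 122)) (PT.nd (nat_lit 78) (PT.lf (nat_lit 18012) (nat_lit 6) (nat_lit 237)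 (nat_lit 2) (nat_lit 126) (nat_lit 143) (nat_lit 121)) (PT.lf (nat_lit 18088) (nat_lit 6) (nat_lit 238) (nat_lit 2) (nat_lit 127) (nat_lit 143) (nat_lit 120)))) (PT.nd (nat_lit 156) (PT.nd (nat_lit 78) (PT.lf (nat_lit 18164) (nat_lit 6) (nat_lit 239) (nat_lit 2) (nat_lit 128) (nat_lit 143) (nat_lit 119)) (PT.lf (nat_lit 18240) (nat_lit 6) (nat_lit 240) (nat_lit 2) (nat_lit 129) (nat_lit 143) (nat_lit 118))) (PT.nd (nat_lit 78) (PT.lf (nat_lit 18316) (nat_lit 6) (nat_lit 241) (nat_lit 2) (nat_lit 130) (nat_lit 143) (nat_lit 117)) (PT.lf (nat_lit 17328) (nat_lit 6) (nat_lit 228) (nat_lit 2) (nat_lit 131) (nat_lit 143) (nat_lit 116))))))))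
noncomputable def pc23 : PT := (PT.nd (nat_lit 38454) (PT.nd (nat_lit 1092) (PT.nd (nat_lit 546) (PT.nd (nat_lit 234) (PT.nd (nat_lit 78) (PT.lf (nat_lit 16264) (nat_lit 6) (nat_lit 214) (nat_lit 2) (nat_lit 132) (nat_lit 143) (nat_lit 115)) (PT.nd (nat_lit 78) (PT.lf (nat_lit 15124) (nat_lit 6) (nat_lit 199) (nat_lit 2) (nat_lit 133) (nat_lit 143) (nat_lit 114)) (PT.lf (nat_lit 14364) (nat_lit 6) (nat_lit 189) (nat_lit 2) (nat_lit 134) (nat_lit 143) (nat_lit 113)))) (PT.nd (nat_lit 156) (PT.nd (nat_lit 78) (PT.lf (nat_lit 13756) (nat_lit 6) (nat_lit 181) (nat_lit 2) (nat_lit 135) (nat_lit 143) (nat_lit 112)) (PT.lf (nat_lit 13224) (nat_lit 6) (nat_lit 174) (nat_lit 2) (nat_lit 136) (nat_lit 143) (nat_lit 111))) (PT.nd (nat_lit 78) (PT.lf (nat_lit 12692) (nat_lit 6) (nat_lit 167) (nat_lit 2) (nat_lit 137) (nat_lit 143) (nat_lit 110)) (PT.lf (nat_lit 12160) (nat_lit 6) (nat_lit 160) (nat_lit 2)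 (nat_lit 138) (nat_lit 143) (nat_lit 109))))) (PT.nd (nat_lit 234) (PT.nd (nat_lit 78) (PT.lf (nat_lit 11628) (nat_lit 6) (nat_lit 153) (nat_lit 2) (nat_lit 139) (nat_lit 143) (nat_lit 108)) (PT.nd (nat_lit 78) (PT.lf (nat_lit 11172) (nat_lit 6) (nat_lit 147) (nat_lit 2) (nat_lit 140) (nat_lit 143) (nat_lit 107)) (PT.lf (nat_lit 10716) (nat_lit 6) (nat_lit 141) (nat_lit 2) (nat_lit 141) (nat_lit 143) (nat_lit 106)))) (PT.nd (nat_lit 156) (PT.nd (nat_lit 78) (PT.lf (nat_lit 10336) (nat_lit 6) (nat_lit 136) (nat_lit 2) (nat_lit 142) (nat_lit 143) (nat_lit 105)) (PT.lf (nat_lit 9880) (nat_lit 3) (nat_lit 130) (nat_lit 0) (nat_lit 143) (nat_lit 143) (nat_lit 104))) (PT.nd (nat_lit 78) (PT.lf (nat_lit 9424) (nat_lit 6) (nat_lit 124) (nat_lit 0) (nat_lit 144) (nat_lit 143) (nat_lit 103)) (PT.lf (nat_lit 8968) (nat_lit 6) (nat_lit 118) (nat_lit 0) (nat_lit 145) (nat_lit 143) (nat_lit 102)))))) (PT.nd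 (nat_lit 36816) (PT.nd (nat_lit 234) (PT.nd (nat_lit 78) (PT.lf (nat_lit 8512) (nat_lit 6) (nat_lit 112) (nat_lit 0) (nat_lit 146) (nat_lit 143) (nat_lit 101)) (PT.nd (nat_lit 78) (PT.lf (nat_lit 8056) (nat_lit 6) (nat_lit 106) (nat_lit 0) (nat_lit 147) (nat_lit 143) (nat_lit 100)) (PT.lf (nat_lit 7676) (nat_lit 6) (nat_lit 101) (nat_lit 0) (nat_lit 148) (nat_lit 143) (nat_lit 99)))) (PT.nd (nat_lit 36426) (PT.nd (nat_lit 78) (PT.lf (nat_lit 7296) (nat_lit 6) (nat_lit 96) (nat_lit 0) (nat_lit 149) (nat_lit 143) (nat_lit 98)) (PT.lf (nat_lit 6916) (nat_lit 6) (nat_lit 91) (nat_lit 0) (nat_lit 150) (nat_lit 143) (nat_lit 97))) (PT.nd (nat_lit 78) (PT.lf (nat_lit 6308) (nat_lit 6) (nat_lit 83) (nat_lit 5) (nat_lit 95) (nat_lit 144) (nat_lit 151)) (PT.lf (nat_lit 6612) (nat_lit 6) (nat_lit 87) (nat_lit 5) (nat_lit 96) (nat_lit 144) (nat_lit 150))))) (PT.nd (nat_lit 234) (PT.nd (nat_lit 78) (PT.lf (nat_lit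 6992) (nat_lit 6) (nat_lit 92) (nat_lit 5) (nat_lit 97) (nat_lit 144) (nat_lit 149)) (PT.nd (nat_lit 78) (PT.lf (nat_lit 7372) (nat_lit 6) (nat_lit 97) (nat_lit 5) (nat_lit 98) (nat_lit 144) (nat_lit 148)) (PT.lf (nat_lit 7752) (nat_lit 6) (nat_lit 102) (nat_lit 5) (nat_lit 99) (nat_lit 144) (nat_lit 147)))) (PT.nd (nat_lit 156) (PT.nd (nat_lit 78) (PT.lf (nat_lit 8132) (nat_lit 6) (nat_lit 107) (nat_lit 5) (nat_lit 100) (nat_lit 144) (nat_lit 146)) (PT.lf (nat_lit 8588) (nat_lit 6) (nat_lit 113) (nat_lit 5) (nat_lit 101) (nat_lit 144) (nat_lit 145))) (PT.nd (nat_lit 78) (PT.lf (nat_lit 9044) (nat_lit 3) (nat_lit 119) (nat_lit 4) (nat_lit 102) (nat_lit 144) (nat_lit 144)) (PT.lf (nat_lit 9424) (nat_lit 6) (nat_lit 124) (nat_lit 4) (nat_lit 103) (nat_lit 144) (nat_lit 143))))))) (PT.nd (nat_lit 1092) (PT.nd (nat_lit 546) (PT.nd (nat_lit 234) (PT.nd (nat_lit 78) (PT.lf (nat_lit 9804) (nat_lit 6)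 (nat_lit 129) (nat_lit 4) (nat_lit 104) (nat_lit 144) (nat_lit 142)) (PT.nd (nat_lit 78) (PT.lf (nat_lit 10260) (nat_lit 6) (nat_lit 135) (nat_lit 4) (nat_lit 105) (nat_lit 144) (nat_lit 141)) (PT.lf (nat_lit 10640) (nat_lit 6) (nat_lit 140) (nat_lit 4) (nat_lit 106) (nat_lit 144) (nat_lit 140)))) (PT.nd (nat_lit 156) (PT.nd (nat_lit 78) (PT.lf (nat_lit 11096) (nat_lit 6) (nat_lit 146) (nat_lit 4) (nat_lit 107) (nat_lit 144) (nat_lit 139)) (PT.lf (nat_lit 11552) (nat_lit 6) (nat_lit 152) (nat_lit 4) (nat_lit 108) (nat_lit 144) (nat_lit 138))) (PT.nd (nat_lit 78) (PT.lf (nat_lit 12084) (nat_lit 6) (nat_lit 159) (nat_lit 4) (nat_lit 109) (nat_lit 144) (nat_lit 137)) (PT.lf (nat_lit 12616) (nat_lit 6) (nat_lit 166) (nat_lit 4) (nat_lit 110) (nat_lit 144) (nat_lit 136))))) (PT.nd (nat_lit 234) (PT.nd (nat_lit 78) (PT.lf (nat_lit 13148) (nat_lit 6) (nat_lit 173) (nat_lit 4) (nat_lit 111) (nat_lit 144)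 (nat_lit 135)) (PT.nd (nat_lit 78) (PT.lf (nat_lit 13680) (nat_lit 6) (nat_lit 180) (nat_lit 4) (nat_lit 112) (nat_lit 144) (nat_lit 134)) (PT.lf (nat_lit 14288) (nat_lit 6) (nat_lit 188) (nat_lit 4) (nat_lit 113) (nat_lit 144) (nat_lit 133)))) (PT.nd (nat_lit 156) (PT.nd (nat_lit 78) (PT.lf (nat_lit 15048) (nat_lit 6) (nat_lit 198) (nat_lit 4) (nat_lit 114) (nat_lit 144) (nat_lit 132)) (PT.lf (nat_lit 16188) (nat_lit 6) (nat_lit 213) (nat_lit 4) (nat_lit 115) (nat_lit 144) (nat_lit 131))) (PT.nd (nat_lit 78) (PT.lf (nat_lit 17252) (nat_lit 6) (nat_lit 227) (nat_lit 4) (nat_lit 116) (nat_lit 144) (nat_lit 130)) (PT.lf (nat_lit 17176) (nat_lit 6) (nat_lit 226) (nat_lit 4) (nat_lit 117) (nat_lit 144) (nat_lit 129)))))) (PT.nd (nat_lit 546) (PT.nd (nat_lit 234) (PT.nd (nat_lit 78) (PT.lf (nat_lit 17100) (nat_lit 6) (nat_lit 225) (nat_lit 4) (nat_lit 118) (nat_lit 144) (nat_lit 128)) (PT.nd (nat_lit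 78) (PT.lf (nat_lit 17024) (nat_lit 6) (nat_lit 224) (nat_lit 4) (nat_lit 119) (nat_lit 144) (nat_lit 127)) (PT.lf (nat_lit 16948) (nat_lit 6) (nat_lit 223) (nat_lit 4) (nat_lit 120) (nat_lit 144) (nat_lit 126)))) (PT.nd (nat_lit 156) (PT.nd (nat_lit 78) (PT.lf (nat_lit 16872) (nat_lit 6) (nat_lit 222) (nat_lit 4) (nat_lit 121) (nat_lit 144) (nat_lit 125)) (PT.lf (nat_lit 16796) (nat_lit 6) (nat_lit 221) (nat_lit 4) (nat_lit 122) (nat_lit 144) (nat_lit 124))) (PT.nd (nat_lit 78) (PT.lf (nat_lit 16720) (nat_lit 3) (nat_lit 220) (nat_lit 2) (nat_lit 123) (nat_lit 144) (nat_lit 123)) (PT.lf (nat_lit 16796) (nat_lit 6) (nat_lit 221) (nat_lit 2) (nat_lit 124) (nat_lit 144) (nat_lit 122))))) (PT.nd (nat_lit 312) (PT.nd (nat_lit 156) (PT.nd (nat_lit 78) (PT.lf (nat_lit 16872) (nat_lit 6) (nat_lit 222) (nat_lit 2) (nat_lit 125) (nat_lit 144) (nat_lit 121)) (PT.lf (nat_lit 16948) (nat_lit 6) (nat_lit 223)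 (nat_lit 2) (nat_lit 126) (nat_lit 144) (nat_lit 120))) (PT.nd (nat_lit 78) (PT.lf (nat_lit 17024) (nat_lit 6) (nat_lit 224) (nat_lit 2) (nat_lit 127) (nat_lit 144) (nat_lit 119)) (PT.lf (nat_lit 17100) (nat_lit 6) (nat_lit 225) (nat_lit 2) (nat_lit 128) (nat_lit 144) (nat_lit 118)))) (PT.nd (nat_lit 156) (PT.nd (nat_lit 78) (PT.lf (nat_lit 17176) (nat_lit 6) (nat_lit 226) (nat_lit 2) (nat_lit 129) (nat_lit 144) (nat_lit 117)) (PT.lf (nat_lit 17252) (nat_lit 6) (nat_lit 227) (nat_lit 2) (nat_lit 130) (nat_lit 144) (nat_lit 116))) (PT.nd (nat_lit 78) (PT.lf (nat_lit 16188) (nat_lit 6) (nat_lit 213) (nat_lit 2) (nat_lit 131) (nat_lit 144) (nat_lit 115)) (PT.lf (nat_lit 15048) (nat_lit 6) (nat_lit 198) (nat_lit 2) (nat_lit 132) (nat_lit 144) (nat_lit 114))))))))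
noncomputable def pc24 : PT := (PT.nd (nat_lit 38298) (PT.nd (nat_lit 1092) (PT.nd (nat_lit 546) (PT.nd (nat_lit 234) (PT.nd (nat_lit 78) (PT.lf (nat_lit 14288) (nat_lit 6) (nat_lit 188) (nat_lit 2) (nat_lit 133) (nat_lit 144) (nat_lit 113)) (PT.nd (nat_lit 78) (PT.lf (nat_lit 13680) (nat_lit 6) (nat_lit 180) (nat_lit 2) (nat_lit 134) (nat_lit 144) (nat_lit 112)) (PT.lf (nat_lit 13148) (nat_lit 6) (nat_lit 173) (nat_lit 2) (nat_lit 135) (nat_lit 144) (nat_lit 111)))) (PT.nd (nat_lit 156) (PT.nd (nat_lit 78) (PT.lf (nat_lit 12616) (nat_lit 6) (nat_lit 166) (nat_lit 2) (nat_lit 136) (nat_lit 144) (nat_lit 110)) (PT.lf (nat_lit 12084) (nat_lit 6) (nat_lit 159) (nat_lit 2) (nat_lit 137) (nat_lit 144) (nat_lit 109))) (PT.nd (nat_lit 78) (PT.lf (nat_lit 11552) (nat_lit 6) (nat_lit 152) (nat_lit 2) (nat_lit 138) (nat_lit 144) (nat_lit 108)) (PT.lf (nat_lit 11096) (nat_lit 6) (nat_lit 146) (nat_lit 2)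 (nat_lit 139) (nat_lit 144) (nat_lit 107))))) (PT.nd (nat_lit 234) (PT.nd (nat_lit 78) (PT.lf (nat_lit 10640) (nat_lit 6) (nat_lit 140) (nat_lit 2) (nat_lit 140) (nat_lit 144) (nat_lit 106)) (PT.nd (nat_lit 78) (PT.lf (nat_lit 10260) (nat_lit 6) (nat_lit 135) (nat_lit 2) (nat_lit 141) (nat_lit 144) (nat_lit 105)) (PT.lf (nat_lit 9804) (nat_lit 6) (nat_lit 129) (nat_lit 2) (nat_lit 142) (nat_lit 144) (nat_lit 104)))) (PT.nd (nat_lit 156) (PT.nd (nat_lit 78) (PT.lf (nat_lit 9424) (nat_lit 6) (nat_lit 124) (nat_lit 2) (nat_lit 143) (nat_lit 144) (nat_lit 103)) (PT.lf (nat_lit 9044) (nat_lit 3) (nat_lit 119) (nat_lit 0) (nat_lit 144) (nat_lit 144) (nat_lit 102))) (PT.nd (nat_lit 78) (PT.lf (nat_lit 8588) (nat_lit 6) (nat_lit 113) (nat_lit 0) (nat_lit 145) (nat_lit 144) (nat_lit 101)) (PT.lf (nat_lit 8132) (nat_lit 6) (nat_lit 107) (nat_lit 0) (nat_lit 146) (nat_lit 144) (nat_lit 100)))))) (PT.nd (nat_lit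 36660) (PT.nd (nat_lit 234) (PT.nd (nat_lit 78) (PT.lf (nat_lit 7752) (nat_lit 6) (nat_lit 102) (nat_lit 0) (nat_lit 147) (nat_lit 144) (nat_lit 99)) (PT.nd (nat_lit 78) (PT.lf (nat_lit 7372) (nat_lit 6) (nat_lit 97) (nat_lit 0) (nat_lit 148) (nat_lit 144) (nat_lit 98)) (PT.lf (nat_lit 6992) (nat_lit 6) (nat_lit 92) (nat_lit 0) (nat_lit 149) (nat_lit 144) (nat_lit 97)))) (PT.nd (nat_lit 36270) (PT.nd (nat_lit 78) (PT.lf (nat_lit 6612) (nat_lit 6) (nat_lit 87) (nat_lit 0) (nat_lit 150) (nat_lit 144) (nat_lit 96)) (PT.lf (nat_lit 6308) (nat_lit 6) (nat_lit 83) (nat_lit 0) (nat_lit 151) (nat_lit 144) (nat_lit 95))) (PT.nd (nat_lit 78) (PT.lf (nat_lit 6004) (nat_lit 6) (nat_lit 79) (nat_lit 5) (nat_lit 94) (nat_lit 145) (nat_lit 151)) (PT.lf (nat_lit 6384) (nat_lit 6) (nat_lit 84) (nat_lit 5) (nat_lit 95) (nat_lit 145) (nat_lit 150))))) (PT.nd (nat_lit 234) (PT.nd (nat_lit 78) (PT.lf (nat_lit 6688)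 (nat_lit 6) (nat_lit 88) (nat_lit 5) (nat_lit 96) (nat_lit 145) (nat_lit 149)) (PT.nd (nat_lit 78) (PT.lf (nat_lit 7068) (nat_lit 6) (nat_lit 93) (nat_lit 5) (nat_lit 97) (nat_lit 145) (nat_lit 148)) (PT.lf (nat_lit 7448) (nat_lit 6) (nat_lit 98) (nat_lit 5) (nat_lit 98) (nat_lit 145) (nat_lit 147)))) (PT.nd (nat_lit 156) (PT.nd (nat_lit 78) (PT.lf (nat_lit 7828) (nat_lit 6) (nat_lit 103) (nat_lit 5) (nat_lit 99) (nat_lit 145) (nat_lit 146)) (PT.lf (nat_lit 8208) (nat_lit 3) (nat_lit 108) (nat_lit 4) (nat_lit 100) (nat_lit 145) (nat_lit 145))) (PT.nd (nat_lit 78) (PT.lf (nat_lit 8588) (nat_lit 6) (nat_lit 113) (nat_lit 4) (nat_lit 101) (nat_lit 145) (nat_lit 144)) (PT.lf (nat_lit 8968) (nat_lit 6) (nat_lit 118) (nat_lit 4) (nat_lit 102) (nat_lit 145) (nat_lit 143))))))) (PT.nd (nat_lit 1092) (PT.nd (nat_lit 546) (PT.nd (nat_lit 234) (PT.nd (nat_lit 78) (PT.lf (nat_lit 9348) (nat_lit 6) (nat_lit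 123) (nat_lit 4) (nat_lit 103) (nat_lit 145) (nat_lit 142)) (PT.nd (nat_lit 78) (PT.lf (nat_lit 9728) (nat_lit 6) (nat_lit 128) (nat_lit 4) (nat_lit 104) (nat_lit 145) (nat_lit 141)) (PT.lf (nat_lit 10184) (nat_lit 6) (nat_lit 134) (nat_lit 4) (nat_lit 105) (nat_lit 145) (nat_lit 140)))) (PT.nd (nat_lit 156) (PT.nd (nat_lit 78) (PT.lf (nat_lit 10564) (nat_lit 6) (nat_lit 139) (nat_lit 4) (nat_lit 106) (nat_lit 145) (nat_lit 139)) (PT.lf (nat_lit 11020) (nat_lit 6) (nat_lit 145) (nat_lit 4) (nat_lit 107) (nat_lit 145) (nat_lit 138))) (PT.nd (nat_lit 78) (PT.lf (nat_lit 11476) (nat_lit 6) (nat_lit 151) (nat_lit 4) (nat_lit 108) (nat_lit 145) (nat_lit 137)) (PT.lf (nat_lit 12008) (nat_lit 6) (nat_lit 158) (nat_lit 4) (nat_lit 109) (nat_lit 145) (nat_lit 136))))) (PT.nd (nat_lit 234) (PT.nd (nat_lit 78) (PT.lf (nat_lit 12540) (nat_lit 6) (nat_lit 165) (nat_lit 4) (nat_lit 110) (nat_lit 145) (nat_lit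 135)) (PT.nd (nat_lit 78) (PT.lf (nat_lit 13072) (nat_lit 6) (nat_lit 172) (nat_lit 4) (nat_lit 111) (nat_lit 145) (nat_lit 134)) (PT.lf (nat_lit 13604) (nat_lit 6) (nat_lit 179) (nat_lit 4) (nat_lit 112) (nat_lit 145) (nat_lit 133)))) (PT.nd (nat_lit 156) (PT.nd (nat_lit 78) (PT.lf (nat_lit 14212) (nat_lit 6) (nat_lit 187) (nat_lit 4) (nat_lit 113) (nat_lit 145) (nat_lit 132)) (PT.lf (nat_lit 14972) (nat_lit 6) (nat_lit 197) (nat_lit 4) (nat_lit 114) (nat_lit 145) (nat_lit 131))) (PT.nd (nat_lit 78) (PT.lf (nat_lit 16112) (nat_lit 6) (nat_lit 212) (nat_lit 4) (nat_lit 115) (nat_lit 145) (nat_lit 130)) (PT.lf (nat_lit 16036) (nat_lit 6) (nat_lit 211) (nat_lit 4) (nat_lit 116) (nat_lit 145) (nat_lit 129)))))) (PT.nd (nat_lit 546) (PT.nd (nat_lit 234) (PT.nd (nat_lit 78) (PT.lf (nat_lit 15960) (nat_lit 6) (nat_lit 210) (nat_lit 4) (nat_lit 117) (nat_lit 145) (nat_lit 128)) (PT.nd (nat_lit 78) (PT.lf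 (nat_lit 15884) (nat_lit 6) (nat_lit 209) (nat_lit 4) (nat_lit 118) (nat_lit 145) (nat_lit 127)) (PT.lf (nat_lit 15808) (nat_lit 6) (nat_lit 208) (nat_lit 4) (nat_lit 119) (nat_lit 145) (nat_lit 126)))) (PT.nd (nat_lit 156) (PT.nd (nat_lit 78) (PT.lf (nat_lit 15732) (nat_lit 6) (nat_lit 207) (nat_lit 4) (nat_lit 120) (nat_lit 145) (nat_lit 125)) (PT.lf (nat_lit 15656) (nat_lit 6) (nat_lit 206) (nat_lit 4) (nat_lit 121) (nat_lit 145) (nat_lit 124))) (PT.nd (nat_lit 78) (PT.lf (nat_lit 15580) (nat_lit 6) (nat_lit 205) (nat_lit 4) (nat_lit 122) (nat_lit 145) (nat_lit 123)) (PT.lf (nat_lit 15580) (nat_lit 6) (nat_lit 205) (nat_lit 2) (nat_lit 123) (nat_lit 145) (nat_lit 122))))) (PT.nd (nat_lit 234) (PT.nd (nat_lit 78) (PT.lf (nat_lit 15656) (nat_lit 6) (nat_lit 206) (nat_lit 2) (nat_lit 124) (nat_lit 145) (nat_lit 121)) (PT.nd (nat_lit 78) (PT.lf (nat_lit 15732) (nat_lit 6) (nat_lit 207) (nat_lit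 2) (nat_lit 125) (nat_lit 145) (nat_lit 120)) (PT.lf (nat_lit 15808) (nat_lit 6) (nat_lit 208) (nat_lit 2) (nat_lit 126) (nat_lit 145) (nat_lit 119)))) (PT.nd (nat_lit 156) (PT.nd (nat_lit 78) (PT.lf (nat_lit 15884) (nat_lit 6) (nat_lit 209) (nat_lit 2) (nat_lit 127) (nat_lit 145) (nat_lit 118)) (PT.lf (nat_lit 15960) (nat_lit 6) (nat_lit 210) (nat_lit 2) (nat_lit 128) (nat_lit 145) (nat_lit 117))) (PT.nd (nat_lit 78) (PT.lf (nat_lit 16036) (nat_lit 6) (nat_lit 211) (nat_lit 2) (nat_lit 129) (nat_lit 145) (nat_lit 116)) (PT.lf (nat_lit 16112) (nat_lit 6) (nat_lit 212) (nat_lit 2) (nat_lit 130) (nat_lit 145) (nat_lit 115))))))))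
noncomputable def pc25 : PT := (PT.nd (nat_lit 38142) (PT.nd (nat_lit 1092) (PT.nd (nat_lit 546) (PT.nd (nat_lit 234) (PT.nd (nat_lit 78) (PT.lf (nat_lit 14972) (nat_lit 6) (nat_lit 197) (nat_lit 2) (nat_lit 131) (nat_lit 145) (nat_lit 114)) (PT.nd (nat_lit 78) (PT.lf (nat_lit 14212) (nat_lit 6) (nat_lit 187) (nat_lit 2) (nat_lit 132) (nat_lit 145) (nat_lit 113)) (PT.lf (nat_lit 13604) (nat_lit 6) (nat_lit 179) (nat_lit 2) (nat_lit 133) (nat_lit 145) (nat_lit 112)))) (PT.nd (nat_lit 156) (PT.nd (nat_lit 78) (PT.lf (nat_lit 13072) (nat_lit 6) (nat_lit 172) (nat_lit 2) (nat_lit 134) (nat_lit 145) (nat_lit 111)) (PT.lf (nat_lit 12540) (nat_lit 6) (nat_lit 165) (nat_lit 2) (nat_lit 135) (nat_lit 145) (nat_lit 110))) (PT.nd (nat_lit 78) (PT.lf (nat_lit 12008) (nat_lit 6) (nat_lit 158) (nat_lit 2) (nat_lit 136) (nat_lit 145) (nat_lit 109)) (PT.lf (nat_lit 11476) (nat_lit 6) (nat_lit 151) (nat_lit 2)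 (nat_lit 137) (nat_lit 145) (nat_lit 108))))) (PT.nd (nat_lit 234) (PT.nd (nat_lit 78) (PT.lf (nat_lit 11020) (nat_lit 6) (nat_lit 145) (nat_lit 2) (nat_lit 138) (nat_lit 145) (nat_lit 107)) (PT.nd (nat_lit 78) (PT.lf (nat_lit 10564) (nat_lit 6) (nat_lit 139) (nat_lit 2) (nat_lit 139) (nat_lit 145) (nat_lit 106)) (PT.lf (nat_lit 10184) (nat_lit 6) (nat_lit 134) (nat_lit 2) (nat_lit 140) (nat_lit 145) (nat_lit 105)))) (PT.nd (nat_lit 156) (PT.nd (nat_lit 78) (PT.lf (nat_lit 9728) (nat_lit 6) (nat_lit 128) (nat_lit 2) (nat_lit 141) (nat_lit 145) (nat_lit 104)) (PT.lf (nat_lit 9348) (nat_lit 6) (nat_lit 123) (nat_lit 2) (nat_lit 142) (nat_lit 145) (nat_lit 103))) (PT.nd (nat_lit 78) (PT.lf (nat_lit 8968) (nat_lit 6) (nat_lit 118) (nat_lit 2) (nat_lit 143) (nat_lit 145) (nat_lit 102)) (PT.lf (nat_lit 8588) (nat_lit 6) (nat_lit 113) (nat_lit 2) (nat_lit 144) (nat_lit 145) (nat_lit 101)))))) (PT.nd (nat_lit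 36504) (PT.nd (nat_lit 234) (PT.nd (nat_lit 78) (PT.lf (nat_lit 8208) (nat_lit 3) (nat_lit 108) (nat_lit 0) (nat_lit 145) (nat_lit 145) (nat_lit 100)) (PT.nd (nat_lit 78) (PT.lf (nat_lit 7828) (nat_lit 6) (nat_lit 103) (nat_lit 0) (nat_lit 146) (nat_lit 145) (nat_lit 99)) (PT.lf (nat_lit 7448) (nat_lit 6) (nat_lit 98) (nat_lit 0) (nat_lit 147) (nat_lit 145) (nat_lit 98)))) (PT.nd (nat_lit 156) (PT.nd (nat_lit 78) (PT.lf (nat_lit 7068) (nat_lit 6) (nat_lit 93) (nat_lit 0) (nat_lit 148) (nat_lit 145) (nat_lit 97)) (PT.lf (nat_lit 6688) (nat_lit 6) (nat_lit 88) (nat_lit 0) (nat_lit 149) (nat_lit 145) (nat_lit 96))) (PT.nd (nat_lit 78) (PT.lf (nat_lit 6384) (nat_lit 6) (nat_lit 84) (nat_lit 0) (nat_lit 150) (nat_lit 145) (nat_lit 95)) (PT.lf (nat_lit 6004) (nat_lit 6) (nat_lit 79) (nat_lit 0) (nat_lit 151) (nat_lit 145) (nat_lit 94))))) (PT.nd (nat_lit 234) (PT.nd (nat_lit 78) (PT.lf (nat_lit 5472)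 (nat_lit 6) (nat_lit 72) (nat_lit 5) (nat_lit 92) (nat_lit 146) (nat_lit 152)) (PT.nd (nat_lit 78) (PT.lf (nat_lit 5776) (nat_lit 6) (nat_lit 76) (nat_lit 5) (nat_lit 93) (nat_lit 146) (nat_lit 151)) (PT.lf (nat_lit 6080) (nat_lit 6) (nat_lit 80) (nat_lit 5) (nat_lit 94) (nat_lit 146) (nat_lit 150)))) (PT.nd (nat_lit 156) (PT.nd (nat_lit 78) (PT.lf (nat_lit 6460) (nat_lit 6) (nat_lit 85) (nat_lit 5) (nat_lit 95) (nat_lit 146) (nat_lit 149)) (PT.lf (nat_lit 6764) (nat_lit 6) (nat_lit 89) (nat_lit 5) (nat_lit 96) (nat_lit 146) (nat_lit 148))) (PT.nd (nat_lit 78) (PT.lf (nat_lit 7144) (nat_lit 6) (nat_lit 94) (nat_lit 5) (nat_lit 97) (nat_lit 146) (nat_lit 147)) (PT.lf (nat_lit 7524) (nat_lit 3) (nat_lit 99) (nat_lit 4) (nat_lit 98) (nat_lit 146) (nat_lit 146))))))) (PT.nd (nat_lit 1092) (PT.nd (nat_lit 546) (PT.nd (nat_lit 234) (PT.nd (nat_lit 78) (PT.lf (nat_lit 7828) (nat_lit 6) (nat_lit 103) (nat_lit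 4) (nat_lit 99) (nat_lit 146) (nat_lit 145)) (PT.nd (nat_lit 78) (PT.lf (nat_lit 8132) (nat_lit 6) (nat_lit 107) (nat_lit 4) (nat_lit 100) (nat_lit 146) (nat_lit 144)) (PT.lf (nat_lit 8512) (nat_lit 6) (nat_lit 112) (nat_lit 4) (nat_lit 101) (nat_lit 146) (nat_lit 143)))) (PT.nd (nat_lit 156) (PT.nd (nat_lit 78) (PT.lf (nat_lit 8892) (nat_lit 6) (nat_lit 117) (nat_lit 4) (nat_lit 102) (nat_lit 146) (nat_lit 142)) (PT.lf (nat_lit 9272) (nat_lit 6) (nat_lit 122) (nat_lit 4) (nat_lit 103) (nat_lit 146) (nat_lit 141))) (PT.nd (nat_lit 78) (PT.lf (nat_lit 9652) (nat_lit 6) (nat_lit 127) (nat_lit 4) (nat_lit 104) (nat_lit 146) (nat_lit 140)) (PT.lf (nat_lit 10108) (nat_lit 6) (nat_lit 133) (nat_lit 4) (nat_lit 105) (nat_lit 146) (nat_lit 139))))) (PT.nd (nat_lit 234) (PT.nd (nat_lit 78) (PT.lf (nat_lit 10488) (nat_lit 6) (nat_lit 138) (nat_lit 4) (nat_lit 106) (nat_lit 146) (nat_lit 138)) (PT.nd (nat_lit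 78) (PT.lf (nat_lit 10944) (nat_lit 6) (nat_lit 144) (nat_lit 4) (nat_lit 107) (nat_lit 146) (nat_lit 137)) (PT.lf (nat_lit 11400) (nat_lit 6) (nat_lit 150) (nat_lit 4) (nat_lit 108) (nat_lit 146) (nat_lit 136)))) (PT.nd (nat_lit 156) (PT.nd (nat_lit 78) (PT.lf (nat_lit 11932) (nat_lit 6) (nat_lit 157) (nat_lit 4) (nat_lit 109) (nat_lit 146) (nat_lit 135)) (PT.lf (nat_lit 12464) (nat_lit 6) (nat_lit 164) (nat_lit 4) (nat_lit 110) (nat_lit 146) (nat_lit 134))) (PT.nd (nat_lit 78) (PT.lf (nat_lit 12996) (nat_lit 6) (nat_lit 171) (nat_lit 4) (nat_lit 111) (nat_lit 146) (nat_lit 133)) (PT.lf (nat_lit 13528) (nat_lit 6) (nat_lit 178) (nat_lit 4) (nat_lit 112) (nat_lit 146) (nat_lit 132)))))) (PT.nd (nat_lit 1404) (PT.nd (nat_lit 234) (PT.nd (nat_lit 78) (PT.lf (nat_lit 14136) (nat_lit 6) (nat_lit 186) (nat_lit 4) (nat_lit 113) (nat_lit 146) (nat_lit 131)) (PT.nd (nat_lit 78) (PT.lf (nat_lit 14896) (nat_lit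 6) (nat_lit 196) (nat_lit 4) (nat_lit 114) (nat_lit 146) (nat_lit 130)) (PT.lf (nat_lit 14820) (nat_lit 6) (nat_lit 195) (nat_lit 4) (nat_lit 115) (nat_lit 146) (nat_lit 129)))) (PT.nd (nat_lit 1014) (PT.nd (nat_lit 936) (PT.lf (nat_lit 14744) (nat_lit 6) (nat_lit 194) (nat_lit 4) (nat_lit 116) (nat_lit 146) (nat_lit 128)) (PT.lf (nat_lit 14744) (nat_lit 6) (nat_lit 194) (nat_lit 2) (nat_lit 128) (nat_lit 146) (nat_lit 116))) (PT.nd (nat_lit 78) (PT.lf (nat_lit 14820) (nat_lit 6) (nat_lit 195) (nat_lit 2) (nat_lit 129) (nat_lit 146) (nat_lit 115)) (PT.lf (nat_lit 14896) (nat_lit 6) (nat_lit 196) (nat_lit 2) (nat_lit 130) (nat_lit 146) (nat_lit 114))))) (PT.nd (nat_lit 234) (PT.nd (nat_lit 78) (PT.lf (nat_lit 14136) (nat_lit 6) (nat_lit 186) (nat_lit 2) (nat_lit 131) (nat_lit 146) (nat_lit 113)) (PT.nd (nat_lit 78) (PT.lf (nat_lit 13528) (nat_lit 6) (nat_lit 178) (nat_lit 2) (nat_lit 132) (nat_lit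 146) (nat_lit 112)) (PT.lf (nat_lit 12996) (nat_lit 6) (nat_lit 171) (nat_lit 2) (nat_lit 133) (nat_lit 146) (nat_lit 111)))) (PT.nd (nat_lit 156) (PT.nd (nat_lit 78) (PT.lf (nat_lit 12464) (nat_lit 6) (nat_lit 164) (nat_lit 2) (nat_lit 134) (nat_lit 146) (nat_lit 110)) (PT.lf (nat_lit 11932) (nat_lit 6) (nat_lit 157) (nat_lit 2) (nat_lit 135) (nat_lit 146) (nat_lit 109))) (PT.nd (nat_lit 78) (PT.lf (nat_lit 11400) (nat_lit 6) (nat_lit 150) (nat_lit 2) (nat_lit 136) (nat_lit 146) (nat_lit 108)) (PT.lf (nat_lit 10944) (nat_lit 6) (nat_lit 144) (nat_lit 2) (nat_lit 137) (nat_lit 146) (nat_lit 107))))))))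
noncomputable def pc26 : PT := (PT.nd (nat_lit 37908) (PT.nd (nat_lit 1092) (PT.nd (nat_lit 546) (PT.nd (nat_lit 234) (PT.nd (nat_lit 78) (PT.lf (nat_lit 10488) (nat_lit 6) (nat_lit 138) (nat_lit 2) (nat_lit 138) (nat_lit 146) (nat_lit 106)) (PT.nd (nat_lit 78) (PT.lf (nat_lit 10108) (nat_lit 6) (nat_lit 133) (nat_lit 2) (nat_lit 139) (nat_lit 146) (nat_lit 105)) (PT.lf (nat_lit 9652) (nat_lit 6) (nat_lit 127) (nat_lit 2) (nat_lit 140) (nat_lit 146) (nat_lit 104)))) (PT.nd (nat_lit 156) (PT.nd (nat_lit 78) (PT.lf (nat_lit 9272) (nat_lit 6) (nat_lit 122) (nat_lit 2) (nat_lit 141) (nat_lit 146) (nat_lit 103)) (PT.lf (nat_lit 8892) (nat_lit 6) (nat_lit 117) (nat_lit 2) (nat_lit 142) (nat_lit 146) (nat_lit 102))) (PT.nd (nat_lit 78) (PT.lf (nat_lit 8512) (nat_lit 6) (nat_lit 112) (nat_lit 2) (nat_lit 143) (nat_lit 146) (nat_lit 101)) (PT.lf (nat_lit 8132) (nat_lit 6) (nat_lit 107) (nat_lit 2) (nat_lit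 144) (nat_lit 146) (nat_lit 100))))) (PT.nd (nat_lit 234) (PT.nd (nat_lit 78) (PT.lf (nat_lit 7828) (nat_lit 6) (nat_lit 103) (nat_lit 2) (nat_lit 145) (nat_lit 146) (nat_lit 99)) (PT.nd (nat_lit 78) (PT.lf (nat_lit 7524) (nat_lit 3) (nat_lit 99) (nat_lit 0) (nat_lit 146) (nat_lit 146) (nat_lit 98)) (PT.lf (nat_lit 7144) (nat_lit 6) (nat_lit 94) (nat_lit 0) (nat_lit 147) (nat_lit 146) (nat_lit 97)))) (PT.nd (nat_lit 156) (PT.nd (nat_lit 78) (PT.lf (nat_lit 6764) (nat_lit 6) (nat_lit 89) (nat_lit 0) (nat_lit 148) (nat_lit 146) (nat_lit 96)) (PT.lf (nat_lit 6460) (nat_lit 6) (nat_lit 85) (nat_lit 0) (nat_lit 149) (nat_lit 146) (nat_lit 95))) (PT.nd (nat_lit 78) (PT.lf (nat_lit 6080) (nat_lit 6) (nat_lit 80) (nat_lit 0) (nat_lit 150) (nat_lit 146) (nat_lit 94)) (PT.lf (nat_lit 5776) (nat_lit 6) (nat_lit 76) (nat_lit 0) (nat_lit 151) (nat_lit 146) (nat_lit 93)))))) (PT.nd (nat_lit 36270) (PT.nd (nat_lit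 35958) (PT.nd (nat_lit 35802) (PT.lf (nat_lit 5472) (nat_lit 6) (nat_lit 72) (nat_lit 0) (nat_lit 152) (nat_lit 146) (nat_lit 92)) (PT.nd (nat_lit 78) (PT.lf (nat_lit 4940) (nat_lit 6) (nat_lit 65) (nat_lit 5) (nat_lit 90) (nat_lit 147) (nat_lit 153)) (PT.lf (nat_lit 5244) (nat_lit 6) (nat_lit 69) (nat_lit 5) (nat_lit 91) (nat_lit 147) (nat_lit 152)))) (PT.nd (nat_lit 156) (PT.nd (nat_lit 78) (PT.lf (nat_lit 5548) (nat_lit 6) (nat_lit 73) (nat_lit 5) (nat_lit 92) (nat_lit 147) (nat_lit 151)) (PT.lf (nat_lit 5852) (nat_lit 6) (nat_lit 77) (nat_lit 5) (nat_lit 93) (nat_lit 147) (nat_lit 150))) (PT.nd (nat_lit 78) (PT.lf (nat_lit 6156) (nat_lit 6) (nat_lit 81) (nat_lit 5) (nat_lit 94) (nat_lit 147) (nat_lit 149)) (PT.lf (nat_lit 6536) (nat_lit 6) (nat_lit 86) (nat_lit 5) (nat_lit 95) (nat_lit 147) (nat_lit 148))))) (PT.nd (nat_lit 234) (PT.nd (nat_lit 78) (PT.lf (nat_lit 6840) (nat_lit 3) (nat_lit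 90) (nat_lit 4) (nat_lit 96) (nat_lit 147) (nat_lit 147)) (PT.nd (nat_lit 78) (PT.lf (nat_lit 7144) (nat_lit 6) (nat_lit 94) (nat_lit 4) (nat_lit 97) (nat_lit 147) (nat_lit 146)) (PT.lf (nat_lit 7448) (nat_lit 6) (nat_lit 98) (nat_lit 4) (nat_lit 98) (nat_lit 147) (nat_lit 145)))) (PT.nd (nat_lit 156) (PT.nd (nat_lit 78) (PT.lf (nat_lit 7752) (nat_lit 6) (nat_lit 102) (nat_lit 4) (nat_lit 99) (nat_lit 147) (nat_lit 144)) (PT.lf (nat_lit 8056) (nat_lit 6) (nat_lit 106) (nat_lit 4) (nat_lit 100) (nat_lit 147) (nat_lit 143))) (PT.nd (nat_lit 78) (PT.lf (nat_lit 8436) (nat_lit 6) (nat_lit 111) (nat_lit 4) (nat_lit 101) (nat_lit 147) (nat_lit 142)) (PT.lf (nat_lit 8816) (nat_lit 6) (nat_lit 116) (nat_lit 4) (nat_lit 102) (nat_lit 147) (nat_lit 141))))))) (PT.nd (nat_lit 2808) (PT.nd (nat_lit 546) (PT.nd (nat_lit 234) (PT.nd (nat_lit 78) (PT.lf (nat_lit 9196) (nat_lit 6) (nat_lit 121) (nat_lit 4) (nat_lit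 103) (nat_lit 147) (nat_lit 140)) (PT.nd (nat_lit 78) (PT.lf (nat_lit 9576) (nat_lit 6) (nat_lit 126) (nat_lit 4) (nat_lit 104) (nat_lit 147) (nat_lit 139)) (PT.lf (nat_lit 10032) (nat_lit 6) (nat_lit 132) (nat_lit 4) (nat_lit 105) (nat_lit 147) (nat_lit 138)))) (PT.nd (nat_lit 156) (PT.nd (nat_lit 78) (PT.lf (nat_lit 10412) (nat_lit 6) (nat_lit 137) (nat_lit 4) (nat_lit 106) (nat_lit 147) (nat_lit 137)) (PT.lf (nat_lit 10868) (nat_lit 6) (nat_lit 143) (nat_lit 4) (nat_lit 107) (nat_lit 147) (nat_lit 136))) (PT.nd (nat_lit 78) (PT.lf (nat_lit 11324) (nat_lit 6) (nat_lit 149) (nat_lit 4) (nat_lit 108) (nat_lit 147) (nat_lit 135)) (PT.lf (nat_lit 11856) (nat_lit 6) (nat_lit 156) (nat_lit 4) (nat_lit 109) (nat_lit 147) (nat_lit 134))))) (PT.nd (nat_lit 1950) (PT.nd (nat_lit 1794) (PT.lf (nat_lit 12388) (nat_lit 6) (nat_lit 163) (nat_lit 4) (nat_lit 110) (nat_lit 147) (nat_lit 133)) (PT.nd (nat_lit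 78) (PT.lf (nat_lit 12388) (nat_lit 6) (nat_lit 163) (nat_lit 2) (nat_lit 133) (nat_lit 147) (nat_lit 110)) (PT.lf (nat_lit 11856) (nat_lit 6) (nat_lit 156) (nat_lit 2) (nat_lit 134) (nat_lit 147) (nat_lit 109)))) (PT.nd (nat_lit 156) (PT.nd (nat_lit 78) (PT.lf (nat_lit 11324) (nat_lit 6) (nat_lit 149) (nat_lit 2) (nat_lit 135) (nat_lit 147) (nat_lit 108)) (PT.lf (nat_lit 10868) (nat_lit 6) (nat_lit 143) (nat_lit 2) (nat_lit 136) (nat_lit 147) (nat_lit 107))) (PT.nd (nat_lit 78) (PT.lf (nat_lit 10412) (nat_lit 6) (nat_lit 137) (nat_lit 2) (nat_lit 137) (nat_lit 147) (nat_lit 106)) (PT.lf (nat_lit 10032) (nat_lit 6) (nat_lit 132) (nat_lit 2) (nat_lit 138) (nat_lit 147) (nat_lit 105)))))) (PT.nd (nat_lit 546) (PT.nd (nat_lit 234) (PT.nd (nat_lit 78) (PT.lf (nat_lit 9576) (nat_lit 6) (nat_lit 126) (nat_lit 2) (nat_lit 139) (nat_lit 147) (nat_lit 104)) (PT.nd (nat_lit 78) (PT.lf (nat_lit 9196) (nat_lit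 6) (nat_lit 121) (nat_lit 2) (nat_lit 140) (nat_lit 147) (nat_lit 103)) (PT.lf (nat_lit 8816) (nat_lit 6) (nat_lit 116) (nat_lit 2) (nat_lit 141) (nat_lit 147) (nat_lit 102)))) (PT.nd (nat_lit 156) (PT.nd (nat_lit 78) (PT.lf (nat_lit 8436) (nat_lit 6) (nat_lit 111) (nat_lit 2) (nat_lit 142) (nat_lit 147) (nat_lit 101)) (PT.lf (nat_lit 8056) (nat_lit 6) (nat_lit 106) (nat_lit 2) (nat_lit 143) (nat_lit 147) (nat_lit 100))) (PT.nd (nat_lit 78) (PT.lf (nat_lit 7752) (nat_lit 6) (nat_lit 102) (nat_lit 2) (nat_lit 144) (nat_lit 147) (nat_lit 99)) (PT.lf (nat_lit 7448) (nat_lit 6) (nat_lit 98) (nat_lit 2) (nat_lit 145) (nat_lit 147) (nat_lit 98))))) (PT.nd (nat_lit 234) (PT.nd (nat_lit 78) (PT.lf (nat_lit 7144) (nat_lit 6) (nat_lit 94) (nat_lit 2) (nat_lit 146) (nat_lit 147) (nat_lit 97)) (PT.nd (nat_lit 78) (PT.lf (nat_lit 6840) (nat_lit 3) (nat_lit 90) (nat_lit 0) (nat_lit 147) (nat_lit 147) (nat_lit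 96)) (PT.lf (nat_lit 6536) (nat_lit 6) (nat_lit 86) (nat_lit 0) (nat_lit 148) (nat_lit 147) (nat_lit 95)))) (PT.nd (nat_lit 156) (PT.nd (nat_lit 78) (PT.lf (nat_lit 6156) (nat_lit 6) (nat_lit 81) (nat_lit 0) (nat_lit 149) (nat_lit 147) (nat_lit 94)) (PT.lf (nat_lit 5852) (nat_lit 6) (nat_lit 77) (nat_lit 0) (nat_lit 150) (nat_lit 147) (nat_lit 93))) (PT.nd (nat_lit 78) (PT.lf (nat_lit 5548) (nat_lit 6) (nat_lit 73) (nat_lit 0) (nat_lit 151) (nat_lit 147) (nat_lit 92)) (PT.lf (nat_lit 5244) (nat_lit 6) (nat_lit 69) (nat_lit 0) (nat_lit 152) (nat_lit 147) (nat_lit 91))))))))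
noncomputable def pc27 : PT := (PT.nd (nat_lit 40170) (PT.nd (nat_lit 36660) (PT.nd (nat_lit 36114) (PT.nd (nat_lit 35802) (PT.nd (nat_lit 35646) (PT.lf (nat_lit 4940) (nat_lit 6) (nat_lit 65) (nat_lit 0) (nat_lit 153) (nat_lit 147) (nat_lit 90)) (PT.nd (nat_lit 78) (PT.lf (nat_lit 4712) (nat_lit 6) (nat_lit 62) (nat_lit 5) (nat_lit 89) (nat_lit 148) (nat_lit 153)) (PT.lf (nat_lit 5016) (nat_lit 6) (nat_lit 66) (nat_lit 5) (nat_lit 90) (nat_lit 148) (nat_lit 152)))) (PT.nd (nat_lit 156) (PT.nd (nat_lit 78) (PT.lf (nat_lit 5320) (nat_lit 6) (nat_lit 70) (nat_lit 5) (nat_lit 91) (nat_lit 148) (nat_lit 151)) (PT.lf (nat_lit 5624) (nat_lit 6) (nat_lit 74) (nat_lit 5) (nat_lit 92) (nat_lit 148) (nat_lit 150))) (PT.nd (nat_lit 78) (PT.lf (nat_lit 5928) (nat_lit 6) (nat_lit 78) (nat_lit 5) (nat_lit 93) (nat_lit 148) (nat_lit 149)) (PT.lf (nat_lit 6232) (nat_lit 3) (nat_lit 82) (nat_lit 4) (nat_lit 94)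 (nat_lit 148) (nat_lit 148))))) (PT.nd (nat_lit 234) (PT.nd (nat_lit 78) (PT.lf (nat_lit 6536) (nat_lit 6) (nat_lit 86) (nat_lit 4) (nat_lit 95) (nat_lit 148) (nat_lit 147)) (PT.nd (nat_lit 78) (PT.lf (nat_lit 6764) (nat_lit 6) (nat_lit 89) (nat_lit 4) (nat_lit 96) (nat_lit 148) (nat_lit 146)) (PT.lf (nat_lit 7068) (nat_lit 6) (nat_lit 93) (nat_lit 4) (nat_lit 97) (nat_lit 148) (nat_lit 145)))) (PT.nd (nat_lit 156) (PT.nd (nat_lit 78) (PT.lf (nat_lit 7372) (nat_lit 6) (nat_lit 97) (nat_lit 4) (nat_lit 98) (nat_lit 148) (nat_lit 144)) (PT.lf (nat_lit 7676) (nat_lit 6) (nat_lit 101) (nat_lit 4) (nat_lit 99) (nat_lit 148) (nat_lit 143))) (PT.nd (nat_lit 78) (PT.lf (nat_lit 7980) (nat_lit 6) (nat_lit 105) (nat_lit 4) (nat_lit 100) (nat_lit 148) (nat_lit 142)) (PT.lf (nat_lit 8360) (nat_lit 6) (nat_lit 110) (nat_lit 4) (nat_lit 101) (nat_lit 148) (nat_lit 141)))))) (PT.nd (nat_lit 2964) (PT.nd (nat_lit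 234) (PT.nd (nat_lit 78) (PT.lf (nat_lit 8740) (nat_lit 6) (nat_lit 115) (nat_lit 4) (nat_lit 102) (nat_lit 148) (nat_lit 140)) (PT.nd (nat_lit 78) (PT.lf (nat_lit 9120) (nat_lit 6) (nat_lit 120) (nat_lit 4) (nat_lit 103) (nat_lit 148) (nat_lit 139)) (PT.lf (nat_lit 9500) (nat_lit 6) (nat_lit 125) (nat_lit 4) (nat_lit 104) (nat_lit 148) (nat_lit 138)))) (PT.nd (nat_lit 2574) (PT.nd (nat_lit 2496) (PT.lf (nat_lit 9956) (nat_lit 6) (nat_lit 131) (nat_lit 4) (nat_lit 105) (nat_lit 148) (nat_lit 137)) (PT.lf (nat_lit 9956) (nat_lit 6) (nat_lit 131) (nat_lit 2) (nat_lit 137) (nat_lit 148) (nat_lit 105))) (PT.nd (nat_lit 78) (PT.lf (nat_lit 9500) (nat_lit 6) (nat_lit 125) (nat_lit 2) (nat_lit 138) (nat_lit 148) (nat_lit 104)) (PT.lf (nat_lit 9120) (nat_lit 6) (nat_lit 120) (nat_lit 2) (nat_lit 139) (nat_lit 148) (nat_lit 103))))) (PT.nd (nat_lit 234) (PT.nd (nat_lit 78) (PT.lf (nat_lit 8740) (nat_lit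 6) (nat_lit 115) (nat_lit 2) (nat_lit 140) (nat_lit 148) (nat_lit 102)) (PT.nd (nat_lit 78) (PT.lf (nat_lit 8360) (nat_lit 6) (nat_lit 110) (nat_lit 2) (nat_lit 141) (nat_lit 148) (nat_lit 101)) (PT.lf (nat_lit 7980) (nat_lit 6) (nat_lit 105) (nat_lit 2) (nat_lit 142) (nat_lit 148) (nat_lit 100)))) (PT.nd (nat_lit 156) (PT.nd (nat_lit 78) (PT.lf (nat_lit 7676) (nat_lit 6) (nat_lit 101) (nat_lit 2) (nat_lit 143) (nat_lit 148) (nat_lit 99)) (PT.lf (nat_lit 7372) (nat_lit 6) (nat_lit 97) (nat_lit 2) (nat_lit 144) (nat_lit 148) (nat_lit 98))) (PT.nd (nat_lit 78) (PT.lf (nat_lit 7068) (nat_lit 6) (nat_lit 93) (nat_lit 2) (nat_lit 145) (nat_lit 148) (nat_lit 97)) (PT.lf (nat_lit 6764) (nat_lit 6) (nat_lit 89) (nat_lit 2) (nat_lit 146) (nat_lit 148) (nat_lit 96))))))) (PT.nd (nat_lit 36504) (PT.nd (nat_lit 35958) (PT.nd (nat_lit 234) (PT.nd (nat_lit 78) (PT.lf (nat_lit 6536) (nat_lit 6) (nat_lit 86) (nat_lit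 2) (nat_lit 147) (nat_lit 148) (nat_lit 95)) (PT.nd (nat_lit 78) (PT.lf (nat_lit 6232) (nat_lit 3) (nat_lit 82) (nat_lit 0) (nat_lit 148) (nat_lit 148) (nat_lit 94)) (PT.lf (nat_lit 5928) (nat_lit 6) (nat_lit 78) (nat_lit 0) (nat_lit 149) (nat_lit 148) (nat_lit 93)))) (PT.nd (nat_lit 156) (PT.nd (nat_lit 78) (PT.lf (nat_lit 5624) (nat_lit 6) (nat_lit 74) (nat_lit 0) (nat_lit 150) (nat_lit 148) (nat_lit 92)) (PT.lf (nat_lit 5320) (nat_lit 6) (nat_lit 70) (nat_lit 0) (nat_lit 151) (nat_lit 148) (nat_lit 91))) (PT.nd (nat_lit 78) (PT.lf (nat_lit 5016) (nat_lit 6) (nat_lit 66) (nat_lit 0) (nat_lit 152) (nat_lit 148) (nat_lit 90)) (PT.lf (nat_lit 4712) (nat_lit 6) (nat_lit 62) (nat_lit 0) (nat_lit 153) (nat_lit 148) (nat_lit 89))))) (PT.nd (nat_lit 234) (PT.nd (nat_lit 78) (PT.lf (nat_lit 4256) (nat_lit 6) (nat_lit 56) (nat_lit 5) (nat_lit 87) (nat_lit 149) (nat_lit 154)) (PT.nd (nat_lit 78) (PT.lf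 (nat_lit 4484) (nat_lit 6) (nat_lit 59) (nat_lit 5) (nat_lit 88) (nat_lit 149) (nat_lit 153)) (PT.lf (nat_lit 4788) (nat_lit 6) (nat_lit 63) (nat_lit 5) (nat_lit 89) (nat_lit 149) (nat_lit 152)))) (PT.nd (nat_lit 156) (PT.nd (nat_lit 78) (PT.lf (nat_lit 5092) (nat_lit 6) (nat_lit 67) (nat_lit 5) (nat_lit 90) (nat_lit 149) (nat_lit 151)) (PT.lf (nat_lit 5396) (nat_lit 6) (nat_lit 71) (nat_lit 5) (nat_lit 91) (nat_lit 149) (nat_lit 150))) (PT.nd (nat_lit 78) (PT.lf (nat_lit 5700) (nat_lit 3) (nat_lit 75) (nat_lit 4) (nat_lit 92) (nat_lit 149) (nat_lit 149)) (PT.lf (nat_lit 5928) (nat_lit 6) (nat_lit 78) (nat_lit 4) (nat_lit 93) (nat_lit 149) (nat_lit 148)))))) (PT.nd (nat_lit 546) (PT.nd (nat_lit 234) (PT.nd (nat_lit 78) (PT.lf (nat_lit 6156) (nat_lit 6) (nat_lit 81) (nat_lit 4) (nat_lit 94) (nat_lit 149) (nat_lit 147)) (PT.nd (nat_lit 78) (PT.lf (nat_lit 6460) (nat_lit 6) (nat_lit 85) (nat_lit 4)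 (nat_lit 95) (nat_lit 149) (nat_lit 146)) (PT.lf (nat_lit 6688) (nat_lit 6) (nat_lit 88) (nat_lit 4) (nat_lit 96) (nat_lit 149) (nat_lit 145)))) (PT.nd (nat_lit 156) (PT.nd (nat_lit 78) (PT.lf (nat_lit 6992) (nat_lit 6) (nat_lit 92) (nat_lit 4) (nat_lit 97) (nat_lit 149) (nat_lit 144)) (PT.lf (nat_lit 7296) (nat_lit 6) (nat_lit 96) (nat_lit 4) (nat_lit 98) (nat_lit 149) (nat_lit 143))) (PT.nd (nat_lit 78) (PT.lf (nat_lit 7600) (nat_lit 6) (nat_lit 100) (nat_lit 4) (nat_lit 99) (nat_lit 149) (nat_lit 142)) (PT.lf (nat_lit 7904) (nat_lit 6) (nat_lit 104) (nat_lit 4) (nat_lit 100) (nat_lit 149) (nat_lit 141))))) (PT.nd (nat_lit 3198) (PT.nd (nat_lit 3042) (PT.lf (nat_lit 8284) (nat_lit 6) (nat_lit 109) (nat_lit 4) (nat_lit 101) (nat_lit 149) (nat_lit 140)) (PT.nd (nat_lit 78) (PT.lf (nat_lit 8284) (nat_lit 6) (nat_lit 109) (nat_lit 2) (nat_lit 140) (nat_lit 149) (nat_lit 101)) (PT.lf (nat_lit 7904)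 (nat_lit 6) (nat_lit 104) (nat_lit 2) (nat_lit 141) (nat_lit 149) (nat_lit 100)))) (PT.nd (nat_lit 156) (PT.nd (nat_lit 78) (PT.lf (nat_lit 7600) (nat_lit 6) (nat_lit 100) (nat_lit 2) (nat_lit 142) (nat_lit 149) (nat_lit 99)) (PT.lf (nat_lit 7296) (nat_lit 6) (nat_lit 96) (nat_lit 2) (nat_lit 143) (nat_lit 149) (nat_lit 98))) (PT.nd (nat_lit 78) (PT.lf (nat_lit 6992) (nat_lit 6) (nat_lit 92) (nat_lit 2) (nat_lit 144) (nat_lit 149) (nat_lit 97)) (PT.lf (nat_lit 6688) (nat_lit 6) (nat_lit 88) (nat_lit 2) (nat_lit 145) (nat_lit 149) (nat_lit 96))))))))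
noncomputable def pc28 : PT := (PT.nd (nat_lit 40794) (PT.nd (nat_lit 36348) (PT.nd (nat_lit 546) (PT.nd (nat_lit 234) (PT.nd (nat_lit 78) (PT.lf (nat_lit 6460) (nat_lit 6) (nat_lit 85) (nat_lit 2) (nat_lit 146) (nat_lit 149) (nat_lit 95)) (PT.nd (nat_lit 78) (PT.lf (nat_lit 6156) (nat_lit 6) (nat_lit 81) (nat_lit 2) (nat_lit 147) (nat_lit 149) (nat_lit 94)) (PT.lf (nat_lit 5928) (nat_lit 6) (nat_lit 78) (nat_lit 2) (nat_lit 148) (nat_lit 149) (nat_lit 93)))) (PT.nd (nat_lit 156) (PT.nd (nat_lit 78) (PT.lf (nat_lit 5700) (nat_lit 3) (nat_lit 75) (nat_lit 0) (nat_lit 149) (nat_lit 149) (nat_lit 92)) (PT.lf (nat_lit 5396) (nat_lit 6) (nat_lit 71) (nat_lit 0) (nat_lit 150) (nat_lit 149) (nat_lit 91))) (PT.nd (nat_lit 78) (PT.lf (nat_lit 5092) (nat_lit 6) (nat_lit 67) (nat_lit 0) (nat_lit 151) (nat_lit 149) (nat_lit 90)) (PT.lf (nat_lit 4788) (nat_lit 6) (nat_lit 63) (nat_lit 0) (nat_lit 152) (nat_lit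 149) (nat_lit 89))))) (PT.nd (nat_lit 35490) (PT.nd (nat_lit 78) (PT.lf (nat_lit 4484) (nat_lit 6) (nat_lit 59) (nat_lit 0) (nat_lit 153) (nat_lit 149) (nat_lit 88)) (PT.nd (nat_lit 35334) (PT.lf (nat_lit 4256) (nat_lit 6) (nat_lit 56) (nat_lit 0) (nat_lit 154) (nat_lit 149) (nat_lit 87)) (PT.lf (nat_lit 4028) (nat_lit 6) (nat_lit 53) (nat_lit 5) (nat_lit 86) (nat_lit 150) (nat_lit 154)))) (PT.nd (nat_lit 156) (PT.nd (nat_lit 78) (PT.lf (nat_lit 4332) (nat_lit 6) (nat_lit 57) (nat_lit 5) (nat_lit 87) (nat_lit 150) (nat_lit 153)) (PT.lf (nat_lit 4560) (nat_lit 6) (nat_lit 60) (nat_lit 5) (nat_lit 88) (nat_lit 150) (nat_lit 152))) (PT.nd (nat_lit 78) (PT.lf (nat_lit 4864) (nat_lit 6) (nat_lit 64) (nat_lit 5) (nat_lit 89) (nat_lit 150) (nat_lit 151)) (PT.lf (nat_lit 5168) (nat_lit 3) (nat_lit 68) (nat_lit 4) (nat_lit 90) (nat_lit 150) (nat_lit 150)))))) (PT.nd (nat_lit 546) (PT.nd (nat_lit 234) (PT.nd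 (nat_lit 78) (PT.lf (nat_lit 5396) (nat_lit 6) (nat_lit 71) (nat_lit 4) (nat_lit 91) (nat_lit 150) (nat_lit 149)) (PT.nd (nat_lit 78) (PT.lf (nat_lit 5624) (nat_lit 6) (nat_lit 74) (nat_lit 4) (nat_lit 92) (nat_lit 150) (nat_lit 148)) (PT.lf (nat_lit 5852) (nat_lit 6) (nat_lit 77) (nat_lit 4) (nat_lit 93) (nat_lit 150) (nat_lit 147)))) (PT.nd (nat_lit 156) (PT.nd (nat_lit 78) (PT.lf (nat_lit 6080) (nat_lit 6) (nat_lit 80) (nat_lit 4) (nat_lit 94) (nat_lit 150) (nat_lit 146)) (PT.lf (nat_lit 6384) (nat_lit 6) (nat_lit 84) (nat_lit 4) (nat_lit 95) (nat_lit 150) (nat_lit 145))) (PT.nd (nat_lit 78) (PT.lf (nat_lit 6612) (nat_lit 6) (nat_lit 87) (nat_lit 4) (nat_lit 96) (nat_lit 150) (nat_lit 144)) (PT.lf (nat_lit 6916) (nat_lit 6) (nat_lit 91) (nat_lit 4) (nat_lit 97) (nat_lit 150) (nat_lit 143))))) (PT.nd (nat_lit 3588) (PT.nd (nat_lit 3432) (PT.lf (nat_lit 7220) (nat_lit 6) (nat_lit 95) (nat_lit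 4) (nat_lit 98) (nat_lit 150) (nat_lit 142)) (PT.nd (nat_lit 78) (PT.lf (nat_lit 7220) (nat_lit 6) (nat_lit 95) (nat_lit 2) (nat_lit 142) (nat_lit 150) (nat_lit 98)) (PT.lf (nat_lit 6916) (nat_lit 6) (nat_lit 91) (nat_lit 2) (nat_lit 143) (nat_lit 150) (nat_lit 97)))) (PT.nd (nat_lit 156) (PT.nd (nat_lit 78) (PT.lf (nat_lit 6612) (nat_lit 6) (nat_lit 87) (nat_lit 2) (nat_lit 144) (nat_lit 150) (nat_lit 96)) (PT.lf (nat_lit 6384) (nat_lit 6) (nat_lit 84) (nat_lit 2) (nat_lit 145) (nat_lit 150) (nat_lit 95))) (PT.nd (nat_lit 78) (PT.lf (nat_lit 6080) (nat_lit 6) (nat_lit 80) (nat_lit 2) (nat_lit 146) (nat_lit 150) (nat_lit 94)) (PT.lf (nat_lit 5852) (nat_lit 6) (nat_lit 77) (nat_lit 2) (nat_lit 147) (nat_lit 150) (nat_lit 93))))))) (PT.nd (nat_lit 36192) (PT.nd (nat_lit 35646) (PT.nd (nat_lit 234) (PT.nd (nat_lit 78) (PT.lf (nat_lit 5624) (nat_lit 6) (nat_lit 74) (nat_lit 2) (nat_lit 148) (nat_lit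 150) (nat_lit 92)) (PT.nd (nat_lit 78) (PT.lf (nat_lit 5396) (nat_lit 6) (nat_lit 71) (nat_lit 2) (nat_lit 149) (nat_lit 150) (nat_lit 91)) (PT.lf (nat_lit 5168) (nat_lit 3) (nat_lit 68) (nat_lit 0) (nat_lit 150) (nat_lit 150) (nat_lit 90)))) (PT.nd (nat_lit 156) (PT.nd (nat_lit 78) (PT.lf (nat_lit 4864) (nat_lit 6) (nat_lit 64) (nat_lit 0) (nat_lit 151) (nat_lit 150) (nat_lit 89)) (PT.lf (nat_lit 4560) (nat_lit 6) (nat_lit 60) (nat_lit 0) (nat_lit 152) (nat_lit 150) (nat_lit 88))) (PT.nd (nat_lit 78) (PT.lf (nat_lit 4332) (nat_lit 6) (nat_lit 57) (nat_lit 0) (nat_lit 153) (nat_lit 150) (nat_lit 87)) (PT.lf (nat_lit 4028) (nat_lit 6) (nat_lit 53) (nat_lit 0) (nat_lit 154) (nat_lit 150) (nat_lit 86))))) (PT.nd (nat_lit 234) (PT.nd (nat_lit 78) (PT.lf (nat_lit 3572) (nat_lit 6) (nat_lit 47) (nat_lit 5) (nat_lit 84) (nat_lit 151) (nat_lit 155)) (PT.nd (nat_lit 78) (PT.lf (nat_lit 3876) (nat_lit 6)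 (nat_lit 51) (nat_lit 5) (nat_lit 85) (nat_lit 151) (nat_lit 154)) (PT.lf (nat_lit 4104) (nat_lit 6) (nat_lit 54) (nat_lit 5) (nat_lit 86) (nat_lit 151) (nat_lit 153)))) (PT.nd (nat_lit 156) (PT.nd (nat_lit 78) (PT.lf (nat_lit 4408) (nat_lit 6) (nat_lit 58) (nat_lit 5) (nat_lit 87) (nat_lit 151) (nat_lit 152)) (PT.lf (nat_lit 4636) (nat_lit 3) (nat_lit 61) (nat_lit 4) (nat_lit 88) (nat_lit 151) (nat_lit 151))) (PT.nd (nat_lit 78) (PT.lf (nat_lit 4864) (nat_lit 6) (nat_lit 64) (nat_lit 4) (nat_lit 89) (nat_lit 151) (nat_lit 150)) (PT.lf (nat_lit 5092) (nat_lit 6) (nat_lit 67) (nat_lit 4) (nat_lit 90) (nat_lit 151) (nat_lit 149)))))) (PT.nd (nat_lit 4290) (PT.nd (nat_lit 234) (PT.nd (nat_lit 78) (PT.lf (nat_lit 5320) (nat_lit 6) (nat_lit 70) (nat_lit 4) (nat_lit 91) (nat_lit 151) (nat_lit 148)) (PT.nd (nat_lit 78) (PT.lf (nat_lit 5548) (nat_lit 6) (nat_lit 73) (nat_lit 4) (nat_lit 92) (nat_lit 151)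 (nat_lit 147)) (PT.lf (nat_lit 5776) (nat_lit 6) (nat_lit 76) (nat_lit 4) (nat_lit 93) (nat_lit 151) (nat_lit 146)))) (PT.nd (nat_lit 3900) (PT.nd (nat_lit 78) (PT.lf (nat_lit 6004) (nat_lit 6) (nat_lit 79) (nat_lit 4) (nat_lit 94) (nat_lit 151) (nat_lit 145)) (PT.lf (nat_lit 6308) (nat_lit 6) (nat_lit 83) (nat_lit 4) (nat_lit 95) (nat_lit 151) (nat_lit 144))) (PT.nd (nat_lit 78) (PT.lf (nat_lit 6308) (nat_lit 6) (nat_lit 83) (nat_lit 2) (nat_lit 144) (nat_lit 151) (nat_lit 95)) (PT.lf (nat_lit 6004) (nat_lit 6) (nat_lit 79) (nat_lit 2) (nat_lit 145) (nat_lit 151) (nat_lit 94))))) (PT.nd (nat_lit 234) (PT.nd (nat_lit 78) (PT.lf (nat_lit 5776) (nat_lit 6) (nat_lit 76) (nat_lit 2) (nat_lit 146) (nat_lit 151) (nat_lit 93)) (PT.nd (nat_lit 78) (PT.lf (nat_lit 5548) (nat_lit 6) (nat_lit 73) (nat_lit 2) (nat_lit 147) (nat_lit 151) (nat_lit 92)) (PT.lf (nat_lit 5320) (nat_lit 6) (nat_lit 70) (nat_lit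 2) (nat_lit 148) (nat_lit 151) (nat_lit 91)))) (PT.nd (nat_lit 156) (PT.nd (nat_lit 78) (PT.lf (nat_lit 5092) (nat_lit 6) (nat_lit 67) (nat_lit 2) (nat_lit 149) (nat_lit 151) (nat_lit 90)) (PT.lf (nat_lit 4864) (nat_lit 6) (nat_lit 64) (nat_lit 2) (nat_lit 150) (nat_lit 151) (nat_lit 89))) (PT.nd (nat_lit 78) (PT.lf (nat_lit 4636) (nat_lit 3) (nat_lit 61) (nat_lit 0) (nat_lit 151) (nat_lit 151) (nat_lit 88)) (PT.lf (nat_lit 4408) (nat_lit 6) (nat_lit 58) (nat_lit 0) (nat_lit 152) (nat_lit 151) (nat_lit 87))))))))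
noncomputable def pc29 : PT := (PT.nd (nat_lit 75894) (PT.nd (nat_lit 40092) (PT.nd (nat_lit 35412) (PT.nd (nat_lit 35100) (PT.nd (nat_lit 78) (PT.lf (nat_lit 4104) (nat_lit 6) (nat_lit 54) (nat_lit 0) (nat_lit 153) (nat_lit 151) (nat_lit 86)) (PT.nd (nat_lit 78) (PT.lf (nat_lit 3876) (nat_lit 6) (nat_lit 51) (nat_lit 0) (nat_lit 154) (nat_lit 151) (nat_lit 85)) (PT.lf (nat_lit 3572) (nat_lit 6) (nat_lit 47) (nat_lit 0) (nat_lit 155) (nat_lit 151) (nat_lit 84)))) (PT.nd (nat_lit 156) (PT.nd (nat_lit 78) (PT.lf (nat_lit 3192) (nat_lit 6) (nat_lit 42) (nat_lit 5) (nat_lit 82) (nat_lit 152) (nat_lit 156)) (PT.lf (nat_lit 3420) (nat_lit 6) (nat_lit 45) (nat_lit 5) (nat_lit 83) (nat_lit 152) (nat_lit 155))) (PT.nd (nat_lit 78) (PT.lf (nat_lit 3648) (nat_lit 6) (nat_lit 48) (nat_lit 5) (nat_lit 84) (nat_lit 152) (nat_lit 154)) (PT.lf (nat_lit 3952) (nat_lit 6) (nat_lit 52) (nat_lit 5) (nat_lit 85) (nat_lit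 152) (nat_lit 153))))) (PT.nd (nat_lit 234) (PT.nd (nat_lit 78) (PT.lf (nat_lit 4180) (nat_lit 3) (nat_lit 55) (nat_lit 4) (nat_lit 86) (nat_lit 152) (nat_lit 152)) (PT.nd (nat_lit 78) (PT.lf (nat_lit 4408) (nat_lit 6) (nat_lit 58) (nat_lit 4) (nat_lit 87) (nat_lit 152) (nat_lit 151)) (PT.lf (nat_lit 4560) (nat_lit 6) (nat_lit 60) (nat_lit 4) (nat_lit 88) (nat_lit 152) (nat_lit 150)))) (PT.nd (nat_lit 156) (PT.nd (nat_lit 78) (PT.lf (nat_lit 4788) (nat_lit 6) (nat_lit 63) (nat_lit 4) (nat_lit 89) (nat_lit 152) (nat_lit 149)) (PT.lf (nat_lit 5016) (nat_lit 6) (nat_lit 66) (nat_lit 4) (nat_lit 90) (nat_lit 152) (nat_lit 148))) (PT.nd (nat_lit 78) (PT.lf (nat_lit 5244) (nat_lit 6) (nat_lit 69) (nat_lit 4) (nat_lit 91) (nat_lit 152) (nat_lit 147)) (PT.lf (nat_lit 5472) (nat_lit 6) (nat_lit 72) (nat_lit 4) (nat_lit 92) (nat_lit 152) (nat_lit 146)))))) (PT.nd (nat_lit 546) (PT.nd (nat_lit 234) (PT.nd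 (nat_lit 78) (PT.lf (nat_lit 5472) (nat_lit 6) (nat_lit 72) (nat_lit 2) (nat_lit 146) (nat_lit 152) (nat_lit 92)) (PT.nd (nat_lit 78) (PT.lf (nat_lit 5244) (nat_lit 6) (nat_lit 69) (nat_lit 2) (nat_lit 147) (nat_lit 152) (nat_lit 91)) (PT.lf (nat_lit 5016) (nat_lit 6) (nat_lit 66) (nat_lit 2) (nat_lit 148) (nat_lit 152) (nat_lit 90)))) (PT.nd (nat_lit 156) (PT.nd (nat_lit 78) (PT.lf (nat_lit 4788) (nat_lit 6) (nat_lit 63) (nat_lit 2) (nat_lit 149) (nat_lit 152) (nat_lit 89)) (PT.lf (nat_lit 4560) (nat_lit 6) (nat_lit 60) (nat_lit 2) (nat_lit 150) (nat_lit 152) (nat_lit 88))) (PT.nd (nat_lit 78) (PT.lf (nat_lit 4408) (nat_lit 6) (nat_lit 58) (nat_lit 2) (nat_lit 151) (nat_lit 152) (nat_lit 87)) (PT.lf (nat_lit 4180) (nat_lit 3) (nat_lit 55) (nat_lit 0) (nat_lit 152) (nat_lit 152) (nat_lit 86))))) (PT.nd (nat_lit 234) (PT.nd (nat_lit 78) (PT.lf (nat_lit 3952) (nat_lit 6) (nat_lit 52) (nat_lit 0)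 (nat_lit 153) (nat_lit 152) (nat_lit 85)) (PT.nd (nat_lit 78) (PT.lf (nat_lit 3648) (nat_lit 6) (nat_lit 48) (nat_lit 0) (nat_lit 154) (nat_lit 152) (nat_lit 84)) (PT.lf (nat_lit 3420) (nat_lit 6) (nat_lit 45) (nat_lit 0) (nat_lit 155) (nat_lit 152) (nat_lit 83)))) (PT.nd (nat_lit 34866) (PT.nd (nat_lit 34788) (PT.lf (nat_lit 3192) (nat_lit 6) (nat_lit 42) (nat_lit 0) (nat_lit 156) (nat_lit 152) (nat_lit 82)) (PT.lf (nat_lit 3040) (nat_lit 6) (nat_lit 40) (nat_lit 5) (nat_lit 81) (nat_lit 153) (nat_lit 156))) (PT.nd (nat_lit 78) (PT.lf (nat_lit 3268) (nat_lit 6) (nat_lit 43) (nat_lit 5) (nat_lit 82) (nat_lit 153) (nat_lit 155)) (PT.lf (nat_lit 3496) (nat_lit 6) (nat_lit 46) (nat_lit 5) (nat_lit 83) (nat_lit 153) (nat_lit 154))))))) (PT.nd (nat_lit 5460) (PT.nd (nat_lit 4914) (PT.nd (nat_lit 234) (PT.nd (nat_lit 78) (PT.lf (nat_lit 3724) (nat_lit 3) (nat_lit 49) (nat_lit 4) (nat_lit 84) (nat_lit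 153) (nat_lit 153)) (PT.nd (nat_lit 78) (PT.lf (nat_lit 3952) (nat_lit 6) (nat_lit 52) (nat_lit 4) (nat_lit 85) (nat_lit 153) (nat_lit 152)) (PT.lf (nat_lit 4104) (nat_lit 6) (nat_lit 54) (nat_lit 4) (nat_lit 86) (nat_lit 153) (nat_lit 151)))) (PT.nd (nat_lit 156) (PT.nd (nat_lit 78) (PT.lf (nat_lit 4332) (nat_lit 6) (nat_lit 57) (nat_lit 4) (nat_lit 87) (nat_lit 153) (nat_lit 150)) (PT.lf (nat_lit 4484) (nat_lit 6) (nat_lit 59) (nat_lit 4) (nat_lit 88) (nat_lit 153) (nat_lit 149))) (PT.nd (nat_lit 78) (PT.lf (nat_lit 4712) (nat_lit 6) (nat_lit 62) (nat_lit 4) (nat_lit 89) (nat_lit 153) (nat_lit 148)) (PT.lf (nat_lit 4940) (nat_lit 6) (nat_lit 65) (nat_lit 4) (nat_lit 90) (nat_lit 153) (nat_lit 147))))) (PT.nd (nat_lit 234) (PT.nd (nat_lit 78) (PT.lf (nat_lit 4940) (nat_lit 6) (nat_lit 65) (nat_lit 2) (nat_lit 147) (nat_lit 153) (nat_lit 90)) (PT.nd (nat_lit 78) (PT.lf (nat_lit 4712) (nat_lit 6)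 (nat_lit 62) (nat_lit 2) (nat_lit 148) (nat_lit 153) (nat_lit 89)) (PT.lf (nat_lit 4484) (nat_lit 6) (nat_lit 59) (nat_lit 2) (nat_lit 149) (nat_lit 153) (nat_lit 88)))) (PT.nd (nat_lit 156) (PT.nd (nat_lit 78) (PT.lf (nat_lit 4332) (nat_lit 6) (nat_lit 57) (nat_lit 2) (nat_lit 150) (nat_lit 153) (nat_lit 87)) (PT.lf (nat_lit 4104) (nat_lit 6) (nat_lit 54) (nat_lit 2) (nat_lit 151) (nat_lit 153) (nat_lit 86))) (PT.nd (nat_lit 78) (PT.lf (nat_lit 3952) (nat_lit 6) (nat_lit 52) (nat_lit 2) (nat_lit 152) (nat_lit 153) (nat_lit 85)) (PT.lf (nat_lit 3724) (nat_lit 3) (nat_lit 49) (nat_lit 0) (nat_lit 153) (nat_lit 153) (nat_lit 84)))))) (PT.nd (nat_lit 35100) (PT.nd (nat_lit 34788) (PT.nd (nat_lit 78) (PT.lf (nat_lit 3496) (nat_lit 6) (nat_lit 46) (nat_lit 0) (nat_lit 154) (nat_lit 153) (nat_lit 83)) (PT.nd (nat_lit 78) (PT.lf (nat_lit 3268) (nat_lit 6) (nat_lit 43) (nat_lit 0) (nat_lit 155) (nat_lit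 153) (nat_lit 82)) (PT.lf (nat_lit 3040) (nat_lit 6) (nat_lit 40) (nat_lit 0) (nat_lit 156) (nat_lit 153) (nat_lit 81)))) (PT.nd (nat_lit 156) (PT.nd (nat_lit 78) (PT.lf (nat_lit 2660) (nat_lit 6) (nat_lit 35) (nat_lit 5) (nat_lit 79) (nat_lit 154) (nat_lit 157)) (PT.lf (nat_lit 2888) (nat_lit 6) (nat_lit 38) (nat_lit 5) (nat_lit 80) (nat_lit 154) (nat_lit 156))) (PT.nd (nat_lit 78) (PT.lf (nat_lit 3116) (nat_lit 6) (nat_lit 41) (nat_lit 5) (nat_lit 81) (nat_lit 154) (nat_lit 155)) (PT.lf (nat_lit 3344) (nat_lit 3) (nat_lit 44) (nat_lit 4) (nat_lit 82) (nat_lit 154) (nat_lit 154))))) (PT.nd (nat_lit 234) (PT.nd (nat_lit 78) (PT.lf (nat_lit 3496) (nat_lit 6) (nat_lit 46) (nat_lit 4) (nat_lit 83) (nat_lit 154) (nat_lit 153)) (PT.nd (nat_lit 78) (PT.lf (nat_lit 3648) (nat_lit 6) (nat_lit 48) (nat_lit 4) (nat_lit 84) (nat_lit 154) (nat_lit 152)) (PT.lf (nat_lit 3876) (nat_lit 6) (nat_lit 51) (nat_lit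 4) (nat_lit 85) (nat_lit 154) (nat_lit 151)))) (PT.nd (nat_lit 4914) (PT.nd (nat_lit 78) (PT.lf (nat_lit 4028) (nat_lit 6) (nat_lit 53) (nat_lit 4) (nat_lit 86) (nat_lit 154) (nat_lit 150)) (PT.lf (nat_lit 4256) (nat_lit 6) (nat_lit 56) (nat_lit 4) (nat_lit 87) (nat_lit 154) (nat_lit 149))) (PT.nd (nat_lit 78) (PT.lf (nat_lit 4256) (nat_lit 6) (nat_lit 56) (nat_lit 2) (nat_lit 149) (nat_lit 154) (nat_lit 87)) (PT.lf (nat_lit 4028) (nat_lit 6) (nat_lit 53) (nat_lit 2) (nat_lit 150) (nat_lit 154) (nat_lit 86))))))))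
noncomputable def pc30 : PT := (PT.nd (nat_lit 75738) (PT.nd (nat_lit 35412) (PT.nd (nat_lit 34866) (PT.nd (nat_lit 234) (PT.nd (nat_lit 78) (PT.lf (nat_lit 3876) (nat_lit 6) (nat_lit 51) (nat_lit 2) (nat_lit 151) (nat_lit 154) (nat_lit 85)) (PT.nd (nat_lit 78) (PT.lf (nat_lit 3648) (nat_lit 6) (nat_lit 48) (nat_lit 2) (nat_lit 152) (nat_lit 154) (nat_lit 84)) (PT.lf (nat_lit 3496) (nat_lit 6) (nat_lit 46) (nat_lit 2) (nat_lit 153) (nat_lit 154) (nat_lit 83)))) (PT.nd (nat_lit 156) (PT.nd (nat_lit 78) (PT.lf (nat_lit 3344) (nat_lit 3) (nat_lit 44) (nat_lit 0) (nat_lit 154) (nat_lit 154) (nat_lit 82)) (PT.lf (nat_lit 3116) (nat_lit 6) (nat_lit 41) (nat_lit 0) (nat_lit 155) (nat_lit 154) (nat_lit 81))) (PT.nd (nat_lit 78) (PT.lf (nat_lit 2888) (nat_lit 6) (nat_lit 38) (nat_lit 0) (nat_lit 156) (nat_lit 154) (nat_lit 80)) (PT.lf (nat_lit 2660) (nat_lit 6) (nat_lit 35) (nat_lit 0) (nat_lit 157) (nat_lit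 154) (nat_lit 79))))) (PT.nd (nat_lit 234) (PT.nd (nat_lit 78) (PT.lf (nat_lit 2356) (nat_lit 6) (nat_lit 31) (nat_lit 5) (nat_lit 77) (nat_lit 155) (nat_lit 158)) (PT.nd (nat_lit 78) (PT.lf (nat_lit 2508) (nat_lit 6) (nat_lit 33) (nat_lit 5) (nat_lit 78) (nat_lit 155) (nat_lit 157)) (PT.lf (nat_lit 2736) (nat_lit 6) (nat_lit 36) (nat_lit 5) (nat_lit 79) (nat_lit 155) (nat_lit 156)))) (PT.nd (nat_lit 156) (PT.nd (nat_lit 78) (PT.lf (nat_lit 2964) (nat_lit 3) (nat_lit 39) (nat_lit 4) (nat_lit 80) (nat_lit 155) (nat_lit 155)) (PT.lf (nat_lit 3116) (nat_lit 6) (nat_lit 41) (nat_lit 4) (nat_lit 81) (nat_lit 155) (nat_lit 154))) (PT.nd (nat_lit 78) (PT.lf (nat_lit 3268) (nat_lit 6) (nat_lit 43) (nat_lit 4) (nat_lit 82) (nat_lit 155) (nat_lit 153)) (PT.lf (nat_lit 3420) (nat_lit 6) (nat_lit 45) (nat_lit 4) (nat_lit 83) (nat_lit 155) (nat_lit 152)))))) (PT.nd (nat_lit 5694) (PT.nd (nat_lit 5382) (PT.nd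 (nat_lit 5226) (PT.lf (nat_lit 3572) (nat_lit 6) (nat_lit 47) (nat_lit 4) (nat_lit 84) (nat_lit 155) (nat_lit 151)) (PT.nd (nat_lit 78) (PT.lf (nat_lit 3572) (nat_lit 6) (nat_lit 47) (nat_lit 2) (nat_lit 151) (nat_lit 155) (nat_lit 84)) (PT.lf (nat_lit 3420) (nat_lit 6) (nat_lit 45) (nat_lit 2) (nat_lit 152) (nat_lit 155) (nat_lit 83)))) (PT.nd (nat_lit 156) (PT.nd (nat_lit 78) (PT.lf (nat_lit 3268) (nat_lit 6) (nat_lit 43) (nat_lit 2) (nat_lit 153) (nat_lit 155) (nat_lit 82)) (PT.lf (nat_lit 3116) (nat_lit 6) (nat_lit 41) (nat_lit 2) (nat_lit 154) (nat_lit 155) (nat_lit 81))) (PT.nd (nat_lit 78) (PT.lf (nat_lit 2964) (nat_lit 3) (nat_lit 39) (nat_lit 0) (nat_lit 155) (nat_lit 155) (nat_lit 80)) (PT.lf (nat_lit 2736) (nat_lit 6) (nat_lit 36) (nat_lit 0) (nat_lit 156) (nat_lit 155) (nat_lit 79))))) (PT.nd (nat_lit 34320) (PT.nd (nat_lit 78) (PT.lf (nat_lit 2508) (nat_lit 6) (nat_lit 33) (nat_lit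 0) (nat_lit 157) (nat_lit 155) (nat_lit 78)) (PT.nd (nat_lit 34164) (PT.lf (nat_lit 2356) (nat_lit 6) (nat_lit 31) (nat_lit 0) (nat_lit 158) (nat_lit 155) (nat_lit 77)) (PT.lf (nat_lit 2052) (nat_lit 6) (nat_lit 27) (nat_lit 5) (nat_lit 75) (nat_lit 156) (nat_lit 159)))) (PT.nd (nat_lit 156) (PT.nd (nat_lit 78) (PT.lf (nat_lit 2204) (nat_lit 6) (nat_lit 29) (nat_lit 5) (nat_lit 76) (nat_lit 156) (nat_lit 158)) (PT.lf (nat_lit 2432) (nat_lit 6) (nat_lit 32) (nat_lit 5) (nat_lit 77) (nat_lit 156) (nat_lit 157))) (PT.nd (nat_lit 78) (PT.lf (nat_lit 2584) (nat_lit 3) (nat_lit 34) (nat_lit 4) (nat_lit 78) (nat_lit 156) (nat_lit 156)) (PT.lf (nat_lit 2736) (nat_lit 6) (nat_lit 36) (nat_lit 4) (nat_lit 79) (nat_lit 156) (nat_lit 155))))))) (PT.nd (nat_lit 40404) (PT.nd (nat_lit 5928) (PT.nd (nat_lit 5616) (PT.nd (nat_lit 78) (PT.lf (nat_lit 2888) (nat_lit 6) (nat_lit 38) (nat_lit 4) (nat_lit 80) (nat_lit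 156) (nat_lit 154)) (PT.nd (nat_lit 78) (PT.lf (nat_lit 3040) (nat_lit 6) (nat_lit 40) (nat_lit 4) (nat_lit 81) (nat_lit 156) (nat_lit 153)) (PT.lf (nat_lit 3192) (nat_lit 6) (nat_lit 42) (nat_lit 4) (nat_lit 82) (nat_lit 156) (nat_lit 152)))) (PT.nd (nat_lit 156) (PT.nd (nat_lit 78) (PT.lf (nat_lit 3192) (nat_lit 6) (nat_lit 42) (nat_lit 2) (nat_lit 152) (nat_lit 156) (nat_lit 82)) (PT.lf (nat_lit 3040) (nat_lit 6) (nat_lit 40) (nat_lit 2) (nat_lit 153) (nat_lit 156) (nat_lit 81))) (PT.nd (nat_lit 78) (PT.lf (nat_lit 2888) (nat_lit 6) (nat_lit 38) (nat_lit 2) (nat_lit 154) (nat_lit 156) (nat_lit 80)) (PT.lf (nat_lit 2736) (nat_lit 6) (nat_lit 36) (nat_lit 2) (nat_lit 155) (nat_lit 156) (nat_lit 79))))) (PT.nd (nat_lit 234) (PT.nd (nat_lit 78) (PT.lf (nat_lit 2584) (nat_lit 3) (nat_lit 34) (nat_lit 0) (nat_lit 156) (nat_lit 156) (nat_lit 78)) (PT.nd (nat_lit 78) (PT.lf (nat_lit 2432) (nat_lit 6)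 (nat_lit 32) (nat_lit 0) (nat_lit 157) (nat_lit 156) (nat_lit 77)) (PT.lf (nat_lit 2204) (nat_lit 6) (nat_lit 29) (nat_lit 0) (nat_lit 158) (nat_lit 156) (nat_lit 76)))) (PT.nd (nat_lit 34086) (PT.nd (nat_lit 34008) (PT.lf (nat_lit 2052) (nat_lit 6) (nat_lit 27) (nat_lit 0) (nat_lit 159) (nat_lit 156) (nat_lit 75)) (PT.lf (nat_lit 1900) (nat_lit 6) (nat_lit 25) (nat_lit 5) (nat_lit 74) (nat_lit 157) (nat_lit 159))) (PT.nd (nat_lit 78) (PT.lf (nat_lit 2128) (nat_lit 6) (nat_lit 28) (nat_lit 5) (nat_lit 75) (nat_lit 157) (nat_lit 158)) (PT.lf (nat_lit 2280) (nat_lit 3) (nat_lit 30) (nat_lit 4) (nat_lit 76) (nat_lit 157) (nat_lit 157)))))) (PT.nd (nat_lit 6318) (PT.nd (nat_lit 6006) (PT.nd (nat_lit 78) (PT.lf (nat_lit 2432) (nat_lit 6) (nat_lit 32) (nat_lit 4) (nat_lit 77) (nat_lit 157) (nat_lit 156)) (PT.nd (nat_lit 78) (PT.lf (nat_lit 2508) (nat_lit 6) (nat_lit 33) (nat_lit 4) (nat_lit 78) (nat_lit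 157) (nat_lit 155)) (PT.lf (nat_lit 2660) (nat_lit 6) (nat_lit 35) (nat_lit 4) (nat_lit 79) (nat_lit 157) (nat_lit 154)))) (PT.nd (nat_lit 156) (PT.nd (nat_lit 78) (PT.lf (nat_lit 2660) (nat_lit 6) (nat_lit 35) (nat_lit 2) (nat_lit 154) (nat_lit 157) (nat_lit 79)) (PT.lf (nat_lit 2508) (nat_lit 6) (nat_lit 33) (nat_lit 2) (nat_lit 155) (nat_lit 157) (nat_lit 78))) (PT.nd (nat_lit 78) (PT.lf (nat_lit 2432) (nat_lit 6) (nat_lit 32) (nat_lit 2) (nat_lit 156) (nat_lit 157) (nat_lit 77)) (PT.lf (nat_lit 2280) (nat_lit 3) (nat_lit 30) (nat_lit 0) (nat_lit 157) (nat_lit 157) (nat_lit 76))))) (PT.nd (nat_lit 34008) (PT.nd (nat_lit 78) (PT.lf (nat_lit 2128) (nat_lit 6) (nat_lit 28) (nat_lit 0) (nat_lit 158) (nat_lit 157) (nat_lit 75)) (PT.nd (nat_lit 33852) (PT.lf (nat_lit 1900) (nat_lit 6) (nat_lit 25) (nat_lit 0) (nat_lit 159) (nat_lit 157) (nat_lit 74)) (PT.lf (nat_lit 1596) (nat_lit 6) (nat_lit 21)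 (nat_lit 5) (nat_lit 72) (nat_lit 158) (nat_lit 160)))) (PT.nd (nat_lit 156) (PT.nd (nat_lit 78) (PT.lf (nat_lit 1824) (nat_lit 6) (nat_lit 24) (nat_lit 5) (nat_lit 73) (nat_lit 158) (nat_lit 159)) (PT.lf (nat_lit 1976) (nat_lit 3) (nat_lit 26) (nat_lit 4) (nat_lit 74) (nat_lit 158) (nat_lit 158))) (PT.nd (nat_lit 78) (PT.lf (nat_lit 2128) (nat_lit 6) (nat_lit 28) (nat_lit 4) (nat_lit 75) (nat_lit 158) (nat_lit 157)) (PT.lf (nat_lit 2204) (nat_lit 6) (nat_lit 29) (nat_lit 4) (nat_lit 76) (nat_lit 158) (nat_lit 156))))))))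
noncomputable def pc31 : PT := (PT.nd (nat_lit 87906) (PT.nd (nat_lit 46878) (PT.nd (nat_lit 40092) (PT.nd (nat_lit 6240) (PT.nd (nat_lit 6084) (PT.lf (nat_lit 2356) (nat_lit 6) (nat_lit 31) (nat_lit 4) (nat_lit 77) (nat_lit 158) (nat_lit 155)) (PT.nd (nat_lit 78) (PT.lf (nat_lit 2356) (nat_lit 6) (nat_lit 31) (nat_lit 2) (nat_lit 155) (nat_lit 158) (nat_lit 77)) (PT.lf (nat_lit 2204) (nat_lit 6) (nat_lit 29) (nat_lit 2) (nat_lit 156) (nat_lit 158) (nat_lit 76)))) (PT.nd (nat_lit 156) (PT.nd (nat_lit 78) (PT.lf (nat_lit 2128) (nat_lit 6) (nat_lit 28) (nat_lit 2) (nat_lit 157) (nat_lit 158) (nat_lit 75)) (PT.lf (nat_lit 1976) (nat_lit 3) (nat_lit 26) (nat_lit 0) (nat_lit 158) (nat_lit 158) (nat_lit 74))) (PT.nd (nat_lit 78) (PT.lf (nat_lit 1824) (nat_lit 6) (nat_lit 24) (nat_lit 0) (nat_lit 159) (nat_lit 158) (nat_lit 73)) (PT.lf (nat_lit 1596) (nat_lit 6) (nat_lit 21) (nat_lit 0) (nat_lit 160)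 (nat_lit 158) (nat_lit 72))))) (PT.nd (nat_lit 234) (PT.nd (nat_lit 78) (PT.lf (nat_lit 1368) (nat_lit 6) (nat_lit 18) (nat_lit 5) (nat_lit 70) (nat_lit 159) (nat_lit 161)) (PT.nd (nat_lit 78) (PT.lf (nat_lit 1520) (nat_lit 6) (nat_lit 20) (nat_lit 5) (nat_lit 71) (nat_lit 159) (nat_lit 160)) (PT.lf (nat_lit 1672) (nat_lit 3) (nat_lit 22) (nat_lit 4) (nat_lit 72) (nat_lit 159) (nat_lit 159)))) (PT.nd (nat_lit 156) (PT.nd (nat_lit 78) (PT.lf (nat_lit 1824) (nat_lit 6) (nat_lit 24) (nat_lit 4) (nat_lit 73) (nat_lit 159) (nat_lit 158)) (PT.lf (nat_lit 1900) (nat_lit 6) (nat_lit 25) (nat_lit 4) (nat_lit 74) (nat_lit 159) (nat_lit 157))) (PT.nd (nat_lit 6318) (PT.lf (nat_lit 2052) (nat_lit 6) (nat_lit 27) (nat_lit 4) (nat_lit 75) (nat_lit 159) (nat_lit 156)) (PT.lf (nat_lit 2052) (nat_lit 6) (nat_lit 27) (nat_lit 2) (nat_lit 156) (nat_lit 159) (nat_lit 75)))))) (PT.nd (nat_lit 33852) (PT.nd (nat_lit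 234) (PT.nd (nat_lit 78) (PT.lf (nat_lit 1900) (nat_lit 6) (nat_lit 25) (nat_lit 2) (nat_lit 157) (nat_lit 159) (nat_lit 74)) (PT.nd (nat_lit 78) (PT.lf (nat_lit 1824) (nat_lit 6) (nat_lit 24) (nat_lit 2) (nat_lit 158) (nat_lit 159) (nat_lit 73)) (PT.lf (nat_lit 1672) (nat_lit 3) (nat_lit 22) (nat_lit 0) (nat_lit 159) (nat_lit 159) (nat_lit 72)))) (PT.nd (nat_lit 33462) (PT.nd (nat_lit 78) (PT.lf (nat_lit 1520) (nat_lit 6) (nat_lit 20) (nat_lit 0) (nat_lit 160) (nat_lit 159) (nat_lit 71)) (PT.lf (nat_lit 1368) (nat_lit 6) (nat_lit 18) (nat_lit 0) (nat_lit 161) (nat_lit 159) (nat_lit 70))) (PT.nd (nat_lit 78) (PT.lf (nat_lit 1140) (nat_lit 6) (nat_lit 15) (nat_lit 5) (nat_lit 68) (nat_lit 160) (nat_lit 162)) (PT.lf (nat_lit 1292) (nat_lit 6) (nat_lit 17) (nat_lit 5) (nat_lit 69) (nat_lit 160) (nat_lit 161))))) (PT.nd (nat_lit 6864) (PT.nd (nat_lit 78) (PT.lf (nat_lit 1444) (nat_lit 3) (nat_lit 19)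 (nat_lit 4) (nat_lit 70) (nat_lit 160) (nat_lit 160)) (PT.nd (nat_lit 78) (PT.lf (nat_lit 1520) (nat_lit 6) (nat_lit 20) (nat_lit 4) (nat_lit 71) (nat_lit 160) (nat_lit 159)) (PT.lf (nat_lit 1596) (nat_lit 6) (nat_lit 21) (nat_lit 4) (nat_lit 72) (nat_lit 160) (nat_lit 158)))) (PT.nd (nat_lit 156) (PT.nd (nat_lit 78) (PT.lf (nat_lit 1596) (nat_lit 6) (nat_lit 21) (nat_lit 2) (nat_lit 158) (nat_lit 160) (nat_lit 72)) (PT.lf (nat_lit 1520) (nat_lit 6) (nat_lit 20) (nat_lit 2) (nat_lit 159) (nat_lit 160) (nat_lit 71))) (PT.nd (nat_lit 78) (PT.lf (nat_lit 1444) (nat_lit 3) (nat_lit 19) (nat_lit 0) (nat_lit 160) (nat_lit 160) (nat_lit 70)) (PT.lf (nat_lit 1292) (nat_lit 6) (nat_lit 17) (nat_lit 0) (nat_lit 161) (nat_lit 160) (nat_lit 69))))))) (PT.nd (nat_lit 73944) (PT.nd (nat_lit 40482) (PT.nd (nat_lit 33306) (PT.nd (nat_lit 33150) (PT.lf (nat_lit 1140) (nat_lit 6) (nat_lit 15) (nat_lit 0) (nat_lit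 162) (nat_lit 160) (nat_lit 68)) (PT.nd (nat_lit 78) (PT.lf (nat_lit 912) (nat_lit 6) (nat_lit 12) (nat_lit 5) (nat_lit 66) (nat_lit 161) (nat_lit 163)) (PT.lf (nat_lit 1064) (nat_lit 6) (nat_lit 14) (nat_lit 5) (nat_lit 67) (nat_lit 161) (nat_lit 162)))) (PT.nd (nat_lit 156) (PT.nd (nat_lit 78) (PT.lf (nat_lit 1216) (nat_lit 3) (nat_lit 16) (nat_lit 4) (nat_lit 68) (nat_lit 161) (nat_lit 161)) (PT.lf (nat_lit 1292) (nat_lit 6) (nat_lit 17) (nat_lit 4) (nat_lit 69) (nat_lit 161) (nat_lit 160))) (PT.nd (nat_lit 6942) (PT.lf (nat_lit 1368) (nat_lit 6) (nat_lit 18) (nat_lit 4) (nat_lit 70) (nat_lit 161) (nat_lit 159)) (PT.lf (nat_lit 1368) (nat_lit 6) (nat_lit 18) (nat_lit 2) (nat_lit 159) (nat_lit 161) (nat_lit 70))))) (PT.nd (nat_lit 234) (PT.nd (nat_lit 78) (PT.lf (nat_lit 1292) (nat_lit 6) (nat_lit 17) (nat_lit 2) (nat_lit 160) (nat_lit 161) (nat_lit 69)) (PT.nd (nat_lit 78) (PT.lf (nat_lit 1216)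 (nat_lit 3) (nat_lit 16) (nat_lit 0) (nat_lit 161) (nat_lit 161) (nat_lit 68)) (PT.lf (nat_lit 1064) (nat_lit 6) (nat_lit 14) (nat_lit 0) (nat_lit 162) (nat_lit 161) (nat_lit 67)))) (PT.nd (nat_lit 33072) (PT.nd (nat_lit 32994) (PT.lf (nat_lit 912) (nat_lit 6) (nat_lit 12) (nat_lit 0) (nat_lit 163) (nat_lit 161) (nat_lit 66)) (PT.lf (nat_lit 836) (nat_lit 6) (nat_lit 11) (nat_lit 5) (nat_lit 65) (nat_lit 162) (nat_lit 163))) (PT.nd (nat_lit 78) (PT.lf (nat_lit 988) (nat_lit 3) (nat_lit 13) (nat_lit 4) (nat_lit 66) (nat_lit 162) (nat_lit 162)) (PT.lf (nat_lit 1064) (nat_lit 6) (nat_lit 14) (nat_lit 4) (nat_lit 67) (nat_lit 162) (nat_lit 161)))))) (PT.nd (nat_lit 47892) (PT.nd (nat_lit 7332) (PT.nd (nat_lit 7176) (PT.lf (nat_lit 1140) (nat_lit 6) (nat_lit 15) (nat_lit 4) (nat_lit 68) (nat_lit 162) (nat_lit 160)) (PT.nd (nat_lit 78) (PT.lf (nat_lit 1140) (nat_lit 6) (nat_lit 15) (nat_lit 2) (nat_lit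 160) (nat_lit 162) (nat_lit 68)) (PT.lf (nat_lit 1064) (nat_lit 6) (nat_lit 14) (nat_lit 2) (nat_lit 161) (nat_lit 162) (nat_lit 67)))) (PT.nd (nat_lit 33072) (PT.nd (nat_lit 78) (PT.lf (nat_lit 988) (nat_lit 3) (nat_lit 13) (nat_lit 0) (nat_lit 162) (nat_lit 162) (nat_lit 66)) (PT.lf (nat_lit 836) (nat_lit 6) (nat_lit 11) (nat_lit 0) (nat_lit 163) (nat_lit 162) (nat_lit 65))) (PT.nd (nat_lit 78) (PT.lf (nat_lit 836) (nat_lit 6) (nat_lit 11) (nat_lit 4) (nat_lit 65) (nat_lit 163) (nat_lit 162)) (PT.lf (nat_lit 912) (nat_lit 6) (nat_lit 12) (nat_lit 4) (nat_lit 66) (nat_lit 163) (nat_lit 161))))) (PT.nd (nat_lit 113880) (PT.nd (nat_lit 73320) (PT.nd (nat_lit 78) (PT.lf (nat_lit 912) (nat_lit 6) (nat_lit 12) (nat_lit 2) (nat_lit 161) (nat_lit 163) (nat_lit 66)) (PT.lf (nat_lit 836) (nat_lit 6) (nat_lit 11) (nat_lit 2) (nat_lit 162) (nat_lit 163) (nat_lit 65))) (PT.nd (nat_lit 8346) (PT.lf (nat_lit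 152) (nat_lit 6) (nat_lit 2) (nat_lit 5) (nat_lit 59) (nat_lit 165) (nat_lit 166)) (PT.lf (nat_lit 152) (nat_lit 6) (nat_lit 2) (nat_lit 0) (nat_lit 166) (nat_lit 165) (nat_lit 59)))) (PT.nd (nat_lit 8346) (PT.nd (nat_lit 78) (PT.lf (nat_lit 76) (nat_lit 3) (nat_lit 1) (nat_lit 4) (nat_lit 58) (nat_lit 166) (nat_lit 166)) (PT.lf (nat_lit 152) (nat_lit 6) (nat_lit 2) (nat_lit 4) (nat_lit 59) (nat_lit 166) (nat_lit 165))) (PT.nd (nat_lit 78) (PT.lf (nat_lit 152) (nat_lit 6) (nat_lit 2) (nat_lit 2) (nat_lit 165) (nat_lit 166) (nat_lit 59)) (PT.lf (nat_lit 76) (nat_lit 3) (nat_lit 1) (nat_lit 0) (nat_lit 166) (nat_lit 166) (nat_lit 58))))))))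
noncomputable def xc0 : XT := (XT.nd (nat_lit 162162) (nat_lit 0) (nat_lit 0) (XT.nd (nat_lit 81354) (nat_lit 0) (nat_lit 0) (XT.nd (nat_lit 40716) (nat_lit 0) (nat_lit 0) (XT.nd (nat_lit 40482) (nat_lit 0) (nat_lit 152) (XT.nd (nat_lit 78) (nat_lit 152) (nat_lit 0) (XT.lf (nat_lit 0) (nat_lit 12403324208) (nat_lit 76) (nat_lit 599868492) (nat_lit 76) (nat_lit 599868492) (nat_lit 8) (nat_lit 4) (nat_lit 9) (nat_lit 5) (nat_lit 9) (nat_lit 4) (nat_lit 364) (nat_lit 208) (nat_lit 208)) (XT.nd (nat_lit 78) (nat_lit 0) (nat_lit 0) (XT.lf (nat_lit 0) (nat_lit 5300360181) (nat_lit 152) (nat_lit 17655680118) (nat_lit 0) (nat_lit 4927338358) (nat_lit 6) (nat_lit 5) (nat_lit 8) (nat_lit 4) (nat_lit 6) (nat_lit 4) (nat_lit 365) (nat_lit 208) (nat_lit 207)) (XT.lf (nat_lit 0) (nat_lit 11869769681) (nat_lit 152) (nat_lit 5578640835) (nat_lit 0) (nat_lit 11134590749) (nat_lit 6) (nat_lit 5) (nat_lit 8) (nat_lit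 4) (nat_lit 6) (nat_lit 4) (nat_lit 366) (nat_lit 208) (nat_lit 206)))) (XT.nd (nat_lit 78) (nat_lit 76) (nat_lit 0) (XT.lf (nat_lit 0) (nat_lit 6200143682) (nat_lit 152) (nat_lit 555458770) (nat_lit 0) (nat_lit 6200143682) (nat_lit 9) (nat_lit 5) (nat_lit 11) (nat_lit 4) (nat_lit 9) (nat_lit 4) (nat_lit 362) (nat_lit 209) (nat_lit 209)) (XT.nd (nat_lit 78) (nat_lit 0) (nat_lit 0) (XT.lf (nat_lit 0) (nat_lit 11711023677) (nat_lit 76) (nat_lit 7614755245) (nat_lit 76) (nat_lit 7222858518) (nat_lit 8) (nat_lit 4) (nat_lit 9) (nat_lit 5) (nat_lit 9) (nat_lit 4) (nat_lit 363) (nat_lit 209) (nat_lit 208)) (XT.lf (nat_lit 0) (nat_lit 24684142467) (nat_lit 76) (nat_lit 1647847406) (nat_lit 76) (nat_lit 875468419) (nat_lit 8) (nat_lit 4) (nat_lit 9) (nat_lit 5) (nat_lit 9) (nat_lit 4) (nat_lit 364) (nat_lit 209) (nat_lit 207))))) (XT.nd (nat_lit 40326) (nat_lit 0) (nat_lit 152) (XT.nd (nat_lit 78) (nat_lit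 0) (nat_lit 0) (XT.lf (nat_lit 0) (nat_lit 5550698440) (nat_lit 152) (nat_lit 17904070108) (nat_lit 0) (nat_lit 4431307031) (nat_lit 6) (nat_lit 5) (nat_lit 8) (nat_lit 4) (nat_lit 6) (nat_lit 4) (nat_lit 365) (nat_lit 209) (nat_lit 206)) (XT.nd (nat_lit 40170) (nat_lit 0) (nat_lit 380) (XT.lf (nat_lit 0) (nat_lit 12056080862) (nat_lit 152) (nat_lit 5945826554) (nat_lit 0) (nat_lit 10585080609) (nat_lit 6) (nat_lit 5) (nat_lit 8) (nat_lit 4) (nat_lit 6) (nat_lit 4) (nat_lit 366) (nat_lit 209) (nat_lit 205)) (XT.lf (nat_lit 0) (nat_lit 11720232864) (nat_lit 76) (nat_lit 313817551) (nat_lit 76) (nat_lit 313817551) (nat_lit 11) (nat_lit 4) (nat_lit 12) (nat_lit 5) (nat_lit 12) (nat_lit 4) (nat_lit 360) (nat_lit 210) (nat_lit 210)))) (XT.nd (nat_lit 156) (nat_lit 76) (nat_lit 0) (XT.nd (nat_lit 78) (nat_lit 0) (nat_lit 0) (XT.lf (nat_lit 0) (nat_lit 6021025243) (nat_lit 152) (nat_lit 13655711041) (nat_lit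 0) (nat_lit 5617371615) (nat_lit 9) (nat_lit 5) (nat_lit 11) (nat_lit 4) (nat_lit 9) (nat_lit 4) (nat_lit 361) (nat_lit 210) (nat_lit 209)) (XT.lf (nat_lit 0) (nat_lit 12736479221) (nat_lit 152) (nat_lit 1235443782) (nat_lit 0) (nat_lit 11940928865) (nat_lit 9) (nat_lit 5) (nat_lit 11) (nat_lit 4) (nat_lit 9) (nat_lit 4) (nat_lit 362) (nat_lit 210) (nat_lit 208))) (XT.nd (nat_lit 78) (nat_lit 0) (nat_lit 0) (XT.lf (nat_lit 0) (nat_lit 11462336597) (nat_lit 76) (nat_lit 8132522672) (nat_lit 76) (nat_lit 6956490057) (nat_lit 8) (nat_lit 4) (nat_lit 9) (nat_lit 5) (nat_lit 9) (nat_lit 4) (nat_lit 363) (nat_lit 210) (nat_lit 207)) (XT.lf (nat_lit 0) (nat_lit 24316517571) (nat_lit 76) (nat_lit 2220191234) (nat_lit 76) (nat_lit 674758368) (nat_lit 8) (nat_lit 4) (nat_lit 9) (nat_lit 5) (nat_lit 9) (nat_lit 4) (nat_lit 364) (nat_lit 210) (nat_lit 206)))))) (XT.nd (nat_lit 40482) (nat_lit 0) (nat_lit 0)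 (XT.nd (nat_lit 40170) (nat_lit 0) (nat_lit 228) (XT.nd (nat_lit 78) (nat_lit 0) (nat_lit 0) (XT.lf (nat_lit 0) (nat_lit 5678571879) (nat_lit 152) (nat_lit 18401067128) (nat_lit 0) (nat_lit 3811832773) (nat_lit 6) (nat_lit 5) (nat_lit 8) (nat_lit 4) (nat_lit 6) (nat_lit 4) (nat_lit 365) (nat_lit 210) (nat_lit 205)) (XT.nd (nat_lit 40014) (nat_lit 0) (nat_lit 456) (XT.lf (nat_lit 0) (nat_lit 12121792089) (nat_lit 152) (nat_lit 6558159233) (nat_lit 0) (nat_lit 9913685174) (nat_lit 6) (nat_lit 5) (nat_lit 8) (nat_lit 4) (nat_lit 6) (nat_lit 4) (nat_lit 366) (nat_lit 210) (nat_lit 204)) (XT.lf (nat_lit 0) (nat_lit 5186066150) (nat_lit 152) (nat_lit 1403505432) (nat_lit 0) (nat_lit 5186066150) (nat_lit 12) (nat_lit 5) (nat_lit 14) (nat_lit 4) (nat_lit 12) (nat_lit 4) (nat_lit 358) (nat_lit 211) (nat_lit 211)))) (XT.nd (nat_lit 156) (nat_lit 152) (nat_lit 0) (XT.nd (nat_lit 78) (nat_lit 0) (nat_lit 0)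 (XT.lf (nat_lit 0) (nat_lit 10167104050) (nat_lit 76) (nat_lit 7185758590) (nat_lit 76) (nat_lit 6761680088) (nat_lit 11) (nat_lit 4) (nat_lit 12) (nat_lit 5) (nat_lit 12) (nat_lit 4) (nat_lit 359) (nat_lit 211) (nat_lit 210)) (XT.lf (nat_lit 0) (nat_lit 23315806029) (nat_lit 76) (nat_lit 1108551217) (nat_lit 76) (nat_lit 272746014) (nat_lit 11) (nat_lit 4) (nat_lit 12) (nat_lit 5) (nat_lit 12) (nat_lit 4) (nat_lit 360) (nat_lit 211) (nat_lit 209))) (XT.nd (nat_lit 78) (nat_lit 0) (nat_lit 0) (XT.lf (nat_lit 0) (nat_lit 6299841082) (nat_lit 152) (nat_lit 13908499310) (nat_lit 0) (nat_lit 5088527489) (nat_lit 9) (nat_lit 5) (nat_lit 11) (nat_lit 4) (nat_lit 9) (nat_lit 4) (nat_lit 361) (nat_lit 211) (nat_lit 208)) (XT.lf (nat_lit 0) (nat_lit 12949798193) (nat_lit 152) (nat_lit 1609131313) (nat_lit 0) (nat_lit 11358002340) (nat_lit 9) (nat_lit 5) (nat_lit 11) (nat_lit 4) (nat_lit 9) (nat_lit 4) (nat_lit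 362) (nat_lit 211) (nat_lit 207))))) (XT.nd (nat_lit 234) (nat_lit 0) (nat_lit 0) (XT.nd (nat_lit 78) (nat_lit 152) (nat_lit 0) (XT.lf (nat_lit 0) (nat_lit 10964745139) (nat_lit 76) (nat_lit 8776613217) (nat_lit 76) (nat_lit 6815417113) (nat_lit 8) (nat_lit 4) (nat_lit 9) (nat_lit 5) (nat_lit 9) (nat_lit 4) (nat_lit 363) (nat_lit 211) (nat_lit 206)) (XT.nd (nat_lit 78) (nat_lit 152) (nat_lit 0) (XT.lf (nat_lit 0) (nat_lit 23703452505) (nat_lit 76) (nat_lit 2917268578) (nat_lit 76) (nat_lit 597431452) (nat_lit 8) (nat_lit 4) (nat_lit 9) (nat_lit 5) (nat_lit 9) (nat_lit 4) (nat_lit 364) (nat_lit 211) (nat_lit 205)) (XT.lf (nat_lit 0) (nat_lit 5684092230) (nat_lit 152) (nat_lit 19147105446) (nat_lit 0) (nat_lit 3068374297) (nat_lit 6) (nat_lit 5) (nat_lit 8) (nat_lit 4) (nat_lit 6) (nat_lit 4) (nat_lit 365) (nat_lit 211) (nat_lit 204)))) (XT.nd (nat_lit 39936) (nat_lit 0) (nat_lit 456) (XT.nd (nat_lit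 39858) (nat_lit 0) (nat_lit 608) (XT.lf (nat_lit 0) (nat_lit 12066960778) (nat_lit 152) (nat_lit 7416173920) (nat_lit 0) (nat_lit 9119817787) (nat_lit 6) (nat_lit 5) (nat_lit 8) (nat_lit 4) (nat_lit 6) (nat_lit 4) (nat_lit 366) (nat_lit 211) (nat_lit 203)) (XT.lf (nat_lit 0) (nat_lit 8497006072) (nat_lit 152) (nat_lit 1370575411) (nat_lit 152) (nat_lit 1370575411) (nat_lit 14) (nat_lit 4) (nat_lit 16) (nat_lit 5) (nat_lit 16) (nat_lit 4) (nat_lit 356) (nat_lit 212) (nat_lit 212))) (XT.nd (nat_lit 78) (nat_lit 0) (nat_lit 0) (XT.lf (nat_lit 0) (nat_lit 3959578168) (nat_lit 152) (nat_lit 15523519600) (nat_lit 0) (nat_lit 3522777311) (nat_lit 12) (nat_lit 5) (nat_lit 14) (nat_lit 4) (nat_lit 12) (nat_lit 4) (nat_lit 357) (nat_lit 212) (nat_lit 211)) (XT.lf (nat_lit 0) (nat_lit 10739910063) (nat_lit 152) (nat_lit 2933726372) (nat_lit 0) (nat_lit 9879030703) (nat_lit 12) (nat_lit 5) (nat_lit 14) (nat_lit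 4) (nat_lit 12) (nat_lit 4) (nat_lit 358) (nat_lit 212) (nat_lit 210))))))) (XT.nd (nat_lit 40638) (nat_lit 0) (nat_lit 0) (XT.nd (nat_lit 468) (nat_lit 152) (nat_lit 0) (XT.nd (nat_lit 234) (nat_lit 76) (nat_lit 0) (XT.nd (nat_lit 78) (nat_lit 152) (nat_lit 0) (XT.lf (nat_lit 0) (nat_lit 9914044859) (nat_lit 76) (nat_lit 7737939802) (nat_lit 76) (nat_lit 6465333741) (nat_lit 11) (nat_lit 4) (nat_lit 12) (nat_lit 5) (nat_lit 12) (nat_lit 4) (nat_lit 359) (nat_lit 212) (nat_lit 209)) (XT.nd (nat_lit 78) (nat_lit 152) (nat_lit 0) (XT.lf (nat_lit 0) (nat_lit 22941718004) (nat_lit 76) (nat_lit 1715914578) (nat_lit 76) (nat_lit 43573855) (nat_lit 11) (nat_lit 4) (nat_lit 12) (nat_lit 5) (nat_lit 12) (nat_lit 4) (nat_lit 360) (nat_lit 212) (nat_lit 208)) (XT.lf (nat_lit 0) (nat_lit 6454062756) (nat_lit 152) (nat_lit 14414296731) (nat_lit 0) (nat_lit 4434030769) (nat_lit 9) (nat_lit 5) (nat_lit 11) (nat_lit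 4) (nat_lit 9) (nat_lit 4) (nat_lit 361) (nat_lit 212) (nat_lit 207)))) (XT.nd (nat_lit 78) (nat_lit 76) (nat_lit 0) (XT.lf (nat_lit 0) (nat_lit 13040430676) (nat_lit 152) (nat_lit 2232306659) (nat_lit 0) (nat_lit 10650998437) (nat_lit 9) (nat_lit 5) (nat_lit 11) (nat_lit 4) (nat_lit 9) (nat_lit 4) (nat_lit 362) (nat_lit 212) (nat_lit 206)) (XT.nd (nat_lit 78) (nat_lit 0) (nat_lit 0) (XT.lf (nat_lit 0) (nat_lit 10217814513) (nat_lit 76) (nat_lit 9547589679) (nat_lit 76) (nat_lit 6799516419) (nat_lit 8) (nat_lit 4) (nat_lit 9) (nat_lit 5) (nat_lit 9) (nat_lit 4) (nat_lit 363) (nat_lit 212) (nat_lit 205)) (XT.lf (nat_lit 0) (nat_lit 22844411580) (nat_lit 76) (nat_lit 3739688532) (nat_lit 76) (nat_lit 643420106) (nat_lit 8) (nat_lit 4) (nat_lit 9) (nat_lit 5) (nat_lit 9) (nat_lit 4) (nat_lit 364) (nat_lit 212) (nat_lit 204))))) (XT.nd (nat_lit 39858) (nat_lit 0) (nat_lit 456) (XT.nd (nat_lit 78) (nat_lit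 0) (nat_lit 0) (XT.lf (nat_lit 0) (nat_lit 5567264318) (nat_lit 152) (nat_lit 20142836942) (nat_lit 0) (nat_lit 2200281979) (nat_lit 6) (nat_lit 5) (nat_lit 8) (nat_lit 4) (nat_lit 6) (nat_lit 4) (nat_lit 365) (nat_lit 212) (nat_lit 203)) (XT.nd (nat_lit 39702) (nat_lit 0) (nat_lit 760) (XT.lf (nat_lit 0) (nat_lit 11891539019) (nat_lit 152) (nat_lit 8520620336) (nat_lit 0) (nat_lit 8202784780) (nat_lit 6) (nat_lit 5) (nat_lit 8) (nat_lit 4) (nat_lit 6) (nat_lit 4) (nat_lit 366) (nat_lit 212) (nat_lit 202)) (XT.lf (nat_lit 0) (nat_lit 3057950324) (nat_lit 152) (nat_lit 4616552206) (nat_lit 0) (nat_lit 3057950324) (nat_lit 16) (nat_lit 5) (nat_lit 18) (nat_lit 4) (nat_lit 16) (nat_lit 4) (nat_lit 354) (nat_lit 213) (nat_lit 213)))) (XT.nd (nat_lit 156) (nat_lit 152) (nat_lit 0) (XT.nd (nat_lit 78) (nat_lit 0) (nat_lit 0) (XT.lf (nat_lit 0) (nat_lit 3688753680) (nat_lit 152) (nat_lit 9366595886) (nat_lit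 152) (nat_lit 8907692905) (nat_lit 14) (nat_lit 4) (nat_lit 16) (nat_lit 5) (nat_lit 16) (nat_lit 4) (nat_lit 355) (nat_lit 213) (nat_lit 212)) (XT.lf (nat_lit 0) (nat_lit 16867177617) (nat_lit 152) (nat_lit 3257487907) (nat_lit 152) (nat_lit 2353048052) (nat_lit 14) (nat_lit 4) (nat_lit 16) (nat_lit 5) (nat_lit 16) (nat_lit 4) (nat_lit 356) (nat_lit 213) (nat_lit 211))) (XT.nd (nat_lit 78) (nat_lit 0) (nat_lit 0) (XT.lf (nat_lit 0) (nat_lit 4269366169) (nat_lit 152) (nat_lit 15780752082) (nat_lit 0) (nat_lit 2958581926) (nat_lit 12) (nat_lit 5) (nat_lit 14) (nat_lit 4) (nat_lit 12) (nat_lit 4) (nat_lit 357) (nat_lit 213) (nat_lit 210)) (XT.lf (nat_lit 0) (nat_lit 10982685351) (nat_lit 152) (nat_lit 3313983619) (nat_lit 0) (nat_lit 9260174407) (nat_lit 12) (nat_lit 5) (nat_lit 14) (nat_lit 4) (nat_lit 12) (nat_lit 4) (nat_lit 358) (nat_lit 213) (nat_lit 209)))))) (XT.nd (nat_lit 546) (nat_lit 0)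 (nat_lit 0) (XT.nd (nat_lit 234) (nat_lit 228) (nat_lit 0) (XT.nd (nat_lit 78) (nat_lit 152) (nat_lit 0) (XT.lf (nat_lit 0) (nat_lit 9407705359) (nat_lit 76) (nat_lit 8418706212) (nat_lit 76) (nat_lit 6296460606) (nat_lit 11) (nat_lit 4) (nat_lit 12) (nat_lit 5) (nat_lit 12) (nat_lit 4) (nat_lit 359) (nat_lit 213) (nat_lit 208)) (XT.nd (nat_lit 78) (nat_lit 76) (nat_lit 0) (XT.lf (nat_lit 0) (nat_lit 59293639) (nat_lit 152) (nat_lit 2390564359) (nat_lit 76) (nat_lit 22258183250) (nat_lit 10) (nat_lit 5) (nat_lit 12) (nat_lit 5) (nat_lit 11) (nat_lit 4) (nat_lit 360) (nat_lit 213) (nat_lit 207)) (XT.lf (nat_lit 0) (nat_lit 6483825023) (nat_lit 152) (nat_lit 15173545262) (nat_lit 0) (nat_lit 3653309565) (nat_lit 9) (nat_lit 5) (nat_lit 11) (nat_lit 4) (nat_lit 9) (nat_lit 4) (nat_lit 361) (nat_lit 213) (nat_lit 206)))) (XT.nd (nat_lit 156) (nat_lit 152) (nat_lit 0) (XT.nd (nat_lit 78) (nat_lit 76)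 (nat_lit 0) (XT.lf (nat_lit 0) (nat_lit 13008455863) (nat_lit 152) (nat_lit 3105514341) (nat_lit 0) (nat_lit 9819299385) (nat_lit 9) (nat_lit 5) (nat_lit 11) (nat_lit 4) (nat_lit 9) (nat_lit 4) (nat_lit 362) (nat_lit 213) (nat_lit 205)) (XT.lf (nat_lit 0) (nat_lit 9220892061) (nat_lit 76) (nat_lit 10446125724) (nat_lit 76) (nat_lit 6908774080) (nat_lit 8) (nat_lit 4) (nat_lit 9) (nat_lit 5) (nat_lit 9) (nat_lit 4) (nat_lit 363) (nat_lit 213) (nat_lit 204))) (XT.nd (nat_lit 78) (nat_lit 152) (nat_lit 0) (XT.lf (nat_lit 0) (nat_lit 21738644179) (nat_lit 76) (nat_lit 4688169716) (nat_lit 76) (nat_lit 812764512) (nat_lit 8) (nat_lit 4) (nat_lit 9) (nat_lit 5) (nat_lit 9) (nat_lit 4) (nat_lit 364) (nat_lit 213) (nat_lit 203)) (XT.lf (nat_lit 0) (nat_lit 5327986059) (nat_lit 152) (nat_lit 21389131672) (nat_lit 0) (nat_lit 1206797292) (nat_lit 6) (nat_lit 5) (nat_lit 8) (nat_lit 4) (nat_lit 6) (nat_lit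 4) (nat_lit 365) (nat_lit 213) (nat_lit 202))))) (XT.nd (nat_lit 39702) (nat_lit 0) (nat_lit 456) (XT.nd (nat_lit 39546) (nat_lit 0) (nat_lit 912) (XT.lf (nat_lit 0) (nat_lit 11595373531) (nat_lit 152) (nat_lit 9872463532) (nat_lit 0) (nat_lit 7161784859) (nat_lit 6) (nat_lit 5) (nat_lit 8) (nat_lit 4) (nat_lit 6) (nat_lit 4) (nat_lit 366) (nat_lit 213) (nat_lit 201)) (XT.nd (nat_lit 78) (nat_lit 0) (nat_lit 0) (XT.lf (nat_lit 0) (nat_lit 3314019623) (nat_lit 152) (nat_lit 3471524311) (nat_lit 152) (nat_lit 3471524311) (nat_lit 18) (nat_lit 4) (nat_lit 20) (nat_lit 5) (nat_lit 20) (nat_lit 4) (nat_lit 352) (nat_lit 214) (nat_lit 214)) (XT.lf (nat_lit 0) (nat_lit 19987848023) (nat_lit 152) (nat_lit 738817599) (nat_lit 152) (nat_lit 256694128) (nat_lit 18) (nat_lit 4) (nat_lit 20) (nat_lit 5) (nat_lit 20) (nat_lit 4) (nat_lit 353) (nat_lit 214) (nat_lit 213)))) (XT.nd (nat_lit 156) (nat_lit 152)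 (nat_lit 0) (XT.nd (nat_lit 78) (nat_lit 152) (nat_lit 0) (XT.lf (nat_lit 0) (nat_lit 6517936482) (nat_lit 152) (nat_lit 9362030614) (nat_lit 0) (nat_lit 5586363431) (nat_lit 16) (nat_lit 5) (nat_lit 18) (nat_lit 4) (nat_lit 16) (nat_lit 4) (nat_lit 354) (nat_lit 214) (nat_lit 212)) (XT.lf (nat_lit 0) (nat_lit 3431279590) (nat_lit 152) (nat_lit 9955857188) (nat_lit 152) (nat_lit 8578747262) (nat_lit 14) (nat_lit 4) (nat_lit 16) (nat_lit 5) (nat_lit 16) (nat_lit 4) (nat_lit 355) (nat_lit 214) (nat_lit 211))) (XT.nd (nat_lit 78) (nat_lit 152) (nat_lit 0) (XT.lf (nat_lit 0) (nat_lit 16486563210) (nat_lit 152) (nat_lit 3902510476) (nat_lit 152) (nat_lit 2092840478) (nat_lit 14) (nat_lit 4) (nat_lit 16) (nat_lit 5) (nat_lit 16) (nat_lit 4) (nat_lit 356) (nat_lit 214) (nat_lit 210)) (XT.lf (nat_lit 0) (nat_lit 4452412003) (nat_lit 152) (nat_lit 16295441811) (nat_lit 0) (nat_lit 2266499029) (nat_lit 12)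 (nat_lit 5) (nat_lit 14) (nat_lit 4) (nat_lit 12) (nat_lit 4) (nat_lit 357) (nat_lit 214) (nat_lit 209))))))))
noncomputable def xc1 : XT := (XT.nd (nat_lit 80574) (nat_lit 0) (nat_lit 0) (XT.nd (nat_lit 40326) (nat_lit 0) (nat_lit 0) (XT.nd (nat_lit 468) (nat_lit 152) (nat_lit 0) (XT.nd (nat_lit 234) (nat_lit 152) (nat_lit 0) (XT.nd (nat_lit 78) (nat_lit 152) (nat_lit 0) (XT.lf (nat_lit 0) (nat_lit 11100670298) (nat_lit 152) (nat_lit 3948114869) (nat_lit 0) (nat_lit 8515022662) (nat_lit 12) (nat_lit 5) (nat_lit 14) (nat_lit 4) (nat_lit 12) (nat_lit 4) (nat_lit 358) (nat_lit 214) (nat_lit 208)) (XT.nd (nat_lit 78) (nat_lit 76) (nat_lit 0) (XT.lf (nat_lit 0) (nat_lit 8647643116) (nat_lit 76) (nat_lit 9228652664) (nat_lit 76) (nat_lit 6254913124) (nat_lit 11) (nat_lit 4) (nat_lit 12) (nat_lit 5) (nat_lit 12) (nat_lit 4) (nat_lit 359) (nat_lit 214) (nat_lit 207)) (XT.lf (nat_lit 0) (nat_lit 37808531)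 (nat_lit 152) (nat_lit 3274154563) (nat_lit 76) (nat_lit 21405669007) (nat_lit 10) (nat_lit 5) (nat_lit 12) (nat_lit 5) (nat_lit 11) (nat_lit 4) (nat_lit 360) (nat_lit 214) (nat_lit 206)))) (XT.nd (nat_lit 78) (nat_lit 76) (nat_lit 0) (XT.lf (nat_lit 0) (nat_lit 6389153887) (nat_lit 152) (nat_lit 16186908325) (nat_lit 0) (nat_lit 2745681693) (nat_lit 9) (nat_lit 5) (nat_lit 11) (nat_lit 4) (nat_lit 9) (nat_lit 4) (nat_lit 361) (nat_lit 214) (nat_lit 205)) (XT.nd (nat_lit 78) (nat_lit 76) (nat_lit 0) (XT.lf (nat_lit 0) (nat_lit 12853845816) (nat_lit 152) (nat_lit 4229517357) (nat_lit 0) (nat_lit 8862178456) (nat_lit 9) (nat_lit 5) (nat_lit 11) (nat_lit 4) (nat_lit 9) (nat_lit 4) (nat_lit 362) (nat_lit 214) (nat_lit 204)) (XT.lf (nat_lit 0) (nat_lit 7973106687) (nat_lit 76) (nat_lit 11473006483) (nat_lit 76) (nat_lit 7143285564) (nat_lit 8) (nat_lit 4) (nat_lit 9) (nat_lit 5) (nat_lit 9) (nat_lit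 4) (nat_lit 363) (nat_lit 214) (nat_lit 203))))) (XT.nd (nat_lit 39546) (nat_lit 0) (nat_lit 836) (XT.nd (nat_lit 78) (nat_lit 152) (nat_lit 0) (XT.lf (nat_lit 0) (nat_lit 20385184095) (nat_lit 76) (nat_lit 5763540901) (nat_lit 76) (nat_lit 1105612643) (nat_lit 8) (nat_lit 4) (nat_lit 9) (nat_lit 5) (nat_lit 9) (nat_lit 4) (nat_lit 364) (nat_lit 214) (nat_lit 202)) (XT.nd (nat_lit 78) (nat_lit 0) (nat_lit 0) (XT.lf (nat_lit 0) (nat_lit 4966048377) (nat_lit 152) (nat_lit 22887078630) (nat_lit 0) (nat_lit 87052141) (nat_lit 6) (nat_lit 5) (nat_lit 8) (nat_lit 4) (nat_lit 6) (nat_lit 4) (nat_lit 365) (nat_lit 214) (nat_lit 201)) (XT.lf (nat_lit 0) (nat_lit 11178205528) (nat_lit 152) (nat_lit 11472884731) (nat_lit 0) (nat_lit 5995908415) (nat_lit 6) (nat_lit 5) (nat_lit 8) (nat_lit 4) (nat_lit 6) (nat_lit 4) (nat_lit 366) (nat_lit 214) (nat_lit 200)))) (XT.nd (nat_lit 156) (nat_lit 228) (nat_lit 0)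 (XT.nd (nat_lit 78) (nat_lit 0) (nat_lit 0) (XT.lf (nat_lit 0) (nat_lit 77897121) (nat_lit 152) (nat_lit 9654581887) (nat_lit 0) (nat_lit 77897121) (nat_lit 20) (nat_lit 5) (nat_lit 22) (nat_lit 4) (nat_lit 20) (nat_lit 4) (nat_lit 350) (nat_lit 215) (nat_lit 215)) (XT.lf (nat_lit 0) (nat_lit 7023353317) (nat_lit 152) (nat_lit 6510428772) (nat_lit 0) (nat_lit 6526766142) (nat_lit 20) (nat_lit 5) (nat_lit 22) (nat_lit 4) (nat_lit 20) (nat_lit 4) (nat_lit 351) (nat_lit 215) (nat_lit 214))) (XT.nd (nat_lit 78) (nat_lit 76) (nat_lit 0) (XT.lf (nat_lit 0) (nat_lit 6499010152) (nat_lit 152) (nat_lit 7497635164) (nat_lit 152) (nat_lit 6518924517) (nat_lit 18) (nat_lit 4) (nat_lit 20) (nat_lit 5) (nat_lit 20) (nat_lit 4) (nat_lit 352) (nat_lit 215) (nat_lit 213)) (XT.lf (nat_lit 0) (nat_lit 95804294) (nat_lit 228) (nat_lit 1253267013) (nat_lit 76) (nat_lit 19637100772) (nat_lit 17) (nat_lit 5) (nat_lit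 20) (nat_lit 5) (nat_lit 18) (nat_lit 4) (nat_lit 353) (nat_lit 215) (nat_lit 212)))))) (XT.nd (nat_lit 546) (nat_lit 380) (nat_lit 0) (XT.nd (nat_lit 234) (nat_lit 228) (nat_lit 0) (XT.nd (nat_lit 78) (nat_lit 152) (nat_lit 0) (XT.lf (nat_lit 0) (nat_lit 6792822225) (nat_lit 152) (nat_lit 9748921872) (nat_lit 0) (nat_lit 4928862127) (nat_lit 16) (nat_lit 5) (nat_lit 18) (nat_lit 4) (nat_lit 16) (nat_lit 4) (nat_lit 354) (nat_lit 215) (nat_lit 211)) (XT.nd (nat_lit 78) (nat_lit 0) (nat_lit 0) (XT.lf (nat_lit 0) (nat_lit 2916106433) (nat_lit 152) (nat_lit 10675991700) (nat_lit 152) (nat_lit 8379471530) (nat_lit 14) (nat_lit 4) (nat_lit 16) (nat_lit 5) (nat_lit 16) (nat_lit 4) (nat_lit 355) (nat_lit 215) (nat_lit 210)) (XT.lf (nat_lit 0) (nat_lit 15851836346) (nat_lit 152) (nat_lit 4676782140) (nat_lit 152) (nat_lit 1960300734) (nat_lit 14) (nat_lit 4) (nat_lit 16) (nat_lit 5) (nat_lit 16) (nat_lit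 4) (nat_lit 356) (nat_lit 215) (nat_lit 209)))) (XT.nd (nat_lit 156) (nat_lit 76) (nat_lit 0) (XT.nd (nat_lit 78) (nat_lit 0) (nat_lit 0) (XT.lf (nat_lit 0) (nat_lit 4508875612) (nat_lit 152) (nat_lit 17068038518) (nat_lit 0) (nat_lit 1445923885) (nat_lit 12) (nat_lit 5) (nat_lit 14) (nat_lit 4) (nat_lit 12) (nat_lit 4) (nat_lit 357) (nat_lit 215) (nat_lit 208)) (XT.lf (nat_lit 0) (nat_lit 11093967997) (nat_lit 152) (nat_lit 4836674216) (nat_lit 0) (nat_lit 7642924367) (nat_lit 12) (nat_lit 5) (nat_lit 14) (nat_lit 4) (nat_lit 12) (nat_lit 4) (nat_lit 358) (nat_lit 215) (nat_lit 207))) (XT.nd (nat_lit 78) (nat_lit 0) (nat_lit 0) (XT.lf (nat_lit 0) (nat_lit 7633193998) (nat_lit 76) (nat_lit 10168486879) (nat_lit 76) (nat_lit 6340654992) (nat_lit 11) (nat_lit 4) (nat_lit 12) (nat_lit 5) (nat_lit 12) (nat_lit 4) (nat_lit 359) (nat_lit 215) (nat_lit 206)) (XT.lf (nat_lit 0) (nat_lit 20318523607) (nat_lit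 76) (nat_lit 4302550507) (nat_lit 76) (nat_lit 108904779) (nat_lit 11) (nat_lit 4) (nat_lit 12) (nat_lit 5) (nat_lit 12) (nat_lit 4) (nat_lit 360) (nat_lit 215) (nat_lit 205))))) (XT.nd (nat_lit 234) (nat_lit 152) (nat_lit 0) (XT.nd (nat_lit 78) (nat_lit 76) (nat_lit 0) (XT.lf (nat_lit 0) (nat_lit 6169966628) (nat_lit 152) (nat_lit 17455271383) (nat_lit 0) (nat_lit 1710354081) (nat_lit 9) (nat_lit 5) (nat_lit 11) (nat_lit 4) (nat_lit 9) (nat_lit 4) (nat_lit 361) (nat_lit 215) (nat_lit 204)) (XT.nd (nat_lit 78) (nat_lit 76) (nat_lit 0) (XT.lf (nat_lit 0) (nat_lit 12576465439) (nat_lit 152) (nat_lit 5605297843) (nat_lit 0) (nat_lit 7778799333) (nat_lit 9) (nat_lit 5) (nat_lit 11) (nat_lit 4) (nat_lit 9) (nat_lit 4) (nat_lit 362) (nat_lit 215) (nat_lit 203)) (XT.lf (nat_lit 0) (nat_lit 6473368093) (nat_lit 76) (nat_lit 12629129230) (nat_lit 76) (nat_lit 7503255785) (nat_lit 8) (nat_lit 4) (nat_lit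 9) (nat_lit 5) (nat_lit 9) (nat_lit 4) (nat_lit 363) (nat_lit 215) (nat_lit 202)))) (XT.nd (nat_lit 156) (nat_lit 0) (nat_lit 0) (XT.nd (nat_lit 78) (nat_lit 152) (nat_lit 0) (XT.lf (nat_lit 0) (nat_lit 18782848696) (nat_lit 76) (nat_lit 6966741732) (nat_lit 76) (nat_lit 1522220384) (nat_lit 8) (nat_lit 4) (nat_lit 9) (nat_lit 5) (nat_lit 9) (nat_lit 4) (nat_lit 364) (nat_lit 215) (nat_lit 201)) (XT.lf (nat_lit 0) (nat_lit 3313419370) (nat_lit 76) (nat_lit 1175346774) (nat_lit 152) (nat_lit 23470271060) (nat_lit 6) (nat_lit 5) (nat_lit 7) (nat_lit 5) (nat_lit 8) (nat_lit 4) (nat_lit 365) (nat_lit 215) (nat_lit 200))) (XT.nd (nat_lit 39234) (nat_lit 0) (nat_lit 1368) (XT.lf (nat_lit 0) (nat_lit 10639670495) (nat_lit 152) (nat_lit 13323282357) (nat_lit 0) (nat_lit 4704136719) (nat_lit 6) (nat_lit 5) (nat_lit 8) (nat_lit 4) (nat_lit 6) (nat_lit 4) (nat_lit 366) (nat_lit 215) (nat_lit 199)) (XT.lf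 (nat_lit 0) (nat_lit 3040431683) (nat_lit 152) (nat_lit 3308530277) (nat_lit 0) (nat_lit 3040431683) (nat_lit 24) (nat_lit 5) (nat_lit 26) (nat_lit 4) (nat_lit 24) (nat_lit 4) (nat_lit 348) (nat_lit 216) (nat_lit 216))))))) (XT.nd (nat_lit 1092) (nat_lit 228) (nat_lit 0) (XT.nd (nat_lit 546) (nat_lit 380) (nat_lit 0) (XT.nd (nat_lit 234) (nat_lit 456) (nat_lit 0) (XT.nd (nat_lit 78) (nat_lit 152) (nat_lit 0) (XT.lf (nat_lit 0) (nat_lit 6480525206) (nat_lit 152) (nat_lit 6617248113) (nat_lit 152) (nat_lit 6095533626) (nat_lit 22) (nat_lit 4) (nat_lit 24) (nat_lit 5) (nat_lit 24) (nat_lit 4) (nat_lit 349) (nat_lit 216) (nat_lit 215)) (XT.nd (nat_lit 78) (nat_lit 0) (nat_lit 0) (XT.lf (nat_lit 0) (nat_lit 179118555) (nat_lit 76) (nat_lit 418580435) (nat_lit 152) (nat_lit 19024458001) (nat_lit 20) (nat_lit 5) (nat_lit 21) (nat_lit 5) (nat_lit 22) (nat_lit 4) (nat_lit 350) (nat_lit 216) (nat_lit 214))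 (XT.lf (nat_lit 0) (nat_lit 7392348377) (nat_lit 152) (nat_lit 6768922586) (nat_lit 0) (nat_lit 5902152939) (nat_lit 20) (nat_lit 5) (nat_lit 22) (nat_lit 4) (nat_lit 20) (nat_lit 4) (nat_lit 351) (nat_lit 216) (nat_lit 213)))) (XT.nd (nat_lit 156) (nat_lit 228) (nat_lit 0) (XT.nd (nat_lit 78) (nat_lit 76) (nat_lit 0) (XT.lf (nat_lit 0) (nat_lit 6111810126) (nat_lit 152) (nat_lit 8183168732) (nat_lit 152) (nat_lit 6224892253) (nat_lit 18) (nat_lit 4) (nat_lit 20) (nat_lit 5) (nat_lit 20) (nat_lit 4) (nat_lit 352) (nat_lit 216) (nat_lit 212)) (XT.lf (nat_lit 0) (nat_lit 318572690) (nat_lit 228) (nat_lit 1769207256) (nat_lit 76) (nat_lit 18904015160) (nat_lit 17) (nat_lit 5) (nat_lit 20) (nat_lit 5) (nat_lit 18) (nat_lit 4) (nat_lit 353) (nat_lit 216) (nat_lit 211))) (XT.nd (nat_lit 78) (nat_lit 152) (nat_lit 0) (XT.lf (nat_lit 0) (nat_lit 6940798070) (nat_lit 152) (nat_lit 10394116248) (nat_lit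 0) (nat_lit 4142822222) (nat_lit 16) (nat_lit 5) (nat_lit 18) (nat_lit 4) (nat_lit 16) (nat_lit 4) (nat_lit 354) (nat_lit 216) (nat_lit 210)) (XT.lf (nat_lit 0) (nat_lit 2142784057) (nat_lit 152) (nat_lit 11527628667) (nat_lit 152) (nat_lit 8309691583) (nat_lit 14) (nat_lit 4) (nat_lit 16) (nat_lit 5) (nat_lit 16) (nat_lit 4) (nat_lit 355) (nat_lit 216) (nat_lit 209))))) (XT.nd (nat_lit 234) (nat_lit 228) (nat_lit 0) (XT.nd (nat_lit 78) (nat_lit 152) (nat_lit 0) (XT.lf (nat_lit 0) (nat_lit 14962442410) (nat_lit 152) (nat_lit 5580979448) (nat_lit 152) (nat_lit 1955313010) (nat_lit 14) (nat_lit 4) (nat_lit 16) (nat_lit 5) (nat_lit 16) (nat_lit 4) (nat_lit 356) (nat_lit 216) (nat_lit 208)) (XT.nd (nat_lit 78) (nat_lit 0) (nat_lit 0) (XT.lf (nat_lit 0) (nat_lit 4438806333) (nat_lit 152) (nat_lit 18099217286) (nat_lit 0) (nat_lit 496139489) (nat_lit 12) (nat_lit 5) (nat_lit 14) (nat_lit 4) (nat_lit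 12) (nat_lit 4) (nat_lit 357) (nat_lit 216) (nat_lit 207)) (XT.lf (nat_lit 0) (nat_lit 10962572593) (nat_lit 152) (nat_lit 5980438072) (nat_lit 0) (nat_lit 6643117493) (nat_lit 12) (nat_lit 5) (nat_lit 14) (nat_lit 4) (nat_lit 12) (nat_lit 4) (nat_lit 358) (nat_lit 216) (nat_lit 206)))) (XT.nd (nat_lit 156) (nat_lit 152) (nat_lit 0) (XT.nd (nat_lit 78) (nat_lit 0) (nat_lit 0) (XT.lf (nat_lit 0) (nat_lit 6363471594) (nat_lit 76) (nat_lit 11239030071) (nat_lit 76) (nat_lit 6553761130) (nat_lit 11) (nat_lit 4) (nat_lit 12) (nat_lit 5) (nat_lit 12) (nat_lit 4) (nat_lit 359) (nat_lit 216) (nat_lit 205)) (XT.lf (nat_lit 0) (nat_lit 18941268651) (nat_lit 76) (nat_lit 5422122324) (nat_lit 76) (nat_lit 381694313) (nat_lit 11) (nat_lit 4) (nat_lit 12) (nat_lit 5) (nat_lit 12) (nat_lit 4) (nat_lit 360) (nat_lit 216) (nat_lit 204))) (XT.nd (nat_lit 78) (nat_lit 0) (nat_lit 0) (XT.lf (nat_lit 0) (nat_lit 5826071721)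 (nat_lit 152) (nat_lit 18979742714) (nat_lit 0) (nat_lit 546422072) (nat_lit 9) (nat_lit 5) (nat_lit 11) (nat_lit 4) (nat_lit 9) (nat_lit 4) (nat_lit 361) (nat_lit 216) (nat_lit 203)) (XT.lf (nat_lit 0) (nat_lit 12176072359) (nat_lit 152) (nat_lit 7234057941) (nat_lit 0) (nat_lit 6568215372) (nat_lit 9) (nat_lit 5) (nat_lit 11) (nat_lit 4) (nat_lit 9) (nat_lit 4) (nat_lit 362) (nat_lit 216) (nat_lit 202)))))) (XT.nd (nat_lit 39546) (nat_lit 0) (nat_lit 608) (XT.nd (nat_lit 234) (nat_lit 0) (nat_lit 0) (XT.nd (nat_lit 78) (nat_lit 152) (nat_lit 0) (XT.lf (nat_lit 0) (nat_lit 4720365826) (nat_lit 76) (nat_lit 13915504169) (nat_lit 76) (nat_lit 7988999279) (nat_lit 8) (nat_lit 4) (nat_lit 9) (nat_lit 5) (nat_lit 9) (nat_lit 4) (nat_lit 363) (nat_lit 216) (nat_lit 201)) (XT.nd (nat_lit 78) (nat_lit 152) (nat_lit 0) (XT.lf (nat_lit 0) (nat_lit 16930237881) (nat_lit 76) (nat_lit 8298823547) (nat_lit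 76) (nat_lit 2062951763) (nat_lit 8) (nat_lit 4) (nat_lit 9) (nat_lit 5) (nat_lit 9) (nat_lit 4) (nat_lit 364) (nat_lit 216) (nat_lit 200)) (XT.lf (nat_lit 0) (nat_lit 1320565035) (nat_lit 76) (nat_lit 2568936464) (nat_lit 152) (nat_lit 24091128588) (nat_lit 6) (nat_lit 5) (nat_lit 7) (nat_lit 5) (nat_lit 8) (nat_lit 4) (nat_lit 365) (nat_lit 216) (nat_lit 199)))) (XT.nd (nat_lit 39156) (nat_lit 0) (nat_lit 1368) (XT.nd (nat_lit 39078) (nat_lit 0) (nat_lit 1520) (XT.lf (nat_lit 0) (nat_lit 9979297867) (nat_lit 152) (nat_lit 15425273264) (nat_lit 0) (nat_lit 3285341040) (nat_lit 6) (nat_lit 5) (nat_lit 8) (nat_lit 4) (nat_lit 6) (nat_lit 4) (nat_lit 366) (nat_lit 216) (nat_lit 198)) (XT.lf (nat_lit 0) (nat_lit 1961377934) (nat_lit 152) (nat_lit 3516162098) (nat_lit 152) (nat_lit 3516162098) (nat_lit 26) (nat_lit 4) (nat_lit 28) (nat_lit 5) (nat_lit 28) (nat_lit 4) (nat_lit 346) (nat_lit 217) (nat_lit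 217))) (XT.nd (nat_lit 78) (nat_lit 152) (nat_lit 0) (XT.lf (nat_lit 0) (nat_lit 17257977337) (nat_lit 152) (nat_lit 834112924) (nat_lit 152) (nat_lit 285999684) (nat_lit 26) (nat_lit 4) (nat_lit 28) (nat_lit 5) (nat_lit 28) (nat_lit 4) (nat_lit 347) (nat_lit 217) (nat_lit 216)) (XT.lf (nat_lit 0) (nat_lit 6546368757) (nat_lit 152) (nat_lit 6746581185) (nat_lit 0) (nat_lit 5487288348) (nat_lit 24) (nat_lit 5) (nat_lit 26) (nat_lit 4) (nat_lit 24) (nat_lit 4) (nat_lit 348) (nat_lit 217) (nat_lit 215))))) (XT.nd (nat_lit 234) (nat_lit 456) (nat_lit 0) (XT.nd (nat_lit 78) (nat_lit 152) (nat_lit 0) (XT.lf (nat_lit 0) (nat_lit 6221864002) (nat_lit 152) (nat_lit 7269967803) (nat_lit 152) (nat_lit 5704368475) (nat_lit 22) (nat_lit 4) (nat_lit 24) (nat_lit 5) (nat_lit 24) (nat_lit 4) (nat_lit 349) (nat_lit 217) (nat_lit 214)) (XT.nd (nat_lit 78) (nat_lit 76) (nat_lit 0) (XT.lf (nat_lit 0) (nat_lit 913565618)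 (nat_lit 228) (nat_lit 211962720) (nat_lit 76) (nat_lit 18500887308) (nat_lit 21) (nat_lit 5) (nat_lit 24) (nat_lit 5) (nat_lit 22) (nat_lit 4) (nat_lit 350) (nat_lit 217) (nat_lit 213)) (XT.lf (nat_lit 0) (nat_lit 7634073744) (nat_lit 152) (nat_lit 7286136083) (nat_lit 0) (nat_lit 5148967930) (nat_lit 20) (nat_lit 5) (nat_lit 22) (nat_lit 4) (nat_lit 20) (nat_lit 4) (nat_lit 351) (nat_lit 217) (nat_lit 212)))) (XT.nd (nat_lit 156) (nat_lit 228) (nat_lit 0) (XT.nd (nat_lit 78) (nat_lit 76) (nat_lit 0) (XT.lf (nat_lit 0) (nat_lit 5466100838) (nat_lit 152) (nat_lit 9000248335) (nat_lit 152) (nat_lit 6060694909) (nat_lit 18) (nat_lit 4) (nat_lit 20) (nat_lit 5) (nat_lit 20) (nat_lit 4) (nat_lit 352) (nat_lit 217) (nat_lit 211)) (XT.lf (nat_lit 0) (nat_lit 415172302) (nat_lit 228) (nat_lit 2542116649) (nat_lit 76) (nat_lit 18042978126) (nat_lit 17) (nat_lit 5) (nat_lit 20) (nat_lit 5) (nat_lit 18)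 (nat_lit 4) (nat_lit 353) (nat_lit 217) (nat_lit 210))) (XT.nd (nat_lit 78) (nat_lit 152) (nat_lit 0) (XT.lf (nat_lit 0) (nat_lit 6961993315) (nat_lit 152) (nat_lit 11298177504) (nat_lit 0) (nat_lit 3227556883) (nat_lit 16) (nat_lit 5) (nat_lit 18) (nat_lit 4) (nat_lit 16) (nat_lit 4) (nat_lit 354) (nat_lit 217) (nat_lit 209)) (XT.lf (nat_lit 0) (nat_lit 1110636743) (nat_lit 152) (nat_lit 12511512235) (nat_lit 152) (nat_lit 8369346449) (nat_lit 14) (nat_lit 4) (nat_lit 16) (nat_lit 5) (nat_lit 16) (nat_lit 4) (nat_lit 355) (nat_lit 217) (nat_lit 208))))))))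
noncomputable def xc2 : XT := (XT.nd (nat_lit 40950) (nat_lit 0) (nat_lit 0) (XT.nd (nat_lit 39858) (nat_lit 0) (nat_lit 380) (XT.nd (nat_lit 468) (nat_lit 228) (nat_lit 0) (XT.nd (nat_lit 234) (nat_lit 228) (nat_lit 0) (XT.nd (nat_lit 78) (nat_lit 152) (nat_lit 0) (XT.lf (nat_lit 0) (nat_lit 13817604263) (nat_lit 152) (nat_lit 6615892475) (nat_lit 152) (nat_lit 2077872946) (nat_lit 14) (nat_lit 4) (nat_lit 16) (nat_lit 5) (nat_lit 16) (nat_lit 4) (nat_lit 356) (nat_lit 217) (nat_lit 207)) (XT.nd (nat_lit 78) (nat_lit 0) (nat_lit 0) (XT.lf (nat_lit 0) (nat_lit 3654542045) (nat_lit 76) (nat_lit 591440922) (nat_lit 152) (nat_lit 18802278249) (nat_lit 12) (nat_lit 5) (nat_lit 13) (nat_lit 5) (nat_lit 14) (nat_lit 4) (nat_lit 357) (nat_lit 217) (nat_lit 206)) (XT.lf (nat_lit 0) (nat_lit 10706369273) (nat_lit 152) (nat_lit 7380405842) (nat_lit 0) (nat_lit 5514728422) (nat_lit 12) (nat_lit 5) (nat_lit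 14) (nat_lit 4) (nat_lit 12) (nat_lit 4) (nat_lit 358) (nat_lit 217) (nat_lit 205)))) (XT.nd (nat_lit 78) (nat_lit 152) (nat_lit 0) (XT.lf (nat_lit 0) (nat_lit 4837366437) (nat_lit 76) (nat_lit 12441217667) (nat_lit 76) (nat_lit 6894417746) (nat_lit 11) (nat_lit 4) (nat_lit 12) (nat_lit 5) (nat_lit 12) (nat_lit 4) (nat_lit 359) (nat_lit 217) (nat_lit 204)) (XT.nd (nat_lit 78) (nat_lit 152) (nat_lit 0) (XT.lf (nat_lit 0) (nat_lit 17310762958) (nat_lit 76) (nat_lit 6671910525) (nat_lit 76) (nat_lit 780295974) (nat_lit 11) (nat_lit 4) (nat_lit 12) (nat_lit 5) (nat_lit 12) (nat_lit 4) (nat_lit 360) (nat_lit 217) (nat_lit 203)) (XT.lf (nat_lit 0) (nat_lit 4605023672) (nat_lit 76) (nat_lit 757060342) (nat_lit 152) (nat_lit 20009509376) (nat_lit 9) (nat_lit 5) (nat_lit 10) (nat_lit 5) (nat_lit 11) (nat_lit 4) (nat_lit 361) (nat_lit 217) (nat_lit 202))))) (XT.nd (nat_lit 234) (nat_lit 152) (nat_lit 0)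 (XT.nd (nat_lit 78) (nat_lit 76) (nat_lit 0) (XT.lf (nat_lit 0) (nat_lit 11652316720) (nat_lit 152) (nat_lit 9117220836) (nat_lit 0) (nat_lit 5229368782) (nat_lit 9) (nat_lit 5) (nat_lit 11) (nat_lit 4) (nat_lit 9) (nat_lit 4) (nat_lit 362) (nat_lit 217) (nat_lit 201)) (XT.nd (nat_lit 78) (nat_lit 0) (nat_lit 0) (XT.lf (nat_lit 0) (nat_lit 2712568139) (nat_lit 76) (nat_lit 15333255316) (nat_lit 76) (nat_lit 8600940483) (nat_lit 8) (nat_lit 4) (nat_lit 9) (nat_lit 5) (nat_lit 9) (nat_lit 4) (nat_lit 363) (nat_lit 217) (nat_lit 200)) (XT.lf (nat_lit 0) (nat_lit 14825732865) (nat_lit 76) (nat_lit 9760950304) (nat_lit 76) (nat_lit 2728279261) (nat_lit 8) (nat_lit 4) (nat_lit 9) (nat_lit 5) (nat_lit 9) (nat_lit 4) (nat_lit 364) (nat_lit 217) (nat_lit 199)))) (XT.nd (nat_lit 39000) (nat_lit 0) (nat_lit 1672) (XT.nd (nat_lit 78) (nat_lit 76) (nat_lit 0) (XT.lf (nat_lit 0) (nat_lit 3173174329) (nat_lit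 152) (nat_lit 914466866) (nat_lit 76) (nat_lit 23917226595) (nat_lit 7) (nat_lit 5) (nat_lit 9) (nat_lit 5) (nat_lit 8) (nat_lit 4) (nat_lit 365) (nat_lit 217) (nat_lit 198)) (XT.lf (nat_lit 0) (nat_lit 9196510620) (nat_lit 152) (nat_lit 17780694143) (nat_lit 0) (nat_lit 1738281653) (nat_lit 6) (nat_lit 5) (nat_lit 8) (nat_lit 4) (nat_lit 6) (nat_lit 4) (nat_lit 366) (nat_lit 217) (nat_lit 197))) (XT.nd (nat_lit 78) (nat_lit 152) (nat_lit 0) (XT.lf (nat_lit 0) (nat_lit 6291299755) (nat_lit 152) (nat_lit 1165065710) (nat_lit 152) (nat_lit 1165065710) (nat_lit 30) (nat_lit 4) (nat_lit 32) (nat_lit 5) (nat_lit 32) (nat_lit 4) (nat_lit 344) (nat_lit 218) (nat_lit 218)) (XT.lf (nat_lit 0) (nat_lit 4508287353) (nat_lit 152) (nat_lit 9157752525) (nat_lit 0) (nat_lit 3943730715) (nat_lit 28) (nat_lit 5) (nat_lit 30) (nat_lit 4) (nat_lit 28) (nat_lit 4) (nat_lit 345) (nat_lit 218) (nat_lit 217)))))) (XT.nd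 (nat_lit 546) (nat_lit 532) (nat_lit 0) (XT.nd (nat_lit 234) (nat_lit 456) (nat_lit 0) (XT.nd (nat_lit 78) (nat_lit 152) (nat_lit 0) (XT.lf (nat_lit 0) (nat_lit 3793172154) (nat_lit 152) (nat_lit 7654181072) (nat_lit 152) (nat_lit 6541511195) (nat_lit 26) (nat_lit 4) (nat_lit 28) (nat_lit 5) (nat_lit 28) (nat_lit 4) (nat_lit 346) (nat_lit 218) (nat_lit 216)) (XT.nd (nat_lit 78) (nat_lit 76) (nat_lit 0) (XT.lf (nat_lit 0) (nat_lit 131470381) (nat_lit 228) (nat_lit 1379248483) (nat_lit 76) (nat_lit 16870231576) (nat_lit 25) (nat_lit 5) (nat_lit 28) (nat_lit 5) (nat_lit 26) (nat_lit 4) (nat_lit 347) (nat_lit 218) (nat_lit 215)) (XT.lf (nat_lit 0) (nat_lit 6884211274) (nat_lit 152) (nat_lit 7135256251) (nat_lit 0) (nat_lit 4765125047) (nat_lit 24) (nat_lit 5) (nat_lit 26) (nat_lit 4) (nat_lit 24) (nat_lit 4) (nat_lit 348) (nat_lit 218) (nat_lit 214)))) (XT.nd (nat_lit 156) (nat_lit 228) (nat_lit 0)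 (XT.nd (nat_lit 78) (nat_lit 76) (nat_lit 0) (XT.lf (nat_lit 0) (nat_lit 5704315579) (nat_lit 152) (nat_lit 8054263033) (nat_lit 152) (nat_lit 5443410865) (nat_lit 22) (nat_lit 4) (nat_lit 24) (nat_lit 5) (nat_lit 24) (nat_lit 4) (nat_lit 349) (nat_lit 218) (nat_lit 213)) (XT.lf (nat_lit 0) (nat_lit 1104105220) (nat_lit 228) (nat_lit 858002282) (nat_lit 76) (nat_lit 17671415739) (nat_lit 21) (nat_lit 5) (nat_lit 24) (nat_lit 5) (nat_lit 22) (nat_lit 4) (nat_lit 350) (nat_lit 218) (nat_lit 212))) (XT.nd (nat_lit 78) (nat_lit 152) (nat_lit 0) (XT.lf (nat_lit 0) (nat_lit 7748740633) (nat_lit 152) (nat_lit 8062521197) (nat_lit 0) (nat_lit 4266552992) (nat_lit 20) (nat_lit 5) (nat_lit 22) (nat_lit 4) (nat_lit 20) (nat_lit 4) (nat_lit 351) (nat_lit 218) (nat_lit 211)) (XT.lf (nat_lit 0) (nat_lit 4561318075) (nat_lit 152) (nat_lit 9949587927) (nat_lit 152) (nat_lit 6026189012) (nat_lit 18) (nat_lit 4)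 (nat_lit 20) (nat_lit 5) (nat_lit 20) (nat_lit 4) (nat_lit 352) (nat_lit 218) (nat_lit 210))))) (XT.nd (nat_lit 234) (nat_lit 380) (nat_lit 0) (XT.nd (nat_lit 78) (nat_lit 76) (nat_lit 0) (XT.lf (nat_lit 0) (nat_lit 385687536) (nat_lit 228) (nat_lit 3572670550) (nat_lit 76) (nat_lit 17053237309) (nat_lit 17) (nat_lit 5) (nat_lit 20) (nat_lit 5) (nat_lit 18) (nat_lit 4) (nat_lit 353) (nat_lit 218) (nat_lit 209)) (XT.nd (nat_lit 78) (nat_lit 0) (nat_lit 0) (XT.lf (nat_lit 0) (nat_lit 6856426480) (nat_lit 152) (nat_lit 12461895595) (nat_lit 0) (nat_lit 2182266366) (nat_lit 16) (nat_lit 5) (nat_lit 18) (nat_lit 4) (nat_lit 16) (nat_lit 4) (nat_lit 354) (nat_lit 218) (nat_lit 208)) (XT.lf (nat_lit 0) (nat_lit 13448441441) (nat_lit 152) (nat_lit 178860422) (nat_lit 0) (nat_lit 8378427584) (nat_lit 16) (nat_lit 5) (nat_lit 18) (nat_lit 4) (nat_lit 16) (nat_lit 4) (nat_lit 355) (nat_lit 218) (nat_lit 207))))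 (XT.nd (nat_lit 156) (nat_lit 76) (nat_lit 0) (XT.nd (nat_lit 78) (nat_lit 152) (nat_lit 0) (XT.lf (nat_lit 0) (nat_lit 12416321558) (nat_lit 152) (nat_lit 7782425513) (nat_lit 152) (nat_lit 2328087635) (nat_lit 14) (nat_lit 4) (nat_lit 16) (nat_lit 5) (nat_lit 16) (nat_lit 4) (nat_lit 356) (nat_lit 218) (nat_lit 206)) (XT.lf (nat_lit 0) (nat_lit 2112181295) (nat_lit 76) (nat_lit 1818338156) (nat_lit 152) (nat_lit 19134619560) (nat_lit 12) (nat_lit 5) (nat_lit 13) (nat_lit 5) (nat_lit 14) (nat_lit 4) (nat_lit 357) (nat_lit 218) (nat_lit 205))) (XT.nd (nat_lit 78) (nat_lit 76) (nat_lit 0) (XT.lf (nat_lit 0) (nat_lit 10325134171) (nat_lit 152) (nat_lit 9037800799) (nat_lit 0) (nat_lit 4256771183) (nat_lit 12) (nat_lit 5) (nat_lit 14) (nat_lit 4) (nat_lit 12) (nat_lit 4) (nat_lit 358) (nat_lit 218) (nat_lit 204)) (XT.lf (nat_lit 0) (nat_lit 3053545038) (nat_lit 76) (nat_lit 13776100120) (nat_lit 76)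 (nat_lit 7362922502) (nat_lit 11) (nat_lit 4) (nat_lit 12) (nat_lit 5) (nat_lit 12) (nat_lit 4) (nat_lit 359) (nat_lit 218) (nat_lit 203))))))) (XT.nd (nat_lit 39624) (nat_lit 0) (nat_lit 380) (XT.nd (nat_lit 468) (nat_lit 76) (nat_lit 0) (XT.nd (nat_lit 234) (nat_lit 152) (nat_lit 0) (XT.nd (nat_lit 78) (nat_lit 152) (nat_lit 0) (XT.lf (nat_lit 0) (nat_lit 15425581815) (nat_lit 76) (nat_lit 8053007159) (nat_lit 76) (nat_lit 1305058055) (nat_lit 11) (nat_lit 4) (nat_lit 12) (nat_lit 5) (nat_lit 12) (nat_lit 4) (nat_lit 360) (nat_lit 218) (nat_lit 202)) (XT.nd (nat_lit 78) (nat_lit 0) (nat_lit 0) (XT.lf (nat_lit 0) (nat_lit 2576839786) (nat_lit 76) (nat_lit 2200293753) (nat_lit 152) (nat_lit 20616555405) (nat_lit 9) (nat_lit 5) (nat_lit 10) (nat_lit 5) (nat_lit 11) (nat_lit 4) (nat_lit 361) (nat_lit 218) (nat_lit 201)) (XT.lf (nat_lit 0) (nat_lit 11004740870) (nat_lit 152) (nat_lit 11256432012)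 (nat_lit 0) (nat_lit 3761089696) (nat_lit 9) (nat_lit 5) (nat_lit 11) (nat_lit 4) (nat_lit 9) (nat_lit 4) (nat_lit 362) (nat_lit 218) (nat_lit 200)))) (XT.nd (nat_lit 78) (nat_lit 76) (nat_lit 0) (XT.lf (nat_lit 0) (nat_lit 448220643) (nat_lit 76) (nat_lit 16883621484) (nat_lit 76) (nat_lit 9339614102) (nat_lit 8) (nat_lit 4) (nat_lit 9) (nat_lit 5) (nat_lit 9) (nat_lit 4) (nat_lit 363) (nat_lit 218) (nat_lit 199)) (XT.nd (nat_lit 78) (nat_lit 76) (nat_lit 0) (XT.lf (nat_lit 0) (nat_lit 12467494759) (nat_lit 76) (nat_lit 11354399587) (nat_lit 76) (nat_lit 3518784235) (nat_lit 8) (nat_lit 4) (nat_lit 9) (nat_lit 5) (nat_lit 9) (nat_lit 4) (nat_lit 364) (nat_lit 218) (nat_lit 198)) (XT.lf (nat_lit 0) (nat_lit 2343375245) (nat_lit 152) (nat_lit 3385111890) (nat_lit 76) (nat_lit 22303200029) (nat_lit 7) (nat_lit 5) (nat_lit 9) (nat_lit 5) (nat_lit 8) (nat_lit 4) (nat_lit 365) (nat_lit 218) (nat_lit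 197))))) (XT.nd (nat_lit 38844) (nat_lit 0) (nat_lit 1520) (XT.nd (nat_lit 78) (nat_lit 0) (nat_lit 0) (XT.lf (nat_lit 0) (nat_lit 8290624764) (nat_lit 152) (nat_lit 20391603128) (nat_lit 0) (nat_lit 61606758) (nat_lit 6) (nat_lit 5) (nat_lit 8) (nat_lit 4) (nat_lit 6) (nat_lit 4) (nat_lit 366) (nat_lit 218) (nat_lit 196)) (XT.nd (nat_lit 38688) (nat_lit 0) (nat_lit 1976) (XT.lf (nat_lit 0) (nat_lit 14380977615) (nat_lit 152) (nat_lit 9206759662) (nat_lit 0) (nat_lit 5890329609) (nat_lit 6) (nat_lit 5) (nat_lit 8) (nat_lit 4) (nat_lit 6) (nat_lit 4) (nat_lit 367) (nat_lit 218) (nat_lit 195)) (XT.lf (nat_lit 0) (nat_lit 747481996) (nat_lit 228) (nat_lit 6775982321) (nat_lit 0) (nat_lit 747481996) (nat_lit 32) (nat_lit 5) (nat_lit 35) (nat_lit 4) (nat_lit 32) (nat_lit 4) (nat_lit 342) (nat_lit 219) (nat_lit 219)))) (XT.nd (nat_lit 156) (nat_lit 304) (nat_lit 0) (XT.nd (nat_lit 78) (nat_lit 152) (nat_lit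 0) (XT.lf (nat_lit 0) (nat_lit 8392683177) (nat_lit 228) (nat_lit 695030978) (nat_lit 0) (nat_lit 7799559974) (nat_lit 32) (nat_lit 5) (nat_lit 35) (nat_lit 4) (nat_lit 32) (nat_lit 4) (nat_lit 343) (nat_lit 219) (nat_lit 218)) (XT.lf (nat_lit 0) (nat_lit 12454674921) (nat_lit 152) (nat_lit 2979305551) (nat_lit 152) (nat_lit 1810334578) (nat_lit 30) (nat_lit 4) (nat_lit 32) (nat_lit 5) (nat_lit 32) (nat_lit 4) (nat_lit 344) (nat_lit 219) (nat_lit 217))) (XT.nd (nat_lit 78) (nat_lit 152) (nat_lit 0) (XT.lf (nat_lit 0) (nat_lit 4944753162) (nat_lit 152) (nat_lit 9417357451) (nat_lit 0) (nat_lit 3250589949) (nat_lit 28) (nat_lit 5) (nat_lit 30) (nat_lit 4) (nat_lit 28) (nat_lit 4) (nat_lit 345) (nat_lit 219) (nat_lit 216)) (XT.lf (nat_lit 0) (nat_lit 3404307785) (nat_lit 152) (nat_lit 8407625193) (nat_lit 152) (nat_lit 6181313203) (nat_lit 26) (nat_lit 4) (nat_lit 28) (nat_lit 5) (nat_lit 28) (nat_lit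 4) (nat_lit 346) (nat_lit 219) (nat_lit 215)))))) (XT.nd (nat_lit 546) (nat_lit 456) (nat_lit 0) (XT.nd (nat_lit 234) (nat_lit 380) (nat_lit 0) (XT.nd (nat_lit 78) (nat_lit 228) (nat_lit 0) (XT.lf (nat_lit 0) (nat_lit 418345504) (nat_lit 228) (nat_lit 1897903369) (nat_lit 76) (nat_lit 16070421922) (nat_lit 25) (nat_lit 5) (nat_lit 28) (nat_lit 5) (nat_lit 26) (nat_lit 4) (nat_lit 347) (nat_lit 219) (nat_lit 214)) (XT.nd (nat_lit 78) (nat_lit 152) (nat_lit 0) (XT.lf (nat_lit 0) (nat_lit 7094686119) (nat_lit 152) (nat_lit 7783425370) (nat_lit 0) (nat_lit 3913742445) (nat_lit 24) (nat_lit 5) (nat_lit 26) (nat_lit 4) (nat_lit 24) (nat_lit 4) (nat_lit 348) (nat_lit 219) (nat_lit 213)) (XT.lf (nat_lit 0) (nat_lit 4927427711) (nat_lit 152) (nat_lit 8970819109) (nat_lit 152) (nat_lit 5312432774) (nat_lit 22) (nat_lit 4) (nat_lit 24) (nat_lit 5) (nat_lit 24) (nat_lit 4) (nat_lit 349) (nat_lit 219) (nat_lit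 212)))) (XT.nd (nat_lit 156) (nat_lit 228) (nat_lit 0) (XT.nd (nat_lit 78) (nat_lit 76) (nat_lit 0) (XT.lf (nat_lit 0) (nat_lit 1168321334) (nat_lit 228) (nat_lit 1761913804) (nat_lit 76) (nat_lit 16713274113) (nat_lit 21) (nat_lit 5) (nat_lit 24) (nat_lit 5) (nat_lit 22) (nat_lit 4) (nat_lit 350) (nat_lit 219) (nat_lit 211)) (XT.lf (nat_lit 0) (nat_lit 7736449240) (nat_lit 152) (nat_lit 9098756322) (nat_lit 0) (nat_lit 3254137084) (nat_lit 20) (nat_lit 5) (nat_lit 22) (nat_lit 4) (nat_lit 20) (nat_lit 4) (nat_lit 351) (nat_lit 219) (nat_lit 210))) (XT.nd (nat_lit 78) (nat_lit 76) (nat_lit 0) (XT.lf (nat_lit 0) (nat_lit 3396671252) (nat_lit 152) (nat_lit 11032017027) (nat_lit 152) (nat_lit 6121344411) (nat_lit 18) (nat_lit 4) (nat_lit 20) (nat_lit 5) (nat_lit 20) (nat_lit 4) (nat_lit 352) (nat_lit 219) (nat_lit 209)) (XT.lf (nat_lit 0) (nat_lit 230092631) (nat_lit 228) (nat_lit 4861769442) (nat_lit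 76) (nat_lit 15933927884) (nat_lit 17) (nat_lit 5) (nat_lit 20) (nat_lit 5) (nat_lit 18) (nat_lit 4) (nat_lit 353) (nat_lit 219) (nat_lit 208))))) (XT.nd (nat_lit 234) (nat_lit 228) (nat_lit 0) (XT.nd (nat_lit 78) (nat_lit 152) (nat_lit 0) (XT.lf (nat_lit 0) (nat_lit 6624005323) (nat_lit 152) (nat_lit 13886287364) (nat_lit 0) (nat_lit 1006037308) (nat_lit 16) (nat_lit 5) (nat_lit 18) (nat_lit 4) (nat_lit 16) (nat_lit 4) (nat_lit 354) (nat_lit 219) (nat_lit 207)) (XT.nd (nat_lit 78) (nat_lit 152) (nat_lit 0) (XT.lf (nat_lit 0) (nat_lit 13156865223) (nat_lit 152) (nat_lit 1711225854) (nat_lit 0) (nat_lit 7154573186) (nat_lit 16) (nat_lit 5) (nat_lit 18) (nat_lit 4) (nat_lit 16) (nat_lit 4) (nat_lit 355) (nat_lit 219) (nat_lit 206)) (XT.lf (nat_lit 0) (nat_lit 10757369876) (nat_lit 152) (nat_lit 9081597864) (nat_lit 152) (nat_lit 2706175710) (nat_lit 14) (nat_lit 4) (nat_lit 16) (nat_lit 5) (nat_lit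 16) (nat_lit 4) (nat_lit 356) (nat_lit 219) (nat_lit 205)))) (XT.nd (nat_lit 156) (nat_lit 76) (nat_lit 0) (XT.nd (nat_lit 78) (nat_lit 0) (nat_lit 0) (XT.lf (nat_lit 0) (nat_lit 309845237) (nat_lit 76) (nat_lit 3179030823) (nat_lit 152) (nat_lit 19596000461) (nat_lit 12) (nat_lit 5) (nat_lit 13) (nat_lit 5) (nat_lit 14) (nat_lit 4) (nat_lit 357) (nat_lit 219) (nat_lit 204)) (XT.lf (nat_lit 0) (nat_lit 9818534169) (nat_lit 152) (nat_lit 10954071152) (nat_lit 0) (nat_lit 2868146592) (nat_lit 12) (nat_lit 5) (nat_lit 14) (nat_lit 4) (nat_lit 12) (nat_lit 4) (nat_lit 358) (nat_lit 219) (nat_lit 203))) (XT.nd (nat_lit 78) (nat_lit 0) (nat_lit 0) (XT.lf (nat_lit 0) (nat_lit 1010448717) (nat_lit 76) (nat_lit 15244843834) (nat_lit 76) (nat_lit 7959684771) (nat_lit 11) (nat_lit 4) (nat_lit 12) (nat_lit 5) (nat_lit 12) (nat_lit 4) (nat_lit 359) (nat_lit 219) (nat_lit 202)) (XT.lf (nat_lit 0) (nat_lit 13284077976)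 (nat_lit 76) (nat_lit 9566619010) (nat_lit 76) (nat_lit 1956439087) (nat_lit 11) (nat_lit 4) (nat_lit 12) (nat_lit 5) (nat_lit 12) (nat_lit 4) (nat_lit 360) (nat_lit 219) (nat_lit 201))))))))
noncomputable def xc3 : XT := (XT.nd (nat_lit 40560) (nat_lit 0) (nat_lit 0) (XT.nd (nat_lit 39468) (nat_lit 0) (nat_lit 456) (XT.nd (nat_lit 468) (nat_lit 0) (nat_lit 0) (XT.nd (nat_lit 234) (nat_lit 228) (nat_lit 0) (XT.nd (nat_lit 78) (nat_lit 0) (nat_lit 0) (XT.lf (nat_lit 0) (nat_lit 289836715) (nat_lit 76) (nat_lit 3777277577) (nat_lit 152) (nat_lit 21351500082) (nat_lit 9) (nat_lit 5) (nat_lit 10) (nat_lit 5) (nat_lit 11) (nat_lit 4) (nat_lit 361) (nat_lit 219) (nat_lit 200)) (XT.nd (nat_lit 78) (nat_lit 0) (nat_lit 0) (XT.lf (nat_lit 0) (nat_lit 10232778967) (nat_lit 152) (nat_lit 13653560683) (nat_lit 0) (nat_lit 2162095154) (nat_lit 9) (nat_lit 5) (nat_lit 11) (nat_lit 4) (nat_lit 9) (nat_lit 4)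 (nat_lit 362) (nat_lit 219) (nat_lit 199)) (XT.lf (nat_lit 0) (nat_lit 16506772184) (nat_lit 152) (nat_lit 2047445738) (nat_lit 0) (nat_lit 8144480401) (nat_lit 9) (nat_lit 5) (nat_lit 11) (nat_lit 4) (nat_lit 9) (nat_lit 4) (nat_lit 363) (nat_lit 219) (nat_lit 198)))) (XT.nd (nat_lit 78) (nat_lit 152) (nat_lit 0) (XT.lf (nat_lit 0) (nat_lit 9853462968) (nat_lit 76) (nat_lit 13080563732) (nat_lit 76) (nat_lit 4435157416) (nat_lit 8) (nat_lit 4) (nat_lit 9) (nat_lit 5) (nat_lit 9) (nat_lit 4) (nat_lit 364) (nat_lit 219) (nat_lit 197)) (XT.nd (nat_lit 78) (nat_lit 76) (nat_lit 0) (XT.lf (nat_lit 0) (nat_lit 1390805196) (nat_lit 152) (nat_lit 6110848299) (nat_lit 76) (nat_lit 20559629628) (nat_lit 7) (nat_lit 5) (nat_lit 9) (nat_lit 5) (nat_lit 8) (nat_lit 4) (nat_lit 365) (nat_lit 219) (nat_lit 196)) (XT.lf (nat_lit 0) (nat_lit 5502982473) (nat_lit 76) (nat_lit 1769354096) (nat_lit 152) (nat_lit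 21502415320) (nat_lit 6) (nat_lit 5) (nat_lit 7) (nat_lit 5) (nat_lit 8) (nat_lit 4) (nat_lit 366) (nat_lit 219) (nat_lit 195))))) (XT.nd (nat_lit 38688) (nat_lit 0) (nat_lit 1672) (XT.nd (nat_lit 38532) (nat_lit 0) (nat_lit 2204) (XT.lf (nat_lit 0) (nat_lit 13304947077) (nat_lit 152) (nat_lit 12161258692) (nat_lit 0) (nat_lit 4043939918) (nat_lit 6) (nat_lit 5) (nat_lit 8) (nat_lit 4) (nat_lit 6) (nat_lit 4) (nat_lit 367) (nat_lit 219) (nat_lit 194)) (XT.nd (nat_lit 78) (nat_lit 152) (nat_lit 0) (XT.lf (nat_lit 0) (nat_lit 2276042534) (nat_lit 228) (nat_lit 3388605600) (nat_lit 0) (nat_lit 2276042534) (nat_lit 37) (nat_lit 5) (nat_lit 40) (nat_lit 4) (nat_lit 37) (nat_lit 4) (nat_lit 340) (nat_lit 220) (nat_lit 220)) (XT.lf (nat_lit 0) (nat_lit 6191963362) (nat_lit 152) (nat_lit 5319015486) (nat_lit 152) (nat_lit 4695880249) (nat_lit 35) (nat_lit 4) (nat_lit 37) (nat_lit 5) (nat_lit 37) (nat_lit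 4) (nat_lit 341) (nat_lit 220) (nat_lit 219)))) (XT.nd (nat_lit 156) (nat_lit 304) (nat_lit 0) (XT.nd (nat_lit 78) (nat_lit 0) (nat_lit 0) (XT.lf (nat_lit 0) (nat_lit 2032706508) (nat_lit 228) (nat_lit 13681998884) (nat_lit 0) (nat_lit 828666406) (nat_lit 32) (nat_lit 5) (nat_lit 35) (nat_lit 4) (nat_lit 32) (nat_lit 4) (nat_lit 342) (nat_lit 220) (nat_lit 218)) (XT.lf (nat_lit 0) (nat_lit 8859382601) (nat_lit 228) (nat_lit 951312055) (nat_lit 0) (nat_lit 7079494729) (nat_lit 32) (nat_lit 5) (nat_lit 35) (nat_lit 4) (nat_lit 32) (nat_lit 4) (nat_lit 343) (nat_lit 220) (nat_lit 217))) (XT.nd (nat_lit 78) (nat_lit 152) (nat_lit 0) (XT.lf (nat_lit 0) (nat_lit 12070789372) (nat_lit 152) (nat_lit 3758424209) (nat_lit 152) (nat_lit 1419460832) (nat_lit 30) (nat_lit 4) (nat_lit 32) (nat_lit 5) (nat_lit 32) (nat_lit 4) (nat_lit 344) (nat_lit 220) (nat_lit 216)) (XT.lf (nat_lit 0) (nat_lit 5253509522) (nat_lit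 152) (nat_lit 9936794142) (nat_lit 0) (nat_lit 2428259395) (nat_lit 28) (nat_lit 5) (nat_lit 30) (nat_lit 4) (nat_lit 28) (nat_lit 4) (nat_lit 345) (nat_lit 220) (nat_lit 215)))))) (XT.nd (nat_lit 546) (nat_lit 456) (nat_lit 0) (XT.nd (nat_lit 234) (nat_lit 456) (nat_lit 0) (XT.nd (nat_lit 78) (nat_lit 152) (nat_lit 0) (XT.lf (nat_lit 0) (nat_lit 2755822975) (nat_lit 152) (nat_lit 9293314908) (nat_lit 152) (nat_lit 5951415484) (nat_lit 26) (nat_lit 4) (nat_lit 28) (nat_lit 5) (nat_lit 28) (nat_lit 4) (nat_lit 346) (nat_lit 220) (nat_lit 214)) (XT.nd (nat_lit 78) (nat_lit 76) (nat_lit 0) (XT.lf (nat_lit 0) (nat_lit 578627289) (nat_lit 228) (nat_lit 2674673560) (nat_lit 76) (nat_lit 15141992298) (nat_lit 25) (nat_lit 5) (nat_lit 28) (nat_lit 5) (nat_lit 26) (nat_lit 4) (nat_lit 347) (nat_lit 220) (nat_lit 213)) (XT.lf (nat_lit 0) (nat_lit 7177977203) (nat_lit 152) (nat_lit 8691654904) (nat_lit 0)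 (nat_lit 2932396616) (nat_lit 24) (nat_lit 5) (nat_lit 26) (nat_lit 4) (nat_lit 24) (nat_lit 4) (nat_lit 348) (nat_lit 220) (nat_lit 212)))) (XT.nd (nat_lit 156) (nat_lit 228) (nat_lit 0) (XT.nd (nat_lit 78) (nat_lit 76) (nat_lit 0) (XT.lf (nat_lit 0) (nat_lit 3890521564) (nat_lit 152) (nat_lit 10020436907) (nat_lit 152) (nat_lit 5311319756) (nat_lit 22) (nat_lit 4) (nat_lit 24) (nat_lit 5) (nat_lit 24) (nat_lit 4) (nat_lit 349) (nat_lit 220) (nat_lit 211)) (XT.lf (nat_lit 0) (nat_lit 1106270069) (nat_lit 228) (nat_lit 2924487110) (nat_lit 76) (nat_lit 15625625219) (nat_lit 21) (nat_lit 5) (nat_lit 24) (nat_lit 5) (nat_lit 22) (nat_lit 4) (nat_lit 350) (nat_lit 220) (nat_lit 210))) (XT.nd (nat_lit 78) (nat_lit 152) (nat_lit 0) (XT.lf (nat_lit 0) (nat_lit 7597188825) (nat_lit 152) (nat_lit 10395746907) (nat_lit 0) (nat_lit 2110835570) (nat_lit 20) (nat_lit 5) (nat_lit 22) (nat_lit 4) (nat_lit 20)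 (nat_lit 4) (nat_lit 351) (nat_lit 220) (nat_lit 209)) (XT.lf (nat_lit 0) (nat_lit 1971142714) (nat_lit 152) (nat_lit 12248481449) (nat_lit 152) (nat_lit 6346244252) (nat_lit 18) (nat_lit 4) (nat_lit 20) (nat_lit 5) (nat_lit 20) (nat_lit 4) (nat_lit 352) (nat_lit 220) (nat_lit 208))))) (XT.nd (nat_lit 234) (nat_lit 304) (nat_lit 0) (XT.nd (nat_lit 78) (nat_lit 152) (nat_lit 0) (XT.lf (nat_lit 0) (nat_lit 14631976186) (nat_lit 152) (nat_lit 6358444093) (nat_lit 152) (nat_lit 52436080) (nat_lit 18) (nat_lit 4) (nat_lit 20) (nat_lit 5) (nat_lit 20) (nat_lit 4) (nat_lit 353) (nat_lit 220) (nat_lit 207)) (XT.nd (nat_lit 78) (nat_lit 0) (nat_lit 0) (XT.lf (nat_lit 0) (nat_lit 5960341055) (nat_lit 76) (nat_lit 306173583) (nat_lit 152) (nat_lit 15268411721) (nat_lit 16) (nat_lit 5) (nat_lit 17) (nat_lit 5) (nat_lit 18) (nat_lit 4) (nat_lit 354) (nat_lit 220) (nat_lit 206)) (XT.lf (nat_lit 0) (nat_lit 12739954559)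 (nat_lit 152) (nat_lit 3502364713) (nat_lit 0) (nat_lit 5800139621) (nat_lit 16) (nat_lit 5) (nat_lit 18) (nat_lit 4) (nat_lit 16) (nat_lit 4) (nat_lit 355) (nat_lit 220) (nat_lit 205)))) (XT.nd (nat_lit 156) (nat_lit 76) (nat_lit 0) (XT.nd (nat_lit 78) (nat_lit 76) (nat_lit 0) (XT.lf (nat_lit 0) (nat_lit 8839299647) (nat_lit 152) (nat_lit 10514544727) (nat_lit 152) (nat_lit 3212467539) (nat_lit 14) (nat_lit 4) (nat_lit 16) (nat_lit 5) (nat_lit 16) (nat_lit 4) (nat_lit 356) (nat_lit 220) (nat_lit 204)) (XT.lf (nat_lit 0) (nat_lit 2932055291) (nat_lit 228) (nat_lit 1731036423) (nat_lit 76) (nat_lit 18444171511) (nat_lit 13) (nat_lit 5) (nat_lit 16) (nat_lit 5) (nat_lit 14) (nat_lit 4) (nat_lit 357) (nat_lit 220) (nat_lit 203))) (XT.nd (nat_lit 78) (nat_lit 0) (nat_lit 0) (XT.lf (nat_lit 0) (nat_lit 9186126606) (nat_lit 152) (nat_lit 13130891312) (nat_lit 0) (nat_lit 1347641285) (nat_lit 12) (nat_lit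 5) (nat_lit 14) (nat_lit 4) (nat_lit 12) (nat_lit 4) (nat_lit 358) (nat_lit 220) (nat_lit 202)) (XT.lf (nat_lit 0) (nat_lit 15563424031) (nat_lit 152) (nat_lit 1276740545) (nat_lit 0) (nat_lit 7399917850) (nat_lit 12) (nat_lit 5) (nat_lit 14) (nat_lit 4) (nat_lit 12) (nat_lit 4) (nat_lit 359) (nat_lit 220) (nat_lit 201))))))) (XT.nd (nat_lit 39390) (nat_lit 0) (nat_lit 532) (XT.nd (nat_lit 546) (nat_lit 0) (nat_lit 0) (XT.nd (nat_lit 234) (nat_lit 228) (nat_lit 0) (XT.nd (nat_lit 78) (nat_lit 152) (nat_lit 0) (XT.lf (nat_lit 0) (nat_lit 10884380224) (nat_lit 76) (nat_lit 11214068650) (nat_lit 76) (nat_lit 2735008236) (nat_lit 11) (nat_lit 4) (nat_lit 12) (nat_lit 5) (nat_lit 12) (nat_lit 4) (nat_lit 360) (nat_lit 220) (nat_lit 200)) (XT.nd (nat_lit 78) (nat_lit 76) (nat_lit 0) (XT.lf (nat_lit 0) (nat_lit 3246066198) (nat_lit 152) (nat_lit 2228370026) (nat_lit 76) (nat_lit 19971662029) (nat_lit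 10) (nat_lit 5) (nat_lit 12) (nat_lit 5) (nat_lit 11) (nat_lit 4) (nat_lit 361) (nat_lit 220) (nat_lit 199)) (XT.lf (nat_lit 0) (nat_lit 9335756480) (nat_lit 152) (nat_lit 16310701426) (nat_lit 0) (nat_lit 430987974) (nat_lit 9) (nat_lit 5) (nat_lit 11) (nat_lit 4) (nat_lit 9) (nat_lit 4) (nat_lit 362) (nat_lit 220) (nat_lit 198)))) (XT.nd (nat_lit 156) (nat_lit 152) (nat_lit 0) (XT.nd (nat_lit 78) (nat_lit 76) (nat_lit 0) (XT.lf (nat_lit 0) (nat_lit 15561013878) (nat_lit 152) (nat_lit 4794546887) (nat_lit 0) (nat_lit 6373130838) (nat_lit 9) (nat_lit 5) (nat_lit 11) (nat_lit 4) (nat_lit 9) (nat_lit 4) (nat_lit 363) (nat_lit 220) (nat_lit 197)) (XT.lf (nat_lit 0) (nat_lit 6981353385) (nat_lit 76) (nat_lit 14940951038) (nat_lit 76) (nat_lit 5478199518) (nat_lit 8) (nat_lit 4) (nat_lit 9) (nat_lit 5) (nat_lit 9) (nat_lit 4) (nat_lit 364) (nat_lit 220) (nat_lit 196))) (XT.nd (nat_lit 78) (nat_lit 76)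 (nat_lit 0) (XT.lf (nat_lit 0) (nat_lit 314631839) (nat_lit 152) (nat_lit 9094057804) (nat_lit 76) (nat_lit 18684991884) (nat_lit 7) (nat_lit 5) (nat_lit 9) (nat_lit 5) (nat_lit 8) (nat_lit 4) (nat_lit 365) (nat_lit 220) (nat_lit 195)) (XT.lf (nat_lit 0) (nat_lit 2394979671) (nat_lit 76) (nat_lit 3735556811) (nat_lit 152) (nat_lit 22677933061) (nat_lit 6) (nat_lit 5) (nat_lit 7) (nat_lit 5) (nat_lit 8) (nat_lit 4) (nat_lit 366) (nat_lit 220) (nat_lit 194))))) (XT.nd (nat_lit 38532) (nat_lit 0) (nat_lit 1976) (XT.nd (nat_lit 38376) (nat_lit 0) (nat_lit 2584) (XT.lf (nat_lit 0) (nat_lit 12105473794) (nat_lit 152) (nat_lit 15373534190) (nat_lit 0) (nat_lit 2066015342) (nat_lit 6) (nat_lit 5) (nat_lit 8) (nat_lit 4) (nat_lit 6) (nat_lit 4) (nat_lit 367) (nat_lit 220) (nat_lit 193)) (XT.nd (nat_lit 78) (nat_lit 152) (nat_lit 0) (XT.lf (nat_lit 0) (nat_lit 3462060426) (nat_lit 228) (nat_lit 705718106)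 (nat_lit 0) (nat_lit 3462060426) (nat_lit 42) (nat_lit 5) (nat_lit 45) (nat_lit 4) (nat_lit 42) (nat_lit 4) (nat_lit 338) (nat_lit 221) (nat_lit 221)) (XT.lf (nat_lit 0) (nat_lit 11617372743) (nat_lit 152) (nat_lit 2301880796) (nat_lit 152) (nat_lit 1647214916) (nat_lit 40) (nat_lit 4) (nat_lit 42) (nat_lit 5) (nat_lit 42) (nat_lit 4) (nat_lit 339) (nat_lit 221) (nat_lit 220)))) (XT.nd (nat_lit 156) (nat_lit 228) (nat_lit 0) (XT.nd (nat_lit 78) (nat_lit 152) (nat_lit 0) (XT.lf (nat_lit 0) (nat_lit 5121130460) (nat_lit 228) (nat_lit 6905557104) (nat_lit 0) (nat_lit 3856165929) (nat_lit 37) (nat_lit 5) (nat_lit 40) (nat_lit 4) (nat_lit 37) (nat_lit 4) (nat_lit 340) (nat_lit 221) (nat_lit 219)) (XT.lf (nat_lit 0) (nat_lit 5935648165) (nat_lit 152) (nat_lit 6072047921) (nat_lit 152) (nat_lit 4202097723) (nat_lit 35) (nat_lit 4) (nat_lit 37) (nat_lit 5) (nat_lit 37) (nat_lit 4) (nat_lit 341) (nat_lit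 221) (nat_lit 218))) (XT.nd (nat_lit 78) (nat_lit 0) (nat_lit 0) (XT.lf (nat_lit 0) (nat_lit 2442363823) (nat_lit 228) (nat_lit 14072215230) (nat_lit 0) (nat_lit 33231545) (nat_lit 32) (nat_lit 5) (nat_lit 35) (nat_lit 4) (nat_lit 32) (nat_lit 4) (nat_lit 342) (nat_lit 221) (nat_lit 217)) (XT.lf (nat_lit 0) (nat_lit 9200066041) (nat_lit 228) (nat_lit 1464098144) (nat_lit 0) (nat_lit 6231858258) (nat_lit 32) (nat_lit 5) (nat_lit 35) (nat_lit 4) (nat_lit 32) (nat_lit 4) (nat_lit 343) (nat_lit 221) (nat_lit 216)))))) (XT.nd (nat_lit 546) (nat_lit 608) (nat_lit 0) (XT.nd (nat_lit 234) (nat_lit 380) (nat_lit 0) (XT.nd (nat_lit 78) (nat_lit 304) (nat_lit 0) (XT.lf (nat_lit 0) (nat_lit 11430607429) (nat_lit 152) (nat_lit 4668168179) (nat_lit 152) (nat_lit 1157168644) (nat_lit 30) (nat_lit 4) (nat_lit 32) (nat_lit 5) (nat_lit 32) (nat_lit 4) (nat_lit 344) (nat_lit 221) (nat_lit 215)) (XT.nd (nat_lit 78)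 (nat_lit 152) (nat_lit 0) (XT.lf (nat_lit 0) (nat_lit 5434826219) (nat_lit 152) (nat_lit 10716516475) (nat_lit 0) (nat_lit 1476020514) (nat_lit 28) (nat_lit 5) (nat_lit 30) (nat_lit 4) (nat_lit 28) (nat_lit 4) (nat_lit 345) (nat_lit 221) (nat_lit 214)) (XT.lf (nat_lit 0) (nat_lit 1847151088) (nat_lit 152) (nat_lit 10312024121) (nat_lit 152) (nat_lit 5851617156) (nat_lit 26) (nat_lit 4) (nat_lit 28) (nat_lit 5) (nat_lit 28) (nat_lit 4) (nat_lit 346) (nat_lit 221) (nat_lit 213)))) (XT.nd (nat_lit 156) (nat_lit 228) (nat_lit 0) (XT.nd (nat_lit 78) (nat_lit 76) (nat_lit 0) (XT.lf (nat_lit 0) (nat_lit 612455788) (nat_lit 228) (nat_lit 3710237786) (nat_lit 76) (nat_lit 14084131453) (nat_lit 25) (nat_lit 5) (nat_lit 28) (nat_lit 5) (nat_lit 26) (nat_lit 4) (nat_lit 347) (nat_lit 221) (nat_lit 212)) (XT.lf (nat_lit 0) (nat_lit 7134157303) (nat_lit 152) (nat_lit 9860738451) (nat_lit 0) (nat_lit 1820230073)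 (nat_lit 24) (nat_lit 5) (nat_lit 26) (nat_lit 4) (nat_lit 24) (nat_lit 4) (nat_lit 348) (nat_lit 221) (nat_lit 211))) (XT.nd (nat_lit 78) (nat_lit 76) (nat_lit 0) (XT.lf (nat_lit 0) (nat_lit 2592691103) (nat_lit 152) (nat_lit 11204033567) (nat_lit 152) (nat_lit 5440070838) (nat_lit 22) (nat_lit 4) (nat_lit 24) (nat_lit 5) (nat_lit 24) (nat_lit 4) (nat_lit 349) (nat_lit 221) (nat_lit 210)) (XT.lf (nat_lit 0) (nat_lit 917897206) (nat_lit 228) (nat_lit 4346738042) (nat_lit 76) (nat_lit 14407518684) (nat_lit 21) (nat_lit 5) (nat_lit 24) (nat_lit 5) (nat_lit 22) (nat_lit 4) (nat_lit 350) (nat_lit 221) (nat_lit 209))))) (XT.nd (nat_lit 234) (nat_lit 380) (nat_lit 0) (XT.nd (nat_lit 78) (nat_lit 152) (nat_lit 0) (XT.lf (nat_lit 0) (nat_lit 7330837703) (nat_lit 152) (nat_lit 11954626245) (nat_lit 0) (nat_lit 835649449) (nat_lit 20) (nat_lit 5) (nat_lit 22) (nat_lit 4) (nat_lit 20) (nat_lit 4) (nat_lit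 351) (nat_lit 221) (nat_lit 208)) (XT.nd (nat_lit 78) (nat_lit 0) (nat_lit 0) (XT.lf (nat_lit 0) (nat_lit 283486856) (nat_lit 152) (nat_lit 13600044121) (nat_lit 152) (nat_lit 6701085050) (nat_lit 18) (nat_lit 4) (nat_lit 20) (nat_lit 5) (nat_lit 20) (nat_lit 4) (nat_lit 352) (nat_lit 221) (nat_lit 207)) (XT.lf (nat_lit 0) (nat_lit 12839407866) (nat_lit 152) (nat_lit 7757165557) (nat_lit 152) (nat_lit 466195984) (nat_lit 18) (nat_lit 4) (nat_lit 20) (nat_lit 5) (nat_lit 20) (nat_lit 4) (nat_lit 353) (nat_lit 221) (nat_lit 206)))) (XT.nd (nat_lit 156) (nat_lit 228) (nat_lit 0) (XT.nd (nat_lit 78) (nat_lit 0) (nat_lit 0) (XT.lf (nat_lit 0) (nat_lit 4022514293) (nat_lit 76) (nat_lit 1766632532) (nat_lit 152) (nat_lit 15767136866) (nat_lit 16) (nat_lit 5) (nat_lit 17) (nat_lit 5) (nat_lit 18) (nat_lit 4) (nat_lit 354) (nat_lit 221) (nat_lit 205)) (XT.lf (nat_lit 0) (nat_lit 12197345158) (nat_lit 152)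 (nat_lit 5553842073) (nat_lit 0) (nat_lit 4313943403) (nat_lit 16) (nat_lit 5) (nat_lit 18) (nat_lit 4) (nat_lit 16) (nat_lit 4) (nat_lit 355) (nat_lit 221) (nat_lit 204))) (XT.nd (nat_lit 78) (nat_lit 76) (nat_lit 0) (XT.lf (nat_lit 0) (nat_lit 6660434886) (nat_lit 152) (nat_lit 12082518191) (nat_lit 152) (nat_lit 3847405513) (nat_lit 14) (nat_lit 4) (nat_lit 16) (nat_lit 5) (nat_lit 16) (nat_lit 4) (nat_lit 356) (nat_lit 221) (nat_lit 203)) (XT.lf (nat_lit 0) (nat_lit 2251893838) (nat_lit 228) (nat_lit 4027754040) (nat_lit 76) (nat_lit 16852824340) (nat_lit 13) (nat_lit 5) (nat_lit 16) (nat_lit 5) (nat_lit 14) (nat_lit 4) (nat_lit 357) (nat_lit 221) (nat_lit 202))))))))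
noncomputable def xc4 : XT := (XT.nd (nat_lit 40248) (nat_lit 0) (nat_lit 0) (XT.nd (nat_lit 39156) (nat_lit 0) (nat_lit 1064) (XT.nd (nat_lit 468) (nat_lit 228) (nat_lit 0) (XT.nd (nat_lit 234) (nat_lit 152) (nat_lit 0) (XT.nd (nat_lit 78) (nat_lit 76) (nat_lit 0) (XT.lf (nat_lit 0) (nat_lit 8119231647) (nat_lit 76) (nat_lit 310140886) (nat_lit 152) (nat_lit 15262036109) (nat_lit 12) (nat_lit 5) (nat_lit 13) (nat_lit 5) (nat_lit 14) (nat_lit 4) (nat_lit 358) (nat_lit 221) (nat_lit 201)) (XT.nd (nat_lit 78) (nat_lit 76) (nat_lit 0) (XT.lf (nat_lit 0) (nat_lit 14753296653) (nat_lit 152) (nat_lit 3810300826) (nat_lit 0) (nat_lit 5704310194) (nat_lit 12) (nat_lit 5) (nat_lit 14) (nat_lit 4) (nat_lit 12) (nat_lit 4) (nat_lit 359) (nat_lit 221) (nat_lit 200)) (XT.lf (nat_lit 0) (nat_lit 8224391736) (nat_lit 76) (nat_lit 12996795599) (nat_lit 76) (nat_lit 3641445807) (nat_lit 11) (nat_lit 4) (nat_lit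 12) (nat_lit 5) (nat_lit 12) (nat_lit 4) (nat_lit 360) (nat_lit 221) (nat_lit 199)))) (XT.nd (nat_lit 78) (nat_lit 76) (nat_lit 0) (XT.lf (nat_lit 0) (nat_lit 2302188362) (nat_lit 152) (nat_lit 5002369429) (nat_lit 76) (nat_lit 18171828474) (nat_lit 10) (nat_lit 5) (nat_lit 12) (nat_lit 5) (nat_lit 11) (nat_lit 4) (nat_lit 361) (nat_lit 221) (nat_lit 198)) (XT.nd (nat_lit 78) (nat_lit 0) (nat_lit 0) (XT.lf (nat_lit 0) (nat_lit 6869523964) (nat_lit 76) (nat_lit 1452798169) (nat_lit 152) (nat_lit 17786810375) (nat_lit 9) (nat_lit 5) (nat_lit 10) (nat_lit 5) (nat_lit 11) (nat_lit 4) (nat_lit 362) (nat_lit 221) (nat_lit 197)) (XT.lf (nat_lit 0) (nat_lit 14490830671) (nat_lit 152) (nat_lit 7801361677) (nat_lit 0) (nat_lit 4469328127) (nat_lit 9) (nat_lit 5) (nat_lit 11) (nat_lit 4) (nat_lit 9) (nat_lit 4) (nat_lit 363) (nat_lit 221) (nat_lit 196))))) (XT.nd (nat_lit 234) (nat_lit 76) (nat_lit 0) (XT.nd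 (nat_lit 78) (nat_lit 76) (nat_lit 0) (XT.lf (nat_lit 0) (nat_lit 3848656401) (nat_lit 76) (nat_lit 16937187084) (nat_lit 76) (nat_lit 6648821939) (nat_lit 8) (nat_lit 4) (nat_lit 9) (nat_lit 5) (nat_lit 9) (nat_lit 4) (nat_lit 364) (nat_lit 221) (nat_lit 195)) (XT.nd (nat_lit 78) (nat_lit 76) (nat_lit 0) (XT.lf (nat_lit 0) (nat_lit 15785617493) (nat_lit 76) (nat_lit 11445315826) (nat_lit 76) (nat_lit 897860776) (nat_lit 8) (nat_lit 4) (nat_lit 9) (nat_lit 5) (nat_lit 9) (nat_lit 4) (nat_lit 365) (nat_lit 221) (nat_lit 194)) (XT.lf (nat_lit 0) (nat_lit 4870145876) (nat_lit 152) (nat_lit 961303975) (nat_lit 76) (nat_lit 23013448842) (nat_lit 7) (nat_lit 5) (nat_lit 9) (nat_lit 5) (nat_lit 8) (nat_lit 4) (nat_lit 366) (nat_lit 221) (nat_lit 193)))) (XT.nd (nat_lit 38298) (nat_lit 0) (nat_lit 2736) (XT.nd (nat_lit 38220) (nat_lit 0) (nat_lit 2964) (XT.lf (nat_lit 0) (nat_lit 10736034148) (nat_lit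 76) (nat_lit 45772722) (nat_lit 152) (nat_lit 18800917463) (nat_lit 6) (nat_lit 5) (nat_lit 7) (nat_lit 5) (nat_lit 8) (nat_lit 4) (nat_lit 367) (nat_lit 221) (nat_lit 192)) (XT.lf (nat_lit 0) (nat_lit 1380425356) (nat_lit 228) (nat_lit 2978234983) (nat_lit 228) (nat_lit 2978234983) (nat_lit 45) (nat_lit 4) (nat_lit 48) (nat_lit 5) (nat_lit 48) (nat_lit 4) (nat_lit 336) (nat_lit 222) (nat_lit 222))) (XT.nd (nat_lit 78) (nat_lit 0) (nat_lit 0) (XT.lf (nat_lit 0) (nat_lit 737546521) (nat_lit 228) (nat_lit 14162459744) (nat_lit 0) (nat_lit 63240664) (nat_lit 42) (nat_lit 5) (nat_lit 45) (nat_lit 4) (nat_lit 42) (nat_lit 4) (nat_lit 337) (nat_lit 222) (nat_lit 221)) (XT.lf (nat_lit 0) (nat_lit 7526012129) (nat_lit 228) (nat_lit 1538090998) (nat_lit 0) (nat_lit 6197040393) (nat_lit 42) (nat_lit 5) (nat_lit 45) (nat_lit 4) (nat_lit 42) (nat_lit 4) (nat_lit 338) (nat_lit 222) (nat_lit 220)))))) (XT.nd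 (nat_lit 546) (nat_lit 608) (nat_lit 0) (XT.nd (nat_lit 234) (nat_lit 532) (nat_lit 0) (XT.nd (nat_lit 78) (nat_lit 380) (nat_lit 0) (XT.lf (nat_lit 0) (nat_lit 11364434820) (nat_lit 152) (nat_lit 3084762335) (nat_lit 152) (nat_lit 1120192657) (nat_lit 40) (nat_lit 4) (nat_lit 42) (nat_lit 5) (nat_lit 42) (nat_lit 4) (nat_lit 339) (nat_lit 222) (nat_lit 219)) (XT.nd (nat_lit 78) (nat_lit 152) (nat_lit 0) (XT.lf (nat_lit 0) (nat_lit 5563799324) (nat_lit 228) (nat_lit 7290706962) (nat_lit 0) (nat_lit 3032764952) (nat_lit 37) (nat_lit 5) (nat_lit 40) (nat_lit 4) (nat_lit 37) (nat_lit 4) (nat_lit 340) (nat_lit 222) (nat_lit 218)) (XT.lf (nat_lit 0) (nat_lit 5422793806) (nat_lit 152) (nat_lit 6955635544) (nat_lit 152) (nat_lit 3837236447) (nat_lit 35) (nat_lit 4) (nat_lit 37) (nat_lit 5) (nat_lit 37) (nat_lit 4) (nat_lit 341) (nat_lit 222) (nat_lit 217)))) (XT.nd (nat_lit 156) (nat_lit 304) (nat_lit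 0) (XT.nd (nat_lit 78) (nat_lit 0) (nat_lit 0) (XT.lf (nat_lit 0) (nat_lit 1826272235) (nat_lit 152) (nat_lit 903890312) (nat_lit 228) (nat_lit 13824932989) (nat_lit 32) (nat_lit 5) (nat_lit 34) (nat_lit 5) (nat_lit 35) (nat_lit 4) (nat_lit 342) (nat_lit 222) (nat_lit 216)) (XT.lf (nat_lit 0) (nat_lit 9415031183) (nat_lit 228) (nat_lit 2233837312) (nat_lit 0) (nat_lit 5255909910) (nat_lit 32) (nat_lit 5) (nat_lit 35) (nat_lit 4) (nat_lit 32) (nat_lit 4) (nat_lit 343) (nat_lit 222) (nat_lit 215))) (XT.nd (nat_lit 78) (nat_lit 152) (nat_lit 0) (XT.lf (nat_lit 0) (nat_lit 10533569712) (nat_lit 152) (nat_lit 5709332382) (nat_lit 152) (nat_lit 1023228825) (nat_lit 30) (nat_lit 4) (nat_lit 32) (nat_lit 5) (nat_lit 32) (nat_lit 4) (nat_lit 344) (nat_lit 222) (nat_lit 214)) (XT.lf (nat_lit 0) (nat_lit 5488861685) (nat_lit 152) (nat_lit 11757205761) (nat_lit 0) (nat_lit 393041252) (nat_lit 28) (nat_lit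 5) (nat_lit 30) (nat_lit 4) (nat_lit 28) (nat_lit 4) (nat_lit 345) (nat_lit 222) (nat_lit 213))))) (XT.nd (nat_lit 234) (nat_lit 304) (nat_lit 0) (XT.nd (nat_lit 78) (nat_lit 152) (nat_lit 0) (XT.lf (nat_lit 0) (nat_lit 677498138) (nat_lit 152) (nat_lit 11464642966) (nat_lit 152) (nat_lit 5881831018) (nat_lit 26) (nat_lit 4) (nat_lit 28) (nat_lit 5) (nat_lit 28) (nat_lit 4) (nat_lit 346) (nat_lit 222) (nat_lit 212)) (XT.nd (nat_lit 78) (nat_lit 76) (nat_lit 0) (XT.lf (nat_lit 0) (nat_lit 519860560) (nat_lit 228) (nat_lit 5005500911) (nat_lit 76) (nat_lit 12895915045) (nat_lit 25) (nat_lit 5) (nat_lit 28) (nat_lit 5) (nat_lit 26) (nat_lit 4) (nat_lit 347) (nat_lit 222) (nat_lit 211)) (XT.lf (nat_lit 0) (nat_lit 6963188131) (nat_lit 152) (nat_lit 11291697541) (nat_lit 0) (nat_lit 576271020) (nat_lit 24) (nat_lit 5) (nat_lit 26) (nat_lit 4) (nat_lit 24) (nat_lit 4) (nat_lit 348) (nat_lit 222) (nat_lit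 210)))) (XT.nd (nat_lit 156) (nat_lit 76) (nat_lit 0) (XT.nd (nat_lit 78) (nat_lit 76) (nat_lit 0) (XT.lf (nat_lit 0) (nat_lit 1032802301) (nat_lit 152) (nat_lit 12522643301) (nat_lit 152) (nat_lit 5698798522) (nat_lit 22) (nat_lit 4) (nat_lit 24) (nat_lit 5) (nat_lit 24) (nat_lit 4) (nat_lit 349) (nat_lit 222) (nat_lit 209)) (XT.lf (nat_lit 0) (nat_lit 603038147) (nat_lit 228) (nat_lit 6029909342) (nat_lit 76) (nat_lit 13057890143) (nat_lit 21) (nat_lit 5) (nat_lit 24) (nat_lit 5) (nat_lit 22) (nat_lit 4) (nat_lit 350) (nat_lit 222) (nat_lit 208))) (XT.nd (nat_lit 78) (nat_lit 0) (nat_lit 0) (XT.lf (nat_lit 0) (nat_lit 6360785606) (nat_lit 76) (nat_lit 580144215) (nat_lit 152) (nat_lit 13200378928) (nat_lit 20) (nat_lit 5) (nat_lit 21) (nat_lit 5) (nat_lit 22) (nat_lit 4) (nat_lit 351) (nat_lit 222) (nat_lit 207)) (XT.lf (nat_lit 0) (nat_lit 13430943323) (nat_lit 152) (nat_lit 1645897857) (nat_lit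 0) (nat_lit 5529234159) (nat_lit 20) (nat_lit 5) (nat_lit 22) (nat_lit 4) (nat_lit 20) (nat_lit 4) (nat_lit 352) (nat_lit 222) (nat_lit 206))))))) (XT.nd (nat_lit 1092) (nat_lit 152) (nat_lit 0) (XT.nd (nat_lit 468) (nat_lit 304) (nat_lit 0) (XT.nd (nat_lit 234) (nat_lit 304) (nat_lit 0) (XT.nd (nat_lit 78) (nat_lit 152) (nat_lit 0) (XT.lf (nat_lit 0) (nat_lit 10786293278) (nat_lit 152) (nat_lit 9290792692) (nat_lit 152) (nat_lit 1008490809) (nat_lit 18) (nat_lit 4) (nat_lit 20) (nat_lit 5) (nat_lit 20) (nat_lit 4) (nat_lit 353) (nat_lit 222) (nat_lit 205)) (XT.nd (nat_lit 78) (nat_lit 0) (nat_lit 0) (XT.lf (nat_lit 0) (nat_lit 1821620137) (nat_lit 76) (nat_lit 3363245960) (nat_lit 152) (nat_lit 16395686926) (nat_lit 16) (nat_lit 5) (nat_lit 17) (nat_lit 5) (nat_lit 18) (nat_lit 4) (nat_lit 354) (nat_lit 222) (nat_lit 204)) (XT.lf (nat_lit 0) (nat_lit 11528562896) (nat_lit 152) (nat_lit 7867450485)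 (nat_lit 0) (nat_lit 2694685915) (nat_lit 16) (nat_lit 5) (nat_lit 18) (nat_lit 4) (nat_lit 16) (nat_lit 4) (nat_lit 355) (nat_lit 222) (nat_lit 203)))) (XT.nd (nat_lit 78) (nat_lit 152) (nat_lit 0) (XT.lf (nat_lit 0) (nat_lit 4218871732) (nat_lit 152) (nat_lit 13786888330) (nat_lit 152) (nat_lit 4611544433) (nat_lit 14) (nat_lit 4) (nat_lit 16) (nat_lit 5) (nat_lit 16) (nat_lit 4) (nat_lit 356) (nat_lit 222) (nat_lit 202)) (XT.nd (nat_lit 78) (nat_lit 76) (nat_lit 0) (XT.lf (nat_lit 0) (nat_lit 1445785665) (nat_lit 228) (nat_lit 6586378129) (nat_lit 76) (nat_lit 15128401969) (nat_lit 13) (nat_lit 5) (nat_lit 16) (nat_lit 5) (nat_lit 14) (nat_lit 4) (nat_lit 357) (nat_lit 222) (nat_lit 201)) (XT.lf (nat_lit 0) (nat_lit 5433070964) (nat_lit 76) (nat_lit 2122276291) (nat_lit 152) (nat_lit 16165521617) (nat_lit 12) (nat_lit 5) (nat_lit 13) (nat_lit 5) (nat_lit 14) (nat_lit 4) (nat_lit 358) (nat_lit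 222) (nat_lit 200))))) (XT.nd (nat_lit 234) (nat_lit 152) (nat_lit 0) (XT.nd (nat_lit 78) (nat_lit 152) (nat_lit 0) (XT.lf (nat_lit 0) (nat_lit 13817642038) (nat_lit 152) (nat_lit 6605698134) (nat_lit 0) (nat_lit 3875268418) (nat_lit 12) (nat_lit 5) (nat_lit 14) (nat_lit 4) (nat_lit 12) (nat_lit 4) (nat_lit 359) (nat_lit 222) (nat_lit 199)) (XT.nd (nat_lit 78) (nat_lit 76) (nat_lit 0) (XT.lf (nat_lit 0) (nat_lit 5301788250) (nat_lit 76) (nat_lit 14916357580) (nat_lit 76) (nat_lit 4676543831) (nat_lit 11) (nat_lit 4) (nat_lit 12) (nat_lit 5) (nat_lit 12) (nat_lit 4) (nat_lit 360) (nat_lit 222) (nat_lit 198)) (XT.lf (nat_lit 0) (nat_lit 1232774225) (nat_lit 152) (nat_lit 8038386636) (nat_lit 76) (nat_lit 16238381651) (nat_lit 10) (nat_lit 5) (nat_lit 12) (nat_lit 5) (nat_lit 11) (nat_lit 4) (nat_lit 361) (nat_lit 222) (nat_lit 197)))) (XT.nd (nat_lit 156) (nat_lit 76) (nat_lit 0) (XT.nd (nat_lit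 78) (nat_lit 0) (nat_lit 0) (XT.lf (nat_lit 0) (nat_lit 3706510898) (nat_lit 76) (nat_lit 3479364012) (nat_lit 152) (nat_lit 18957761774) (nat_lit 9) (nat_lit 5) (nat_lit 10) (nat_lit 5) (nat_lit 11) (nat_lit 4) (nat_lit 362) (nat_lit 222) (nat_lit 196)) (XT.lf (nat_lit 0) (nat_lit 13295287454) (nat_lit 152) (nat_lit 11070517420) (nat_lit 0) (nat_lit 2431408753) (nat_lit 9) (nat_lit 5) (nat_lit 11) (nat_lit 4) (nat_lit 9) (nat_lit 4) (nat_lit 363) (nat_lit 222) (nat_lit 195))) (XT.nd (nat_lit 78) (nat_lit 0) (nat_lit 0) (XT.lf (nat_lit 0) (nat_lit 452634708) (nat_lit 76) (nat_lit 19071016156) (nat_lit 76) (nat_lit 7948047551) (nat_lit 8) (nat_lit 4) (nat_lit 9) (nat_lit 5) (nat_lit 9) (nat_lit 4) (nat_lit 364) (nat_lit 222) (nat_lit 194)) (XT.lf (nat_lit 0) (nat_lit 12308604934) (nat_lit 76) (nat_lit 13616308771) (nat_lit 76) (nat_lit 2241796570) (nat_lit 8) (nat_lit 4) (nat_lit 9) (nat_lit 5)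 (nat_lit 9) (nat_lit 4) (nat_lit 365) (nat_lit 222) (nat_lit 193)))))) (XT.nd (nat_lit 38532) (nat_lit 0) (nat_lit 1672) (XT.nd (nat_lit 38220) (nat_lit 0) (nat_lit 2584) (XT.nd (nat_lit 38064) (nat_lit 0) (nat_lit 3192) (XT.lf (nat_lit 0) (nat_lit 7025052877) (nat_lit 76) (nat_lit 2321920453) (nat_lit 152) (nat_lit 20276024648) (nat_lit 6) (nat_lit 5) (nat_lit 7) (nat_lit 5) (nat_lit 8) (nat_lit 4) (nat_lit 367) (nat_lit 222) (nat_lit 191)) (XT.nd (nat_lit 78) (nat_lit 228) (nat_lit 0) (XT.lf (nat_lit 0) (nat_lit 2934513858) (nat_lit 228) (nat_lit 2063147705) (nat_lit 228) (nat_lit 2063147705) (nat_lit 51) (nat_lit 4) (nat_lit 54) (nat_lit 5) (nat_lit 54) (nat_lit 4) (nat_lit 334) (nat_lit 223) (nat_lit 223)) (XT.lf (nat_lit 0) (nat_lit 2563457980) (nat_lit 228) (nat_lit 9975668669) (nat_lit 0) (nat_lit 1855032247) (nat_lit 48) (nat_lit 5) (nat_lit 51) (nat_lit 4) (nat_lit 48) (nat_lit 4) (nat_lit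 335) (nat_lit 223) (nat_lit 222)))) (XT.nd (nat_lit 156) (nat_lit 152) (nat_lit 0) (XT.nd (nat_lit 78) (nat_lit 228) (nat_lit 0) (XT.lf (nat_lit 0) (nat_lit 2634230142) (nat_lit 228) (nat_lit 6718627088) (nat_lit 228) (nat_lit 5322409382) (nat_lit 45) (nat_lit 4) (nat_lit 48) (nat_lit 5) (nat_lit 48) (nat_lit 4) (nat_lit 336) (nat_lit 223) (nat_lit 221)) (XT.lf (nat_lit 0) (nat_lit 541697907) (nat_lit 152) (nat_lit 748240117) (nat_lit 228) (nat_lit 13676186912) (nat_lit 42) (nat_lit 5) (nat_lit 44) (nat_lit 5) (nat_lit 45) (nat_lit 4) (nat_lit 337) (nat_lit 223) (nat_lit 220))) (XT.nd (nat_lit 78) (nat_lit 152) (nat_lit 0) (XT.lf (nat_lit 0) (nat_lit 8003240145) (nat_lit 228) (nat_lit 1918166023) (nat_lit 0) (nat_lit 5344135434) (nat_lit 42) (nat_lit 5) (nat_lit 45) (nat_lit 4) (nat_lit 42) (nat_lit 4) (nat_lit 338) (nat_lit 223) (nat_lit 219)) (XT.lf (nat_lit 0) (nat_lit 10858337961) (nat_lit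 152) (nat_lit 3996543606) (nat_lit 152) (nat_lit 720353515) (nat_lit 40) (nat_lit 4) (nat_lit 42) (nat_lit 5) (nat_lit 42) (nat_lit 4) (nat_lit 339) (nat_lit 223) (nat_lit 218))))) (XT.nd (nat_lit 234) (nat_lit 304) (nat_lit 0) (XT.nd (nat_lit 78) (nat_lit 380) (nat_lit 0) (XT.lf (nat_lit 0) (nat_lit 5880478459) (nat_lit 228) (nat_lit 7932997314) (nat_lit 0) (nat_lit 2081162665) (nat_lit 37) (nat_lit 5) (nat_lit 40) (nat_lit 4) (nat_lit 37) (nat_lit 4) (nat_lit 340) (nat_lit 223) (nat_lit 217)) (XT.nd (nat_lit 78) (nat_lit 228) (nat_lit 0) (XT.lf (nat_lit 0) (nat_lit 4652952159) (nat_lit 152) (nat_lit 7970550421) (nat_lit 152) (nat_lit 3600977611) (nat_lit 35) (nat_lit 4) (nat_lit 37) (nat_lit 5) (nat_lit 37) (nat_lit 4) (nat_lit 341) (nat_lit 223) (nat_lit 216)) (XT.lf (nat_lit 0) (nat_lit 917727731) (nat_lit 152) (nat_lit 1973830747) (nat_lit 228) (nat_lit 13673770410) (nat_lit 32) (nat_lit 5)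 (nat_lit 34) (nat_lit 5) (nat_lit 35) (nat_lit 4) (nat_lit 342) (nat_lit 223) (nat_lit 215)))) (XT.nd (nat_lit 156) (nat_lit 152) (nat_lit 0) (XT.nd (nat_lit 78) (nat_lit 152) (nat_lit 0) (XT.lf (nat_lit 0) (nat_lit 9504465859) (nat_lit 228) (nat_lit 3261202145) (nat_lit 0) (nat_lit 4150796912) (nat_lit 32) (nat_lit 5) (nat_lit 35) (nat_lit 4) (nat_lit 32) (nat_lit 4) (nat_lit 343) (nat_lit 223) (nat_lit 214)) (XT.lf (nat_lit 0) (nat_lit 9378892400) (nat_lit 152) (nat_lit 6882826573) (nat_lit 152) (nat_lit 1017524340) (nat_lit 30) (nat_lit 4) (nat_lit 32) (nat_lit 5) (nat_lit 32) (nat_lit 4) (nat_lit 344) (nat_lit 223) (nat_lit 213))) (XT.nd (nat_lit 78) (nat_lit 0) (nat_lit 0) (XT.lf (nat_lit 0) (nat_lit 4588524919) (nat_lit 76) (nat_lit 832543643) (nat_lit 152) (nat_lit 12232633122) (nat_lit 28) (nat_lit 5) (nat_lit 29) (nat_lit 5) (nat_lit 30) (nat_lit 4) (nat_lit 345) (nat_lit 223) (nat_lit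 212)) (XT.lf (nat_lit 0) (nat_lit 12002917178) (nat_lit 152) (nat_lit 744266984) (nat_lit 0) (nat_lit 5292822062) (nat_lit 28) (nat_lit 5) (nat_lit 30) (nat_lit 4) (nat_lit 28) (nat_lit 4) (nat_lit 346) (nat_lit 223) (nat_lit 211))))))))
noncomputable def xc5 : XT := (XT.nd (nat_lit 40014) (nat_lit 0) (nat_lit 76) (XT.nd (nat_lit 1014) (nat_lit 456) (nat_lit 0) (XT.nd (nat_lit 468) (nat_lit 608) (nat_lit 0) (XT.nd (nat_lit 234) (nat_lit 304) (nat_lit 0) (XT.nd (nat_lit 78) (nat_lit 76) (nat_lit 0) (XT.lf (nat_lit 0) (nat_lit 300760696) (nat_lit 228) (nat_lit 6561594718) (nat_lit 76) (nat_lit 11576304824) (nat_lit 25) (nat_lit 5) (nat_lit 28) (nat_lit 5) (nat_lit 26) (nat_lit 4) (nat_lit 347) (nat_lit 223) (nat_lit 210)) (XT.nd (nat_lit 78) (nat_lit 0) (nat_lit 0) (XT.lf (nat_lit 0) (nat_lit 5858980571) (nat_lit 76) (nat_lit 811206616) (nat_lit 152) (nat_lit 12179842802) (nat_lit 24) (nat_lit 5)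 (nat_lit 25) (nat_lit 5) (nat_lit 26) (nat_lit 4) (nat_lit 348) (nat_lit 223) (nat_lit 209)) (XT.lf (nat_lit 0) (nat_lit 13192042944) (nat_lit 152) (nat_lit 780140197) (nat_lit 0) (nat_lit 5302353530) (nat_lit 24) (nat_lit 5) (nat_lit 26) (nat_lit 4) (nat_lit 24) (nat_lit 4) (nat_lit 349) (nat_lit 223) (nat_lit 208)))) (XT.nd (nat_lit 78) (nat_lit 76) (nat_lit 0) (XT.lf (nat_lit 0) (nat_lit 161417773) (nat_lit 228) (nat_lit 7975471744) (nat_lit 76) (nat_lit 11575560309) (nat_lit 21) (nat_lit 5) (nat_lit 24) (nat_lit 5) (nat_lit 22) (nat_lit 4) (nat_lit 350) (nat_lit 223) (nat_lit 207)) (XT.nd (nat_lit 78) (nat_lit 0) (nat_lit 0) (XT.lf (nat_lit 0) (nat_lit 4286678935) (nat_lit 76) (nat_lit 2143056358) (nat_lit 152) (nat_lit 13734587497) (nat_lit 20) (nat_lit 5) (nat_lit 21) (nat_lit 5) (nat_lit 22) (nat_lit 4) (nat_lit 351) (nat_lit 223) (nat_lit 206)) (XT.lf (nat_lit 0) (nat_lit 12854191131) (nat_lit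 152) (nat_lit 3833391996) (nat_lit 0) (nat_lit 3942827470) (nat_lit 20) (nat_lit 5) (nat_lit 22) (nat_lit 4) (nat_lit 20) (nat_lit 4) (nat_lit 352) (nat_lit 223) (nat_lit 205))))) (XT.nd (nat_lit 234) (nat_lit 304) (nat_lit 0) (XT.nd (nat_lit 78) (nat_lit 152) (nat_lit 0) (XT.lf (nat_lit 0) (nat_lit 8470838436) (nat_lit 152) (nat_lit 10960665561) (nat_lit 152) (nat_lit 1679794404) (nat_lit 18) (nat_lit 4) (nat_lit 20) (nat_lit 5) (nat_lit 20) (nat_lit 4) (nat_lit 353) (nat_lit 223) (nat_lit 204)) (XT.nd (nat_lit 78) (nat_lit 76) (nat_lit 0) (XT.lf (nat_lit 0) (nat_lit 4457327435) (nat_lit 228) (nat_lit 635814878) (nat_lit 76) (nat_lit 16514529588) (nat_lit 17) (nat_lit 5) (nat_lit 20) (nat_lit 5) (nat_lit 18) (nat_lit 4) (nat_lit 354) (nat_lit 223) (nat_lit 203)) (XT.lf (nat_lit 0) (nat_lit 10733023399) (nat_lit 152) (nat_lit 10445211550) (nat_lit 0) (nat_lit 940952270) (nat_lit 16) (nat_lit 5)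 (nat_lit 18) (nat_lit 4) (nat_lit 16) (nat_lit 4) (nat_lit 355) (nat_lit 223) (nat_lit 202)))) (XT.nd (nat_lit 156) (nat_lit 76) (nat_lit 0) (XT.nd (nat_lit 78) (nat_lit 76) (nat_lit 0) (XT.lf (nat_lit 0) (nat_lit 1512476780) (nat_lit 152) (nat_lit 15629144399) (nat_lit 152) (nat_lit 5505551992) (nat_lit 14) (nat_lit 4) (nat_lit 16) (nat_lit 5) (nat_lit 16) (nat_lit 4) (nat_lit 356) (nat_lit 223) (nat_lit 201)) (XT.lf (nat_lit 0) (nat_lit 513026407) (nat_lit 228) (nat_lit 9409144382) (nat_lit 76) (nat_lit 13269397620) (nat_lit 13) (nat_lit 5) (nat_lit 16) (nat_lit 5) (nat_lit 14) (nat_lit 4) (nat_lit 357) (nat_lit 223) (nat_lit 200))) (XT.nd (nat_lit 78) (nat_lit 0) (nat_lit 0) (XT.lf (nat_lit 0) (nat_lit 2481982093) (nat_lit 76) (nat_lit 4072438905) (nat_lit 152) (nat_lit 17198821959) (nat_lit 12) (nat_lit 5) (nat_lit 13) (nat_lit 5) (nat_lit 14) (nat_lit 4) (nat_lit 358) (nat_lit 223) (nat_lit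 199)) (XT.lf (nat_lit 0) (nat_lit 12755642622) (nat_lit 152) (nat_lit 9665375048) (nat_lit 0) (nat_lit 1911194332) (nat_lit 12) (nat_lit 5) (nat_lit 14) (nat_lit 4) (nat_lit 12) (nat_lit 4) (nat_lit 359) (nat_lit 223) (nat_lit 198)))))) (XT.nd (nat_lit 38454) (nat_lit 0) (nat_lit 2736) (XT.nd (nat_lit 234) (nat_lit 228) (nat_lit 0) (XT.nd (nat_lit 78) (nat_lit 152) (nat_lit 0) (XT.lf (nat_lit 0) (nat_lit 2114016034) (nat_lit 76) (nat_lit 16974431879) (nat_lit 76) (nat_lit 5841206764) (nat_lit 11) (nat_lit 4) (nat_lit 12) (nat_lit 5) (nat_lit 12) (nat_lit 4) (nat_lit 360) (nat_lit 223) (nat_lit 197)) (XT.nd (nat_lit 78) (nat_lit 76) (nat_lit 0) (XT.lf (nat_lit 0) (nat_lit 36889348) (nat_lit 152) (nat_lit 11339074478) (nat_lit 76) (nat_lit 14169632140) (nat_lit 10) (nat_lit 5) (nat_lit 12) (nat_lit 5) (nat_lit 11) (nat_lit 4) (nat_lit 361) (nat_lit 223) (nat_lit 196)) (XT.lf (nat_lit 0) (nat_lit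 277833615) (nat_lit 76) (nat_lit 5644752737) (nat_lit 152) (nat_lit 20258458915) (nat_lit 9) (nat_lit 5) (nat_lit 10) (nat_lit 5) (nat_lit 11) (nat_lit 4) (nat_lit 362) (nat_lit 223) (nat_lit 195)))) (XT.nd (nat_lit 156) (nat_lit 228) (nat_lit 0) (XT.nd (nat_lit 78) (nat_lit 0) (nat_lit 0) (XT.lf (nat_lit 0) (nat_lit 11973339577) (nat_lit 152) (nat_lit 14604870661) (nat_lit 0) (nat_lit 257592009) (nat_lit 9) (nat_lit 5) (nat_lit 11) (nat_lit 4) (nat_lit 9) (nat_lit 4) (nat_lit 363) (nat_lit 223) (nat_lit 194)) (XT.lf (nat_lit 0) (nat_lit 18155463037) (nat_lit 152) (nat_lit 3167583573) (nat_lit 0) (nat_lit 6188171873) (nat_lit 9) (nat_lit 5) (nat_lit 11) (nat_lit 4) (nat_lit 9) (nat_lit 4) (nat_lit 364) (nat_lit 223) (nat_lit 193))) (XT.nd (nat_lit 156) (nat_lit 152) (nat_lit 0) (XT.lf (nat_lit 0) (nat_lit 8567659226) (nat_lit 76) (nat_lit 15925676810) (nat_lit 76) (nat_lit 3714168562) (nat_lit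 8) (nat_lit 4) (nat_lit 9) (nat_lit 5) (nat_lit 9) (nat_lit 4) (nat_lit 365) (nat_lit 223) (nat_lit 192)) (XT.lf (nat_lit 0) (nat_lit 3049166770) (nat_lit 76) (nat_lit 4736960460) (nat_lit 152) (nat_lit 21880024066) (nat_lit 6) (nat_lit 5) (nat_lit 7) (nat_lit 5) (nat_lit 8) (nat_lit 4) (nat_lit 367) (nat_lit 223) (nat_lit 190))))) (XT.nd (nat_lit 234) (nat_lit 684) (nat_lit 0) (XT.nd (nat_lit 78) (nat_lit 456) (nat_lit 0) (XT.lf (nat_lit 0) (nat_lit 4020418043) (nat_lit 228) (nat_lit 1390069420) (nat_lit 228) (nat_lit 1390069420) (nat_lit 57) (nat_lit 4) (nat_lit 60) (nat_lit 5) (nat_lit 60) (nat_lit 4) (nat_lit 332) (nat_lit 224) (nat_lit 224)) (XT.nd (nat_lit 78) (nat_lit 228) (nat_lit 0) (XT.lf (nat_lit 0) (nat_lit 3888116781) (nat_lit 228) (nat_lit 6825936297) (nat_lit 0) (nat_lit 3143844706) (nat_lit 54) (nat_lit 5) (nat_lit 57) (nat_lit 4) (nat_lit 54) (nat_lit 4) (nat_lit 333) (nat_lit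 224) (nat_lit 223)) (XT.lf (nat_lit 0) (nat_lit 5744129354) (nat_lit 228) (nat_lit 4922912836) (nat_lit 228) (nat_lit 3456046513) (nat_lit 51) (nat_lit 4) (nat_lit 54) (nat_lit 5) (nat_lit 54) (nat_lit 4) (nat_lit 334) (nat_lit 224) (nat_lit 222)))) (XT.nd (nat_lit 156) (nat_lit 228) (nat_lit 0) (XT.nd (nat_lit 78) (nat_lit 228) (nat_lit 0) (XT.lf (nat_lit 0) (nat_lit 3146840320) (nat_lit 228) (nat_lit 10229337304) (nat_lit 0) (nat_lit 1020944109) (nat_lit 48) (nat_lit 5) (nat_lit 51) (nat_lit 4) (nat_lit 48) (nat_lit 4) (nat_lit 335) (nat_lit 224) (nat_lit 221)) (XT.lf (nat_lit 0) (nat_lit 2254257791) (nat_lit 228) (nat_lit 7609546713) (nat_lit 228) (nat_lit 4815891304) (nat_lit 45) (nat_lit 4) (nat_lit 48) (nat_lit 5) (nat_lit 48) (nat_lit 4) (nat_lit 336) (nat_lit 224) (nat_lit 220))) (XT.nd (nat_lit 78) (nat_lit 0) (nat_lit 0) (XT.lf (nat_lit 0) (nat_lit 26968783) (nat_lit 152) (nat_lit 1690325322)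 (nat_lit 228) (nat_lit 13254661437) (nat_lit 42) (nat_lit 5) (nat_lit 44) (nat_lit 5) (nat_lit 45) (nat_lit 4) (nat_lit 337) (nat_lit 224) (nat_lit 219)) (XT.lf (nat_lit 0) (nat_lit 8356221895) (nat_lit 228) (nat_lit 2551993393) (nat_lit 0) (nat_lit 4364660721) (nat_lit 42) (nat_lit 5) (nat_lit 45) (nat_lit 4) (nat_lit 42) (nat_lit 4) (nat_lit 338) (nat_lit 224) (nat_lit 218))))))) (XT.nd (nat_lit 1092) (nat_lit 988) (nat_lit 0) (XT.nd (nat_lit 546) (nat_lit 608) (nat_lit 0) (XT.nd (nat_lit 234) (nat_lit 532) (nat_lit 0) (XT.nd (nat_lit 78) (nat_lit 380) (nat_lit 0) (XT.lf (nat_lit 0) (nat_lit 10098639945) (nat_lit 152) (nat_lit 5038021310) (nat_lit 152) (nat_lit 447348116) (nat_lit 40) (nat_lit 4) (nat_lit 42) (nat_lit 5) (nat_lit 42) (nat_lit 4) (nat_lit 339) (nat_lit 224) (nat_lit 217)) (XT.nd (nat_lit 78) (nat_lit 152) (nat_lit 0) (XT.lf (nat_lit 0) (nat_lit 6071444577) (nat_lit 228) (nat_lit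 8832989383) (nat_lit 0) (nat_lit 1000527568) (nat_lit 37) (nat_lit 5) (nat_lit 40) (nat_lit 4) (nat_lit 37) (nat_lit 4) (nat_lit 340) (nat_lit 224) (nat_lit 216)) (XT.lf (nat_lit 0) (nat_lit 3625450548) (nat_lit 152) (nat_lit 9117679371) (nat_lit 152) (nat_lit 3493114775) (nat_lit 35) (nat_lit 4) (nat_lit 37) (nat_lit 5) (nat_lit 37) (nat_lit 4) (nat_lit 341) (nat_lit 224) (nat_lit 215)))) (XT.nd (nat_lit 156) (nat_lit 304) (nat_lit 0) (XT.nd (nat_lit 78) (nat_lit 152) (nat_lit 0) (XT.lf (nat_lit 0) (nat_lit 2928101135) (nat_lit 228) (nat_lit 247322231) (nat_lit 76) (nat_lit 13403068064) (nat_lit 34) (nat_lit 5) (nat_lit 37) (nat_lit 5) (nat_lit 35) (nat_lit 4) (nat_lit 342) (nat_lit 224) (nat_lit 214)) (XT.lf (nat_lit 0) (nat_lit 9468448217) (nat_lit 228) (nat_lit 4547090340) (nat_lit 0) (nat_lit 2915553632) (nat_lit 32) (nat_lit 5) (nat_lit 35) (nat_lit 4) (nat_lit 32) (nat_lit 4) (nat_lit 343)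 (nat_lit 224) (nat_lit 213))) (XT.nd (nat_lit 78) (nat_lit 152) (nat_lit 0) (XT.lf (nat_lit 0) (nat_lit 7965566551) (nat_lit 152) (nat_lit 8189676135) (nat_lit 152) (nat_lit 1140050206) (nat_lit 30) (nat_lit 4) (nat_lit 32) (nat_lit 5) (nat_lit 32) (nat_lit 4) (nat_lit 344) (nat_lit 224) (nat_lit 212)) (XT.lf (nat_lit 0) (nat_lit 3031572570) (nat_lit 76) (nat_lit 2197864033) (nat_lit 152) (nat_lit 12441757332) (nat_lit 28) (nat_lit 5) (nat_lit 29) (nat_lit 5) (nat_lit 30) (nat_lit 4) (nat_lit 345) (nat_lit 224) (nat_lit 211))))) (XT.nd (nat_lit 234) (nat_lit 304) (nat_lit 0) (XT.nd (nat_lit 78) (nat_lit 304) (nat_lit 0) (XT.lf (nat_lit 0) (nat_lit 11742588994) (nat_lit 152) (nat_lit 2416948023) (nat_lit 0) (nat_lit 3899347519) (nat_lit 28) (nat_lit 5) (nat_lit 30) (nat_lit 4) (nat_lit 28) (nat_lit 4) (nat_lit 346) (nat_lit 224) (nat_lit 210)) (XT.nd (nat_lit 78) (nat_lit 152) (nat_lit 0) (XT.lf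 (nat_lit 0) (nat_lit 10078810276) (nat_lit 152) (nat_lit 8334541441) (nat_lit 152) (nat_lit 45633743) (nat_lit 26) (nat_lit 4) (nat_lit 28) (nat_lit 5) (nat_lit 28) (nat_lit 4) (nat_lit 347) (nat_lit 224) (nat_lit 209)) (XT.lf (nat_lit 0) (nat_lit 3912093331) (nat_lit 76) (nat_lit 2342207005) (nat_lit 152) (nat_lit 12617473833) (nat_lit 24) (nat_lit 5) (nat_lit 25) (nat_lit 5) (nat_lit 26) (nat_lit 4) (nat_lit 348) (nat_lit 224) (nat_lit 208)))) (XT.nd (nat_lit 156) (nat_lit 152) (nat_lit 0) (XT.nd (nat_lit 78) (nat_lit 152) (nat_lit 0) (XT.lf (nat_lit 0) (nat_lit 12709488457) (nat_lit 152) (nat_lit 2841076129) (nat_lit 0) (nat_lit 3747060507) (nat_lit 24) (nat_lit 5) (nat_lit 26) (nat_lit 4) (nat_lit 24) (nat_lit 4) (nat_lit 349) (nat_lit 224) (nat_lit 207)) (XT.lf (nat_lit 0) (nat_lit 9549150613) (nat_lit 152) (nat_lit 9775041923) (nat_lit 152) (nat_lit 412763261) (nat_lit 22) (nat_lit 4) (nat_lit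 24) (nat_lit 5) (nat_lit 24) (nat_lit 4) (nat_lit 350) (nat_lit 224) (nat_lit 206))) (XT.nd (nat_lit 78) (nat_lit 0) (nat_lit 0) (XT.lf (nat_lit 0) (nat_lit 1947962460) (nat_lit 76) (nat_lit 3843347290) (nat_lit 152) (nat_lit 14398975833) (nat_lit 20) (nat_lit 5) (nat_lit 21) (nat_lit 5) (nat_lit 22) (nat_lit 4) (nat_lit 351) (nat_lit 224) (nat_lit 205)) (XT.lf (nat_lit 0) (nat_lit 12150929858) (nat_lit 152) (nat_lit 6284624944) (nat_lit 0) (nat_lit 2222125071) (nat_lit 20) (nat_lit 5) (nat_lit 22) (nat_lit 4) (nat_lit 20) (nat_lit 4) (nat_lit 352) (nat_lit 224) (nat_lit 204)))))) (XT.nd (nat_lit 546) (nat_lit 380) (nat_lit 0) (XT.nd (nat_lit 234) (nat_lit 304) (nat_lit 0) (XT.nd (nat_lit 78) (nat_lit 152) (nat_lit 0) (XT.lf (nat_lit 0) (nat_lit 5891020129) (nat_lit 152) (nat_lit 12768243274) (nat_lit 152) (nat_lit 2480693346) (nat_lit 18) (nat_lit 4) (nat_lit 20) (nat_lit 5) (nat_lit 20) (nat_lit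 4) (nat_lit 353) (nat_lit 224) (nat_lit 203)) (XT.nd (nat_lit 78) (nat_lit 76) (nat_lit 0) (XT.lf (nat_lit 0) (nat_lit 3615270128) (nat_lit 228) (nat_lit 3333000522) (nat_lit 76) (nat_lit 14689205873) (nat_lit 17) (nat_lit 5) (nat_lit 20) (nat_lit 5) (nat_lit 18) (nat_lit 4) (nat_lit 354) (nat_lit 224) (nat_lit 202)) (XT.lf (nat_lit 0) (nat_lit 8854874738) (nat_lit 76) (nat_lit 961398837) (nat_lit 152) (nat_lit 12334220881) (nat_lit 16) (nat_lit 5) (nat_lit 17) (nat_lit 5) (nat_lit 18) (nat_lit 4) (nat_lit 355) (nat_lit 224) (nat_lit 201)))) (XT.nd (nat_lit 156) (nat_lit 152) (nat_lit 0) (XT.nd (nat_lit 78) (nat_lit 152) (nat_lit 0) (XT.lf (nat_lit 0) (nat_lit 16159267882) (nat_lit 152) (nat_lit 1441951998) (nat_lit 0) (nat_lit 5078581108) (nat_lit 16) (nat_lit 5) (nat_lit 18) (nat_lit 4) (nat_lit 16) (nat_lit 4) (nat_lit 356) (nat_lit 224) (nat_lit 200)) (XT.lf (nat_lit 0) (nat_lit 10723315957)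 (nat_lit 152) (nat_lit 11947648329) (nat_lit 152) (nat_lit 554470956) (nat_lit 14) (nat_lit 4) (nat_lit 16) (nat_lit 5) (nat_lit 16) (nat_lit 4) (nat_lit 357) (nat_lit 224) (nat_lit 199))) (XT.nd (nat_lit 78) (nat_lit 76) (nat_lit 0) (XT.lf (nat_lit 0) (nat_lit 5430501751) (nat_lit 228) (nat_lit 726952766) (nat_lit 76) (nat_lit 17631009015) (nat_lit 13) (nat_lit 5) (nat_lit 16) (nat_lit 5) (nat_lit 14) (nat_lit 4) (nat_lit 358) (nat_lit 224) (nat_lit 198)) (XT.lf (nat_lit 0) (nat_lit 11375469693) (nat_lit 76) (nat_lit 192148306) (nat_lit 152) (nat_lit 12801104321) (nat_lit 12) (nat_lit 5) (nat_lit 13) (nat_lit 5) (nat_lit 14) (nat_lit 4) (nat_lit 359) (nat_lit 224) (nat_lit 197))))) (XT.nd (nat_lit 234) (nat_lit 228) (nat_lit 0) (XT.nd (nat_lit 78) (nat_lit 152) (nat_lit 0) (XT.lf (nat_lit 0) (nat_lit 17839817746) (nat_lit 152) (nat_lit 1324113569) (nat_lit 0) (nat_lit 5803453204) (nat_lit 12)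 (nat_lit 5) (nat_lit 14) (nat_lit 4) (nat_lit 12) (nat_lit 4) (nat_lit 360) (nat_lit 224) (nat_lit 196)) (XT.nd (nat_lit 78) (nat_lit 76) (nat_lit 0) (XT.lf (nat_lit 0) (nat_lit 10668627912) (nat_lit 76) (nat_lit 13612172667) (nat_lit 76) (nat_lit 1303608273) (nat_lit 11) (nat_lit 4) (nat_lit 12) (nat_lit 5) (nat_lit 12) (nat_lit 4) (nat_lit 361) (nat_lit 224) (nat_lit 195)) (XT.lf (nat_lit 0) (nat_lit 4553554301) (nat_lit 152) (nat_lit 3374656408) (nat_lit 76) (nat_lit 18292736202) (nat_lit 10) (nat_lit 5) (nat_lit 12) (nat_lit 5) (nat_lit 11) (nat_lit 4) (nat_lit 362) (nat_lit 224) (nat_lit 194)))) (XT.nd (nat_lit 156) (nat_lit 152) (nat_lit 0) (XT.nd (nat_lit 78) (nat_lit 0) (nat_lit 0) (XT.lf (nat_lit 0) (nat_lit 8456026817) (nat_lit 76) (nat_lit 2081318421) (nat_lit 152) (nat_lit 16339704548) (nat_lit 9) (nat_lit 5) (nat_lit 10) (nat_lit 5) (nat_lit 11) (nat_lit 4) (nat_lit 363) (nat_lit 224)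 (nat_lit 193)) (XT.lf (nat_lit 0) (nat_lit 16663915453) (nat_lit 152) (nat_lit 7047823219) (nat_lit 0) (nat_lit 3841844873) (nat_lit 9) (nat_lit 5) (nat_lit 11) (nat_lit 4) (nat_lit 9) (nat_lit 4) (nat_lit 364) (nat_lit 224) (nat_lit 192))) (XT.nd (nat_lit 156) (nat_lit 76) (nat_lit 0) (XT.lf (nat_lit 0) (nat_lit 4559511579) (nat_lit 76) (nat_lit 18375437837) (nat_lit 76) (nat_lit 5316263293) (nat_lit 8) (nat_lit 4) (nat_lit 9) (nat_lit 5) (nat_lit 9) (nat_lit 4) (nat_lit 365) (nat_lit 224) (nat_lit 191)) (XT.lf (nat_lit 0) (nat_lit 6105664096) (nat_lit 152) (nat_lit 1179424320) (nat_lit 76) (nat_lit 22426978392) (nat_lit 7) (nat_lit 5) (nat_lit 9) (nat_lit 5) (nat_lit 8) (nat_lit 4) (nat_lit 367) (nat_lit 224) (nat_lit 189))))))))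
noncomputable def xc6 : XT := (XT.nd (nat_lit 2106) (nat_lit 684) (nat_lit 0) (XT.nd (nat_lit 1014) (nat_lit 1368) (nat_lit 0) (XT.nd (nat_lit 468) (nat_lit 1064) (nat_lit 0) (XT.nd (nat_lit 234) (nat_lit 684) (nat_lit 0) (XT.nd (nat_lit 78) (nat_lit 456) (nat_lit 0) (XT.lf (nat_lit 0) (nat_lit 4703873300) (nat_lit 228) (nat_lit 925620189) (nat_lit 228) (nat_lit 925620189) (nat_lit 63) (nat_lit 4) (nat_lit 66) (nat_lit 5) (nat_lit 66) (nat_lit 4) (nat_lit 330) (nat_lit 225) (nat_lit 225)) (XT.nd (nat_lit 78) (nat_lit 228) (nat_lit 0) (XT.lf (nat_lit 0) (nat_lit 4780728591) (nat_lit 228) (nat_lit 4572790349) (nat_lit 0) (nat_lit 3998796349) (nat_lit 60) (nat_lit 5) (nat_lit 63) (nat_lit 4) (nat_lit 60) (nat_lit 4) (nat_lit 331) (nat_lit 225) (nat_lit 224)) (XT.lf (nat_lit 0) (nat_lit 7917665815) (nat_lit 228) (nat_lit 3613001292) (nat_lit 228) (nat_lit 2071911533) (nat_lit 57) (nat_lit 4) (nat_lit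 60) (nat_lit 5) (nat_lit 60) (nat_lit 4) (nat_lit 332) (nat_lit 225) (nat_lit 223)))) (XT.nd (nat_lit 78) (nat_lit 456) (nat_lit 0) (XT.lf (nat_lit 0) (nat_lit 4509080577) (nat_lit 228) (nat_lit 7076154701) (nat_lit 0) (nat_lit 2275614018) (nat_lit 54) (nat_lit 5) (nat_lit 57) (nat_lit 4) (nat_lit 54) (nat_lit 4) (nat_lit 333) (nat_lit 225) (nat_lit 222)) (XT.nd (nat_lit 78) (nat_lit 228) (nat_lit 0) (XT.lf (nat_lit 0) (nat_lit 5369325134) (nat_lit 228) (nat_lit 5846594861) (nat_lit 228) (nat_lit 2911580488) (nat_lit 51) (nat_lit 4) (nat_lit 54) (nat_lit 5) (nat_lit 54) (nat_lit 4) (nat_lit 334) (nat_lit 225) (nat_lit 221)) (XT.lf (nat_lit 0) (nat_lit 3605689019) (nat_lit 228) (nat_lit 10736896228) (nat_lit 0) (nat_lit 60464751) (nat_lit 48) (nat_lit 5) (nat_lit 51) (nat_lit 4) (nat_lit 48) (nat_lit 4) (nat_lit 335) (nat_lit 225) (nat_lit 220))))) (XT.nd (nat_lit 234) (nat_lit 608) (nat_lit 0)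 (XT.nd (nat_lit 78) (nat_lit 228) (nat_lit 0) (XT.lf (nat_lit 0) (nat_lit 1620601644) (nat_lit 228) (nat_lit 8630007312) (nat_lit 228) (nat_lit 4436473143) (nat_lit 45) (nat_lit 4) (nat_lit 48) (nat_lit 5) (nat_lit 48) (nat_lit 4) (nat_lit 336) (nat_lit 225) (nat_lit 219)) (XT.nd (nat_lit 78) (nat_lit 152) (nat_lit 0) (XT.lf (nat_lit 0) (nat_lit 2024398932) (nat_lit 304) (nat_lit 733675412) (nat_lit 76) (nat_lit 12222581278) (nat_lit 44) (nat_lit 5) (nat_lit 48) (nat_lit 5) (nat_lit 45) (nat_lit 4) (nat_lit 337) (nat_lit 225) (nat_lit 218)) (XT.lf (nat_lit 0) (nat_lit 8585265810) (nat_lit 228) (nat_lit 3440126937) (nat_lit 0) (nat_lit 3257760401) (nat_lit 42) (nat_lit 5) (nat_lit 45) (nat_lit 4) (nat_lit 42) (nat_lit 4) (nat_lit 338) (nat_lit 225) (nat_lit 217)))) (XT.nd (nat_lit 156) (nat_lit 228) (nat_lit 0) (XT.nd (nat_lit 78) (nat_lit 228) (nat_lit 0) (XT.lf (nat_lit 0) (nat_lit 9084676957)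 (nat_lit 152) (nat_lit 6210105475) (nat_lit 152) (nat_lit 300937911) (nat_lit 40) (nat_lit 4) (nat_lit 42) (nat_lit 5) (nat_lit 42) (nat_lit 4) (nat_lit 339) (nat_lit 225) (nat_lit 216)) (XT.lf (nat_lit 0) (nat_lit 5925370180) (nat_lit 152) (nat_lit 212876494) (nat_lit 228) (nat_lit 9779975211) (nat_lit 37) (nat_lit 5) (nat_lit 39) (nat_lit 5) (nat_lit 40) (nat_lit 4) (nat_lit 340) (nat_lit 225) (nat_lit 215))) (XT.nd (nat_lit 78) (nat_lit 76) (nat_lit 0) (XT.lf (nat_lit 0) (nat_lit 2339391156) (nat_lit 152) (nat_lit 10398024740) (nat_lit 152) (nat_lit 3513553690) (nat_lit 35) (nat_lit 4) (nat_lit 37) (nat_lit 5) (nat_lit 37) (nat_lit 4) (nat_lit 341) (nat_lit 225) (nat_lit 214)) (XT.lf (nat_lit 0) (nat_lit 2845845773) (nat_lit 228) (nat_lit 1657728538) (nat_lit 76) (nat_lit 12090899882) (nat_lit 34) (nat_lit 5) (nat_lit 37) (nat_lit 5) (nat_lit 35) (nat_lit 4) (nat_lit 342) (nat_lit 225) (nat_lit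 213)))))) (XT.nd (nat_lit 546) (nat_lit 608) (nat_lit 0) (XT.nd (nat_lit 234) (nat_lit 304) (nat_lit 0) (XT.nd (nat_lit 78) (nat_lit 304) (nat_lit 0) (XT.lf (nat_lit 0) (nat_lit 9306946784) (nat_lit 228) (nat_lit 6092625491) (nat_lit 0) (nat_lit 1549100732) (nat_lit 32) (nat_lit 5) (nat_lit 35) (nat_lit 4) (nat_lit 32) (nat_lit 4) (nat_lit 343) (nat_lit 225) (nat_lit 212)) (XT.nd (nat_lit 78) (nat_lit 152) (nat_lit 0) (XT.lf (nat_lit 0) (nat_lit 6292357222) (nat_lit 152) (nat_lit 9631022977) (nat_lit 152) (nat_lit 1390913483) (nat_lit 30) (nat_lit 4) (nat_lit 32) (nat_lit 5) (nat_lit 32) (nat_lit 4) (nat_lit 344) (nat_lit 225) (nat_lit 211)) (XT.lf (nat_lit 0) (nat_lit 1212322961) (nat_lit 76) (nat_lit 3698889607) (nat_lit 152) (nat_lit 12780439887) (nat_lit 28) (nat_lit 5) (nat_lit 29) (nat_lit 5) (nat_lit 30) (nat_lit 4) (nat_lit 345) (nat_lit 225) (nat_lit 210)))) (XT.nd (nat_lit 156) (nat_lit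 152) (nat_lit 0) (XT.nd (nat_lit 78) (nat_lit 152) (nat_lit 0) (XT.lf (nat_lit 0) (nat_lit 11356530314) (nat_lit 152) (nat_lit 4350892055) (nat_lit 0) (nat_lit 2373289163) (nat_lit 28) (nat_lit 5) (nat_lit 30) (nat_lit 4) (nat_lit 28) (nat_lit 4) (nat_lit 346) (nat_lit 225) (nat_lit 209)) (XT.lf (nat_lit 0) (nat_lit 8016870565) (nat_lit 152) (nat_lit 9940637912) (nat_lit 152) (nat_lit 524711108) (nat_lit 26) (nat_lit 4) (nat_lit 28) (nat_lit 5) (nat_lit 28) (nat_lit 4) (nat_lit 347) (nat_lit 225) (nat_lit 208))) (XT.nd (nat_lit 78) (nat_lit 0) (nat_lit 0) (XT.lf (nat_lit 0) (nat_lit 1700963352) (nat_lit 76) (nat_lit 4010409575) (nat_lit 152) (nat_lit 13185111132) (nat_lit 24) (nat_lit 5) (nat_lit 25) (nat_lit 5) (nat_lit 26) (nat_lit 4) (nat_lit 348) (nat_lit 225) (nat_lit 207)) (XT.lf (nat_lit 0) (nat_lit 12100654857) (nat_lit 152) (nat_lit 5165351699) (nat_lit 0) (nat_lit 2057657122) (nat_lit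 24) (nat_lit 5) (nat_lit 26) (nat_lit 4) (nat_lit 24) (nat_lit 4) (nat_lit 349) (nat_lit 225) (nat_lit 206))))) (XT.nd (nat_lit 234) (nat_lit 304) (nat_lit 0) (XT.nd (nat_lit 78) (nat_lit 152) (nat_lit 0) (XT.lf (nat_lit 0) (nat_lit 7096330351) (nat_lit 152) (nat_lit 11549632266) (nat_lit 152) (nat_lit 1118429956) (nat_lit 22) (nat_lit 4) (nat_lit 24) (nat_lit 5) (nat_lit 24) (nat_lit 4) (nat_lit 350) (nat_lit 225) (nat_lit 205)) (XT.nd (nat_lit 78) (nat_lit 76) (nat_lit 0) (XT.lf (nat_lit 0) (nat_lit 5029363670) (nat_lit 228) (nat_lit 648785341) (nat_lit 76) (nat_lit 14540985438) (nat_lit 21) (nat_lit 5) (nat_lit 24) (nat_lit 5) (nat_lit 22) (nat_lit 4) (nat_lit 351) (nat_lit 225) (nat_lit 204)) (XT.lf (nat_lit 0) (nat_lit 11320545006) (nat_lit 152) (nat_lit 9001738554) (nat_lit 0) (nat_lit 365623438) (nat_lit 20) (nat_lit 5) (nat_lit 22) (nat_lit 4) (nat_lit 20) (nat_lit 4) (nat_lit 352) (nat_lit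 225) (nat_lit 203)))) (XT.nd (nat_lit 156) (nat_lit 76) (nat_lit 0) (XT.nd (nat_lit 78) (nat_lit 76) (nat_lit 0) (XT.lf (nat_lit 0) (nat_lit 3044584146) (nat_lit 152) (nat_lit 14715105270) (nat_lit 152) (nat_lit 3411887449) (nat_lit 18) (nat_lit 4) (nat_lit 20) (nat_lit 5) (nat_lit 20) (nat_lit 4) (nat_lit 353) (nat_lit 225) (nat_lit 202)) (XT.lf (nat_lit 0) (nat_lit 2646131232) (nat_lit 228) (nat_lit 6296184435) (nat_lit 76) (nat_lit 12727913808) (nat_lit 17) (nat_lit 5) (nat_lit 20) (nat_lit 5) (nat_lit 18) (nat_lit 4) (nat_lit 354) (nat_lit 225) (nat_lit 201))) (XT.nd (nat_lit 78) (nat_lit 0) (nat_lit 0) (XT.lf (nat_lit 0) (nat_lit 5762617113) (nat_lit 76) (nat_lit 3015743907) (nat_lit 152) (nat_lit 13406270371) (nat_lit 16) (nat_lit 5) (nat_lit 17) (nat_lit 5) (nat_lit 18) (nat_lit 4) (nat_lit 355) (nat_lit 225) (nat_lit 200)) (XT.lf (nat_lit 0) (nat_lit 15059918678) (nat_lit 152) (nat_lit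 4642800857) (nat_lit 0) (nat_lit 3012455383) (nat_lit 16) (nat_lit 5) (nat_lit 18) (nat_lit 4) (nat_lit 16) (nat_lit 4) (nat_lit 356) (nat_lit 225) (nat_lit 199))))))) (XT.nd (nat_lit 38610) (nat_lit 0) (nat_lit 1748) (XT.nd (nat_lit 468) (nat_lit 228) (nat_lit 0) (XT.nd (nat_lit 234) (nat_lit 152) (nat_lit 0) (XT.nd (nat_lit 78) (nat_lit 152) (nat_lit 0) (XT.lf (nat_lit 0) (nat_lit 7393561360) (nat_lit 152) (nat_lit 14109737195) (nat_lit 152) (nat_lit 1758884968) (nat_lit 14) (nat_lit 4) (nat_lit 16) (nat_lit 5) (nat_lit 16) (nat_lit 4) (nat_lit 357) (nat_lit 225) (nat_lit 198)) (XT.nd (nat_lit 78) (nat_lit 76) (nat_lit 0) (XT.lf (nat_lit 0) (nat_lit 4195690451) (nat_lit 228) (nat_lit 4170109874) (nat_lit 76) (nat_lit 15460499388) (nat_lit 13) (nat_lit 5) (nat_lit 16) (nat_lit 5) (nat_lit 14) (nat_lit 4) (nat_lit 358) (nat_lit 225) (nat_lit 197)) (XT.lf (nat_lit 0) (nat_lit 7803451246) (nat_lit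 76) (nat_lit 2461315585) (nat_lit 152) (nat_lit 14143159881) (nat_lit 12) (nat_lit 5) (nat_lit 13) (nat_lit 5) (nat_lit 14) (nat_lit 4) (nat_lit 359) (nat_lit 225) (nat_lit 196)))) (XT.nd (nat_lit 78) (nat_lit 152) (nat_lit 0) (XT.lf (nat_lit 0) (nat_lit 16477930340) (nat_lit 152) (nat_lit 5001937331) (nat_lit 0) (nat_lit 3527909160) (nat_lit 12) (nat_lit 5) (nat_lit 14) (nat_lit 4) (nat_lit 12) (nat_lit 4) (nat_lit 360) (nat_lit 225) (nat_lit 195)) (XT.nd (nat_lit 78) (nat_lit 76) (nat_lit 0) (XT.lf (nat_lit 0) (nat_lit 6861913490) (nat_lit 76) (nat_lit 15989271059) (nat_lit 76) (nat_lit 2774978176) (nat_lit 11) (nat_lit 4) (nat_lit 12) (nat_lit 5) (nat_lit 12) (nat_lit 4) (nat_lit 361) (nat_lit 225) (nat_lit 194)) (XT.lf (nat_lit 0) (nat_lit 3058930604) (nat_lit 152) (nat_lit 7291827529) (nat_lit 76) (nat_lit 15912991384) (nat_lit 10) (nat_lit 5) (nat_lit 12) (nat_lit 5) (nat_lit 11) (nat_lit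 4) (nat_lit 362) (nat_lit 225) (nat_lit 193))))) (XT.nd (nat_lit 312) (nat_lit 76) (nat_lit 0) (XT.nd (nat_lit 78) (nat_lit 76) (nat_lit 0) (XT.lf (nat_lit 0) (nat_lit 4409812228) (nat_lit 76) (nat_lit 4565326882) (nat_lit 152) (nat_lit 17946071388) (nat_lit 9) (nat_lit 5) (nat_lit 10) (nat_lit 5) (nat_lit 11) (nat_lit 4) (nat_lit 363) (nat_lit 225) (nat_lit 192)) (XT.nd (nat_lit 78) (nat_lit 76) (nat_lit 0) (XT.lf (nat_lit 0) (nat_lit 15044766012) (nat_lit 152) (nat_lit 11197411113) (nat_lit 0) (nat_lit 1356712267) (nat_lit 9) (nat_lit 5) (nat_lit 11) (nat_lit 4) (nat_lit 9) (nat_lit 4) (nat_lit 364) (nat_lit 225) (nat_lit 191)) (XT.lf (nat_lit 0) (nat_lit 280659731) (nat_lit 76) (nat_lit 20967732419) (nat_lit 76) (nat_lit 7049480649) (nat_lit 8) (nat_lit 4) (nat_lit 9) (nat_lit 5) (nat_lit 9) (nat_lit 4) (nat_lit 365) (nat_lit 225) (nat_lit 190)))) (XT.nd (nat_lit 37674) (nat_lit 0) (nat_lit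 4256) (XT.nd (nat_lit 37596) (nat_lit 0) (nat_lit 4788) (XT.lf (nat_lit 0) (nat_lit 4317913195) (nat_lit 152) (nat_lit 5636544057) (nat_lit 76) (nat_lit 19806051427) (nat_lit 7) (nat_lit 5) (nat_lit 9) (nat_lit 5) (nat_lit 8) (nat_lit 4) (nat_lit 367) (nat_lit 225) (nat_lit 188)) (XT.lf (nat_lit 0) (nat_lit 5043845783) (nat_lit 228) (nat_lit 639846874) (nat_lit 228) (nat_lit 639846874) (nat_lit 70) (nat_lit 4) (nat_lit 73) (nat_lit 5) (nat_lit 73) (nat_lit 4) (nat_lit 328) (nat_lit 226) (nat_lit 226))) (XT.nd (nat_lit 78) (nat_lit 228) (nat_lit 0) (XT.lf (nat_lit 0) (nat_lit 5303392910) (nat_lit 304) (nat_lit 3090152698) (nat_lit 0) (nat_lit 4481894896) (nat_lit 66) (nat_lit 5) (nat_lit 70) (nat_lit 4) (nat_lit 66) (nat_lit 4) (nat_lit 329) (nat_lit 226) (nat_lit 225)) (XT.lf (nat_lit 0) (nat_lit 9286311415) (nat_lit 228) (nat_lit 2722222476) (nat_lit 228) (nat_lit 1103153576) (nat_lit 63) (nat_lit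 4) (nat_lit 66) (nat_lit 5) (nat_lit 66) (nat_lit 4) (nat_lit 330) (nat_lit 226) (nat_lit 224)))))) (XT.nd (nat_lit 546) (nat_lit 1064) (nat_lit 0) (XT.nd (nat_lit 234) (nat_lit 760) (nat_lit 0) (XT.nd (nat_lit 78) (nat_lit 456) (nat_lit 0) (XT.lf (nat_lit 0) (nat_lit 5441094873) (nat_lit 228) (nat_lit 4819546736) (nat_lit 0) (nat_lit 3094614905) (nat_lit 60) (nat_lit 5) (nat_lit 63) (nat_lit 4) (nat_lit 60) (nat_lit 4) (nat_lit 331) (nat_lit 226) (nat_lit 223)) (XT.nd (nat_lit 78) (nat_lit 228) (nat_lit 0) (XT.lf (nat_lit 0) (nat_lit 7548047380) (nat_lit 228) (nat_lit 4571226629) (nat_lit 228) (nat_lit 1487700529) (nat_lit 57) (nat_lit 4) (nat_lit 60) (nat_lit 5) (nat_lit 60) (nat_lit 4) (nat_lit 332) (nat_lit 226) (nat_lit 222)) (XT.lf (nat_lit 0) (nat_lit 5007278684) (nat_lit 228) (nat_lit 7576810146) (nat_lit 0) (nat_lit 1282666068) (nat_lit 54) (nat_lit 5) (nat_lit 57) (nat_lit 4) (nat_lit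 54) (nat_lit 4) (nat_lit 333) (nat_lit 226) (nat_lit 221)))) (XT.nd (nat_lit 156) (nat_lit 304) (nat_lit 0) (XT.nd (nat_lit 78) (nat_lit 228) (nat_lit 0) (XT.lf (nat_lit 0) (nat_lit 4744287556) (nat_lit 228) (nat_lit 6898148587) (nat_lit 228) (nat_lit 2492421589) (nat_lit 51) (nat_lit 4) (nat_lit 54) (nat_lit 5) (nat_lit 54) (nat_lit 4) (nat_lit 334) (nat_lit 226) (nat_lit 220)) (XT.lf (nat_lit 0) (nat_lit 2906266578) (nat_lit 152) (nat_lit 1040896627) (nat_lit 228) (nat_lit 10464650503) (nat_lit 48) (nat_lit 5) (nat_lit 50) (nat_lit 5) (nat_lit 51) (nat_lit 4) (nat_lit 335) (nat_lit 226) (nat_lit 219))) (XT.nd (nat_lit 78) (nat_lit 76) (nat_lit 0) (XT.lf (nat_lit 0) (nat_lit 732708022) (nat_lit 228) (nat_lit 9780900551) (nat_lit 228) (nat_lit 4183823368) (nat_lit 45) (nat_lit 4) (nat_lit 48) (nat_lit 5) (nat_lit 48) (nat_lit 4) (nat_lit 336) (nat_lit 226) (nat_lit 218)) (XT.lf (nat_lit 0) (nat_lit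 2208529241) (nat_lit 304) (nat_lit 1746942376) (nat_lit 76) (nat_lit 11036820999) (nat_lit 44) (nat_lit 5) (nat_lit 48) (nat_lit 5) (nat_lit 45) (nat_lit 4) (nat_lit 337) (nat_lit 226) (nat_lit 217))))) (XT.nd (nat_lit 234) (nat_lit 532) (nat_lit 0) (XT.nd (nat_lit 78) (nat_lit 380) (nat_lit 0) (XT.lf (nat_lit 0) (nat_lit 8690572027) (nat_lit 228) (nat_lit 4583342694) (nat_lit 0) (nat_lit 2022467280) (nat_lit 42) (nat_lit 5) (nat_lit 45) (nat_lit 4) (nat_lit 42) (nat_lit 4) (nat_lit 338) (nat_lit 226) (nat_lit 216)) (XT.nd (nat_lit 78) (nat_lit 228) (nat_lit 0) (XT.lf (nat_lit 0) (nat_lit 7815563012) (nat_lit 152) (nat_lit 7513820254) (nat_lit 152) (nat_lit 280994969) (nat_lit 40) (nat_lit 4) (nat_lit 42) (nat_lit 5) (nat_lit 42) (nat_lit 4) (nat_lit 339) (nat_lit 226) (nat_lit 215)) (XT.lf (nat_lit 0) (nat_lit 4514650973) (nat_lit 152) (nat_lit 1572353297) (nat_lit 228) (nat_lit 9847305605) (nat_lit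 37) (nat_lit 5) (nat_lit 39) (nat_lit 5) (nat_lit 40) (nat_lit 4) (nat_lit 340) (nat_lit 226) (nat_lit 214)))) (XT.nd (nat_lit 156) (nat_lit 304) (nat_lit 0) (XT.nd (nat_lit 78) (nat_lit 76) (nat_lit 0) (XT.lf (nat_lit 0) (nat_lit 793650242) (nat_lit 152) (nat_lit 11812705276) (nat_lit 152) (nat_lit 3662312214) (nat_lit 35) (nat_lit 4) (nat_lit 37) (nat_lit 5) (nat_lit 37) (nat_lit 4) (nat_lit 341) (nat_lit 226) (nat_lit 213)) (XT.lf (nat_lit 0) (nat_lit 2638762023) (nat_lit 228) (nat_lit 3326759747) (nat_lit 76) (nat_lit 10647888545) (nat_lit 34) (nat_lit 5) (nat_lit 37) (nat_lit 5) (nat_lit 35) (nat_lit 4) (nat_lit 342) (nat_lit 226) (nat_lit 212))) (XT.nd (nat_lit 78) (nat_lit 152) (nat_lit 0) (XT.lf (nat_lit 0) (nat_lit 9019820444) (nat_lit 228) (nat_lit 7899158063) (nat_lit 0) (nat_lit 50244224) (nat_lit 32) (nat_lit 5) (nat_lit 35) (nat_lit 4) (nat_lit 32) (nat_lit 4) (nat_lit 343) (nat_lit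 226) (nat_lit 211)) (XT.lf (nat_lit 0) (nat_lit 4357802385) (nat_lit 152) (nat_lit 11208126526) (nat_lit 152) (nat_lit 1770333373) (nat_lit 30) (nat_lit 4) (nat_lit 32) (nat_lit 5) (nat_lit 32) (nat_lit 4) (nat_lit 344) (nat_lit 226) (nat_lit 210))))))))
noncomputable def xc7 : XT := (XT.nd (nat_lit 39546) (nat_lit 0) (nat_lit 456) (XT.nd (nat_lit 1014) (nat_lit 532) (nat_lit 0) (XT.nd (nat_lit 468) (nat_lit 608) (nat_lit 0) (XT.nd (nat_lit 234) (nat_lit 304) (nat_lit 0) (XT.nd (nat_lit 78) (nat_lit 228) (nat_lit 0) (XT.lf (nat_lit 0) (nat_lit 4471772293) (nat_lit 228) (nat_lit 859392667) (nat_lit 76) (nat_lit 12383817079) (nat_lit 29) (nat_lit 5) (nat_lit 32) (nat_lit 5) (nat_lit 30) (nat_lit 4) (nat_lit 345) (nat_lit 226) (nat_lit 209)) (XT.nd (nat_lit 78) (nat_lit 152) (nat_lit 0) (XT.lf (nat_lit 0) (nat_lit 10844403804) (nat_lit 152) (nat_lit 6547788934) (nat_lit 0) (nat_lit 713313543) (nat_lit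 28) (nat_lit 5) (nat_lit 30) (nat_lit 4) (nat_lit 28) (nat_lit 4) (nat_lit 346) (nat_lit 226) (nat_lit 208)) (XT.lf (nat_lit 0) (nat_lit 5691462957) (nat_lit 152) (nat_lit 11684066478) (nat_lit 152) (nat_lit 1132893058) (nat_lit 26) (nat_lit 4) (nat_lit 28) (nat_lit 5) (nat_lit 28) (nat_lit 4) (nat_lit 347) (nat_lit 226) (nat_lit 207)))) (XT.nd (nat_lit 78) (nat_lit 228) (nat_lit 0) (XT.lf (nat_lit 0) (nat_lit 5045971079) (nat_lit 228) (nat_lit 766159565) (nat_lit 76) (nat_lit 13111949794) (nat_lit 25) (nat_lit 5) (nat_lit 28) (nat_lit 5) (nat_lit 26) (nat_lit 4) (nat_lit 348) (nat_lit 226) (nat_lit 206)) (XT.nd (nat_lit 78) (nat_lit 152) (nat_lit 0) (XT.lf (nat_lit 0) (nat_lit 11365010152) (nat_lit 152) (nat_lit 7754997827) (nat_lit 0) (nat_lit 232667198) (nat_lit 24) (nat_lit 5) (nat_lit 26) (nat_lit 4) (nat_lit 24) (nat_lit 4) (nat_lit 349) (nat_lit 226) (nat_lit 205)) (XT.lf (nat_lit 0) (nat_lit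 4377457253) (nat_lit 152) (nat_lit 13463294355) (nat_lit 152) (nat_lit 1954053756) (nat_lit 22) (nat_lit 4) (nat_lit 24) (nat_lit 5) (nat_lit 24) (nat_lit 4) (nat_lit 350) (nat_lit 226) (nat_lit 204))))) (XT.nd (nat_lit 234) (nat_lit 456) (nat_lit 0) (XT.nd (nat_lit 78) (nat_lit 76) (nat_lit 0) (XT.lf (nat_lit 0) (nat_lit 4153352753) (nat_lit 228) (nat_lit 3485388081) (nat_lit 76) (nat_lit 12611951328) (nat_lit 21) (nat_lit 5) (nat_lit 24) (nat_lit 5) (nat_lit 22) (nat_lit 4) (nat_lit 351) (nat_lit 226) (nat_lit 203)) (XT.nd (nat_lit 78) (nat_lit 0) (nat_lit 0) (XT.lf (nat_lit 0) (nat_lit 8723084632) (nat_lit 76) (nat_lit 1649938860) (nat_lit 152) (nat_lit 10347880641) (nat_lit 20) (nat_lit 5) (nat_lit 21) (nat_lit 5) (nat_lit 22) (nat_lit 4) (nat_lit 352) (nat_lit 226) (nat_lit 202)) (XT.lf (nat_lit 0) (nat_lit 16732456699) (nat_lit 152) (nat_lit 70026079) (nat_lit 0) (nat_lit 4403694386) (nat_lit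 20) (nat_lit 5) (nat_lit 22) (nat_lit 4) (nat_lit 20) (nat_lit 4) (nat_lit 353) (nat_lit 226) (nat_lit 201)))) (XT.nd (nat_lit 156) (nat_lit 152) (nat_lit 0) (XT.nd (nat_lit 78) (nat_lit 76) (nat_lit 0) (XT.lf (nat_lit 0) (nat_lit 1549063926) (nat_lit 228) (nat_lit 9527955806) (nat_lit 76) (nat_lit 10628939643) (nat_lit 17) (nat_lit 5) (nat_lit 20) (nat_lit 5) (nat_lit 18) (nat_lit 4) (nat_lit 354) (nat_lit 226) (nat_lit 200)) (XT.lf (nat_lit 0) (nat_lit 2400815107) (nat_lit 76) (nat_lit 5211373237) (nat_lit 152) (nat_lit 14609563317) (nat_lit 16) (nat_lit 5) (nat_lit 17) (nat_lit 5) (nat_lit 18) (nat_lit 4) (nat_lit 355) (nat_lit 226) (nat_lit 199))) (XT.nd (nat_lit 78) (nat_lit 152) (nat_lit 0) (XT.lf (nat_lit 0) (nat_lit 13832792968) (nat_lit 152) (nat_lit 8112703058) (nat_lit 0) (nat_lit 808026243) (nat_lit 16) (nat_lit 5) (nat_lit 18) (nat_lit 4) (nat_lit 16) (nat_lit 4) (nat_lit 356) (nat_lit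 226) (nat_lit 198)) (XT.lf (nat_lit 0) (nat_lit 3793693421) (nat_lit 152) (nat_lit 16413769265) (nat_lit 152) (nat_lit 3094450179) (nat_lit 14) (nat_lit 4) (nat_lit 16) (nat_lit 5) (nat_lit 16) (nat_lit 4) (nat_lit 357) (nat_lit 226) (nat_lit 197)))))) (XT.nd (nat_lit 546) (nat_lit 152) (nat_lit 0) (XT.nd (nat_lit 234) (nat_lit 228) (nat_lit 0) (XT.nd (nat_lit 78) (nat_lit 76) (nat_lit 0) (XT.lf (nat_lit 0) (nat_lit 2832793463) (nat_lit 228) (nat_lit 7883049456) (nat_lit 76) (nat_lit 13151263936) (nat_lit 13) (nat_lit 5) (nat_lit 16) (nat_lit 5) (nat_lit 14) (nat_lit 4) (nat_lit 358) (nat_lit 226) (nat_lit 196)) (XT.nd (nat_lit 78) (nat_lit 0) (nat_lit 0) (XT.lf (nat_lit 0) (nat_lit 3960485551) (nat_lit 76) (nat_lit 4872891504) (nat_lit 152) (nat_lit 15616733850) (nat_lit 12) (nat_lit 5) (nat_lit 13) (nat_lit 5) (nat_lit 14) (nat_lit 4) (nat_lit 359) (nat_lit 226) (nat_lit 195)) (XT.lf (nat_lit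 0) (nat_lit 14987870104) (nat_lit 152) (nat_lit 8950394585) (nat_lit 0) (nat_lit 1112876733) (nat_lit 12) (nat_lit 5) (nat_lit 14) (nat_lit 4) (nat_lit 12) (nat_lit 4) (nat_lit 360) (nat_lit 226) (nat_lit 194)))) (XT.nd (nat_lit 156) (nat_lit 76) (nat_lit 0) (XT.nd (nat_lit 78) (nat_lit 76) (nat_lit 0) (XT.lf (nat_lit 0) (nat_lit 2783299514) (nat_lit 76) (nat_lit 18509583624) (nat_lit 76) (nat_lit 4378015784) (nat_lit 11) (nat_lit 4) (nat_lit 12) (nat_lit 5) (nat_lit 12) (nat_lit 4) (nat_lit 361) (nat_lit 226) (nat_lit 193)) (XT.lf (nat_lit 0) (nat_lit 1435605400) (nat_lit 152) (nat_lit 11480746355) (nat_lit 76) (nat_lit 13393174810) (nat_lit 10) (nat_lit 5) (nat_lit 12) (nat_lit 5) (nat_lit 11) (nat_lit 4) (nat_lit 362) (nat_lit 226) (nat_lit 192))) (XT.nd (nat_lit 78) (nat_lit 0) (nat_lit 0) (XT.lf (nat_lit 0) (nat_lit 90480869) (nat_lit 76) (nat_lit 7193180605) (nat_lit 152) (nat_lit 19684695391)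 (nat_lit 9) (nat_lit 5) (nat_lit 10) (nat_lit 5) (nat_lit 11) (nat_lit 4) (nat_lit 363) (nat_lit 226) (nat_lit 191)) (XT.lf (nat_lit 0) (nat_lit 12018684178) (nat_lit 76) (nat_lit 1286267045) (nat_lit 152) (nat_lit 14342057364) (nat_lit 9) (nat_lit 5) (nat_lit 10) (nat_lit 5) (nat_lit 11) (nat_lit 4) (nat_lit 364) (nat_lit 226) (nat_lit 190))))) (XT.nd (nat_lit 37674) (nat_lit 0) (nat_lit 4256) (XT.nd (nat_lit 156) (nat_lit 152) (nat_lit 0) (XT.lf (nat_lit 0) (nat_lit 19459931327) (nat_lit 152) (nat_lit 4216598744) (nat_lit 0) (nat_lit 4670440753) (nat_lit 9) (nat_lit 5) (nat_lit 11) (nat_lit 4) (nat_lit 9) (nat_lit 4) (nat_lit 365) (nat_lit 226) (nat_lit 189)) (XT.nd (nat_lit 37440) (nat_lit 0) (nat_lit 5320) (XT.lf (nat_lit 0) (nat_lit 2401515202) (nat_lit 152) (nat_lit 10366077382) (nat_lit 76) (nat_lit 17044322599) (nat_lit 7) (nat_lit 5) (nat_lit 9) (nat_lit 5) (nat_lit 8) (nat_lit 4) (nat_lit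 367) (nat_lit 226) (nat_lit 187)) (XT.lf (nat_lit 0) (nat_lit 5093206258) (nat_lit 228) (nat_lit 505882617) (nat_lit 228) (nat_lit 505882617) (nat_lit 77) (nat_lit 4) (nat_lit 80) (nat_lit 5) (nat_lit 80) (nat_lit 4) (nat_lit 326) (nat_lit 227) (nat_lit 227)))) (XT.nd (nat_lit 156) (nat_lit 532) (nat_lit 0) (XT.nd (nat_lit 78) (nat_lit 228) (nat_lit 0) (XT.lf (nat_lit 0) (nat_lit 5511809177) (nat_lit 304) (nat_lit 2264912187) (nat_lit 0) (nat_lit 4648743364) (nat_lit 73) (nat_lit 5) (nat_lit 77) (nat_lit 4) (nat_lit 73) (nat_lit 4) (nat_lit 327) (nat_lit 227) (nat_lit 226)) (XT.lf (nat_lit 0) (nat_lit 9967999616) (nat_lit 228) (nat_lit 2190764563) (nat_lit 228) (nat_lit 489770777) (nat_lit 70) (nat_lit 4) (nat_lit 73) (nat_lit 5) (nat_lit 73) (nat_lit 4) (nat_lit 328) (nat_lit 227) (nat_lit 225))) (XT.nd (nat_lit 78) (nat_lit 228) (nat_lit 0) (XT.lf (nat_lit 0) (nat_lit 6005075656) (nat_lit 304)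 (nat_lit 3333433057) (nat_lit 0) (nat_lit 3539863802) (nat_lit 66) (nat_lit 5) (nat_lit 70) (nat_lit 4) (nat_lit 66) (nat_lit 4) (nat_lit 329) (nat_lit 227) (nat_lit 224)) (XT.lf (nat_lit 0) (nat_lit 8921899749) (nat_lit 228) (nat_lit 3716860921) (nat_lit 228) (nat_lit 477308400) (nat_lit 63) (nat_lit 4) (nat_lit 66) (nat_lit 5) (nat_lit 66) (nat_lit 4) (nat_lit 330) (nat_lit 227) (nat_lit 223))))))) (XT.nd (nat_lit 1092) (nat_lit 1292) (nat_lit 0) (XT.nd (nat_lit 546) (nat_lit 1064) (nat_lit 0) (XT.nd (nat_lit 234) (nat_lit 760) (nat_lit 0) (XT.nd (nat_lit 78) (nat_lit 456) (nat_lit 0) (XT.lf (nat_lit 0) (nat_lit 5980472213) (nat_lit 228) (nat_lit 5313275121) (nat_lit 0) (nat_lit 2067394198) (nat_lit 60) (nat_lit 5) (nat_lit 63) (nat_lit 4) (nat_lit 60) (nat_lit 4) (nat_lit 331) (nat_lit 227) (nat_lit 222)) (XT.nd (nat_lit 78) (nat_lit 228) (nat_lit 0) (XT.lf (nat_lit 0) (nat_lit 6931657812) (nat_lit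 228) (nat_lit 5655652138) (nat_lit 228) (nat_lit 1026995354) (nat_lit 57) (nat_lit 4) (nat_lit 60) (nat_lit 5) (nat_lit 60) (nat_lit 4) (nat_lit 332) (nat_lit 227) (nat_lit 221)) (XT.lf (nat_lit 0) (nat_lit 5383146421) (nat_lit 228) (nat_lit 8328340098) (nat_lit 0) (nat_lit 164133231) (nat_lit 54) (nat_lit 5) (nat_lit 57) (nat_lit 4) (nat_lit 54) (nat_lit 4) (nat_lit 333) (nat_lit 227) (nat_lit 220)))) (XT.nd (nat_lit 156) (nat_lit 304) (nat_lit 0) (XT.nd (nat_lit 78) (nat_lit 228) (nat_lit 0) (XT.lf (nat_lit 0) (nat_lit 3868470472) (nat_lit 228) (nat_lit 8078492849) (nat_lit 228) (nat_lit 2198203560) (nat_lit 51) (nat_lit 4) (nat_lit 54) (nat_lit 5) (nat_lit 54) (nat_lit 4) (nat_lit 334) (nat_lit 227) (nat_lit 219)) (XT.lf (nat_lit 0) (nat_lit 1893092339) (nat_lit 152) (nat_lit 2272945907) (nat_lit 228) (nat_lit 10257492732) (nat_lit 48) (nat_lit 5) (nat_lit 50) (nat_lit 5) (nat_lit 51) (nat_lit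 4) (nat_lit 335) (nat_lit 227) (nat_lit 218))) (XT.nd (nat_lit 78) (nat_lit 304) (nat_lit 0) (XT.lf (nat_lit 0) (nat_lit 10655696442) (nat_lit 228) (nat_lit 404819072) (nat_lit 0) (nat_lit 3650185595) (nat_lit 48) (nat_lit 5) (nat_lit 51) (nat_lit 4) (nat_lit 48) (nat_lit 4) (nat_lit 336) (nat_lit 227) (nat_lit 217)) (XT.lf (nat_lit 0) (nat_lit 2269670821) (nat_lit 304) (nat_lit 3014071186) (nat_lit 76) (nat_lit 9723138183) (nat_lit 44) (nat_lit 5) (nat_lit 48) (nat_lit 5) (nat_lit 45) (nat_lit 4) (nat_lit 337) (nat_lit 227) (nat_lit 216))))) (XT.nd (nat_lit 234) (nat_lit 532) (nat_lit 0) (XT.nd (nat_lit 78) (nat_lit 380) (nat_lit 0) (XT.lf (nat_lit 0) (nat_lit 8672232560) (nat_lit 228) (nat_lit 5982639591) (nat_lit 0) (nat_lit 657701977) (nat_lit 42) (nat_lit 5) (nat_lit 45) (nat_lit 4) (nat_lit 42) (nat_lit 4) (nat_lit 338) (nat_lit 227) (nat_lit 215)) (XT.nd (nat_lit 78) (nat_lit 228) (nat_lit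 0) (XT.lf (nat_lit 0) (nat_lit 6290189174) (nat_lit 152) (nat_lit 8950304815) (nat_lit 152) (nat_lit 387501864) (nat_lit 40) (nat_lit 4) (nat_lit 42) (nat_lit 5) (nat_lit 42) (nat_lit 4) (nat_lit 339) (nat_lit 227) (nat_lit 214)) (XT.lf (nat_lit 0) (nat_lit 2845295925) (nat_lit 152) (nat_lit 3065794245) (nat_lit 228) (nat_lit 10042281031) (nat_lit 37) (nat_lit 5) (nat_lit 39) (nat_lit 5) (nat_lit 40) (nat_lit 4) (nat_lit 340) (nat_lit 227) (nat_lit 213)))) (XT.nd (nat_lit 156) (nat_lit 304) (nat_lit 0) (XT.nd (nat_lit 78) (nat_lit 228) (nat_lit 0) (XT.lf (nat_lit 0) (nat_lit 12356412132) (nat_lit 228) (nat_lit 999835554) (nat_lit 0) (nat_lit 2932975355) (nat_lit 37) (nat_lit 5) (nat_lit 40) (nat_lit 4) (nat_lit 37) (nat_lit 4) (nat_lit 341) (nat_lit 227) (nat_lit 212)) (XT.lf (nat_lit 0) (nat_lit 2306668936) (nat_lit 228) (nat_lit 5255874234) (nat_lit 76) (nat_lit 9072773169) (nat_lit 34) (nat_lit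 5) (nat_lit 37) (nat_lit 5) (nat_lit 35) (nat_lit 4) (nat_lit 342) (nat_lit 227) (nat_lit 211))) (XT.nd (nat_lit 78) (nat_lit 152) (nat_lit 0) (XT.lf (nat_lit 0) (nat_lit 7013874498) (nat_lit 152) (nat_lit 1603353846) (nat_lit 228) (nat_lit 8375322771) (nat_lit 32) (nat_lit 5) (nat_lit 34) (nat_lit 5) (nat_lit 35) (nat_lit 4) (nat_lit 343) (nat_lit 227) (nat_lit 210)) (XT.lf (nat_lit 0) (nat_lit 2160211651) (nat_lit 152) (nat_lit 12922364836) (nat_lit 152) (nat_lit 2278641407) (nat_lit 30) (nat_lit 4) (nat_lit 32) (nat_lit 5) (nat_lit 32) (nat_lit 4) (nat_lit 344) (nat_lit 227) (nat_lit 209)))))) (XT.nd (nat_lit 546) (nat_lit 608) (nat_lit 0) (XT.nd (nat_lit 234) (nat_lit 380) (nat_lit 0) (XT.nd (nat_lit 78) (nat_lit 228) (nat_lit 0) (XT.lf (nat_lit 0) (nat_lit 3914669314) (nat_lit 228) (nat_lit 3177430778) (nat_lit 76) (nat_lit 10649024232) (nat_lit 29) (nat_lit 5) (nat_lit 32) (nat_lit 5) (nat_lit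 30) (nat_lit 4) (nat_lit 345) (nat_lit 227) (nat_lit 208)) (XT.nd (nat_lit 78) (nat_lit 152) (nat_lit 0) (XT.lf (nat_lit 0) (nat_lit 9116471182) (nat_lit 76) (nat_lit 1096409411) (nat_lit 152) (nat_lit 7920267485) (nat_lit 28) (nat_lit 5) (nat_lit 29) (nat_lit 5) (nat_lit 30) (nat_lit 4) (nat_lit 346) (nat_lit 227) (nat_lit 207)) (XT.lf (nat_lit 0) (nat_lit 3100555541) (nat_lit 152) (nat_lit 13566350521) (nat_lit 152) (nat_lit 1870711014) (nat_lit 26) (nat_lit 4) (nat_lit 28) (nat_lit 5) (nat_lit 28) (nat_lit 4) (nat_lit 347) (nat_lit 227) (nat_lit 206)))) (XT.nd (nat_lit 156) (nat_lit 228) (nat_lit 0) (XT.nd (nat_lit 78) (nat_lit 76) (nat_lit 0) (XT.lf (nat_lit 0) (nat_lit 4265254464) (nat_lit 228) (nat_lit 3475794154) (nat_lit 76) (nat_lit 11213383980) (nat_lit 25) (nat_lit 5) (nat_lit 28) (nat_lit 5) (nat_lit 26) (nat_lit 4) (nat_lit 348) (nat_lit 227) (nat_lit 205)) (XT.lf (nat_lit 0) (nat_lit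 8760801749) (nat_lit 76) (nat_lit 1752488112) (nat_lit 152) (nat_lit 8871167515) (nat_lit 24) (nat_lit 5) (nat_lit 25) (nat_lit 5) (nat_lit 26) (nat_lit 4) (nat_lit 349) (nat_lit 227) (nat_lit 204))) (XT.nd (nat_lit 78) (nat_lit 76) (nat_lit 0) (XT.lf (nat_lit 0) (nat_lit 1390155605) (nat_lit 152) (nat_lit 15517700323) (nat_lit 152) (nat_lit 2920364816) (nat_lit 22) (nat_lit 4) (nat_lit 24) (nat_lit 5) (nat_lit 24) (nat_lit 4) (nat_lit 350) (nat_lit 227) (nat_lit 203)) (XT.lf (nat_lit 0) (nat_lit 3149864091) (nat_lit 228) (nat_lit 6589872221) (nat_lit 76) (nat_lit 10545502937) (nat_lit 21) (nat_lit 5) (nat_lit 24) (nat_lit 5) (nat_lit 22) (nat_lit 4) (nat_lit 351) (nat_lit 227) (nat_lit 202))))) (XT.nd (nat_lit 234) (nat_lit 304) (nat_lit 0) (XT.nd (nat_lit 78) (nat_lit 228) (nat_lit 0) (XT.lf (nat_lit 0) (nat_lit 5488763297) (nat_lit 76) (nat_lit 3811373197) (nat_lit 152) (nat_lit 11456711632)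 (nat_lit 20) (nat_lit 5) (nat_lit 21) (nat_lit 5) (nat_lit 22) (nat_lit 4) (nat_lit 352) (nat_lit 227) (nat_lit 201)) (XT.nd (nat_lit 78) (nat_lit 228) (nat_lit 0) (XT.lf (nat_lit 0) (nat_lit 15597738910) (nat_lit 152) (nat_lit 3412968144) (nat_lit 0) (nat_lit 2232659401) (nat_lit 20) (nat_lit 5) (nat_lit 22) (nat_lit 4) (nat_lit 20) (nat_lit 4) (nat_lit 353) (nat_lit 227) (nat_lit 200)) (XT.lf (nat_lit 0) (nat_lit 323109607) (nat_lit 228) (nat_lit 13031138513) (nat_lit 76) (nat_lit 8390449322) (nat_lit 17) (nat_lit 5) (nat_lit 20) (nat_lit 5) (nat_lit 18) (nat_lit 4) (nat_lit 354) (nat_lit 227) (nat_lit 199)))) (XT.nd (nat_lit 156) (nat_lit 228) (nat_lit 0) (XT.nd (nat_lit 78) (nat_lit 76) (nat_lit 0) (XT.lf (nat_lit 0) (nat_lit 6324745058) (nat_lit 228) (nat_lit 1217291613) (nat_lit 76) (nat_lit 14719690859) (nat_lit 17) (nat_lit 5) (nat_lit 20) (nat_lit 5) (nat_lit 18) (nat_lit 4) (nat_lit 355)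 (nat_lit 227) (nat_lit 198)) (XT.lf (nat_lit 0) (nat_lit 10929874381) (nat_lit 76) (nat_lit 1557053549) (nat_lit 152) (nat_lit 10307746430) (nat_lit 16) (nat_lit 5) (nat_lit 17) (nat_lit 5) (nat_lit 18) (nat_lit 4) (nat_lit 356) (nat_lit 227) (nat_lit 197))) (XT.nd (nat_lit 78) (nat_lit 228) (nat_lit 0) (XT.lf (nat_lit 0) (nat_lit 18782840130) (nat_lit 152) (nat_lit 78391594) (nat_lit 0) (nat_lit 4483415945) (nat_lit 16) (nat_lit 5) (nat_lit 18) (nat_lit 4) (nat_lit 16) (nat_lit 4) (nat_lit 357) (nat_lit 227) (nat_lit 196)) (XT.lf (nat_lit 0) (nat_lit 1340619905) (nat_lit 228) (nat_lit 11869015827) (nat_lit 76) (nat_lit 10701284882) (nat_lit 13) (nat_lit 5) (nat_lit 16) (nat_lit 5) (nat_lit 14) (nat_lit 4) (nat_lit 358) (nat_lit 227) (nat_lit 195))))))))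
noncomputable def xc8 : XT := (XT.nd (nat_lit 39390) (nat_lit 0) (nat_lit 76) (XT.nd (nat_lit 38298) (nat_lit 0) (nat_lit 2052) (XT.nd (nat_lit 468) (nat_lit 152) (nat_lit 0) (XT.nd (nat_lit 234) (nat_lit 228) (nat_lit 0) (XT.nd (nat_lit 78) (nat_lit 76) (nat_lit 0) (XT.lf (nat_lit 0) (nat_lit 7273215899) (nat_lit 228) (nat_lit 154729054) (nat_lit 76) (nat_lit 17067346449) (nat_lit 13) (nat_lit 5) (nat_lit 16) (nat_lit 5) (nat_lit 14) (nat_lit 4) (nat_lit 359) (nat_lit 227) (nat_lit 194)) (XT.nd (nat_lit 78) (nat_lit 0) (nat_lit 0) (XT.lf (nat_lit 0) (nat_lit 11914892392) (nat_lit 76) (nat_lit 1462941034) (nat_lit 152) (nat_lit 11719492788) (nat_lit 12) (nat_lit 5) (nat_lit 13) (nat_lit 5) (nat_lit 14) (nat_lit 4) (nat_lit 360) (nat_lit 227) (nat_lit 193)) (XT.lf (nat_lit 0) (nat_lit 19614733257) (nat_lit 152) (nat_lit 1550176818) (nat_lit 0) (nat_lit 4553542488) (nat_lit 12) (nat_lit 5) (nat_lit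 14) (nat_lit 4) (nat_lit 12) (nat_lit 4) (nat_lit 361) (nat_lit 227) (nat_lit 192)))) (XT.nd (nat_lit 78) (nat_lit 152) (nat_lit 0) (XT.lf (nat_lit 0) (nat_lit 10411112076) (nat_lit 76) (nat_lit 15625100485) (nat_lit 76) (nat_lit 322063673) (nat_lit 11) (nat_lit 4) (nat_lit 12) (nat_lit 5) (nat_lit 12) (nat_lit 4) (nat_lit 362) (nat_lit 227) (nat_lit 191)) (XT.nd (nat_lit 78) (nat_lit 76) (nat_lit 0) (XT.lf (nat_lit 0) (nat_lit 5490688601) (nat_lit 152) (nat_lit 4446647822) (nat_lit 76) (nat_lit 17080608572) (nat_lit 10) (nat_lit 5) (nat_lit 12) (nat_lit 5) (nat_lit 11) (nat_lit 4) (nat_lit 363) (nat_lit 227) (nat_lit 190)) (XT.lf (nat_lit 0) (nat_lit 7352008483) (nat_lit 76) (nat_lit 4092452096) (nat_lit 152) (nat_lit 16253492402) (nat_lit 9) (nat_lit 5) (nat_lit 10) (nat_lit 5) (nat_lit 11) (nat_lit 4) (nat_lit 364) (nat_lit 227) (nat_lit 189))))) (XT.nd (nat_lit 37518) (nat_lit 0) (nat_lit 4712)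 (XT.nd (nat_lit 156) (nat_lit 152) (nat_lit 0) (XT.lf (nat_lit 0) (nat_lit 17543869121) (nat_lit 152) (nat_lit 8984946379) (nat_lit 0) (nat_lit 1870216887) (nat_lit 9) (nat_lit 5) (nat_lit 11) (nat_lit 4) (nat_lit 9) (nat_lit 4) (nat_lit 365) (nat_lit 227) (nat_lit 188)) (XT.nd (nat_lit 37284) (nat_lit 0) (nat_lit 5852) (XT.lf (nat_lit 0) (nat_lit 354795595) (nat_lit 152) (nat_lit 15372156896) (nat_lit 76) (nat_lit 14139378747) (nat_lit 7) (nat_lit 5) (nat_lit 9) (nat_lit 5) (nat_lit 8) (nat_lit 4) (nat_lit 367) (nat_lit 227) (nat_lit 186)) (XT.lf (nat_lit 0) (nat_lit 4899339895) (nat_lit 304) (nat_lit 499638681) (nat_lit 304) (nat_lit 499638681) (nat_lit 84) (nat_lit 4) (nat_lit 88) (nat_lit 5) (nat_lit 88) (nat_lit 4) (nat_lit 324) (nat_lit 228) (nat_lit 228)))) (XT.nd (nat_lit 156) (nat_lit 608) (nat_lit 0) (XT.nd (nat_lit 78) (nat_lit 228) (nat_lit 0) (XT.lf (nat_lit 0) (nat_lit 5455915765)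 (nat_lit 304) (nat_lit 1995633093) (nat_lit 0) (nat_lit 4549178823) (nat_lit 80) (nat_lit 5) (nat_lit 84) (nat_lit 4) (nat_lit 80) (nat_lit 4) (nat_lit 325) (nat_lit 228) (nat_lit 227)) (XT.lf (nat_lit 0) (nat_lit 10068473162) (nat_lit 228) (nat_lit 1964993070) (nat_lit 228) (nat_lit 177928998) (nat_lit 77) (nat_lit 4) (nat_lit 80) (nat_lit 5) (nat_lit 80) (nat_lit 4) (nat_lit 326) (nat_lit 228) (nat_lit 226))) (XT.nd (nat_lit 78) (nat_lit 304) (nat_lit 0) (XT.lf (nat_lit 0) (nat_lit 6256820012) (nat_lit 304) (nat_lit 2504700190) (nat_lit 0) (nat_lit 3666868438) (nat_lit 73) (nat_lit 5) (nat_lit 77) (nat_lit 4) (nat_lit 73) (nat_lit 4) (nat_lit 327) (nat_lit 228) (nat_lit 225)) (XT.lf (nat_lit 0) (nat_lit 177337847) (nat_lit 304) (nat_lit 3045251425) (nat_lit 76) (nat_lit 9430291301) (nat_lit 69) (nat_lit 5) (nat_lit 73) (nat_lit 5) (nat_lit 70) (nat_lit 4) (nat_lit 328) (nat_lit 228) (nat_lit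 224)))))) (XT.nd (nat_lit 546) (nat_lit 1064) (nat_lit 0) (XT.nd (nat_lit 234) (nat_lit 912) (nat_lit 0) (XT.nd (nat_lit 78) (nat_lit 456) (nat_lit 0) (XT.lf (nat_lit 0) (nat_lit 6587556256) (nat_lit 304) (nat_lit 3820206351) (nat_lit 0) (nat_lit 2476476493) (nat_lit 66) (nat_lit 5) (nat_lit 70) (nat_lit 4) (nat_lit 66) (nat_lit 4) (nat_lit 329) (nat_lit 228) (nat_lit 223)) (XT.nd (nat_lit 78) (nat_lit 152) (nat_lit 0) (XT.lf (nat_lit 0) (nat_lit 26489965) (nat_lit 304) (nat_lit 4809357087) (nat_lit 76) (nat_lit 8287525458) (nat_lit 62) (nat_lit 5) (nat_lit 66) (nat_lit 5) (nat_lit 63) (nat_lit 4) (nat_lit 330) (nat_lit 228) (nat_lit 222)) (XT.lf (nat_lit 0) (nat_lit 6399331912) (nat_lit 228) (nat_lit 6054406917) (nat_lit 0) (nat_lit 916236655) (nat_lit 60) (nat_lit 5) (nat_lit 63) (nat_lit 4) (nat_lit 60) (nat_lit 4) (nat_lit 331) (nat_lit 228) (nat_lit 221)))) (XT.nd (nat_lit 156) (nat_lit 456)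 (nat_lit 0) (XT.nd (nat_lit 78) (nat_lit 228) (nat_lit 0) (XT.lf (nat_lit 0) (nat_lit 6067958518) (nat_lit 228) (nat_lit 6867225375) (nat_lit 228) (nat_lit 689393448) (nat_lit 57) (nat_lit 4) (nat_lit 60) (nat_lit 5) (nat_lit 60) (nat_lit 4) (nat_lit 332) (nat_lit 228) (nat_lit 220)) (XT.lf (nat_lit 0) (nat_lit 4548796543) (nat_lit 152) (nat_lit 1095327263) (nat_lit 228) (nat_lit 8243185562) (nat_lit 54) (nat_lit 5) (nat_lit 56) (nat_lit 5) (nat_lit 57) (nat_lit 4) (nat_lit 333) (nat_lit 228) (nat_lit 219))) (XT.nd (nat_lit 78) (nat_lit 228) (nat_lit 0) (XT.lf (nat_lit 0) (nat_lit 2741108604) (nat_lit 228) (nat_lit 9388659013) (nat_lit 228) (nat_lit 2028669318) (nat_lit 51) (nat_lit 4) (nat_lit 54) (nat_lit 5) (nat_lit 54) (nat_lit 4) (nat_lit 334) (nat_lit 228) (nat_lit 218)) (XT.lf (nat_lit 0) (nat_lit 626151505) (nat_lit 152) (nat_lit 3635956091) (nat_lit 228) (nat_lit 10176112405) (nat_lit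 48) (nat_lit 5) (nat_lit 50) (nat_lit 5) (nat_lit 51) (nat_lit 4) (nat_lit 335) (nat_lit 228) (nat_lit 217))))) (XT.nd (nat_lit 234) (nat_lit 608) (nat_lit 0) (XT.nd (nat_lit 78) (nat_lit 456) (nat_lit 0) (XT.lf (nat_lit 0) (nat_lit 10680750534) (nat_lit 228) (nat_lit 1785390888) (nat_lit 0) (nat_lit 2260684704) (nat_lit 48) (nat_lit 5) (nat_lit 51) (nat_lit 4) (nat_lit 48) (nat_lit 4) (nat_lit 336) (nat_lit 228) (nat_lit 216)) (XT.nd (nat_lit 78) (nat_lit 152) (nat_lit 0) (XT.lf (nat_lit 0) (nat_lit 2207877097) (nat_lit 304) (nat_lit 4536169042) (nat_lit 76) (nat_lit 8280384951) (nat_lit 44) (nat_lit 5) (nat_lit 48) (nat_lit 5) (nat_lit 45) (nat_lit 4) (nat_lit 337) (nat_lit 228) (nat_lit 215)) (XT.lf (nat_lit 0) (nat_lit 7686881765) (nat_lit 152) (nat_lit 848860987) (nat_lit 228) (nat_lit 6795890694) (nat_lit 42) (nat_lit 5) (nat_lit 44) (nat_lit 5) (nat_lit 45) (nat_lit 4) (nat_lit 338) (nat_lit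 228) (nat_lit 214)))) (XT.nd (nat_lit 156) (nat_lit 228) (nat_lit 0) (XT.nd (nat_lit 78) (nat_lit 228) (nat_lit 0) (XT.lf (nat_lit 0) (nat_lit 4507222593) (nat_lit 152) (nat_lit 10520814337) (nat_lit 152) (nat_lit 620551660) (nat_lit 40) (nat_lit 4) (nat_lit 42) (nat_lit 5) (nat_lit 42) (nat_lit 4) (nat_lit 339) (nat_lit 228) (nat_lit 213)) (XT.lf (nat_lit 0) (nat_lit 915846376) (nat_lit 152) (nat_lit 4694504289) (nat_lit 228) (nat_lit 10365071857) (nat_lit 37) (nat_lit 5) (nat_lit 39) (nat_lit 5) (nat_lit 40) (nat_lit 4) (nat_lit 340) (nat_lit 228) (nat_lit 212))) (XT.nd (nat_lit 78) (nat_lit 228) (nat_lit 0) (XT.lf (nat_lit 0) (nat_lit 11987641675) (nat_lit 228) (nat_lit 3042079199) (nat_lit 0) (nat_lit 1282927113) (nat_lit 37) (nat_lit 5) (nat_lit 40) (nat_lit 4) (nat_lit 37) (nat_lit 4) (nat_lit 341) (nat_lit 228) (nat_lit 211)) (XT.lf (nat_lit 0) (nat_lit 1849276336) (nat_lit 228) (nat_lit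 7446757634) (nat_lit 76) (nat_lit 7364177439) (nat_lit 34) (nat_lit 5) (nat_lit 37) (nat_lit 5) (nat_lit 35) (nat_lit 4) (nat_lit 342) (nat_lit 228) (nat_lit 210))))))) (XT.nd (nat_lit 1014) (nat_lit 684) (nat_lit 0) (XT.nd (nat_lit 468) (nat_lit 608) (nat_lit 0) (XT.nd (nat_lit 234) (nat_lit 304) (nat_lit 0) (XT.nd (nat_lit 78) (nat_lit 228) (nat_lit 0) (XT.lf (nat_lit 0) (nat_lit 4695063827) (nat_lit 152) (nat_lit 3394555380) (nat_lit 228) (nat_lit 8929243328) (nat_lit 32) (nat_lit 5) (nat_lit 34) (nat_lit 5) (nat_lit 35) (nat_lit 4) (nat_lit 343) (nat_lit 228) (nat_lit 209)) (XT.nd (nat_lit 78) (nat_lit 228) (nat_lit 0) (XT.lf (nat_lit 0) (nat_lit 14474863540) (nat_lit 228) (nat_lit 298370023) (nat_lit 0) (nat_lit 2615909495) (nat_lit 32) (nat_lit 5) (nat_lit 35) (nat_lit 4) (nat_lit 32) (nat_lit 4) (nat_lit 344) (nat_lit 228) (nat_lit 208)) (XT.lf (nat_lit 0) (nat_lit 3231545638) (nat_lit 228)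 (nat_lit 5759716675) (nat_lit 76) (nat_lit 8778997263) (nat_lit 29) (nat_lit 5) (nat_lit 32) (nat_lit 5) (nat_lit 30) (nat_lit 4) (nat_lit 345) (nat_lit 228) (nat_lit 207)))) (XT.nd (nat_lit 78) (nat_lit 228) (nat_lit 0) (XT.lf (nat_lit 0) (nat_lit 6405509563) (nat_lit 76) (nat_lit 3054368214) (nat_lit 152) (nat_lit 8703813919) (nat_lit 28) (nat_lit 5) (nat_lit 29) (nat_lit 5) (nat_lit 30) (nat_lit 4) (nat_lit 346) (nat_lit 228) (nat_lit 206)) (XT.nd (nat_lit 78) (nat_lit 76) (nat_lit 0) (XT.lf (nat_lit 0) (nat_lit 241884417) (nat_lit 152) (nat_lit 15589134756) (nat_lit 152) (nat_lit 2738809671) (nat_lit 26) (nat_lit 4) (nat_lit 28) (nat_lit 5) (nat_lit 28) (nat_lit 4) (nat_lit 347) (nat_lit 228) (nat_lit 205)) (XT.lf (nat_lit 0) (nat_lit 3357497122) (nat_lit 228) (nat_lit 6452616496) (nat_lit 76) (nat_lit 9177674319) (nat_lit 25) (nat_lit 5) (nat_lit 28) (nat_lit 5) (nat_lit 26) (nat_lit 4) (nat_lit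 348) (nat_lit 228) (nat_lit 204))))) (XT.nd (nat_lit 234) (nat_lit 304) (nat_lit 0) (XT.nd (nat_lit 78) (nat_lit 228) (nat_lit 0) (XT.lf (nat_lit 0) (nat_lit 5654328991) (nat_lit 76) (nat_lit 3881477008) (nat_lit 152) (nat_lit 9883410920) (nat_lit 24) (nat_lit 5) (nat_lit 25) (nat_lit 5) (nat_lit 26) (nat_lit 4) (nat_lit 349) (nat_lit 228) (nat_lit 203)) (XT.nd (nat_lit 78) (nat_lit 228) (nat_lit 0) (XT.lf (nat_lit 0) (nat_lit 15858589922) (nat_lit 152) (nat_lit 1843683275) (nat_lit 0) (nat_lit 2162152127) (nat_lit 24) (nat_lit 5) (nat_lit 26) (nat_lit 4) (nat_lit 24) (nat_lit 4) (nat_lit 350) (nat_lit 228) (nat_lit 202)) (XT.lf (nat_lit 0) (nat_lit 2018020849) (nat_lit 228) (nat_lit 9964950417) (nat_lit 76) (nat_lit 8339834631) (nat_lit 21) (nat_lit 5) (nat_lit 24) (nat_lit 5) (nat_lit 22) (nat_lit 4) (nat_lit 351) (nat_lit 228) (nat_lit 201)))) (XT.nd (nat_lit 156) (nat_lit 228) (nat_lit 0) (XT.nd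 (nat_lit 78) (nat_lit 0) (nat_lit 0) (XT.lf (nat_lit 0) (nat_lit 1982831860) (nat_lit 76) (nat_lit 6115709263) (nat_lit 152) (nat_lit 12697277374) (nat_lit 20) (nat_lit 5) (nat_lit 21) (nat_lit 5) (nat_lit 22) (nat_lit 4) (nat_lit 352) (nat_lit 228) (nat_lit 200)) (XT.lf (nat_lit 0) (nat_lit 14255953827) (nat_lit 76) (nat_lit 79338378) (nat_lit 152) (nat_lit 6948270073) (nat_lit 20) (nat_lit 5) (nat_lit 21) (nat_lit 5) (nat_lit 22) (nat_lit 4) (nat_lit 353) (nat_lit 228) (nat_lit 199))) (XT.nd (nat_lit 78) (nat_lit 76) (nat_lit 0) (XT.lf (nat_lit 0) (nat_lit 4970753288) (nat_lit 152) (nat_lit 15769059993) (nat_lit 152) (nat_lit 1046528352) (nat_lit 18) (nat_lit 4) (nat_lit 20) (nat_lit 5) (nat_lit 20) (nat_lit 4) (nat_lit 354) (nat_lit 228) (nat_lit 198)) (XT.lf (nat_lit 0) (nat_lit 4924268152) (nat_lit 228) (nat_lit 5075953380) (nat_lit 76) (nat_lit 12304185158) (nat_lit 17) (nat_lit 5) (nat_lit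 20) (nat_lit 5) (nat_lit 18) (nat_lit 4) (nat_lit 355) (nat_lit 228) (nat_lit 197)))))) (XT.nd (nat_lit 546) (nat_lit 228) (nat_lit 0) (XT.nd (nat_lit 234) (nat_lit 228) (nat_lit 0) (XT.nd (nat_lit 78) (nat_lit 152) (nat_lit 0) (XT.lf (nat_lit 0) (nat_lit 6940240577) (nat_lit 76) (nat_lit 4077040737) (nat_lit 152) (nat_lit 11821463163) (nat_lit 16) (nat_lit 5) (nat_lit 17) (nat_lit 5) (nat_lit 18) (nat_lit 4) (nat_lit 356) (nat_lit 228) (nat_lit 196)) (XT.nd (nat_lit 78) (nat_lit 152) (nat_lit 0) (XT.lf (nat_lit 0) (nat_lit 17254097210) (nat_lit 152) (nat_lit 4173736558) (nat_lit 0) (nat_lit 1962073283) (nat_lit 16) (nat_lit 5) (nat_lit 18) (nat_lit 4) (nat_lit 16) (nat_lit 4) (nat_lit 357) (nat_lit 228) (nat_lit 195)) (XT.lf (nat_lit 0) (nat_lit 7824394134) (nat_lit 152) (nat_lit 15847464539) (nat_lit 152) (nat_lit 285883476) (nat_lit 14) (nat_lit 4) (nat_lit 16) (nat_lit 5) (nat_lit 16) (nat_lit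 4) (nat_lit 358) (nat_lit 228) (nat_lit 194)))) (XT.nd (nat_lit 156) (nat_lit 76) (nat_lit 0) (XT.nd (nat_lit 78) (nat_lit 76) (nat_lit 0) (XT.lf (nat_lit 0) (nat_lit 5609419699) (nat_lit 228) (nat_lit 4492259228) (nat_lit 76) (nat_lit 14441298763) (nat_lit 13) (nat_lit 5) (nat_lit 16) (nat_lit 5) (nat_lit 14) (nat_lit 4) (nat_lit 359) (nat_lit 228) (nat_lit 193)) (XT.lf (nat_lit 0) (nat_lit 7445882259) (nat_lit 76) (nat_lit 4199292361) (nat_lit 152) (nat_lit 13501221719) (nat_lit 12) (nat_lit 5) (nat_lit 13) (nat_lit 5) (nat_lit 14) (nat_lit 4) (nat_lit 360) (nat_lit 228) (nat_lit 192))) (XT.nd (nat_lit 78) (nat_lit 76) (nat_lit 0) (XT.lf (nat_lit 0) (nat_lit 17824945336) (nat_lit 152) (nat_lit 6122754954) (nat_lit 0) (nat_lit 1820971375) (nat_lit 12) (nat_lit 5) (nat_lit 14) (nat_lit 4) (nat_lit 12) (nat_lit 4) (nat_lit 361) (nat_lit 228) (nat_lit 191)) (XT.lf (nat_lit 0) (nat_lit 5706675099)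 (nat_lit 76) (nat_lit 18470988802) (nat_lit 76) (nat_lit 2232212857) (nat_lit 11) (nat_lit 4) (nat_lit 12) (nat_lit 5) (nat_lit 12) (nat_lit 4) (nat_lit 362) (nat_lit 228) (nat_lit 190))))) (XT.nd (nat_lit 312) (nat_lit 76) (nat_lit 0) (XT.nd (nat_lit 78) (nat_lit 76) (nat_lit 0) (XT.lf (nat_lit 0) (nat_lit 3567785289) (nat_lit 152) (nat_lit 9259812753) (nat_lit 76) (nat_lit 14242957547) (nat_lit 10) (nat_lit 5) (nat_lit 12) (nat_lit 5) (nat_lit 11) (nat_lit 4) (nat_lit 363) (nat_lit 228) (nat_lit 189)) (XT.nd (nat_lit 78) (nat_lit 0) (nat_lit 0) (XT.lf (nat_lit 0) (nat_lit 2406477770) (nat_lit 76) (nat_lit 7046264902) (nat_lit 152) (nat_lit 18299202934) (nat_lit 9) (nat_lit 5) (nat_lit 10) (nat_lit 5) (nat_lit 11) (nat_lit 4) (nat_lit 364) (nat_lit 228) (nat_lit 188)) (XT.lf (nat_lit 0) (nat_lit 14414696354) (nat_lit 76) (nat_lit 1089083774) (nat_lit 152) (nat_lit 12950217874) (nat_lit 9) (nat_lit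 5) (nat_lit 10) (nat_lit 5) (nat_lit 11) (nat_lit 4) (nat_lit 365) (nat_lit 228) (nat_lit 187)))) (XT.nd (nat_lit 37206) (nat_lit 0) (nat_lit 5776) (XT.nd (nat_lit 37128) (nat_lit 0) (nat_lit 6384) (XT.lf (nat_lit 0) (nat_lit 9252407320) (nat_lit 76) (nat_lit 18822882593) (nat_lit 76) (nat_lit 1848274473) (nat_lit 8) (nat_lit 4) (nat_lit 9) (nat_lit 5) (nat_lit 9) (nat_lit 4) (nat_lit 367) (nat_lit 228) (nat_lit 185)) (XT.lf (nat_lit 0) (nat_lit 4504698065) (nat_lit 304) (nat_lit 599525586) (nat_lit 304) (nat_lit 599525586) (nat_lit 92) (nat_lit 4) (nat_lit 96) (nat_lit 5) (nat_lit 96) (nat_lit 4) (nat_lit 322) (nat_lit 229) (nat_lit 229))) (XT.nd (nat_lit 78) (nat_lit 304) (nat_lit 0) (XT.lf (nat_lit 0) (nat_lit 5180468236) (nat_lit 304) (nat_lit 2191386343) (nat_lit 0) (nat_lit 4227850404) (nat_lit 88) (nat_lit 5) (nat_lit 92) (nat_lit 4) (nat_lit 88) (nat_lit 4) (nat_lit 323) (nat_lit 229) (nat_lit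 228)) (XT.lf (nat_lit 0) (nat_lit 9682503651) (nat_lit 304) (nat_lit 1996834782) (nat_lit 304) (nat_lit 119345268) (nat_lit 84) (nat_lit 4) (nat_lit 88) (nat_lit 5) (nat_lit 88) (nat_lit 4) (nat_lit 324) (nat_lit 229) (nat_lit 227))))))))
noncomputable def xc9 : XT := (XT.nd (nat_lit 2106) (nat_lit 988) (nat_lit 0) (XT.nd (nat_lit 1014) (nat_lit 1748) (nat_lit 0) (XT.nd (nat_lit 468) (nat_lit 1368) (nat_lit 0) (XT.nd (nat_lit 234) (nat_lit 836) (nat_lit 0) (XT.nd (nat_lit 78) (nat_lit 532) (nat_lit 0) (XT.lf (nat_lit 0) (nat_lit 6246368891) (nat_lit 304) (nat_lit 2231909989) (nat_lit 0) (nat_lit 3525365768) (nat_lit 80) (nat_lit 5) (nat_lit 84) (nat_lit 4) (nat_lit 80) (nat_lit 4) (nat_lit 325) (nat_lit 229) (nat_lit 226)) (XT.nd (nat_lit 78) (nat_lit 228) (nat_lit 0) (XT.lf (nat_lit 0) (nat_lit 530198177) (nat_lit 304) (nat_lit 2504689337) (nat_lit 76) (nat_lit 9180795955) (nat_lit 76) (nat_lit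 5) (nat_lit 80) (nat_lit 5) (nat_lit 77) (nat_lit 4) (nat_lit 326) (nat_lit 229) (nat_lit 225)) (XT.lf (nat_lit 0) (nat_lit 6884426849) (nat_lit 304) (nat_lit 2984485719) (nat_lit 0) (nat_lit 2565326451) (nat_lit 73) (nat_lit 5) (nat_lit 77) (nat_lit 4) (nat_lit 73) (nat_lit 4) (nat_lit 327) (nat_lit 229) (nat_lit 224)))) (XT.nd (nat_lit 78) (nat_lit 532) (nat_lit 0) (XT.lf (nat_lit 0) (nat_lit 719722542) (nat_lit 304) (nat_lit 3655088342) (nat_lit 76) (nat_lit 8285284150) (nat_lit 69) (nat_lit 5) (nat_lit 73) (nat_lit 5) (nat_lit 70) (nat_lit 4) (nat_lit 328) (nat_lit 229) (nat_lit 223)) (XT.nd (nat_lit 78) (nat_lit 304) (nat_lit 0) (XT.lf (nat_lit 0) (nat_lit 7051343673) (nat_lit 304) (nat_lit 4550897915) (nat_lit 0) (nat_lit 1290803795) (nat_lit 66) (nat_lit 5) (nat_lit 70) (nat_lit 4) (nat_lit 66) (nat_lit 4) (nat_lit 329) (nat_lit 229) (nat_lit 222)) (XT.lf (nat_lit 0) (nat_lit 404364364)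 (nat_lit 304) (nat_lit 5673614204) (nat_lit 76) (nat_lit 7055582855) (nat_lit 62) (nat_lit 5) (nat_lit 66) (nat_lit 5) (nat_lit 63) (nat_lit 4) (nat_lit 330) (nat_lit 229) (nat_lit 221))))) (XT.nd (nat_lit 234) (nat_lit 760) (nat_lit 0) (XT.nd (nat_lit 78) (nat_lit 456) (nat_lit 0) (XT.lf (nat_lit 0) (nat_lit 6335761503) (nat_lit 152) (nat_lit 364645985) (nat_lit 228) (nat_lit 6681311255) (nat_lit 60) (nat_lit 5) (nat_lit 62) (nat_lit 5) (nat_lit 63) (nat_lit 4) (nat_lit 331) (nat_lit 229) (nat_lit 220)) (XT.nd (nat_lit 78) (nat_lit 228) (nat_lit 0) (XT.lf (nat_lit 0) (nat_lit 4956194810) (nat_lit 228) (nat_lit 8207004995) (nat_lit 228) (nat_lit 474599821) (nat_lit 57) (nat_lit 4) (nat_lit 60) (nat_lit 5) (nat_lit 60) (nat_lit 4) (nat_lit 332) (nat_lit 229) (nat_lit 219)) (XT.lf (nat_lit 0) (nat_lit 3298925104) (nat_lit 152) (nat_lit 2486315599) (nat_lit 228) (nat_lit 8116697227) (nat_lit 54) (nat_lit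 5) (nat_lit 56) (nat_lit 5) (nat_lit 57) (nat_lit 4) (nat_lit 333) (nat_lit 229) (nat_lit 218)))) (XT.nd (nat_lit 156) (nat_lit 456) (nat_lit 0) (XT.nd (nat_lit 78) (nat_lit 76) (nat_lit 0) (XT.lf (nat_lit 0) (nat_lit 1361216879) (nat_lit 228) (nat_lit 10829791887) (nat_lit 228) (nat_lit 1983670725) (nat_lit 51) (nat_lit 4) (nat_lit 54) (nat_lit 5) (nat_lit 54) (nat_lit 4) (nat_lit 334) (nat_lit 229) (nat_lit 217)) (XT.lf (nat_lit 0) (nat_lit 4241270441) (nat_lit 304) (nat_lit 883916176) (nat_lit 76) (nat_lit 9330590696) (nat_lit 50) (nat_lit 5) (nat_lit 54) (nat_lit 5) (nat_lit 51) (nat_lit 4) (nat_lit 335) (nat_lit 229) (nat_lit 216))) (XT.nd (nat_lit 78) (nat_lit 304) (nat_lit 0) (XT.lf (nat_lit 0) (nat_lit 10584035515) (nat_lit 228) (nat_lit 3419823348) (nat_lit 0) (nat_lit 742057361) (nat_lit 48) (nat_lit 5) (nat_lit 51) (nat_lit 4) (nat_lit 48) (nat_lit 4) (nat_lit 336) (nat_lit 229) (nat_lit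 215)) (XT.lf (nat_lit 0) (nat_lit 2023094076) (nat_lit 304) (nat_lit 6314565934) (nat_lit 76) (nat_lit 6707300646) (nat_lit 44) (nat_lit 5) (nat_lit 48) (nat_lit 5) (nat_lit 45) (nat_lit 4) (nat_lit 337) (nat_lit 229) (nat_lit 214)))))) (XT.nd (nat_lit 546) (nat_lit 836) (nat_lit 0) (XT.nd (nat_lit 234) (nat_lit 532) (nat_lit 0) (XT.nd (nat_lit 78) (nat_lit 228) (nat_lit 0) (XT.lf (nat_lit 0) (nat_lit 5782772698) (nat_lit 152) (nat_lit 2497889678) (nat_lit 228) (nat_lit 7072920656) (nat_lit 42) (nat_lit 5) (nat_lit 44) (nat_lit 5) (nat_lit 45) (nat_lit 4) (nat_lit 338) (nat_lit 229) (nat_lit 213)) (XT.nd (nat_lit 78) (nat_lit 76) (nat_lit 0) (XT.lf (nat_lit 0) (nat_lit 2465105337) (nat_lit 152) (nat_lit 12226721112) (nat_lit 152) (nat_lit 980347994) (nat_lit 40) (nat_lit 4) (nat_lit 42) (nat_lit 5) (nat_lit 42) (nat_lit 4) (nat_lit 339) (nat_lit 229) (nat_lit 212)) (XT.lf (nat_lit 0) (nat_lit 5192803607)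 (nat_lit 228) (nat_lit 1258656715) (nat_lit 76) (nat_lit 9548857168) (nat_lit 39) (nat_lit 5) (nat_lit 42) (nat_lit 5) (nat_lit 40) (nat_lit 4) (nat_lit 340) (nat_lit 229) (nat_lit 211)))) (XT.nd (nat_lit 156) (nat_lit 152) (nat_lit 0) (XT.nd (nat_lit 78) (nat_lit 228) (nat_lit 0) (XT.lf (nat_lit 0) (nat_lit 10990431574) (nat_lit 152) (nat_lit 507432027) (nat_lit 228) (nat_lit 4841136601) (nat_lit 37) (nat_lit 5) (nat_lit 39) (nat_lit 5) (nat_lit 40) (nat_lit 4) (nat_lit 341) (nat_lit 229) (nat_lit 210)) (XT.lf (nat_lit 0) (nat_lit 1266184558) (nat_lit 228) (nat_lit 9901324310) (nat_lit 76) (nat_lit 5520608409) (nat_lit 34) (nat_lit 5) (nat_lit 37) (nat_lit 5) (nat_lit 35) (nat_lit 4) (nat_lit 342) (nat_lit 229) (nat_lit 209))) (XT.nd (nat_lit 78) (nat_lit 0) (nat_lit 0) (XT.lf (nat_lit 0) (nat_lit 2111943674) (nat_lit 152) (nat_lit 5324257784) (nat_lit 228) (nat_lit 9611985133) (nat_lit 32) (nat_lit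 5) (nat_lit 34) (nat_lit 5) (nat_lit 35) (nat_lit 4) (nat_lit 343) (nat_lit 229) (nat_lit 208)) (XT.lf (nat_lit 0) (nat_lit 13756054152) (nat_lit 228) (nat_lit 2992224826) (nat_lit 0) (nat_lit 671507298) (nat_lit 32) (nat_lit 5) (nat_lit 35) (nat_lit 4) (nat_lit 32) (nat_lit 4) (nat_lit 344) (nat_lit 229) (nat_lit 207))))) (XT.nd (nat_lit 234) (nat_lit 532) (nat_lit 0) (XT.nd (nat_lit 78) (nat_lit 76) (nat_lit 0) (XT.lf (nat_lit 0) (nat_lit 2421804361) (nat_lit 228) (nat_lit 8608506724) (nat_lit 76) (nat_lit 6772102169) (nat_lit 29) (nat_lit 5) (nat_lit 32) (nat_lit 5) (nat_lit 30) (nat_lit 4) (nat_lit 345) (nat_lit 229) (nat_lit 206)) (XT.nd (nat_lit 78) (nat_lit 0) (nat_lit 0) (XT.lf (nat_lit 0) (nat_lit 3427250397) (nat_lit 76) (nat_lit 5152794143) (nat_lit 152) (nat_lit 9617213141) (nat_lit 28) (nat_lit 5) (nat_lit 29) (nat_lit 5) (nat_lit 30) (nat_lit 4) (nat_lit 346) (nat_lit 229) (nat_lit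 205)) (XT.lf (nat_lit 0) (nat_lit 14885883016) (nat_lit 152) (nat_lit 2849184122) (nat_lit 0) (nat_lit 869643913) (nat_lit 28) (nat_lit 5) (nat_lit 30) (nat_lit 4) (nat_lit 28) (nat_lit 4) (nat_lit 347) (nat_lit 229) (nat_lit 204)))) (XT.nd (nat_lit 156) (nat_lit 228) (nat_lit 0) (XT.nd (nat_lit 78) (nat_lit 76) (nat_lit 0) (XT.lf (nat_lit 0) (nat_lit 2321905866) (nat_lit 228) (nat_lit 9699227697) (nat_lit 76) (nat_lit 7003042035) (nat_lit 25) (nat_lit 5) (nat_lit 28) (nat_lit 5) (nat_lit 26) (nat_lit 4) (nat_lit 348) (nat_lit 229) (nat_lit 203)) (XT.lf (nat_lit 0) (nat_lit 2277106002) (nat_lit 76) (nat_lit 6153067746) (nat_lit 152) (nat_lit 11026841046) (nat_lit 24) (nat_lit 5) (nat_lit 25) (nat_lit 5) (nat_lit 26) (nat_lit 4) (nat_lit 349) (nat_lit 229) (nat_lit 202))) (XT.nd (nat_lit 78) (nat_lit 228) (nat_lit 0) (XT.lf (nat_lit 0) (nat_lit 14573109760) (nat_lit 76) (nat_lit 118359428) (nat_lit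 152) (nat_lit 5211992899) (nat_lit 24) (nat_lit 5) (nat_lit 25) (nat_lit 5) (nat_lit 26) (nat_lit 4) (nat_lit 350) (nat_lit 229) (nat_lit 201)) (XT.lf (nat_lit 0) (nat_lit 756834036) (nat_lit 228) (nat_lit 13613571768) (nat_lit 76) (nat_lit 5993019126) (nat_lit 21) (nat_lit 5) (nat_lit 24) (nat_lit 5) (nat_lit 22) (nat_lit 4) (nat_lit 351) (nat_lit 229) (nat_lit 200))))))) (XT.nd (nat_lit 1170) (nat_lit 76) (nat_lit 0) (XT.nd (nat_lit 546) (nat_lit 380) (nat_lit 0) (XT.nd (nat_lit 234) (nat_lit 304) (nat_lit 0) (XT.nd (nat_lit 78) (nat_lit 228) (nat_lit 0) (XT.lf (nat_lit 0) (nat_lit 6778859775) (nat_lit 228) (nat_lit 1774194996) (nat_lit 76) (nat_lit 12284561077) (nat_lit 21) (nat_lit 5) (nat_lit 24) (nat_lit 5) (nat_lit 22) (nat_lit 4) (nat_lit 352) (nat_lit 229) (nat_lit 199)) (XT.nd (nat_lit 78) (nat_lit 152) (nat_lit 0) (XT.lf (nat_lit 0) (nat_lit 10394285389) (nat_lit 76) (nat_lit 2564834895)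 (nat_lit 152) (nat_lit 8367377338) (nat_lit 20) (nat_lit 5) (nat_lit 21) (nat_lit 5) (nat_lit 22) (nat_lit 4) (nat_lit 353) (nat_lit 229) (nat_lit 198)) (XT.lf (nat_lit 0) (nat_lit 950204662) (nat_lit 152) (nat_lit 18327453813) (nat_lit 152) (nat_lit 2553346104) (nat_lit 18) (nat_lit 4) (nat_lit 20) (nat_lit 5) (nat_lit 20) (nat_lit 4) (nat_lit 354) (nat_lit 229) (nat_lit 197)))) (XT.nd (nat_lit 156) (nat_lit 152) (nat_lit 0) (XT.nd (nat_lit 78) (nat_lit 76) (nat_lit 0) (XT.lf (nat_lit 0) (nat_lit 3393946225) (nat_lit 228) (nat_lit 9210028962) (nat_lit 76) (nat_lit 9746163002) (nat_lit 17) (nat_lit 5) (nat_lit 20) (nat_lit 5) (nat_lit 18) (nat_lit 4) (nat_lit 355) (nat_lit 229) (nat_lit 196)) (XT.lf (nat_lit 0) (nat_lit 2673853992) (nat_lit 76) (nat_lit 6743399006) (nat_lit 152) (nat_lit 13468624445) (nat_lit 16) (nat_lit 5) (nat_lit 17) (nat_lit 5) (nat_lit 18) (nat_lit 4) (nat_lit 356) (nat_lit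 229) (nat_lit 195))) (XT.nd (nat_lit 78) (nat_lit 152) (nat_lit 0) (XT.lf (nat_lit 0) (nat_lit 14887832674) (nat_lit 76) (nat_lit 712057434) (nat_lit 152) (nat_lit 7838240614) (nat_lit 16) (nat_lit 5) (nat_lit 17) (nat_lit 5) (nat_lit 18) (nat_lit 4) (nat_lit 357) (nat_lit 229) (nat_lit 194)) (XT.lf (nat_lit 0) (nat_lit 3319853117) (nat_lit 152) (nat_lit 18623647119) (nat_lit 152) (nat_lit 2063955529) (nat_lit 14) (nat_lit 4) (nat_lit 16) (nat_lit 5) (nat_lit 16) (nat_lit 4) (nat_lit 358) (nat_lit 229) (nat_lit 193))))) (XT.nd (nat_lit 234) (nat_lit 228) (nat_lit 0) (XT.nd (nat_lit 78) (nat_lit 76) (nat_lit 0) (XT.lf (nat_lit 0) (nat_lit 3814820552) (nat_lit 228) (nat_lit 9107837526) (nat_lit 76) (nat_lit 11671067638) (nat_lit 13) (nat_lit 5) (nat_lit 16) (nat_lit 5) (nat_lit 14) (nat_lit 4) (nat_lit 359) (nat_lit 229) (nat_lit 192)) (XT.nd (nat_lit 78) (nat_lit 0) (nat_lit 0) (XT.lf (nat_lit 0)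 (nat_lit 2697279464) (nat_lit 76) (nat_lit 7083778690) (nat_lit 152) (nat_lit 15417482952) (nat_lit 12) (nat_lit 5) (nat_lit 13) (nat_lit 5) (nat_lit 14) (nat_lit 4) (nat_lit 360) (nat_lit 229) (nat_lit 191)) (XT.lf (nat_lit 0) (nat_lit 14839935643) (nat_lit 76) (nat_lit 1070901820) (nat_lit 152) (nat_lit 9910985006) (nat_lit 12) (nat_lit 5) (nat_lit 13) (nat_lit 5) (nat_lit 14) (nat_lit 4) (nat_lit 361) (nat_lit 229) (nat_lit 190)))) (XT.nd (nat_lit 156) (nat_lit 76) (nat_lit 0) (XT.nd (nat_lit 78) (nat_lit 76) (nat_lit 0) (XT.lf (nat_lit 0) (nat_lit 720992275) (nat_lit 76) (nat_lit 21466137074) (nat_lit 76) (nat_lit 4277432773) (nat_lit 11) (nat_lit 4) (nat_lit 12) (nat_lit 5) (nat_lit 12) (nat_lit 4) (nat_lit 362) (nat_lit 229) (nat_lit 189)) (XT.lf (nat_lit 0) (nat_lit 1512683869) (nat_lit 152) (nat_lit 14354406274) (nat_lit 76) (nat_lit 11259156224) (nat_lit 10) (nat_lit 5) (nat_lit 12) (nat_lit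 5) (nat_lit 11) (nat_lit 4) (nat_lit 363) (nat_lit 229) (nat_lit 188))) (XT.nd (nat_lit 78) (nat_lit 76) (nat_lit 0) (XT.lf (nat_lit 0) (nat_lit 7346380947) (nat_lit 152) (nat_lit 2785215253) (nat_lit 76) (nat_lit 17677070958) (nat_lit 10) (nat_lit 5) (nat_lit 12) (nat_lit 5) (nat_lit 11) (nat_lit 4) (nat_lit 364) (nat_lit 229) (nat_lit 187)) (XT.lf (nat_lit 0) (nat_lit 9121514449) (nat_lit 76) (nat_lit 4222563639) (nat_lit 152) (nat_lit 15167713681) (nat_lit 9) (nat_lit 5) (nat_lit 10) (nat_lit 5) (nat_lit 11) (nat_lit 4) (nat_lit 365) (nat_lit 229) (nat_lit 186)))))) (XT.nd (nat_lit 37440) (nat_lit 0) (nat_lit 3724) (XT.nd (nat_lit 37128) (nat_lit 0) (nat_lit 5472) (XT.nd (nat_lit 36972) (nat_lit 0) (nat_lit 6688) (XT.lf (nat_lit 0) (nat_lit 3724927305) (nat_lit 76) (nat_lit 22067058827) (nat_lit 76) (nat_lit 4191854405) (nat_lit 8) (nat_lit 4) (nat_lit 9) (nat_lit 5) (nat_lit 9) (nat_lit 4)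 (nat_lit 367) (nat_lit 229) (nat_lit 184)) (XT.nd (nat_lit 78) (nat_lit 304) (nat_lit 0) (XT.lf (nat_lit 0) (nat_lit 3947297687) (nat_lit 304) (nat_lit 786200741) (nat_lit 304) (nat_lit 786200741) (nat_lit 100) (nat_lit 4) (nat_lit 104) (nat_lit 5) (nat_lit 104) (nat_lit 4) (nat_lit 320) (nat_lit 230) (nat_lit 230)) (XT.lf (nat_lit 0) (nat_lit 4725562627) (nat_lit 304) (nat_lit 2770691822) (nat_lit 0) (nat_lit 3724742333) (nat_lit 96) (nat_lit 5) (nat_lit 100) (nat_lit 4) (nat_lit 96) (nat_lit 4) (nat_lit 321) (nat_lit 230) (nat_lit 229)))) (XT.nd (nat_lit 156) (nat_lit 608) (nat_lit 0) (XT.nd (nat_lit 78) (nat_lit 304) (nat_lit 0) (XT.lf (nat_lit 0) (nat_lit 8894995146) (nat_lit 304) (nat_lit 2243220272) (nat_lit 304) (nat_lit 270729789) (nat_lit 92) (nat_lit 4) (nat_lit 96) (nat_lit 5) (nat_lit 96) (nat_lit 4) (nat_lit 322) (nat_lit 230) (nat_lit 228)) (XT.lf (nat_lit 0) (nat_lit 6018585615)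 (nat_lit 304) (nat_lit 2424130854) (nat_lit 0) (nat_lit 3159899733) (nat_lit 88) (nat_lit 5) (nat_lit 92) (nat_lit 4) (nat_lit 88) (nat_lit 4) (nat_lit 323) (nat_lit 230) (nat_lit 227))) (XT.nd (nat_lit 78) (nat_lit 228) (nat_lit 0) (XT.lf (nat_lit 0) (nat_lit 635287737) (nat_lit 380) (nat_lit 2473338323) (nat_lit 76) (nat_lit 8694322867) (nat_lit 83) (nat_lit 5) (nat_lit 88) (nat_lit 5) (nat_lit 84) (nat_lit 4) (nat_lit 324) (nat_lit 230) (nat_lit 226)) (XT.lf (nat_lit 0) (nat_lit 6921228887) (nat_lit 304) (nat_lit 2704670237) (nat_lit 0) (nat_lit 2383582008) (nat_lit 80) (nat_lit 5) (nat_lit 84) (nat_lit 4) (nat_lit 80) (nat_lit 4) (nat_lit 325) (nat_lit 230) (nat_lit 225))))) (XT.nd (nat_lit 234) (nat_lit 912) (nat_lit 0) (XT.nd (nat_lit 78) (nat_lit 532) (nat_lit 0) (XT.lf (nat_lit 0) (nat_lit 1119501777) (nat_lit 304) (nat_lit 3106046038) (nat_lit 76) (nat_lit 7997325682) (nat_lit 76) (nat_lit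 5) (nat_lit 80) (nat_lit 5) (nat_lit 77) (nat_lit 4) (nat_lit 326) (nat_lit 230) (nat_lit 224)) (XT.nd (nat_lit 78) (nat_lit 304) (nat_lit 0) (XT.lf (nat_lit 0) (nat_lit 7395178084) (nat_lit 304) (nat_lit 3704688005) (nat_lit 0) (nat_lit 1343154888) (nat_lit 73) (nat_lit 5) (nat_lit 77) (nat_lit 4) (nat_lit 73) (nat_lit 4) (nat_lit 327) (nat_lit 230) (nat_lit 223)) (XT.lf (nat_lit 0) (nat_lit 1144280667) (nat_lit 304) (nat_lit 4507399042) (nat_lit 76) (nat_lit 7018568532) (nat_lit 69) (nat_lit 5) (nat_lit 73) (nat_lit 5) (nat_lit 70) (nat_lit 4) (nat_lit 328) (nat_lit 230) (nat_lit 222)))) (XT.nd (nat_lit 156) (nat_lit 380) (nat_lit 0) (XT.nd (nat_lit 78) (nat_lit 304) (nat_lit 0) (XT.lf (nat_lit 0) (nat_lit 7378530777) (nat_lit 228) (nat_lit 18432054) (nat_lit 304) (nat_lit 5507833836) (nat_lit 66) (nat_lit 5) (nat_lit 69) (nat_lit 5) (nat_lit 70) (nat_lit 4) (nat_lit 329) (nat_lit 230) (nat_lit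 221)) (XT.lf (nat_lit 0) (nat_lit 662904965) (nat_lit 304) (nat_lit 6784596846) (nat_lit 76) (nat_lit 5699204882) (nat_lit 62) (nat_lit 5) (nat_lit 66) (nat_lit 5) (nat_lit 63) (nat_lit 4) (nat_lit 330) (nat_lit 230) (nat_lit 220))) (XT.nd (nat_lit 78) (nat_lit 228) (nat_lit 0) (XT.lf (nat_lit 0) (nat_lit 5103011714) (nat_lit 152) (nat_lit 1785437910) (nat_lit 228) (nat_lit 6507842190) (nat_lit 60) (nat_lit 5) (nat_lit 62) (nat_lit 5) (nat_lit 63) (nat_lit 4) (nat_lit 331) (nat_lit 230) (nat_lit 219)) (XT.lf (nat_lit 0) (nat_lit 3595395243) (nat_lit 228) (nat_lit 9676161680) (nat_lit 228) (nat_lit 382426788) (nat_lit 57) (nat_lit 4) (nat_lit 60) (nat_lit 5) (nat_lit 60) (nat_lit 4) (nat_lit 332) (nat_lit 230) (nat_lit 218))))))))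
noncomputable def xc10 : XT := (XT.nd (nat_lit 2106) (nat_lit 304) (nat_lit 0) (XT.nd (nat_lit 1014) (nat_lit 1216) (nat_lit 0) (XT.nd (nat_lit 468) (nat_lit 988) (nat_lit 0) (XT.nd (nat_lit 234) (nat_lit 608) (nat_lit 0) (XT.nd (nat_lit 78) (nat_lit 304) (nat_lit 0) (XT.lf (nat_lit 0) (nat_lit 1797674634) (nat_lit 152) (nat_lit 4007865957) (nat_lit 228) (nat_lit 8113999222) (nat_lit 54) (nat_lit 5) (nat_lit 56) (nat_lit 5) (nat_lit 57) (nat_lit 4) (nat_lit 333) (nat_lit 230) (nat_lit 217)) (XT.nd (nat_lit 78) (nat_lit 304) (nat_lit 0) (XT.lf (nat_lit 0) (nat_lit 12132508947) (nat_lit 228) (nat_lit 268837721) (nat_lit 0) (nat_lit 1792526699) (nat_lit 54) (nat_lit 5) (nat_lit 57) (nat_lit 4) (nat_lit 54) (nat_lit 4) (nat_lit 334) (nat_lit 230) (nat_lit 216)) (XT.lf (nat_lit 0) (nat_lit 4103417084) (nat_lit 304) (nat_lit 2638614985) (nat_lit 76) (nat_lit 7734188010) (nat_lit 50) (nat_lit 5) (nat_lit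 54) (nat_lit 5) (nat_lit 51) (nat_lit 4) (nat_lit 335) (nat_lit 230) (nat_lit 215)))) (XT.nd (nat_lit 78) (nat_lit 456) (nat_lit 0) (XT.lf (nat_lit 0) (nat_lit 9452356883) (nat_lit 152) (nat_lit 919077251) (nat_lit 228) (nat_lit 4396434604) (nat_lit 48) (nat_lit 5) (nat_lit 50) (nat_lit 5) (nat_lit 51) (nat_lit 4) (nat_lit 336) (nat_lit 230) (nat_lit 214)) (XT.nd (nat_lit 78) (nat_lit 152) (nat_lit 0) (XT.lf (nat_lit 0) (nat_lit 1715160296) (nat_lit 304) (nat_lit 8350815800) (nat_lit 76) (nat_lit 5002510728) (nat_lit 44) (nat_lit 5) (nat_lit 48) (nat_lit 5) (nat_lit 45) (nat_lit 4) (nat_lit 337) (nat_lit 230) (nat_lit 213)) (XT.lf (nat_lit 0) (nat_lit 3620357080) (nat_lit 152) (nat_lit 4282084482) (nat_lit 228) (nat_lit 7476087043) (nat_lit 42) (nat_lit 5) (nat_lit 44) (nat_lit 5) (nat_lit 45) (nat_lit 4) (nat_lit 338) (nat_lit 230) (nat_lit 212))))) (XT.nd (nat_lit 234) (nat_lit 608) (nat_lit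 0) (XT.nd (nat_lit 78) (nat_lit 228) (nat_lit 0) (XT.lf (nat_lit 0) (nat_lit 162053031) (nat_lit 152) (nat_lit 14069515737) (nat_lit 152) (nat_lit 1467205249) (nat_lit 40) (nat_lit 4) (nat_lit 42) (nat_lit 5) (nat_lit 42) (nat_lit 4) (nat_lit 339) (nat_lit 230) (nat_lit 211)) (XT.nd (nat_lit 78) (nat_lit 152) (nat_lit 0) (XT.lf (nat_lit 0) (nat_lit 4657454644) (nat_lit 228) (nat_lit 3681385003) (nat_lit 76) (nat_lit 7689250803) (nat_lit 39) (nat_lit 5) (nat_lit 42) (nat_lit 5) (nat_lit 40) (nat_lit 4) (nat_lit 340) (nat_lit 230) (nat_lit 210)) (XT.lf (nat_lit 0) (nat_lit 8440830431) (nat_lit 152) (nat_lit 2451851933) (nat_lit 228) (nat_lit 5475499702) (nat_lit 37) (nat_lit 5) (nat_lit 39) (nat_lit 5) (nat_lit 40) (nat_lit 4) (nat_lit 341) (nat_lit 230) (nat_lit 209)))) (XT.nd (nat_lit 156) (nat_lit 380) (nat_lit 0) (XT.nd (nat_lit 78) (nat_lit 0) (nat_lit 0) (XT.lf (nat_lit 0) (nat_lit 556884105)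 (nat_lit 228) (nat_lit 12621719030) (nat_lit 76) (nat_lit 3540455192) (nat_lit 34) (nat_lit 5) (nat_lit 37) (nat_lit 5) (nat_lit 35) (nat_lit 4) (nat_lit 342) (nat_lit 230) (nat_lit 208)) (XT.lf (nat_lit 0) (nat_lit 6661194069) (nat_lit 228) (nat_lit 728067421) (nat_lit 76) (nat_lit 9691191619) (nat_lit 34) (nat_lit 5) (nat_lit 37) (nat_lit 5) (nat_lit 35) (nat_lit 4) (nat_lit 343) (nat_lit 230) (nat_lit 207))) (XT.nd (nat_lit 78) (nat_lit 228) (nat_lit 0) (XT.lf (nat_lit 0) (nat_lit 11491954292) (nat_lit 152) (nat_lit 1428817247) (nat_lit 228) (nat_lit 4532497759) (nat_lit 32) (nat_lit 5) (nat_lit 34) (nat_lit 5) (nat_lit 35) (nat_lit 4) (nat_lit 344) (nat_lit 230) (nat_lit 206)) (XT.lf (nat_lit 0) (nat_lit 1484737941) (nat_lit 228) (nat_lit 11726290160) (nat_lit 76) (nat_lit 4626585352) (nat_lit 29) (nat_lit 5) (nat_lit 32) (nat_lit 5) (nat_lit 30) (nat_lit 4) (nat_lit 345) (nat_lit 230) (nat_lit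 205)))))) (XT.nd (nat_lit 546) (nat_lit 608) (nat_lit 0) (XT.nd (nat_lit 234) (nat_lit 304) (nat_lit 0) (XT.nd (nat_lit 78) (nat_lit 228) (nat_lit 0) (XT.lf (nat_lit 0) (nat_lit 179091323) (nat_lit 76) (nat_lit 7393520773) (nat_lit 152) (nat_lit 10661263268) (nat_lit 28) (nat_lit 5) (nat_lit 29) (nat_lit 5) (nat_lit 30) (nat_lit 4) (nat_lit 346) (nat_lit 230) (nat_lit 204)) (XT.nd (nat_lit 78) (nat_lit 228) (nat_lit 0) (XT.lf (nat_lit 0) (nat_lit 12426852229) (nat_lit 76) (nat_lit 1397474778) (nat_lit 152) (nat_lit 4818094068) (nat_lit 28) (nat_lit 5) (nat_lit 29) (nat_lit 5) (nat_lit 30) (nat_lit 4) (nat_lit 347) (nat_lit 230) (nat_lit 203)) (XT.lf (nat_lit 0) (nat_lit 1157575811) (nat_lit 228) (nat_lit 13218464602) (nat_lit 76) (nat_lit 4687586965) (nat_lit 25) (nat_lit 5) (nat_lit 28) (nat_lit 5) (nat_lit 26) (nat_lit 4) (nat_lit 348) (nat_lit 230) (nat_lit 202)))) (XT.nd (nat_lit 156) (nat_lit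 228) (nat_lit 0) (XT.nd (nat_lit 78) (nat_lit 76) (nat_lit 0) (XT.lf (nat_lit 0) (nat_lit 7204346761) (nat_lit 228) (nat_lit 1355800315) (nat_lit 76) (nat_lit 10937558556) (nat_lit 25) (nat_lit 5) (nat_lit 28) (nat_lit 5) (nat_lit 26) (nat_lit 4) (nat_lit 349) (nat_lit 230) (nat_lit 201)) (XT.lf (nat_lit 0) (nat_lit 10839740444) (nat_lit 76) (nat_lit 2571094836) (nat_lit 152) (nat_lit 6534422637) (nat_lit 24) (nat_lit 5) (nat_lit 25) (nat_lit 5) (nat_lit 26) (nat_lit 4) (nat_lit 350) (nat_lit 230) (nat_lit 200))) (XT.nd (nat_lit 78) (nat_lit 76) (nat_lit 0) (XT.lf (nat_lit 0) (nat_lit 2863947622) (nat_lit 152) (nat_lit 16899866203) (nat_lit 152) (nat_lit 643234489) (nat_lit 22) (nat_lit 4) (nat_lit 24) (nat_lit 5) (nat_lit 24) (nat_lit 4) (nat_lit 351) (nat_lit 230) (nat_lit 199)) (XT.lf (nat_lit 0) (nat_lit 5342935466) (nat_lit 228) (nat_lit 5779547917) (nat_lit 76) (nat_lit 9759733396) (nat_lit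 21) (nat_lit 5) (nat_lit 24) (nat_lit 5) (nat_lit 22) (nat_lit 4) (nat_lit 352) (nat_lit 230) (nat_lit 198))))) (XT.nd (nat_lit 234) (nat_lit 304) (nat_lit 0) (XT.nd (nat_lit 78) (nat_lit 228) (nat_lit 0) (XT.lf (nat_lit 0) (nat_lit 6257001045) (nat_lit 76) (nat_lit 5196331073) (nat_lit 152) (nat_lit 9919171656) (nat_lit 20) (nat_lit 5) (nat_lit 21) (nat_lit 5) (nat_lit 22) (nat_lit 4) (nat_lit 353) (nat_lit 230) (nat_lit 197)) (XT.nd (nat_lit 78) (nat_lit 228) (nat_lit 0) (XT.lf (nat_lit 0) (nat_lit 17706148226) (nat_lit 152) (nat_lit 3305503410) (nat_lit 0) (nat_lit 866681248) (nat_lit 20) (nat_lit 5) (nat_lit 22) (nat_lit 4) (nat_lit 20) (nat_lit 4) (nat_lit 354) (nat_lit 230) (nat_lit 196)) (XT.lf (nat_lit 0) (nat_lit 1732442101) (nat_lit 228) (nat_lit 13623130659) (nat_lit 76) (nat_lit 7043389225) (nat_lit 17) (nat_lit 5) (nat_lit 20) (nat_lit 5) (nat_lit 18) (nat_lit 4) (nat_lit 355) (nat_lit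 230) (nat_lit 195)))) (XT.nd (nat_lit 156) (nat_lit 228) (nat_lit 0) (XT.nd (nat_lit 78) (nat_lit 76) (nat_lit 0) (XT.lf (nat_lit 0) (nat_lit 7697605746) (nat_lit 228) (nat_lit 1848448376) (nat_lit 76) (nat_lit 13389817107) (nat_lit 17) (nat_lit 5) (nat_lit 20) (nat_lit 5) (nat_lit 18) (nat_lit 4) (nat_lit 356) (nat_lit 230) (nat_lit 194)) (XT.lf (nat_lit 0) (nat_lit 10268035515) (nat_lit 76) (nat_lit 3559978136) (nat_lit 152) (nat_lit 9661162359) (nat_lit 16) (nat_lit 5) (nat_lit 17) (nat_lit 5) (nat_lit 18) (nat_lit 4) (nat_lit 357) (nat_lit 230) (nat_lit 193))) (XT.nd (nat_lit 78) (nat_lit 228) (nat_lit 0) (XT.lf (nat_lit 0) (nat_lit 20092470036) (nat_lit 152) (nat_lit 1447422523) (nat_lit 0) (nat_lit 2520198287) (nat_lit 16) (nat_lit 5) (nat_lit 18) (nat_lit 4) (nat_lit 16) (nat_lit 4) (nat_lit 358) (nat_lit 230) (nat_lit 192)) (XT.lf (nat_lit 0) (nat_lit 1887850364) (nat_lit 228) (nat_lit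 14005496978) (nat_lit 76) (nat_lit 8754232484) (nat_lit 13) (nat_lit 5) (nat_lit 16) (nat_lit 5) (nat_lit 14) (nat_lit 4) (nat_lit 359) (nat_lit 230) (nat_lit 191))))))) (XT.nd (nat_lit 37908) (nat_lit 0) (nat_lit 2508) (XT.nd (nat_lit 37362) (nat_lit 0) (nat_lit 5624) (XT.nd (nat_lit 234) (nat_lit 228) (nat_lit 0) (XT.nd (nat_lit 78) (nat_lit 76) (nat_lit 0) (XT.lf (nat_lit 0) (nat_lit 7799015982) (nat_lit 228) (nat_lit 2304440453) (nat_lit 76) (nat_lit 15150046428) (nat_lit 13) (nat_lit 5) (nat_lit 16) (nat_lit 5) (nat_lit 14) (nat_lit 4) (nat_lit 360) (nat_lit 230) (nat_lit 190)) (XT.nd (nat_lit 78) (nat_lit 0) (nat_lit 0) (XT.lf (nat_lit 0) (nat_lit 9740020097) (nat_lit 76) (nat_lit 4136710194) (nat_lit 152) (nat_lit 12001101262) (nat_lit 12) (nat_lit 5) (nat_lit 13) (nat_lit 5) (nat_lit 14) (nat_lit 4) (nat_lit 361) (nat_lit 230) (nat_lit 189)) (XT.lf (nat_lit 0) (nat_lit 20092413121) (nat_lit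 152) (nat_lit 4490614909) (nat_lit 0) (nat_lit 1938761210) (nat_lit 12) (nat_lit 5) (nat_lit 14) (nat_lit 4) (nat_lit 12) (nat_lit 4) (nat_lit 362) (nat_lit 230) (nat_lit 188)))) (XT.nd (nat_lit 78) (nat_lit 152) (nat_lit 0) (XT.lf (nat_lit 0) (nat_lit 7445646942) (nat_lit 76) (nat_lit 19053929518) (nat_lit 76) (nat_lit 685400529) (nat_lit 11) (nat_lit 4) (nat_lit 12) (nat_lit 5) (nat_lit 12) (nat_lit 4) (nat_lit 363) (nat_lit 230) (nat_lit 187)) (XT.nd (nat_lit 78) (nat_lit 76) (nat_lit 0) (XT.lf (nat_lit 0) (nat_lit 5122687783) (nat_lit 152) (nat_lit 8229318189) (nat_lit 76) (nat_lit 14516178177) (nat_lit 10) (nat_lit 5) (nat_lit 12) (nat_lit 5) (nat_lit 11) (nat_lit 4) (nat_lit 364) (nat_lit 230) (nat_lit 186)) (XT.lf (nat_lit 0) (nat_lit 3542465323) (nat_lit 76) (nat_lit 7508106503) (nat_lit 152) (nat_lit 17522138446) (nat_lit 9) (nat_lit 5) (nat_lit 10) (nat_lit 5) (nat_lit 11) (nat_lit 4)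 (nat_lit 365) (nat_lit 230) (nat_lit 185))))) (XT.nd (nat_lit 234) (nat_lit 1292) (nat_lit 0) (XT.nd (nat_lit 78) (nat_lit 684) (nat_lit 0) (XT.lf (nat_lit 0) (nat_lit 3261173098) (nat_lit 304) (nat_lit 1042340073) (nat_lit 304) (nat_lit 1042340073) (nat_lit 109) (nat_lit 4) (nat_lit 113) (nat_lit 5) (nat_lit 113) (nat_lit 4) (nat_lit 318) (nat_lit 231) (nat_lit 231)) (XT.nd (nat_lit 78) (nat_lit 304) (nat_lit 0) (XT.lf (nat_lit 0) (nat_lit 4127109017) (nat_lit 380) (nat_lit 3660561209) (nat_lit 0) (nat_lit 3075647216) (nat_lit 104) (nat_lit 5) (nat_lit 109) (nat_lit 4) (nat_lit 104) (nat_lit 4) (nat_lit 319) (nat_lit 231) (nat_lit 230)) (XT.lf (nat_lit 0) (nat_lit 7781982862) (nat_lit 304) (nat_lit 2665579449) (nat_lit 304) (nat_lit 593280947) (nat_lit 100) (nat_lit 4) (nat_lit 104) (nat_lit 5) (nat_lit 104) (nat_lit 4) (nat_lit 320) (nat_lit 231) (nat_lit 229)))) (XT.nd (nat_lit 156) (nat_lit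 608) (nat_lit 0) (XT.nd (nat_lit 78) (nat_lit 380) (nat_lit 0) (XT.lf (nat_lit 0) (nat_lit 5613679427) (nat_lit 304) (nat_lit 2999880029) (nat_lit 0) (nat_lit 2610344040) (nat_lit 96) (nat_lit 5) (nat_lit 100) (nat_lit 4) (nat_lit 96) (nat_lit 4) (nat_lit 321) (nat_lit 231) (nat_lit 228)) (XT.lf (nat_lit 0) (nat_lit 535439323) (nat_lit 380) (nat_lit 2865117069) (nat_lit 76) (nat_lit 8012659829) (nat_lit 91) (nat_lit 5) (nat_lit 96) (nat_lit 5) (nat_lit 92) (nat_lit 4) (nat_lit 322) (nat_lit 231) (nat_lit 227))) (XT.nd (nat_lit 78) (nat_lit 380) (nat_lit 0) (XT.lf (nat_lit 0) (nat_lit 6742934875) (nat_lit 304) (nat_lit 2889823244) (nat_lit 0) (nat_lit 1975683064) (nat_lit 88) (nat_lit 5) (nat_lit 92) (nat_lit 4) (nat_lit 88) (nat_lit 4) (nat_lit 323) (nat_lit 231) (nat_lit 226)) (XT.lf (nat_lit 0) (nat_lit 1273689670) (nat_lit 380) (nat_lit 3066178939) (nat_lit 76) (nat_lit 7470248570) (nat_lit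 83) (nat_lit 5) (nat_lit 88) (nat_lit 5) (nat_lit 84) (nat_lit 4) (nat_lit 324) (nat_lit 231) (nat_lit 225)))))) (XT.nd (nat_lit 546) (nat_lit 1368) (nat_lit 0) (XT.nd (nat_lit 234) (nat_lit 988) (nat_lit 0) (XT.nd (nat_lit 78) (nat_lit 532) (nat_lit 0) (XT.lf (nat_lit 0) (nat_lit 7481085436) (nat_lit 304) (nat_lit 3414326927) (nat_lit 0) (nat_lit 1122829867) (nat_lit 80) (nat_lit 5) (nat_lit 84) (nat_lit 4) (nat_lit 80) (nat_lit 4) (nat_lit 325) (nat_lit 231) (nat_lit 224)) (XT.nd (nat_lit 78) (nat_lit 228) (nat_lit 0) (XT.lf (nat_lit 0) (nat_lit 1592830297) (nat_lit 304) (nat_lit 3946362397) (nat_lit 76) (nat_lit 6693802007) (nat_lit 76) (nat_lit 5) (nat_lit 80) (nat_lit 5) (nat_lit 77) (nat_lit 4) (nat_lit 326) (nat_lit 231) (nat_lit 223)) (XT.lf (nat_lit 0) (nat_lit 7788801045) (nat_lit 228) (nat_lit 723655) (nat_lit 304) (nat_lit 4665217393) (nat_lit 73) (nat_lit 5) (nat_lit 76) (nat_lit 5)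 (nat_lit 77) (nat_lit 4) (nat_lit 327) (nat_lit 231) (nat_lit 222)))) (XT.nd (nat_lit 156) (nat_lit 456) (nat_lit 0) (XT.nd (nat_lit 78) (nat_lit 228) (nat_lit 0) (XT.lf (nat_lit 0) (nat_lit 1451383195) (nat_lit 304) (nat_lit 5602928263) (nat_lit 76) (nat_lit 5629037607) (nat_lit 69) (nat_lit 5) (nat_lit 73) (nat_lit 5) (nat_lit 70) (nat_lit 4) (nat_lit 328) (nat_lit 231) (nat_lit 221)) (XT.lf (nat_lit 0) (nat_lit 6162965653) (nat_lit 228) (nat_lit 1470941278) (nat_lit 304) (nat_lit 5285412464) (nat_lit 66) (nat_lit 5) (nat_lit 69) (nat_lit 5) (nat_lit 70) (nat_lit 4) (nat_lit 329) (nat_lit 231) (nat_lit 220))) (XT.nd (nat_lit 78) (nat_lit 152) (nat_lit 0) (XT.lf (nat_lit 0) (nat_lit 802337675) (nat_lit 304) (nat_lit 8143275773) (nat_lit 76) (nat_lit 4217206356) (nat_lit 62) (nat_lit 5) (nat_lit 66) (nat_lit 5) (nat_lit 63) (nat_lit 4) (nat_lit 330) (nat_lit 231) (nat_lit 219)) (XT.lf (nat_lit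 0) (nat_lit 3622390472) (nat_lit 152) (nat_lit 3335204285) (nat_lit 228) (nat_lit 6456233233) (nat_lit 60) (nat_lit 5) (nat_lit 62) (nat_lit 5) (nat_lit 63) (nat_lit 4) (nat_lit 331) (nat_lit 231) (nat_lit 218))))) (XT.nd (nat_lit 234) (nat_lit 912) (nat_lit 0) (XT.nd (nat_lit 78) (nat_lit 228) (nat_lit 0) (XT.lf (nat_lit 0) (nat_lit 1984370770) (nat_lit 228) (nat_lit 11275979160) (nat_lit 228) (nat_lit 412793810) (nat_lit 57) (nat_lit 4) (nat_lit 60) (nat_lit 5) (nat_lit 60) (nat_lit 4) (nat_lit 332) (nat_lit 231) (nat_lit 217)) (XT.nd (nat_lit 78) (nat_lit 0) (nat_lit 0) (XT.lf (nat_lit 0) (nat_lit 43733361) (nat_lit 152) (nat_lit 5661307848) (nat_lit 228) (nat_lit 8235089188) (nat_lit 54) (nat_lit 5) (nat_lit 56) (nat_lit 5) (nat_lit 57) (nat_lit 4) (nat_lit 333) (nat_lit 231) (nat_lit 216)) (XT.lf (nat_lit 0) (nat_lit 11962941440) (nat_lit 228) (nat_lit 2132856239) (nat_lit 0) (nat_lit 120063170)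 (nat_lit 54) (nat_lit 5) (nat_lit 57) (nat_lit 4) (nat_lit 54) (nat_lit 4) (nat_lit 334) (nat_lit 231) (nat_lit 215)))) (XT.nd (nat_lit 156) (nat_lit 456) (nat_lit 0) (XT.nd (nat_lit 78) (nat_lit 152) (nat_lit 0) (XT.lf (nat_lit 0) (nat_lit 3844361681) (nat_lit 304) (nat_lit 4647690244) (nat_lit 76) (nat_lit 6007595549) (nat_lit 50) (nat_lit 5) (nat_lit 54) (nat_lit 5) (nat_lit 51) (nat_lit 4) (nat_lit 335) (nat_lit 231) (nat_lit 214)) (XT.lf (nat_lit 0) (nat_lit 7318817261) (nat_lit 152) (nat_lit 2723720573) (nat_lit 228) (nat_lit 4750169472) (nat_lit 48) (nat_lit 5) (nat_lit 50) (nat_lit 5) (nat_lit 51) (nat_lit 4) (nat_lit 336) (nat_lit 231) (nat_lit 213))) (XT.nd (nat_lit 78) (nat_lit 152) (nat_lit 0) (XT.lf (nat_lit 0) (nat_lit 1283806688) (nat_lit 304) (nat_lit 10646697887) (nat_lit 76) (nat_lit 3164525574) (nat_lit 44) (nat_lit 5) (nat_lit 48) (nat_lit 5) (nat_lit 45) (nat_lit 4) (nat_lit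 337) (nat_lit 231) (nat_lit 212)) (XT.lf (nat_lit 0) (nat_lit 1197745419) (nat_lit 152) (nat_lit 6203004402) (nat_lit 228) (nat_lit 8005742137) (nat_lit 42) (nat_lit 5) (nat_lit 44) (nat_lit 5) (nat_lit 45) (nat_lit 4) (nat_lit 338) (nat_lit 231) (nat_lit 211))))))))
noncomputable def xc11 : XT := (XT.nd (nat_lit 38844) (nat_lit 0) (nat_lit 1824) (XT.nd (nat_lit 1014) (nat_lit 1064) (nat_lit 0) (XT.nd (nat_lit 468) (nat_lit 608) (nat_lit 0) (XT.nd (nat_lit 234) (nat_lit 380) (nat_lit 0) (XT.nd (nat_lit 78) (nat_lit 380) (nat_lit 0) (XT.lf (nat_lit 0) (nat_lit 13353621169) (nat_lit 152) (nat_lit 310866922) (nat_lit 228) (nat_lit 2063569938) (nat_lit 42) (nat_lit 5) (nat_lit 44) (nat_lit 5) (nat_lit 45) (nat_lit 4) (nat_lit 339) (nat_lit 231) (nat_lit 210)) (XT.nd (nat_lit 78) (nat_lit 152) (nat_lit 0) (XT.lf (nat_lit 0) (nat_lit 3997889712) (nat_lit 228) (nat_lit 6366466926) (nat_lit 76) (nat_lit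 5694527958) (nat_lit 39) (nat_lit 5) (nat_lit 42) (nat_lit 5) (nat_lit 40) (nat_lit 4) (nat_lit 340) (nat_lit 231) (nat_lit 209)) (XT.lf (nat_lit 0) (nat_lit 5628146668) (nat_lit 152) (nat_lit 4534982188) (nat_lit 228) (nat_lit 6237259029) (nat_lit 37) (nat_lit 5) (nat_lit 39) (nat_lit 5) (nat_lit 40) (nat_lit 4) (nat_lit 341) (nat_lit 231) (nat_lit 208)))) (XT.nd (nat_lit 78) (nat_lit 228) (nat_lit 0) (XT.lf (nat_lit 0) (nat_lit 1140868878) (nat_lit 152) (nat_lit 15329200159) (nat_lit 152) (nat_lit 282955815) (nat_lit 35) (nat_lit 4) (nat_lit 37) (nat_lit 5) (nat_lit 37) (nat_lit 4) (nat_lit 342) (nat_lit 231) (nat_lit 207)) (XT.nd (nat_lit 78) (nat_lit 152) (nat_lit 0) (XT.lf (nat_lit 0) (nat_lit 5774584778) (nat_lit 228) (nat_lit 3805907865) (nat_lit 76) (nat_lit 7534984340) (nat_lit 34) (nat_lit 5) (nat_lit 37) (nat_lit 5) (nat_lit 35) (nat_lit 4) (nat_lit 343) (nat_lit 231) (nat_lit 206))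 (XT.lf (nat_lit 0) (nat_lit 8285418155) (nat_lit 152) (nat_lit 3678915049) (nat_lit 228) (nat_lit 5525367227) (nat_lit 32) (nat_lit 5) (nat_lit 34) (nat_lit 5) (nat_lit 35) (nat_lit 4) (nat_lit 344) (nat_lit 231) (nat_lit 205))))) (XT.nd (nat_lit 234) (nat_lit 304) (nat_lit 0) (XT.nd (nat_lit 78) (nat_lit 76) (nat_lit 0) (XT.lf (nat_lit 0) (nat_lit 419527582) (nat_lit 228) (nat_lit 15115791258) (nat_lit 76) (nat_lit 2340572088) (nat_lit 29) (nat_lit 5) (nat_lit 32) (nat_lit 5) (nat_lit 30) (nat_lit 4) (nat_lit 345) (nat_lit 231) (nat_lit 204)) (XT.nd (nat_lit 78) (nat_lit 76) (nat_lit 0) (XT.lf (nat_lit 0) (nat_lit 6458397385) (nat_lit 228) (nat_lit 3297977471) (nat_lit 76) (nat_lit 8516767939) (nat_lit 29) (nat_lit 5) (nat_lit 32) (nat_lit 5) (nat_lit 30) (nat_lit 4) (nat_lit 346) (nat_lit 231) (nat_lit 203)) (XT.lf (nat_lit 0) (nat_lit 8822118742) (nat_lit 76) (nat_lit 3819303883) (nat_lit 152)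 (nat_lit 6041649256) (nat_lit 28) (nat_lit 5) (nat_lit 29) (nat_lit 5) (nat_lit 30) (nat_lit 4) (nat_lit 347) (nat_lit 231) (nat_lit 202)))) (XT.nd (nat_lit 156) (nat_lit 76) (nat_lit 0) (XT.nd (nat_lit 78) (nat_lit 76) (nat_lit 0) (XT.lf (nat_lit 0) (nat_lit 2091859420) (nat_lit 152) (nat_lit 16875975799) (nat_lit 152) (nat_lit 138324570) (nat_lit 26) (nat_lit 4) (nat_lit 28) (nat_lit 5) (nat_lit 28) (nat_lit 4) (nat_lit 348) (nat_lit 231) (nat_lit 201)) (XT.lf (nat_lit 0) (nat_lit 5864908638) (nat_lit 228) (nat_lit 5232101829) (nat_lit 76) (nat_lit 8444161428) (nat_lit 25) (nat_lit 5) (nat_lit 28) (nat_lit 5) (nat_lit 26) (nat_lit 4) (nat_lit 349) (nat_lit 231) (nat_lit 200))) (XT.nd (nat_lit 78) (nat_lit 0) (nat_lit 0) (XT.lf (nat_lit 0) (nat_lit 6831881112) (nat_lit 76) (nat_lit 5169463400) (nat_lit 152) (nat_lit 7988789318) (nat_lit 24) (nat_lit 5) (nat_lit 25) (nat_lit 5) (nat_lit 26) (nat_lit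 4) (nat_lit 350) (nat_lit 231) (nat_lit 199)) (XT.lf (nat_lit 0) (nat_lit 18275381274) (nat_lit 152) (nat_lit 1287840589) (nat_lit 0) (nat_lit 890289544) (nat_lit 24) (nat_lit 5) (nat_lit 26) (nat_lit 4) (nat_lit 24) (nat_lit 4) (nat_lit 351) (nat_lit 231) (nat_lit 198)))))) (XT.nd (nat_lit 546) (nat_lit 456) (nat_lit 0) (XT.nd (nat_lit 234) (nat_lit 304) (nat_lit 0) (XT.nd (nat_lit 78) (nat_lit 76) (nat_lit 0) (XT.lf (nat_lit 0) (nat_lit 3776639645) (nat_lit 228) (nat_lit 10062731922) (nat_lit 76) (nat_lit 7090546171) (nat_lit 21) (nat_lit 5) (nat_lit 24) (nat_lit 5) (nat_lit 22) (nat_lit 4) (nat_lit 352) (nat_lit 231) (nat_lit 197)) (XT.nd (nat_lit 78) (nat_lit 0) (nat_lit 0) (XT.lf (nat_lit 0) (nat_lit 1840485691) (nat_lit 76) (nat_lit 7976126278) (nat_lit 152) (nat_lit 11605008963) (nat_lit 20) (nat_lit 5) (nat_lit 21) (nat_lit 5) (nat_lit 22) (nat_lit 4) (nat_lit 353) (nat_lit 231) (nat_lit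 196)) (XT.lf (nat_lit 0) (nat_lit 14087945456) (nat_lit 76) (nat_lit 1934765735) (nat_lit 152) (nat_lit 5905680677) (nat_lit 20) (nat_lit 5) (nat_lit 21) (nat_lit 5) (nat_lit 22) (nat_lit 4) (nat_lit 354) (nat_lit 231) (nat_lit 195)))) (XT.nd (nat_lit 156) (nat_lit 76) (nat_lit 0) (XT.nd (nat_lit 78) (nat_lit 76) (nat_lit 0) (XT.lf (nat_lit 0) (nat_lit 4131392149) (nat_lit 152) (nat_lit 18257004548) (nat_lit 152) (nat_lit 62515925) (nat_lit 18) (nat_lit 4) (nat_lit 20) (nat_lit 5) (nat_lit 20) (nat_lit 4) (nat_lit 355) (nat_lit 231) (nat_lit 194)) (XT.lf (nat_lit 0) (nat_lit 5863872776) (nat_lit 228) (nat_lit 6616405691) (nat_lit 76) (nat_lit 10508350334) (nat_lit 17) (nat_lit 5) (nat_lit 20) (nat_lit 5) (nat_lit 18) (nat_lit 4) (nat_lit 356) (nat_lit 231) (nat_lit 193))) (XT.nd (nat_lit 78) (nat_lit 0) (nat_lit 0) (XT.lf (nat_lit 0) (nat_lit 5365908845) (nat_lit 76) (nat_lit 6558102376) (nat_lit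 152) (nat_lit 11619334467) (nat_lit 16) (nat_lit 5) (nat_lit 17) (nat_lit 5) (nat_lit 18) (nat_lit 4) (nat_lit 357) (nat_lit 231) (nat_lit 192)) (XT.lf (nat_lit 0) (nat_lit 17658710101) (nat_lit 76) (nat_lit 475408981) (nat_lit 152) (nat_lit 5981234934) (nat_lit 16) (nat_lit 5) (nat_lit 17) (nat_lit 5) (nat_lit 18) (nat_lit 4) (nat_lit 358) (nat_lit 231) (nat_lit 191))))) (XT.nd (nat_lit 234) (nat_lit 152) (nat_lit 0) (XT.nd (nat_lit 78) (nat_lit 152) (nat_lit 0) (XT.lf (nat_lit 0) (nat_lit 5513907891) (nat_lit 152) (nat_lit 19015180371) (nat_lit 152) (nat_lit 175476026) (nat_lit 14) (nat_lit 4) (nat_lit 16) (nat_lit 5) (nat_lit 16) (nat_lit 4) (nat_lit 359) (nat_lit 231) (nat_lit 190)) (XT.nd (nat_lit 78) (nat_lit 76) (nat_lit 0) (XT.lf (nat_lit 0) (nat_lit 5701525499) (nat_lit 228) (nat_lit 7555145189) (nat_lit 76) (nat_lit 12054574761) (nat_lit 13) (nat_lit 5) (nat_lit 16) (nat_lit 5) (nat_lit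 14) (nat_lit 4) (nat_lit 360) (nat_lit 231) (nat_lit 189)) (XT.lf (nat_lit 0) (nat_lit 4353933515) (nat_lit 76) (nat_lit 7354932856) (nat_lit 152) (nat_lit 14228121087) (nat_lit 12) (nat_lit 5) (nat_lit 13) (nat_lit 5) (nat_lit 14) (nat_lit 4) (nat_lit 361) (nat_lit 231) (nat_lit 188)))) (XT.nd (nat_lit 156) (nat_lit 76) (nat_lit 0) (XT.nd (nat_lit 78) (nat_lit 76) (nat_lit 0) (XT.lf (nat_lit 0) (nat_lit 16594405873) (nat_lit 76) (nat_lit 1282602567) (nat_lit 152) (nat_lit 8704893203) (nat_lit 12) (nat_lit 5) (nat_lit 13) (nat_lit 5) (nat_lit 14) (nat_lit 4) (nat_lit 362) (nat_lit 231) (nat_lit 187)) (XT.lf (nat_lit 0) (nat_lit 1820989561) (nat_lit 76) (nat_lit 22384380916) (nat_lit 76) (nat_lit 3041300457) (nat_lit 11) (nat_lit 4) (nat_lit 12) (nat_lit 5) (nat_lit 12) (nat_lit 4) (nat_lit 363) (nat_lit 231) (nat_lit 186))) (XT.nd (nat_lit 78) (nat_lit 0) (nat_lit 0) (XT.lf (nat_lit 0) (nat_lit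 2764095696) (nat_lit 152) (nat_lit 13962149407) (nat_lit 76) (nat_lit 11204615966) (nat_lit 10) (nat_lit 5) (nat_lit 12) (nat_lit 5) (nat_lit 11) (nat_lit 4) (nat_lit 364) (nat_lit 231) (nat_lit 185)) (XT.lf (nat_lit 0) (nat_lit 8636367849) (nat_lit 152) (nat_lit 2296802623) (nat_lit 76) (nat_lit 17703334054) (nat_lit 10) (nat_lit 5) (nat_lit 12) (nat_lit 5) (nat_lit 11) (nat_lit 4) (nat_lit 365) (nat_lit 231) (nat_lit 184))))))) (XT.nd (nat_lit 1092) (nat_lit 2432) (nat_lit 0) (XT.nd (nat_lit 546) (nat_lit 1900) (nat_lit 0) (XT.nd (nat_lit 234) (nat_lit 1368) (nat_lit 0) (XT.nd (nat_lit 78) (nat_lit 684) (nat_lit 0) (XT.lf (nat_lit 0) (nat_lit 2476784975) (nat_lit 380) (nat_lit 1352431338) (nat_lit 380) (nat_lit 1352431338) (nat_lit 118) (nat_lit 4) (nat_lit 123) (nat_lit 5) (nat_lit 123) (nat_lit 4) (nat_lit 316) (nat_lit 232) (nat_lit 232)) (XT.nd (nat_lit 78) (nat_lit 304) (nat_lit 0) (XT.lf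 (nat_lit 0) (nat_lit 3417260085) (nat_lit 380) (nat_lit 4795631759) (nat_lit 0) (nat_lit 2312594316) (nat_lit 113) (nat_lit 5) (nat_lit 118) (nat_lit 4) (nat_lit 113) (nat_lit 4) (nat_lit 317) (nat_lit 232) (nat_lit 231)) (XT.lf (nat_lit 0) (nat_lit 6411536908) (nat_lit 304) (nat_lit 3229385072) (nat_lit 304) (nat_lit 1052228266) (nat_lit 109) (nat_lit 4) (nat_lit 113) (nat_lit 5) (nat_lit 113) (nat_lit 4) (nat_lit 318) (nat_lit 232) (nat_lit 230)))) (XT.nd (nat_lit 156) (nat_lit 608) (nat_lit 0) (XT.nd (nat_lit 78) (nat_lit 380) (nat_lit 0) (XT.lf (nat_lit 0) (nat_lit 5067679330) (nat_lit 380) (nat_lit 3886166437) (nat_lit 0) (nat_lit 1912375172) (nat_lit 104) (nat_lit 5) (nat_lit 109) (nat_lit 4) (nat_lit 104) (nat_lit 4) (nat_lit 319) (nat_lit 232) (nat_lit 229)) (XT.lf (nat_lit 0) (nat_lit 269062007) (nat_lit 380) (nat_lit 3602902494) (nat_lit 76) (nat_lit 7173179367) (nat_lit 99) (nat_lit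 5) (nat_lit 104) (nat_lit 5) (nat_lit 100) (nat_lit 4) (nat_lit 320) (nat_lit 232) (nat_lit 228))) (XT.nd (nat_lit 78) (nat_lit 380) (nat_lit 0) (XT.lf (nat_lit 0) (nat_lit 6389868755) (nat_lit 304) (nat_lit 3458456705) (nat_lit 0) (nat_lit 1381394002) (nat_lit 96) (nat_lit 5) (nat_lit 100) (nat_lit 4) (nat_lit 96) (nat_lit 4) (nat_lit 321) (nat_lit 232) (nat_lit 227)) (XT.lf (nat_lit 0) (nat_lit 1225231245) (nat_lit 380) (nat_lit 3449399982) (nat_lit 76) (nat_lit 6745734222) (nat_lit 91) (nat_lit 5) (nat_lit 96) (nat_lit 5) (nat_lit 92) (nat_lit 4) (nat_lit 322) (nat_lit 232) (nat_lit 226))))) (XT.nd (nat_lit 234) (nat_lit 1064) (nat_lit 0) (XT.nd (nat_lit 78) (nat_lit 608) (nat_lit 0) (XT.lf (nat_lit 0) (nat_lit 7354148945) (nat_lit 304) (nat_lit 3588870429) (nat_lit 0) (nat_lit 674165644) (nat_lit 88) (nat_lit 5) (nat_lit 92) (nat_lit 4) (nat_lit 88) (nat_lit 4) (nat_lit 323) (nat_lit 232) (nat_lit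 225)) (XT.nd (nat_lit 78) (nat_lit 228) (nat_lit 0) (XT.lf (nat_lit 0) (nat_lit 1797983594) (nat_lit 380) (nat_lit 3894445044) (nat_lit 76) (nat_lit 6127781578) (nat_lit 83) (nat_lit 5) (nat_lit 88) (nat_lit 5) (nat_lit 84) (nat_lit 4) (nat_lit 324) (nat_lit 232) (nat_lit 224)) (XT.lf (nat_lit 0) (nat_lit 7666704188) (nat_lit 228) (nat_lit 261420863) (nat_lit 304) (nat_lit 4101776603) (nat_lit 80) (nat_lit 5) (nat_lit 83) (nat_lit 5) (nat_lit 84) (nat_lit 4) (nat_lit 325) (nat_lit 232) (nat_lit 223)))) (XT.nd (nat_lit 156) (nat_lit 532) (nat_lit 0) (XT.nd (nat_lit 78) (nat_lit 228) (nat_lit 0) (XT.lf (nat_lit 0) (nat_lit 1950597325) (nat_lit 304) (nat_lit 5026372671) (nat_lit 76) (nat_lit 5269085929) (nat_lit 76) (nat_lit 5) (nat_lit 80) (nat_lit 5) (nat_lit 77) (nat_lit 4) (nat_lit 326) (nat_lit 232) (nat_lit 222)) (XT.lf (nat_lit 0) (nat_lit 6590494817) (nat_lit 228) (nat_lit 1486956667) (nat_lit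 304) (nat_lit 4391768321) (nat_lit 73) (nat_lit 5) (nat_lit 76) (nat_lit 5) (nat_lit 77) (nat_lit 4) (nat_lit 327) (nat_lit 232) (nat_lit 221))) (XT.nd (nat_lit 78) (nat_lit 228) (nat_lit 0) (XT.lf (nat_lit 0) (nat_lit 1641298468) (nat_lit 304) (nat_lit 6942633263) (nat_lit 76) (nat_lit 4115477223) (nat_lit 69) (nat_lit 5) (nat_lit 73) (nat_lit 5) (nat_lit 70) (nat_lit 4) (nat_lit 328) (nat_lit 232) (nat_lit 220)) (XT.lf (nat_lit 0) (nat_lit 4703051924) (nat_lit 228) (nat_lit 3050838957) (nat_lit 304) (nat_lit 5182905220) (nat_lit 66) (nat_lit 5) (nat_lit 69) (nat_lit 5) (nat_lit 70) (nat_lit 4) (nat_lit 329) (nat_lit 232) (nat_lit 219)))))) (XT.nd (nat_lit 546) (nat_lit 1064) (nat_lit 0) (XT.nd (nat_lit 234) (nat_lit 684) (nat_lit 0) (XT.nd (nat_lit 78) (nat_lit 380) (nat_lit 0) (XT.lf (nat_lit 0) (nat_lit 822784330) (nat_lit 304) (nat_lit 9750838181) (nat_lit 76) (nat_lit 2608292325) (nat_lit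 62) (nat_lit 5) (nat_lit 66) (nat_lit 5) (nat_lit 63) (nat_lit 4) (nat_lit 330) (nat_lit 232) (nat_lit 218)) (XT.nd (nat_lit 78) (nat_lit 228) (nat_lit 0) (XT.lf (nat_lit 0) (nat_lit 1892604030) (nat_lit 152) (nat_lit 5015299274) (nat_lit 228) (nat_lit 6526439290) (nat_lit 60) (nat_lit 5) (nat_lit 62) (nat_lit 5) (nat_lit 63) (nat_lit 4) (nat_lit 331) (nat_lit 232) (nat_lit 217)) (XT.lf (nat_lit 0) (nat_lit 121713700) (nat_lit 228) (nat_lit 13007855332) (nat_lit 228) (nat_lit 565727421) (nat_lit 57) (nat_lit 4) (nat_lit 60) (nat_lit 5) (nat_lit 60) (nat_lit 4) (nat_lit 332) (nat_lit 232) (nat_lit 216)))) (XT.nd (nat_lit 156) (nat_lit 456) (nat_lit 0) (XT.nd (nat_lit 78) (nat_lit 152) (nat_lit 0) (XT.lf (nat_lit 0) (nat_lit 5496409133) (nat_lit 304) (nat_lit 1938667414) (nat_lit 76) (nat_lit 6528396040) (nat_lit 56) (nat_lit 5) (nat_lit 60) (nat_lit 5) (nat_lit 57) (nat_lit 4) (nat_lit 333) (nat_lit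 232) (nat_lit 215)) (XT.lf (nat_lit 0) (nat_lit 9979225386) (nat_lit 152) (nat_lit 1705165838) (nat_lit 228) (nat_lit 2556225259) (nat_lit 54) (nat_lit 5) (nat_lit 56) (nat_lit 5) (nat_lit 57) (nat_lit 4) (nat_lit 334) (nat_lit 232) (nat_lit 214))) (XT.nd (nat_lit 78) (nat_lit 152) (nat_lit 0) (XT.lf (nat_lit 0) (nat_lit 3463877874) (nat_lit 304) (nat_lit 6912897455) (nat_lit 76) (nat_lit 4149304638) (nat_lit 50) (nat_lit 5) (nat_lit 54) (nat_lit 5) (nat_lit 51) (nat_lit 4) (nat_lit 335) (nat_lit 232) (nat_lit 213)) (XT.lf (nat_lit 0) (nat_lit 4928589346) (nat_lit 152) (nat_lit 4663587925) (nat_lit 228) (nat_lit 5228373998) (nat_lit 48) (nat_lit 5) (nat_lit 50) (nat_lit 5) (nat_lit 51) (nat_lit 4) (nat_lit 336) (nat_lit 232) (nat_lit 212))))) (XT.nd (nat_lit 234) (nat_lit 608) (nat_lit 0) (XT.nd (nat_lit 78) (nat_lit 152) (nat_lit 0) (XT.lf (nat_lit 0) (nat_lit 728656343) (nat_lit 304) (nat_lit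 13204218306) (nat_lit 76) (nat_lit 1191739178) (nat_lit 44) (nat_lit 5) (nat_lit 48) (nat_lit 5) (nat_lit 45) (nat_lit 4) (nat_lit 337) (nat_lit 232) (nat_lit 211)) (XT.nd (nat_lit 78) (nat_lit 152) (nat_lit 0) (XT.lf (nat_lit 0) (nat_lit 6784804539) (nat_lit 304) (nat_lit 1467674506) (nat_lit 76) (nat_lit 7184825369) (nat_lit 44) (nat_lit 5) (nat_lit 48) (nat_lit 5) (nat_lit 45) (nat_lit 4) (nat_lit 338) (nat_lit 232) (nat_lit 210)) (XT.lf (nat_lit 0) (nat_lit 10578001449) (nat_lit 152) (nat_lit 2408822598) (nat_lit 228) (nat_lit 2773293318) (nat_lit 42) (nat_lit 5) (nat_lit 44) (nat_lit 5) (nat_lit 45) (nat_lit 4) (nat_lit 339) (nat_lit 232) (nat_lit 209)))) (XT.nd (nat_lit 156) (nat_lit 228) (nat_lit 0) (XT.nd (nat_lit 78) (nat_lit 152) (nat_lit 0) (XT.lf (nat_lit 0) (nat_lit 3213532493) (nat_lit 228) (nat_lit 9316248669) (nat_lit 76) (nat_lit 3562945670) (nat_lit 39) (nat_lit 5) (nat_lit 42)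 (nat_lit 5) (nat_lit 40) (nat_lit 4) (nat_lit 340) (nat_lit 232) (nat_lit 208)) (XT.lf (nat_lit 0) (nat_lit 2549922601) (nat_lit 152) (nat_lit 6758643000) (nat_lit 228) (nat_lit 7127080196) (nat_lit 37) (nat_lit 5) (nat_lit 39) (nat_lit 5) (nat_lit 40) (nat_lit 4) (nat_lit 341) (nat_lit 232) (nat_lit 207))) (XT.nd (nat_lit 78) (nat_lit 228) (nat_lit 0) (XT.lf (nat_lit 0) (nat_lit 14723718001) (nat_lit 152) (nat_lit 825741992) (nat_lit 228) (nat_lit 1240154908) (nat_lit 37) (nat_lit 5) (nat_lit 39) (nat_lit 5) (nat_lit 40) (nat_lit 4) (nat_lit 342) (nat_lit 232) (nat_lit 206)) (XT.lf (nat_lit 0) (nat_lit 4761886739) (nat_lit 228) (nat_lit 7151965552) (nat_lit 76) (nat_lit 5239710769) (nat_lit 34) (nat_lit 5) (nat_lit 37) (nat_lit 5) (nat_lit 35) (nat_lit 4) (nat_lit 343) (nat_lit 232) (nat_lit 205))))))))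
noncomputable def xc12 : XT := (XT.nd (nat_lit 38688) (nat_lit 0) (nat_lit 1672) (XT.nd (nat_lit 1014) (nat_lit 532) (nat_lit 0) (XT.nd (nat_lit 468) (nat_lit 608) (nat_lit 0) (XT.nd (nat_lit 234) (nat_lit 304) (nat_lit 0) (XT.nd (nat_lit 78) (nat_lit 228) (nat_lit 0) (XT.lf (nat_lit 0) (nat_lit 4809657382) (nat_lit 152) (nat_lit 6071828234) (nat_lit 228) (nat_lit 6647714251) (nat_lit 32) (nat_lit 5) (nat_lit 34) (nat_lit 5) (nat_lit 35) (nat_lit 4) (nat_lit 344) (nat_lit 232) (nat_lit 204)) (XT.nd (nat_lit 78) (nat_lit 228) (nat_lit 0) (XT.lf (nat_lit 0) (nat_lit 17060037352) (nat_lit 152) (nat_lit 78229080) (nat_lit 228) (nat_lit 778787899) (nat_lit 32) (nat_lit 5) (nat_lit 34) (nat_lit 5) (nat_lit 35) (nat_lit 4) (nat_lit 345) (nat_lit 232) (nat_lit 203)) (XT.lf (nat_lit 0) (nat_lit 5217664192) (nat_lit 228) (nat_lit 7044894711) (nat_lit 76) (nat_lit 6052910636) (nat_lit 29) (nat_lit 5) (nat_lit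 32) (nat_lit 5) (nat_lit 30) (nat_lit 4) (nat_lit 346) (nat_lit 232) (nat_lit 202)))) (XT.nd (nat_lit 78) (nat_lit 228) (nat_lit 0) (XT.lf (nat_lit 0) (nat_lit 4944012471) (nat_lit 76) (nat_lit 6386402451) (nat_lit 152) (nat_lit 7396398494) (nat_lit 28) (nat_lit 5) (nat_lit 29) (nat_lit 5) (nat_lit 30) (nat_lit 4) (nat_lit 347) (nat_lit 232) (nat_lit 201)) (XT.nd (nat_lit 78) (nat_lit 228) (nat_lit 0) (XT.lf (nat_lit 0) (nat_lit 17228600269) (nat_lit 76) (nat_lit 355767707) (nat_lit 152) (nat_lit 1566991569) (nat_lit 28) (nat_lit 5) (nat_lit 29) (nat_lit 5) (nat_lit 30) (nat_lit 4) (nat_lit 348) (nat_lit 232) (nat_lit 200)) (XT.lf (nat_lit 0) (nat_lit 4395904513) (nat_lit 228) (nat_lit 9385050254) (nat_lit 76) (nat_lit 5806792486) (nat_lit 25) (nat_lit 5) (nat_lit 28) (nat_lit 5) (nat_lit 26) (nat_lit 4) (nat_lit 349) (nat_lit 232) (nat_lit 199))))) (XT.nd (nat_lit 234) (nat_lit 304) (nat_lit 0)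 (XT.nd (nat_lit 78) (nat_lit 228) (nat_lit 0) (XT.lf (nat_lit 0) (nat_lit 2546029751) (nat_lit 76) (nat_lit 7915735537) (nat_lit 152) (nat_lit 9576363746) (nat_lit 24) (nat_lit 5) (nat_lit 25) (nat_lit 5) (nat_lit 26) (nat_lit 4) (nat_lit 350) (nat_lit 232) (nat_lit 198)) (XT.nd (nat_lit 78) (nat_lit 228) (nat_lit 0) (XT.lf (nat_lit 0) (nat_lit 14810344800) (nat_lit 76) (nat_lit 1877606811) (nat_lit 152) (nat_lit 3814520112) (nat_lit 24) (nat_lit 5) (nat_lit 25) (nat_lit 5) (nat_lit 26) (nat_lit 4) (nat_lit 351) (nat_lit 232) (nat_lit 197)) (XT.lf (nat_lit 0) (nat_lit 2078603706) (nat_lit 228) (nat_lit 14627489598) (nat_lit 76) (nat_lit 4274667103) (nat_lit 21) (nat_lit 5) (nat_lit 24) (nat_lit 5) (nat_lit 22) (nat_lit 4) (nat_lit 352) (nat_lit 232) (nat_lit 196)))) (XT.nd (nat_lit 156) (nat_lit 228) (nat_lit 0) (XT.nd (nat_lit 78) (nat_lit 76) (nat_lit 0) (XT.lf (nat_lit 0) (nat_lit 8066092996)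 (nat_lit 228) (nat_lit 2821621893) (nat_lit 76) (nat_lit 10585805860) (nat_lit 21) (nat_lit 5) (nat_lit 24) (nat_lit 5) (nat_lit 22) (nat_lit 4) (nat_lit 353) (nat_lit 232) (nat_lit 195)) (XT.lf (nat_lit 0) (nat_lit 9316316164) (nat_lit 76) (nat_lit 4897492328) (nat_lit 152) (nat_lit 7767658137) (nat_lit 20) (nat_lit 5) (nat_lit 21) (nat_lit 5) (nat_lit 22) (nat_lit 4) (nat_lit 354) (nat_lit 232) (nat_lit 194))) (XT.nd (nat_lit 78) (nat_lit 228) (nat_lit 0) (XT.lf (nat_lit 0) (nat_lit 20494570674) (nat_lit 152) (nat_lit 798763197) (nat_lit 0) (nat_lit 1212359037) (nat_lit 20) (nat_lit 5) (nat_lit 22) (nat_lit 4) (nat_lit 20) (nat_lit 4) (nat_lit 355) (nat_lit 232) (nat_lit 193)) (XT.lf (nat_lit 0) (nat_lit 3897091365) (nat_lit 228) (nat_lit 11669252202) (nat_lit 76) (nat_lit 7478199898) (nat_lit 17) (nat_lit 5) (nat_lit 20) (nat_lit 5) (nat_lit 18) (nat_lit 4) (nat_lit 356) (nat_lit 232) (nat_lit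 192)))))) (XT.nd (nat_lit 546) (nat_lit 152) (nat_lit 0) (XT.nd (nat_lit 234) (nat_lit 152) (nat_lit 0) (XT.nd (nat_lit 78) (nat_lit 152) (nat_lit 0) (XT.lf (nat_lit 0) (nat_lit 177169253) (nat_lit 76) (nat_lit 9709049874) (nat_lit 152) (nat_lit 13714467961) (nat_lit 16) (nat_lit 5) (nat_lit 17) (nat_lit 5) (nat_lit 18) (nat_lit 4) (nat_lit 357) (nat_lit 232) (nat_lit 191)) (XT.nd (nat_lit 78) (nat_lit 152) (nat_lit 0) (XT.lf (nat_lit 0) (nat_lit 12403229335) (nat_lit 76) (nat_lit 3656429429) (nat_lit 152) (nat_lit 8113776350) (nat_lit 16) (nat_lit 5) (nat_lit 17) (nat_lit 5) (nat_lit 18) (nat_lit 4) (nat_lit 358) (nat_lit 232) (nat_lit 190)) (XT.lf (nat_lit 0) (nat_lit 84465365) (nat_lit 152) (nat_lit 22278467957) (nat_lit 152) (nat_lit 2401552103) (nat_lit 14) (nat_lit 4) (nat_lit 16) (nat_lit 5) (nat_lit 16) (nat_lit 4) (nat_lit 359) (nat_lit 232) (nat_lit 189)))) (XT.nd (nat_lit 156) (nat_lit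 76) (nat_lit 0) (XT.nd (nat_lit 78) (nat_lit 0) (nat_lit 0) (XT.lf (nat_lit 0) (nat_lit 3469241420) (nat_lit 228) (nat_lit 13094798042) (nat_lit 76) (nat_lit 8808130107) (nat_lit 13) (nat_lit 5) (nat_lit 16) (nat_lit 5) (nat_lit 14) (nat_lit 4) (nat_lit 360) (nat_lit 232) (nat_lit 188)) (XT.lf (nat_lit 0) (nat_lit 9413941445) (nat_lit 228) (nat_lit 1305678611) (nat_lit 76) (nat_lit 15279550021) (nat_lit 13) (nat_lit 5) (nat_lit 16) (nat_lit 5) (nat_lit 14) (nat_lit 4) (nat_lit 361) (nat_lit 232) (nat_lit 187))) (XT.nd (nat_lit 78) (nat_lit 0) (nat_lit 0) (XT.lf (nat_lit 0) (nat_lit 10855605086) (nat_lit 76) (nat_lit 4684115859) (nat_lit 152) (nat_lit 11105216083) (nat_lit 12) (nat_lit 5) (nat_lit 13) (nat_lit 5) (nat_lit 14) (nat_lit 4) (nat_lit 362) (nat_lit 232) (nat_lit 186)) (XT.lf (nat_lit 0) (nat_lit 21801209216) (nat_lit 152) (nat_lit 4043164367) (nat_lit 0) (nat_lit 1466675566) (nat_lit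 12) (nat_lit 5) (nat_lit 14) (nat_lit 4) (nat_lit 12) (nat_lit 4) (nat_lit 363) (nat_lit 232) (nat_lit 185))))) (XT.nd (nat_lit 36816) (nat_lit 0) (nat_lit 7524) (XT.nd (nat_lit 78) (nat_lit 0) (nat_lit 0) (XT.lf (nat_lit 0) (nat_lit 268543780) (nat_lit 152) (nat_lit 19988718179) (nat_lit 76) (nat_lit 7739490726) (nat_lit 10) (nat_lit 5) (nat_lit 12) (nat_lit 5) (nat_lit 11) (nat_lit 4) (nat_lit 364) (nat_lit 232) (nat_lit 184)) (XT.nd (nat_lit 36660) (nat_lit 0) (nat_lit 8968) (XT.lf (nat_lit 0) (nat_lit 6109153938) (nat_lit 152) (nat_lit 8381601160) (nat_lit 76) (nat_lit 14212279232) (nat_lit 10) (nat_lit 5) (nat_lit 12) (nat_lit 5) (nat_lit 11) (nat_lit 4) (nat_lit 365) (nat_lit 232) (nat_lit 183)) (XT.lf (nat_lit 0) (nat_lit 1621390421) (nat_lit 380) (nat_lit 1702587070) (nat_lit 380) (nat_lit 1702587070) (nat_lit 128) (nat_lit 4) (nat_lit 133) (nat_lit 5) (nat_lit 133) (nat_lit 4) (nat_lit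 314) (nat_lit 233) (nat_lit 233)))) (XT.nd (nat_lit 156) (nat_lit 684) (nat_lit 0) (XT.nd (nat_lit 78) (nat_lit 380) (nat_lit 0) (XT.lf (nat_lit 0) (nat_lit 2624798981) (nat_lit 380) (nat_lit 6117382367) (nat_lit 0) (nat_lit 1464237125) (nat_lit 123) (nat_lit 5) (nat_lit 128) (nat_lit 4) (nat_lit 123) (nat_lit 4) (nat_lit 315) (nat_lit 233) (nat_lit 232)) (XT.lf (nat_lit 0) (nat_lit 4844580144) (nat_lit 380) (nat_lit 3903739691) (nat_lit 380) (nat_lit 1616418750) (nat_lit 118) (nat_lit 4) (nat_lit 123) (nat_lit 5) (nat_lit 123) (nat_lit 4) (nat_lit 316) (nat_lit 233) (nat_lit 231))) (XT.nd (nat_lit 78) (nat_lit 304) (nat_lit 0) (XT.lf (nat_lit 0) (nat_lit 4412862940) (nat_lit 380) (nat_lit 5017624449) (nat_lit 0) (nat_lit 1097900392) (nat_lit 113) (nat_lit 5) (nat_lit 118) (nat_lit 4) (nat_lit 113) (nat_lit 4) (nat_lit 317) (nat_lit 233) (nat_lit 230)) (XT.lf (nat_lit 0) (nat_lit 6079012219) (nat_lit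 304) (nat_lit 4487343273) (nat_lit 304) (nat_lit 131127291) (nat_lit 109) (nat_lit 4) (nat_lit 113) (nat_lit 5) (nat_lit 113) (nat_lit 4) (nat_lit 318) (nat_lit 233) (nat_lit 229))))))) (XT.nd (nat_lit 1014) (nat_lit 2280) (nat_lit 0) (XT.nd (nat_lit 468) (nat_lit 1596) (nat_lit 0) (XT.nd (nat_lit 234) (nat_lit 988) (nat_lit 0) (XT.nd (nat_lit 78) (nat_lit 608) (nat_lit 0) (XT.lf (nat_lit 0) (nat_lit 5898180011) (nat_lit 380) (nat_lit 4337574022) (nat_lit 0) (nat_lit 636276436) (nat_lit 104) (nat_lit 5) (nat_lit 109) (nat_lit 4) (nat_lit 104) (nat_lit 4) (nat_lit 319) (nat_lit 233) (nat_lit 228)) (XT.nd (nat_lit 78) (nat_lit 228) (nat_lit 0) (XT.lf (nat_lit 0) (nat_lit 1012653455) (nat_lit 380) (nat_lit 4178580092) (nat_lit 76) (nat_lit 5861043380) (nat_lit 99) (nat_lit 5) (nat_lit 104) (nat_lit 5) (nat_lit 100) (nat_lit 4) (nat_lit 320) (nat_lit 233) (nat_lit 227)) (XT.lf (nat_lit 0) (nat_lit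 7054808836) (nat_lit 304) (nat_lit 4146822547) (nat_lit 0) (nat_lit 36818380) (nat_lit 96) (nat_lit 5) (nat_lit 100) (nat_lit 4) (nat_lit 96) (nat_lit 4) (nat_lit 321) (nat_lit 233) (nat_lit 226)))) (XT.nd (nat_lit 78) (nat_lit 608) (nat_lit 0) (XT.lf (nat_lit 0) (nat_lit 1802799376) (nat_lit 380) (nat_lit 4265551583) (nat_lit 76) (nat_lit 5362083336) (nat_lit 91) (nat_lit 5) (nat_lit 96) (nat_lit 5) (nat_lit 92) (nat_lit 4) (nat_lit 322) (nat_lit 233) (nat_lit 225)) (XT.nd (nat_lit 78) (nat_lit 380) (nat_lit 0) (XT.lf (nat_lit 0) (nat_lit 7101967477) (nat_lit 228) (nat_lit 755700928) (nat_lit 304) (nat_lit 3771088811) (nat_lit 88) (nat_lit 5) (nat_lit 91) (nat_lit 5) (nat_lit 92) (nat_lit 4) (nat_lit 323) (nat_lit 233) (nat_lit 224)) (XT.lf (nat_lit 0) (nat_lit 2208627629) (nat_lit 380) (nat_lit 4958860366) (nat_lit 76) (nat_lit 4665748863) (nat_lit 83) (nat_lit 5) (nat_lit 88) (nat_lit 5) (nat_lit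 84) (nat_lit 4) (nat_lit 324) (nat_lit 233) (nat_lit 223))))) (XT.nd (nat_lit 234) (nat_lit 836) (nat_lit 0) (XT.nd (nat_lit 78) (nat_lit 532) (nat_lit 0) (XT.lf (nat_lit 0) (nat_lit 6485742794) (nat_lit 228) (nat_lit 1783481666) (nat_lit 304) (nat_lit 3775115408) (nat_lit 80) (nat_lit 5) (nat_lit 83) (nat_lit 5) (nat_lit 84) (nat_lit 4) (nat_lit 325) (nat_lit 233) (nat_lit 222)) (XT.nd (nat_lit 78) (nat_lit 228) (nat_lit 0) (XT.lf (nat_lit 0) (nat_lit 2193115472) (nat_lit 304) (nat_lit 6347020558) (nat_lit 76) (nat_lit 3721932551) (nat_lit 76) (nat_lit 5) (nat_lit 80) (nat_lit 5) (nat_lit 77) (nat_lit 4) (nat_lit 326) (nat_lit 233) (nat_lit 221)) (XT.lf (nat_lit 0) (nat_lit 5151380500) (nat_lit 228) (nat_lit 3098992977) (nat_lit 304) (nat_lit 4236270019) (nat_lit 73) (nat_lit 5) (nat_lit 76) (nat_lit 5) (nat_lit 77) (nat_lit 4) (nat_lit 327) (nat_lit 233) (nat_lit 220)))) (XT.nd (nat_lit 156)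 (nat_lit 304) (nat_lit 0) (XT.nd (nat_lit 78) (nat_lit 228) (nat_lit 0) (XT.lf (nat_lit 0) (nat_lit 1714192432) (nat_lit 304) (nat_lit 8527684659) (nat_lit 76) (nat_lit 2476564850) (nat_lit 69) (nat_lit 5) (nat_lit 73) (nat_lit 5) (nat_lit 70) (nat_lit 4) (nat_lit 328) (nat_lit 233) (nat_lit 219)) (XT.lf (nat_lit 0) (nat_lit 2997513938) (nat_lit 228) (nat_lit 4759505582) (nat_lit 304) (nat_lit 5200222533) (nat_lit 66) (nat_lit 5) (nat_lit 69) (nat_lit 5) (nat_lit 70) (nat_lit 4) (nat_lit 329) (nat_lit 233) (nat_lit 218))) (XT.nd (nat_lit 78) (nat_lit 0) (nat_lit 0) (XT.lf (nat_lit 0) (nat_lit 724262795) (nat_lit 304) (nat_lit 11608688736) (nat_lit 76) (nat_lit 871056943) (nat_lit 62) (nat_lit 5) (nat_lit 66) (nat_lit 5) (nat_lit 63) (nat_lit 4) (nat_lit 330) (nat_lit 233) (nat_lit 217)) (XT.lf (nat_lit 0) (nat_lit 6739902286) (nat_lit 304) (nat_lit 86706788) (nat_lit 76) (nat_lit 6631233069) (nat_lit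 62) (nat_lit 5) (nat_lit 66) (nat_lit 5) (nat_lit 63) (nat_lit 4) (nat_lit 331) (nat_lit 233) (nat_lit 216)))))) (XT.nd (nat_lit 546) (nat_lit 912) (nat_lit 0) (XT.nd (nat_lit 234) (nat_lit 760) (nat_lit 0) (XT.nd (nat_lit 78) (nat_lit 456) (nat_lit 0) (XT.lf (nat_lit 0) (nat_lit 11744503766) (nat_lit 152) (nat_lit 1155043186) (nat_lit 228) (nat_lit 820505314) (nat_lit 60) (nat_lit 5) (nat_lit 62) (nat_lit 5) (nat_lit 63) (nat_lit 4) (nat_lit 332) (nat_lit 233) (nat_lit 215)) (XT.nd (nat_lit 78) (nat_lit 152) (nat_lit 0) (XT.lf (nat_lit 0) (nat_lit 5168642454) (nat_lit 304) (nat_lit 4173115500) (nat_lit 76) (nat_lit 4648045218) (nat_lit 56) (nat_lit 5) (nat_lit 60) (nat_lit 5) (nat_lit 57) (nat_lit 4) (nat_lit 333) (nat_lit 233) (nat_lit 214)) (XT.lf (nat_lit 0) (nat_lit 7621470752) (nat_lit 152) (nat_lit 3665721573) (nat_lit 228) (nat_lit 2981158029) (nat_lit 54) (nat_lit 5) (nat_lit 56) (nat_lit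 5) (nat_lit 57) (nat_lit 4) (nat_lit 334) (nat_lit 233) (nat_lit 213)))) (XT.nd (nat_lit 156) (nat_lit 304) (nat_lit 0) (XT.nd (nat_lit 78) (nat_lit 152) (nat_lit 0) (XT.lf (nat_lit 0) (nat_lit 2961633199) (nat_lit 304) (nat_lit 9436215925) (nat_lit 76) (nat_lit 2157691529) (nat_lit 50) (nat_lit 5) (nat_lit 54) (nat_lit 5) (nat_lit 51) (nat_lit 4) (nat_lit 335) (nat_lit 233) (nat_lit 212)) (XT.lf (nat_lit 0) (nat_lit 2279584591) (nat_lit 152) (nat_lit 6740374338) (nat_lit 228) (nat_lit 5831466031) (nat_lit 48) (nat_lit 5) (nat_lit 50) (nat_lit 5) (nat_lit 51) (nat_lit 4) (nat_lit 336) (nat_lit 233) (nat_lit 211))) (XT.nd (nat_lit 78) (nat_lit 228) (nat_lit 0) (XT.lf (nat_lit 0) (nat_lit 60938706) (nat_lit 228) (nat_lit 863036172) (nat_lit 76) (nat_lit 14233054538) (nat_lit 47) (nat_lit 5) (nat_lit 50) (nat_lit 5) (nat_lit 48) (nat_lit 5) (nat_lit 337) (nat_lit 233) (nat_lit 210)) (XT.lf (nat_lit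 0) (nat_lit 6053898217) (nat_lit 304) (nat_lit 4378573673) (nat_lit 76) (nat_lit 5038524391) (nat_lit 44) (nat_lit 5) (nat_lit 48) (nat_lit 5) (nat_lit 45) (nat_lit 4) (nat_lit 338) (nat_lit 233) (nat_lit 209))))) (XT.nd (nat_lit 234) (nat_lit 532) (nat_lit 0) (XT.nd (nat_lit 78) (nat_lit 228) (nat_lit 0) (XT.lf (nat_lit 0) (nat_lit 7540364398) (nat_lit 152) (nat_lit 4645856065) (nat_lit 228) (nat_lit 3608994854) (nat_lit 42) (nat_lit 5) (nat_lit 44) (nat_lit 5) (nat_lit 45) (nat_lit 4) (nat_lit 339) (nat_lit 233) (nat_lit 208)) (XT.nd (nat_lit 78) (nat_lit 0) (nat_lit 0) (XT.lf (nat_lit 0) (nat_lit 2303697627) (nat_lit 228) (nat_lit 12533307714) (nat_lit 76) (nat_lit 1292641392) (nat_lit 39) (nat_lit 5) (nat_lit 42) (nat_lit 5) (nat_lit 40) (nat_lit 4) (nat_lit 340) (nat_lit 233) (nat_lit 207)) (XT.lf (nat_lit 0) (nat_lit 8333417507) (nat_lit 228) (nat_lit 786084826) (nat_lit 76) (nat_lit 7354380848)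 (nat_lit 39) (nat_lit 5) (nat_lit 42) (nat_lit 5) (nat_lit 40) (nat_lit 4) (nat_lit 341) (nat_lit 233) (nat_lit 206)))) (XT.nd (nat_lit 156) (nat_lit 152) (nat_lit 0) (XT.nd (nat_lit 78) (nat_lit 228) (nat_lit 0) (XT.lf (nat_lit 0) (nat_lit 11293145456) (nat_lit 152) (nat_lit 3228111357) (nat_lit 228) (nat_lit 2307667465) (nat_lit 37) (nat_lit 5) (nat_lit 39) (nat_lit 5) (nat_lit 40) (nat_lit 4) (nat_lit 342) (nat_lit 233) (nat_lit 205)) (XT.lf (nat_lit 0) (nat_lit 3622215071) (nat_lit 228) (nat_lit 10769164223) (nat_lit 76) (nat_lit 2803365326) (nat_lit 34) (nat_lit 5) (nat_lit 37) (nat_lit 5) (nat_lit 35) (nat_lit 4) (nat_lit 343) (nat_lit 233) (nat_lit 204))) (XT.nd (nat_lit 78) (nat_lit 0) (nat_lit 0) (XT.lf (nat_lit 0) (nat_lit 1061634898) (nat_lit 152) (nat_lit 8609647697) (nat_lit 228) (nat_lit 7900519524) (nat_lit 32) (nat_lit 5) (nat_lit 34) (nat_lit 5) (nat_lit 35) (nat_lit 4) (nat_lit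 344) (nat_lit 233) (nat_lit 203)) (XT.lf (nat_lit 0) (nat_lit 13231672008) (nat_lit 152) (nat_lit 2651018595) (nat_lit 228) (nat_lit 2077883208) (nat_lit 32) (nat_lit 5) (nat_lit 34) (nat_lit 5) (nat_lit 35) (nat_lit 4) (nat_lit 345) (nat_lit 233) (nat_lit 202))))))))
noncomputable def xc13 : XT := (XT.nd (nat_lit 38532) (nat_lit 0) (nat_lit 1444) (XT.nd (nat_lit 1014) (nat_lit 456) (nat_lit 0) (XT.nd (nat_lit 468) (nat_lit 608) (nat_lit 0) (XT.nd (nat_lit 234) (nat_lit 304) (nat_lit 0) (XT.nd (nat_lit 78) (nat_lit 76) (nat_lit 0) (XT.lf (nat_lit 0) (nat_lit 3848165603) (nat_lit 228) (nat_lit 11067283217) (nat_lit 76) (nat_lit 3445467017) (nat_lit 29) (nat_lit 5) (nat_lit 32) (nat_lit 5) (nat_lit 30) (nat_lit 4) (nat_lit 346) (nat_lit 233) (nat_lit 201)) (XT.nd (nat_lit 78) (nat_lit 0) (nat_lit 0) (XT.lf (nat_lit 0) (nat_lit 789144780) (nat_lit 76) (nat_lit 9101013579) (nat_lit 152) (nat_lit 8883525544)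 (nat_lit 28) (nat_lit 5) (nat_lit 29) (nat_lit 5) (nat_lit 30) (nat_lit 4) (nat_lit 347) (nat_lit 233) (nat_lit 200)) (XT.lf (nat_lit 0) (nat_lit 12997010481) (nat_lit 76) (nat_lit 3104096183) (nat_lit 152) (nat_lit 3097992232) (nat_lit 28) (nat_lit 5) (nat_lit 29) (nat_lit 5) (nat_lit 30) (nat_lit 4) (nat_lit 348) (nat_lit 233) (nat_lit 199)))) (XT.nd (nat_lit 78) (nat_lit 76) (nat_lit 0) (XT.lf (nat_lit 0) (nat_lit 2796050792) (nat_lit 228) (nat_lit 13818274378) (nat_lit 76) (nat_lit 3023147232) (nat_lit 25) (nat_lit 5) (nat_lit 28) (nat_lit 5) (nat_lit 26) (nat_lit 4) (nat_lit 349) (nat_lit 233) (nat_lit 198)) (XT.nd (nat_lit 78) (nat_lit 76) (nat_lit 0) (XT.lf (nat_lit 0) (nat_lit 8803877647) (nat_lit 228) (nat_lit 1995045452) (nat_lit 76) (nat_lit 9290099865) (nat_lit 25) (nat_lit 5) (nat_lit 28) (nat_lit 5) (nat_lit 26) (nat_lit 4) (nat_lit 350) (nat_lit 233) (nat_lit 197)) (XT.lf (nat_lit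 0) (nat_lit 10169505066) (nat_lit 76) (nat_lit 4806663437) (nat_lit 152) (nat_lit 5578282925) (nat_lit 24) (nat_lit 5) (nat_lit 25) (nat_lit 5) (nat_lit 26) (nat_lit 4) (nat_lit 351) (nat_lit 233) (nat_lit 196))))) (XT.nd (nat_lit 234) (nat_lit 304) (nat_lit 0) (XT.nd (nat_lit 78) (nat_lit 76) (nat_lit 0) (XT.lf (nat_lit 0) (nat_lit 247343926) (nat_lit 228) (nat_lit 19477809569) (nat_lit 76) (nat_lit 1309635716) (nat_lit 21) (nat_lit 5) (nat_lit 24) (nat_lit 5) (nat_lit 22) (nat_lit 4) (nat_lit 352) (nat_lit 233) (nat_lit 195)) (XT.nd (nat_lit 78) (nat_lit 76) (nat_lit 0) (XT.lf (nat_lit 0) (nat_lit 6195480420) (nat_lit 228) (nat_lit 7743021096) (nat_lit 76) (nat_lit 7589842363) (nat_lit 21) (nat_lit 5) (nat_lit 24) (nat_lit 5) (nat_lit 22) (nat_lit 4) (nat_lit 353) (nat_lit 233) (nat_lit 194)) (XT.lf (nat_lit 0) (nat_lit 4259588101) (nat_lit 76) (nat_lit 8012569584) (nat_lit 152) (nat_lit 9765559895)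 (nat_lit 20) (nat_lit 5) (nat_lit 21) (nat_lit 5) (nat_lit 22) (nat_lit 4) (nat_lit 354) (nat_lit 233) (nat_lit 193)))) (XT.nd (nat_lit 156) (nat_lit 76) (nat_lit 0) (XT.nd (nat_lit 78) (nat_lit 228) (nat_lit 0) (XT.lf (nat_lit 0) (nat_lit 16590447841) (nat_lit 76) (nat_lit 1916961411) (nat_lit 152) (nat_lit 4055451670) (nat_lit 20) (nat_lit 5) (nat_lit 21) (nat_lit 5) (nat_lit 22) (nat_lit 4) (nat_lit 355) (nat_lit 233) (nat_lit 192)) (XT.lf (nat_lit 0) (nat_lit 1795542966) (nat_lit 228) (nat_lit 17011403019) (nat_lit 76) (nat_lit 4296718095) (nat_lit 17) (nat_lit 5) (nat_lit 20) (nat_lit 5) (nat_lit 18) (nat_lit 4) (nat_lit 356) (nat_lit 233) (nat_lit 191))) (XT.nd (nat_lit 78) (nat_lit 76) (nat_lit 0) (XT.lf (nat_lit 0) (nat_lit 7747285531) (nat_lit 228) (nat_lit 5233171022) (nat_lit 76) (nat_lit 10680105187) (nat_lit 17) (nat_lit 5) (nat_lit 20) (nat_lit 5) (nat_lit 18) (nat_lit 4) (nat_lit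 357) (nat_lit 233) (nat_lit 190)) (XT.lf (nat_lit 0) (nat_lit 6858545713) (nat_lit 76) (nat_lit 6992150479) (nat_lit 152) (nat_lit 10384020300) (nat_lit 16) (nat_lit 5) (nat_lit 17) (nat_lit 5) (nat_lit 18) (nat_lit 4) (nat_lit 358) (nat_lit 233) (nat_lit 189)))))) (XT.nd (nat_lit 36972) (nat_lit 0) (nat_lit 7448) (XT.nd (nat_lit 234) (nat_lit 228) (nat_lit 0) (XT.nd (nat_lit 78) (nat_lit 228) (nat_lit 0) (XT.lf (nat_lit 0) (nat_lit 19256939208) (nat_lit 76) (nat_lit 845568048) (nat_lit 152) (nat_lit 4724294786) (nat_lit 16) (nat_lit 5) (nat_lit 17) (nat_lit 5) (nat_lit 18) (nat_lit 4) (nat_lit 359) (nat_lit 233) (nat_lit 188)) (XT.nd (nat_lit 78) (nat_lit 0) (nat_lit 0) (XT.lf (nat_lit 0) (nat_lit 1100213204) (nat_lit 228) (nat_lit 18928239486) (nat_lit 76) (nat_lit 5407875767) (nat_lit 13) (nat_lit 5) (nat_lit 16) (nat_lit 5) (nat_lit 14) (nat_lit 4) (nat_lit 360) (nat_lit 233) (nat_lit 187))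 (XT.lf (nat_lit 0) (nat_lit 7011542138) (nat_lit 228) (nat_lit 7200145931) (nat_lit 76) (nat_lit 11852313832) (nat_lit 13) (nat_lit 5) (nat_lit 16) (nat_lit 5) (nat_lit 14) (nat_lit 4) (nat_lit 361) (nat_lit 233) (nat_lit 186)))) (XT.nd (nat_lit 156) (nat_lit 152) (nat_lit 0) (XT.nd (nat_lit 78) (nat_lit 0) (nat_lit 0) (XT.lf (nat_lit 0) (nat_lit 4822767593) (nat_lit 76) (nat_lit 8242985745) (nat_lit 152) (nat_lit 13645452235) (nat_lit 12) (nat_lit 5) (nat_lit 13) (nat_lit 5) (nat_lit 14) (nat_lit 4) (nat_lit 362) (nat_lit 233) (nat_lit 185)) (XT.lf (nat_lit 0) (nat_lit 17186602266) (nat_lit 76) (nat_lit 2099156270) (nat_lit 152) (nat_lit 8092394021) (nat_lit 12) (nat_lit 5) (nat_lit 13) (nat_lit 5) (nat_lit 14) (nat_lit 4) (nat_lit 363) (nat_lit 233) (nat_lit 184))) (XT.nd (nat_lit 78) (nat_lit 76) (nat_lit 0) (XT.lf (nat_lit 0) (nat_lit 1735748033) (nat_lit 76) (nat_lit 23932263792) (nat_lit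 76) (nat_lit 2397593412) (nat_lit 11) (nat_lit 4) (nat_lit 12) (nat_lit 5) (nat_lit 12) (nat_lit 4) (nat_lit 364) (nat_lit 233) (nat_lit 183)) (XT.lf (nat_lit 0) (nat_lit 3443721813) (nat_lit 152) (nat_lit 14763707171) (nat_lit 76) (nat_lit 10565388834) (nat_lit 10) (nat_lit 5) (nat_lit 12) (nat_lit 5) (nat_lit 11) (nat_lit 4) (nat_lit 365) (nat_lit 233) (nat_lit 182))))) (XT.nd (nat_lit 234) (nat_lit 1520) (nat_lit 0) (XT.nd (nat_lit 78) (nat_lit 836) (nat_lit 0) (XT.lf (nat_lit 0) (nat_lit 719377918) (nat_lit 380) (nat_lit 2080375276) (nat_lit 380) (nat_lit 2080375276) (nat_lit 139) (nat_lit 4) (nat_lit 144) (nat_lit 5) (nat_lit 144) (nat_lit 4) (nat_lit 312) (nat_lit 234) (nat_lit 234)) (XT.nd (nat_lit 78) (nat_lit 380) (nat_lit 0) (XT.lf (nat_lit 0) (nat_lit 1775490382) (nat_lit 456) (nat_lit 7573424046) (nat_lit 0) (nat_lit 556204096) (nat_lit 133) (nat_lit 5) (nat_lit 139) (nat_lit 4) (nat_lit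 133) (nat_lit 4) (nat_lit 313) (nat_lit 234) (nat_lit 233)) (XT.lf (nat_lit 0) (nat_lit 3135628349) (nat_lit 380) (nat_lit 4661001837) (nat_lit 380) (nat_lit 2257942457) (nat_lit 128) (nat_lit 4) (nat_lit 133) (nat_lit 5) (nat_lit 133) (nat_lit 4) (nat_lit 314) (nat_lit 234) (nat_lit 232)))) (XT.nd (nat_lit 156) (nat_lit 760) (nat_lit 0) (XT.nd (nat_lit 78) (nat_lit 380) (nat_lit 0) (XT.lf (nat_lit 0) (nat_lit 3678144657) (nat_lit 380) (nat_lit 6335729948) (nat_lit 0) (nat_lit 195445004) (nat_lit 123) (nat_lit 5) (nat_lit 128) (nat_lit 4) (nat_lit 123) (nat_lit 4) (nat_lit 315) (nat_lit 234) (nat_lit 231)) (XT.lf (nat_lit 0) (nat_lit 4517515493) (nat_lit 380) (nat_lit 5214097357) (nat_lit 380) (nat_lit 637456846) (nat_lit 118) (nat_lit 4) (nat_lit 123) (nat_lit 5) (nat_lit 123) (nat_lit 4) (nat_lit 316) (nat_lit 234) (nat_lit 230))) (XT.nd (nat_lit 78) (nat_lit 380) (nat_lit 0) (XT.lf (nat_lit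 0) (nat_lit 5070860540) (nat_lit 304) (nat_lit 230911516) (nat_lit 380) (nat_lit 5232391517) (nat_lit 113) (nat_lit 5) (nat_lit 117) (nat_lit 5) (nat_lit 118) (nat_lit 4) (nat_lit 317) (nat_lit 234) (nat_lit 229)) (XT.lf (nat_lit 0) (nat_lit 670516809) (nat_lit 380) (nat_lit 5184637606) (nat_lit 76) (nat_lit 4849465245) (nat_lit 108) (nat_lit 5) (nat_lit 113) (nat_lit 5) (nat_lit 109) (nat_lit 4) (nat_lit 318) (nat_lit 234) (nat_lit 228))))))) (XT.nd (nat_lit 1092) (nat_lit 2356) (nat_lit 0) (XT.nd (nat_lit 546) (nat_lit 1520) (nat_lit 0) (XT.nd (nat_lit 234) (nat_lit 1216) (nat_lit 0) (XT.nd (nat_lit 78) (nat_lit 608) (nat_lit 0) (XT.lf (nat_lit 0) (nat_lit 5860514558) (nat_lit 304) (nat_lit 763781157) (nat_lit 380) (nat_lit 4256356216) (nat_lit 104) (nat_lit 5) (nat_lit 108) (nat_lit 5) (nat_lit 109) (nat_lit 4) (nat_lit 319) (nat_lit 234) (nat_lit 227)) (XT.nd (nat_lit 78) (nat_lit 228) (nat_lit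 0) (XT.lf (nat_lit 0) (nat_lit 1645924123) (nat_lit 380) (nat_lit 4982544234) (nat_lit 76) (nat_lit 4433857348) (nat_lit 99) (nat_lit 5) (nat_lit 104) (nat_lit 5) (nat_lit 100) (nat_lit 4) (nat_lit 320) (nat_lit 234) (nat_lit 226)) (XT.lf (nat_lit 0) (nat_lit 6174963456) (nat_lit 228) (nat_lit 1443489319) (nat_lit 304) (nat_lit 3631461811) (nat_lit 96) (nat_lit 5) (nat_lit 99) (nat_lit 5) (nat_lit 100) (nat_lit 4) (nat_lit 321) (nat_lit 234) (nat_lit 225)))) (XT.nd (nat_lit 156) (nat_lit 608) (nat_lit 0) (XT.nd (nat_lit 78) (nat_lit 228) (nat_lit 0) (XT.lf (nat_lit 0) (nat_lit 2268648389) (nat_lit 380) (nat_lit 5314285013) (nat_lit 76) (nat_lit 3860498154) (nat_lit 91) (nat_lit 5) (nat_lit 96) (nat_lit 5) (nat_lit 92) (nat_lit 4) (nat_lit 322) (nat_lit 234) (nat_lit 224)) (XT.lf (nat_lit 0) (nat_lit 5938449073) (nat_lit 228) (nat_lit 2315796012) (nat_lit 304) (nat_lit 3388916565) (nat_lit 88) (nat_lit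 5) (nat_lit 91) (nat_lit 5) (nat_lit 92) (nat_lit 4) (nat_lit 323) (nat_lit 234) (nat_lit 223))) (XT.nd (nat_lit 78) (nat_lit 228) (nat_lit 0) (XT.lf (nat_lit 0) (nat_lit 2505980591) (nat_lit 380) (nat_lit 6260354977) (nat_lit 76) (nat_lit 3082872919) (nat_lit 83) (nat_lit 5) (nat_lit 88) (nat_lit 5) (nat_lit 84) (nat_lit 4) (nat_lit 324) (nat_lit 234) (nat_lit 222)) (XT.lf (nat_lit 0) (nat_lit 5067533992) (nat_lit 228) (nat_lit 3429760679) (nat_lit 304) (nat_lit 3564422558) (nat_lit 80) (nat_lit 5) (nat_lit 83) (nat_lit 5) (nat_lit 84) (nat_lit 4) (nat_lit 325) (nat_lit 234) (nat_lit 221))))) (XT.nd (nat_lit 234) (nat_lit 684) (nat_lit 0) (XT.nd (nat_lit 78) (nat_lit 532) (nat_lit 0) (XT.lf (nat_lit 0) (nat_lit 2320596649) (nat_lit 304) (nat_lit 7909460021) (nat_lit 76) (nat_lit 2050989991) (nat_lit 76) (nat_lit 5) (nat_lit 80) (nat_lit 5) (nat_lit 77) (nat_lit 4) (nat_lit 326) (nat_lit 234) (nat_lit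 220)) (XT.nd (nat_lit 78) (nat_lit 304) (nat_lit 0) (XT.lf (nat_lit 0) (nat_lit 3470200615) (nat_lit 228) (nat_lit 4838241158) (nat_lit 304) (nat_lit 4198586613) (nat_lit 73) (nat_lit 5) (nat_lit 76) (nat_lit 5) (nat_lit 77) (nat_lit 4) (nat_lit 327) (nat_lit 234) (nat_lit 219)) (XT.lf (nat_lit 0) (nat_lit 1670128779) (nat_lit 304) (nat_lit 10359467447) (nat_lit 76) (nat_lit 710868430) (nat_lit 69) (nat_lit 5) (nat_lit 73) (nat_lit 5) (nat_lit 70) (nat_lit 4) (nat_lit 328) (nat_lit 234) (nat_lit 218)))) (XT.nd (nat_lit 156) (nat_lit 380) (nat_lit 0) (XT.nd (nat_lit 78) (nat_lit 76) (nat_lit 0) (XT.lf (nat_lit 0) (nat_lit 1044861419) (nat_lit 228) (nat_lit 6598434165) (nat_lit 304) (nat_lit 5337379536) (nat_lit 66) (nat_lit 5) (nat_lit 69) (nat_lit 5) (nat_lit 70) (nat_lit 4) (nat_lit 329) (nat_lit 234) (nat_lit 217)) (XT.lf (nat_lit 0) (nat_lit 516460188) (nat_lit 304) (nat_lit 489509260) (nat_lit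 76) (nat_lit 12222955112) (nat_lit 65) (nat_lit 5) (nat_lit 69) (nat_lit 5) (nat_lit 66) (nat_lit 5) (nat_lit 330) (nat_lit 234) (nat_lit 216))) (XT.nd (nat_lit 78) (nat_lit 152) (nat_lit 0) (XT.lf (nat_lit 0) (nat_lit 6466800801) (nat_lit 304) (nat_lit 2290292565) (nat_lit 76) (nat_lit 4726986685) (nat_lit 62) (nat_lit 5) (nat_lit 66) (nat_lit 5) (nat_lit 63) (nat_lit 4) (nat_lit 331) (nat_lit 234) (nat_lit 215)) (XT.lf (nat_lit 0) (nat_lit 9419331962) (nat_lit 152) (nat_lit 3138108527) (nat_lit 228) (nat_lit 1190245167) (nat_lit 60) (nat_lit 5) (nat_lit 62) (nat_lit 5) (nat_lit 63) (nat_lit 4) (nat_lit 332) (nat_lit 234) (nat_lit 214)))))) (XT.nd (nat_lit 546) (nat_lit 988) (nat_lit 0) (XT.nd (nat_lit 234) (nat_lit 608) (nat_lit 0) (XT.nd (nat_lit 78) (nat_lit 456) (nat_lit 0) (XT.lf (nat_lit 0) (nat_lit 4721170826) (nat_lit 304) (nat_lit 6662136897) (nat_lit 76) (nat_lit 2635843112) (nat_lit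 56) (nat_lit 5) (nat_lit 60) (nat_lit 5) (nat_lit 57) (nat_lit 4) (nat_lit 333) (nat_lit 234) (nat_lit 213)) (XT.nd (nat_lit 78) (nat_lit 304) (nat_lit 0) (XT.lf (nat_lit 0) (nat_lit 5008486221) (nat_lit 152) (nat_lit 5761721565) (nat_lit 228) (nat_lit 3528894705) (nat_lit 54) (nat_lit 5) (nat_lit 56) (nat_lit 5) (nat_lit 57) (nat_lit 4) (nat_lit 334) (nat_lit 234) (nat_lit 212)) (XT.lf (nat_lit 0) (nat_lit 2337188803) (nat_lit 304) (nat_lit 12219850495) (nat_lit 76) (nat_lit 31015977) (nat_lit 50) (nat_lit 5) (nat_lit 54) (nat_lit 5) (nat_lit 51) (nat_lit 4) (nat_lit 335) (nat_lit 234) (nat_lit 211)))) (XT.nd (nat_lit 156) (nat_lit 456) (nat_lit 0) (XT.nd (nat_lit 78) (nat_lit 152) (nat_lit 0) (XT.lf (nat_lit 0) (nat_lit 8329476510) (nat_lit 304) (nat_lit 622242394) (nat_lit 76) (nat_lit 5933554576) (nat_lit 50) (nat_lit 5) (nat_lit 54) (nat_lit 5) (nat_lit 51) (nat_lit 4) (nat_lit 336) (nat_lit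 234) (nat_lit 210)) (XT.lf (nat_lit 0) (nat_lit 11297443147) (nat_lit 152) (nat_lit 3176457651) (nat_lit 228) (nat_lit 718085965) (nat_lit 48) (nat_lit 5) (nat_lit 50) (nat_lit 5) (nat_lit 51) (nat_lit 4) (nat_lit 337) (nat_lit 234) (nat_lit 209))) (XT.nd (nat_lit 78) (nat_lit 152) (nat_lit 0) (XT.lf (nat_lit 0) (nat_lit 5199615644) (nat_lit 304) (nat_lit 7553204232) (nat_lit 76) (nat_lit 2754932654) (nat_lit 44) (nat_lit 5) (nat_lit 48) (nat_lit 5) (nat_lit 45) (nat_lit 4) (nat_lit 338) (nat_lit 234) (nat_lit 208)) (XT.lf (nat_lit 0) (nat_lit 4238055771) (nat_lit 152) (nat_lit 7023922013) (nat_lit 228) (nat_lit 4571404770) (nat_lit 42) (nat_lit 5) (nat_lit 44) (nat_lit 5) (nat_lit 45) (nat_lit 4) (nat_lit 339) (nat_lit 234) (nat_lit 207))))) (XT.nd (nat_lit 234) (nat_lit 608) (nat_lit 0) (XT.nd (nat_lit 78) (nat_lit 152) (nat_lit 0) (XT.lf (nat_lit 0) (nat_lit 141716633) (nat_lit 152) (nat_lit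 1133231166) (nat_lit 228) (nat_lit 14894581603) (nat_lit 39) (nat_lit 5) (nat_lit 41) (nat_lit 5) (nat_lit 42) (nat_lit 5) (nat_lit 340) (nat_lit 234) (nat_lit 206)) (XT.nd (nat_lit 78) (nat_lit 152) (nat_lit 0) (XT.lf (nat_lit 0) (nat_lit 7249972671) (nat_lit 228) (nat_lit 4356247428) (nat_lit 76) (nat_lit 4908650545) (nat_lit 39) (nat_lit 5) (nat_lit 42) (nat_lit 5) (nat_lit 40) (nat_lit 4) (nat_lit 341) (nat_lit 234) (nat_lit 205)) (XT.lf (nat_lit 0) (nat_lit 7593868863) (nat_lit 152) (nat_lit 5773966394) (nat_lit 228) (nat_lit 3503486593) (nat_lit 37) (nat_lit 5) (nat_lit 39) (nat_lit 5) (nat_lit 40) (nat_lit 4) (nat_lit 342) (nat_lit 234) (nat_lit 204)))) (XT.nd (nat_lit 156) (nat_lit 380) (nat_lit 0) (XT.nd (nat_lit 78) (nat_lit 0) (nat_lit 0) (XT.lf (nat_lit 0) (nat_lit 2354573943) (nat_lit 228) (nat_lit 14660664536) (nat_lit 76) (nat_lit 223819166) (nat_lit 34) (nat_lit 5) (nat_lit 37)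 (nat_lit 5) (nat_lit 35) (nat_lit 4) (nat_lit 343) (nat_lit 234) (nat_lit 203)) (XT.lf (nat_lit 0) (nat_lit 8351897461) (nat_lit 228) (nat_lit 2923078096) (nat_lit 76) (nat_lit 6342184240) (nat_lit 34) (nat_lit 5) (nat_lit 37) (nat_lit 5) (nat_lit 35) (nat_lit 4) (nat_lit 344) (nat_lit 234) (nat_lit 202))) (XT.nd (nat_lit 78) (nat_lit 228) (nat_lit 0) (XT.lf (nat_lit 0) (nat_lit 9130110066) (nat_lit 152) (nat_lit 5369913356) (nat_lit 228) (nat_lit 3507183196) (nat_lit 32) (nat_lit 5) (nat_lit 34) (nat_lit 5) (nat_lit 35) (nat_lit 4) (nat_lit 345) (nat_lit 234) (nat_lit 201)) (XT.lf (nat_lit 0) (nat_lit 2348704968) (nat_lit 228) (nat_lit 15368657695) (nat_lit 76) (nat_lit 692158734) (nat_lit 29) (nat_lit 5) (nat_lit 32) (nat_lit 5) (nat_lit 30) (nat_lit 4) (nat_lit 346) (nat_lit 234) (nat_lit 200))))))))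
noncomputable def xc14 : XT := (XT.nd (nat_lit 38376) (nat_lit 0) (nat_lit 1672) (XT.nd (nat_lit 1014) (nat_lit 456) (nat_lit 0) (XT.nd (nat_lit 468) (nat_lit 608) (nat_lit 0) (XT.nd (nat_lit 234) (nat_lit 76) (nat_lit 0) (XT.nd (nat_lit 78) (nat_lit 304) (nat_lit 0) (XT.lf (nat_lit 0) (nat_lit 8343067455) (nat_lit 228) (nat_lit 3598295346) (nat_lit 76) (nat_lit 6881888036) (nat_lit 29) (nat_lit 5) (nat_lit 32) (nat_lit 5) (nat_lit 30) (nat_lit 4) (nat_lit 347) (nat_lit 234) (nat_lit 199)) (XT.nd (nat_lit 78) (nat_lit 228) (nat_lit 0) (XT.lf (nat_lit 0) (nat_lit 8487263431) (nat_lit 76) (nat_lit 6001327149) (nat_lit 152) (nat_lit 4761392265) (nat_lit 28) (nat_lit 5) (nat_lit 29) (nat_lit 5) (nat_lit 30) (nat_lit 4) (nat_lit 348) (nat_lit 234) (nat_lit 198)) (XT.lf (nat_lit 0) (nat_lit 1063949543) (nat_lit 228) (nat_lit 18535647893) (nat_lit 76) (nat_lit 90793355) (nat_lit 25) (nat_lit 5) (nat_lit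 28) (nat_lit 5) (nat_lit 26) (nat_lit 4) (nat_lit 349) (nat_lit 234) (nat_lit 197)))) (XT.nd (nat_lit 78) (nat_lit 76) (nat_lit 0) (XT.lf (nat_lit 0) (nat_lit 7031481829) (nat_lit 228) (nat_lit 6784709688) (nat_lit 76) (nat_lit 6326563595) (nat_lit 25) (nat_lit 5) (nat_lit 28) (nat_lit 5) (nat_lit 26) (nat_lit 4) (nat_lit 350) (nat_lit 234) (nat_lit 196)) (XT.nd (nat_lit 78) (nat_lit 0) (nat_lit 0) (XT.lf (nat_lit 0) (nat_lit 5245070824) (nat_lit 76) (nat_lit 7887608226) (nat_lit 152) (nat_lit 7476934035) (nat_lit 24) (nat_lit 5) (nat_lit 25) (nat_lit 5) (nat_lit 26) (nat_lit 4) (nat_lit 351) (nat_lit 234) (nat_lit 195)) (XT.lf (nat_lit 0) (nat_lit 17588450546) (nat_lit 76) (nat_lit 1796424500) (nat_lit 152) (nat_lit 1706257548) (nat_lit 24) (nat_lit 5) (nat_lit 25) (nat_lit 5) (nat_lit 26) (nat_lit 4) (nat_lit 352) (nat_lit 234) (nat_lit 194))))) (XT.nd (nat_lit 234) (nat_lit 304) (nat_lit 0)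 (XT.nd (nat_lit 78) (nat_lit 76) (nat_lit 0) (XT.lf (nat_lit 0) (nat_lit 4191190072) (nat_lit 228) (nat_lit 12952150468) (nat_lit 76) (nat_lit 4443036677) (nat_lit 21) (nat_lit 5) (nat_lit 24) (nat_lit 5) (nat_lit 22) (nat_lit 4) (nat_lit 353) (nat_lit 234) (nat_lit 193)) (XT.nd (nat_lit 78) (nat_lit 76) (nat_lit 0) (XT.lf (nat_lit 0) (nat_lit 10203117482) (nat_lit 228) (nat_lit 1072405526) (nat_lit 76) (nat_lit 10821529760) (nat_lit 21) (nat_lit 5) (nat_lit 24) (nat_lit 5) (nat_lit 22) (nat_lit 4) (nat_lit 354) (nat_lit 234) (nat_lit 192)) (XT.lf (nat_lit 0) (nat_lit 11178290494) (nat_lit 76) (nat_lit 5216581927) (nat_lit 152) (nat_lit 6228200274) (nat_lit 20) (nat_lit 5) (nat_lit 21) (nat_lit 5) (nat_lit 22) (nat_lit 4) (nat_lit 355) (nat_lit 234) (nat_lit 191)))) (XT.nd (nat_lit 156) (nat_lit 76) (nat_lit 0) (XT.nd (nat_lit 78) (nat_lit 76) (nat_lit 0) (XT.lf (nat_lit 0) (nat_lit 515546127)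 (nat_lit 152) (nat_lit 22201947176) (nat_lit 152) (nat_lit 448490762) (nat_lit 18) (nat_lit 4) (nat_lit 20) (nat_lit 5) (nat_lit 20) (nat_lit 4) (nat_lit 356) (nat_lit 234) (nat_lit 190)) (XT.lf (nat_lit 0) (nat_lit 5473954327) (nat_lit 228) (nat_lit 10933241472) (nat_lit 76) (nat_lit 7316453902) (nat_lit 17) (nat_lit 5) (nat_lit 20) (nat_lit 5) (nat_lit 18) (nat_lit 4) (nat_lit 357) (nat_lit 234) (nat_lit 189))) (XT.nd (nat_lit 78) (nat_lit 0) (nat_lit 0) (XT.lf (nat_lit 0) (nat_lit 1019814369) (nat_lit 76) (nat_lit 10485486838) (nat_lit 152) (nat_lit 12793950492) (nat_lit 16) (nat_lit 5) (nat_lit 17) (nat_lit 5) (nat_lit 18) (nat_lit 4) (nat_lit 358) (nat_lit 234) (nat_lit 188)) (XT.lf (nat_lit 0) (nat_lit 13357130234) (nat_lit 76) (nat_lit 4366425417) (nat_lit 152) (nat_lit 7168458526) (nat_lit 16) (nat_lit 5) (nat_lit 17) (nat_lit 5) (nat_lit 18) (nat_lit 4) (nat_lit 359) (nat_lit 234) (nat_lit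 187)))))) (XT.nd (nat_lit 36816) (nat_lit 0) (nat_lit 7828) (XT.nd (nat_lit 234) (nat_lit 228) (nat_lit 0) (XT.nd (nat_lit 78) (nat_lit 76) (nat_lit 0) (XT.lf (nat_lit 0) (nat_lit 433765541) (nat_lit 152) (nat_lit 23643491598) (nat_lit 152) (nat_lit 1426335822) (nat_lit 14) (nat_lit 4) (nat_lit 16) (nat_lit 5) (nat_lit 16) (nat_lit 4) (nat_lit 360) (nat_lit 234) (nat_lit 186)) (XT.nd (nat_lit 78) (nat_lit 0) (nat_lit 0) (XT.lf (nat_lit 0) (nat_lit 4471300645) (nat_lit 228) (nat_lit 13391721571) (nat_lit 76) (nat_lit 8269082741) (nat_lit 13) (nat_lit 5) (nat_lit 16) (nat_lit 5) (nat_lit 14) (nat_lit 4) (nat_lit 361) (nat_lit 234) (nat_lit 185)) (XT.lf (nat_lit 0) (nat_lit 10462743786) (nat_lit 228) (nat_lit 1489582252) (nat_lit 76) (nat_lit 14828243151) (nat_lit 13) (nat_lit 5) (nat_lit 16) (nat_lit 5) (nat_lit 14) (nat_lit 4) (nat_lit 362) (nat_lit 234) (nat_lit 184)))) (XT.nd (nat_lit 156) (nat_lit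 152) (nat_lit 0) (XT.nd (nat_lit 78) (nat_lit 0) (nat_lit 0) (XT.lf (nat_lit 0) (nat_lit 10797867152) (nat_lit 76) (nat_lit 5844175255) (nat_lit 152) (nat_lit 10806292944) (nat_lit 12) (nat_lit 5) (nat_lit 13) (nat_lit 5) (nat_lit 14) (nat_lit 4) (nat_lit 363) (nat_lit 234) (nat_lit 183)) (XT.lf (nat_lit 0) (nat_lit 22958542532) (nat_lit 152) (nat_lit 4777003778) (nat_lit 0) (nat_lit 401561685) (nat_lit 12) (nat_lit 5) (nat_lit 14) (nat_lit 4) (nat_lit 12) (nat_lit 4) (nat_lit 364) (nat_lit 234) (nat_lit 182))) (XT.nd (nat_lit 36348) (nat_lit 0) (nat_lit 11096) (XT.lf (nat_lit 0) (nat_lit 637742456) (nat_lit 152) (nat_lit 21448697254) (nat_lit 76) (nat_lit 6759476255) (nat_lit 10) (nat_lit 5) (nat_lit 12) (nat_lit 5) (nat_lit 11) (nat_lit 4) (nat_lit 365) (nat_lit 234) (nat_lit 181)) (XT.lf (nat_lit 0) (nat_lit 2268583463) (nat_lit 456) (nat_lit 204709011) (nat_lit 0) (nat_lit 2268583463) (nat_lit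 156) (nat_lit 5) (nat_lit 162) (nat_lit 4) (nat_lit 156) (nat_lit 4) (nat_lit 310) (nat_lit 235) (nat_lit 235))))) (XT.nd (nat_lit 234) (nat_lit 1520) (nat_lit 0) (XT.nd (nat_lit 78) (nat_lit 836) (nat_lit 0) (XT.lf (nat_lit 0) (nat_lit 501206748) (nat_lit 380) (nat_lit 393747986) (nat_lit 456) (nat_lit 8725666200) (nat_lit 144) (nat_lit 5) (nat_lit 149) (nat_lit 5) (nat_lit 150) (nat_lit 4) (nat_lit 311) (nat_lit 235) (nat_lit 234)) (XT.nd (nat_lit 78) (nat_lit 456) (nat_lit 0) (XT.lf (nat_lit 0) (nat_lit 1333460130) (nat_lit 380) (nat_lit 5476447745) (nat_lit 380) (nat_lit 2951793560) (nat_lit 139) (nat_lit 4) (nat_lit 144) (nat_lit 5) (nat_lit 144) (nat_lit 4) (nat_lit 312) (nat_lit 235) (nat_lit 233)) (XT.lf (nat_lit 0) (nat_lit 2114766095) (nat_lit 380) (nat_lit 779723427) (nat_lit 456) (nat_lit 7013429852) (nat_lit 133) (nat_lit 5) (nat_lit 138) (nat_lit 5) (nat_lit 139) (nat_lit 4) (nat_lit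 313) (nat_lit 235) (nat_lit 232)))) (XT.nd (nat_lit 156) (nat_lit 760) (nat_lit 0) (XT.nd (nat_lit 78) (nat_lit 380) (nat_lit 0) (XT.lf (nat_lit 0) (nat_lit 2814077242) (nat_lit 380) (nat_lit 6026522871) (nat_lit 380) (nat_lit 1218304350) (nat_lit 128) (nat_lit 4) (nat_lit 133) (nat_lit 5) (nat_lit 133) (nat_lit 4) (nat_lit 314) (nat_lit 235) (nat_lit 231)) (XT.lf (nat_lit 0) (nat_lit 3434572071) (nat_lit 304) (nat_lit 1198403308) (nat_lit 380) (nat_lit 5581993420) (nat_lit 123) (nat_lit 5) (nat_lit 127) (nat_lit 5) (nat_lit 128) (nat_lit 4) (nat_lit 315) (nat_lit 235) (nat_lit 230))) (XT.nd (nat_lit 78) (nat_lit 304) (nat_lit 0) (XT.lf (nat_lit 0) (nat_lit 229824196) (nat_lit 456) (nat_lit 6405714211) (nat_lit 76) (nat_lit 3740723775) (nat_lit 117) (nat_lit 5) (nat_lit 123) (nat_lit 5) (nat_lit 118) (nat_lit 4) (nat_lit 316) (nat_lit 235) (nat_lit 229)) (XT.lf (nat_lit 0) (nat_lit 4403171461)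 (nat_lit 304) (nat_lit 1688053650) (nat_lit 380) (nat_lit 4451464250) (nat_lit 113) (nat_lit 5) (nat_lit 117) (nat_lit 5) (nat_lit 118) (nat_lit 4) (nat_lit 317) (nat_lit 235) (nat_lit 228))))))) (XT.nd (nat_lit 1092) (nat_lit 2280) (nat_lit 0) (XT.nd (nat_lit 546) (nat_lit 1596) (nat_lit 0) (XT.nd (nat_lit 234) (nat_lit 1216) (nat_lit 0) (XT.nd (nat_lit 78) (nat_lit 684) (nat_lit 0) (XT.lf (nat_lit 0) (nat_lit 1362043887) (nat_lit 380) (nat_lit 5976332247) (nat_lit 76) (nat_lit 3376276513) (nat_lit 108) (nat_lit 5) (nat_lit 113) (nat_lit 5) (nat_lit 109) (nat_lit 4) (nat_lit 318) (nat_lit 235) (nat_lit 227)) (XT.nd (nat_lit 78) (nat_lit 380) (nat_lit 0) (XT.lf (nat_lit 0) (nat_lit 4957660016) (nat_lit 304) (nat_lit 2288981227) (nat_lit 380) (nat_lit 3645452007) (nat_lit 104) (nat_lit 5) (nat_lit 108) (nat_lit 5) (nat_lit 109) (nat_lit 4) (nat_lit 319) (nat_lit 235) (nat_lit 226)) (XT.lf (nat_lit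 0) (nat_lit 2169427354) (nat_lit 380) (nat_lit 6015497415) (nat_lit 76) (nat_lit 2890374214) (nat_lit 99) (nat_lit 5) (nat_lit 104) (nat_lit 5) (nat_lit 100) (nat_lit 4) (nat_lit 320) (nat_lit 235) (nat_lit 225)))) (XT.nd (nat_lit 156) (nat_lit 608) (nat_lit 0) (XT.nd (nat_lit 78) (nat_lit 380) (nat_lit 0) (XT.lf (nat_lit 0) (nat_lit 5028998959) (nat_lit 228) (nat_lit 3043932890) (nat_lit 304) (nat_lit 3191359324) (nat_lit 96) (nat_lit 5) (nat_lit 99) (nat_lit 5) (nat_lit 100) (nat_lit 4) (nat_lit 321) (nat_lit 235) (nat_lit 224)) (XT.lf (nat_lit 0) (nat_lit 2623185335) (nat_lit 380) (nat_lit 6596516643) (nat_lit 76) (nat_lit 2239666613) (nat_lit 91) (nat_lit 5) (nat_lit 96) (nat_lit 5) (nat_lit 92) (nat_lit 4) (nat_lit 322) (nat_lit 235) (nat_lit 223))) (XT.nd (nat_lit 78) (nat_lit 380) (nat_lit 0) (XT.lf (nat_lit 0) (nat_lit 4541266719) (nat_lit 228) (nat_lit 3998523491) (nat_lit 304) (nat_lit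 3120709404) (nat_lit 88) (nat_lit 5) (nat_lit 91) (nat_lit 5) (nat_lit 92) (nat_lit 4) (nat_lit 323) (nat_lit 235) (nat_lit 222)) (XT.lf (nat_lit 0) (nat_lit 2690302301) (nat_lit 380) (nat_lit 7800066105) (nat_lit 76) (nat_lit 1377770652) (nat_lit 83) (nat_lit 5) (nat_lit 88) (nat_lit 5) (nat_lit 84) (nat_lit 4) (nat_lit 324) (nat_lit 235) (nat_lit 221))))) (XT.nd (nat_lit 234) (nat_lit 836) (nat_lit 0) (XT.nd (nat_lit 78) (nat_lit 532) (nat_lit 0) (XT.lf (nat_lit 0) (nat_lit 3410838571) (nat_lit 228) (nat_lit 5201696398) (nat_lit 304) (nat_lit 3469513951) (nat_lit 80) (nat_lit 5) (nat_lit 83) (nat_lit 5) (nat_lit 84) (nat_lit 4) (nat_lit 325) (nat_lit 235) (nat_lit 220)) (XT.nd (nat_lit 78) (nat_lit 228) (nat_lit 0) (XT.lf (nat_lit 0) (nat_lit 2333152246) (nat_lit 304) (nat_lit 9715056300) (nat_lit 76) (nat_lit 254798202) (nat_lit 76) (nat_lit 5) (nat_lit 80) (nat_lit 5) (nat_lit 77) (nat_lit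 4) (nat_lit 326) (nat_lit 235) (nat_lit 219)) (XT.lf (nat_lit 0) (nat_lit 1545486172) (nat_lit 228) (nat_lit 6706220944) (nat_lit 304) (nat_lit 4278685177) (nat_lit 73) (nat_lit 5) (nat_lit 76) (nat_lit 5) (nat_lit 77) (nat_lit 4) (nat_lit 327) (nat_lit 235) (nat_lit 218)))) (XT.nd (nat_lit 156) (nat_lit 532) (nat_lit 0) (XT.nd (nat_lit 78) (nat_lit 0) (nat_lit 0) (XT.lf (nat_lit 0) (nat_lit 317974538) (nat_lit 228) (nat_lit 1198878384) (nat_lit 304) (nat_lit 11248487742) (nat_lit 69) (nat_lit 5) (nat_lit 72) (nat_lit 5) (nat_lit 73) (nat_lit 5) (nat_lit 328) (nat_lit 235) (nat_lit 217)) (XT.lf (nat_lit 0) (nat_lit 7420129193) (nat_lit 304) (nat_lit 1141442661) (nat_lit 76) (nat_lit 4445393732) (nat_lit 69) (nat_lit 5) (nat_lit 73) (nat_lit 5) (nat_lit 70) (nat_lit 4) (nat_lit 329) (nat_lit 235) (nat_lit 216))) (XT.nd (nat_lit 78) (nat_lit 228) (nat_lit 0) (XT.lf (nat_lit 0) (nat_lit 208038128)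 (nat_lit 304) (nat_lit 2807481577) (nat_lit 76) (nat_lit 10240988295) (nat_lit 65) (nat_lit 5) (nat_lit 69) (nat_lit 5) (nat_lit 66) (nat_lit 5) (nat_lit 330) (nat_lit 235) (nat_lit 215)) (XT.lf (nat_lit 0) (nat_lit 6076072178) (nat_lit 304) (nat_lit 4744900605) (nat_lit 76) (nat_lit 2692352222) (nat_lit 62) (nat_lit 5) (nat_lit 66) (nat_lit 5) (nat_lit 63) (nat_lit 4) (nat_lit 331) (nat_lit 235) (nat_lit 214)))))) (XT.nd (nat_lit 546) (nat_lit 912) (nat_lit 0) (XT.nd (nat_lit 234) (nat_lit 760) (nat_lit 0) (XT.nd (nat_lit 78) (nat_lit 456) (nat_lit 0) (XT.lf (nat_lit 0) (nat_lit 6842490335) (nat_lit 152) (nat_lit 5255152693) (nat_lit 228) (nat_lit 1680683895) (nat_lit 60) (nat_lit 5) (nat_lit 62) (nat_lit 5) (nat_lit 63) (nat_lit 4) (nat_lit 332) (nat_lit 235) (nat_lit 213)) (XT.nd (nat_lit 78) (nat_lit 152) (nat_lit 0) (XT.lf (nat_lit 0) (nat_lit 4153603255) (nat_lit 304) (nat_lit 9407906479)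 (nat_lit 76) (nat_lit 490031489) (nat_lit 56) (nat_lit 5) (nat_lit 60) (nat_lit 5) (nat_lit 57) (nat_lit 4) (nat_lit 333) (nat_lit 235) (nat_lit 212)) (XT.lf (nat_lit 0) (nat_lit 2137988604) (nat_lit 152) (nat_lit 7994997270) (nat_lit 228) (nat_lit 4199913894) (nat_lit 54) (nat_lit 5) (nat_lit 56) (nat_lit 5) (nat_lit 57) (nat_lit 4) (nat_lit 334) (nat_lit 235) (nat_lit 211)))) (XT.nd (nat_lit 156) (nat_lit 456) (nat_lit 0) (XT.nd (nat_lit 78) (nat_lit 228) (nat_lit 0) (XT.lf (nat_lit 0) (nat_lit 1608956419) (nat_lit 228) (nat_lit 648938952) (nat_lit 76) (nat_lit 12365377727) (nat_lit 53) (nat_lit 5) (nat_lit 56) (nat_lit 5) (nat_lit 54) (nat_lit 5) (nat_lit 335) (nat_lit 235) (nat_lit 210)) (XT.lf (nat_lit 0) (nat_lit 7532541667) (nat_lit 304) (nat_lit 3754348914) (nat_lit 76) (nat_lit 3634987526) (nat_lit 50) (nat_lit 5) (nat_lit 54) (nat_lit 5) (nat_lit 51) (nat_lit 4) (nat_lit 336) (nat_lit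 235) (nat_lit 209))) (XT.nd (nat_lit 78) (nat_lit 304) (nat_lit 0) (XT.lf (nat_lit 0) (nat_lit 8039379795) (nat_lit 152) (nat_lit 5568136442) (nat_lit 228) (nat_lit 1622476530) (nat_lit 48) (nat_lit 5) (nat_lit 50) (nat_lit 5) (nat_lit 51) (nat_lit 4) (nat_lit 337) (nat_lit 235) (nat_lit 208)) (XT.lf (nat_lit 0) (nat_lit 4221210357) (nat_lit 304) (nat_lit 10994340132) (nat_lit 76) (nat_lit 332054787) (nat_lit 44) (nat_lit 5) (nat_lit 48) (nat_lit 5) (nat_lit 45) (nat_lit 4) (nat_lit 338) (nat_lit 235) (nat_lit 207))))) (XT.nd (nat_lit 234) (nat_lit 532) (nat_lit 0) (XT.nd (nat_lit 78) (nat_lit 228) (nat_lit 0) (XT.lf (nat_lit 0) (nat_lit 668190055) (nat_lit 152) (nat_lit 9545098363) (nat_lit 228) (nat_lit 5661364009) (nat_lit 42) (nat_lit 5) (nat_lit 44) (nat_lit 5) (nat_lit 45) (nat_lit 4) (nat_lit 339) (nat_lit 235) (nat_lit 206)) (XT.nd (nat_lit 78) (nat_lit 152) (nat_lit 0) (XT.lf (nat_lit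 0) (nat_lit 151788842) (nat_lit 228) (nat_lit 3545412185) (nat_lit 76) (nat_lit 12514700568) (nat_lit 41) (nat_lit 5) (nat_lit 44) (nat_lit 5) (nat_lit 42) (nat_lit 5) (nat_lit 340) (nat_lit 235) (nat_lit 205)) (XT.lf (nat_lit 0) (nat_lit 6040728606) (nat_lit 228) (nat_lit 8197127455) (nat_lit 76) (nat_lit 2321119053) (nat_lit 39) (nat_lit 5) (nat_lit 42) (nat_lit 5) (nat_lit 40) (nat_lit 4) (nat_lit 341) (nat_lit 235) (nat_lit 204)))) (XT.nd (nat_lit 156) (nat_lit 304) (nat_lit 0) (XT.nd (nat_lit 78) (nat_lit 76) (nat_lit 0) (XT.lf (nat_lit 0) (nat_lit 3622655843) (nat_lit 152) (nat_lit 8465531635) (nat_lit 228) (nat_lit 4828657183) (nat_lit 37) (nat_lit 5) (nat_lit 39) (nat_lit 5) (nat_lit 40) (nat_lit 4) (nat_lit 342) (nat_lit 235) (nat_lit 203)) (XT.lf (nat_lit 0) (nat_lit 984440121) (nat_lit 228) (nat_lit 1539649093) (nat_lit 76) (nat_lit 14761919955) (nat_lit 36) (nat_lit 5) (nat_lit 39)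 (nat_lit 5) (nat_lit 37) (nat_lit 5) (nat_lit 343) (nat_lit 235) (nat_lit 202))) (XT.nd (nat_lit 78) (nat_lit 152) (nat_lit 0) (XT.lf (nat_lit 0) (nat_lit 6911634402) (nat_lit 228) (nat_lit 7169260149) (nat_lit 76) (nat_lit 3584628842) (nat_lit 34) (nat_lit 5) (nat_lit 37) (nat_lit 5) (nat_lit 35) (nat_lit 4) (nat_lit 344) (nat_lit 235) (nat_lit 201)) (XT.lf (nat_lit 0) (nat_lit 4751767637) (nat_lit 152) (nat_lit 8237289094) (nat_lit 228) (nat_lit 5067936766) (nat_lit 32) (nat_lit 5) (nat_lit 34) (nat_lit 5) (nat_lit 35) (nat_lit 4) (nat_lit 345) (nat_lit 235) (nat_lit 200))))))))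
noncomputable def xc15 : XT := (XT.nd (nat_lit 38220) (nat_lit 0) (nat_lit 2128) (XT.nd (nat_lit 1014) (nat_lit 456) (nat_lit 0) (XT.nd (nat_lit 468) (nat_lit 532) (nat_lit 0) (XT.nd (nat_lit 234) (nat_lit 304) (nat_lit 0) (XT.nd (nat_lit 78) (nat_lit 228) (nat_lit 0) (XT.lf (nat_lit 0) (nat_lit 742287468) (nat_lit 228) (nat_lit 1486519250) (nat_lit 76) (nat_lit 16232035665) (nat_lit 31) (nat_lit 5) (nat_lit 34) (nat_lit 5) (nat_lit 32) (nat_lit 5) (nat_lit 346) (nat_lit 235) (nat_lit 199)) (XT.nd (nat_lit 78) (nat_lit 76) (nat_lit 0) (XT.lf (nat_lit 0) (nat_lit 6671066004) (nat_lit 228) (nat_lit 8255924836) (nat_lit 76) (nat_lit 3948901174) (nat_lit 29) (nat_lit 5) (nat_lit 32) (nat_lit 5) (nat_lit 30) (nat_lit 4) (nat_lit 347) (nat_lit 235) (nat_lit 198)) (XT.lf (nat_lit 0) (nat_lit 3695418561) (nat_lit 76) (nat_lit 9049992168) (nat_lit 152) (nat_lit 6558645125) (nat_lit 28) (nat_lit 5) (nat_lit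 29) (nat_lit 5) (nat_lit 30) (nat_lit 4) (nat_lit 348) (nat_lit 235) (nat_lit 197)))) (XT.nd (nat_lit 78) (nat_lit 304) (nat_lit 0) (XT.lf (nat_lit 0) (nat_lit 15975781142) (nat_lit 76) (nat_lit 3002257871) (nat_lit 152) (nat_lit 767520821) (nat_lit 28) (nat_lit 5) (nat_lit 29) (nat_lit 5) (nat_lit 30) (nat_lit 4) (nat_lit 349) (nat_lit 235) (nat_lit 196)) (XT.nd (nat_lit 78) (nat_lit 76) (nat_lit 0) (XT.lf (nat_lit 0) (nat_lit 5126498624) (nat_lit 228) (nat_lit 11860539736) (nat_lit 76) (nat_lit 3212664676) (nat_lit 25) (nat_lit 5) (nat_lit 28) (nat_lit 5) (nat_lit 26) (nat_lit 4) (nat_lit 350) (nat_lit 235) (nat_lit 195)) (XT.lf (nat_lit 0) (nat_lit 32739171) (nat_lit 76) (nat_lit 11123133264) (nat_lit 152) (nat_lit 9512132459) (nat_lit 24) (nat_lit 5) (nat_lit 25) (nat_lit 5) (nat_lit 26) (nat_lit 4) (nat_lit 351) (nat_lit 235) (nat_lit 194))))) (XT.nd (nat_lit 234) (nat_lit 304) (nat_lit 0)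 (XT.nd (nat_lit 78) (nat_lit 228) (nat_lit 0) (XT.lf (nat_lit 0) (nat_lit 12309083462) (nat_lit 76) (nat_lit 5061674491) (nat_lit 152) (nat_lit 3779519857) (nat_lit 24) (nat_lit 5) (nat_lit 25) (nat_lit 5) (nat_lit 26) (nat_lit 4) (nat_lit 352) (nat_lit 235) (nat_lit 193)) (XT.nd (nat_lit 78) (nat_lit 0) (nat_lit 0) (XT.lf (nat_lit 0) (nat_lit 2051470631) (nat_lit 228) (nat_lit 18453561675) (nat_lit 76) (nat_lit 1142639166) (nat_lit 21) (nat_lit 5) (nat_lit 24) (nat_lit 5) (nat_lit 22) (nat_lit 4) (nat_lit 353) (nat_lit 235) (nat_lit 192)) (XT.lf (nat_lit 0) (nat_lit 8027384657) (nat_lit 228) (nat_lit 6638864300) (nat_lit 76) (nat_lit 7492824987) (nat_lit 21) (nat_lit 5) (nat_lit 24) (nat_lit 5) (nat_lit 22) (nat_lit 4) (nat_lit 354) (nat_lit 235) (nat_lit 191)))) (XT.nd (nat_lit 156) (nat_lit 228) (nat_lit 0) (XT.nd (nat_lit 78) (nat_lit 0) (nat_lit 0) (XT.lf (nat_lit 0) (nat_lit 5473864168) (nat_lit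 76) (nat_lit 8673274060) (nat_lit 152) (nat_lit 8539402130) (nat_lit 20) (nat_lit 5) (nat_lit 21) (nat_lit 5) (nat_lit 22) (nat_lit 4) (nat_lit 355) (nat_lit 235) (nat_lit 190)) (XT.lf (nat_lit 0) (nat_lit 17914727672) (nat_lit 76) (nat_lit 2511014397) (nat_lit 152) (nat_lit 2804596270) (nat_lit 20) (nat_lit 5) (nat_lit 21) (nat_lit 5) (nat_lit 22) (nat_lit 4) (nat_lit 356) (nat_lit 235) (nat_lit 189))) (XT.nd (nat_lit 78) (nat_lit 0) (nat_lit 0) (XT.lf (nat_lit 0) (nat_lit 3063088811) (nat_lit 228) (nat_lit 16930346348) (nat_lit 76) (nat_lit 3796593948) (nat_lit 17) (nat_lit 5) (nat_lit 20) (nat_lit 5) (nat_lit 18) (nat_lit 4) (nat_lit 357) (nat_lit 235) (nat_lit 188)) (XT.lf (nat_lit 0) (nat_lit 9054654315) (nat_lit 228) (nat_lit 5050942141) (nat_lit 76) (nat_lit 10260836071) (nat_lit 17) (nat_lit 5) (nat_lit 20) (nat_lit 5) (nat_lit 18) (nat_lit 4) (nat_lit 358) (nat_lit 235) (nat_lit 187))))))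 (XT.nd (nat_lit 36660) (nat_lit 0) (nat_lit 8892) (XT.nd (nat_lit 234) (nat_lit 152) (nat_lit 0) (XT.nd (nat_lit 78) (nat_lit 228) (nat_lit 0) (XT.lf (nat_lit 0) (nat_lit 7159950691) (nat_lit 76) (nat_lit 8047148942) (nat_lit 152) (nat_lit 9753417179) (nat_lit 16) (nat_lit 5) (nat_lit 17) (nat_lit 5) (nat_lit 18) (nat_lit 4) (nat_lit 359) (nat_lit 235) (nat_lit 186)) (XT.nd (nat_lit 78) (nat_lit 228) (nat_lit 0) (XT.lf (nat_lit 0) (nat_lit 19689438210) (nat_lit 76) (nat_lit 1824697305) (nat_lit 152) (nat_lit 4058898856) (nat_lit 16) (nat_lit 5) (nat_lit 17) (nat_lit 5) (nat_lit 18) (nat_lit 4) (nat_lit 360) (nat_lit 235) (nat_lit 185)) (XT.lf (nat_lit 0) (nat_lit 1790997336) (nat_lit 228) (nat_lit 19885815646) (nat_lit 76) (nat_lit 4526725768) (nat_lit 13) (nat_lit 5) (nat_lit 16) (nat_lit 5) (nat_lit 14) (nat_lit 4) (nat_lit 361) (nat_lit 235) (nat_lit 184)))) (XT.nd (nat_lit 156) (nat_lit 76)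 (nat_lit 0) (XT.nd (nat_lit 78) (nat_lit 76) (nat_lit 0) (XT.lf (nat_lit 0) (nat_lit 7751901202) (nat_lit 228) (nat_lit 8039523649) (nat_lit 76) (nat_lit 11061193965) (nat_lit 13) (nat_lit 5) (nat_lit 16) (nat_lit 5) (nat_lit 14) (nat_lit 4) (nat_lit 362) (nat_lit 235) (nat_lit 183)) (XT.lf (nat_lit 0) (nat_lit 4105939217) (nat_lit 76) (nat_lit 9752162390) (nat_lit 152) (nat_lit 13663750236) (nat_lit 12) (nat_lit 5) (nat_lit 13) (nat_lit 5) (nat_lit 14) (nat_lit 4) (nat_lit 363) (nat_lit 235) (nat_lit 182))) (XT.nd (nat_lit 78) (nat_lit 76) (nat_lit 0) (XT.lf (nat_lit 0) (nat_lit 16617529938) (nat_lit 76) (nat_lit 3525297418) (nat_lit 152) (nat_lit 8068437375) (nat_lit 12) (nat_lit 5) (nat_lit 13) (nat_lit 5) (nat_lit 14) (nat_lit 4) (nat_lit 364) (nat_lit 235) (nat_lit 181)) (XT.lf (nat_lit 0) (nat_lit 464470371) (nat_lit 76) (nat_lit 26115667093) (nat_lit 76) (nat_lit 2341951068) (nat_lit 11)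 (nat_lit 4) (nat_lit 12) (nat_lit 5) (nat_lit 12) (nat_lit 4) (nat_lit 365) (nat_lit 235) (nat_lit 180))))) (XT.nd (nat_lit 234) (nat_lit 2128) (nat_lit 0) (XT.nd (nat_lit 78) (nat_lit 912) (nat_lit 0) (XT.lf (nat_lit 0) (nat_lit 1743392169) (nat_lit 532) (nat_lit 1124554964) (nat_lit 0) (nat_lit 1743392169) (nat_lit 168) (nat_lit 5) (nat_lit 175) (nat_lit 4) (nat_lit 168) (nat_lit 4) (nat_lit 308) (nat_lit 236) (nat_lit 236)) (XT.nd (nat_lit 78) (nat_lit 380) (nat_lit 0) (XT.lf (nat_lit 0) (nat_lit 13899000) (nat_lit 532) (nat_lit 1344639887) (nat_lit 76) (nat_lit 7993346691) (nat_lit 161) (nat_lit 5) (nat_lit 168) (nat_lit 5) (nat_lit 162) (nat_lit 4) (nat_lit 309) (nat_lit 236) (nat_lit 235)) (XT.lf (nat_lit 0) (nat_lit 5813053485) (nat_lit 456) (nat_lit 511479405) (nat_lit 0) (nat_lit 3160651799) (nat_lit 156) (nat_lit 5) (nat_lit 162) (nat_lit 4) (nat_lit 156) (nat_lit 4) (nat_lit 310) (nat_lit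 236) (nat_lit 234)))) (XT.nd (nat_lit 156) (nat_lit 836) (nat_lit 0) (XT.nd (nat_lit 78) (nat_lit 380) (nat_lit 0) (XT.lf (nat_lit 0) (nat_lit 283866551) (nat_lit 380) (nat_lit 1797724384) (nat_lit 456) (nat_lit 7541752258) (nat_lit 144) (nat_lit 5) (nat_lit 149) (nat_lit 5) (nat_lit 150) (nat_lit 4) (nat_lit 311) (nat_lit 236) (nat_lit 233)) (XT.lf (nat_lit 0) (nat_lit 1017481007) (nat_lit 380) (nat_lit 6900034777) (nat_lit 380) (nat_lit 1848520399) (nat_lit 139) (nat_lit 4) (nat_lit 144) (nat_lit 5) (nat_lit 144) (nat_lit 4) (nat_lit 312) (nat_lit 236) (nat_lit 232))) (XT.nd (nat_lit 78) (nat_lit 380) (nat_lit 0) (XT.lf (nat_lit 0) (nat_lit 1681433724) (nat_lit 380) (nat_lit 2232045608) (nat_lit 456) (nat_lit 6000058187) (nat_lit 133) (nat_lit 5) (nat_lit 138) (nat_lit 5) (nat_lit 139) (nat_lit 4) (nat_lit 313) (nat_lit 236) (nat_lit 231)) (XT.lf (nat_lit 0) (nat_lit 2277846554) (nat_lit 380)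 (nat_lit 7502930416) (nat_lit 380) (nat_lit 285351399) (nat_lit 128) (nat_lit 4) (nat_lit 133) (nat_lit 5) (nat_lit 133) (nat_lit 4) (nat_lit 314) (nat_lit 236) (nat_lit 230))))))) (XT.nd (nat_lit 1092) (nat_lit 2508) (nat_lit 0) (XT.nd (nat_lit 546) (nat_lit 1824) (nat_lit 0) (XT.nd (nat_lit 234) (nat_lit 1292) (nat_lit 0) (XT.nd (nat_lit 78) (nat_lit 760) (nat_lit 0) (XT.lf (nat_lit 0) (nat_lit 2777489767) (nat_lit 304) (nat_lit 2706861152) (nat_lit 380) (nat_lit 4739135551) (nat_lit 123) (nat_lit 5) (nat_lit 127) (nat_lit 5) (nat_lit 128) (nat_lit 4) (nat_lit 315) (nat_lit 236) (nat_lit 229)) (XT.nd (nat_lit 78) (nat_lit 304) (nat_lit 0) (XT.lf (nat_lit 0) (nat_lit 982293430) (nat_lit 456) (nat_lit 7185047811) (nat_lit 76) (nat_lit 2218942581) (nat_lit 117) (nat_lit 5) (nat_lit 123) (nat_lit 5) (nat_lit 118) (nat_lit 4) (nat_lit 316) (nat_lit 236) (nat_lit 228)) (XT.lf (nat_lit 0) (nat_lit 3514480169)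 (nat_lit 304) (nat_lit 3260208723) (nat_lit 380) (nat_lit 3779428168) (nat_lit 113) (nat_lit 5) (nat_lit 117) (nat_lit 5) (nat_lit 118) (nat_lit 4) (nat_lit 317) (nat_lit 236) (nat_lit 227)))) (XT.nd (nat_lit 156) (nat_lit 608) (nat_lit 0) (XT.nd (nat_lit 78) (nat_lit 304) (nat_lit 0) (XT.lf (nat_lit 0) (nat_lit 1945777947) (nat_lit 380) (nat_lit 6993394895) (nat_lit 76) (nat_lit 1788434700) (nat_lit 108) (nat_lit 5) (nat_lit 113) (nat_lit 5) (nat_lit 109) (nat_lit 4) (nat_lit 318) (nat_lit 236) (nat_lit 226)) (XT.lf (nat_lit 0) (nat_lit 3829373668) (nat_lit 304) (nat_lit 3932200691) (nat_lit 380) (nat_lit 3144873784) (nat_lit 104) (nat_lit 5) (nat_lit 108) (nat_lit 5) (nat_lit 109) (nat_lit 4) (nat_lit 319) (nat_lit 236) (nat_lit 225))) (XT.nd (nat_lit 78) (nat_lit 228) (nat_lit 0) (XT.lf (nat_lit 0) (nat_lit 2583620578) (nat_lit 380) (nat_lit 7278342215) (nat_lit 76) (nat_lit 1229245305) (nat_lit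 99) (nat_lit 5) (nat_lit 104) (nat_lit 5) (nat_lit 100) (nat_lit 4) (nat_lit 320) (nat_lit 236) (nat_lit 224)) (XT.lf (nat_lit 0) (nat_lit 3652979470) (nat_lit 228) (nat_lit 4765421479) (nat_lit 304) (nat_lit 2863195981) (nat_lit 96) (nat_lit 5) (nat_lit 99) (nat_lit 5) (nat_lit 100) (nat_lit 4) (nat_lit 321) (nat_lit 236) (nat_lit 223))))) (XT.nd (nat_lit 234) (nat_lit 836) (nat_lit 0) (XT.nd (nat_lit 78) (nat_lit 608) (nat_lit 0) (XT.lf (nat_lit 0) (nat_lit 2866720005) (nat_lit 380) (nat_lit 8113366867) (nat_lit 76) (nat_lit 498172452) (nat_lit 91) (nat_lit 5) (nat_lit 96) (nat_lit 5) (nat_lit 92) (nat_lit 4) (nat_lit 322) (nat_lit 236) (nat_lit 222)) (XT.nd (nat_lit 78) (nat_lit 380) (nat_lit 0) (XT.lf (nat_lit 0) (nat_lit 2909199576) (nat_lit 228) (nat_lit 5805353709) (nat_lit 304) (nat_lit 2966232974) (nat_lit 88) (nat_lit 5) (nat_lit 91) (nat_lit 5) (nat_lit 92) (nat_lit 4) (nat_lit 323)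 (nat_lit 236) (nat_lit 221)) (XT.lf (nat_lit 0) (nat_lit 2307679217) (nat_lit 304) (nat_lit 457042021) (nat_lit 380) (nat_lit 9125264527) (nat_lit 83) (nat_lit 5) (nat_lit 87) (nat_lit 5) (nat_lit 88) (nat_lit 5) (nat_lit 324) (nat_lit 236) (nat_lit 220)))) (XT.nd (nat_lit 156) (nat_lit 304) (nat_lit 0) (XT.nd (nat_lit 78) (nat_lit 304) (nat_lit 0) (XT.lf (nat_lit 0) (nat_lit 1514208934) (nat_lit 228) (nat_lit 7100837117) (nat_lit 304) (nat_lit 3490306659) (nat_lit 80) (nat_lit 5) (nat_lit 83) (nat_lit 5) (nat_lit 84) (nat_lit 4) (nat_lit 325) (nat_lit 236) (nat_lit 219)) (XT.lf (nat_lit 0) (nat_lit 551386348) (nat_lit 228) (nat_lit 1690381966) (nat_lit 304) (nat_lit 10085980215) (nat_lit 76) (nat_lit 5) (nat_lit 79) (nat_lit 5) (nat_lit 80) (nat_lit 5) (nat_lit 326) (nat_lit 236) (nat_lit 218))) (XT.nd (nat_lit 78) (nat_lit 304) (nat_lit 0) (XT.lf (nat_lit 0) (nat_lit 8084174237) (nat_lit 304)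 (nat_lit 616254916) (nat_lit 76) (nat_lit 3856245388) (nat_lit 76) (nat_lit 5) (nat_lit 80) (nat_lit 5) (nat_lit 77) (nat_lit 4) (nat_lit 327) (nat_lit 236) (nat_lit 217)) (XT.lf (nat_lit 0) (nat_lit 1264943229) (nat_lit 304) (nat_lit 1971607761) (nat_lit 76) (nat_lit 9556326465) (nat_lit 72) (nat_lit 5) (nat_lit 76) (nat_lit 5) (nat_lit 73) (nat_lit 5) (nat_lit 328) (nat_lit 236) (nat_lit 216)))))) (XT.nd (nat_lit 546) (nat_lit 1064) (nat_lit 0) (XT.nd (nat_lit 234) (nat_lit 684) (nat_lit 0) (XT.nd (nat_lit 78) (nat_lit 532) (nat_lit 0) (XT.lf (nat_lit 0) (nat_lit 7088221225) (nat_lit 304) (nat_lit 3561498990) (nat_lit 76) (nat_lit 2386398290) (nat_lit 69) (nat_lit 5) (nat_lit 73) (nat_lit 5) (nat_lit 70) (nat_lit 4) (nat_lit 329) (nat_lit 236) (nat_lit 215)) (XT.nd (nat_lit 78) (nat_lit 304) (nat_lit 0) (XT.lf (nat_lit 0) (nat_lit 7909869624) (nat_lit 228) (nat_lit 5156918735) (nat_lit 304) (nat_lit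 220288463) (nat_lit 66) (nat_lit 5) (nat_lit 69) (nat_lit 5) (nat_lit 70) (nat_lit 4) (nat_lit 330) (nat_lit 236) (nat_lit 214)) (XT.lf (nat_lit 0) (nat_lit 5567375003) (nat_lit 304) (nat_lit 7452675713) (nat_lit 76) (nat_lit 525551846) (nat_lit 62) (nat_lit 5) (nat_lit 66) (nat_lit 5) (nat_lit 63) (nat_lit 4) (nat_lit 331) (nat_lit 236) (nat_lit 213)))) (XT.nd (nat_lit 156) (nat_lit 228) (nat_lit 0) (XT.nd (nat_lit 78) (nat_lit 304) (nat_lit 0) (XT.lf (nat_lit 0) (nat_lit 4011727276) (nat_lit 152) (nat_lit 7508025530) (nat_lit 228) (nat_lit 2292250035) (nat_lit 60) (nat_lit 5) (nat_lit 62) (nat_lit 5) (nat_lit 63) (nat_lit 4) (nat_lit 332) (nat_lit 236) (nat_lit 212)) (XT.lf (nat_lit 0) (nat_lit 1662158848) (nat_lit 228) (nat_lit 1815069596) (nat_lit 304) (nat_lit 10609538501) (nat_lit 56) (nat_lit 5) (nat_lit 59) (nat_lit 5) (nat_lit 60) (nat_lit 5) (nat_lit 333) (nat_lit 236) (nat_lit 211)))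 (XT.nd (nat_lit 78) (nat_lit 228) (nat_lit 0) (XT.lf (nat_lit 0) (nat_lit 9381413959) (nat_lit 304) (nat_lit 979513087) (nat_lit 76) (nat_lit 4008715786) (nat_lit 56) (nat_lit 5) (nat_lit 60) (nat_lit 5) (nat_lit 57) (nat_lit 4) (nat_lit 334) (nat_lit 236) (nat_lit 210)) (XT.lf (nat_lit 0) (nat_lit 775530021) (nat_lit 228) (nat_lit 3895005286) (nat_lit 76) (nat_lit 9990704980) (nat_lit 53) (nat_lit 5) (nat_lit 56) (nat_lit 5) (nat_lit 54) (nat_lit 5) (nat_lit 335) (nat_lit 236) (nat_lit 209))))) (XT.nd (nat_lit 234) (nat_lit 380) (nat_lit 0) (XT.nd (nat_lit 78) (nat_lit 456) (nat_lit 0) (XT.lf (nat_lit 0) (nat_lit 6613657473) (nat_lit 304) (nat_lit 7149368922) (nat_lit 76) (nat_lit 1198540439) (nat_lit 50) (nat_lit 5) (nat_lit 54) (nat_lit 5) (nat_lit 51) (nat_lit 4) (nat_lit 336) (nat_lit 236) (nat_lit 208)) (XT.nd (nat_lit 78) (nat_lit 304) (nat_lit 0) (XT.lf (nat_lit 0) (nat_lit 4517365267)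 (nat_lit 152) (nat_lit 8101509998) (nat_lit 228) (nat_lit 2652213388) (nat_lit 48) (nat_lit 5) (nat_lit 50) (nat_lit 5) (nat_lit 51) (nat_lit 4) (nat_lit 337) (nat_lit 236) (nat_lit 207)) (XT.lf (nat_lit 0) (nat_lit 870621741) (nat_lit 228) (nat_lit 2261891398) (nat_lit 304) (nat_lit 12457782492) (nat_lit 44) (nat_lit 5) (nat_lit 47) (nat_lit 5) (nat_lit 48) (nat_lit 5) (nat_lit 338) (nat_lit 236) (nat_lit 206)))) (XT.nd (nat_lit 156) (nat_lit 228) (nat_lit 0) (XT.nd (nat_lit 78) (nat_lit 152) (nat_lit 0) (XT.lf (nat_lit 0) (nat_lit 9059833049) (nat_lit 304) (nat_lit 3130746082) (nat_lit 76) (nat_lit 3728069923) (nat_lit 44) (nat_lit 5) (nat_lit 48) (nat_lit 5) (nat_lit 45) (nat_lit 4) (nat_lit 339) (nat_lit 236) (nat_lit 205)) (XT.lf (nat_lit 0) (nat_lit 8748731436) (nat_lit 152) (nat_lit 6398033778) (nat_lit 228) (nat_lit 1110473909) (nat_lit 42) (nat_lit 5) (nat_lit 44) (nat_lit 5) (nat_lit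 45) (nat_lit 4) (nat_lit 340) (nat_lit 236) (nat_lit 204))) (XT.nd (nat_lit 78) (nat_lit 0) (nat_lit 0) (XT.lf (nat_lit 0) (nat_lit 4291399614) (nat_lit 152) (nat_lit 415929567) (nat_lit 228) (nat_lit 11898851940) (nat_lit 39) (nat_lit 5) (nat_lit 41) (nat_lit 5) (nat_lit 42) (nat_lit 5) (nat_lit 341) (nat_lit 236) (nat_lit 203)) (XT.lf (nat_lit 0) (nat_lit 10685246525) (nat_lit 228) (nat_lit 615780199) (nat_lit 76) (nat_lit 5664424742) (nat_lit 39) (nat_lit 5) (nat_lit 42) (nat_lit 5) (nat_lit 40) (nat_lit 4) (nat_lit 342) (nat_lit 236) (nat_lit 202))))))))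
noncomputable def xc16 : XT := (XT.nd (nat_lit 38064) (nat_lit 0) (nat_lit 2888) (XT.nd (nat_lit 1014) (nat_lit 684) (nat_lit 0) (XT.nd (nat_lit 468) (nat_lit 608) (nat_lit 0) (XT.nd (nat_lit 234) (nat_lit 228) (nat_lit 0) (XT.nd (nat_lit 78) (nat_lit 380) (nat_lit 0) (XT.lf (nat_lit 0) (nat_lit 11431608586) (nat_lit 152) (nat_lit 5402516944) (nat_lit 228) (nat_lit 501561554) (nat_lit 37) (nat_lit 5) (nat_lit 39) (nat_lit 5) (nat_lit 40) (nat_lit 4) (nat_lit 343) (nat_lit 236) (nat_lit 201)) (XT.nd (nat_lit 78) (nat_lit 152) (nat_lit 0) (XT.lf (nat_lit 0) (nat_lit 5342342099) (nat_lit 228) (nat_lit 11694545047) (nat_lit 76) (nat_lit 680185876) (nat_lit 34) (nat_lit 5) (nat_lit 37) (nat_lit 5) (nat_lit 35) (nat_lit 4) (nat_lit 344) (nat_lit 236) (nat_lit 200)) (XT.lf (nat_lit 0) (nat_lit 92818986) (nat_lit 152) (nat_lit 11255651284) (nat_lit 228) (nat_lit 6761507684) (nat_lit 32) (nat_lit 5) (nat_lit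 34) (nat_lit 5) (nat_lit 35) (nat_lit 4) (nat_lit 345) (nat_lit 236) (nat_lit 199)))) (XT.nd (nat_lit 78) (nat_lit 228) (nat_lit 0) (XT.lf (nat_lit 0) (nat_lit 12248972031) (nat_lit 152) (nat_lit 5283220487) (nat_lit 228) (nat_lit 982546936) (nat_lit 32) (nat_lit 5) (nat_lit 34) (nat_lit 5) (nat_lit 35) (nat_lit 4) (nat_lit 346) (nat_lit 236) (nat_lit 198)) (XT.nd (nat_lit 78) (nat_lit 0) (nat_lit 0) (XT.lf (nat_lit 0) (nat_lit 4867569383) (nat_lit 228) (nat_lit 13198163240) (nat_lit 76) (nat_lit 866023283) (nat_lit 29) (nat_lit 5) (nat_lit 32) (nat_lit 5) (nat_lit 30) (nat_lit 4) (nat_lit 347) (nat_lit 236) (nat_lit 197)) (XT.lf (nat_lit 0) (nat_lit 10879021424) (nat_lit 228) (nat_lit 1364576670) (nat_lit 76) (nat_lit 7117587531) (nat_lit 29) (nat_lit 5) (nat_lit 32) (nat_lit 5) (nat_lit 30) (nat_lit 4) (nat_lit 348) (nat_lit 236) (nat_lit 196))))) (XT.nd (nat_lit 234) (nat_lit 304) (nat_lit 0)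 (XT.nd (nat_lit 78) (nat_lit 228) (nat_lit 0) (XT.lf (nat_lit 0) (nat_lit 10829484815) (nat_lit 76) (nat_lit 6234978251) (nat_lit 152) (nat_lit 2739178060) (nat_lit 28) (nat_lit 5) (nat_lit 29) (nat_lit 5) (nat_lit 30) (nat_lit 4) (nat_lit 349) (nat_lit 236) (nat_lit 195)) (XT.nd (nat_lit 78) (nat_lit 0) (nat_lit 0) (XT.lf (nat_lit 0) (nat_lit 3032581211) (nat_lit 152) (nat_lit 55039628) (nat_lit 228) (nat_lit 17172288514) (nat_lit 25) (nat_lit 5) (nat_lit 27) (nat_lit 5) (nat_lit 28) (nat_lit 5) (nat_lit 350) (nat_lit 236) (nat_lit 194)) (XT.lf (nat_lit 0) (nat_lit 9079549493) (nat_lit 228) (nat_lit 5400277510) (nat_lit 76) (nat_lit 6249140309) (nat_lit 25) (nat_lit 5) (nat_lit 28) (nat_lit 5) (nat_lit 26) (nat_lit 4) (nat_lit 351) (nat_lit 236) (nat_lit 193)))) (XT.nd (nat_lit 156) (nat_lit 228) (nat_lit 0) (XT.nd (nat_lit 78) (nat_lit 0) (nat_lit 0) (XT.lf (nat_lit 0) (nat_lit 6739216990) (nat_lit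 76) (nat_lit 8483466115) (nat_lit 152) (nat_lit 5989999152) (nat_lit 24) (nat_lit 5) (nat_lit 25) (nat_lit 5) (nat_lit 26) (nat_lit 4) (nat_lit 352) (nat_lit 236) (nat_lit 192)) (XT.lf (nat_lit 0) (nat_lit 19188545911) (nat_lit 76) (nat_lit 2326766331) (nat_lit 152) (nat_lit 196306151) (nat_lit 24) (nat_lit 5) (nat_lit 25) (nat_lit 5) (nat_lit 26) (nat_lit 4) (nat_lit 353) (nat_lit 236) (nat_lit 191))) (XT.nd (nat_lit 78) (nat_lit 0) (nat_lit 0) (XT.lf (nat_lit 0) (nat_lit 5715402015) (nat_lit 228) (nat_lit 12500517378) (nat_lit 76) (nat_lit 4008469030) (nat_lit 21) (nat_lit 5) (nat_lit 24) (nat_lit 5) (nat_lit 22) (nat_lit 4) (nat_lit 354) (nat_lit 236) (nat_lit 190)) (XT.lf (nat_lit 0) (nat_lit 11765669561) (nat_lit 228) (nat_lit 520893192) (nat_lit 76) (nat_lit 10466688075) (nat_lit 21) (nat_lit 5) (nat_lit 24) (nat_lit 5) (nat_lit 22) (nat_lit 4) (nat_lit 355) (nat_lit 236) (nat_lit 189))))))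 (XT.nd (nat_lit 546) (nat_lit 76) (nat_lit 0) (XT.nd (nat_lit 234) (nat_lit 304) (nat_lit 0) (XT.nd (nat_lit 78) (nat_lit 228) (nat_lit 0) (XT.lf (nat_lit 0) (nat_lit 11852729086) (nat_lit 76) (nat_lit 6154768411) (nat_lit 152) (nat_lit 5290292920) (nat_lit 20) (nat_lit 5) (nat_lit 21) (nat_lit 5) (nat_lit 22) (nat_lit 4) (nat_lit 356) (nat_lit 236) (nat_lit 188)) (XT.nd (nat_lit 78) (nat_lit 0) (nat_lit 0) (XT.lf (nat_lit 0) (nat_lit 512582399) (nat_lit 228) (nat_lit 23229725838) (nat_lit 76) (nat_lit 117449719) (nat_lit 17) (nat_lit 5) (nat_lit 20) (nat_lit 5) (nat_lit 18) (nat_lit 4) (nat_lit 357) (nat_lit 236) (nat_lit 187)) (XT.lf (nat_lit 0) (nat_lit 6471953667) (nat_lit 228) (nat_lit 11408842587) (nat_lit 76) (nat_lit 6556014632) (nat_lit 17) (nat_lit 5) (nat_lit 20) (nat_lit 5) (nat_lit 18) (nat_lit 4) (nat_lit 358) (nat_lit 236) (nat_lit 186)))) (XT.nd (nat_lit 156) (nat_lit 228) (nat_lit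 0) (XT.nd (nat_lit 78) (nat_lit 0) (nat_lit 0) (XT.lf (nat_lit 0) (nat_lit 659985570) (nat_lit 76) (nat_lit 11890954790) (nat_lit 152) (nat_lit 12481429447) (nat_lit 16) (nat_lit 5) (nat_lit 17) (nat_lit 5) (nat_lit 18) (nat_lit 4) (nat_lit 359) (nat_lit 236) (nat_lit 185)) (XT.lf (nat_lit 0) (nat_lit 13133578406) (nat_lit 76) (nat_lit 5693688774) (nat_lit 152) (nat_lit 6818239670) (nat_lit 16) (nat_lit 5) (nat_lit 17) (nat_lit 5) (nat_lit 18) (nat_lit 4) (nat_lit 360) (nat_lit 236) (nat_lit 184))) (XT.nd (nat_lit 78) (nat_lit 228) (nat_lit 0) (XT.lf (nat_lit 0) (nat_lit 25235514502) (nat_lit 152) (nat_lit 411195649) (nat_lit 0) (nat_lit 631465692) (nat_lit 16) (nat_lit 5) (nat_lit 18) (nat_lit 4) (nat_lit 16) (nat_lit 4) (nat_lit 361) (nat_lit 236) (nat_lit 183)) (XT.lf (nat_lit 0) (nat_lit 4899544283) (nat_lit 228) (nat_lit 14896031310) (nat_lit 76) (nat_lit 7132468067) (nat_lit 13) (nat_lit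 5) (nat_lit 16) (nat_lit 5) (nat_lit 14) (nat_lit 4) (nat_lit 362) (nat_lit 236) (nat_lit 182))))) (XT.nd (nat_lit 36192) (nat_lit 0) (nat_lit 11324) (XT.nd (nat_lit 78) (nat_lit 76) (nat_lit 0) (XT.lf (nat_lit 0) (nat_lit 10950300011) (nat_lit 228) (nat_lit 2857060032) (nat_lit 76) (nat_lit 13791030295) (nat_lit 13) (nat_lit 5) (nat_lit 16) (nat_lit 5) (nat_lit 14) (nat_lit 4) (nat_lit 363) (nat_lit 236) (nat_lit 181)) (XT.nd (nat_lit 78) (nat_lit 0) (nat_lit 0) (XT.lf (nat_lit 0) (nat_lit 9564774452) (nat_lit 76) (nat_lit 7623170859) (nat_lit 152) (nat_lit 11100804144) (nat_lit 12) (nat_lit 5) (nat_lit 13) (nat_lit 5) (nat_lit 14) (nat_lit 4) (nat_lit 364) (nat_lit 236) (nat_lit 180)) (XT.lf (nat_lit 0) (nat_lit 22296305408) (nat_lit 76) (nat_lit 1280030707) (nat_lit 152) (nat_lit 5424220012) (nat_lit 12) (nat_lit 5) (nat_lit 13) (nat_lit 5) (nat_lit 14) (nat_lit 4) (nat_lit 365) (nat_lit 236)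 (nat_lit 179)))) (XT.nd (nat_lit 156) (nat_lit 1064) (nat_lit 0) (XT.nd (nat_lit 78) (nat_lit 456) (nat_lit 0) (XT.lf (nat_lit 0) (nat_lit 1227956277) (nat_lit 532) (nat_lit 2032334446) (nat_lit 0) (nat_lit 1227956277) (nat_lit 181) (nat_lit 5) (nat_lit 188) (nat_lit 4) (nat_lit 181) (nat_lit 4) (nat_lit 306) (nat_lit 237) (nat_lit 237)) (XT.lf (nat_lit 0) (nat_lit 5916024533) (nat_lit 456) (nat_lit 2312184561) (nat_lit 456) (nat_lit 870009270) (nat_lit 175) (nat_lit 4) (nat_lit 181) (nat_lit 5) (nat_lit 181) (nat_lit 4) (nat_lit 307) (nat_lit 237) (nat_lit 236))) (XT.nd (nat_lit 78) (nat_lit 532) (nat_lit 0) (XT.lf (nat_lit 0) (nat_lit 4830716077) (nat_lit 532) (nat_lit 2349295266) (nat_lit 0) (nat_lit 2044102865) (nat_lit 168) (nat_lit 5) (nat_lit 175) (nat_lit 4) (nat_lit 168) (nat_lit 4) (nat_lit 308) (nat_lit 237) (nat_lit 235)) (XT.lf (nat_lit 0) (nat_lit 1269068024) (nat_lit 532) (nat_lit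 1555829655) (nat_lit 76) (nat_lit 6529678124) (nat_lit 161) (nat_lit 5) (nat_lit 168) (nat_lit 5) (nat_lit 162) (nat_lit 4) (nat_lit 309) (nat_lit 237) (nat_lit 234))))))) (XT.nd (nat_lit 1014) (nat_lit 3116) (nat_lit 0) (XT.nd (nat_lit 468) (nat_lit 2432) (nat_lit 0) (XT.nd (nat_lit 234) (nat_lit 1216) (nat_lit 0) (XT.nd (nat_lit 78) (nat_lit 1292) (nat_lit 0) (XT.lf (nat_lit 0) (nat_lit 6989426325) (nat_lit 456) (nat_lit 817752732) (nat_lit 0) (nat_lit 1682305320) (nat_lit 156) (nat_lit 5) (nat_lit 162) (nat_lit 4) (nat_lit 156) (nat_lit 4) (nat_lit 310) (nat_lit 237) (nat_lit 233)) (XT.nd (nat_lit 78) (nat_lit 760) (nat_lit 0) (XT.lf (nat_lit 0) (nat_lit 3167415122) (nat_lit 532) (nat_lit 140539983) (nat_lit 76) (nat_lit 6320985041) (nat_lit 149) (nat_lit 5) (nat_lit 156) (nat_lit 5) (nat_lit 150) (nat_lit 4) (nat_lit 311) (nat_lit 237) (nat_lit 232)) (XT.lf (nat_lit 0) (nat_lit 490542368) (nat_lit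 380) (nat_lit 8432755560) (nat_lit 380) (nat_lit 849967044) (nat_lit 139) (nat_lit 4) (nat_lit 144) (nat_lit 5) (nat_lit 144) (nat_lit 4) (nat_lit 312) (nat_lit 237) (nat_lit 231)))) (XT.nd (nat_lit 78) (nat_lit 760) (nat_lit 0) (XT.lf (nat_lit 0) (nat_lit 1035051149) (nat_lit 380) (nat_lit 3794639807) (nat_lit 456) (nat_lit 5092360099) (nat_lit 133) (nat_lit 5) (nat_lit 138) (nat_lit 5) (nat_lit 139) (nat_lit 4) (nat_lit 313) (nat_lit 237) (nat_lit 230)) (XT.nd (nat_lit 78) (nat_lit 304) (nat_lit 0) (XT.lf (nat_lit 0) (nat_lit 534626690) (nat_lit 456) (nat_lit 8553300221) (nat_lit 76) (nat_lit 988253417) (nat_lit 127) (nat_lit 5) (nat_lit 133) (nat_lit 5) (nat_lit 128) (nat_lit 4) (nat_lit 314) (nat_lit 237) (nat_lit 229)) (XT.lf (nat_lit 0) (nat_lit 1903080138) (nat_lit 304) (nat_lit 4328649235) (nat_lit 380) (nat_lit 4003176408) (nat_lit 123) (nat_lit 5) (nat_lit 127) (nat_lit 5) (nat_lit 128)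 (nat_lit 4) (nat_lit 315) (nat_lit 237) (nat_lit 228))))) (XT.nd (nat_lit 234) (nat_lit 1292) (nat_lit 0) (XT.nd (nat_lit 78) (nat_lit 684) (nat_lit 0) (XT.lf (nat_lit 0) (nat_lit 1628968715) (nat_lit 456) (nat_lit 8186097182) (nat_lit 76) (nat_lit 584160252) (nat_lit 117) (nat_lit 5) (nat_lit 123) (nat_lit 5) (nat_lit 118) (nat_lit 4) (nat_lit 316) (nat_lit 237) (nat_lit 227)) (XT.nd (nat_lit 78) (nat_lit 380) (nat_lit 0) (XT.lf (nat_lit 0) (nat_lit 2404010136) (nat_lit 304) (nat_lit 4948750461) (nat_lit 380) (nat_lit 3215696055) (nat_lit 113) (nat_lit 5) (nat_lit 117) (nat_lit 5) (nat_lit 118) (nat_lit 4) (nat_lit 317) (nat_lit 237) (nat_lit 226)) (XT.lf (nat_lit 0) (nat_lit 2422229049) (nat_lit 380) (nat_lit 8236714245) (nat_lit 76) (nat_lit 84552369) (nat_lit 108) (nat_lit 5) (nat_lit 113) (nat_lit 5) (nat_lit 109) (nat_lit 4) (nat_lit 318) (nat_lit 237) (nat_lit 225)))) (XT.nd (nat_lit 156)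 (nat_lit 608) (nat_lit 0) (XT.nd (nat_lit 78) (nat_lit 380) (nat_lit 0) (XT.lf (nat_lit 0) (nat_lit 2474669635) (nat_lit 304) (nat_lit 5694875375) (nat_lit 380) (nat_lit 2754184147) (nat_lit 104) (nat_lit 5) (nat_lit 108) (nat_lit 5) (nat_lit 109) (nat_lit 4) (nat_lit 319) (nat_lit 237) (nat_lit 224)) (XT.lf (nat_lit 0) (nat_lit 2334187488) (nat_lit 304) (nat_lit 558303096) (nat_lit 380) (nat_lit 8217503867) (nat_lit 99) (nat_lit 5) (nat_lit 103) (nat_lit 5) (nat_lit 104) (nat_lit 5) (nat_lit 320) (nat_lit 237) (nat_lit 223))) (XT.nd (nat_lit 78) (nat_lit 380) (nat_lit 0) (XT.lf (nat_lit 0) (nat_lit 2045702640) (nat_lit 228) (nat_lit 6609459301) (nat_lit 304) (nat_lit 2646685038) (nat_lit 96) (nat_lit 5) (nat_lit 99) (nat_lit 5) (nat_lit 100) (nat_lit 4) (nat_lit 321) (nat_lit 237) (nat_lit 222)) (XT.lf (nat_lit 0) (nat_lit 1624795907) (nat_lit 304) (nat_lit 1383652880) (nat_lit 380) (nat_lit 8491491803)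 (nat_lit 91) (nat_lit 5) (nat_lit 95) (nat_lit 5) (nat_lit 96) (nat_lit 5) (nat_lit 322) (nat_lit 237) (nat_lit 221)))))) (XT.nd (nat_lit 546) (nat_lit 1444) (nat_lit 0) (XT.nd (nat_lit 234) (nat_lit 1064) (nat_lit 0) (XT.nd (nat_lit 78) (nat_lit 380) (nat_lit 0) (XT.lf (nat_lit 0) (nat_lit 1040821564) (nat_lit 228) (nat_lit 7737865450) (nat_lit 304) (nat_lit 2925352293) (nat_lit 88) (nat_lit 5) (nat_lit 91) (nat_lit 5) (nat_lit 92) (nat_lit 4) (nat_lit 323) (nat_lit 237) (nat_lit 220)) (XT.nd (nat_lit 78) (nat_lit 0) (nat_lit 0) (XT.lf (nat_lit 0) (nat_lit 299077015) (nat_lit 304) (nat_lit 2437144117) (nat_lit 380) (nat_lit 9178408190) (nat_lit 83) (nat_lit 5) (nat_lit 87) (nat_lit 5) (nat_lit 88) (nat_lit 5) (nat_lit 324) (nat_lit 237) (nat_lit 219)) (XT.lf (nat_lit 0) (nat_lit 8508881610) (nat_lit 380) (nat_lit 615828137) (nat_lit 76) (nat_lit 3006858180) (nat_lit 83) (nat_lit 5) (nat_lit 88)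 (nat_lit 5) (nat_lit 84) (nat_lit 4) (nat_lit 325) (nat_lit 237) (nat_lit 218)))) (XT.nd (nat_lit 156) (nat_lit 532) (nat_lit 0) (XT.nd (nat_lit 78) (nat_lit 228) (nat_lit 0) (XT.lf (nat_lit 0) (nat_lit 2049142469) (nat_lit 304) (nat_lit 1708547250) (nat_lit 76) (nat_lit 8597548354) (nat_lit 79) (nat_lit 5) (nat_lit 83) (nat_lit 5) (nat_lit 80) (nat_lit 5) (nat_lit 326) (nat_lit 237) (nat_lit 217)) (XT.lf (nat_lit 0) (nat_lit 7813277636) (nat_lit 304) (nat_lit 3001598157) (nat_lit 76) (nat_lit 1770870686) (nat_lit 76) (nat_lit 5) (nat_lit 80) (nat_lit 5) (nat_lit 77) (nat_lit 4) (nat_lit 327) (nat_lit 237) (nat_lit 216))) (XT.nd (nat_lit 78) (nat_lit 228) (nat_lit 0) (XT.lf (nat_lit 0) (nat_lit 900208142) (nat_lit 304) (nat_lit 4503755242) (nat_lit 76) (nat_lit 7419415137) (nat_lit 72) (nat_lit 5) (nat_lit 76) (nat_lit 5) (nat_lit 73) (nat_lit 5) (nat_lit 328) (nat_lit 237) (nat_lit 215)) (XT.lf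 (nat_lit 0) (nat_lit 6640497731) (nat_lit 304) (nat_lit 6231125727) (nat_lit 76) (nat_lit 196671572) (nat_lit 69) (nat_lit 5) (nat_lit 73) (nat_lit 5) (nat_lit 70) (nat_lit 4) (nat_lit 329) (nat_lit 237) (nat_lit 214))))) (XT.nd (nat_lit 234) (nat_lit 760) (nat_lit 0) (XT.nd (nat_lit 78) (nat_lit 456) (nat_lit 0) (XT.lf (nat_lit 0) (nat_lit 5119002584) (nat_lit 228) (nat_lit 7431314024) (nat_lit 304) (nat_lit 770326937) (nat_lit 66) (nat_lit 5) (nat_lit 69) (nat_lit 5) (nat_lit 70) (nat_lit 4) (nat_lit 330) (nat_lit 237) (nat_lit 213)) (XT.nd (nat_lit 78) (nat_lit 152) (nat_lit 0) (XT.lf (nat_lit 0) (nat_lit 3153043768) (nat_lit 228) (nat_lit 1798900671) (nat_lit 304) (nat_lit 8628762889) (nat_lit 62) (nat_lit 5) (nat_lit 65) (nat_lit 5) (nat_lit 66) (nat_lit 5) (nat_lit 331) (nat_lit 237) (nat_lit 212)) (XT.lf (nat_lit 0) (nat_lit 924569301) (nat_lit 152) (nat_lit 9898695566) (nat_lit 228) (nat_lit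 3025477966) (nat_lit 60) (nat_lit 5) (nat_lit 62) (nat_lit 5) (nat_lit 63) (nat_lit 4) (nat_lit 332) (nat_lit 237) (nat_lit 211)))) (XT.nd (nat_lit 156) (nat_lit 456) (nat_lit 0) (XT.nd (nat_lit 78) (nat_lit 228) (nat_lit 0) (XT.lf (nat_lit 0) (nat_lit 2694061491) (nat_lit 228) (nat_lit 1561448186) (nat_lit 76) (nat_lit 9869296981) (nat_lit 59) (nat_lit 5) (nat_lit 62) (nat_lit 5) (nat_lit 60) (nat_lit 5) (nat_lit 333) (nat_lit 237) (nat_lit 210)) (XT.lf (nat_lit 0) (nat_lit 8523972760) (nat_lit 304) (nat_lit 4328285266) (nat_lit 76) (nat_lit 1556923013) (nat_lit 56) (nat_lit 5) (nat_lit 60) (nat_lit 5) (nat_lit 57) (nat_lit 4) (nat_lit 334) (nat_lit 237) (nat_lit 209))) (XT.nd (nat_lit 78) (nat_lit 304) (nat_lit 0) (XT.lf (nat_lit 0) (nat_lit 7297413162) (nat_lit 152) (nat_lit 7223080762) (nat_lit 228) (nat_lit 181784117) (nat_lit 54) (nat_lit 5) (nat_lit 56) (nat_lit 5) (nat_lit 57) (nat_lit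 4) (nat_lit 335) (nat_lit 237) (nat_lit 208)) (XT.lf (nat_lit 0) (nat_lit 4184858865) (nat_lit 228) (nat_lit 1396227389) (nat_lit 304) (nat_lit 9423106786) (nat_lit 50) (nat_lit 5) (nat_lit 53) (nat_lit 5) (nat_lit 54) (nat_lit 5) (nat_lit 336) (nat_lit 237) (nat_lit 207))))))))
noncomputable def xc17 : XT := (XT.nd (nat_lit 2106) (nat_lit 76) (nat_lit 0) (XT.nd (nat_lit 1014) (nat_lit 1140) (nat_lit 0) (XT.nd (nat_lit 468) (nat_lit 836) (nat_lit 0) (XT.nd (nat_lit 234) (nat_lit 380) (nat_lit 0) (XT.nd (nat_lit 78) (nat_lit 304) (nat_lit 0) (XT.lf (nat_lit 0) (nat_lit 728322076) (nat_lit 152) (nat_lit 10778791946) (nat_lit 228) (nat_lit 3808196309) (nat_lit 48) (nat_lit 5) (nat_lit 50) (nat_lit 5) (nat_lit 51) (nat_lit 4) (nat_lit 337) (nat_lit 237) (nat_lit 206)) (XT.nd (nat_lit 78) (nat_lit 228) (nat_lit 0) (XT.lf (nat_lit 0) (nat_lit 1941032332) (nat_lit 228) (nat_lit 3044341742) (nat_lit 76)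 (nat_lit 10650317629) (nat_lit 47) (nat_lit 5) (nat_lit 50) (nat_lit 5) (nat_lit 48) (nat_lit 5) (nat_lit 338) (nat_lit 237) (nat_lit 205)) (XT.lf (nat_lit 0) (nat_lit 7786106323) (nat_lit 304) (nat_lit 7191357008) (nat_lit 76) (nat_lit 988237500) (nat_lit 44) (nat_lit 5) (nat_lit 48) (nat_lit 5) (nat_lit 45) (nat_lit 4) (nat_lit 339) (nat_lit 237) (nat_lit 204)))) (XT.nd (nat_lit 78) (nat_lit 228) (nat_lit 0) (XT.lf (nat_lit 0) (nat_lit 4558201349) (nat_lit 152) (nat_lit 9244520644) (nat_lit 228) (nat_lit 2502985709) (nat_lit 42) (nat_lit 5) (nat_lit 44) (nat_lit 5) (nat_lit 45) (nat_lit 4) (nat_lit 340) (nat_lit 237) (nat_lit 203)) (XT.nd (nat_lit 78) (nat_lit 152) (nat_lit 0) (XT.lf (nat_lit 0) (nat_lit 3262595444) (nat_lit 228) (nat_lit 69160290) (nat_lit 76) (nat_lit 13324494455) (nat_lit 41) (nat_lit 5) (nat_lit 44) (nat_lit 5) (nat_lit 42) (nat_lit 5) (nat_lit 341) (nat_lit 237) (nat_lit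 202)) (XT.lf (nat_lit 0) (nat_lit 9179064699) (nat_lit 228) (nat_lit 5082160846) (nat_lit 76) (nat_lit 2755533629) (nat_lit 39) (nat_lit 5) (nat_lit 42) (nat_lit 5) (nat_lit 40) (nat_lit 4) (nat_lit 342) (nat_lit 237) (nat_lit 201))))) (XT.nd (nat_lit 234) (nat_lit 456) (nat_lit 0) (XT.nd (nat_lit 78) (nat_lit 228) (nat_lit 0) (XT.lf (nat_lit 0) (nat_lit 6833310767) (nat_lit 152) (nat_lit 8423944149) (nat_lit 228) (nat_lit 2131163048) (nat_lit 37) (nat_lit 5) (nat_lit 39) (nat_lit 5) (nat_lit 40) (nat_lit 4) (nat_lit 343) (nat_lit 237) (nat_lit 200)) (XT.nd (nat_lit 78) (nat_lit 0) (nat_lit 0) (XT.lf (nat_lit 0) (nat_lit 1253038147) (nat_lit 152) (nat_lit 2405227510) (nat_lit 228) (nat_lit 14113275746) (nat_lit 34) (nat_lit 5) (nat_lit 36) (nat_lit 5) (nat_lit 37) (nat_lit 5) (nat_lit 344) (nat_lit 237) (nat_lit 199)) (XT.lf (nat_lit 0) (nat_lit 9608325171) (nat_lit 228) (nat_lit 4787187610) (nat_lit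 76) (nat_lit 3770063609) (nat_lit 34) (nat_lit 5) (nat_lit 37) (nat_lit 5) (nat_lit 35) (nat_lit 4) (nat_lit 345) (nat_lit 237) (nat_lit 198)))) (XT.nd (nat_lit 156) (nat_lit 76) (nat_lit 0) (XT.nd (nat_lit 78) (nat_lit 228) (nat_lit 0) (XT.lf (nat_lit 0) (nat_lit 7236041773) (nat_lit 152) (nat_lit 8485372007) (nat_lit 228) (nat_lit 2850345212) (nat_lit 32) (nat_lit 5) (nat_lit 34) (nat_lit 5) (nat_lit 35) (nat_lit 4) (nat_lit 346) (nat_lit 237) (nat_lit 197)) (XT.lf (nat_lit 0) (nat_lit 545662125) (nat_lit 152) (nat_lit 2400928014) (nat_lit 228) (nat_lit 16043989419) (nat_lit 29) (nat_lit 5) (nat_lit 31) (nat_lit 5) (nat_lit 32) (nat_lit 5) (nat_lit 347) (nat_lit 237) (nat_lit 196))) (XT.nd (nat_lit 78) (nat_lit 76) (nat_lit 0) (XT.lf (nat_lit 0) (nat_lit 8904687183) (nat_lit 228) (nat_lit 6663015019) (nat_lit 76) (nat_lit 3853381964) (nat_lit 29) (nat_lit 5) (nat_lit 32) (nat_lit 5) (nat_lit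 30) (nat_lit 4) (nat_lit 348) (nat_lit 237) (nat_lit 195)) (XT.lf (nat_lit 0) (nat_lit 5394451855) (nat_lit 76) (nat_lit 9623722550) (nat_lit 152) (nat_lit 4846811915) (nat_lit 28) (nat_lit 5) (nat_lit 29) (nat_lit 5) (nat_lit 30) (nat_lit 4) (nat_lit 349) (nat_lit 237) (nat_lit 194)))))) (XT.nd (nat_lit 546) (nat_lit 532) (nat_lit 0) (XT.nd (nat_lit 234) (nat_lit 304) (nat_lit 0) (XT.nd (nat_lit 78) (nat_lit 228) (nat_lit 0) (XT.lf (nat_lit 0) (nat_lit 951677892) (nat_lit 152) (nat_lit 2554628276) (nat_lit 76) (nat_lit 16816348283) (nat_lit 27) (nat_lit 5) (nat_lit 29) (nat_lit 5) (nat_lit 28) (nat_lit 5) (nat_lit 350) (nat_lit 237) (nat_lit 193)) (XT.nd (nat_lit 78) (nat_lit 76) (nat_lit 0) (XT.lf (nat_lit 0) (nat_lit 6868479362) (nat_lit 228) (nat_lit 11126228051) (nat_lit 76) (nat_lit 2798514530) (nat_lit 25) (nat_lit 5) (nat_lit 28) (nat_lit 5) (nat_lit 26) (nat_lit 4) (nat_lit 351) (nat_lit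 237) (nat_lit 192)) (XT.lf (nat_lit 0) (nat_lit 873984257) (nat_lit 76) (nat_lit 12064789285) (nat_lit 152) (nat_lit 8339626918) (nat_lit 24) (nat_lit 5) (nat_lit 25) (nat_lit 5) (nat_lit 26) (nat_lit 4) (nat_lit 352) (nat_lit 237) (nat_lit 191)))) (XT.nd (nat_lit 156) (nat_lit 76) (nat_lit 0) (XT.nd (nat_lit 78) (nat_lit 228) (nat_lit 0) (XT.lf (nat_lit 0) (nat_lit 13261966262) (nat_lit 76) (nat_lit 5935292045) (nat_lit 152) (nat_lit 2580767766) (nat_lit 24) (nat_lit 5) (nat_lit 25) (nat_lit 5) (nat_lit 26) (nat_lit 4) (nat_lit 353) (nat_lit 237) (nat_lit 190)) (XT.lf (nat_lit 0) (nat_lit 3265149375) (nat_lit 228) (nat_lit 18662486595) (nat_lit 76) (nat_lit 365417306) (nat_lit 21) (nat_lit 5) (nat_lit 24) (nat_lit 5) (nat_lit 22) (nat_lit 4) (nat_lit 354) (nat_lit 237) (nat_lit 189))) (XT.nd (nat_lit 78) (nat_lit 76) (nat_lit 0) (XT.lf (nat_lit 0) (nat_lit 9282459574) (nat_lit 228) (nat_lit 6742390146)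 (nat_lit 76) (nat_lit 6797731197) (nat_lit 21) (nat_lit 5) (nat_lit 24) (nat_lit 5) (nat_lit 22) (nat_lit 4) (nat_lit 355) (nat_lit 237) (nat_lit 188)) (XT.lf (nat_lit 0) (nat_lit 5489989742) (nat_lit 76) (nat_lit 9960989219) (nat_lit 152) (nat_lit 7917613626) (nat_lit 20) (nat_lit 5) (nat_lit 21) (nat_lit 5) (nat_lit 22) (nat_lit 4) (nat_lit 356) (nat_lit 237) (nat_lit 187))))) (XT.nd (nat_lit 234) (nat_lit 304) (nat_lit 0) (XT.nd (nat_lit 78) (nat_lit 228) (nat_lit 0) (XT.lf (nat_lit 0) (nat_lit 18066213676) (nat_lit 76) (nat_lit 3720216562) (nat_lit 152) (nat_lit 2144928493) (nat_lit 20) (nat_lit 5) (nat_lit 21) (nat_lit 5) (nat_lit 22) (nat_lit 4) (nat_lit 357) (nat_lit 237) (nat_lit 186)) (XT.nd (nat_lit 78) (nat_lit 0) (nat_lit 0) (XT.lf (nat_lit 0) (nat_lit 3748321223) (nat_lit 228) (nat_lit 18072817467) (nat_lit 76) (nat_lit 2689442012) (nat_lit 17) (nat_lit 5) (nat_lit 20) (nat_lit 5)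 (nat_lit 18) (nat_lit 4) (nat_lit 358) (nat_lit 237) (nat_lit 185)) (XT.lf (nat_lit 0) (nat_lit 9792676697) (nat_lit 228) (nat_lit 6067806752) (nat_lit 76) (nat_lit 9246354101) (nat_lit 17) (nat_lit 5) (nat_lit 20) (nat_lit 5) (nat_lit 18) (nat_lit 4) (nat_lit 359) (nat_lit 237) (nat_lit 184)))) (XT.nd (nat_lit 156) (nat_lit 228) (nat_lit 0) (XT.nd (nat_lit 78) (nat_lit 0) (nat_lit 0) (XT.lf (nat_lit 0) (nat_lit 6270881442) (nat_lit 76) (nat_lit 9728387671) (nat_lit 152) (nat_lit 9722105316) (nat_lit 16) (nat_lit 5) (nat_lit 17) (nat_lit 5) (nat_lit 18) (nat_lit 4) (nat_lit 360) (nat_lit 237) (nat_lit 183)) (XT.lf (nat_lit 0) (nat_lit 18955834598) (nat_lit 76) (nat_lit 3418581221) (nat_lit 152) (nat_lit 3980294613) (nat_lit 16) (nat_lit 5) (nat_lit 17) (nat_lit 5) (nat_lit 18) (nat_lit 4) (nat_lit 361) (nat_lit 237) (nat_lit 182))) (XT.nd (nat_lit 78) (nat_lit 0) (nat_lit 0) (XT.lf (nat_lit 0)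 (nat_lit 1903180679) (nat_lit 228) (nat_lit 22065096358) (nat_lit 76) (nat_lit 3038632590) (nat_lit 13) (nat_lit 5) (nat_lit 16) (nat_lit 5) (nat_lit 14) (nat_lit 4) (nat_lit 362) (nat_lit 237) (nat_lit 181)) (XT.lf (nat_lit 0) (nat_lit 7925988644) (nat_lit 228) (nat_lit 10077233291) (nat_lit 76) (nat_lit 9674597945) (nat_lit 13) (nat_lit 5) (nat_lit 16) (nat_lit 5) (nat_lit 14) (nat_lit 4) (nat_lit 363) (nat_lit 237) (nat_lit 180))))))) (XT.nd (nat_lit 36894) (nat_lit 0) (nat_lit 4332) (XT.nd (nat_lit 36348) (nat_lit 0) (nat_lit 8436) (XT.nd (nat_lit 36036) (nat_lit 0) (nat_lit 11856) (XT.nd (nat_lit 78) (nat_lit 0) (nat_lit 0) (XT.lf (nat_lit 0) (nat_lit 2198369850) (nat_lit 76) (nat_lit 11890302759) (nat_lit 152) (nat_lit 14281010100) (nat_lit 12) (nat_lit 5) (nat_lit 13) (nat_lit 5) (nat_lit 14) (nat_lit 4) (nat_lit 364) (nat_lit 237) (nat_lit 179)) (XT.nd (nat_lit 35880) (nat_lit 0) (nat_lit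 13908) (XT.lf (nat_lit 0) (nat_lit 14881086203) (nat_lit 76) (nat_lit 5569316826) (nat_lit 152) (nat_lit 8631623914) (nat_lit 12) (nat_lit 5) (nat_lit 13) (nat_lit 5) (nat_lit 14) (nat_lit 4) (nat_lit 365) (nat_lit 237) (nat_lit 178)) (XT.lf (nat_lit 0) (nat_lit 729841941) (nat_lit 532) (nat_lit 2912580733) (nat_lit 0) (nat_lit 729841941) (nat_lit 195) (nat_lit 5) (nat_lit 202) (nat_lit 4) (nat_lit 195) (nat_lit 4) (nat_lit 304) (nat_lit 238) (nat_lit 238)))) (XT.nd (nat_lit 156) (nat_lit 988) (nat_lit 0) (XT.nd (nat_lit 78) (nat_lit 532) (nat_lit 0) (XT.lf (nat_lit 0) (nat_lit 3879443613) (nat_lit 532) (nat_lit 3247402643) (nat_lit 532) (nat_lit 1732253283) (nat_lit 188) (nat_lit 4) (nat_lit 195) (nat_lit 5) (nat_lit 195) (nat_lit 4) (nat_lit 305) (nat_lit 238) (nat_lit 237)) (XT.lf (nat_lit 0) (nat_lit 3871297721) (nat_lit 532) (nat_lit 4162953635) (nat_lit 0) (nat_lit 943681881) (nat_lit 181)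 (nat_lit 5) (nat_lit 188) (nat_lit 4) (nat_lit 181) (nat_lit 4) (nat_lit 306) (nat_lit 238) (nat_lit 236))) (XT.nd (nat_lit 78) (nat_lit 456) (nat_lit 0) (XT.lf (nat_lit 0) (nat_lit 467018107) (nat_lit 532) (nat_lit 3384409448) (nat_lit 76) (nat_lit 5249591403) (nat_lit 174) (nat_lit 5) (nat_lit 181) (nat_lit 5) (nat_lit 175) (nat_lit 4) (nat_lit 307) (nat_lit 238) (nat_lit 235)) (XT.lf (nat_lit 0) (nat_lit 6077072393) (nat_lit 532) (nat_lit 2649938821) (nat_lit 0) (nat_lit 501411065) (nat_lit 168) (nat_lit 5) (nat_lit 175) (nat_lit 4) (nat_lit 168) (nat_lit 4) (nat_lit 308) (nat_lit 238) (nat_lit 234))))) (XT.nd (nat_lit 234) (nat_lit 1976) (nat_lit 0) (XT.nd (nat_lit 78) (nat_lit 912) (nat_lit 0) (XT.lf (nat_lit 0) (nat_lit 2425790369) (nat_lit 532) (nat_lit 1969481143) (nat_lit 76) (nat_lit 4964865341) (nat_lit 161) (nat_lit 5) (nat_lit 168) (nat_lit 5) (nat_lit 162) (nat_lit 4) (nat_lit 309)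 (nat_lit 238) (nat_lit 233)) (XT.nd (nat_lit 78) (nat_lit 532) (nat_lit 0) (XT.lf (nat_lit 0) (nat_lit 8067313346) (nat_lit 456) (nat_lit 1328505620) (nat_lit 0) (nat_lit 100835731) (nat_lit 156) (nat_lit 5) (nat_lit 162) (nat_lit 4) (nat_lit 156) (nat_lit 4) (nat_lit 310) (nat_lit 238) (nat_lit 232)) (XT.lf (nat_lit 0) (nat_lit 4155652668) (nat_lit 532) (nat_lit 767784978) (nat_lit 76) (nat_lit 4713933509) (nat_lit 149) (nat_lit 5) (nat_lit 156) (nat_lit 5) (nat_lit 150) (nat_lit 4) (nat_lit 311) (nat_lit 238) (nat_lit 231)))) (XT.nd (nat_lit 156) (nat_lit 760) (nat_lit 0) (XT.nd (nat_lit 78) (nat_lit 760) (nat_lit 0) (XT.lf (nat_lit 0) (nat_lit 47698705) (nat_lit 456) (nat_lit 246793991) (nat_lit 76) (nat_lit 9488824684) (nat_lit 143) (nat_lit 5) (nat_lit 149) (nat_lit 5) (nat_lit 144) (nat_lit 5) (nat_lit 312) (nat_lit 238) (nat_lit 230)) (XT.lf (nat_lit 0) (nat_lit 175053570) (nat_lit 380)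 (nat_lit 5468871397) (nat_lit 456) (nat_lit 4289542453) (nat_lit 133) (nat_lit 5) (nat_lit 138) (nat_lit 5) (nat_lit 139) (nat_lit 4) (nat_lit 313) (nat_lit 238) (nat_lit 229))) (XT.nd (nat_lit 78) (nat_lit 304) (nat_lit 0) (XT.lf (nat_lit 0) (nat_lit 546243854) (nat_lit 380) (nat_lit 705430377) (nat_lit 456) (nat_lit 8837350295) (nat_lit 127) (nat_lit 5) (nat_lit 132) (nat_lit 5) (nat_lit 133) (nat_lit 5) (nat_lit 314) (nat_lit 238) (nat_lit 228)) (XT.lf (nat_lit 0) (nat_lit 810579138) (nat_lit 304) (nat_lit 6065184655) (nat_lit 380) (nat_lit 3373472919) (nat_lit 123) (nat_lit 5) (nat_lit 127) (nat_lit 5) (nat_lit 128) (nat_lit 4) (nat_lit 315) (nat_lit 238) (nat_lit 227)))))) (XT.nd (nat_lit 546) (nat_lit 1976) (nat_lit 0) (XT.nd (nat_lit 234) (nat_lit 988) (nat_lit 0) (XT.nd (nat_lit 78) (nat_lit 684) (nat_lit 0) (XT.lf (nat_lit 0) (nat_lit 997545334) (nat_lit 380) (nat_lit 1180534585) (nat_lit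 456) (nat_lit 8236867256) (nat_lit 117) (nat_lit 5) (nat_lit 122) (nat_lit 5) (nat_lit 123) (nat_lit 5) (nat_lit 316) (nat_lit 238) (nat_lit 226)) (XT.nd (nat_lit 78) (nat_lit 380) (nat_lit 0) (XT.lf (nat_lit 0) (nat_lit 1070791050) (nat_lit 304) (nat_lit 6755154289) (nat_lit 380) (nat_lit 2759775329) (nat_lit 113) (nat_lit 5) (nat_lit 117) (nat_lit 5) (nat_lit 118) (nat_lit 4) (nat_lit 317) (nat_lit 238) (nat_lit 225)) (XT.lf (nat_lit 0) (nat_lit 1043298962) (nat_lit 304) (nat_lit 1759941253) (nat_lit 380) (nat_lit 7958862145) (nat_lit 108) (nat_lit 5) (nat_lit 112) (nat_lit 5) (nat_lit 113) (nat_lit 5) (nat_lit 318) (nat_lit 238) (nat_lit 224)))) (XT.nd (nat_lit 156) (nat_lit 304) (nat_lit 0) (XT.nd (nat_lit 78) (nat_lit 380) (nat_lit 0) (XT.lf (nat_lit 0) (nat_lit 892364193) (nat_lit 304) (nat_lit 7578545477) (nat_lit 380) (nat_lit 2473041717) (nat_lit 104) (nat_lit 5) (nat_lit 108) (nat_lit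 5) (nat_lit 109) (nat_lit 4) (nat_lit 319) (nat_lit 238) (nat_lit 223)) (XT.lf (nat_lit 0) (nat_lit 617116410) (nat_lit 304) (nat_lit 2484443719) (nat_lit 380) (nat_lit 8030009275) (nat_lit 99) (nat_lit 5) (nat_lit 103) (nat_lit 5) (nat_lit 104) (nat_lit 5) (nat_lit 320) (nat_lit 238) (nat_lit 222))) (XT.nd (nat_lit 78) (nat_lit 76) (nat_lit 0) (XT.lf (nat_lit 0) (nat_lit 205764054) (nat_lit 228) (nat_lit 8577657651) (nat_lit 304) (nat_lit 2541637311) (nat_lit 96) (nat_lit 5) (nat_lit 99) (nat_lit 5) (nat_lit 100) (nat_lit 4) (nat_lit 321) (nat_lit 238) (nat_lit 221)) (XT.lf (nat_lit 0) (nat_lit 3045894237) (nat_lit 304) (nat_lit 349318491) (nat_lit 76) (nat_lit 8129270630) (nat_lit 95) (nat_lit 5) (nat_lit 99) (nat_lit 5) (nat_lit 96) (nat_lit 5) (nat_lit 322) (nat_lit 238) (nat_lit 220))))) (XT.nd (nat_lit 234) (nat_lit 1064) (nat_lit 0) (XT.nd (nat_lit 78) (nat_lit 608) (nat_lit 0) (XT.lf (nat_lit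 0) (nat_lit 8739165369) (nat_lit 380) (nat_lit 1051525654) (nat_lit 76) (nat_lit 1939449697) (nat_lit 91) (nat_lit 5) (nat_lit 96) (nat_lit 5) (nat_lit 92) (nat_lit 4) (nat_lit 323) (nat_lit 238) (nat_lit 219)) (XT.nd (nat_lit 78) (nat_lit 304) (nat_lit 0) (XT.lf (nat_lit 0) (nat_lit 2608375073) (nat_lit 304) (nat_lit 1924665385) (nat_lit 76) (nat_lit 7408978848) (nat_lit 87) (nat_lit 5) (nat_lit 91) (nat_lit 5) (nat_lit 88) (nat_lit 5) (nat_lit 324) (nat_lit 238) (nat_lit 218)) (XT.lf (nat_lit 0) (nat_lit 8301305792) (nat_lit 380) (nat_lit 2966272882) (nat_lit 76) (nat_lit 892991669) (nat_lit 83) (nat_lit 5) (nat_lit 88) (nat_lit 5) (nat_lit 84) (nat_lit 4) (nat_lit 325) (nat_lit 238) (nat_lit 217)))) (XT.nd (nat_lit 156) (nat_lit 532) (nat_lit 0) (XT.nd (nat_lit 78) (nat_lit 228) (nat_lit 0) (XT.lf (nat_lit 0) (nat_lit 1747359326) (nat_lit 304) (nat_lit 4204378164) (nat_lit 76) (nat_lit 6433916852)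 (nat_lit 79) (nat_lit 5) (nat_lit 83) (nat_lit 5) (nat_lit 80) (nat_lit 5) (nat_lit 326) (nat_lit 238) (nat_lit 216)) (XT.lf (nat_lit 0) (nat_lit 6981958845) (nat_lit 228) (nat_lit 449707240) (nat_lit 304) (nat_lit 5186109716) (nat_lit 76) (nat_lit 5) (nat_lit 79) (nat_lit 5) (nat_lit 80) (nat_lit 5) (nat_lit 327) (nat_lit 238) (nat_lit 215))) (XT.nd (nat_lit 78) (nat_lit 228) (nat_lit 0) (XT.lf (nat_lit 0) (nat_lit 420264459) (nat_lit 304) (nat_lit 7284850752) (nat_lit 76) (nat_lit 5151796591) (nat_lit 72) (nat_lit 5) (nat_lit 76) (nat_lit 5) (nat_lit 73) (nat_lit 5) (nat_lit 328) (nat_lit 238) (nat_lit 214)) (XT.lf (nat_lit 0) (nat_lit 3936603158) (nat_lit 228) (nat_lit 2153949204) (nat_lit 304) (nat_lit 7012691216) (nat_lit 69) (nat_lit 5) (nat_lit 72) (nat_lit 5) (nat_lit 73) (nat_lit 5) (nat_lit 329) (nat_lit 238) (nat_lit 213))))))))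
noncomputable def xc18 : XT := (XT.nd (nat_lit 2106) (nat_lit 684) (nat_lit 0) (XT.nd (nat_lit 1014) (nat_lit 1368) (nat_lit 0) (XT.nd (nat_lit 468) (nat_lit 1140) (nat_lit 0) (XT.nd (nat_lit 234) (nat_lit 608) (nat_lit 0) (XT.nd (nat_lit 78) (nat_lit 304) (nat_lit 0) (XT.lf (nat_lit 0) (nat_lit 2075382727) (nat_lit 228) (nat_lit 9842088956) (nat_lit 304) (nat_lit 1439793192) (nat_lit 66) (nat_lit 5) (nat_lit 69) (nat_lit 5) (nat_lit 70) (nat_lit 4) (nat_lit 330) (nat_lit 238) (nat_lit 212)) (XT.nd (nat_lit 78) (nat_lit 228) (nat_lit 0) (XT.lf (nat_lit 0) (nat_lit 4222206319) (nat_lit 304) (nat_lit 45702478) (nat_lit 76) (nat_lit 9350901912) (nat_lit 65) (nat_lit 5) (nat_lit 69) (nat_lit 5) (nat_lit 66) (nat_lit 5) (nat_lit 331) (nat_lit 238) (nat_lit 211)) (XT.lf (nat_lit 0) (nat_lit 10023293792) (nat_lit 304) (nat_lit 2389920321) (nat_lit 76) (nat_lit 1475050427) (nat_lit 62) (nat_lit 5) (nat_lit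 66) (nat_lit 5) (nat_lit 63) (nat_lit 4) (nat_lit 332) (nat_lit 238) (nat_lit 210)))) (XT.nd (nat_lit 78) (nat_lit 380) (nat_lit 0) (XT.lf (nat_lit 0) (nat_lit 1802408218) (nat_lit 228) (nat_lit 5022242381) (nat_lit 76) (nat_lit 7341063199) (nat_lit 59) (nat_lit 5) (nat_lit 62) (nat_lit 5) (nat_lit 60) (nat_lit 5) (nat_lit 333) (nat_lit 238) (nat_lit 209)) (XT.nd (nat_lit 78) (nat_lit 152) (nat_lit 0) (XT.lf (nat_lit 0) (nat_lit 6505597089) (nat_lit 228) (nat_lit 1047234067) (nat_lit 304) (nat_lit 6898859420) (nat_lit 56) (nat_lit 5) (nat_lit 59) (nat_lit 5) (nat_lit 60) (nat_lit 5) (nat_lit 334) (nat_lit 238) (nat_lit 208)) (XT.lf (nat_lit 0) (nat_lit 3560017372) (nat_lit 152) (nat_lit 9912941866) (nat_lit 228) (nat_lit 1273368464) (nat_lit 54) (nat_lit 5) (nat_lit 56) (nat_lit 5) (nat_lit 57) (nat_lit 4) (nat_lit 335) (nat_lit 238) (nat_lit 207))))) (XT.nd (nat_lit 234) (nat_lit 608) (nat_lit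 0) (XT.nd (nat_lit 78) (nat_lit 228) (nat_lit 0) (XT.lf (nat_lit 0) (nat_lit 282599670) (nat_lit 228) (nat_lit 4151073997) (nat_lit 304) (nat_lit 10616125343) (nat_lit 50) (nat_lit 5) (nat_lit 53) (nat_lit 5) (nat_lit 54) (nat_lit 5) (nat_lit 336) (nat_lit 238) (nat_lit 206)) (XT.nd (nat_lit 78) (nat_lit 228) (nat_lit 0) (XT.lf (nat_lit 0) (nat_lit 10292888520) (nat_lit 304) (nat_lit 3287373134) (nat_lit 76) (nat_lit 1782002238) (nat_lit 50) (nat_lit 5) (nat_lit 54) (nat_lit 5) (nat_lit 51) (nat_lit 4) (nat_lit 337) (nat_lit 238) (nat_lit 205)) (XT.lf (nat_lit 0) (nat_lit 630927878) (nat_lit 228) (nat_lit 7218298943) (nat_lit 76) (nat_lit 7834902317) (nat_lit 47) (nat_lit 5) (nat_lit 50) (nat_lit 5) (nat_lit 48) (nat_lit 5) (nat_lit 338) (nat_lit 238) (nat_lit 204)))) (XT.nd (nat_lit 156) (nat_lit 228) (nat_lit 0) (XT.nd (nat_lit 78) (nat_lit 152) (nat_lit 0) (XT.lf (nat_lit 0) (nat_lit 4477253684)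 (nat_lit 228) (nat_lit 1921881386) (nat_lit 304) (nat_lit 9616551003) (nat_lit 44) (nat_lit 5) (nat_lit 47) (nat_lit 5) (nat_lit 48) (nat_lit 5) (nat_lit 339) (nat_lit 238) (nat_lit 203)) (XT.lf (nat_lit 0) (nat_lit 92256104) (nat_lit 152) (nat_lit 12240167431) (nat_lit 228) (nat_lit 4024946120) (nat_lit 42) (nat_lit 5) (nat_lit 44) (nat_lit 5) (nat_lit 45) (nat_lit 4) (nat_lit 340) (nat_lit 238) (nat_lit 202))) (XT.nd (nat_lit 78) (nat_lit 152) (nat_lit 0) (XT.lf (nat_lit 0) (nat_lit 1719214877) (nat_lit 228) (nat_lit 4649041128) (nat_lit 76) (nat_lit 10340691066) (nat_lit 41) (nat_lit 5) (nat_lit 44) (nat_lit 5) (nat_lit 42) (nat_lit 5) (nat_lit 341) (nat_lit 238) (nat_lit 201)) (XT.lf (nat_lit 0) (nat_lit 7241359783) (nat_lit 152) (nat_lit 305428494) (nat_lit 228) (nat_lit 9524455091) (nat_lit 39) (nat_lit 5) (nat_lit 41) (nat_lit 5) (nat_lit 42) (nat_lit 5) (nat_lit 342) (nat_lit 238) (nat_lit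 200)))))) (XT.nd (nat_lit 546) (nat_lit 608) (nat_lit 0) (XT.nd (nat_lit 234) (nat_lit 380) (nat_lit 0) (XT.nd (nat_lit 78) (nat_lit 228) (nat_lit 0) (XT.lf (nat_lit 0) (nat_lit 1954054800) (nat_lit 152) (nat_lit 11597617022) (nat_lit 228) (nat_lit 3892705590) (nat_lit 37) (nat_lit 5) (nat_lit 39) (nat_lit 5) (nat_lit 40) (nat_lit 4) (nat_lit 343) (nat_lit 238) (nat_lit 199)) (XT.nd (nat_lit 78) (nat_lit 152) (nat_lit 0) (XT.lf (nat_lit 0) (nat_lit 1872490283) (nat_lit 228) (nat_lit 3756099627) (nat_lit 76) (nat_lit 12200095083) (nat_lit 36) (nat_lit 5) (nat_lit 39) (nat_lit 5) (nat_lit 37) (nat_lit 5) (nat_lit 344) (nat_lit 238) (nat_lit 198)) (XT.lf (nat_lit 0) (nat_lit 7738057746) (nat_lit 228) (nat_lit 9951183445) (nat_lit 76) (nat_lit 535177059) (nat_lit 34) (nat_lit 5) (nat_lit 37) (nat_lit 5) (nat_lit 35) (nat_lit 4) (nat_lit 345) (nat_lit 238) (nat_lit 197)))) (XT.nd (nat_lit 156) (nat_lit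 152) (nat_lit 0) (XT.nd (nat_lit 78) (nat_lit 76) (nat_lit 0) (XT.lf (nat_lit 0) (nat_lit 1936133270) (nat_lit 152) (nat_lit 11843040416) (nat_lit 228) (nat_lit 4852874805) (nat_lit 32) (nat_lit 5) (nat_lit 34) (nat_lit 5) (nat_lit 35) (nat_lit 4) (nat_lit 346) (nat_lit 238) (nat_lit 196)) (XT.lf (nat_lit 0) (nat_lit 929636876) (nat_lit 228) (nat_lit 4874518099) (nat_lit 76) (nat_lit 13247795650) (nat_lit 31) (nat_lit 5) (nat_lit 34) (nat_lit 5) (nat_lit 32) (nat_lit 5) (nat_lit 347) (nat_lit 238) (nat_lit 195))) (XT.nd (nat_lit 78) (nat_lit 0) (nat_lit 0) (XT.lf (nat_lit 0) (nat_lit 6796689753) (nat_lit 228) (nat_lit 12252992267) (nat_lit 76) (nat_lit 434601659) (nat_lit 29) (nat_lit 5) (nat_lit 32) (nat_lit 5) (nat_lit 30) (nat_lit 4) (nat_lit 348) (nat_lit 238) (nat_lit 194)) (XT.lf (nat_lit 0) (nat_lit 12839553992) (nat_lit 228) (nat_lit 329685450) (nat_lit 76) (nat_lit 6760366194) (nat_lit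 29) (nat_lit 5) (nat_lit 32) (nat_lit 5) (nat_lit 30) (nat_lit 4) (nat_lit 349) (nat_lit 238) (nat_lit 193))))) (XT.nd (nat_lit 234) (nat_lit 304) (nat_lit 0) (XT.nd (nat_lit 78) (nat_lit 228) (nat_lit 0) (XT.lf (nat_lit 0) (nat_lit 11983511696) (nat_lit 76) (nat_lit 7087836973) (nat_lit 152) (nat_lit 1316800163) (nat_lit 28) (nat_lit 5) (nat_lit 29) (nat_lit 5) (nat_lit 30) (nat_lit 4) (nat_lit 350) (nat_lit 238) (nat_lit 192)) (XT.nd (nat_lit 78) (nat_lit 0) (nat_lit 0) (XT.lf (nat_lit 0) (nat_lit 3704847001) (nat_lit 152) (nat_lit 821000955) (nat_lit 228) (nat_lit 16334874613) (nat_lit 25) (nat_lit 5) (nat_lit 27) (nat_lit 5) (nat_lit 28) (nat_lit 5) (nat_lit 351) (nat_lit 238) (nat_lit 191)) (XT.lf (nat_lit 0) (nat_lit 10551391101) (nat_lit 228) (nat_lit 5222337578) (nat_lit 76) (nat_lit 5573074016) (nat_lit 25) (nat_lit 5) (nat_lit 28) (nat_lit 5) (nat_lit 26) (nat_lit 4) (nat_lit 352) (nat_lit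 238) (nat_lit 190)))) (XT.nd (nat_lit 156) (nat_lit 152) (nat_lit 0) (XT.nd (nat_lit 78) (nat_lit 76) (nat_lit 0) (XT.lf (nat_lit 0) (nat_lit 7036682195) (nat_lit 76) (nat_lit 9705686310) (nat_lit 152) (nat_lit 5105416346) (nat_lit 24) (nat_lit 5) (nat_lit 25) (nat_lit 5) (nat_lit 26) (nat_lit 4) (nat_lit 353) (nat_lit 238) (nat_lit 189)) (XT.lf (nat_lit 0) (nat_lit 715216370) (nat_lit 152) (nat_lit 2751542089) (nat_lit 76) (nat_lit 18897555430) (nat_lit 23) (nat_lit 5) (nat_lit 25) (nat_lit 5) (nat_lit 24) (nat_lit 5) (nat_lit 354) (nat_lit 238) (nat_lit 188))) (XT.nd (nat_lit 78) (nat_lit 0) (nat_lit 0) (XT.lf (nat_lit 0) (nat_lit 6659798515) (nat_lit 228) (nat_lit 13267853665) (nat_lit 76) (nat_lit 2967649821) (nat_lit 21) (nat_lit 5) (nat_lit 24) (nat_lit 5) (nat_lit 22) (nat_lit 4) (nat_lit 355) (nat_lit 238) (nat_lit 187)) (XT.lf (nat_lit 0) (nat_lit 12761607787) (nat_lit 228) (nat_lit 1163586580)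 (nat_lit 76) (nat_lit 9517459245) (nat_lit 21) (nat_lit 5) (nat_lit 24) (nat_lit 5) (nat_lit 22) (nat_lit 4) (nat_lit 356) (nat_lit 238) (nat_lit 186))))))) (XT.nd (nat_lit 36660) (nat_lit 0) (nat_lit 7296) (XT.nd (nat_lit 468) (nat_lit 304) (nat_lit 0) (XT.nd (nat_lit 234) (nat_lit 76) (nat_lit 0) (XT.nd (nat_lit 78) (nat_lit 228) (nat_lit 0) (XT.lf (nat_lit 0) (nat_lit 11341973626) (nat_lit 76) (nat_lit 7716911224) (nat_lit 152) (nat_lit 4947303962) (nat_lit 20) (nat_lit 5) (nat_lit 21) (nat_lit 5) (nat_lit 22) (nat_lit 4) (nat_lit 357) (nat_lit 238) (nat_lit 185)) (XT.nd (nat_lit 78) (nat_lit 152) (nat_lit 0) (XT.lf (nat_lit 0) (nat_lit 893258611) (nat_lit 152) (nat_lit 463727813) (nat_lit 76) (nat_lit 23230582377) (nat_lit 19) (nat_lit 5) (nat_lit 21) (nat_lit 5) (nat_lit 20) (nat_lit 5) (nat_lit 358) (nat_lit 238) (nat_lit 184)) (XT.lf (nat_lit 0) (nat_lit 6896270296) (nat_lit 228) (nat_lit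 13097233920) (nat_lit 76) (nat_lit 5191153457) (nat_lit 17) (nat_lit 5) (nat_lit 20) (nat_lit 5) (nat_lit 18) (nat_lit 4) (nat_lit 359) (nat_lit 238) (nat_lit 183)))) (XT.nd (nat_lit 78) (nat_lit 76) (nat_lit 0) (XT.lf (nat_lit 0) (nat_lit 13033543829) (nat_lit 228) (nat_lit 892784574) (nat_lit 76) (nat_lit 11874257525) (nat_lit 17) (nat_lit 5) (nat_lit 20) (nat_lit 5) (nat_lit 18) (nat_lit 4) (nat_lit 360) (nat_lit 238) (nat_lit 182)) (XT.nd (nat_lit 78) (nat_lit 0) (nat_lit 0) (XT.lf (nat_lit 0) (nat_lit 11729152390) (nat_lit 76) (nat_lit 7645561421) (nat_lit 152) (nat_lit 7059892508) (nat_lit 16) (nat_lit 5) (nat_lit 17) (nat_lit 5) (nat_lit 18) (nat_lit 4) (nat_lit 361) (nat_lit 238) (nat_lit 181)) (XT.lf (nat_lit 0) (nat_lit 24641154786) (nat_lit 76) (nat_lit 1215626153) (nat_lit 152) (nat_lit 1231862706) (nat_lit 16) (nat_lit 5) (nat_lit 17) (nat_lit 5) (nat_lit 18) (nat_lit 4) (nat_lit 362)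 (nat_lit 238) (nat_lit 180))))) (XT.nd (nat_lit 35880) (nat_lit 0) (nat_lit 13376) (XT.nd (nat_lit 78) (nat_lit 76) (nat_lit 0) (XT.lf (nat_lit 0) (nat_lit 4755866422) (nat_lit 228) (nat_lit 17614739582) (nat_lit 76) (nat_lit 5390137039) (nat_lit 13) (nat_lit 5) (nat_lit 16) (nat_lit 5) (nat_lit 14) (nat_lit 4) (nat_lit 363) (nat_lit 238) (nat_lit 179)) (XT.nd (nat_lit 78) (nat_lit 76) (nat_lit 0) (XT.lf (nat_lit 0) (nat_lit 10877933665) (nat_lit 228) (nat_lit 5416142846) (nat_lit 76) (nat_lit 12159346049) (nat_lit 13) (nat_lit 5) (nat_lit 16) (nat_lit 5) (nat_lit 14) (nat_lit 4) (nat_lit 364) (nat_lit 238) (nat_lit 178)) (XT.lf (nat_lit 0) (nat_lit 7147203000) (nat_lit 76) (nat_lit 10030944698) (nat_lit 152) (nat_lit 11988853652) (nat_lit 12) (nat_lit 5) (nat_lit 13) (nat_lit 5) (nat_lit 14) (nat_lit 4) (nat_lit 365) (nat_lit 238) (nat_lit 177)))) (XT.nd (nat_lit 156) (nat_lit 1064) (nat_lit 0)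 (XT.nd (nat_lit 78) (nat_lit 532) (nat_lit 0) (XT.lf (nat_lit 0) (nat_lit 255833321) (nat_lit 608) (nat_lit 3751419428) (nat_lit 0) (nat_lit 255833321) (nat_lit 209) (nat_lit 5) (nat_lit 217) (nat_lit 4) (nat_lit 209) (nat_lit 4) (nat_lit 302) (nat_lit 239) (nat_lit 239)) (XT.lf (nat_lit 0) (nat_lit 1926346732) (nat_lit 532) (nat_lit 4149681024) (nat_lit 532) (nat_lit 2557865106) (nat_lit 202) (nat_lit 4) (nat_lit 209) (nat_lit 5) (nat_lit 209) (nat_lit 4) (nat_lit 303) (nat_lit 239) (nat_lit 238))) (XT.nd (nat_lit 78) (nat_lit 532) (nat_lit 0) (XT.lf (nat_lit 0) (nat_lit 2823610684) (nat_lit 456) (nat_lit 127319489) (nat_lit 532) (nat_lit 5795026271) (nat_lit 195) (nat_lit 5) (nat_lit 201) (nat_lit 5) (nat_lit 202) (nat_lit 4) (nat_lit 304) (nat_lit 239) (nat_lit 237)) (XT.lf (nat_lit 0) (nat_lit 3687011058) (nat_lit 532) (nat_lit 4860865451) (nat_lit 532) (nat_lit 314093453) (nat_lit 188) (nat_lit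 4) (nat_lit 195) (nat_lit 5) (nat_lit 195) (nat_lit 4) (nat_lit 305) (nat_lit 239) (nat_lit 236)))))) (XT.nd (nat_lit 546) (nat_lit 2660) (nat_lit 0) (XT.nd (nat_lit 234) (nat_lit 1900) (nat_lit 0) (XT.nd (nat_lit 78) (nat_lit 988) (nat_lit 0) (XT.lf (nat_lit 0) (nat_lit 4519884452) (nat_lit 456) (nat_lit 675575963) (nat_lit 532) (nat_lit 3786704067) (nat_lit 181) (nat_lit 5) (nat_lit 187) (nat_lit 5) (nat_lit 188) (nat_lit 4) (nat_lit 306) (nat_lit 239) (nat_lit 235)) (XT.nd (nat_lit 78) (nat_lit 456) (nat_lit 0) (XT.lf (nat_lit 0) (nat_lit 1696149611) (nat_lit 532) (nat_lit 3790956105) (nat_lit 76) (nat_lit 3619478102) (nat_lit 174) (nat_lit 5) (nat_lit 181) (nat_lit 5) (nat_lit 175) (nat_lit 4) (nat_lit 307) (nat_lit 239) (nat_lit 234)) (XT.lf (nat_lit 0) (nat_lit 6076635581) (nat_lit 456) (nat_lit 1157824117) (nat_lit 532) (nat_lit 2000996536) (nat_lit 168) (nat_lit 5) (nat_lit 174) (nat_lit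 5) (nat_lit 175) (nat_lit 4) (nat_lit 308) (nat_lit 239) (nat_lit 233)))) (XT.nd (nat_lit 156) (nat_lit 988) (nat_lit 0) (XT.nd (nat_lit 78) (nat_lit 380) (nat_lit 0) (XT.lf (nat_lit 0) (nat_lit 3485076763) (nat_lit 532) (nat_lit 2585955795) (nat_lit 76) (nat_lit 3297541031) (nat_lit 161) (nat_lit 5) (nat_lit 168) (nat_lit 5) (nat_lit 162) (nat_lit 4) (nat_lit 309) (nat_lit 239) (nat_lit 232)) (XT.lf (nat_lit 0) (nat_lit 7451880440) (nat_lit 380) (nat_lit 1606204494) (nat_lit 456) (nat_lit 448408410) (nat_lit 156) (nat_lit 5) (nat_lit 161) (nat_lit 5) (nat_lit 162) (nat_lit 4) (nat_lit 310) (nat_lit 239) (nat_lit 231))) (XT.nd (nat_lit 78) (nat_lit 456) (nat_lit 0) (XT.lf (nat_lit 0) (nat_lit 5045324029) (nat_lit 532) (nat_lit 1602139473) (nat_lit 76) (nat_lit 3001216943) (nat_lit 149) (nat_lit 5) (nat_lit 156) (nat_lit 5) (nat_lit 150) (nat_lit 4) (nat_lit 311) (nat_lit 239) (nat_lit 230)) (XT.lf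 (nat_lit 0) (nat_lit 846664396) (nat_lit 456) (nat_lit 1201429420) (nat_lit 76) (nat_lit 7747804968) (nat_lit 143) (nat_lit 5) (nat_lit 149) (nat_lit 5) (nat_lit 144) (nat_lit 5) (nat_lit 312) (nat_lit 239) (nat_lit 229))))) (XT.nd (nat_lit 234) (nat_lit 1444) (nat_lit 0) (XT.nd (nat_lit 78) (nat_lit 836) (nat_lit 0) (XT.lf (nat_lit 0) (nat_lit 6362731752) (nat_lit 456) (nat_lit 887515849) (nat_lit 76) (nat_lit 2697432210) (nat_lit 138) (nat_lit 5) (nat_lit 144) (nat_lit 5) (nat_lit 139) (nat_lit 4) (nat_lit 313) (nat_lit 239) (nat_lit 228)) (XT.nd (nat_lit 78) (nat_lit 380) (nat_lit 0) (XT.lf (nat_lit 0) (nat_lit 1877064440) (nat_lit 456) (nat_lit 645164851) (nat_lit 76) (nat_lit 7582341866) (nat_lit 132) (nat_lit 5) (nat_lit 138) (nat_lit 5) (nat_lit 133) (nat_lit 5) (nat_lit 314) (nat_lit 239) (nat_lit 227)) (XT.lf (nat_lit 0) (nat_lit 7420269540) (nat_lit 456) (nat_lit 494397562) (nat_lit 76)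 (nat_lit 2351759627) (nat_lit 127) (nat_lit 5) (nat_lit 133) (nat_lit 5) (nat_lit 128) (nat_lit 4) (nat_lit 315) (nat_lit 239) (nat_lit 226)))) (XT.nd (nat_lit 156) (nat_lit 684) (nat_lit 0) (XT.nd (nat_lit 78) (nat_lit 380) (nat_lit 0) (XT.lf (nat_lit 0) (nat_lit 2629920553) (nat_lit 380) (nat_lit 437634338) (nat_lit 76) (nat_lit 7365909474) (nat_lit 122) (nat_lit 5) (nat_lit 127) (nat_lit 5) (nat_lit 123) (nat_lit 5) (nat_lit 316) (nat_lit 239) (nat_lit 225)) (XT.lf (nat_lit 0) (nat_lit 8197814236) (nat_lit 456) (nat_lit 479963575) (nat_lit 76) (nat_lit 1928083229) (nat_lit 117) (nat_lit 5) (nat_lit 123) (nat_lit 5) (nat_lit 118) (nat_lit 4) (nat_lit 317) (nat_lit 239) (nat_lit 224))) (XT.nd (nat_lit 78) (nat_lit 304) (nat_lit 0) (XT.lf (nat_lit 0) (nat_lit 3083249780) (nat_lit 380) (nat_lit 638726486) (nat_lit 76) (nat_lit 7061585516) (nat_lit 112) (nat_lit 5) (nat_lit 117) (nat_lit 5) (nat_lit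 113) (nat_lit 5) (nat_lit 318) (nat_lit 239) (nat_lit 223)) (XT.lf (nat_lit 0) (nat_lit 8671897943) (nat_lit 380) (nat_lit 906873383) (nat_lit 76) (nat_lit 1388241855) (nat_lit 108) (nat_lit 5) (nat_lit 113) (nat_lit 5) (nat_lit 109) (nat_lit 4) (nat_lit 319) (nat_lit 239) (nat_lit 222))))))))
noncomputable def xc19 : XT := (XT.nd (nat_lit 2106) (nat_lit 1596) (nat_lit 0) (XT.nd (nat_lit 1014) (nat_lit 2128) (nat_lit 0) (XT.nd (nat_lit 468) (nat_lit 1596) (nat_lit 0) (XT.nd (nat_lit 234) (nat_lit 912) (nat_lit 0) (XT.nd (nat_lit 78) (nat_lit 608) (nat_lit 0) (XT.lf (nat_lit 0) (nat_lit 3211570374) (nat_lit 380) (nat_lit 1314134663) (nat_lit 76) (nat_lit 6630235597) (nat_lit 103) (nat_lit 5) (nat_lit 108) (nat_lit 5) (nat_lit 104) (nat_lit 5) (nat_lit 320) (nat_lit 239) (nat_lit 221)) (XT.nd (nat_lit 78) (nat_lit 304) (nat_lit 0) (XT.lf (nat_lit 0) (nat_lit 8815423489) (nat_lit 380) (nat_lit 1843939022)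 (nat_lit 76) (nat_lit 691648186) (nat_lit 99) (nat_lit 5) (nat_lit 104) (nat_lit 5) (nat_lit 100) (nat_lit 4) (nat_lit 321) (nat_lit 239) (nat_lit 220)) (XT.lf (nat_lit 0) (nat_lit 2985599780) (nat_lit 304) (nat_lit 2536060617) (nat_lit 76) (nat_lit 6030118464) (nat_lit 95) (nat_lit 5) (nat_lit 99) (nat_lit 5) (nat_lit 96) (nat_lit 5) (nat_lit 322) (nat_lit 239) (nat_lit 219)))) (XT.nd (nat_lit 78) (nat_lit 608) (nat_lit 0) (XT.lf (nat_lit 0) (nat_lit 8390847622) (nat_lit 304) (nat_lit 207846234) (nat_lit 380) (nat_lit 3160364651) (nat_lit 91) (nat_lit 5) (nat_lit 95) (nat_lit 5) (nat_lit 96) (nat_lit 5) (nat_lit 323) (nat_lit 239) (nat_lit 218)) (XT.nd (nat_lit 78) (nat_lit 304) (nat_lit 0) (XT.lf (nat_lit 0) (nat_lit 2371915479) (nat_lit 304) (nat_lit 4383985914) (nat_lit 76) (nat_lit 5216461368) (nat_lit 87) (nat_lit 5) (nat_lit 91) (nat_lit 5) (nat_lit 88) (nat_lit 5) (nat_lit 324) (nat_lit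 239) (nat_lit 217)) (XT.lf (nat_lit 0) (nat_lit 6624492811) (nat_lit 304) (nat_lit 1366686596) (nat_lit 380) (nat_lit 4201225048) (nat_lit 83) (nat_lit 5) (nat_lit 87) (nat_lit 5) (nat_lit 88) (nat_lit 5) (nat_lit 325) (nat_lit 239) (nat_lit 216))))) (XT.nd (nat_lit 234) (nat_lit 836) (nat_lit 0) (XT.nd (nat_lit 78) (nat_lit 456) (nat_lit 0) (XT.lf (nat_lit 0) (nat_lit 1332575225) (nat_lit 304) (nat_lit 6945518748) (nat_lit 76) (nat_lit 4141001539) (nat_lit 79) (nat_lit 5) (nat_lit 83) (nat_lit 5) (nat_lit 80) (nat_lit 5) (nat_lit 326) (nat_lit 239) (nat_lit 215)) (XT.nd (nat_lit 78) (nat_lit 228) (nat_lit 0) (XT.lf (nat_lit 0) (nat_lit 4121794062) (nat_lit 228) (nat_lit 2826803613) (nat_lit 304) (nat_lit 5704000987) (nat_lit 76) (nat_lit 5) (nat_lit 79) (nat_lit 5) (nat_lit 80) (nat_lit 5) (nat_lit 327) (nat_lit 239) (nat_lit 214)) (XT.lf (nat_lit 0) (nat_lit 2575005822) (nat_lit 228) (nat_lit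 10140840784) (nat_lit 304) (nat_lit 177636928) (nat_lit 73) (nat_lit 5) (nat_lit 76) (nat_lit 5) (nat_lit 77) (nat_lit 4) (nat_lit 328) (nat_lit 239) (nat_lit 213)))) (XT.nd (nat_lit 156) (nat_lit 532) (nat_lit 0) (XT.nd (nat_lit 78) (nat_lit 0) (nat_lit 0) (XT.lf (nat_lit 0) (nat_lit 782440131) (nat_lit 228) (nat_lit 4643647273) (nat_lit 304) (nat_lit 7715143628) (nat_lit 69) (nat_lit 5) (nat_lit 72) (nat_lit 5) (nat_lit 73) (nat_lit 5) (nat_lit 329) (nat_lit 239) (nat_lit 212)) (XT.lf (nat_lit 0) (nat_lit 11175645355) (nat_lit 304) (nat_lit 1207601036) (nat_lit 76) (nat_lit 1013567524) (nat_lit 69) (nat_lit 5) (nat_lit 73) (nat_lit 5) (nat_lit 70) (nat_lit 4) (nat_lit 330) (nat_lit 239) (nat_lit 211))) (XT.nd (nat_lit 78) (nat_lit 228) (nat_lit 0) (XT.lf (nat_lit 0) (nat_lit 3395916049) (nat_lit 304) (nat_lit 3458441927) (nat_lit 76) (nat_lit 6805220160) (nat_lit 65) (nat_lit 5) (nat_lit 69)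 (nat_lit 5) (nat_lit 66) (nat_lit 5) (nat_lit 331) (nat_lit 239) (nat_lit 210)) (XT.lf (nat_lit 0) (nat_lit 7972308148) (nat_lit 228) (nat_lit 1146241792) (nat_lit 304) (nat_lit 4812064369) (nat_lit 62) (nat_lit 5) (nat_lit 65) (nat_lit 5) (nat_lit 66) (nat_lit 5) (nat_lit 332) (nat_lit 239) (nat_lit 209)))))) (XT.nd (nat_lit 546) (nat_lit 988) (nat_lit 0) (XT.nd (nat_lit 234) (nat_lit 684) (nat_lit 0) (XT.nd (nat_lit 78) (nat_lit 228) (nat_lit 0) (XT.lf (nat_lit 0) (nat_lit 790697672) (nat_lit 228) (nat_lit 8745047244) (nat_lit 76) (nat_lit 4673995029) (nat_lit 59) (nat_lit 5) (nat_lit 62) (nat_lit 5) (nat_lit 60) (nat_lit 5) (nat_lit 333) (nat_lit 239) (nat_lit 208)) (XT.nd (nat_lit 78) (nat_lit 0) (nat_lit 0) (XT.lf (nat_lit 0) (nat_lit 2656657790) (nat_lit 228) (nat_lit 3814847351) (nat_lit 304) (nat_lit 8025616154) (nat_lit 56) (nat_lit 5) (nat_lit 59) (nat_lit 5) (nat_lit 60) (nat_lit 5)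 (nat_lit 334) (nat_lit 239) (nat_lit 207)) (XT.lf (nat_lit 0) (nat_lit 12306542192) (nat_lit 304) (nat_lit 438190518) (nat_lit 76) (nat_lit 2048739437) (nat_lit 56) (nat_lit 5) (nat_lit 60) (nat_lit 5) (nat_lit 57) (nat_lit 4) (nat_lit 335) (nat_lit 239) (nat_lit 206)))) (XT.nd (nat_lit 156) (nat_lit 228) (nat_lit 0) (XT.nd (nat_lit 78) (nat_lit 228) (nat_lit 0) (XT.lf (nat_lit 0) (nat_lit 3187788095) (nat_lit 228) (nat_lit 3838929227) (nat_lit 76) (nat_lit 8071359853) (nat_lit 53) (nat_lit 5) (nat_lit 56) (nat_lit 5) (nat_lit 54) (nat_lit 5) (nat_lit 336) (nat_lit 239) (nat_lit 205)) (XT.lf (nat_lit 0) (nat_lit 7841023582) (nat_lit 228) (nat_lit 1126287458) (nat_lit 304) (nat_lit 6444835857) (nat_lit 50) (nat_lit 5) (nat_lit 53) (nat_lit 5) (nat_lit 54) (nat_lit 5) (nat_lit 337) (nat_lit 239) (nat_lit 204))) (XT.nd (nat_lit 78) (nat_lit 76) (nat_lit 0) (XT.lf (nat_lit 0) (nat_lit 4064048672) (nat_lit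 152) (nat_lit 10856318469) (nat_lit 228) (nat_lit 815290304) (nat_lit 48) (nat_lit 5) (nat_lit 50) (nat_lit 5) (nat_lit 51) (nat_lit 4) (nat_lit 338) (nat_lit 239) (nat_lit 203)) (XT.lf (nat_lit 0) (nat_lit 4893353257) (nat_lit 228) (nat_lit 100667627) (nat_lit 76) (nat_lit 11074714657) (nat_lit 47) (nat_lit 5) (nat_lit 50) (nat_lit 5) (nat_lit 48) (nat_lit 5) (nat_lit 339) (nat_lit 239) (nat_lit 202))))) (XT.nd (nat_lit 234) (nat_lit 380) (nat_lit 0) (XT.nd (nat_lit 78) (nat_lit 380) (nat_lit 0) (XT.lf (nat_lit 0) (nat_lit 10764795520) (nat_lit 304) (nat_lit 4591981561) (nat_lit 76) (nat_lit 1054888837) (nat_lit 44) (nat_lit 5) (nat_lit 48) (nat_lit 5) (nat_lit 45) (nat_lit 4) (nat_lit 340) (nat_lit 239) (nat_lit 201)) (XT.nd (nat_lit 78) (nat_lit 152) (nat_lit 0) (XT.lf (nat_lit 0) (nat_lit 47976283) (nat_lit 228) (nat_lit 9508527213) (nat_lit 76) (nat_lit 7208371568) (nat_lit 41) (nat_lit 5)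 (nat_lit 44) (nat_lit 5) (nat_lit 42) (nat_lit 5) (nat_lit 341) (nat_lit 239) (nat_lit 200)) (XT.lf (nat_lit 0) (nat_lit 2248376615) (nat_lit 152) (nat_lit 3555749805) (nat_lit 228) (nat_lit 11324482529) (nat_lit 39) (nat_lit 5) (nat_lit 41) (nat_lit 5) (nat_lit 42) (nat_lit 5) (nat_lit 342) (nat_lit 239) (nat_lit 199)))) (XT.nd (nat_lit 156) (nat_lit 228) (nat_lit 0) (XT.nd (nat_lit 78) (nat_lit 152) (nat_lit 0) (XT.lf (nat_lit 0) (nat_lit 11736730131) (nat_lit 228) (nat_lit 3168317468) (nat_lit 76) (nat_lit 2598149847) (nat_lit 39) (nat_lit 5) (nat_lit 42) (nat_lit 5) (nat_lit 40) (nat_lit 4) (nat_lit 343) (nat_lit 239) (nat_lit 198)) (XT.lf (nat_lit 0) (nat_lit 8854269330) (nat_lit 152) (nat_lit 8998451196) (nat_lit 228) (nat_lit 36212356) (nat_lit 37) (nat_lit 5) (nat_lit 39) (nat_lit 5) (nat_lit 40) (nat_lit 4) (nat_lit 344) (nat_lit 239) (nat_lit 197))) (XT.nd (nat_lit 78) (nat_lit 0) (nat_lit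 0) (XT.lf (nat_lit 0) (nat_lit 2862518671) (nat_lit 152) (nat_lit 2891687217) (nat_lit 228) (nat_lit 12531985621) (nat_lit 34) (nat_lit 5) (nat_lit 36) (nat_lit 5) (nat_lit 37) (nat_lit 5) (nat_lit 345) (nat_lit 239) (nat_lit 196)) (XT.lf (nat_lit 0) (nat_lit 11727508312) (nat_lit 228) (nat_lit 3607443441) (nat_lit 76) (nat_lit 3360234213) (nat_lit 34) (nat_lit 5) (nat_lit 37) (nat_lit 5) (nat_lit 35) (nat_lit 4) (nat_lit 346) (nat_lit 239) (nat_lit 195))))))) (XT.nd (nat_lit 1092) (nat_lit 304) (nat_lit 0) (XT.nd (nat_lit 546) (nat_lit 532) (nat_lit 0) (XT.nd (nat_lit 234) (nat_lit 380) (nat_lit 0) (XT.nd (nat_lit 78) (nat_lit 228) (nat_lit 0) (XT.lf (nat_lit 0) (nat_lit 8528729747) (nat_lit 152) (nat_lit 9354118192) (nat_lit 228) (nat_lit 1233561214) (nat_lit 32) (nat_lit 5) (nat_lit 34) (nat_lit 5) (nat_lit 35) (nat_lit 4) (nat_lit 347) (nat_lit 239) (nat_lit 194)) (XT.nd (nat_lit 78) (nat_lit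 0) (nat_lit 0) (XT.lf (nat_lit 0) (nat_lit 1390363795) (nat_lit 152) (nat_lit 3183492746) (nat_lit 228) (nat_lit 14976569462) (nat_lit 29) (nat_lit 5) (nat_lit 31) (nat_lit 5) (nat_lit 32) (nat_lit 5) (nat_lit 348) (nat_lit 239) (nat_lit 193)) (XT.lf (nat_lit 0) (nat_lit 10561489663) (nat_lit 228) (nat_lit 6277649978) (nat_lit 76) (nat_lit 3157720069) (nat_lit 29) (nat_lit 5) (nat_lit 32) (nat_lit 5) (nat_lit 30) (nat_lit 4) (nat_lit 349) (nat_lit 239) (nat_lit 192)))) (XT.nd (nat_lit 156) (nat_lit 228) (nat_lit 0) (XT.nd (nat_lit 78) (nat_lit 76) (nat_lit 0) (XT.lf (nat_lit 0) (nat_lit 5895936719) (nat_lit 76) (nat_lit 10824267930) (nat_lit 152) (nat_lit 3736666773) (nat_lit 28) (nat_lit 5) (nat_lit 29) (nat_lit 5) (nat_lit 30) (nat_lit 4) (nat_lit 350) (nat_lit 239) (nat_lit 191)) (XT.lf (nat_lit 0) (nat_lit 2080479542) (nat_lit 152) (nat_lit 2543577611) (nat_lit 76) (nat_lit 16306853596) (nat_lit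 27) (nat_lit 5) (nat_lit 29) (nat_lit 5) (nat_lit 28) (nat_lit 5) (nat_lit 351) (nat_lit 239) (nat_lit 190))) (XT.nd (nat_lit 78) (nat_lit 76) (nat_lit 0) (XT.lf (nat_lit 0) (nat_lit 8031722666) (nat_lit 228) (nat_lit 11609064047) (nat_lit 76) (nat_lit 1777696560) (nat_lit 25) (nat_lit 5) (nat_lit 28) (nat_lit 5) (nat_lit 26) (nat_lit 4) (nat_lit 352) (nat_lit 239) (nat_lit 189)) (XT.lf (nat_lit 0) (nat_lit 507254141) (nat_lit 76) (nat_lit 13641243645) (nat_lit 152) (nat_lit 7772457897) (nat_lit 24) (nat_lit 5) (nat_lit 25) (nat_lit 5) (nat_lit 26) (nat_lit 4) (nat_lit 353) (nat_lit 239) (nat_lit 188))))) (XT.nd (nat_lit 234) (nat_lit 304) (nat_lit 0) (XT.nd (nat_lit 78) (nat_lit 228) (nat_lit 0) (XT.lf (nat_lit 0) (nat_lit 13032002106) (nat_lit 76) (nat_lit 7432009454) (nat_lit 152) (nat_lit 1974198236) (nat_lit 24) (nat_lit 5) (nat_lit 25) (nat_lit 5) (nat_lit 26) (nat_lit 4) (nat_lit 354) (nat_lit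 239) (nat_lit 187)) (XT.nd (nat_lit 78) (nat_lit 0) (nat_lit 0) (XT.lf (nat_lit 0) (nat_lit 2861600959) (nat_lit 152) (nat_lit 1040549719) (nat_lit 228) (nat_lit 19069191829) (nat_lit 21) (nat_lit 5) (nat_lit 23) (nat_lit 5) (nat_lit 24) (nat_lit 5) (nat_lit 355) (nat_lit 239) (nat_lit 186)) (XT.lf (nat_lit 0) (nat_lit 9967043370) (nat_lit 228) (nat_lit 8053194838) (nat_lit 76) (nat_lit 5499199814) (nat_lit 21) (nat_lit 5) (nat_lit 24) (nat_lit 5) (nat_lit 22) (nat_lit 4) (nat_lit 356) (nat_lit 239) (nat_lit 185)))) (XT.nd (nat_lit 156) (nat_lit 228) (nat_lit 0) (XT.nd (nat_lit 78) (nat_lit 0) (nat_lit 0) (XT.lf (nat_lit 0) (nat_lit 4307213602) (nat_lit 76) (nat_lit 11882150326) (nat_lit 152) (nat_lit 7895113831) (nat_lit 20) (nat_lit 5) (nat_lit 21) (nat_lit 5) (nat_lit 22) (nat_lit 4) (nat_lit 357) (nat_lit 239) (nat_lit 184)) (XT.lf (nat_lit 0) (nat_lit 17043043648) (nat_lit 76) (nat_lit 5551484193)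 (nat_lit 152) (nat_lit 2072028036) (nat_lit 20) (nat_lit 5) (nat_lit 21) (nat_lit 5) (nat_lit 22) (nat_lit 4) (nat_lit 358) (nat_lit 239) (nat_lit 183))) (XT.nd (nat_lit 78) (nat_lit 0) (nat_lit 0) (XT.lf (nat_lit 0) (nat_lit 3854905254) (nat_lit 228) (nat_lit 20443093980) (nat_lit 76) (nat_lit 967984642) (nat_lit 17) (nat_lit 5) (nat_lit 20) (nat_lit 5) (nat_lit 18) (nat_lit 4) (nat_lit 359) (nat_lit 239) (nat_lit 182)) (XT.lf (nat_lit 0) (nat_lit 9964407756) (nat_lit 228) (nat_lit 8289125326) (nat_lit 76) (nat_lit 7628939324) (nat_lit 17) (nat_lit 5) (nat_lit 20) (nat_lit 5) (nat_lit 18) (nat_lit 4) (nat_lit 360) (nat_lit 239) (nat_lit 181)))))) (XT.nd (nat_lit 36036) (nat_lit 0) (nat_lit 11780) (XT.nd (nat_lit 234) (nat_lit 0) (nat_lit 0) (XT.nd (nat_lit 78) (nat_lit 228) (nat_lit 0) (XT.lf (nat_lit 0) (nat_lit 4184856461) (nat_lit 76) (nat_lit 12044776537) (nat_lit 152) (nat_lit 10288383404)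 (nat_lit 16) (nat_lit 5) (nat_lit 17) (nat_lit 5) (nat_lit 18) (nat_lit 4) (nat_lit 361) (nat_lit 239) (nat_lit 180)) (XT.nd (nat_lit 78) (nat_lit 228) (nat_lit 0) (XT.lf (nat_lit 0) (nat_lit 17048643612) (nat_lit 76) (nat_lit 5636566608) (nat_lit 152) (nat_lit 4487377880) (nat_lit 16) (nat_lit 5) (nat_lit 17) (nat_lit 5) (nat_lit 18) (nat_lit 4) (nat_lit 362) (nat_lit 239) (nat_lit 179)) (XT.lf (nat_lit 0) (nat_lit 1437163335) (nat_lit 228) (nat_lit 25476165073) (nat_lit 76) (nat_lit 933903875) (nat_lit 13) (nat_lit 5) (nat_lit 16) (nat_lit 5) (nat_lit 14) (nat_lit 4) (nat_lit 363) (nat_lit 239) (nat_lit 178)))) (XT.nd (nat_lit 35646) (nat_lit 0) (nat_lit 15504) (XT.nd (nat_lit 78) (nat_lit 0) (nat_lit 0) (XT.lf (nat_lit 0) (nat_lit 7533654416) (nat_lit 228) (nat_lit 13324339590) (nat_lit 76) (nat_lit 7682433545) (nat_lit 13) (nat_lit 5) (nat_lit 16) (nat_lit 5) (nat_lit 14) (nat_lit 4) (nat_lit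 364) (nat_lit 239) (nat_lit 177)) (XT.lf (nat_lit 0) (nat_lit 13762632841) (nat_lit 228) (nat_lit 900139579) (nat_lit 76) (nat_lit 14592662736) (nat_lit 13) (nat_lit 5) (nat_lit 16) (nat_lit 5) (nat_lit 14) (nat_lit 4) (nat_lit 365) (nat_lit 239) (nat_lit 176))) (XT.nd (nat_lit 78) (nat_lit 1216) (nat_lit 0) (XT.lf (nat_lit 0) (nat_lit 3786852519) (nat_lit 608) (nat_lit 186740562) (nat_lit 608) (nat_lit 186740562) (nat_lit 233) (nat_lit 4) (nat_lit 241) (nat_lit 5) (nat_lit 241) (nat_lit 4) (nat_lit 300) (nat_lit 240) (nat_lit 240)) (XT.lf (nat_lit 0) (nat_lit 82531313) (nat_lit 608) (nat_lit 5005922592) (nat_lit 608) (nat_lit 3333560788) (nat_lit 217) (nat_lit 4) (nat_lit 225) (nat_lit 5) (nat_lit 225) (nat_lit 4) (nat_lit 301) (nat_lit 240) (nat_lit 239))))) (XT.nd (nat_lit 234) (nat_lit 2052) (nat_lit 0) (XT.nd (nat_lit 78) (nat_lit 1064) (nat_lit 0) (XT.lf (nat_lit 0) (nat_lit 922659941) (nat_lit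 532) (nat_lit 1165792524) (nat_lit 608) (nat_lit 6439017454) (nat_lit 209) (nat_lit 5) (nat_lit 216) (nat_lit 5) (nat_lit 217) (nat_lit 4) (nat_lit 302) (nat_lit 240) (nat_lit 238)) (XT.nd (nat_lit 78) (nat_lit 532) (nat_lit 0) (XT.lf (nat_lit 0) (nat_lit 1737819693) (nat_lit 532) (nat_lit 5837896212) (nat_lit 532) (nat_lit 1061057550) (nat_lit 202) (nat_lit 4) (nat_lit 209) (nat_lit 5) (nat_lit 209) (nat_lit 4) (nat_lit 303) (nat_lit 240) (nat_lit 237)) (XT.lf (nat_lit 0) (nat_lit 2527501388) (nat_lit 456) (nat_lit 1831300206) (nat_lit 532) (nat_lit 4391266073) (nat_lit 195) (nat_lit 5) (nat_lit 201) (nat_lit 5) (nat_lit 202) (nat_lit 4) (nat_lit 304) (nat_lit 240) (nat_lit 236)))) (XT.nd (nat_lit 156) (nat_lit 988) (nat_lit 0) (XT.nd (nat_lit 78) (nat_lit 456) (nat_lit 0) (XT.lf (nat_lit 0) (nat_lit 995091768) (nat_lit 608) (nat_lit 5572282171) (nat_lit 76) (nat_lit 2300208446) (nat_lit 187)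 (nat_lit 5) (nat_lit 195) (nat_lit 5) (nat_lit 188) (nat_lit 4) (nat_lit 305) (nat_lit 240) (nat_lit 235)) (XT.lf (nat_lit 0) (nat_lit 4023758932) (nat_lit 456) (nat_lit 2408272144) (nat_lit 532) (nat_lit 2557110887) (nat_lit 181) (nat_lit 5) (nat_lit 187) (nat_lit 5) (nat_lit 188) (nat_lit 4) (nat_lit 306) (nat_lit 240) (nat_lit 234))) (XT.nd (nat_lit 78) (nat_lit 456) (nat_lit 0) (XT.lf (nat_lit 0) (nat_lit 2829869568) (nat_lit 532) (nat_lit 4396540360) (nat_lit 76) (nat_lit 1888620853) (nat_lit 174) (nat_lit 5) (nat_lit 181) (nat_lit 5) (nat_lit 175) (nat_lit 4) (nat_lit 307) (nat_lit 240) (nat_lit 233)) (XT.lf (nat_lit 0) (nat_lit 5372456669) (nat_lit 456) (nat_lit 2927883738) (nat_lit 532) (nat_lit 944952787) (nat_lit 168) (nat_lit 5) (nat_lit 174) (nat_lit 5) (nat_lit 175) (nat_lit 4) (nat_lit 308) (nat_lit 240) (nat_lit 232))))))))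
noncomputable def xc20 : XT := (XT.nd (nat_lit 2106) (nat_lit 3040) (nat_lit 0) (XT.nd (nat_lit 1014) (nat_lit 3268) (nat_lit 0) (XT.nd (nat_lit 468) (nat_lit 2508) (nat_lit 0) (XT.nd (nat_lit 234) (nat_lit 1292) (nat_lit 0) (XT.nd (nat_lit 78) (nat_lit 912) (nat_lit 0) (XT.lf (nat_lit 0) (nat_lit 4447852798) (nat_lit 532) (nat_lit 3405792278) (nat_lit 76) (nat_lit 1526248308) (nat_lit 161) (nat_lit 5) (nat_lit 168) (nat_lit 5) (nat_lit 162) (nat_lit 4) (nat_lit 309) (nat_lit 240) (nat_lit 231)) (XT.nd (nat_lit 78) (nat_lit 456) (nat_lit 0) (XT.lf (nat_lit 0) (nat_lit 428642880) (nat_lit 456) (nat_lit 2990452025) (nat_lit 76) (nat_lit 6100039150) (nat_lit 155) (nat_lit 5) (nat_lit 161) (nat_lit 5) (nat_lit 156) (nat_lit 5) (nat_lit 310) (nat_lit 240) (nat_lit 230)) (XT.lf (nat_lit 0) (nat_lit 5837206590) (nat_lit 532) (nat_lit 2644332514) (nat_lit 76) (nat_lit 1181338795) (nat_lit 149) (nat_lit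 5) (nat_lit 156) (nat_lit 5) (nat_lit 150) (nat_lit 4) (nat_lit 311) (nat_lit 240) (nat_lit 229)))) (XT.nd (nat_lit 78) (nat_lit 836) (nat_lit 0) (XT.lf (nat_lit 0) (nat_lit 1546713154) (nat_lit 456) (nat_lit 2366235522) (nat_lit 76) (nat_lit 5898423124) (nat_lit 143) (nat_lit 5) (nat_lit 149) (nat_lit 5) (nat_lit 144) (nat_lit 5) (nat_lit 312) (nat_lit 240) (nat_lit 228)) (XT.nd (nat_lit 78) (nat_lit 456) (nat_lit 0) (XT.lf (nat_lit 0) (nat_lit 6983429839) (nat_lit 456) (nat_lit 2160270866) (nat_lit 76) (nat_lit 821066132) (nat_lit 138) (nat_lit 5) (nat_lit 144) (nat_lit 5) (nat_lit 139) (nat_lit 4) (nat_lit 313) (nat_lit 240) (nat_lit 227)) (XT.lf (nat_lit 0) (nat_lit 2405554331) (nat_lit 456) (nat_lit 2044316651) (nat_lit 76) (nat_lit 5673078613) (nat_lit 132) (nat_lit 5) (nat_lit 138) (nat_lit 5) (nat_lit 133) (nat_lit 5) (nat_lit 314) (nat_lit 240) (nat_lit 226))))) (XT.nd (nat_lit 234) (nat_lit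 1368) (nat_lit 0) (XT.nd (nat_lit 78) (nat_lit 760) (nat_lit 0) (XT.lf (nat_lit 0) (nat_lit 7869159389) (nat_lit 456) (nat_lit 2006047511) (nat_lit 76) (nat_lit 411215216) (nat_lit 127) (nat_lit 5) (nat_lit 133) (nat_lit 5) (nat_lit 128) (nat_lit 4) (nat_lit 315) (nat_lit 240) (nat_lit 225)) (XT.nd (nat_lit 78) (nat_lit 380) (nat_lit 0) (XT.lf (nat_lit 0) (nat_lit 2986083553) (nat_lit 380) (nat_lit 2079560673) (nat_lit 76) (nat_lit 5389125709) (nat_lit 122) (nat_lit 5) (nat_lit 127) (nat_lit 5) (nat_lit 123) (nat_lit 5) (nat_lit 316) (nat_lit 240) (nat_lit 224)) (XT.lf (nat_lit 0) (nat_lit 8389230907) (nat_lit 380) (nat_lit 85269442) (nat_lit 456) (nat_lit 2154278854) (nat_lit 117) (nat_lit 5) (nat_lit 122) (nat_lit 5) (nat_lit 123) (nat_lit 5) (nat_lit 317) (nat_lit 240) (nat_lit 223)))) (XT.nd (nat_lit 156) (nat_lit 684) (nat_lit 0) (XT.nd (nat_lit 78) (nat_lit 304) (nat_lit 0) (XT.lf (nat_lit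 0) (nat_lit 3265994062) (nat_lit 380) (nat_lit 2532020480) (nat_lit 76) (nat_lit 5009808306) (nat_lit 112) (nat_lit 5) (nat_lit 117) (nat_lit 5) (nat_lit 113) (nat_lit 5) (nat_lit 318) (nat_lit 240) (nat_lit 222)) (XT.lf (nat_lit 0) (nat_lit 8066240284) (nat_lit 304) (nat_lit 712389798) (nat_lit 380) (nat_lit 2214185713) (nat_lit 108) (nat_lit 5) (nat_lit 112) (nat_lit 5) (nat_lit 113) (nat_lit 5) (nat_lit 319) (nat_lit 240) (nat_lit 221))) (XT.nd (nat_lit 78) (nat_lit 304) (nat_lit 0) (XT.lf (nat_lit 0) (nat_lit 3219486042) (nat_lit 380) (nat_lit 3467578672) (nat_lit 76) (nat_lit 4496127356) (nat_lit 103) (nat_lit 5) (nat_lit 108) (nat_lit 5) (nat_lit 104) (nat_lit 5) (nat_lit 320) (nat_lit 240) (nat_lit 220)) (XT.lf (nat_lit 0) (nat_lit 7246009618) (nat_lit 304) (nat_lit 1505688545) (nat_lit 380) (nat_lit 2628016478) (nat_lit 99) (nat_lit 5) (nat_lit 103) (nat_lit 5) (nat_lit 104) (nat_lit 5)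 (nat_lit 321) (nat_lit 240) (nat_lit 219)))))) (XT.nd (nat_lit 546) (nat_lit 1520) (nat_lit 0) (XT.nd (nat_lit 234) (nat_lit 836) (nat_lit 0) (XT.nd (nat_lit 78) (nat_lit 608) (nat_lit 0) (XT.lf (nat_lit 0) (nat_lit 2816963479) (nat_lit 304) (nat_lit 4958650705) (nat_lit 76) (nat_lit 3806447749) (nat_lit 95) (nat_lit 5) (nat_lit 99) (nat_lit 5) (nat_lit 96) (nat_lit 5) (nat_lit 322) (nat_lit 240) (nat_lit 218)) (XT.nd (nat_lit 78) (nat_lit 304) (nat_lit 0) (XT.lf (nat_lit 0) (nat_lit 5853558319) (nat_lit 304) (nat_lit 2509074680) (nat_lit 380) (nat_lit 3428075267) (nat_lit 91) (nat_lit 5) (nat_lit 95) (nat_lit 5) (nat_lit 96) (nat_lit 5) (nat_lit 323) (nat_lit 240) (nat_lit 217)) (XT.lf (nat_lit 0) (nat_lit 2024693930) (nat_lit 304) (nat_lit 7084955942) (nat_lit 76) (nat_lit 2896075170) (nat_lit 87) (nat_lit 5) (nat_lit 91) (nat_lit 5) (nat_lit 88) (nat_lit 5) (nat_lit 324) (nat_lit 240) (nat_lit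 216)))) (XT.nd (nat_lit 156) (nat_lit 228) (nat_lit 0) (XT.nd (nat_lit 78) (nat_lit 304) (nat_lit 0) (XT.lf (nat_lit 0) (nat_lit 3806275410) (nat_lit 304) (nat_lit 3769804069) (nat_lit 380) (nat_lit 4651061639) (nat_lit 83) (nat_lit 5) (nat_lit 87) (nat_lit 5) (nat_lit 88) (nat_lit 5) (nat_lit 325) (nat_lit 240) (nat_lit 215)) (XT.lf (nat_lit 0) (nat_lit 804427732) (nat_lit 304) (nat_lit 9934364174) (nat_lit 76) (nat_lit 1716798898) (nat_lit 79) (nat_lit 5) (nat_lit 83) (nat_lit 5) (nat_lit 80) (nat_lit 5) (nat_lit 326) (nat_lit 240) (nat_lit 214))) (XT.nd (nat_lit 78) (nat_lit 0) (nat_lit 0) (XT.lf (nat_lit 0) (nat_lit 1013038277) (nat_lit 228) (nat_lit 5338961568) (nat_lit 304) (nat_lit 6338478655) (nat_lit 76) (nat_lit 5) (nat_lit 79) (nat_lit 5) (nat_lit 80) (nat_lit 5) (nat_lit 327) (nat_lit 240) (nat_lit 213)) (XT.lf (nat_lit 0) (nat_lit 12038655678) (nat_lit 304) (nat_lit 667709861) (nat_lit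 76) (nat_lit 226624780) (nat_lit 76) (nat_lit 5) (nat_lit 80) (nat_lit 5) (nat_lit 77) (nat_lit 4) (nat_lit 328) (nat_lit 240) (nat_lit 212))))) (XT.nd (nat_lit 234) (nat_lit 684) (nat_lit 0) (XT.nd (nat_lit 78) (nat_lit 532) (nat_lit 0) (XT.lf (nat_lit 0) (nat_lit 4662283005) (nat_lit 304) (nat_lit 2592305696) (nat_lit 76) (nat_lit 5927386668) (nat_lit 72) (nat_lit 5) (nat_lit 76) (nat_lit 5) (nat_lit 73) (nat_lit 5) (nat_lit 329) (nat_lit 240) (nat_lit 211)) (XT.nd (nat_lit 78) (nat_lit 304) (nat_lit 0) (XT.lf (nat_lit 0) (nat_lit 8710100905) (nat_lit 228) (nat_lit 1631883891) (nat_lit 304) (nat_lit 3096984519) (nat_lit 69) (nat_lit 5) (nat_lit 72) (nat_lit 5) (nat_lit 73) (nat_lit 5) (nat_lit 330) (nat_lit 240) (nat_lit 210)) (XT.lf (nat_lit 0) (nat_lit 2451879978) (nat_lit 304) (nat_lit 7129509319) (nat_lit 76) (nat_lit 4122065369) (nat_lit 65) (nat_lit 5) (nat_lit 69) (nat_lit 5) (nat_lit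 66) (nat_lit 5) (nat_lit 331) (nat_lit 240) (nat_lit 209)))) (XT.nd (nat_lit 156) (nat_lit 304) (nat_lit 0) (XT.nd (nat_lit 78) (nat_lit 152) (nat_lit 0) (XT.lf (nat_lit 0) (nat_lit 4176879954) (nat_lit 228) (nat_lit 3928533544) (nat_lit 304) (nat_lit 5870472231) (nat_lit 62) (nat_lit 5) (nat_lit 65) (nat_lit 5) (nat_lit 66) (nat_lit 5) (nat_lit 332) (nat_lit 240) (nat_lit 208)) (XT.lf (nat_lit 0) (nat_lit 1521513168) (nat_lit 152) (nat_lit 12388866854) (nat_lit 228) (nat_lit 346498554) (nat_lit 60) (nat_lit 5) (nat_lit 62) (nat_lit 5) (nat_lit 63) (nat_lit 4) (nat_lit 333) (nat_lit 240) (nat_lit 207))) (XT.nd (nat_lit 78) (nat_lit 228) (nat_lit 0) (XT.lf (nat_lit 0) (nat_lit 5278278693) (nat_lit 228) (nat_lit 1439704584) (nat_lit 76) (nat_lit 7827545040) (nat_lit 59) (nat_lit 5) (nat_lit 62) (nat_lit 5) (nat_lit 60) (nat_lit 5) (nat_lit 334) (nat_lit 240) (nat_lit 206)) (XT.lf (nat_lit 0) (nat_lit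 10181274755) (nat_lit 228) (nat_lit 866557630) (nat_lit 304) (nat_lit 3795368012) (nat_lit 56) (nat_lit 5) (nat_lit 59) (nat_lit 5) (nat_lit 60) (nat_lit 5) (nat_lit 335) (nat_lit 240) (nat_lit 205))))))) (XT.nd (nat_lit 1014) (nat_lit 1140) (nat_lit 0) (XT.nd (nat_lit 468) (nat_lit 836) (nat_lit 0) (XT.nd (nat_lit 234) (nat_lit 608) (nat_lit 0) (XT.nd (nat_lit 78) (nat_lit 228) (nat_lit 0) (XT.lf (nat_lit 0) (nat_lit 1820676099) (nat_lit 228) (nat_lit 8227092064) (nat_lit 76) (nat_lit 5101734855) (nat_lit 53) (nat_lit 5) (nat_lit 56) (nat_lit 5) (nat_lit 54) (nat_lit 5) (nat_lit 336) (nat_lit 240) (nat_lit 204)) (XT.nd (nat_lit 78) (nat_lit 0) (nat_lit 0) (XT.lf (nat_lit 0) (nat_lit 3323399611) (nat_lit 228) (nat_lit 4206461887) (nat_lit 304) (nat_lit 7935128673) (nat_lit 50) (nat_lit 5) (nat_lit 53) (nat_lit 5) (nat_lit 54) (nat_lit 5) (nat_lit 337) (nat_lit 240) (nat_lit 203)) (XT.lf (nat_lit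 0) (nat_lit 13396085249) (nat_lit 304) (nat_lit 609421856) (nat_lit 76) (nat_lit 1784740632) (nat_lit 50) (nat_lit 5) (nat_lit 54) (nat_lit 5) (nat_lit 51) (nat_lit 4) (nat_lit 338) (nat_lit 240) (nat_lit 202)))) (XT.nd (nat_lit 78) (nat_lit 380) (nat_lit 0) (XT.lf (nat_lit 0) (nat_lit 3291164972) (nat_lit 228) (nat_lit 4895741446) (nat_lit 76) (nat_lit 7937514774) (nat_lit 47) (nat_lit 5) (nat_lit 50) (nat_lit 5) (nat_lit 48) (nat_lit 5) (nat_lit 339) (nat_lit 240) (nat_lit 201)) (XT.nd (nat_lit 78) (nat_lit 152) (nat_lit 0) (XT.lf (nat_lit 0) (nat_lit 6899975090) (nat_lit 228) (nat_lit 2184881404) (nat_lit 304) (nat_lit 7384059674) (nat_lit 44) (nat_lit 5) (nat_lit 47) (nat_lit 5) (nat_lit 48) (nat_lit 5) (nat_lit 340) (nat_lit 240) (nat_lit 200)) (XT.lf (nat_lit 0) (nat_lit 2160457602) (nat_lit 152) (nat_lit 12887523318) (nat_lit 228) (nat_lit 1775871516) (nat_lit 42) (nat_lit 5) (nat_lit 44)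 (nat_lit 5) (nat_lit 45) (nat_lit 4) (nat_lit 341) (nat_lit 240) (nat_lit 199))))) (XT.nd (nat_lit 234) (nat_lit 456) (nat_lit 0) (XT.nd (nat_lit 78) (nat_lit 304) (nat_lit 0) (XT.lf (nat_lit 0) (nat_lit 3951102120) (nat_lit 228) (nat_lit 2990480977) (nat_lit 76) (nat_lit 10247292029) (nat_lit 41) (nat_lit 5) (nat_lit 44) (nat_lit 5) (nat_lit 42) (nat_lit 5) (nat_lit 342) (nat_lit 240) (nat_lit 198)) (XT.nd (nat_lit 78) (nat_lit 152) (nat_lit 0) (XT.lf (nat_lit 0) (nat_lit 9008754472) (nat_lit 152) (nat_lit 800995852) (nat_lit 228) (nat_lit 7755201009) (nat_lit 39) (nat_lit 5) (nat_lit 41) (nat_lit 5) (nat_lit 42) (nat_lit 5) (nat_lit 343) (nat_lit 240) (nat_lit 197)) (XT.lf (nat_lit 0) (nat_lit 3335587767) (nat_lit 152) (nat_lit 12512841300) (nat_lit 228) (nat_lit 2103812283) (nat_lit 37) (nat_lit 5) (nat_lit 39) (nat_lit 5) (nat_lit 40) (nat_lit 4) (nat_lit 344) (nat_lit 240) (nat_lit 196))))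 (XT.nd (nat_lit 156) (nat_lit 228) (nat_lit 0) (XT.nd (nat_lit 78) (nat_lit 152) (nat_lit 0) (XT.lf (nat_lit 0) (nat_lit 3659263779) (nat_lit 228) (nat_lit 2806666300) (nat_lit 76) (nat_lit 11884935510) (nat_lit 36) (nat_lit 5) (nat_lit 39) (nat_lit 5) (nat_lit 37) (nat_lit 5) (nat_lit 345) (nat_lit 240) (nat_lit 195)) (XT.lf (nat_lit 0) (nat_lit 9341753995) (nat_lit 152) (nat_lit 215008709) (nat_lit 228) (nat_lit 9204621126) (nat_lit 34) (nat_lit 5) (nat_lit 36) (nat_lit 5) (nat_lit 37) (nat_lit 5) (nat_lit 346) (nat_lit 240) (nat_lit 194))) (XT.nd (nat_lit 78) (nat_lit 76) (nat_lit 0) (XT.lf (nat_lit 0) (nat_lit 2579140872) (nat_lit 152) (nat_lit 13058562118) (nat_lit 228) (nat_lit 3546399505) (nat_lit 32) (nat_lit 5) (nat_lit 34) (nat_lit 5) (nat_lit 35) (nat_lit 4) (nat_lit 347) (nat_lit 240) (nat_lit 193)) (XT.lf (nat_lit 0) (nat_lit 2248331982) (nat_lit 228) (nat_lit 4690378315) (nat_lit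 76) (nat_lit 12680576896) (nat_lit 31) (nat_lit 5) (nat_lit 34) (nat_lit 5) (nat_lit 32) (nat_lit 5) (nat_lit 348) (nat_lit 240) (nat_lit 192)))))) (XT.nd (nat_lit 546) (nat_lit 532) (nat_lit 0) (XT.nd (nat_lit 234) (nat_lit 380) (nat_lit 0) (XT.nd (nat_lit 78) (nat_lit 76) (nat_lit 0) (XT.lf (nat_lit 0) (nat_lit 7538060769) (nat_lit 152) (nat_lit 612885002) (nat_lit 228) (nat_lit 11916482438) (nat_lit 29) (nat_lit 5) (nat_lit 31) (nat_lit 5) (nat_lit 32) (nat_lit 5) (nat_lit 349) (nat_lit 240) (nat_lit 191)) (XT.nd (nat_lit 78) (nat_lit 76) (nat_lit 0) (XT.lf (nat_lit 0) (nat_lit 14234823387) (nat_lit 228) (nat_lit 487157668) (nat_lit 76) (nat_lit 5806962332) (nat_lit 29) (nat_lit 5) (nat_lit 32) (nat_lit 5) (nat_lit 30) (nat_lit 4) (nat_lit 350) (nat_lit 240) (nat_lit 190)) (XT.lf (nat_lit 0) (nat_lit 11954637349) (nat_lit 76) (nat_lit 8564089350) (nat_lit 152) (nat_lit 485240379) (nat_lit 28)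 (nat_lit 5) (nat_lit 29) (nat_lit 5) (nat_lit 30) (nat_lit 4) (nat_lit 351) (nat_lit 240) (nat_lit 189)))) (XT.nd (nat_lit 156) (nat_lit 152) (nat_lit 0) (XT.nd (nat_lit 78) (nat_lit 0) (nat_lit 0) (XT.lf (nat_lit 0) (nat_lit 3175740978) (nat_lit 152) (nat_lit 2210503174) (nat_lit 228) (nat_lit 16107087121) (nat_lit 25) (nat_lit 5) (nat_lit 27) (nat_lit 5) (nat_lit 28) (nat_lit 5) (nat_lit 352) (nat_lit 240) (nat_lit 188)) (XT.lf (nat_lit 0) (nat_lit 11454491358) (nat_lit 228) (nat_lit 6248977601) (nat_lit 76) (nat_lit 4293311313) (nat_lit 25) (nat_lit 5) (nat_lit 28) (nat_lit 5) (nat_lit 26) (nat_lit 4) (nat_lit 353) (nat_lit 240) (nat_lit 187))) (XT.nd (nat_lit 78) (nat_lit 76) (nat_lit 0) (XT.lf (nat_lit 0) (nat_lit 6138218800) (nat_lit 76) (nat_lit 11560337804) (nat_lit 152) (nat_lit 4816912604) (nat_lit 24) (nat_lit 5) (nat_lit 25) (nat_lit 5) (nat_lit 26) (nat_lit 4) (nat_lit 354) (nat_lit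 240) (nat_lit 186)) (XT.lf (nat_lit 0) (nat_lit 1048485711) (nat_lit 152) (nat_lit 4181833427) (nat_lit 76) (nat_lit 17819622154) (nat_lit 23) (nat_lit 5) (nat_lit 25) (nat_lit 5) (nat_lit 24) (nat_lit 5) (nat_lit 355) (nat_lit 240) (nat_lit 185))))) (XT.nd (nat_lit 234) (nat_lit 304) (nat_lit 0) (XT.nd (nat_lit 78) (nat_lit 76) (nat_lit 0) (XT.lf (nat_lit 0) (nat_lit 7029199203) (nat_lit 228) (nat_lit 15256857278) (nat_lit 76) (nat_lit 1313669319) (nat_lit 21) (nat_lit 5) (nat_lit 24) (nat_lit 5) (nat_lit 22) (nat_lit 4) (nat_lit 356) (nat_lit 240) (nat_lit 184)) (XT.nd (nat_lit 78) (nat_lit 76) (nat_lit 0) (XT.lf (nat_lit 0) (nat_lit 13195125177) (nat_lit 228) (nat_lit 3004287868) (nat_lit 76) (nat_lit 7966485637) (nat_lit 21) (nat_lit 5) (nat_lit 24) (nat_lit 5) (nat_lit 22) (nat_lit 4) (nat_lit 357) (nat_lit 240) (nat_lit 183)) (XT.lf (nat_lit 0) (nat_lit 9641100703) (nat_lit 76) (nat_lit 9911494090)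 (nat_lit 152) (nat_lit 5196340989) (nat_lit 20) (nat_lit 5) (nat_lit 21) (nat_lit 5) (nat_lit 22) (nat_lit 4) (nat_lit 358) (nat_lit 240) (nat_lit 182)))) (XT.nd (nat_lit 156) (nat_lit 76) (nat_lit 0) (XT.nd (nat_lit 78) (nat_lit 152) (nat_lit 0) (XT.lf (nat_lit 0) (nat_lit 706544102) (nat_lit 152) (nat_lit 2747402803) (nat_lit 76) (nat_lit 21896127914) (nat_lit 19) (nat_lit 5) (nat_lit 21) (nat_lit 5) (nat_lit 20) (nat_lit 5) (nat_lit 359) (nat_lit 240) (nat_lit 181)) (XT.lf (nat_lit 0) (nat_lit 6748464403) (nat_lit 228) (nat_lit 16006847371) (nat_lit 76) (nat_lit 3212607931) (nat_lit 17) (nat_lit 5) (nat_lit 20) (nat_lit 5) (nat_lit 18) (nat_lit 4) (nat_lit 360) (nat_lit 240) (nat_lit 180))) (XT.nd (nat_lit 78) (nat_lit 76) (nat_lit 0) (XT.lf (nat_lit 0) (nat_lit 12960341921) (nat_lit 228) (nat_lit 3635333621) (nat_lit 76) (nat_lit 10008859688) (nat_lit 17) (nat_lit 5) (nat_lit 20) (nat_lit 5)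 (nat_lit 18) (nat_lit 4) (nat_lit 361) (nat_lit 240) (nat_lit 179)) (XT.lf (nat_lit 0) (nat_lit 9133330942) (nat_lit 76) (nat_lit 10232953178) (nat_lit 152) (nat_lit 7893819951) (nat_lit 16) (nat_lit 5) (nat_lit 17) (nat_lit 5) (nat_lit 18) (nat_lit 4) (nat_lit 362) (nat_lit 240) (nat_lit 178))))))))
noncomputable def xc21 : XT := (XT.nd (nat_lit 37518) (nat_lit 0) (nat_lit 1216) (XT.nd (nat_lit 36426) (nat_lit 0) (nat_lit 6232) (XT.nd (nat_lit 35880) (nat_lit 0) (nat_lit 11704) (XT.nd (nat_lit 35646) (nat_lit 0) (nat_lit 16112) (XT.nd (nat_lit 78) (nat_lit 228) (nat_lit 0) (XT.lf (nat_lit 0) (nat_lit 22242558054) (nat_lit 76) (nat_lit 3695793067) (nat_lit 152) (nat_lit 1997518678) (nat_lit 16) (nat_lit 5) (nat_lit 17) (nat_lit 5) (nat_lit 18) (nat_lit 4) (nat_lit 363) (nat_lit 240) (nat_lit 177)) (XT.nd (nat_lit 35490) (nat_lit 0) (nat_lit 18012) (XT.lf (nat_lit 0) (nat_lit 4038639402) (nat_lit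 228) (nat_lit 21561962473) (nat_lit 76) (nat_lit 3030457297) (nat_lit 13) (nat_lit 5) (nat_lit 16) (nat_lit 5) (nat_lit 14) (nat_lit 4) (nat_lit 364) (nat_lit 240) (nat_lit 176)) (XT.lf (nat_lit 0) (nat_lit 2879363757) (nat_lit 684) (nat_lit 592185786) (nat_lit 684) (nat_lit 592185786) (nat_lit 250) (nat_lit 4) (nat_lit 259) (nat_lit 5) (nat_lit 259) (nat_lit 4) (nat_lit 298) (nat_lit 241) (nat_lit 241)))) (XT.nd (nat_lit 78) (nat_lit 1216) (nat_lit 0) (XT.lf (nat_lit 0) (nat_lit 4186126101) (nat_lit 684) (nat_lit 1607451612) (nat_lit 0) (nat_lit 2429142790) (nat_lit 241) (nat_lit 5) (nat_lit 250) (nat_lit 4) (nat_lit 241) (nat_lit 4) (nat_lit 299) (nat_lit 241) (nat_lit 240)) (XT.nd (nat_lit 78) (nat_lit 532) (nat_lit 0) (XT.lf (nat_lit 0) (nat_lit 1295517415) (nat_lit 684) (nat_lit 845847171) (nat_lit 76) (nat_lit 6180564064) (nat_lit 232) (nat_lit 5) (nat_lit 241) (nat_lit 5) (nat_lit 233) (nat_lit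 4) (nat_lit 300) (nat_lit 241) (nat_lit 239)) (XT.lf (nat_lit 0) (nat_lit 6671374966) (nat_lit 608) (nat_lit 100690836) (nat_lit 0) (nat_lit 1652828268) (nat_lit 225) (nat_lit 5) (nat_lit 233) (nat_lit 4) (nat_lit 225) (nat_lit 4) (nat_lit 301) (nat_lit 241) (nat_lit 238))))) (XT.nd (nat_lit 234) (nat_lit 2128) (nat_lit 0) (XT.nd (nat_lit 78) (nat_lit 1064) (nat_lit 0) (XT.lf (nat_lit 0) (nat_lit 631932588) (nat_lit 532) (nat_lit 2945711313) (nat_lit 608) (nat_lit 4953943636) (nat_lit 209) (nat_lit 5) (nat_lit 216) (nat_lit 5) (nat_lit 217) (nat_lit 4) (nat_lit 302) (nat_lit 241) (nat_lit 237)) (XT.nd (nat_lit 78) (nat_lit 456) (nat_lit 0) (XT.lf (nat_lit 0) (nat_lit 337563492) (nat_lit 608) (nat_lit 7284157086) (nat_lit 76) (nat_lit 1020772161) (nat_lit 201) (nat_lit 5) (nat_lit 209) (nat_lit 5) (nat_lit 202) (nat_lit 4) (nat_lit 303) (nat_lit 241) (nat_lit 236)) (XT.lf (nat_lit 0) (nat_lit 2040576389)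 (nat_lit 456) (nat_lit 3634348754) (nat_lit 532) (nat_lit 3082133417) (nat_lit 195) (nat_lit 5) (nat_lit 201) (nat_lit 5) (nat_lit 202) (nat_lit 4) (nat_lit 304) (nat_lit 241) (nat_lit 235)))) (XT.nd (nat_lit 156) (nat_lit 1064) (nat_lit 0) (XT.nd (nat_lit 78) (nat_lit 456) (nat_lit 0) (XT.lf (nat_lit 0) (nat_lit 2206803368) (nat_lit 608) (nat_lit 6166845654) (nat_lit 76) (nat_lit 502395233) (nat_lit 187) (nat_lit 5) (nat_lit 195) (nat_lit 5) (nat_lit 188) (nat_lit 4) (nat_lit 305) (nat_lit 241) (nat_lit 234)) (XT.lf (nat_lit 0) (nat_lit 3332502136) (nat_lit 456) (nat_lit 4243379634) (nat_lit 532) (nat_lit 1423114175) (nat_lit 181) (nat_lit 5) (nat_lit 187) (nat_lit 5) (nat_lit 188) (nat_lit 4) (nat_lit 306) (nat_lit 241) (nat_lit 233))) (XT.nd (nat_lit 78) (nat_lit 532) (nat_lit 0) (XT.lf (nat_lit 0) (nat_lit 3869168606) (nat_lit 532) (nat_lit 5201691366) (nat_lit 76) (nat_lit 55507255) (nat_lit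 174) (nat_lit 5) (nat_lit 181) (nat_lit 5) (nat_lit 175) (nat_lit 4) (nat_lit 307) (nat_lit 241) (nat_lit 232)) (XT.lf (nat_lit 0) (nat_lit 14151321) (nat_lit 532) (nat_lit 4789404679) (nat_lit 76) (nat_lit 4454449871) (nat_lit 167) (nat_lit 5) (nat_lit 174) (nat_lit 5) (nat_lit 168) (nat_lit 5) (nat_lit 308) (nat_lit 241) (nat_lit 231)))))) (XT.nd (nat_lit 546) (nat_lit 2432) (nat_lit 0) (XT.nd (nat_lit 234) (nat_lit 1672) (nat_lit 0) (XT.nd (nat_lit 78) (nat_lit 912) (nat_lit 0) (XT.lf (nat_lit 0) (nat_lit 4962046728) (nat_lit 456) (nat_lit 355219323) (nat_lit 532) (nat_lit 4076793950) (nat_lit 161) (nat_lit 5) (nat_lit 167) (nat_lit 5) (nat_lit 168) (nat_lit 5) (nat_lit 309) (nat_lit 241) (nat_lit 230)) (XT.nd (nat_lit 78) (nat_lit 456) (nat_lit 0) (XT.lf (nat_lit 0) (nat_lit 1203009148) (nat_lit 456) (nat_lit 4135629327) (nat_lit 76) (nat_lit 4195973627) (nat_lit 155) (nat_lit 5) (nat_lit 161)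 (nat_lit 5) (nat_lit 156) (nat_lit 5) (nat_lit 310) (nat_lit 241) (nat_lit 229)) (XT.lf (nat_lit 0) (nat_lit 5779686451) (nat_lit 456) (nat_lit 757222225) (nat_lit 532) (nat_lit 3142968920) (nat_lit 149) (nat_lit 5) (nat_lit 155) (nat_lit 5) (nat_lit 156) (nat_lit 5) (nat_lit 311) (nat_lit 241) (nat_lit 228)))) (XT.nd (nat_lit 156) (nat_lit 836) (nat_lit 0) (XT.nd (nat_lit 78) (nat_lit 380) (nat_lit 0) (XT.lf (nat_lit 0) (nat_lit 2148456670) (nat_lit 456) (nat_lit 3742230088) (nat_lit 76) (nat_lit 3939063186) (nat_lit 143) (nat_lit 5) (nat_lit 149) (nat_lit 5) (nat_lit 144) (nat_lit 5) (nat_lit 312) (nat_lit 241) (nat_lit 227)) (XT.lf (nat_lit 0) (nat_lit 6330313653) (nat_lit 380) (nat_lit 1182790832) (nat_lit 456) (nat_lit 2471508086) (nat_lit 138) (nat_lit 5) (nat_lit 143) (nat_lit 5) (nat_lit 144) (nat_lit 5) (nat_lit 313) (nat_lit 241) (nat_lit 226))) (XT.nd (nat_lit 78) (nat_lit 380) (nat_lit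 0) (XT.lf (nat_lit 0) (nat_lit 2834059114) (nat_lit 456) (nat_lit 3659598189) (nat_lit 76) (nat_lit 3650589524) (nat_lit 132) (nat_lit 5) (nat_lit 138) (nat_lit 5) (nat_lit 133) (nat_lit 5) (nat_lit 314) (nat_lit 241) (nat_lit 225)) (XT.lf (nat_lit 0) (nat_lit 6561987418) (nat_lit 380) (nat_lit 1666394679) (nat_lit 456) (nat_lit 2080747117) (nat_lit 127) (nat_lit 5) (nat_lit 132) (nat_lit 5) (nat_lit 133) (nat_lit 5) (nat_lit 315) (nat_lit 241) (nat_lit 224))))) (XT.nd (nat_lit 234) (nat_lit 1292) (nat_lit 0) (XT.nd (nat_lit 78) (nat_lit 760) (nat_lit 0) (XT.lf (nat_lit 0) (nat_lit 3240403404) (nat_lit 380) (nat_lit 3942751350) (nat_lit 76) (nat_lit 3295857282) (nat_lit 122) (nat_lit 5) (nat_lit 127) (nat_lit 5) (nat_lit 123) (nat_lit 5) (nat_lit 316) (nat_lit 241) (nat_lit 223)) (XT.nd (nat_lit 78) (nat_lit 380) (nat_lit 0) (XT.lf (nat_lit 0) (nat_lit 6417921796) (nat_lit 380) (nat_lit 2244281367)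 (nat_lit 456) (nat_lit 1992172867) (nat_lit 117) (nat_lit 5) (nat_lit 122) (nat_lit 5) (nat_lit 123) (nat_lit 5) (nat_lit 317) (nat_lit 241) (nat_lit 222)) (XT.lf (nat_lit 0) (nat_lit 3344858949) (nat_lit 380) (nat_lit 4651920406) (nat_lit 76) (nat_lit 2838262875) (nat_lit 112) (nat_lit 5) (nat_lit 117) (nat_lit 5) (nat_lit 113) (nat_lit 5) (nat_lit 318) (nat_lit 241) (nat_lit 221)))) (XT.nd (nat_lit 156) (nat_lit 608) (nat_lit 0) (XT.nd (nat_lit 78) (nat_lit 380) (nat_lit 0) (XT.lf (nat_lit 0) (nat_lit 5835876281) (nat_lit 304) (nat_lit 2954834026) (nat_lit 380) (nat_lit 2230681250) (nat_lit 108) (nat_lit 5) (nat_lit 112) (nat_lit 5) (nat_lit 113) (nat_lit 5) (nat_lit 319) (nat_lit 241) (nat_lit 220)) (XT.lf (nat_lit 0) (nat_lit 3121307319) (nat_lit 380) (nat_lit 5853190859) (nat_lit 76) (nat_lit 2238929477) (nat_lit 103) (nat_lit 5) (nat_lit 108) (nat_lit 5) (nat_lit 104) (nat_lit 5) (nat_lit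 320) (nat_lit 241) (nat_lit 219))) (XT.nd (nat_lit 78) (nat_lit 304) (nat_lit 0) (XT.lf (nat_lit 0) (nat_lit 4747488818) (nat_lit 304) (nat_lit 3838953978) (nat_lit 380) (nat_lit 2824868078) (nat_lit 99) (nat_lit 5) (nat_lit 103) (nat_lit 5) (nat_lit 104) (nat_lit 5) (nat_lit 321) (nat_lit 241) (nat_lit 218)) (XT.lf (nat_lit 0) (nat_lit 2539837983) (nat_lit 304) (nat_lit 7619205581) (nat_lit 76) (nat_lit 1456315472) (nat_lit 95) (nat_lit 5) (nat_lit 99) (nat_lit 5) (nat_lit 96) (nat_lit 5) (nat_lit 322) (nat_lit 241) (nat_lit 217))))))) (XT.nd (nat_lit 1092) (nat_lit 1824) (nat_lit 0) (XT.nd (nat_lit 546) (nat_lit 1444) (nat_lit 0) (XT.nd (nat_lit 234) (nat_lit 836) (nat_lit 0) (XT.nd (nat_lit 78) (nat_lit 608) (nat_lit 0) (XT.lf (nat_lit 0) (nat_lit 3077544837) (nat_lit 304) (nat_lit 4940472157) (nat_lit 380) (nat_lit 3807355850) (nat_lit 91) (nat_lit 5) (nat_lit 95) (nat_lit 5) (nat_lit 96) (nat_lit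 5) (nat_lit 323) (nat_lit 241) (nat_lit 216)) (XT.nd (nat_lit 78) (nat_lit 304) (nat_lit 0) (XT.lf (nat_lit 0) (nat_lit 1566407030) (nat_lit 304) (nat_lit 10029935540) (nat_lit 76) (nat_lit 445792730) (nat_lit 87) (nat_lit 5) (nat_lit 91) (nat_lit 5) (nat_lit 88) (nat_lit 5) (nat_lit 324) (nat_lit 241) (nat_lit 215)) (XT.lf (nat_lit 0) (nat_lit 743175183) (nat_lit 304) (nat_lit 6306593170) (nat_lit 380) (nat_lit 5215159831) (nat_lit 83) (nat_lit 5) (nat_lit 87) (nat_lit 5) (nat_lit 88) (nat_lit 5) (nat_lit 325) (nat_lit 241) (nat_lit 214)))) (XT.nd (nat_lit 156) (nat_lit 532) (nat_lit 0) (XT.nd (nat_lit 78) (nat_lit 228) (nat_lit 0) (XT.lf (nat_lit 0) (nat_lit 172427958) (nat_lit 380) (nat_lit 675025483) (nat_lit 76) (nat_lit 11647519214) (nat_lit 82) (nat_lit 5) (nat_lit 87) (nat_lit 5) (nat_lit 83) (nat_lit 5) (nat_lit 326) (nat_lit 241) (nat_lit 213)) (XT.lf (nat_lit 0) (nat_lit 5656589737)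 (nat_lit 304) (nat_lit 2316243245) (nat_lit 76) (nat_lit 4758310662) (nat_lit 79) (nat_lit 5) (nat_lit 83) (nat_lit 5) (nat_lit 80) (nat_lit 5) (nat_lit 327) (nat_lit 241) (nat_lit 212))) (XT.nd (nat_lit 78) (nat_lit 304) (nat_lit 0) (XT.lf (nat_lit 0) (nat_lit 8831151120) (nat_lit 228) (nat_lit 2449378738) (nat_lit 304) (nat_lit 1694394565) (nat_lit 76) (nat_lit 5) (nat_lit 79) (nat_lit 5) (nat_lit 80) (nat_lit 5) (nat_lit 328) (nat_lit 241) (nat_lit 211)) (XT.lf (nat_lit 0) (nat_lit 3788157523) (nat_lit 304) (nat_lit 6211417892) (nat_lit 76) (nat_lit 3226143059) (nat_lit 72) (nat_lit 5) (nat_lit 76) (nat_lit 5) (nat_lit 73) (nat_lit 5) (nat_lit 329) (nat_lit 241) (nat_lit 210))))) (XT.nd (nat_lit 234) (nat_lit 684) (nat_lit 0) (XT.nd (nat_lit 78) (nat_lit 532) (nat_lit 0) (XT.lf (nat_lit 0) (nat_lit 4968409758) (nat_lit 228) (nat_lit 4430849989) (nat_lit 304) (nat_lit 4084838201) (nat_lit 69)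 (nat_lit 5) (nat_lit 72) (nat_lit 5) (nat_lit 73) (nat_lit 5) (nat_lit 330) (nat_lit 241) (nat_lit 209)) (XT.nd (nat_lit 78) (nat_lit 228) (nat_lit 0) (XT.lf (nat_lit 0) (nat_lit 1389273221) (nat_lit 304) (nat_lit 11062112383) (nat_lit 76) (nat_lit 1299093033) (nat_lit 65) (nat_lit 5) (nat_lit 69) (nat_lit 5) (nat_lit 66) (nat_lit 5) (nat_lit 331) (nat_lit 241) (nat_lit 208)) (XT.lf (nat_lit 0) (nat_lit 118641608) (nat_lit 228) (nat_lit 6854653314) (nat_lit 304) (nat_lit 7051017522) (nat_lit 62) (nat_lit 5) (nat_lit 65) (nat_lit 5) (nat_lit 66) (nat_lit 5) (nat_lit 332) (nat_lit 241) (nat_lit 207)))) (XT.nd (nat_lit 156) (nat_lit 456) (nat_lit 0) (XT.nd (nat_lit 78) (nat_lit 228) (nat_lit 0) (XT.lf (nat_lit 0) (nat_lit 11641629127) (nat_lit 228) (nat_lit 1072160710) (nat_lit 304) (nat_lit 1592817029) (nat_lit 62) (nat_lit 5) (nat_lit 65) (nat_lit 5) (nat_lit 66) (nat_lit 5) (nat_lit 333) (nat_lit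 241) (nat_lit 206)) (XT.lf (nat_lit 0) (nat_lit 3981631959) (nat_lit 228) (nat_lit 5767833379) (nat_lit 76) (nat_lit 4847298147) (nat_lit 59) (nat_lit 5) (nat_lit 62) (nat_lit 5) (nat_lit 60) (nat_lit 5) (nat_lit 334) (nat_lit 241) (nat_lit 205))) (XT.nd (nat_lit 78) (nat_lit 228) (nat_lit 0) (XT.lf (nat_lit 0) (nat_lit 5725472355) (nat_lit 228) (nat_lit 3955944523) (nat_lit 304) (nat_lit 5214425283) (nat_lit 56) (nat_lit 5) (nat_lit 59) (nat_lit 5) (nat_lit 60) (nat_lit 5) (nat_lit 335) (nat_lit 241) (nat_lit 204)) (XT.lf (nat_lit 0) (nat_lit 329308290) (nat_lit 228) (nat_lit 12889429503) (nat_lit 76) (nat_lit 1985420375) (nat_lit 53) (nat_lit 5) (nat_lit 56) (nat_lit 5) (nat_lit 54) (nat_lit 5) (nat_lit 336) (nat_lit 241) (nat_lit 203)))))) (XT.nd (nat_lit 546) (nat_lit 760) (nat_lit 0) (XT.nd (nat_lit 234) (nat_lit 608) (nat_lit 0) (XT.nd (nat_lit 78) (nat_lit 456) (nat_lit 0) (XT.lf (nat_lit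 0) (nat_lit 5977104193) (nat_lit 228) (nat_lit 1450691494) (nat_lit 76) (nat_lit 8093087794) (nat_lit 53) (nat_lit 5) (nat_lit 56) (nat_lit 5) (nat_lit 54) (nat_lit 5) (nat_lit 337) (nat_lit 241) (nat_lit 202)) (XT.nd (nat_lit 78) (nat_lit 228) (nat_lit 0) (XT.lf (nat_lit 0) (nat_lit 10332371639) (nat_lit 228) (nat_lit 1450582949) (nat_lit 304) (nat_lit 4064403994) (nat_lit 50) (nat_lit 5) (nat_lit 53) (nat_lit 5) (nat_lit 54) (nat_lit 5) (nat_lit 338) (nat_lit 241) (nat_lit 201)) (XT.lf (nat_lit 0) (nat_lit 1562100945) (nat_lit 228) (nat_lit 9970877630) (nat_lit 76) (nat_lit 4650394494) (nat_lit 47) (nat_lit 5) (nat_lit 50) (nat_lit 5) (nat_lit 48) (nat_lit 5) (nat_lit 339) (nat_lit 241) (nat_lit 200)))) (XT.nd (nat_lit 156) (nat_lit 380) (nat_lit 0) (XT.nd (nat_lit 78) (nat_lit 0) (nat_lit 0) (XT.lf (nat_lit 0) (nat_lit 1691383017) (nat_lit 228) (nat_lit 5592899867) (nat_lit 304) (nat_lit 9245024656)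 (nat_lit 44) (nat_lit 5) (nat_lit 47) (nat_lit 5) (nat_lit 48) (nat_lit 5) (nat_lit 340) (nat_lit 241) (nat_lit 199)) (XT.lf (nat_lit 0) (nat_lit 13174067046) (nat_lit 304) (nat_lit 3179394330) (nat_lit 76) (nat_lit 532258271) (nat_lit 44) (nat_lit 5) (nat_lit 48) (nat_lit 5) (nat_lit 45) (nat_lit 4) (nat_lit 341) (nat_lit 241) (nat_lit 198))) (XT.nd (nat_lit 78) (nat_lit 152) (nat_lit 0) (XT.lf (nat_lit 0) (nat_lit 1982887131) (nat_lit 228) (nat_lit 8486273017) (nat_lit 76) (nat_lit 6782998597) (nat_lit 41) (nat_lit 5) (nat_lit 44) (nat_lit 5) (nat_lit 42) (nat_lit 5) (nat_lit 342) (nat_lit 241) (nat_lit 197)) (XT.lf (nat_lit 0) (nat_lit 3376857367) (nat_lit 152) (nat_lit 4392416394) (nat_lit 228) (nat_lit 9860414769) (nat_lit 39) (nat_lit 5) (nat_lit 41) (nat_lit 5) (nat_lit 42) (nat_lit 5) (nat_lit 343) (nat_lit 241) (nat_lit 196))))) (XT.nd (nat_lit 234) (nat_lit 380) (nat_lit 0) (XT.nd (nat_lit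 78) (nat_lit 380) (nat_lit 0) (XT.lf (nat_lit 0) (nat_lit 13727754360) (nat_lit 228) (nat_lit 2443246613) (nat_lit 76) (nat_lit 1847589641) (nat_lit 39) (nat_lit 5) (nat_lit 42) (nat_lit 5) (nat_lit 40) (nat_lit 4) (nat_lit 344) (nat_lit 241) (nat_lit 195)) (XT.nd (nat_lit 78) (nat_lit 152) (nat_lit 0) (XT.lf (nat_lit 0) (nat_lit 1449913687) (nat_lit 228) (nat_lit 8731574365) (nat_lit 76) (nat_lit 8237038695) (nat_lit 36) (nat_lit 5) (nat_lit 39) (nat_lit 5) (nat_lit 37) (nat_lit 5) (nat_lit 345) (nat_lit 241) (nat_lit 194)) (XT.lf (nat_lit 0) (nat_lit 3277861019) (nat_lit 152) (nat_lit 3996366319) (nat_lit 228) (nat_lit 11556288844) (nat_lit 34) (nat_lit 5) (nat_lit 36) (nat_lit 5) (nat_lit 37) (nat_lit 5) (nat_lit 346) (nat_lit 241) (nat_lit 193)))) (XT.nd (nat_lit 156) (nat_lit 228) (nat_lit 0) (XT.nd (nat_lit 78) (nat_lit 152) (nat_lit 0) (XT.lf (nat_lit 0) (nat_lit 13280497568) (nat_lit 228)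 (nat_lit 3622157843) (nat_lit 76) (nat_lit 2352080109) (nat_lit 34) (nat_lit 5) (nat_lit 37) (nat_lit 5) (nat_lit 35) (nat_lit 4) (nat_lit 347) (nat_lit 241) (nat_lit 192)) (XT.lf (nat_lit 0) (nat_lit 8636519691) (nat_lit 152) (nat_lit 10847460778) (nat_lit 228) (nat_lit 207374808) (nat_lit 32) (nat_lit 5) (nat_lit 34) (nat_lit 5) (nat_lit 35) (nat_lit 4) (nat_lit 348) (nat_lit 241) (nat_lit 191))) (XT.nd (nat_lit 78) (nat_lit 0) (nat_lit 0) (XT.lf (nat_lit 0) (nat_lit 1032849502) (nat_lit 152) (nat_lit 4590831998) (nat_lit 228) (nat_lit 14517333985) (nat_lit 29) (nat_lit 5) (nat_lit 31) (nat_lit 5) (nat_lit 32) (nat_lit 5) (nat_lit 349) (nat_lit 241) (nat_lit 190)) (XT.lf (nat_lit 0) (nat_lit 11650102729) (nat_lit 228) (nat_lit 7096468462) (nat_lit 76) (nat_lit 1857115125) (nat_lit 29) (nat_lit 5) (nat_lit 32) (nat_lit 5) (nat_lit 30) (nat_lit 4) (nat_lit 350) (nat_lit 241) (nat_lit 189))))))))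
noncomputable def xc22 : XT := (XT.nd (nat_lit 37362) (nat_lit 0) (nat_lit 3116) (XT.nd (nat_lit 1014) (nat_lit 76) (nat_lit 0) (XT.nd (nat_lit 468) (nat_lit 380) (nat_lit 0) (XT.nd (nat_lit 234) (nat_lit 304) (nat_lit 0) (XT.nd (nat_lit 78) (nat_lit 228) (nat_lit 0) (XT.lf (nat_lit 0) (nat_lit 5202066619) (nat_lit 76) (nat_lit 12657389569) (nat_lit 152) (nat_lit 3220751149) (nat_lit 28) (nat_lit 5) (nat_lit 29) (nat_lit 5) (nat_lit 30) (nat_lit 4) (nat_lit 351) (nat_lit 241) (nat_lit 188)) (XT.nd (nat_lit 78) (nat_lit 152) (nat_lit 0) (XT.lf (nat_lit 0) (nat_lit 2635622594) (nat_lit 152) (nat_lit 3731180619) (nat_lit 76) (nat_lit 15204149314) (nat_lit 27) (nat_lit 5) (nat_lit 29) (nat_lit 5) (nat_lit 28) (nat_lit 5) (nat_lit 352) (nat_lit 241) (nat_lit 187)) (XT.lf (nat_lit 0) (nat_lit 8622191593) (nat_lit 228) (nat_lit 13310239887) (nat_lit 76) (nat_lit 143609461) (nat_lit 25) (nat_lit 5) (nat_lit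 28) (nat_lit 5) (nat_lit 26) (nat_lit 4) (nat_lit 353) (nat_lit 241) (nat_lit 186)))) (XT.nd (nat_lit 78) (nat_lit 304) (nat_lit 0) (XT.lf (nat_lit 0) (nat_lit 14797293798) (nat_lit 228) (nat_lit 1055771684) (nat_lit 76) (nat_lit 6743049341) (nat_lit 25) (nat_lit 5) (nat_lit 28) (nat_lit 5) (nat_lit 26) (nat_lit 4) (nat_lit 354) (nat_lit 241) (nat_lit 185)) (XT.nd (nat_lit 78) (nat_lit 228) (nat_lit 0) (XT.lf (nat_lit 0) (nat_lit 11615745546) (nat_lit 76) (nat_lit 9559949192) (nat_lit 152) (nat_lit 1955746469) (nat_lit 24) (nat_lit 5) (nat_lit 25) (nat_lit 5) (nat_lit 26) (nat_lit 4) (nat_lit 355) (nat_lit 241) (nat_lit 184)) (XT.lf (nat_lit 0) (nat_lit 882300018) (nat_lit 152) (nat_lit 3083226570) (nat_lit 228) (nat_lit 19717660146) (nat_lit 21) (nat_lit 5) (nat_lit 23) (nat_lit 5) (nat_lit 24) (nat_lit 5) (nat_lit 356) (nat_lit 241) (nat_lit 183))))) (XT.nd (nat_lit 234) (nat_lit 304) (nat_lit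 0) (XT.nd (nat_lit 78) (nat_lit 76) (nat_lit 0) (XT.lf (nat_lit 0) (nat_lit 10083832951) (nat_lit 228) (nat_lit 10578152496) (nat_lit 76) (nat_lit 3588331659) (nat_lit 21) (nat_lit 5) (nat_lit 24) (nat_lit 5) (nat_lit 22) (nat_lit 4) (nat_lit 357) (nat_lit 241) (nat_lit 182)) (XT.nd (nat_lit 78) (nat_lit 0) (nat_lit 0) (XT.lf (nat_lit 0) (nat_lit 1917538671) (nat_lit 76) (nat_lit 14446820069) (nat_lit 152) (nat_lit 8470539294) (nat_lit 20) (nat_lit 5) (nat_lit 21) (nat_lit 5) (nat_lit 22) (nat_lit 4) (nat_lit 358) (nat_lit 241) (nat_lit 181)) (XT.lf (nat_lit 0) (nat_lit 14836235027) (nat_lit 76) (nat_lit 8015304418) (nat_lit 152) (nat_lit 2585121919) (nat_lit 20) (nat_lit 5) (nat_lit 21) (nat_lit 5) (nat_lit 22) (nat_lit 4) (nat_lit 359) (nat_lit 241) (nat_lit 180)))) (XT.nd (nat_lit 156) (nat_lit 76) (nat_lit 0) (XT.nd (nat_lit 78) (nat_lit 0) (nat_lit 0) (XT.lf (nat_lit 0) (nat_lit 1995057039)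 (nat_lit 152) (nat_lit 1396916391) (nat_lit 228) (nat_lit 22664847666) (nat_lit 17) (nat_lit 5) (nat_lit 19) (nat_lit 5) (nat_lit 20) (nat_lit 5) (nat_lit 360) (nat_lit 241) (nat_lit 179)) (XT.lf (nat_lit 0) (nat_lit 9569366813) (nat_lit 228) (nat_lit 11727377583) (nat_lit 76) (nat_lit 5397386349) (nat_lit 17) (nat_lit 5) (nat_lit 20) (nat_lit 5) (nat_lit 18) (nat_lit 4) (nat_lit 361) (nat_lit 241) (nat_lit 178))) (XT.nd (nat_lit 78) (nat_lit 0) (nat_lit 0) (XT.lf (nat_lit 0) (nat_lit 888300482) (nat_lit 76) (nat_lit 15008802121) (nat_lit 152) (nat_lit 11454165422) (nat_lit 16) (nat_lit 5) (nat_lit 17) (nat_lit 5) (nat_lit 18) (nat_lit 4) (nat_lit 362) (nat_lit 241) (nat_lit 177)) (XT.lf (nat_lit 0) (nat_lit 13953403815) (nat_lit 76) (nat_lit 8491523773) (nat_lit 152) (nat_lit 5582595192) (nat_lit 16) (nat_lit 5) (nat_lit 17) (nat_lit 5) (nat_lit 18) (nat_lit 4) (nat_lit 363) (nat_lit 241) (nat_lit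 176)))))) (XT.nd (nat_lit 35802) (nat_lit 0) (nat_lit 11552) (XT.nd (nat_lit 35490) (nat_lit 0) (nat_lit 15960) (XT.nd (nat_lit 35334) (nat_lit 0) (nat_lit 18544) (XT.lf (nat_lit 0) (nat_lit 410919476) (nat_lit 152) (nat_lit 1404234557) (nat_lit 76) (nat_lit 26909820885) (nat_lit 15) (nat_lit 5) (nat_lit 17) (nat_lit 5) (nat_lit 16) (nat_lit 5) (nat_lit 364) (nat_lit 241) (nat_lit 175)) (XT.nd (nat_lit 78) (nat_lit 684) (nat_lit 0) (XT.lf (nat_lit 0) (nat_lit 2058651249) (nat_lit 684) (nat_lit 957271706) (nat_lit 684) (nat_lit 957271706) (nat_lit 268) (nat_lit 4) (nat_lit 277) (nat_lit 5) (nat_lit 277) (nat_lit 4) (nat_lit 296) (nat_lit 242) (nat_lit 242)) (XT.lf (nat_lit 0) (nat_lit 3368315663) (nat_lit 684) (nat_lit 3145000507) (nat_lit 0) (nat_lit 1522428997) (nat_lit 259) (nat_lit 5) (nat_lit 268) (nat_lit 4) (nat_lit 259) (nat_lit 4) (nat_lit 297) (nat_lit 242) (nat_lit 241)))) (XT.nd (nat_lit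 156) (nat_lit 1216) (nat_lit 0) (XT.nd (nat_lit 78) (nat_lit 608) (nat_lit 0) (XT.lf (nat_lit 0) (nat_lit 582714995) (nat_lit 760) (nat_lit 2460925353) (nat_lit 76) (nat_lit 5085193349) (nat_lit 249) (nat_lit 5) (nat_lit 259) (nat_lit 5) (nat_lit 250) (nat_lit 4) (nat_lit 298) (nat_lit 242) (nat_lit 240)) (XT.lf (nat_lit 0) (nat_lit 5856238529) (nat_lit 684) (nat_lit 1785611767) (nat_lit 0) (nat_lit 583753368) (nat_lit 241) (nat_lit 5) (nat_lit 250) (nat_lit 4) (nat_lit 241) (nat_lit 4) (nat_lit 299) (nat_lit 242) (nat_lit 239))) (XT.nd (nat_lit 78) (nat_lit 532) (nat_lit 0) (XT.lf (nat_lit 0) (nat_lit 2871895083) (nat_lit 684) (nat_lit 1127382372) (nat_lit 76) (nat_lit 4326740500) (nat_lit 232) (nat_lit 5) (nat_lit 241) (nat_lit 5) (nat_lit 233) (nat_lit 4) (nat_lit 300) (nat_lit 242) (nat_lit 238)) (XT.lf (nat_lit 0) (nat_lit 7964150208) (nat_lit 532) (nat_lit 204488045) (nat_lit 608) (nat_lit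 261969087) (nat_lit 225) (nat_lit 5) (nat_lit 232) (nat_lit 5) (nat_lit 233) (nat_lit 4) (nat_lit 301) (nat_lit 242) (nat_lit 237))))) (XT.nd (nat_lit 234) (nat_lit 2128) (nat_lit 0) (XT.nd (nat_lit 78) (nat_lit 1064) (nat_lit 0) (XT.lf (nat_lit 0) (nat_lit 154330744) (nat_lit 532) (nat_lit 4822845210) (nat_lit 608) (nat_lit 3561419961) (nat_lit 209) (nat_lit 5) (nat_lit 216) (nat_lit 5) (nat_lit 217) (nat_lit 4) (nat_lit 302) (nat_lit 242) (nat_lit 236)) (XT.nd (nat_lit 78) (nat_lit 456) (nat_lit 0) (XT.lf (nat_lit 0) (nat_lit 777727994) (nat_lit 532) (nat_lit 858855201) (nat_lit 608) (nat_lit 7014279675) (nat_lit 201) (nat_lit 5) (nat_lit 208) (nat_lit 5) (nat_lit 209) (nat_lit 5) (nat_lit 303) (nat_lit 242) (nat_lit 235)) (XT.lf (nat_lit 0) (nat_lit 1362410219) (nat_lit 456) (nat_lit 5538040612) (nat_lit 532) (nat_lit 1866484401) (nat_lit 195) (nat_lit 5) (nat_lit 201) (nat_lit 5) (nat_lit 202)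 (nat_lit 4) (nat_lit 304) (nat_lit 242) (nat_lit 234)))) (XT.nd (nat_lit 156) (nat_lit 1064) (nat_lit 0) (XT.nd (nat_lit 78) (nat_lit 456) (nat_lit 0) (XT.lf (nat_lit 0) (nat_lit 1920906653) (nat_lit 532) (nat_lit 1414496713) (nat_lit 608) (nat_lit 5551816710) (nat_lit 187) (nat_lit 5) (nat_lit 194) (nat_lit 5) (nat_lit 195) (nat_lit 5) (nat_lit 305) (nat_lit 242) (nat_lit 233)) (XT.lf (nat_lit 0) (nat_lit 2445510055) (nat_lit 456) (nat_lit 6182501924) (nat_lit 532) (nat_lit 383723062) (nat_lit 181) (nat_lit 5) (nat_lit 187) (nat_lit 5) (nat_lit 188) (nat_lit 4) (nat_lit 306) (nat_lit 242) (nat_lit 232))) (XT.nd (nat_lit 78) (nat_lit 532) (nat_lit 0) (XT.lf (nat_lit 0) (nat_lit 2920864793) (nat_lit 456) (nat_lit 1906468112) (nat_lit 532) (nat_lit 4313022593) (nat_lit 174) (nat_lit 5) (nat_lit 180) (nat_lit 5) (nat_lit 181) (nat_lit 5) (nat_lit 307) (nat_lit 242) (nat_lit 231)) (XT.lf (nat_lit 0)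 (nat_lit 866206764) (nat_lit 532) (nat_lit 5914745343) (nat_lit 76) (nat_lit 2492544877) (nat_lit 167) (nat_lit 5) (nat_lit 174) (nat_lit 5) (nat_lit 168) (nat_lit 5) (nat_lit 308) (nat_lit 242) (nat_lit 230))))))) (XT.nd (nat_lit 1014) (nat_lit 3268) (nat_lit 0) (XT.nd (nat_lit 468) (nat_lit 2508) (nat_lit 0) (XT.nd (nat_lit 234) (nat_lit 1292) (nat_lit 0) (XT.nd (nat_lit 78) (nat_lit 912) (nat_lit 0) (XT.lf (nat_lit 0) (nat_lit 3736963839) (nat_lit 456) (nat_lit 2365550114) (nat_lit 532) (nat_lit 3308403112) (nat_lit 161) (nat_lit 5) (nat_lit 167) (nat_lit 5) (nat_lit 168) (nat_lit 5) (nat_lit 309) (nat_lit 242) (nat_lit 229)) (XT.nd (nat_lit 78) (nat_lit 456) (nat_lit 0) (XT.lf (nat_lit 0) (nat_lit 1881247981) (nat_lit 456) (nat_lit 5488234087) (nat_lit 76) (nat_lit 2183517173) (nat_lit 155) (nat_lit 5) (nat_lit 161) (nat_lit 5) (nat_lit 156) (nat_lit 5) (nat_lit 310) (nat_lit 242) (nat_lit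 228)) (XT.lf (nat_lit 0) (nat_lit 4325232273) (nat_lit 456) (nat_lit 2823387243) (nat_lit 532) (nat_lit 2551003315) (nat_lit 149) (nat_lit 5) (nat_lit 155) (nat_lit 5) (nat_lit 156) (nat_lit 5) (nat_lit 311) (nat_lit 242) (nat_lit 227)))) (XT.nd (nat_lit 78) (nat_lit 836) (nat_lit 0) (XT.lf (nat_lit 0) (nat_lit 2652420740) (nat_lit 456) (nat_lit 5330615444) (nat_lit 76) (nat_lit 1868013095) (nat_lit 143) (nat_lit 5) (nat_lit 149) (nat_lit 5) (nat_lit 144) (nat_lit 5) (nat_lit 312) (nat_lit 242) (nat_lit 226)) (XT.nd (nat_lit 78) (nat_lit 456) (nat_lit 0) (XT.lf (nat_lit 0) (nat_lit 4637895905) (nat_lit 380) (nat_lit 3312786316) (nat_lit 456) (nat_lit 2056582859) (nat_lit 138) (nat_lit 5) (nat_lit 143) (nat_lit 5) (nat_lit 144) (nat_lit 5) (nat_lit 313) (nat_lit 242) (nat_lit 225)) (XT.lf (nat_lit 0) (nat_lit 3162953211) (nat_lit 456) (nat_lit 5492420878) (nat_lit 76) (nat_lit 1513107377) (nat_lit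 132) (nat_lit 5) (nat_lit 138) (nat_lit 5) (nat_lit 133) (nat_lit 5) (nat_lit 314) (nat_lit 242) (nat_lit 224))))) (XT.nd (nat_lit 234) (nat_lit 1368) (nat_lit 0) (XT.nd (nat_lit 78) (nat_lit 760) (nat_lit 0) (XT.lf (nat_lit 0) (nat_lit 4622866821) (nat_lit 380) (nat_lit 3868031076) (nat_lit 456) (nat_lit 1843817038) (nat_lit 127) (nat_lit 5) (nat_lit 132) (nat_lit 5) (nat_lit 133) (nat_lit 5) (nat_lit 315) (nat_lit 242) (nat_lit 223)) (XT.nd (nat_lit 78) (nat_lit 380) (nat_lit 0) (XT.lf (nat_lit 0) (nat_lit 3393102327) (nat_lit 380) (nat_lit 6028834400) (nat_lit 76) (nat_lit 1084275124) (nat_lit 122) (nat_lit 5) (nat_lit 127) (nat_lit 5) (nat_lit 123) (nat_lit 5) (nat_lit 316) (nat_lit 242) (nat_lit 222)) (XT.lf (nat_lit 0) (nat_lit 4223186081) (nat_lit 380) (nat_lit 4525215847) (nat_lit 456) (nat_lit 1934525652) (nat_lit 117) (nat_lit 5) (nat_lit 122) (nat_lit 5) (nat_lit 123) (nat_lit 5) (nat_lit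 317) (nat_lit 242) (nat_lit 221)))) (XT.nd (nat_lit 156) (nat_lit 684) (nat_lit 0) (XT.nd (nat_lit 78) (nat_lit 304) (nat_lit 0) (XT.lf (nat_lit 0) (nat_lit 3319913355) (nat_lit 380) (nat_lit 7000278606) (nat_lit 76) (nat_lit 545051756) (nat_lit 112) (nat_lit 5) (nat_lit 117) (nat_lit 5) (nat_lit 113) (nat_lit 5) (nat_lit 318) (nat_lit 242) (nat_lit 220)) (XT.lf (nat_lit 0) (nat_lit 3376414762) (nat_lit 304) (nat_lit 5322601244) (nat_lit 380) (nat_lit 2353932095) (nat_lit 108) (nat_lit 5) (nat_lit 112) (nat_lit 5) (nat_lit 113) (nat_lit 5) (nat_lit 319) (nat_lit 242) (nat_lit 219))) (XT.nd (nat_lit 78) (nat_lit 304) (nat_lit 0) (XT.lf (nat_lit 0) (nat_lit 2772656247) (nat_lit 304) (nat_lit 145235133) (nat_lit 380) (nat_lit 8328763569) (nat_lit 103) (nat_lit 5) (nat_lit 107) (nat_lit 5) (nat_lit 108) (nat_lit 5) (nat_lit 320) (nat_lit 242) (nat_lit 218)) (XT.lf (nat_lit 0) (nat_lit 2013967427) (nat_lit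 304) (nat_lit 6300995247) (nat_lit 380) (nat_lit 3130955337) (nat_lit 99) (nat_lit 5) (nat_lit 103) (nat_lit 5) (nat_lit 104) (nat_lit 5) (nat_lit 321) (nat_lit 242) (nat_lit 217)))))) (XT.nd (nat_lit 546) (nat_lit 1520) (nat_lit 0) (XT.nd (nat_lit 234) (nat_lit 1064) (nat_lit 0) (XT.nd (nat_lit 78) (nat_lit 380) (nat_lit 0) (XT.lf (nat_lit 0) (nat_lit 1124788877) (nat_lit 228) (nat_lit 1035918133) (nat_lit 304) (nat_lit 9490857737) (nat_lit 95) (nat_lit 5) (nat_lit 98) (nat_lit 5) (nat_lit 99) (nat_lit 5) (nat_lit 322) (nat_lit 242) (nat_lit 216)) (XT.nd (nat_lit 78) (nat_lit 76) (nat_lit 0) (XT.lf (nat_lit 0) (nat_lit 60381533) (nat_lit 304) (nat_lit 7504163187) (nat_lit 380) (nat_lit 4298537811) (nat_lit 91) (nat_lit 5) (nat_lit 95) (nat_lit 5) (nat_lit 96) (nat_lit 5) (nat_lit 323) (nat_lit 242) (nat_lit 215)) (XT.lf (nat_lit 0) (nat_lit 1018204327) (nat_lit 380) (nat_lit 1139072191) (nat_lit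 76) (nat_lit 9923917830) (nat_lit 90) (nat_lit 5) (nat_lit 95) (nat_lit 5) (nat_lit 91) (nat_lit 5) (nat_lit 324) (nat_lit 242) (nat_lit 214)))) (XT.nd (nat_lit 156) (nat_lit 532) (nat_lit 0) (XT.nd (nat_lit 78) (nat_lit 304) (nat_lit 0) (XT.lf (nat_lit 0) (nat_lit 6428455958) (nat_lit 304) (nat_lit 2533811345) (nat_lit 76) (nat_lit 3343197972) (nat_lit 87) (nat_lit 5) (nat_lit 91) (nat_lit 5) (nat_lit 88) (nat_lit 5) (nat_lit 325) (nat_lit 242) (nat_lit 213)) (XT.lf (nat_lit 0) (nat_lit 8435995276) (nat_lit 304) (nat_lit 3549880609) (nat_lit 380) (nat_lit 550922467) (nat_lit 83) (nat_lit 5) (nat_lit 87) (nat_lit 5) (nat_lit 88) (nat_lit 5) (nat_lit 326) (nat_lit 242) (nat_lit 212))) (XT.nd (nat_lit 78) (nat_lit 228) (nat_lit 0) (XT.lf (nat_lit 0) (nat_lit 4854735985) (nat_lit 304) (nat_lit 5883147511) (nat_lit 76) (nat_lit 2036886605) (nat_lit 79) (nat_lit 5) (nat_lit 83) (nat_lit 5) (nat_lit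 80) (nat_lit 5) (nat_lit 327) (nat_lit 242) (nat_lit 211)) (XT.lf (nat_lit 0) (nat_lit 5143459203) (nat_lit 228) (nat_lit 5267103522) (nat_lit 304) (nat_lit 2609364645) (nat_lit 76) (nat_lit 5) (nat_lit 79) (nat_lit 5) (nat_lit 80) (nat_lit 5) (nat_lit 328) (nat_lit 242) (nat_lit 210))))) (XT.nd (nat_lit 234) (nat_lit 912) (nat_lit 0) (XT.nd (nat_lit 78) (nat_lit 304) (nat_lit 0) (XT.lf (nat_lit 0) (nat_lit 2797867041) (nat_lit 304) (nat_lit 10088320631) (nat_lit 76) (nat_lit 386412502) (nat_lit 72) (nat_lit 5) (nat_lit 76) (nat_lit 5) (nat_lit 73) (nat_lit 5) (nat_lit 329) (nat_lit 242) (nat_lit 209)) (XT.nd (nat_lit 78) (nat_lit 76) (nat_lit 0) (XT.lf (nat_lit 0) (nat_lit 967671571) (nat_lit 228) (nat_lit 7372306687) (nat_lit 304) (nat_lit 5192394351) (nat_lit 69) (nat_lit 5) (nat_lit 72) (nat_lit 5) (nat_lit 73) (nat_lit 5) (nat_lit 330) (nat_lit 242) (nat_lit 208)) (XT.lf (nat_lit 0) (nat_lit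 227674251) (nat_lit 304) (nat_lit 1450895432) (nat_lit 76) (nat_lit 12121711315) (nat_lit 68) (nat_lit 5) (nat_lit 72) (nat_lit 5) (nat_lit 69) (nat_lit 5) (nat_lit 331) (nat_lit 242) (nat_lit 207)))) (XT.nd (nat_lit 156) (nat_lit 456) (nat_lit 0) (XT.nd (nat_lit 78) (nat_lit 228) (nat_lit 0) (XT.lf (nat_lit 0) (nat_lit 5748512820) (nat_lit 304) (nat_lit 4150791092) (nat_lit 76) (nat_lit 4176086699) (nat_lit 65) (nat_lit 5) (nat_lit 69) (nat_lit 5) (nat_lit 66) (nat_lit 5) (nat_lit 332) (nat_lit 242) (nat_lit 206)) (XT.lf (nat_lit 0) (nat_lit 7247873453) (nat_lit 228) (nat_lit 4172692098) (nat_lit 304) (nat_lit 2938500116) (nat_lit 62) (nat_lit 5) (nat_lit 65) (nat_lit 5) (nat_lit 66) (nat_lit 5) (nat_lit 333) (nat_lit 242) (nat_lit 205))) (XT.nd (nat_lit 78) (nat_lit 228) (nat_lit 0) (XT.lf (nat_lit 0) (nat_lit 2563183164) (nat_lit 228) (nat_lit 10366352997) (nat_lit 76) (nat_lit 1721680379) (nat_lit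 59) (nat_lit 5) (nat_lit 62) (nat_lit 5) (nat_lit 60) (nat_lit 5) (nat_lit 334) (nat_lit 242) (nat_lit 204)) (XT.lf (nat_lit 0) (nat_lit 997729130) (nat_lit 228) (nat_lit 7194894037) (nat_lit 304) (nat_lit 6759089842) (nat_lit 56) (nat_lit 5) (nat_lit 59) (nat_lit 5) (nat_lit 60) (nat_lit 5) (nat_lit 335) (nat_lit 242) (nat_lit 203))))))))
noncomputable def xc23 : XT := (XT.nd (nat_lit 2106) (nat_lit 76) (nat_lit 0) (XT.nd (nat_lit 1014) (nat_lit 1140) (nat_lit 0) (XT.nd (nat_lit 468) (nat_lit 912) (nat_lit 0) (XT.nd (nat_lit 234) (nat_lit 456) (nat_lit 0) (XT.nd (nat_lit 78) (nat_lit 456) (nat_lit 0) (XT.lf (nat_lit 0) (nat_lit 12710390434) (nat_lit 228) (nat_lit 1271786338) (nat_lit 304) (nat_lit 1279244466) (nat_lit 56) (nat_lit 5) (nat_lit 59) (nat_lit 5) (nat_lit 60) (nat_lit 5) (nat_lit 336) (nat_lit 242) (nat_lit 202)) (XT.nd (nat_lit 78) (nat_lit 228) (nat_lit 0) (XT.lf (nat_lit 0) (nat_lit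 4321525219) (nat_lit 228) (nat_lit 6457458668) (nat_lit 76) (nat_lit 4800614922) (nat_lit 53) (nat_lit 5) (nat_lit 56) (nat_lit 5) (nat_lit 54) (nat_lit 5) (nat_lit 337) (nat_lit 242) (nat_lit 201)) (XT.lf (nat_lit 0) (nat_lit 5193959630) (nat_lit 228) (nat_lit 4862527582) (nat_lit 304) (nat_lit 5851014240) (nat_lit 50) (nat_lit 5) (nat_lit 53) (nat_lit 5) (nat_lit 54) (nat_lit 5) (nat_lit 338) (nat_lit 242) (nat_lit 200)))) (XT.nd (nat_lit 78) (nat_lit 304) (nat_lit 0) (XT.lf (nat_lit 0) (nat_lit 913149968) (nat_lit 152) (nat_lit 15033179154) (nat_lit 228) (nat_lit 299274698) (nat_lit 48) (nat_lit 5) (nat_lit 50) (nat_lit 5) (nat_lit 51) (nat_lit 4) (nat_lit 339) (nat_lit 242) (nat_lit 199)) (XT.nd (nat_lit 78) (nat_lit 228) (nat_lit 0) (XT.lf (nat_lit 0) (nat_lit 5379256577) (nat_lit 228) (nat_lit 3753679769) (nat_lit 76) (nat_lit 7459601354) (nat_lit 47) (nat_lit 5) (nat_lit 50) (nat_lit 5)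 (nat_lit 48) (nat_lit 5) (nat_lit 340) (nat_lit 242) (nat_lit 198)) (XT.lf (nat_lit 0) (nat_lit 8152729078) (nat_lit 228) (nat_lit 3052182445) (nat_lit 304) (nat_lit 5745329639) (nat_lit 44) (nat_lit 5) (nat_lit 47) (nat_lit 5) (nat_lit 48) (nat_lit 5) (nat_lit 341) (nat_lit 242) (nat_lit 197))))) (XT.nd (nat_lit 234) (nat_lit 532) (nat_lit 0) (XT.nd (nat_lit 78) (nat_lit 228) (nat_lit 0) (XT.lf (nat_lit 0) (nat_lit 3044733510) (nat_lit 152) (nat_lit 14155669182) (nat_lit 228) (nat_lit 118388992) (nat_lit 42) (nat_lit 5) (nat_lit 44) (nat_lit 5) (nat_lit 45) (nat_lit 4) (nat_lit 342) (nat_lit 242) (nat_lit 196)) (XT.nd (nat_lit 78) (nat_lit 152) (nat_lit 0) (XT.lf (nat_lit 0) (nat_lit 5612969647) (nat_lit 228) (nat_lit 2514876078) (nat_lit 76) (nat_lit 9569630835) (nat_lit 41) (nat_lit 5) (nat_lit 44) (nat_lit 5) (nat_lit 42) (nat_lit 5) (nat_lit 343) (nat_lit 242) (nat_lit 195)) (XT.lf (nat_lit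 0) (nat_lit 9603139005) (nat_lit 152) (nat_lit 1905578338) (nat_lit 228) (nat_lit 6578923828) (nat_lit 39) (nat_lit 5) (nat_lit 41) (nat_lit 5) (nat_lit 42) (nat_lit 5) (nat_lit 344) (nat_lit 242) (nat_lit 194)))) (XT.nd (nat_lit 156) (nat_lit 304) (nat_lit 0) (XT.nd (nat_lit 78) (nat_lit 76) (nat_lit 0) (XT.lf (nat_lit 0) (nat_lit 3528679109) (nat_lit 152) (nat_lit 14054563190) (nat_lit 228) (nat_lit 906245833) (nat_lit 37) (nat_lit 5) (nat_lit 39) (nat_lit 5) (nat_lit 40) (nat_lit 4) (nat_lit 345) (nat_lit 242) (nat_lit 193)) (XT.lf (nat_lit 0) (nat_lit 4875841776) (nat_lit 228) (nat_lit 3046203564) (nat_lit 76) (nat_lit 10980639410) (nat_lit 36) (nat_lit 5) (nat_lit 39) (nat_lit 5) (nat_lit 37) (nat_lit 5) (nat_lit 346) (nat_lit 242) (nat_lit 192))) (XT.nd (nat_lit 78) (nat_lit 152) (nat_lit 0) (XT.lf (nat_lit 0) (nat_lit 9227026713) (nat_lit 152) (nat_lit 1587328195) (nat_lit 228) (nat_lit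 8513911382) (nat_lit 34) (nat_lit 5) (nat_lit 36) (nat_lit 5) (nat_lit 37) (nat_lit 5) (nat_lit 347) (nat_lit 242) (nat_lit 191)) (XT.lf (nat_lit 0) (nat_lit 2025426454) (nat_lit 152) (nat_lit 14907724057) (nat_lit 228) (nat_lit 2833436134) (nat_lit 32) (nat_lit 5) (nat_lit 34) (nat_lit 5) (nat_lit 35) (nat_lit 4) (nat_lit 348) (nat_lit 242) (nat_lit 190)))))) (XT.nd (nat_lit 546) (nat_lit 532) (nat_lit 0) (XT.nd (nat_lit 234) (nat_lit 380) (nat_lit 0) (XT.nd (nat_lit 78) (nat_lit 152) (nat_lit 0) (XT.lf (nat_lit 0) (nat_lit 2994247641) (nat_lit 228) (nat_lit 5705100487) (nat_lit 76) (nat_lit 11518002528) (nat_lit 31) (nat_lit 5) (nat_lit 34) (nat_lit 5) (nat_lit 32) (nat_lit 5) (nat_lit 349) (nat_lit 242) (nat_lit 189)) (XT.nd (nat_lit 78) (nat_lit 0) (nat_lit 0) (XT.lf (nat_lit 0) (nat_lit 6651677203) (nat_lit 152) (nat_lit 2288686317) (nat_lit 228) (nat_lit 11741270409) (nat_lit 29) (nat_lit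 5) (nat_lit 31) (nat_lit 5) (nat_lit 32) (nat_lit 5) (nat_lit 350) (nat_lit 242) (nat_lit 188)) (XT.lf (nat_lit 0) (nat_lit 15071268756) (nat_lit 228) (nat_lit 1837893604) (nat_lit 76) (nat_lit 4250567704) (nat_lit 29) (nat_lit 5) (nat_lit 32) (nat_lit 5) (nat_lit 30) (nat_lit 4) (nat_lit 351) (nat_lit 242) (nat_lit 187)))) (XT.nd (nat_lit 156) (nat_lit 76) (nat_lit 0) (XT.nd (nat_lit 78) (nat_lit 228) (nat_lit 0) (XT.lf (nat_lit 0) (nat_lit 10740829446) (nat_lit 76) (nat_lit 10671555525) (nat_lit 152) (nat_lit 239270555) (nat_lit 28) (nat_lit 5) (nat_lit 29) (nat_lit 5) (nat_lit 30) (nat_lit 4) (nat_lit 352) (nat_lit 242) (nat_lit 186)) (XT.lf (nat_lit 0) (nat_lit 1441492081) (nat_lit 152) (nat_lit 4231813898) (nat_lit 228) (nat_lit 16485017327) (nat_lit 25) (nat_lit 5) (nat_lit 27) (nat_lit 5) (nat_lit 28) (nat_lit 5) (nat_lit 353) (nat_lit 242) (nat_lit 185))) (XT.nd (nat_lit 78) (nat_lit 76)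 (nat_lit 0) (XT.lf (nat_lit 0) (nat_lit 11792670641) (nat_lit 228) (nat_lit 8485590535) (nat_lit 76) (nat_lit 2401256279) (nat_lit 25) (nat_lit 5) (nat_lit 28) (nat_lit 5) (nat_lit 26) (nat_lit 4) (nat_lit 354) (nat_lit 242) (nat_lit 184)) (XT.lf (nat_lit 0) (nat_lit 4037307655) (nat_lit 76) (nat_lit 14057121039) (nat_lit 152) (nat_lit 5121953359) (nat_lit 24) (nat_lit 5) (nat_lit 25) (nat_lit 5) (nat_lit 26) (nat_lit 4) (nat_lit 355) (nat_lit 242) (nat_lit 183))))) (XT.nd (nat_lit 234) (nat_lit 304) (nat_lit 0) (XT.nd (nat_lit 78) (nat_lit 152) (nat_lit 0) (XT.lf (nat_lit 0) (nat_lit 807979076) (nat_lit 152) (nat_lit 6820886690) (nat_lit 76) (nat_lit 16140335375) (nat_lit 23) (nat_lit 5) (nat_lit 25) (nat_lit 5) (nat_lit 24) (nat_lit 5) (nat_lit 356) (nat_lit 242) (nat_lit 182)) (XT.nd (nat_lit 78) (nat_lit 0) (nat_lit 0) (XT.lf (nat_lit 0) (nat_lit 5854409555) (nat_lit 152) (nat_lit 976735418)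 (nat_lit 228) (nat_lit 17507094300) (nat_lit 21) (nat_lit 5) (nat_lit 23) (nat_lit 5) (nat_lit 24) (nat_lit 5) (nat_lit 357) (nat_lit 242) (nat_lit 181)) (XT.lf (nat_lit 0) (nat_lit 13066862382) (nat_lit 228) (nat_lit 6053937546) (nat_lit 76) (nat_lit 5802921246) (nat_lit 21) (nat_lit 5) (nat_lit 24) (nat_lit 5) (nat_lit 22) (nat_lit 4) (nat_lit 358) (nat_lit 242) (nat_lit 180)))) (XT.nd (nat_lit 156) (nat_lit 228) (nat_lit 0) (XT.nd (nat_lit 78) (nat_lit 0) (nat_lit 0) (XT.lf (nat_lit 0) (nat_lit 6738075805) (nat_lit 76) (nat_lit 12750579531) (nat_lit 152) (nat_lit 6038141589) (nat_lit 20) (nat_lit 5) (nat_lit 21) (nat_lit 5) (nat_lit 22) (nat_lit 4) (nat_lit 359) (nat_lit 242) (nat_lit 179)) (XT.lf (nat_lit 0) (nat_lit 19905604577) (nat_lit 76) (nat_lit 6188146909) (nat_lit 152) (nat_lit 54409669) (nat_lit 20) (nat_lit 5) (nat_lit 21) (nat_lit 5) (nat_lit 22) (nat_lit 4) (nat_lit 360) (nat_lit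 242) (nat_lit 178))) (XT.nd (nat_lit 78) (nat_lit 0) (nat_lit 0) (XT.lf (nat_lit 0) (nat_lit 6026573823) (nat_lit 228) (nat_lit 20153231288) (nat_lit 76) (nat_lit 607619540) (nat_lit 17) (nat_lit 5) (nat_lit 20) (nat_lit 5) (nat_lit 18) (nat_lit 4) (nat_lit 361) (nat_lit 242) (nat_lit 177)) (XT.lf (nat_lit 0) (nat_lit 12324586642) (nat_lit 228) (nat_lit 7592748530) (nat_lit 76) (nat_lit 7527825405) (nat_lit 17) (nat_lit 5) (nat_lit 20) (nat_lit 5) (nat_lit 18) (nat_lit 4) (nat_lit 362) (nat_lit 242) (nat_lit 176))))))) (XT.nd (nat_lit 36192) (nat_lit 0) (nat_lit 6992) (XT.nd (nat_lit 35646) (nat_lit 0) (nat_lit 12996) (XT.nd (nat_lit 35334) (nat_lit 0) (nat_lit 17708) (XT.nd (nat_lit 78) (nat_lit 0) (nat_lit 0) (XT.lf (nat_lit 0) (nat_lit 5328612549) (nat_lit 76) (nat_lit 13470310846) (nat_lit 152) (nat_lit 9323965766) (nat_lit 16) (nat_lit 5) (nat_lit 17) (nat_lit 5) (nat_lit 18) (nat_lit 4) (nat_lit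 363) (nat_lit 242) (nat_lit 175)) (XT.nd (nat_lit 35178) (nat_lit 0) (nat_lit 20596) (XT.lf (nat_lit 0) (nat_lit 18657115689) (nat_lit 76) (nat_lit 6815439060) (nat_lit 152) (nat_lit 3348301573) (nat_lit 16) (nat_lit 5) (nat_lit 17) (nat_lit 5) (nat_lit 18) (nat_lit 4) (nat_lit 364) (nat_lit 242) (nat_lit 174)) (XT.lf (nat_lit 0) (nat_lit 1333402725) (nat_lit 760) (nat_lit 1277550134) (nat_lit 760) (nat_lit 1277550134) (nat_lit 287) (nat_lit 4) (nat_lit 297) (nat_lit 5) (nat_lit 297) (nat_lit 4) (nat_lit 294) (nat_lit 243) (nat_lit 243)))) (XT.nd (nat_lit 156) (nat_lit 1444) (nat_lit 0) (XT.nd (nat_lit 78) (nat_lit 684) (nat_lit 0) (XT.lf (nat_lit 0) (nat_lit 2643691630) (nat_lit 760) (nat_lit 4512565383) (nat_lit 0) (nat_lit 704403098) (nat_lit 277) (nat_lit 5) (nat_lit 287) (nat_lit 4) (nat_lit 277) (nat_lit 4) (nat_lit 295) (nat_lit 243) (nat_lit 242)) (XT.lf (nat_lit 0) (nat_lit 4032451845)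 (nat_lit 684) (nat_lit 3868739527) (nat_lit 684) (nat_lit 46646595) (nat_lit 268) (nat_lit 4) (nat_lit 277) (nat_lit 5) (nat_lit 277) (nat_lit 4) (nat_lit 296) (nat_lit 243) (nat_lit 241))) (XT.nd (nat_lit 78) (nat_lit 760) (nat_lit 0) (XT.lf (nat_lit 0) (nat_lit 4716782809) (nat_lit 608) (nat_lit 415316783) (nat_lit 684) (nat_lit 2906491349) (nat_lit 259) (nat_lit 5) (nat_lit 267) (nat_lit 5) (nat_lit 268) (nat_lit 4) (nat_lit 297) (nat_lit 243) (nat_lit 240)) (XT.lf (nat_lit 0) (nat_lit 2248608950) (nat_lit 760) (nat_lit 2737008050) (nat_lit 76) (nat_lit 3147317889) (nat_lit 249) (nat_lit 5) (nat_lit 259) (nat_lit 5) (nat_lit 250) (nat_lit 4) (nat_lit 298) (nat_lit 243) (nat_lit 239))))) (XT.nd (nat_lit 234) (nat_lit 2812) (nat_lit 0) (XT.nd (nat_lit 78) (nat_lit 1292) (nat_lit 0) (XT.lf (nat_lit 0) (nat_lit 6080214443) (nat_lit 608) (nat_lit 1369617418) (nat_lit 684) (nat_lit 781362796) (nat_lit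 241) (nat_lit 5) (nat_lit 249) (nat_lit 5) (nat_lit 250) (nat_lit 4) (nat_lit 299) (nat_lit 243) (nat_lit 238)) (XT.nd (nat_lit 78) (nat_lit 608) (nat_lit 0) (XT.lf (nat_lit 0) (nat_lit 4361927568) (nat_lit 684) (nat_lit 1589388969) (nat_lit 76) (nat_lit 2381670739) (nat_lit 232) (nat_lit 5) (nat_lit 241) (nat_lit 5) (nat_lit 233) (nat_lit 4) (nat_lit 300) (nat_lit 243) (nat_lit 237)) (XT.lf (nat_lit 0) (nat_lit 1137098111) (nat_lit 608) (nat_lit 1033810847) (nat_lit 76) (nat_lit 6267908433) (nat_lit 224) (nat_lit 5) (nat_lit 232) (nat_lit 5) (nat_lit 225) (nat_lit 5) (nat_lit 301) (nat_lit 243) (nat_lit 236)))) (XT.nd (nat_lit 156) (nat_lit 1064) (nat_lit 0) (XT.nd (nat_lit 78) (nat_lit 1140) (nat_lit 0) (XT.lf (nat_lit 0) (nat_lit 6291586434) (nat_lit 684) (nat_lit 503866786) (nat_lit 76) (nat_lit 1752981662) (nat_lit 216) (nat_lit 5) (nat_lit 225) (nat_lit 5) (nat_lit 217) (nat_lit 4) (nat_lit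 302) (nat_lit 243) (nat_lit 235)) (XT.lf (nat_lit 0) (nat_lit 696228) (nat_lit 532) (nat_lit 2852140701) (nat_lit 608) (nat_lit 5809156327) (nat_lit 201) (nat_lit 5) (nat_lit 208) (nat_lit 5) (nat_lit 209) (nat_lit 5) (nat_lit 303) (nat_lit 243) (nat_lit 234))) (XT.nd (nat_lit 78) (nat_lit 608) (nat_lit 0) (XT.lf (nat_lit 0) (nat_lit 492410306) (nat_lit 456) (nat_lit 7544039198) (nat_lit 532) (nat_lit 743256807) (nat_lit 195) (nat_lit 5) (nat_lit 201) (nat_lit 5) (nat_lit 202) (nat_lit 4) (nat_lit 304) (nat_lit 243) (nat_lit 233)) (XT.lf (nat_lit 0) (nat_lit 935054224) (nat_lit 532) (nat_lit 3441609327) (nat_lit 608) (nat_lit 4524560350) (nat_lit 187) (nat_lit 5) (nat_lit 194) (nat_lit 5) (nat_lit 195) (nat_lit 5) (nat_lit 305) (nat_lit 243) (nat_lit 232)))))) (XT.nd (nat_lit 546) (nat_lit 2660) (nat_lit 0) (XT.nd (nat_lit 234) (nat_lit 1824) (nat_lit 0) (XT.nd (nat_lit 78) (nat_lit 988) (nat_lit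 0) (XT.lf (nat_lit 0) (nat_lit 554600312) (nat_lit 532) (nat_lit 7669011420) (nat_lit 76) (nat_lit 803685673) (nat_lit 180) (nat_lit 5) (nat_lit 187) (nat_lit 5) (nat_lit 181) (nat_lit 5) (nat_lit 306) (nat_lit 243) (nat_lit 231)) (XT.nd (nat_lit 78) (nat_lit 532) (nat_lit 0) (XT.lf (nat_lit 0) (nat_lit 1717735966) (nat_lit 456) (nat_lit 3976134452) (nat_lit 532) (nat_lit 3463363989) (nat_lit 174) (nat_lit 5) (nat_lit 180) (nat_lit 5) (nat_lit 181) (nat_lit 5) (nat_lit 307) (nat_lit 243) (nat_lit 230)) (XT.lf (nat_lit 0) (nat_lit 1624351284) (nat_lit 532) (nat_lit 7243706564) (nat_lit 76) (nat_lit 423844926) (nat_lit 167) (nat_lit 5) (nat_lit 174) (nat_lit 5) (nat_lit 168) (nat_lit 5) (nat_lit 308) (nat_lit 243) (nat_lit 229)))) (XT.nd (nat_lit 156) (nat_lit 912) (nat_lit 0) (XT.nd (nat_lit 78) (nat_lit 456) (nat_lit 0) (XT.lf (nat_lit 0) (nat_lit 2308023907) (nat_lit 456) (nat_lit 4486217627)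 (nat_lit 532) (nat_lit 2636438591) (nat_lit 161) (nat_lit 5) (nat_lit 167) (nat_lit 5) (nat_lit 168) (nat_lit 5) (nat_lit 309) (nat_lit 243) (nat_lit 228)) (XT.lf (nat_lit 0) (nat_lit 2463952015) (nat_lit 456) (nat_lit 7049448190) (nat_lit 76) (nat_lit 60911328) (nat_lit 155) (nat_lit 5) (nat_lit 161) (nat_lit 5) (nat_lit 156) (nat_lit 5) (nat_lit 310) (nat_lit 243) (nat_lit 227))) (XT.nd (nat_lit 78) (nat_lit 456) (nat_lit 0) (XT.lf (nat_lit 0) (nat_lit 2661839374) (nat_lit 456) (nat_lit 5003262275) (nat_lit 532) (nat_lit 2057184648) (nat_lit 149) (nat_lit 5) (nat_lit 155) (nat_lit 5) (nat_lit 156) (nat_lit 5) (nat_lit 311) (nat_lit 243) (nat_lit 226)) (XT.lf (nat_lit 0) (nat_lit 2740384785) (nat_lit 380) (nat_lit 320743414) (nat_lit 456) (nat_lit 6814118564) (nat_lit 143) (nat_lit 5) (nat_lit 148) (nat_lit 5) (nat_lit 149) (nat_lit 5) (nat_lit 312) (nat_lit 243) (nat_lit 225))))) (XT.nd (nat_lit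 234) (nat_lit 1444) (nat_lit 0) (XT.nd (nat_lit 78) (nat_lit 836) (nat_lit 0) (XT.lf (nat_lit 0) (nat_lit 2731273701) (nat_lit 380) (nat_lit 5559869944) (nat_lit 456) (nat_lit 1741708547) (nat_lit 138) (nat_lit 5) (nat_lit 143) (nat_lit 5) (nat_lit 144) (nat_lit 5) (nat_lit 313) (nat_lit 243) (nat_lit 224)) (XT.nd (nat_lit 78) (nat_lit 380) (nat_lit 0) (XT.lf (nat_lit 0) (nat_lit 2646314393) (nat_lit 380) (nat_lit 751086162) (nat_lit 456) (nat_lit 6798176600) (nat_lit 132) (nat_lit 5) (nat_lit 137) (nat_lit 5) (nat_lit 138) (nat_lit 5) (nat_lit 314) (nat_lit 243) (nat_lit 223)) (XT.lf (nat_lit 0) (nat_lit 2464077909) (nat_lit 380) (nat_lit 6190152902) (nat_lit 456) (nat_lit 1709024934) (nat_lit 127) (nat_lit 5) (nat_lit 132) (nat_lit 5) (nat_lit 133) (nat_lit 5) (nat_lit 315) (nat_lit 243) (nat_lit 222)))) (XT.nd (nat_lit 156) (nat_lit 684) (nat_lit 0) (XT.nd (nat_lit 78) (nat_lit 380) (nat_lit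 0) (XT.lf (nat_lit 0) (nat_lit 2188388795) (nat_lit 304) (nat_lit 1264132540) (nat_lit 380) (nat_lit 7083707660) (nat_lit 122) (nat_lit 5) (nat_lit 126) (nat_lit 5) (nat_lit 127) (nat_lit 5) (nat_lit 316) (nat_lit 243) (nat_lit 221)) (XT.lf (nat_lit 0) (nat_lit 1803106032) (nat_lit 380) (nat_lit 6930065933) (nat_lit 456) (nat_lit 1981286837) (nat_lit 117) (nat_lit 5) (nat_lit 122) (nat_lit 5) (nat_lit 123) (nat_lit 5) (nat_lit 317) (nat_lit 243) (nat_lit 220))) (XT.nd (nat_lit 78) (nat_lit 304) (nat_lit 0) (XT.lf (nat_lit 0) (nat_lit 1306745696) (nat_lit 304) (nat_lit 1896704448) (nat_lit 380) (nat_lit 7694757257) (nat_lit 112) (nat_lit 5) (nat_lit 116) (nat_lit 5) (nat_lit 117) (nat_lit 5) (nat_lit 318) (nat_lit 243) (nat_lit 219)) (XT.lf (nat_lit 0) (nat_lit 685706681) (nat_lit 304) (nat_lit 7817760373) (nat_lit 380) (nat_lit 2584045943) (nat_lit 108) (nat_lit 5) (nat_lit 112) (nat_lit 5) (nat_lit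 113) (nat_lit 5) (nat_lit 319) (nat_lit 243) (nat_lit 218))))))))
noncomputable def xc24 : XT := (XT.nd (nat_lit 2106) (nat_lit 1520) (nat_lit 0) (XT.nd (nat_lit 1014) (nat_lit 2204) (nat_lit 0) (XT.nd (nat_lit 468) (nat_lit 1672) (nat_lit 0) (XT.nd (nat_lit 234) (nat_lit 836) (nat_lit 0) (XT.nd (nat_lit 78) (nat_lit 684) (nat_lit 0) (XT.lf (nat_lit 0) (nat_lit 2624100474) (nat_lit 380) (nat_lit 63460811) (nat_lit 76) (nat_lit 8595040902) (nat_lit 107) (nat_lit 5) (nat_lit 112) (nat_lit 5) (nat_lit 108) (nat_lit 5) (nat_lit 320) (nat_lit 243) (nat_lit 217)) (XT.nd (nat_lit 78) (nat_lit 380) (nat_lit 0) (XT.lf (nat_lit 0) (nat_lit 7943233690) (nat_lit 380) (nat_lit 944392588) (nat_lit 76) (nat_lit 2595815752) (nat_lit 103) (nat_lit 5) (nat_lit 108) (nat_lit 5) (nat_lit 104) (nat_lit 5) (nat_lit 321) (nat_lit 243) (nat_lit 216)) (XT.lf (nat_lit 0) (nat_lit 1695913987) (nat_lit 380) (nat_lit 1970783984)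 (nat_lit 76) (nat_lit 8023679237) (nat_lit 98) (nat_lit 5) (nat_lit 103) (nat_lit 5) (nat_lit 99) (nat_lit 5) (nat_lit 322) (nat_lit 243) (nat_lit 215)))) (XT.nd (nat_lit 78) (nat_lit 608) (nat_lit 0) (XT.lf (nat_lit 0) (nat_lit 7022600152) (nat_lit 304) (nat_lit 3158591922) (nat_lit 76) (nat_lit 1722262601) (nat_lit 95) (nat_lit 5) (nat_lit 99) (nat_lit 5) (nat_lit 96) (nat_lit 5) (nat_lit 323) (nat_lit 243) (nat_lit 214)) (XT.nd (nat_lit 78) (nat_lit 228) (nat_lit 0) (XT.lf (nat_lit 0) (nat_lit 376543017) (nat_lit 380) (nat_lit 4510823004) (nat_lit 76) (nat_lit 7235631570) (nat_lit 90) (nat_lit 5) (nat_lit 95) (nat_lit 5) (nat_lit 91) (nat_lit 5) (nat_lit 324) (nat_lit 243) (nat_lit 213)) (XT.lf (nat_lit 0) (nat_lit 5701366309) (nat_lit 304) (nat_lit 6048218404) (nat_lit 76) (nat_lit 599407760) (nat_lit 87) (nat_lit 5) (nat_lit 91) (nat_lit 5) (nat_lit 88) (nat_lit 5) (nat_lit 325) (nat_lit 243)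 (nat_lit 212))))) (XT.nd (nat_lit 234) (nat_lit 836) (nat_lit 0) (XT.nd (nat_lit 78) (nat_lit 532) (nat_lit 0) (XT.lf (nat_lit 0) (nat_lit 4802602597) (nat_lit 304) (nat_lit 6388541485) (nat_lit 380) (nat_lit 1390549251) (nat_lit 83) (nat_lit 5) (nat_lit 87) (nat_lit 5) (nat_lit 88) (nat_lit 5) (nat_lit 326) (nat_lit 243) (nat_lit 211)) (XT.nd (nat_lit 78) (nat_lit 228) (nat_lit 0) (XT.lf (nat_lit 0) (nat_lit 3111936019) (nat_lit 228) (nat_lit 832630596) (nat_lit 304) (nat_lit 8876852804) (nat_lit 79) (nat_lit 5) (nat_lit 82) (nat_lit 5) (nat_lit 83) (nat_lit 5) (nat_lit 327) (nat_lit 243) (nat_lit 210)) (XT.lf (nat_lit 0) (nat_lit 1200503222) (nat_lit 228) (nat_lit 8225999934) (nat_lit 304) (nat_lit 3641565140) (nat_lit 76) (nat_lit 5) (nat_lit 79) (nat_lit 5) (nat_lit 80) (nat_lit 5) (nat_lit 328) (nat_lit 243) (nat_lit 209)))) (XT.nd (nat_lit 156) (nat_lit 532) (nat_lit 0) (XT.nd (nat_lit 78)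 (nat_lit 228) (nat_lit 0) (XT.lf (nat_lit 0) (nat_lit 1713594640) (nat_lit 304) (nat_lit 909068054) (nat_lit 76) (nat_lit 10699537770) (nat_lit 75) (nat_lit 5) (nat_lit 79) (nat_lit 5) (nat_lit 76) (nat_lit 5) (nat_lit 329) (nat_lit 243) (nat_lit 208)) (XT.lf (nat_lit 0) (nat_lit 7184612027) (nat_lit 304) (nat_lit 3252386935) (nat_lit 76) (nat_lit 3146408572) (nat_lit 72) (nat_lit 5) (nat_lit 76) (nat_lit 5) (nat_lit 73) (nat_lit 5) (nat_lit 330) (nat_lit 243) (nat_lit 207))) (XT.nd (nat_lit 78) (nat_lit 304) (nat_lit 0) (XT.lf (nat_lit 0) (nat_lit 8019469999) (nat_lit 228) (nat_lit 4793788518) (nat_lit 304) (nat_lit 1039347473) (nat_lit 69) (nat_lit 5) (nat_lit 72) (nat_lit 5) (nat_lit 73) (nat_lit 5) (nat_lit 331) (nat_lit 243) (nat_lit 206)) (XT.lf (nat_lit 0) (nat_lit 4405189490) (nat_lit 304) (nat_lit 8685259876) (nat_lit 76) (nat_lit 1039211647) (nat_lit 65) (nat_lit 5) (nat_lit 69) (nat_lit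 5) (nat_lit 66) (nat_lit 5) (nat_lit 332) (nat_lit 243) (nat_lit 205)))))) (XT.nd (nat_lit 546) (nat_lit 1064) (nat_lit 0) (XT.nd (nat_lit 234) (nat_lit 684) (nat_lit 0) (XT.nd (nat_lit 78) (nat_lit 228) (nat_lit 0) (XT.lf (nat_lit 0) (nat_lit 2585997225) (nat_lit 228) (nat_lit 7421476705) (nat_lit 304) (nat_lit 4407268951) (nat_lit 62) (nat_lit 5) (nat_lit 65) (nat_lit 5) (nat_lit 66) (nat_lit 5) (nat_lit 333) (nat_lit 243) (nat_lit 204)) (XT.nd (nat_lit 78) (nat_lit 152) (nat_lit 0) (XT.lf (nat_lit 0) (nat_lit 1035414654) (nat_lit 304) (nat_lit 533669312) (nat_lit 76) (nat_lit 13139576664) (nat_lit 61) (nat_lit 5) (nat_lit 65) (nat_lit 5) (nat_lit 62) (nat_lit 5) (nat_lit 334) (nat_lit 243) (nat_lit 203)) (XT.lf (nat_lit 0) (nat_lit 6606160533) (nat_lit 228) (nat_lit 3953545417) (nat_lit 76) (nat_lit 4450635609) (nat_lit 59) (nat_lit 5) (nat_lit 62) (nat_lit 5) (nat_lit 60) (nat_lit 5) (nat_lit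 335) (nat_lit 243) (nat_lit 202)))) (XT.nd (nat_lit 156) (nat_lit 228) (nat_lit 0) (XT.nd (nat_lit 78) (nat_lit 228) (nat_lit 0) (XT.lf (nat_lit 0) (nat_lit 7642373537) (nat_lit 228) (nat_lit 4689540353) (nat_lit 304) (nat_lit 2989422173) (nat_lit 56) (nat_lit 5) (nat_lit 59) (nat_lit 5) (nat_lit 60) (nat_lit 5) (nat_lit 336) (nat_lit 243) (nat_lit 201)) (XT.lf (nat_lit 0) (nat_lit 2540100239) (nat_lit 228) (nat_lit 11744863739) (nat_lit 76) (nat_lit 1356655034) (nat_lit 53) (nat_lit 5) (nat_lit 56) (nat_lit 5) (nat_lit 54) (nat_lit 5) (nat_lit 337) (nat_lit 243) (nat_lit 200))) (XT.nd (nat_lit 78) (nat_lit 228) (nat_lit 0) (XT.lf (nat_lit 0) (nat_lit 8204906183) (nat_lit 228) (nat_lit 223947326) (nat_lit 76) (nat_lit 7542080760) (nat_lit 53) (nat_lit 5) (nat_lit 56) (nat_lit 5) (nat_lit 54) (nat_lit 5) (nat_lit 338) (nat_lit 243) (nat_lit 199)) (XT.lf (nat_lit 0) (nat_lit 11672739268) (nat_lit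 228) (nat_lit 2370898530) (nat_lit 304) (nat_lit 2266430257) (nat_lit 50) (nat_lit 5) (nat_lit 53) (nat_lit 5) (nat_lit 54) (nat_lit 5) (nat_lit 339) (nat_lit 243) (nat_lit 198))))) (XT.nd (nat_lit 234) (nat_lit 608) (nat_lit 0) (XT.nd (nat_lit 78) (nat_lit 228) (nat_lit 0) (XT.lf (nat_lit 0) (nat_lit 3356268109) (nat_lit 228) (nat_lit 9463897746) (nat_lit 76) (nat_lit 3838732942) (nat_lit 47) (nat_lit 5) (nat_lit 50) (nat_lit 5) (nat_lit 48) (nat_lit 5) (nat_lit 340) (nat_lit 243) (nat_lit 197)) (XT.nd (nat_lit 78) (nat_lit 0) (nat_lit 0) (XT.lf (nat_lit 0) (nat_lit 2306216808) (nat_lit 228) (nat_lit 6803253340) (nat_lit 304) (nat_lit 7908589685) (nat_lit 44) (nat_lit 5) (nat_lit 47) (nat_lit 5) (nat_lit 48) (nat_lit 5) (nat_lit 341) (nat_lit 243) (nat_lit 196)) (XT.lf (nat_lit 0) (nat_lit 14439920595) (nat_lit 228) (nat_lit 590722735) (nat_lit 304) (nat_lit 2357461650) (nat_lit 44) (nat_lit 5)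 (nat_lit 47) (nat_lit 5) (nat_lit 48) (nat_lit 5) (nat_lit 342) (nat_lit 243) (nat_lit 195)))) (XT.nd (nat_lit 156) (nat_lit 228) (nat_lit 0) (XT.nd (nat_lit 78) (nat_lit 152) (nat_lit 0) (XT.lf (nat_lit 0) (nat_lit 3346256575) (nat_lit 228) (nat_lit 8656842443) (nat_lit 76) (nat_lit 5765129583) (nat_lit 41) (nat_lit 5) (nat_lit 44) (nat_lit 5) (nat_lit 42) (nat_lit 5) (nat_lit 343) (nat_lit 243) (nat_lit 194)) (XT.lf (nat_lit 0) (nat_lit 3321832178) (nat_lit 152) (nat_lit 5846723187) (nat_lit 228) (nat_lit 8991314465) (nat_lit 39) (nat_lit 5) (nat_lit 41) (nat_lit 5) (nat_lit 42) (nat_lit 5) (nat_lit 344) (nat_lit 243) (nat_lit 193))) (XT.nd (nat_lit 78) (nat_lit 228) (nat_lit 0) (XT.lf (nat_lit 0) (nat_lit 15162346857) (nat_lit 228) (nat_lit 2902076445) (nat_lit 76) (nat_lit 498915575) (nat_lit 39) (nat_lit 5) (nat_lit 42) (nat_lit 5) (nat_lit 40) (nat_lit 4) (nat_lit 345) (nat_lit 243) (nat_lit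 192)) (XT.lf (nat_lit 0) (nat_lit 2362722215) (nat_lit 228) (nat_lit 9629477650) (nat_lit 76) (nat_lit 6985688489) (nat_lit 36) (nat_lit 5) (nat_lit 39) (nat_lit 5) (nat_lit 37) (nat_lit 5) (nat_lit 346) (nat_lit 243) (nat_lit 191))))))) (XT.nd (nat_lit 1014) (nat_lit 380) (nat_lit 0) (XT.nd (nat_lit 468) (nat_lit 532) (nat_lit 0) (XT.nd (nat_lit 234) (nat_lit 228) (nat_lit 0) (XT.nd (nat_lit 78) (nat_lit 228) (nat_lit 0) (XT.lf (nat_lit 0) (nat_lit 2501130755) (nat_lit 152) (nat_lit 5725490594) (nat_lit 228) (nat_lit 11178347678) (nat_lit 34) (nat_lit 5) (nat_lit 36) (nat_lit 5) (nat_lit 37) (nat_lit 5) (nat_lit 347) (nat_lit 243) (nat_lit 190)) (XT.nd (nat_lit 78) (nat_lit 228) (nat_lit 0) (XT.lf (nat_lit 0) (nat_lit 14274857383) (nat_lit 228) (nat_lit 4830860431) (nat_lit 76) (nat_lit 738989416) (nat_lit 34) (nat_lit 5) (nat_lit 37) (nat_lit 5) (nat_lit 35) (nat_lit 4) (nat_lit 348) (nat_lit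 243) (nat_lit 189)) (XT.lf (nat_lit 0) (nat_lit 231528232) (nat_lit 228) (nat_lit 12739889895) (nat_lit 76) (nat_lit 7325658665) (nat_lit 31) (nat_lit 5) (nat_lit 34) (nat_lit 5) (nat_lit 32) (nat_lit 5) (nat_lit 349) (nat_lit 243) (nat_lit 188)))) (XT.nd (nat_lit 78) (nat_lit 228) (nat_lit 0) (XT.lf (nat_lit 0) (nat_lit 6105134873) (nat_lit 228) (nat_lit 522314997) (nat_lit 76) (nat_lit 14135366528) (nat_lit 31) (nat_lit 5) (nat_lit 34) (nat_lit 5) (nat_lit 32) (nat_lit 5) (nat_lit 350) (nat_lit 243) (nat_lit 187)) (XT.nd (nat_lit 78) (nat_lit 76) (nat_lit 0) (XT.lf (nat_lit 0) (nat_lit 12118304732) (nat_lit 152) (nat_lit 57534821) (nat_lit 228) (nat_lit 9066282961) (nat_lit 29) (nat_lit 5) (nat_lit 31) (nat_lit 5) (nat_lit 32) (nat_lit 5) (nat_lit 351) (nat_lit 243) (nat_lit 186)) (XT.lf (nat_lit 0) (nat_lit 3307735343) (nat_lit 76) (nat_lit 15132484412) (nat_lit 152) (nat_lit 3295368739) (nat_lit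 28) (nat_lit 5) (nat_lit 29) (nat_lit 5) (nat_lit 30) (nat_lit 4) (nat_lit 352) (nat_lit 243) (nat_lit 185))))) (XT.nd (nat_lit 234) (nat_lit 304) (nat_lit 0) (XT.nd (nat_lit 78) (nat_lit 152) (nat_lit 0) (XT.lf (nat_lit 0) (nat_lit 2620138482) (nat_lit 152) (nat_lit 6124218045) (nat_lit 76) (nat_lit 13499045119) (nat_lit 27) (nat_lit 5) (nat_lit 29) (nat_lit 5) (nat_lit 28) (nat_lit 5) (nat_lit 353) (nat_lit 243) (nat_lit 184)) (XT.nd (nat_lit 78) (nat_lit 0) (nat_lit 0) (XT.lf (nat_lit 0) (nat_lit 6514128029) (nat_lit 152) (nat_lit 2141987522) (nat_lit 228) (nat_lit 14110153354) (nat_lit 25) (nat_lit 5) (nat_lit 27) (nat_lit 5) (nat_lit 28) (nat_lit 5) (nat_lit 354) (nat_lit 243) (nat_lit 183)) (XT.lf (nat_lit 0) (nat_lit 14891114065) (nat_lit 228) (nat_lit 3816078179) (nat_lit 76) (nat_lit 4597281651) (nat_lit 25) (nat_lit 5) (nat_lit 28) (nat_lit 5) (nat_lit 26) (nat_lit 4) (nat_lit 355) (nat_lit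 243) (nat_lit 182)))) (XT.nd (nat_lit 156) (nat_lit 152) (nat_lit 0) (XT.nd (nat_lit 78) (nat_lit 76) (nat_lit 0) (XT.lf (nat_lit 0) (nat_lit 9002619608) (nat_lit 76) (nat_lit 12330815315) (nat_lit 152) (nat_lit 2524994914) (nat_lit 24) (nat_lit 5) (nat_lit 25) (nat_lit 5) (nat_lit 26) (nat_lit 4) (nat_lit 356) (nat_lit 243) (nat_lit 181)) (XT.lf (nat_lit 0) (nat_lit 3467696321) (nat_lit 152) (nat_lit 2286894289) (nat_lit 76) (nat_lit 18674481851) (nat_lit 23) (nat_lit 5) (nat_lit 25) (nat_lit 5) (nat_lit 24) (nat_lit 5) (nat_lit 357) (nat_lit 243) (nat_lit 180))) (XT.nd (nat_lit 78) (nat_lit 0) (nat_lit 0) (XT.lf (nat_lit 0) (nat_lit 9631988667) (nat_lit 228) (nat_lit 14331269519) (nat_lit 76) (nat_lit 1052729344) (nat_lit 21) (nat_lit 5) (nat_lit 24) (nat_lit 5) (nat_lit 22) (nat_lit 4) (nat_lit 358) (nat_lit 243) (nat_lit 179)) (XT.lf (nat_lit 0) (nat_lit 15985510202) (nat_lit 228) (nat_lit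 1671921470) (nat_lit 76) (nat_lit 7963001567) (nat_lit 21) (nat_lit 5) (nat_lit 24) (nat_lit 5) (nat_lit 22) (nat_lit 4) (nat_lit 359) (nat_lit 243) (nat_lit 178)))))) (XT.nd (nat_lit 35490) (nat_lit 0) (nat_lit 16416) (XT.nd (nat_lit 234) (nat_lit 76) (nat_lit 0) (XT.nd (nat_lit 78) (nat_lit 228) (nat_lit 0) (XT.lf (nat_lit 0) (nat_lit 11429812738) (nat_lit 76) (nat_lit 11125702119) (nat_lit 152) (nat_lit 3686988840) (nat_lit 20) (nat_lit 5) (nat_lit 21) (nat_lit 5) (nat_lit 22) (nat_lit 4) (nat_lit 360) (nat_lit 243) (nat_lit 177)) (XT.nd (nat_lit 78) (nat_lit 152) (nat_lit 0) (XT.lf (nat_lit 0) (nat_lit 2370989609) (nat_lit 152) (nat_lit 2037964130) (nat_lit 76) (nat_lit 22474702282) (nat_lit 19) (nat_lit 5) (nat_lit 21) (nat_lit 5) (nat_lit 20) (nat_lit 5) (nat_lit 361) (nat_lit 243) (nat_lit 176)) (XT.lf (nat_lit 0) (nat_lit 8603622323) (nat_lit 228) (nat_lit 16402051159) (nat_lit 76) (nat_lit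 2537030132) (nat_lit 17) (nat_lit 5) (nat_lit 20) (nat_lit 5) (nat_lit 18) (nat_lit 4) (nat_lit 362) (nat_lit 243) (nat_lit 175)))) (XT.nd (nat_lit 35100) (nat_lit 0) (nat_lit 21356) (XT.nd (nat_lit 78) (nat_lit 76) (nat_lit 0) (XT.lf (nat_lit 0) (nat_lit 15020781800) (nat_lit 228) (nat_lit 3591621211) (nat_lit 76) (nat_lit 9609176677) (nat_lit 17) (nat_lit 5) (nat_lit 20) (nat_lit 5) (nat_lit 18) (nat_lit 4) (nat_lit 363) (nat_lit 243) (nat_lit 174)) (XT.lf (nat_lit 0) (nat_lit 9648771664) (nat_lit 76) (nat_lit 11999827524) (nat_lit 152) (nat_lit 7271867773) (nat_lit 16) (nat_lit 5) (nat_lit 17) (nat_lit 5) (nat_lit 18) (nat_lit 4) (nat_lit 364) (nat_lit 243) (nat_lit 173))) (XT.nd (nat_lit 78) (nat_lit 760) (nat_lit 0) (XT.lf (nat_lit 0) (nat_lit 711516057) (nat_lit 760) (nat_lit 1548977726) (nat_lit 760) (nat_lit 1548977726) (nat_lit 307) (nat_lit 4) (nat_lit 317) (nat_lit 5) (nat_lit 317) (nat_lit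 4) (nat_lit 292) (nat_lit 244) (nat_lit 244)) (XT.lf (nat_lit 0) (nat_lit 2003708249) (nat_lit 684) (nat_lit 17021013) (nat_lit 760) (nat_lit 5676335624) (nat_lit 297) (nat_lit 5) (nat_lit 306) (nat_lit 5) (nat_lit 307) (nat_lit 4) (nat_lit 293) (nat_lit 244) (nat_lit 243))))) (XT.nd (nat_lit 234) (nat_lit 2660) (nat_lit 0) (XT.nd (nat_lit 78) (nat_lit 1520) (nat_lit 0) (XT.lf (nat_lit 0) (nat_lit 2584052600) (nat_lit 760) (nat_lit 4604951443) (nat_lit 760) (nat_lit 589460609) (nat_lit 287) (nat_lit 4) (nat_lit 297) (nat_lit 5) (nat_lit 297) (nat_lit 4) (nat_lit 294) (nat_lit 244) (nat_lit 242)) (XT.nd (nat_lit 78) (nat_lit 760) (nat_lit 0) (XT.lf (nat_lit 0) (nat_lit 3172172345) (nat_lit 684) (nat_lit 1336799766) (nat_lit 760) (nat_lit 3354432787) (nat_lit 277) (nat_lit 5) (nat_lit 286) (nat_lit 5) (nat_lit 287) (nat_lit 4) (nat_lit 295) (nat_lit 244) (nat_lit 241)) (XT.lf (nat_lit 0) (nat_lit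 1713807470) (nat_lit 760) (nat_lit 4185634465) (nat_lit 76) (nat_lit 2052517721) (nat_lit 267) (nat_lit 5) (nat_lit 277) (nat_lit 5) (nat_lit 268) (nat_lit 4) (nat_lit 296) (nat_lit 244) (nat_lit 240)))) (XT.nd (nat_lit 156) (nat_lit 1292) (nat_lit 0) (XT.nd (nat_lit 78) (nat_lit 760) (nat_lit 0) (XT.lf (nat_lit 0) (nat_lit 4360652443) (nat_lit 608) (nat_lit 2462566231) (nat_lit 684) (nat_lit 1220908364) (nat_lit 259) (nat_lit 5) (nat_lit 267) (nat_lit 5) (nat_lit 268) (nat_lit 4) (nat_lit 297) (nat_lit 244) (nat_lit 239)) (XT.lf (nat_lit 0) (nat_lit 3830299174) (nat_lit 760) (nat_lit 3189542749) (nat_lit 76) (nat_lit 1120089694) (nat_lit 249) (nat_lit 5) (nat_lit 259) (nat_lit 5) (nat_lit 250) (nat_lit 4) (nat_lit 298) (nat_lit 244) (nat_lit 238))) (XT.nd (nat_lit 78) (nat_lit 608) (nat_lit 0) (XT.lf (nat_lit 0) (nat_lit 714755933) (nat_lit 684) (nat_lit 2704122153) (nat_lit 76) (nat_lit 4820615362)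 (nat_lit 240) (nat_lit 5) (nat_lit 249) (nat_lit 5) (nat_lit 241) (nat_lit 5) (nat_lit 299) (nat_lit 244) (nat_lit 237)) (XT.lf (nat_lit 0) (nat_lit 5766916841) (nat_lit 684) (nat_lit 2232270657) (nat_lit 76) (nat_lit 343655206) (nat_lit 232) (nat_lit 5) (nat_lit 241) (nat_lit 5) (nat_lit 233) (nat_lit 4) (nat_lit 300) (nat_lit 244) (nat_lit 236))))))))
noncomputable def xc25 : XT := (XT.nd (nat_lit 2106) (nat_lit 4332) (nat_lit 0) (XT.nd (nat_lit 1014) (nat_lit 4256) (nat_lit 0) (XT.nd (nat_lit 468) (nat_lit 3192) (nat_lit 0) (XT.nd (nat_lit 234) (nat_lit 2128) (nat_lit 0) (XT.nd (nat_lit 78) (nat_lit 1216) (nat_lit 0) (XT.lf (nat_lit 0) (nat_lit 2446646497) (nat_lit 608) (nat_lit 1786020950) (nat_lit 76) (nat_lit 4217208483) (nat_lit 224) (nat_lit 5) (nat_lit 232) (nat_lit 5) (nat_lit 225) (nat_lit 5) (nat_lit 301) (nat_lit 244) (nat_lit 235)) (XT.nd (nat_lit 78) (nat_lit 608) (nat_lit 0) (XT.lf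 (nat_lit 0) (nat_lit 7213637577) (nat_lit 608) (nat_lit 309298447) (nat_lit 684) (nat_lit 1038158767) (nat_lit 216) (nat_lit 5) (nat_lit 224) (nat_lit 5) (nat_lit 225) (nat_lit 5) (nat_lit 302) (nat_lit 244) (nat_lit 234)) (XT.lf (nat_lit 0) (nat_lit 3986947568) (nat_lit 608) (nat_lit 953911702) (nat_lit 76) (nat_lit 3735043150) (nat_lit 208) (nat_lit 5) (nat_lit 216) (nat_lit 5) (nat_lit 209) (nat_lit 5) (nat_lit 303) (nat_lit 244) (nat_lit 233)))) (XT.nd (nat_lit 78) (nat_lit 1520) (nat_lit 0) (XT.lf (nat_lit 0) (nat_lit 294135552) (nat_lit 608) (nat_lit 570265668) (nat_lit 76) (nat_lit 7930756494) (nat_lit 200) (nat_lit 5) (nat_lit 208) (nat_lit 5) (nat_lit 201) (nat_lit 5) (nat_lit 304) (nat_lit 244) (nat_lit 232)) (XT.nd (nat_lit 78) (nat_lit 1064) (nat_lit 0) (XT.lf (nat_lit 0) (nat_lit 5329784743) (nat_lit 532) (nat_lit 242624422) (nat_lit 76) (nat_lit 3345692980) (nat_lit 194) (nat_lit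 5) (nat_lit 201) (nat_lit 5) (nat_lit 195) (nat_lit 5) (nat_lit 305) (nat_lit 244) (nat_lit 231)) (XT.lf (nat_lit 0) (nat_lit 62790176) (nat_lit 456) (nat_lit 1342162082) (nat_lit 532) (nat_lit 7640605364) (nat_lit 180) (nat_lit 5) (nat_lit 186) (nat_lit 5) (nat_lit 187) (nat_lit 5) (nat_lit 306) (nat_lit 244) (nat_lit 230))))) (XT.nd (nat_lit 234) (nat_lit 1748) (nat_lit 0) (XT.nd (nat_lit 78) (nat_lit 988) (nat_lit 0) (XT.lf (nat_lit 0) (nat_lit 314610587) (nat_lit 456) (nat_lit 6154562548) (nat_lit 532) (nat_lit 2707852870) (nat_lit 174) (nat_lit 5) (nat_lit 180) (nat_lit 5) (nat_lit 181) (nat_lit 5) (nat_lit 307) (nat_lit 244) (nat_lit 229)) (XT.nd (nat_lit 78) (nat_lit 456) (nat_lit 0) (XT.lf (nat_lit 0) (nat_lit 524023131) (nat_lit 456) (nat_lit 1776760108) (nat_lit 532) (nat_lit 7012225368) (nat_lit 167) (nat_lit 5) (nat_lit 173) (nat_lit 5) (nat_lit 174) (nat_lit 5) (nat_lit 308) (nat_lit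 244) (nat_lit 228)) (XT.lf (nat_lit 0) (nat_lit 673978345) (nat_lit 456) (nat_lit 6719074872) (nat_lit 532) (nat_lit 2060313235) (nat_lit 161) (nat_lit 5) (nat_lit 167) (nat_lit 5) (nat_lit 168) (nat_lit 5) (nat_lit 309) (nat_lit 244) (nat_lit 227)))) (XT.nd (nat_lit 156) (nat_lit 836) (nat_lit 0) (XT.nd (nat_lit 78) (nat_lit 456) (nat_lit 0) (XT.lf (nat_lit 0) (nat_lit 763345137) (nat_lit 380) (nat_lit 2202585919) (nat_lit 456) (nat_lit 6632350534) (nat_lit 155) (nat_lit 5) (nat_lit 160) (nat_lit 5) (nat_lit 161) (nat_lit 5) (nat_lit 310) (nat_lit 244) (nat_lit 226)) (XT.lf (nat_lit 0) (nat_lit 788054306) (nat_lit 456) (nat_lit 7298752067) (nat_lit 532) (nat_lit 1661081427) (nat_lit 149) (nat_lit 5) (nat_lit 155) (nat_lit 5) (nat_lit 156) (nat_lit 5) (nat_lit 311) (nat_lit 244) (nat_lit 225))) (XT.nd (nat_lit 78) (nat_lit 380) (nat_lit 0) (XT.lf (nat_lit 0) (nat_lit 734633505) (nat_lit 380) (nat_lit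 2651267195) (nat_lit 456) (nat_lit 6516243551) (nat_lit 143) (nat_lit 5) (nat_lit 148) (nat_lit 5) (nat_lit 149) (nat_lit 5) (nat_lit 312) (nat_lit 244) (nat_lit 224)) (XT.lf (nat_lit 0) (nat_lit 608781061) (nat_lit 380) (nat_lit 7926005188) (nat_lit 456) (nat_lit 1526610016) (nat_lit 138) (nat_lit 5) (nat_lit 143) (nat_lit 5) (nat_lit 144) (nat_lit 5) (nat_lit 313) (nat_lit 244) (nat_lit 223)))))) (XT.nd (nat_lit 546) (nat_lit 1900) (nat_lit 0) (XT.nd (nat_lit 234) (nat_lit 1444) (nat_lit 0) (XT.nd (nat_lit 78) (nat_lit 456) (nat_lit 0) (XT.lf (nat_lit 0) (nat_lit 387663752) (nat_lit 380) (nat_lit 3155797874) (nat_lit 456) (nat_lit 6681978831) (nat_lit 132) (nat_lit 5) (nat_lit 137) (nat_lit 5) (nat_lit 138) (nat_lit 5) (nat_lit 314) (nat_lit 244) (nat_lit 222)) (XT.nd (nat_lit 78) (nat_lit 76) (nat_lit 0) (XT.lf (nat_lit 0) (nat_lit 83734361) (nat_lit 380) (nat_lit 8634789193) (nat_lit 456) (nat_lit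 1676253026) (nat_lit 127) (nat_lit 5) (nat_lit 132) (nat_lit 5) (nat_lit 133) (nat_lit 5) (nat_lit 315) (nat_lit 244) (nat_lit 221)) (XT.lf (nat_lit 0) (nat_lit 3420593787) (nat_lit 456) (nat_lit 328063174) (nat_lit 76) (nat_lit 6820395106) (nat_lit 126) (nat_lit 5) (nat_lit 132) (nat_lit 5) (nat_lit 127) (nat_lit 5) (nat_lit 316) (nat_lit 244) (nat_lit 220)))) (XT.nd (nat_lit 156) (nat_lit 684) (nat_lit 0) (XT.nd (nat_lit 78) (nat_lit 456) (nat_lit 0) (XT.lf (nat_lit 0) (nat_lit 8621982587) (nat_lit 380) (nat_lit 833358092) (nat_lit 76) (nat_lit 1293546918) (nat_lit 122) (nat_lit 5) (nat_lit 127) (nat_lit 5) (nat_lit 123) (nat_lit 5) (nat_lit 317) (nat_lit 244) (nat_lit 219)) (XT.lf (nat_lit 0) (nat_lit 2997101665) (nat_lit 456) (nat_lit 1466216227) (nat_lit 76) (nat_lit 6470609513) (nat_lit 116) (nat_lit 5) (nat_lit 122) (nat_lit 5) (nat_lit 117) (nat_lit 5) (nat_lit 318) (nat_lit 244) (nat_lit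 218))) (XT.nd (nat_lit 78) (nat_lit 380) (nat_lit 0) (XT.lf (nat_lit 0) (nat_lit 8218427057) (nat_lit 380) (nat_lit 2209239434) (nat_lit 76) (nat_lit 697159271) (nat_lit 112) (nat_lit 5) (nat_lit 117) (nat_lit 5) (nat_lit 113) (nat_lit 5) (nat_lit 319) (nat_lit 244) (nat_lit 217)) (XT.lf (nat_lit 0) (nat_lit 2244069828) (nat_lit 380) (nat_lit 3096942233) (nat_lit 76) (nat_lit 5980200880) (nat_lit 107) (nat_lit 5) (nat_lit 112) (nat_lit 5) (nat_lit 108) (nat_lit 5) (nat_lit 320) (nat_lit 244) (nat_lit 216))))) (XT.nd (nat_lit 234) (nat_lit 988) (nat_lit 0) (XT.nd (nat_lit 78) (nat_lit 608) (nat_lit 0) (XT.lf (nat_lit 0) (nat_lit 7410109224) (nat_lit 304) (nat_lit 69689895) (nat_lit 380) (nat_lit 4043939236) (nat_lit 103) (nat_lit 5) (nat_lit 107) (nat_lit 5) (nat_lit 108) (nat_lit 5) (nat_lit 321) (nat_lit 244) (nat_lit 215)) (XT.nd (nat_lit 78) (nat_lit 228) (nat_lit 0) (XT.lf (nat_lit 0) (nat_lit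 1131377638) (nat_lit 380) (nat_lit 5291767483) (nat_lit 76) (nat_lit 5308958715) (nat_lit 98) (nat_lit 5) (nat_lit 103) (nat_lit 5) (nat_lit 99) (nat_lit 5) (nat_lit 322) (nat_lit 244) (nat_lit 214)) (XT.lf (nat_lit 0) (nat_lit 5319705897) (nat_lit 228) (nat_lit 1060081589) (nat_lit 304) (nat_lit 5566975509) (nat_lit 95) (nat_lit 5) (nat_lit 98) (nat_lit 5) (nat_lit 99) (nat_lit 5) (nat_lit 323) (nat_lit 244) (nat_lit 213)))) (XT.nd (nat_lit 156) (nat_lit 380) (nat_lit 0) (XT.nd (nat_lit 78) (nat_lit 304) (nat_lit 0) (XT.lf (nat_lit 0) (nat_lit 4035947451) (nat_lit 304) (nat_lit 7751765099) (nat_lit 380) (nat_lit 380139982) (nat_lit 91) (nat_lit 5) (nat_lit 95) (nat_lit 5) (nat_lit 96) (nat_lit 5) (nat_lit 324) (nat_lit 244) (nat_lit 212)) (XT.lf (nat_lit 0) (nat_lit 2567478873) (nat_lit 228) (nat_lit 2310561725) (nat_lit 304) (nat_lit 7517303684) (nat_lit 87) (nat_lit 5) (nat_lit 90) (nat_lit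 5) (nat_lit 91) (nat_lit 5) (nat_lit 325) (nat_lit 244) (nat_lit 211))) (XT.nd (nat_lit 78) (nat_lit 76) (nat_lit 0) (XT.lf (nat_lit 0) (nat_lit 917751407) (nat_lit 304) (nat_lit 9367073536) (nat_lit 380) (nat_lit 2344894572) (nat_lit 83) (nat_lit 5) (nat_lit 87) (nat_lit 5) (nat_lit 88) (nat_lit 5) (nat_lit 326) (nat_lit 244) (nat_lit 210)) (XT.lf (nat_lit 0) (nat_lit 2940275775) (nat_lit 380) (nat_lit 924265865) (nat_lit 76) (nat_lit 9006290930) (nat_lit 82) (nat_lit 5) (nat_lit 87) (nat_lit 5) (nat_lit 83) (nat_lit 5) (nat_lit 327) (nat_lit 244) (nat_lit 209))))))) (XT.nd (nat_lit 1092) (nat_lit 1672) (nat_lit 0) (XT.nd (nat_lit 546) (nat_lit 1140) (nat_lit 0) (XT.nd (nat_lit 234) (nat_lit 760) (nat_lit 0) (XT.nd (nat_lit 78) (nat_lit 532) (nat_lit 0) (XT.lf (nat_lit 0) (nat_lit 8346976831) (nat_lit 304) (nat_lit 2961801341) (nat_lit 76) (nat_lit 1810221388) (nat_lit 79) (nat_lit 5) (nat_lit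 83) (nat_lit 5) (nat_lit 80) (nat_lit 5) (nat_lit 328) (nat_lit 244) (nat_lit 208)) (XT.nd (nat_lit 78) (nat_lit 228) (nat_lit 0) (XT.lf (nat_lit 0) (nat_lit 537206955) (nat_lit 304) (nat_lit 5222303170) (nat_lit 76) (nat_lit 7614996280) (nat_lit 75) (nat_lit 5) (nat_lit 79) (nat_lit 5) (nat_lit 76) (nat_lit 5) (nat_lit 329) (nat_lit 244) (nat_lit 207)) (XT.lf (nat_lit 0) (nat_lit 5914960033) (nat_lit 228) (nat_lit 3811801) (nat_lit 304) (nat_lit 7718743079) (nat_lit 72) (nat_lit 5) (nat_lit 75) (nat_lit 5) (nat_lit 76) (nat_lit 5) (nat_lit 330) (nat_lit 244) (nat_lit 206)))) (XT.nd (nat_lit 156) (nat_lit 228) (nat_lit 0) (XT.nd (nat_lit 78) (nat_lit 304) (nat_lit 0) (XT.lf (nat_lit 0) (nat_lit 3423743902) (nat_lit 228) (nat_lit 8054445840) (nat_lit 304) (nat_lit 2429920223) (nat_lit 69) (nat_lit 5) (nat_lit 72) (nat_lit 5) (nat_lit 73) (nat_lit 5) (nat_lit 331) (nat_lit 244) (nat_lit 205)) (XT.lf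 (nat_lit 0) (nat_lit 681841946) (nat_lit 228) (nat_lit 2274305206) (nat_lit 304) (nat_lit 11230743996) (nat_lit 65) (nat_lit 5) (nat_lit 68) (nat_lit 5) (nat_lit 69) (nat_lit 5) (nat_lit 332) (nat_lit 244) (nat_lit 204))) (XT.nd (nat_lit 78) (nat_lit 228) (nat_lit 0) (XT.lf (nat_lit 0) (nat_lit 8488525482) (nat_lit 304) (nat_lit 2317277641) (nat_lit 76) (nat_lit 3667579129) (nat_lit 65) (nat_lit 5) (nat_lit 69) (nat_lit 5) (nat_lit 66) (nat_lit 5) (nat_lit 333) (nat_lit 244) (nat_lit 203)) (XT.lf (nat_lit 0) (nat_lit 9184576986) (nat_lit 228) (nat_lit 5001557204) (nat_lit 304) (nat_lit 582370620) (nat_lit 62) (nat_lit 5) (nat_lit 65) (nat_lit 5) (nat_lit 66) (nat_lit 5) (nat_lit 334) (nat_lit 244) (nat_lit 202))))) (XT.nd (nat_lit 234) (nat_lit 608) (nat_lit 0) (XT.nd (nat_lit 78) (nat_lit 304) (nat_lit 0) (XT.lf (nat_lit 0) (nat_lit 4902908599) (nat_lit 228) (nat_lit 9168500622) (nat_lit 76) (nat_lit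 1000724502) (nat_lit 59) (nat_lit 5) (nat_lit 62) (nat_lit 5) (nat_lit 60) (nat_lit 5) (nat_lit 335) (nat_lit 244) (nat_lit 201)) (XT.nd (nat_lit 78) (nat_lit 76) (nat_lit 0) (XT.lf (nat_lit 0) (nat_lit 2295782468) (nat_lit 228) (nat_lit 8261881173) (nat_lit 304) (nat_lit 4826894522) (nat_lit 56) (nat_lit 5) (nat_lit 59) (nat_lit 5) (nat_lit 60) (nat_lit 5) (nat_lit 336) (nat_lit 244) (nat_lit 200)) (XT.lf (nat_lit 0) (nat_lit 656575653) (nat_lit 304) (nat_lit 1604252478) (nat_lit 76) (nat_lit 13445664095) (nat_lit 55) (nat_lit 5) (nat_lit 59) (nat_lit 5) (nat_lit 56) (nat_lit 5) (nat_lit 337) (nat_lit 244) (nat_lit 199)))) (XT.nd (nat_lit 156) (nat_lit 228) (nat_lit 0) (XT.nd (nat_lit 78) (nat_lit 228) (nat_lit 0) (XT.lf (nat_lit 0) (nat_lit 6260706360) (nat_lit 228) (nat_lit 5857175571) (nat_lit 76) (nat_lit 3919148268) (nat_lit 53) (nat_lit 5) (nat_lit 56) (nat_lit 5) (nat_lit 54) (nat_lit 5)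 (nat_lit 338) (nat_lit 244) (nat_lit 198)) (XT.lf (nat_lit 0) (nat_lit 5905065768) (nat_lit 228) (nat_lit 6122582653) (nat_lit 304) (nat_lit 4349960302) (nat_lit 50) (nat_lit 5) (nat_lit 53) (nat_lit 5) (nat_lit 54) (nat_lit 5) (nat_lit 339) (nat_lit 244) (nat_lit 197))) (XT.nd (nat_lit 78) (nat_lit 0) (nat_lit 0) (XT.lf (nat_lit 0) (nat_lit 1202568240) (nat_lit 228) (nat_lit 15466443216) (nat_lit 76) (nat_lit 59656992) (nat_lit 47) (nat_lit 5) (nat_lit 50) (nat_lit 5) (nat_lit 48) (nat_lit 5) (nat_lit 340) (nat_lit 244) (nat_lit 196)) (XT.lf (nat_lit 0) (nat_lit 6907307983) (nat_lit 228) (nat_lit 3784454947) (nat_lit 76) (nat_lit 6397044066) (nat_lit 47) (nat_lit 5) (nat_lit 50) (nat_lit 5) (nat_lit 48) (nat_lit 5) (nat_lit 341) (nat_lit 244) (nat_lit 195)))))) (XT.nd (nat_lit 546) (nat_lit 684) (nat_lit 0) (XT.nd (nat_lit 234) (nat_lit 532) (nat_lit 0) (XT.nd (nat_lit 78) (nat_lit 228) (nat_lit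 0) (XT.lf (nat_lit 0) (nat_lit 8242014617) (nat_lit 228) (nat_lit 4528685713) (nat_lit 304) (nat_lit 4689315454) (nat_lit 44) (nat_lit 5) (nat_lit 47) (nat_lit 5) (nat_lit 48) (nat_lit 5) (nat_lit 342) (nat_lit 244) (nat_lit 194)) (XT.nd (nat_lit 78) (nat_lit 0) (nat_lit 0) (XT.lf (nat_lit 0) (nat_lit 945229123) (nat_lit 228) (nat_lit 15098696585) (nat_lit 76) (nat_lit 1798519263) (nat_lit 41) (nat_lit 5) (nat_lit 44) (nat_lit 5) (nat_lit 42) (nat_lit 5) (nat_lit 343) (nat_lit 244) (nat_lit 193)) (XT.lf (nat_lit 0) (nat_lit 6714245331) (nat_lit 228) (nat_lit 3218889354) (nat_lit 76) (nat_lit 8302024583) (nat_lit 41) (nat_lit 5) (nat_lit 44) (nat_lit 5) (nat_lit 42) (nat_lit 5) (nat_lit 344) (nat_lit 244) (nat_lit 192)))) (XT.nd (nat_lit 156) (nat_lit 228) (nat_lit 0) (XT.nd (nat_lit 78) (nat_lit 152) (nat_lit 0) (XT.lf (nat_lit 0) (nat_lit 9026707767) (nat_lit 152) (nat_lit 3625725281) (nat_lit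 228) (nat_lit 5987314544) (nat_lit 39) (nat_lit 5) (nat_lit 41) (nat_lit 5) (nat_lit 42) (nat_lit 5) (nat_lit 345) (nat_lit 244) (nat_lit 191)) (XT.lf (nat_lit 0) (nat_lit 2533978279) (nat_lit 152) (nat_lit 16230157307) (nat_lit 228) (nat_lit 292444787) (nat_lit 37) (nat_lit 5) (nat_lit 39) (nat_lit 5) (nat_lit 40) (nat_lit 4) (nat_lit 346) (nat_lit 244) (nat_lit 190))) (XT.nd (nat_lit 78) (nat_lit 152) (nat_lit 0) (XT.lf (nat_lit 0) (nat_lit 5529007105) (nat_lit 228) (nat_lit 4475723487) (nat_lit 76) (nat_lit 9479900737) (nat_lit 36) (nat_lit 5) (nat_lit 39) (nat_lit 5) (nat_lit 37) (nat_lit 5) (nat_lit 347) (nat_lit 244) (nat_lit 189)) (XT.lf (nat_lit 0) (nat_lit 7930502826) (nat_lit 152) (nat_lit 3582926926) (nat_lit 228) (nat_lit 8412222508) (nat_lit 34) (nat_lit 5) (nat_lit 36) (nat_lit 5) (nat_lit 37) (nat_lit 5) (nat_lit 348) (nat_lit 244) (nat_lit 188))))) (XT.nd (nat_lit 234) (nat_lit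 304) (nat_lit 0) (XT.nd (nat_lit 78) (nat_lit 228) (nat_lit 0) (XT.lf (nat_lit 0) (nat_lit 271244802) (nat_lit 152) (nat_lit 17399673692) (nat_lit 228) (nat_lit 2709127390) (nat_lit 32) (nat_lit 5) (nat_lit 34) (nat_lit 5) (nat_lit 35) (nat_lit 4) (nat_lit 349) (nat_lit 244) (nat_lit 187)) (XT.nd (nat_lit 78) (nat_lit 152) (nat_lit 0) (XT.lf (nat_lit 0) (nat_lit 3171541848) (nat_lit 228) (nat_lit 7924088044) (nat_lit 76) (nat_lit 9751082720) (nat_lit 31) (nat_lit 5) (nat_lit 34) (nat_lit 5) (nat_lit 32) (nat_lit 5) (nat_lit 350) (nat_lit 244) (nat_lit 186)) (XT.lf (nat_lit 0) (nat_lit 4568533219) (nat_lit 152) (nat_lit 4597056258) (nat_lit 228) (nat_lit 12161968189) (nat_lit 29) (nat_lit 5) (nat_lit 31) (nat_lit 5) (nat_lit 32) (nat_lit 5) (nat_lit 351) (nat_lit 244) (nat_lit 185)))) (XT.nd (nat_lit 156) (nat_lit 228) (nat_lit 0) (XT.nd (nat_lit 78) (nat_lit 76) (nat_lit 0) (XT.lf (nat_lit 0) (nat_lit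 15351736703) (nat_lit 228) (nat_lit 4389978417) (nat_lit 76) (nat_lit 2080878812) (nat_lit 29) (nat_lit 5) (nat_lit 32) (nat_lit 5) (nat_lit 30) (nat_lit 4) (nat_lit 352) (nat_lit 244) (nat_lit 184)) (XT.lf (nat_lit 0) (nat_lit 8332901172) (nat_lit 76) (nat_lit 13421640347) (nat_lit 152) (nat_lit 577329396) (nat_lit 28) (nat_lit 5) (nat_lit 29) (nat_lit 5) (nat_lit 30) (nat_lit 4) (nat_lit 353) (nat_lit 244) (nat_lit 183))) (XT.nd (nat_lit 78) (nat_lit 152) (nat_lit 0) (XT.lf (nat_lit 0) (nat_lit 5397729286) (nat_lit 152) (nat_lit 1489080688) (nat_lit 76) (nat_lit 15969378171) (nat_lit 27) (nat_lit 5) (nat_lit 29) (nat_lit 5) (nat_lit 28) (nat_lit 5) (nat_lit 354) (nat_lit 244) (nat_lit 182)) (XT.lf (nat_lit 0) (nat_lit 11450235427) (nat_lit 152) (nat_lit 116718641) (nat_lit 228) (nat_lit 11828759592) (nat_lit 25) (nat_lit 5) (nat_lit 27) (nat_lit 5) (nat_lit 28) (nat_lit 5) (nat_lit 355) (nat_lit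 244) (nat_lit 181))))))))
noncomputable def xc26 : XT := (XT.nd (nat_lit 36894) (nat_lit 0) (nat_lit 3496) (XT.nd (nat_lit 35802) (nat_lit 0) (nat_lit 12464) (XT.nd (nat_lit 468) (nat_lit 304) (nat_lit 0) (XT.nd (nat_lit 234) (nat_lit 76) (nat_lit 0) (XT.nd (nat_lit 78) (nat_lit 228) (nat_lit 0) (XT.lf (nat_lit 0) (nat_lit 720304125) (nat_lit 76) (nat_lit 17209328457) (nat_lit 152) (nat_lit 6021634769) (nat_lit 24) (nat_lit 5) (nat_lit 25) (nat_lit 5) (nat_lit 26) (nat_lit 4) (nat_lit 356) (nat_lit 244) (nat_lit 180)) (XT.nd (nat_lit 78) (nat_lit 228) (nat_lit 0) (XT.lf (nat_lit 0) (nat_lit 13838814440) (nat_lit 76) (nat_lit 10676025517) (nat_lit 152) (nat_lit 8024386) (nat_lit 24) (nat_lit 5) (nat_lit 25) (nat_lit 5) (nat_lit 26) (nat_lit 4) (nat_lit 357) (nat_lit 244) (nat_lit 179)) (XT.lf (nat_lit 0) (nat_lit 2139157198) (nat_lit 152) (nat_lit 3930649502) (nat_lit 228) (nat_lit 19041709614)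 (nat_lit 21) (nat_lit 5) (nat_lit 23) (nat_lit 5) (nat_lit 24) (nat_lit 5) (nat_lit 358) (nat_lit 244) (nat_lit 178)))) (XT.nd (nat_lit 78) (nat_lit 76) (nat_lit 0) (XT.lf (nat_lit 0) (nat_lit 12373998762) (nat_lit 228) (nat_lit 10330494787) (nat_lit 76) (nat_lit 3012459460) (nat_lit 21) (nat_lit 5) (nat_lit 24) (nat_lit 5) (nat_lit 22) (nat_lit 4) (nat_lit 359) (nat_lit 244) (nat_lit 177)) (XT.nd (nat_lit 78) (nat_lit 0) (nat_lit 0) (XT.lf (nat_lit 0) (nat_lit 2613865126) (nat_lit 76) (nat_lit 16249783692) (nat_lit 152) (nat_lit 7476986012) (nat_lit 20) (nat_lit 5) (nat_lit 21) (nat_lit 5) (nat_lit 22) (nat_lit 4) (nat_lit 360) (nat_lit 244) (nat_lit 176)) (XT.lf (nat_lit 0) (nat_lit 16004580680) (nat_lit 76) (nat_lit 9567311058) (nat_lit 152) (nat_lit 1410665715) (nat_lit 20) (nat_lit 5) (nat_lit 21) (nat_lit 5) (nat_lit 22) (nat_lit 4) (nat_lit 361) (nat_lit 244) (nat_lit 175))))) (XT.nd (nat_lit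 35022) (nat_lit 0) (nat_lit 21356) (XT.nd (nat_lit 78) (nat_lit 76) (nat_lit 0) (XT.lf (nat_lit 0) (nat_lit 2067426532) (nat_lit 152) (nat_lit 2675133090) (nat_lit 228) (nat_lit 22901190719) (nat_lit 17) (nat_lit 5) (nat_lit 19) (nat_lit 5) (nat_lit 20) (nat_lit 5) (nat_lit 362) (nat_lit 244) (nat_lit 174)) (XT.nd (nat_lit 78) (nat_lit 76) (nat_lit 0) (XT.lf (nat_lit 0) (nat_lit 11120427652) (nat_lit 228) (nat_lit 12788375048) (nat_lit 76) (nat_lit 4414613376) (nat_lit 17) (nat_lit 5) (nat_lit 20) (nat_lit 5) (nat_lit 18) (nat_lit 4) (nat_lit 363) (nat_lit 244) (nat_lit 173)) (XT.lf (nat_lit 0) (nat_lit 290594403) (nat_lit 76) (nat_lit 17375606960) (nat_lit 152) (nat_lit 11357746578) (nat_lit 16) (nat_lit 5) (nat_lit 17) (nat_lit 5) (nat_lit 18) (nat_lit 4) (nat_lit 364) (nat_lit 244) (nat_lit 172)))) (XT.nd (nat_lit 156) (nat_lit 1520) (nat_lit 0) (XT.nd (nat_lit 78) (nat_lit 836) (nat_lit 0)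 (XT.lf (nat_lit 0) (nat_lit 200208487) (nat_lit 836) (nat_lit 1767860784) (nat_lit 836) (nat_lit 1767860784) (nat_lit 328) (nat_lit 4) (nat_lit 339) (nat_lit 5) (nat_lit 339) (nat_lit 4) (nat_lit 290) (nat_lit 245) (nat_lit 245)) (XT.lf (nat_lit 0) (nat_lit 868709390) (nat_lit 760) (nat_lit 642196250) (nat_lit 836) (nat_lit 6033617420) (nat_lit 317) (nat_lit 5) (nat_lit 327) (nat_lit 5) (nat_lit 328) (nat_lit 4) (nat_lit 291) (nat_lit 245) (nat_lit 244))) (XT.nd (nat_lit 78) (nat_lit 760) (nat_lit 0) (XT.lf (nat_lit 0) (nat_lit 1342419330) (nat_lit 760) (nat_lit 5248334093) (nat_lit 760) (nat_lit 1029659423) (nat_lit 307) (nat_lit 4) (nat_lit 317) (nat_lit 5) (nat_lit 317) (nat_lit 4) (nat_lit 292) (nat_lit 245) (nat_lit 243)) (XT.lf (nat_lit 0) (nat_lit 1826637931) (nat_lit 684) (nat_lit 2164920677) (nat_lit 760) (nat_lit 3708166638) (nat_lit 297) (nat_lit 5) (nat_lit 306) (nat_lit 5) (nat_lit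 307) (nat_lit 4) (nat_lit 293) (nat_lit 245) (nat_lit 242)))))) (XT.nd (nat_lit 546) (nat_lit 3952) (nat_lit 0) (XT.nd (nat_lit 234) (nat_lit 2660) (nat_lit 0) (XT.nd (nat_lit 78) (nat_lit 1444) (nat_lit 0) (XT.lf (nat_lit 0) (nat_lit 1276718174) (nat_lit 836) (nat_lit 5455519636) (nat_lit 76) (nat_lit 1050436116) (nat_lit 286) (nat_lit 5) (nat_lit 297) (nat_lit 5) (nat_lit 287) (nat_lit 4) (nat_lit 294) (nat_lit 245) (nat_lit 241)) (XT.nd (nat_lit 78) (nat_lit 760) (nat_lit 0) (XT.lf (nat_lit 0) (nat_lit 2823729545) (nat_lit 684) (nat_lit 3474658889) (nat_lit 760) (nat_lit 1570578156) (nat_lit 277) (nat_lit 5) (nat_lit 286) (nat_lit 5) (nat_lit 287) (nat_lit 4) (nat_lit 295) (nat_lit 245) (nat_lit 240)) (XT.lf (nat_lit 0) (nat_lit 3330031463) (nat_lit 684) (nat_lit 62001849) (nat_lit 760) (nat_lit 4566947063) (nat_lit 267) (nat_lit 5) (nat_lit 276) (nat_lit 5) (nat_lit 277) (nat_lit 5) (nat_lit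 296) (nat_lit 245) (nat_lit 239)))) (XT.nd (nat_lit 156) (nat_lit 1292) (nat_lit 0) (XT.nd (nat_lit 78) (nat_lit 684) (nat_lit 0) (XT.lf (nat_lit 0) (nat_lit 375584665) (nat_lit 684) (nat_lit 4222770890) (nat_lit 76) (nat_lit 3454153645) (nat_lit 258) (nat_lit 5) (nat_lit 267) (nat_lit 5) (nat_lit 259) (nat_lit 5) (nat_lit 297) (nat_lit 245) (nat_lit 238)) (XT.lf (nat_lit 0) (nat_lit 4324206257) (nat_lit 684) (nat_lit 1011528986) (nat_lit 760) (nat_lit 2813963397) (nat_lit 249) (nat_lit 5) (nat_lit 258) (nat_lit 5) (nat_lit 259) (nat_lit 5) (nat_lit 298) (nat_lit 245) (nat_lit 237))) (XT.nd (nat_lit 78) (nat_lit 608) (nat_lit 0) (XT.lf (nat_lit 0) (nat_lit 2116754980) (nat_lit 684) (nat_lit 3441495312) (nat_lit 76) (nat_lit 2692337506) (nat_lit 240) (nat_lit 5) (nat_lit 249) (nat_lit 5) (nat_lit 241) (nat_lit 5) (nat_lit 299) (nat_lit 245) (nat_lit 236)) (XT.lf (nat_lit 0) (nat_lit 5286997956)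 (nat_lit 608) (nat_lit 1812862913) (nat_lit 684) (nat_lit 1255496571) (nat_lit 232) (nat_lit 5) (nat_lit 240) (nat_lit 5) (nat_lit 241) (nat_lit 5) (nat_lit 300) (nat_lit 245) (nat_lit 235))))) (XT.nd (nat_lit 234) (nat_lit 2128) (nat_lit 0) (XT.nd (nat_lit 78) (nat_lit 1216) (nat_lit 0) (XT.lf (nat_lit 0) (nat_lit 3671256107) (nat_lit 608) (nat_lit 2722043837) (nat_lit 76) (nat_lit 2070526695) (nat_lit 224) (nat_lit 5) (nat_lit 232) (nat_lit 5) (nat_lit 225) (nat_lit 5) (nat_lit 301) (nat_lit 245) (nat_lit 234)) (XT.nd (nat_lit 78) (nat_lit 532) (nat_lit 0) (XT.lf (nat_lit 0) (nat_lit 103686610) (nat_lit 684) (nat_lit 2390053145) (nat_lit 76) (nat_lit 6082649959) (nat_lit 215) (nat_lit 5) (nat_lit 224) (nat_lit 5) (nat_lit 216) (nat_lit 5) (nat_lit 302) (nat_lit 245) (nat_lit 233)) (XT.lf (nat_lit 0) (nat_lit 5034870122) (nat_lit 608) (nat_lit 2097102561) (nat_lit 76) (nat_lit 1560730552) (nat_lit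 208) (nat_lit 5) (nat_lit 216) (nat_lit 5) (nat_lit 209) (nat_lit 5) (nat_lit 303) (nat_lit 245) (nat_lit 232)))) (XT.nd (nat_lit 156) (nat_lit 1064) (nat_lit 0) (XT.nd (nat_lit 78) (nat_lit 456) (nat_lit 0) (XT.lf (nat_lit 0) (nat_lit 1245747762) (nat_lit 608) (nat_lit 1830571049) (nat_lit 76) (nat_lit 5736858438) (nat_lit 200) (nat_lit 5) (nat_lit 208) (nat_lit 5) (nat_lit 201) (nat_lit 5) (nat_lit 304) (nat_lit 245) (nat_lit 231)) (XT.lf (nat_lit 0) (nat_lit 6201346247) (nat_lit 532) (nat_lit 1601550433) (nat_lit 76) (nat_lit 1134857946) (nat_lit 194) (nat_lit 5) (nat_lit 201) (nat_lit 5) (nat_lit 195) (nat_lit 5) (nat_lit 305) (nat_lit 245) (nat_lit 230))) (XT.nd (nat_lit 78) (nat_lit 456) (nat_lit 0) (XT.lf (nat_lit 0) (nat_lit 2179706803) (nat_lit 608) (nat_lit 1417939723) (nat_lit 76) (nat_lit 5468802981) (nat_lit 186) (nat_lit 5) (nat_lit 194) (nat_lit 5) (nat_lit 187) (nat_lit 5) (nat_lit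 306) (nat_lit 245) (nat_lit 229)) (XT.lf (nat_lit 0) (nat_lit 7162292333) (nat_lit 532) (nat_lit 1272822239) (nat_lit 76) (nat_lit 764465535) (nat_lit 180) (nat_lit 5) (nat_lit 187) (nat_lit 5) (nat_lit 181) (nat_lit 5) (nat_lit 307) (nat_lit 245) (nat_lit 228))))))) (XT.nd (nat_lit 1014) (nat_lit 3420) (nat_lit 0) (XT.nd (nat_lit 468) (nat_lit 2736) (nat_lit 0) (XT.nd (nat_lit 234) (nat_lit 1292) (nat_lit 0) (XT.nd (nat_lit 78) (nat_lit 988) (nat_lit 0) (XT.lf (nat_lit 0) (nat_lit 2895899214) (nat_lit 532) (nat_lit 1191079444) (nat_lit 76) (nat_lit 5249858156) (nat_lit 173) (nat_lit 5) (nat_lit 180) (nat_lit 5) (nat_lit 174) (nat_lit 5) (nat_lit 308) (nat_lit 245) (nat_lit 227)) (XT.nd (nat_lit 78) (nat_lit 532) (nat_lit 0) (XT.lf (nat_lit 0) (nat_lit 7907046580) (nat_lit 532) (nat_lit 1151300477) (nat_lit 76) (nat_lit 420497325) (nat_lit 167) (nat_lit 5) (nat_lit 174) (nat_lit 5) (nat_lit 168)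 (nat_lit 5) (nat_lit 309) (nat_lit 245) (nat_lit 226)) (XT.lf (nat_lit 0) (nat_lit 3382303539) (nat_lit 532) (nat_lit 1192060842) (nat_lit 76) (nat_lit 5050672381) (nat_lit 160) (nat_lit 5) (nat_lit 167) (nat_lit 5) (nat_lit 161) (nat_lit 5) (nat_lit 310) (nat_lit 245) (nat_lit 225)))) (XT.nd (nat_lit 78) (nat_lit 912) (nat_lit 0) (XT.lf (nat_lit 0) (nat_lit 8422528084) (nat_lit 456) (nat_lit 1280739862) (nat_lit 76) (nat_lit 73013241) (nat_lit 155) (nat_lit 5) (nat_lit 161) (nat_lit 5) (nat_lit 156) (nat_lit 5) (nat_lit 311) (nat_lit 245) (nat_lit 224)) (XT.nd (nat_lit 78) (nat_lit 380) (nat_lit 0) (XT.lf (nat_lit 0) (nat_lit 3624380805) (nat_lit 532) (nat_lit 1466547604) (nat_lit 76) (nat_lit 4840889661) (nat_lit 148) (nat_lit 5) (nat_lit 155) (nat_lit 5) (nat_lit 149) (nat_lit 5) (nat_lit 312) (nat_lit 245) (nat_lit 223)) (XT.lf (nat_lit 0) (nat_lit 8381894697) (nat_lit 380) (nat_lit 313203385)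 (nat_lit 456) (nat_lit 1397558655) (nat_lit 143) (nat_lit 5) (nat_lit 148) (nat_lit 5) (nat_lit 149) (nat_lit 5) (nat_lit 313) (nat_lit 245) (nat_lit 222))))) (XT.nd (nat_lit 234) (nat_lit 1444) (nat_lit 0) (XT.nd (nat_lit 78) (nat_lit 836) (nat_lit 0) (XT.lf (nat_lit 0) (nat_lit 3604890172) (nat_lit 456) (nat_lit 2064277998) (nat_lit 76) (nat_lit 4588856774) (nat_lit 137) (nat_lit 5) (nat_lit 143) (nat_lit 5) (nat_lit 138) (nat_lit 5) (nat_lit 314) (nat_lit 245) (nat_lit 221)) (XT.nd (nat_lit 78) (nat_lit 456) (nat_lit 0) (XT.lf (nat_lit 0) (nat_lit 7936698124) (nat_lit 380) (nat_lit 768486803) (nat_lit 456) (nat_lit 1723693005) (nat_lit 132) (nat_lit 5) (nat_lit 137) (nat_lit 5) (nat_lit 138) (nat_lit 5) (nat_lit 315) (nat_lit 245) (nat_lit 220)) (XT.lf (nat_lit 0) (nat_lit 3303678881) (nat_lit 456) (nat_lit 3039589863) (nat_lit 76) (nat_lit 4261313264) (nat_lit 126) (nat_lit 5) (nat_lit 132)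 (nat_lit 5) (nat_lit 127) (nat_lit 5) (nat_lit 316) (nat_lit 245) (nat_lit 219)))) (XT.nd (nat_lit 156) (nat_lit 684) (nat_lit 0) (XT.nd (nat_lit 78) (nat_lit 456) (nat_lit 0) (XT.lf (nat_lit 0) (nat_lit 7104370784) (nat_lit 304) (nat_lit 1326690994) (nat_lit 380) (nat_lit 2354855765) (nat_lit 122) (nat_lit 5) (nat_lit 126) (nat_lit 5) (nat_lit 127) (nat_lit 5) (nat_lit 317) (nat_lit 245) (nat_lit 218)) (XT.lf (nat_lit 0) (nat_lit 2697444274) (nat_lit 456) (nat_lit 4451994142) (nat_lit 76) (nat_lit 3823061390) (nat_lit 116) (nat_lit 5) (nat_lit 122) (nat_lit 5) (nat_lit 117) (nat_lit 5) (nat_lit 318) (nat_lit 245) (nat_lit 217))) (XT.nd (nat_lit 78) (nat_lit 380) (nat_lit 0) (XT.lf (nat_lit 0) (nat_lit 5823432892) (nat_lit 304) (nat_lit 2024798545) (nat_lit 380) (nat_lit 3316595871) (nat_lit 112) (nat_lit 5) (nat_lit 116) (nat_lit 5) (nat_lit 117) (nat_lit 5) (nat_lit 319) (nat_lit 245) (nat_lit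 216)) (XT.lf (nat_lit 0) (nat_lit 1759465453) (nat_lit 380) (nat_lit 6366802519) (nat_lit 76) (nat_lit 3236613013) (nat_lit 107) (nat_lit 5) (nat_lit 112) (nat_lit 5) (nat_lit 108) (nat_lit 5) (nat_lit 320) (nat_lit 245) (nat_lit 215)))))) (XT.nd (nat_lit 546) (nat_lit 1520) (nat_lit 0) (XT.nd (nat_lit 234) (nat_lit 988) (nat_lit 0) (XT.nd (nat_lit 78) (nat_lit 608) (nat_lit 0) (XT.lf (nat_lit 0) (nat_lit 4026343037) (nat_lit 304) (nat_lit 2902320951) (nat_lit 380) (nat_lit 4638090011) (nat_lit 103) (nat_lit 5) (nat_lit 107) (nat_lit 5) (nat_lit 108) (nat_lit 5) (nat_lit 321) (nat_lit 245) (nat_lit 214)) (XT.nd (nat_lit 78) (nat_lit 228) (nat_lit 0) (XT.lf (nat_lit 0) (nat_lit 459301804) (nat_lit 380) (nat_lit 8855815256) (nat_lit 76) (nat_lit 2461810087) (nat_lit 98) (nat_lit 5) (nat_lit 103) (nat_lit 5) (nat_lit 99) (nat_lit 5) (nat_lit 322) (nat_lit 245) (nat_lit 213)) (XT.lf (nat_lit 0) (nat_lit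 1638782617) (nat_lit 228) (nat_lit 4001697793) (nat_lit 304) (nat_lit 6352466218) (nat_lit 95) (nat_lit 5) (nat_lit 98) (nat_lit 5) (nat_lit 99) (nat_lit 5) (nat_lit 323) (nat_lit 245) (nat_lit 212)))) (XT.nd (nat_lit 156) (nat_lit 608) (nat_lit 0) (XT.nd (nat_lit 78) (nat_lit 76) (nat_lit 0) (XT.lf (nat_lit 0) (nat_lit 209565962) (nat_lit 304) (nat_lit 10752226696) (nat_lit 380) (nat_lit 1253991000) (nat_lit 91) (nat_lit 5) (nat_lit 95) (nat_lit 5) (nat_lit 96) (nat_lit 5) (nat_lit 324) (nat_lit 245) (nat_lit 211)) (XT.lf (nat_lit 0) (nat_lit 3956825470) (nat_lit 380) (nat_lit 1402491311) (nat_lit 76) (nat_lit 7085263100) (nat_lit 90) (nat_lit 5) (nat_lit 95) (nat_lit 5) (nat_lit 91) (nat_lit 5) (nat_lit 325) (nat_lit 245) (nat_lit 210))) (XT.nd (nat_lit 78) (nat_lit 380) (nat_lit 0) (XT.lf (nat_lit 0) (nat_lit 9287045594) (nat_lit 304) (nat_lit 3179696330) (nat_lit 76) (nat_lit 213758556) (nat_lit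 87) (nat_lit 5) (nat_lit 91) (nat_lit 5) (nat_lit 88) (nat_lit 5) (nat_lit 326) (nat_lit 245) (nat_lit 209)) (XT.lf (nat_lit 0) (nat_lit 1843383539) (nat_lit 380) (nat_lit 5174928933) (nat_lit 76) (nat_lit 5904692306) (nat_lit 82) (nat_lit 5) (nat_lit 87) (nat_lit 5) (nat_lit 83) (nat_lit 5) (nat_lit 327) (nat_lit 245) (nat_lit 208))))) (XT.nd (nat_lit 234) (nat_lit 760) (nat_lit 0) (XT.nd (nat_lit 78) (nat_lit 532) (nat_lit 0) (XT.lf (nat_lit 0) (nat_lit 5796569863) (nat_lit 228) (nat_lit 1373382976) (nat_lit 304) (nat_lit 6002834578) (nat_lit 79) (nat_lit 5) (nat_lit 82) (nat_lit 5) (nat_lit 83) (nat_lit 5) (nat_lit 328) (nat_lit 245) (nat_lit 207)) (XT.nd (nat_lit 78) (nat_lit 304) (nat_lit 0) (XT.lf (nat_lit 0) (nat_lit 3626560158) (nat_lit 228) (nat_lit 9037770435) (nat_lit 304) (nat_lit 765598362) (nat_lit 76) (nat_lit 5) (nat_lit 79) (nat_lit 5) (nat_lit 80) (nat_lit 5) (nat_lit 329) (nat_lit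 245) (nat_lit 206)) (XT.lf (nat_lit 0) (nat_lit 1213372758) (nat_lit 228) (nat_lit 3343328922) (nat_lit 304) (nat_lit 9137733338) (nat_lit 72) (nat_lit 5) (nat_lit 75) (nat_lit 5) (nat_lit 76) (nat_lit 5) (nat_lit 330) (nat_lit 245) (nat_lit 205)))) (XT.nd (nat_lit 156) (nat_lit 456) (nat_lit 0) (XT.nd (nat_lit 78) (nat_lit 304) (nat_lit 0) (XT.lf (nat_lit 0) (nat_lit 10033989243) (nat_lit 304) (nat_lit 1421391055) (nat_lit 76) (nat_lit 2511304055) (nat_lit 72) (nat_lit 5) (nat_lit 76) (nat_lit 5) (nat_lit 73) (nat_lit 5) (nat_lit 331) (nat_lit 245) (nat_lit 204)) (XT.lf (nat_lit 0) (nat_lit 1421471070) (nat_lit 304) (nat_lit 4302958780) (nat_lit 76) (nat_lit 8522274147) (nat_lit 68) (nat_lit 5) (nat_lit 72) (nat_lit 5) (nat_lit 69) (nat_lit 5) (nat_lit 332) (nat_lit 245) (nat_lit 203))) (XT.nd (nat_lit 78) (nat_lit 228) (nat_lit 0) (XT.lf (nat_lit 0) (nat_lit 6865719666) (nat_lit 304) (nat_lit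 7459515634) (nat_lit 76) (nat_lit 209733185) (nat_lit 65) (nat_lit 5) (nat_lit 69) (nat_lit 5) (nat_lit 66) (nat_lit 5) (nat_lit 333) (nat_lit 245) (nat_lit 202)) (XT.lf (nat_lit 0) (nat_lit 3912552576) (nat_lit 228) (nat_lit 8580397950) (nat_lit 304) (nat_lit 2338558549) (nat_lit 62) (nat_lit 5) (nat_lit 65) (nat_lit 5) (nat_lit 66) (nat_lit 5) (nat_lit 334) (nat_lit 245) (nat_lit 201))))))))
noncomputable def xc27 : XT := (XT.nd (nat_lit 2106) (nat_lit 228) (nat_lit 0) (XT.nd (nat_lit 1014) (nat_lit 1216) (nat_lit 0) (XT.nd (nat_lit 468) (nat_lit 1064) (nat_lit 0) (XT.nd (nat_lit 234) (nat_lit 456) (nat_lit 0) (XT.nd (nat_lit 78) (nat_lit 228) (nat_lit 0) (XT.lf (nat_lit 0) (nat_lit 455030896) (nat_lit 152) (nat_lit 2636991369) (nat_lit 228) (nat_lit 12044908363) (nat_lit 59) (nat_lit 5) (nat_lit 61) (nat_lit 5) (nat_lit 62) (nat_lit 5) (nat_lit 335) (nat_lit 245) (nat_lit 200)) (XT.nd (nat_lit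 78) (nat_lit 228) (nat_lit 0) (XT.lf (nat_lit 0) (nat_lit 8679522605) (nat_lit 228) (nat_lit 3290327826) (nat_lit 76) (nat_lit 3480859411) (nat_lit 59) (nat_lit 5) (nat_lit 62) (nat_lit 5) (nat_lit 60) (nat_lit 5) (nat_lit 336) (nat_lit 245) (nat_lit 199)) (XT.lf (nat_lit 0) (nat_lit 8418054945) (nat_lit 228) (nat_lit 6019453663) (nat_lit 304) (nat_lit 1336355690) (nat_lit 56) (nat_lit 5) (nat_lit 59) (nat_lit 5) (nat_lit 60) (nat_lit 5) (nat_lit 337) (nat_lit 245) (nat_lit 198)))) (XT.nd (nat_lit 78) (nat_lit 228) (nat_lit 0) (XT.lf (nat_lit 0) (nat_lit 4188466298) (nat_lit 228) (nat_lit 11778767059) (nat_lit 76) (nat_lit 139288096) (nat_lit 53) (nat_lit 5) (nat_lit 56) (nat_lit 5) (nat_lit 54) (nat_lit 5) (nat_lit 338) (nat_lit 245) (nat_lit 197)) (XT.nd (nat_lit 78) (nat_lit 228) (nat_lit 0) (XT.lf (nat_lit 0) (nat_lit 9883727016) (nat_lit 228) (nat_lit 151060242) (nat_lit 76) (nat_lit 6413755031)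 (nat_lit 53) (nat_lit 5) (nat_lit 56) (nat_lit 5) (nat_lit 54) (nat_lit 5) (nat_lit 339) (nat_lit 245) (nat_lit 196)) (XT.lf (nat_lit 0) (nat_lit 11868622624) (nat_lit 228) (nat_lit 3892569541) (nat_lit 304) (nat_lit 1039421770) (nat_lit 50) (nat_lit 5) (nat_lit 53) (nat_lit 5) (nat_lit 54) (nat_lit 5) (nat_lit 340) (nat_lit 245) (nat_lit 195))))) (XT.nd (nat_lit 234) (nat_lit 608) (nat_lit 0) (XT.nd (nat_lit 78) (nat_lit 228) (nat_lit 0) (XT.lf (nat_lit 0) (nat_lit 4588501433) (nat_lit 228) (nat_lit 10140766870) (nat_lit 76) (nat_lit 2433436154) (nat_lit 47) (nat_lit 5) (nat_lit 50) (nat_lit 5) (nat_lit 48) (nat_lit 5) (nat_lit 341) (nat_lit 245) (nat_lit 194)) (XT.nd (nat_lit 78) (nat_lit 0) (nat_lit 0) (XT.lf (nat_lit 0) (nat_lit 1745948318) (nat_lit 228) (nat_lit 8632202279) (nat_lit 304) (nat_lit 7157245305) (nat_lit 44) (nat_lit 5) (nat_lit 47) (nat_lit 5) (nat_lit 48) (nat_lit 5) (nat_lit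 342) (nat_lit 245) (nat_lit 193)) (XT.lf (nat_lit 0) (nat_lit 14019118872) (nat_lit 228) (nat_lit 2328166582) (nat_lit 304) (nat_lit 1571882069) (nat_lit 44) (nat_lit 5) (nat_lit 47) (nat_lit 5) (nat_lit 48) (nat_lit 5) (nat_lit 343) (nat_lit 245) (nat_lit 192)))) (XT.nd (nat_lit 156) (nat_lit 228) (nat_lit 0) (XT.nd (nat_lit 78) (nat_lit 152) (nat_lit 0) (XT.lf (nat_lit 0) (nat_lit 4146014209) (nat_lit 228) (nat_lit 10019950335) (nat_lit 76) (nat_lit 4147563299) (nat_lit 41) (nat_lit 5) (nat_lit 44) (nat_lit 5) (nat_lit 42) (nat_lit 5) (nat_lit 344) (nat_lit 245) (nat_lit 191)) (XT.lf (nat_lit 0) (nat_lit 2082445069) (nat_lit 152) (nat_lit 7926775626) (nat_lit 228) (nat_lit 8710402087) (nat_lit 39) (nat_lit 5) (nat_lit 41) (nat_lit 5) (nat_lit 42) (nat_lit 5) (nat_lit 345) (nat_lit 245) (nat_lit 190))) (XT.nd (nat_lit 78) (nat_lit 228) (nat_lit 0) (XT.lf (nat_lit 0) (nat_lit 14580967030) (nat_lit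 152) (nat_lit 1475660578) (nat_lit 228) (nat_lit 3081120656) (nat_lit 39) (nat_lit 5) (nat_lit 41) (nat_lit 5) (nat_lit 42) (nat_lit 5) (nat_lit 346) (nat_lit 245) (nat_lit 189)) (XT.lf (nat_lit 0) (nat_lit 2707978247) (nat_lit 228) (nat_lit 11732209408) (nat_lit 76) (nat_lit 5127358685) (nat_lit 36) (nat_lit 5) (nat_lit 39) (nat_lit 5) (nat_lit 37) (nat_lit 5) (nat_lit 347) (nat_lit 245) (nat_lit 188)))))) (XT.nd (nat_lit 546) (nat_lit 532) (nat_lit 0) (XT.nd (nat_lit 234) (nat_lit 304) (nat_lit 0) (XT.nd (nat_lit 78) (nat_lit 228) (nat_lit 0) (XT.lf (nat_lit 0) (nat_lit 527126950) (nat_lit 152) (nat_lit 8088887241) (nat_lit 228) (nat_lit 11394087086) (nat_lit 34) (nat_lit 5) (nat_lit 36) (nat_lit 5) (nat_lit 37) (nat_lit 5) (nat_lit 348) (nat_lit 245) (nat_lit 187)) (XT.nd (nat_lit 78) (nat_lit 228) (nat_lit 0) (XT.lf (nat_lit 0) (nat_lit 13215395146) (nat_lit 152) (nat_lit 1508938265) (nat_lit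 228) (nat_lit 5741150971) (nat_lit 34) (nat_lit 5) (nat_lit 36) (nat_lit 5) (nat_lit 37) (nat_lit 5) (nat_lit 349) (nat_lit 245) (nat_lit 186)) (XT.lf (nat_lit 0) (nat_lit 93834012) (nat_lit 228) (nat_lit 15647347447) (nat_lit 76) (nat_lit 5193078160) (nat_lit 31) (nat_lit 5) (nat_lit 34) (nat_lit 5) (nat_lit 32) (nat_lit 5) (nat_lit 350) (nat_lit 245) (nat_lit 185)))) (XT.nd (nat_lit 156) (nat_lit 152) (nat_lit 0) (XT.nd (nat_lit 78) (nat_lit 152) (nat_lit 0) (XT.lf (nat_lit 0) (nat_lit 6031385784) (nat_lit 228) (nat_lit 3262198518) (nat_lit 76) (nat_lit 12122655917) (nat_lit 31) (nat_lit 5) (nat_lit 34) (nat_lit 5) (nat_lit 32) (nat_lit 5) (nat_lit 351) (nat_lit 245) (nat_lit 184)) (XT.lf (nat_lit 0) (nat_lit 9525710997) (nat_lit 152) (nat_lit 2630314098) (nat_lit 228) (nat_lit 9756487012) (nat_lit 29) (nat_lit 5) (nat_lit 31) (nat_lit 5) (nat_lit 32) (nat_lit 5) (nat_lit 352) (nat_lit 245) (nat_lit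 183))) (XT.nd (nat_lit 78) (nat_lit 76) (nat_lit 0) (XT.lf (nat_lit 0) (nat_lit 200691481) (nat_lit 76) (nat_lit 18262543784) (nat_lit 152) (nat_lit 3960471023) (nat_lit 28) (nat_lit 5) (nat_lit 29) (nat_lit 5) (nat_lit 30) (nat_lit 4) (nat_lit 353) (nat_lit 245) (nat_lit 182)) (XT.lf (nat_lit 0) (nat_lit 2033525041) (nat_lit 152) (nat_lit 9736569340) (nat_lit 76) (nat_lit 11178882161) (nat_lit 27) (nat_lit 5) (nat_lit 29) (nat_lit 5) (nat_lit 28) (nat_lit 5) (nat_lit 354) (nat_lit 245) (nat_lit 181))))) (XT.nd (nat_lit 234) (nat_lit 304) (nat_lit 0) (XT.nd (nat_lit 78) (nat_lit 76) (nat_lit 0) (XT.lf (nat_lit 0) (nat_lit 3048469514) (nat_lit 152) (nat_lit 5075038112) (nat_lit 228) (nat_lit 15366584176) (nat_lit 25) (nat_lit 5) (nat_lit 27) (nat_lit 5) (nat_lit 28) (nat_lit 5) (nat_lit 355) (nat_lit 245) (nat_lit 180)) (XT.nd (nat_lit 78) (nat_lit 76) (nat_lit 0) (XT.lf (nat_lit 0) (nat_lit 14424937872)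 (nat_lit 228) (nat_lit 7796831223) (nat_lit 76) (nat_lit 1825106122) (nat_lit 25) (nat_lit 5) (nat_lit 28) (nat_lit 5) (nat_lit 26) (nat_lit 4) (nat_lit 356) (nat_lit 245) (nat_lit 179)) (XT.lf (nat_lit 0) (nat_lit 5175035815) (nat_lit 76) (nat_lit 15759866313) (nat_lit 152) (nat_lit 3685079564) (nat_lit 24) (nat_lit 5) (nat_lit 25) (nat_lit 5) (nat_lit 26) (nat_lit 4) (nat_lit 357) (nat_lit 245) (nat_lit 178)))) (XT.nd (nat_lit 156) (nat_lit 76) (nat_lit 0) (XT.nd (nat_lit 78) (nat_lit 152) (nat_lit 0) (XT.lf (nat_lit 0) (nat_lit 2403678873) (nat_lit 152) (nat_lit 6668010082) (nat_lit 76) (nat_lit 16138172541) (nat_lit 23) (nat_lit 5) (nat_lit 25) (nat_lit 5) (nat_lit 24) (nat_lit 5) (nat_lit 358) (nat_lit 245) (nat_lit 177)) (XT.lf (nat_lit 0) (nat_lit 6469484885) (nat_lit 152) (nat_lit 2151702665) (nat_lit 228) (nat_lit 17195848580) (nat_lit 21) (nat_lit 5) (nat_lit 23) (nat_lit 5) (nat_lit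 24) (nat_lit 5) (nat_lit 359) (nat_lit 245) (nat_lit 176))) (XT.nd (nat_lit 78) (nat_lit 76) (nat_lit 0) (XT.lf (nat_lit 0) (nat_lit 15057454030) (nat_lit 228) (nat_lit 6464037854) (nat_lit 76) (nat_lit 4920297883) (nat_lit 21) (nat_lit 5) (nat_lit 24) (nat_lit 5) (nat_lit 22) (nat_lit 4) (nat_lit 360) (nat_lit 245) (nat_lit 175)) (XT.lf (nat_lit 0) (nat_lit 6800896186) (nat_lit 76) (nat_lit 14900226596) (nat_lit 152) (nat_lit 5383885117) (nat_lit 20) (nat_lit 5) (nat_lit 21) (nat_lit 5) (nat_lit 22) (nat_lit 4) (nat_lit 361) (nat_lit 245) (nat_lit 174))))))) (XT.nd (nat_lit 35724) (nat_lit 0) (nat_lit 9956) (XT.nd (nat_lit 35178) (nat_lit 0) (nat_lit 17632) (XT.nd (nat_lit 34866) (nat_lit 0) (nat_lit 22800) (XT.nd (nat_lit 78) (nat_lit 152) (nat_lit 0) (XT.lf (nat_lit 0) (nat_lit 786475550) (nat_lit 152) (nat_lit 7279032897) (nat_lit 76) (nat_lit 19681911590) (nat_lit 19) (nat_lit 5) (nat_lit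 21) (nat_lit 5) (nat_lit 20) (nat_lit 5) (nat_lit 362) (nat_lit 245) (nat_lit 173)) (XT.nd (nat_lit 78) (nat_lit 0) (nat_lit 0) (XT.lf (nat_lit 0) (nat_lit 6083097703) (nat_lit 152) (nat_lit 983141491) (nat_lit 228) (nat_lit 21362812385) (nat_lit 17) (nat_lit 5) (nat_lit 19) (nat_lit 5) (nat_lit 20) (nat_lit 5) (nat_lit 363) (nat_lit 245) (nat_lit 172)) (XT.lf (nat_lit 0) (nat_lit 13583078713) (nat_lit 228) (nat_lit 9301974791) (nat_lit 76) (nat_lit 6245112235) (nat_lit 17) (nat_lit 5) (nat_lit 20) (nat_lit 5) (nat_lit 18) (nat_lit 4) (nat_lit 364) (nat_lit 245) (nat_lit 171)))) (XT.nd (nat_lit 156) (nat_lit 2508) (nat_lit 0) (XT.nd (nat_lit 78) (nat_lit 988) (nat_lit 0) (XT.lf (nat_lit 0) (nat_lit 1738179882) (nat_lit 912) (nat_lit 191341139) (nat_lit 0) (nat_lit 1738179882) (nat_lit 363) (nat_lit 5) (nat_lit 375) (nat_lit 4) (nat_lit 363) (nat_lit 4) (nat_lit 288) (nat_lit 246) (nat_lit 246))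 (XT.lf (nat_lit 0) (nat_lit 1116808459) (nat_lit 988) (nat_lit 37842907) (nat_lit 76) (nat_lit 6248148505) (nat_lit 350) (nat_lit 5) (nat_lit 363) (nat_lit 5) (nat_lit 351) (nat_lit 4) (nat_lit 289) (nat_lit 246) (nat_lit 245))) (XT.nd (nat_lit 78) (nat_lit 836) (nat_lit 0) (XT.lf (nat_lit 0) (nat_lit 321989293) (nat_lit 836) (nat_lit 5791746302) (nat_lit 836) (nat_lit 1359606694) (nat_lit 328) (nat_lit 4) (nat_lit 339) (nat_lit 5) (nat_lit 339) (nat_lit 4) (nat_lit 290) (nat_lit 246) (nat_lit 244)) (XT.lf (nat_lit 0) (nat_lit 695271998) (nat_lit 760) (nat_lit 2892420954) (nat_lit 836) (nat_lit 3959500401) (nat_lit 317) (nat_lit 5) (nat_lit 327) (nat_lit 5) (nat_lit 328) (nat_lit 4) (nat_lit 291) (nat_lit 246) (nat_lit 243))))) (XT.nd (nat_lit 234) (nat_lit 2812) (nat_lit 0) (XT.nd (nat_lit 78) (nat_lit 1520) (nat_lit 0) (XT.lf (nat_lit 0) (nat_lit 945792166) (nat_lit 836) (nat_lit 6530535384)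 (nat_lit 76) (nat_lit 148371606) (nat_lit 306) (nat_lit 5) (nat_lit 317) (nat_lit 5) (nat_lit 307) (nat_lit 4) (nat_lit 292) (nat_lit 246) (nat_lit 242)) (XT.nd (nat_lit 78) (nat_lit 836) (nat_lit 0) (XT.lf (nat_lit 0) (nat_lit 1486014709) (nat_lit 684) (nat_lit 4398104086) (nat_lit 760) (nat_lit 1821197577) (nat_lit 297) (nat_lit 5) (nat_lit 306) (nat_lit 5) (nat_lit 307) (nat_lit 4) (nat_lit 293) (nat_lit 246) (nat_lit 241)) (XT.lf (nat_lit 0) (nat_lit 1893346830) (nat_lit 760) (nat_lit 1169625073) (nat_lit 836) (nat_lit 4726615799) (nat_lit 286) (nat_lit 5) (nat_lit 296) (nat_lit 5) (nat_lit 297) (nat_lit 5) (nat_lit 294) (nat_lit 246) (nat_lit 240)))) (XT.nd (nat_lit 156) (nat_lit 1368) (nat_lit 0) (XT.nd (nat_lit 78) (nat_lit 684) (nat_lit 0) (XT.lf (nat_lit 0) (nat_lit 129703511) (nat_lit 760) (nat_lit 5571107265) (nat_lit 76) (nat_lit 2176614889) (nat_lit 276) (nat_lit 5) (nat_lit 286) (nat_lit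 5) (nat_lit 277) (nat_lit 5) (nat_lit 295) (nat_lit 246) (nat_lit 239)) (XT.lf (nat_lit 0) (nat_lit 2709536759) (nat_lit 684) (nat_lit 2294260199) (nat_lit 760) (nat_lit 2964841602) (nat_lit 267) (nat_lit 5) (nat_lit 276) (nat_lit 5) (nat_lit 277) (nat_lit 5) (nat_lit 296) (nat_lit 246) (nat_lit 238))) (XT.nd (nat_lit 78) (nat_lit 684) (nat_lit 0) (XT.lf (nat_lit 0) (nat_lit 1874450602) (nat_lit 684) (nat_lit 4945085139) (nat_lit 76) (nat_lit 1244110669) (nat_lit 258) (nat_lit 5) (nat_lit 267) (nat_lit 5) (nat_lit 259) (nat_lit 5) (nat_lit 297) (nat_lit 246) (nat_lit 237)) (XT.lf (nat_lit 0) (nat_lit 3515396274) (nat_lit 684) (nat_lit 3252243748) (nat_lit 760) (nat_lit 1394576326) (nat_lit 249) (nat_lit 5) (nat_lit 258) (nat_lit 5) (nat_lit 259) (nat_lit 5) (nat_lit 298) (nat_lit 246) (nat_lit 236)))))) (XT.nd (nat_lit 546) (nat_lit 3496) (nat_lit 0) (XT.nd (nat_lit 234) (nat_lit 2280) (nat_lit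 0) (XT.nd (nat_lit 78) (nat_lit 1216) (nat_lit 0) (XT.lf (nat_lit 0) (nat_lit 3436107105) (nat_lit 684) (nat_lit 4358670873) (nat_lit 76) (nat_lit 469810888) (nat_lit 240) (nat_lit 5) (nat_lit 249) (nat_lit 5) (nat_lit 241) (nat_lit 5) (nat_lit 299) (nat_lit 246) (nat_lit 235)) (XT.nd (nat_lit 78) (nat_lit 608) (nat_lit 0) (XT.lf (nat_lit 0) (nat_lit 4281218335) (nat_lit 608) (nat_lit 4071821784) (nat_lit 684) (nat_lit 17679988) (nat_lit 232) (nat_lit 5) (nat_lit 240) (nat_lit 5) (nat_lit 241) (nat_lit 5) (nat_lit 300) (nat_lit 246) (nat_lit 234)) (XT.lf (nat_lit 0) (nat_lit 4636816599) (nat_lit 532) (nat_lit 176325209) (nat_lit 608) (nat_lit 3667517001) (nat_lit 224) (nat_lit 5) (nat_lit 231) (nat_lit 5) (nat_lit 232) (nat_lit 5) (nat_lit 301) (nat_lit 246) (nat_lit 233)))) (XT.nd (nat_lit 156) (nat_lit 1064) (nat_lit 0) (XT.nd (nat_lit 78) (nat_lit 532) (nat_lit 0) (XT.lf (nat_lit 0) (nat_lit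 1146816420) (nat_lit 684) (nat_lit 3626530614) (nat_lit 76) (nat_lit 3821106683) (nat_lit 215) (nat_lit 5) (nat_lit 224) (nat_lit 5) (nat_lit 216) (nat_lit 5) (nat_lit 302) (nat_lit 246) (nat_lit 232)) (XT.lf (nat_lit 0) (nat_lit 5277728131) (nat_lit 532) (nat_lit 724491478) (nat_lit 608) (nat_lit 2710096785) (nat_lit 208) (nat_lit 5) (nat_lit 215) (nat_lit 5) (nat_lit 216) (nat_lit 5) (nat_lit 303) (nat_lit 246) (nat_lit 231))) (XT.nd (nat_lit 78) (nat_lit 456) (nat_lit 0) (XT.lf (nat_lit 0) (nat_lit 2110778996) (nat_lit 608) (nat_lit 3283056183) (nat_lit 76) (nat_lit 3440269603) (nat_lit 200) (nat_lit 5) (nat_lit 208) (nat_lit 5) (nat_lit 201) (nat_lit 5) (nat_lit 304) (nat_lit 246) (nat_lit 230)) (XT.lf (nat_lit 0) (nat_lit 5797220899) (nat_lit 456) (nat_lit 1196586766) (nat_lit 532) (nat_lit 1966356893) (nat_lit 194) (nat_lit 5) (nat_lit 200) (nat_lit 5) (nat_lit 201) (nat_lit 5) (nat_lit 305)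 (nat_lit 246) (nat_lit 229))))) (XT.nd (nat_lit 234) (nat_lit 1900) (nat_lit 0) (XT.nd (nat_lit 78) (nat_lit 988) (nat_lit 0) (XT.lf (nat_lit 0) (nat_lit 2866622984) (nat_lit 608) (nat_lit 3095218067) (nat_lit 76) (nat_lit 3128408624) (nat_lit 186) (nat_lit 5) (nat_lit 194) (nat_lit 5) (nat_lit 187) (nat_lit 5) (nat_lit 306) (nat_lit 246) (nat_lit 228)) (XT.nd (nat_lit 78) (nat_lit 532) (nat_lit 0) (XT.lf (nat_lit 0) (nat_lit 6158184900) (nat_lit 456) (nat_lit 1621151426) (nat_lit 532) (nat_lit 1445470043) (nat_lit 180) (nat_lit 5) (nat_lit 186) (nat_lit 5) (nat_lit 187) (nat_lit 5) (nat_lit 307) (nat_lit 246) (nat_lit 227)) (XT.lf (nat_lit 0) (nat_lit 3404323932) (nat_lit 532) (nat_lit 3102041713) (nat_lit 76) (nat_lit 2857160475) (nat_lit 173) (nat_lit 5) (nat_lit 180) (nat_lit 5) (nat_lit 174) (nat_lit 5) (nat_lit 308) (nat_lit 246) (nat_lit 226)))) (XT.nd (nat_lit 156) (nat_lit 912) (nat_lit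 0) (XT.nd (nat_lit 78) (nat_lit 532) (nat_lit 0) (XT.lf (nat_lit 0) (nat_lit 6320595011) (nat_lit 456) (nat_lit 2027385207) (nat_lit 532) (nat_lit 1158929768) (nat_lit 167) (nat_lit 5) (nat_lit 173) (nat_lit 5) (nat_lit 174) (nat_lit 5) (nat_lit 309) (nat_lit 246) (nat_lit 225)) (XT.lf (nat_lit 0) (nat_lit 3711509566) (nat_lit 532) (nat_lit 3345730881) (nat_lit 76) (nat_lit 2597398452) (nat_lit 160) (nat_lit 5) (nat_lit 167) (nat_lit 5) (nat_lit 161) (nat_lit 5) (nat_lit 310) (nat_lit 246) (nat_lit 224))) (XT.nd (nat_lit 78) (nat_lit 532) (nat_lit 0) (XT.lf (nat_lit 0) (nat_lit 6241089138) (nat_lit 380) (nat_lit 2445420041) (nat_lit 456) (nat_lit 1120703110) (nat_lit 155) (nat_lit 5) (nat_lit 160) (nat_lit 5) (nat_lit 161) (nat_lit 5) (nat_lit 311) (nat_lit 246) (nat_lit 223)) (XT.lf (nat_lit 0) (nat_lit 3773297848) (nat_lit 532) (nat_lit 3872109577) (nat_lit 76) (nat_lit 2318956303) (nat_lit 148)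 (nat_lit 5) (nat_lit 155) (nat_lit 5) (nat_lit 149) (nat_lit 5) (nat_lit 312) (nat_lit 246) (nat_lit 222))))))))
noncomputable def xc28 : XT := (XT.nd (nat_lit 2106) (nat_lit 2736) (nat_lit 0) (XT.nd (nat_lit 1014) (nat_lit 2812) (nat_lit 0) (XT.nd (nat_lit 468) (nat_lit 1976) (nat_lit 0) (XT.nd (nat_lit 234) (nat_lit 1216) (nat_lit 0) (XT.nd (nat_lit 78) (nat_lit 836) (nat_lit 0) (XT.lf (nat_lit 0) (nat_lit 5872509968) (nat_lit 380) (nat_lit 2906606569) (nat_lit 456) (nat_lit 1347406441) (nat_lit 143) (nat_lit 5) (nat_lit 148) (nat_lit 5) (nat_lit 149) (nat_lit 5) (nat_lit 313) (nat_lit 246) (nat_lit 221)) (XT.nd (nat_lit 78) (nat_lit 380) (nat_lit 0) (XT.lf (nat_lit 0) (nat_lit 3572111351) (nat_lit 456) (nat_lit 4731102937) (nat_lit 76) (nat_lit 1990337371) (nat_lit 137) (nat_lit 5) (nat_lit 143) (nat_lit 5) (nat_lit 138) (nat_lit 5) (nat_lit 314) (nat_lit 246) (nat_lit 220)) (XT.lf (nat_lit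 0) (nat_lit 5163405906) (nat_lit 380) (nat_lit 3443816998) (nat_lit 456) (nat_lit 1858506302) (nat_lit 132) (nat_lit 5) (nat_lit 137) (nat_lit 5) (nat_lit 138) (nat_lit 5) (nat_lit 315) (nat_lit 246) (nat_lit 219)))) (XT.nd (nat_lit 78) (nat_lit 760) (nat_lit 0) (XT.lf (nat_lit 0) (nat_lit 3087465985) (nat_lit 456) (nat_lit 5977261677) (nat_lit 76) (nat_lit 1578406366) (nat_lit 126) (nat_lit 5) (nat_lit 132) (nat_lit 5) (nat_lit 127) (nat_lit 5) (nat_lit 316) (nat_lit 246) (nat_lit 218)) (XT.nd (nat_lit 78) (nat_lit 456) (nat_lit 0) (XT.lf (nat_lit 0) (nat_lit 4057486380) (nat_lit 304) (nat_lit 4091767042) (nat_lit 380) (nat_lit 2676547361) (nat_lit 122) (nat_lit 5) (nat_lit 126) (nat_lit 5) (nat_lit 127) (nat_lit 5) (nat_lit 317) (nat_lit 246) (nat_lit 217)) (XT.lf (nat_lit 0) (nat_lit 2295731874) (nat_lit 456) (nat_lit 7670335187) (nat_lit 76) (nat_lit 1048060933) (nat_lit 116) (nat_lit 5) (nat_lit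 122) (nat_lit 5) (nat_lit 117) (nat_lit 5) (nat_lit 318) (nat_lit 246) (nat_lit 216))))) (XT.nd (nat_lit 234) (nat_lit 988) (nat_lit 0) (XT.nd (nat_lit 78) (nat_lit 684) (nat_lit 0) (XT.lf (nat_lit 0) (nat_lit 2493026245) (nat_lit 304) (nat_lit 4887359904) (nat_lit 380) (nat_lit 3827409848) (nat_lit 112) (nat_lit 5) (nat_lit 116) (nat_lit 5) (nat_lit 117) (nat_lit 5) (nat_lit 319) (nat_lit 246) (nat_lit 215)) (XT.nd (nat_lit 78) (nat_lit 304) (nat_lit 0) (XT.lf (nat_lit 0) (nat_lit 1169863910) (nat_lit 380) (nat_lit 9875898827) (nat_lit 76) (nat_lit 361879992) (nat_lit 107) (nat_lit 5) (nat_lit 112) (nat_lit 5) (nat_lit 108) (nat_lit 5) (nat_lit 320) (nat_lit 246) (nat_lit 214)) (XT.lf (nat_lit 0) (nat_lit 402213483) (nat_lit 304) (nat_lit 5870055503) (nat_lit 380) (nat_lit 5340599117) (nat_lit 103) (nat_lit 5) (nat_lit 107) (nat_lit 5) (nat_lit 108) (nat_lit 5) (nat_lit 321) (nat_lit 246) (nat_lit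 213)))) (XT.nd (nat_lit 156) (nat_lit 608) (nat_lit 0) (XT.nd (nat_lit 78) (nat_lit 380) (nat_lit 0) (XT.lf (nat_lit 0) (nat_lit 10989045830) (nat_lit 304) (nat_lit 519481024) (nat_lit 380) (nat_lit 316140270) (nat_lit 103) (nat_lit 5) (nat_lit 107) (nat_lit 5) (nat_lit 108) (nat_lit 5) (nat_lit 322) (nat_lit 246) (nat_lit 212)) (XT.lf (nat_lit 0) (nat_lit 4807567634) (nat_lit 380) (nat_lit 2259538067) (nat_lit 76) (nat_lit 4974869530) (nat_lit 98) (nat_lit 5) (nat_lit 103) (nat_lit 5) (nat_lit 99) (nat_lit 5) (nat_lit 323) (nat_lit 246) (nat_lit 211))) (XT.nd (nat_lit 78) (nat_lit 380) (nat_lit 0) (XT.lf (nat_lit 0) (nat_lit 8438570728) (nat_lit 228) (nat_lit 1623193213) (nat_lit 304) (nat_lit 2204405434) (nat_lit 95) (nat_lit 5) (nat_lit 98) (nat_lit 5) (nat_lit 99) (nat_lit 5) (nat_lit 324) (nat_lit 246) (nat_lit 210)) (XT.lf (nat_lit 0) (nat_lit 2942061481) (nat_lit 380) (nat_lit 5590223323)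 (nat_lit 76) (nat_lit 3964354580) (nat_lit 90) (nat_lit 5) (nat_lit 95) (nat_lit 5) (nat_lit 91) (nat_lit 5) (nat_lit 325) (nat_lit 246) (nat_lit 209)))))) (XT.nd (nat_lit 546) (nat_lit 1216) (nat_lit 0) (XT.nd (nat_lit 234) (nat_lit 760) (nat_lit 0) (XT.nd (nat_lit 78) (nat_lit 608) (nat_lit 0) (XT.lf (nat_lit 0) (nat_lit 5194231906) (nat_lit 228) (nat_lit 3008937781) (nat_lit 304) (nat_lit 4530786206) (nat_lit 87) (nat_lit 5) (nat_lit 90) (nat_lit 5) (nat_lit 91) (nat_lit 5) (nat_lit 326) (nat_lit 246) (nat_lit 208)) (XT.nd (nat_lit 78) (nat_lit 228) (nat_lit 0) (XT.lf (nat_lit 0) (nat_lit 632726705) (nat_lit 380) (nat_lit 9684580956) (nat_lit 76) (nat_lit 2661078064) (nat_lit 82) (nat_lit 5) (nat_lit 87) (nat_lit 5) (nat_lit 83) (nat_lit 5) (nat_lit 327) (nat_lit 246) (nat_lit 207)) (XT.lf (nat_lit 0) (nat_lit 1163274557) (nat_lit 228) (nat_lit 4727267717) (nat_lit 304) (nat_lit 7339013799)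 (nat_lit 79) (nat_lit 5) (nat_lit 82) (nat_lit 5) (nat_lit 83) (nat_lit 5) (nat_lit 328) (nat_lit 246) (nat_lit 206)))) (XT.nd (nat_lit 156) (nat_lit 456) (nat_lit 0) (XT.nd (nat_lit 78) (nat_lit 304) (nat_lit 0) (XT.lf (nat_lit 0) (nat_lit 11301496540) (nat_lit 304) (nat_lit 1151763785) (nat_lit 76) (nat_lit 1035118022) (nat_lit 79) (nat_lit 5) (nat_lit 83) (nat_lit 5) (nat_lit 80) (nat_lit 5) (nat_lit 329) (nat_lit 246) (nat_lit 205)) (XT.lf (nat_lit 0) (nat_lit 3100902570) (nat_lit 304) (nat_lit 3707465089) (nat_lit 76) (nat_lit 6945776107) (nat_lit 75) (nat_lit 5) (nat_lit 79) (nat_lit 5) (nat_lit 76) (nat_lit 5) (nat_lit 330) (nat_lit 246) (nat_lit 204))) (XT.nd (nat_lit 78) (nat_lit 228) (nat_lit 0) (XT.lf (nat_lit 0) (nat_lit 7531071646) (nat_lit 228) (nat_lit 969255858) (nat_lit 304) (nat_lit 5527634185) (nat_lit 72) (nat_lit 5) (nat_lit 75) (nat_lit 5) (nat_lit 76) (nat_lit 5) (nat_lit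 331) (nat_lit 246) (nat_lit 203)) (XT.lf (nat_lit 0) (nat_lit 4756149645) (nat_lit 228) (nat_lit 9321380172) (nat_lit 304) (nat_lit 232170780) (nat_lit 69) (nat_lit 5) (nat_lit 72) (nat_lit 5) (nat_lit 73) (nat_lit 5) (nat_lit 332) (nat_lit 246) (nat_lit 202))))) (XT.nd (nat_lit 234) (nat_lit 608) (nat_lit 0) (XT.nd (nat_lit 78) (nat_lit 304) (nat_lit 0) (XT.lf (nat_lit 0) (nat_lit 1697949057) (nat_lit 228) (nat_lit 3445268397) (nat_lit 304) (nat_lit 9456226359) (nat_lit 65) (nat_lit 5) (nat_lit 68) (nat_lit 5) (nat_lit 69) (nat_lit 5) (nat_lit 333) (nat_lit 246) (nat_lit 201)) (XT.nd (nat_lit 78) (nat_lit 304) (nat_lit 0) (XT.lf (nat_lit 0) (nat_lit 10687580958) (nat_lit 304) (nat_lit 1617247980) (nat_lit 76) (nat_lit 2592822983) (nat_lit 65) (nat_lit 5) (nat_lit 69) (nat_lit 5) (nat_lit 66) (nat_lit 5) (nat_lit 334) (nat_lit 246) (nat_lit 200)) (XT.lf (nat_lit 0) (nat_lit 1196703205) (nat_lit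 304) (nat_lit 5214755951) (nat_lit 76) (nat_lit 8792834058) (nat_lit 61) (nat_lit 5) (nat_lit 65) (nat_lit 5) (nat_lit 62) (nat_lit 5) (nat_lit 335) (nat_lit 246) (nat_lit 199)))) (XT.nd (nat_lit 156) (nat_lit 228) (nat_lit 0) (XT.nd (nat_lit 78) (nat_lit 228) (nat_lit 0) (XT.lf (nat_lit 0) (nat_lit 6387207522) (nat_lit 152) (nat_lit 305738111) (nat_lit 228) (nat_lit 8826961351) (nat_lit 59) (nat_lit 5) (nat_lit 61) (nat_lit 5) (nat_lit 62) (nat_lit 5) (nat_lit 336) (nat_lit 246) (nat_lit 198)) (XT.lf (nat_lit 0) (nat_lit 2443010222) (nat_lit 228) (nat_lit 9933936767) (nat_lit 304) (nat_lit 3467603269) (nat_lit 56) (nat_lit 5) (nat_lit 59) (nat_lit 5) (nat_lit 60) (nat_lit 5) (nat_lit 337) (nat_lit 246) (nat_lit 197))) (XT.nd (nat_lit 78) (nat_lit 152) (nat_lit 0) (XT.lf (nat_lit 0) (nat_lit 2023326646) (nat_lit 304) (nat_lit 1815801581) (nat_lit 76) (nat_lit 12339601497) (nat_lit 55) (nat_lit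 5) (nat_lit 59) (nat_lit 5) (nat_lit 56) (nat_lit 5) (nat_lit 338) (nat_lit 246) (nat_lit 196)) (XT.lf (nat_lit 0) (nat_lit 7649265400) (nat_lit 228) (nat_lit 6421614928) (nat_lit 76) (nat_lit 2451265103) (nat_lit 53) (nat_lit 5) (nat_lit 56) (nat_lit 5) (nat_lit 54) (nat_lit 5) (nat_lit 339) (nat_lit 246) (nat_lit 195))))))) (XT.nd (nat_lit 1014) (nat_lit 912) (nat_lit 0) (XT.nd (nat_lit 468) (nat_lit 912) (nat_lit 0) (XT.nd (nat_lit 234) (nat_lit 456) (nat_lit 0) (XT.nd (nat_lit 78) (nat_lit 228) (nat_lit 0) (XT.lf (nat_lit 0) (nat_lit 5460209032) (nat_lit 228) (nat_lit 7993486057) (nat_lit 304) (nat_lit 3421990884) (nat_lit 50) (nat_lit 5) (nat_lit 53) (nat_lit 5) (nat_lit 54) (nat_lit 5) (nat_lit 340) (nat_lit 246) (nat_lit 194)) (XT.nd (nat_lit 78) (nat_lit 0) (nat_lit 0) (XT.lf (nat_lit 0) (nat_lit 430226110) (nat_lit 152) (nat_lit 1716972481) (nat_lit 228) (nat_lit 15092694710) (nat_lit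 47) (nat_lit 5) (nat_lit 49) (nat_lit 5) (nat_lit 50) (nat_lit 5) (nat_lit 341) (nat_lit 246) (nat_lit 193)) (XT.lf (nat_lit 0) (nat_lit 7883717175) (nat_lit 228) (nat_lit 4987670956) (nat_lit 76) (nat_lit 4742266792) (nat_lit 47) (nat_lit 5) (nat_lit 50) (nat_lit 5) (nat_lit 48) (nat_lit 5) (nat_lit 342) (nat_lit 246) (nat_lit 192)))) (XT.nd (nat_lit 78) (nat_lit 228) (nat_lit 0) (XT.lf (nat_lit 0) (nat_lit 7167107171) (nat_lit 228) (nat_lit 6622838539) (nat_lit 304) (nat_lit 4208746306) (nat_lit 44) (nat_lit 5) (nat_lit 47) (nat_lit 5) (nat_lit 48) (nat_lit 5) (nat_lit 343) (nat_lit 246) (nat_lit 191)) (XT.nd (nat_lit 78) (nat_lit 0) (nat_lit 0) (XT.lf (nat_lit 0) (nat_lit 1263438260) (nat_lit 152) (nat_lit 177766294) (nat_lit 228) (nat_lit 16954247747) (nat_lit 41) (nat_lit 5) (nat_lit 43) (nat_lit 5) (nat_lit 44) (nat_lit 5) (nat_lit 344) (nat_lit 246) (nat_lit 190)) (XT.lf (nat_lit 0) (nat_lit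 7260712491) (nat_lit 228) (nat_lit 5106384318) (nat_lit 76) (nat_lit 6435331190) (nat_lit 41) (nat_lit 5) (nat_lit 44) (nat_lit 5) (nat_lit 42) (nat_lit 5) (nat_lit 345) (nat_lit 246) (nat_lit 189))))) (XT.nd (nat_lit 234) (nat_lit 532) (nat_lit 0) (XT.nd (nat_lit 78) (nat_lit 228) (nat_lit 0) (XT.lf (nat_lit 0) (nat_lit 7274489324) (nat_lit 152) (nat_lit 5971533787) (nat_lit 228) (nat_lit 5975778884) (nat_lit 39) (nat_lit 5) (nat_lit 41) (nat_lit 5) (nat_lit 42) (nat_lit 5) (nat_lit 346) (nat_lit 246) (nat_lit 188)) (XT.nd (nat_lit 78) (nat_lit 76) (nat_lit 0) (XT.lf (nat_lit 0) (nat_lit 344928563) (nat_lit 152) (nat_lit 19050588885) (nat_lit 228) (nat_lit 258560266) (nat_lit 37) (nat_lit 5) (nat_lit 39) (nat_lit 5) (nat_lit 40) (nat_lit 4) (nat_lit 347) (nat_lit 246) (nat_lit 187)) (XT.lf (nat_lit 0) (nat_lit 5621950036) (nat_lit 228) (nat_lit 7103390469) (nat_lit 76) (nat_lit 7371950144) (nat_lit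 36) (nat_lit 5) (nat_lit 39) (nat_lit 5) (nat_lit 37) (nat_lit 5) (nat_lit 348) (nat_lit 246) (nat_lit 186)))) (XT.nd (nat_lit 156) (nat_lit 380) (nat_lit 0) (XT.nd (nat_lit 78) (nat_lit 0) (nat_lit 0) (XT.lf (nat_lit 0) (nat_lit 5442918657) (nat_lit 152) (nat_lit 6213615539) (nat_lit 228) (nat_lit 8897620172) (nat_lit 34) (nat_lit 5) (nat_lit 36) (nat_lit 5) (nat_lit 37) (nat_lit 5) (nat_lit 349) (nat_lit 246) (nat_lit 185)) (XT.lf (nat_lit 0) (nat_lit 17870332319) (nat_lit 228) (nat_lit 2658979822) (nat_lit 76) (nat_lit 495459980) (nat_lit 34) (nat_lit 5) (nat_lit 37) (nat_lit 5) (nat_lit 35) (nat_lit 4) (nat_lit 350) (nat_lit 246) (nat_lit 184))) (XT.nd (nat_lit 78) (nat_lit 152) (nat_lit 0) (XT.lf (nat_lit 0) (nat_lit 2780821537) (nat_lit 228) (nat_lit 11359862854) (nat_lit 76) (nat_lit 7367356636) (nat_lit 31) (nat_lit 5) (nat_lit 34) (nat_lit 5) (nat_lit 32) (nat_lit 5) (nat_lit 351) (nat_lit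 246) (nat_lit 183)) (XT.lf (nat_lit 0) (nat_lit 1275011922) (nat_lit 152) (nat_lit 7551586382) (nat_lit 228) (nat_lit 13179297168) (nat_lit 29) (nat_lit 5) (nat_lit 31) (nat_lit 5) (nat_lit 32) (nat_lit 5) (nat_lit 352) (nat_lit 246) (nat_lit 182)))))) (XT.nd (nat_lit 546) (nat_lit 456) (nat_lit 0) (XT.nd (nat_lit 234) (nat_lit 304) (nat_lit 0) (XT.nd (nat_lit 78) (nat_lit 152) (nat_lit 0) (XT.lf (nat_lit 0) (nat_lit 14354909399) (nat_lit 152) (nat_lit 725385414) (nat_lit 228) (nat_lit 7437870263) (nat_lit 29) (nat_lit 5) (nat_lit 31) (nat_lit 5) (nat_lit 32) (nat_lit 5) (nat_lit 353) (nat_lit 246) (nat_lit 181)) (XT.nd (nat_lit 78) (nat_lit 76) (nat_lit 0) (XT.lf (nat_lit 0) (nat_lit 4714639427) (nat_lit 76) (nat_lit 16829304415) (nat_lit 152) (nat_lit 1501422243) (nat_lit 28) (nat_lit 5) (nat_lit 29) (nat_lit 5) (nat_lit 30) (nat_lit 4) (nat_lit 354) (nat_lit 246) (nat_lit 180)) (XT.lf (nat_lit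 0) (nat_lit 4564485913) (nat_lit 152) (nat_lit 5618723315) (nat_lit 76) (nat_lit 13404347157) (nat_lit 27) (nat_lit 5) (nat_lit 29) (nat_lit 5) (nat_lit 28) (nat_lit 5) (nat_lit 355) (nat_lit 246) (nat_lit 179)))) (XT.nd (nat_lit 156) (nat_lit 152) (nat_lit 0) (XT.nd (nat_lit 78) (nat_lit 0) (nat_lit 0) (XT.lf (nat_lit 0) (nat_lit 7478320616) (nat_lit 152) (nat_lit 3315074670) (nat_lit 228) (nat_lit 13352399553) (nat_lit 25) (nat_lit 5) (nat_lit 27) (nat_lit 5) (nat_lit 28) (nat_lit 5) (nat_lit 356) (nat_lit 246) (nat_lit 178)) (XT.lf (nat_lit 0) (nat_lit 17225256685) (nat_lit 228) (nat_lit 3783181434) (nat_lit 76) (nat_lit 3712029739) (nat_lit 25) (nat_lit 5) (nat_lit 28) (nat_lit 5) (nat_lit 26) (nat_lit 4) (nat_lit 357) (nat_lit 246) (nat_lit 177))) (XT.nd (nat_lit 78) (nat_lit 76) (nat_lit 0) (XT.lf (nat_lit 0) (nat_lit 9508930086) (nat_lit 76) (nat_lit 14379761937) (nat_lit 152) (nat_lit 1422925525)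 (nat_lit 24) (nat_lit 5) (nat_lit 25) (nat_lit 5) (nat_lit 26) (nat_lit 4) (nat_lit 358) (nat_lit 246) (nat_lit 176)) (XT.lf (nat_lit 0) (nat_lit 4749175603) (nat_lit 152) (nat_lit 2780476008) (nat_lit 76) (nat_lit 18390610876) (nat_lit 23) (nat_lit 5) (nat_lit 25) (nat_lit 5) (nat_lit 24) (nat_lit 5) (nat_lit 359) (nat_lit 246) (nat_lit 175))))) (XT.nd (nat_lit 234) (nat_lit 228) (nat_lit 0) (XT.nd (nat_lit 78) (nat_lit 76) (nat_lit 0) (XT.lf (nat_lit 0) (nat_lit 10684827770) (nat_lit 152) (nat_lit 428275310) (nat_lit 228) (nat_lit 15433363850) (nat_lit 21) (nat_lit 5) (nat_lit 23) (nat_lit 5) (nat_lit 24) (nat_lit 5) (nat_lit 360) (nat_lit 246) (nat_lit 174)) (XT.nd (nat_lit 78) (nat_lit 76) (nat_lit 0) (XT.lf (nat_lit 0) (nat_lit 17688681190) (nat_lit 228) (nat_lit 2721328038) (nat_lit 76) (nat_lit 6781041554) (nat_lit 21) (nat_lit 5) (nat_lit 24) (nat_lit 5) (nat_lit 22) (nat_lit 4) (nat_lit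 361) (nat_lit 246) (nat_lit 173)) (XT.lf (nat_lit 0) (nat_lit 10877686863) (nat_lit 76) (nat_lit 13615637008) (nat_lit 152) (nat_lit 3361020036) (nat_lit 20) (nat_lit 5) (nat_lit 21) (nat_lit 5) (nat_lit 22) (nat_lit 4) (nat_lit 362) (nat_lit 246) (nat_lit 172)))) (XT.nd (nat_lit 34632) (nat_lit 0) (nat_lit 27132) (XT.nd (nat_lit 78) (nat_lit 152) (nat_lit 0) (XT.lf (nat_lit 0) (nat_lit 2903014550) (nat_lit 152) (nat_lit 3709252849) (nat_lit 76) (nat_lit 21925344289) (nat_lit 19) (nat_lit 5) (nat_lit 21) (nat_lit 5) (nat_lit 20) (nat_lit 5) (nat_lit 363) (nat_lit 246) (nat_lit 171)) (XT.lf (nat_lit 0) (nat_lit 9338679076) (nat_lit 228) (nat_lit 19252426228) (nat_lit 76) (nat_lit 649247549) (nat_lit 17) (nat_lit 5) (nat_lit 20) (nat_lit 5) (nat_lit 18) (nat_lit 4) (nat_lit 364) (nat_lit 246) (nat_lit 170))) (XT.nd (nat_lit 78) (nat_lit 1520) (nat_lit 0) (XT.lf (nat_lit 0) (nat_lit 1573070491) (nat_lit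 1748) (nat_lit 458522373) (nat_lit 0) (nat_lit 1573070491) (nat_lit 394) (nat_lit 5) (nat_lit 417) (nat_lit 4) (nat_lit 394) (nat_lit 4) (nat_lit 286) (nat_lit 247) (nat_lit 247)) (XT.lf (nat_lit 0) (nat_lit 848716003) (nat_lit 1520) (nat_lit 695455746) (nat_lit 76) (nat_lit 5727358773) (nat_lit 374) (nat_lit 5) (nat_lit 394) (nat_lit 5) (nat_lit 375) (nat_lit 4) (nat_lit 287) (nat_lit 247) (nat_lit 246))))))))
noncomputable def xc29 : XT := (XT.nd (nat_lit 2106) (nat_lit 6840) (nat_lit 0) (XT.nd (nat_lit 1014) (nat_lit 7144) (nat_lit 0) (XT.nd (nat_lit 468) (nat_lit 5016) (nat_lit 0) (XT.nd (nat_lit 234) (nat_lit 2280) (nat_lit 0) (XT.nd (nat_lit 78) (nat_lit 2736) (nat_lit 0) (XT.lf (nat_lit 0) (nat_lit 5767707978) (nat_lit 912) (nat_lit 457877603) (nat_lit 0) (nat_lit 1111302105) (nat_lit 363) (nat_lit 5) (nat_lit 375) (nat_lit 4) (nat_lit 363) (nat_lit 4) (nat_lit 288) (nat_lit 247) (nat_lit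 245)) (XT.nd (nat_lit 78) (nat_lit 1748) (nat_lit 0) (XT.lf (nat_lit 0) (nat_lit 3305955004) (nat_lit 988) (nat_lit 205363167) (nat_lit 76) (nat_lit 3894141636) (nat_lit 350) (nat_lit 5) (nat_lit 363) (nat_lit 5) (nat_lit 351) (nat_lit 4) (nat_lit 289) (nat_lit 247) (nat_lit 244)) (XT.lf (nat_lit 0) (nat_lit 77404827) (nat_lit 836) (nat_lit 655666417) (nat_lit 912) (nat_lit 6744537831) (nat_lit 327) (nat_lit 5) (nat_lit 338) (nat_lit 5) (nat_lit 339) (nat_lit 5) (nat_lit 290) (nat_lit 247) (nat_lit 243)))) (XT.nd (nat_lit 78) (nat_lit 1520) (nat_lit 0) (XT.lf (nat_lit 0) (nat_lit 362609615) (nat_lit 760) (nat_lit 5225880522) (nat_lit 836) (nat_lit 1964327784) (nat_lit 317) (nat_lit 5) (nat_lit 327) (nat_lit 5) (nat_lit 328) (nat_lit 4) (nat_lit 291) (nat_lit 247) (nat_lit 242)) (XT.nd (nat_lit 78) (nat_lit 684) (nat_lit 0) (XT.lf (nat_lit 0) (nat_lit 663660092) (nat_lit 760) (nat_lit 2180730028)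 (nat_lit 836) (nat_lit 4787133451) (nat_lit 306) (nat_lit 5) (nat_lit 316) (nat_lit 5) (nat_lit 317) (nat_lit 5) (nat_lit 292) (nat_lit 247) (nat_lit 241)) (XT.lf (nat_lit 0) (nat_lit 981540953) (nat_lit 684) (nat_lit 6718522564) (nat_lit 760) (nat_lit 13779632) (nat_lit 297) (nat_lit 5) (nat_lit 306) (nat_lit 5) (nat_lit 307) (nat_lit 4) (nat_lit 293) (nat_lit 247) (nat_lit 240))))) (XT.nd (nat_lit 234) (nat_lit 2736) (nat_lit 0) (XT.nd (nat_lit 78) (nat_lit 1444) (nat_lit 0) (XT.lf (nat_lit 0) (nat_lit 1286272041) (nat_lit 760) (nat_lit 3492205355) (nat_lit 836) (nat_lit 3020813462) (nat_lit 286) (nat_lit 5) (nat_lit 296) (nat_lit 5) (nat_lit 297) (nat_lit 5) (nat_lit 294) (nat_lit 247) (nat_lit 239)) (XT.nd (nat_lit 78) (nat_lit 684) (nat_lit 0) (XT.lf (nat_lit 0) (nat_lit 1609686455) (nat_lit 684) (nat_lit 121178964) (nat_lit 760) (nat_lit 6157731933) (nat_lit 276) (nat_lit 5) (nat_lit 285)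 (nat_lit 5) (nat_lit 286) (nat_lit 5) (nat_lit 295) (nat_lit 247) (nat_lit 238)) (XT.lf (nat_lit 0) (nat_lit 1918072373) (nat_lit 684) (nat_lit 4618930964) (nat_lit 760) (nat_lit 1444209382) (nat_lit 267) (nat_lit 5) (nat_lit 276) (nat_lit 5) (nat_lit 277) (nat_lit 5) (nat_lit 296) (nat_lit 247) (nat_lit 237)))) (XT.nd (nat_lit 156) (nat_lit 1368) (nat_lit 0) (XT.nd (nat_lit 78) (nat_lit 684) (nat_lit 0) (XT.lf (nat_lit 0) (nat_lit 2227482797) (nat_lit 608) (nat_lit 1072492100) (nat_lit 684) (nat_lit 4777592777) (nat_lit 258) (nat_lit 5) (nat_lit 266) (nat_lit 5) (nat_lit 267) (nat_lit 5) (nat_lit 297) (nat_lit 247) (nat_lit 236)) (XT.lf (nat_lit 0) (nat_lit 2530768583) (nat_lit 684) (nat_lit 5589127093) (nat_lit 760) (nat_lit 57747378) (nat_lit 249) (nat_lit 5) (nat_lit 258) (nat_lit 5) (nat_lit 259) (nat_lit 5) (nat_lit 298) (nat_lit 247) (nat_lit 235))) (XT.nd (nat_lit 78) (nat_lit 684) (nat_lit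 0) (XT.lf (nat_lit 0) (nat_lit 2812651499) (nat_lit 608) (nat_lit 1873477500) (nat_lit 684) (nat_lit 3595136611) (nat_lit 240) (nat_lit 5) (nat_lit 248) (nat_lit 5) (nat_lit 249) (nat_lit 5) (nat_lit 299) (nat_lit 247) (nat_lit 234)) (XT.lf (nat_lit 0) (nat_lit 1121396596) (nat_lit 684) (nat_lit 5301706502) (nat_lit 76) (nat_lit 1965738696) (nat_lit 231) (nat_lit 5) (nat_lit 240) (nat_lit 5) (nat_lit 232) (nat_lit 5) (nat_lit 300) (nat_lit 247) (nat_lit 233)))))) (XT.nd (nat_lit 546) (nat_lit 3268) (nat_lit 0) (XT.nd (nat_lit 234) (nat_lit 2128) (nat_lit 0) (XT.nd (nat_lit 78) (nat_lit 1216) (nat_lit 0) (XT.lf (nat_lit 0) (nat_lit 3334595442) (nat_lit 532) (nat_lit 2551838692) (nat_lit 608) (nat_lit 2613690360) (nat_lit 224) (nat_lit 5) (nat_lit 231) (nat_lit 5) (nat_lit 232) (nat_lit 5) (nat_lit 301) (nat_lit 247) (nat_lit 232)) (XT.nd (nat_lit 78) (nat_lit 532) (nat_lit 0) (XT.lf (nat_lit 0)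 (nat_lit 2105757776) (nat_lit 684) (nat_lit 5051229621) (nat_lit 76) (nat_lit 1458449995) (nat_lit 215) (nat_lit 5) (nat_lit 224) (nat_lit 5) (nat_lit 216) (nat_lit 5) (nat_lit 302) (nat_lit 247) (nat_lit 231)) (XT.lf (nat_lit 0) (nat_lit 3760856532) (nat_lit 532) (nat_lit 3135224967) (nat_lit 608) (nat_lit 1838552731) (nat_lit 208) (nat_lit 5) (nat_lit 215) (nat_lit 5) (nat_lit 216) (nat_lit 5) (nat_lit 303) (nat_lit 247) (nat_lit 230)))) (XT.nd (nat_lit 156) (nat_lit 1064) (nat_lit 0) (XT.nd (nat_lit 78) (nat_lit 456) (nat_lit 0) (XT.lf (nat_lit 0) (nat_lit 2889985105) (nat_lit 608) (nat_lit 4928990230) (nat_lit 76) (nat_lit 1038983262) (nat_lit 200) (nat_lit 5) (nat_lit 208) (nat_lit 5) (nat_lit 201) (nat_lit 5) (nat_lit 304) (nat_lit 247) (nat_lit 229)) (XT.lf (nat_lit 0) (nat_lit 4056781320) (nat_lit 456) (nat_lit 3651474018) (nat_lit 532) (nat_lit 1277088306) (nat_lit 194) (nat_lit 5) (nat_lit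 200) (nat_lit 5) (nat_lit 201) (nat_lit 5) (nat_lit 305) (nat_lit 247) (nat_lit 228))) (XT.nd (nat_lit 78) (nat_lit 456) (nat_lit 0) (XT.lf (nat_lit 0) (nat_lit 3465893342) (nat_lit 608) (nat_lit 4971333941) (nat_lit 76) (nat_lit 679759790) (nat_lit 186) (nat_lit 5) (nat_lit 194) (nat_lit 5) (nat_lit 187) (nat_lit 5) (nat_lit 306) (nat_lit 247) (nat_lit 227)) (XT.lf (nat_lit 0) (nat_lit 4185161245) (nat_lit 456) (nat_lit 4128861715) (nat_lit 532) (nat_lit 938840298) (nat_lit 180) (nat_lit 5) (nat_lit 186) (nat_lit 5) (nat_lit 187) (nat_lit 5) (nat_lit 307) (nat_lit 247) (nat_lit 226))))) (XT.nd (nat_lit 234) (nat_lit 1748) (nat_lit 0) (XT.nd (nat_lit 78) (nat_lit 988) (nat_lit 0) (XT.lf (nat_lit 0) (nat_lit 3823099343) (nat_lit 532) (nat_lit 5217406106) (nat_lit 76) (nat_lit 352662445) (nat_lit 173) (nat_lit 5) (nat_lit 180) (nat_lit 5) (nat_lit 174) (nat_lit 5) (nat_lit 308) (nat_lit 247) (nat_lit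 225)) (XT.nd (nat_lit 78) (nat_lit 532) (nat_lit 0) (XT.lf (nat_lit 0) (nat_lit 4105844072) (nat_lit 456) (nat_lit 4596361162) (nat_lit 532) (nat_lit 835663239) (nat_lit 167) (nat_lit 5) (nat_lit 173) (nat_lit 5) (nat_lit 174) (nat_lit 5) (nat_lit 309) (nat_lit 247) (nat_lit 224)) (XT.lf (nat_lit 0) (nat_lit 3948880652) (nat_lit 532) (nat_lit 5709558234) (nat_lit 76) (nat_lit 28774105) (nat_lit 160) (nat_lit 5) (nat_lit 167) (nat_lit 5) (nat_lit 161) (nat_lit 5) (nat_lit 310) (nat_lit 247) (nat_lit 223)))) (XT.nd (nat_lit 156) (nat_lit 836) (nat_lit 0) (XT.nd (nat_lit 78) (nat_lit 532) (nat_lit 0) (XT.lf (nat_lit 0) (nat_lit 3775312846) (nat_lit 380) (nat_lit 5083913302) (nat_lit 456) (nat_lit 981877070) (nat_lit 155) (nat_lit 5) (nat_lit 160) (nat_lit 5) (nat_lit 161) (nat_lit 5) (nat_lit 311) (nat_lit 247) (nat_lit 222)) (XT.lf (nat_lit 0) (nat_lit 3503955755) (nat_lit 456) (nat_lit 326174209)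 (nat_lit 532) (nat_lit 6169732739) (nat_lit 148) (nat_lit 5) (nat_lit 154) (nat_lit 5) (nat_lit 155) (nat_lit 5) (nat_lit 312) (nat_lit 247) (nat_lit 221))) (XT.nd (nat_lit 78) (nat_lit 456) (nat_lit 0) (XT.lf (nat_lit 0) (nat_lit 3146228327) (nat_lit 380) (nat_lit 5622711468) (nat_lit 456) (nat_lit 1394444288) (nat_lit 143) (nat_lit 5) (nat_lit 148) (nat_lit 5) (nat_lit 149) (nat_lit 5) (nat_lit 313) (nat_lit 247) (nat_lit 220)) (XT.lf (nat_lit 0) (nat_lit 2706973001) (nat_lit 380) (nat_lit 740413807) (nat_lit 456) (nat_lit 6884619030) (nat_lit 137) (nat_lit 5) (nat_lit 142) (nat_lit 5) (nat_lit 143) (nat_lit 5) (nat_lit 314) (nat_lit 247) (nat_lit 219))))))) (XT.nd (nat_lit 1092) (nat_lit 2660) (nat_lit 0) (XT.nd (nat_lit 546) (nat_lit 1900) (nat_lit 0) (XT.nd (nat_lit 234) (nat_lit 1140) (nat_lit 0) (XT.nd (nat_lit 78) (nat_lit 760) (nat_lit 0) (XT.lf (nat_lit 0) (nat_lit 2166930499) (nat_lit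 380) (nat_lit 6245502440) (nat_lit 456) (nat_lit 2093172041) (nat_lit 132) (nat_lit 5) (nat_lit 137) (nat_lit 5) (nat_lit 138) (nat_lit 5) (nat_lit 315) (nat_lit 247) (nat_lit 218)) (XT.nd (nat_lit 78) (nat_lit 304) (nat_lit 0) (XT.lf (nat_lit 0) (nat_lit 1532837860) (nat_lit 380) (nat_lit 1247024829) (nat_lit 456) (nat_lit 7904717199) (nat_lit 126) (nat_lit 5) (nat_lit 131) (nat_lit 5) (nat_lit 132) (nat_lit 5) (nat_lit 316) (nat_lit 247) (nat_lit 217)) (XT.lf (nat_lit 0) (nat_lit 780894348) (nat_lit 304) (nat_lit 6986906751) (nat_lit 380) (nat_lit 3100941271) (nat_lit 122) (nat_lit 5) (nat_lit 126) (nat_lit 5) (nat_lit 127) (nat_lit 5) (nat_lit 317) (nat_lit 247) (nat_lit 216)))) (XT.nd (nat_lit 156) (nat_lit 684) (nat_lit 0) (XT.nd (nat_lit 78) (nat_lit 380) (nat_lit 0) (XT.lf (nat_lit 0) (nat_lit 1804333596) (nat_lit 380) (nat_lit 76644807) (nat_lit 76) (nat_lit 9177615539) (nat_lit 121) (nat_lit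 5) (nat_lit 126) (nat_lit 5) (nat_lit 122) (nat_lit 5) (nat_lit 318) (nat_lit 247) (nat_lit 215)) (XT.lf (nat_lit 0) (nat_lit 6816868071) (nat_lit 456) (nat_lit 1059781433) (nat_lit 76) (nat_lit 3377072160) (nat_lit 116) (nat_lit 5) (nat_lit 122) (nat_lit 5) (nat_lit 117) (nat_lit 5) (nat_lit 319) (nat_lit 247) (nat_lit 214))) (XT.nd (nat_lit 78) (nat_lit 304) (nat_lit 0) (XT.lf (nat_lit 0) (nat_lit 506377076) (nat_lit 380) (nat_lit 2160803604) (nat_lit 76) (nat_lit 8787724066) (nat_lit 111) (nat_lit 5) (nat_lit 116) (nat_lit 5) (nat_lit 112) (nat_lit 5) (nat_lit 320) (nat_lit 247) (nat_lit 213)) (XT.lf (nat_lit 0) (nat_lit 5532540539) (nat_lit 380) (nat_lit 3419996204) (nat_lit 76) (nat_lit 2709134218) (nat_lit 107) (nat_lit 5) (nat_lit 112) (nat_lit 5) (nat_lit 108) (nat_lit 5) (nat_lit 321) (nat_lit 247) (nat_lit 212))))) (XT.nd (nat_lit 234) (nat_lit 988) (nat_lit 0) (XT.nd (nat_lit 78) (nat_lit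 608) (nat_lit 0) (XT.lf (nat_lit 0) (nat_lit 7056913384) (nat_lit 304) (nat_lit 3648186725) (nat_lit 380) (nat_lit 1169659380) (nat_lit 103) (nat_lit 5) (nat_lit 107) (nat_lit 5) (nat_lit 108) (nat_lit 5) (nat_lit 322) (nat_lit 247) (nat_lit 211)) (XT.nd (nat_lit 78) (nat_lit 228) (nat_lit 0) (XT.lf (nat_lit 0) (nat_lit 3877711799) (nat_lit 380) (nat_lit 6383933789) (nat_lit 76) (nat_lit 1832298251) (nat_lit 98) (nat_lit 5) (nat_lit 103) (nat_lit 5) (nat_lit 99) (nat_lit 5) (nat_lit 323) (nat_lit 247) (nat_lit 210)) (XT.lf (nat_lit 0) (nat_lit 4195751374) (nat_lit 228) (nat_lit 4868954391) (nat_lit 304) (nat_lit 3254790629) (nat_lit 95) (nat_lit 5) (nat_lit 98) (nat_lit 5) (nat_lit 99) (nat_lit 5) (nat_lit 324) (nat_lit 247) (nat_lit 209)))) (XT.nd (nat_lit 156) (nat_lit 380) (nat_lit 0) (XT.nd (nat_lit 78) (nat_lit 228) (nat_lit 0) (XT.lf (nat_lit 0) (nat_lit 1816192167) (nat_lit 380) (nat_lit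 10033049293) (nat_lit 76) (nat_lit 702660213) (nat_lit 90) (nat_lit 5) (nat_lit 95) (nat_lit 5) (nat_lit 91) (nat_lit 5) (nat_lit 325) (nat_lit 247) (nat_lit 208)) (XT.lf (nat_lit 0) (nat_lit 629623398) (nat_lit 228) (nat_lit 6379462669) (nat_lit 304) (nat_lit 5781509674) (nat_lit 87) (nat_lit 5) (nat_lit 90) (nat_lit 5) (nat_lit 91) (nat_lit 5) (nat_lit 326) (nat_lit 247) (nat_lit 207))) (XT.nd (nat_lit 78) (nat_lit 380) (nat_lit 0) (XT.lf (nat_lit 0) (nat_lit 11625858165) (nat_lit 228) (nat_lit 723060846) (nat_lit 304) (nat_lit 687734737) (nat_lit 87) (nat_lit 5) (nat_lit 90) (nat_lit 5) (nat_lit 91) (nat_lit 5) (nat_lit 327) (nat_lit 247) (nat_lit 206)) (XT.lf (nat_lit 0) (nat_lit 4519965283) (nat_lit 380) (nat_lit 3685608865) (nat_lit 76) (nat_lit 5083534224) (nat_lit 82) (nat_lit 5) (nat_lit 87) (nat_lit 5) (nat_lit 83) (nat_lit 5) (nat_lit 328) (nat_lit 247) (nat_lit 205)))))) (XT.nd (nat_lit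 546) (nat_lit 1140) (nat_lit 0) (XT.nd (nat_lit 234) (nat_lit 760) (nat_lit 0) (XT.nd (nat_lit 78) (nat_lit 532) (nat_lit 0) (XT.lf (nat_lit 0) (nat_lit 7385642494) (nat_lit 228) (nat_lit 2477378310) (nat_lit 304) (nat_lit 3686279726) (nat_lit 79) (nat_lit 5) (nat_lit 82) (nat_lit 5) (nat_lit 83) (nat_lit 5) (nat_lit 329) (nat_lit 247) (nat_lit 204)) (XT.nd (nat_lit 78) (nat_lit 228) (nat_lit 0) (XT.lf (nat_lit 0) (nat_lit 1535339546) (nat_lit 304) (nat_lit 8881674327) (nat_lit 76) (nat_lit 3399974713) (nat_lit 75) (nat_lit 5) (nat_lit 79) (nat_lit 5) (nat_lit 76) (nat_lit 5) (nat_lit 330) (nat_lit 247) (nat_lit 203)) (XT.lf (nat_lit 0) (nat_lit 2228909876) (nat_lit 228) (nat_lit 4635940285) (nat_lit 304) (nat_lit 7227365638) (nat_lit 72) (nat_lit 5) (nat_lit 75) (nat_lit 5) (nat_lit 76) (nat_lit 5) (nat_lit 331) (nat_lit 247) (nat_lit 202)))) (XT.nd (nat_lit 156) (nat_lit 456) (nat_lit 0) (XT.nd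 (nat_lit 78) (nat_lit 304) (nat_lit 0) (XT.lf (nat_lit 0) (nat_lit 12352390262) (nat_lit 304) (nat_lit 706863760) (nat_lit 76) (nat_lit 1316504615) (nat_lit 72) (nat_lit 5) (nat_lit 76) (nat_lit 5) (nat_lit 73) (nat_lit 5) (nat_lit 332) (nat_lit 247) (nat_lit 201)) (XT.lf (nat_lit 0) (nat_lit 3325241224) (nat_lit 304) (nat_lit 3908772138) (nat_lit 76) (nat_lit 7432736665) (nat_lit 68) (nat_lit 5) (nat_lit 72) (nat_lit 5) (nat_lit 69) (nat_lit 5) (nat_lit 333) (nat_lit 247) (nat_lit 200))) (XT.nd (nat_lit 78) (nat_lit 228) (nat_lit 0) (XT.lf (nat_lit 0) (nat_lit 7582515752) (nat_lit 228) (nat_lit 1210389367) (nat_lit 304) (nat_lit 6173596882) (nat_lit 65) (nat_lit 5) (nat_lit 68) (nat_lit 5) (nat_lit 69) (nat_lit 5) (nat_lit 334) (nat_lit 247) (nat_lit 199)) (XT.lf (nat_lit 0) (nat_lit 4105921335) (nat_lit 228) (nat_lit 10337268258) (nat_lit 304) (nat_lit 831704588) (nat_lit 62) (nat_lit 5) (nat_lit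 65) (nat_lit 5) (nat_lit 66) (nat_lit 5) (nat_lit 335) (nat_lit 247) (nat_lit 198))))) (XT.nd (nat_lit 234) (nat_lit 684) (nat_lit 0) (XT.nd (nat_lit 78) (nat_lit 228) (nat_lit 0) (XT.lf (nat_lit 0) (nat_lit 303562422) (nat_lit 152) (nat_lit 4299688250) (nat_lit 228) (nat_lit 10988818306) (nat_lit 59) (nat_lit 5) (nat_lit 61) (nat_lit 5) (nat_lit 62) (nat_lit 5) (nat_lit 336) (nat_lit 247) (nat_lit 197)) (XT.nd (nat_lit 78) (nat_lit 228) (nat_lit 0) (XT.lf (nat_lit 0) (nat_lit 10213220527) (nat_lit 228) (nat_lit 3773560729) (nat_lit 76) (nat_lit 1931420485) (nat_lit 59) (nat_lit 5) (nat_lit 62) (nat_lit 5) (nat_lit 60) (nat_lit 5) (nat_lit 337) (nat_lit 247) (nat_lit 196)) (XT.lf (nat_lit 0) (nat_lit 8056018137) (nat_lit 228) (nat_lit 7952992288) (nat_lit 304) (nat_lit 244775101) (nat_lit 56) (nat_lit 5) (nat_lit 59) (nat_lit 5) (nat_lit 60) (nat_lit 5) (nat_lit 338) (nat_lit 247) (nat_lit 195))))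 (XT.nd (nat_lit 156) (nat_lit 456) (nat_lit 0) (XT.nd (nat_lit 78) (nat_lit 0) (nat_lit 0) (XT.lf (nat_lit 0) (nat_lit 3598490769) (nat_lit 152) (nat_lit 1696495530) (nat_lit 228) (nat_lit 11304042658) (nat_lit 53) (nat_lit 5) (nat_lit 55) (nat_lit 5) (nat_lit 56) (nat_lit 5) (nat_lit 339) (nat_lit 247) (nat_lit 194)) (XT.lf (nat_lit 0) (nat_lit 11022437501) (nat_lit 228) (nat_lit 1231555163) (nat_lit 76) (nat_lit 4700124353) (nat_lit 53) (nat_lit 5) (nat_lit 56) (nat_lit 5) (nat_lit 54) (nat_lit 5) (nat_lit 340) (nat_lit 247) (nat_lit 193))) (XT.nd (nat_lit 78) (nat_lit 228) (nat_lit 0) (XT.lf (nat_lit 0) (nat_lit 10919395470) (nat_lit 228) (nat_lit 6024421825) (nat_lit 304) (nat_lit 375613988) (nat_lit 50) (nat_lit 5) (nat_lit 53) (nat_lit 5) (nat_lit 54) (nat_lit 5) (nat_lit 341) (nat_lit 247) (nat_lit 192)) (XT.lf (nat_lit 0) (nat_lit 5265725306) (nat_lit 228) (nat_lit 12004107168) (nat_lit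 76) (nat_lit 425418661) (nat_lit 47) (nat_lit 5) (nat_lit 50) (nat_lit 5) (nat_lit 48) (nat_lit 5) (nat_lit 342) (nat_lit 247) (nat_lit 191))))))))
noncomputable def xc30 : XT := (XT.nd (nat_lit 36426) (nat_lit 0) (nat_lit 8512) (XT.nd (nat_lit 1014) (nat_lit 608) (nat_lit 0) (XT.nd (nat_lit 468) (nat_lit 684) (nat_lit 0) (XT.nd (nat_lit 234) (nat_lit 380) (nat_lit 0) (XT.nd (nat_lit 78) (nat_lit 228) (nat_lit 0) (XT.lf (nat_lit 0) (nat_lit 6835046) (nat_lit 228) (nat_lit 11089741819) (nat_lit 304) (nat_lit 6985226033) (nat_lit 44) (nat_lit 5) (nat_lit 47) (nat_lit 5) (nat_lit 48) (nat_lit 5) (nat_lit 343) (nat_lit 247) (nat_lit 190)) (XT.nd (nat_lit 78) (nat_lit 228) (nat_lit 0) (XT.lf (nat_lit 0) (nat_lit 12442710833) (nat_lit 228) (nat_lit 4683405296) (nat_lit 304) (nat_lit 1353373897) (nat_lit 44) (nat_lit 5) (nat_lit 47) (nat_lit 5) (nat_lit 48) (nat_lit 5) (nat_lit 344) (nat_lit 247) (nat_lit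 189)) (XT.lf (nat_lit 0) (nat_lit 4386473107) (nat_lit 228) (nat_lit 12582490003) (nat_lit 76) (nat_lit 1919633157) (nat_lit 41) (nat_lit 5) (nat_lit 44) (nat_lit 5) (nat_lit 42) (nat_lit 5) (nat_lit 345) (nat_lit 247) (nat_lit 188)))) (XT.nd (nat_lit 78) (nat_lit 380) (nat_lit 0) (XT.lf (nat_lit 0) (nat_lit 10297195243) (nat_lit 228) (nat_lit 344725694) (nat_lit 76) (nat_lit 8667547495) (nat_lit 41) (nat_lit 5) (nat_lit 44) (nat_lit 5) (nat_lit 42) (nat_lit 5) (nat_lit 346) (nat_lit 247) (nat_lit 187)) (XT.nd (nat_lit 78) (nat_lit 228) (nat_lit 0) (XT.lf (nat_lit 0) (nat_lit 12327836553) (nat_lit 152) (nat_lit 4083524454) (nat_lit 228) (nat_lit 3331095925) (nat_lit 39) (nat_lit 5) (nat_lit 41) (nat_lit 5) (nat_lit 42) (nat_lit 5) (nat_lit 347) (nat_lit 247) (nat_lit 186)) (XT.lf (nat_lit 0) (nat_lit 2487401394) (nat_lit 228) (nat_lit 15050980711) (nat_lit 76) (nat_lit 2649738851) (nat_lit 36)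 (nat_lit 5) (nat_lit 39) (nat_lit 5) (nat_lit 37) (nat_lit 5) (nat_lit 348) (nat_lit 247) (nat_lit 185))))) (XT.nd (nat_lit 234) (nat_lit 380) (nat_lit 0) (XT.nd (nat_lit 78) (nat_lit 304) (nat_lit 0) (XT.lf (nat_lit 0) (nat_lit 8460730549) (nat_lit 228) (nat_lit 2621624410) (nat_lit 76) (nat_lit 9563860556) (nat_lit 36) (nat_lit 5) (nat_lit 39) (nat_lit 5) (nat_lit 37) (nat_lit 5) (nat_lit 349) (nat_lit 247) (nat_lit 184)) (XT.nd (nat_lit 78) (nat_lit 152) (nat_lit 0) (XT.lf (nat_lit 0) (nat_lit 10224905338) (nat_lit 152) (nat_lit 4403664009) (nat_lit 228) (nat_lit 6489188680) (nat_lit 34) (nat_lit 5) (nat_lit 36) (nat_lit 5) (nat_lit 37) (nat_lit 5) (nat_lit 350) (nat_lit 247) (nat_lit 183)) (XT.lf (nat_lit 0) (nat_lit 1808029826) (nat_lit 152) (nat_lit 19168695876) (nat_lit 228) (nat_lit 626826450) (nat_lit 32) (nat_lit 5) (nat_lit 34) (nat_lit 5) (nat_lit 35) (nat_lit 4) (nat_lit 351) (nat_lit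 247) (nat_lit 182)))) (XT.nd (nat_lit 156) (nat_lit 152) (nat_lit 0) (XT.nd (nat_lit 78) (nat_lit 152) (nat_lit 0) (XT.lf (nat_lit 0) (nat_lit 5394336206) (nat_lit 228) (nat_lit 7216819531) (nat_lit 76) (nat_lit 9490994105) (nat_lit 31) (nat_lit 5) (nat_lit 34) (nat_lit 5) (nat_lit 32) (nat_lit 5) (nat_lit 352) (nat_lit 247) (nat_lit 181)) (XT.lf (nat_lit 0) (nat_lit 5724356524) (nat_lit 152) (nat_lit 5852077559) (nat_lit 228) (nat_lit 11039422336) (nat_lit 29) (nat_lit 5) (nat_lit 31) (nat_lit 5) (nat_lit 32) (nat_lit 5) (nat_lit 353) (nat_lit 247) (nat_lit 180))) (XT.nd (nat_lit 78) (nat_lit 152) (nat_lit 0) (XT.lf (nat_lit 0) (nat_lit 17952651777) (nat_lit 228) (nat_lit 4084074290) (nat_lit 76) (nat_lit 1108084842) (nat_lit 29) (nat_lit 5) (nat_lit 32) (nat_lit 5) (nat_lit 30) (nat_lit 4) (nat_lit 354) (nat_lit 247) (nat_lit 179)) (XT.lf (nat_lit 0) (nat_lit 871831935) (nat_lit 152) (nat_lit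 14589109622) (nat_lit 76) (nat_lit 8227549963) (nat_lit 27) (nat_lit 5) (nat_lit 29) (nat_lit 5) (nat_lit 28) (nat_lit 5) (nat_lit 355) (nat_lit 247) (nat_lit 178)))))) (XT.nd (nat_lit 546) (nat_lit 76) (nat_lit 0) (XT.nd (nat_lit 234) (nat_lit 304) (nat_lit 0) (XT.nd (nat_lit 78) (nat_lit 228) (nat_lit 0) (XT.lf (nat_lit 0) (nat_lit 7029590084) (nat_lit 152) (nat_lit 1630490685) (nat_lit 76) (nat_lit 15588076716) (nat_lit 27) (nat_lit 5) (nat_lit 29) (nat_lit 5) (nat_lit 28) (nat_lit 5) (nat_lit 356) (nat_lit 247) (nat_lit 177)) (XT.nd (nat_lit 78) (nat_lit 76) (nat_lit 0) (XT.lf (nat_lit 0) (nat_lit 11792025515) (nat_lit 152) (nat_lit 1612081265) (nat_lit 228) (nat_lit 11419874974) (nat_lit 25) (nat_lit 5) (nat_lit 27) (nat_lit 5) (nat_lit 28) (nat_lit 5) (nat_lit 357) (nat_lit 247) (nat_lit 176)) (XT.lf (nat_lit 0) (nat_lit 108473479) (nat_lit 76) (nat_lit 19865907623) (nat_lit 152) (nat_lit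 5442617790) (nat_lit 24) (nat_lit 5) (nat_lit 25) (nat_lit 5) (nat_lit 26) (nat_lit 4) (nat_lit 358) (nat_lit 247) (nat_lit 175)))) (XT.nd (nat_lit 156) (nat_lit 76) (nat_lit 0) (XT.nd (nat_lit 78) (nat_lit 152) (nat_lit 0) (XT.lf (nat_lit 0) (nat_lit 760779718) (nat_lit 152) (nat_lit 12298733541) (nat_lit 76) (nat_lit 12967085020) (nat_lit 23) (nat_lit 5) (nat_lit 25) (nat_lit 5) (nat_lit 24) (nat_lit 5) (nat_lit 359) (nat_lit 247) (nat_lit 174)) (XT.lf (nat_lit 0) (nat_lit 1002184425) (nat_lit 152) (nat_lit 6038857979) (nat_lit 228) (nat_lit 19613437521) (nat_lit 21) (nat_lit 5) (nat_lit 23) (nat_lit 5) (nat_lit 24) (nat_lit 5) (nat_lit 360) (nat_lit 247) (nat_lit 173))) (XT.nd (nat_lit 78) (nat_lit 76) (nat_lit 0) (XT.lf (nat_lit 0) (nat_lit 13559654960) (nat_lit 228) (nat_lit 12512652471) (nat_lit 76) (nat_lit 1227899450) (nat_lit 21) (nat_lit 5) (nat_lit 24) (nat_lit 5) (nat_lit 22) (nat_lit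 4) (nat_lit 361) (nat_lit 247) (nat_lit 172)) (XT.lf (nat_lit 0) (nat_lit 919746997) (nat_lit 76) (nat_lit 19359957355) (nat_lit 152) (nat_lit 7685491202) (nat_lit 20) (nat_lit 5) (nat_lit 21) (nat_lit 5) (nat_lit 22) (nat_lit 4) (nat_lit 362) (nat_lit 247) (nat_lit 171))))) (XT.nd (nat_lit 34554) (nat_lit 0) (nat_lit 26068) (XT.nd (nat_lit 78) (nat_lit 76) (nat_lit 0) (XT.lf (nat_lit 0) (nat_lit 14854468775) (nat_lit 76) (nat_lit 12391910448) (nat_lit 152) (nat_lit 1402861445) (nat_lit 20) (nat_lit 5) (nat_lit 21) (nat_lit 5) (nat_lit 22) (nat_lit 4) (nat_lit 363) (nat_lit 247) (nat_lit 170)) (XT.nd (nat_lit 34398) (nat_lit 0) (nat_lit 31844) (XT.lf (nat_lit 0) (nat_lit 4962906131) (nat_lit 152) (nat_lit 249834766) (nat_lit 76) (nat_lit 24141192422) (nat_lit 19) (nat_lit 5) (nat_lit 21) (nat_lit 5) (nat_lit 20) (nat_lit 5) (nat_lit 364) (nat_lit 247) (nat_lit 169)) (XT.lf (nat_lit 0) (nat_lit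 1474212652) (nat_lit 1596) (nat_lit 598298769) (nat_lit 0) (nat_lit 1474212652) (nat_lit 438) (nat_lit 5) (nat_lit 459) (nat_lit 4) (nat_lit 438) (nat_lit 4) (nat_lit 284) (nat_lit 248) (nat_lit 248)))) (XT.nd (nat_lit 156) (nat_lit 2432) (nat_lit 0) (XT.nd (nat_lit 78) (nat_lit 1672) (nat_lit 0) (XT.lf (nat_lit 0) (nat_lit 706923683) (nat_lit 1672) (nat_lit 1103815254) (nat_lit 76) (nat_lit 5339834634) (nat_lit 416) (nat_lit 5) (nat_lit 438) (nat_lit 5) (nat_lit 417) (nat_lit 4) (nat_lit 285) (nat_lit 248) (nat_lit 247)) (XT.lf (nat_lit 0) (nat_lit 5556430912) (nat_lit 1748) (nat_lit 989985973) (nat_lit 0) (nat_lit 664410902) (nat_lit 394) (nat_lit 5) (nat_lit 417) (nat_lit 4) (nat_lit 394) (nat_lit 4) (nat_lit 286) (nat_lit 248) (nat_lit 246))) (XT.nd (nat_lit 78) (nat_lit 912) (nat_lit 0) (XT.lf (nat_lit 0) (nat_lit 3154663222) (nat_lit 1520) (nat_lit 859272215) (nat_lit 76) (nat_lit 3260269016)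 (nat_lit 374) (nat_lit 5) (nat_lit 394) (nat_lit 5) (nat_lit 375) (nat_lit 4) (nat_lit 287) (nat_lit 248) (nat_lit 245)) (XT.lf (nat_lit 0) (nat_lit 646334680) (nat_lit 912) (nat_lit 696528400) (nat_lit 76) (nat_lit 5998223560) (nat_lit 362) (nat_lit 5) (nat_lit 374) (nat_lit 5) (nat_lit 363) (nat_lit 5) (nat_lit 288) (nat_lit 248) (nat_lit 244))))))) (XT.nd (nat_lit 1092) (nat_lit 6384) (nat_lit 0) (XT.nd (nat_lit 546) (nat_lit 4636) (nat_lit 0) (XT.nd (nat_lit 234) (nat_lit 3876) (nat_lit 0) (XT.nd (nat_lit 78) (nat_lit 1748) (nat_lit 0) (XT.lf (nat_lit 0) (nat_lit 5422448490) (nat_lit 988) (nat_lit 525657220) (nat_lit 76) (nat_lit 1462974148) (nat_lit 350) (nat_lit 5) (nat_lit 363) (nat_lit 5) (nat_lit 351) (nat_lit 4) (nat_lit 289) (nat_lit 248) (nat_lit 243)) (XT.nd (nat_lit 78) (nat_lit 836) (nat_lit 0) (XT.lf (nat_lit 0) (nat_lit 2746519795) (nat_lit 912) (nat_lit 340061213) (nat_lit 76)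 (nat_lit 4397822167) (nat_lit 338) (nat_lit 5) (nat_lit 350) (nat_lit 5) (nat_lit 339) (nat_lit 5) (nat_lit 290) (nat_lit 248) (nat_lit 242)) (XT.lf (nat_lit 0) (nat_lit 7432962981) (nat_lit 836) (nat_lit 83465642) (nat_lit 912) (nat_lit 44945392) (nat_lit 327) (nat_lit 5) (nat_lit 338) (nat_lit 5) (nat_lit 339) (nat_lit 5) (nat_lit 291) (nat_lit 248) (nat_lit 241)))) (XT.nd (nat_lit 156) (nat_lit 1520) (nat_lit 0) (XT.nd (nat_lit 78) (nat_lit 760) (nat_lit 0) (XT.lf (nat_lit 0) (nat_lit 70236269) (nat_lit 760) (nat_lit 4598428749) (nat_lit 836) (nat_lit 2972613393) (nat_lit 306) (nat_lit 5) (nat_lit 316) (nat_lit 5) (nat_lit 317) (nat_lit 5) (nat_lit 292) (nat_lit 248) (nat_lit 240)) (XT.lf (nat_lit 0) (nat_lit 292074445) (nat_lit 684) (nat_lit 1410247032) (nat_lit 760) (nat_lit 6022585642) (nat_lit 296) (nat_lit 5) (nat_lit 305) (nat_lit 5) (nat_lit 306) (nat_lit 5) (nat_lit 293) (nat_lit 248)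 (nat_lit 239))) (XT.nd (nat_lit 78) (nat_lit 760) (nat_lit 0) (XT.lf (nat_lit 0) (nat_lit 512448450) (nat_lit 760) (nat_lit 5905374426) (nat_lit 836) (nat_lit 1394107216) (nat_lit 286) (nat_lit 5) (nat_lit 296) (nat_lit 5) (nat_lit 297) (nat_lit 5) (nat_lit 294) (nat_lit 248) (nat_lit 238)) (XT.lf (nat_lit 0) (nat_lit 729214410) (nat_lit 684) (nat_lit 2539819830) (nat_lit 760) (nat_lit 4633378531) (nat_lit 276) (nat_lit 5) (nat_lit 285) (nat_lit 5) (nat_lit 286) (nat_lit 5) (nat_lit 295) (nat_lit 248) (nat_lit 237))))) (XT.nd (nat_lit 234) (nat_lit 2508) (nat_lit 0) (XT.nd (nat_lit 78) (nat_lit 1444) (nat_lit 0) (XT.lf (nat_lit 0) (nat_lit 954946735) (nat_lit 684) (nat_lit 7038045410) (nat_lit 760) (nat_lit 3721693) (nat_lit 267) (nat_lit 5) (nat_lit 276) (nat_lit 5) (nat_lit 277) (nat_lit 5) (nat_lit 296) (nat_lit 248) (nat_lit 236)) (XT.nd (nat_lit 78) (nat_lit 760) (nat_lit 0) (XT.lf (nat_lit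 0) (nat_lit 1153850257) (nat_lit 608) (nat_lit 3501390169) (nat_lit 684) (nat_lit 3439007983) (nat_lit 258) (nat_lit 5) (nat_lit 266) (nat_lit 5) (nat_lit 267) (nat_lit 5) (nat_lit 297) (nat_lit 248) (nat_lit 235)) (XT.lf (nat_lit 0) (nat_lit 1181983608) (nat_lit 760) (nat_lit 6834305619) (nat_lit 76) (nat_lit 179547491) (nat_lit 248) (nat_lit 5) (nat_lit 258) (nat_lit 5) (nat_lit 249) (nat_lit 5) (nat_lit 298) (nat_lit 248) (nat_lit 234)))) (XT.nd (nat_lit 156) (nat_lit 1216) (nat_lit 0) (XT.nd (nat_lit 78) (nat_lit 684) (nat_lit 0) (XT.lf (nat_lit 0) (nat_lit 1536943932) (nat_lit 608) (nat_lit 4322531519) (nat_lit 684) (nat_lit 2441325896) (nat_lit 240) (nat_lit 5) (nat_lit 248) (nat_lit 5) (nat_lit 249) (nat_lit 5) (nat_lit 299) (nat_lit 248) (nat_lit 233)) (XT.lf (nat_lit 0) (nat_lit 1708535966) (nat_lit 608) (nat_lit 473034007) (nat_lit 684) (nat_lit 6228263078) (nat_lit 231) (nat_lit 5) (nat_lit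 239) (nat_lit 5) (nat_lit 240) (nat_lit 5) (nat_lit 300) (nat_lit 248) (nat_lit 232))) (XT.nd (nat_lit 78) (nat_lit 684) (nat_lit 0) (XT.lf (nat_lit 0) (nat_lit 1847875794) (nat_lit 532) (nat_lit 5030573233) (nat_lit 608) (nat_lit 1644064115) (nat_lit 224) (nat_lit 5) (nat_lit 231) (nat_lit 5) (nat_lit 232) (nat_lit 5) (nat_lit 301) (nat_lit 248) (nat_lit 231)) (XT.lf (nat_lit 0) (nat_lit 1967203944) (nat_lit 608) (nat_lit 1020772172) (nat_lit 684) (nat_lit 5651250407) (nat_lit 215) (nat_lit 5) (nat_lit 223) (nat_lit 5) (nat_lit 224) (nat_lit 5) (nat_lit 302) (nat_lit 248) (nat_lit 230)))))) (XT.nd (nat_lit 546) (nat_lit 2736) (nat_lit 0) (XT.nd (nat_lit 234) (nat_lit 2052) (nat_lit 0) (XT.nd (nat_lit 78) (nat_lit 1064) (nat_lit 0) (XT.lf (nat_lit 0) (nat_lit 2054133780) (nat_lit 532) (nat_lit 5652835092) (nat_lit 608) (nat_lit 1052912732) (nat_lit 208) (nat_lit 5) (nat_lit 215) (nat_lit 5) (nat_lit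 216) (nat_lit 5) (nat_lit 303) (nat_lit 248) (nat_lit 229)) (XT.nd (nat_lit 78) (nat_lit 456) (nat_lit 0) (XT.lf (nat_lit 0) (nat_lit 2105089729) (nat_lit 532) (nat_lit 1488622345) (nat_lit 608) (nat_lit 5290854165) (nat_lit 200) (nat_lit 5) (nat_lit 207) (nat_lit 5) (nat_lit 208) (nat_lit 5) (nat_lit 304) (nat_lit 248) (nat_lit 228)) (XT.lf (nat_lit 0) (nat_lit 2120980179) (nat_lit 456) (nat_lit 6216867191) (nat_lit 532) (nat_lit 675615838) (nat_lit 194) (nat_lit 5) (nat_lit 200) (nat_lit 5) (nat_lit 201) (nat_lit 5) (nat_lit 305) (nat_lit 248) (nat_lit 227)))) (XT.nd (nat_lit 156) (nat_lit 988) (nat_lit 0) (XT.nd (nat_lit 78) (nat_lit 456) (nat_lit 0) (XT.lf (nat_lit 0) (nat_lit 2086147418) (nat_lit 532) (nat_lit 1904257799) (nat_lit 608) (nat_lit 5156032575) (nat_lit 186) (nat_lit 5) (nat_lit 193) (nat_lit 5) (nat_lit 194) (nat_lit 5) (nat_lit 306) (nat_lit 248) (nat_lit 226)) (XT.lf (nat_lit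 0) (nat_lit 2011092868) (nat_lit 456) (nat_lit 6750697191) (nat_lit 532) (nat_lit 522085820) (nat_lit 180) (nat_lit 5) (nat_lit 186) (nat_lit 5) (nat_lit 187) (nat_lit 5) (nat_lit 307) (nat_lit 248) (nat_lit 225))) (XT.nd (nat_lit 78) (nat_lit 456) (nat_lit 0) (XT.lf (nat_lit 0) (nat_lit 1871562163) (nat_lit 456) (nat_lit 2295935944) (nat_lit 532) (nat_lit 5257991795) (nat_lit 173) (nat_lit 5) (nat_lit 179) (nat_lit 5) (nat_lit 180) (nat_lit 5) (nat_lit 308) (nat_lit 248) (nat_lit 224)) (XT.lf (nat_lit 0) (nat_lit 1684177627) (nat_lit 456) (nat_lit 7283087087) (nat_lit 532) (nat_lit 604537507) (nat_lit 167) (nat_lit 5) (nat_lit 173) (nat_lit 5) (nat_lit 174) (nat_lit 5) (nat_lit 309) (nat_lit 248) (nat_lit 223))))) (XT.nd (nat_lit 234) (nat_lit 1292) (nat_lit 0) (XT.nd (nat_lit 78) (nat_lit 912) (nat_lit 0) (XT.lf (nat_lit 0) (nat_lit 1419346264) (nat_lit 456) (nat_lit 2692761134) (nat_lit 532)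 (nat_lit 5610330438) (nat_lit 160) (nat_lit 5) (nat_lit 166) (nat_lit 5) (nat_lit 167) (nat_lit 5) (nat_lit 310) (nat_lit 248) (nat_lit 222)) (XT.nd (nat_lit 78) (nat_lit 532) (nat_lit 0) (XT.lf (nat_lit 0) (nat_lit 1096547846) (nat_lit 380) (nat_lit 7843801712) (nat_lit 456) (nat_lit 937643635) (nat_lit 155) (nat_lit 5) (nat_lit 160) (nat_lit 5) (nat_lit 161) (nat_lit 5) (nat_lit 311) (nat_lit 248) (nat_lit 221)) (XT.lf (nat_lit 0) (nat_lit 683900726) (nat_lit 456) (nat_lit 3124960333) (nat_lit 532) (nat_lit 6229206271) (nat_lit 148) (nat_lit 5) (nat_lit 154) (nat_lit 5) (nat_lit 155) (nat_lit 5) (nat_lit 312) (nat_lit 248) (nat_lit 220)))) (XT.nd (nat_lit 156) (nat_lit 836) (nat_lit 0) (XT.nd (nat_lit 78) (nat_lit 76) (nat_lit 0) (XT.lf (nat_lit 0) (nat_lit 200667586) (nat_lit 380) (nat_lit 8463891378) (nat_lit 456) (nat_lit 1538713297) (nat_lit 143) (nat_lit 5) (nat_lit 148) (nat_lit 5) (nat_lit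 149) (nat_lit 5) (nat_lit 313) (nat_lit 248) (nat_lit 219)) (XT.lf (nat_lit 0) (nat_lit 3242208313) (nat_lit 456) (nat_lit 379419666) (nat_lit 76) (nat_lit 6751561090) (nat_lit 142) (nat_lit 5) (nat_lit 148) (nat_lit 5) (nat_lit 143) (nat_lit 5) (nat_lit 314) (nat_lit 248) (nat_lit 218))) (XT.nd (nat_lit 78) (nat_lit 456) (nat_lit 0) (XT.lf (nat_lit 0) (nat_lit 8127496838) (nat_lit 456) (nat_lit 1041505317) (nat_lit 76) (nat_lit 1379400901) (nat_lit 137) (nat_lit 5) (nat_lit 143) (nat_lit 5) (nat_lit 138) (nat_lit 5) (nat_lit 315) (nat_lit 248) (nat_lit 217)) (XT.lf (nat_lit 0) (nat_lit 2395673838) (nat_lit 456) (nat_lit 1815905910) (nat_lit 76) (nat_lit 6517074580) (nat_lit 131) (nat_lit 5) (nat_lit 137) (nat_lit 5) (nat_lit 132) (nat_lit 5) (nat_lit 316) (nat_lit 248) (nat_lit 216))))))))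
noncomputable def xc31 : XT := (XT.nd (nat_lit 2106) (nat_lit 2128) (nat_lit 0) (XT.nd (nat_lit 1014) (nat_lit 2432) (nat_lit 0) (XT.nd (nat_lit 468) (nat_lit 1824) (nat_lit 0) (XT.nd (nat_lit 234) (nat_lit 988) (nat_lit 0) (XT.nd (nat_lit 78) (nat_lit 760) (nat_lit 0) (XT.lf (nat_lit 0) (nat_lit 7304085231) (nat_lit 456) (nat_lit 2692486623) (nat_lit 76) (nat_lit 917853697) (nat_lit 126) (nat_lit 5) (nat_lit 132) (nat_lit 5) (nat_lit 127) (nat_lit 5) (nat_lit 317) (nat_lit 248) (nat_lit 215)) (XT.nd (nat_lit 78) (nat_lit 380) (nat_lit 0) (XT.lf (nat_lit 0) (nat_lit 1241144127) (nat_lit 380) (nat_lit 3693222046) (nat_lit 76) (nat_lit 6171203847) (nat_lit 121) (nat_lit 5) (nat_lit 126) (nat_lit 5) (nat_lit 122) (nat_lit 5) (nat_lit 318) (nat_lit 248) (nat_lit 214)) (XT.lf (nat_lit 0) (nat_lit 6167948500) (nat_lit 456) (nat_lit 4816351875) (nat_lit 76) (nat_lit 318128788) (nat_lit 116) (nat_lit 5)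 (nat_lit 122) (nat_lit 5) (nat_lit 117) (nat_lit 5) (nat_lit 319) (nat_lit 248) (nat_lit 213)))) (XT.nd (nat_lit 78) (nat_lit 684) (nat_lit 0) (XT.lf (nat_lit 0) (nat_lit 5427590674) (nat_lit 304) (nat_lit 5825709016) (nat_lit 380) (nat_lit 251712685) (nat_lit 112) (nat_lit 5) (nat_lit 116) (nat_lit 5) (nat_lit 117) (nat_lit 5) (nat_lit 320) (nat_lit 248) (nat_lit 212)) (XT.nd (nat_lit 78) (nat_lit 304) (nat_lit 0) (XT.lf (nat_lit 0) (nat_lit 4229898746) (nat_lit 304) (nat_lit 463638687) (nat_lit 380) (nat_lit 7019973679) (nat_lit 107) (nat_lit 5) (nat_lit 111) (nat_lit 5) (nat_lit 112) (nat_lit 5) (nat_lit 321) (nat_lit 248) (nat_lit 211)) (XT.lf (nat_lit 0) (nat_lit 2879749196) (nat_lit 304) (nat_lit 6916624675) (nat_lit 380) (nat_lit 2131635323) (nat_lit 103) (nat_lit 5) (nat_lit 107) (nat_lit 5) (nat_lit 108) (nat_lit 5) (nat_lit 322) (nat_lit 248) (nat_lit 210))))) (XT.nd (nat_lit 234) (nat_lit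 1140) (nat_lit 0) (XT.nd (nat_lit 78) (nat_lit 304) (nat_lit 0) (XT.lf (nat_lit 0) (nat_lit 1379880082) (nat_lit 304) (nat_lit 1469118757) (nat_lit 380) (nat_lit 9299921053) (nat_lit 98) (nat_lit 5) (nat_lit 102) (nat_lit 5) (nat_lit 103) (nat_lit 5) (nat_lit 323) (nat_lit 248) (nat_lit 209)) (XT.nd (nat_lit 78) (nat_lit 304) (nat_lit 0) (XT.lf (nat_lit 0) (nat_lit 7960712573) (nat_lit 380) (nat_lit 295793987) (nat_lit 76) (nat_lit 4119485439) (nat_lit 98) (nat_lit 5) (nat_lit 103) (nat_lit 5) (nat_lit 99) (nat_lit 5) (nat_lit 324) (nat_lit 248) (nat_lit 208)) (XT.lf (nat_lit 0) (nat_lit 609925485) (nat_lit 304) (nat_lit 2114472378) (nat_lit 76) (nat_lit 9885383337) (nat_lit 94) (nat_lit 5) (nat_lit 98) (nat_lit 5) (nat_lit 95) (nat_lit 5) (nat_lit 325) (nat_lit 248) (nat_lit 207)))) (XT.nd (nat_lit 156) (nat_lit 608) (nat_lit 0) (XT.nd (nat_lit 78) (nat_lit 228) (nat_lit 0) (XT.lf (nat_lit 0)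 (nat_lit 5729585514) (nat_lit 380) (nat_lit 4140549706) (nat_lit 76) (nat_lit 2979817614) (nat_lit 90) (nat_lit 5) (nat_lit 95) (nat_lit 5) (nat_lit 91) (nat_lit 5) (nat_lit 326) (nat_lit 248) (nat_lit 206)) (XT.lf (nat_lit 0) (nat_lit 6741521131) (nat_lit 228) (nat_lit 4263909589) (nat_lit 304) (nat_lit 2091872386) (nat_lit 87) (nat_lit 5) (nat_lit 90) (nat_lit 5) (nat_lit 91) (nat_lit 5) (nat_lit 327) (nat_lit 248) (nat_lit 205))) (XT.nd (nat_lit 78) (nat_lit 228) (nat_lit 0) (XT.lf (nat_lit 0) (nat_lit 3042053946) (nat_lit 380) (nat_lit 8784557356) (nat_lit 76) (nat_lit 1525184454) (nat_lit 82) (nat_lit 5) (nat_lit 87) (nat_lit 5) (nat_lit 83) (nat_lit 5) (nat_lit 328) (nat_lit 248) (nat_lit 204)) (XT.lf (nat_lit 0) (nat_lit 2160625807) (nat_lit 228) (nat_lit 6155169664) (nat_lit 304) (nat_lit 5297590285) (nat_lit 79) (nat_lit 5) (nat_lit 82) (nat_lit 5) (nat_lit 83) (nat_lit 5) (nat_lit 329)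 (nat_lit 248) (nat_lit 203)))))) (XT.nd (nat_lit 546) (nat_lit 1064) (nat_lit 0) (XT.nd (nat_lit 234) (nat_lit 836) (nat_lit 0) (XT.nd (nat_lit 78) (nat_lit 532) (nat_lit 0) (XT.lf (nat_lit 0) (nat_lit 13439495395) (nat_lit 228) (nat_lit 297286012) (nat_lit 304) (nat_lit 146284193) (nat_lit 79) (nat_lit 5) (nat_lit 82) (nat_lit 5) (nat_lit 83) (nat_lit 5) (nat_lit 330) (nat_lit 248) (nat_lit 202)) (XT.nd (nat_lit 78) (nat_lit 228) (nat_lit 0) (XT.lf (nat_lit 0) (nat_lit 5131350173) (nat_lit 304) (nat_lit 3305050416) (nat_lit 76) (nat_lit 5722997802) (nat_lit 75) (nat_lit 5) (nat_lit 79) (nat_lit 5) (nat_lit 76) (nat_lit 5) (nat_lit 331) (nat_lit 248) (nat_lit 201)) (XT.lf (nat_lit 0) (nat_lit 8044054377) (nat_lit 228) (nat_lit 2510616743) (nat_lit 304) (nat_lit 3889564864) (nat_lit 72) (nat_lit 5) (nat_lit 75) (nat_lit 5) (nat_lit 76) (nat_lit 5) (nat_lit 332) (nat_lit 248) (nat_lit 200)))) (XT.nd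 (nat_lit 156) (nat_lit 304) (nat_lit 0) (XT.nd (nat_lit 78) (nat_lit 228) (nat_lit 0) (XT.lf (nat_lit 0) (nat_lit 1395957221) (nat_lit 304) (nat_lit 9774190510) (nat_lit 76) (nat_lit 3567083110) (nat_lit 68) (nat_lit 5) (nat_lit 72) (nat_lit 5) (nat_lit 69) (nat_lit 5) (nat_lit 333) (nat_lit 248) (nat_lit 199)) (XT.lf (nat_lit 0) (nat_lit 1584177527) (nat_lit 228) (nat_lit 5207917490) (nat_lit 304) (nat_lit 8246327905) (nat_lit 65) (nat_lit 5) (nat_lit 68) (nat_lit 5) (nat_lit 69) (nat_lit 5) (nat_lit 334) (nat_lit 248) (nat_lit 198))) (XT.nd (nat_lit 78) (nat_lit 304) (nat_lit 0) (XT.lf (nat_lit 0) (nat_lit 12357649165) (nat_lit 304) (nat_lit 2046113506) (nat_lit 76) (nat_lit 944756344) (nat_lit 65) (nat_lit 5) (nat_lit 69) (nat_lit 5) (nat_lit 66) (nat_lit 5) (nat_lit 335) (nat_lit 248) (nat_lit 197)) (XT.lf (nat_lit 0) (nat_lit 2425138150) (nat_lit 304) (nat_lit 5992868620) (nat_lit 76) (nat_lit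 7248921578) (nat_lit 61) (nat_lit 5) (nat_lit 65) (nat_lit 5) (nat_lit 62) (nat_lit 5) (nat_lit 336) (nat_lit 248) (nat_lit 196))))) (XT.nd (nat_lit 234) (nat_lit 608) (nat_lit 0) (XT.nd (nat_lit 78) (nat_lit 304) (nat_lit 0) (XT.lf (nat_lit 0) (nat_lit 5728958724) (nat_lit 152) (nat_lit 2222855303) (nat_lit 228) (nat_lit 8042921564) (nat_lit 59) (nat_lit 5) (nat_lit 61) (nat_lit 5) (nat_lit 62) (nat_lit 5) (nat_lit 337) (nat_lit 248) (nat_lit 195)) (XT.nd (nat_lit 78) (nat_lit 76) (nat_lit 0) (XT.lf (nat_lit 0) (nat_lit 1439945963) (nat_lit 228) (nat_lit 12219881918) (nat_lit 304) (nat_lit 2672255367) (nat_lit 56) (nat_lit 5) (nat_lit 59) (nat_lit 5) (nat_lit 60) (nat_lit 5) (nat_lit 338) (nat_lit 248) (nat_lit 194)) (XT.lf (nat_lit 0) (nat_lit 2845941684) (nat_lit 304) (nat_lit 3178401799) (nat_lit 76) (nat_lit 10654374385) (nat_lit 55) (nat_lit 5) (nat_lit 59) (nat_lit 5) (nat_lit 56) (nat_lit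 5) (nat_lit 339) (nat_lit 248) (nat_lit 193)))) (XT.nd (nat_lit 156) (nat_lit 228) (nat_lit 0) (XT.nd (nat_lit 78) (nat_lit 228) (nat_lit 0) (XT.lf (nat_lit 0) (nat_lit 8494620903) (nat_lit 228) (nat_lit 8153278814) (nat_lit 76) (nat_lit 387489366) (nat_lit 53) (nat_lit 5) (nat_lit 56) (nat_lit 5) (nat_lit 54) (nat_lit 5) (nat_lit 340) (nat_lit 248) (nat_lit 192)) (XT.lf (nat_lit 0) (nat_lit 3855786252) (nat_lit 228) (nat_lit 10485591931) (nat_lit 304) (nat_lit 3060825108) (nat_lit 50) (nat_lit 5) (nat_lit 53) (nat_lit 5) (nat_lit 54) (nat_lit 5) (nat_lit 341) (nat_lit 248) (nat_lit 191))) (XT.nd (nat_lit 78) (nat_lit 152) (nat_lit 0) (XT.lf (nat_lit 0) (nat_lit 2547531279) (nat_lit 304) (nat_lit 1558457217) (nat_lit 76) (nat_lit 13673754461) (nat_lit 49) (nat_lit 5) (nat_lit 53) (nat_lit 5) (nat_lit 50) (nat_lit 5) (nat_lit 342) (nat_lit 248) (nat_lit 190)) (XT.lf (nat_lit 0) (nat_lit 8313312403)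 (nat_lit 228) (nat_lit 7370010491) (nat_lit 76) (nat_lit 2484280158) (nat_lit 47) (nat_lit 5) (nat_lit 50) (nat_lit 5) (nat_lit 48) (nat_lit 5) (nat_lit 343) (nat_lit 248) (nat_lit 189))))))) (XT.nd (nat_lit 1092) (nat_lit 456) (nat_lit 0) (XT.nd (nat_lit 546) (nat_lit 684) (nat_lit 0) (XT.nd (nat_lit 234) (nat_lit 532) (nat_lit 0) (XT.nd (nat_lit 78) (nat_lit 228) (nat_lit 0) (XT.lf (nat_lit 0) (nat_lit 4920234705) (nat_lit 228) (nat_lit 9346590969) (nat_lit 304) (nat_lit 4299991747) (nat_lit 44) (nat_lit 5) (nat_lit 47) (nat_lit 5) (nat_lit 48) (nat_lit 5) (nat_lit 344) (nat_lit 248) (nat_lit 188)) (XT.nd (nat_lit 78) (nat_lit 152) (nat_lit 0) (XT.lf (nat_lit 0) (nat_lit 1397923975) (nat_lit 304) (nat_lit 1401221019) (nat_lit 76) (nat_lit 16178779229) (nat_lit 43) (nat_lit 5) (nat_lit 47) (nat_lit 5) (nat_lit 44) (nat_lit 5) (nat_lit 345) (nat_lit 248) (nat_lit 187)) (XT.lf (nat_lit 0) (nat_lit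 7254631744) (nat_lit 228) (nat_lit 8188265525) (nat_lit 76) (nat_lit 3956985617) (nat_lit 41) (nat_lit 5) (nat_lit 44) (nat_lit 5) (nat_lit 42) (nat_lit 5) (nat_lit 346) (nat_lit 248) (nat_lit 186)))) (XT.nd (nat_lit 156) (nat_lit 380) (nat_lit 0) (XT.nd (nat_lit 78) (nat_lit 0) (nat_lit 0) (XT.lf (nat_lit 0) (nat_lit 4334497903) (nat_lit 152) (nat_lit 8956614316) (nat_lit 228) (nat_lit 6543318904) (nat_lit 39) (nat_lit 5) (nat_lit 41) (nat_lit 5) (nat_lit 42) (nat_lit 5) (nat_lit 347) (nat_lit 248) (nat_lit 185)) (XT.lf (nat_lit 0) (nat_lit 17255228958) (nat_lit 152) (nat_lit 2257538014) (nat_lit 228) (nat_lit 769179122) (nat_lit 39) (nat_lit 5) (nat_lit 41) (nat_lit 5) (nat_lit 42) (nat_lit 5) (nat_lit 348) (nat_lit 248) (nat_lit 184))) (XT.nd (nat_lit 78) (nat_lit 152) (nat_lit 0) (XT.lf (nat_lit 0) (nat_lit 5154374904) (nat_lit 228) (nat_lit 10944386080) (nat_lit 76) (nat_lit 4642582383) (nat_lit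 36) (nat_lit 5) (nat_lit 39) (nat_lit 5) (nat_lit 37) (nat_lit 5) (nat_lit 349) (nat_lit 248) (nat_lit 183)) (XT.lf (nat_lit 0) (nat_lit 1748015553) (nat_lit 152) (nat_lit 9494732274) (nat_lit 228) (nat_lit 9971732781) (nat_lit 34) (nat_lit 5) (nat_lit 36) (nat_lit 5) (nat_lit 37) (nat_lit 5) (nat_lit 350) (nat_lit 248) (nat_lit 182))))) (XT.nd (nat_lit 234) (nat_lit 456) (nat_lit 0) (XT.nd (nat_lit 78) (nat_lit 228) (nat_lit 0) (XT.lf (nat_lit 0) (nat_lit 14885219396) (nat_lit 152) (nat_lit 2654013164) (nat_lit 228) (nat_lit 4162080857) (nat_lit 34) (nat_lit 5) (nat_lit 36) (nat_lit 5) (nat_lit 37) (nat_lit 5) (nat_lit 351) (nat_lit 248) (nat_lit 181)) (XT.nd (nat_lit 78) (nat_lit 0) (nat_lit 0) (XT.lf (nat_lit 0) (nat_lit 1819234406) (nat_lit 228) (nat_lit 16031954179) (nat_lit 76) (nat_lit 4350910846) (nat_lit 31) (nat_lit 5) (nat_lit 34) (nat_lit 5) (nat_lit 32) (nat_lit 5) (nat_lit 352) (nat_lit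 248) (nat_lit 180)) (XT.lf (nat_lit 0) (nat_lit 7941018798) (nat_lit 228) (nat_lit 3206875621) (nat_lit 76) (nat_lit 11569122713) (nat_lit 31) (nat_lit 5) (nat_lit 34) (nat_lit 5) (nat_lit 32) (nat_lit 5) (nat_lit 353) (nat_lit 248) (nat_lit 179)))) (XT.nd (nat_lit 156) (nat_lit 304) (nat_lit 0) (XT.nd (nat_lit 78) (nat_lit 0) (nat_lit 0) (XT.lf (nat_lit 0) (nat_lit 10053966610) (nat_lit 152) (nat_lit 4212146988) (nat_lit 228) (nat_lit 8980885195) (nat_lit 29) (nat_lit 5) (nat_lit 31) (nat_lit 5) (nat_lit 32) (nat_lit 5) (nat_lit 354) (nat_lit 248) (nat_lit 178)) (XT.lf (nat_lit 0) (nat_lit 20776837036) (nat_lit 228) (nat_lit 135309796) (nat_lit 76) (nat_lit 2880824845) (nat_lit 29) (nat_lit 5) (nat_lit 32) (nat_lit 5) (nat_lit 30) (nat_lit 4) (nat_lit 355) (nat_lit 248) (nat_lit 177))) (XT.nd (nat_lit 78) (nat_lit 152) (nat_lit 0) (XT.lf (nat_lit 0) (nat_lit 3158345721) (nat_lit 152) (nat_lit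 10991060261) (nat_lit 76) (nat_lit 10204084369) (nat_lit 27) (nat_lit 5) (nat_lit 29) (nat_lit 5) (nat_lit 28) (nat_lit 5) (nat_lit 356) (nat_lit 248) (nat_lit 176)) (XT.lf (nat_lit 0) (nat_lit 2268524024) (nat_lit 152) (nat_lit 7181205658) (nat_lit 228) (nat_lit 15481251820) (nat_lit 25) (nat_lit 5) (nat_lit 27) (nat_lit 5) (nat_lit 28) (nat_lit 5) (nat_lit 357) (nat_lit 248) (nat_lit 175)))))) (XT.nd (nat_lit 34710) (nat_lit 0) (nat_lit 26068) (XT.nd (nat_lit 234) (nat_lit 304) (nat_lit 0) (XT.nd (nat_lit 78) (nat_lit 152) (nat_lit 0) (XT.lf (nat_lit 0) (nat_lit 15962111840) (nat_lit 228) (nat_lit 9525019945) (nat_lit 76) (nat_lit 38028805) (nat_lit 25) (nat_lit 5) (nat_lit 28) (nat_lit 5) (nat_lit 26) (nat_lit 4) (nat_lit 358) (nat_lit 248) (nat_lit 174)) (XT.nd (nat_lit 78) (nat_lit 76) (nat_lit 0) (XT.lf (nat_lit 0) (nat_lit 3935778151) (nat_lit 76) (nat_lit 18766218537) (nat_lit 152) (nat_lit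 3434533827) (nat_lit 24) (nat_lit 5) (nat_lit 25) (nat_lit 5) (nat_lit 26) (nat_lit 4) (nat_lit 359) (nat_lit 248) (nat_lit 173)) (XT.lf (nat_lit 0) (nat_lit 2864073679) (nat_lit 152) (nat_lit 8926985949) (nat_lit 76) (nat_lit 14974336306) (nat_lit 23) (nat_lit 5) (nat_lit 25) (nat_lit 5) (nat_lit 24) (nat_lit 5) (nat_lit 360) (nat_lit 248) (nat_lit 172)))) (XT.nd (nat_lit 156) (nat_lit 152) (nat_lit 0) (XT.nd (nat_lit 78) (nat_lit 0) (nat_lit 0) (XT.lf (nat_lit 0) (nat_lit 4712270986) (nat_lit 152) (nat_lit 4583770167) (nat_lit 228) (nat_lit 18116818324) (nat_lit 21) (nat_lit 5) (nat_lit 23) (nat_lit 5) (nat_lit 24) (nat_lit 5) (nat_lit 361) (nat_lit 248) (nat_lit 171)) (XT.lf (nat_lit 0) (nat_lit 15960999094) (nat_lit 228) (nat_lit 9285457064) (nat_lit 76) (nat_lit 2832497397) (nat_lit 21) (nat_lit 5) (nat_lit 24) (nat_lit 5) (nat_lit 22) (nat_lit 4) (nat_lit 362) (nat_lit 248) (nat_lit 170)))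 (XT.nd (nat_lit 78) (nat_lit 76) (nat_lit 0) (XT.lf (nat_lit 0) (nat_lit 4491466890) (nat_lit 76) (nat_lit 18356100086) (nat_lit 152) (nat_lit 5917037305) (nat_lit 20) (nat_lit 5) (nat_lit 21) (nat_lit 5) (nat_lit 22) (nat_lit 4) (nat_lit 363) (nat_lit 248) (nat_lit 169)) (XT.lf (nat_lit 0) (nat_lit 489344371) (nat_lit 152) (nat_lit 10732538670) (nat_lit 76) (nat_lit 18248375177) (nat_lit 19) (nat_lit 5) (nat_lit 21) (nat_lit 5) (nat_lit 20) (nat_lit 5) (nat_lit 364) (nat_lit 248) (nat_lit 168))))) (XT.nd (nat_lit 234) (nat_lit 5776) (nat_lit 0) (XT.nd (nat_lit 78) (nat_lit 3040) (nat_lit 0) (XT.lf (nat_lit 0) (nat_lit 1444221318) (nat_lit 1444) (nat_lit 605336094) (nat_lit 0) (nat_lit 1444221318) (nat_lit 478) (nat_lit 5) (nat_lit 497) (nat_lit 4) (nat_lit 478) (nat_lit 4) (nat_lit 282) (nat_lit 249) (nat_lit 249)) (XT.nd (nat_lit 78) (nat_lit 1520) (nat_lit 0) (XT.lf (nat_lit 0) (nat_lit 697013398)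 (nat_lit 1520) (nat_lit 1251943165) (nat_lit 76) (nat_lit 5090748959) (nat_lit 458) (nat_lit 5) (nat_lit 478) (nat_lit 5) (nat_lit 459) (nat_lit 4) (nat_lit 283) (nat_lit 249) (nat_lit 248)) (XT.lf (nat_lit 0) (nat_lit 5483645416) (nat_lit 1596) (nat_lit 1267231176) (nat_lit 0) (nat_lit 344089194) (nat_lit 438) (nat_lit 5) (nat_lit 459) (nat_lit 4) (nat_lit 438) (nat_lit 4) (nat_lit 284) (nat_lit 249) (nat_lit 247)))) (XT.nd (nat_lit 156) (nat_lit 2356) (nat_lit 0) (XT.nd (nat_lit 78) (nat_lit 1748) (nat_lit 0) (XT.lf (nat_lit 0) (nat_lit 3135521416) (nat_lit 1672) (nat_lit 1263862276) (nat_lit 76) (nat_lit 2753879719) (nat_lit 416) (nat_lit 5) (nat_lit 438) (nat_lit 5) (nat_lit 417) (nat_lit 4) (nat_lit 285) (nat_lit 249) (nat_lit 246)) (XT.lf (nat_lit 0) (nat_lit 685631877) (nat_lit 1748) (nat_lit 1225824438) (nat_lit 76) (nat_lit 5303536988) (nat_lit 393) (nat_lit 5) (nat_lit 416) (nat_lit 5)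 (nat_lit 394) (nat_lit 5) (nat_lit 286) (nat_lit 249) (nat_lit 245))) (XT.nd (nat_lit 78) (nat_lit 912) (nat_lit 0) (XT.lf (nat_lit 0) (nat_lit 5390316267) (nat_lit 1520) (nat_lit 1171401870) (nat_lit 76) (nat_lit 718149442) (nat_lit 374) (nat_lit 5) (nat_lit 394) (nat_lit 5) (nat_lit 375) (nat_lit 4) (nat_lit 287) (nat_lit 249) (nat_lit 244)) (XT.lf (nat_lit 0) (nat_lit 2777353868) (nat_lit 912) (nat_lit 1103424138) (nat_lit 76) (nat_lit 3467132713) (nat_lit 362) (nat_lit 5) (nat_lit 374) (nat_lit 5) (nat_lit 363) (nat_lit 5) (nat_lit 288) (nat_lit 249) (nat_lit 243))))))))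
noncomputable def xc32 : XT := (XT.nd (nat_lit 2106) (nat_lit 6612) (nat_lit 0) (XT.nd (nat_lit 1014) (nat_lit 6612) (nat_lit 0) (XT.nd (nat_lit 468) (nat_lit 5396) (nat_lit 0) (XT.nd (nat_lit 234) (nat_lit 2356) (nat_lit 0) (XT.nd (nat_lit 78) (nat_lit 1748) (nat_lit 0) (XT.lf (nat_lit 0) (nat_lit 54774547) (nat_lit 988) (nat_lit 1006256598) (nat_lit 76) (nat_lit 6358488759) (nat_lit 349) (nat_lit 5) (nat_lit 362) (nat_lit 5) (nat_lit 350) (nat_lit 5) (nat_lit 289) (nat_lit 249) (nat_lit 242)) (XT.nd (nat_lit 78) (nat_lit 912) (nat_lit 0) (XT.lf (nat_lit 0) (nat_lit 4688610931) (nat_lit 912) (nat_lit 911986268) (nat_lit 76) (nat_lit 1893544254) (nat_lit 338) (nat_lit 5) (nat_lit 350) (nat_lit 5) (nat_lit 339) (nat_lit 5) (nat_lit 290) (nat_lit 249) (nat_lit 241)) (XT.lf (nat_lit 0) (nat_lit 1794680831) (nat_lit 912) (nat_lit 800172991) (nat_lit 76) (nat_lit 4977422139) (nat_lit 326) (nat_lit 5)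 (nat_lit 338) (nat_lit 5) (nat_lit 327) (nat_lit 5) (nat_lit 291) (nat_lit 249) (nat_lit 240)))) (XT.nd (nat_lit 78) (nat_lit 1596) (nat_lit 0) (XT.lf (nat_lit 0) (nat_lit 6423686327) (nat_lit 836) (nat_lit 676638402) (nat_lit 76) (nat_lit 553577963) (nat_lit 316) (nat_lit 5) (nat_lit 327) (nat_lit 5) (nat_lit 317) (nat_lit 5) (nat_lit 292) (nat_lit 249) (nat_lit 239)) (XT.nd (nat_lit 78) (nat_lit 760) (nat_lit 0) (XT.lf (nat_lit 0) (nat_lit 3353611680) (nat_lit 836) (nat_lit 561663605) (nat_lit 76) (nat_lit 3823440512) (nat_lit 305) (nat_lit 5) (nat_lit 316) (nat_lit 5) (nat_lit 306) (nat_lit 5) (nat_lit 293) (nat_lit 249) (nat_lit 238)) (XT.lf (nat_lit 0) (nat_lit 159542251) (nat_lit 760) (nat_lit 428047906) (nat_lit 76) (nat_lit 7239773176) (nat_lit 295) (nat_lit 5) (nat_lit 305) (nat_lit 5) (nat_lit 296) (nat_lit 5) (nat_lit 294) (nat_lit 249) (nat_lit 237))))) (XT.nd (nat_lit 234) (nat_lit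 3192) (nat_lit 0) (XT.nd (nat_lit 78) (nat_lit 1444) (nat_lit 0) (XT.lf (nat_lit 0) (nat_lit 4733320010) (nat_lit 836) (nat_lit 317047451) (nat_lit 76) (nat_lit 2868761214) (nat_lit 285) (nat_lit 5) (nat_lit 296) (nat_lit 5) (nat_lit 286) (nat_lit 5) (nat_lit 295) (nat_lit 249) (nat_lit 236)) (XT.nd (nat_lit 78) (nat_lit 684) (nat_lit 0) (XT.lf (nat_lit 0) (nat_lit 1351433557) (nat_lit 760) (nat_lit 197317458) (nat_lit 76) (nat_lit 6466000875) (nat_lit 275) (nat_lit 5) (nat_lit 285) (nat_lit 5) (nat_lit 276) (nat_lit 5) (nat_lit 296) (nat_lit 249) (nat_lit 235)) (XT.lf (nat_lit 0) (nat_lit 5933862787) (nat_lit 760) (nat_lit 93680866) (nat_lit 76) (nat_lit 2086310912) (nat_lit 266) (nat_lit 5) (nat_lit 276) (nat_lit 5) (nat_lit 267) (nat_lit 5) (nat_lit 297) (nat_lit 249) (nat_lit 234)))) (XT.nd (nat_lit 156) (nat_lit 1216) (nat_lit 0) (XT.nd (nat_lit 78) (nat_lit 1292) (nat_lit 0) (XT.lf (nat_lit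 0) (nat_lit 2357031860) (nat_lit 684) (nat_lit 853699) (nat_lit 76) (nat_lit 5858779972) (nat_lit 257) (nat_lit 5) (nat_lit 266) (nat_lit 5) (nat_lit 258) (nat_lit 5) (nat_lit 298) (nat_lit 249) (nat_lit 233)) (XT.lf (nat_lit 0) (nat_lit 80833277) (nat_lit 608) (nat_lit 6873247579) (nat_lit 684) (nat_lit 1369194114) (nat_lit 240) (nat_lit 5) (nat_lit 248) (nat_lit 5) (nat_lit 249) (nat_lit 5) (nat_lit 299) (nat_lit 249) (nat_lit 232))) (XT.nd (nat_lit 78) (nat_lit 532) (nat_lit 0) (XT.lf (nat_lit 0) (nat_lit 133594991) (nat_lit 608) (nat_lit 3040930698) (nat_lit 684) (nat_lit 5258978280) (nat_lit 231) (nat_lit 5) (nat_lit 239) (nat_lit 5) (nat_lit 240) (nat_lit 5) (nat_lit 300) (nat_lit 249) (nat_lit 231)) (XT.lf (nat_lit 0) (nat_lit 175358577) (nat_lit 532) (nat_lit 7614694717) (nat_lit 608) (nat_lit 757791018) (nat_lit 224) (nat_lit 5) (nat_lit 231) (nat_lit 5) (nat_lit 232) (nat_lit 5) (nat_lit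 301) (nat_lit 249) (nat_lit 230)))))) (XT.nd (nat_lit 546) (nat_lit 3192) (nat_lit 0) (XT.nd (nat_lit 234) (nat_lit 1596) (nat_lit 0) (XT.nd (nat_lit 78) (nat_lit 1140) (nat_lit 0) (XT.lf (nat_lit 0) (nat_lit 171788364) (nat_lit 608) (nat_lit 3626108669) (nat_lit 684) (nat_lit 4867871770) (nat_lit 215) (nat_lit 5) (nat_lit 223) (nat_lit 5) (nat_lit 224) (nat_lit 5) (nat_lit 302) (nat_lit 249) (nat_lit 229)) (XT.nd (nat_lit 78) (nat_lit 608) (nat_lit 0) (XT.lf (nat_lit 0) (nat_lit 156068563) (nat_lit 532) (nat_lit 8279521708) (nat_lit 608) (nat_lit 352490305) (nat_lit 208) (nat_lit 5) (nat_lit 215) (nat_lit 5) (nat_lit 216) (nat_lit 5) (nat_lit 303) (nat_lit 249) (nat_lit 228)) (XT.lf (nat_lit 0) (nat_lit 79982555) (nat_lit 532) (nat_lit 4140471122) (nat_lit 608) (nat_lit 4693539698) (nat_lit 200) (nat_lit 5) (nat_lit 207) (nat_lit 5) (nat_lit 208) (nat_lit 5) (nat_lit 304) (nat_lit 249) (nat_lit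 227)))) (XT.nd (nat_lit 156) (nat_lit 1064) (nat_lit 0) (XT.nd (nat_lit 78) (nat_lit 532) (nat_lit 0) (XT.lf (nat_lit 0) (nat_lit 8883210981) (nat_lit 608) (nat_lit 11718271) (nat_lit 76) (nat_lit 149617023) (nat_lit 200) (nat_lit 5) (nat_lit 208) (nat_lit 5) (nat_lit 201) (nat_lit 5) (nat_lit 305) (nat_lit 249) (nat_lit 226)) (XT.lf (nat_lit 0) (nat_lit 4434611073) (nat_lit 532) (nat_lit 175646213) (nat_lit 76) (nat_lit 4568490397) (nat_lit 193) (nat_lit 5) (nat_lit 200) (nat_lit 5) (nat_lit 194) (nat_lit 5) (nat_lit 306) (nat_lit 249) (nat_lit 225))) (XT.nd (nat_lit 78) (nat_lit 532) (nat_lit 0) (XT.lf (nat_lit 0) (nat_lit 8955570939) (nat_lit 532) (nat_lit 170943609) (nat_lit 608) (nat_lit 191287067) (nat_lit 186) (nat_lit 5) (nat_lit 193) (nat_lit 5) (nat_lit 194) (nat_lit 5) (nat_lit 307) (nat_lit 249) (nat_lit 224)) (XT.lf (nat_lit 0) (nat_lit 4430148680) (nat_lit 532) (nat_lit 632648944)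 (nat_lit 76) (nat_lit 4397876209) (nat_lit 179) (nat_lit 5) (nat_lit 186) (nat_lit 5) (nat_lit 180) (nat_lit 5) (nat_lit 308) (nat_lit 249) (nat_lit 223))))) (XT.nd (nat_lit 234) (nat_lit 1748) (nat_lit 0) (XT.nd (nat_lit 78) (nat_lit 988) (nat_lit 0) (XT.lf (nat_lit 0) (nat_lit 8671323755) (nat_lit 456) (nat_lit 481337108) (nat_lit 532) (nat_lit 455894608) (nat_lit 173) (nat_lit 5) (nat_lit 179) (nat_lit 5) (nat_lit 180) (nat_lit 5) (nat_lit 309) (nat_lit 249) (nat_lit 222)) (XT.nd (nat_lit 78) (nat_lit 456) (nat_lit 0) (XT.lf (nat_lit 0) (nat_lit 4193586560) (nat_lit 532) (nat_lit 1333678516) (nat_lit 76) (nat_lit 4233234056) (nat_lit 166) (nat_lit 5) (nat_lit 173) (nat_lit 5) (nat_lit 167) (nat_lit 5) (nat_lit 310) (nat_lit 249) (nat_lit 221)) (XT.lf (nat_lit 0) (nat_lit 8138355240) (nat_lit 456) (nat_lit 808515335) (nat_lit 532) (nat_lit 970705467) (nat_lit 160) (nat_lit 5) (nat_lit 166) (nat_lit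 5) (nat_lit 167) (nat_lit 5) (nat_lit 311) (nat_lit 249) (nat_lit 220)))) (XT.nd (nat_lit 156) (nat_lit 836) (nat_lit 0) (XT.nd (nat_lit 78) (nat_lit 456) (nat_lit 0) (XT.lf (nat_lit 0) (nat_lit 3709505269) (nat_lit 456) (nat_lit 2323929840) (nat_lit 76) (nat_lit 4045575228) (nat_lit 154) (nat_lit 5) (nat_lit 160) (nat_lit 5) (nat_lit 155) (nat_lit 5) (nat_lit 312) (nat_lit 249) (nat_lit 219)) (XT.lf (nat_lit 0) (nat_lit 7310168335) (nat_lit 456) (nat_lit 1182655168) (nat_lit 532) (nat_lit 1752860050) (nat_lit 148) (nat_lit 5) (nat_lit 154) (nat_lit 5) (nat_lit 155) (nat_lit 5) (nat_lit 313) (nat_lit 249) (nat_lit 218))) (XT.nd (nat_lit 78) (nat_lit 380) (nat_lit 0) (XT.lf (nat_lit 0) (nat_lit 2959842182) (nat_lit 456) (nat_lit 3652659266) (nat_lit 76) (nat_lit 3804566973) (nat_lit 142) (nat_lit 5) (nat_lit 148) (nat_lit 5) (nat_lit 143) (nat_lit 5) (nat_lit 314) (nat_lit 249) (nat_lit 217)) (XT.lf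 (nat_lit 0) (nat_lit 6136015890) (nat_lit 380) (nat_lit 1635463739) (nat_lit 456) (nat_lit 2822294924) (nat_lit 137) (nat_lit 5) (nat_lit 142) (nat_lit 5) (nat_lit 143) (nat_lit 5) (nat_lit 315) (nat_lit 249) (nat_lit 216))))))) (XT.nd (nat_lit 1014) (nat_lit 2736) (nat_lit 0) (XT.nd (nat_lit 468) (nat_lit 1900) (nat_lit 0) (XT.nd (nat_lit 234) (nat_lit 760) (nat_lit 0) (XT.nd (nat_lit 78) (nat_lit 760) (nat_lit 0) (XT.lf (nat_lit 0) (nat_lit 1923682069) (nat_lit 456) (nat_lit 5373697883) (nat_lit 76) (nat_lit 3478233542) (nat_lit 131) (nat_lit 5) (nat_lit 137) (nat_lit 5) (nat_lit 132) (nat_lit 5) (nat_lit 316) (nat_lit 249) (nat_lit 215)) (XT.nd (nat_lit 78) (nat_lit 380) (nat_lit 0) (XT.lf (nat_lit 0) (nat_lit 4560367508) (nat_lit 380) (nat_lit 2200490956) (nat_lit 456) (nat_lit 4201968623) (nat_lit 126) (nat_lit 5) (nat_lit 131) (nat_lit 5) (nat_lit 132) (nat_lit 5) (nat_lit 317) (nat_lit 249)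 (nat_lit 214)) (XT.lf (nat_lit 0) (nat_lit 577020439) (nat_lit 380) (nat_lit 7546012667) (nat_lit 76) (nat_lit 3032637187) (nat_lit 121) (nat_lit 5) (nat_lit 126) (nat_lit 5) (nat_lit 122) (nat_lit 5) (nat_lit 318) (nat_lit 249) (nat_lit 213)))) (XT.nd (nat_lit 78) (nat_lit 380) (nat_lit 0) (XT.lf (nat_lit 0) (nat_lit 2522326311) (nat_lit 380) (nat_lit 2913463869) (nat_lit 456) (nat_lit 5918116280) (nat_lit 116) (nat_lit 5) (nat_lit 121) (nat_lit 5) (nat_lit 122) (nat_lit 5) (nat_lit 319) (nat_lit 249) (nat_lit 212)) (XT.nd (nat_lit 78) (nat_lit 76) (nat_lit 0) (XT.lf (nat_lit 0) (nat_lit 1316601463) (nat_lit 304) (nat_lit 9119386226) (nat_lit 380) (nat_lit 1122220910) (nat_lit 112) (nat_lit 5) (nat_lit 116) (nat_lit 5) (nat_lit 117) (nat_lit 5) (nat_lit 320) (nat_lit 249) (nat_lit 211)) (XT.lf (nat_lit 0) (nat_lit 3767928205) (nat_lit 380) (nat_lit 44419703) (nat_lit 76) (nat_lit 7955817912) (nat_lit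 111) (nat_lit 5) (nat_lit 116) (nat_lit 5) (nat_lit 112) (nat_lit 5) (nat_lit 321) (nat_lit 249) (nat_lit 210))))) (XT.nd (nat_lit 234) (nat_lit 912) (nat_lit 0) (XT.nd (nat_lit 78) (nat_lit 684) (nat_lit 0) (XT.lf (nat_lit 0) (nat_lit 8791592392) (nat_lit 380) (nat_lit 1525819347) (nat_lit 76) (nat_lit 1666850260) (nat_lit 107) (nat_lit 5) (nat_lit 112) (nat_lit 5) (nat_lit 108) (nat_lit 5) (nat_lit 322) (nat_lit 249) (nat_lit 209)) (XT.nd (nat_lit 78) (nat_lit 304) (nat_lit 0) (XT.lf (nat_lit 0) (nat_lit 1744850328) (nat_lit 380) (nat_lit 3173081573) (nat_lit 76) (nat_lit 7288533119) (nat_lit 102) (nat_lit 5) (nat_lit 107) (nat_lit 5) (nat_lit 103) (nat_lit 5) (nat_lit 323) (nat_lit 249) (nat_lit 208)) (XT.lf (nat_lit 0) (nat_lit 6775779516) (nat_lit 380) (nat_lit 4985531196) (nat_lit 76) (nat_lit 673855643) (nat_lit 98) (nat_lit 5) (nat_lit 103) (nat_lit 5) (nat_lit 99) (nat_lit 5) (nat_lit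 324) (nat_lit 249) (nat_lit 207)))) (XT.nd (nat_lit 156) (nat_lit 304) (nat_lit 0) (XT.nd (nat_lit 78) (nat_lit 380) (nat_lit 0) (XT.lf (nat_lit 0) (nat_lit 5689125870) (nat_lit 228) (nat_lit 6286312026) (nat_lit 304) (nat_lit 694961491) (nat_lit 95) (nat_lit 5) (nat_lit 98) (nat_lit 5) (nat_lit 99) (nat_lit 5) (nat_lit 325) (nat_lit 249) (nat_lit 206)) (XT.lf (nat_lit 0) (nat_lit 3744727543) (nat_lit 304) (nat_lit 601269283) (nat_lit 380) (nat_lit 8566433274) (nat_lit 90) (nat_lit 5) (nat_lit 94) (nat_lit 5) (nat_lit 95) (nat_lit 5) (nat_lit 326) (nat_lit 249) (nat_lit 205))) (XT.nd (nat_lit 78) (nat_lit 76) (nat_lit 0) (XT.lf (nat_lit 0) (nat_lit 1594100052) (nat_lit 228) (nat_lit 7955113482) (nat_lit 304) (nat_lit 3612031556) (nat_lit 87) (nat_lit 5) (nat_lit 90) (nat_lit 5) (nat_lit 91) (nat_lit 5) (nat_lit 327) (nat_lit 249) (nat_lit 204)) (XT.lf (nat_lit 0) (nat_lit 1467198974) (nat_lit 304)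 (nat_lit 740272885) (nat_lit 76) (nat_lit 11209967500) (nat_lit 86) (nat_lit 5) (nat_lit 90) (nat_lit 5) (nat_lit 87) (nat_lit 5) (nat_lit 328) (nat_lit 249) (nat_lit 203)))))) (XT.nd (nat_lit 546) (nat_lit 1140) (nat_lit 0) (XT.nd (nat_lit 234) (nat_lit 760) (nat_lit 0) (XT.nd (nat_lit 78) (nat_lit 532) (nat_lit 0) (XT.lf (nat_lit 0) (nat_lit 6673318490) (nat_lit 380) (nat_lit 3292301899) (nat_lit 76) (nat_lit 3714772635) (nat_lit 82) (nat_lit 5) (nat_lit 87) (nat_lit 5) (nat_lit 83) (nat_lit 5) (nat_lit 329) (nat_lit 249) (nat_lit 202)) (XT.nd (nat_lit 78) (nat_lit 304) (nat_lit 0) (XT.lf (nat_lit 0) (nat_lit 7887855869) (nat_lit 228) (nat_lit 4151073640) (nat_lit 304) (nat_lit 1912261756) (nat_lit 79) (nat_lit 5) (nat_lit 82) (nat_lit 5) (nat_lit 83) (nat_lit 5) (nat_lit 330) (nat_lit 249) (nat_lit 201)) (XT.lf (nat_lit 0) (nat_lit 3292843445) (nat_lit 304) (nat_lit 9086692884) (nat_lit 76)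 (nat_lit 1850141223) (nat_lit 75) (nat_lit 5) (nat_lit 79) (nat_lit 5) (nat_lit 76) (nat_lit 5) (nat_lit 331) (nat_lit 249) (nat_lit 200)))) (XT.nd (nat_lit 156) (nat_lit 532) (nat_lit 0) (XT.nd (nat_lit 78) (nat_lit 0) (nat_lit 0) (XT.lf (nat_lit 0) (nat_lit 2131409674) (nat_lit 228) (nat_lit 6513888292) (nat_lit 304) (nat_lit 5870644580) (nat_lit 72) (nat_lit 5) (nat_lit 75) (nat_lit 5) (nat_lit 76) (nat_lit 5) (nat_lit 332) (nat_lit 249) (nat_lit 199)) (XT.lf (nat_lit 0) (nat_lit 13703678586) (nat_lit 228) (nat_lit 451519419) (nat_lit 304) (nat_lit 655679896) (nat_lit 72) (nat_lit 5) (nat_lit 75) (nat_lit 5) (nat_lit 76) (nat_lit 5) (nat_lit 333) (nat_lit 249) (nat_lit 198))) (XT.nd (nat_lit 78) (nat_lit 228) (nat_lit 0) (XT.lf (nat_lit 0) (nat_lit 4696875768) (nat_lit 304) (nat_lit 4640779276) (nat_lit 76) (nat_lit 5775553017) (nat_lit 68) (nat_lit 5) (nat_lit 72) (nat_lit 5) (nat_lit 69) (nat_lit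 5) (nat_lit 334) (nat_lit 249) (nat_lit 197)) (XT.lf (nat_lit 0) (nat_lit 6970299065) (nat_lit 228) (nat_lit 3224336851) (nat_lit 304) (nat_lit 5230033155) (nat_lit 65) (nat_lit 5) (nat_lit 68) (nat_lit 5) (nat_lit 69) (nat_lit 5) (nat_lit 335) (nat_lit 249) (nat_lit 196))))) (XT.nd (nat_lit 234) (nat_lit 684) (nat_lit 0) (XT.nd (nat_lit 78) (nat_lit 152) (nat_lit 0) (XT.lf (nat_lit 0) (nat_lit 121149381) (nat_lit 304) (nat_lit 12579409412) (nat_lit 76) (nat_lit 3044702824) (nat_lit 61) (nat_lit 5) (nat_lit 65) (nat_lit 5) (nat_lit 62) (nat_lit 5) (nat_lit 336) (nat_lit 249) (nat_lit 195)) (XT.nd (nat_lit 78) (nat_lit 152) (nat_lit 0) (XT.lf (nat_lit 0) (nat_lit 5580707529) (nat_lit 304) (nat_lit 983087864) (nat_lit 76) (nat_lit 9510624172) (nat_lit 61) (nat_lit 5) (nat_lit 65) (nat_lit 5) (nat_lit 62) (nat_lit 5) (nat_lit 337) (nat_lit 249) (nat_lit 194)) (XT.lf (nat_lit 0) (nat_lit 11006199745)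 (nat_lit 152) (nat_lit 210340666) (nat_lit 228) (nat_lit 5196678538) (nat_lit 59) (nat_lit 5) (nat_lit 61) (nat_lit 5) (nat_lit 62) (nat_lit 5) (nat_lit 338) (nat_lit 249) (nat_lit 193)))) (XT.nd (nat_lit 156) (nat_lit 228) (nat_lit 0) (XT.nd (nat_lit 78) (nat_lit 152) (nat_lit 0) (XT.lf (nat_lit 0) (nat_lit 288290506) (nat_lit 304) (nat_lit 10210679689) (nat_lit 76) (nat_lit 6262545619) (nat_lit 55) (nat_lit 5) (nat_lit 59) (nat_lit 5) (nat_lit 56) (nat_lit 5) (nat_lit 339) (nat_lit 249) (nat_lit 192)) (XT.lf (nat_lit 0) (nat_lit 1710181463) (nat_lit 152) (nat_lit 4149344056) (nat_lit 228) (nat_lit 11260217887) (nat_lit 53) (nat_lit 5) (nat_lit 55) (nat_lit 5) (nat_lit 56) (nat_lit 5) (nat_lit 340) (nat_lit 249) (nat_lit 191))) (XT.nd (nat_lit 78) (nat_lit 228) (nat_lit 0) (XT.lf (nat_lit 0) (nat_lit 11626385002) (nat_lit 228) (nat_lit 3471936653) (nat_lit 76) (nat_lit 2389841188) (nat_lit 53)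 (nat_lit 5) (nat_lit 56) (nat_lit 5) (nat_lit 54) (nat_lit 5) (nat_lit 341) (nat_lit 249) (nat_lit 190)) (XT.lf (nat_lit 0) (nat_lit 8817482832) (nat_lit 228) (nat_lit 8778731817) (nat_lit 304) (nat_lit 270835262) (nat_lit 50) (nat_lit 5) (nat_lit 53) (nat_lit 5) (nat_lit 54) (nat_lit 5) (nat_lit 342) (nat_lit 249) (nat_lit 189))))))))
noncomputable def xc33 : XT := (XT.nd (nat_lit 36114) (nat_lit 0) (nat_lit 10184) (XT.nd (nat_lit 1014) (nat_lit 684) (nat_lit 0) (XT.nd (nat_lit 468) (nat_lit 760) (nat_lit 0) (XT.nd (nat_lit 234) (nat_lit 380) (nat_lit 0) (XT.nd (nat_lit 78) (nat_lit 228) (nat_lit 0) (XT.lf (nat_lit 0) (nat_lit 3178742751) (nat_lit 152) (nat_lit 2227036548) (nat_lit 228) (nat_lit 12851026971) (nat_lit 47) (nat_lit 5) (nat_lit 49) (nat_lit 5) (nat_lit 50) (nat_lit 5) (nat_lit 343) (nat_lit 249) (nat_lit 188)) (XT.nd (nat_lit 78) (nat_lit 228) (nat_lit 0) (XT.lf (nat_lit 0) (nat_lit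 11286451371) (nat_lit 228) (nat_lit 2883579566) (nat_lit 76) (nat_lit 4487453052) (nat_lit 47) (nat_lit 5) (nat_lit 50) (nat_lit 5) (nat_lit 48) (nat_lit 5) (nat_lit 344) (nat_lit 249) (nat_lit 187)) (XT.lf (nat_lit 0) (nat_lit 9698998884) (nat_lit 228) (nat_lit 7670307479) (nat_lit 304) (nat_lit 1700373283) (nat_lit 44) (nat_lit 5) (nat_lit 47) (nat_lit 5) (nat_lit 48) (nat_lit 5) (nat_lit 345) (nat_lit 249) (nat_lit 186)))) (XT.nd (nat_lit 78) (nat_lit 152) (nat_lit 0) (XT.lf (nat_lit 0) (nat_lit 3129419656) (nat_lit 152) (nat_lit 945160207) (nat_lit 228) (nat_lit 15419366382) (nat_lit 41) (nat_lit 5) (nat_lit 43) (nat_lit 5) (nat_lit 44) (nat_lit 5) (nat_lit 346) (nat_lit 249) (nat_lit 185)) (XT.nd (nat_lit 78) (nat_lit 152) (nat_lit 0) (XT.lf (nat_lit 0) (nat_lit 10051745147) (nat_lit 228) (nat_lit 3936129366) (nat_lit 76) (nat_lit 5941812129) (nat_lit 41) (nat_lit 5) (nat_lit 44) (nat_lit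 5) (nat_lit 42) (nat_lit 5) (nat_lit 347) (nat_lit 249) (nat_lit 184)) (XT.lf (nat_lit 0) (nat_lit 8889345761) (nat_lit 152) (nat_lit 7333572771) (nat_lit 228) (nat_lit 4155298393) (nat_lit 39) (nat_lit 5) (nat_lit 41) (nat_lit 5) (nat_lit 42) (nat_lit 5) (nat_lit 348) (nat_lit 249) (nat_lit 183))))) (XT.nd (nat_lit 234) (nat_lit 380) (nat_lit 0) (XT.nd (nat_lit 78) (nat_lit 152) (nat_lit 0) (XT.lf (nat_lit 0) (nat_lit 1233197764) (nat_lit 152) (nat_lit 469087032) (nat_lit 228) (nat_lit 19137982119) (nat_lit 36) (nat_lit 5) (nat_lit 38) (nat_lit 5) (nat_lit 39) (nat_lit 5) (nat_lit 349) (nat_lit 249) (nat_lit 182)) (XT.nd (nat_lit 78) (nat_lit 152) (nat_lit 0) (XT.lf (nat_lit 0) (nat_lit 7752546039) (nat_lit 228) (nat_lit 6976248578) (nat_lit 76) (nat_lit 6585377026) (nat_lit 36) (nat_lit 5) (nat_lit 39) (nat_lit 5) (nat_lit 37) (nat_lit 5) (nat_lit 350) (nat_lit 249) (nat_lit 181)) (XT.lf (nat_lit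 0) (nat_lit 6027219998) (nat_lit 152) (nat_lit 7952622043) (nat_lit 228) (nat_lit 7822551286) (nat_lit 34) (nat_lit 5) (nat_lit 36) (nat_lit 5) (nat_lit 37) (nat_lit 5) (nat_lit 351) (nat_lit 249) (nat_lit 180)))) (XT.nd (nat_lit 156) (nat_lit 152) (nat_lit 0) (XT.nd (nat_lit 78) (nat_lit 228) (nat_lit 0) (XT.lf (nat_lit 0) (nat_lit 19435430326) (nat_lit 152) (nat_lit 959893560) (nat_lit 228) (nat_lit 1909920488) (nat_lit 34) (nat_lit 5) (nat_lit 36) (nat_lit 5) (nat_lit 37) (nat_lit 5) (nat_lit 352) (nat_lit 249) (nat_lit 179)) (XT.lf (nat_lit 0) (nat_lit 4189202220) (nat_lit 228) (nat_lit 12409564750) (nat_lit 76) (nat_lit 6222602039) (nat_lit 31) (nat_lit 5) (nat_lit 34) (nat_lit 5) (nat_lit 32) (nat_lit 5) (nat_lit 353) (nat_lit 249) (nat_lit 178))) (XT.nd (nat_lit 78) (nat_lit 0) (nat_lit 0) (XT.lf (nat_lit 0) (nat_lit 689797996) (nat_lit 152) (nat_lit 9741882206) (nat_lit 228) (nat_lit 12921327381)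 (nat_lit 29) (nat_lit 5) (nat_lit 31) (nat_lit 5) (nat_lit 32) (nat_lit 5) (nat_lit 354) (nat_lit 249) (nat_lit 177)) (XT.lf (nat_lit 0) (nat_lit 14274785712) (nat_lit 152) (nat_lit 2627235220) (nat_lit 228) (nat_lit 6997771633) (nat_lit 29) (nat_lit 5) (nat_lit 31) (nat_lit 5) (nat_lit 32) (nat_lit 5) (nat_lit 355) (nat_lit 249) (nat_lit 176)))))) (XT.nd (nat_lit 546) (nat_lit 76) (nat_lit 0) (XT.nd (nat_lit 234) (nat_lit 304) (nat_lit 0) (XT.nd (nat_lit 78) (nat_lit 228) (nat_lit 0) (XT.lf (nat_lit 0) (nat_lit 3747356371) (nat_lit 76) (nat_lit 19831518687) (nat_lit 152) (nat_lit 883866730) (nat_lit 28) (nat_lit 5) (nat_lit 29) (nat_lit 5) (nat_lit 30) (nat_lit 4) (nat_lit 356) (nat_lit 249) (nat_lit 175)) (XT.nd (nat_lit 78) (nat_lit 152) (nat_lit 0) (XT.lf (nat_lit 0) (nat_lit 5383701077) (nat_lit 152) (nat_lit 7516736408) (nat_lit 76) (nat_lit 12140622497) (nat_lit 27) (nat_lit 5) (nat_lit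 29) (nat_lit 5) (nat_lit 28) (nat_lit 5) (nat_lit 357) (nat_lit 249) (nat_lit 174)) (XT.lf (nat_lit 0) (nat_lit 6078919122) (nat_lit 152) (nat_lit 5747148729) (nat_lit 228) (nat_lit 13810575511) (nat_lit 25) (nat_lit 5) (nat_lit 27) (nat_lit 5) (nat_lit 28) (nat_lit 5) (nat_lit 358) (nat_lit 249) (nat_lit 173)))) (XT.nd (nat_lit 156) (nat_lit 228) (nat_lit 0) (XT.nd (nat_lit 78) (nat_lit 76) (nat_lit 0) (XT.lf (nat_lit 0) (nat_lit 18483262458) (nat_lit 228) (nat_lit 6146792525) (nat_lit 76) (nat_lit 1619615980) (nat_lit 25) (nat_lit 5) (nat_lit 28) (nat_lit 5) (nat_lit 26) (nat_lit 4) (nat_lit 359) (nat_lit 249) (nat_lit 172)) (XT.lf (nat_lit 0) (nat_lit 7658385824) (nat_lit 76) (nat_lit 17730876961) (nat_lit 152) (nat_lit 1490852436) (nat_lit 24) (nat_lit 5) (nat_lit 25) (nat_lit 5) (nat_lit 26) (nat_lit 4) (nat_lit 360) (nat_lit 249) (nat_lit 171))) (XT.nd (nat_lit 78) (nat_lit 152) (nat_lit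 0) (XT.lf (nat_lit 0) (nat_lit 4911038937) (nat_lit 152) (nat_lit 5668817964) (nat_lit 76) (nat_lit 16948911608) (nat_lit 23) (nat_lit 5) (nat_lit 25) (nat_lit 5) (nat_lit 24) (nat_lit 5) (nat_lit 361) (nat_lit 249) (nat_lit 170)) (XT.lf (nat_lit 0) (nat_lit 8322411882) (nat_lit 152) (nat_lit 3178957368) (nat_lit 228) (nat_lit 16694989362) (nat_lit 21) (nat_lit 5) (nat_lit 23) (nat_lit 5) (nat_lit 24) (nat_lit 5) (nat_lit 362) (nat_lit 249) (nat_lit 169))))) (XT.nd (nat_lit 34242) (nat_lit 0) (nat_lit 31692) (XT.nd (nat_lit 78) (nat_lit 76) (nat_lit 0) (XT.lf (nat_lit 0) (nat_lit 18319887966) (nat_lit 228) (nat_lit 6168248336) (nat_lit 76) (nat_lit 4395237389) (nat_lit 21) (nat_lit 5) (nat_lit 24) (nat_lit 5) (nat_lit 22) (nat_lit 4) (nat_lit 363) (nat_lit 249) (nat_lit 168)) (XT.nd (nat_lit 34086) (nat_lit 0) (nat_lit 37544) (XT.lf (nat_lit 0) (nat_lit 7966890963) (nat_lit 76) (nat_lit 17413092835)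 (nat_lit 152) (nat_lit 4210281638) (nat_lit 20) (nat_lit 5) (nat_lit 21) (nat_lit 5) (nat_lit 22) (nat_lit 4) (nat_lit 364) (nat_lit 249) (nat_lit 167)) (XT.lf (nat_lit 0) (nat_lit 1485588803) (nat_lit 1292) (nat_lit 474559757) (nat_lit 0) (nat_lit 1485588803) (nat_lit 514) (nat_lit 5) (nat_lit 531) (nat_lit 4) (nat_lit 514) (nat_lit 4) (nat_lit 280) (nat_lit 250) (nat_lit 250)))) (XT.nd (nat_lit 156) (nat_lit 3116) (nat_lit 0) (XT.nd (nat_lit 78) (nat_lit 1368) (nat_lit 0) (XT.lf (nat_lit 0) (nat_lit 824284337) (nat_lit 1368) (nat_lit 1129447325) (nat_lit 76) (nat_lit 4985000569) (nat_lit 496) (nat_lit 5) (nat_lit 514) (nat_lit 5) (nat_lit 497) (nat_lit 4) (nat_lit 281) (nat_lit 250) (nat_lit 249)) (XT.lf (nat_lit 0) (nat_lit 5554884715) (nat_lit 1444) (nat_lit 1278941436) (nat_lit 0) (nat_lit 155266948) (nat_lit 478) (nat_lit 5) (nat_lit 497) (nat_lit 4) (nat_lit 478) (nat_lit 4) (nat_lit 282)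 (nat_lit 250) (nat_lit 248))) (XT.nd (nat_lit 78) (nat_lit 1596) (nat_lit 0) (XT.lf (nat_lit 0) (nat_lit 3254408088) (nat_lit 1520) (nat_lit 1408150545) (nat_lit 76) (nat_lit 2379854637) (nat_lit 458) (nat_lit 5) (nat_lit 478) (nat_lit 5) (nat_lit 459) (nat_lit 4) (nat_lit 283) (nat_lit 250) (nat_lit 247)) (XT.lf (nat_lit 0) (nat_lit 856706087) (nat_lit 1596) (nat_lit 1500169760) (nat_lit 76) (nat_lit 4742224664) (nat_lit 437) (nat_lit 5) (nat_lit 458) (nat_lit 5) (nat_lit 438) (nat_lit 5) (nat_lit 284) (nat_lit 250) (nat_lit 246))))))) (XT.nd (nat_lit 1092) (nat_lit 7828) (nat_lit 0) (XT.nd (nat_lit 546) (nat_lit 5244) (nat_lit 0) (XT.nd (nat_lit 234) (nat_lit 3572) (nat_lit 0) (XT.nd (nat_lit 78) (nat_lit 3268) (nat_lit 0) (XT.lf (nat_lit 0) (nat_lit 5496242889) (nat_lit 1672) (nat_lit 1567658035) (nat_lit 76) (nat_lit 95073280) (nat_lit 416) (nat_lit 5) (nat_lit 438) (nat_lit 5) (nat_lit 417)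 (nat_lit 4) (nat_lit 285) (nat_lit 250) (nat_lit 245)) (XT.nd (nat_lit 78) (nat_lit 1520) (nat_lit 0) (XT.lf (nat_lit 0) (nat_lit 2939491221) (nat_lit 1748) (nat_lit 1622987719) (nat_lit 76) (nat_lit 2659383529) (nat_lit 393) (nat_lit 5) (nat_lit 416) (nat_lit 5) (nat_lit 394) (nat_lit 5) (nat_lit 286) (nat_lit 250) (nat_lit 244)) (XT.lf (nat_lit 0) (nat_lit 278165293) (nat_lit 1520) (nat_lit 1646455517) (nat_lit 76) (nat_lit 5363617279) (nat_lit 373) (nat_lit 5) (nat_lit 393) (nat_lit 5) (nat_lit 374) (nat_lit 5) (nat_lit 287) (nat_lit 250) (nat_lit 243)))) (XT.nd (nat_lit 156) (nat_lit 1748) (nat_lit 0) (XT.nd (nat_lit 78) (nat_lit 988) (nat_lit 0) (XT.lf (nat_lit 0) (nat_lit 4838960368) (nat_lit 912) (nat_lit 1661372586) (nat_lit 76) (nat_lit 857383889) (nat_lit 362) (nat_lit 5) (nat_lit 374) (nat_lit 5) (nat_lit 363) (nat_lit 5) (nat_lit 288) (nat_lit 250) (nat_lit 242)) (XT.lf (nat_lit 0)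 (nat_lit 2011282788) (nat_lit 988) (nat_lit 1662995520) (nat_lit 76) (nat_lit 3756200726) (nat_lit 349) (nat_lit 5) (nat_lit 362) (nat_lit 5) (nat_lit 350) (nat_lit 5) (nat_lit 289) (nat_lit 250) (nat_lit 241))) (XT.nd (nat_lit 78) (nat_lit 912) (nat_lit 0) (XT.lf (nat_lit 0) (nat_lit 5862302915) (nat_lit 836) (nat_lit 702799186) (nat_lit 912) (nat_lit 941649105) (nat_lit 338) (nat_lit 5) (nat_lit 349) (nat_lit 5) (nat_lit 350) (nat_lit 5) (nat_lit 290) (nat_lit 250) (nat_lit 240)) (XT.lf (nat_lit 0) (nat_lit 3562387441) (nat_lit 912) (nat_lit 1630730720) (nat_lit 76) (nat_lit 2393007976) (nat_lit 326) (nat_lit 5) (nat_lit 338) (nat_lit 5) (nat_lit 327) (nat_lit 5) (nat_lit 291) (nat_lit 250) (nat_lit 239))))) (XT.nd (nat_lit 234) (nat_lit 2888) (nat_lit 0) (XT.nd (nat_lit 78) (nat_lit 1520) (nat_lit 0) (XT.lf (nat_lit 0) (nat_lit 446220414) (nat_lit 836) (nat_lit 1599795458) (nat_lit 76) (nat_lit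 5623125595) (nat_lit 315) (nat_lit 5) (nat_lit 326) (nat_lit 5) (nat_lit 316) (nat_lit 5) (nat_lit 292) (nat_lit 250) (nat_lit 238)) (XT.nd (nat_lit 78) (nat_lit 760) (nat_lit 0) (XT.lf (nat_lit 0) (nat_lit 4934440912) (nat_lit 836) (nat_lit 1575116102) (nat_lit 76) (nat_lit 1245871502) (nat_lit 305) (nat_lit 5) (nat_lit 316) (nat_lit 5) (nat_lit 306) (nat_lit 5) (nat_lit 293) (nat_lit 250) (nat_lit 237)) (XT.lf (nat_lit 0) (nat_lit 1637242053) (nat_lit 760) (nat_lit 1549655144) (nat_lit 76) (nat_lit 4658335907) (nat_lit 295) (nat_lit 5) (nat_lit 305) (nat_lit 5) (nat_lit 296) (nat_lit 5) (nat_lit 294) (nat_lit 250) (nat_lit 236)))) (XT.nd (nat_lit 156) (nat_lit 1368) (nat_lit 0) (XT.nd (nat_lit 78) (nat_lit 760) (nat_lit 0) (XT.lf (nat_lit 0) (nat_lit 6128758817) (nat_lit 836) (nat_lit 1522424977) (nat_lit 76) (nat_lit 287500746) (nat_lit 285) (nat_lit 5) (nat_lit 296) (nat_lit 5) (nat_lit 286)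 (nat_lit 5) (nat_lit 295) (nat_lit 250) (nat_lit 235)) (XT.lf (nat_lit 0) (nat_lit 2644172712) (nat_lit 760) (nat_lit 1514779987) (nat_lit 76) (nat_lit 3876517272) (nat_lit 275) (nat_lit 5) (nat_lit 285) (nat_lit 5) (nat_lit 276) (nat_lit 5) (nat_lit 296) (nat_lit 250) (nat_lit 234))) (XT.nd (nat_lit 78) (nat_lit 684) (nat_lit 0) (XT.lf (nat_lit 0) (nat_lit 6632826592) (nat_lit 684) (nat_lit 515498520) (nat_lit 760) (nat_lit 987850841) (nat_lit 266) (nat_lit 5) (nat_lit 275) (nat_lit 5) (nat_lit 276) (nat_lit 5) (nat_lit 297) (nat_lit 250) (nat_lit 233)) (XT.lf (nat_lit 0) (nat_lit 3465703388) (nat_lit 684) (nat_lit 1523232736) (nat_lit 76) (nat_lit 3251288628) (nat_lit 257) (nat_lit 5) (nat_lit 266) (nat_lit 5) (nat_lit 258) (nat_lit 5) (nat_lit 298) (nat_lit 250) (nat_lit 232)))))) (XT.nd (nat_lit 546) (nat_lit 3420) (nat_lit 0) (XT.nd (nat_lit 234) (nat_lit 2356) (nat_lit 0) (XT.nd (nat_lit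 78) (nat_lit 1368) (nat_lit 0) (XT.lf (nat_lit 0) (nat_lit 6804125984) (nat_lit 684) (nat_lit 1184575499) (nat_lit 760) (nat_lit 359648631) (nat_lit 248) (nat_lit 5) (nat_lit 257) (nat_lit 5) (nat_lit 258) (nat_lit 5) (nat_lit 299) (nat_lit 250) (nat_lit 231)) (XT.nd (nat_lit 78) (nat_lit 684) (nat_lit 0) (XT.lf (nat_lit 0) (nat_lit 4098755128) (nat_lit 684) (nat_lit 1604549041) (nat_lit 76) (nat_lit 2756618590) (nat_lit 239) (nat_lit 5) (nat_lit 248) (nat_lit 5) (nat_lit 240) (nat_lit 5) (nat_lit 300) (nat_lit 250) (nat_lit 230)) (XT.lf (nat_lit 0) (nat_lit 67696748) (nat_lit 684) (nat_lit 1674083303) (nat_lit 76) (nat_lit 6833906222) (nat_lit 230) (nat_lit 5) (nat_lit 239) (nat_lit 5) (nat_lit 231) (nat_lit 5) (nat_lit 301) (nat_lit 250) (nat_lit 229)))) (XT.nd (nat_lit 156) (nat_lit 1140) (nat_lit 0) (XT.nd (nat_lit 78) (nat_lit 684) (nat_lit 0) (XT.lf (nat_lit 0) (nat_lit 4538409688) (nat_lit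 608) (nat_lit 1790032222) (nat_lit 76) (nat_lit 2366601884) (nat_lit 223) (nat_lit 5) (nat_lit 231) (nat_lit 5) (nat_lit 224) (nat_lit 5) (nat_lit 302) (nat_lit 250) (nat_lit 228)) (XT.lf (nat_lit 0) (nat_lit 286994718) (nat_lit 684) (nat_lit 1925887908) (nat_lit 76) (nat_lit 6605796533) (nat_lit 214) (nat_lit 5) (nat_lit 223) (nat_lit 5) (nat_lit 215) (nat_lit 5) (nat_lit 303) (nat_lit 250) (nat_lit 227))) (XT.nd (nat_lit 78) (nat_lit 608) (nat_lit 0) (XT.lf (nat_lit 0) (nat_lit 4777823908) (nat_lit 608) (nat_lit 2113068964) (nat_lit 76) (nat_lit 2055231522) (nat_lit 207) (nat_lit 5) (nat_lit 215) (nat_lit 5) (nat_lit 208) (nat_lit 5) (nat_lit 304) (nat_lit 250) (nat_lit 226)) (XT.lf (nat_lit 0) (nat_lit 294977208) (nat_lit 608) (nat_lit 2331916584) (nat_lit 76) (nat_lit 6451046335) (nat_lit 199) (nat_lit 5) (nat_lit 207) (nat_lit 5) (nat_lit 200) (nat_lit 5) (nat_lit 305) (nat_lit 250) (nat_lit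 225))))) (XT.nd (nat_lit 234) (nat_lit 1900) (nat_lit 0) (XT.nd (nat_lit 78) (nat_lit 1064) (nat_lit 0) (XT.lf (nat_lit 0) (nat_lit 4808126791) (nat_lit 532) (nat_lit 2609468850) (nat_lit 76) (nat_lit 1796164779) (nat_lit 193) (nat_lit 5) (nat_lit 200) (nat_lit 5) (nat_lit 194) (nat_lit 5) (nat_lit 306) (nat_lit 250) (nat_lit 224)) (XT.nd (nat_lit 78) (nat_lit 456) (nat_lit 0) (XT.lf (nat_lit 0) (nat_lit 81558360) (nat_lit 608) (nat_lit 2929380253) (nat_lit 76) (nat_lit 6343156115) (nat_lit 185) (nat_lit 5) (nat_lit 193) (nat_lit 5) (nat_lit 186) (nat_lit 5) (nat_lit 307) (nat_lit 250) (nat_lit 223)) (XT.lf (nat_lit 0) (nat_lit 4618298121) (nat_lit 532) (nat_lit 3317830964) (nat_lit 76) (nat_lit 1562480997) (nat_lit 179) (nat_lit 5) (nat_lit 186) (nat_lit 5) (nat_lit 180) (nat_lit 5) (nat_lit 308) (nat_lit 250) (nat_lit 222)))) (XT.nd (nat_lit 156) (nat_lit 912) (nat_lit 0) (XT.nd (nat_lit 78)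 (nat_lit 532) (nat_lit 0) (XT.lf (nat_lit 0) (nat_lit 5886910552) (nat_lit 456) (nat_lit 3390435960) (nat_lit 532) (nat_lit 370438007) (nat_lit 173) (nat_lit 5) (nat_lit 179) (nat_lit 5) (nat_lit 180) (nat_lit 5) (nat_lit 309) (nat_lit 250) (nat_lit 221)) (XT.lf (nat_lit 0) (nat_lit 4195027267) (nat_lit 532) (nat_lit 4279941031) (nat_lit 76) (nat_lit 1326429078) (nat_lit 166) (nat_lit 5) (nat_lit 173) (nat_lit 5) (nat_lit 167) (nat_lit 5) (nat_lit 310) (nat_lit 250) (nat_lit 220))) (XT.nd (nat_lit 78) (nat_lit 456) (nat_lit 0) (XT.lf (nat_lit 0) (nat_lit 5090025028) (nat_lit 456) (nat_lit 3794506416) (nat_lit 532) (nat_lit 1075240178) (nat_lit 160) (nat_lit 5) (nat_lit 166) (nat_lit 5) (nat_lit 167) (nat_lit 5) (nat_lit 311) (nat_lit 250) (nat_lit 219)) (XT.lf (nat_lit 0) (nat_lit 3522550664) (nat_lit 456) (nat_lit 5541202875) (nat_lit 76) (nat_lit 1059162461) (nat_lit 154) (nat_lit 5) (nat_lit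 160) (nat_lit 5) (nat_lit 155) (nat_lit 5) (nat_lit 312) (nat_lit 250) (nat_lit 218))))))))
noncomputable def xc34 : XT := (XT.nd (nat_lit 2106) (nat_lit 2888) (nat_lit 0) (XT.nd (nat_lit 1014) (nat_lit 2736) (nat_lit 0) (XT.nd (nat_lit 468) (nat_lit 2356) (nat_lit 0) (XT.nd (nat_lit 234) (nat_lit 836) (nat_lit 0) (XT.nd (nat_lit 78) (nat_lit 836) (nat_lit 0) (XT.lf (nat_lit 0) (nat_lit 3987892030) (nat_lit 456) (nat_lit 4253749367) (nat_lit 532) (nat_lit 2049252458) (nat_lit 148) (nat_lit 5) (nat_lit 154) (nat_lit 5) (nat_lit 155) (nat_lit 5) (nat_lit 313) (nat_lit 250) (nat_lit 217)) (XT.nd (nat_lit 78) (nat_lit 380) (nat_lit 0) (XT.lf (nat_lit 0) (nat_lit 2582466225) (nat_lit 456) (nat_lit 7151108349) (nat_lit 76) (nat_lit 730459175) (nat_lit 142) (nat_lit 5) (nat_lit 148) (nat_lit 5) (nat_lit 143) (nat_lit 5) (nat_lit 314) (nat_lit 250) (nat_lit 216)) (XT.lf (nat_lit 0) (nat_lit 2529521713)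 (nat_lit 380) (nat_lit 4799777884) (nat_lit 456) (nat_lit 3312754929) (nat_lit 137) (nat_lit 5) (nat_lit 142) (nat_lit 5) (nat_lit 143) (nat_lit 5) (nat_lit 315) (nat_lit 250) (nat_lit 215)))) (XT.nd (nat_lit 78) (nat_lit 380) (nat_lit 0) (XT.lf (nat_lit 0) (nat_lit 1353522761) (nat_lit 456) (nat_lit 9163750250) (nat_lit 76) (nat_lit 308424449) (nat_lit 131) (nat_lit 5) (nat_lit 137) (nat_lit 5) (nat_lit 132) (nat_lit 5) (nat_lit 316) (nat_lit 250) (nat_lit 214)) (XT.nd (nat_lit 78) (nat_lit 0) (nat_lit 0) (XT.lf (nat_lit 0) (nat_lit 659114770) (nat_lit 380) (nat_lit 5466077055) (nat_lit 456) (nat_lit 4889046531) (nat_lit 126) (nat_lit 5) (nat_lit 131) (nat_lit 5) (nat_lit 132) (nat_lit 5) (nat_lit 317) (nat_lit 250) (nat_lit 213)) (XT.lf (nat_lit 0) (nat_lit 10782207285) (nat_lit 380) (nat_lit 239936319) (nat_lit 456) (nat_lit 186683033) (nat_lit 126) (nat_lit 5) (nat_lit 131) (nat_lit 5) (nat_lit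 132) (nat_lit 5) (nat_lit 318) (nat_lit 250) (nat_lit 212))))) (XT.nd (nat_lit 234) (nat_lit 1216) (nat_lit 0) (XT.nd (nat_lit 78) (nat_lit 760) (nat_lit 0) (XT.lf (nat_lit 0) (nat_lit 4614753492) (nat_lit 380) (nat_lit 1662427751) (nat_lit 76) (nat_lit 5131117287) (nat_lit 121) (nat_lit 5) (nat_lit 126) (nat_lit 5) (nat_lit 122) (nat_lit 5) (nat_lit 319) (nat_lit 250) (nat_lit 211)) (XT.nd (nat_lit 78) (nat_lit 380) (nat_lit 0) (XT.lf (nat_lit 0) (nat_lit 8608834469) (nat_lit 380) (nat_lit 932378523) (nat_lit 456) (nat_lit 2072877831) (nat_lit 116) (nat_lit 5) (nat_lit 121) (nat_lit 5) (nat_lit 122) (nat_lit 5) (nat_lit 320) (nat_lit 250) (nat_lit 210)) (XT.lf (nat_lit 0) (nat_lit 2765866287) (nat_lit 380) (nat_lit 4508689072) (nat_lit 76) (nat_lit 4550908243) (nat_lit 111) (nat_lit 5) (nat_lit 116) (nat_lit 5) (nat_lit 112) (nat_lit 5) (nat_lit 321) (nat_lit 250) (nat_lit 209)))) (XT.nd (nat_lit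 156) (nat_lit 532) (nat_lit 0) (XT.nd (nat_lit 78) (nat_lit 380) (nat_lit 0) (XT.lf (nat_lit 0) (nat_lit 5888428406) (nat_lit 304) (nat_lit 1823579085) (nat_lit 380) (nat_lit 4331116972) (nat_lit 107) (nat_lit 5) (nat_lit 111) (nat_lit 5) (nat_lit 112) (nat_lit 5) (nat_lit 322) (nat_lit 250) (nat_lit 208)) (XT.lf (nat_lit 0) (nat_lit 541978993) (nat_lit 380) (nat_lit 7961298677) (nat_lit 76) (nat_lit 3763798283) (nat_lit 102) (nat_lit 5) (nat_lit 107) (nat_lit 5) (nat_lit 103) (nat_lit 5) (nat_lit 323) (nat_lit 250) (nat_lit 207))) (XT.nd (nat_lit 78) (nat_lit 228) (nat_lit 0) (XT.lf (nat_lit 0) (nat_lit 2545457969) (nat_lit 304) (nat_lit 2955359804) (nat_lit 380) (nat_lit 6996414468) (nat_lit 98) (nat_lit 5) (nat_lit 102) (nat_lit 5) (nat_lit 103) (nat_lit 5) (nat_lit 324) (nat_lit 250) (nat_lit 206)) (XT.lf (nat_lit 0) (nat_lit 619808238) (nat_lit 228) (nat_lit 9993333305) (nat_lit 304) (nat_lit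 2121083184) (nat_lit 95) (nat_lit 5) (nat_lit 98) (nat_lit 5) (nat_lit 99) (nat_lit 5) (nat_lit 325) (nat_lit 250) (nat_lit 205)))))) (XT.nd (nat_lit 546) (nat_lit 1216) (nat_lit 0) (XT.nd (nat_lit 234) (nat_lit 912) (nat_lit 0) (XT.nd (nat_lit 78) (nat_lit 532) (nat_lit 0) (XT.lf (nat_lit 0) (nat_lit 2879461452) (nat_lit 304) (nat_lit 1483616326) (nat_lit 76) (nat_lit 8614557345) (nat_lit 94) (nat_lit 5) (nat_lit 98) (nat_lit 5) (nat_lit 95) (nat_lit 5) (nat_lit 326) (nat_lit 250) (nat_lit 204)) (XT.nd (nat_lit 78) (nat_lit 228) (nat_lit 0) (XT.lf (nat_lit 0) (nat_lit 8003802865) (nat_lit 380) (nat_lit 3770790989) (nat_lit 76) (nat_lit 1453445559) (nat_lit 90) (nat_lit 5) (nat_lit 95) (nat_lit 5) (nat_lit 91) (nat_lit 5) (nat_lit 327) (nat_lit 250) (nat_lit 203)) (XT.lf (nat_lit 0) (nat_lit 7217889449) (nat_lit 228) (nat_lit 6082592769) (nat_lit 304) (nat_lit 185124702) (nat_lit 87) (nat_lit 5)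 (nat_lit 90) (nat_lit 5) (nat_lit 91) (nat_lit 5) (nat_lit 328) (nat_lit 250) (nat_lit 202)))) (XT.nd (nat_lit 156) (nat_lit 304) (nat_lit 0) (XT.nd (nat_lit 78) (nat_lit 228) (nat_lit 0) (XT.lf (nat_lit 0) (nat_lit 4759640148) (nat_lit 304) (nat_lit 169761155) (nat_lit 380) (nat_lit 8821074649) (nat_lit 82) (nat_lit 5) (nat_lit 86) (nat_lit 5) (nat_lit 87) (nat_lit 5) (nat_lit 329) (nat_lit 250) (nat_lit 201)) (XT.lf (nat_lit 0) (nat_lit 2061350182) (nat_lit 228) (nat_lit 8162343791) (nat_lit 304) (nat_lit 3799017168) (nat_lit 79) (nat_lit 5) (nat_lit 82) (nat_lit 5) (nat_lit 83) (nat_lit 5) (nat_lit 330) (nat_lit 250) (nat_lit 200))) (XT.nd (nat_lit 78) (nat_lit 228) (nat_lit 0) (XT.lf (nat_lit 0) (nat_lit 1353188657) (nat_lit 304) (nat_lit 850228738) (nat_lit 76) (nat_lit 12099587996) (nat_lit 78) (nat_lit 5) (nat_lit 82) (nat_lit 5) (nat_lit 79) (nat_lit 5) (nat_lit 331) (nat_lit 250) (nat_lit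 199)) (XT.lf (nat_lit 0) (nat_lit 6640336285) (nat_lit 304) (nat_lit 4012053106) (nat_lit 76) (nat_lit 3938196909) (nat_lit 75) (nat_lit 5) (nat_lit 79) (nat_lit 5) (nat_lit 76) (nat_lit 5) (nat_lit 332) (nat_lit 250) (nat_lit 198))))) (XT.nd (nat_lit 234) (nat_lit 456) (nat_lit 0) (XT.nd (nat_lit 78) (nat_lit 532) (nat_lit 0) (XT.lf (nat_lit 0) (nat_lit 7455839903) (nat_lit 228) (nat_lit 4637056565) (nat_lit 304) (nat_lit 2793781477) (nat_lit 72) (nat_lit 5) (nat_lit 75) (nat_lit 5) (nat_lit 76) (nat_lit 5) (nat_lit 333) (nat_lit 250) (nat_lit 197)) (XT.nd (nat_lit 78) (nat_lit 228) (nat_lit 0) (XT.lf (nat_lit 0) (nat_lit 2487051458) (nat_lit 304) (nat_lit 11134891526) (nat_lit 76) (nat_lit 1569347084) (nat_lit 68) (nat_lit 5) (nat_lit 72) (nat_lit 5) (nat_lit 69) (nat_lit 5) (nat_lit 334) (nat_lit 250) (nat_lit 196)) (XT.lf (nat_lit 0) (nat_lit 339576744) (nat_lit 228) (nat_lit 7572367667) (nat_lit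 304) (nat_lit 7592272783) (nat_lit 65) (nat_lit 5) (nat_lit 68) (nat_lit 5) (nat_lit 69) (nat_lit 5) (nat_lit 335) (nat_lit 250) (nat_lit 195)))) (XT.nd (nat_lit 156) (nat_lit 152) (nat_lit 0) (XT.nd (nat_lit 78) (nat_lit 304) (nat_lit 0) (XT.lf (nat_lit 0) (nat_lit 12211546987) (nat_lit 228) (nat_lit 1304083110) (nat_lit 304) (nat_lit 2310598409) (nat_lit 65) (nat_lit 5) (nat_lit 68) (nat_lit 5) (nat_lit 69) (nat_lit 5) (nat_lit 336) (nat_lit 250) (nat_lit 194)) (XT.lf (nat_lit 0) (nat_lit 3117808362) (nat_lit 304) (nat_lit 7918377311) (nat_lit 76) (nat_lit 5120738032) (nat_lit 61) (nat_lit 5) (nat_lit 65) (nat_lit 5) (nat_lit 62) (nat_lit 5) (nat_lit 337) (nat_lit 250) (nat_lit 193))) (XT.nd (nat_lit 78) (nat_lit 0) (nat_lit 0) (XT.lf (nat_lit 0) (nat_lit 3930634934) (nat_lit 152) (nat_lit 4748863139) (nat_lit 228) (nat_lit 7817715750) (nat_lit 59) (nat_lit 5) (nat_lit 61) (nat_lit 5) (nat_lit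 62) (nat_lit 5) (nat_lit 338) (nat_lit 250) (nat_lit 192)) (XT.lf (nat_lit 0) (nat_lit 14416811913) (nat_lit 228) (nat_lit 710408282) (nat_lit 76) (nat_lit 1720332494) (nat_lit 59) (nat_lit 5) (nat_lit 62) (nat_lit 5) (nat_lit 60) (nat_lit 5) (nat_lit 339) (nat_lit 250) (nat_lit 191))))))) (XT.nd (nat_lit 1014) (nat_lit 988) (nat_lit 0) (XT.nd (nat_lit 468) (nat_lit 760) (nat_lit 0) (XT.nd (nat_lit 234) (nat_lit 456) (nat_lit 0) (XT.nd (nat_lit 78) (nat_lit 380) (nat_lit 0) (XT.lf (nat_lit 0) (nat_lit 3129077040) (nat_lit 304) (nat_lit 5700003984) (nat_lit 76) (nat_lit 8377888106) (nat_lit 55) (nat_lit 5) (nat_lit 59) (nat_lit 5) (nat_lit 56) (nat_lit 5) (nat_lit 340) (nat_lit 250) (nat_lit 190)) (XT.nd (nat_lit 78) (nat_lit 228) (nat_lit 0) (XT.lf (nat_lit 0) (nat_lit 6500332965) (nat_lit 152) (nat_lit 2315394420) (nat_lit 228) (nat_lit 8761272426) (nat_lit 53) (nat_lit 5) (nat_lit 55) (nat_lit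 5) (nat_lit 56) (nat_lit 5) (nat_lit 341) (nat_lit 250) (nat_lit 189)) (XT.lf (nat_lit 0) (nat_lit 1081257521) (nat_lit 228) (nat_lit 13612717452) (nat_lit 304) (nat_lit 3263750403) (nat_lit 50) (nat_lit 5) (nat_lit 53) (nat_lit 5) (nat_lit 54) (nat_lit 5) (nat_lit 342) (nat_lit 250) (nat_lit 188)))) (XT.nd (nat_lit 78) (nat_lit 380) (nat_lit 0) (XT.lf (nat_lit 0) (nat_lit 2405459047) (nat_lit 304) (nat_lit 4715103186) (nat_lit 76) (nat_lit 11228247821) (nat_lit 49) (nat_lit 5) (nat_lit 53) (nat_lit 5) (nat_lit 50) (nat_lit 5) (nat_lit 343) (nat_lit 250) (nat_lit 187)) (XT.nd (nat_lit 78) (nat_lit 228) (nat_lit 0) (XT.lf (nat_lit 0) (nat_lit 7803548047) (nat_lit 152) (nat_lit 396493122) (nat_lit 228) (nat_lit 10551174739) (nat_lit 47) (nat_lit 5) (nat_lit 49) (nat_lit 5) (nat_lit 50) (nat_lit 5) (nat_lit 344) (nat_lit 250) (nat_lit 186)) (XT.lf (nat_lit 0) (nat_lit 1486711220) (nat_lit 228) (nat_lit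 12715372209) (nat_lit 304) (nat_lit 4962950543) (nat_lit 44) (nat_lit 5) (nat_lit 47) (nat_lit 5) (nat_lit 48) (nat_lit 5) (nat_lit 345) (nat_lit 250) (nat_lit 185))))) (XT.nd (nat_lit 234) (nat_lit 380) (nat_lit 0) (XT.nd (nat_lit 78) (nat_lit 304) (nat_lit 0) (XT.lf (nat_lit 0) (nat_lit 809837572) (nat_lit 304) (nat_lit 5240784982) (nat_lit 76) (nat_lit 13540006615) (nat_lit 43) (nat_lit 5) (nat_lit 47) (nat_lit 5) (nat_lit 44) (nat_lit 5) (nat_lit 346) (nat_lit 250) (nat_lit 184)) (XT.nd (nat_lit 78) (nat_lit 152) (nat_lit 0) (XT.lf (nat_lit 0) (nat_lit 6694840681) (nat_lit 228) (nat_lit 12482360979) (nat_lit 76) (nat_lit 851016833) (nat_lit 41) (nat_lit 5) (nat_lit 44) (nat_lit 5) (nat_lit 42) (nat_lit 5) (nat_lit 347) (nat_lit 250) (nat_lit 183)) (XT.lf (nat_lit 0) (nat_lit 187843267) (nat_lit 152) (nat_lit 12598075901) (nat_lit 228) (nat_lit 7692437025) (nat_lit 39) (nat_lit 5) (nat_lit 41)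 (nat_lit 5) (nat_lit 42) (nat_lit 5) (nat_lit 348) (nat_lit 250) (nat_lit 182)))) (XT.nd (nat_lit 156) (nat_lit 152) (nat_lit 0) (XT.nd (nat_lit 78) (nat_lit 228) (nat_lit 0) (XT.lf (nat_lit 0) (nat_lit 13326836692) (nat_lit 152) (nat_lit 5770433593) (nat_lit 228) (nat_lit 1843987812) (nat_lit 39) (nat_lit 5) (nat_lit 41) (nat_lit 5) (nat_lit 42) (nat_lit 5) (nat_lit 349) (nat_lit 250) (nat_lit 181)) (XT.lf (nat_lit 0) (nat_lit 4122585171) (nat_lit 228) (nat_lit 16020815025) (nat_lit 76) (nat_lit 1274164626) (nat_lit 36) (nat_lit 5) (nat_lit 39) (nat_lit 5) (nat_lit 37) (nat_lit 5) (nat_lit 350) (nat_lit 250) (nat_lit 180))) (XT.nd (nat_lit 78) (nat_lit 152) (nat_lit 0) (XT.lf (nat_lit 0) (nat_lit 10288393123) (nat_lit 228) (nat_lit 3135701852) (nat_lit 76) (nat_lit 8482926244) (nat_lit 36) (nat_lit 5) (nat_lit 39) (nat_lit 5) (nat_lit 37) (nat_lit 5) (nat_lit 351) (nat_lit 250) (nat_lit 179))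 (XT.lf (nat_lit 0) (nat_lit 10192167033) (nat_lit 152) (nat_lit 6469123035) (nat_lit 228) (nat_lit 5749438703) (nat_lit 34) (nat_lit 5) (nat_lit 36) (nat_lit 5) (nat_lit 37) (nat_lit 5) (nat_lit 352) (nat_lit 250) (nat_lit 178)))))) (XT.nd (nat_lit 546) (nat_lit 304) (nat_lit 0) (XT.nd (nat_lit 234) (nat_lit 304) (nat_lit 0) (XT.nd (nat_lit 78) (nat_lit 152) (nat_lit 0) (XT.lf (nat_lit 0) (nat_lit 280539744) (nat_lit 228) (nat_lit 21966828013) (nat_lit 76) (nat_lit 682378804) (nat_lit 31) (nat_lit 5) (nat_lit 34) (nat_lit 5) (nat_lit 32) (nat_lit 5) (nat_lit 353) (nat_lit 250) (nat_lit 177)) (XT.nd (nat_lit 78) (nat_lit 152) (nat_lit 0) (XT.lf (nat_lit 0) (nat_lit 6497356166) (nat_lit 228) (nat_lit 8914052603) (nat_lit 76) (nat_lit 8050494040) (nat_lit 31) (nat_lit 5) (nat_lit 34) (nat_lit 5) (nat_lit 32) (nat_lit 5) (nat_lit 354) (nat_lit 250) (nat_lit 176)) (XT.lf (nat_lit 0) (nat_lit 4515540581)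 (nat_lit 152) (nat_lit 8372705490) (nat_lit 228) (nat_lit 11122035049) (nat_lit 29) (nat_lit 5) (nat_lit 31) (nat_lit 5) (nat_lit 32) (nat_lit 5) (nat_lit 355) (nat_lit 250) (nat_lit 175)))) (XT.nd (nat_lit 156) (nat_lit 152) (nat_lit 0) (XT.nd (nat_lit 78) (nat_lit 152) (nat_lit 0) (XT.lf (nat_lit 0) (nat_lit 18397251268) (nat_lit 152) (nat_lit 1093010352) (nat_lit 228) (nat_lit 5084469682) (nat_lit 29) (nat_lit 5) (nat_lit 31) (nat_lit 5) (nat_lit 32) (nat_lit 5) (nat_lit 356) (nat_lit 250) (nat_lit 174)) (XT.lf (nat_lit 0) (nat_lit 1170105629) (nat_lit 152) (nat_lit 17637678248) (nat_lit 76) (nat_lit 6347176750) (nat_lit 27) (nat_lit 5) (nat_lit 29) (nat_lit 5) (nat_lit 28) (nat_lit 5) (nat_lit 357) (nat_lit 250) (nat_lit 173))) (XT.nd (nat_lit 78) (nat_lit 152) (nat_lit 0) (XT.lf (nat_lit 0) (nat_lit 7553511652) (nat_lit 152) (nat_lit 4156551197) (nat_lit 76) (nat_lit 14041664244) (nat_lit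 27) (nat_lit 5) (nat_lit 29) (nat_lit 5) (nat_lit 28) (nat_lit 5) (nat_lit 358) (nat_lit 250) (nat_lit 172)) (XT.lf (nat_lit 0) (nat_lit 9788800483) (nat_lit 152) (nat_lit 4364757744) (nat_lit 228) (nat_lit 12212343184) (nat_lit 25) (nat_lit 5) (nat_lit 27) (nat_lit 5) (nat_lit 28) (nat_lit 5) (nat_lit 359) (nat_lit 250) (nat_lit 171))))) (XT.nd (nat_lit 234) (nat_lit 152) (nat_lit 0) (XT.nd (nat_lit 78) (nat_lit 152) (nat_lit 0) (XT.lf (nat_lit 0) (nat_lit 20962811952) (nat_lit 228) (nat_lit 2877545610) (nat_lit 76) (nat_lit 3157926686) (nat_lit 25) (nat_lit 5) (nat_lit 28) (nat_lit 5) (nat_lit 26) (nat_lit 4) (nat_lit 360) (nat_lit 250) (nat_lit 170)) (XT.nd (nat_lit 78) (nat_lit 0) (nat_lit 0) (XT.lf (nat_lit 0) (nat_lit 388486661) (nat_lit 152) (nat_lit 16365132100) (nat_lit 76) (nat_lit 10894663099) (nat_lit 23) (nat_lit 5) (nat_lit 25) (nat_lit 5) (nat_lit 24) (nat_lit 5) (nat_lit 361) (nat_lit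 250) (nat_lit 169)) (XT.lf (nat_lit 0) (nat_lit 6906841260) (nat_lit 152) (nat_lit 2515310476) (nat_lit 76) (nat_lit 18895163113) (nat_lit 23) (nat_lit 5) (nat_lit 25) (nat_lit 5) (nat_lit 24) (nat_lit 5) (nat_lit 362) (nat_lit 250) (nat_lit 168)))) (XT.nd (nat_lit 34008) (nat_lit 0) (nat_lit 38684) (XT.nd (nat_lit 78) (nat_lit 0) (nat_lit 0) (XT.lf (nat_lit 0) (nat_lit 11841735259) (nat_lit 152) (nat_lit 1820536001) (nat_lit 228) (nat_lit 15343323715) (nat_lit 21) (nat_lit 5) (nat_lit 23) (nat_lit 5) (nat_lit 24) (nat_lit 5) (nat_lit 363) (nat_lit 250) (nat_lit 167)) (XT.lf (nat_lit 0) (nat_lit 20641620432) (nat_lit 228) (nat_lit 3152454576) (nat_lit 76) (nat_lit 5920029821) (nat_lit 21) (nat_lit 5) (nat_lit 24) (nat_lit 5) (nat_lit 22) (nat_lit 4) (nat_lit 364) (nat_lit 250) (nat_lit 166))) (XT.nd (nat_lit 78) (nat_lit 1216) (nat_lit 0) (XT.lf (nat_lit 0) (nat_lit 1600715863) (nat_lit 1140) (nat_lit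 201092050) (nat_lit 0) (nat_lit 1600715863) (nat_lit 546) (nat_lit 5) (nat_lit 561) (nat_lit 4) (nat_lit 546) (nat_lit 4) (nat_lit 278) (nat_lit 251) (nat_lit 251)) (XT.lf (nat_lit 0) (nat_lit 1093818174) (nat_lit 1216) (nat_lit 726390759) (nat_lit 76) (nat_lit 5027278735) (nat_lit 530) (nat_lit 5) (nat_lit 546) (nat_lit 5) (nat_lit 531) (nat_lit 4) (nat_lit 279) (nat_lit 251) (nat_lit 250))))))))
noncomputable def xc35 : XT := (XT.nd (nat_lit 2106) (nat_lit 9272) (nat_lit 0) (XT.nd (nat_lit 1014) (nat_lit 9272) (nat_lit 0) (XT.nd (nat_lit 468) (nat_lit 7600) (nat_lit 0) (XT.nd (nat_lit 234) (nat_lit 4712) (nat_lit 0) (XT.nd (nat_lit 78) (nat_lit 2812) (nat_lit 0) (XT.lf (nat_lit 0) (nat_lit 5775452094) (nat_lit 1292) (nat_lit 1014964093) (nat_lit 0) (nat_lit 102613669) (nat_lit 514) (nat_lit 5) (nat_lit 531) (nat_lit 4) (nat_lit 514) (nat_lit 4) (nat_lit 280) (nat_lit 251) (nat_lit 249)) (XT.nd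 (nat_lit 78) (nat_lit 1444) (nat_lit 0) (XT.lf (nat_lit 0) (nat_lit 3516934033) (nat_lit 1368) (nat_lit 1281740112) (nat_lit 76) (nat_lit 2142785829) (nat_lit 496) (nat_lit 5) (nat_lit 514) (nat_lit 5) (nat_lit 497) (nat_lit 4) (nat_lit 281) (nat_lit 251) (nat_lit 248)) (XT.lf (nat_lit 0) (nat_lit 1165495876) (nat_lit 1444) (nat_lit 1508891239) (nat_lit 76) (nat_lit 4318812584) (nat_lit 477) (nat_lit 5) (nat_lit 496) (nat_lit 5) (nat_lit 478) (nat_lit 5) (nat_lit 282) (nat_lit 251) (nat_lit 247)))) (XT.nd (nat_lit 78) (nat_lit 3268) (nat_lit 0) (XT.lf (nat_lit 0) (nat_lit 5342049267) (nat_lit 1444) (nat_lit 407000303) (nat_lit 1520) (nat_lit 1299074108) (nat_lit 458) (nat_lit 5) (nat_lit 477) (nat_lit 5) (nat_lit 478) (nat_lit 5) (nat_lit 283) (nat_lit 251) (nat_lit 246)) (XT.nd (nat_lit 78) (nat_lit 1672) (nat_lit 0) (XT.lf (nat_lit 0) (nat_lit 3239471250) (nat_lit 1596) (nat_lit 1887411219) (nat_lit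 76) (nat_lit 1979137577) (nat_lit 437) (nat_lit 5) (nat_lit 458) (nat_lit 5) (nat_lit 438) (nat_lit 5) (nat_lit 284) (nat_lit 251) (nat_lit 245)) (XT.lf (nat_lit 0) (nat_lit 632739613) (nat_lit 1672) (nat_lit 2036991980) (nat_lit 76) (nat_lit 4497548867) (nat_lit 415) (nat_lit 5) (nat_lit 437) (nat_lit 5) (nat_lit 416) (nat_lit 5) (nat_lit 285) (nat_lit 251) (nat_lit 244))))) (XT.nd (nat_lit 234) (nat_lit 3572) (nat_lit 0) (XT.nd (nat_lit 78) (nat_lit 2356) (nat_lit 0) (XT.lf (nat_lit 0) (nat_lit 5064650851) (nat_lit 1672) (nat_lit 62201186) (nat_lit 1748) (nat_lit 2104884003) (nat_lit 393) (nat_lit 5) (nat_lit 415) (nat_lit 5) (nat_lit 416) (nat_lit 5) (nat_lit 286) (nat_lit 251) (nat_lit 243)) (XT.nd (nat_lit 78) (nat_lit 836) (nat_lit 0) (XT.lf (nat_lit 0) (nat_lit 2357845005) (nat_lit 1520) (nat_lit 2287597675) (nat_lit 76) (nat_lit 2653825626) (nat_lit 373) (nat_lit 5) (nat_lit 393) (nat_lit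 5) (nat_lit 374) (nat_lit 5) (nat_lit 287) (nat_lit 251) (nat_lit 242)) (XT.lf (nat_lit 0) (nat_lit 4987349877) (nat_lit 836) (nat_lit 1857666910) (nat_lit 912) (nat_lit 525255565) (nat_lit 362) (nat_lit 5) (nat_lit 373) (nat_lit 5) (nat_lit 374) (nat_lit 5) (nat_lit 288) (nat_lit 251) (nat_lit 241)))) (XT.nd (nat_lit 156) (nat_lit 1672) (nat_lit 0) (XT.nd (nat_lit 78) (nat_lit 912) (nat_lit 0) (XT.lf (nat_lit 0) (nat_lit 3898995609) (nat_lit 988) (nat_lit 2473847751) (nat_lit 76) (nat_lit 1071575463) (nat_lit 349) (nat_lit 5) (nat_lit 362) (nat_lit 5) (nat_lit 350) (nat_lit 5) (nat_lit 289) (nat_lit 251) (nat_lit 240)) (XT.lf (nat_lit 0) (nat_lit 852677307) (nat_lit 912) (nat_lit 2552147448) (nat_lit 76) (nat_lit 4117137494) (nat_lit 337) (nat_lit 5) (nat_lit 349) (nat_lit 5) (nat_lit 338) (nat_lit 5) (nat_lit 290) (nat_lit 251) (nat_lit 239))) (XT.nd (nat_lit 78) (nat_lit 836) (nat_lit 0) (XT.lf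 (nat_lit 0) (nat_lit 4980559595) (nat_lit 836) (nat_lit 281577090) (nat_lit 912) (nat_lit 2340769231) (nat_lit 326) (nat_lit 5) (nat_lit 337) (nat_lit 5) (nat_lit 338) (nat_lit 5) (nat_lit 291) (nat_lit 251) (nat_lit 238)) (XT.lf (nat_lit 0) (nat_lit 2039124626) (nat_lit 836) (nat_lit 2696481765) (nat_lit 76) (nat_lit 2951500401) (nat_lit 315) (nat_lit 5) (nat_lit 326) (nat_lit 5) (nat_lit 316) (nat_lit 5) (nat_lit 292) (nat_lit 251) (nat_lit 237)))))) (XT.nd (nat_lit 546) (nat_lit 4104) (nat_lit 0) (XT.nd (nat_lit 234) (nat_lit 2888) (nat_lit 0) (XT.nd (nat_lit 78) (nat_lit 1520) (nat_lit 0) (XT.lf (nat_lit 0) (nat_lit 5012554926) (nat_lit 760) (nat_lit 1441095760) (nat_lit 836) (nat_lit 1321259984) (nat_lit 305) (nat_lit 5) (nat_lit 315) (nat_lit 5) (nat_lit 316) (nat_lit 5) (nat_lit 293) (nat_lit 251) (nat_lit 236)) (XT.nd (nat_lit 78) (nat_lit 760) (nat_lit 0) (XT.lf (nat_lit 0) (nat_lit 3042613997)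 (nat_lit 760) (nat_lit 2838396497) (nat_lit 76) (nat_lit 1985044622) (nat_lit 295) (nat_lit 5) (nat_lit 305) (nat_lit 5) (nat_lit 296) (nat_lit 5) (nat_lit 294) (nat_lit 251) (nat_lit 235)) (XT.lf (nat_lit 0) (nat_lit 5047631020) (nat_lit 760) (nat_lit 2419916112) (nat_lit 836) (nat_lit 493330775) (nat_lit 285) (nat_lit 5) (nat_lit 295) (nat_lit 5) (nat_lit 296) (nat_lit 5) (nat_lit 295) (nat_lit 251) (nat_lit 234)))) (XT.nd (nat_lit 156) (nat_lit 1368) (nat_lit 0) (XT.nd (nat_lit 78) (nat_lit 760) (nat_lit 0) (XT.lf (nat_lit 0) (nat_lit 3863125216) (nat_lit 760) (nat_lit 3004743368) (nat_lit 76) (nat_lit 1191269062) (nat_lit 275) (nat_lit 5) (nat_lit 285) (nat_lit 5) (nat_lit 276) (nat_lit 5) (nat_lit 296) (nat_lit 251) (nat_lit 233)) (XT.lf (nat_lit 0) (nat_lit 140194738) (nat_lit 760) (nat_lit 3103464562) (nat_lit 76) (nat_lit 4917483718) (nat_lit 265) (nat_lit 5) (nat_lit 275) (nat_lit 5) (nat_lit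 266) (nat_lit 5) (nat_lit 297) (nat_lit 251) (nat_lit 232))) (XT.nd (nat_lit 78) (nat_lit 760) (nat_lit 0) (XT.lf (nat_lit 0) (nat_lit 4498937916) (nat_lit 684) (nat_lit 3223603915) (nat_lit 76) (nat_lit 544193720) (nat_lit 257) (nat_lit 5) (nat_lit 266) (nat_lit 5) (nat_lit 258) (nat_lit 5) (nat_lit 298) (nat_lit 251) (nat_lit 231)) (XT.lf (nat_lit 0) (nat_lit 574545217) (nat_lit 760) (nat_lit 3362913846) (nat_lit 76) (nat_lit 4438631914) (nat_lit 247) (nat_lit 5) (nat_lit 257) (nat_lit 5) (nat_lit 248) (nat_lit 5) (nat_lit 299) (nat_lit 251) (nat_lit 230))))) (XT.nd (nat_lit 234) (nat_lit 2280) (nat_lit 0) (XT.nd (nat_lit 78) (nat_lit 1216) (nat_lit 0) (XT.lf (nat_lit 0) (nat_lit 4946575838) (nat_lit 684) (nat_lit 3524564756) (nat_lit 76) (nat_lit 18141708) (nat_lit 239) (nat_lit 5) (nat_lit 248) (nat_lit 5) (nat_lit 240) (nat_lit 5) (nat_lit 300) (nat_lit 251) (nat_lit 229)) (XT.nd (nat_lit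 78) (nat_lit 532) (nat_lit 0) (XT.lf (nat_lit 0) (nat_lit 811696658) (nat_lit 684) (nat_lit 3718909058) (nat_lit 76) (nat_lit 4075639062) (nat_lit 230) (nat_lit 5) (nat_lit 239) (nat_lit 5) (nat_lit 231) (nat_lit 5) (nat_lit 301) (nat_lit 251) (nat_lit 228)) (XT.lf (nat_lit 0) (nat_lit 4785486429) (nat_lit 532) (nat_lit 417963067) (nat_lit 608) (nat_lit 3523761815) (nat_lit 223) (nat_lit 5) (nat_lit 230) (nat_lit 5) (nat_lit 231) (nat_lit 5) (nat_lit 302) (nat_lit 251) (nat_lit 227)))) (XT.nd (nat_lit 156) (nat_lit 1064) (nat_lit 0) (XT.nd (nat_lit 78) (nat_lit 532) (nat_lit 0) (XT.lf (nat_lit 0) (nat_lit 845271574) (nat_lit 684) (nat_lit 4203914654) (nat_lit 76) (nat_lit 3802932543) (nat_lit 214) (nat_lit 5) (nat_lit 223) (nat_lit 5) (nat_lit 215) (nat_lit 5) (nat_lit 303) (nat_lit 251) (nat_lit 226)) (XT.lf (nat_lit 0) (nat_lit 4475597705) (nat_lit 532) (nat_lit 783691039) (nat_lit 608) (nat_lit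 3721839049) (nat_lit 207) (nat_lit 5) (nat_lit 214) (nat_lit 5) (nat_lit 215) (nat_lit 5) (nat_lit 304) (nat_lit 251) (nat_lit 225))) (XT.nd (nat_lit 78) (nat_lit 456) (nat_lit 0) (XT.lf (nat_lit 0) (nat_lit 666913620) (nat_lit 608) (nat_lit 4852668896) (nat_lit 76) (nat_lit 3594702647) (nat_lit 199) (nat_lit 5) (nat_lit 207) (nat_lit 5) (nat_lit 200) (nat_lit 5) (nat_lit 305) (nat_lit 251) (nat_lit 224)) (XT.lf (nat_lit 0) (nat_lit 3999650562) (nat_lit 456) (nat_lit 1105259609) (nat_lit 532) (nat_lit 4146723800) (nat_lit 193) (nat_lit 5) (nat_lit 199) (nat_lit 5) (nat_lit 200) (nat_lit 5) (nat_lit 306) (nat_lit 251) (nat_lit 223))))))) (XT.nd (nat_lit 1092) (nat_lit 3420) (nat_lit 0) (XT.nd (nat_lit 546) (nat_lit 2432) (nat_lit 0) (XT.nd (nat_lit 234) (nat_lit 1900) (nat_lit 0) (XT.nd (nat_lit 78) (nat_lit 912) (nat_lit 0) (XT.lf (nat_lit 0) (nat_lit 266174270) (nat_lit 608) (nat_lit 5702536074)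 (nat_lit 76) (nat_lit 3424666510) (nat_lit 185) (nat_lit 5) (nat_lit 193) (nat_lit 5) (nat_lit 186) (nat_lit 5) (nat_lit 307) (nat_lit 251) (nat_lit 222)) (XT.nd (nat_lit 78) (nat_lit 456) (nat_lit 0) (XT.lf (nat_lit 0) (nat_lit 3319362688) (nat_lit 456) (nat_lit 1409749751) (nat_lit 532) (nat_lit 4810279323) (nat_lit 179) (nat_lit 5) (nat_lit 185) (nat_lit 5) (nat_lit 186) (nat_lit 5) (nat_lit 308) (nat_lit 251) (nat_lit 221)) (XT.lf (nat_lit 0) (nat_lit 2893722767) (nat_lit 456) (nat_lit 6421787648) (nat_lit 532) (nat_lit 374531633) (nat_lit 173) (nat_lit 5) (nat_lit 179) (nat_lit 5) (nat_lit 180) (nat_lit 5) (nat_lit 309) (nat_lit 251) (nat_lit 220)))) (XT.nd (nat_lit 156) (nat_lit 912) (nat_lit 0) (XT.nd (nat_lit 78) (nat_lit 456) (nat_lit 0) (XT.lf (nat_lit 0) (nat_lit 2393297320) (nat_lit 456) (nat_lit 1725118735) (nat_lit 532) (nat_lit 5726712545) (nat_lit 166) (nat_lit 5) (nat_lit 172)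 (nat_lit 5) (nat_lit 173) (nat_lit 5) (nat_lit 310) (nat_lit 251) (nat_lit 219)) (XT.lf (nat_lit 0) (nat_lit 1826250503) (nat_lit 456) (nat_lit 6906571674) (nat_lit 532) (nat_lit 1272203736) (nat_lit 160) (nat_lit 5) (nat_lit 166) (nat_lit 5) (nat_lit 167) (nat_lit 5) (nat_lit 311) (nat_lit 251) (nat_lit 218))) (XT.nd (nat_lit 78) (nat_lit 456) (nat_lit 0) (XT.lf (nat_lit 0) (nat_lit 1176434497) (nat_lit 380) (nat_lit 2080466822) (nat_lit 456) (nat_lit 6912740017) (nat_lit 154) (nat_lit 5) (nat_lit 159) (nat_lit 5) (nat_lit 160) (nat_lit 5) (nat_lit 312) (nat_lit 251) (nat_lit 217)) (XT.lf (nat_lit 0) (nat_lit 443265658) (nat_lit 456) (nat_lit 7454789918) (nat_lit 532) (nat_lit 2441141849) (nat_lit 148) (nat_lit 5) (nat_lit 154) (nat_lit 5) (nat_lit 155) (nat_lit 5) (nat_lit 313) (nat_lit 251) (nat_lit 216))))) (XT.nd (nat_lit 234) (nat_lit 1520) (nat_lit 0) (XT.nd (nat_lit 78) (nat_lit 836) (nat_lit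 0) (XT.lf (nat_lit 0) (nat_lit 2128492515) (nat_lit 532) (nat_lit 375308214) (nat_lit 76) (nat_lit 8009950523) (nat_lit 147) (nat_lit 5) (nat_lit 154) (nat_lit 5) (nat_lit 148) (nat_lit 5) (nat_lit 314) (nat_lit 251) (nat_lit 215)) (XT.nd (nat_lit 78) (nat_lit 456) (nat_lit 0) (XT.lf (nat_lit 0) (nat_lit 6799977899) (nat_lit 456) (nat_lit 1289344875) (nat_lit 76) (nat_lit 2603974239) (nat_lit 142) (nat_lit 5) (nat_lit 148) (nat_lit 5) (nat_lit 143) (nat_lit 5) (nat_lit 315) (nat_lit 251) (nat_lit 214)) (XT.lf (nat_lit 0) (nat_lit 719533775) (nat_lit 456) (nat_lit 2299958328) (nat_lit 76) (nat_lit 7858761168) (nat_lit 136) (nat_lit 5) (nat_lit 142) (nat_lit 5) (nat_lit 137) (nat_lit 5) (nat_lit 316) (nat_lit 251) (nat_lit 213)))) (XT.nd (nat_lit 156) (nat_lit 760) (nat_lit 0) (XT.nd (nat_lit 78) (nat_lit 380) (nat_lit 0) (XT.lf (nat_lit 0) (nat_lit 5413079788) (nat_lit 456) (nat_lit 3433440252)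 (nat_lit 76) (nat_lit 2221853244) (nat_lit 131) (nat_lit 5) (nat_lit 137) (nat_lit 5) (nat_lit 132) (nat_lit 5) (nat_lit 317) (nat_lit 251) (nat_lit 212)) (XT.lf (nat_lit 0) (nat_lit 6586683118) (nat_lit 380) (nat_lit 3662516293) (nat_lit 456) (nat_lit 1014994968) (nat_lit 126) (nat_lit 5) (nat_lit 131) (nat_lit 5) (nat_lit 132) (nat_lit 5) (nat_lit 318) (nat_lit 251) (nat_lit 211))) (XT.nd (nat_lit 78) (nat_lit 380) (nat_lit 0) (XT.lf (nat_lit 0) (nat_lit 3709046453) (nat_lit 380) (nat_lit 6055529541) (nat_lit 76) (nat_lit 1700978400) (nat_lit 121) (nat_lit 5) (nat_lit 126) (nat_lit 5) (nat_lit 122) (nat_lit 5) (nat_lit 319) (nat_lit 251) (nat_lit 210)) (XT.lf (nat_lit 0) (nat_lit 4100709249) (nat_lit 380) (nat_lit 4468745117) (nat_lit 456) (nat_lit 3103228296) (nat_lit 116) (nat_lit 5) (nat_lit 121) (nat_lit 5) (nat_lit 122) (nat_lit 5) (nat_lit 320) (nat_lit 251) (nat_lit 209)))))) (XT.nd (nat_lit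 546) (nat_lit 1444) (nat_lit 0) (XT.nd (nat_lit 234) (nat_lit 1292) (nat_lit 0) (XT.nd (nat_lit 78) (nat_lit 304) (nat_lit 0) (XT.lf (nat_lit 0) (nat_lit 1659012782) (nat_lit 380) (nat_lit 9222286059) (nat_lit 76) (nat_lit 1004704943) (nat_lit 111) (nat_lit 5) (nat_lit 116) (nat_lit 5) (nat_lit 112) (nat_lit 5) (nat_lit 321) (nat_lit 251) (nat_lit 208)) (XT.nd (nat_lit 78) (nat_lit 0) (nat_lit 0) (XT.lf (nat_lit 0) (nat_lit 1056265408) (nat_lit 304) (nat_lit 5481774510) (nat_lit 380) (nat_lit 5566980819) (nat_lit 107) (nat_lit 5) (nat_lit 111) (nat_lit 5) (nat_lit 112) (nat_lit 5) (nat_lit 322) (nat_lit 251) (nat_lit 207)) (XT.lf (nat_lit 0) (nat_lit 11555453350) (nat_lit 380) (nat_lit 672297755) (nat_lit 76) (nat_lit 103044002) (nat_lit 107) (nat_lit 5) (nat_lit 112) (nat_lit 5) (nat_lit 108) (nat_lit 5) (nat_lit 323) (nat_lit 251) (nat_lit 206)))) (XT.nd (nat_lit 156) (nat_lit 608) (nat_lit 0)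 (XT.nd (nat_lit 78) (nat_lit 304) (nat_lit 0) (XT.lf (nat_lit 0) (nat_lit 4137942376) (nat_lit 380) (nat_lit 2588149432) (nat_lit 76) (nat_lit 5836087497) (nat_lit 102) (nat_lit 5) (nat_lit 107) (nat_lit 5) (nat_lit 103) (nat_lit 5) (nat_lit 324) (nat_lit 251) (nat_lit 205)) (XT.lf (nat_lit 0) (nat_lit 8142762071) (nat_lit 304) (nat_lit 1034366630) (nat_lit 380) (nat_lit 3623518228) (nat_lit 98) (nat_lit 5) (nat_lit 102) (nat_lit 5) (nat_lit 103) (nat_lit 5) (nat_lit 325) (nat_lit 251) (nat_lit 204))) (XT.nd (nat_lit 78) (nat_lit 304) (nat_lit 0) (XT.lf (nat_lit 0) (nat_lit 1325377848) (nat_lit 304) (nat_lit 6927307194) (nat_lit 76) (nat_lit 4793006239) (nat_lit 94) (nat_lit 5) (nat_lit 98) (nat_lit 5) (nat_lit 95) (nat_lit 5) (nat_lit 326) (nat_lit 251) (nat_lit 203)) (XT.lf (nat_lit 0) (nat_lit 3898103557) (nat_lit 304) (nat_lit 2473090219) (nat_lit 380) (nat_lit 6926483754) (nat_lit 90) (nat_lit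 5) (nat_lit 94) (nat_lit 5) (nat_lit 95) (nat_lit 5) (nat_lit 327) (nat_lit 251) (nat_lit 202))))) (XT.nd (nat_lit 234) (nat_lit 836) (nat_lit 0) (XT.nd (nat_lit 78) (nat_lit 380) (nat_lit 0) (XT.lf (nat_lit 0) (nat_lit 1478029705) (nat_lit 228) (nat_lit 10104211173) (nat_lit 304) (nat_lit 1974727921) (nat_lit 87) (nat_lit 5) (nat_lit 90) (nat_lit 5) (nat_lit 91) (nat_lit 5) (nat_lit 328) (nat_lit 251) (nat_lit 201)) (XT.nd (nat_lit 78) (nat_lit 304) (nat_lit 0) (XT.lf (nat_lit 0) (nat_lit 3100447212) (nat_lit 304) (nat_lit 1153833621) (nat_lit 76) (nat_lit 9569056401) (nat_lit 86) (nat_lit 5) (nat_lit 90) (nat_lit 5) (nat_lit 87) (nat_lit 5) (nat_lit 329) (nat_lit 251) (nat_lit 200)) (XT.lf (nat_lit 0) (nat_lit 8315752226) (nat_lit 380) (nat_lit 3992060405) (nat_lit 76) (nat_lit 1789349818) (nat_lit 82) (nat_lit 5) (nat_lit 87) (nat_lit 5) (nat_lit 83) (nat_lit 5) (nat_lit 330) (nat_lit 251) (nat_lit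 199)))) (XT.nd (nat_lit 156) (nat_lit 304) (nat_lit 0) (XT.nd (nat_lit 78) (nat_lit 304) (nat_lit 0) (XT.lf (nat_lit 0) (nat_lit 7305099150) (nat_lit 228) (nat_lit 6404196778) (nat_lit 304) (nat_lit 669491148) (nat_lit 79) (nat_lit 5) (nat_lit 82) (nat_lit 5) (nat_lit 83) (nat_lit 5) (nat_lit 331) (nat_lit 251) (nat_lit 198)) (XT.lf (nat_lit 0) (nat_lit 4253304466) (nat_lit 228) (nat_lit 275820847) (nat_lit 304) (nat_lit 10139285334) (nat_lit 75) (nat_lit 5) (nat_lit 78) (nat_lit 5) (nat_lit 79) (nat_lit 5) (nat_lit 332) (nat_lit 251) (nat_lit 197))) (XT.nd (nat_lit 78) (nat_lit 76) (nat_lit 0) (XT.lf (nat_lit 0) (nat_lit 919937527) (nat_lit 228) (nat_lit 8987800124) (nat_lit 304) (nat_lit 5058252814) (nat_lit 72) (nat_lit 5) (nat_lit 75) (nat_lit 5) (nat_lit 76) (nat_lit 5) (nat_lit 333) (nat_lit 251) (nat_lit 196)) (XT.lf (nat_lit 0) (nat_lit 186178800) (nat_lit 304) (nat_lit 2635447262) (nat_lit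 76) (nat_lit 12450601354) (nat_lit 71) (nat_lit 5) (nat_lit 75) (nat_lit 5) (nat_lit 72) (nat_lit 5) (nat_lit 334) (nat_lit 251) (nat_lit 195))))))))
noncomputable def xc36 : XT := (XT.nd (nat_lit 2106) (nat_lit 228) (nat_lit 0) (XT.nd (nat_lit 1014) (nat_lit 1444) (nat_lit 0) (XT.nd (nat_lit 468) (nat_lit 912) (nat_lit 0) (XT.nd (nat_lit 234) (nat_lit 456) (nat_lit 0) (XT.nd (nat_lit 78) (nat_lit 532) (nat_lit 0) (XT.lf (nat_lit 0) (nat_lit 5544146120) (nat_lit 304) (nat_lit 6502796730) (nat_lit 76) (nat_lit 3539558722) (nat_lit 68) (nat_lit 5) (nat_lit 72) (nat_lit 5) (nat_lit 69) (nat_lit 5) (nat_lit 335) (nat_lit 251) (nat_lit 194)) (XT.nd (nat_lit 78) (nat_lit 304) (nat_lit 0) (XT.lf (nat_lit 0) (nat_lit 5235335842) (nat_lit 228) (nat_lit 5841301953) (nat_lit 304) (nat_lit 4833307238) (nat_lit 65) (nat_lit 5) (nat_lit 68) (nat_lit 5) (nat_lit 69) (nat_lit 5) (nat_lit 336) (nat_lit 251) (nat_lit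 193)) (XT.lf (nat_lit 0) (nat_lit 523768279) (nat_lit 304) (nat_lit 15158105902) (nat_lit 76) (nat_lit 561189845) (nat_lit 61) (nat_lit 5) (nat_lit 65) (nat_lit 5) (nat_lit 62) (nat_lit 5) (nat_lit 337) (nat_lit 251) (nat_lit 192)))) (XT.nd (nat_lit 78) (nat_lit 456) (nat_lit 0) (XT.lf (nat_lit 0) (nat_lit 6032555262) (nat_lit 304) (nat_lit 3406739844) (nat_lit 76) (nat_lit 7145124734) (nat_lit 61) (nat_lit 5) (nat_lit 65) (nat_lit 5) (nat_lit 62) (nat_lit 5) (nat_lit 338) (nat_lit 251) (nat_lit 191)) (XT.nd (nat_lit 78) (nat_lit 304) (nat_lit 0) (XT.lf (nat_lit 0) (nat_lit 8720692822) (nat_lit 152) (nat_lit 2988566223) (nat_lit 228) (nat_lit 5226719279) (nat_lit 59) (nat_lit 5) (nat_lit 61) (nat_lit 5) (nat_lit 62) (nat_lit 5) (nat_lit 339) (nat_lit 251) (nat_lit 190)) (XT.lf (nat_lit 0) (nat_lit 273975527) (nat_lit 304) (nat_lit 13401537699) (nat_lit 76) (nat_lit 3622167525) (nat_lit 55) (nat_lit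 5) (nat_lit 59) (nat_lit 5) (nat_lit 56) (nat_lit 5) (nat_lit 340) (nat_lit 251) (nat_lit 189))))) (XT.nd (nat_lit 234) (nat_lit 532) (nat_lit 0) (XT.nd (nat_lit 78) (nat_lit 380) (nat_lit 0) (XT.lf (nat_lit 0) (nat_lit 5892510872) (nat_lit 304) (nat_lit 1330523288) (nat_lit 76) (nat_lit 10446046427) (nat_lit 55) (nat_lit 5) (nat_lit 59) (nat_lit 5) (nat_lit 56) (nat_lit 5) (nat_lit 341) (nat_lit 251) (nat_lit 188)) (XT.nd (nat_lit 78) (nat_lit 228) (nat_lit 0) (XT.lf (nat_lit 0) (nat_lit 11162159862) (nat_lit 152) (nat_lit 538848185) (nat_lit 228) (nat_lit 6350199771) (nat_lit 53) (nat_lit 5) (nat_lit 55) (nat_lit 5) (nat_lit 56) (nat_lit 5) (nat_lit 342) (nat_lit 251) (nat_lit 187)) (XT.lf (nat_lit 0) (nat_lit 5548492769) (nat_lit 228) (nat_lit 12171206119) (nat_lit 304) (nat_lit 724394321) (nat_lit 50) (nat_lit 5) (nat_lit 53) (nat_lit 5) (nat_lit 54) (nat_lit 5) (nat_lit 343) (nat_lit 251)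 (nat_lit 186)))) (XT.nd (nat_lit 156) (nat_lit 304) (nat_lit 0) (XT.nd (nat_lit 78) (nat_lit 152) (nat_lit 0) (XT.lf (nat_lit 0) (nat_lit 5004496938) (nat_lit 304) (nat_lit 516713025) (nat_lit 76) (nat_lit 13326893144) (nat_lit 49) (nat_lit 5) (nat_lit 53) (nat_lit 5) (nat_lit 50) (nat_lit 5) (nat_lit 344) (nat_lit 251) (nat_lit 185)) (XT.lf (nat_lit 0) (nat_lit 10935998453) (nat_lit 228) (nat_lit 6965388422) (nat_lit 76) (nat_lit 1361951082) (nat_lit 47) (nat_lit 5) (nat_lit 50) (nat_lit 5) (nat_lit 48) (nat_lit 5) (nat_lit 345) (nat_lit 251) (nat_lit 184))) (XT.nd (nat_lit 78) (nat_lit 76) (nat_lit 0) (XT.lf (nat_lit 0) (nat_lit 5769477385) (nat_lit 228) (nat_lit 11306192877) (nat_lit 304) (nat_lit 2614766856) (nat_lit 44) (nat_lit 5) (nat_lit 47) (nat_lit 5) (nat_lit 48) (nat_lit 5) (nat_lit 346) (nat_lit 251) (nat_lit 183)) (XT.lf (nat_lit 0) (nat_lit 3226678963) (nat_lit 304) (nat_lit 1250921103)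 (nat_lit 76) (nat_lit 15652328439) (nat_lit 43) (nat_lit 5) (nat_lit 47) (nat_lit 5) (nat_lit 44) (nat_lit 5) (nat_lit 347) (nat_lit 251) (nat_lit 182)))))) (XT.nd (nat_lit 546) (nat_lit 532) (nat_lit 0) (XT.nd (nat_lit 234) (nat_lit 532) (nat_lit 0) (XT.nd (nat_lit 78) (nat_lit 228) (nat_lit 0) (XT.lf (nat_lit 0) (nat_lit 9256270429) (nat_lit 228) (nat_lit 8740722181) (nat_lit 76) (nat_lit 2584308694) (nat_lit 41) (nat_lit 5) (nat_lit 44) (nat_lit 5) (nat_lit 42) (nat_lit 5) (nat_lit 348) (nat_lit 251) (nat_lit 181)) (XT.nd (nat_lit 78) (nat_lit 76) (nat_lit 0) (XT.lf (nat_lit 0) (nat_lit 4242809204) (nat_lit 152) (nat_lit 11244808119) (nat_lit 228) (nat_lit 5558191171) (nat_lit 39) (nat_lit 5) (nat_lit 41) (nat_lit 5) (nat_lit 42) (nat_lit 5) (nat_lit 349) (nat_lit 251) (nat_lit 180)) (XT.lf (nat_lit 0) (nat_lit 391623006) (nat_lit 228) (nat_lit 3868509132) (nat_lit 76) (nat_lit 17263779759)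 (nat_lit 38) (nat_lit 5) (nat_lit 41) (nat_lit 5) (nat_lit 39) (nat_lit 5) (nat_lit 350) (nat_lit 251) (nat_lit 179)))) (XT.nd (nat_lit 156) (nat_lit 228) (nat_lit 0) (XT.nd (nat_lit 78) (nat_lit 152) (nat_lit 0) (XT.lf (nat_lit 0) (nat_lit 6482447875) (nat_lit 228) (nat_lit 12569561628) (nat_lit 76) (nat_lit 2962863261) (nat_lit 36) (nat_lit 5) (nat_lit 39) (nat_lit 5) (nat_lit 37) (nat_lit 5) (nat_lit 351) (nat_lit 251) (nat_lit 178)) (XT.lf (nat_lit 0) (nat_lit 595392910) (nat_lit 152) (nat_lit 12176571234) (nat_lit 228) (nat_lit 9748288453) (nat_lit 34) (nat_lit 5) (nat_lit 36) (nat_lit 5) (nat_lit 37) (nat_lit 5) (nat_lit 352) (nat_lit 251) (nat_lit 177))) (XT.nd (nat_lit 78) (nat_lit 228) (nat_lit 0) (XT.lf (nat_lit 0) (nat_lit 14253357093) (nat_lit 152) (nat_lit 5039973360) (nat_lit 228) (nat_lit 3746609280) (nat_lit 34) (nat_lit 5) (nat_lit 36) (nat_lit 5) (nat_lit 37) (nat_lit 5) (nat_lit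 353) (nat_lit 251) (nat_lit 176)) (XT.lf (nat_lit 0) (nat_lit 2407866499) (nat_lit 228) (nat_lit 18870688106) (nat_lit 76) (nat_lit 2296261760) (nat_lit 31) (nat_lit 5) (nat_lit 34) (nat_lit 5) (nat_lit 32) (nat_lit 5) (nat_lit 354) (nat_lit 251) (nat_lit 175))))) (XT.nd (nat_lit 234) (nat_lit 380) (nat_lit 0) (XT.nd (nat_lit 78) (nat_lit 152) (nat_lit 0) (XT.lf (nat_lit 0) (nat_lit 8749471571) (nat_lit 228) (nat_lit 5535702583) (nat_lit 76) (nat_lit 9839010406) (nat_lit 31) (nat_lit 5) (nat_lit 34) (nat_lit 5) (nat_lit 32) (nat_lit 5) (nat_lit 355) (nat_lit 251) (nat_lit 174)) (XT.nd (nat_lit 78) (nat_lit 0) (nat_lit 0) (XT.lf (nat_lit 0) (nat_lit 8237630084) (nat_lit 152) (nat_lit 7057826534) (nat_lit 228) (nat_lit 9394302799) (nat_lit 29) (nat_lit 5) (nat_lit 31) (nat_lit 5) (nat_lit 32) (nat_lit 5) (nat_lit 356) (nat_lit 251) (nat_lit 173)) (XT.lf (nat_lit 0) (nat_lit 22039243584) (nat_lit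 228) (nat_lit 2843567300) (nat_lit 76) (nat_lit 389470202) (nat_lit 29) (nat_lit 5) (nat_lit 32) (nat_lit 5) (nat_lit 30) (nat_lit 4) (nat_lit 357) (nat_lit 251) (nat_lit 172)))) (XT.nd (nat_lit 156) (nat_lit 228) (nat_lit 0) (XT.nd (nat_lit 78) (nat_lit 0) (nat_lit 0) (XT.lf (nat_lit 0) (nat_lit 3155014179) (nat_lit 152) (nat_lit 14685558786) (nat_lit 76) (nat_lit 8029653287) (nat_lit 27) (nat_lit 5) (nat_lit 29) (nat_lit 5) (nat_lit 28) (nat_lit 5) (nat_lit 358) (nat_lit 251) (nat_lit 171)) (XT.lf (nat_lit 0) (nat_lit 9673131935) (nat_lit 152) (nat_lit 901393549) (nat_lit 76) (nat_lit 15911517312) (nat_lit 27) (nat_lit 5) (nat_lit 29) (nat_lit 5) (nat_lit 28) (nat_lit 5) (nat_lit 359) (nat_lit 251) (nat_lit 170))) (XT.nd (nat_lit 78) (nat_lit 76) (nat_lit 0) (XT.lf (nat_lit 0) (nat_lit 13407484562) (nat_lit 152) (nat_lit 3030147223) (nat_lit 228) (nat_lit 10681692466) (nat_lit 25) (nat_lit 5)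 (nat_lit 27) (nat_lit 5) (nat_lit 28) (nat_lit 5) (nat_lit 360) (nat_lit 251) (nat_lit 169)) (XT.lf (nat_lit 0) (nat_lit 295399248) (nat_lit 76) (nat_lit 23112760772) (nat_lit 152) (nat_lit 4363389243) (nat_lit 24) (nat_lit 5) (nat_lit 25) (nat_lit 5) (nat_lit 26) (nat_lit 4) (nat_lit 361) (nat_lit 251) (nat_lit 168))))))) (XT.nd (nat_lit 34788) (nat_lit 0) (nat_lit 16568) (XT.nd (nat_lit 34242) (nat_lit 0) (nat_lit 28196) (XT.nd (nat_lit 34008) (nat_lit 0) (nat_lit 38684) (XT.nd (nat_lit 78) (nat_lit 152) (nat_lit 0) (XT.lf (nat_lit 0) (nat_lit 2194773450) (nat_lit 152) (nat_lit 13629317105) (nat_lit 76) (nat_lit 12617409940) (nat_lit 23) (nat_lit 5) (nat_lit 25) (nat_lit 5) (nat_lit 24) (nat_lit 5) (nat_lit 362) (nat_lit 251) (nat_lit 167)) (XT.nd (nat_lit 33852) (nat_lit 0) (nat_lit 41040) (XT.lf (nat_lit 0) (nat_lit 549218708) (nat_lit 152) (nat_lit 8310755030) (nat_lit 228) (nat_lit 20271614654)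 (nat_lit 21) (nat_lit 5) (nat_lit 23) (nat_lit 5) (nat_lit 24) (nat_lit 5) (nat_lit 363) (nat_lit 251) (nat_lit 166)) (XT.lf (nat_lit 0) (nat_lit 222726719) (nat_lit 988) (nat_lit 1570659704) (nat_lit 988) (nat_lit 1570659704) (nat_lit 561) (nat_lit 4) (nat_lit 574) (nat_lit 5) (nat_lit 574) (nat_lit 4) (nat_lit 276) (nat_lit 252) (nat_lit 252)))) (XT.nd (nat_lit 78) (nat_lit 2280) (nat_lit 0) (XT.lf (nat_lit 0) (nat_lit 1510539057) (nat_lit 1064) (nat_lit 33171292) (nat_lit 76) (nat_lit 5222122485) (nat_lit 560) (nat_lit 5) (nat_lit 574) (nat_lit 5) (nat_lit 561) (nat_lit 4) (nat_lit 277) (nat_lit 252) (nat_lit 251)) (XT.nd (nat_lit 78) (nat_lit 1216) (nat_lit 0) (XT.lf (nat_lit 0) (nat_lit 6150483852) (nat_lit 1140) (nat_lit 465540091) (nat_lit 0) (nat_lit 190599802) (nat_lit 546) (nat_lit 5) (nat_lit 561) (nat_lit 4) (nat_lit 546) (nat_lit 4) (nat_lit 278) (nat_lit 252) (nat_lit 250)) (XT.lf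 (nat_lit 0) (nat_lit 3928508294) (nat_lit 1216) (nat_lit 874689016) (nat_lit 76) (nat_lit 2047040279) (nat_lit 530) (nat_lit 5) (nat_lit 546) (nat_lit 5) (nat_lit 531) (nat_lit 4) (nat_lit 279) (nat_lit 252) (nat_lit 249))))) (XT.nd (nat_lit 234) (nat_lit 6460) (nat_lit 0) (XT.nd (nat_lit 78) (nat_lit 2736) (nat_lit 0) (XT.lf (nat_lit 0) (nat_lit 1617701679) (nat_lit 1292) (nat_lit 1241834626) (nat_lit 76) (nat_lit 4037574713) (nat_lit 513) (nat_lit 5) (nat_lit 530) (nat_lit 5) (nat_lit 514) (nat_lit 5) (nat_lit 280) (nat_lit 252) (nat_lit 248)) (XT.nd (nat_lit 78) (nat_lit 1444) (nat_lit 0) (XT.lf (nat_lit 0) (nat_lit 5373813585) (nat_lit 1292) (nat_lit 777972458) (nat_lit 1368) (nat_lit 795393653) (nat_lit 496) (nat_lit 5) (nat_lit 513) (nat_lit 5) (nat_lit 514) (nat_lit 5) (nat_lit 281) (nat_lit 252) (nat_lit 247)) (XT.lf (nat_lit 0) (nat_lit 3683540944) (nat_lit 1444) (nat_lit 1886008900) (nat_lit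 76) (nat_lit 1430625278) (nat_lit 477) (nat_lit 5) (nat_lit 496) (nat_lit 5) (nat_lit 478) (nat_lit 5) (nat_lit 282) (nat_lit 252) (nat_lit 246)))) (XT.nd (nat_lit 156) (nat_lit 3420) (nat_lit 0) (XT.nd (nat_lit 78) (nat_lit 1520) (nat_lit 0) (XT.lf (nat_lit 0) (nat_lit 1125086662) (nat_lit 1520) (nat_lit 2166869699) (nat_lit 76) (nat_lit 3764467485) (nat_lit 457) (nat_lit 5) (nat_lit 477) (nat_lit 5) (nat_lit 458) (nat_lit 5) (nat_lit 283) (nat_lit 252) (nat_lit 245)) (XT.lf (nat_lit 0) (nat_lit 4693670977) (nat_lit 1520) (nat_lit 869888079) (nat_lit 1596) (nat_lit 1552313234) (nat_lit 437) (nat_lit 5) (nat_lit 457) (nat_lit 5) (nat_lit 458) (nat_lit 5) (nat_lit 284) (nat_lit 252) (nat_lit 244))) (XT.nd (nat_lit 78) (nat_lit 1748) (nat_lit 0) (XT.lf (nat_lit 0) (nat_lit 2841581645) (nat_lit 1672) (nat_lit 2662236270) (nat_lit 76) (nat_lit 1674572282) (nat_lit 415) (nat_lit 5) (nat_lit 437) (nat_lit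 5) (nat_lit 416) (nat_lit 5) (nat_lit 285) (nat_lit 252) (nat_lit 243)) (XT.lf (nat_lit 0) (nat_lit 22665415) (nat_lit 1748) (nat_lit 2876352820) (nat_lit 76) (nat_lit 4345249201) (nat_lit 392) (nat_lit 5) (nat_lit 415) (nat_lit 5) (nat_lit 393) (nat_lit 5) (nat_lit 286) (nat_lit 252) (nat_lit 242)))))) (XT.nd (nat_lit 546) (nat_lit 4940) (nat_lit 0) (XT.nd (nat_lit 234) (nat_lit 3420) (nat_lit 0) (XT.nd (nat_lit 78) (nat_lit 1824) (nat_lit 0) (XT.lf (nat_lit 0) (nat_lit 4234028735) (nat_lit 1444) (nat_lit 138199413) (nat_lit 1520) (nat_lit 2941062260) (nat_lit 373) (nat_lit 5) (nat_lit 392) (nat_lit 5) (nat_lit 393) (nat_lit 5) (nat_lit 287) (nat_lit 252) (nat_lit 241)) (XT.nd (nat_lit 78) (nat_lit 912) (nat_lit 0) (XT.lf (nat_lit 0) (nat_lit 1387251166) (nat_lit 912) (nat_lit 3271947837) (nat_lit 76) (nat_lit 2726324347) (nat_lit 361) (nat_lit 5) (nat_lit 373) (nat_lit 5) (nat_lit 362) (nat_lit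 5) (nat_lit 288) (nat_lit 252) (nat_lit 240)) (XT.lf (nat_lit 0) (nat_lit 4010436969) (nat_lit 912) (nat_lit 1720294794) (nat_lit 988) (nat_lit 1730396305) (nat_lit 349) (nat_lit 5) (nat_lit 361) (nat_lit 5) (nat_lit 362) (nat_lit 5) (nat_lit 289) (nat_lit 252) (nat_lit 239)))) (XT.nd (nat_lit 156) (nat_lit 1672) (nat_lit 0) (XT.nd (nat_lit 78) (nat_lit 836) (nat_lit 0) (XT.lf (nat_lit 0) (nat_lit 2566211101) (nat_lit 912) (nat_lit 3623468253) (nat_lit 76) (nat_lit 1350356694) (nat_lit 337) (nat_lit 5) (nat_lit 349) (nat_lit 5) (nat_lit 338) (nat_lit 5) (nat_lit 290) (nat_lit 252) (nat_lit 238)) (XT.lf (nat_lit 0) (nat_lit 3831955768) (nat_lit 836) (nat_lit 3077955995) (nat_lit 912) (nat_lit 712428240) (nat_lit 326) (nat_lit 5) (nat_lit 337) (nat_lit 5) (nat_lit 338) (nat_lit 5) (nat_lit 291) (nat_lit 252) (nat_lit 237))) (XT.nd (nat_lit 78) (nat_lit 836) (nat_lit 0) (XT.lf (nat_lit 0) (nat_lit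 3562356559) (nat_lit 836) (nat_lit 3956002132) (nat_lit 76) (nat_lit 189688745) (nat_lit 315) (nat_lit 5) (nat_lit 326) (nat_lit 5) (nat_lit 316) (nat_lit 5) (nat_lit 292) (nat_lit 252) (nat_lit 236)) (XT.lf (nat_lit 0) (nat_lit 113314659) (nat_lit 836) (nat_lit 4124607934) (nat_lit 76) (nat_lit 3559252932) (nat_lit 304) (nat_lit 5) (nat_lit 315) (nat_lit 5) (nat_lit 305) (nat_lit 5) (nat_lit 293) (nat_lit 252) (nat_lit 235))))) (XT.nd (nat_lit 234) (nat_lit 2736) (nat_lit 0) (XT.nd (nat_lit 78) (nat_lit 1520) (nat_lit 0) (XT.lf (nat_lit 0) (nat_lit 3589198954) (nat_lit 684) (nat_lit 792834734) (nat_lit 760) (nat_lit 3507710924) (nat_lit 295) (nat_lit 5) (nat_lit 304) (nat_lit 5) (nat_lit 305) (nat_lit 5) (nat_lit 294) (nat_lit 252) (nat_lit 234)) (XT.nd (nat_lit 78) (nat_lit 684) (nat_lit 0) (XT.lf (nat_lit 0) (nat_lit 741807009) (nat_lit 836) (nat_lit 4482411353) (nat_lit 76) (nat_lit 2761676150)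 (nat_lit 284) (nat_lit 5) (nat_lit 295) (nat_lit 5) (nat_lit 285) (nat_lit 5) (nat_lit 295) (nat_lit 252) (nat_lit 233)) (XT.lf (nat_lit 0) (nat_lit 3406582322) (nat_lit 684) (nat_lit 1613248126) (nat_lit 760) (nat_lit 3065735662) (nat_lit 275) (nat_lit 5) (nat_lit 284) (nat_lit 5) (nat_lit 285) (nat_lit 5) (nat_lit 296) (nat_lit 252) (nat_lit 232)))) (XT.nd (nat_lit 156) (nat_lit 1368) (nat_lit 0) (XT.nd (nat_lit 78) (nat_lit 608) (nat_lit 0) (XT.lf (nat_lit 0) (nat_lit 1181026144) (nat_lit 760) (nat_lit 4886700998) (nat_lit 76) (nat_lit 2121224906) (nat_lit 265) (nat_lit 5) (nat_lit 275) (nat_lit 5) (nat_lit 266) (nat_lit 5) (nat_lit 297) (nat_lit 252) (nat_lit 231)) (XT.lf (nat_lit 0) (nat_lit 3177569622) (nat_lit 608) (nat_lit 2294969109) (nat_lit 684) (nat_lit 2823384349) (nat_lit 257) (nat_lit 5) (nat_lit 265) (nat_lit 5) (nat_lit 266) (nat_lit 5) (nat_lit 298) (nat_lit 252) (nat_lit 230)))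 (XT.nd (nat_lit 78) (nat_lit 608) (nat_lit 0) (XT.lf (nat_lit 0) (nat_lit 1427878601) (nat_lit 760) (nat_lit 5366399886) (nat_lit 76) (nat_lit 1612483516) (nat_lit 247) (nat_lit 5) (nat_lit 257) (nat_lit 5) (nat_lit 248) (nat_lit 5) (nat_lit 299) (nat_lit 252) (nat_lit 229)) (XT.lf (nat_lit 0) (nat_lit 2872778907) (nat_lit 608) (nat_lit 2863675219) (nat_lit 684) (nat_lit 2784799619) (nat_lit 239) (nat_lit 5) (nat_lit 247) (nat_lit 5) (nat_lit 248) (nat_lit 5) (nat_lit 300) (nat_lit 252) (nat_lit 228))))))))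
noncomputable def xc37 : XT := (XT.nd (nat_lit 2106) (nat_lit 4788) (nat_lit 0) (XT.nd (nat_lit 1014) (nat_lit 4560) (nat_lit 0) (XT.nd (nat_lit 468) (nat_lit 2964) (nat_lit 0) (XT.nd (nat_lit 234) (nat_lit 1596) (nat_lit 0) (XT.nd (nat_lit 78) (nat_lit 1216) (nat_lit 0) (XT.lf (nat_lit 0) (nat_lit 1477479031) (nat_lit 684) (nat_lit 5952105407) (nat_lit 76) (nat_lit 1210206862) (nat_lit 230) (nat_lit 5) (nat_lit 239) (nat_lit 5) (nat_lit 231) (nat_lit 5) (nat_lit 301) (nat_lit 252) (nat_lit 227)) (XT.nd (nat_lit 78) (nat_lit 684) (nat_lit 0) (XT.lf (nat_lit 0) (nat_lit 2461052974) (nat_lit 532) (nat_lit 3345003754) (nat_lit 608) (nat_lit 2955993548) (nat_lit 223) (nat_lit 5) (nat_lit 230) (nat_lit 5) (nat_lit 231) (nat_lit 5) (nat_lit 302) (nat_lit 252) (nat_lit 226)) (XT.lf (nat_lit 0) (nat_lit 1323069812) (nat_lit 684) (nat_lit 6676392508) (nat_lit 76) (nat_lit 889099708) (nat_lit 214) (nat_lit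 5) (nat_lit 223) (nat_lit 5) (nat_lit 215) (nat_lit 5) (nat_lit 303) (nat_lit 252) (nat_lit 225)))) (XT.nd (nat_lit 78) (nat_lit 1064) (nat_lit 0) (XT.lf (nat_lit 0) (nat_lit 1909146494) (nat_lit 532) (nat_lit 3764777348) (nat_lit 608) (nat_lit 3344937214) (nat_lit 207) (nat_lit 5) (nat_lit 214) (nat_lit 5) (nat_lit 215) (nat_lit 5) (nat_lit 304) (nat_lit 252) (nat_lit 224)) (XT.nd (nat_lit 78) (nat_lit 456) (nat_lit 0) (XT.lf (nat_lit 0) (nat_lit 955924032) (nat_lit 608) (nat_lit 7574139468) (nat_lit 76) (nat_lit 623590405) (nat_lit 199) (nat_lit 5) (nat_lit 207) (nat_lit 5) (nat_lit 200) (nat_lit 5) (nat_lit 305) (nat_lit 252) (nat_lit 223)) (XT.lf (nat_lit 0) (nat_lit 1181389354) (nat_lit 456) (nat_lit 4149236274) (nat_lit 532) (nat_lit 3961667700) (nat_lit 193) (nat_lit 5) (nat_lit 199) (nat_lit 5) (nat_lit 200) (nat_lit 5) (nat_lit 306) (nat_lit 252) (nat_lit 222))))) (XT.nd (nat_lit 234)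 (nat_lit 1900) (nat_lit 0) (XT.nd (nat_lit 78) (nat_lit 456) (nat_lit 0) (XT.lf (nat_lit 0) (nat_lit 365230741) (nat_lit 608) (nat_lit 8682879323) (nat_lit 76) (nat_lit 387597093) (nat_lit 185) (nat_lit 5) (nat_lit 193) (nat_lit 5) (nat_lit 186) (nat_lit 5) (nat_lit 307) (nat_lit 252) (nat_lit 221)) (XT.nd (nat_lit 78) (nat_lit 0) (nat_lit 0) (XT.lf (nat_lit 0) (nat_lit 239323026) (nat_lit 456) (nat_lit 4525279465) (nat_lit 532) (nat_lit 4818413740) (nat_lit 179) (nat_lit 5) (nat_lit 185) (nat_lit 5) (nat_lit 186) (nat_lit 5) (nat_lit 308) (nat_lit 252) (nat_lit 220)) (XT.lf (nat_lit 0) (nat_lit 9269204195) (nat_lit 532) (nat_lit 306778087) (nat_lit 76) (nat_lit 159342333) (nat_lit 179) (nat_lit 5) (nat_lit 186) (nat_lit 5) (nat_lit 180) (nat_lit 5) (nat_lit 309) (nat_lit 252) (nat_lit 219)))) (XT.nd (nat_lit 156) (nat_lit 912) (nat_lit 0) (XT.nd (nat_lit 78) (nat_lit 456) (nat_lit 0) (XT.lf (nat_lit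 0) (nat_lit 3968247380) (nat_lit 532) (nat_lit 946120026) (nat_lit 76) (nat_lit 4977272383) (nat_lit 172) (nat_lit 5) (nat_lit 179) (nat_lit 5) (nat_lit 173) (nat_lit 5) (nat_lit 310) (nat_lit 252) (nat_lit 218)) (XT.lf (nat_lit 0) (nat_lit 8418500651) (nat_lit 456) (nat_lit 84408279) (nat_lit 532) (nat_lit 1550243552) (nat_lit 166) (nat_lit 5) (nat_lit 172) (nat_lit 5) (nat_lit 173) (nat_lit 5) (nat_lit 311) (nat_lit 252) (nat_lit 217))) (XT.nd (nat_lit 78) (nat_lit 380) (nat_lit 0) (XT.lf (nat_lit 0) (nat_lit 2922578493) (nat_lit 532) (nat_lit 2425675802) (nat_lit 76) (nat_lit 4870767811) (nat_lit 159) (nat_lit 5) (nat_lit 166) (nat_lit 5) (nat_lit 160) (nat_lit 5) (nat_lit 312) (nat_lit 252) (nat_lit 216)) (XT.lf (nat_lit 0) (nat_lit 7104502708) (nat_lit 380) (nat_lit 381338860) (nat_lit 456) (nat_lit 2904313385) (nat_lit 154) (nat_lit 5) (nat_lit 159) (nat_lit 5) (nat_lit 160) (nat_lit 5) (nat_lit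 313) (nat_lit 252) (nat_lit 215)))))) (XT.nd (nat_lit 546) (nat_lit 2052) (nat_lit 0) (XT.nd (nat_lit 234) (nat_lit 1140) (nat_lit 0) (XT.nd (nat_lit 78) (nat_lit 836) (nat_lit 0) (XT.lf (nat_lit 0) (nat_lit 1607474122) (nat_lit 532) (nat_lit 4251164910) (nat_lit 76) (nat_lit 4707426346) (nat_lit 147) (nat_lit 5) (nat_lit 154) (nat_lit 5) (nat_lit 148) (nat_lit 5) (nat_lit 314) (nat_lit 252) (nat_lit 214)) (XT.nd (nat_lit 78) (nat_lit 456) (nat_lit 0) (XT.lf (nat_lit 0) (nat_lit 5437483800) (nat_lit 380) (nat_lit 759947565) (nat_lit 456) (nat_lit 4549827835) (nat_lit 142) (nat_lit 5) (nat_lit 147) (nat_lit 5) (nat_lit 148) (nat_lit 5) (nat_lit 315) (nat_lit 252) (nat_lit 213)) (XT.lf (nat_lit 0) (nat_lit 1563904) (nat_lit 456) (nat_lit 6475795470) (nat_lit 76) (nat_lit 4456359418) (nat_lit 136) (nat_lit 5) (nat_lit 142) (nat_lit 5) (nat_lit 137) (nat_lit 5) (nat_lit 316) (nat_lit 252) (nat_lit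 212)))) (XT.nd (nat_lit 156) (nat_lit 380) (nat_lit 0) (XT.nd (nat_lit 78) (nat_lit 380) (nat_lit 0) (XT.lf (nat_lit 0) (nat_lit 3362575707) (nat_lit 380) (nat_lit 1252690749) (nat_lit 456) (nat_lit 6510185388) (nat_lit 131) (nat_lit 5) (nat_lit 136) (nat_lit 5) (nat_lit 137) (nat_lit 5) (nat_lit 317) (nat_lit 252) (nat_lit 211)) (XT.lf (nat_lit 0) (nat_lit 2152282276) (nat_lit 380) (nat_lit 7225411044) (nat_lit 456) (nat_lit 1945069174) (nat_lit 126) (nat_lit 5) (nat_lit 131) (nat_lit 5) (nat_lit 132) (nat_lit 5) (nat_lit 318) (nat_lit 252) (nat_lit 210))) (XT.nd (nat_lit 78) (nat_lit 0) (nat_lit 0) (XT.lf (nat_lit 0) (nat_lit 819608850) (nat_lit 304) (nat_lit 1894190543) (nat_lit 380) (nat_lit 8812006253) (nat_lit 121) (nat_lit 5) (nat_lit 125) (nat_lit 5) (nat_lit 126) (nat_lit 5) (nat_lit 319) (nat_lit 252) (nat_lit 209)) (XT.lf (nat_lit 0) (nat_lit 7499573910) (nat_lit 380) (nat_lit 645711647)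 (nat_lit 76) (nat_lit 3589155534) (nat_lit 121) (nat_lit 5) (nat_lit 126) (nat_lit 5) (nat_lit 122) (nat_lit 5) (nat_lit 320) (nat_lit 252) (nat_lit 208))))) (XT.nd (nat_lit 234) (nat_lit 988) (nat_lit 0) (XT.nd (nat_lit 78) (nat_lit 608) (nat_lit 0) (XT.lf (nat_lit 0) (nat_lit 478728147) (nat_lit 456) (nat_lit 2227906111) (nat_lit 76) (nat_lit 9242558460) (nat_lit 115) (nat_lit 5) (nat_lit 121) (nat_lit 5) (nat_lit 116) (nat_lit 5) (nat_lit 321) (nat_lit 252) (nat_lit 207)) (XT.nd (nat_lit 78) (nat_lit 304) (nat_lit 0) (XT.lf (nat_lit 0) (nat_lit 5283870221) (nat_lit 380) (nat_lit 3978214794) (nat_lit 76) (nat_lit 2907615764) (nat_lit 111) (nat_lit 5) (nat_lit 116) (nat_lit 5) (nat_lit 112) (nat_lit 5) (nat_lit 322) (nat_lit 252) (nat_lit 206)) (XT.lf (nat_lit 0) (nat_lit 6519125772) (nat_lit 304) (nat_lit 3721276423) (nat_lit 380) (nat_lit 2156303599) (nat_lit 107) (nat_lit 5) (nat_lit 111) (nat_lit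 5) (nat_lit 112) (nat_lit 5) (nat_lit 323) (nat_lit 252) (nat_lit 205)))) (XT.nd (nat_lit 156) (nat_lit 304) (nat_lit 0) (XT.nd (nat_lit 78) (nat_lit 304) (nat_lit 0) (XT.lf (nat_lit 0) (nat_lit 2682726716) (nat_lit 380) (nat_lit 7948731819) (nat_lit 76) (nat_lit 1998670478) (nat_lit 102) (nat_lit 5) (nat_lit 107) (nat_lit 5) (nat_lit 103) (nat_lit 5) (nat_lit 324) (nat_lit 252) (nat_lit 204)) (XT.lf (nat_lit 0) (nat_lit 2658915361) (nat_lit 304) (nat_lit 4994643086) (nat_lit 380) (nat_lit 5216417311) (nat_lit 98) (nat_lit 5) (nat_lit 102) (nat_lit 5) (nat_lit 103) (nat_lit 5) (nat_lit 325) (nat_lit 252) (nat_lit 203))) (XT.nd (nat_lit 78) (nat_lit 76) (nat_lit 0) (XT.lf (nat_lit 0) (nat_lit 474635349) (nat_lit 228) (nat_lit 12295994784) (nat_lit 304) (nat_lit 346469182) (nat_lit 95) (nat_lit 5) (nat_lit 98) (nat_lit 5) (nat_lit 99) (nat_lit 5) (nat_lit 326) (nat_lit 252) (nat_lit 202)) (XT.lf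 (nat_lit 0) (nat_lit 4646730841) (nat_lit 304) (nat_lit 1916578793) (nat_lit 76) (nat_lit 6806975234) (nat_lit 94) (nat_lit 5) (nat_lit 98) (nat_lit 5) (nat_lit 95) (nat_lit 5) (nat_lit 327) (nat_lit 252) (nat_lit 201))))))) (XT.nd (nat_lit 1092) (nat_lit 1824) (nat_lit 0) (XT.nd (nat_lit 546) (nat_lit 1292) (nat_lit 0) (XT.nd (nat_lit 234) (nat_lit 760) (nat_lit 0) (XT.nd (nat_lit 78) (nat_lit 608) (nat_lit 0) (XT.lf (nat_lit 0) (nat_lit 9148929546) (nat_lit 304) (nat_lit 632743935) (nat_lit 380) (nat_lit 3849435539) (nat_lit 90) (nat_lit 5) (nat_lit 94) (nat_lit 5) (nat_lit 95) (nat_lit 5) (nat_lit 328) (nat_lit 252) (nat_lit 200)) (XT.nd (nat_lit 78) (nat_lit 304) (nat_lit 0) (XT.lf (nat_lit 0) (nat_lit 1185545802) (nat_lit 304) (nat_lit 7281812684) (nat_lit 76) (nat_lit 5431668296) (nat_lit 86) (nat_lit 5) (nat_lit 90) (nat_lit 5) (nat_lit 87) (nat_lit 5) (nat_lit 329) (nat_lit 252) (nat_lit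 199)) (XT.lf (nat_lit 0) (nat_lit 3858553794) (nat_lit 304) (nat_lit 2459803476) (nat_lit 380) (nat_lit 7856154572) (nat_lit 82) (nat_lit 5) (nat_lit 86) (nat_lit 5) (nat_lit 87) (nat_lit 5) (nat_lit 330) (nat_lit 252) (nat_lit 198)))) (XT.nd (nat_lit 156) (nat_lit 456) (nat_lit 0) (XT.nd (nat_lit 78) (nat_lit 76) (nat_lit 0) (XT.lf (nat_lit 0) (nat_lit 864512918) (nat_lit 228) (nat_lit 10759962486) (nat_lit 304) (nat_lit 2833419259) (nat_lit 79) (nat_lit 5) (nat_lit 82) (nat_lit 5) (nat_lit 83) (nat_lit 5) (nat_lit 331) (nat_lit 252) (nat_lit 197)) (XT.lf (nat_lit 0) (nat_lit 2336677468) (nat_lit 304) (nat_lit 2355928939) (nat_lit 76) (nat_lit 10056340037) (nat_lit 78) (nat_lit 5) (nat_lit 82) (nat_lit 5) (nat_lit 79) (nat_lit 5) (nat_lit 332) (nat_lit 252) (nat_lit 196))) (XT.nd (nat_lit 78) (nat_lit 228) (nat_lit 0) (XT.lf (nat_lit 0) (nat_lit 7636182142) (nat_lit 304) (nat_lit 5832232227) (nat_lit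 76) (nat_lit 1579702996) (nat_lit 75) (nat_lit 5) (nat_lit 79) (nat_lit 5) (nat_lit 76) (nat_lit 5) (nat_lit 333) (nat_lit 252) (nat_lit 195)) (XT.lf (nat_lit 0) (nat_lit 5761627315) (nat_lit 228) (nat_lit 7361033311) (nat_lit 304) (nat_lit 2233060650) (nat_lit 72) (nat_lit 5) (nat_lit 75) (nat_lit 5) (nat_lit 76) (nat_lit 5) (nat_lit 334) (nat_lit 252) (nat_lit 194))))) (XT.nd (nat_lit 234) (nat_lit 760) (nat_lit 0) (XT.nd (nat_lit 78) (nat_lit 228) (nat_lit 0) (XT.lf (nat_lit 0) (nat_lit 2024676616) (nat_lit 228) (nat_lit 1032559934) (nat_lit 304) (nat_lit 12614996264) (nat_lit 68) (nat_lit 5) (nat_lit 71) (nat_lit 5) (nat_lit 72) (nat_lit 5) (nat_lit 335) (nat_lit 252) (nat_lit 193)) (XT.nd (nat_lit 78) (nat_lit 228) (nat_lit 0) (XT.lf (nat_lit 0) (nat_lit 8521746891) (nat_lit 304) (nat_lit 2016815930) (nat_lit 76) (nat_lit 5458481109) (nat_lit 68) (nat_lit 5) (nat_lit 72) (nat_lit 5) (nat_lit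 69) (nat_lit 5) (nat_lit 336) (nat_lit 252) (nat_lit 192)) (XT.lf (nat_lit 0) (nat_lit 9997515906) (nat_lit 228) (nat_lit 4170715067) (nat_lit 304) (nat_lit 2163023460) (nat_lit 65) (nat_lit 5) (nat_lit 68) (nat_lit 5) (nat_lit 69) (nat_lit 5) (nat_lit 337) (nat_lit 252) (nat_lit 191)))) (XT.nd (nat_lit 156) (nat_lit 304) (nat_lit 0) (XT.nd (nat_lit 78) (nat_lit 152) (nat_lit 0) (XT.lf (nat_lit 0) (nat_lit 3278522734) (nat_lit 304) (nat_lit 11001986179) (nat_lit 76) (nat_lit 2394301813) (nat_lit 61) (nat_lit 5) (nat_lit 65) (nat_lit 5) (nat_lit 62) (nat_lit 5) (nat_lit 338) (nat_lit 252) (nat_lit 190)) (XT.lf (nat_lit 0) (nat_lit 980483094) (nat_lit 152) (nat_lit 7898678274) (nat_lit 228) (nat_lit 8148736350) (nat_lit 59) (nat_lit 5) (nat_lit 61) (nat_lit 5) (nat_lit 62) (nat_lit 5) (nat_lit 339) (nat_lit 252) (nat_lit 189))) (XT.nd (nat_lit 78) (nat_lit 304) (nat_lit 0) (XT.lf (nat_lit 0) (nat_lit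 13386252565) (nat_lit 152) (nat_lit 1284686770) (nat_lit 228) (nat_lit 2720189777) (nat_lit 59) (nat_lit 5) (nat_lit 61) (nat_lit 5) (nat_lit 62) (nat_lit 5) (nat_lit 340) (nat_lit 252) (nat_lit 188)) (XT.lf (nat_lit 0) (nat_lit 2874002095) (nat_lit 304) (nat_lit 9395350030) (nat_lit 76) (nat_lit 5494737092) (nat_lit 55) (nat_lit 5) (nat_lit 59) (nat_lit 5) (nat_lit 56) (nat_lit 5) (nat_lit 341) (nat_lit 252) (nat_lit 187)))))) (XT.nd (nat_lit 546) (nat_lit 760) (nat_lit 0) (XT.nd (nat_lit 234) (nat_lit 608) (nat_lit 0) (XT.nd (nat_lit 78) (nat_lit 304) (nat_lit 0) (XT.lf (nat_lit 0) (nat_lit 2948064044) (nat_lit 152) (nat_lit 5656680711) (nat_lit 228) (nat_lit 9543033245) (nat_lit 53) (nat_lit 5) (nat_lit 55) (nat_lit 5) (nat_lit 56) (nat_lit 5) (nat_lit 342) (nat_lit 252) (nat_lit 186)) (XT.nd (nat_lit 78) (nat_lit 304) (nat_lit 0) (XT.lf (nat_lit 0) (nat_lit 14530095955) (nat_lit 228) (nat_lit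 2842956310) (nat_lit 76) (nat_lit 1169484191) (nat_lit 53) (nat_lit 5) (nat_lit 56) (nat_lit 5) (nat_lit 54) (nat_lit 5) (nat_lit 343) (nat_lit 252) (nat_lit 185)) (XT.lf (nat_lit 0) (nat_lit 1716935271) (nat_lit 304) (nat_lit 9064184052) (nat_lit 76) (nat_lit 8166712744) (nat_lit 49) (nat_lit 5) (nat_lit 53) (nat_lit 5) (nat_lit 50) (nat_lit 5) (nat_lit 344) (nat_lit 252) (nat_lit 184)))) (XT.nd (nat_lit 156) (nat_lit 456) (nat_lit 0) (XT.nd (nat_lit 78) (nat_lit 0) (nat_lit 0) (XT.lf (nat_lit 0) (nat_lit 3605794729) (nat_lit 152) (nat_lit 3954069535) (nat_lit 228) (nat_lit 11804979902) (nat_lit 47) (nat_lit 5) (nat_lit 49) (nat_lit 5) (nat_lit 50) (nat_lit 5) (nat_lit 345) (nat_lit 252) (nat_lit 183)) (XT.lf (nat_lit 0) (nat_lit 13613600109) (nat_lit 228) (nat_lit 3113592275) (nat_lit 76) (nat_lit 3066475292) (nat_lit 47) (nat_lit 5) (nat_lit 50) (nat_lit 5) (nat_lit 48) (nat_lit 5) (nat_lit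 346) (nat_lit 252) (nat_lit 182))) (XT.nd (nat_lit 78) (nat_lit 228) (nat_lit 0) (XT.lf (nat_lit 0) (nat_lit 9937438535) (nat_lit 228) (nat_lit 9957528256) (nat_lit 304) (nat_lit 339479818) (nat_lit 44) (nat_lit 5) (nat_lit 47) (nat_lit 5) (nat_lit 48) (nat_lit 5) (nat_lit 347) (nat_lit 252) (nat_lit 181)) (XT.lf (nat_lit 0) (nat_lit 2655405023) (nat_lit 152) (nat_lit 2940519280) (nat_lit 228) (nat_lit 15091917184) (nat_lit 41) (nat_lit 5) (nat_lit 43) (nat_lit 5) (nat_lit 44) (nat_lit 5) (nat_lit 348) (nat_lit 252) (nat_lit 180))))) (XT.nd (nat_lit 234) (nat_lit 532) (nat_lit 0) (XT.nd (nat_lit 78) (nat_lit 228) (nat_lit 0) (XT.lf (nat_lit 0) (nat_lit 11759035862) (nat_lit 228) (nat_lit 5123115750) (nat_lit 76) (nat_lit 4271566823) (nat_lit 41) (nat_lit 5) (nat_lit 44) (nat_lit 5) (nat_lit 42) (nat_lit 5) (nat_lit 349) (nat_lit 252) (nat_lit 179)) (XT.nd (nat_lit 78) (nat_lit 76) (nat_lit 0) (XT.lf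 (nat_lit 0) (nat_lit 8186975975) (nat_lit 152) (nat_lit 9950320843) (nat_lit 228) (nat_lit 3495679706) (nat_lit 39) (nat_lit 5) (nat_lit 41) (nat_lit 5) (nat_lit 42) (nat_lit 5) (nat_lit 350) (nat_lit 252) (nat_lit 178)) (XT.lf (nat_lit 0) (nat_lit 2539313533) (nat_lit 228) (nat_lit 249986829) (nat_lit 76) (nat_lit 19337129182) (nat_lit 38) (nat_lit 5) (nat_lit 41) (nat_lit 5) (nat_lit 39) (nat_lit 5) (nat_lit 351) (nat_lit 252) (nat_lit 177)))) (XT.nd (nat_lit 156) (nat_lit 228) (nat_lit 0) (XT.nd (nat_lit 78) (nat_lit 152) (nat_lit 0) (XT.lf (nat_lit 0) (nat_lit 8784740284) (nat_lit 228) (nat_lit 9240476502) (nat_lit 76) (nat_lit 4607478913) (nat_lit 36) (nat_lit 5) (nat_lit 39) (nat_lit 5) (nat_lit 37) (nat_lit 5) (nat_lit 352) (nat_lit 252) (nat_lit 176)) (XT.lf (nat_lit 0) (nat_lit 4259298435) (nat_lit 152) (nat_lit 10965923355) (nat_lit 228) (nat_lit 7928783140) (nat_lit 34) (nat_lit 5) (nat_lit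 36) (nat_lit 5) (nat_lit 37) (nat_lit 5) (nat_lit 353) (nat_lit 252) (nat_lit 175))) (XT.nd (nat_lit 78) (nat_lit 228) (nat_lit 0) (XT.lf (nat_lit 0) (nat_lit 18220806095) (nat_lit 152) (nat_lit 3661128856) (nat_lit 228) (nat_lit 1808566815) (nat_lit 34) (nat_lit 5) (nat_lit 36) (nat_lit 5) (nat_lit 37) (nat_lit 5) (nat_lit 354) (nat_lit 252) (nat_lit 174)) (XT.lf (nat_lit 0) (nat_lit 4477378922) (nat_lit 228) (nat_lit 15897224673) (nat_lit 76) (nat_lit 3867092860) (nat_lit 31) (nat_lit 5) (nat_lit 34) (nat_lit 5) (nat_lit 32) (nat_lit 5) (nat_lit 355) (nat_lit 252) (nat_lit 173))))))))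
noncomputable def xc38 : XT := (XT.nd (nat_lit 35724) (nat_lit 0) (nat_lit 7752) (XT.nd (nat_lit 34632) (nat_lit 0) (nat_lit 22192) (XT.nd (nat_lit 468) (nat_lit 152) (nat_lit 0) (XT.nd (nat_lit 234) (nat_lit 228) (nat_lit 0) (XT.nd (nat_lit 78) (nat_lit 228) (nat_lit 0) (XT.lf (nat_lit 0) (nat_lit 10951059046) (nat_lit 228) (nat_lit 2265284265) (nat_lit 76) (nat_lit 11592378046) (nat_lit 31) (nat_lit 5) (nat_lit 34) (nat_lit 5) (nat_lit 32) (nat_lit 5) (nat_lit 356) (nat_lit 252) (nat_lit 172)) (XT.nd (nat_lit 78) (nat_lit 76) (nat_lit 0) (XT.lf (nat_lit 0) (nat_lit 11865495424) (nat_lit 152) (nat_lit 5793399466) (nat_lit 228) (nat_lit 7733070991) (nat_lit 29) (nat_lit 5) (nat_lit 31) (nat_lit 5) (nat_lit 32) (nat_lit 5) (nat_lit 357) (nat_lit 252) (nat_lit 171)) (XT.lf (nat_lit 0) (nat_lit 386523682) (nat_lit 76) (nat_lit 24174813374) (nat_lit 152) (nat_lit 1431510811) (nat_lit 28) (nat_lit 5)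 (nat_lit 29) (nat_lit 5) (nat_lit 30) (nat_lit 4) (nat_lit 358) (nat_lit 252) (nat_lit 170)))) (XT.nd (nat_lit 78) (nat_lit 152) (nat_lit 0) (XT.lf (nat_lit 0) (nat_lit 5087543180) (nat_lit 152) (nat_lit 11844713721) (nat_lit 76) (nat_lit 9676953702) (nat_lit 27) (nat_lit 5) (nat_lit 29) (nat_lit 5) (nat_lit 28) (nat_lit 5) (nat_lit 359) (nat_lit 252) (nat_lit 169)) (XT.nd (nat_lit 78) (nat_lit 0) (nat_lit 0) (XT.lf (nat_lit 0) (nat_lit 2287401047) (nat_lit 152) (nat_lit 9475124301) (nat_lit 228) (nat_lit 15481760502) (nat_lit 25) (nat_lit 5) (nat_lit 27) (nat_lit 5) (nat_lit 28) (nat_lit 5) (nat_lit 360) (nat_lit 252) (nat_lit 168)) (XT.lf (nat_lit 0) (nat_lit 16943859410) (nat_lit 152) (nat_lit 1739627138) (nat_lit 228) (nat_lit 9214018993) (nat_lit 25) (nat_lit 5) (nat_lit 27) (nat_lit 5) (nat_lit 28) (nat_lit 5) (nat_lit 361) (nat_lit 252) (nat_lit 167))))) (XT.nd (nat_lit 33852) (nat_lit 0)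 (nat_lit 39672) (XT.nd (nat_lit 78) (nat_lit 76) (nat_lit 0) (XT.lf (nat_lit 0) (nat_lit 3413564200) (nat_lit 76) (nat_lit 22427411708) (nat_lit 152) (nat_lit 2728774506) (nat_lit 24) (nat_lit 5) (nat_lit 25) (nat_lit 5) (nat_lit 26) (nat_lit 4) (nat_lit 362) (nat_lit 252) (nat_lit 166)) (XT.nd (nat_lit 33696) (nat_lit 0) (nat_lit 42864) (XT.lf (nat_lit 0) (nat_lit 3952229613) (nat_lit 152) (nat_lit 10996657398) (nat_lit 76) (nat_lit 14311708418) (nat_lit 23) (nat_lit 5) (nat_lit 25) (nat_lit 5) (nat_lit 24) (nat_lit 5) (nat_lit 363) (nat_lit 252) (nat_lit 165)) (XT.lf (nat_lit 0) (nat_lit 803321775) (nat_lit 836) (nat_lit 1263457501) (nat_lit 836) (nat_lit 1263457501) (nat_lit 587) (nat_lit 4) (nat_lit 598) (nat_lit 5) (nat_lit 598) (nat_lit 4) (nat_lit 274) (nat_lit 253) (nat_lit 253)))) (XT.nd (nat_lit 156) (nat_lit 1216) (nat_lit 0) (XT.nd (nat_lit 78) (nat_lit 988) (nat_lit 0) (XT.lf (nat_lit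 0) (nat_lit 972341871) (nat_lit 912) (nat_lit 1113240180) (nat_lit 988) (nat_lit 4607946497) (nat_lit 574) (nat_lit 5) (nat_lit 586) (nat_lit 5) (nat_lit 587) (nat_lit 4) (nat_lit 275) (nat_lit 253) (nat_lit 252)) (XT.lf (nat_lit 0) (nat_lit 383845781) (nat_lit 988) (nat_lit 6303653777) (nat_lit 988) (nat_lit 42199594) (nat_lit 561) (nat_lit 4) (nat_lit 574) (nat_lit 5) (nat_lit 574) (nat_lit 4) (nat_lit 276) (nat_lit 253) (nat_lit 251))) (XT.nd (nat_lit 78) (nat_lit 1140) (nat_lit 0) (XT.lf (nat_lit 0) (nat_lit 4494398945) (nat_lit 1064) (nat_lit 177389856) (nat_lit 76) (nat_lit 2096818411) (nat_lit 560) (nat_lit 5) (nat_lit 574) (nat_lit 5) (nat_lit 561) (nat_lit 4) (nat_lit 277) (nat_lit 253) (nat_lit 250)) (XT.lf (nat_lit 0) (nat_lit 2218849450) (nat_lit 1140) (nat_lit 689239030) (nat_lit 76) (nat_lit 3902593707) (nat_lit 545) (nat_lit 5) (nat_lit 560) (nat_lit 5) (nat_lit 546) (nat_lit 5)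 (nat_lit 278) (nat_lit 253) (nat_lit 249)))))) (XT.nd (nat_lit 546) (nat_lit 7600) (nat_lit 0) (XT.nd (nat_lit 234) (nat_lit 6080) (nat_lit 0) (XT.nd (nat_lit 78) (nat_lit 2660) (nat_lit 0) (XT.lf (nat_lit 0) (nat_lit 5697062639) (nat_lit 1140) (nat_lit 1012477915) (nat_lit 1216) (nat_lit 146449040) (nat_lit 530) (nat_lit 5) (nat_lit 545) (nat_lit 5) (nat_lit 546) (nat_lit 5) (nat_lit 279) (nat_lit 253) (nat_lit 248)) (XT.nd (nat_lit 78) (nat_lit 1368) (nat_lit 0) (XT.lf (nat_lit 0) (nat_lit 4277724754) (nat_lit 1292) (nat_lit 1608613292) (nat_lit 76) (nat_lit 1017810055) (nat_lit 513) (nat_lit 5) (nat_lit 530) (nat_lit 5) (nat_lit 514) (nat_lit 5) (nat_lit 280) (nat_lit 253) (nat_lit 247)) (XT.lf (nat_lit 0) (nat_lit 1761534650) (nat_lit 1368) (nat_lit 2025677274) (nat_lit 76) (nat_lit 3168262530) (nat_lit 495) (nat_lit 5) (nat_lit 513) (nat_lit 5) (nat_lit 496) (nat_lit 5) (nat_lit 281) (nat_lit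 253) (nat_lit 246)))) (XT.nd (nat_lit 156) (nat_lit 3192) (nat_lit 0) (XT.nd (nat_lit 78) (nat_lit 1520) (nat_lit 0) (XT.lf (nat_lit 0) (nat_lit 4599681581) (nat_lit 1368) (nat_lit 1550292644) (nat_lit 1444) (nat_lit 860056732) (nat_lit 477) (nat_lit 5) (nat_lit 495) (nat_lit 5) (nat_lit 496) (nat_lit 5) (nat_lit 282) (nat_lit 253) (nat_lit 245)) (XT.lf (nat_lit 0) (nat_lit 3469387413) (nat_lit 1520) (nat_lit 2775894898) (nat_lit 76) (nat_lit 822339598) (nat_lit 457) (nat_lit 5) (nat_lit 477) (nat_lit 5) (nat_lit 458) (nat_lit 5) (nat_lit 283) (nat_lit 253) (nat_lit 244))) (XT.nd (nat_lit 78) (nat_lit 1596) (nat_lit 0) (XT.lf (nat_lit 0) (nat_lit 701049771) (nat_lit 1596) (nat_lit 3117493962) (nat_lit 76) (nat_lit 3309872386) (nat_lit 436) (nat_lit 5) (nat_lit 457) (nat_lit 5) (nat_lit 437) (nat_lit 5) (nat_lit 284) (nat_lit 253) (nat_lit 243)) (XT.lf (nat_lit 0) (nat_lit 3751796608) (nat_lit 1596)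 (nat_lit 1243177153) (nat_lit 1672) (nat_lit 2197406432) (nat_lit 415) (nat_lit 5) (nat_lit 436) (nat_lit 5) (nat_lit 437) (nat_lit 5) (nat_lit 285) (nat_lit 253) (nat_lit 242))))) (XT.nd (nat_lit 234) (nat_lit 3496) (nat_lit 0) (XT.nd (nat_lit 78) (nat_lit 2356) (nat_lit 0) (XT.lf (nat_lit 0) (nat_lit 2057846371) (nat_lit 1748) (nat_lit 3747005401) (nat_lit 76) (nat_lit 1454703929) (nat_lit 392) (nat_lit 5) (nat_lit 415) (nat_lit 5) (nat_lit 393) (nat_lit 5) (nat_lit 286) (nat_lit 253) (nat_lit 241)) (XT.nd (nat_lit 78) (nat_lit 912) (nat_lit 0) (XT.lf (nat_lit 0) (nat_lit 3290728825) (nat_lit 1444) (nat_lit 3049452477) (nat_lit 1520) (nat_lit 989793216) (nat_lit 373) (nat_lit 5) (nat_lit 392) (nat_lit 5) (nat_lit 393) (nat_lit 5) (nat_lit 287) (nat_lit 253) (nat_lit 240)) (XT.lf (nat_lit 0) (nat_lit 3085346177) (nat_lit 836) (nat_lit 142698582) (nat_lit 912) (nat_lit 4175655824) (nat_lit 361)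 (nat_lit 5) (nat_lit 372) (nat_lit 5) (nat_lit 373) (nat_lit 5) (nat_lit 288) (nat_lit 253) (nat_lit 239)))) (XT.nd (nat_lit 156) (nat_lit 1672) (nat_lit 0) (XT.nd (nat_lit 78) (nat_lit 836) (nat_lit 0) (XT.lf (nat_lit 0) (nat_lit 23530426) (nat_lit 988) (nat_lit 4590977750) (nat_lit 76) (nat_lit 2866181219) (nat_lit 348) (nat_lit 5) (nat_lit 361) (nat_lit 5) (nat_lit 349) (nat_lit 5) (nat_lit 289) (nat_lit 253) (nat_lit 238)) (XT.lf (nat_lit 0) (nat_lit 2697778852) (nat_lit 836) (nat_lit 1524921384) (nat_lit 912) (nat_lit 3338212418) (nat_lit 337) (nat_lit 5) (nat_lit 348) (nat_lit 5) (nat_lit 349) (nat_lit 5) (nat_lit 290) (nat_lit 253) (nat_lit 237))) (XT.nd (nat_lit 78) (nat_lit 760) (nat_lit 0) (XT.lf (nat_lit 0) (nat_lit 835544804) (nat_lit 912) (nat_lit 5125618609) (nat_lit 76) (nat_lit 1683486893) (nat_lit 325) (nat_lit 5) (nat_lit 337) (nat_lit 5) (nat_lit 326) (nat_lit 5) (nat_lit 291)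 (nat_lit 253) (nat_lit 236)) (XT.lf (nat_lit 0) (nat_lit 2334642893) (nat_lit 760) (nat_lit 2700135368) (nat_lit 836) (nat_lit 2696852812) (nat_lit 315) (nat_lit 5) (nat_lit 325) (nat_lit 5) (nat_lit 326) (nat_lit 5) (nat_lit 292) (nat_lit 253) (nat_lit 235))))))) (XT.nd (nat_lit 1014) (nat_lit 6156) (nat_lit 0) (XT.nd (nat_lit 468) (nat_lit 3876) (nat_lit 0) (XT.nd (nat_lit 234) (nat_lit 2052) (nat_lit 0) (XT.nd (nat_lit 78) (nat_lit 1520) (nat_lit 0) (XT.lf (nat_lit 0) (nat_lit 1460735964) (nat_lit 836) (nat_lit 5662239447) (nat_lit 76) (nat_lit 699283596) (nat_lit 304) (nat_lit 5) (nat_lit 315) (nat_lit 5) (nat_lit 305) (nat_lit 5) (nat_lit 293) (nat_lit 253) (nat_lit 234)) (XT.nd (nat_lit 78) (nat_lit 836) (nat_lit 0) (XT.lf (nat_lit 0) (nat_lit 1970228219) (nat_lit 684) (nat_lit 3694986250) (nat_lit 760) (nat_lit 2250936961) (nat_lit 295) (nat_lit 5) (nat_lit 304) (nat_lit 5) (nat_lit 305)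 (nat_lit 5) (nat_lit 294) (nat_lit 253) (nat_lit 233)) (XT.lf (nat_lit 0) (nat_lit 1785836699) (nat_lit 760) (nat_lit 113887111) (nat_lit 836) (nat_lit 6114098481) (nat_lit 284) (nat_lit 5) (nat_lit 294) (nat_lit 5) (nat_lit 295) (nat_lit 5) (nat_lit 295) (nat_lit 253) (nat_lit 232)))) (XT.nd (nat_lit 78) (nat_lit 1368) (nat_lit 0) (XT.lf (nat_lit 0) (nat_lit 1577838638) (nat_lit 684) (nat_lit 4535475820) (nat_lit 760) (nat_lit 2001503691) (nat_lit 275) (nat_lit 5) (nat_lit 284) (nat_lit 5) (nat_lit 285) (nat_lit 5) (nat_lit 296) (nat_lit 253) (nat_lit 231)) (XT.nd (nat_lit 78) (nat_lit 608) (nat_lit 0) (XT.lf (nat_lit 0) (nat_lit 1366338779) (nat_lit 684) (nat_lit 787281455) (nat_lit 760) (nat_lit 6066033151) (nat_lit 265) (nat_lit 5) (nat_lit 274) (nat_lit 5) (nat_lit 275) (nat_lit 5) (nat_lit 297) (nat_lit 253) (nat_lit 230)) (XT.lf (nat_lit 0) (nat_lit 1129535061) (nat_lit 608) (nat_lit 5247175229)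 (nat_lit 684) (nat_lit 1951315479) (nat_lit 257) (nat_lit 5) (nat_lit 265) (nat_lit 5) (nat_lit 266) (nat_lit 5) (nat_lit 298) (nat_lit 253) (nat_lit 229))))) (XT.nd (nat_lit 234) (nat_lit 1824) (nat_lit 0) (XT.nd (nat_lit 78) (nat_lit 1292) (nat_lit 0) (XT.lf (nat_lit 0) (nat_lit 877484528) (nat_lit 684) (nat_lit 1337010237) (nat_lit 760) (nat_lit 6225768309) (nat_lit 247) (nat_lit 5) (nat_lit 256) (nat_lit 5) (nat_lit 257) (nat_lit 5) (nat_lit 299) (nat_lit 253) (nat_lit 228)) (XT.nd (nat_lit 78) (nat_lit 684) (nat_lit 0) (XT.lf (nat_lit 0) (nat_lit 595862925) (nat_lit 608) (nat_lit 5855439768) (nat_lit 684) (nat_lit 2104917880) (nat_lit 239) (nat_lit 5) (nat_lit 247) (nat_lit 5) (nat_lit 248) (nat_lit 5) (nat_lit 300) (nat_lit 253) (nat_lit 227)) (XT.lf (nat_lit 0) (nat_lit 288888097) (nat_lit 608) (nat_lit 1788348668) (nat_lit 684) (nat_lit 6598886163) (nat_lit 230) (nat_lit 5) (nat_lit 238)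 (nat_lit 5) (nat_lit 239) (nat_lit 5) (nat_lit 301) (nat_lit 253) (nat_lit 226)))) (XT.nd (nat_lit 156) (nat_lit 1216) (nat_lit 0) (XT.nd (nat_lit 78) (nat_lit 608) (nat_lit 0) (XT.lf (nat_lit 0) (nat_lit 6331541638) (nat_lit 684) (nat_lit 53724732) (nat_lit 76) (nat_lit 2414629087) (nat_lit 230) (nat_lit 5) (nat_lit 239) (nat_lit 5) (nat_lit 231) (nat_lit 5) (nat_lit 302) (nat_lit 253) (nat_lit 225)) (XT.lf (nat_lit 0) (nat_lit 1737677812) (nat_lit 608) (nat_lit 426126882) (nat_lit 76) (nat_lit 6763898661) (nat_lit 222) (nat_lit 5) (nat_lit 230) (nat_lit 5) (nat_lit 223) (nat_lit 5) (nat_lit 303) (nat_lit 253) (nat_lit 224))) (XT.nd (nat_lit 78) (nat_lit 608) (nat_lit 0) (XT.lf (nat_lit 0) (nat_lit 6014119844) (nat_lit 684) (nat_lit 843538857) (nat_lit 76) (nat_lit 2201857887) (nat_lit 214) (nat_lit 5) (nat_lit 223) (nat_lit 5) (nat_lit 215) (nat_lit 5) (nat_lit 304) (nat_lit 253) (nat_lit 223))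 (XT.lf (nat_lit 0) (nat_lit 1187042239) (nat_lit 608) (nat_lit 1301865111) (nat_lit 76) (nat_lit 6706677781) (nat_lit 206) (nat_lit 5) (nat_lit 214) (nat_lit 5) (nat_lit 207) (nat_lit 5) (nat_lit 305) (nat_lit 253) (nat_lit 222)))))) (XT.nd (nat_lit 546) (nat_lit 2584) (nat_lit 0) (XT.nd (nat_lit 234) (nat_lit 1976) (nat_lit 0) (XT.nd (nat_lit 78) (nat_lit 1064) (nat_lit 0) (XT.lf (nat_lit 0) (nat_lit 5485605865) (nat_lit 608) (nat_lit 1816757649) (nat_lit 76) (nat_lit 2033407792) (nat_lit 199) (nat_lit 5) (nat_lit 207) (nat_lit 5) (nat_lit 200) (nat_lit 5) (nat_lit 306) (nat_lit 253) (nat_lit 221)) (XT.nd (nat_lit 78) (nat_lit 532) (nat_lit 0) (XT.lf (nat_lit 0) (nat_lit 412693118) (nat_lit 532) (nat_lit 2378870518) (nat_lit 76) (nat_lit 6688881408) (nat_lit 192) (nat_lit 5) (nat_lit 199) (nat_lit 5) (nat_lit 193) (nat_lit 5) (nat_lit 307) (nat_lit 253) (nat_lit 220)) (XT.lf (nat_lit 0) (nat_lit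 4734332469) (nat_lit 608) (nat_lit 3011524519) (nat_lit 76) (nat_lit 1883473954) (nat_lit 185) (nat_lit 5) (nat_lit 193) (nat_lit 5) (nat_lit 186) (nat_lit 5) (nat_lit 308) (nat_lit 253) (nat_lit 219)))) (XT.nd (nat_lit 156) (nat_lit 988) (nat_lit 0) (XT.nd (nat_lit 78) (nat_lit 532) (nat_lit 0) (XT.lf (nat_lit 0) (nat_lit 6082106825) (nat_lit 456) (nat_lit 3094530904) (nat_lit 532) (nat_lit 606269053) (nat_lit 179) (nat_lit 5) (nat_lit 185) (nat_lit 5) (nat_lit 186) (nat_lit 5) (nat_lit 309) (nat_lit 253) (nat_lit 218)) (XT.lf (nat_lit 0) (nat_lit 3746386968) (nat_lit 532) (nat_lit 4469151225) (nat_lit 76) (nat_lit 1725393449) (nat_lit 172) (nat_lit 5) (nat_lit 179) (nat_lit 5) (nat_lit 173) (nat_lit 5) (nat_lit 310) (nat_lit 253) (nat_lit 217))) (XT.nd (nat_lit 78) (nat_lit 532) (nat_lit 0) (XT.lf (nat_lit 0) (nat_lit 4792550015) (nat_lit 456) (nat_lit 3425168911) (nat_lit 532) (nat_lit 1886011896)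 (nat_lit 166) (nat_lit 5) (nat_lit 172) (nat_lit 5) (nat_lit 173) (nat_lit 5) (nat_lit 311) (nat_lit 253) (nat_lit 216)) (XT.lf (nat_lit 0) (nat_lit 2505449469) (nat_lit 532) (nat_lit 6234539989) (nat_lit 76) (nat_lit 1531388811) (nat_lit 159) (nat_lit 5) (nat_lit 166) (nat_lit 5) (nat_lit 160) (nat_lit 5) (nat_lit 312) (nat_lit 253) (nat_lit 215))))) (XT.nd (nat_lit 234) (nat_lit 1292) (nat_lit 0) (XT.nd (nat_lit 78) (nat_lit 912) (nat_lit 0) (XT.lf (nat_lit 0) (nat_lit 3189491837) (nat_lit 380) (nat_lit 3815232893) (nat_lit 456) (nat_lit 3439084526) (nat_lit 154) (nat_lit 5) (nat_lit 159) (nat_lit 5) (nat_lit 160) (nat_lit 5) (nat_lit 313) (nat_lit 253) (nat_lit 214)) (XT.nd (nat_lit 78) (nat_lit 380) (nat_lit 0) (XT.lf (nat_lit 0) (nat_lit 992608598) (nat_lit 532) (nat_lit 8356643492) (nat_lit 76) (nat_lit 1272296691) (nat_lit 147) (nat_lit 5) (nat_lit 154) (nat_lit 5) (nat_lit 148) (nat_lit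 5) (nat_lit 314) (nat_lit 253) (nat_lit 213)) (XT.lf (nat_lit 0) (nat_lit 1222515874) (nat_lit 380) (nat_lit 4295275509) (nat_lit 456) (nat_lit 5286263700) (nat_lit 142) (nat_lit 5) (nat_lit 147) (nat_lit 5) (nat_lit 148) (nat_lit 5) (nat_lit 315) (nat_lit 253) (nat_lit 212)))) (XT.nd (nat_lit 156) (nat_lit 836) (nat_lit 0) (XT.nd (nat_lit 78) (nat_lit 76) (nat_lit 0) (XT.lf (nat_lit 0) (nat_lit 97970612) (nat_lit 380) (nat_lit 10069658637) (nat_lit 456) (nat_lit 824662814) (nat_lit 137) (nat_lit 5) (nat_lit 142) (nat_lit 5) (nat_lit 143) (nat_lit 5) (nat_lit 316) (nat_lit 253) (nat_lit 211)) (XT.lf (nat_lit 0) (nat_lit 3741722080) (nat_lit 456) (nat_lit 1148290693) (nat_lit 76) (nat_lit 6295297794) (nat_lit 136) (nat_lit 5) (nat_lit 142) (nat_lit 5) (nat_lit 137) (nat_lit 5) (nat_lit 317) (nat_lit 253) (nat_lit 210))) (XT.nd (nat_lit 78) (nat_lit 456) (nat_lit 0) (XT.lf (nat_lit 0) (nat_lit 8423256953)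 (nat_lit 456) (nat_lit 2491755835) (nat_lit 76) (nat_lit 469241510) (nat_lit 131) (nat_lit 5) (nat_lit 137) (nat_lit 5) (nat_lit 132) (nat_lit 5) (nat_lit 318) (nat_lit 253) (nat_lit 209)) (XT.lf (nat_lit 0) (nat_lit 1654127349) (nat_lit 456) (nat_lit 3976365328) (nat_lit 76) (nat_lit 5958092562) (nat_lit 125) (nat_lit 5) (nat_lit 131) (nat_lit 5) (nat_lit 126) (nat_lit 5) (nat_lit 319) (nat_lit 253) (nat_lit 208))))))))
noncomputable def xc39 : XT := (XT.nd (nat_lit 2106) (nat_lit 1748) (nat_lit 0) (XT.nd (nat_lit 1014) (nat_lit 2356) (nat_lit 0) (XT.nd (nat_lit 468) (nat_lit 1824) (nat_lit 0) (XT.nd (nat_lit 234) (nat_lit 684) (nat_lit 0) (XT.nd (nat_lit 78) (nat_lit 760) (nat_lit 0) (XT.lf (nat_lit 0) (nat_lit 6211898158) (nat_lit 304) (nat_lit 143674018) (nat_lit 380) (nat_lit 5443349188) (nat_lit 121) (nat_lit 5) (nat_lit 125) (nat_lit 5) (nat_lit 126) (nat_lit 5) (nat_lit 320) (nat_lit 253)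 (nat_lit 207)) (XT.nd (nat_lit 78) (nat_lit 380) (nat_lit 0) (XT.lf (nat_lit 0) (nat_lit 4666630437) (nat_lit 380) (nat_lit 6556281264) (nat_lit 456) (nat_lit 792186605) (nat_lit 116) (nat_lit 5) (nat_lit 121) (nat_lit 5) (nat_lit 122) (nat_lit 5) (nat_lit 321) (nat_lit 253) (nat_lit 206)) (XT.lf (nat_lit 0) (nat_lit 2976143297) (nat_lit 304) (nat_lit 960846012) (nat_lit 380) (nat_lit 8300460061) (nat_lit 111) (nat_lit 5) (nat_lit 115) (nat_lit 5) (nat_lit 116) (nat_lit 5) (nat_lit 322) (nat_lit 253) (nat_lit 205)))) (XT.nd (nat_lit 78) (nat_lit 380) (nat_lit 0) (XT.lf (nat_lit 0) (nat_lit 1120967243) (nat_lit 304) (nat_lit 7698559580) (nat_lit 380) (nat_lit 3646420088) (nat_lit 107) (nat_lit 5) (nat_lit 111) (nat_lit 5) (nat_lit 112) (nat_lit 5) (nat_lit 323) (nat_lit 253) (nat_lit 204)) (XT.nd (nat_lit 78) (nat_lit 304) (nat_lit 0) (XT.lf (nat_lit 0) (nat_lit 1136220318) (nat_lit 380) (nat_lit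 874618520) (nat_lit 76) (nat_lit 10690255479) (nat_lit 106) (nat_lit 5) (nat_lit 111) (nat_lit 5) (nat_lit 107) (nat_lit 5) (nat_lit 324) (nat_lit 253) (nat_lit 203)) (XT.lf (nat_lit 0) (nat_lit 6039144788) (nat_lit 380) (nat_lit 3051429575) (nat_lit 76) (nat_lit 3851736524) (nat_lit 102) (nat_lit 5) (nat_lit 107) (nat_lit 5) (nat_lit 103) (nat_lit 5) (nat_lit 325) (nat_lit 253) (nat_lit 202))))) (XT.nd (nat_lit 234) (nat_lit 912) (nat_lit 0) (XT.nd (nat_lit 78) (nat_lit 608) (nat_lit 0) (XT.lf (nat_lit 0) (nat_lit 7791125348) (nat_lit 304) (nat_lit 3305364313) (nat_lit 380) (nat_lit 2094150658) (nat_lit 98) (nat_lit 5) (nat_lit 102) (nat_lit 5) (nat_lit 103) (nat_lit 5) (nat_lit 326) (nat_lit 253) (nat_lit 201)) (XT.nd (nat_lit 78) (nat_lit 304) (nat_lit 0) (XT.lf (nat_lit 0) (nat_lit 2833828385) (nat_lit 304) (nat_lit 7952869808) (nat_lit 76) (nat_lit 2659128256) (nat_lit 94) (nat_lit 5) (nat_lit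 98) (nat_lit 5) (nat_lit 95) (nat_lit 5) (nat_lit 327) (nat_lit 253) (nat_lit 200)) (XT.lf (nat_lit 0) (nat_lit 2984041721) (nat_lit 304) (nat_lit 4914680295) (nat_lit 380) (nat_lit 5809340042) (nat_lit 90) (nat_lit 5) (nat_lit 94) (nat_lit 5) (nat_lit 95) (nat_lit 5) (nat_lit 328) (nat_lit 253) (nat_lit 199)))) (XT.nd (nat_lit 156) (nat_lit 608) (nat_lit 0) (XT.nd (nat_lit 78) (nat_lit 76) (nat_lit 0) (XT.lf (nat_lit 0) (nat_lit 280463955) (nat_lit 228) (nat_lit 12838506528) (nat_lit 304) (nat_lit 859146743) (nat_lit 87) (nat_lit 5) (nat_lit 90) (nat_lit 5) (nat_lit 91) (nat_lit 5) (nat_lit 329) (nat_lit 253) (nat_lit 198)) (XT.lf (nat_lit 0) (nat_lit 4230669800) (nat_lit 304) (nat_lit 2649396387) (nat_lit 76) (nat_lit 7374742600) (nat_lit 86) (nat_lit 5) (nat_lit 90) (nat_lit 5) (nat_lit 87) (nat_lit 5) (nat_lit 330) (nat_lit 253) (nat_lit 197))) (XT.nd (nat_lit 78) (nat_lit 304) (nat_lit 0)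 (XT.lf (nat_lit 0) (nat_lit 8746481472) (nat_lit 304) (nat_lit 714311221) (nat_lit 380) (nat_lit 5078928220) (nat_lit 82) (nat_lit 5) (nat_lit 86) (nat_lit 5) (nat_lit 87) (nat_lit 5) (nat_lit 331) (nat_lit 253) (nat_lit 196)) (XT.lf (nat_lit 0) (nat_lit 49183343) (nat_lit 304) (nat_lit 9200203372) (nat_lit 76) (nat_lit 5583115225) (nat_lit 78) (nat_lit 5) (nat_lit 82) (nat_lit 5) (nat_lit 79) (nat_lit 5) (nat_lit 332) (nat_lit 253) (nat_lit 195)))))) (XT.nd (nat_lit 546) (nat_lit 1064) (nat_lit 0) (XT.nd (nat_lit 234) (nat_lit 760) (nat_lit 0) (XT.nd (nat_lit 78) (nat_lit 304) (nat_lit 0) (XT.lf (nat_lit 0) (nat_lit 2245593580) (nat_lit 228) (nat_lit 3019773370) (nat_lit 304) (nat_lit 9867981019) (nat_lit 75) (nat_lit 5) (nat_lit 78) (nat_lit 5) (nat_lit 79) (nat_lit 5) (nat_lit 333) (nat_lit 253) (nat_lit 194)) (XT.nd (nat_lit 78) (nat_lit 304) (nat_lit 0) (XT.lf (nat_lit 0) (nat_lit 10667631265)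 (nat_lit 304) (nat_lit 1394622511) (nat_lit 76) (nat_lit 3380390821) (nat_lit 75) (nat_lit 5) (nat_lit 79) (nat_lit 5) (nat_lit 76) (nat_lit 5) (nat_lit 334) (nat_lit 253) (nat_lit 193)) (XT.lf (nat_lit 0) (nat_lit 499362493) (nat_lit 304) (nat_lit 5291611179) (nat_lit 76) (nat_lit 9969505762) (nat_lit 71) (nat_lit 5) (nat_lit 75) (nat_lit 5) (nat_lit 72) (nat_lit 5) (nat_lit 335) (nat_lit 253) (nat_lit 192)))) (XT.nd (nat_lit 156) (nat_lit 304) (nat_lit 0) (XT.nd (nat_lit 78) (nat_lit 228) (nat_lit 0) (XT.lf (nat_lit 0) (nat_lit 5871443012) (nat_lit 304) (nat_lit 9505354687) (nat_lit 76) (nat_lit 710349243) (nat_lit 68) (nat_lit 5) (nat_lit 72) (nat_lit 5) (nat_lit 69) (nat_lit 5) (nat_lit 336) (nat_lit 253) (nat_lit 191)) (XT.lf (nat_lit 0) (nat_lit 2366063377) (nat_lit 228) (nat_lit 9076595595) (nat_lit 304) (nat_lit 4980211403) (nat_lit 65) (nat_lit 5) (nat_lit 68) (nat_lit 5) (nat_lit 69)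 (nat_lit 5) (nat_lit 337) (nat_lit 253) (nat_lit 190))) (XT.nd (nat_lit 78) (nat_lit 228) (nat_lit 0) (XT.lf (nat_lit 0) (nat_lit 420176148) (nat_lit 304) (nat_lit 2132972782) (nat_lit 76) (nat_lit 14215212893) (nat_lit 64) (nat_lit 5) (nat_lit 68) (nat_lit 5) (nat_lit 65) (nat_lit 5) (nat_lit 338) (nat_lit 253) (nat_lit 189)) (XT.lf (nat_lit 0) (nat_lit 5958687642) (nat_lit 304) (nat_lit 6985865258) (nat_lit 76) (nat_lit 4178145452) (nat_lit 61) (nat_lit 5) (nat_lit 65) (nat_lit 5) (nat_lit 62) (nat_lit 5) (nat_lit 339) (nat_lit 253) (nat_lit 188))))) (XT.nd (nat_lit 234) (nat_lit 608) (nat_lit 0) (XT.nd (nat_lit 78) (nat_lit 304) (nat_lit 0) (XT.lf (nat_lit 0) (nat_lit 5285566478) (nat_lit 152) (nat_lit 6394341107) (nat_lit 228) (nat_lit 5807440110) (nat_lit 59) (nat_lit 5) (nat_lit 61) (nat_lit 5) (nat_lit 62) (nat_lit 5) (nat_lit 340) (nat_lit 253) (nat_lit 187)) (XT.nd (nat_lit 78) (nat_lit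 76) (nat_lit 0) (XT.lf (nat_lit 0) (nat_lit 74595483) (nat_lit 228) (nat_lit 17499896188) (nat_lit 304) (nat_lit 288423680) (nat_lit 56) (nat_lit 5) (nat_lit 59) (nat_lit 5) (nat_lit 60) (nat_lit 5) (nat_lit 341) (nat_lit 253) (nat_lit 186)) (XT.lf (nat_lit 0) (nat_lit 5403249119) (nat_lit 304) (nat_lit 5522027383) (nat_lit 76) (nat_lit 7322228410) (nat_lit 55) (nat_lit 5) (nat_lit 59) (nat_lit 5) (nat_lit 56) (nat_lit 5) (nat_lit 342) (nat_lit 253) (nat_lit 185)))) (XT.nd (nat_lit 156) (nat_lit 228) (nat_lit 0) (XT.nd (nat_lit 78) (nat_lit 228) (nat_lit 0) (XT.lf (nat_lit 0) (nat_lit 7124276202) (nat_lit 152) (nat_lit 4137022247) (nat_lit 228) (nat_lit 7382317050) (nat_lit 53) (nat_lit 5) (nat_lit 55) (nat_lit 5) (nat_lit 56) (nat_lit 5) (nat_lit 343) (nat_lit 253) (nat_lit 184)) (XT.lf (nat_lit 0) (nat_lit 1091308128) (nat_lit 228) (nat_lit 16220979881) (nat_lit 304) (nat_lit 1738989425) (nat_lit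 50) (nat_lit 5) (nat_lit 53) (nat_lit 5) (nat_lit 54) (nat_lit 5) (nat_lit 344) (nat_lit 253) (nat_lit 183))) (XT.nd (nat_lit 78) (nat_lit 152) (nat_lit 0) (XT.lf (nat_lit 0) (nat_lit 4080891104) (nat_lit 304) (nat_lit 5364538215) (nat_lit 76) (nat_lit 10024008769) (nat_lit 49) (nat_lit 5) (nat_lit 53) (nat_lit 5) (nat_lit 50) (nat_lit 5) (nat_lit 345) (nat_lit 253) (nat_lit 182)) (XT.lf (nat_lit 0) (nat_lit 7621105903) (nat_lit 152) (nat_lit 2436016942) (nat_lit 228) (nat_lit 9842694299) (nat_lit 47) (nat_lit 5) (nat_lit 49) (nat_lit 5) (nat_lit 50) (nat_lit 5) (nat_lit 346) (nat_lit 253) (nat_lit 181))))))) (XT.nd (nat_lit 1092) (nat_lit 228) (nat_lit 0) (XT.nd (nat_lit 546) (nat_lit 684) (nat_lit 0) (XT.nd (nat_lit 234) (nat_lit 380) (nat_lit 0) (XT.nd (nat_lit 78) (nat_lit 228) (nat_lit 0) (XT.lf (nat_lit 0) (nat_lit 628901807) (nat_lit 228) (nat_lit 15611839098) (nat_lit 304) (nat_lit 4101815453)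 (nat_lit 44) (nat_lit 5) (nat_lit 47) (nat_lit 5) (nat_lit 48) (nat_lit 5) (nat_lit 347) (nat_lit 253) (nat_lit 180)) (XT.nd (nat_lit 78) (nat_lit 152) (nat_lit 0) (XT.lf (nat_lit 0) (nat_lit 1844440453) (nat_lit 304) (nat_lit 6808475594) (nat_lit 76) (nat_lit 12144298628) (nat_lit 43) (nat_lit 5) (nat_lit 47) (nat_lit 5) (nat_lit 44) (nat_lit 5) (nat_lit 348) (nat_lit 253) (nat_lit 179)) (XT.lf (nat_lit 0) (nat_lit 6468667480) (nat_lit 152) (nat_lit 1445121929) (nat_lit 228) (nat_lit 13351182369) (nat_lit 41) (nat_lit 5) (nat_lit 43) (nat_lit 5) (nat_lit 44) (nat_lit 5) (nat_lit 349) (nat_lit 253) (nat_lit 178)))) (XT.nd (nat_lit 156) (nat_lit 228) (nat_lit 0) (XT.nd (nat_lit 78) (nat_lit 152) (nat_lit 0) (XT.lf (nat_lit 0) (nat_lit 14209155717) (nat_lit 228) (nat_lit 1619699130) (nat_lit 76) (nat_lit 5917037673) (nat_lit 41) (nat_lit 5) (nat_lit 44) (nat_lit 5) (nat_lit 42) (nat_lit 5) (nat_lit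 350) (nat_lit 253) (nat_lit 177)) (XT.lf (nat_lit 0) (nat_lit 12030363079) (nat_lit 152) (nat_lit 8710672753) (nat_lit 228) (nat_lit 1499261379) (nat_lit 39) (nat_lit 5) (nat_lit 41) (nat_lit 5) (nat_lit 42) (nat_lit 5) (nat_lit 351) (nat_lit 253) (nat_lit 176))) (XT.nd (nat_lit 78) (nat_lit 0) (nat_lit 0) (XT.lf (nat_lit 0) (nat_lit 3306070825) (nat_lit 152) (nat_lit 1344217356) (nat_lit 228) (nat_lit 18098785075) (nat_lit 36) (nat_lit 5) (nat_lit 38) (nat_lit 5) (nat_lit 39) (nat_lit 5) (nat_lit 352) (nat_lit 253) (nat_lit 175)) (XT.lf (nat_lit 0) (nat_lit 11035104033) (nat_lit 228) (nat_lit 6024268255) (nat_lit 76) (nat_lit 6212127783) (nat_lit 36) (nat_lit 5) (nat_lit 39) (nat_lit 5) (nat_lit 37) (nat_lit 5) (nat_lit 353) (nat_lit 253) (nat_lit 174))))) (XT.nd (nat_lit 234) (nat_lit 304) (nat_lit 0) (XT.nd (nat_lit 78) (nat_lit 228) (nat_lit 0) (XT.lf (nat_lit 0) (nat_lit 7823823299) (nat_lit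 152) (nat_lit 9809421731) (nat_lit 228) (nat_lit 6175927466) (nat_lit 34) (nat_lit 5) (nat_lit 36) (nat_lit 5) (nat_lit 37) (nat_lit 5) (nat_lit 354) (nat_lit 253) (nat_lit 173)) (XT.nd (nat_lit 78) (nat_lit 152) (nat_lit 0) (XT.lf (nat_lit 0) (nat_lit 68996312) (nat_lit 228) (nat_lit 2259290471) (nat_lit 76) (nat_lit 22034617479) (nat_lit 33) (nat_lit 5) (nat_lit 36) (nat_lit 5) (nat_lit 34) (nat_lit 5) (nat_lit 355) (nat_lit 253) (nat_lit 172)) (XT.lf (nat_lit 0) (nat_lit 6494324879) (nat_lit 228) (nat_lit 13037743942) (nat_lit 76) (nat_lit 5398831207) (nat_lit 31) (nat_lit 5) (nat_lit 34) (nat_lit 5) (nat_lit 32) (nat_lit 5) (nat_lit 356) (nat_lit 253) (nat_lit 171)))) (XT.nd (nat_lit 156) (nat_lit 152) (nat_lit 0) (XT.nd (nat_lit 78) (nat_lit 0) (nat_lit 0) (XT.lf (nat_lit 0) (nat_lit 918018023) (nat_lit 152) (nat_lit 12195324041) (nat_lit 228) (nat_lit 12402582582) (nat_lit 29) (nat_lit 5)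 (nat_lit 31) (nat_lit 5) (nat_lit 32) (nat_lit 5) (nat_lit 357) (nat_lit 253) (nat_lit 170)) (XT.lf (nat_lit 0) (nat_lit 15408128622) (nat_lit 152) (nat_lit 4575777316) (nat_lit 228) (nat_lit 6133541872) (nat_lit 29) (nat_lit 5) (nat_lit 31) (nat_lit 5) (nat_lit 32) (nat_lit 5) (nat_lit 358) (nat_lit 253) (nat_lit 169))) (XT.nd (nat_lit 78) (nat_lit 0) (nat_lit 0) (XT.lf (nat_lit 0) (nat_lit 329229753) (nat_lit 152) (nat_lit 23179104037) (nat_lit 76) (nat_lit 3228449775) (nat_lit 27) (nat_lit 5) (nat_lit 29) (nat_lit 5) (nat_lit 28) (nat_lit 5) (nat_lit 359) (nat_lit 253) (nat_lit 168)) (XT.lf (nat_lit 0) (nat_lit 6972546302) (nat_lit 152) (nat_lit 9107009766) (nat_lit 76) (nat_lit 11292939395) (nat_lit 27) (nat_lit 5) (nat_lit 29) (nat_lit 5) (nat_lit 28) (nat_lit 5) (nat_lit 360) (nat_lit 253) (nat_lit 167)))))) (XT.nd (nat_lit 34008) (nat_lit 0) (nat_lit 34352) (XT.nd (nat_lit 33696) (nat_lit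 0) (nat_lit 41800) (XT.nd (nat_lit 78) (nat_lit 76) (nat_lit 0) (XT.lf (nat_lit 0) (nat_lit 5398887459) (nat_lit 152) (nat_lit 8418189194) (nat_lit 228) (nat_lit 14210170359) (nat_lit 25) (nat_lit 5) (nat_lit 27) (nat_lit 5) (nat_lit 28) (nat_lit 5) (nat_lit 361) (nat_lit 253) (nat_lit 166)) (XT.nd (nat_lit 78) (nat_lit 76) (nat_lit 0) (XT.lf (nat_lit 0) (nat_lit 20406412455) (nat_lit 152) (nat_lit 489690868) (nat_lit 228) (nat_lit 7804960963) (nat_lit 25) (nat_lit 5) (nat_lit 27) (nat_lit 5) (nat_lit 28) (nat_lit 5) (nat_lit 362) (nat_lit 253) (nat_lit 165)) (XT.lf (nat_lit 0) (nat_lit 6446787391) (nat_lit 76) (nat_lit 21800647023) (nat_lit 152) (nat_lit 1146469192) (nat_lit 24) (nat_lit 5) (nat_lit 25) (nat_lit 5) (nat_lit 26) (nat_lit 4) (nat_lit 363) (nat_lit 253) (nat_lit 164)))) (XT.nd (nat_lit 156) (nat_lit 1824) (nat_lit 0) (XT.nd (nat_lit 78) (nat_lit 836) (nat_lit 0) (XT.lf (nat_lit 0)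 (nat_lit 1542698528) (nat_lit 684) (nat_lit 879192705) (nat_lit 684) (nat_lit 879192705) (nat_lit 609) (nat_lit 4) (nat_lit 618) (nat_lit 5) (nat_lit 618) (nat_lit 4) (nat_lit 272) (nat_lit 254) (nat_lit 254)) (XT.lf (nat_lit 0) (nat_lit 2291198073) (nat_lit 760) (nat_lit 528456858) (nat_lit 836) (nat_lit 3810913499) (nat_lit 598) (nat_lit 5) (nat_lit 608) (nat_lit 5) (nat_lit 609) (nat_lit 4) (nat_lit 273) (nat_lit 254) (nat_lit 253))) (XT.nd (nat_lit 78) (nat_lit 912) (nat_lit 0) (XT.lf (nat_lit 0) (nat_lit 722339554) (nat_lit 912) (nat_lit 5119157863) (nat_lit 76) (nat_lit 820512067) (nat_lit 586) (nat_lit 5) (nat_lit 598) (nat_lit 5) (nat_lit 587) (nat_lit 4) (nat_lit 274) (nat_lit 254) (nat_lit 252)) (XT.lf (nat_lit 0) (nat_lit 830432475) (nat_lit 912) (nat_lit 4394748530) (nat_lit 988) (nat_lit 1471167189) (nat_lit 574) (nat_lit 5) (nat_lit 586) (nat_lit 5) (nat_lit 587) (nat_lit 4) (nat_lit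 275) (nat_lit 254) (nat_lit 251))))) (XT.nd (nat_lit 234) (nat_lit 5244) (nat_lit 0) (XT.nd (nat_lit 78) (nat_lit 1140) (nat_lit 0) (XT.lf (nat_lit 0) (nat_lit 160483405) (nat_lit 988) (nat_lit 2814907976) (nat_lit 1064) (nat_lit 3758375247) (nat_lit 560) (nat_lit 5) (nat_lit 573) (nat_lit 5) (nat_lit 574) (nat_lit 5) (nat_lit 276) (nat_lit 254) (nat_lit 250)) (XT.nd (nat_lit 78) (nat_lit 1064) (nat_lit 0) (XT.lf (nat_lit 0) (nat_lit 644917977) (nat_lit 1064) (nat_lit 457354300) (nat_lit 76) (nat_lit 5672058086) (nat_lit 559) (nat_lit 5) (nat_lit 573) (nat_lit 5) (nat_lit 560) (nat_lit 5) (nat_lit 277) (nat_lit 254) (nat_lit 249)) (XT.lf (nat_lit 0) (nat_lit 5027889024) (nat_lit 1140) (nat_lit 1045449646) (nat_lit 76) (nat_lit 744448289) (nat_lit 545) (nat_lit 5) (nat_lit 560) (nat_lit 5) (nat_lit 546) (nat_lit 5) (nat_lit 278) (nat_lit 254) (nat_lit 248)))) (XT.nd (nat_lit 156) (nat_lit 2812)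 (nat_lit 0) (XT.nd (nat_lit 78) (nat_lit 1216) (nat_lit 0) (XT.lf (nat_lit 0) (nat_lit 2548218261) (nat_lit 1216) (nat_lit 1603457211) (nat_lit 76) (nat_lit 2712591154) (nat_lit 529) (nat_lit 5) (nat_lit 545) (nat_lit 5) (nat_lit 530) (nat_lit 5) (nat_lit 279) (nat_lit 254) (nat_lit 247)) (XT.lf (nat_lit 0) (nat_lit 4792715636) (nat_lit 1216) (nat_lit 2099710501) (nat_lit 1292) (nat_lit 21607171) (nat_lit 513) (nat_lit 5) (nat_lit 529) (nat_lit 5) (nat_lit 530) (nat_lit 5) (nat_lit 280) (nat_lit 254) (nat_lit 246))) (XT.nd (nat_lit 78) (nat_lit 1444) (nat_lit 0) (XT.lf (nat_lit 0) (nat_lit 4247911510) (nat_lit 1368) (nat_lit 2618141076) (nat_lit 76) (nat_lit 100717462) (nat_lit 495) (nat_lit 5) (nat_lit 513) (nat_lit 5) (nat_lit 496) (nat_lit 5) (nat_lit 281) (nat_lit 254) (nat_lit 245)) (XT.lf (nat_lit 0) (nat_lit 1523752795) (nat_lit 1444) (nat_lit 3092226528) (nat_lit 76) (nat_lit 2406599377)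 (nat_lit 476) (nat_lit 5) (nat_lit 495) (nat_lit 5) (nat_lit 477) (nat_lit 5) (nat_lit 282) (nat_lit 254) (nat_lit 244))))))))
noncomputable def xc40 : XT := (XT.nd (nat_lit 2106) (nat_lit 8208) (nat_lit 0) (XT.nd (nat_lit 1014) (nat_lit 8740) (nat_lit 0) (XT.nd (nat_lit 468) (nat_lit 5092) (nat_lit 0) (XT.nd (nat_lit 234) (nat_lit 4104) (nat_lit 0) (XT.nd (nat_lit 78) (nat_lit 3192) (nat_lit 0) (XT.lf (nat_lit 0) (nat_lit 3541910528) (nat_lit 1444) (nat_lit 2225452739) (nat_lit 1520) (nat_lit 1314244089) (nat_lit 457) (nat_lit 5) (nat_lit 476) (nat_lit 5) (nat_lit 477) (nat_lit 5) (nat_lit 283) (nat_lit 254) (nat_lit 243)) (XT.nd (nat_lit 78) (nat_lit 1596) (nat_lit 0) (XT.lf (nat_lit 0) (nat_lit 2872018402) (nat_lit 1596) (nat_lit 3965930377) (nat_lit 76) (nat_lit 305873042) (nat_lit 436) (nat_lit 5) (nat_lit 457) (nat_lit 5) (nat_lit 437) (nat_lit 5) (nat_lit 284) (nat_lit 254) (nat_lit 242))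 (XT.lf (nat_lit 0) (nat_lit 2833007956) (nat_lit 1596) (nat_lit 4265260869) (nat_lit 1672) (nat_lit 110924423) (nat_lit 415) (nat_lit 5) (nat_lit 436) (nat_lit 5) (nat_lit 437) (nat_lit 5) (nat_lit 285) (nat_lit 254) (nat_lit 241)))) (XT.nd (nat_lit 78) (nat_lit 2356) (nat_lit 0) (XT.lf (nat_lit 0) (nat_lit 2501561582) (nat_lit 1672) (nat_lit 1538470296) (nat_lit 1748) (nat_lit 3237655868) (nat_lit 392) (nat_lit 5) (nat_lit 414) (nat_lit 5) (nat_lit 415) (nat_lit 5) (nat_lit 286) (nat_lit 254) (nat_lit 240)) (XT.nd (nat_lit 78) (nat_lit 836) (nat_lit 0) (XT.lf (nat_lit 0) (nat_lit 884525377) (nat_lit 1520) (nat_lit 5156748423) (nat_lit 76) (nat_lit 1308294216) (nat_lit 372) (nat_lit 5) (nat_lit 392) (nat_lit 5) (nat_lit 373) (nat_lit 5) (nat_lit 287) (nat_lit 254) (nat_lit 239)) (XT.lf (nat_lit 0) (nat_lit 1887310326) (nat_lit 836) (nat_lit 3135892170) (nat_lit 912) (nat_lit 2401334045) (nat_lit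 361) (nat_lit 5) (nat_lit 372) (nat_lit 5) (nat_lit 373) (nat_lit 5) (nat_lit 288) (nat_lit 254) (nat_lit 238))))) (XT.nd (nat_lit 234) (nat_lit 2356) (nat_lit 0) (XT.nd (nat_lit 78) (nat_lit 1748) (nat_lit 0) (XT.lf (nat_lit 0) (nat_lit 1603171789) (nat_lit 912) (nat_lit 86579006) (nat_lit 988) (nat_lit 5813285886) (nat_lit 348) (nat_lit 5) (nat_lit 360) (nat_lit 5) (nat_lit 361) (nat_lit 5) (nat_lit 289) (nat_lit 254) (nat_lit 237)) (XT.nd (nat_lit 78) (nat_lit 912) (nat_lit 0) (XT.lf (nat_lit 0) (nat_lit 1312818440) (nat_lit 836) (nat_lit 4510346800) (nat_lit 912) (nat_lit 1761453608) (nat_lit 337) (nat_lit 5) (nat_lit 348) (nat_lit 5) (nat_lit 349) (nat_lit 5) (nat_lit 290) (nat_lit 254) (nat_lit 236)) (XT.lf (nat_lit 0) (nat_lit 1033493609) (nat_lit 836) (nat_lit 1281993013) (nat_lit 912) (nat_lit 5354229571) (nat_lit 325) (nat_lit 5) (nat_lit 336) (nat_lit 5) (nat_lit 337) (nat_lit 5) (nat_lit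 291) (nat_lit 254) (nat_lit 235)))) (XT.nd (nat_lit 156) (nat_lit 760) (nat_lit 0) (XT.nd (nat_lit 78) (nat_lit 836) (nat_lit 0) (XT.lf (nat_lit 0) (nat_lit 753165561) (nat_lit 760) (nat_lit 5688837934) (nat_lit 836) (nat_lit 1316188270) (nat_lit 315) (nat_lit 5) (nat_lit 325) (nat_lit 5) (nat_lit 326) (nat_lit 5) (nat_lit 292) (nat_lit 254) (nat_lit 234)) (XT.lf (nat_lit 0) (nat_lit 467192453) (nat_lit 760) (nat_lit 2287167205) (nat_lit 836) (nat_lit 5095697949) (nat_lit 304) (nat_lit 5) (nat_lit 314) (nat_lit 5) (nat_lit 315) (nat_lit 5) (nat_lit 293) (nat_lit 254) (nat_lit 233))) (XT.nd (nat_lit 78) (nat_lit 76) (nat_lit 0) (XT.lf (nat_lit 0) (nat_lit 182652476) (nat_lit 684) (nat_lit 6697565587) (nat_lit 760) (nat_lit 1065341773) (nat_lit 295) (nat_lit 5) (nat_lit 304) (nat_lit 5) (nat_lit 305) (nat_lit 5) (nat_lit 294) (nat_lit 254) (nat_lit 232)) (XT.lf (nat_lit 0) (nat_lit 3006783607) (nat_lit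 760) (nat_lit 120393972) (nat_lit 76) (nat_lit 4917194490) (nat_lit 294) (nat_lit 5) (nat_lit 304) (nat_lit 5) (nat_lit 295) (nat_lit 5) (nat_lit 295) (nat_lit 254) (nat_lit 231)))))) (XT.nd (nat_lit 546) (nat_lit 3876) (nat_lit 0) (XT.nd (nat_lit 234) (nat_lit 2660) (nat_lit 0) (XT.nd (nat_lit 78) (nat_lit 1444) (nat_lit 0) (XT.lf (nat_lit 0) (nat_lit 7139457663) (nat_lit 836) (nat_lit 419860931) (nat_lit 76) (nat_lit 587702228) (nat_lit 284) (nat_lit 5) (nat_lit 295) (nat_lit 5) (nat_lit 285) (nat_lit 5) (nat_lit 296) (nat_lit 254) (nat_lit 230)) (XT.nd (nat_lit 78) (nat_lit 684) (nat_lit 0) (XT.lf (nat_lit 0) (nat_lit 3073297407) (nat_lit 760) (nat_lit 751480294) (nat_lit 76) (nat_lit 4428206746) (nat_lit 274) (nat_lit 5) (nat_lit 284) (nat_lit 5) (nat_lit 275) (nat_lit 5) (nat_lit 297) (nat_lit 254) (nat_lit 229)) (XT.lf (nat_lit 0) (nat_lit 7215798574) (nat_lit 760) (nat_lit 1084694743) (nat_lit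 76) (nat_lit 62507234) (nat_lit 265) (nat_lit 5) (nat_lit 275) (nat_lit 5) (nat_lit 266) (nat_lit 5) (nat_lit 298) (nat_lit 254) (nat_lit 228)))) (XT.nd (nat_lit 156) (nat_lit 1292) (nat_lit 0) (XT.nd (nat_lit 78) (nat_lit 684) (nat_lit 0) (XT.lf (nat_lit 0) (nat_lit 2947323466) (nat_lit 684) (nat_lit 1460620389) (nat_lit 76) (nat_lit 4068434763) (nat_lit 256) (nat_lit 5) (nat_lit 265) (nat_lit 5) (nat_lit 257) (nat_lit 5) (nat_lit 299) (nat_lit 254) (nat_lit 227)) (XT.lf (nat_lit 0) (nat_lit 6748202765) (nat_lit 684) (nat_lit 357875243) (nat_lit 760) (nat_lit 1487848694) (nat_lit 247) (nat_lit 5) (nat_lit 256) (nat_lit 5) (nat_lit 257) (nat_lit 5) (nat_lit 300) (nat_lit 254) (nat_lit 226))) (XT.nd (nat_lit 78) (nat_lit 608) (nat_lit 0) (XT.lf (nat_lit 0) (nat_lit 2623559324) (nat_lit 684) (nat_lit 2277902371) (nat_lit 76) (nat_lit 3813568405) (nat_lit 238) (nat_lit 5) (nat_lit 247) (nat_lit 5)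 (nat_lit 239) (nat_lit 5) (nat_lit 301) (nat_lit 254) (nat_lit 225)) (XT.lf (nat_lit 0) (nat_lit 6108907097) (nat_lit 608) (nat_lit 692834404) (nat_lit 684) (nat_lit 2038610859) (nat_lit 230) (nat_lit 5) (nat_lit 238) (nat_lit 5) (nat_lit 239) (nat_lit 5) (nat_lit 302) (nat_lit 254) (nat_lit 224))))) (XT.nd (nat_lit 234) (nat_lit 2052) (nat_lit 0) (XT.nd (nat_lit 78) (nat_lit 1216) (nat_lit 0) (XT.lf (nat_lit 0) (nat_lit 2094864188) (nat_lit 608) (nat_lit 3235372470) (nat_lit 76) (nat_lit 3639232170) (nat_lit 222) (nat_lit 5) (nat_lit 230) (nat_lit 5) (nat_lit 223) (nat_lit 5) (nat_lit 303) (nat_lit 254) (nat_lit 223)) (XT.nd (nat_lit 78) (nat_lit 608) (nat_lit 0) (XT.lf (nat_lit 0) (nat_lit 5328143248) (nat_lit 608) (nat_lit 966444173) (nat_lit 684) (nat_lit 2808254225) (nat_lit 214) (nat_lit 5) (nat_lit 222) (nat_lit 5) (nat_lit 223) (nat_lit 5) (nat_lit 304) (nat_lit 254) (nat_lit 222)) (XT.lf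 (nat_lit 0) (nat_lit 1352162520) (nat_lit 608) (nat_lit 4367353851) (nat_lit 76) (nat_lit 3520765259) (nat_lit 206) (nat_lit 5) (nat_lit 214) (nat_lit 5) (nat_lit 207) (nat_lit 5) (nat_lit 305) (nat_lit 254) (nat_lit 221)))) (XT.nd (nat_lit 156) (nat_lit 988) (nat_lit 0) (XT.nd (nat_lit 78) (nat_lit 532) (nat_lit 0) (XT.lf (nat_lit 0) (nat_lit 4370820804) (nat_lit 532) (nat_lit 1204032284) (nat_lit 608) (nat_lit 3807155474) (nat_lit 199) (nat_lit 5) (nat_lit 206) (nat_lit 5) (nat_lit 207) (nat_lit 5) (nat_lit 306) (nat_lit 254) (nat_lit 220)) (XT.lf (nat_lit 0) (nat_lit 384330270) (nat_lit 532) (nat_lit 5710790644) (nat_lit 76) (nat_lit 3432994150) (nat_lit 192) (nat_lit 5) (nat_lit 199) (nat_lit 5) (nat_lit 193) (nat_lit 5) (nat_lit 307) (nat_lit 254) (nat_lit 219))) (XT.nd (nat_lit 78) (nat_lit 456) (nat_lit 0) (XT.lf (nat_lit 0) (nat_lit 3199097948) (nat_lit 532) (nat_lit 1431584151) (nat_lit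 608) (nat_lit 5047846140) (nat_lit 185) (nat_lit 5) (nat_lit 192) (nat_lit 5) (nat_lit 193) (nat_lit 5) (nat_lit 308) (nat_lit 254) (nat_lit 218)) (XT.lf (nat_lit 0) (nat_lit 2522542577) (nat_lit 456) (nat_lit 6478167350) (nat_lit 532) (nat_lit 832860601) (nat_lit 179) (nat_lit 5) (nat_lit 185) (nat_lit 5) (nat_lit 186) (nat_lit 5) (nat_lit 309) (nat_lit 254) (nat_lit 217))))))) (XT.nd (nat_lit 1014) (nat_lit 3344) (nat_lit 0) (XT.nd (nat_lit 468) (nat_lit 2432) (nat_lit 0) (XT.nd (nat_lit 234) (nat_lit 912) (nat_lit 0) (XT.nd (nat_lit 78) (nat_lit 988) (nat_lit 0) (XT.lf (nat_lit 0) (nat_lit 1771995571) (nat_lit 456) (nat_lit 1675988142) (nat_lit 532) (nat_lit 6545156663) (nat_lit 172) (nat_lit 5) (nat_lit 178) (nat_lit 5) (nat_lit 179) (nat_lit 5) (nat_lit 310) (nat_lit 254) (nat_lit 216)) (XT.nd (nat_lit 78) (nat_lit 532) (nat_lit 0) (XT.lf (nat_lit 0) (nat_lit 947254433) (nat_lit 456) (nat_lit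 6897584747) (nat_lit 532) (nat_lit 2312609220) (nat_lit 166) (nat_lit 5) (nat_lit 172) (nat_lit 5) (nat_lit 173) (nat_lit 5) (nat_lit 311) (nat_lit 254) (nat_lit 215)) (XT.lf (nat_lit 0) (nat_lit 44977800) (nat_lit 456) (nat_lit 1965293762) (nat_lit 532) (nat_lit 8316381573) (nat_lit 159) (nat_lit 5) (nat_lit 165) (nat_lit 5) (nat_lit 166) (nat_lit 5) (nat_lit 312) (nat_lit 254) (nat_lit 214)))) (XT.nd (nat_lit 78) (nat_lit 912) (nat_lit 0) (XT.lf (nat_lit 0) (nat_lit 6438632940) (nat_lit 532) (nat_lit 939918757) (nat_lit 76) (nat_lit 3121968554) (nat_lit 159) (nat_lit 5) (nat_lit 166) (nat_lit 5) (nat_lit 160) (nat_lit 5) (nat_lit 313) (nat_lit 254) (nat_lit 213)) (XT.nd (nat_lit 78) (nat_lit 456) (nat_lit 0) (XT.lf (nat_lit 0) (nat_lit 311663385) (nat_lit 456) (nat_lit 2003874631) (nat_lit 76) (nat_lit 8364145834) (nat_lit 153) (nat_lit 5) (nat_lit 159) (nat_lit 5) (nat_lit 154) (nat_lit 5) (nat_lit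 314) (nat_lit 254) (nat_lit 212)) (XT.lf (nat_lit 0) (nat_lit 4764285549) (nat_lit 532) (nat_lit 3184835791) (nat_lit 76) (nat_lit 2914536517) (nat_lit 147) (nat_lit 5) (nat_lit 154) (nat_lit 5) (nat_lit 148) (nat_lit 5) (nat_lit 315) (nat_lit 254) (nat_lit 211))))) (XT.nd (nat_lit 234) (nat_lit 1216) (nat_lit 0) (XT.nd (nat_lit 78) (nat_lit 836) (nat_lit 0) (XT.lf (nat_lit 0) (nat_lit 6593724622) (nat_lit 380) (nat_lit 2757147182) (nat_lit 456) (nat_lit 1702304080) (nat_lit 142) (nat_lit 5) (nat_lit 147) (nat_lit 5) (nat_lit 148) (nat_lit 5) (nat_lit 316) (nat_lit 254) (nat_lit 210)) (XT.nd (nat_lit 78) (nat_lit 380) (nat_lit 0) (XT.lf (nat_lit 0) (nat_lit 2792913348) (nat_lit 456) (nat_lit 5854686072) (nat_lit 76) (nat_lit 2600377732) (nat_lit 136) (nat_lit 5) (nat_lit 142) (nat_lit 5) (nat_lit 137) (nat_lit 5) (nat_lit 317) (nat_lit 254) (nat_lit 209)) (XT.lf (nat_lit 0) (nat_lit 4075517692)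 (nat_lit 380) (nat_lit 3330330586) (nat_lit 456) (nat_lit 4042459405) (nat_lit 131) (nat_lit 5) (nat_lit 136) (nat_lit 5) (nat_lit 137) (nat_lit 5) (nat_lit 318) (nat_lit 254) (nat_lit 208)))) (XT.nd (nat_lit 156) (nat_lit 456) (nat_lit 0) (XT.nd (nat_lit 78) (nat_lit 304) (nat_lit 0) (XT.lf (nat_lit 0) (nat_lit 498683146) (nat_lit 456) (nat_lit 9009519685) (nat_lit 76) (nat_lit 2146353623) (nat_lit 125) (nat_lit 5) (nat_lit 131) (nat_lit 5) (nat_lit 126) (nat_lit 5) (nat_lit 319) (nat_lit 254) (nat_lit 207)) (XT.lf (nat_lit 0) (nat_lit 1061274830) (nat_lit 304) (nat_lit 4072190261) (nat_lit 380) (nat_lit 6732774421) (nat_lit 121) (nat_lit 5) (nat_lit 125) (nat_lit 5) (nat_lit 126) (nat_lit 5) (nat_lit 320) (nat_lit 254) (nat_lit 206))) (XT.nd (nat_lit 78) (nat_lit 456) (nat_lit 0) (XT.lf (nat_lit 0) (nat_lit 9912319029) (nat_lit 380) (nat_lit 636673346) (nat_lit 76) (nat_lit 1535207070) (nat_lit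 121) (nat_lit 5) (nat_lit 126) (nat_lit 5) (nat_lit 122) (nat_lit 5) (nat_lit 321) (nat_lit 254) (nat_lit 205)) (XT.lf (nat_lit 0) (nat_lit 2519580438) (nat_lit 456) (nat_lit 2484154360) (nat_lit 76) (nat_lit 7304123704) (nat_lit 115) (nat_lit 5) (nat_lit 121) (nat_lit 5) (nat_lit 116) (nat_lit 5) (nat_lit 322) (nat_lit 254) (nat_lit 204)))))) (XT.nd (nat_lit 546) (nat_lit 1444) (nat_lit 0) (XT.nd (nat_lit 234) (nat_lit 912) (nat_lit 0) (XT.nd (nat_lit 78) (nat_lit 684) (nat_lit 0) (XT.lf (nat_lit 0) (nat_lit 7320384485) (nat_lit 380) (nat_lit 4480460628) (nat_lit 76) (nat_lit 737157871) (nat_lit 111) (nat_lit 5) (nat_lit 116) (nat_lit 5) (nat_lit 112) (nat_lit 5) (nat_lit 323) (nat_lit 254) (nat_lit 203)) (XT.nd (nat_lit 78) (nat_lit 380) (nat_lit 0) (XT.lf (nat_lit 0) (nat_lit 6124888385) (nat_lit 304) (nat_lit 6167913221) (nat_lit 380) (nat_lit 481722598) (nat_lit 107) (nat_lit 5) (nat_lit 111)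 (nat_lit 5) (nat_lit 112) (nat_lit 5) (nat_lit 324) (nat_lit 254) (nat_lit 202)) (XT.lf (nat_lit 0) (nat_lit 4020253421) (nat_lit 304) (nat_lit 313194311) (nat_lit 380) (nat_lit 8684248374) (nat_lit 102) (nat_lit 5) (nat_lit 106) (nat_lit 5) (nat_lit 107) (nat_lit 5) (nat_lit 325) (nat_lit 254) (nat_lit 201)))) (XT.nd (nat_lit 156) (nat_lit 532) (nat_lit 0) (XT.nd (nat_lit 78) (nat_lit 76) (nat_lit 0) (XT.lf (nat_lit 0) (nat_lit 1720543092) (nat_lit 304) (nat_lit 7598831073) (nat_lit 380) (nat_lit 3948090749) (nat_lit 98) (nat_lit 5) (nat_lit 102) (nat_lit 5) (nat_lit 103) (nat_lit 5) (nat_lit 326) (nat_lit 254) (nat_lit 200)) (XT.lf (nat_lit 0) (nat_lit 921325869) (nat_lit 380) (nat_lit 743471626) (nat_lit 76) (nat_lit 11859762313) (nat_lit 97) (nat_lit 5) (nat_lit 102) (nat_lit 5) (nat_lit 98) (nat_lit 5) (nat_lit 327) (nat_lit 254) (nat_lit 199))) (XT.nd (nat_lit 78) (nat_lit 304) (nat_lit 0)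 (XT.lf (nat_lit 0) (nat_lit 5921964471) (nat_lit 304) (nat_lit 3415745577) (nat_lit 76) (nat_lit 4450380641) (nat_lit 94) (nat_lit 5) (nat_lit 98) (nat_lit 5) (nat_lit 95) (nat_lit 5) (nat_lit 328) (nat_lit 254) (nat_lit 198)) (XT.lf (nat_lit 0) (nat_lit 7771793071) (nat_lit 304) (nat_lit 3310046315) (nat_lit 380) (nat_lit 2977523819) (nat_lit 90) (nat_lit 5) (nat_lit 94) (nat_lit 5) (nat_lit 95) (nat_lit 5) (nat_lit 329) (nat_lit 254) (nat_lit 197))))) (XT.nd (nat_lit 234) (nat_lit 836) (nat_lit 0) (XT.nd (nat_lit 78) (nat_lit 304) (nat_lit 0) (XT.lf (nat_lit 0) (nat_lit 2048585359) (nat_lit 304) (nat_lit 9393254192) (nat_lit 76) (nat_lit 2896329499) (nat_lit 86) (nat_lit 5) (nat_lit 90) (nat_lit 5) (nat_lit 87) (nat_lit 5) (nat_lit 330) (nat_lit 254) (nat_lit 196)) (XT.nd (nat_lit 78) (nat_lit 0) (nat_lit 0) (XT.lf (nat_lit 0) (nat_lit 1868032155) (nat_lit 304) (nat_lit 5338482947) (nat_lit 380)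 (nat_lit 7418019067) (nat_lit 82) (nat_lit 5) (nat_lit 86) (nat_lit 5) (nat_lit 87) (nat_lit 5) (nat_lit 331) (nat_lit 254) (nat_lit 195)) (XT.lf (nat_lit 0) (nat_lit 12534350558) (nat_lit 380) (nat_lit 1418584214) (nat_lit 76) (nat_lit 966270100) (nat_lit 82) (nat_lit 5) (nat_lit 87) (nat_lit 5) (nat_lit 83) (nat_lit 5) (nat_lit 332) (nat_lit 254) (nat_lit 194)))) (XT.nd (nat_lit 156) (nat_lit 304) (nat_lit 0) (XT.nd (nat_lit 78) (nat_lit 228) (nat_lit 0) (XT.lf (nat_lit 0) (nat_lit 2811832896) (nat_lit 304) (nat_lit 4968686147) (nat_lit 76) (nat_lit 7440865456) (nat_lit 78) (nat_lit 5) (nat_lit 82) (nat_lit 5) (nat_lit 79) (nat_lit 5) (nat_lit 333) (nat_lit 254) (nat_lit 193)) (XT.lf (nat_lit 0) (nat_lit 6747355502) (nat_lit 228) (nat_lit 1385514992) (nat_lit 304) (nat_lit 7399443358) (nat_lit 75) (nat_lit 5) (nat_lit 78) (nat_lit 5) (nat_lit 79) (nat_lit 5) (nat_lit 334) (nat_lit 254) (nat_lit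 192))) (XT.nd (nat_lit 78) (nat_lit 76) (nat_lit 0) (XT.lf (nat_lit 0) (nat_lit 2950024832) (nat_lit 228) (nat_lit 10698285410) (nat_lit 304) (nat_lit 2203581562) (nat_lit 72) (nat_lit 5) (nat_lit 75) (nat_lit 5) (nat_lit 76) (nat_lit 5) (nat_lit 335) (nat_lit 254) (nat_lit 191)) (XT.lf (nat_lit 0) (nat_lit 3124626488) (nat_lit 304) (nat_lit 1137632458) (nat_lit 76) (nat_lit 11918049531) (nat_lit 71) (nat_lit 5) (nat_lit 75) (nat_lit 5) (nat_lit 72) (nat_lit 5) (nat_lit 336) (nat_lit 254) (nat_lit 190))))))))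
noncomputable def xc41 : XT := (XT.nd (nat_lit 35412) (nat_lit 0) (nat_lit 18924) (XT.nd (nat_lit 1014) (nat_lit 1368) (nat_lit 0) (XT.nd (nat_lit 468) (nat_lit 912) (nat_lit 0) (XT.nd (nat_lit 234) (nat_lit 456) (nat_lit 0) (XT.nd (nat_lit 78) (nat_lit 532) (nat_lit 0) (XT.lf (nat_lit 0) (nat_lit 8620302440) (nat_lit 304) (nat_lit 5506678008) (nat_lit 76) (nat_lit 2390569608) (nat_lit 68) (nat_lit 5) (nat_lit 72) (nat_lit 5) (nat_lit 69) (nat_lit 5) (nat_lit 337) (nat_lit 254) (nat_lit 189)) (XT.nd (nat_lit 78) (nat_lit 304) (nat_lit 0) (XT.lf (nat_lit 0) (nat_lit 6651382426) (nat_lit 228) (nat_lit 7659701245) (nat_lit 304) (nat_lit 2553234994) (nat_lit 65) (nat_lit 5) (nat_lit 68) (nat_lit 5) (nat_lit 69) (nat_lit 5) (nat_lit 338) (nat_lit 254) (nat_lit 188)) (XT.lf (nat_lit 0) (nat_lit 1953756447) (nat_lit 228) (nat_lit 960246988) (nat_lit 304) (nat_lit 14307085276) (nat_lit 61) (nat_lit 5)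 (nat_lit 64) (nat_lit 5) (nat_lit 65) (nat_lit 5) (nat_lit 339) (nat_lit 254) (nat_lit 187)))) (XT.nd (nat_lit 78) (nat_lit 456) (nat_lit 0) (XT.lf (nat_lit 0) (nat_lit 8571051085) (nat_lit 304) (nat_lit 3098749250) (nat_lit 76) (nat_lit 5917227759) (nat_lit 61) (nat_lit 5) (nat_lit 65) (nat_lit 5) (nat_lit 62) (nat_lit 5) (nat_lit 340) (nat_lit 254) (nat_lit 186)) (XT.nd (nat_lit 78) (nat_lit 304) (nat_lit 0) (XT.lf (nat_lit 0) (nat_lit 9474361479) (nat_lit 152) (nat_lit 4944831427) (nat_lit 228) (nat_lit 3544338089) (nat_lit 59) (nat_lit 5) (nat_lit 61) (nat_lit 5) (nat_lit 62) (nat_lit 5) (nat_lit 341) (nat_lit 254) (nat_lit 185)) (XT.lf (nat_lit 0) (nat_lit 2078690655) (nat_lit 304) (nat_lit 14285882252) (nat_lit 76) (nat_lit 1986203451) (nat_lit 55) (nat_lit 5) (nat_lit 59) (nat_lit 5) (nat_lit 56) (nat_lit 5) (nat_lit 342) (nat_lit 254) (nat_lit 184))))) (XT.nd (nat_lit 234) (nat_lit 456)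 (nat_lit 0) (XT.nd (nat_lit 78) (nat_lit 456) (nat_lit 0) (XT.lf (nat_lit 0) (nat_lit 7868133811) (nat_lit 304) (nat_lit 1771029569) (nat_lit 76) (nat_lit 9109101602) (nat_lit 55) (nat_lit 5) (nat_lit 59) (nat_lit 5) (nat_lit 56) (nat_lit 5) (nat_lit 343) (nat_lit 254) (nat_lit 183)) (XT.nd (nat_lit 78) (nat_lit 304) (nat_lit 0) (XT.lf (nat_lit 0) (nat_lit 11191119991) (nat_lit 152) (nat_lit 2668750139) (nat_lit 228) (nat_lit 5297247593) (nat_lit 53) (nat_lit 5) (nat_lit 55) (nat_lit 5) (nat_lit 56) (nat_lit 5) (nat_lit 344) (nat_lit 254) (nat_lit 182)) (XT.lf (nat_lit 0) (nat_lit 477427192) (nat_lit 304) (nat_lit 14631244469) (nat_lit 76) (nat_lit 4468911691) (nat_lit 49) (nat_lit 5) (nat_lit 53) (nat_lit 5) (nat_lit 50) (nat_lit 5) (nat_lit 345) (nat_lit 254) (nat_lit 181)))) (XT.nd (nat_lit 156) (nat_lit 304) (nat_lit 0) (XT.nd (nat_lit 78) (nat_lit 152) (nat_lit 0) (XT.lf (nat_lit 0) (nat_lit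 6383021649) (nat_lit 304) (nat_lit 1781887445) (nat_lit 76) (nat_lit 11844471367) (nat_lit 49) (nat_lit 5) (nat_lit 53) (nat_lit 5) (nat_lit 50) (nat_lit 5) (nat_lit 346) (nat_lit 254) (nat_lit 180)) (XT.lf (nat_lit 0) (nat_lit 11532590746) (nat_lit 152) (nat_lit 966374594) (nat_lit 228) (nat_lit 7954512973) (nat_lit 47) (nat_lit 5) (nat_lit 49) (nat_lit 5) (nat_lit 50) (nat_lit 5) (nat_lit 347) (nat_lit 254) (nat_lit 179))) (XT.nd (nat_lit 78) (nat_lit 76) (nat_lit 0) (XT.lf (nat_lit 0) (nat_lit 4303647072) (nat_lit 228) (nat_lit 14535572048) (nat_lit 304) (nat_lit 2070873499) (nat_lit 44) (nat_lit 5) (nat_lit 47) (nat_lit 5) (nat_lit 48) (nat_lit 5) (nat_lit 348) (nat_lit 254) (nat_lit 178)) (XT.lf (nat_lit 0) (nat_lit 3963605091) (nat_lit 304) (nat_lit 3435415817) (nat_lit 76) (nat_lit 13980343088) (nat_lit 43) (nat_lit 5) (nat_lit 47) (nat_lit 5) (nat_lit 44) (nat_lit 5) (nat_lit 349) (nat_lit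 254) (nat_lit 177)))))) (XT.nd (nat_lit 546) (nat_lit 456) (nat_lit 0) (XT.nd (nat_lit 234) (nat_lit 532) (nat_lit 0) (XT.nd (nat_lit 78) (nat_lit 228) (nat_lit 0) (XT.lf (nat_lit 0) (nat_lit 10177799872) (nat_lit 228) (nat_lit 11679936935) (nat_lit 76) (nat_lit 4175984) (nat_lit 41) (nat_lit 5) (nat_lit 44) (nat_lit 5) (nat_lit 42) (nat_lit 5) (nat_lit 350) (nat_lit 254) (nat_lit 176)) (XT.nd (nat_lit 78) (nat_lit 76) (nat_lit 0) (XT.lf (nat_lit 0) (nat_lit 1802527377) (nat_lit 152) (nat_lit 14821558593) (nat_lit 228) (nat_lit 5733947879) (nat_lit 39) (nat_lit 5) (nat_lit 41) (nat_lit 5) (nat_lit 42) (nat_lit 5) (nat_lit 351) (nat_lit 254) (nat_lit 175)) (XT.lf (nat_lit 0) (nat_lit 430703110) (nat_lit 228) (nat_lit 7088538411) (nat_lit 76) (nat_lit 15348931277) (nat_lit 38) (nat_lit 5) (nat_lit 41) (nat_lit 5) (nat_lit 39) (nat_lit 5) (nat_lit 352) (nat_lit 254) (nat_lit 174)))) (XT.nd (nat_lit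 156) (nat_lit 380) (nat_lit 0) (XT.nd (nat_lit 78) (nat_lit 0) (nat_lit 0) (XT.lf (nat_lit 0) (nat_lit 6709760402) (nat_lit 228) (nat_lit 16625630756) (nat_lit 76) (nat_lit 57327774) (nat_lit 36) (nat_lit 5) (nat_lit 39) (nat_lit 5) (nat_lit 37) (nat_lit 5) (nat_lit 353) (nat_lit 254) (nat_lit 173)) (XT.lf (nat_lit 0) (nat_lit 13238927011) (nat_lit 228) (nat_lit 2912110506) (nat_lit 76) (nat_lit 7780737353) (nat_lit 36) (nat_lit 5) (nat_lit 39) (nat_lit 5) (nat_lit 37) (nat_lit 5) (nat_lit 354) (nat_lit 254) (nat_lit 172))) (XT.nd (nat_lit 78) (nat_lit 228) (nat_lit 0) (XT.lf (nat_lit 0) (nat_lit 11298000635) (nat_lit 152) (nat_lit 8703497648) (nat_lit 228) (nat_lit 4484761546) (nat_lit 34) (nat_lit 5) (nat_lit 36) (nat_lit 5) (nat_lit 37) (nat_lit 5) (nat_lit 355) (nat_lit 254) (nat_lit 171)) (XT.lf (nat_lit 0) (nat_lit 853510546) (nat_lit 152) (nat_lit 1020994150) (nat_lit 228) (nat_lit 23182834596)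 (nat_lit 31) (nat_lit 5) (nat_lit 33) (nat_lit 5) (nat_lit 34) (nat_lit 5) (nat_lit 356) (nat_lit 254) (nat_lit 170))))) (XT.nd (nat_lit 234) (nat_lit 304) (nat_lit 0) (XT.nd (nat_lit 78) (nat_lit 152) (nat_lit 0) (XT.lf (nat_lit 0) (nat_lit 8463708863) (nat_lit 228) (nat_lit 10284001653) (nat_lit 76) (nat_lit 6895253265) (nat_lit 31) (nat_lit 5) (nat_lit 34) (nat_lit 5) (nat_lit 32) (nat_lit 5) (nat_lit 357) (nat_lit 254) (nat_lit 169)) (XT.nd (nat_lit 78) (nat_lit 0) (nat_lit 0) (XT.lf (nat_lit 0) (nat_lit 4039411316) (nat_lit 152) (nat_lit 11210286544) (nat_lit 228) (nat_lit 10996484090) (nat_lit 29) (nat_lit 5) (nat_lit 31) (nat_lit 5) (nat_lit 32) (nat_lit 5) (nat_lit 358) (nat_lit 254) (nat_lit 168)) (XT.lf (nat_lit 0) (nat_lit 18874113018) (nat_lit 152) (nat_lit 3401499939) (nat_lit 228) (nat_lit 4591163691) (nat_lit 29) (nat_lit 5) (nat_lit 31) (nat_lit 5) (nat_lit 32) (nat_lit 5) (nat_lit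 359) (nat_lit 254) (nat_lit 167)))) (XT.nd (nat_lit 156) (nat_lit 152) (nat_lit 0) (XT.nd (nat_lit 78) (nat_lit 0) (nat_lit 0) (XT.lf (nat_lit 0) (nat_lit 2021025895) (nat_lit 152) (nat_lit 20871520492) (nat_lit 76) (nat_lit 4612368396) (nat_lit 27) (nat_lit 5) (nat_lit 29) (nat_lit 5) (nat_lit 28) (nat_lit 5) (nat_lit 360) (nat_lit 254) (nat_lit 166)) (XT.lf (nat_lit 0) (nat_lit 8814654002) (nat_lit 152) (nat_lit 6464728150) (nat_lit 76) (nat_lit 12881305371) (nat_lit 27) (nat_lit 5) (nat_lit 29) (nat_lit 5) (nat_lit 28) (nat_lit 5) (nat_lit 361) (nat_lit 254) (nat_lit 165))) (XT.nd (nat_lit 78) (nat_lit 0) (nat_lit 0) (XT.lf (nat_lit 0) (nat_lit 8429045599) (nat_lit 152) (nat_lit 7406535759) (nat_lit 228) (nat_lit 13000088480) (nat_lit 25) (nat_lit 5) (nat_lit 27) (nat_lit 5) (nat_lit 28) (nat_lit 5) (nat_lit 362) (nat_lit 254) (nat_lit 164)) (XT.lf (nat_lit 0) (nat_lit 23084954774) (nat_lit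 228) (nat_lit 5732082546) (nat_lit 76) (nat_lit 713513957) (nat_lit 25) (nat_lit 5) (nat_lit 28) (nat_lit 5) (nat_lit 26) (nat_lit 4) (nat_lit 363) (nat_lit 254) (nat_lit 163))))))) (XT.nd (nat_lit 1092) (nat_lit 13832) (nat_lit 0) (XT.nd (nat_lit 546) (nat_lit 8892) (nat_lit 0) (XT.nd (nat_lit 234) (nat_lit 2660) (nat_lit 0) (XT.nd (nat_lit 78) (nat_lit 1444) (nat_lit 0) (XT.lf (nat_lit 0) (nat_lit 2445544526) (nat_lit 532) (nat_lit 415508489) (nat_lit 532) (nat_lit 415508489) (nat_lit 627) (nat_lit 4) (nat_lit 634) (nat_lit 5) (nat_lit 634) (nat_lit 4) (nat_lit 270) (nat_lit 255) (nat_lit 255)) (XT.nd (nat_lit 78) (nat_lit 760) (nat_lit 0) (XT.lf (nat_lit 0) (nat_lit 3718763505) (nat_lit 684) (nat_lit 2645977672) (nat_lit 0) (nat_lit 212123470) (nat_lit 618) (nat_lit 5) (nat_lit 627) (nat_lit 4) (nat_lit 618) (nat_lit 4) (nat_lit 271) (nat_lit 255) (nat_lit 254)) (XT.lf (nat_lit 0) (nat_lit 1646376808)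 (nat_lit 760) (nat_lit 3585463769) (nat_lit 76) (nat_lit 1371767515) (nat_lit 608) (nat_lit 5) (nat_lit 618) (nat_lit 5) (nat_lit 609) (nat_lit 4) (nat_lit 272) (nat_lit 255) (nat_lit 253)))) (XT.nd (nat_lit 156) (nat_lit 988) (nat_lit 0) (XT.nd (nat_lit 78) (nat_lit 912) (nat_lit 0) (XT.lf (nat_lit 0) (nat_lit 2153612098) (nat_lit 760) (nat_lit 3970200561) (nat_lit 836) (nat_lit 509604188) (nat_lit 598) (nat_lit 5) (nat_lit 608) (nat_lit 5) (nat_lit 609) (nat_lit 4) (nat_lit 273) (nat_lit 255) (nat_lit 252)) (XT.lf (nat_lit 0) (nat_lit 1327743959) (nat_lit 836) (nat_lit 2570427158) (nat_lit 912) (nat_lit 2767983261) (nat_lit 586) (nat_lit 5) (nat_lit 597) (nat_lit 5) (nat_lit 598) (nat_lit 5) (nat_lit 274) (nat_lit 255) (nat_lit 251))) (XT.nd (nat_lit 78) (nat_lit 0) (nat_lit 0) (XT.lf (nat_lit 0) (nat_lit 550265504) (nat_lit 912) (nat_lit 1042246739) (nat_lit 988) (nat_lit 5109551741) (nat_lit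 573) (nat_lit 5) (nat_lit 585) (nat_lit 5) (nat_lit 586) (nat_lit 5) (nat_lit 275) (nat_lit 255) (nat_lit 250)) (XT.lf (nat_lit 0) (nat_lit 5939801586) (nat_lit 988) (nat_lit 187020344) (nat_lit 76) (nat_lit 614144305) (nat_lit 573) (nat_lit 5) (nat_lit 586) (nat_lit 5) (nat_lit 574) (nat_lit 5) (nat_lit 276) (nat_lit 255) (nat_lit 249))))) (XT.nd (nat_lit 234) (nat_lit 5548) (nat_lit 0) (XT.nd (nat_lit 78) (nat_lit 2280) (nat_lit 0) (XT.lf (nat_lit 0) (nat_lit 3491140942) (nat_lit 1064) (nat_lit 890585494) (nat_lit 76) (nat_lit 2400935330) (nat_lit 559) (nat_lit 5) (nat_lit 573) (nat_lit 5) (nat_lit 560) (nat_lit 5) (nat_lit 277) (nat_lit 255) (nat_lit 248)) (XT.nd (nat_lit 78) (nat_lit 1140) (nat_lit 0) (XT.lf (nat_lit 0) (nat_lit 956661620) (nat_lit 1140) (nat_lit 1551581530) (nat_lit 76) (nat_lit 4319359151) (nat_lit 544) (nat_lit 5) (nat_lit 559) (nat_lit 5) (nat_lit 545) (nat_lit 5) (nat_lit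 278) (nat_lit 255) (nat_lit 247)) (XT.lf (nat_lit 0) (nat_lit 4693406467) (nat_lit 1140) (nat_lit 493422988) (nat_lit 1216) (nat_lit 1688775850) (nat_lit 529) (nat_lit 5) (nat_lit 544) (nat_lit 5) (nat_lit 545) (nat_lit 5) (nat_lit 279) (nat_lit 255) (nat_lit 246)))) (XT.nd (nat_lit 156) (nat_lit 2964) (nat_lit 0) (XT.nd (nat_lit 78) (nat_lit 1292) (nat_lit 0) (XT.lf (nat_lit 0) (nat_lit 2497526269) (nat_lit 1292) (nat_lit 2790358074) (nat_lit 76) (nat_lit 1638691692) (nat_lit 512) (nat_lit 5) (nat_lit 529) (nat_lit 5) (nat_lit 513) (nat_lit 5) (nat_lit 280) (nat_lit 255) (nat_lit 245)) (XT.lf (nat_lit 0) (nat_lit 3614660114) (nat_lit 1292) (nat_lit 3081689477) (nat_lit 1368) (nat_lit 284429877) (nat_lit 495) (nat_lit 5) (nat_lit 512) (nat_lit 5) (nat_lit 513) (nat_lit 5) (nat_lit 281) (nat_lit 255) (nat_lit 244))) (XT.nd (nat_lit 78) (nat_lit 1520) (nat_lit 0) (XT.lf (nat_lit 0) (nat_lit 3115318313)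 (nat_lit 1368) (nat_lit 726450290) (nat_lit 1444) (nat_lit 3196251404) (nat_lit 476) (nat_lit 5) (nat_lit 494) (nat_lit 5) (nat_lit 495) (nat_lit 5) (nat_lit 282) (nat_lit 255) (nat_lit 243)) (XT.lf (nat_lit 0) (nat_lit 901941682) (nat_lit 1520) (nat_lit 4456345602) (nat_lit 76) (nat_lit 1740157074) (nat_lit 456) (nat_lit 5) (nat_lit 476) (nat_lit 5) (nat_lit 457) (nat_lit 5) (nat_lit 283) (nat_lit 255) (nat_lit 242)))))) (XT.nd (nat_lit 546) (nat_lit 5624) (nat_lit 0) (XT.nd (nat_lit 234) (nat_lit 3344) (nat_lit 0) (XT.nd (nat_lit 78) (nat_lit 3344) (nat_lit 0) (XT.lf (nat_lit 0) (nat_lit 2185484507) (nat_lit 1520) (nat_lit 2815645013) (nat_lit 1596) (nat_lit 2160809288) (nat_lit 436) (nat_lit 5) (nat_lit 456) (nat_lit 5) (nat_lit 457) (nat_lit 5) (nat_lit 284) (nat_lit 255) (nat_lit 241)) (XT.nd (nat_lit 78) (nat_lit 1672) (nat_lit 0) (XT.lf (nat_lit 0) (nat_lit 1756675800) (nat_lit 1596) (nat_lit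 132314356) (nat_lit 1672) (nat_lit 5339808618) (nat_lit 414) (nat_lit 5) (nat_lit 435) (nat_lit 5) (nat_lit 436) (nat_lit 5) (nat_lit 285) (nat_lit 255) (nat_lit 240)) (XT.lf (nat_lit 0) (nat_lit 1333929965) (nat_lit 1672) (nat_lit 4637156437) (nat_lit 1748) (nat_lit 1327590364) (nat_lit 392) (nat_lit 5) (nat_lit 414) (nat_lit 5) (nat_lit 415) (nat_lit 5) (nat_lit 286) (nat_lit 255) (nat_lit 239)))) (XT.nd (nat_lit 156) (nat_lit 988) (nat_lit 0) (XT.nd (nat_lit 78) (nat_lit 836) (nat_lit 0) (XT.lf (nat_lit 0) (nat_lit 927445285) (nat_lit 1444) (nat_lit 1767176945) (nat_lit 1520) (nat_lit 4677232532) (nat_lit 372) (nat_lit 5) (nat_lit 391) (nat_lit 5) (nat_lit 392) (nat_lit 5) (nat_lit 287) (nat_lit 255) (nat_lit 238)) (XT.lf (nat_lit 0) (nat_lit 536716205) (nat_lit 836) (nat_lit 6219640412) (nat_lit 912) (nat_lit 692051539) (nat_lit 361) (nat_lit 5) (nat_lit 372) (nat_lit 5) (nat_lit 373) (nat_lit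 5) (nat_lit 288) (nat_lit 255) (nat_lit 237))) (XT.nd (nat_lit 78) (nat_lit 0) (nat_lit 0) (XT.lf (nat_lit 0) (nat_lit 141883879) (nat_lit 912) (nat_lit 3169422421) (nat_lit 988) (nat_lit 4216730029) (nat_lit 348) (nat_lit 5) (nat_lit 360) (nat_lit 5) (nat_lit 361) (nat_lit 5) (nat_lit 289) (nat_lit 255) (nat_lit 236)) (XT.lf (nat_lit 0) (nat_lit 7361616961) (nat_lit 988) (nat_lit 227439446) (nat_lit 76) (nat_lit 22266686) (nat_lit 348) (nat_lit 5) (nat_lit 361) (nat_lit 5) (nat_lit 349) (nat_lit 5) (nat_lit 290) (nat_lit 255) (nat_lit 235))))) (XT.nd (nat_lit 234) (nat_lit 3040) (nat_lit 0) (XT.nd (nat_lit 78) (nat_lit 1672) (nat_lit 0) (XT.lf (nat_lit 0) (nat_lit 3745459359) (nat_lit 912) (nat_lit 616482697) (nat_lit 76) (nat_lit 3335561512) (nat_lit 336) (nat_lit 5) (nat_lit 348) (nat_lit 5) (nat_lit 337) (nat_lit 5) (nat_lit 291) (nat_lit 255) (nat_lit 234)) (XT.nd (nat_lit 78) (nat_lit 760)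 (nat_lit 0) (XT.lf (nat_lit 0) (nat_lit 9277436) (nat_lit 912) (nat_lit 986002349) (nat_lit 76) (nat_lit 6792238550) (nat_lit 324) (nat_lit 5) (nat_lit 336) (nat_lit 5) (nat_lit 325) (nat_lit 5) (nat_lit 292) (nat_lit 255) (nat_lit 233)) (XT.lf (nat_lit 0) (nat_lit 3994779708) (nat_lit 836) (nat_lit 1379260575) (nat_lit 76) (nat_lit 2506566059) (nat_lit 314) (nat_lit 5) (nat_lit 325) (nat_lit 5) (nat_lit 315) (nat_lit 5) (nat_lit 293) (nat_lit 255) (nat_lit 232)))) (XT.nd (nat_lit 156) (nat_lit 1520) (nat_lit 0) (XT.nd (nat_lit 78) (nat_lit 684) (nat_lit 0) (XT.lf (nat_lit 0) (nat_lit 73065872) (nat_lit 836) (nat_lit 1764222380) (nat_lit 76) (nat_lit 6140228516) (nat_lit 303) (nat_lit 5) (nat_lit 314) (nat_lit 5) (nat_lit 304) (nat_lit 5) (nat_lit 294) (nat_lit 255) (nat_lit 231)) (XT.lf (nat_lit 0) (nat_lit 4057712191) (nat_lit 760) (nat_lit 2174248884) (nat_lit 76) (nat_lit 1845734292) (nat_lit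 294) (nat_lit 5) (nat_lit 304) (nat_lit 5) (nat_lit 295) (nat_lit 5) (nat_lit 295) (nat_lit 255) (nat_lit 230))) (XT.nd (nat_lit 78) (nat_lit 760) (nat_lit 0) (XT.lf (nat_lit 0) (nat_lit 5594435444) (nat_lit 760) (nat_lit 2529770480) (nat_lit 836) (nat_lit 57495362) (nat_lit 284) (nat_lit 5) (nat_lit 294) (nat_lit 5) (nat_lit 295) (nat_lit 5) (nat_lit 296) (nat_lit 255) (nat_lit 229)) (XT.lf (nat_lit 0) (nat_lit 3931994296) (nat_lit 760) (nat_lit 3028543466) (nat_lit 76) (nat_lit 1328613933) (nat_lit 274) (nat_lit 5) (nat_lit 284) (nat_lit 5) (nat_lit 275) (nat_lit 5) (nat_lit 297) (nat_lit 255) (nat_lit 228))))))))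
noncomputable def xc42 : XT := (XT.nd (nat_lit 2106) (nat_lit 5016) (nat_lit 0) (XT.nd (nat_lit 1014) (nat_lit 5396) (nat_lit 0) (XT.nd (nat_lit 468) (nat_lit 3344) (nat_lit 0) (XT.nd (nat_lit 234) (nat_lit 1900) (nat_lit 0) (XT.nd (nat_lit 78) (nat_lit 1368) (nat_lit 0) (XT.lf (nat_lit 0) (nat_lit 4916073694) (nat_lit 684) (nat_lit 3095940561) (nat_lit 760) (nat_lit 388434181) (nat_lit 265) (nat_lit 5) (nat_lit 274) (nat_lit 5) (nat_lit 275) (nat_lit 5) (nat_lit 298) (nat_lit 255) (nat_lit 227)) (XT.nd (nat_lit 78) (nat_lit 684) (nat_lit 0) (XT.lf (nat_lit 0) (nat_lit 3613682904) (nat_lit 684) (nat_lit 3970656681) (nat_lit 76) (nat_lit 931067048) (nat_lit 256) (nat_lit 5) (nat_lit 265) (nat_lit 5) (nat_lit 257) (nat_lit 5) (nat_lit 299) (nat_lit 255) (nat_lit 226)) (XT.lf (nat_lit 0) (nat_lit 4149736437) (nat_lit 684) (nat_lit 3560719204) (nat_lit 760) (nat_lit 923767371) (nat_lit 247) (nat_lit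 5) (nat_lit 256) (nat_lit 5) (nat_lit 257) (nat_lit 5) (nat_lit 300) (nat_lit 255) (nat_lit 225)))) (XT.nd (nat_lit 78) (nat_lit 1216) (nat_lit 0) (XT.lf (nat_lit 0) (nat_lit 3097087820) (nat_lit 684) (nat_lit 5030793438) (nat_lit 76) (nat_lit 629062278) (nat_lit 238) (nat_lit 5) (nat_lit 247) (nat_lit 5) (nat_lit 239) (nat_lit 5) (nat_lit 301) (nat_lit 255) (nat_lit 224)) (XT.nd (nat_lit 78) (nat_lit 608) (nat_lit 0) (XT.lf (nat_lit 0) (nat_lit 3264669937) (nat_lit 608) (nat_lit 3948556141) (nat_lit 684) (nat_lit 1670307081) (nat_lit 230) (nat_lit 5) (nat_lit 238) (nat_lit 5) (nat_lit 239) (nat_lit 5) (nat_lit 302) (nat_lit 255) (nat_lit 223)) (XT.lf (nat_lit 0) (nat_lit 2374690096) (nat_lit 608) (nat_lit 6241146848) (nat_lit 76) (nat_lit 398463016) (nat_lit 222) (nat_lit 5) (nat_lit 230) (nat_lit 5) (nat_lit 223) (nat_lit 5) (nat_lit 303) (nat_lit 255) (nat_lit 222))))) (XT.nd (nat_lit 234) (nat_lit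 1596) (nat_lit 0) (XT.nd (nat_lit 78) (nat_lit 1140) (nat_lit 0) (XT.lf (nat_lit 0) (nat_lit 2228024560) (nat_lit 608) (nat_lit 4284137226) (nat_lit 684) (nat_lit 2636780497) (nat_lit 214) (nat_lit 5) (nat_lit 222) (nat_lit 5) (nat_lit 223) (nat_lit 5) (nat_lit 304) (nat_lit 255) (nat_lit 221)) (XT.nd (nat_lit 78) (nat_lit 532) (nat_lit 0) (XT.lf (nat_lit 0) (nat_lit 1437044161) (nat_lit 608) (nat_lit 7636216242) (nat_lit 76) (nat_lit 214809756) (nat_lit 206) (nat_lit 5) (nat_lit 214) (nat_lit 5) (nat_lit 207) (nat_lit 5) (nat_lit 305) (nat_lit 255) (nat_lit 220)) (XT.lf (nat_lit 0) (nat_lit 1004526061) (nat_lit 532) (nat_lit 4592608155) (nat_lit 608) (nat_lit 3833937503) (nat_lit 199) (nat_lit 5) (nat_lit 206) (nat_lit 5) (nat_lit 207) (nat_lit 5) (nat_lit 306) (nat_lit 255) (nat_lit 219)))) (XT.nd (nat_lit 156) (nat_lit 1064) (nat_lit 0) (XT.nd (nat_lit 78) (nat_lit 0) (nat_lit 0) (XT.lf (nat_lit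 0) (nat_lit 272662686) (nat_lit 532) (nat_lit 9253150535) (nat_lit 76) (nat_lit 53094741) (nat_lit 192) (nat_lit 5) (nat_lit 199) (nat_lit 5) (nat_lit 193) (nat_lit 5) (nat_lit 307) (nat_lit 255) (nat_lit 218)) (XT.lf (nat_lit 0) (nat_lit 4458809228) (nat_lit 532) (nat_lit 438058210) (nat_lit 76) (nat_lit 4833678705) (nat_lit 192) (nat_lit 5) (nat_lit 199) (nat_lit 5) (nat_lit 193) (nat_lit 5) (nat_lit 308) (nat_lit 255) (nat_lit 217))) (XT.nd (nat_lit 78) (nat_lit 532) (nat_lit 0) (XT.lf (nat_lit 0) (nat_lit 8650803696) (nat_lit 532) (nat_lit 98182564) (nat_lit 608) (nat_lit 1138219480) (nat_lit 185) (nat_lit 5) (nat_lit 192) (nat_lit 5) (nat_lit 193) (nat_lit 5) (nat_lit 309) (nat_lit 255) (nat_lit 216)) (XT.lf (nat_lit 0) (nat_lit 3088109246) (nat_lit 532) (nat_lit 2130104521) (nat_lit 76) (nat_lit 4829791196) (nat_lit 178) (nat_lit 5) (nat_lit 185) (nat_lit 5) (nat_lit 179) (nat_lit 5) (nat_lit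 310) (nat_lit 255) (nat_lit 215)))))) (XT.nd (nat_lit 546) (nat_lit 2204) (nat_lit 0) (XT.nd (nat_lit 234) (nat_lit 1748) (nat_lit 0) (XT.nd (nat_lit 78) (nat_lit 988) (nat_lit 0) (XT.lf (nat_lit 0) (nat_lit 7132317652) (nat_lit 456) (nat_lit 273664991) (nat_lit 532) (nat_lit 2807928738) (nat_lit 172) (nat_lit 5) (nat_lit 178) (nat_lit 5) (nat_lit 179) (nat_lit 5) (nat_lit 311) (nat_lit 255) (nat_lit 214)) (XT.nd (nat_lit 78) (nat_lit 456) (nat_lit 0) (XT.lf (nat_lit 0) (nat_lit 1461965652) (nat_lit 532) (nat_lit 4129003719) (nat_lit 76) (nat_lit 4793418564) (nat_lit 165) (nat_lit 5) (nat_lit 172) (nat_lit 5) (nat_lit 166) (nat_lit 5) (nat_lit 312) (nat_lit 255) (nat_lit 213)) (XT.lf (nat_lit 0) (nat_lit 5301689659) (nat_lit 456) (nat_lit 504674414) (nat_lit 532) (nat_lit 4753587566) (nat_lit 159) (nat_lit 5) (nat_lit 165) (nat_lit 5) (nat_lit 166) (nat_lit 5) (nat_lit 313) (nat_lit 255) (nat_lit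 212)))) (XT.nd (nat_lit 156) (nat_lit 836) (nat_lit 0) (XT.nd (nat_lit 78) (nat_lit 532) (nat_lit 0) (XT.lf (nat_lit 0) (nat_lit 4254672343) (nat_lit 380) (nat_lit 6041297596) (nat_lit 456) (nat_lit 444548957) (nat_lit 154) (nat_lit 5) (nat_lit 159) (nat_lit 5) (nat_lit 160) (nat_lit 5) (nat_lit 314) (nat_lit 255) (nat_lit 211)) (XT.lf (nat_lit 0) (nat_lit 3109292183) (nat_lit 456) (nat_lit 820807841) (nat_lit 532) (nat_lit 6996142690) (nat_lit 147) (nat_lit 5) (nat_lit 153) (nat_lit 5) (nat_lit 154) (nat_lit 5) (nat_lit 315) (nat_lit 255) (nat_lit 210))) (XT.nd (nat_lit 78) (nat_lit 456) (nat_lit 0) (XT.lf (nat_lit 0) (nat_lit 1855183116) (nat_lit 380) (nat_lit 6591174479) (nat_lit 456) (nat_lit 2670825269) (nat_lit 142) (nat_lit 5) (nat_lit 147) (nat_lit 5) (nat_lit 148) (nat_lit 5) (nat_lit 316) (nat_lit 255) (nat_lit 209)) (XT.lf (nat_lit 0) (nat_lit 500818080) (nat_lit 380) (nat_lit 1253499605)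 (nat_lit 456) (nat_lit 9559462546) (nat_lit 136) (nat_lit 5) (nat_lit 141) (nat_lit 5) (nat_lit 142) (nat_lit 5) (nat_lit 317) (nat_lit 255) (nat_lit 208))))) (XT.nd (nat_lit 234) (nat_lit 1368) (nat_lit 0) (XT.nd (nat_lit 78) (nat_lit 836) (nat_lit 0) (XT.lf (nat_lit 0) (nat_lit 6299432372) (nat_lit 456) (nat_lit 977116986) (nat_lit 76) (nat_lit 4238932175) (nat_lit 136) (nat_lit 5) (nat_lit 142) (nat_lit 5) (nat_lit 137) (nat_lit 5) (nat_lit 318) (nat_lit 255) (nat_lit 207)) (XT.nd (nat_lit 78) (nat_lit 456) (nat_lit 0) (XT.lf (nat_lit 0) (nat_lit 9169010567) (nat_lit 380) (nat_lit 1814330074) (nat_lit 456) (nat_lit 739872747) (nat_lit 131) (nat_lit 5) (nat_lit 136) (nat_lit 5) (nat_lit 137) (nat_lit 5) (nat_lit 319) (nat_lit 255) (nat_lit 206)) (XT.lf (nat_lit 0) (nat_lit 3836773177) (nat_lit 456) (nat_lit 4286589442) (nat_lit 76) (nat_lit 3812999972) (nat_lit 125) (nat_lit 5) (nat_lit 131)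 (nat_lit 5) (nat_lit 126) (nat_lit 5) (nat_lit 320) (nat_lit 255) (nat_lit 205)))) (XT.nd (nat_lit 156) (nat_lit 608) (nat_lit 0) (XT.nd (nat_lit 78) (nat_lit 456) (nat_lit 0) (XT.lf (nat_lit 0) (nat_lit 6005319914) (nat_lit 304) (nat_lit 2540381791) (nat_lit 380) (nat_lit 3610032216) (nat_lit 121) (nat_lit 5) (nat_lit 125) (nat_lit 5) (nat_lit 126) (nat_lit 5) (nat_lit 321) (nat_lit 255) (nat_lit 204)) (XT.lf (nat_lit 0) (nat_lit 1015950977) (nat_lit 456) (nat_lit 8165223129) (nat_lit 76) (nat_lit 3200104678) (nat_lit 115) (nat_lit 5) (nat_lit 121) (nat_lit 5) (nat_lit 116) (nat_lit 5) (nat_lit 322) (nat_lit 255) (nat_lit 203))) (XT.nd (nat_lit 78) (nat_lit 304) (nat_lit 0) (XT.lf (nat_lit 0) (nat_lit 2258833509) (nat_lit 304) (nat_lit 3484972553) (nat_lit 380) (nat_lit 6869088095) (nat_lit 111) (nat_lit 5) (nat_lit 115) (nat_lit 5) (nat_lit 116) (nat_lit 5) (nat_lit 323) (nat_lit 255) (nat_lit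 202)) (XT.lf (nat_lit 0) (nat_lit 149322634) (nat_lit 304) (nat_lit 10475544386) (nat_lit 380) (nat_lit 2226387045) (nat_lit 107) (nat_lit 5) (nat_lit 111) (nat_lit 5) (nat_lit 112) (nat_lit 5) (nat_lit 324) (nat_lit 255) (nat_lit 201))))))) (XT.nd (nat_lit 1014) (nat_lit 2052) (nat_lit 0) (XT.nd (nat_lit 468) (nat_lit 1672) (nat_lit 0) (XT.nd (nat_lit 234) (nat_lit 608) (nat_lit 0) (XT.nd (nat_lit 78) (nat_lit 608) (nat_lit 0) (XT.lf (nat_lit 0) (nat_lit 2556001733) (nat_lit 380) (nat_lit 2119316847) (nat_lit 76) (nat_lit 8420458209) (nat_lit 106) (nat_lit 5) (nat_lit 111) (nat_lit 5) (nat_lit 107) (nat_lit 5) (nat_lit 325) (nat_lit 255) (nat_lit 200)) (XT.nd (nat_lit 78) (nat_lit 304) (nat_lit 0) (XT.lf (nat_lit 0) (nat_lit 7459302450) (nat_lit 380) (nat_lit 4565319726) (nat_lit 76) (nat_lit 1322586624) (nat_lit 102) (nat_lit 5) (nat_lit 107) (nat_lit 5) (nat_lit 103) (nat_lit 5) (nat_lit 326)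 (nat_lit 255) (nat_lit 199)) (XT.lf (nat_lit 0) (nat_lit 6395860021) (nat_lit 304) (nat_lit 6143742446) (nat_lit 380) (nat_lit 1066004362) (nat_lit 98) (nat_lit 5) (nat_lit 102) (nat_lit 5) (nat_lit 103) (nat_lit 5) (nat_lit 327) (nat_lit 255) (nat_lit 198)))) (XT.nd (nat_lit 78) (nat_lit 304) (nat_lit 0) (XT.lf (nat_lit 0) (nat_lit 3812479209) (nat_lit 228) (nat_lit 36168346) (nat_lit 304) (nat_lit 10022637808) (nat_lit 94) (nat_lit 5) (nat_lit 97) (nat_lit 5) (nat_lit 98) (nat_lit 5) (nat_lit 328) (nat_lit 255) (nat_lit 197)) (XT.nd (nat_lit 78) (nat_lit 0) (nat_lit 0) (XT.lf (nat_lit 0) (nat_lit 996415235) (nat_lit 304) (nat_lit 7940407349) (nat_lit 380) (nat_lit 5207178882) (nat_lit 90) (nat_lit 5) (nat_lit 94) (nat_lit 5) (nat_lit 95) (nat_lit 5) (nat_lit 329) (nat_lit 255) (nat_lit 196)) (XT.lf (nat_lit 0) (nat_lit 12433479335) (nat_lit 304) (nat_lit 1757849553) (nat_lit 380) (nat_lit 233315341)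 (nat_lit 90) (nat_lit 5) (nat_lit 94) (nat_lit 5) (nat_lit 95) (nat_lit 5) (nat_lit 330) (nat_lit 255) (nat_lit 195))))) (XT.nd (nat_lit 234) (nat_lit 760) (nat_lit 0) (XT.nd (nat_lit 78) (nat_lit 608) (nat_lit 0) (XT.lf (nat_lit 0) (nat_lit 4864214477) (nat_lit 304) (nat_lit 5235817977) (nat_lit 76) (nat_lit 4612285249) (nat_lit 86) (nat_lit 5) (nat_lit 90) (nat_lit 5) (nat_lit 87) (nat_lit 5) (nat_lit 331) (nat_lit 255) (nat_lit 194)) (XT.nd (nat_lit 78) (nat_lit 304) (nat_lit 0) (XT.lf (nat_lit 0) (nat_lit 6291285665) (nat_lit 304) (nat_lit 3833732698) (nat_lit 380) (nat_lit 4883319277) (nat_lit 82) (nat_lit 5) (nat_lit 86) (nat_lit 5) (nat_lit 87) (nat_lit 5) (nat_lit 332) (nat_lit 255) (nat_lit 193)) (XT.lf (nat_lit 0) (nat_lit 246891256) (nat_lit 304) (nat_lit 12455284342) (nat_lit 76) (nat_lit 2610659184) (nat_lit 78) (nat_lit 5) (nat_lit 82) (nat_lit 5) (nat_lit 79) (nat_lit 5) (nat_lit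 333) (nat_lit 255) (nat_lit 192)))) (XT.nd (nat_lit 156) (nat_lit 532) (nat_lit 0) (XT.nd (nat_lit 78) (nat_lit 228) (nat_lit 0) (XT.lf (nat_lit 0) (nat_lit 5498859250) (nat_lit 304) (nat_lit 868973685) (nat_lit 76) (nat_lit 9257320541) (nat_lit 78) (nat_lit 5) (nat_lit 82) (nat_lit 5) (nat_lit 79) (nat_lit 5) (nat_lit 334) (nat_lit 255) (nat_lit 191)) (XT.lf (nat_lit 0) (nat_lit 10932150786) (nat_lit 304) (nat_lit 4818080468) (nat_lit 76) (nat_lit 196150857) (nat_lit 75) (nat_lit 5) (nat_lit 79) (nat_lit 5) (nat_lit 76) (nat_lit 5) (nat_lit 335) (nat_lit 255) (nat_lit 190))) (XT.nd (nat_lit 78) (nat_lit 228) (nat_lit 0) (XT.lf (nat_lit 0) (nat_lit 294333826) (nat_lit 304) (nat_lit 9087073007) (nat_lit 76) (nat_lit 6894894371) (nat_lit 71) (nat_lit 5) (nat_lit 75) (nat_lit 5) (nat_lit 72) (nat_lit 5) (nat_lit 336) (nat_lit 255) (nat_lit 189)) (XT.lf (nat_lit 0) (nat_lit 2931849178) (nat_lit 228)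 (nat_lit 2765993804) (nat_lit 304) (nat_lit 10917550271) (nat_lit 68) (nat_lit 5) (nat_lit 71) (nat_lit 5) (nat_lit 72) (nat_lit 5) (nat_lit 337) (nat_lit 255) (nat_lit 188)))))) (XT.nd (nat_lit 546) (nat_lit 912) (nat_lit 0) (XT.nd (nat_lit 234) (nat_lit 608) (nat_lit 0) (XT.nd (nat_lit 78) (nat_lit 532) (nat_lit 0) (XT.lf (nat_lit 0) (nat_lit 11303943220) (nat_lit 304) (nat_lit 1633950816) (nat_lit 76) (nat_lit 4025968371) (nat_lit 68) (nat_lit 5) (nat_lit 72) (nat_lit 5) (nat_lit 69) (nat_lit 5) (nat_lit 338) (nat_lit 255) (nat_lit 187)) (XT.nd (nat_lit 78) (nat_lit 304) (nat_lit 0) (XT.lf (nat_lit 0) (nat_lit 10823340854) (nat_lit 228) (nat_lit 6297266608) (nat_lit 304) (nat_lit 201344202) (nat_lit 65) (nat_lit 5) (nat_lit 68) (nat_lit 5) (nat_lit 69) (nat_lit 5) (nat_lit 339) (nat_lit 255) (nat_lit 186)) (XT.lf (nat_lit 0) (nat_lit 5357723121) (nat_lit 304) (nat_lit 11741559795) (nat_lit 76)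 (nat_lit 590653095) (nat_lit 61) (nat_lit 5) (nat_lit 65) (nat_lit 5) (nat_lit 62) (nat_lit 5) (nat_lit 340) (nat_lit 255) (nat_lit 185)))) (XT.nd (nat_lit 156) (nat_lit 456) (nat_lit 0) (XT.nd (nat_lit 78) (nat_lit 0) (nat_lit 0) (XT.lf (nat_lit 0) (nat_lit 678714827) (nat_lit 152) (nat_lit 10447778514) (nat_lit 228) (nat_lit 6941539216) (nat_lit 59) (nat_lit 5) (nat_lit 61) (nat_lit 5) (nat_lit 62) (nat_lit 5) (nat_lit 341) (nat_lit 255) (nat_lit 184)) (XT.lf (nat_lit 0) (nat_lit 13557468754) (nat_lit 152) (nat_lit 3546056081) (nat_lit 228) (nat_lit 1353255446) (nat_lit 59) (nat_lit 5) (nat_lit 61) (nat_lit 5) (nat_lit 62) (nat_lit 5) (nat_lit 342) (nat_lit 255) (nat_lit 183))) (XT.nd (nat_lit 78) (nat_lit 152) (nat_lit 0) (XT.lf (nat_lit 0) (nat_lit 4376767121) (nat_lit 304) (nat_lit 10911877519) (nat_lit 76) (nat_lit 3567349107) (nat_lit 55) (nat_lit 5) (nat_lit 59) (nat_lit 5) (nat_lit 56)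 (nat_lit 5) (nat_lit 343) (nat_lit 255) (nat_lit 182)) (XT.lf (nat_lit 0) (nat_lit 1892486249) (nat_lit 152) (nat_lit 8394576665) (nat_lit 228) (nat_lit 8979417960) (nat_lit 53) (nat_lit 5) (nat_lit 55) (nat_lit 5) (nat_lit 56) (nat_lit 5) (nat_lit 344) (nat_lit 255) (nat_lit 181))))) (XT.nd (nat_lit 234) (nat_lit 456) (nat_lit 0) (XT.nd (nat_lit 78) (nat_lit 456) (nat_lit 0) (XT.lf (nat_lit 0) (nat_lit 15158784501) (nat_lit 152) (nat_lit 1247839154) (nat_lit 228) (nat_lit 3282030824) (nat_lit 53) (nat_lit 5) (nat_lit 55) (nat_lit 5) (nat_lit 56) (nat_lit 5) (nat_lit 345) (nat_lit 255) (nat_lit 180)) (XT.nd (nat_lit 78) (nat_lit 152) (nat_lit 0) (XT.lf (nat_lit 0) (nat_lit 2607967301) (nat_lit 304) (nat_lit 11435631399) (nat_lit 76) (nat_lit 6078457037) (nat_lit 49) (nat_lit 5) (nat_lit 53) (nat_lit 5) (nat_lit 50) (nat_lit 5) (nat_lit 346) (nat_lit 255) (nat_lit 179)) (XT.lf (nat_lit 0) (nat_lit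 1715849315) (nat_lit 152) (nat_lit 6924383312) (nat_lit 228) (nat_lit 11927599532) (nat_lit 47) (nat_lit 5) (nat_lit 49) (nat_lit 5) (nat_lit 50) (nat_lit 5) (nat_lit 347) (nat_lit 255) (nat_lit 178)))) (XT.nd (nat_lit 156) (nat_lit 228) (nat_lit 0) (XT.nd (nat_lit 78) (nat_lit 228) (nat_lit 0) (XT.lf (nat_lit 0) (nat_lit 14894189785) (nat_lit 228) (nat_lit 5679206270) (nat_lit 76) (nat_lit 452781197) (nat_lit 47) (nat_lit 5) (nat_lit 50) (nat_lit 5) (nat_lit 48) (nat_lit 5) (nat_lit 348) (nat_lit 255) (nat_lit 177)) (XT.lf (nat_lit 0) (nat_lit 7878772329) (nat_lit 228) (nat_lit 13515684621) (nat_lit 304) (nat_lit 102651492) (nat_lit 44) (nat_lit 5) (nat_lit 47) (nat_lit 5) (nat_lit 48) (nat_lit 5) (nat_lit 349) (nat_lit 255) (nat_lit 176))) (XT.nd (nat_lit 78) (nat_lit 152) (nat_lit 0) (XT.lf (nat_lit 0) (nat_lit 6027872302) (nat_lit 304) (nat_lit 166516706) (nat_lit 76) (nat_lit 15786986392)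 (nat_lit 43) (nat_lit 5) (nat_lit 47) (nat_lit 5) (nat_lit 44) (nat_lit 5) (nat_lit 350) (nat_lit 255) (nat_lit 175)) (XT.lf (nat_lit 0) (nat_lit 12402505109) (nat_lit 228) (nat_lit 8683561245) (nat_lit 76) (nat_lit 1392867526) (nat_lit 41) (nat_lit 5) (nat_lit 44) (nat_lit 5) (nat_lit 42) (nat_lit 5) (nat_lit 351) (nat_lit 255) (nat_lit 174))))))))
noncomputable def xc43 : XT := (XT.nd (nat_lit 35256) (nat_lit 0) (nat_lit 11628) (XT.nd (nat_lit 34164) (nat_lit 0) (nat_lit 34276) (XT.nd (nat_lit 468) (nat_lit 456) (nat_lit 0) (XT.nd (nat_lit 234) (nat_lit 380) (nat_lit 0) (XT.nd (nat_lit 78) (nat_lit 228) (nat_lit 0) (XT.lf (nat_lit 0) (nat_lit 5149079568) (nat_lit 152) (nat_lit 13858573147) (nat_lit 228) (nat_lit 3982989472) (nat_lit 39) (nat_lit 5) (nat_lit 41) (nat_lit 5) (nat_lit 42) (nat_lit 5) (nat_lit 352) (nat_lit 255) (nat_lit 173)) (XT.nd (nat_lit 78) (nat_lit 152) (nat_lit 0) (XT.lf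 (nat_lit 0) (nat_lit 2286106395) (nat_lit 228) (nat_lit 4079715139) (nat_lit 76) (nat_lit 17151131998) (nat_lit 38) (nat_lit 5) (nat_lit 41) (nat_lit 5) (nat_lit 39) (nat_lit 5) (nat_lit 353) (nat_lit 255) (nat_lit 172)) (XT.lf (nat_lit 0) (nat_lit 8729276376) (nat_lit 228) (nat_lit 13927423177) (nat_lit 76) (nat_lit 1401033759) (nat_lit 36) (nat_lit 5) (nat_lit 39) (nat_lit 5) (nat_lit 37) (nat_lit 5) (nat_lit 354) (nat_lit 255) (nat_lit 171)))) (XT.nd (nat_lit 78) (nat_lit 228) (nat_lit 0) (XT.lf (nat_lit 0) (nat_lit 105774105) (nat_lit 152) (nat_lit 15296272677) (nat_lit 228) (nat_lit 9211971300) (nat_lit 34) (nat_lit 5) (nat_lit 36) (nat_lit 5) (nat_lit 37) (nat_lit 5) (nat_lit 355) (nat_lit 255) (nat_lit 170)) (XT.nd (nat_lit 78) (nat_lit 228) (nat_lit 0) (XT.lf (nat_lit 0) (nat_lit 14690444883) (nat_lit 152) (nat_lit 7644773438) (nat_lit 228) (nat_lit 2850576195) (nat_lit 34) (nat_lit 5)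 (nat_lit 36) (nat_lit 5) (nat_lit 37) (nat_lit 5) (nat_lit 356) (nat_lit 255) (nat_lit 169)) (XT.lf (nat_lit 0) (nat_lit 3646780189) (nat_lit 228) (nat_lit 21869839451) (nat_lit 76) (nat_lit 257757701) (nat_lit 31) (nat_lit 5) (nat_lit 34) (nat_lit 5) (nat_lit 32) (nat_lit 5) (nat_lit 357) (nat_lit 255) (nat_lit 168))))) (XT.nd (nat_lit 234) (nat_lit 304) (nat_lit 0) (XT.nd (nat_lit 78) (nat_lit 152) (nat_lit 0) (XT.lf (nat_lit 0) (nat_lit 10390307693) (nat_lit 228) (nat_lit 7628175764) (nat_lit 76) (nat_lit 8359964688) (nat_lit 31) (nat_lit 5) (nat_lit 34) (nat_lit 5) (nat_lit 32) (nat_lit 5) (nat_lit 358) (nat_lit 255) (nat_lit 167)) (XT.nd (nat_lit 78) (nat_lit 0) (nat_lit 0) (XT.lf (nat_lit 0) (nat_lit 7076846604) (nat_lit 152) (nat_lit 10273244950) (nat_lit 228) (nat_lit 9650277218) (nat_lit 29) (nat_lit 5) (nat_lit 31) (nat_lit 5) (nat_lit 32) (nat_lit 5) (nat_lit 359) (nat_lit 255) (nat_lit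 166)) (XT.lf (nat_lit 0) (nat_lit 22271649950) (nat_lit 152) (nat_lit 2267282616) (nat_lit 228) (nat_lit 3101615694) (nat_lit 29) (nat_lit 5) (nat_lit 31) (nat_lit 5) (nat_lit 32) (nat_lit 5) (nat_lit 360) (nat_lit 255) (nat_lit 165)))) (XT.nd (nat_lit 156) (nat_lit 152) (nat_lit 0) (XT.nd (nat_lit 78) (nat_lit 0) (nat_lit 0) (XT.lf (nat_lit 0) (nat_lit 3667026876) (nat_lit 152) (nat_lit 18667091438) (nat_lit 76) (nat_lit 5963921772) (nat_lit 27) (nat_lit 5) (nat_lit 29) (nat_lit 5) (nat_lit 28) (nat_lit 5) (nat_lit 361) (nat_lit 255) (nat_lit 164)) (XT.lf (nat_lit 0) (nat_lit 10618287995) (nat_lit 152) (nat_lit 3910539248) (nat_lit 76) (nat_lit 14445591449) (nat_lit 27) (nat_lit 5) (nat_lit 29) (nat_lit 5) (nat_lit 28) (nat_lit 5) (nat_lit 362) (nat_lit 255) (nat_lit 163))) (XT.nd (nat_lit 33228) (nat_lit 0) (nat_lit 46284) (XT.lf (nat_lit 0) (nat_lit 11385462557) (nat_lit 152) (nat_lit 6437102922)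 (nat_lit 228) (nat_lit 11847639451) (nat_lit 25) (nat_lit 5) (nat_lit 27) (nat_lit 5) (nat_lit 28) (nat_lit 5) (nat_lit 363) (nat_lit 255) (nat_lit 162)) (XT.lf (nat_lit 0) (nat_lit 130833400) (nat_lit 532) (nat_lit 2994920244) (nat_lit 0) (nat_lit 130833400) (nat_lit 634) (nat_lit 5) (nat_lit 641) (nat_lit 4) (nat_lit 634) (nat_lit 4) (nat_lit 268) (nat_lit 256) (nat_lit 256)))))) (XT.nd (nat_lit 546) (nat_lit 7372) (nat_lit 0) (XT.nd (nat_lit 234) (nat_lit 3344) (nat_lit 0) (XT.nd (nat_lit 78) (nat_lit 1292) (nat_lit 0) (XT.lf (nat_lit 0) (nat_lit 4790872721) (nat_lit 532) (nat_lit 634645583) (nat_lit 0) (nat_lit 1106796700) (nat_lit 634) (nat_lit 5) (nat_lit 641) (nat_lit 4) (nat_lit 634) (nat_lit 4) (nat_lit 269) (nat_lit 256) (nat_lit 255)) (XT.nd (nat_lit 78) (nat_lit 684) (nat_lit 0) (XT.lf (nat_lit 0) (nat_lit 2735519904) (nat_lit 608) (nat_lit 1735098649) (nat_lit 76) (nat_lit 2083829103)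 (nat_lit 626) (nat_lit 5) (nat_lit 634) (nat_lit 5) (nat_lit 627) (nat_lit 4) (nat_lit 270) (nat_lit 256) (nat_lit 254)) (XT.lf (nat_lit 0) (nat_lit 606521509) (nat_lit 684) (nat_lit 2784610965) (nat_lit 76) (nat_lit 3188560063) (nat_lit 617) (nat_lit 5) (nat_lit 626) (nat_lit 5) (nat_lit 618) (nat_lit 5) (nat_lit 271) (nat_lit 256) (nat_lit 253)))) (XT.nd (nat_lit 156) (nat_lit 1824) (nat_lit 0) (XT.nd (nat_lit 78) (nat_lit 836) (nat_lit 0) (XT.lf (nat_lit 0) (nat_lit 2812745537) (nat_lit 684) (nat_lit 2175307719) (nat_lit 760) (nat_lit 1619806505) (nat_lit 608) (nat_lit 5) (nat_lit 617) (nat_lit 5) (nat_lit 618) (nat_lit 5) (nat_lit 272) (nat_lit 256) (nat_lit 252)) (XT.lf (nat_lit 0) (nat_lit 1877116113) (nat_lit 760) (nat_lit 828131923) (nat_lit 836) (nat_lit 3933844532) (nat_lit 597) (nat_lit 5) (nat_lit 607) (nat_lit 5) (nat_lit 608) (nat_lit 5) (nat_lit 273) (nat_lit 256) (nat_lit 251)))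 (XT.nd (nat_lit 78) (nat_lit 912) (nat_lit 0) (XT.lf (nat_lit 0) (nat_lit 347531884) (nat_lit 912) (nat_lit 5686771745) (nat_lit 76) (nat_lit 639108376) (nat_lit 585) (nat_lit 5) (nat_lit 597) (nat_lit 5) (nat_lit 586) (nat_lit 5) (nat_lit 274) (nat_lit 256) (nat_lit 250)) (XT.lf (nat_lit 0) (nat_lit 123965278) (nat_lit 912) (nat_lit 4473072211) (nat_lit 988) (nat_lit 2113493798) (nat_lit 573) (nat_lit 5) (nat_lit 585) (nat_lit 5) (nat_lit 586) (nat_lit 5) (nat_lit 275) (nat_lit 256) (nat_lit 249))))) (XT.nd (nat_lit 234) (nat_lit 5168) (nat_lit 0) (XT.nd (nat_lit 78) (nat_lit 2128) (nat_lit 0) (XT.lf (nat_lit 0) (nat_lit 2091330714) (nat_lit 988) (nat_lit 686476935) (nat_lit 76) (nat_lit 3972908133) (nat_lit 572) (nat_lit 5) (nat_lit 585) (nat_lit 5) (nat_lit 573) (nat_lit 5) (nat_lit 276) (nat_lit 256) (nat_lit 248)) (XT.nd (nat_lit 78) (nat_lit 1140) (nat_lit 0) (XT.lf (nat_lit 0) (nat_lit 5339080404)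 (nat_lit 988) (nat_lit 949975522) (nat_lit 1064) (nat_lit 505002455) (nat_lit 559) (nat_lit 5) (nat_lit 572) (nat_lit 5) (nat_lit 573) (nat_lit 5) (nat_lit 277) (nat_lit 256) (nat_lit 247)) (XT.lf (nat_lit 0) (nat_lit 3628973217) (nat_lit 1140) (nat_lit 2202087159) (nat_lit 76) (nat_lit 1009196211) (nat_lit 544) (nat_lit 5) (nat_lit 559) (nat_lit 5) (nat_lit 545) (nat_lit 5) (nat_lit 278) (nat_lit 256) (nat_lit 246)))) (XT.nd (nat_lit 156) (nat_lit 2736) (nat_lit 0) (XT.nd (nat_lit 78) (nat_lit 1216) (nat_lit 0) (XT.lf (nat_lit 0) (nat_lit 887203794) (nat_lit 1216) (nat_lit 2915659232) (nat_lit 76) (nat_lit 3086752477) (nat_lit 528) (nat_lit 5) (nat_lit 544) (nat_lit 5) (nat_lit 529) (nat_lit 5) (nat_lit 279) (nat_lit 256) (nat_lit 245)) (XT.lf (nat_lit 0) (nat_lit 3338498729) (nat_lit 1216) (nat_lit 1632131469) (nat_lit 1292) (nat_lit 1971412543) (nat_lit 512) (nat_lit 5) (nat_lit 528) (nat_lit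 5) (nat_lit 529) (nat_lit 5) (nat_lit 280) (nat_lit 256) (nat_lit 244))) (XT.nd (nat_lit 78) (nat_lit 1368) (nat_lit 0) (XT.lf (nat_lit 0) (nat_lit 2064800721) (nat_lit 1368) (nat_lit 4264994486) (nat_lit 76) (nat_lit 667825169) (nat_lit 494) (nat_lit 5) (nat_lit 512) (nat_lit 5) (nat_lit 495) (nat_lit 5) (nat_lit 281) (nat_lit 256) (nat_lit 243)) (XT.lf (nat_lit 0) (nat_lit 2147701064) (nat_lit 1368) (nat_lit 3971224791) (nat_lit 1444) (nat_lit 937321596) (nat_lit 476) (nat_lit 5) (nat_lit 494) (nat_lit 5) (nat_lit 495) (nat_lit 5) (nat_lit 282) (nat_lit 256) (nat_lit 242))))))) (XT.nd (nat_lit 1092) (nat_lit 7980) (nat_lit 0) (XT.nd (nat_lit 546) (nat_lit 5852) (nat_lit 0) (XT.nd (nat_lit 234) (nat_lit 4104) (nat_lit 0) (XT.nd (nat_lit 78) (nat_lit 3192) (nat_lit 0) (XT.lf (nat_lit 0) (nat_lit 1585057736) (nat_lit 1444) (nat_lit 1466745473) (nat_lit 1520) (nat_lit 4066217987) (nat_lit 456) (nat_lit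 5) (nat_lit 475) (nat_lit 5) (nat_lit 476) (nat_lit 5) (nat_lit 283) (nat_lit 256) (nat_lit 241)) (XT.nd (nat_lit 78) (nat_lit 1672) (nat_lit 0) (XT.lf (nat_lit 0) (nat_lit 1048885681) (nat_lit 1520) (nat_lit 6025621084) (nat_lit 1596) (nat_lit 108590881) (nat_lit 436) (nat_lit 5) (nat_lit 456) (nat_lit 5) (nat_lit 457) (nat_lit 5) (nat_lit 284) (nat_lit 256) (nat_lit 240)) (XT.lf (nat_lit 0) (nat_lit 514765355) (nat_lit 1596) (nat_lit 3332834179) (nat_lit 1672) (nat_lit 3403475261) (nat_lit 414) (nat_lit 5) (nat_lit 435) (nat_lit 5) (nat_lit 436) (nat_lit 5) (nat_lit 285) (nat_lit 256) (nat_lit 239)))) (XT.nd (nat_lit 156) (nat_lit 2356) (nat_lit 0) (XT.nd (nat_lit 78) (nat_lit 0) (nat_lit 0) (XT.lf (nat_lit 0) (nat_lit 11604706) (nat_lit 1672) (nat_lit 505244954) (nat_lit 1748) (nat_lit 6805749668) (nat_lit 391) (nat_lit 5) (nat_lit 413) (nat_lit 5) (nat_lit 414) (nat_lit 5) (nat_lit 286) (nat_lit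 256) (nat_lit 238)) (XT.lf (nat_lit 0) (nat_lit 4456001171) (nat_lit 1748) (nat_lit 491082881) (nat_lit 76) (nat_lit 2449879884) (nat_lit 391) (nat_lit 5) (nat_lit 414) (nat_lit 5) (nat_lit 392) (nat_lit 5) (nat_lit 287) (nat_lit 256) (nat_lit 237))) (XT.nd (nat_lit 78) (nat_lit 836) (nat_lit 0) (XT.lf (nat_lit 0) (nat_lit 960183745) (nat_lit 1520) (nat_lit 973841662) (nat_lit 76) (nat_lit 5540806916) (nat_lit 371) (nat_lit 5) (nat_lit 391) (nat_lit 5) (nat_lit 372) (nat_lit 5) (nat_lit 288) (nat_lit 256) (nat_lit 236)) (XT.lf (nat_lit 0) (nat_lit 4880341816) (nat_lit 912) (nat_lit 1456834786) (nat_lit 76) (nat_lit 1218719020) (nat_lit 360) (nat_lit 5) (nat_lit 372) (nat_lit 5) (nat_lit 361) (nat_lit 5) (nat_lit 289) (nat_lit 256) (nat_lit 235))))) (XT.nd (nat_lit 234) (nat_lit 3116) (nat_lit 0) (XT.nd (nat_lit 78) (nat_lit 1748) (nat_lit 0) (XT.lf (nat_lit 0) (nat_lit 1211377182) (nat_lit 988)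 (nat_lit 1936514490) (nat_lit 76) (nat_lit 4492426590) (nat_lit 347) (nat_lit 5) (nat_lit 360) (nat_lit 5) (nat_lit 348) (nat_lit 5) (nat_lit 290) (nat_lit 256) (nat_lit 234)) (XT.nd (nat_lit 78) (nat_lit 912) (nat_lit 0) (XT.lf (nat_lit 0) (nat_lit 5119344601) (nat_lit 912) (nat_lit 2413552374) (nat_lit 76) (nat_lit 195287095) (nat_lit 336) (nat_lit 5) (nat_lit 348) (nat_lit 5) (nat_lit 337) (nat_lit 5) (nat_lit 291) (nat_lit 256) (nat_lit 233)) (XT.lf (nat_lit 0) (nat_lit 1271591148) (nat_lit 912) (nat_lit 2901295639) (nat_lit 76) (nat_lit 3646440529) (nat_lit 324) (nat_lit 5) (nat_lit 336) (nat_lit 5) (nat_lit 325) (nat_lit 5) (nat_lit 292) (nat_lit 256) (nat_lit 232)))) (XT.nd (nat_lit 156) (nat_lit 1520) (nat_lit 0) (XT.nd (nat_lit 78) (nat_lit 836) (nat_lit 0) (XT.lf (nat_lit 0) (nat_lit 4523526521) (nat_lit 760) (nat_lit 654248591) (nat_lit 836) (nat_lit 2736262890) (nat_lit 314) (nat_lit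 5) (nat_lit 324) (nat_lit 5) (nat_lit 325) (nat_lit 5) (nat_lit 293) (nat_lit 256) (nat_lit 231)) (XT.lf (nat_lit 0) (nat_lit 1140487273) (nat_lit 836) (nat_lit 3893738007) (nat_lit 76) (nat_lit 2977949752) (nat_lit 303) (nat_lit 5) (nat_lit 314) (nat_lit 5) (nat_lit 304) (nat_lit 5) (nat_lit 294) (nat_lit 256) (nat_lit 230))) (XT.nd (nat_lit 78) (nat_lit 836) (nat_lit 0) (XT.lf (nat_lit 0) (nat_lit 3704192526) (nat_lit 684) (nat_lit 1346382090) (nat_lit 760) (nat_lit 3063303752) (nat_lit 294) (nat_lit 5) (nat_lit 303) (nat_lit 5) (nat_lit 304) (nat_lit 5) (nat_lit 295) (nat_lit 256) (nat_lit 229)) (XT.lf (nat_lit 0) (nat_lit 816119098) (nat_lit 836) (nat_lit 4940454644) (nat_lit 76) (nat_lit 2462651167) (nat_lit 283) (nat_lit 5) (nat_lit 294) (nat_lit 5) (nat_lit 284) (nat_lit 5) (nat_lit 296) (nat_lit 256) (nat_lit 228)))))) (XT.nd (nat_lit 546) (nat_lit 3876) (nat_lit 0) (XT.nd (nat_lit 234)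 (nat_lit 2052) (nat_lit 0) (XT.nd (nat_lit 78) (nat_lit 1368) (nat_lit 0) (XT.lf (nat_lit 0) (nat_lit 2831001700) (nat_lit 684) (nat_lit 1902943513) (nat_lit 760) (nat_lit 3594171841) (nat_lit 274) (nat_lit 5) (nat_lit 283) (nat_lit 5) (nat_lit 284) (nat_lit 5) (nat_lit 297) (nat_lit 256) (nat_lit 227)) (XT.nd (nat_lit 78) (nat_lit 608) (nat_lit 0) (XT.lf (nat_lit 0) (nat_lit 294885495) (nat_lit 760) (nat_lit 6069369384) (nat_lit 76) (nat_lit 2076634870) (nat_lit 264) (nat_lit 5) (nat_lit 274) (nat_lit 5) (nat_lit 265) (nat_lit 5) (nat_lit 298) (nat_lit 256) (nat_lit 226)) (XT.lf (nat_lit 0) (nat_lit 1875618989) (nat_lit 608) (nat_lit 2348084456) (nat_lit 684) (nat_lit 4333486814) (nat_lit 256) (nat_lit 5) (nat_lit 264) (nat_lit 5) (nat_lit 265) (nat_lit 5) (nat_lit 299) (nat_lit 256) (nat_lit 225)))) (XT.nd (nat_lit 156) (nat_lit 684) (nat_lit 0) (XT.nd (nat_lit 78) (nat_lit 684) (nat_lit 0) (XT.lf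 (nat_lit 0) (nat_lit 1364774236) (nat_lit 684) (nat_lit 6878577873) (nat_lit 760) (nat_lit 434224835) (nat_lit 247) (nat_lit 5) (nat_lit 256) (nat_lit 5) (nat_lit 257) (nat_lit 5) (nat_lit 300) (nat_lit 256) (nat_lit 224)) (XT.lf (nat_lit 0) (nat_lit 808038208) (nat_lit 608) (nat_lit 2705890592) (nat_lit 684) (nat_lit 5287657205) (nat_lit 238) (nat_lit 5) (nat_lit 246) (nat_lit 5) (nat_lit 247) (nat_lit 5) (nat_lit 301) (nat_lit 256) (nat_lit 223))) (XT.nd (nat_lit 78) (nat_lit 76) (nat_lit 0) (XT.lf (nat_lit 0) (nat_lit 227177422) (nat_lit 608) (nat_lit 7323291778) (nat_lit 684) (nat_lit 1379324098) (nat_lit 230) (nat_lit 5) (nat_lit 238) (nat_lit 5) (nat_lit 239) (nat_lit 5) (nat_lit 302) (nat_lit 256) (nat_lit 222)) (XT.lf (nat_lit 0) (nat_lit 2599503055) (nat_lit 684) (nat_lit 398417223) (nat_lit 76) (nat_lit 6063873585) (nat_lit 229) (nat_lit 5) (nat_lit 238) (nat_lit 5) (nat_lit 230) (nat_lit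 5) (nat_lit 303) (nat_lit 256) (nat_lit 221))))) (XT.nd (nat_lit 234) (nat_lit 2128) (nat_lit 0) (XT.nd (nat_lit 78) (nat_lit 1216) (nat_lit 0) (XT.lf (nat_lit 0) (nat_lit 6659509303) (nat_lit 608) (nat_lit 1058247988) (nat_lit 76) (nat_lit 1480251964) (nat_lit 222) (nat_lit 5) (nat_lit 230) (nat_lit 5) (nat_lit 223) (nat_lit 5) (nat_lit 304) (nat_lit 256) (nat_lit 220)) (XT.nd (nat_lit 78) (nat_lit 532) (nat_lit 0) (XT.lf (nat_lit 0) (nat_lit 1474553665) (nat_lit 684) (nat_lit 1770357130) (nat_lit 76) (nat_lit 6093425833) (nat_lit 213) (nat_lit 5) (nat_lit 222) (nat_lit 5) (nat_lit 214) (nat_lit 5) (nat_lit 305) (nat_lit 256) (nat_lit 219)) (XT.lf (nat_lit 0) (nat_lit 5555771770) (nat_lit 608) (nat_lit 2535471672) (nat_lit 76) (nat_lit 1391694144) (nat_lit 206) (nat_lit 5) (nat_lit 214) (nat_lit 5) (nat_lit 207) (nat_lit 5) (nat_lit 306) (nat_lit 256) (nat_lit 218)))) (XT.nd (nat_lit 156) (nat_lit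 1064) (nat_lit 0) (XT.nd (nat_lit 78) (nat_lit 456) (nat_lit 0) (XT.lf (nat_lit 0) (nat_lit 122385825) (nat_lit 608) (nat_lit 3354770811) (nat_lit 76) (nat_lit 6154815625) (nat_lit 198) (nat_lit 5) (nat_lit 206) (nat_lit 5) (nat_lit 199) (nat_lit 5) (nat_lit 307) (nat_lit 256) (nat_lit 217)) (XT.lf (nat_lit 0) (nat_lit 4225453295) (nat_lit 532) (nat_lit 4245253640) (nat_lit 76) (nat_lit 1314585380) (nat_lit 192) (nat_lit 5) (nat_lit 199) (nat_lit 5) (nat_lit 193) (nat_lit 5) (nat_lit 308) (nat_lit 256) (nat_lit 216))) (XT.nd (nat_lit 78) (nat_lit 532) (nat_lit 0) (XT.lf (nat_lit 0) (nat_lit 4742544424) (nat_lit 532) (nat_lit 3710539978) (nat_lit 608) (nat_lit 1490138129) (nat_lit 185) (nat_lit 5) (nat_lit 192) (nat_lit 5) (nat_lit 193) (nat_lit 5) (nat_lit 309) (nat_lit 256) (nat_lit 215)) (XT.lf (nat_lit 0) (nat_lit 2654021201) (nat_lit 532) (nat_lit 6228525972) (nat_lit 76) (nat_lit 1223274728)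 (nat_lit 178) (nat_lit 5) (nat_lit 185) (nat_lit 5) (nat_lit 179) (nat_lit 5) (nat_lit 310) (nat_lit 256) (nat_lit 214))))))))
noncomputable def xc44 : XT := (XT.nd (nat_lit 2106) (nat_lit 3344) (nat_lit 0) (XT.nd (nat_lit 1014) (nat_lit 3344) (nat_lit 0) (XT.nd (nat_lit 468) (nat_lit 2432) (nat_lit 0) (XT.nd (nat_lit 234) (nat_lit 912) (nat_lit 0) (XT.nd (nat_lit 78) (nat_lit 988) (nat_lit 0) (XT.lf (nat_lit 0) (nat_lit 2929419809) (nat_lit 456) (nat_lit 3979189151) (nat_lit 532) (nat_lit 3364403278) (nat_lit 172) (nat_lit 5) (nat_lit 178) (nat_lit 5) (nat_lit 179) (nat_lit 5) (nat_lit 311) (nat_lit 256) (nat_lit 213)) (XT.nd (nat_lit 78) (nat_lit 456) (nat_lit 0) (XT.lf (nat_lit 0) (nat_lit 824577486) (nat_lit 532) (nat_lit 8529785471) (nat_lit 76) (nat_lit 1090979663) (nat_lit 165) (nat_lit 5) (nat_lit 172) (nat_lit 5) (nat_lit 166) (nat_lit 5) (nat_lit 312) (nat_lit 256) (nat_lit 212)) (XT.lf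 (nat_lit 0) (nat_lit 792901426) (nat_lit 456) (nat_lit 4311918872) (nat_lit 532) (nat_lit 5517385961) (nat_lit 159) (nat_lit 5) (nat_lit 165) (nat_lit 5) (nat_lit 166) (nat_lit 5) (nat_lit 313) (nat_lit 256) (nat_lit 211)))) (XT.nd (nat_lit 78) (nat_lit 912) (nat_lit 0) (XT.lf (nat_lit 0) (nat_lit 9507814827) (nat_lit 532) (nat_lit 396141780) (nat_lit 76) (nat_lit 900565470) (nat_lit 159) (nat_lit 5) (nat_lit 166) (nat_lit 5) (nat_lit 160) (nat_lit 5) (nat_lit 314) (nat_lit 256) (nat_lit 210)) (XT.nd (nat_lit 78) (nat_lit 456) (nat_lit 0) (XT.lf (nat_lit 0) (nat_lit 3032487931) (nat_lit 456) (nat_lit 1694435337) (nat_lit 76) (nat_lit 6264581430) (nat_lit 153) (nat_lit 5) (nat_lit 159) (nat_lit 5) (nat_lit 154) (nat_lit 5) (nat_lit 315) (nat_lit 256) (nat_lit 209)) (XT.lf (nat_lit 0) (nat_lit 7466881299) (nat_lit 532) (nat_lit 3083607882) (nat_lit 76) (nat_lit 633608045) (nat_lit 147) (nat_lit 5)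 (nat_lit 154) (nat_lit 5) (nat_lit 148) (nat_lit 5) (nat_lit 316) (nat_lit 256) (nat_lit 208))))) (XT.nd (nat_lit 234) (nat_lit 1216) (nat_lit 0) (XT.nd (nat_lit 78) (nat_lit 760) (nat_lit 0) (XT.lf (nat_lit 0) (nat_lit 665171352) (nat_lit 456) (nat_lit 4593745835) (nat_lit 76) (nat_lit 6123057237) (nat_lit 141) (nat_lit 5) (nat_lit 147) (nat_lit 5) (nat_lit 142) (nat_lit 5) (nat_lit 317) (nat_lit 256) (nat_lit 207)) (XT.nd (nat_lit 78) (nat_lit 380) (nat_lit 0) (XT.lf (nat_lit 0) (nat_lit 5121604919) (nat_lit 456) (nat_lit 6222939504) (nat_lit 76) (nat_lit 240918875) (nat_lit 136) (nat_lit 5) (nat_lit 142) (nat_lit 5) (nat_lit 137) (nat_lit 5) (nat_lit 318) (nat_lit 256) (nat_lit 206)) (XT.lf (nat_lit 0) (nat_lit 3806628887) (nat_lit 380) (nat_lit 5932754441) (nat_lit 456) (nat_lit 2055147966) (nat_lit 131) (nat_lit 5) (nat_lit 136) (nat_lit 5) (nat_lit 137) (nat_lit 5) (nat_lit 319) (nat_lit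 256) (nat_lit 205)))) (XT.nd (nat_lit 156) (nat_lit 456) (nat_lit 0) (XT.nd (nat_lit 78) (nat_lit 304) (nat_lit 0) (XT.lf (nat_lit 0) (nat_lit 2131588640) (nat_lit 380) (nat_lit 315166791) (nat_lit 456) (nat_lit 9562948601) (nat_lit 125) (nat_lit 5) (nat_lit 130) (nat_lit 5) (nat_lit 131) (nat_lit 5) (nat_lit 320) (nat_lit 256) (nat_lit 204)) (XT.lf (nat_lit 0) (nat_lit 295270214) (nat_lit 304) (nat_lit 6790891555) (nat_lit 380) (nat_lit 5144316552) (nat_lit 121) (nat_lit 5) (nat_lit 125) (nat_lit 5) (nat_lit 126) (nat_lit 5) (nat_lit 321) (nat_lit 256) (nat_lit 203))) (XT.nd (nat_lit 78) (nat_lit 456) (nat_lit 0) (XT.lf (nat_lit 0) (nat_lit 10815705583) (nat_lit 304) (nat_lit 1057563951) (nat_lit 380) (nat_lit 584460587) (nat_lit 121) (nat_lit 5) (nat_lit 125) (nat_lit 5) (nat_lit 126) (nat_lit 5) (nat_lit 322) (nat_lit 256) (nat_lit 202)) (XT.lf (nat_lit 0) (nat_lit 4089121123) (nat_lit 456)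 (nat_lit 3761745363) (nat_lit 76) (nat_lit 4839805241) (nat_lit 115) (nat_lit 5) (nat_lit 121) (nat_lit 5) (nat_lit 116) (nat_lit 5) (nat_lit 323) (nat_lit 256) (nat_lit 201)))))) (XT.nd (nat_lit 546) (nat_lit 1444) (nat_lit 0) (XT.nd (nat_lit 234) (nat_lit 912) (nat_lit 0) (XT.nd (nat_lit 78) (nat_lit 684) (nat_lit 0) (XT.lf (nat_lit 0) (nat_lit 6899617648) (nat_lit 304) (nat_lit 2000263201) (nat_lit 380) (nat_lit 4030568039) (nat_lit 111) (nat_lit 5) (nat_lit 115) (nat_lit 5) (nat_lit 116) (nat_lit 5) (nat_lit 324) (nat_lit 256) (nat_lit 200)) (XT.nd (nat_lit 78) (nat_lit 304) (nat_lit 0) (XT.lf (nat_lit 0) (nat_lit 693856594) (nat_lit 380) (nat_lit 8479181553) (nat_lit 76) (nat_lit 4003810957) (nat_lit 106) (nat_lit 5) (nat_lit 111) (nat_lit 5) (nat_lit 107) (nat_lit 5) (nat_lit 325) (nat_lit 256) (nat_lit 199)) (XT.lf (nat_lit 0) (nat_lit 2302563329) (nat_lit 304) (nat_lit 3215902983) (nat_lit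 380) (nat_lit 7911399000) (nat_lit 102) (nat_lit 5) (nat_lit 106) (nat_lit 5) (nat_lit 107) (nat_lit 5) (nat_lit 326) (nat_lit 256) (nat_lit 198)))) (XT.nd (nat_lit 156) (nat_lit 532) (nat_lit 0) (XT.nd (nat_lit 78) (nat_lit 380) (nat_lit 0) (XT.lf (nat_lit 0) (nat_lit 10508932928) (nat_lit 380) (nat_lit 272124006) (nat_lit 76) (nat_lit 2909013150) (nat_lit 102) (nat_lit 5) (nat_lit 107) (nat_lit 5) (nat_lit 103) (nat_lit 5) (nat_lit 327) (nat_lit 256) (nat_lit 197)) (XT.lf (nat_lit 0) (nat_lit 1707608749) (nat_lit 380) (nat_lit 3022547618) (nat_lit 76) (nat_lit 9226949425) (nat_lit 97) (nat_lit 5) (nat_lit 102) (nat_lit 5) (nat_lit 98) (nat_lit 5) (nat_lit 328) (nat_lit 256) (nat_lit 196))) (XT.nd (nat_lit 78) (nat_lit 304) (nat_lit 0) (XT.lf (nat_lit 0) (nat_lit 6712146459) (nat_lit 304) (nat_lit 5989876994) (nat_lit 76) (nat_lit 1529480496) (nat_lit 94) (nat_lit 5) (nat_lit 98) (nat_lit 5) (nat_lit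 95) (nat_lit 5) (nat_lit 329) (nat_lit 256) (nat_lit 195)) (XT.lf (nat_lit 0) (nat_lit 5325853781) (nat_lit 304) (nat_lit 6575223306) (nat_lit 380) (nat_lit 2612390178) (nat_lit 90) (nat_lit 5) (nat_lit 94) (nat_lit 5) (nat_lit 95) (nat_lit 5) (nat_lit 330) (nat_lit 256) (nat_lit 194))))) (XT.nd (nat_lit 234) (nat_lit 836) (nat_lit 0) (XT.nd (nat_lit 78) (nat_lit 304) (nat_lit 0) (XT.lf (nat_lit 0) (nat_lit 2189609593) (nat_lit 228) (nat_lit 223292470) (nat_lit 304) (nat_lit 12390625001) (nat_lit 86) (nat_lit 5) (nat_lit 89) (nat_lit 5) (nat_lit 90) (nat_lit 5) (nat_lit 331) (nat_lit 256) (nat_lit 193)) (XT.nd (nat_lit 78) (nat_lit 304) (nat_lit 0) (XT.lf (nat_lit 0) (nat_lit 7606211755) (nat_lit 304) (nat_lit 1208488857) (nat_lit 76) (nat_lit 6286204626) (nat_lit 86) (nat_lit 5) (nat_lit 90) (nat_lit 5) (nat_lit 87) (nat_lit 5) (nat_lit 332) (nat_lit 256) (nat_lit 192)) (XT.lf (nat_lit 0) (nat_lit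 10596540916) (nat_lit 304) (nat_lit 2379412284) (nat_lit 380) (nat_lit 2430855370) (nat_lit 82) (nat_lit 5) (nat_lit 86) (nat_lit 5) (nat_lit 87) (nat_lit 5) (nat_lit 333) (nat_lit 256) (nat_lit 191)))) (XT.nd (nat_lit 156) (nat_lit 304) (nat_lit 0) (XT.nd (nat_lit 78) (nat_lit 228) (nat_lit 0) (XT.lf (nat_lit 0) (nat_lit 2781163398) (nat_lit 304) (nat_lit 8703920497) (nat_lit 76) (nat_lit 4235803349) (nat_lit 78) (nat_lit 5) (nat_lit 82) (nat_lit 5) (nat_lit 79) (nat_lit 5) (nat_lit 334) (nat_lit 256) (nat_lit 190)) (XT.lf (nat_lit 0) (nat_lit 3151161243) (nat_lit 228) (nat_lit 4986390597) (nat_lit 304) (nat_lit 7906109595) (nat_lit 75) (nat_lit 5) (nat_lit 78) (nat_lit 5) (nat_lit 79) (nat_lit 5) (nat_lit 335) (nat_lit 256) (nat_lit 189))) (XT.nd (nat_lit 78) (nat_lit 304) (nat_lit 0) (XT.lf (nat_lit 0) (nat_lit 13677458819) (nat_lit 304) (nat_lit 983773716) (nat_lit 76) (nat_lit 1714444548)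 (nat_lit 75) (nat_lit 5) (nat_lit 79) (nat_lit 5) (nat_lit 76) (nat_lit 5) (nat_lit 336) (nat_lit 256) (nat_lit 188)) (XT.lf (nat_lit 0) (nat_lit 2691942667) (nat_lit 304) (nat_lit 5412929002) (nat_lit 76) (nat_lit 8611229478) (nat_lit 71) (nat_lit 5) (nat_lit 75) (nat_lit 5) (nat_lit 72) (nat_lit 5) (nat_lit 337) (nat_lit 256) (nat_lit 187))))))) (XT.nd (nat_lit 1014) (nat_lit 1216) (nat_lit 0) (XT.nd (nat_lit 468) (nat_lit 1140) (nat_lit 0) (XT.nd (nat_lit 234) (nat_lit 456) (nat_lit 0) (XT.nd (nat_lit 78) (nat_lit 304) (nat_lit 0) (XT.lf (nat_lit 0) (nat_lit 6902529419) (nat_lit 228) (nat_lit 1310660822) (nat_lit 304) (nat_lit 8853083837) (nat_lit 68) (nat_lit 5) (nat_lit 71) (nat_lit 5) (nat_lit 72) (nat_lit 5) (nat_lit 338) (nat_lit 256) (nat_lit 186)) (XT.nd (nat_lit 78) (nat_lit 76) (nat_lit 0) (XT.lf (nat_lit 0) (nat_lit 2151380372) (nat_lit 228) (nat_lit 11791474299) (nat_lit 304) (nat_lit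 3483255188) (nat_lit 65) (nat_lit 5) (nat_lit 68) (nat_lit 5) (nat_lit 69) (nat_lit 5) (nat_lit 339) (nat_lit 256) (nat_lit 185)) (XT.lf (nat_lit 0) (nat_lit 2054396330) (nat_lit 304) (nat_lit 2917176789) (nat_lit 76) (nat_lit 12824242640) (nat_lit 64) (nat_lit 5) (nat_lit 68) (nat_lit 5) (nat_lit 65) (nat_lit 5) (nat_lit 340) (nat_lit 256) (nat_lit 184)))) (XT.nd (nat_lit 78) (nat_lit 228) (nat_lit 0) (XT.lf (nat_lit 0) (nat_lit 7745546131) (nat_lit 304) (nat_lit 8344753106) (nat_lit 76) (nat_lit 2085171508) (nat_lit 61) (nat_lit 5) (nat_lit 65) (nat_lit 5) (nat_lit 62) (nat_lit 5) (nat_lit 341) (nat_lit 256) (nat_lit 183)) (XT.nd (nat_lit 78) (nat_lit 76) (nat_lit 0) (XT.lf (nat_lit 0) (nat_lit 4387305817) (nat_lit 152) (nat_lit 9259153337) (nat_lit 228) (nat_lit 4919287542) (nat_lit 59) (nat_lit 5) (nat_lit 61) (nat_lit 5) (nat_lit 62) (nat_lit 5) (nat_lit 342) (nat_lit 256) (nat_lit 182)) (XT.lf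 (nat_lit 0) (nat_lit 761558078) (nat_lit 228) (nat_lit 1427459975) (nat_lit 76) (nat_lit 16778329666) (nat_lit 58) (nat_lit 5) (nat_lit 61) (nat_lit 5) (nat_lit 59) (nat_lit 5) (nat_lit 343) (nat_lit 256) (nat_lit 181))))) (XT.nd (nat_lit 234) (nat_lit 760) (nat_lit 0) (XT.nd (nat_lit 78) (nat_lit 152) (nat_lit 0) (XT.lf (nat_lit 0) (nat_lit 6615446651) (nat_lit 304) (nat_lit 7654936361) (nat_lit 76) (nat_lit 5108585390) (nat_lit 55) (nat_lit 5) (nat_lit 59) (nat_lit 5) (nat_lit 56) (nat_lit 5) (nat_lit 344) (nat_lit 256) (nat_lit 180)) (XT.nd (nat_lit 78) (nat_lit 0) (nat_lit 0) (XT.lf (nat_lit 0) (nat_lit 5475407351) (nat_lit 152) (nat_lit 7189158150) (nat_lit 228) (nat_lit 7137990600) (nat_lit 53) (nat_lit 5) (nat_lit 55) (nat_lit 5) (nat_lit 56) (nat_lit 5) (nat_lit 345) (nat_lit 256) (nat_lit 179)) (XT.lf (nat_lit 0) (nat_lit 18908295155) (nat_lit 228) (nat_lit 1202465650) (nat_lit 76) (nat_lit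 127838238) (nat_lit 53) (nat_lit 5) (nat_lit 56) (nat_lit 5) (nat_lit 54) (nat_lit 5) (nat_lit 346) (nat_lit 256) (nat_lit 178)))) (XT.nd (nat_lit 156) (nat_lit 304) (nat_lit 0) (XT.nd (nat_lit 78) (nat_lit 152) (nat_lit 0) (XT.lf (nat_lit 0) (nat_lit 4680944084) (nat_lit 304) (nat_lit 8352787999) (nat_lit 76) (nat_lit 7651590270) (nat_lit 49) (nat_lit 5) (nat_lit 53) (nat_lit 5) (nat_lit 50) (nat_lit 5) (nat_lit 347) (nat_lit 256) (nat_lit 177)) (XT.lf (nat_lit 0) (nat_lit 5137655779) (nat_lit 152) (nat_lit 5720304856) (nat_lit 228) (nat_lit 10287250338) (nat_lit 47) (nat_lit 5) (nat_lit 49) (nat_lit 5) (nat_lit 50) (nat_lit 5) (nat_lit 348) (nat_lit 256) (nat_lit 176))) (XT.nd (nat_lit 78) (nat_lit 304) (nat_lit 0) (XT.lf (nat_lit 0) (nat_lit 17251391631) (nat_lit 228) (nat_lit 2547814761) (nat_lit 76) (nat_lit 1819077073) (nat_lit 47) (nat_lit 5) (nat_lit 50) (nat_lit 5) (nat_lit 48) (nat_lit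 5) (nat_lit 349) (nat_lit 256) (nat_lit 175)) (XT.lf (nat_lit 0) (nat_lit 1784353758) (nat_lit 304) (nat_lit 10752450609) (nat_lit 76) (nat_lit 9567008227) (nat_lit 43) (nat_lit 5) (nat_lit 47) (nat_lit 5) (nat_lit 44) (nat_lit 5) (nat_lit 350) (nat_lit 256) (nat_lit 174)))))) (XT.nd (nat_lit 546) (nat_lit 532) (nat_lit 0) (XT.nd (nat_lit 234) (nat_lit 380) (nat_lit 0) (XT.nd (nat_lit 78) (nat_lit 152) (nat_lit 0) (XT.lf (nat_lit 0) (nat_lit 3046844907) (nat_lit 152) (nat_lit 5015333191) (nat_lit 228) (nat_lit 14541133376) (nat_lit 41) (nat_lit 5) (nat_lit 43) (nat_lit 5) (nat_lit 44) (nat_lit 5) (nat_lit 351) (nat_lit 256) (nat_lit 173)) (XT.nd (nat_lit 78) (nat_lit 152) (nat_lit 0) (XT.lf (nat_lit 0) (nat_lit 14583771743) (nat_lit 228) (nat_lit 5789412792) (nat_lit 76) (nat_lit 2743510430) (nat_lit 41) (nat_lit 5) (nat_lit 44) (nat_lit 5) (nat_lit 42) (nat_lit 5) (nat_lit 352) (nat_lit 256) (nat_lit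 172)) (XT.lf (nat_lit 0) (nat_lit 8407026711) (nat_lit 152) (nat_lit 12947501985) (nat_lit 228) (nat_lit 2289889049) (nat_lit 39) (nat_lit 5) (nat_lit 41) (nat_lit 5) (nat_lit 42) (nat_lit 5) (nat_lit 353) (nat_lit 256) (nat_lit 171)))) (XT.nd (nat_lit 156) (nat_lit 152) (nat_lit 0) (XT.nd (nat_lit 78) (nat_lit 152) (nat_lit 0) (XT.lf (nat_lit 0) (nat_lit 4091405763) (nat_lit 228) (nat_lit 1165553267) (nat_lit 76) (nat_lit 18930377790) (nat_lit 38) (nat_lit 5) (nat_lit 41) (nat_lit 5) (nat_lit 39) (nat_lit 5) (nat_lit 354) (nat_lit 256) (nat_lit 170)) (XT.lf (nat_lit 0) (nat_lit 10705004381) (nat_lit 228) (nat_lit 11331788901) (nat_lit 76) (nat_lit 2708015429) (nat_lit 36) (nat_lit 5) (nat_lit 39) (nat_lit 5) (nat_lit 37) (nat_lit 5) (nat_lit 355) (nat_lit 256) (nat_lit 169))) (XT.nd (nat_lit 78) (nat_lit 0) (nat_lit 0) (XT.lf (nat_lit 0) (nat_lit 3073514541) (nat_lit 152) (nat_lit 14473773343)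 (nat_lit 228) (nat_lit 7771118597) (nat_lit 34) (nat_lit 5) (nat_lit 36) (nat_lit 5) (nat_lit 37) (nat_lit 5) (nat_lit 356) (nat_lit 256) (nat_lit 168)) (XT.lf (nat_lit 0) (nat_lit 18009378825) (nat_lit 152) (nat_lit 6630051093) (nat_lit 228) (nat_lit 1268897518) (nat_lit 34) (nat_lit 5) (nat_lit 36) (nat_lit 5) (nat_lit 37) (nat_lit 5) (nat_lit 357) (nat_lit 256) (nat_lit 167))))) (XT.nd (nat_lit 234) (nat_lit 152) (nat_lit 0) (XT.nd (nat_lit 78) (nat_lit 152) (nat_lit 0) (XT.lf (nat_lit 0) (nat_lit 5380152104) (nat_lit 228) (nat_lit 19647928868) (nat_lit 76) (nat_lit 1486707737) (nat_lit 31) (nat_lit 5) (nat_lit 34) (nat_lit 5) (nat_lit 32) (nat_lit 5) (nat_lit 358) (nat_lit 256) (nat_lit 166)) (XT.nd (nat_lit 78) (nat_lit 152) (nat_lit 0) (XT.lf (nat_lit 0) (nat_lit 12278685380) (nat_lit 228) (nat_lit 5062840681) (nat_lit 76) (nat_lit 9796411497) (nat_lit 31) (nat_lit 5) (nat_lit 34) (nat_lit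 5) (nat_lit 32) (nat_lit 5) (nat_lit 359) (nat_lit 256) (nat_lit 165)) (XT.lf (nat_lit 0) (nat_lit 10038000102) (nat_lit 152) (nat_lit 9381187618) (nat_lit 228) (nat_lit 8359899217) (nat_lit 29) (nat_lit 5) (nat_lit 31) (nat_lit 5) (nat_lit 32) (nat_lit 5) (nat_lit 360) (nat_lit 256) (nat_lit 164)))) (XT.nd (nat_lit 156) (nat_lit 0) (nat_lit 0) (XT.nd (nat_lit 78) (nat_lit 152) (nat_lit 0) (XT.lf (nat_lit 0) (nat_lit 25608584011) (nat_lit 152) (nat_lit 1170005288) (nat_lit 228) (nat_lit 1660793954) (nat_lit 29) (nat_lit 5) (nat_lit 31) (nat_lit 5) (nat_lit 32) (nat_lit 5) (nat_lit 361) (nat_lit 256) (nat_lit 163)) (XT.lf (nat_lit 0) (nat_lit 5271401151) (nat_lit 152) (nat_lit 16559016077) (nat_lit 76) (nat_lit 7286380122) (nat_lit 27) (nat_lit 5) (nat_lit 29) (nat_lit 5) (nat_lit 28) (nat_lit 5) (nat_lit 362) (nat_lit 256) (nat_lit 162))) (XT.nd (nat_lit 33072) (nat_lit 0) (nat_lit 47044) (XT.lf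 (nat_lit 0) (nat_lit 12387674954) (nat_lit 152) (nat_lit 1437478626) (nat_lit 76) (nat_lit 15989192878) (nat_lit 27) (nat_lit 5) (nat_lit 29) (nat_lit 5) (nat_lit 28) (nat_lit 5) (nat_lit 363) (nat_lit 256) (nat_lit 161)) (XT.lf (nat_lit 0) (nat_lit 764700334) (nat_lit 380) (nat_lit 1711563329) (nat_lit 0) (nat_lit 764700334) (nat_lit 646) (nat_lit 5) (nat_lit 651) (nat_lit 4) (nat_lit 646) (nat_lit 4) (nat_lit 266) (nat_lit 257) (nat_lit 257))))))))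
noncomputable def xc45 : XT := (XT.nd (nat_lit 2106) (nat_lit 14364) (nat_lit 0) (XT.nd (nat_lit 1014) (nat_lit 16264) (nat_lit 0) (XT.nd (nat_lit 468) (nat_lit 6004) (nat_lit 0) (XT.nd (nat_lit 234) (nat_lit 1976) (nat_lit 0) (XT.nd (nat_lit 78) (nat_lit 608) (nat_lit 0) (XT.lf (nat_lit 0) (nat_lit 1730302617) (nat_lit 380) (nat_lit 4318466854) (nat_lit 380) (nat_lit 447976586) (nat_lit 641) (nat_lit 4) (nat_lit 646) (nat_lit 5) (nat_lit 646) (nat_lit 4) (nat_lit 267) (nat_lit 257) (nat_lit 256)) (XT.nd (nat_lit 78) (nat_lit 76) (nat_lit 0) (XT.lf (nat_lit 0) (nat_lit 447284687) (nat_lit 456) (nat_lit 3550503676) (nat_lit 532) (nat_lit 2516652664) (nat_lit 634) (nat_lit 5) (nat_lit 640) (nat_lit 5) (nat_lit 641) (nat_lit 4) (nat_lit 268) (nat_lit 257) (nat_lit 255)) (XT.lf (nat_lit 0) (nat_lit 1881713214) (nat_lit 532) (nat_lit 771279008) (nat_lit 76) (nat_lit 3882134686) (nat_lit 633) (nat_lit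 5) (nat_lit 640) (nat_lit 5) (nat_lit 634) (nat_lit 5) (nat_lit 269) (nat_lit 257) (nat_lit 254)))) (XT.nd (nat_lit 78) (nat_lit 1444) (nat_lit 0) (XT.lf (nat_lit 0) (nat_lit 4624870619) (nat_lit 532) (nat_lit 1625602963) (nat_lit 608) (nat_lit 308357108) (nat_lit 626) (nat_lit 5) (nat_lit 633) (nat_lit 5) (nat_lit 634) (nat_lit 5) (nat_lit 270) (nat_lit 257) (nat_lit 253)) (XT.nd (nat_lit 78) (nat_lit 760) (nat_lit 0) (XT.lf (nat_lit 0) (nat_lit 3526481651) (nat_lit 608) (nat_lit 459230565) (nat_lit 684) (nat_lit 2599699937) (nat_lit 617) (nat_lit 5) (nat_lit 625) (nat_lit 5) (nat_lit 626) (nat_lit 5) (nat_lit 271) (nat_lit 257) (nat_lit 252)) (XT.lf (nat_lit 0) (nat_lit 1650729301) (nat_lit 760) (nat_lit 4140639197) (nat_lit 76) (nat_lit 823663423) (nat_lit 607) (nat_lit 5) (nat_lit 617) (nat_lit 5) (nat_lit 608) (nat_lit 5) (nat_lit 272) (nat_lit 257) (nat_lit 251))))) (XT.nd (nat_lit 234) (nat_lit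 4256) (nat_lit 0) (XT.nd (nat_lit 78) (nat_lit 988) (nat_lit 0) (XT.lf (nat_lit 0) (nat_lit 1463797425) (nat_lit 760) (nat_lit 4415109949) (nat_lit 836) (nat_lit 768738842) (nat_lit 597) (nat_lit 5) (nat_lit 607) (nat_lit 5) (nat_lit 608) (nat_lit 5) (nat_lit 273) (nat_lit 257) (nat_lit 250)) (XT.nd (nat_lit 78) (nat_lit 76) (nat_lit 0) (XT.lf (nat_lit 0) (nat_lit 489892475) (nat_lit 836) (nat_lit 2902073983) (nat_lit 912) (nat_lit 3291246761) (nat_lit 585) (nat_lit 5) (nat_lit 596) (nat_lit 5) (nat_lit 597) (nat_lit 5) (nat_lit 274) (nat_lit 257) (nat_lit 249)) (XT.lf (nat_lit 0) (nat_lit 827186795) (nat_lit 912) (nat_lit 431812209) (nat_lit 76) (nat_lit 5462923054) (nat_lit 584) (nat_lit 5) (nat_lit 596) (nat_lit 5) (nat_lit 585) (nat_lit 5) (nat_lit 275) (nat_lit 257) (nat_lit 248)))) (XT.nd (nat_lit 156) (nat_lit 2280) (nat_lit 0) (XT.nd (nat_lit 78) (nat_lit 1064) (nat_lit 0) (XT.lf (nat_lit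 0) (nat_lit 4924609024) (nat_lit 988) (nat_lit 1317887700) (nat_lit 76) (nat_lit 520998696) (nat_lit 572) (nat_lit 5) (nat_lit 585) (nat_lit 5) (nat_lit 573) (nat_lit 5) (nat_lit 276) (nat_lit 257) (nat_lit 247)) (XT.lf (nat_lit 0) (nat_lit 2213448184) (nat_lit 1064) (nat_lit 2175671579) (nat_lit 76) (nat_lit 2418917468) (nat_lit 558) (nat_lit 5) (nat_lit 572) (nat_lit 5) (nat_lit 559) (nat_lit 5) (nat_lit 277) (nat_lit 257) (nat_lit 246))) (XT.nd (nat_lit 78) (nat_lit 1216) (nat_lit 0) (XT.lf (nat_lit 0) (nat_lit 3859185499) (nat_lit 1064) (nat_lit 2404341677) (nat_lit 1140) (nat_lit 592252513) (nat_lit 544) (nat_lit 5) (nat_lit 558) (nat_lit 5) (nat_lit 559) (nat_lit 5) (nat_lit 278) (nat_lit 257) (nat_lit 245)) (XT.lf (nat_lit 0) (nat_lit 3113355627) (nat_lit 1140) (nat_lit 274746050) (nat_lit 1216) (nat_lit 3518433775) (nat_lit 528) (nat_lit 5) (nat_lit 543) (nat_lit 5) (nat_lit 544) (nat_lit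 5) (nat_lit 279) (nat_lit 257) (nat_lit 244)))))) (XT.nd (nat_lit 546) (nat_lit 7524) (nat_lit 0) (XT.nd (nat_lit 234) (nat_lit 4712) (nat_lit 0) (XT.nd (nat_lit 78) (nat_lit 2736) (nat_lit 0) (XT.lf (nat_lit 0) (nat_lit 434616748) (nat_lit 1292) (nat_lit 4564984839) (nat_lit 76) (nat_lit 1960777378) (nat_lit 511) (nat_lit 5) (nat_lit 528) (nat_lit 5) (nat_lit 512) (nat_lit 5) (nat_lit 280) (nat_lit 257) (nat_lit 243)) (XT.nd (nat_lit 78) (nat_lit 1444) (nat_lit 0) (XT.lf (nat_lit 0) (nat_lit 1697073972) (nat_lit 1292) (nat_lit 2674976742) (nat_lit 1368) (nat_lit 2645164979) (nat_lit 494) (nat_lit 5) (nat_lit 511) (nat_lit 5) (nat_lit 512) (nat_lit 5) (nat_lit 281) (nat_lit 257) (nat_lit 242)) (XT.lf (nat_lit 0) (nat_lit 1033007177) (nat_lit 1368) (nat_lit 215605662) (nat_lit 1444) (nat_lit 5828788675) (nat_lit 475) (nat_lit 5) (nat_lit 493) (nat_lit 5) (nat_lit 494) (nat_lit 5) (nat_lit 282) (nat_lit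 257) (nat_lit 241)))) (XT.nd (nat_lit 156) (nat_lit 3192) (nat_lit 0) (XT.nd (nat_lit 78) (nat_lit 76) (nat_lit 0) (XT.lf (nat_lit 0) (nat_lit 376055221) (nat_lit 1444) (nat_lit 4780863297) (nat_lit 1520) (nat_lit 1983557859) (nat_lit 456) (nat_lit 5) (nat_lit 475) (nat_lit 5) (nat_lit 476) (nat_lit 5) (nat_lit 283) (nat_lit 257) (nat_lit 240)) (XT.lf (nat_lit 0) (nat_lit 1875383990) (nat_lit 1520) (nat_lit 254063575) (nat_lit 76) (nat_lit 5077354617) (nat_lit 455) (nat_lit 5) (nat_lit 475) (nat_lit 5) (nat_lit 456) (nat_lit 5) (nat_lit 284) (nat_lit 257) (nat_lit 239))) (XT.nd (nat_lit 78) (nat_lit 1672) (nat_lit 0) (XT.lf (nat_lit 0) (nat_lit 5754376869) (nat_lit 1596) (nat_lit 861869647) (nat_lit 76) (nat_lit 660082526) (nat_lit 435) (nat_lit 5) (nat_lit 456) (nat_lit 5) (nat_lit 436) (nat_lit 5) (nat_lit 285) (nat_lit 257) (nat_lit 238)) (XT.lf (nat_lit 0) (nat_lit 2311895491) (nat_lit 1672)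 (nat_lit 1467065841) (nat_lit 76) (nat_lit 3569929952) (nat_lit 413) (nat_lit 5) (nat_lit 435) (nat_lit 5) (nat_lit 414) (nat_lit 5) (nat_lit 286) (nat_lit 257) (nat_lit 237))))) (XT.nd (nat_lit 234) (nat_lit 3496) (nat_lit 0) (XT.nd (nat_lit 78) (nat_lit 2356) (nat_lit 0) (XT.lf (nat_lit 0) (nat_lit 5372128570) (nat_lit 1672) (nat_lit 798425198) (nat_lit 1748) (nat_lit 1254356663) (nat_lit 391) (nat_lit 5) (nat_lit 413) (nat_lit 5) (nat_lit 414) (nat_lit 5) (nat_lit 287) (nat_lit 257) (nat_lit 236)) (XT.nd (nat_lit 78) (nat_lit 836) (nat_lit 0) (XT.lf (nat_lit 0) (nat_lit 2555293988) (nat_lit 1520) (nat_lit 2643222799) (nat_lit 76) (nat_lit 2305473057) (nat_lit 371) (nat_lit 5) (nat_lit 391) (nat_lit 5) (nat_lit 372) (nat_lit 5) (nat_lit 288) (nat_lit 257) (nat_lit 235)) (XT.lf (nat_lit 0) (nat_lit 4363456467) (nat_lit 836) (nat_lit 2040374908) (nat_lit 912) (nat_lit 1182695468) (nat_lit 360)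 (nat_lit 5) (nat_lit 371) (nat_lit 5) (nat_lit 372) (nat_lit 5) (nat_lit 289) (nat_lit 257) (nat_lit 234)))) (XT.nd (nat_lit 156) (nat_lit 1672) (nat_lit 0) (XT.nd (nat_lit 78) (nat_lit 836) (nat_lit 0) (XT.lf (nat_lit 0) (nat_lit 2607906518) (nat_lit 988) (nat_lit 3806629667) (nat_lit 76) (nat_lit 1257793740) (nat_lit 347) (nat_lit 5) (nat_lit 360) (nat_lit 5) (nat_lit 348) (nat_lit 5) (nat_lit 290) (nat_lit 257) (nat_lit 233)) (XT.lf (nat_lit 0) (nat_lit 3368661440) (nat_lit 836) (nat_lit 3082988068) (nat_lit 912) (nat_lit 1309868866) (nat_lit 336) (nat_lit 5) (nat_lit 347) (nat_lit 5) (nat_lit 348) (nat_lit 5) (nat_lit 291) (nat_lit 257) (nat_lit 232))) (XT.nd (nat_lit 78) (nat_lit 760) (nat_lit 0) (XT.lf (nat_lit 0) (nat_lit 2470523521) (nat_lit 912) (nat_lit 4982015869) (nat_lit 76) (nat_lit 401649908) (nat_lit 324) (nat_lit 5) (nat_lit 336) (nat_lit 5) (nat_lit 325) (nat_lit 5) (nat_lit 292)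 (nat_lit 257) (nat_lit 231)) (XT.lf (nat_lit 0) (nat_lit 2362831222) (nat_lit 760) (nat_lit 3951423115) (nat_lit 836) (nat_lit 1635929969) (nat_lit 314) (nat_lit 5) (nat_lit 324) (nat_lit 5) (nat_lit 325) (nat_lit 5) (nat_lit 293) (nat_lit 257) (nat_lit 230))))))) (XT.nd (nat_lit 1092) (nat_lit 5624) (nat_lit 0) (XT.nd (nat_lit 546) (nat_lit 4256) (nat_lit 0) (XT.nd (nat_lit 234) (nat_lit 2128) (nat_lit 0) (XT.nd (nat_lit 78) (nat_lit 1520) (nat_lit 0) (XT.lf (nat_lit 0) (nat_lit 1852994407) (nat_lit 760) (nat_lit 291273245) (nat_lit 836) (nat_lit 5905586790) (nat_lit 303) (nat_lit 5) (nat_lit 313) (nat_lit 5) (nat_lit 314) (nat_lit 5) (nat_lit 294) (nat_lit 257) (nat_lit 229)) (XT.nd (nat_lit 78) (nat_lit 836) (nat_lit 0) (XT.lf (nat_lit 0) (nat_lit 1320123143) (nat_lit 684) (nat_lit 4670204905) (nat_lit 760) (nat_lit 2162542850) (nat_lit 294) (nat_lit 5) (nat_lit 303) (nat_lit 5) (nat_lit 304)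 (nat_lit 5) (nat_lit 295) (nat_lit 257) (nat_lit 228)) (XT.lf (nat_lit 0) (nat_lit 782047877) (nat_lit 760) (nat_lit 844538458) (nat_lit 836) (nat_lit 6633114749) (nat_lit 283) (nat_lit 5) (nat_lit 293) (nat_lit 5) (nat_lit 294) (nat_lit 5) (nat_lit 296) (nat_lit 257) (nat_lit 227)))) (XT.nd (nat_lit 156) (nat_lit 1368) (nat_lit 0) (XT.nd (nat_lit 78) (nat_lit 76) (nat_lit 0) (XT.lf (nat_lit 0) (nat_lit 213522318) (nat_lit 684) (nat_lit 5263425916) (nat_lit 760) (nat_lit 2893024389) (nat_lit 274) (nat_lit 5) (nat_lit 283) (nat_lit 5) (nat_lit 284) (nat_lit 5) (nat_lit 297) (nat_lit 257) (nat_lit 226)) (XT.lf (nat_lit 0) (nat_lit 913362220) (nat_lit 760) (nat_lit 360935912) (nat_lit 76) (nat_lit 7209854299) (nat_lit 273) (nat_lit 5) (nat_lit 283) (nat_lit 5) (nat_lit 274) (nat_lit 5) (nat_lit 298) (nat_lit 257) (nat_lit 225))) (XT.nd (nat_lit 78) (nat_lit 684) (nat_lit 0) (XT.lf (nat_lit 0) (nat_lit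 4775931743) (nat_lit 760) (nat_lit 972490986) (nat_lit 76) (nat_lit 2853383004) (nat_lit 264) (nat_lit 5) (nat_lit 274) (nat_lit 5) (nat_lit 265) (nat_lit 5) (nat_lit 299) (nat_lit 257) (nat_lit 224)) (XT.lf (nat_lit 0) (nat_lit 2432551) (nat_lit 684) (nat_lit 1598423364) (nat_lit 76) (nat_lit 7122753316) (nat_lit 255) (nat_lit 5) (nat_lit 264) (nat_lit 5) (nat_lit 256) (nat_lit 5) (nat_lit 300) (nat_lit 257) (nat_lit 223))))) (XT.nd (nat_lit 234) (nat_lit 2280) (nat_lit 0) (XT.nd (nat_lit 78) (nat_lit 1292) (nat_lit 0) (XT.lf (nat_lit 0) (nat_lit 3876754046) (nat_lit 760) (nat_lit 2276579855) (nat_lit 76) (nat_lit 2695616463) (nat_lit 246) (nat_lit 5) (nat_lit 256) (nat_lit 5) (nat_lit 247) (nat_lit 5) (nat_lit 301) (nat_lit 257) (nat_lit 222)) (XT.nd (nat_lit 78) (nat_lit 684) (nat_lit 0) (XT.lf (nat_lit 0) (nat_lit 5999763568) (nat_lit 608) (nat_lit 1845502609) (nat_lit 684) (nat_lit 1133277010)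 (nat_lit 238) (nat_lit 5) (nat_lit 246) (nat_lit 5) (nat_lit 247) (nat_lit 5) (nat_lit 302) (nat_lit 257) (nat_lit 221)) (XT.lf (nat_lit 0) (nat_lit 2770119043) (nat_lit 684) (nat_lit 3733264558) (nat_lit 76) (nat_lit 2608596045) (nat_lit 229) (nat_lit 5) (nat_lit 238) (nat_lit 5) (nat_lit 230) (nat_lit 5) (nat_lit 303) (nat_lit 257) (nat_lit 220)))) (XT.nd (nat_lit 156) (nat_lit 1064) (nat_lit 0) (XT.nd (nat_lit 78) (nat_lit 684) (nat_lit 0) (XT.lf (nat_lit 0) (nat_lit 4720674446) (nat_lit 532) (nat_lit 2038133429) (nat_lit 608) (nat_lit 2490836580) (nat_lit 222) (nat_lit 5) (nat_lit 229) (nat_lit 5) (nat_lit 230) (nat_lit 5) (nat_lit 304) (nat_lit 257) (nat_lit 219)) (XT.lf (nat_lit 0) (nat_lit 1446222352) (nat_lit 684) (nat_lit 5376545620) (nat_lit 76) (nat_lit 2568727017) (nat_lit 213) (nat_lit 5) (nat_lit 222) (nat_lit 5) (nat_lit 214) (nat_lit 5) (nat_lit 305) (nat_lit 257) (nat_lit 218)))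 (XT.nd (nat_lit 78) (nat_lit 532) (nat_lit 0) (XT.lf (nat_lit 0) (nat_lit 3253183351) (nat_lit 532) (nat_lit 2203043454) (nat_lit 608) (nat_lit 4081314734) (nat_lit 206) (nat_lit 5) (nat_lit 213) (nat_lit 5) (nat_lit 214) (nat_lit 5) (nat_lit 306) (nat_lit 257) (nat_lit 217)) (XT.lf (nat_lit 0) (nat_lit 2444399872) (nat_lit 532) (nat_lit 7135574952) (nat_lit 608) (nat_lit 108167807) (nat_lit 199) (nat_lit 5) (nat_lit 206) (nat_lit 5) (nat_lit 207) (nat_lit 5) (nat_lit 307) (nat_lit 257) (nat_lit 216)))))) (XT.nd (nat_lit 546) (nat_lit 2584) (nat_lit 0) (XT.nd (nat_lit 234) (nat_lit 1900) (nat_lit 0) (XT.nd (nat_lit 78) (nat_lit 608) (nat_lit 0) (XT.lf (nat_lit 0) (nat_lit 1559794657) (nat_lit 456) (nat_lit 2365201530) (nat_lit 532) (nat_lit 5917926687) (nat_lit 192) (nat_lit 5) (nat_lit 198) (nat_lit 5) (nat_lit 199) (nat_lit 5) (nat_lit 308) (nat_lit 257) (nat_lit 215)) (XT.nd (nat_lit 78) (nat_lit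 76) (nat_lit 0) (XT.lf (nat_lit 0) (nat_lit 617570885) (nat_lit 532) (nat_lit 7456829624) (nat_lit 608) (nat_lit 1928036245) (nat_lit 185) (nat_lit 5) (nat_lit 192) (nat_lit 5) (nat_lit 193) (nat_lit 5) (nat_lit 309) (nat_lit 257) (nat_lit 214)) (XT.lf (nat_lit 0) (nat_lit 2152992644) (nat_lit 608) (nat_lit 394861409) (nat_lit 76) (nat_lit 7618634609) (nat_lit 184) (nat_lit 5) (nat_lit 192) (nat_lit 5) (nat_lit 185) (nat_lit 5) (nat_lit 310) (nat_lit 257) (nat_lit 213)))) (XT.nd (nat_lit 156) (nat_lit 912) (nat_lit 0) (XT.nd (nat_lit 78) (nat_lit 532) (nat_lit 0) (XT.lf (nat_lit 0) (nat_lit 6334454168) (nat_lit 532) (nat_lit 1478481170) (nat_lit 76) (nat_lit 2522223862) (nat_lit 178) (nat_lit 5) (nat_lit 185) (nat_lit 5) (nat_lit 179) (nat_lit 5) (nat_lit 311) (nat_lit 257) (nat_lit 212)) (XT.lf (nat_lit 0) (nat_lit 132686618) (nat_lit 532) (nat_lit 2635650478) (nat_lit 76) (nat_lit 7740530622)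 (nat_lit 171) (nat_lit 5) (nat_lit 178) (nat_lit 5) (nat_lit 172) (nat_lit 5) (nat_lit 312) (nat_lit 257) (nat_lit 211))) (XT.nd (nat_lit 78) (nat_lit 456) (nat_lit 0) (XT.lf (nat_lit 0) (nat_lit 4338487272) (nat_lit 532) (nat_lit 3896964264) (nat_lit 76) (nat_lit 2451784999) (nat_lit 165) (nat_lit 5) (nat_lit 172) (nat_lit 5) (nat_lit 166) (nat_lit 5) (nat_lit 313) (nat_lit 257) (nat_lit 210)) (XT.lf (nat_lit 0) (nat_lit 5626089651) (nat_lit 456) (nat_lit 3050647157) (nat_lit 532) (nat_lit 2194126303) (nat_lit 159) (nat_lit 5) (nat_lit 165) (nat_lit 5) (nat_lit 166) (nat_lit 5) (nat_lit 314) (nat_lit 257) (nat_lit 209))))) (XT.nd (nat_lit 234) (nat_lit 1292) (nat_lit 0) (XT.nd (nat_lit 78) (nat_lit 836) (nat_lit 0) (XT.lf (nat_lit 0) (nat_lit 2062087775) (nat_lit 456) (nat_lit 6695593085) (nat_lit 76) (nat_lit 2301991518) (nat_lit 153) (nat_lit 5) (nat_lit 159) (nat_lit 5) (nat_lit 154) (nat_lit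 5) (nat_lit 315) (nat_lit 257) (nat_lit 208)) (XT.nd (nat_lit 78) (nat_lit 380) (nat_lit 0) (XT.lf (nat_lit 0) (nat_lit 2990926485) (nat_lit 456) (nat_lit 3436306287) (nat_lit 532) (nat_lit 4826431756) (nat_lit 147) (nat_lit 5) (nat_lit 153) (nat_lit 5) (nat_lit 154) (nat_lit 5) (nat_lit 316) (nat_lit 257) (nat_lit 207)) (XT.lf (nat_lit 0) (nat_lit 1521338688) (nat_lit 380) (nat_lit 9407221271) (nat_lit 456) (nat_lit 524840809) (nat_lit 142) (nat_lit 5) (nat_lit 147) (nat_lit 5) (nat_lit 148) (nat_lit 5) (nat_lit 317) (nat_lit 257) (nat_lit 206)))) (XT.nd (nat_lit 156) (nat_lit 836) (nat_lit 0) (XT.nd (nat_lit 78) (nat_lit 380) (nat_lit 0) (XT.lf (nat_lit 0) (nat_lit 3871140420) (nat_lit 456) (nat_lit 86207175) (nat_lit 76) (nat_lit 7700970458) (nat_lit 141) (nat_lit 5) (nat_lit 147) (nat_lit 5) (nat_lit 142) (nat_lit 5) (nat_lit 318) (nat_lit 257) (nat_lit 205)) (XT.lf (nat_lit 0) (nat_lit 8407537364)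 (nat_lit 456) (nat_lit 1785225009) (nat_lit 76) (nat_lit 1676264454) (nat_lit 136) (nat_lit 5) (nat_lit 142) (nat_lit 5) (nat_lit 137) (nat_lit 5) (nat_lit 319) (nat_lit 257) (nat_lit 204))) (XT.nd (nat_lit 78) (nat_lit 380) (nat_lit 0) (XT.lf (nat_lit 0) (nat_lit 1003183142) (nat_lit 456) (nat_lit 3622035093) (nat_lit 76) (nat_lit 7460289966) (nat_lit 130) (nat_lit 5) (nat_lit 136) (nat_lit 5) (nat_lit 131) (nat_lit 5) (nat_lit 320) (nat_lit 257) (nat_lit 203)) (XT.lf (nat_lit 0) (nat_lit 5559184712) (nat_lit 456) (nat_lit 5602851370) (nat_lit 76) (nat_lit 1145926654) (nat_lit 125) (nat_lit 5) (nat_lit 131) (nat_lit 5) (nat_lit 126) (nat_lit 5) (nat_lit 321) (nat_lit 257) (nat_lit 202))))))))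
noncomputable def xc46 : XT := (XT.nd (nat_lit 2106) (nat_lit 1672) (nat_lit 0) (XT.nd (nat_lit 1014) (nat_lit 2508) (nat_lit 0) (XT.nd (nat_lit 468) (nat_lit 1520) (nat_lit 0) (XT.nd (nat_lit 234) (nat_lit 684) (nat_lit 0) (XT.nd (nat_lit 78) (nat_lit 760) (nat_lit 0) (XT.lf (nat_lit 0) (nat_lit 4799493438) (nat_lit 304) (nat_lit 5480997628) (nat_lit 380) (nat_lit 2256051295) (nat_lit 121) (nat_lit 5) (nat_lit 125) (nat_lit 5) (nat_lit 126) (nat_lit 5) (nat_lit 322) (nat_lit 257) (nat_lit 201)) (XT.nd (nat_lit 78) (nat_lit 304) (nat_lit 0) (XT.lf (nat_lit 0) (nat_lit 2341697427) (nat_lit 456) (nat_lit 10021348331) (nat_lit 76) (nat_lit 408621624) (nat_lit 115) (nat_lit 5) (nat_lit 121) (nat_lit 5) (nat_lit 116) (nat_lit 5) (nat_lit 323) (nat_lit 257) (nat_lit 200)) (XT.lf (nat_lit 0) (nat_lit 513735312) (nat_lit 304) (nat_lit 6569423626) (nat_lit 380) (nat_lit 5929682471) (nat_lit 111) (nat_lit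 5) (nat_lit 115) (nat_lit 5) (nat_lit 116) (nat_lit 5) (nat_lit 324) (nat_lit 257) (nat_lit 199)))) (XT.nd (nat_lit 78) (nat_lit 684) (nat_lit 0) (XT.lf (nat_lit 0) (nat_lit 11417115305) (nat_lit 304) (nat_lit 562242509) (nat_lit 380) (nat_lit 1281664457) (nat_lit 111) (nat_lit 5) (nat_lit 115) (nat_lit 5) (nat_lit 116) (nat_lit 5) (nat_lit 325) (nat_lit 257) (nat_lit 198)) (XT.nd (nat_lit 78) (nat_lit 304) (nat_lit 0) (XT.lf (nat_lit 0) (nat_lit 3501890504) (nat_lit 380) (nat_lit 4408060738) (nat_lit 76) (nat_lit 5605421020) (nat_lit 106) (nat_lit 5) (nat_lit 111) (nat_lit 5) (nat_lit 107) (nat_lit 5) (nat_lit 326) (nat_lit 257) (nat_lit 197)) (XT.lf (nat_lit 0) (nat_lit 6626960453) (nat_lit 304) (nat_lit 1790725308) (nat_lit 380) (nat_lit 5359394480) (nat_lit 102) (nat_lit 5) (nat_lit 106) (nat_lit 5) (nat_lit 107) (nat_lit 5) (nat_lit 327) (nat_lit 257) (nat_lit 196))))) (XT.nd (nat_lit 234)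 (nat_lit 912) (nat_lit 0) (XT.nd (nat_lit 78) (nat_lit 304) (nat_lit 0) (XT.lf (nat_lit 0) (nat_lit 3947328469) (nat_lit 304) (nat_lit 9566137094) (nat_lit 380) (nat_lit 532542961) (nat_lit 98) (nat_lit 5) (nat_lit 102) (nat_lit 5) (nat_lit 103) (nat_lit 5) (nat_lit 328) (nat_lit 257) (nat_lit 195)) (XT.nd (nat_lit 78) (nat_lit 0) (nat_lit 0) (XT.lf (nat_lit 0) (nat_lit 1044467882) (nat_lit 228) (nat_lit 3352117590) (nat_lit 304) (nat_lit 9925547275) (nat_lit 94) (nat_lit 5) (nat_lit 97) (nat_lit 5) (nat_lit 98) (nat_lit 5) (nat_lit 329) (nat_lit 257) (nat_lit 194)) (XT.lf (nat_lit 0) (nat_lit 9504029611) (nat_lit 304) (nat_lit 2050003626) (nat_lit 76) (nat_lit 3051701332) (nat_lit 94) (nat_lit 5) (nat_lit 98) (nat_lit 5) (nat_lit 95) (nat_lit 5) (nat_lit 330) (nat_lit 257) (nat_lit 193)))) (XT.nd (nat_lit 156) (nat_lit 304) (nat_lit 0) (XT.nd (nat_lit 78) (nat_lit 304) (nat_lit 0) (XT.lf (nat_lit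 0) (nat_lit 9538363949) (nat_lit 304) (nat_lit 5261125247) (nat_lit 380) (nat_lit 97676701) (nat_lit 90) (nat_lit 5) (nat_lit 94) (nat_lit 5) (nat_lit 95) (nat_lit 5) (nat_lit 331) (nat_lit 257) (nat_lit 192)) (XT.lf (nat_lit 0) (nat_lit 5004252998) (nat_lit 304) (nat_lit 8928313916) (nat_lit 76) (nat_lit 1263851170) (nat_lit 86) (nat_lit 5) (nat_lit 90) (nat_lit 5) (nat_lit 87) (nat_lit 5) (nat_lit 332) (nat_lit 257) (nat_lit 191))) (XT.nd (nat_lit 78) (nat_lit 0) (nat_lit 0) (XT.lf (nat_lit 0) (nat_lit 2735332626) (nat_lit 304) (nat_lit 7563870831) (nat_lit 380) (nat_lit 5204621653) (nat_lit 82) (nat_lit 5) (nat_lit 86) (nat_lit 5) (nat_lit 87) (nat_lit 5) (nat_lit 333) (nat_lit 257) (nat_lit 190)) (XT.lf (nat_lit 0) (nat_lit 14794648926) (nat_lit 304) (nat_lit 971548357) (nat_lit 380) (nat_lit 54008682) (nat_lit 82) (nat_lit 5) (nat_lit 86) (nat_lit 5) (nat_lit 87) (nat_lit 5) (nat_lit 334)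 (nat_lit 257) (nat_lit 189)))))) (XT.nd (nat_lit 546) (nat_lit 912) (nat_lit 0) (XT.nd (nat_lit 234) (nat_lit 836) (nat_lit 0) (XT.nd (nat_lit 78) (nat_lit 456) (nat_lit 0) (XT.lf (nat_lit 0) (nat_lit 5246411294) (nat_lit 304) (nat_lit 5076808896) (nat_lit 76) (nat_lit 5820907792) (nat_lit 78) (nat_lit 5) (nat_lit 82) (nat_lit 5) (nat_lit 79) (nat_lit 5) (nat_lit 335) (nat_lit 257) (nat_lit 188)) (XT.nd (nat_lit 78) (nat_lit 228) (nat_lit 0) (XT.lf (nat_lit 0) (nat_lit 7070843396) (nat_lit 228) (nat_lit 3648110192) (nat_lit 304) (nat_lit 5758544399) (nat_lit 75) (nat_lit 5) (nat_lit 78) (nat_lit 5) (nat_lit 79) (nat_lit 5) (nat_lit 336) (nat_lit 257) (nat_lit 187)) (XT.lf (nat_lit 0) (nat_lit 2773535434) (nat_lit 228) (nat_lit 13610832884) (nat_lit 304) (nat_lit 435940774) (nat_lit 72) (nat_lit 5) (nat_lit 75) (nat_lit 5) (nat_lit 76) (nat_lit 5) (nat_lit 337) (nat_lit 257) (nat_lit 186)))) (XT.nd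 (nat_lit 156) (nat_lit 532) (nat_lit 0) (XT.nd (nat_lit 78) (nat_lit 228) (nat_lit 0) (XT.lf (nat_lit 0) (nat_lit 5024354096) (nat_lit 304) (nat_lit 1855120628) (nat_lit 76) (nat_lit 10292403837) (nat_lit 71) (nat_lit 5) (nat_lit 75) (nat_lit 5) (nat_lit 72) (nat_lit 5) (nat_lit 338) (nat_lit 257) (nat_lit 185)) (XT.lf (nat_lit 0) (nat_lit 10670068519) (nat_lit 304) (nat_lit 6764616327) (nat_lit 76) (nat_lit 98714834) (nat_lit 68) (nat_lit 5) (nat_lit 72) (nat_lit 5) (nat_lit 69) (nat_lit 5) (nat_lit 339) (nat_lit 257) (nat_lit 184))) (XT.nd (nat_lit 78) (nat_lit 304) (nat_lit 0) (XT.lf (nat_lit 0) (nat_lit 5851246027) (nat_lit 228) (nat_lit 10688106482) (nat_lit 304) (nat_lit 1365342450) (nat_lit 65) (nat_lit 5) (nat_lit 68) (nat_lit 5) (nat_lit 69) (nat_lit 5) (nat_lit 340) (nat_lit 257) (nat_lit 183)) (XT.lf (nat_lit 0) (nat_lit 561008426) (nat_lit 228) (nat_lit 3688043864) (nat_lit 304) (nat_lit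 14037374042) (nat_lit 61) (nat_lit 5) (nat_lit 64) (nat_lit 5) (nat_lit 65) (nat_lit 5) (nat_lit 341) (nat_lit 257) (nat_lit 182))))) (XT.nd (nat_lit 234) (nat_lit 456) (nat_lit 0) (XT.nd (nat_lit 78) (nat_lit 456) (nat_lit 0) (XT.lf (nat_lit 0) (nat_lit 10077159680) (nat_lit 304) (nat_lit 5061253222) (nat_lit 76) (nat_lit 3539751179) (nat_lit 61) (nat_lit 5) (nat_lit 65) (nat_lit 5) (nat_lit 62) (nat_lit 5) (nat_lit 342) (nat_lit 257) (nat_lit 181)) (XT.nd (nat_lit 78) (nat_lit 304) (nat_lit 0) (XT.lf (nat_lit 0) (nat_lit 7995435072) (nat_lit 152) (nat_lit 8121093709) (nat_lit 228) (nat_lit 2964408019) (nat_lit 59) (nat_lit 5) (nat_lit 61) (nat_lit 5) (nat_lit 62) (nat_lit 5) (nat_lit 343) (nat_lit 257) (nat_lit 180)) (XT.lf (nat_lit 0) (nat_lit 1957960101) (nat_lit 228) (nat_lit 853607611) (nat_lit 304) (nat_lit 16683715796) (nat_lit 55) (nat_lit 5) (nat_lit 58) (nat_lit 5) (nat_lit 59) (nat_lit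 5) (nat_lit 344) (nat_lit 257) (nat_lit 179)))) (XT.nd (nat_lit 156) (nat_lit 304) (nat_lit 0) (XT.nd (nat_lit 78) (nat_lit 152) (nat_lit 0) (XT.lf (nat_lit 0) (nat_lit 8800314535) (nat_lit 304) (nat_lit 4506040307) (nat_lit 76) (nat_lit 6613728907) (nat_lit 55) (nat_lit 5) (nat_lit 59) (nat_lit 5) (nat_lit 56) (nat_lit 5) (nat_lit 345) (nat_lit 257) (nat_lit 178)) (XT.lf (nat_lit 0) (nat_lit 8963400852) (nat_lit 152) (nat_lit 6031229525) (nat_lit 228) (nat_lit 5362489542) (nat_lit 53) (nat_lit 5) (nat_lit 55) (nat_lit 5) (nat_lit 56) (nat_lit 5) (nat_lit 346) (nat_lit 257) (nat_lit 177))) (XT.nd (nat_lit 78) (nat_lit 0) (nat_lit 0) (XT.lf (nat_lit 0) (nat_lit 576193941) (nat_lit 304) (nat_lit 18765840358) (nat_lit 76) (nat_lit 1464846185) (nat_lit 49) (nat_lit 5) (nat_lit 53) (nat_lit 5) (nat_lit 50) (nat_lit 5) (nat_lit 347) (nat_lit 257) (nat_lit 176)) (XT.lf (nat_lit 0) (nat_lit 6701604062)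 (nat_lit 304) (nat_lit 5374120681) (nat_lit 76) (nat_lit 9192081066) (nat_lit 49) (nat_lit 5) (nat_lit 53) (nat_lit 5) (nat_lit 50) (nat_lit 5) (nat_lit 348) (nat_lit 257) (nat_lit 175))))))) (XT.nd (nat_lit 1092) (nat_lit 152) (nat_lit 0) (XT.nd (nat_lit 546) (nat_lit 532) (nat_lit 0) (XT.nd (nat_lit 234) (nat_lit 532) (nat_lit 0) (XT.nd (nat_lit 78) (nat_lit 304) (nat_lit 0) (XT.lf (nat_lit 0) (nat_lit 8468645651) (nat_lit 152) (nat_lit 4561147714) (nat_lit 228) (nat_lit 8712394213) (nat_lit 47) (nat_lit 5) (nat_lit 49) (nat_lit 5) (nat_lit 50) (nat_lit 5) (nat_lit 349) (nat_lit 257) (nat_lit 174)) (XT.nd (nat_lit 78) (nat_lit 76) (nat_lit 0) (XT.lf (nat_lit 0) (nat_lit 494468563) (nat_lit 228) (nat_lit 19078387979) (nat_lit 304) (nat_lit 2657452451) (nat_lit 44) (nat_lit 5) (nat_lit 47) (nat_lit 5) (nat_lit 48) (nat_lit 5) (nat_lit 350) (nat_lit 257) (nat_lit 173)) (XT.lf (nat_lit 0) (nat_lit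 3618163487) (nat_lit 304) (nat_lit 7989201607) (nat_lit 76) (nat_lit 11123533193) (nat_lit 43) (nat_lit 5) (nat_lit 47) (nat_lit 5) (nat_lit 44) (nat_lit 5) (nat_lit 351) (nat_lit 257) (nat_lit 172)))) (XT.nd (nat_lit 156) (nat_lit 380) (nat_lit 0) (XT.nd (nat_lit 78) (nat_lit 0) (nat_lit 0) (XT.lf (nat_lit 0) (nat_lit 6174008970) (nat_lit 152) (nat_lit 3878170957) (nat_lit 228) (nat_lit 13193857383) (nat_lit 41) (nat_lit 5) (nat_lit 43) (nat_lit 5) (nat_lit 44) (nat_lit 5) (nat_lit 352) (nat_lit 257) (nat_lit 171)) (XT.lf (nat_lit 0) (nat_lit 16726621384) (nat_lit 228) (nat_lit 2989530004) (nat_lit 76) (nat_lit 4059538882) (nat_lit 41) (nat_lit 5) (nat_lit 44) (nat_lit 5) (nat_lit 42) (nat_lit 5) (nat_lit 353) (nat_lit 257) (nat_lit 170))) (XT.nd (nat_lit 78) (nat_lit 228) (nat_lit 0) (XT.lf (nat_lit 0) (nat_lit 11584560122) (nat_lit 152) (nat_lit 12085264063) (nat_lit 228) (nat_lit 650045701)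 (nat_lit 39) (nat_lit 5) (nat_lit 41) (nat_lit 5) (nat_lit 42) (nat_lit 5) (nat_lit 354) (nat_lit 257) (nat_lit 169)) (XT.lf (nat_lit 0) (nat_lit 1683806300) (nat_lit 152) (nat_lit 4178295586) (nat_lit 228) (nat_lit 19017527410) (nat_lit 36) (nat_lit 5) (nat_lit 38) (nat_lit 5) (nat_lit 39) (nat_lit 5) (nat_lit 355) (nat_lit 257) (nat_lit 168))))) (XT.nd (nat_lit 234) (nat_lit 304) (nat_lit 0) (XT.nd (nat_lit 78) (nat_lit 228) (nat_lit 0) (XT.lf (nat_lit 0) (nat_lit 12641622242) (nat_lit 228) (nat_lit 8831270353) (nat_lit 76) (nat_lit 3981593206) (nat_lit 36) (nat_lit 5) (nat_lit 39) (nat_lit 5) (nat_lit 37) (nat_lit 5) (nat_lit 356) (nat_lit 257) (nat_lit 167)) (XT.nd (nat_lit 78) (nat_lit 76) (nat_lit 0) (XT.lf (nat_lit 0) (nat_lit 5960108904) (nat_lit 152) (nat_lit 13700155914) (nat_lit 228) (nat_lit 6385615298) (nat_lit 34) (nat_lit 5) (nat_lit 36) (nat_lit 5) (nat_lit 37) (nat_lit 5) (nat_lit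 357) (nat_lit 257) (nat_lit 166)) (XT.lf (nat_lit 0) (nat_lit 261058323) (nat_lit 228) (nat_lit 5393491367) (nat_lit 76) (nat_lit 20999848986) (nat_lit 33) (nat_lit 5) (nat_lit 36) (nat_lit 5) (nat_lit 34) (nat_lit 5) (nat_lit 358) (nat_lit 257) (nat_lit 165)))) (XT.nd (nat_lit 156) (nat_lit 152) (nat_lit 0) (XT.nd (nat_lit 78) (nat_lit 0) (nat_lit 0) (XT.lf (nat_lit 0) (nat_lit 7072302740) (nat_lit 228) (nat_lit 17524570272) (nat_lit 76) (nat_lit 2682423405) (nat_lit 31) (nat_lit 5) (nat_lit 34) (nat_lit 5) (nat_lit 32) (nat_lit 5) (nat_lit 359) (nat_lit 257) (nat_lit 164)) (XT.lf (nat_lit 0) (nat_lit 14133207177) (nat_lit 228) (nat_lit 2580942928) (nat_lit 76) (nat_lit 11207890673) (nat_lit 31) (nat_lit 5) (nat_lit 34) (nat_lit 5) (nat_lit 32) (nat_lit 5) (nat_lit 360) (nat_lit 257) (nat_lit 163))) (XT.nd (nat_lit 78) (nat_lit 0) (nat_lit 0) (XT.lf (nat_lit 0) (nat_lit 12930193078) (nat_lit 152)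 (nat_lit 8531268094) (nat_lit 228) (nat_lit 7121501813) (nat_lit 29) (nat_lit 5) (nat_lit 31) (nat_lit 5) (nat_lit 32) (nat_lit 5) (nat_lit 361) (nat_lit 257) (nat_lit 162)) (XT.lf (nat_lit 0) (nat_lit 28892426942) (nat_lit 152) (nat_lit 106702387) (nat_lit 228) (nat_lit 264797986) (nat_lit 29) (nat_lit 5) (nat_lit 31) (nat_lit 5) (nat_lit 32) (nat_lit 5) (nat_lit 362) (nat_lit 257) (nat_lit 161)))))) (XT.nd (nat_lit 33384) (nat_lit 0) (nat_lit 41344) (XT.nd (nat_lit 33072) (nat_lit 0) (nat_lit 46056) (XT.nd (nat_lit 32916) (nat_lit 0) (nat_lit 47348) (XT.lf (nat_lit 0) (nat_lit 6838124078) (nat_lit 152) (nat_lit 14540857628) (nat_lit 76) (nat_lit 8582868307) (nat_lit 27) (nat_lit 5) (nat_lit 29) (nat_lit 5) (nat_lit 28) (nat_lit 5) (nat_lit 363) (nat_lit 257) (nat_lit 160)) (XT.nd (nat_lit 78) (nat_lit 304) (nat_lit 0) (XT.lf (nat_lit 0) (nat_lit 1485836200) (nat_lit 228) (nat_lit 258245543) (nat_lit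 0) (nat_lit 1485836200) (nat_lit 654) (nat_lit 5) (nat_lit 657) (nat_lit 4) (nat_lit 654) (nat_lit 4) (nat_lit 264) (nat_lit 258) (nat_lit 258)) (XT.lf (nat_lit 0) (nat_lit 1009073975) (nat_lit 304) (nat_lit 2028007644) (nat_lit 76) (nat_lit 3433045497) (nat_lit 650) (nat_lit 5) (nat_lit 654) (nat_lit 5) (nat_lit 651) (nat_lit 4) (nat_lit 265) (nat_lit 258) (nat_lit 257)))) (XT.nd (nat_lit 156) (nat_lit 532) (nat_lit 0) (XT.nd (nat_lit 78) (nat_lit 456) (nat_lit 0) (XT.lf (nat_lit 0) (nat_lit 2992986386) (nat_lit 304) (nat_lit 2456134175) (nat_lit 380) (nat_lit 1034247471) (nat_lit 646) (nat_lit 5) (nat_lit 650) (nat_lit 5) (nat_lit 651) (nat_lit 4) (nat_lit 266) (nat_lit 258) (nat_lit 256)) (XT.lf (nat_lit 0) (nat_lit 1593958647) (nat_lit 380) (nat_lit 1744384547) (nat_lit 456) (nat_lit 3161218600) (nat_lit 640) (nat_lit 5) (nat_lit 645) (nat_lit 5) (nat_lit 646) (nat_lit 5) (nat_lit 267) (nat_lit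 258) (nat_lit 255))) (XT.nd (nat_lit 78) (nat_lit 0) (nat_lit 0) (XT.lf (nat_lit 0) (nat_lit 250242958) (nat_lit 456) (nat_lit 907922616) (nat_lit 532) (nat_lit 5360688583) (nat_lit 633) (nat_lit 5) (nat_lit 639) (nat_lit 5) (nat_lit 640) (nat_lit 5) (nat_lit 268) (nat_lit 258) (nat_lit 254)) (XT.lf (nat_lit 0) (nat_lit 5440000871) (nat_lit 532) (nat_lit 1033636968) (nat_lit 76) (nat_lit 67335900) (nat_lit 633) (nat_lit 5) (nat_lit 640) (nat_lit 5) (nat_lit 634) (nat_lit 5) (nat_lit 269) (nat_lit 258) (nat_lit 253))))) (XT.nd (nat_lit 234) (nat_lit 2736) (nat_lit 0) (XT.nd (nat_lit 78) (nat_lit 1368) (nat_lit 0) (XT.lf (nat_lit 0) (nat_lit 3123521361) (nat_lit 608) (nat_lit 2277476203) (nat_lit 76) (nat_lit 1164904692) (nat_lit 625) (nat_lit 5) (nat_lit 633) (nat_lit 5) (nat_lit 626) (nat_lit 5) (nat_lit 270) (nat_lit 258) (nat_lit 252)) (XT.nd (nat_lit 78) (nat_lit 684) (nat_lit 0) (XT.lf (nat_lit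 0) (nat_lit 733090524) (nat_lit 684) (nat_lit 3472426920) (nat_lit 76) (nat_lit 2388446028) (nat_lit 616) (nat_lit 5) (nat_lit 625) (nat_lit 5) (nat_lit 617) (nat_lit 5) (nat_lit 271) (nat_lit 258) (nat_lit 251)) (XT.lf (nat_lit 0) (nat_lit 1993658993) (nat_lit 684) (nat_lit 2874417217) (nat_lit 760) (nat_lit 1756875588) (nat_lit 607) (nat_lit 5) (nat_lit 616) (nat_lit 5) (nat_lit 617) (nat_lit 5) (nat_lit 272) (nat_lit 258) (nat_lit 250)))) (XT.nd (nat_lit 156) (nat_lit 1900) (nat_lit 0) (XT.nd (nat_lit 78) (nat_lit 0) (nat_lit 0) (XT.lf (nat_lit 0) (nat_lit 909641977) (nat_lit 760) (nat_lit 1412619594) (nat_lit 836) (nat_lit 4336752067) (nat_lit 596) (nat_lit 5) (nat_lit 606) (nat_lit 5) (nat_lit 607) (nat_lit 5) (nat_lit 273) (nat_lit 258) (nat_lit 249)) (XT.lf (nat_lit 0) (nat_lit 6390918313) (nat_lit 836) (nat_lit 128402158) (nat_lit 76) (nat_lit 176872843) (nat_lit 596) (nat_lit 5) (nat_lit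 607) (nat_lit 5) (nat_lit 597) (nat_lit 5) (nat_lit 274) (nat_lit 258) (nat_lit 248))) (XT.nd (nat_lit 78) (nat_lit 988) (nat_lit 0) (XT.lf (nat_lit 0) (nat_lit 3704717637) (nat_lit 912) (nat_lit 1134878066) (nat_lit 76) (nat_lit 1896373943) (nat_lit 584) (nat_lit 5) (nat_lit 596) (nat_lit 5) (nat_lit 585) (nat_lit 5) (nat_lit 275) (nat_lit 258) (nat_lit 247)) (XT.lf (nat_lit 0) (nat_lit 935784163) (nat_lit 988) (nat_lit 2098432881) (nat_lit 76) (nat_lit 3744766704) (nat_lit 571) (nat_lit 5) (nat_lit 584) (nat_lit 5) (nat_lit 572) (nat_lit 5) (nat_lit 276) (nat_lit 258) (nat_lit 246))))))))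
noncomputable def xc47 : XT := (XT.nd (nat_lit 2106) (nat_lit 10564) (nat_lit 0) (XT.nd (nat_lit 1014) (nat_lit 9880) (nat_lit 0) (XT.nd (nat_lit 468) (nat_lit 10184) (nat_lit 0) (XT.nd (nat_lit 234) (nat_lit 2660) (nat_lit 0) (XT.nd (nat_lit 78) (nat_lit 2280) (nat_lit 0) (XT.lf (nat_lit 0) (nat_lit 3792085656) (nat_lit 988) (nat_lit 1088581852) (nat_lit 1064) (nat_lit 1944350302) (nat_lit 558) (nat_lit 5) (nat_lit 571) (nat_lit 5) (nat_lit 572) (nat_lit 5) (nat_lit 277) (nat_lit 258) (nat_lit 245)) (XT.nd (nat_lit 78) (nat_lit 1140) (nat_lit 0) (XT.lf (nat_lit 0) (nat_lit 1953812681) (nat_lit 1140) (nat_lit 3940158196) (nat_lit 76) (nat_lit 980127067) (nat_lit 543) (nat_lit 5) (nat_lit 558) (nat_lit 5) (nat_lit 544) (nat_lit 5) (nat_lit 278) (nat_lit 258) (nat_lit 244)) (XT.lf (nat_lit 0) (nat_lit 2102631422) (nat_lit 1140) (nat_lit 3754644812) (nat_lit 1216) (nat_lit 1068942504) (nat_lit 528)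 (nat_lit 5) (nat_lit 543) (nat_lit 5) (nat_lit 544) (nat_lit 5) (nat_lit 279) (nat_lit 258) (nat_lit 243)))) (XT.nd (nat_lit 78) (nat_lit 1368) (nat_lit 0) (XT.lf (nat_lit 0) (nat_lit 1297548653) (nat_lit 1216) (nat_lit 1472800850) (nat_lit 1292) (nat_lit 4211083944) (nat_lit 511) (nat_lit 5) (nat_lit 527) (nat_lit 5) (nat_lit 528) (nat_lit 5) (nat_lit 280) (nat_lit 258) (nat_lit 242)) (XT.nd (nat_lit 78) (nat_lit 76) (nat_lit 0) (XT.lf (nat_lit 0) (nat_lit 521687411) (nat_lit 1292) (nat_lit 6108923923) (nat_lit 1368) (nat_lit 409257243) (nat_lit 494) (nat_lit 5) (nat_lit 511) (nat_lit 5) (nat_lit 512) (nat_lit 5) (nat_lit 281) (nat_lit 258) (nat_lit 241)) (XT.lf (nat_lit 0) (nat_lit 3389494018) (nat_lit 1368) (nat_lit 243745797) (nat_lit 76) (nat_lit 3467890602) (nat_lit 493) (nat_lit 5) (nat_lit 511) (nat_lit 5) (nat_lit 494) (nat_lit 5) (nat_lit 282) (nat_lit 258) (nat_lit 240))))) (XT.nd (nat_lit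 234) (nat_lit 5700) (nat_lit 0) (XT.nd (nat_lit 78) (nat_lit 3040) (nat_lit 0) (XT.lf (nat_lit 0) (nat_lit 54127871) (nat_lit 1444) (nat_lit 968507959) (nat_lit 76) (nat_lit 6143156187) (nat_lit 474) (nat_lit 5) (nat_lit 493) (nat_lit 5) (nat_lit 475) (nat_lit 5) (nat_lit 283) (nat_lit 258) (nat_lit 239)) (XT.nd (nat_lit 78) (nat_lit 1596) (nat_lit 0) (XT.lf (nat_lit 0) (nat_lit 3817380527) (nat_lit 1520) (nat_lit 1694189650) (nat_lit 76) (nat_lit 1721731906) (nat_lit 455) (nat_lit 5) (nat_lit 475) (nat_lit 5) (nat_lit 456) (nat_lit 5) (nat_lit 284) (nat_lit 258) (nat_lit 238)) (XT.lf (nat_lit 0) (nat_lit 318764037) (nat_lit 1596) (nat_lit 2396954860) (nat_lit 76) (nat_lit 4588497339) (nat_lit 434) (nat_lit 5) (nat_lit 455) (nat_lit 5) (nat_lit 435) (nat_lit 5) (nat_lit 285) (nat_lit 258) (nat_lit 237)))) (XT.nd (nat_lit 156) (nat_lit 2356) (nat_lit 0) (XT.nd (nat_lit 78) (nat_lit 1748) (nat_lit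 0) (XT.lf (nat_lit 0) (nat_lit 4050466580) (nat_lit 1672) (nat_lit 3094166164) (nat_lit 76) (nat_lit 233636467) (nat_lit 413) (nat_lit 5) (nat_lit 435) (nat_lit 5) (nat_lit 414) (nat_lit 5) (nat_lit 286) (nat_lit 258) (nat_lit 236)) (XT.lf (nat_lit 0) (nat_lit 384571121) (nat_lit 1748) (nat_lit 3785243644) (nat_lit 76) (nat_lit 3285743058) (nat_lit 390) (nat_lit 5) (nat_lit 413) (nat_lit 5) (nat_lit 391) (nat_lit 5) (nat_lit 287) (nat_lit 258) (nat_lit 235))) (XT.nd (nat_lit 78) (nat_lit 912) (nat_lit 0) (XT.lf (nat_lit 0) (nat_lit 3062068123) (nat_lit 1444) (nat_lit 1036790513) (nat_lit 1520) (nat_lit 3437235243) (nat_lit 371) (nat_lit 5) (nat_lit 390) (nat_lit 5) (nat_lit 391) (nat_lit 5) (nat_lit 288) (nat_lit 258) (nat_lit 234)) (XT.lf (nat_lit 0) (nat_lit 254131989) (nat_lit 912) (nat_lit 5157290597) (nat_lit 76) (nat_lit 2208611324) (nat_lit 359) (nat_lit 5) (nat_lit 371) (nat_lit 5) (nat_lit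 360) (nat_lit 5) (nat_lit 289) (nat_lit 258) (nat_lit 233)))))) (XT.nd (nat_lit 546) (nat_lit 4864) (nat_lit 0) (XT.nd (nat_lit 234) (nat_lit 2356) (nat_lit 0) (XT.nd (nat_lit 78) (nat_lit 1748) (nat_lit 0) (XT.lf (nat_lit 0) (nat_lit 1855850380) (nat_lit 912) (nat_lit 2102026994) (nat_lit 988) (nat_lit 3749271099) (nat_lit 347) (nat_lit 5) (nat_lit 359) (nat_lit 5) (nat_lit 360) (nat_lit 5) (nat_lit 290) (nat_lit 258) (nat_lit 232)) (XT.nd (nat_lit 78) (nat_lit 912) (nat_lit 0) (XT.lf (nat_lit 0) (nat_lit 1259860530) (nat_lit 836) (nat_lit 6465588690) (nat_lit 912) (nat_lit 72448167) (nat_lit 336) (nat_lit 5) (nat_lit 347) (nat_lit 5) (nat_lit 348) (nat_lit 5) (nat_lit 291) (nat_lit 258) (nat_lit 231)) (XT.lf (nat_lit 0) (nat_lit 642391313) (nat_lit 836) (nat_lit 2984105646) (nat_lit 912) (nat_lit 4265250291) (nat_lit 324) (nat_lit 5) (nat_lit 335) (nat_lit 5) (nat_lit 336) (nat_lit 5) (nat_lit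 292) (nat_lit 258) (nat_lit 230)))) (XT.nd (nat_lit 156) (nat_lit 1520) (nat_lit 0) (XT.nd (nat_lit 78) (nat_lit 76) (nat_lit 0) (XT.lf (nat_lit 0) (nat_lit 34192261) (nat_lit 760) (nat_lit 7354527592) (nat_lit 836) (nat_lit 600686793) (nat_lit 314) (nat_lit 5) (nat_lit 324) (nat_lit 5) (nat_lit 325) (nat_lit 5) (nat_lit 293) (nat_lit 258) (nat_lit 229)) (XT.lf (nat_lit 0) (nat_lit 3107600423) (nat_lit 836) (nat_lit 595858462) (nat_lit 76) (nat_lit 4386682710) (nat_lit 313) (nat_lit 5) (nat_lit 324) (nat_lit 5) (nat_lit 314) (nat_lit 5) (nat_lit 294) (nat_lit 258) (nat_lit 228))) (XT.nd (nat_lit 78) (nat_lit 760) (nat_lit 0) (XT.lf (nat_lit 0) (nat_lit 6873691539) (nat_lit 836) (nat_lit 1222216372) (nat_lit 76) (nat_lit 98881158) (nat_lit 303) (nat_lit 5) (nat_lit 314) (nat_lit 5) (nat_lit 304) (nat_lit 5) (nat_lit 295) (nat_lit 258) (nat_lit 227)) (XT.lf (nat_lit 0) (nat_lit 2399202192) (nat_lit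 760) (nat_lit 1884159638) (nat_lit 76) (nat_lit 4019334145) (nat_lit 293) (nat_lit 5) (nat_lit 303) (nat_lit 5) (nat_lit 294) (nat_lit 5) (nat_lit 296) (nat_lit 258) (nat_lit 226))))) (XT.nd (nat_lit 234) (nat_lit 2660) (nat_lit 0) (XT.nd (nat_lit 78) (nat_lit 1444) (nat_lit 0) (XT.lf (nat_lit 0) (nat_lit 5861242049) (nat_lit 760) (nat_lit 310470276) (nat_lit 836) (nat_lit 2242841455) (nat_lit 283) (nat_lit 5) (nat_lit 293) (nat_lit 5) (nat_lit 294) (nat_lit 5) (nat_lit 297) (nat_lit 258) (nat_lit 225)) (XT.nd (nat_lit 78) (nat_lit 684) (nat_lit 0) (XT.lf (nat_lit 0) (nat_lit 1493058758) (nat_lit 760) (nat_lit 3258440487) (nat_lit 76) (nat_lit 3778416921) (nat_lit 273) (nat_lit 5) (nat_lit 283) (nat_lit 5) (nat_lit 274) (nat_lit 5) (nat_lit 298) (nat_lit 258) (nat_lit 224)) (XT.lf (nat_lit 0) (nat_lit 4663531483) (nat_lit 684) (nat_lit 612163808) (nat_lit 760) (nat_lit 3373499853) (nat_lit 264)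 (nat_lit 5) (nat_lit 273) (nat_lit 5) (nat_lit 274) (nat_lit 5) (nat_lit 299) (nat_lit 258) (nat_lit 223)))) (XT.nd (nat_lit 156) (nat_lit 1292) (nat_lit 0) (XT.nd (nat_lit 78) (nat_lit 684) (nat_lit 0) (XT.lf (nat_lit 0) (nat_lit 383412633) (nat_lit 684) (nat_lit 4747772020) (nat_lit 76) (nat_lit 3641090181) (nat_lit 255) (nat_lit 5) (nat_lit 264) (nat_lit 5) (nat_lit 256) (nat_lit 5) (nat_lit 300) (nat_lit 258) (nat_lit 222)) (XT.lf (nat_lit 0) (nat_lit 3350545636) (nat_lit 684) (nat_lit 828096434) (nat_lit 760) (nat_lit 4720580699) (nat_lit 246) (nat_lit 5) (nat_lit 255) (nat_lit 5) (nat_lit 256) (nat_lit 5) (nat_lit 301) (nat_lit 258) (nat_lit 221))) (XT.nd (nat_lit 78) (nat_lit 684) (nat_lit 0) (XT.lf (nat_lit 0) (nat_lit 2640935529) (nat_lit 608) (nat_lit 5439528792) (nat_lit 684) (nat_lit 949709305) (nat_lit 238) (nat_lit 5) (nat_lit 246) (nat_lit 5) (nat_lit 247) (nat_lit 5) (nat_lit 302)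 (nat_lit 258) (nat_lit 220)) (XT.lf (nat_lit 0) (nat_lit 1890778715) (nat_lit 608) (nat_lit 981637891) (nat_lit 684) (nat_lit 6292769964) (nat_lit 229) (nat_lit 5) (nat_lit 237) (nat_lit 5) (nat_lit 238) (nat_lit 5) (nat_lit 303) (nat_lit 258) (nat_lit 219))))))) (XT.nd (nat_lit 1092) (nat_lit 4332) (nat_lit 0) (XT.nd (nat_lit 546) (nat_lit 2812) (nat_lit 0) (XT.nd (nat_lit 234) (nat_lit 2204) (nat_lit 0) (XT.nd (nat_lit 78) (nat_lit 684) (nat_lit 0) (XT.lf (nat_lit 0) (nat_lit 1090527042) (nat_lit 532) (nat_lit 5702465296) (nat_lit 608) (nat_lit 2511243702) (nat_lit 222) (nat_lit 5) (nat_lit 229) (nat_lit 5) (nat_lit 230) (nat_lit 5) (nat_lit 304) (nat_lit 258) (nat_lit 218)) (XT.nd (nat_lit 78) (nat_lit 0) (nat_lit 0) (XT.lf (nat_lit 0) (nat_lit 250468492) (nat_lit 608) (nat_lit 1096528855) (nat_lit 684) (nat_lit 8100694906) (nat_lit 213) (nat_lit 5) (nat_lit 221) (nat_lit 5) (nat_lit 222) (nat_lit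 5) (nat_lit 305) (nat_lit 258) (nat_lit 217)) (XT.lf (nat_lit 0) (nat_lit 5291856309) (nat_lit 684) (nat_lit 650477803) (nat_lit 76) (nat_lit 3652728296) (nat_lit 213) (nat_lit 5) (nat_lit 222) (nat_lit 5) (nat_lit 214) (nat_lit 5) (nat_lit 306) (nat_lit 258) (nat_lit 216)))) (XT.nd (nat_lit 156) (nat_lit 1064) (nat_lit 0) (XT.nd (nat_lit 78) (nat_lit 608) (nat_lit 0) (XT.lf (nat_lit 0) (nat_lit 8158851359) (nat_lit 532) (nat_lit 1183781666) (nat_lit 608) (nat_lit 404509997) (nat_lit 206) (nat_lit 5) (nat_lit 213) (nat_lit 5) (nat_lit 214) (nat_lit 5) (nat_lit 307) (nat_lit 258) (nat_lit 215)) (XT.lf (nat_lit 0) (nat_lit 3568506189) (nat_lit 608) (nat_lit 2611058272) (nat_lit 76) (nat_lit 3723697101) (nat_lit 198) (nat_lit 5) (nat_lit 206) (nat_lit 5) (nat_lit 199) (nat_lit 5) (nat_lit 308) (nat_lit 258) (nat_lit 214))) (XT.nd (nat_lit 78) (nat_lit 608) (nat_lit 0) (XT.lf (nat_lit 0) (nat_lit 6377188200)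 (nat_lit 456) (nat_lit 1267850052) (nat_lit 532) (nat_lit 2419213204) (nat_lit 192) (nat_lit 5) (nat_lit 198) (nat_lit 5) (nat_lit 199) (nat_lit 5) (nat_lit 309) (nat_lit 258) (nat_lit 213)) (XT.lf (nat_lit 0) (nat_lit 1601046626) (nat_lit 608) (nat_lit 4845875662) (nat_lit 76) (nat_lit 3782806753) (nat_lit 184) (nat_lit 5) (nat_lit 192) (nat_lit 5) (nat_lit 185) (nat_lit 5) (nat_lit 310) (nat_lit 258) (nat_lit 212))))) (XT.nd (nat_lit 234) (nat_lit 1368) (nat_lit 0) (XT.nd (nat_lit 78) (nat_lit 988) (nat_lit 0) (XT.lf (nat_lit 0) (nat_lit 4317532084) (nat_lit 456) (nat_lit 1385246524) (nat_lit 532) (nat_lit 4697232720) (nat_lit 178) (nat_lit 5) (nat_lit 184) (nat_lit 5) (nat_lit 185) (nat_lit 5) (nat_lit 311) (nat_lit 258) (nat_lit 211)) (XT.nd (nat_lit 78) (nat_lit 532) (nat_lit 0) (XT.lf (nat_lit 0) (nat_lit 3172271598) (nat_lit 456) (nat_lit 6766923658) (nat_lit 532) (nat_lit 636007997) (nat_lit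 172) (nat_lit 5) (nat_lit 178) (nat_lit 5) (nat_lit 179) (nat_lit 5) (nat_lit 312) (nat_lit 258) (nat_lit 210)) (XT.lf (nat_lit 0) (nat_lit 1934795521) (nat_lit 456) (nat_lit 1563074918) (nat_lit 532) (nat_lit 7257405349) (nat_lit 165) (nat_lit 5) (nat_lit 171) (nat_lit 5) (nat_lit 172) (nat_lit 5) (nat_lit 313) (nat_lit 258) (nat_lit 209)))) (XT.nd (nat_lit 156) (nat_lit 836) (nat_lit 0) (XT.nd (nat_lit 78) (nat_lit 76) (nat_lit 0) (XT.lf (nat_lit 0) (nat_lit 602106080) (nat_lit 456) (nat_lit 7159324769) (nat_lit 532) (nat_lit 3178980694) (nat_lit 159) (nat_lit 5) (nat_lit 165) (nat_lit 5) (nat_lit 166) (nat_lit 5) (nat_lit 314) (nat_lit 258) (nat_lit 208)) (XT.lf (nat_lit 0) (nat_lit 1015071068) (nat_lit 532) (nat_lit 809482371) (nat_lit 76) (nat_lit 9306311489) (nat_lit 158) (nat_lit 5) (nat_lit 165) (nat_lit 5) (nat_lit 159) (nat_lit 5) (nat_lit 315) (nat_lit 258) (nat_lit 207))) (XT.nd (nat_lit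 78) (nat_lit 456) (nat_lit 0) (XT.lf (nat_lit 0) (nat_lit 5312640820) (nat_lit 456) (nat_lit 2336297436) (nat_lit 76) (nat_lit 3677284556) (nat_lit 153) (nat_lit 5) (nat_lit 159) (nat_lit 5) (nat_lit 154) (nat_lit 5) (nat_lit 316) (nat_lit 258) (nat_lit 206)) (XT.lf (nat_lit 0) (nat_lit 7566834486) (nat_lit 456) (nat_lit 2178158460) (nat_lit 532) (nat_lit 1782359421) (nat_lit 147) (nat_lit 5) (nat_lit 153) (nat_lit 5) (nat_lit 154) (nat_lit 5) (nat_lit 317) (nat_lit 258) (nat_lit 205)))))) (XT.nd (nat_lit 546) (nat_lit 1900) (nat_lit 0) (XT.nd (nat_lit 234) (nat_lit 1216) (nat_lit 0) (XT.nd (nat_lit 78) (nat_lit 760) (nat_lit 0) (XT.lf (nat_lit 0) (nat_lit 2559721254) (nat_lit 456) (nat_lit 5716464552) (nat_lit 76) (nat_lit 3457668150) (nat_lit 141) (nat_lit 5) (nat_lit 147) (nat_lit 5) (nat_lit 142) (nat_lit 5) (nat_lit 318) (nat_lit 258) (nat_lit 204)) (XT.nd (nat_lit 78) (nat_lit 380) (nat_lit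 0) (XT.lf (nat_lit 0) (nat_lit 4346905945) (nat_lit 380) (nat_lit 2671715379) (nat_lit 456) (nat_lit 4927504109) (nat_lit 136) (nat_lit 5) (nat_lit 141) (nat_lit 5) (nat_lit 142) (nat_lit 5) (nat_lit 319) (nat_lit 258) (nat_lit 203)) (XT.lf (nat_lit 0) (nat_lit 2553652907) (nat_lit 380) (nat_lit 9075168951) (nat_lit 456) (nat_lit 535617686) (nat_lit 131) (nat_lit 5) (nat_lit 136) (nat_lit 5) (nat_lit 137) (nat_lit 5) (nat_lit 320) (nat_lit 258) (nat_lit 202)))) (XT.nd (nat_lit 156) (nat_lit 760) (nat_lit 0) (XT.nd (nat_lit 78) (nat_lit 0) (nat_lit 0) (XT.lf (nat_lit 0) (nat_lit 605418884) (nat_lit 380) (nat_lit 3346507570) (nat_lit 456) (nat_lit 8436558616) (nat_lit 125) (nat_lit 5) (nat_lit 130) (nat_lit 5) (nat_lit 131) (nat_lit 5) (nat_lit 321) (nat_lit 258) (nat_lit 201)) (XT.lf (nat_lit 0) (nat_lit 8592520984) (nat_lit 456) (nat_lit 1463745071) (nat_lit 76) (nat_lit 2562424330) (nat_lit 125)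 (nat_lit 5) (nat_lit 131) (nat_lit 5) (nat_lit 126) (nat_lit 5) (nat_lit 322) (nat_lit 258) (nat_lit 200))) (XT.nd (nat_lit 78) (nat_lit 380) (nat_lit 0) (XT.lf (nat_lit 0) (nat_lit 537067192) (nat_lit 380) (nat_lit 3678023706) (nat_lit 76) (nat_lit 8640119815) (nat_lit 120) (nat_lit 5) (nat_lit 125) (nat_lit 5) (nat_lit 121) (nat_lit 5) (nat_lit 323) (nat_lit 258) (nat_lit 199)) (XT.lf (nat_lit 0) (nat_lit 5196442205) (nat_lit 456) (nat_lit 6068012755) (nat_lit 76) (nat_lit 1833582093) (nat_lit 115) (nat_lit 5) (nat_lit 121) (nat_lit 5) (nat_lit 116) (nat_lit 5) (nat_lit 324) (nat_lit 258) (nat_lit 198))))) (XT.nd (nat_lit 234) (nat_lit 1216) (nat_lit 0) (XT.nd (nat_lit 78) (nat_lit 380) (nat_lit 0) (XT.lf (nat_lit 0) (nat_lit 4714107689) (nat_lit 304) (nat_lit 5312109648) (nat_lit 380) (nat_lit 3321339330) (nat_lit 111) (nat_lit 5) (nat_lit 115) (nat_lit 5) (nat_lit 116) (nat_lit 5) (nat_lit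 325) (nat_lit 258) (nat_lit 197)) (XT.nd (nat_lit 78) (nat_lit 0) (nat_lit 0) (XT.lf (nat_lit 0) (nat_lit 1386898637) (nat_lit 380) (nat_lit 11371642000) (nat_lit 76) (nat_lit 845682014) (nat_lit 106) (nat_lit 5) (nat_lit 111) (nat_lit 5) (nat_lit 107) (nat_lit 5) (nat_lit 326) (nat_lit 258) (nat_lit 196)) (XT.lf (nat_lit 0) (nat_lit 6234167704) (nat_lit 380) (nat_lit 463107478) (nat_lit 76) (nat_lit 7170035469) (nat_lit 106) (nat_lit 5) (nat_lit 111) (nat_lit 5) (nat_lit 107) (nat_lit 5) (nat_lit 327) (nat_lit 258) (nat_lit 195)))) (XT.nd (nat_lit 156) (nat_lit 532) (nat_lit 0) (XT.nd (nat_lit 78) (nat_lit 380) (nat_lit 0) (XT.lf (nat_lit 0) (nat_lit 10836816703) (nat_lit 304) (nat_lit 410141512) (nat_lit 380) (nat_lit 2890949724) (nat_lit 102) (nat_lit 5) (nat_lit 106) (nat_lit 5) (nat_lit 107) (nat_lit 5) (nat_lit 328) (nat_lit 258) (nat_lit 194)) (XT.lf (nat_lit 0) (nat_lit 2013011651) (nat_lit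 380) (nat_lit 6374784403) (nat_lit 76) (nat_lit 6027673089) (nat_lit 97) (nat_lit 5) (nat_lit 102) (nat_lit 5) (nat_lit 98) (nat_lit 5) (nat_lit 329) (nat_lit 258) (nat_lit 193))) (XT.nd (nat_lit 78) (nat_lit 304) (nat_lit 0) (XT.lf (nat_lit 0) (nat_lit 5033823446) (nat_lit 228) (nat_lit 2000296501) (nat_lit 304) (nat_lit 7666686254) (nat_lit 94) (nat_lit 5) (nat_lit 97) (nat_lit 5) (nat_lit 98) (nat_lit 5) (nat_lit 330) (nat_lit 258) (nat_lit 192)) (XT.lf (nat_lit 0) (nat_lit 1795129234) (nat_lit 304) (nat_lit 10447488818) (nat_lit 380) (nat_lit 2751366979) (nat_lit 90) (nat_lit 5) (nat_lit 94) (nat_lit 5) (nat_lit 95) (nat_lit 5) (nat_lit 331) (nat_lit 258) (nat_lit 191))))))))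
noncomputable def xc48 : XT := (XT.nd (nat_lit 2106) (nat_lit 532) (nat_lit 0) (XT.nd (nat_lit 1014) (nat_lit 1900) (nat_lit 0) (XT.nd (nat_lit 468) (nat_lit 1216) (nat_lit 0) (XT.nd (nat_lit 234) (nat_lit 532) (nat_lit 0) (XT.nd (nat_lit 78) (nat_lit 532) (nat_lit 0) (XT.lf (nat_lit 0) (nat_lit 2312887426) (nat_lit 380) (nat_lit 1665954074) (nat_lit 76) (nat_lit 11316197761) (nat_lit 89) (nat_lit 5) (nat_lit 94) (nat_lit 5) (nat_lit 90) (nat_lit 5) (nat_lit 332) (nat_lit 258) (nat_lit 190)) (XT.nd (nat_lit 78) (nat_lit 304) (nat_lit 0) (XT.lf (nat_lit 0) (nat_lit 7530153167) (nat_lit 304) (nat_lit 5366841226) (nat_lit 76) (nat_lit 2707013230) (nat_lit 86) (nat_lit 5) (nat_lit 90) (nat_lit 5) (nat_lit 87) (nat_lit 5) (nat_lit 333) (nat_lit 258) (nat_lit 189)) (XT.lf (nat_lit 0) (nat_lit 6584588510) (nat_lit 304) (nat_lit 6354625505) (nat_lit 380) (nat_lit 2982340546) (nat_lit 82) (nat_lit 5) (nat_lit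 86) (nat_lit 5) (nat_lit 87) (nat_lit 5) (nat_lit 334) (nat_lit 258) (nat_lit 188)))) (XT.nd (nat_lit 78) (nat_lit 228) (nat_lit 0) (XT.lf (nat_lit 0) (nat_lit 2244047744) (nat_lit 304) (nat_lit 13583428675) (nat_lit 76) (nat_lit 420636220) (nat_lit 78) (nat_lit 5) (nat_lit 82) (nat_lit 5) (nat_lit 79) (nat_lit 5) (nat_lit 335) (nat_lit 258) (nat_lit 187)) (XT.nd (nat_lit 78) (nat_lit 228) (nat_lit 0) (XT.lf (nat_lit 0) (nat_lit 7648890817) (nat_lit 304) (nat_lit 1564084209) (nat_lit 76) (nat_lit 7369868461) (nat_lit 78) (nat_lit 5) (nat_lit 82) (nat_lit 5) (nat_lit 79) (nat_lit 5) (nat_lit 336) (nat_lit 258) (nat_lit 186)) (XT.lf (nat_lit 0) (nat_lit 10888536911) (nat_lit 228) (nat_lit 2355091321) (nat_lit 304) (nat_lit 3683446565) (nat_lit 75) (nat_lit 5) (nat_lit 78) (nat_lit 5) (nat_lit 79) (nat_lit 5) (nat_lit 337) (nat_lit 258) (nat_lit 185))))) (XT.nd (nat_lit 234) (nat_lit 684) (nat_lit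 0) (XT.nd (nat_lit 78) (nat_lit 228) (nat_lit 0) (XT.lf (nat_lit 0) (nat_lit 1742940985) (nat_lit 304) (nat_lit 10853420525) (nat_lit 76) (nat_lit 4684240771) (nat_lit 71) (nat_lit 5) (nat_lit 75) (nat_lit 5) (nat_lit 72) (nat_lit 5) (nat_lit 338) (nat_lit 258) (nat_lit 184)) (XT.nd (nat_lit 78) (nat_lit 0) (nat_lit 0) (XT.lf (nat_lit 0) (nat_lit 1617075753) (nat_lit 228) (nat_lit 5690907142) (nat_lit 304) (nat_lit 10335760109) (nat_lit 68) (nat_lit 5) (nat_lit 71) (nat_lit 5) (nat_lit 72) (nat_lit 5) (nat_lit 339) (nat_lit 258) (nat_lit 183)) (XT.lf (nat_lit 0) (nat_lit 13082024227) (nat_lit 304) (nat_lit 3484403057) (nat_lit 76) (nat_lit 1450521827) (nat_lit 68) (nat_lit 5) (nat_lit 72) (nat_lit 5) (nat_lit 69) (nat_lit 5) (nat_lit 340) (nat_lit 258) (nat_lit 182)))) (XT.nd (nat_lit 156) (nat_lit 152) (nat_lit 0) (XT.nd (nat_lit 78) (nat_lit 228) (nat_lit 0) (XT.lf (nat_lit 0) (nat_lit 679501996)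 (nat_lit 304) (nat_lit 8951220010) (nat_lit 76) (nat_lit 8769363356) (nat_lit 64) (nat_lit 5) (nat_lit 68) (nat_lit 5) (nat_lit 65) (nat_lit 5) (nat_lit 341) (nat_lit 258) (nat_lit 181)) (XT.lf (nat_lit 0) (nat_lit 3976491987) (nat_lit 228) (nat_lit 2429244598) (nat_lit 304) (nat_lit 12388129503) (nat_lit 61) (nat_lit 5) (nat_lit 64) (nat_lit 5) (nat_lit 65) (nat_lit 5) (nat_lit 342) (nat_lit 258) (nat_lit 180))) (XT.nd (nat_lit 78) (nat_lit 152) (nat_lit 0) (XT.lf (nat_lit 0) (nat_lit 12358216261) (nat_lit 304) (nat_lit 1882105357) (nat_lit 76) (nat_lit 4958060338) (nat_lit 61) (nat_lit 5) (nat_lit 65) (nat_lit 5) (nat_lit 62) (nat_lit 5) (nat_lit 343) (nat_lit 258) (nat_lit 179)) (XT.lf (nat_lit 0) (nat_lit 11512242304) (nat_lit 152) (nat_lit 7030166969) (nat_lit 228) (nat_lit 1071571809) (nat_lit 59) (nat_lit 5) (nat_lit 61) (nat_lit 5) (nat_lit 62) (nat_lit 5) (nat_lit 344) (nat_lit 258) (nat_lit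 178)))))) (XT.nd (nat_lit 546) (nat_lit 760) (nat_lit 0) (XT.nd (nat_lit 234) (nat_lit 684) (nat_lit 0) (XT.nd (nat_lit 78) (nat_lit 152) (nat_lit 0) (XT.lf (nat_lit 0) (nat_lit 4818754334) (nat_lit 304) (nat_lit 14777594710) (nat_lit 76) (nat_lit 444825870) (nat_lit 55) (nat_lit 5) (nat_lit 59) (nat_lit 5) (nat_lit 56) (nat_lit 5) (nat_lit 345) (nat_lit 258) (nat_lit 177)) (XT.nd (nat_lit 78) (nat_lit 152) (nat_lit 0) (XT.lf (nat_lit 0) (nat_lit 10936700711) (nat_lit 304) (nat_lit 1456619627) (nat_lit 76) (nat_lit 8086422945) (nat_lit 55) (nat_lit 5) (nat_lit 59) (nat_lit 5) (nat_lit 56) (nat_lit 5) (nat_lit 346) (nat_lit 258) (nat_lit 176)) (XT.lf (nat_lit 0) (nat_lit 12365238385) (nat_lit 152) (nat_lit 4917413494) (nat_lit 228) (nat_lit 3647936972) (nat_lit 53) (nat_lit 5) (nat_lit 55) (nat_lit 5) (nat_lit 56) (nat_lit 5) (nat_lit 347) (nat_lit 258) (nat_lit 175)))) (XT.nd (nat_lit 156) (nat_lit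 380) (nat_lit 0) (XT.nd (nat_lit 78) (nat_lit 0) (nat_lit 0) (XT.lf (nat_lit 0) (nat_lit 2418947386) (nat_lit 304) (nat_lit 16193620463) (nat_lit 76) (nat_lit 2781551850) (nat_lit 49) (nat_lit 5) (nat_lit 53) (nat_lit 5) (nat_lit 50) (nat_lit 5) (nat_lit 348) (nat_lit 258) (nat_lit 174)) (XT.lf (nat_lit 0) (nat_lit 8674950851) (nat_lit 304) (nat_lit 2491465558) (nat_lit 76) (nat_lit 10703533090) (nat_lit 49) (nat_lit 5) (nat_lit 53) (nat_lit 5) (nat_lit 50) (nat_lit 5) (nat_lit 349) (nat_lit 258) (nat_lit 173))) (XT.nd (nat_lit 78) (nat_lit 228) (nat_lit 0) (XT.lf (nat_lit 0) (nat_lit 11717200447) (nat_lit 152) (nat_lit 3443607286) (nat_lit 228) (nat_lit 7198411496) (nat_lit 47) (nat_lit 5) (nat_lit 49) (nat_lit 5) (nat_lit 50) (nat_lit 5) (nat_lit 350) (nat_lit 258) (nat_lit 172)) (XT.lf (nat_lit 0) (nat_lit 3481866160) (nat_lit 228) (nat_lit 18394820401) (nat_lit 304) (nat_lit 985779822) (nat_lit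 44) (nat_lit 5) (nat_lit 47) (nat_lit 5) (nat_lit 48) (nat_lit 5) (nat_lit 351) (nat_lit 258) (nat_lit 171))))) (XT.nd (nat_lit 234) (nat_lit 532) (nat_lit 0) (XT.nd (nat_lit 78) (nat_lit 152) (nat_lit 0) (XT.lf (nat_lit 0) (nat_lit 5404792203) (nat_lit 304) (nat_lit 5320193972) (nat_lit 76) (nat_lit 12653878570) (nat_lit 43) (nat_lit 5) (nat_lit 47) (nat_lit 5) (nat_lit 44) (nat_lit 5) (nat_lit 352) (nat_lit 258) (nat_lit 170)) (XT.nd (nat_lit 78) (nat_lit 0) (nat_lit 0) (XT.lf (nat_lit 0) (nat_lit 9220722986) (nat_lit 152) (nat_lit 2780808639) (nat_lit 228) (nat_lit 11908543880) (nat_lit 41) (nat_lit 5) (nat_lit 43) (nat_lit 5) (nat_lit 44) (nat_lit 5) (nat_lit 353) (nat_lit 258) (nat_lit 169)) (XT.lf (nat_lit 0) (nat_lit 18835863224) (nat_lit 228) (nat_lit 276345538) (nat_lit 76) (nat_lit 5344227432) (nat_lit 41) (nat_lit 5) (nat_lit 44) (nat_lit 5) (nat_lit 42) (nat_lit 5) (nat_lit 354) (nat_lit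 258) (nat_lit 168)))) (XT.nd (nat_lit 156) (nat_lit 152) (nat_lit 0) (XT.nd (nat_lit 78) (nat_lit 152) (nat_lit 0) (XT.lf (nat_lit 0) (nat_lit 928575480) (nat_lit 228) (nat_lit 10334145465) (nat_lit 76) (nat_lit 13754687339) (nat_lit 38) (nat_lit 5) (nat_lit 41) (nat_lit 5) (nat_lit 39) (nat_lit 5) (nat_lit 355) (nat_lit 258) (nat_lit 167)) (XT.lf (nat_lit 0) (nat_lit 4468112969) (nat_lit 152) (nat_lit 3130651395) (nat_lit 228) (nat_lit 17995690428) (nat_lit 36) (nat_lit 5) (nat_lit 38) (nat_lit 5) (nat_lit 39) (nat_lit 5) (nat_lit 356) (nat_lit 258) (nat_lit 166))) (XT.nd (nat_lit 78) (nat_lit 152) (nat_lit 0) (XT.lf (nat_lit 0) (nat_lit 14543604183) (nat_lit 228) (nat_lit 6418790975) (nat_lit 76) (nat_lit 5224933278) (nat_lit 36) (nat_lit 5) (nat_lit 39) (nat_lit 5) (nat_lit 37) (nat_lit 5) (nat_lit 357) (nat_lit 258) (nat_lit 165)) (XT.lf (nat_lit 0) (nat_lit 8772891743) (nat_lit 152) (nat_lit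 12972664381) (nat_lit 228) (nat_lit 5051463277) (nat_lit 34) (nat_lit 5) (nat_lit 36) (nat_lit 5) (nat_lit 37) (nat_lit 5) (nat_lit 358) (nat_lit 258) (nat_lit 164))))))) (XT.nd (nat_lit 33696) (nat_lit 0) (nat_lit 33972) (XT.nd (nat_lit 33150) (nat_lit 0) (nat_lit 45980) (XT.nd (nat_lit 234) (nat_lit 304) (nat_lit 0) (XT.nd (nat_lit 78) (nat_lit 152) (nat_lit 0) (XT.lf (nat_lit 0) (nat_lit 1730744812) (nat_lit 228) (nat_lit 2978295428) (nat_lit 76) (nat_lit 22715441621) (nat_lit 33) (nat_lit 5) (nat_lit 36) (nat_lit 5) (nat_lit 34) (nat_lit 5) (nat_lit 359) (nat_lit 258) (nat_lit 163)) (XT.nd (nat_lit 78) (nat_lit 0) (nat_lit 0) (XT.lf (nat_lit 0) (nat_lit 8727346809) (nat_lit 228) (nat_lit 15493236533) (nat_lit 76) (nat_lit 3847931866) (nat_lit 31) (nat_lit 5) (nat_lit 34) (nat_lit 5) (nat_lit 32) (nat_lit 5) (nat_lit 360) (nat_lit 258) (nat_lit 162)) (XT.lf (nat_lit 0) (nat_lit 15958052894)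 (nat_lit 228) (nat_lit 175778161) (nat_lit 76) (nat_lit 12597560169) (nat_lit 31) (nat_lit 5) (nat_lit 34) (nat_lit 5) (nat_lit 32) (nat_lit 5) (nat_lit 361) (nat_lit 258) (nat_lit 161)))) (XT.nd (nat_lit 78) (nat_lit 152) (nat_lit 0) (XT.lf (nat_lit 0) (nat_lit 15760414803) (nat_lit 152) (nat_lit 7720795399) (nat_lit 228) (nat_lit 5931438337) (nat_lit 29) (nat_lit 5) (nat_lit 31) (nat_lit 5) (nat_lit 32) (nat_lit 5) (nat_lit 362) (nat_lit 258) (nat_lit 160)) (XT.nd (nat_lit 32760) (nat_lit 0) (nat_lit 47880) (XT.lf (nat_lit 0) (nat_lit 1095141756) (nat_lit 152) (nat_lit 28085446391) (nat_lit 76) (nat_lit 933734777) (nat_lit 27) (nat_lit 5) (nat_lit 29) (nat_lit 5) (nat_lit 28) (nat_lit 5) (nat_lit 363) (nat_lit 258) (nat_lit 159)) (XT.lf (nat_lit 0) (nat_lit 1388372741) (nat_lit 76) (nat_lit 917457390) (nat_lit 76) (nat_lit 917457390) (nat_lit 657) (nat_lit 4) (nat_lit 658) (nat_lit 5) (nat_lit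 658) (nat_lit 4) (nat_lit 262) (nat_lit 259) (nat_lit 259))))) (XT.nd (nat_lit 234) (nat_lit 1368) (nat_lit 0) (XT.nd (nat_lit 78) (nat_lit 304) (nat_lit 0) (XT.lf (nat_lit 0) (nat_lit 1066530911) (nat_lit 152) (nat_lit 1576352574) (nat_lit 228) (nat_lit 3809598428) (nat_lit 654) (nat_lit 5) (nat_lit 656) (nat_lit 5) (nat_lit 657) (nat_lit 4) (nat_lit 263) (nat_lit 259) (nat_lit 258)) (XT.nd (nat_lit 78) (nat_lit 228) (nat_lit 0) (XT.lf (nat_lit 0) (nat_lit 613895207) (nat_lit 228) (nat_lit 576545836) (nat_lit 76) (nat_lit 5270951043) (nat_lit 653) (nat_lit 5) (nat_lit 656) (nat_lit 5) (nat_lit 654) (nat_lit 5) (nat_lit 264) (nat_lit 259) (nat_lit 257)) (XT.lf (nat_lit 0) (nat_lit 4314732578) (nat_lit 228) (nat_lit 664106529) (nat_lit 304) (nat_lit 1494224505) (nat_lit 650) (nat_lit 5) (nat_lit 653) (nat_lit 5) (nat_lit 654) (nat_lit 5) (nat_lit 265) (nat_lit 259) (nat_lit 256)))) (XT.nd (nat_lit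 156) (nat_lit 532) (nat_lit 0) (XT.nd (nat_lit 78) (nat_lit 456) (nat_lit 0) (XT.lf (nat_lit 0) (nat_lit 2798508887) (nat_lit 304) (nat_lit 9232020) (nat_lit 380) (nat_lit 3680007798) (nat_lit 645) (nat_lit 5) (nat_lit 649) (nat_lit 5) (nat_lit 650) (nat_lit 5) (nat_lit 266) (nat_lit 259) (nat_lit 255)) (XT.lf (nat_lit 0) (nat_lit 573014515) (nat_lit 456) (nat_lit 5171841242) (nat_lit 76) (nat_lit 760584030) (nat_lit 639) (nat_lit 5) (nat_lit 645) (nat_lit 5) (nat_lit 640) (nat_lit 5) (nat_lit 267) (nat_lit 259) (nat_lit 254))) (XT.nd (nat_lit 78) (nat_lit 532) (nat_lit 0) (XT.lf (nat_lit 0) (nat_lit 4771810724) (nat_lit 456) (nat_lit 87786359) (nat_lit 76) (nat_lit 1666397144) (nat_lit 639) (nat_lit 5) (nat_lit 645) (nat_lit 5) (nat_lit 640) (nat_lit 5) (nat_lit 268) (nat_lit 259) (nat_lit 253)) (XT.lf (nat_lit 0) (nat_lit 2395505424) (nat_lit 532) (nat_lit 1444105906) (nat_lit 76) (nat_lit 2709806130)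 (nat_lit 632) (nat_lit 5) (nat_lit 639) (nat_lit 5) (nat_lit 633) (nat_lit 5) (nat_lit 269) (nat_lit 259) (nat_lit 252)))))) (XT.nd (nat_lit 546) (nat_lit 7372) (nat_lit 0) (XT.nd (nat_lit 234) (nat_lit 2660) (nat_lit 0) (XT.nd (nat_lit 78) (nat_lit 1444) (nat_lit 0) (XT.lf (nat_lit 0) (nat_lit 3825104342) (nat_lit 532) (nat_lit 2696257656) (nat_lit 608) (nat_lit 54608160) (nat_lit 625) (nat_lit 5) (nat_lit 632) (nat_lit 5) (nat_lit 633) (nat_lit 5) (nat_lit 270) (nat_lit 259) (nat_lit 251)) (XT.nd (nat_lit 78) (nat_lit 760) (nat_lit 0) (XT.lf (nat_lit 0) (nat_lit 2579971344) (nat_lit 608) (nat_lit 1412216737) (nat_lit 684) (nat_lit 2613167435) (nat_lit 616) (nat_lit 5) (nat_lit 624) (nat_lit 5) (nat_lit 625) (nat_lit 5) (nat_lit 271) (nat_lit 259) (nat_lit 250)) (XT.lf (nat_lit 0) (nat_lit 1384616714) (nat_lit 684) (nat_lit 2330266) (nat_lit 760) (nat_lit 5250965243) (nat_lit 606) (nat_lit 5)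 (nat_lit 615) (nat_lit 5) (nat_lit 616) (nat_lit 5) (nat_lit 272) (nat_lit 259) (nat_lit 249)))) (XT.nd (nat_lit 156) (nat_lit 1824) (nat_lit 0) (XT.nd (nat_lit 78) (nat_lit 76) (nat_lit 0) (XT.lf (nat_lit 0) (nat_lit 218906250) (nat_lit 760) (nat_lit 5150204699) (nat_lit 836) (nat_lit 1304186774) (nat_lit 596) (nat_lit 5) (nat_lit 606) (nat_lit 5) (nat_lit 607) (nat_lit 5) (nat_lit 273) (nat_lit 259) (nat_lit 248)) (XT.lf (nat_lit 0) (nat_lit 2622113756) (nat_lit 836) (nat_lit 898433377) (nat_lit 76) (nat_lit 3191033914) (nat_lit 595) (nat_lit 5) (nat_lit 606) (nat_lit 5) (nat_lit 596) (nat_lit 5) (nat_lit 274) (nat_lit 259) (nat_lit 247))) (XT.nd (nat_lit 78) (nat_lit 988) (nat_lit 0) (XT.lf (nat_lit 0) (nat_lit 4782668503) (nat_lit 836) (nat_lit 1762484161) (nat_lit 912) (nat_lit 207891688) (nat_lit 584) (nat_lit 5) (nat_lit 595) (nat_lit 5) (nat_lit 596) (nat_lit 5) (nat_lit 275) (nat_lit 259)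 (nat_lit 246)) (XT.lf (nat_lit 0) (nat_lit 3639830034) (nat_lit 988) (nat_lit 3018414263) (nat_lit 76) (nat_lit 139157604) (nat_lit 571) (nat_lit 5) (nat_lit 584) (nat_lit 5) (nat_lit 572) (nat_lit 5) (nat_lit 276) (nat_lit 259) (nat_lit 245))))) (XT.nd (nat_lit 234) (nat_lit 4028) (nat_lit 0) (XT.nd (nat_lit 78) (nat_lit 2280) (nat_lit 0) (XT.lf (nat_lit 0) (nat_lit 661256947) (nat_lit 1064) (nat_lit 4037909684) (nat_lit 76) (nat_lit 2145640303) (nat_lit 557) (nat_lit 5) (nat_lit 571) (nat_lit 5) (nat_lit 558) (nat_lit 5) (nat_lit 277) (nat_lit 259) (nat_lit 244)) (XT.nd (nat_lit 78) (nat_lit 1216) (nat_lit 0) (XT.lf (nat_lit 0) (nat_lit 1860736292) (nat_lit 1064) (nat_lit 2597388464) (nat_lit 1140) (nat_lit 2437085201) (nat_lit 543) (nat_lit 5) (nat_lit 557) (nat_lit 5) (nat_lit 558) (nat_lit 5) (nat_lit 278) (nat_lit 259) (nat_lit 243)) (XT.lf (nat_lit 0) (nat_lit 950425544) (nat_lit 1140) (nat_lit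 362003269) (nat_lit 1216) (nat_lit 5636440511) (nat_lit 527) (nat_lit 5) (nat_lit 542) (nat_lit 5) (nat_lit 543) (nat_lit 5) (nat_lit 279) (nat_lit 259) (nat_lit 242)))) (XT.nd (nat_lit 156) (nat_lit 2736) (nat_lit 0) (XT.nd (nat_lit 78) (nat_lit 76) (nat_lit 0) (XT.lf (nat_lit 0) (nat_lit 53120104) (nat_lit 1216) (nat_lit 5014423386) (nat_lit 1292) (nat_lit 1937859858) (nat_lit 511) (nat_lit 5) (nat_lit 527) (nat_lit 5) (nat_lit 528) (nat_lit 5) (nat_lit 280) (nat_lit 259) (nat_lit 241)) (XT.lf (nat_lit 0) (nat_lit 1771230392) (nat_lit 1292) (nat_lit 808194676) (nat_lit 76) (nat_lit 4485589487) (nat_lit 510) (nat_lit 5) (nat_lit 527) (nat_lit 5) (nat_lit 511) (nat_lit 5) (nat_lit 281) (nat_lit 259) (nat_lit 240))) (XT.nd (nat_lit 78) (nat_lit 1444) (nat_lit 0) (XT.lf (nat_lit 0) (nat_lit 5483179287) (nat_lit 1292) (nat_lit 2071766) (nat_lit 1368) (nat_lit 1642610251) (nat_lit 493) (nat_lit 5)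 (nat_lit 510) (nat_lit 5) (nat_lit 511) (nat_lit 5) (nat_lit 282) (nat_lit 259) (nat_lit 239)) (XT.lf (nat_lit 0) (nat_lit 2030385408) (nat_lit 1444) (nat_lit 2477508686) (nat_lit 76) (nat_lit 2685721143) (nat_lit 474) (nat_lit 5) (nat_lit 493) (nat_lit 5) (nat_lit 475) (nat_lit 5) (nat_lit 283) (nat_lit 259) (nat_lit 238))))))))
noncomputable def xc49 : XT := (XT.nd (nat_lit 2106) (nat_lit 8284) (nat_lit 0) (XT.nd (nat_lit 1014) (nat_lit 8284) (nat_lit 0) (XT.nd (nat_lit 468) (nat_lit 5016) (nat_lit 0) (XT.nd (nat_lit 234) (nat_lit 4104) (nat_lit 0) (XT.nd (nat_lit 78) (nat_lit 3192) (nat_lit 0) (XT.lf (nat_lit 0) (nat_lit 3973236795) (nat_lit 1444) (nat_lit 1744131602) (nat_lit 1520) (nat_lit 1545329235) (nat_lit 455) (nat_lit 5) (nat_lit 474) (nat_lit 5) (nat_lit 475) (nat_lit 5) (nat_lit 284) (nat_lit 259) (nat_lit 237)) (XT.nd (nat_lit 78) (nat_lit 1596) (nat_lit 0) (XT.lf (nat_lit 0) (nat_lit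 2088846714) (nat_lit 1596) (nat_lit 4093307873) (nat_lit 76) (nat_lit 1152778501) (nat_lit 434) (nat_lit 5) (nat_lit 455) (nat_lit 5) (nat_lit 435) (nat_lit 5) (nat_lit 285) (nat_lit 259) (nat_lit 236)) (XT.lf (nat_lit 0) (nat_lit 2518053201) (nat_lit 1596) (nat_lit 3236970077) (nat_lit 1672) (nat_lit 1655316679) (nat_lit 413) (nat_lit 5) (nat_lit 434) (nat_lit 5) (nat_lit 435) (nat_lit 5) (nat_lit 286) (nat_lit 259) (nat_lit 235)))) (XT.nd (nat_lit 78) (nat_lit 2356) (nat_lit 0) (XT.lf (nat_lit 0) (nat_lit 1809107334) (nat_lit 1672) (nat_lit 142046762) (nat_lit 1748) (nat_lit 5537977939) (nat_lit 390) (nat_lit 5) (nat_lit 412) (nat_lit 5) (nat_lit 413) (nat_lit 5) (nat_lit 287) (nat_lit 259) (nat_lit 234)) (XT.nd (nat_lit 78) (nat_lit 912) (nat_lit 0) (XT.lf (nat_lit 0) (nat_lit 1094077613) (nat_lit 1444) (nat_lit 4507212155) (nat_lit 1520) (nat_lit 1969701444) (nat_lit 371) (nat_lit 5) (nat_lit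 390) (nat_lit 5) (nat_lit 391) (nat_lit 5) (nat_lit 288) (nat_lit 259) (nat_lit 233)) (XT.lf (nat_lit 0) (nat_lit 389527975) (nat_lit 836) (nat_lit 1235147505) (nat_lit 912) (nat_lit 6031658218) (nat_lit 359) (nat_lit 5) (nat_lit 370) (nat_lit 5) (nat_lit 371) (nat_lit 5) (nat_lit 289) (nat_lit 259) (nat_lit 232))))) (XT.nd (nat_lit 234) (nat_lit 3192) (nat_lit 0) (XT.nd (nat_lit 78) (nat_lit 1824) (nat_lit 0) (XT.lf (nat_lit 0) (nat_lit 5259841089) (nat_lit 912) (nat_lit 318452180) (nat_lit 76) (nat_lit 2166563629) (nat_lit 359) (nat_lit 5) (nat_lit 371) (nat_lit 5) (nat_lit 360) (nat_lit 5) (nat_lit 290) (nat_lit 259) (nat_lit 231)) (XT.nd (nat_lit 78) (nat_lit 836) (nat_lit 0) (XT.lf (nat_lit 0) (nat_lit 1109307265) (nat_lit 988) (nat_lit 1020199231) (nat_lit 76) (nat_lit 5707317194) (nat_lit 346) (nat_lit 5) (nat_lit 359) (nat_lit 5) (nat_lit 347) (nat_lit 5) (nat_lit 291) (nat_lit 259) (nat_lit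 230)) (XT.lf (nat_lit 0) (nat_lit 4735868249) (nat_lit 912) (nat_lit 1733839872) (nat_lit 76) (nat_lit 1462418934) (nat_lit 335) (nat_lit 5) (nat_lit 347) (nat_lit 5) (nat_lit 336) (nat_lit 5) (nat_lit 292) (nat_lit 259) (nat_lit 229)))) (XT.nd (nat_lit 156) (nat_lit 1520) (nat_lit 0) (XT.nd (nat_lit 78) (nat_lit 760) (nat_lit 0) (XT.lf (nat_lit 0) (nat_lit 400287902) (nat_lit 912) (nat_lit 2453281896) (nat_lit 76) (nat_lit 5177425920) (nat_lit 323) (nat_lit 5) (nat_lit 335) (nat_lit 5) (nat_lit 324) (nat_lit 5) (nat_lit 293) (nat_lit 259) (nat_lit 228)) (XT.lf (nat_lit 0) (nat_lit 4020969305) (nat_lit 836) (nat_lit 3191625577) (nat_lit 76) (nat_lit 920683970) (nat_lit 313) (nat_lit 5) (nat_lit 324) (nat_lit 5) (nat_lit 314) (nat_lit 5) (nat_lit 294) (nat_lit 259) (nat_lit 227))) (XT.nd (nat_lit 78) (nat_lit 760) (nat_lit 0) (XT.lf (nat_lit 0) (nat_lit 4295247445) (nat_lit 760) (nat_lit 3430130957)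 (nat_lit 836) (nat_lit 513812275) (nat_lit 303) (nat_lit 5) (nat_lit 313) (nat_lit 5) (nat_lit 314) (nat_lit 5) (nat_lit 295) (nat_lit 259) (nat_lit 226)) (XT.lf (nat_lit 0) (nat_lit 3112282024) (nat_lit 760) (nat_lit 4718095634) (nat_lit 76) (nat_lit 518316684) (nat_lit 293) (nat_lit 5) (nat_lit 303) (nat_lit 5) (nat_lit 294) (nat_lit 5) (nat_lit 296) (nat_lit 259) (nat_lit 225)))))) (XT.nd (nat_lit 546) (nat_lit 4028) (nat_lit 0) (XT.nd (nat_lit 234) (nat_lit 2052) (nat_lit 0) (XT.nd (nat_lit 78) (nat_lit 1444) (nat_lit 0) (XT.lf (nat_lit 0) (nat_lit 2942003281) (nat_lit 760) (nat_lit 3881774693) (nat_lit 836) (nat_lit 1638022838) (nat_lit 283) (nat_lit 5) (nat_lit 293) (nat_lit 5) (nat_lit 294) (nat_lit 5) (nat_lit 297) (nat_lit 259) (nat_lit 224)) (XT.nd (nat_lit 78) (nat_lit 684) (nat_lit 0) (XT.lf (nat_lit 0) (nat_lit 2005331610) (nat_lit 760) (nat_lit 6340875525) (nat_lit 76) (nat_lit 232596808)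 (nat_lit 273) (nat_lit 5) (nat_lit 283) (nat_lit 5) (nat_lit 274) (nat_lit 5) (nat_lit 298) (nat_lit 259) (nat_lit 223)) (XT.lf (nat_lit 0) (nat_lit 1492637280) (nat_lit 684) (nat_lit 4234179641) (nat_lit 760) (nat_lit 2972515251) (nat_lit 264) (nat_lit 5) (nat_lit 273) (nat_lit 5) (nat_lit 274) (nat_lit 5) (nat_lit 299) (nat_lit 259) (nat_lit 222)))) (XT.nd (nat_lit 156) (nat_lit 1368) (nat_lit 0) (XT.nd (nat_lit 78) (nat_lit 0) (nat_lit 0) (XT.lf (nat_lit 0) (nat_lit 693968321) (nat_lit 684) (nat_lit 8089189670) (nat_lit 76) (nat_lit 40930164) (nat_lit 255) (nat_lit 5) (nat_lit 264) (nat_lit 5) (nat_lit 256) (nat_lit 5) (nat_lit 300) (nat_lit 259) (nat_lit 221)) (XT.lf (nat_lit 0) (nat_lit 4428296156) (nat_lit 684) (nat_lit 81488002) (nat_lit 76) (nat_lit 4442494202) (nat_lit 255) (nat_lit 5) (nat_lit 264) (nat_lit 5) (nat_lit 256) (nat_lit 5) (nat_lit 301) (nat_lit 259) (nat_lit 220))) (XT.nd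 (nat_lit 78) (nat_lit 684) (nat_lit 0) (XT.lf (nat_lit 0) (nat_lit 8181763461) (nat_lit 684) (nat_lit 68856747) (nat_lit 760) (nat_lit 834222502) (nat_lit 246) (nat_lit 5) (nat_lit 255) (nat_lit 5) (nat_lit 256) (nat_lit 5) (nat_lit 302) (nat_lit 259) (nat_lit 219)) (XT.lf (nat_lit 0) (nat_lit 2929877927) (nat_lit 684) (nat_lit 1791510623) (nat_lit 76) (nat_lit 4499604723) (nat_lit 237) (nat_lit 5) (nat_lit 246) (nat_lit 5) (nat_lit 238) (nat_lit 5) (nat_lit 303) (nat_lit 259) (nat_lit 218))))) (XT.nd (nat_lit 234) (nat_lit 2204) (nat_lit 0) (XT.nd (nat_lit 78) (nat_lit 1216) (nat_lit 0) (XT.lf (nat_lit 0) (nat_lit 6652956207) (nat_lit 608) (nat_lit 117979201) (nat_lit 684) (nat_lit 2590719445) (nat_lit 229) (nat_lit 5) (nat_lit 237) (nat_lit 5) (nat_lit 238) (nat_lit 5) (nat_lit 304) (nat_lit 259) (nat_lit 217)) (XT.nd (nat_lit 78) (nat_lit 608) (nat_lit 0) (XT.lf (nat_lit 0) (nat_lit 1211696845)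 (nat_lit 608) (nat_lit 3690544590) (nat_lit 76) (nat_lit 4604037990) (nat_lit 221) (nat_lit 5) (nat_lit 229) (nat_lit 5) (nat_lit 222) (nat_lit 5) (nat_lit 305) (nat_lit 259) (nat_lit 216)) (XT.lf (nat_lit 0) (nat_lit 4933656186) (nat_lit 608) (nat_lit 138821649) (nat_lit 684) (nat_lit 4582873401) (nat_lit 213) (nat_lit 5) (nat_lit 221) (nat_lit 5) (nat_lit 222) (nat_lit 5) (nat_lit 306) (nat_lit 259) (nat_lit 215)))) (XT.nd (nat_lit 156) (nat_lit 1064) (nat_lit 0) (XT.nd (nat_lit 78) (nat_lit 608) (nat_lit 0) (XT.lf (nat_lit 0) (nat_lit 3989135580) (nat_lit 532) (nat_lit 5071359271) (nat_lit 608) (nat_lit 748211702) (nat_lit 206) (nat_lit 5) (nat_lit 213) (nat_lit 5) (nat_lit 214) (nat_lit 5) (nat_lit 307) (nat_lit 259) (nat_lit 214)) (XT.lf (nat_lit 0) (nat_lit 2986888493) (nat_lit 532) (nat_lit 155508015) (nat_lit 608) (nat_lit 6824230099) (nat_lit 198) (nat_lit 5) (nat_lit 205) (nat_lit 5)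 (nat_lit 206) (nat_lit 5) (nat_lit 308) (nat_lit 259) (nat_lit 213))) (XT.nd (nat_lit 78) (nat_lit 608) (nat_lit 0) (XT.lf (nat_lit 0) (nat_lit 1906519598) (nat_lit 456) (nat_lit 5248719469) (nat_lit 532) (nat_lit 2973669253) (nat_lit 192) (nat_lit 5) (nat_lit 198) (nat_lit 5) (nat_lit 199) (nat_lit 5) (nat_lit 309) (nat_lit 259) (nat_lit 212)) (XT.lf (nat_lit 0) (nat_lit 772598778) (nat_lit 532) (nat_lit 193080558) (nat_lit 608) (nat_lit 9330559387) (nat_lit 184) (nat_lit 5) (nat_lit 191) (nat_lit 5) (nat_lit 192) (nat_lit 5) (nat_lit 310) (nat_lit 259) (nat_lit 211))))))) (XT.nd (nat_lit 1092) (nat_lit 3040) (nat_lit 0) (XT.nd (nat_lit 546) (nat_lit 2432) (nat_lit 0) (XT.nd (nat_lit 234) (nat_lit 1824) (nat_lit 0) (XT.nd (nat_lit 78) (nat_lit 988) (nat_lit 0) (XT.lf (nat_lit 0) (nat_lit 5005547834) (nat_lit 608) (nat_lit 459587731) (nat_lit 76) (nat_lit 5002639378) (nat_lit 184) (nat_lit 5) (nat_lit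 192) (nat_lit 5) (nat_lit 185) (nat_lit 5) (nat_lit 311) (nat_lit 259) (nat_lit 210)) (XT.nd (nat_lit 78) (nat_lit 532) (nat_lit 0) (XT.lf (nat_lit 0) (nat_lit 8905201380) (nat_lit 456) (nat_lit 256314363) (nat_lit 532) (nat_lit 1483076274) (nat_lit 178) (nat_lit 5) (nat_lit 184) (nat_lit 5) (nat_lit 185) (nat_lit 5) (nat_lit 312) (nat_lit 259) (nat_lit 209)) (XT.lf (nat_lit 0) (nat_lit 2604611368) (nat_lit 532) (nat_lit 3131309714) (nat_lit 76) (nat_lit 5090014865) (nat_lit 171) (nat_lit 5) (nat_lit 178) (nat_lit 5) (nat_lit 172) (nat_lit 5) (nat_lit 313) (nat_lit 259) (nat_lit 208)))) (XT.nd (nat_lit 156) (nat_lit 912) (nat_lit 0) (XT.nd (nat_lit 78) (nat_lit 456) (nat_lit 0) (XT.lf (nat_lit 0) (nat_lit 6409459910) (nat_lit 456) (nat_lit 378437811) (nat_lit 532) (nat_lit 4224794411) (nat_lit 165) (nat_lit 5) (nat_lit 171) (nat_lit 5) (nat_lit 172) (nat_lit 5) (nat_lit 314) (nat_lit 259) (nat_lit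 207)) (XT.lf (nat_lit 0) (nat_lit 5021452640) (nat_lit 456) (nat_lit 6101481725) (nat_lit 532) (nat_lit 81621065) (nat_lit 159) (nat_lit 5) (nat_lit 165) (nat_lit 5) (nat_lit 166) (nat_lit 5) (nat_lit 315) (nat_lit 259) (nat_lit 206))) (XT.nd (nat_lit 78) (nat_lit 456) (nat_lit 0) (XT.lf (nat_lit 0) (nat_lit 3527666636) (nat_lit 380) (nat_lit 599843850) (nat_lit 456) (nat_lit 7274217413) (nat_lit 153) (nat_lit 5) (nat_lit 158) (nat_lit 5) (nat_lit 159) (nat_lit 5) (nat_lit 316) (nat_lit 259) (nat_lit 205)) (XT.lf (nat_lit 0) (nat_lit 1917148796) (nat_lit 456) (nat_lit 6572965188) (nat_lit 532) (nat_lit 3114151855) (nat_lit 147) (nat_lit 5) (nat_lit 153) (nat_lit 5) (nat_lit 154) (nat_lit 5) (nat_lit 317) (nat_lit 259) (nat_lit 204))))) (XT.nd (nat_lit 234) (nat_lit 1596) (nat_lit 0) (XT.nd (nat_lit 78) (nat_lit 380) (nat_lit 0) (XT.lf (nat_lit 0) (nat_lit 204662286) (nat_lit 380) (nat_lit 951303173)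 (nat_lit 456) (nat_lit 10656776272) (nat_lit 141) (nat_lit 5) (nat_lit 146) (nat_lit 5) (nat_lit 147) (nat_lit 5) (nat_lit 318) (nat_lit 259) (nat_lit 203)) (XT.nd (nat_lit 78) (nat_lit 380) (nat_lit 0) (XT.lf (nat_lit 0) (nat_lit 5552166963) (nat_lit 456) (nat_lit 1636804234) (nat_lit 76) (nat_lit 4837308375) (nat_lit 141) (nat_lit 5) (nat_lit 147) (nat_lit 5) (nat_lit 142) (nat_lit 5) (nat_lit 319) (nat_lit 259) (nat_lit 202)) (XT.lf (nat_lit 0) (nat_lit 8659497450) (nat_lit 380) (nat_lit 1427568136) (nat_lit 456) (nat_lit 2159046167) (nat_lit 136) (nat_lit 5) (nat_lit 141) (nat_lit 5) (nat_lit 142) (nat_lit 5) (nat_lit 320) (nat_lit 259) (nat_lit 201)))) (XT.nd (nat_lit 156) (nat_lit 760) (nat_lit 0) (XT.nd (nat_lit 78) (nat_lit 380) (nat_lit 0) (XT.lf (nat_lit 0) (nat_lit 2285371612) (nat_lit 456) (nat_lit 5693416815) (nat_lit 76) (nat_lit 4492879472) (nat_lit 130) (nat_lit 5) (nat_lit 136)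 (nat_lit 5) (nat_lit 131) (nat_lit 5) (nat_lit 321) (nat_lit 259) (nat_lit 200)) (XT.lf (nat_lit 0) (nat_lit 4757518691) (nat_lit 380) (nat_lit 2087206174) (nat_lit 456) (nat_lit 5858784295) (nat_lit 125) (nat_lit 5) (nat_lit 130) (nat_lit 5) (nat_lit 131) (nat_lit 5) (nat_lit 322) (nat_lit 259) (nat_lit 199))) (XT.nd (nat_lit 78) (nat_lit 456) (nat_lit 0) (XT.lf (nat_lit 0) (nat_lit 2586202496) (nat_lit 304) (nat_lit 8982893876) (nat_lit 380) (nat_lit 1372666447) (nat_lit 121) (nat_lit 5) (nat_lit 125) (nat_lit 5) (nat_lit 126) (nat_lit 5) (nat_lit 323) (nat_lit 259) (nat_lit 198)) (XT.lf (nat_lit 0) (nat_lit 245441328) (nat_lit 380) (nat_lit 2977183133) (nat_lit 456) (nat_lit 9963794958) (nat_lit 115) (nat_lit 5) (nat_lit 120) (nat_lit 5) (nat_lit 121) (nat_lit 5) (nat_lit 324) (nat_lit 259) (nat_lit 197)))))) (XT.nd (nat_lit 546) (nat_lit 1444) (nat_lit 0) (XT.nd (nat_lit 234) (nat_lit 912)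 (nat_lit 0) (XT.nd (nat_lit 78) (nat_lit 684) (nat_lit 0) (XT.lf (nat_lit 0) (nat_lit 7976987989) (nat_lit 456) (nat_lit 2240272739) (nat_lit 76) (nat_lit 3220196512) (nat_lit 115) (nat_lit 5) (nat_lit 121) (nat_lit 5) (nat_lit 116) (nat_lit 5) (nat_lit 325) (nat_lit 259) (nat_lit 196)) (XT.nd (nat_lit 78) (nat_lit 380) (nat_lit 0) (XT.lf (nat_lit 0) (nat_lit 8800257395) (nat_lit 304) (nat_lit 4100564570) (nat_lit 380) (nat_lit 794687103) (nat_lit 111) (nat_lit 5) (nat_lit 115) (nat_lit 5) (nat_lit 116) (nat_lit 5) (nat_lit 326) (nat_lit 259) (nat_lit 195)) (XT.lf (nat_lit 0) (nat_lit 3979205095) (nat_lit 380) (nat_lit 7754349433) (nat_lit 76) (nat_lit 2226830939) (nat_lit 106) (nat_lit 5) (nat_lit 111) (nat_lit 5) (nat_lit 107) (nat_lit 5) (nat_lit 327) (nat_lit 259) (nat_lit 194)))) (XT.nd (nat_lit 156) (nat_lit 304) (nat_lit 0) (XT.nd (nat_lit 78) (nat_lit 304) (nat_lit 0) (XT.lf (nat_lit 0)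 (nat_lit 3410881020) (nat_lit 304) (nat_lit 5508864698) (nat_lit 380) (nat_lit 5312690986) (nat_lit 102) (nat_lit 5) (nat_lit 106) (nat_lit 5) (nat_lit 107) (nat_lit 5) (nat_lit 328) (nat_lit 259) (nat_lit 193)) (XT.lf (nat_lit 0) (nat_lit 429745907) (nat_lit 304) (nat_lit 13592272696) (nat_lit 380) (nat_lit 490378194) (nat_lit 98) (nat_lit 5) (nat_lit 102) (nat_lit 5) (nat_lit 103) (nat_lit 5) (nat_lit 329) (nat_lit 259) (nat_lit 192))) (XT.nd (nat_lit 78) (nat_lit 228) (nat_lit 0) (XT.lf (nat_lit 0) (nat_lit 4481109583) (nat_lit 380) (nat_lit 2773686806) (nat_lit 76) (nat_lit 7544130453) (nat_lit 97) (nat_lit 5) (nat_lit 102) (nat_lit 5) (nat_lit 98) (nat_lit 5) (nat_lit 330) (nat_lit 259) (nat_lit 191)) (XT.lf (nat_lit 0) (nat_lit 8915653049) (nat_lit 228) (nat_lit 691293598) (nat_lit 304) (nat_lit 5486820276) (nat_lit 94) (nat_lit 5) (nat_lit 97) (nat_lit 5) (nat_lit 98) (nat_lit 5) (nat_lit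 331) (nat_lit 259) (nat_lit 190))))) (XT.nd (nat_lit 234) (nat_lit 836) (nat_lit 0) (XT.nd (nat_lit 78) (nat_lit 304) (nat_lit 0) (XT.lf (nat_lit 0) (nat_lit 5557809336) (nat_lit 304) (nat_lit 9377809781) (nat_lit 380) (nat_lit 460867711) (nat_lit 90) (nat_lit 5) (nat_lit 94) (nat_lit 5) (nat_lit 95) (nat_lit 5) (nat_lit 332) (nat_lit 259) (nat_lit 189)) (XT.nd (nat_lit 78) (nat_lit 0) (nat_lit 0) (XT.lf (nat_lit 0) (nat_lit 1941311080) (nat_lit 228) (nat_lit 2727273487) (nat_lit 304) (nat_lit 11038815048) (nat_lit 86) (nat_lit 5) (nat_lit 89) (nat_lit 5) (nat_lit 90) (nat_lit 5) (nat_lit 333) (nat_lit 259) (nat_lit 188)) (XT.lf (nat_lit 0) (nat_lit 9995451276) (nat_lit 304) (nat_lit 1918343110) (nat_lit 76) (nat_lit 4112803253) (nat_lit 86) (nat_lit 5) (nat_lit 90) (nat_lit 5) (nat_lit 87) (nat_lit 5) (nat_lit 334) (nat_lit 259) (nat_lit 187)))) (XT.nd (nat_lit 156) (nat_lit 228) (nat_lit 0) (XT.nd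 (nat_lit 78) (nat_lit 304) (nat_lit 0) (XT.lf (nat_lit 0) (nat_lit 10333069615) (nat_lit 304) (nat_lit 5191544360) (nat_lit 380) (nat_lit 829922030) (nat_lit 82) (nat_lit 5) (nat_lit 86) (nat_lit 5) (nat_lit 87) (nat_lit 5) (nat_lit 335) (nat_lit 259) (nat_lit 186)) (XT.lf (nat_lit 0) (nat_lit 4491065471) (nat_lit 304) (nat_lit 10432650998) (nat_lit 76) (nat_lit 1767559613) (nat_lit 78) (nat_lit 5) (nat_lit 82) (nat_lit 5) (nat_lit 79) (nat_lit 5) (nat_lit 336) (nat_lit 259) (nat_lit 185))) (XT.nd (nat_lit 78) (nat_lit 0) (nat_lit 0) (XT.lf (nat_lit 0) (nat_lit 1868135494) (nat_lit 228) (nat_lit 8138561217) (nat_lit 304) (nat_lit 7030399269) (nat_lit 75) (nat_lit 5) (nat_lit 78) (nat_lit 5) (nat_lit 79) (nat_lit 5) (nat_lit 337) (nat_lit 259) (nat_lit 184)) (XT.lf (nat_lit 0) (nat_lit 14613786865) (nat_lit 228) (nat_lit 1103788950) (nat_lit 304) (nat_lit 1675131821) (nat_lit 75) (nat_lit 5) (nat_lit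 78) (nat_lit 5) (nat_lit 79) (nat_lit 5) (nat_lit 338) (nat_lit 259) (nat_lit 183))))))))
noncomputable def xc50 : XT := (XT.nd (nat_lit 34632) (nat_lit 0) (nat_lit 27436) (XT.nd (nat_lit 1014) (nat_lit 1368) (nat_lit 0) (XT.nd (nat_lit 468) (nat_lit 912) (nat_lit 0) (XT.nd (nat_lit 234) (nat_lit 684) (nat_lit 0) (XT.nd (nat_lit 78) (nat_lit 228) (nat_lit 0) (XT.lf (nat_lit 0) (nat_lit 3855810814) (nat_lit 304) (nat_lit 7774516577) (nat_lit 76) (nat_lit 6126865841) (nat_lit 71) (nat_lit 5) (nat_lit 75) (nat_lit 5) (nat_lit 72) (nat_lit 5) (nat_lit 339) (nat_lit 259) (nat_lit 182)) (XT.nd (nat_lit 78) (nat_lit 0) (nat_lit 0) (XT.lf (nat_lit 0) (nat_lit 5014860515) (nat_lit 228) (nat_lit 4534672224) (nat_lit 304) (nat_lit 8582478788) (nat_lit 68) (nat_lit 5) (nat_lit 71) (nat_lit 5) (nat_lit 72) (nat_lit 5) (nat_lit 340) (nat_lit 259) (nat_lit 181)) (XT.lf (nat_lit 0) (nat_lit 15446257649) (nat_lit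 304) (nat_lit 305730548) (nat_lit 76) (nat_lit 2765453778) (nat_lit 68) (nat_lit 5) (nat_lit 72) (nat_lit 5) (nat_lit 69) (nat_lit 5) (nat_lit 341) (nat_lit 259) (nat_lit 180)))) (XT.nd (nat_lit 78) (nat_lit 380) (nat_lit 0) (XT.lf (nat_lit 0) (nat_lit 2648572897) (nat_lit 304) (nat_lit 5963368883) (nat_lit 76) (nat_lit 10300620215) (nat_lit 64) (nat_lit 5) (nat_lit 68) (nat_lit 5) (nat_lit 65) (nat_lit 5) (nat_lit 342) (nat_lit 259) (nat_lit 179)) (XT.nd (nat_lit 78) (nat_lit 152) (nat_lit 0) (XT.lf (nat_lit 0) (nat_lit 7299343453) (nat_lit 228) (nat_lit 1211292846) (nat_lit 304) (nat_lit 10808255092) (nat_lit 61) (nat_lit 5) (nat_lit 64) (nat_lit 5) (nat_lit 65) (nat_lit 5) (nat_lit 343) (nat_lit 259) (nat_lit 178)) (XT.lf (nat_lit 0) (nat_lit 1217168131) (nat_lit 152) (nat_lit 13384851197) (nat_lit 228) (nat_lit 5134332442) (nat_lit 59) (nat_lit 5) (nat_lit 61) (nat_lit 5) (nat_lit 62) (nat_lit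 5) (nat_lit 344) (nat_lit 259) (nat_lit 177))))) (XT.nd (nat_lit 234) (nat_lit 456) (nat_lit 0) (XT.nd (nat_lit 78) (nat_lit 380) (nat_lit 0) (XT.lf (nat_lit 0) (nat_lit 754264097) (nat_lit 228) (nat_lit 5223795998) (nat_lit 76) (nat_lit 14187118146) (nat_lit 58) (nat_lit 5) (nat_lit 61) (nat_lit 5) (nat_lit 59) (nat_lit 5) (nat_lit 345) (nat_lit 259) (nat_lit 176)) (XT.nd (nat_lit 78) (nat_lit 152) (nat_lit 0) (XT.lf (nat_lit 0) (nat_lit 6781158459) (nat_lit 304) (nat_lit 12129076056) (nat_lit 76) (nat_lit 1695337802) (nat_lit 55) (nat_lit 5) (nat_lit 59) (nat_lit 5) (nat_lit 56) (nat_lit 5) (nat_lit 346) (nat_lit 259) (nat_lit 175)) (XT.lf (nat_lit 0) (nat_lit 1521428303) (nat_lit 152) (nat_lit 11518146206) (nat_lit 228) (nat_lit 8018598613) (nat_lit 53) (nat_lit 5) (nat_lit 55) (nat_lit 5) (nat_lit 56) (nat_lit 5) (nat_lit 347) (nat_lit 259) (nat_lit 174)))) (XT.nd (nat_lit 156) (nat_lit 152)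 (nat_lit 0) (XT.nd (nat_lit 78) (nat_lit 304) (nat_lit 0) (XT.lf (nat_lit 0) (nat_lit 15689287730) (nat_lit 152) (nat_lit 3844507096) (nat_lit 228) (nat_lit 1989605022) (nat_lit 53) (nat_lit 5) (nat_lit 55) (nat_lit 5) (nat_lit 56) (nat_lit 5) (nat_lit 348) (nat_lit 259) (nat_lit 173)) (XT.lf (nat_lit 0) (nat_lit 4212194125) (nat_lit 304) (nat_lit 13724206996) (nat_lit 76) (nat_lit 4064697038) (nat_lit 49) (nat_lit 5) (nat_lit 53) (nat_lit 5) (nat_lit 50) (nat_lit 5) (nat_lit 349) (nat_lit 259) (nat_lit 172))) (XT.nd (nat_lit 78) (nat_lit 0) (nat_lit 0) (XT.lf (nat_lit 0) (nat_lit 306964014) (nat_lit 152) (nat_lit 10300789849) (nat_lit 228) (nat_lit 11884424036) (nat_lit 47) (nat_lit 5) (nat_lit 49) (nat_lit 5) (nat_lit 50) (nat_lit 5) (nat_lit 350) (nat_lit 259) (nat_lit 171)) (XT.lf (nat_lit 0) (nat_lit 14891315600) (nat_lit 152) (nat_lit 2364546894) (nat_lit 228) (nat_lit 5740921911) (nat_lit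 47) (nat_lit 5) (nat_lit 49) (nat_lit 5) (nat_lit 50) (nat_lit 5) (nat_lit 351) (nat_lit 259) (nat_lit 170)))))) (XT.nd (nat_lit 546) (nat_lit 532) (nat_lit 0) (XT.nd (nat_lit 234) (nat_lit 380) (nat_lit 0) (XT.nd (nat_lit 78) (nat_lit 152) (nat_lit 0) (XT.lf (nat_lit 0) (nat_lit 627170907) (nat_lit 304) (nat_lit 17131461142) (nat_lit 76) (nat_lit 5756868822) (nat_lit 43) (nat_lit 5) (nat_lit 47) (nat_lit 5) (nat_lit 44) (nat_lit 5) (nat_lit 352) (nat_lit 259) (nat_lit 169)) (XT.nd (nat_lit 78) (nat_lit 152) (nat_lit 0) (XT.lf (nat_lit 0) (nat_lit 7148690906) (nat_lit 304) (nat_lit 2738086450) (nat_lit 76) (nat_lit 14161442312) (nat_lit 43) (nat_lit 5) (nat_lit 47) (nat_lit 5) (nat_lit 44) (nat_lit 5) (nat_lit 353) (nat_lit 259) (nat_lit 168)) (XT.lf (nat_lit 0) (nat_lit 12194576975) (nat_lit 152) (nat_lit 1720197224) (nat_lit 228) (nat_lit 10681174667) (nat_lit 41) (nat_lit 5) (nat_lit 43) (nat_lit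 5) (nat_lit 44) (nat_lit 5) (nat_lit 354) (nat_lit 259) (nat_lit 167)))) (XT.nd (nat_lit 156) (nat_lit 152) (nat_lit 0) (XT.nd (nat_lit 78) (nat_lit 76) (nat_lit 0) (XT.lf (nat_lit 0) (nat_lit 2388666021) (nat_lit 152) (nat_lit 18542951286) (nat_lit 228) (nat_lit 4227544068) (nat_lit 39) (nat_lit 5) (nat_lit 41) (nat_lit 5) (nat_lit 42) (nat_lit 5) (nat_lit 355) (nat_lit 259) (nat_lit 166)) (XT.lf (nat_lit 0) (nat_lit 2454539374) (nat_lit 228) (nat_lit 8024812255) (nat_lit 76) (nat_lit 15258279496) (nat_lit 38) (nat_lit 5) (nat_lit 41) (nat_lit 5) (nat_lit 39) (nat_lit 5) (nat_lit 356) (nat_lit 259) (nat_lit 165))) (XT.nd (nat_lit 78) (nat_lit 0) (nat_lit 0) (XT.lf (nat_lit 0) (nat_lit 7179017967) (nat_lit 152) (nat_lit 2118912479) (nat_lit 228) (nat_lit 17034606475) (nat_lit 36) (nat_lit 5) (nat_lit 38) (nat_lit 5) (nat_lit 39) (nat_lit 5) (nat_lit 357) (nat_lit 259) (nat_lit 164)) (XT.lf (nat_lit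 0) (nat_lit 16415234462) (nat_lit 228) (nat_lit 4087631932) (nat_lit 76) (nat_lit 6441057537) (nat_lit 36) (nat_lit 5) (nat_lit 39) (nat_lit 5) (nat_lit 37) (nat_lit 5) (nat_lit 358) (nat_lit 259) (nat_lit 163))))) (XT.nd (nat_lit 234) (nat_lit 152) (nat_lit 0) (XT.nd (nat_lit 78) (nat_lit 228) (nat_lit 0) (XT.lf (nat_lit 0) (nat_lit 11518856864) (nat_lit 152) (nat_lit 12288702443) (nat_lit 228) (nat_lit 3764869292) (nat_lit 34) (nat_lit 5) (nat_lit 36) (nat_lit 5) (nat_lit 37) (nat_lit 5) (nat_lit 359) (nat_lit 259) (nat_lit 162)) (XT.nd (nat_lit 78) (nat_lit 152) (nat_lit 0) (XT.lf (nat_lit 0) (nat_lit 3160605453) (nat_lit 228) (nat_lit 638573991) (nat_lit 76) (nat_lit 24420184317) (nat_lit 33) (nat_lit 5) (nat_lit 36) (nat_lit 5) (nat_lit 34) (nat_lit 5) (nat_lit 360) (nat_lit 259) (nat_lit 161)) (XT.lf (nat_lit 0) (nat_lit 10349215273) (nat_lit 228) (nat_lit 13547749109) (nat_lit 76) (nat_lit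 4986120089) (nat_lit 31) (nat_lit 5) (nat_lit 34) (nat_lit 5) (nat_lit 32) (nat_lit 5) (nat_lit 361) (nat_lit 259) (nat_lit 160)))) (XT.nd (nat_lit 32682) (nat_lit 0) (nat_lit 47804) (XT.nd (nat_lit 78) (nat_lit 0) (nat_lit 0) (XT.lf (nat_lit 0) (nat_lit 2187722932) (nat_lit 152) (nat_lit 15583710707) (nat_lit 228) (nat_lit 11794929615) (nat_lit 29) (nat_lit 5) (nat_lit 31) (nat_lit 5) (nat_lit 32) (nat_lit 5) (nat_lit 362) (nat_lit 259) (nat_lit 159)) (XT.lf (nat_lit 0) (nat_lit 18535344254) (nat_lit 152) (nat_lit 6947224862) (nat_lit 228) (nat_lit 4786251568) (nat_lit 29) (nat_lit 5) (nat_lit 31) (nat_lit 5) (nat_lit 32) (nat_lit 5) (nat_lit 363) (nat_lit 259) (nat_lit 158))) (XT.nd (nat_lit 78) (nat_lit 76) (nat_lit 0) (XT.lf (nat_lit 0) (nat_lit 1073741823) (nat_lit 0) (nat_lit 0) (nat_lit 0) (nat_lit 0) (nat_lit 659) (nat_lit 0) (nat_lit 1) (nat_lit 0) (nat_lit 1) (nat_lit 0) (nat_lit 260)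 (nat_lit 260) (nat_lit 260)) (XT.lf (nat_lit 0) (nat_lit 4473982695) (nat_lit 76) (nat_lit 1896024066) (nat_lit 0) (nat_lit 73726152) (nat_lit 658) (nat_lit 5) (nat_lit 659) (nat_lit 0) (nat_lit 658) (nat_lit 4) (nat_lit 261) (nat_lit 260) (nat_lit 259))))))) (XT.nd (nat_lit 1014) (nat_lit 15580) (nat_lit 0) (XT.nd (nat_lit 468) (nat_lit 3344) (nat_lit 0) (XT.nd (nat_lit 234) (nat_lit 1064) (nat_lit 0) (XT.nd (nat_lit 78) (nat_lit 228) (nat_lit 0) (XT.lf (nat_lit 0) (nat_lit 2444994095) (nat_lit 152) (nat_lit 3733462199) (nat_lit 76) (nat_lit 269630421) (nat_lit 656) (nat_lit 5) (nat_lit 658) (nat_lit 5) (nat_lit 657) (nat_lit 4) (nat_lit 262) (nat_lit 260) (nat_lit 258)) (XT.nd (nat_lit 78) (nat_lit 0) (nat_lit 0) (XT.lf (nat_lit 0) (nat_lit 353492580) (nat_lit 228) (nat_lit 5514121704) (nat_lit 76) (nat_lit 587901521) (nat_lit 653) (nat_lit 5) (nat_lit 656) (nat_lit 5) (nat_lit 654) (nat_lit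 5) (nat_lit 263) (nat_lit 260) (nat_lit 257)) (XT.lf (nat_lit 0) (nat_lit 4644359507) (nat_lit 228) (nat_lit 775520400) (nat_lit 76) (nat_lit 1045806978) (nat_lit 653) (nat_lit 5) (nat_lit 656) (nat_lit 5) (nat_lit 654) (nat_lit 5) (nat_lit 264) (nat_lit 260) (nat_lit 256)))) (XT.nd (nat_lit 78) (nat_lit 760) (nat_lit 0) (XT.lf (nat_lit 0) (nat_lit 2416239141) (nat_lit 304) (nat_lit 2427199503) (nat_lit 76) (nat_lit 1635338367) (nat_lit 649) (nat_lit 5) (nat_lit 653) (nat_lit 5) (nat_lit 650) (nat_lit 5) (nat_lit 265) (nat_lit 260) (nat_lit 255)) (XT.nd (nat_lit 78) (nat_lit 380) (nat_lit 0) (XT.lf (nat_lit 0) (nat_lit 121070571) (nat_lit 380) (nat_lit 4025285098) (nat_lit 76) (nat_lit 2348609972) (nat_lit 644) (nat_lit 5) (nat_lit 649) (nat_lit 5) (nat_lit 645) (nat_lit 5) (nat_lit 266) (nat_lit 260) (nat_lit 254)) (XT.lf (nat_lit 0) (nat_lit 927845399) (nat_lit 380) (nat_lit 3312903399) (nat_lit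 456) (nat_lit 2273221678) (nat_lit 639) (nat_lit 5) (nat_lit 644) (nat_lit 5) (nat_lit 645) (nat_lit 5) (nat_lit 267) (nat_lit 260) (nat_lit 253))))) (XT.nd (nat_lit 234) (nat_lit 2204) (nat_lit 0) (XT.nd (nat_lit 78) (nat_lit 1064) (nat_lit 0) (XT.lf (nat_lit 0) (nat_lit 1798005849) (nat_lit 456) (nat_lit 554327768) (nat_lit 76) (nat_lit 4183670195) (nat_lit 638) (nat_lit 5) (nat_lit 644) (nat_lit 5) (nat_lit 639) (nat_lit 5) (nat_lit 268) (nat_lit 260) (nat_lit 252)) (XT.nd (nat_lit 78) (nat_lit 608) (nat_lit 0) (XT.lf (nat_lit 0) (nat_lit 4582887990) (nat_lit 456) (nat_lit 1257682135) (nat_lit 532) (nat_lit 720394681) (nat_lit 632) (nat_lit 5) (nat_lit 638) (nat_lit 5) (nat_lit 639) (nat_lit 5) (nat_lit 269) (nat_lit 260) (nat_lit 251)) (XT.lf (nat_lit 0) (nat_lit 3224190834) (nat_lit 532) (nat_lit 26247029) (nat_lit 608) (nat_lit 3338403181) (nat_lit 624) (nat_lit 5) (nat_lit 631) (nat_lit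 5) (nat_lit 632) (nat_lit 5) (nat_lit 270) (nat_lit 260) (nat_lit 250)))) (XT.nd (nat_lit 156) (nat_lit 836) (nat_lit 0) (XT.nd (nat_lit 78) (nat_lit 684) (nat_lit 0) (XT.lf (nat_lit 0) (nat_lit 593809350) (nat_lit 684) (nat_lit 4712274422) (nat_lit 76) (nat_lit 1313634685) (nat_lit 615) (nat_lit 5) (nat_lit 624) (nat_lit 5) (nat_lit 616) (nat_lit 5) (nat_lit 271) (nat_lit 260) (nat_lit 249)) (XT.lf (nat_lit 0) (nat_lit 624737470) (nat_lit 684) (nat_lit 3860703135) (nat_lit 760) (nat_lit 2168052619) (nat_lit 606) (nat_lit 5) (nat_lit 615) (nat_lit 5) (nat_lit 616) (nat_lit 5) (nat_lit 272) (nat_lit 260) (nat_lit 248))) (XT.nd (nat_lit 78) (nat_lit 760) (nat_lit 0) (XT.lf (nat_lit 0) (nat_lit 1675818313) (nat_lit 760) (nat_lit 607170633) (nat_lit 76) (nat_lit 4407320032) (nat_lit 605) (nat_lit 5) (nat_lit 615) (nat_lit 5) (nat_lit 606) (nat_lit 5) (nat_lit 273) (nat_lit 260) (nat_lit 247)) (XT.lf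 (nat_lit 0) (nat_lit 4936081605) (nat_lit 760) (nat_lit 567524843) (nat_lit 836) (nat_lit 1226512271) (nat_lit 595) (nat_lit 5) (nat_lit 605) (nat_lit 5) (nat_lit 606) (nat_lit 5) (nat_lit 274) (nat_lit 260) (nat_lit 246)))))) (XT.nd (nat_lit 546) (nat_lit 9120) (nat_lit 0) (XT.nd (nat_lit 234) (nat_lit 3572) (nat_lit 0) (XT.nd (nat_lit 78) (nat_lit 1976) (nat_lit 0) (XT.lf (nat_lit 0) (nat_lit 2545513214) (nat_lit 912) (nat_lit 2957281458) (nat_lit 76) (nat_lit 1270001512) (nat_lit 583) (nat_lit 5) (nat_lit 595) (nat_lit 5) (nat_lit 584) (nat_lit 5) (nat_lit 275) (nat_lit 260) (nat_lit 245)) (XT.nd (nat_lit 78) (nat_lit 1064) (nat_lit 0) (XT.lf (nat_lit 0) (nat_lit 2732069341) (nat_lit 912) (nat_lit 3587504094) (nat_lit 988) (nat_lit 499034485) (nat_lit 571) (nat_lit 5) (nat_lit 583) (nat_lit 5) (nat_lit 584) (nat_lit 5) (nat_lit 276) (nat_lit 260) (nat_lit 244)) (XT.lf (nat_lit 0) (nat_lit 1673945776)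 (nat_lit 988) (nat_lit 1528201515) (nat_lit 1064) (nat_lit 3665235513) (nat_lit 557) (nat_lit 5) (nat_lit 570) (nat_lit 5) (nat_lit 571) (nat_lit 5) (nat_lit 277) (nat_lit 260) (nat_lit 243)))) (XT.nd (nat_lit 156) (nat_lit 2432) (nat_lit 0) (XT.nd (nat_lit 78) (nat_lit 0) (nat_lit 0) (XT.lf (nat_lit 0) (nat_lit 1302615) (nat_lit 1140) (nat_lit 6266749840) (nat_lit 76) (nat_lit 651356660) (nat_lit 542) (nat_lit 5) (nat_lit 557) (nat_lit 5) (nat_lit 543) (nat_lit 5) (nat_lit 278) (nat_lit 260) (nat_lit 242)) (XT.lf (nat_lit 0) (nat_lit 3653181354) (nat_lit 1140) (nat_lit 356847170) (nat_lit 76) (nat_lit 2964091906) (nat_lit 542) (nat_lit 5) (nat_lit 557) (nat_lit 5) (nat_lit 543) (nat_lit 5) (nat_lit 279) (nat_lit 260) (nat_lit 241))) (XT.nd (nat_lit 78) (nat_lit 1216) (nat_lit 0) (XT.lf (nat_lit 0) (nat_lit 298291158) (nat_lit 1216) (nat_lit 1320921094) (nat_lit 76) (nat_lit 5412933429) (nat_lit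 526) (nat_lit 5) (nat_lit 542) (nat_lit 5) (nat_lit 527) (nat_lit 5) (nat_lit 280) (nat_lit 260) (nat_lit 240)) (XT.lf (nat_lit 0) (nat_lit 3905678166) (nat_lit 1292) (nat_lit 2276003796) (nat_lit 76) (nat_lit 911399835) (nat_lit 510) (nat_lit 5) (nat_lit 527) (nat_lit 5) (nat_lit 511) (nat_lit 5) (nat_lit 281) (nat_lit 260) (nat_lit 239))))) (XT.nd (nat_lit 234) (nat_lit 4864) (nat_lit 0) (XT.nd (nat_lit 78) (nat_lit 2888) (nat_lit 0) (XT.lf (nat_lit 0) (nat_lit 391881841) (nat_lit 1368) (nat_lit 3210517722) (nat_lit 76) (nat_lit 3554833225) (nat_lit 492) (nat_lit 5) (nat_lit 510) (nat_lit 5) (nat_lit 493) (nat_lit 5) (nat_lit 282) (nat_lit 260) (nat_lit 238)) (XT.nd (nat_lit 78) (nat_lit 1520) (nat_lit 0) (XT.lf (nat_lit 0) (nat_lit 3090132616) (nat_lit 1368) (nat_lit 870406759) (nat_lit 1444) (nat_lit 3263936883) (nat_lit 474) (nat_lit 5) (nat_lit 492) (nat_lit 5) (nat_lit 493) (nat_lit 5) (nat_lit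 283) (nat_lit 260) (nat_lit 237)) (XT.lf (nat_lit 0) (nat_lit 278886569) (nat_lit 1520) (nat_lit 5043693644) (nat_lit 76) (nat_lit 1972385849) (nat_lit 454) (nat_lit 5) (nat_lit 474) (nat_lit 5) (nat_lit 455) (nat_lit 5) (nat_lit 284) (nat_lit 260) (nat_lit 236)))) (XT.nd (nat_lit 156) (nat_lit 1748) (nat_lit 0) (XT.nd (nat_lit 78) (nat_lit 1596) (nat_lit 0) (XT.lf (nat_lit 0) (nat_lit 1414697344) (nat_lit 1520) (nat_lit 2406358129) (nat_lit 1596) (nat_lit 3547423549) (nat_lit 434) (nat_lit 5) (nat_lit 454) (nat_lit 5) (nat_lit 455) (nat_lit 5) (nat_lit 285) (nat_lit 260) (nat_lit 235)) (XT.lf (nat_lit 0) (nat_lit 601384020) (nat_lit 1596) (nat_lit 6806797192) (nat_lit 1672) (nat_lit 37327806) (nat_lit 413) (nat_lit 5) (nat_lit 434) (nat_lit 5) (nat_lit 435) (nat_lit 5) (nat_lit 286) (nat_lit 260) (nat_lit 234))) (XT.nd (nat_lit 78) (nat_lit 1672) (nat_lit 0) (XT.lf (nat_lit 0) (nat_lit 3486010609)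 (nat_lit 1672) (nat_lit 223593731) (nat_lit 76) (nat_lit 3815764983) (nat_lit 412) (nat_lit 5) (nat_lit 434) (nat_lit 5) (nat_lit 413) (nat_lit 5) (nat_lit 287) (nat_lit 260) (nat_lit 233)) (XT.lf (nat_lit 0) (nat_lit 6589826798) (nat_lit 1672) (nat_lit 468632369) (nat_lit 1748) (nat_lit 550361989) (nat_lit 390) (nat_lit 5) (nat_lit 412) (nat_lit 5) (nat_lit 413) (nat_lit 5) (nat_lit 288) (nat_lit 260) (nat_lit 232))))))))
noncomputable def xc51 : XT := (XT.nd (nat_lit 2106) (nat_lit 7676) (nat_lit 0) (XT.nd (nat_lit 1014) (nat_lit 6840) (nat_lit 0) (XT.nd (nat_lit 468) (nat_lit 4408) (nat_lit 0) (XT.nd (nat_lit 234) (nat_lit 2508) (nat_lit 0) (XT.nd (nat_lit 78) (nat_lit 1824) (nat_lit 0) (XT.lf (nat_lit 0) (nat_lit 2964870200) (nat_lit 1520) (nat_lit 1833117226) (nat_lit 76) (nat_lit 2897239547) (nat_lit 370) (nat_lit 5) (nat_lit 390) (nat_lit 5) (nat_lit 371) (nat_lit 5) (nat_lit 289) (nat_lit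 260) (nat_lit 231)) (XT.nd (nat_lit 78) (nat_lit 988) (nat_lit 0) (XT.lf (nat_lit 0) (nat_lit 5147866547) (nat_lit 836) (nat_lit 1378750828) (nat_lit 912) (nat_lit 1258637129) (nat_lit 359) (nat_lit 5) (nat_lit 370) (nat_lit 5) (nat_lit 371) (nat_lit 5) (nat_lit 290) (nat_lit 260) (nat_lit 230)) (XT.lf (nat_lit 0) (nat_lit 2248926744) (nat_lit 988) (nat_lit 3456507192) (nat_lit 76) (nat_lit 2173075841) (nat_lit 346) (nat_lit 5) (nat_lit 359) (nat_lit 5) (nat_lit 347) (nat_lit 5) (nat_lit 291) (nat_lit 260) (nat_lit 229)))) (XT.nd (nat_lit 78) (nat_lit 1672) (nat_lit 0) (XT.lf (nat_lit 0) (nat_lit 3693234803) (nat_lit 836) (nat_lit 2111287969) (nat_lit 912) (nat_lit 2170742904) (nat_lit 335) (nat_lit 5) (nat_lit 346) (nat_lit 5) (nat_lit 347) (nat_lit 5) (nat_lit 292) (nat_lit 260) (nat_lit 228)) (XT.nd (nat_lit 78) (nat_lit 760) (nat_lit 0) (XT.lf (nat_lit 0) (nat_lit 1337143466) (nat_lit 912)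 (nat_lit 5118625364) (nat_lit 76) (nat_lit 1619768184) (nat_lit 323) (nat_lit 5) (nat_lit 335) (nat_lit 5) (nat_lit 324) (nat_lit 5) (nat_lit 293) (nat_lit 260) (nat_lit 227)) (XT.lf (nat_lit 0) (nat_lit 2200854166) (nat_lit 760) (nat_lit 2689750999) (nat_lit 836) (nat_lit 3288590088) (nat_lit 313) (nat_lit 5) (nat_lit 323) (nat_lit 5) (nat_lit 324) (nat_lit 5) (nat_lit 294) (nat_lit 260) (nat_lit 226))))) (XT.nd (nat_lit 234) (nat_lit 2888) (nat_lit 0) (XT.nd (nat_lit 78) (nat_lit 684) (nat_lit 0) (XT.lf (nat_lit 0) (nat_lit 226938091) (nat_lit 836) (nat_lit 6845338597) (nat_lit 76) (nat_lit 1214397473) (nat_lit 302) (nat_lit 5) (nat_lit 313) (nat_lit 5) (nat_lit 303) (nat_lit 5) (nat_lit 295) (nat_lit 260) (nat_lit 225)) (XT.nd (nat_lit 78) (nat_lit 0) (nat_lit 0) (XT.lf (nat_lit 0) (nat_lit 644568901) (nat_lit 684) (nat_lit 3137171032) (nat_lit 760) (nat_lit 4615690627) (nat_lit 293) (nat_lit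 5) (nat_lit 302) (nat_lit 5) (nat_lit 303) (nat_lit 5) (nat_lit 296) (nat_lit 260) (nat_lit 224)) (XT.lf (nat_lit 0) (nat_lit 7412930368) (nat_lit 760) (nat_lit 156626069) (nat_lit 76) (nat_lit 942614256) (nat_lit 293) (nat_lit 5) (nat_lit 303) (nat_lit 5) (nat_lit 294) (nat_lit 5) (nat_lit 297) (nat_lit 260) (nat_lit 223)))) (XT.nd (nat_lit 156) (nat_lit 1368) (nat_lit 0) (XT.nd (nat_lit 78) (nat_lit 684) (nat_lit 0) (XT.lf (nat_lit 0) (nat_lit 2479711590) (nat_lit 836) (nat_lit 989941961) (nat_lit 76) (nat_lit 5160623264) (nat_lit 282) (nat_lit 5) (nat_lit 293) (nat_lit 5) (nat_lit 283) (nat_lit 5) (nat_lit 298) (nat_lit 260) (nat_lit 222)) (XT.lf (nat_lit 0) (nat_lit 6123040304) (nat_lit 760) (nat_lit 1842504922) (nat_lit 76) (nat_lit 786848412) (nat_lit 273) (nat_lit 5) (nat_lit 283) (nat_lit 5) (nat_lit 274) (nat_lit 5) (nat_lit 299) (nat_lit 260) (nat_lit 221))) (XT.nd (nat_lit 78) (nat_lit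 608) (nat_lit 0) (XT.lf (nat_lit 0) (nat_lit 976579723) (nat_lit 760) (nat_lit 2734857306) (nat_lit 76) (nat_lit 5166813267) (nat_lit 263) (nat_lit 5) (nat_lit 273) (nat_lit 5) (nat_lit 264) (nat_lit 5) (nat_lit 300) (nat_lit 260) (nat_lit 220)) (XT.lf (nat_lit 0) (nat_lit 4630691394) (nat_lit 684) (nat_lit 3663207905) (nat_lit 76) (nat_lit 714169055) (nat_lit 255) (nat_lit 5) (nat_lit 264) (nat_lit 5) (nat_lit 256) (nat_lit 5) (nat_lit 301) (nat_lit 260) (nat_lit 219)))))) (XT.nd (nat_lit 546) (nat_lit 3040) (nat_lit 0) (XT.nd (nat_lit 234) (nat_lit 1824) (nat_lit 0) (XT.nd (nat_lit 78) (nat_lit 1292) (nat_lit 0) (XT.lf (nat_lit 0) (nat_lit 4507865971) (nat_lit 684) (nat_lit 3884395692) (nat_lit 760) (nat_lit 749608963) (nat_lit 246) (nat_lit 5) (nat_lit 255) (nat_lit 5) (nat_lit 256) (nat_lit 5) (nat_lit 302) (nat_lit 260) (nat_lit 218)) (XT.nd (nat_lit 78) (nat_lit 608) (nat_lit 0) (XT.lf (nat_lit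 0) (nat_lit 2927194851) (nat_lit 684) (nat_lit 5650222433) (nat_lit 76) (nat_lit 702338400) (nat_lit 237) (nat_lit 5) (nat_lit 246) (nat_lit 5) (nat_lit 238) (nat_lit 5) (nat_lit 303) (nat_lit 260) (nat_lit 217)) (XT.lf (nat_lit 0) (nat_lit 2698623645) (nat_lit 608) (nat_lit 4008317868) (nat_lit 684) (nat_lit 2714723079) (nat_lit 229) (nat_lit 5) (nat_lit 237) (nat_lit 5) (nat_lit 238) (nat_lit 5) (nat_lit 304) (nat_lit 260) (nat_lit 216)))) (XT.nd (nat_lit 156) (nat_lit 608) (nat_lit 0) (XT.nd (nat_lit 78) (nat_lit 608) (nat_lit 0) (XT.lf (nat_lit 0) (nat_lit 1002003515) (nat_lit 608) (nat_lit 7837321137) (nat_lit 76) (nat_lit 728747029) (nat_lit 221) (nat_lit 5) (nat_lit 229) (nat_lit 5) (nat_lit 222) (nat_lit 5) (nat_lit 305) (nat_lit 260) (nat_lit 215)) (XT.lf (nat_lit 0) (nat_lit 687711285) (nat_lit 608) (nat_lit 4113066585) (nat_lit 684) (nat_lit 4917625264) (nat_lit 213) (nat_lit 5) (nat_lit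 221) (nat_lit 5) (nat_lit 222) (nat_lit 5) (nat_lit 306) (nat_lit 260) (nat_lit 214))) (XT.nd (nat_lit 78) (nat_lit 608) (nat_lit 0) (XT.lf (nat_lit 0) (nat_lit 8703318700) (nat_lit 684) (nat_lit 389786969) (nat_lit 76) (nat_lit 780381247) (nat_lit 213) (nat_lit 5) (nat_lit 222) (nat_lit 5) (nat_lit 214) (nat_lit 5) (nat_lit 307) (nat_lit 260) (nat_lit 213)) (XT.lf (nat_lit 0) (nat_lit 2670696418) (nat_lit 608) (nat_lit 1541630022) (nat_lit 76) (nat_lit 5820258904) (nat_lit 205) (nat_lit 5) (nat_lit 213) (nat_lit 5) (nat_lit 206) (nat_lit 5) (nat_lit 308) (nat_lit 260) (nat_lit 212))))) (XT.nd (nat_lit 234) (nat_lit 1444) (nat_lit 0) (XT.nd (nat_lit 78) (nat_lit 1064) (nat_lit 0) (XT.lf (nat_lit 0) (nat_lit 6601938456) (nat_lit 608) (nat_lit 2750318197) (nat_lit 76) (nat_lit 844259919) (nat_lit 198) (nat_lit 5) (nat_lit 206) (nat_lit 5) (nat_lit 199) (nat_lit 5) (nat_lit 309) (nat_lit 260) (nat_lit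 211)) (XT.nd (nat_lit 78) (nat_lit 532) (nat_lit 0) (XT.lf (nat_lit 0) (nat_lit 297458304) (nat_lit 532) (nat_lit 4037559761) (nat_lit 76) (nat_lit 6030035308) (nat_lit 191) (nat_lit 5) (nat_lit 198) (nat_lit 5) (nat_lit 192) (nat_lit 5) (nat_lit 310) (nat_lit 260) (nat_lit 210)) (XT.lf (nat_lit 0) (nat_lit 4252067055) (nat_lit 608) (nat_lit 5408383948) (nat_lit 76) (nat_lit 877859961) (nat_lit 184) (nat_lit 5) (nat_lit 192) (nat_lit 5) (nat_lit 185) (nat_lit 5) (nat_lit 311) (nat_lit 260) (nat_lit 209)))) (XT.nd (nat_lit 156) (nat_lit 456) (nat_lit 0) (XT.nd (nat_lit 78) (nat_lit 532) (nat_lit 0) (XT.lf (nat_lit 0) (nat_lit 3848628226) (nat_lit 456) (nat_lit 4495868602) (nat_lit 532) (nat_lit 2371917678) (nat_lit 178) (nat_lit 5) (nat_lit 184) (nat_lit 5) (nat_lit 185) (nat_lit 5) (nat_lit 312) (nat_lit 260) (nat_lit 208)) (XT.lf (nat_lit 0) (nat_lit 1635302508) (nat_lit 532) (nat_lit 8409141039)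 (nat_lit 76) (nat_lit 855287751) (nat_lit 171) (nat_lit 5) (nat_lit 178) (nat_lit 5) (nat_lit 172) (nat_lit 5) (nat_lit 313) (nat_lit 260) (nat_lit 207))) (XT.nd (nat_lit 78) (nat_lit 0) (nat_lit 0) (XT.lf (nat_lit 0) (nat_lit 1019870223) (nat_lit 456) (nat_lit 4733982267) (nat_lit 532) (nat_lit 5333944233) (nat_lit 165) (nat_lit 5) (nat_lit 171) (nat_lit 5) (nat_lit 172) (nat_lit 5) (nat_lit 314) (nat_lit 260) (nat_lit 206)) (XT.lf (nat_lit 0) (nat_lit 9998794688) (nat_lit 532) (nat_lit 521750103) (nat_lit 76) (nat_lit 760931209) (nat_lit 165) (nat_lit 5) (nat_lit 172) (nat_lit 5) (nat_lit 166) (nat_lit 5) (nat_lit 315) (nat_lit 260) (nat_lit 205))))))) (XT.nd (nat_lit 1092) (nat_lit 2888) (nat_lit 0) (XT.nd (nat_lit 546) (nat_lit 2128) (nat_lit 0) (XT.nd (nat_lit 234) (nat_lit 1292) (nat_lit 0) (XT.nd (nat_lit 78) (nat_lit 836) (nat_lit 0) (XT.lf (nat_lit 0) (nat_lit 2887016711) (nat_lit 532)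 (nat_lit 2178567030) (nat_lit 76) (nat_lit 6414337812) (nat_lit 158) (nat_lit 5) (nat_lit 165) (nat_lit 5) (nat_lit 159) (nat_lit 5) (nat_lit 316) (nat_lit 260) (nat_lit 204)) (XT.nd (nat_lit 78) (nat_lit 456) (nat_lit 0) (XT.lf (nat_lit 0) (nat_lit 7165427814) (nat_lit 456) (nat_lit 3933076141) (nat_lit 76) (nat_lit 585652408) (nat_lit 153) (nat_lit 5) (nat_lit 159) (nat_lit 5) (nat_lit 154) (nat_lit 5) (nat_lit 317) (nat_lit 260) (nat_lit 203)) (XT.lf (nat_lit 0) (nat_lit 6080153658) (nat_lit 456) (nat_lit 5524429443) (nat_lit 532) (nat_lit 289312940) (nat_lit 147) (nat_lit 5) (nat_lit 153) (nat_lit 5) (nat_lit 154) (nat_lit 5) (nat_lit 318) (nat_lit 260) (nat_lit 202)))) (XT.nd (nat_lit 156) (nat_lit 456) (nat_lit 0) (XT.nd (nat_lit 78) (nat_lit 380) (nat_lit 0) (XT.lf (nat_lit 0) (nat_lit 4015014746) (nat_lit 456) (nat_lit 7822625815) (nat_lit 76) (nat_lit 271756286) (nat_lit 141) (nat_lit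 5) (nat_lit 147) (nat_lit 5) (nat_lit 142) (nat_lit 5) (nat_lit 319) (nat_lit 260) (nat_lit 201)) (XT.lf (nat_lit 0) (nat_lit 2352059936) (nat_lit 380) (nat_lit 6130226769) (nat_lit 456) (nat_lit 3848306539) (nat_lit 136) (nat_lit 5) (nat_lit 141) (nat_lit 5) (nat_lit 142) (nat_lit 5) (nat_lit 320) (nat_lit 260) (nat_lit 200))) (XT.nd (nat_lit 78) (nat_lit 0) (nat_lit 0) (XT.lf (nat_lit 0) (nat_lit 303513902) (nat_lit 380) (nat_lit 216629403) (nat_lit 456) (nat_lit 12038199020) (nat_lit 130) (nat_lit 5) (nat_lit 135) (nat_lit 5) (nat_lit 136) (nat_lit 5) (nat_lit 321) (nat_lit 260) (nat_lit 199)) (XT.lf (nat_lit 0) (nat_lit 5021311746) (nat_lit 456) (nat_lit 1903326203) (nat_lit 76) (nat_lit 5866720126) (nat_lit 130) (nat_lit 5) (nat_lit 136) (nat_lit 5) (nat_lit 131) (nat_lit 5) (nat_lit 322) (nat_lit 260) (nat_lit 198))))) (XT.nd (nat_lit 234) (nat_lit 988) (nat_lit 0) (XT.nd (nat_lit 78) (nat_lit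 760) (nat_lit 0) (XT.lf (nat_lit 0) (nat_lit 8796876583) (nat_lit 380) (nat_lit 868177885) (nat_lit 456) (nat_lit 3366180324) (nat_lit 125) (nat_lit 5) (nat_lit 130) (nat_lit 5) (nat_lit 131) (nat_lit 5) (nat_lit 323) (nat_lit 260) (nat_lit 197)) (XT.nd (nat_lit 78) (nat_lit 380) (nat_lit 0) (XT.lf (nat_lit 0) (nat_lit 1194843676) (nat_lit 380) (nat_lit 6743856496) (nat_lit 76) (nat_lit 5338668303) (nat_lit 120) (nat_lit 5) (nat_lit 125) (nat_lit 5) (nat_lit 121) (nat_lit 5) (nat_lit 324) (nat_lit 260) (nat_lit 196)) (XT.lf (nat_lit 0) (nat_lit 4102508701) (nat_lit 380) (nat_lit 1756495411) (nat_lit 456) (nat_lit 7671215934) (nat_lit 115) (nat_lit 5) (nat_lit 120) (nat_lit 5) (nat_lit 121) (nat_lit 5) (nat_lit 325) (nat_lit 260) (nat_lit 195)))) (XT.nd (nat_lit 156) (nat_lit 608) (nat_lit 0) (XT.nd (nat_lit 78) (nat_lit 76) (nat_lit 0) (XT.lf (nat_lit 0) (nat_lit 1491685400) (nat_lit 304) (nat_lit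 9208283964) (nat_lit 380) (nat_lit 3089969288) (nat_lit 111) (nat_lit 5) (nat_lit 115) (nat_lit 5) (nat_lit 116) (nat_lit 5) (nat_lit 326) (nat_lit 260) (nat_lit 194)) (XT.lf (nat_lit 0) (nat_lit 1635272847) (nat_lit 380) (nat_lit 1285122500) (nat_lit 76) (nat_lit 11136301767) (nat_lit 110) (nat_lit 5) (nat_lit 115) (nat_lit 5) (nat_lit 111) (nat_lit 5) (nat_lit 327) (nat_lit 260) (nat_lit 193))) (XT.nd (nat_lit 78) (nat_lit 304) (nat_lit 0) (XT.lf (nat_lit 0) (nat_lit 6502860162) (nat_lit 380) (nat_lit 4255768843) (nat_lit 76) (nat_lit 3571587101) (nat_lit 106) (nat_lit 5) (nat_lit 111) (nat_lit 5) (nat_lit 107) (nat_lit 5) (nat_lit 328) (nat_lit 260) (nat_lit 192)) (XT.lf (nat_lit 0) (nat_lit 7183884056) (nat_lit 304) (nat_lit 4361537873) (nat_lit 380) (nat_lit 3065956930) (nat_lit 102) (nat_lit 5) (nat_lit 106) (nat_lit 5) (nat_lit 107) (nat_lit 5) (nat_lit 329) (nat_lit 260) (nat_lit 191))))))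 (XT.nd (nat_lit 546) (nat_lit 1292) (nat_lit 0) (XT.nd (nat_lit 234) (nat_lit 988) (nat_lit 0) (XT.nd (nat_lit 78) (nat_lit 228) (nat_lit 0) (XT.lf (nat_lit 0) (nat_lit 1839114976) (nat_lit 380) (nat_lit 10819966450) (nat_lit 76) (nat_lit 2241173857) (nat_lit 97) (nat_lit 5) (nat_lit 102) (nat_lit 5) (nat_lit 98) (nat_lit 5) (nat_lit 330) (nat_lit 260) (nat_lit 190)) (XT.nd (nat_lit 78) (nat_lit 0) (nat_lit 0) (XT.lf (nat_lit 0) (nat_lit 727286314) (nat_lit 228) (nat_lit 6162473898) (nat_lit 304) (nat_lit 8306846785) (nat_lit 94) (nat_lit 5) (nat_lit 97) (nat_lit 5) (nat_lit 98) (nat_lit 5) (nat_lit 331) (nat_lit 260) (nat_lit 189)) (XT.lf (nat_lit 0) (nat_lit 12125136297) (nat_lit 304) (nat_lit 2805257312) (nat_lit 76) (nat_lit 570806791) (nat_lit 94) (nat_lit 5) (nat_lit 98) (nat_lit 5) (nat_lit 95) (nat_lit 5) (nat_lit 332) (nat_lit 260) (nat_lit 188)))) (XT.nd (nat_lit 156) (nat_lit 380) (nat_lit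 0) (XT.nd (nat_lit 78) (nat_lit 228) (nat_lit 0) (XT.lf (nat_lit 0) (nat_lit 1739013736) (nat_lit 380) (nat_lit 6604752749) (nat_lit 76) (nat_lit 7469784609) (nat_lit 89) (nat_lit 5) (nat_lit 94) (nat_lit 5) (nat_lit 90) (nat_lit 5) (nat_lit 333) (nat_lit 260) (nat_lit 187)) (XT.lf (nat_lit 0) (nat_lit 5468348244) (nat_lit 228) (nat_lit 1506001796) (nat_lit 304) (nat_lit 9160236683) (nat_lit 86) (nat_lit 5) (nat_lit 89) (nat_lit 5) (nat_lit 90) (nat_lit 5) (nat_lit 334) (nat_lit 260) (nat_lit 186))) (XT.nd (nat_lit 78) (nat_lit 76) (nat_lit 0) (XT.lf (nat_lit 0) (nat_lit 1445365925) (nat_lit 304) (nat_lit 10970176329) (nat_lit 380) (nat_lit 4048749036) (nat_lit 82) (nat_lit 5) (nat_lit 86) (nat_lit 5) (nat_lit 87) (nat_lit 5) (nat_lit 335) (nat_lit 260) (nat_lit 185)) (XT.lf (nat_lit 0) (nat_lit 1241871636) (nat_lit 380) (nat_lit 2821074594) (nat_lit 76) (nat_lit 12739961224) (nat_lit 81) (nat_lit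 5) (nat_lit 86) (nat_lit 5) (nat_lit 82) (nat_lit 5) (nat_lit 336) (nat_lit 260) (nat_lit 184))))) (XT.nd (nat_lit 234) (nat_lit 532) (nat_lit 0) (XT.nd (nat_lit 78) (nat_lit 532) (nat_lit 0) (XT.lf (nat_lit 0) (nat_lit 6680370246) (nat_lit 304) (nat_lit 7391609851) (nat_lit 76) (nat_lit 3078296182) (nat_lit 78) (nat_lit 5) (nat_lit 82) (nat_lit 5) (nat_lit 79) (nat_lit 5) (nat_lit 337) (nat_lit 260) (nat_lit 183)) (XT.nd (nat_lit 78) (nat_lit 304) (nat_lit 0) (XT.lf (nat_lit 0) (nat_lit 5223785236) (nat_lit 228) (nat_lit 7099266490) (nat_lit 304) (nat_lit 5184206256) (nat_lit 75) (nat_lit 5) (nat_lit 78) (nat_lit 5) (nat_lit 79) (nat_lit 5) (nat_lit 338) (nat_lit 260) (nat_lit 182)) (XT.lf (nat_lit 0) (nat_lit 271470549) (nat_lit 304) (nat_lit 17491137423) (nat_lit 76) (nat_lit 112022829) (nat_lit 71) (nat_lit 5) (nat_lit 75) (nat_lit 5) (nat_lit 72) (nat_lit 5) (nat_lit 339) (nat_lit 260) (nat_lit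 181)))) (XT.nd (nat_lit 156) (nat_lit 304) (nat_lit 0) (XT.nd (nat_lit 78) (nat_lit 228) (nat_lit 0) (XT.lf (nat_lit 0) (nat_lit 5913780924) (nat_lit 304) (nat_lit 4798678114) (nat_lit 76) (nat_lit 7538023920) (nat_lit 71) (nat_lit 5) (nat_lit 75) (nat_lit 5) (nat_lit 72) (nat_lit 5) (nat_lit 340) (nat_lit 260) (nat_lit 180)) (XT.lf (nat_lit 0) (nat_lit 8322316878) (nat_lit 228) (nat_lit 3419923314) (nat_lit 304) (nat_lit 6895043995) (nat_lit 68) (nat_lit 5) (nat_lit 71) (nat_lit 5) (nat_lit 72) (nat_lit 5) (nat_lit 341) (nat_lit 260) (nat_lit 179))) (XT.nd (nat_lit 78) (nat_lit 76) (nat_lit 0) (XT.lf (nat_lit 0) (nat_lit 2816775273) (nat_lit 228) (nat_lit 14969743355) (nat_lit 304) (nat_lit 1248362290) (nat_lit 65) (nat_lit 5) (nat_lit 68) (nat_lit 5) (nat_lit 69) (nat_lit 5) (nat_lit 342) (nat_lit 260) (nat_lit 178)) (XT.lf (nat_lit 0) (nat_lit 4564853385) (nat_lit 304) (nat_lit 3072812199) (nat_lit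 76) (nat_lit 11805016291) (nat_lit 64) (nat_lit 5) (nat_lit 68) (nat_lit 5) (nat_lit 65) (nat_lit 5) (nat_lit 343) (nat_lit 260) (nat_lit 177))))))))
noncomputable def xc52 : XT := (XT.nd (nat_lit 34788) (nat_lit 0) (nat_lit 21356) (XT.nd (nat_lit 1014) (nat_lit 608) (nat_lit 0) (XT.nd (nat_lit 468) (nat_lit 1064) (nat_lit 0) (XT.nd (nat_lit 234) (nat_lit 380) (nat_lit 0) (XT.nd (nat_lit 78) (nat_lit 228) (nat_lit 0) (XT.lf (nat_lit 0) (nat_lit 10537983201) (nat_lit 228) (nat_lit 30901411) (nat_lit 304) (nat_lit 9293009582) (nat_lit 61) (nat_lit 5) (nat_lit 64) (nat_lit 5) (nat_lit 65) (nat_lit 5) (nat_lit 344) (nat_lit 260) (nat_lit 176)) (XT.nd (nat_lit 78) (nat_lit 76) (nat_lit 0) (XT.lf (nat_lit 0) (nat_lit 4252551309) (nat_lit 152) (nat_lit 12565085690) (nat_lit 228) (nat_lit 3474763547) (nat_lit 59) (nat_lit 5) (nat_lit 61) (nat_lit 5) (nat_lit 62) (nat_lit 5) (nat_lit 345) (nat_lit 260)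 (nat_lit 175)) (XT.lf (nat_lit 0) (nat_lit 2514574731) (nat_lit 228) (nat_lit 2445427525) (nat_lit 76) (nat_lit 15774910674) (nat_lit 58) (nat_lit 5) (nat_lit 61) (nat_lit 5) (nat_lit 59) (nat_lit 5) (nat_lit 346) (nat_lit 260) (nat_lit 174)))) (XT.nd (nat_lit 78) (nat_lit 152) (nat_lit 0) (XT.lf (nat_lit 0) (nat_lit 8698083170) (nat_lit 304) (nat_lit 9578586480) (nat_lit 76) (nat_lit 2912346637) (nat_lit 55) (nat_lit 5) (nat_lit 59) (nat_lit 5) (nat_lit 56) (nat_lit 5) (nat_lit 347) (nat_lit 260) (nat_lit 173)) (XT.nd (nat_lit 78) (nat_lit 0) (nat_lit 0) (XT.lf (nat_lit 0) (nat_lit 4434150951) (nat_lit 152) (nat_lit 10678808259) (nat_lit 228) (nat_lit 6542874960) (nat_lit 53) (nat_lit 5) (nat_lit 55) (nat_lit 5) (nat_lit 56) (nat_lit 5) (nat_lit 348) (nat_lit 260) (nat_lit 172)) (XT.lf (nat_lit 0) (nat_lit 18943538982) (nat_lit 152) (nat_lit 2809471112) (nat_lit 228) (nat_lit 383000346) (nat_lit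 53) (nat_lit 5) (nat_lit 55) (nat_lit 5) (nat_lit 56) (nat_lit 5) (nat_lit 349) (nat_lit 260) (nat_lit 171))))) (XT.nd (nat_lit 234) (nat_lit 608) (nat_lit 0) (XT.nd (nat_lit 78) (nat_lit 152) (nat_lit 0) (XT.lf (nat_lit 0) (nat_lit 5960464292) (nat_lit 304) (nat_lit 11350352962) (nat_lit 76) (nat_lit 5317468973) (nat_lit 49) (nat_lit 5) (nat_lit 53) (nat_lit 5) (nat_lit 50) (nat_lit 5) (nat_lit 350) (nat_lit 260) (nat_lit 170)) (XT.nd (nat_lit 78) (nat_lit 0) (nat_lit 0) (XT.lf (nat_lit 0) (nat_lit 3056560449) (nat_lit 152) (nat_lit 9461882855) (nat_lit 228) (nat_lit 10616255854) (nat_lit 47) (nat_lit 5) (nat_lit 49) (nat_lit 5) (nat_lit 50) (nat_lit 5) (nat_lit 351) (nat_lit 260) (nat_lit 169)) (XT.lf (nat_lit 0) (nat_lit 17998625470) (nat_lit 152) (nat_lit 1320987486) (nat_lit 228) (nat_lit 4335770051) (nat_lit 47) (nat_lit 5) (nat_lit 49) (nat_lit 5) (nat_lit 50) (nat_lit 5) (nat_lit 352) (nat_lit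 260) (nat_lit 168)))) (XT.nd (nat_lit 156) (nat_lit 304) (nat_lit 0) (XT.nd (nat_lit 78) (nat_lit 0) (nat_lit 0) (XT.lf (nat_lit 0) (nat_lit 2181670438) (nat_lit 304) (nat_lit 14983547364) (nat_lit 76) (nat_lit 7024669436) (nat_lit 43) (nat_lit 5) (nat_lit 47) (nat_lit 5) (nat_lit 44) (nat_lit 5) (nat_lit 353) (nat_lit 260) (nat_lit 167)) (XT.lf (nat_lit 0) (nat_lit 8854107365) (nat_lit 304) (nat_lit 235901264) (nat_lit 76) (nat_lit 15649484173) (nat_lit 43) (nat_lit 5) (nat_lit 47) (nat_lit 5) (nat_lit 44) (nat_lit 5) (nat_lit 354) (nat_lit 260) (nat_lit 166))) (XT.nd (nat_lit 78) (nat_lit 152) (nat_lit 0) (XT.lf (nat_lit 0) (nat_lit 15102814416) (nat_lit 152) (nat_lit 693439794) (nat_lit 228) (nat_lit 9507948365) (nat_lit 41) (nat_lit 5) (nat_lit 43) (nat_lit 5) (nat_lit 44) (nat_lit 5) (nat_lit 355) (nat_lit 260) (nat_lit 165)) (XT.lf (nat_lit 0) (nat_lit 4983734982) (nat_lit 152) (nat_lit 18020406950)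 (nat_lit 228) (nat_lit 2880568761) (nat_lit 39) (nat_lit 5) (nat_lit 41) (nat_lit 5) (nat_lit 42) (nat_lit 5) (nat_lit 356) (nat_lit 260) (nat_lit 164)))))) (XT.nd (nat_lit 33228) (nat_lit 0) (nat_lit 46056) (XT.nd (nat_lit 234) (nat_lit 380) (nat_lit 0) (XT.nd (nat_lit 78) (nat_lit 152) (nat_lit 0) (XT.lf (nat_lit 0) (nat_lit 3940284736) (nat_lit 228) (nat_lit 5796560890) (nat_lit 76) (nat_lit 16744354336) (nat_lit 38) (nat_lit 5) (nat_lit 41) (nat_lit 5) (nat_lit 39) (nat_lit 5) (nat_lit 357) (nat_lit 260) (nat_lit 163)) (XT.nd (nat_lit 78) (nat_lit 0) (nat_lit 0) (XT.lf (nat_lit 0) (nat_lit 9823327717) (nat_lit 152) (nat_lit 1140290714) (nat_lit 228) (nat_lit 16130850942) (nat_lit 36) (nat_lit 5) (nat_lit 38) (nat_lit 5) (nat_lit 39) (nat_lit 5) (nat_lit 358) (nat_lit 260) (nat_lit 162)) (XT.lf (nat_lit 0) (nat_lit 18260620287) (nat_lit 228) (nat_lit 1831410129) (nat_lit 76) (nat_lit 7632852993)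 (nat_lit 36) (nat_lit 5) (nat_lit 39) (nat_lit 5) (nat_lit 37) (nat_lit 5) (nat_lit 359) (nat_lit 260) (nat_lit 161)))) (XT.nd (nat_lit 156) (nat_lit 0) (nat_lit 0) (XT.nd (nat_lit 78) (nat_lit 228) (nat_lit 0) (XT.lf (nat_lit 0) (nat_lit 14204679303) (nat_lit 152) (nat_lit 11645824379) (nat_lit 228) (nat_lit 2522232486) (nat_lit 34) (nat_lit 5) (nat_lit 36) (nat_lit 5) (nat_lit 37) (nat_lit 5) (nat_lit 360) (nat_lit 260) (nat_lit 160)) (XT.lf (nat_lit 0) (nat_lit 1653587614) (nat_lit 152) (nat_lit 2911411192) (nat_lit 228) (nat_lit 24474477441) (nat_lit 31) (nat_lit 5) (nat_lit 33) (nat_lit 5) (nat_lit 34) (nat_lit 5) (nat_lit 361) (nat_lit 260) (nat_lit 159))) (XT.nd (nat_lit 32760) (nat_lit 0) (nat_lit 47424) (XT.lf (nat_lit 0) (nat_lit 11941667469) (nat_lit 228) (nat_lit 11682257254) (nat_lit 76) (nat_lit 6099743909) (nat_lit 31) (nat_lit 5) (nat_lit 34) (nat_lit 5) (nat_lit 32) (nat_lit 5)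 (nat_lit 362) (nat_lit 260) (nat_lit 158)) (XT.lf (nat_lit 0) (nat_lit 1191231165) (nat_lit 228) (nat_lit 1016022876) (nat_lit 228) (nat_lit 1016022876) (nat_lit 655) (nat_lit 3) (nat_lit 658) (nat_lit 3) (nat_lit 658) (nat_lit 5) (nat_lit 261) (nat_lit 261) (nat_lit 258))))) (XT.nd (nat_lit 234) (nat_lit 836) (nat_lit 0) (XT.nd (nat_lit 78) (nat_lit 304) (nat_lit 0) (XT.lf (nat_lit 0) (nat_lit 229123684) (nat_lit 228) (nat_lit 3932396654) (nat_lit 304) (nat_lit 2290943099) (nat_lit 652) (nat_lit 5) (nat_lit 655) (nat_lit 3) (nat_lit 656) (nat_lit 5) (nat_lit 262) (nat_lit 261) (nat_lit 257)) (XT.nd (nat_lit 78) (nat_lit 304) (nat_lit 0) (XT.lf (nat_lit 76) (nat_lit 671559060) (nat_lit 0) (nat_lit 3775159447) (nat_lit 304) (nat_lit 2014486320) (nat_lit 653) (nat_lit 5) (nat_lit 652) (nat_lit 5) (nat_lit 656) (nat_lit 5) (nat_lit 263) (nat_lit 261) (nat_lit 256)) (XT.lf (nat_lit 0) (nat_lit 2152323704)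 (nat_lit 304) (nat_lit 1106674597) (nat_lit 380) (nat_lit 3213864016) (nat_lit 648) (nat_lit 5) (nat_lit 652) (nat_lit 5) (nat_lit 653) (nat_lit 5) (nat_lit 264) (nat_lit 261) (nat_lit 255)))) (XT.nd (nat_lit 156) (nat_lit 456) (nat_lit 0) (XT.nd (nat_lit 78) (nat_lit 380) (nat_lit 0) (XT.lf (nat_lit 76) (nat_lit 3664760229) (nat_lit 0) (nat_lit 2616058768) (nat_lit 380) (nat_lit 206695193) (nat_lit 649) (nat_lit 5) (nat_lit 648) (nat_lit 5) (nat_lit 653) (nat_lit 5) (nat_lit 265) (nat_lit 261) (nat_lit 254)) (XT.lf (nat_lit 76) (nat_lit 2004621248) (nat_lit 0) (nat_lit 1836633093) (nat_lit 456) (nat_lit 2663739573) (nat_lit 644) (nat_lit 5) (nat_lit 643) (nat_lit 5) (nat_lit 649) (nat_lit 5) (nat_lit 266) (nat_lit 261) (nat_lit 253))) (XT.nd (nat_lit 78) (nat_lit 0) (nat_lit 76) (XT.lf (nat_lit 76) (nat_lit 398642756) (nat_lit 0) (nat_lit 934410516) (nat_lit 532) (nat_lit 5192545263) (nat_lit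 638) (nat_lit 5) (nat_lit 637) (nat_lit 5) (nat_lit 644) (nat_lit 5) (nat_lit 267) (nat_lit 261) (nat_lit 252)) (XT.lf (nat_lit 0) (nat_lit 5294583969) (nat_lit 456) (nat_lit 1148402067) (nat_lit 76) (nat_lit 106031494) (nat_lit 638) (nat_lit 5) (nat_lit 644) (nat_lit 5) (nat_lit 639) (nat_lit 5) (nat_lit 268) (nat_lit 261) (nat_lit 251))))))) (XT.nd (nat_lit 1014) (nat_lit 15048) (nat_lit 0) (XT.nd (nat_lit 468) (nat_lit 6384) (nat_lit 0) (XT.nd (nat_lit 234) (nat_lit 1596) (nat_lit 0) (XT.nd (nat_lit 78) (nat_lit 1216) (nat_lit 0) (XT.lf (nat_lit 0) (nat_lit 2650488909) (nat_lit 532) (nat_lit 2655923497) (nat_lit 76) (nat_lit 1268815313) (nat_lit 631) (nat_lit 5) (nat_lit 638) (nat_lit 5) (nat_lit 632) (nat_lit 5) (nat_lit 269) (nat_lit 261) (nat_lit 250)) (XT.nd (nat_lit 78) (nat_lit 684) (nat_lit 0) (XT.lf (nat_lit 0) (nat_lit 2488453355) (nat_lit 532) (nat_lit 4048247877) (nat_lit 608) (nat_lit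 67889490) (nat_lit 624) (nat_lit 5) (nat_lit 631) (nat_lit 5) (nat_lit 632) (nat_lit 5) (nat_lit 270) (nat_lit 261) (nat_lit 249)) (XT.lf (nat_lit 0) (nat_lit 1088836353) (nat_lit 608) (nat_lit 2649427559) (nat_lit 684) (nat_lit 2898516020) (nat_lit 615) (nat_lit 5) (nat_lit 623) (nat_lit 5) (nat_lit 624) (nat_lit 5) (nat_lit 271) (nat_lit 261) (nat_lit 248)))) (XT.nd (nat_lit 78) (nat_lit 1520) (nat_lit 0) (XT.lf (nat_lit 0) (nat_lit 864972817) (nat_lit 684) (nat_lit 259668778) (nat_lit 76) (nat_lit 5547493887) (nat_lit 614) (nat_lit 5) (nat_lit 623) (nat_lit 5) (nat_lit 615) (nat_lit 5) (nat_lit 272) (nat_lit 261) (nat_lit 247)) (XT.nd (nat_lit 78) (nat_lit 836) (nat_lit 0) (XT.lf (nat_lit 0) (nat_lit 4605299194) (nat_lit 760) (nat_lit 1565402990) (nat_lit 76) (nat_lit 539537342) (nat_lit 605) (nat_lit 5) (nat_lit 615) (nat_lit 5) (nat_lit 606) (nat_lit 5) (nat_lit 273) (nat_lit 261) (nat_lit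 246)) (XT.lf (nat_lit 0) (nat_lit 1589676511) (nat_lit 836) (nat_lit 2841080154) (nat_lit 76) (nat_lit 2320564177) (nat_lit 594) (nat_lit 5) (nat_lit 605) (nat_lit 5) (nat_lit 595) (nat_lit 5) (nat_lit 274) (nat_lit 261) (nat_lit 245))))) (XT.nd (nat_lit 234) (nat_lit 3572) (nat_lit 0) (XT.nd (nat_lit 78) (nat_lit 1976) (nat_lit 0) (XT.lf (nat_lit 0) (nat_lit 2710608503) (nat_lit 836) (nat_lit 2556372403) (nat_lit 912) (nat_lit 1528493321) (nat_lit 583) (nat_lit 5) (nat_lit 594) (nat_lit 5) (nat_lit 595) (nat_lit 5) (nat_lit 275) (nat_lit 261) (nat_lit 244)) (XT.nd (nat_lit 78) (nat_lit 988) (nat_lit 0) (XT.lf (nat_lit 0) (nat_lit 1543612001) (nat_lit 912) (nat_lit 544627947) (nat_lit 988) (nat_lit 4754473144) (nat_lit 570) (nat_lit 5) (nat_lit 582) (nat_lit 5) (nat_lit 583) (nat_lit 5) (nat_lit 276) (nat_lit 261) (nat_lit 243)) (XT.lf (nat_lit 0) (nat_lit 400319847) (nat_lit 988) (nat_lit 5310425421)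 (nat_lit 1064) (nat_lit 1182178279) (nat_lit 557) (nat_lit 5) (nat_lit 570) (nat_lit 5) (nat_lit 571) (nat_lit 5) (nat_lit 277) (nat_lit 261) (nat_lit 242)))) (XT.nd (nat_lit 156) (nat_lit 2432) (nat_lit 0) (XT.nd (nat_lit 78) (nat_lit 1064) (nat_lit 0) (XT.lf (nat_lit 0) (nat_lit 2383943526) (nat_lit 1064) (nat_lit 711649314) (nat_lit 76) (nat_lit 3850446558) (nat_lit 556) (nat_lit 5) (nat_lit 570) (nat_lit 5) (nat_lit 557) (nat_lit 5) (nat_lit 278) (nat_lit 261) (nat_lit 241)) (XT.lf (nat_lit 0) (nat_lit 5214979161) (nat_lit 1064) (nat_lit 743087554) (nat_lit 1140) (nat_lit 1044292468) (nat_lit 542) (nat_lit 5) (nat_lit 556) (nat_lit 5) (nat_lit 557) (nat_lit 5) (nat_lit 279) (nat_lit 261) (nat_lit 240))) (XT.nd (nat_lit 78) (nat_lit 1216) (nat_lit 0) (XT.lf (nat_lit 0) (nat_lit 2473980629) (nat_lit 1216) (nat_lit 2854204360) (nat_lit 76) (nat_lit 1733376576) (nat_lit 526) (nat_lit 5) (nat_lit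 542) (nat_lit 5) (nat_lit 527) (nat_lit 5) (nat_lit 280) (nat_lit 261) (nat_lit 239)) (XT.lf (nat_lit 0) (nat_lit 3224853186) (nat_lit 1216) (nat_lit 2784995122) (nat_lit 1292) (nat_lit 1114129070) (nat_lit 510) (nat_lit 5) (nat_lit 526) (nat_lit 5) (nat_lit 527) (nat_lit 5) (nat_lit 281) (nat_lit 261) (nat_lit 238)))))) (XT.nd (nat_lit 546) (nat_lit 5852) (nat_lit 0) (XT.nd (nat_lit 234) (nat_lit 4940) (nat_lit 0) (XT.nd (nat_lit 78) (nat_lit 2888) (nat_lit 0) (XT.lf (nat_lit 0) (nat_lit 2261389263) (nat_lit 1292) (nat_lit 93902408) (nat_lit 1368) (nat_lit 4834267881) (nat_lit 492) (nat_lit 5) (nat_lit 509) (nat_lit 5) (nat_lit 510) (nat_lit 5) (nat_lit 282) (nat_lit 261) (nat_lit 237)) (XT.nd (nat_lit 78) (nat_lit 1520) (nat_lit 0) (XT.lf (nat_lit 0) (nat_lit 1305081756) (nat_lit 1368) (nat_lit 4553802153) (nat_lit 1444) (nat_lit 1399265987) (nat_lit 474) (nat_lit 5) (nat_lit 492) (nat_lit 5)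 (nat_lit 493) (nat_lit 5) (nat_lit 283) (nat_lit 261) (nat_lit 236)) (XT.lf (nat_lit 0) (nat_lit 364145837) (nat_lit 1444) (nat_lit 1677645086) (nat_lit 1520) (nat_lit 5288196240) (nat_lit 454) (nat_lit 5) (nat_lit 473) (nat_lit 5) (nat_lit 474) (nat_lit 5) (nat_lit 284) (nat_lit 261) (nat_lit 235)))) (XT.nd (nat_lit 156) (nat_lit 3344) (nat_lit 0) (XT.nd (nat_lit 78) (nat_lit 1596) (nat_lit 0) (XT.lf (nat_lit 0) (nat_lit 5513160102) (nat_lit 1520) (nat_lit 560097953) (nat_lit 76) (nat_lit 1331700173) (nat_lit 454) (nat_lit 5) (nat_lit 474) (nat_lit 5) (nat_lit 455) (nat_lit 5) (nat_lit 285) (nat_lit 261) (nat_lit 234)) (XT.lf (nat_lit 0) (nat_lit 1535329072) (nat_lit 1596) (nat_lit 1476507004) (nat_lit 76) (nat_lit 4471216975) (nat_lit 433) (nat_lit 5) (nat_lit 454) (nat_lit 5) (nat_lit 434) (nat_lit 5) (nat_lit 286) (nat_lit 261) (nat_lit 233))) (XT.nd (nat_lit 78) (nat_lit 1748) (nat_lit 0)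 (XT.lf (nat_lit 0) (nat_lit 4980139829) (nat_lit 1672) (nat_lit 2384741070) (nat_lit 76) (nat_lit 199627285) (nat_lit 412) (nat_lit 5) (nat_lit 434) (nat_lit 5) (nat_lit 413) (nat_lit 5) (nat_lit 287) (nat_lit 261) (nat_lit 232)) (XT.lf (nat_lit 0) (nat_lit 830523767) (nat_lit 1748) (nat_lit 3299277016) (nat_lit 76) (nat_lit 3519323612) (nat_lit 389) (nat_lit 5) (nat_lit 412) (nat_lit 5) (nat_lit 390) (nat_lit 5) (nat_lit 288) (nat_lit 261) (nat_lit 231))))) (XT.nd (nat_lit 234) (nat_lit 2584) (nat_lit 0) (XT.nd (nat_lit 78) (nat_lit 1824) (nat_lit 0) (XT.lf (nat_lit 0) (nat_lit 3522865753) (nat_lit 1444) (nat_lit 734765123) (nat_lit 1520) (nat_lit 3479481972) (nat_lit 370) (nat_lit 5) (nat_lit 389) (nat_lit 5) (nat_lit 390) (nat_lit 5) (nat_lit 289) (nat_lit 261) (nat_lit 230)) (XT.nd (nat_lit 78) (nat_lit 988) (nat_lit 0) (XT.lf (nat_lit 0) (nat_lit 2695197970) (nat_lit 836) (nat_lit 5058042798)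 (nat_lit 912) (nat_lit 75257272) (nat_lit 359) (nat_lit 5) (nat_lit 370) (nat_lit 5) (nat_lit 371) (nat_lit 5) (nat_lit 290) (nat_lit 261) (nat_lit 229)) (XT.lf (nat_lit 0) (nat_lit 1855079158) (nat_lit 912) (nat_lit 1485921567) (nat_lit 988) (nat_lit 4582147867) (nat_lit 346) (nat_lit 5) (nat_lit 358) (nat_lit 5) (nat_lit 359) (nat_lit 5) (nat_lit 291) (nat_lit 261) (nat_lit 228)))) (XT.nd (nat_lit 156) (nat_lit 836) (nat_lit 0) (XT.nd (nat_lit 78) (nat_lit 912) (nat_lit 0) (XT.lf (nat_lit 0) (nat_lit 1011906374) (nat_lit 836) (nat_lit 5813929361) (nat_lit 912) (nat_lit 1195516240) (nat_lit 335) (nat_lit 5) (nat_lit 346) (nat_lit 5) (nat_lit 347) (nat_lit 5) (nat_lit 292) (nat_lit 261) (nat_lit 227)) (XT.lf (nat_lit 0) (nat_lit 152985718) (nat_lit 836) (nat_lit 2074634314) (nat_lit 912) (nat_lit 5895346554) (nat_lit 323) (nat_lit 5) (nat_lit 334) (nat_lit 5) (nat_lit 335) (nat_lit 5) (nat_lit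 293) (nat_lit 261) (nat_lit 226))) (XT.nd (nat_lit 78) (nat_lit 836) (nat_lit 0) (XT.lf (nat_lit 0) (nat_lit 5711257015) (nat_lit 912) (nat_lit 710174492) (nat_lit 76) (nat_lit 1806619629) (nat_lit 323) (nat_lit 5) (nat_lit 335) (nat_lit 5) (nat_lit 324) (nat_lit 5) (nat_lit 294) (nat_lit 261) (nat_lit 225)) (XT.lf (nat_lit 0) (nat_lit 925084266) (nat_lit 836) (nat_lit 1588060320) (nat_lit 76) (nat_lit 5823584169) (nat_lit 312) (nat_lit 5) (nat_lit 323) (nat_lit 5) (nat_lit 313) (nat_lit 5) (nat_lit 295) (nat_lit 261) (nat_lit 224))))))))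
noncomputable def xc53 : XT := (XT.nd (nat_lit 2106) (nat_lit 5928) (nat_lit 0) (XT.nd (nat_lit 1014) (nat_lit 5700) (nat_lit 0) (XT.nd (nat_lit 468) (nat_lit 3800) (nat_lit 0) (XT.nd (nat_lit 234) (nat_lit 2052) (nat_lit 0) (XT.nd (nat_lit 78) (nat_lit 1520) (nat_lit 0) (XT.lf (nat_lit 0) (nat_lit 4408348861) (nat_lit 836) (nat_lit 2492503896) (nat_lit 76) (nat_lit 1548090695) (nat_lit 302) (nat_lit 5) (nat_lit 313) (nat_lit 5) (nat_lit 303) (nat_lit 5) (nat_lit 296) (nat_lit 261) (nat_lit 223)) (XT.nd (nat_lit 78) (nat_lit 836) (nat_lit 0) (XT.lf (nat_lit 0) (nat_lit 5148149531) (nat_lit 684) (nat_lit 2829169543) (nat_lit 760) (nat_lit 587635668) (nat_lit 293) (nat_lit 5) (nat_lit 302) (nat_lit 5) (nat_lit 303) (nat_lit 5) (nat_lit 297) (nat_lit 261) (nat_lit 222)) (XT.lf (nat_lit 0) (nat_lit 2905590179) (nat_lit 836) (nat_lit 4375613980) (nat_lit 76) (nat_lit 1403396060) (nat_lit 282) (nat_lit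 5) (nat_lit 293) (nat_lit 5) (nat_lit 283) (nat_lit 5) (nat_lit 298) (nat_lit 261) (nat_lit 221)))) (XT.nd (nat_lit 78) (nat_lit 1368) (nat_lit 0) (XT.lf (nat_lit 0) (nat_lit 3441076229) (nat_lit 684) (nat_lit 3042190647) (nat_lit 760) (nat_lit 2324787927) (nat_lit 273) (nat_lit 5) (nat_lit 282) (nat_lit 5) (nat_lit 283) (nat_lit 5) (nat_lit 299) (nat_lit 261) (nat_lit 220)) (XT.nd (nat_lit 78) (nat_lit 608) (nat_lit 0) (XT.lf (nat_lit 0) (nat_lit 1196382792) (nat_lit 760) (nat_lit 6388355305) (nat_lit 76) (nat_lit 1350772703) (nat_lit 263) (nat_lit 5) (nat_lit 273) (nat_lit 5) (nat_lit 264) (nat_lit 5) (nat_lit 300) (nat_lit 261) (nat_lit 219)) (XT.lf (nat_lit 0) (nat_lit 1604326434) (nat_lit 608) (nat_lit 3180574635) (nat_lit 684) (nat_lit 4281762503) (nat_lit 255) (nat_lit 5) (nat_lit 263) (nat_lit 5) (nat_lit 264) (nat_lit 5) (nat_lit 301) (nat_lit 261) (nat_lit 218))))) (XT.nd (nat_lit 234)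 (nat_lit 2432) (nat_lit 0) (XT.nd (nat_lit 78) (nat_lit 684) (nat_lit 0) (XT.lf (nat_lit 0) (nat_lit 635893128) (nat_lit 684) (nat_lit 7828962761) (nat_lit 760) (nat_lit 737264445) (nat_lit 246) (nat_lit 5) (nat_lit 255) (nat_lit 5) (nat_lit 256) (nat_lit 5) (nat_lit 302) (nat_lit 261) (nat_lit 217)) (XT.nd (nat_lit 78) (nat_lit 608) (nat_lit 0) (XT.lf (nat_lit 0) (nat_lit 2875852492) (nat_lit 760) (nat_lit 388229953) (nat_lit 76) (nat_lit 6077212954) (nat_lit 245) (nat_lit 5) (nat_lit 255) (nat_lit 5) (nat_lit 246) (nat_lit 5) (nat_lit 303) (nat_lit 261) (nat_lit 216)) (XT.lf (nat_lit 0) (nat_lit 6579715545) (nat_lit 684) (nat_lit 1442557598) (nat_lit 76) (nat_lit 1462469333) (nat_lit 237) (nat_lit 5) (nat_lit 246) (nat_lit 5) (nat_lit 238) (nat_lit 5) (nat_lit 304) (nat_lit 261) (nat_lit 215)))) (XT.nd (nat_lit 156) (nat_lit 1216) (nat_lit 0) (XT.nd (nat_lit 78) (nat_lit 532) (nat_lit 0) (XT.lf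 (nat_lit 0) (nat_lit 754472617) (nat_lit 684) (nat_lit 2551711700) (nat_lit 76) (nat_lit 6326203929) (nat_lit 228) (nat_lit 5) (nat_lit 237) (nat_lit 5) (nat_lit 229) (nat_lit 5) (nat_lit 305) (nat_lit 261) (nat_lit 214)) (XT.lf (nat_lit 0) (nat_lit 4476981138) (nat_lit 608) (nat_lit 3722972076) (nat_lit 76) (nat_lit 1584310743) (nat_lit 221) (nat_lit 5) (nat_lit 229) (nat_lit 5) (nat_lit 222) (nat_lit 5) (nat_lit 306) (nat_lit 261) (nat_lit 213))) (XT.nd (nat_lit 78) (nat_lit 608) (nat_lit 0) (XT.lf (nat_lit 0) (nat_lit 4987246357) (nat_lit 608) (nat_lit 3329916444) (nat_lit 684) (nat_lit 1623450510) (nat_lit 213) (nat_lit 5) (nat_lit 221) (nat_lit 5) (nat_lit 222) (nat_lit 5) (nat_lit 307) (nat_lit 261) (nat_lit 212)) (XT.lf (nat_lit 0) (nat_lit 2139183215) (nat_lit 608) (nat_lit 6250732560) (nat_lit 76) (nat_lit 1711555844) (nat_lit 205) (nat_lit 5) (nat_lit 213) (nat_lit 5) (nat_lit 206) (nat_lit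 5) (nat_lit 308) (nat_lit 261) (nat_lit 211)))))) (XT.nd (nat_lit 546) (nat_lit 2660) (nat_lit 0) (XT.nd (nat_lit 234) (nat_lit 1976) (nat_lit 0) (XT.nd (nat_lit 78) (nat_lit 532) (nat_lit 0) (XT.lf (nat_lit 0) (nat_lit 2638949735) (nat_lit 532) (nat_lit 3363280917) (nat_lit 608) (nat_lit 4264553082) (nat_lit 198) (nat_lit 5) (nat_lit 205) (nat_lit 5) (nat_lit 206) (nat_lit 5) (nat_lit 309) (nat_lit 261) (nat_lit 210)) (XT.nd (nat_lit 78) (nat_lit 76) (nat_lit 0) (XT.lf (nat_lit 0) (nat_lit 1368141513) (nat_lit 456) (nat_lit 8613808016) (nat_lit 532) (nat_lit 455123575) (nat_lit 192) (nat_lit 5) (nat_lit 198) (nat_lit 5) (nat_lit 199) (nat_lit 5) (nat_lit 310) (nat_lit 261) (nat_lit 209)) (XT.lf (nat_lit 0) (nat_lit 3435958284) (nat_lit 532) (nat_lit 316888) (nat_lit 76) (nat_lit 7175520245) (nat_lit 191) (nat_lit 5) (nat_lit 198) (nat_lit 5) (nat_lit 192) (nat_lit 5) (nat_lit 311) (nat_lit 261)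 (nat_lit 208)))) (XT.nd (nat_lit 156) (nat_lit 912) (nat_lit 0) (XT.nd (nat_lit 78) (nat_lit 532) (nat_lit 0) (XT.lf (nat_lit 0) (nat_lit 7451274418) (nat_lit 608) (nat_lit 1423520769) (nat_lit 76) (nat_lit 1916661291) (nat_lit 184) (nat_lit 5) (nat_lit 192) (nat_lit 5) (nat_lit 185) (nat_lit 5) (nat_lit 312) (nat_lit 261) (nat_lit 207)) (XT.lf (nat_lit 0) (nat_lit 619065204) (nat_lit 532) (nat_lit 2936361447) (nat_lit 76) (nat_lit 7420700302) (nat_lit 177) (nat_lit 5) (nat_lit 184) (nat_lit 5) (nat_lit 178) (nat_lit 5) (nat_lit 313) (nat_lit 261) (nat_lit 206))) (XT.nd (nat_lit 78) (nat_lit 456) (nat_lit 0) (XT.lf (nat_lit 0) (nat_lit 4659585959) (nat_lit 532) (nat_lit 4552926485) (nat_lit 76) (nat_lit 1953254608) (nat_lit 171) (nat_lit 5) (nat_lit 178) (nat_lit 5) (nat_lit 172) (nat_lit 5) (nat_lit 314) (nat_lit 261) (nat_lit 205)) (XT.lf (nat_lit 0) (nat_lit 5092299765) (nat_lit 456) (nat_lit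 3748977919) (nat_lit 532) (nat_lit 2519447334) (nat_lit 165) (nat_lit 5) (nat_lit 171) (nat_lit 5) (nat_lit 172) (nat_lit 5) (nat_lit 315) (nat_lit 261) (nat_lit 204))))) (XT.nd (nat_lit 234) (nat_lit 1748) (nat_lit 0) (XT.nd (nat_lit 78) (nat_lit 380) (nat_lit 0) (XT.lf (nat_lit 0) (nat_lit 1576086001) (nat_lit 532) (nat_lit 8088474892) (nat_lit 76) (nat_lit 1896591001) (nat_lit 158) (nat_lit 5) (nat_lit 165) (nat_lit 5) (nat_lit 159) (nat_lit 5) (nat_lit 316) (nat_lit 261) (nat_lit 203)) (XT.nd (nat_lit 78) (nat_lit 0) (nat_lit 0) (XT.lf (nat_lit 0) (nat_lit 1727724925) (nat_lit 380) (nat_lit 4056614422) (nat_lit 456) (nat_lit 5982463152) (nat_lit 153) (nat_lit 5) (nat_lit 158) (nat_lit 5) (nat_lit 159) (nat_lit 5) (nat_lit 317) (nat_lit 261) (nat_lit 202)) (XT.lf (nat_lit 0) (nat_lit 10130983009) (nat_lit 456) (nat_lit 117431383) (nat_lit 76) (nat_lit 1729990292) (nat_lit 153) (nat_lit 5) (nat_lit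 159) (nat_lit 5) (nat_lit 154) (nat_lit 5) (nat_lit 318) (nat_lit 261) (nat_lit 201)))) (XT.nd (nat_lit 156) (nat_lit 836) (nat_lit 0) (XT.nd (nat_lit 78) (nat_lit 380) (nat_lit 0) (XT.lf (nat_lit 0) (nat_lit 2420582612) (nat_lit 532) (nat_lit 2079121324) (nat_lit 76) (nat_lit 7695550727) (nat_lit 146) (nat_lit 5) (nat_lit 153) (nat_lit 5) (nat_lit 147) (nat_lit 5) (nat_lit 319) (nat_lit 261) (nat_lit 200)) (XT.lf (nat_lit 0) (nat_lit 6803701695) (nat_lit 456) (nat_lit 4166896231) (nat_lit 76) (nat_lit 1447547534) (nat_lit 141) (nat_lit 5) (nat_lit 147) (nat_lit 5) (nat_lit 142) (nat_lit 5) (nat_lit 320) (nat_lit 261) (nat_lit 199))) (XT.nd (nat_lit 78) (nat_lit 456) (nat_lit 0) (XT.lf (nat_lit 0) (nat_lit 6249912840) (nat_lit 380) (nat_lit 5102212659) (nat_lit 456) (nat_lit 1294943612) (nat_lit 136) (nat_lit 5) (nat_lit 141) (nat_lit 5) (nat_lit 142) (nat_lit 5) (nat_lit 321) (nat_lit 261) (nat_lit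 198)) (XT.lf (nat_lit 0) (nat_lit 3123987242) (nat_lit 456) (nat_lit 8775497281) (nat_lit 76) (nat_lit 982763392) (nat_lit 130) (nat_lit 5) (nat_lit 136) (nat_lit 5) (nat_lit 131) (nat_lit 5) (nat_lit 322) (nat_lit 261) (nat_lit 197))))))) (XT.nd (nat_lit 1092) (nat_lit 2280) (nat_lit 0) (XT.nd (nat_lit 546) (nat_lit 1824) (nat_lit 0) (XT.nd (nat_lit 234) (nat_lit 1064) (nat_lit 0) (XT.nd (nat_lit 78) (nat_lit 380) (nat_lit 0) (XT.lf (nat_lit 0) (nat_lit 1796659166) (nat_lit 380) (nat_lit 5901217555) (nat_lit 456) (nat_lit 5425655152) (nat_lit 125) (nat_lit 5) (nat_lit 130) (nat_lit 5) (nat_lit 131) (nat_lit 5) (nat_lit 323) (nat_lit 261) (nat_lit 196)) (XT.nd (nat_lit 78) (nat_lit 380) (nat_lit 0) (XT.lf (nat_lit 0) (nat_lit 12421920679) (nat_lit 456) (nat_lit 640161548) (nat_lit 76) (nat_lit 309733422) (nat_lit 125) (nat_lit 5) (nat_lit 131) (nat_lit 5) (nat_lit 126) (nat_lit 5) (nat_lit 324)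 (nat_lit 261) (nat_lit 195)) (XT.lf (nat_lit 0) (nat_lit 3672151205) (nat_lit 380) (nat_lit 3257614355) (nat_lit 76) (nat_lit 6696125855) (nat_lit 120) (nat_lit 5) (nat_lit 125) (nat_lit 5) (nat_lit 121) (nat_lit 5) (nat_lit 325) (nat_lit 261) (nat_lit 194)))) (XT.nd (nat_lit 156) (nat_lit 380) (nat_lit 0) (XT.nd (nat_lit 78) (nat_lit 304) (nat_lit 0) (XT.lf (nat_lit 0) (nat_lit 7854299329) (nat_lit 380) (nat_lit 574386602) (nat_lit 456) (nat_lit 5458621831) (nat_lit 115) (nat_lit 5) (nat_lit 120) (nat_lit 5) (nat_lit 121) (nat_lit 5) (nat_lit 326) (nat_lit 261) (nat_lit 193)) (XT.lf (nat_lit 0) (nat_lit 5146419495) (nat_lit 304) (nat_lit 8229957125) (nat_lit 380) (nat_lit 779238775) (nat_lit 111) (nat_lit 5) (nat_lit 115) (nat_lit 5) (nat_lit 116) (nat_lit 5) (nat_lit 327) (nat_lit 261) (nat_lit 192))) (XT.nd (nat_lit 78) (nat_lit 0) (nat_lit 0) (XT.lf (nat_lit 0) (nat_lit 2242039538) (nat_lit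 304) (nat_lit 1759671777) (nat_lit 380) (nat_lit 10429469838) (nat_lit 106) (nat_lit 5) (nat_lit 110) (nat_lit 5) (nat_lit 111) (nat_lit 5) (nat_lit 328) (nat_lit 261) (nat_lit 191)) (XT.lf (nat_lit 0) (nat_lit 8964209435) (nat_lit 380) (nat_lit 866417615) (nat_lit 76) (nat_lit 4883326320) (nat_lit 106) (nat_lit 5) (nat_lit 111) (nat_lit 5) (nat_lit 107) (nat_lit 5) (nat_lit 329) (nat_lit 261) (nat_lit 190))))) (XT.nd (nat_lit 234) (nat_lit 912) (nat_lit 0) (XT.nd (nat_lit 78) (nat_lit 608) (nat_lit 0) (XT.lf (nat_lit 0) (nat_lit 10859365330) (nat_lit 304) (nat_lit 3255139437) (nat_lit 380) (nat_lit 889941685) (nat_lit 102) (nat_lit 5) (nat_lit 106) (nat_lit 5) (nat_lit 107) (nat_lit 5) (nat_lit 330) (nat_lit 261) (nat_lit 189)) (XT.nd (nat_lit 78) (nat_lit 228) (nat_lit 0) (XT.lf (nat_lit 0) (nat_lit 4097681937) (nat_lit 380) (nat_lit 7674036089) (nat_lit 76) (nat_lit 3530697139) (nat_lit 97)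 (nat_lit 5) (nat_lit 102) (nat_lit 5) (nat_lit 98) (nat_lit 5) (nat_lit 331) (nat_lit 261) (nat_lit 188)) (XT.lf (nat_lit 0) (nat_lit 4163329042) (nat_lit 228) (nat_lit 5094508387) (nat_lit 304) (nat_lit 6350682900) (nat_lit 94) (nat_lit 5) (nat_lit 97) (nat_lit 5) (nat_lit 98) (nat_lit 5) (nat_lit 332) (nat_lit 261) (nat_lit 187)))) (XT.nd (nat_lit 156) (nat_lit 532) (nat_lit 0) (XT.nd (nat_lit 78) (nat_lit 76) (nat_lit 0) (XT.lf (nat_lit 0) (nat_lit 466287549) (nat_lit 304) (nat_lit 14131959096) (nat_lit 380) (nat_lit 1325067506) (nat_lit 90) (nat_lit 5) (nat_lit 94) (nat_lit 5) (nat_lit 95) (nat_lit 5) (nat_lit 333) (nat_lit 261) (nat_lit 186)) (XT.lf (nat_lit 0) (nat_lit 3871947449) (nat_lit 380) (nat_lit 3479299289) (nat_lit 76) (nat_lit 8894395893) (nat_lit 89) (nat_lit 5) (nat_lit 94) (nat_lit 5) (nat_lit 90) (nat_lit 5) (nat_lit 334) (nat_lit 261) (nat_lit 185))) (XT.nd (nat_lit 78) (nat_lit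 304) (nat_lit 0) (XT.lf (nat_lit 0) (nat_lit 8902073336) (nat_lit 228) (nat_lit 322894646) (nat_lit 304) (nat_lit 7352149244) (nat_lit 86) (nat_lit 5) (nat_lit 89) (nat_lit 5) (nat_lit 90) (nat_lit 5) (nat_lit 335) (nat_lit 261) (nat_lit 184)) (XT.lf (nat_lit 0) (nat_lit 4738343183) (nat_lit 304) (nat_lit 10060436135) (nat_lit 380) (nat_lit 2118565732) (nat_lit 82) (nat_lit 5) (nat_lit 86) (nat_lit 5) (nat_lit 87) (nat_lit 5) (nat_lit 336) (nat_lit 261) (nat_lit 183)))))) (XT.nd (nat_lit 546) (nat_lit 912) (nat_lit 0) (XT.nd (nat_lit 234) (nat_lit 836) (nat_lit 0) (XT.nd (nat_lit 78) (nat_lit 228) (nat_lit 0) (XT.lf (nat_lit 0) (nat_lit 279680267) (nat_lit 228) (nat_lit 2967028506) (nat_lit 304) (nat_lit 14020306489) (nat_lit 78) (nat_lit 5) (nat_lit 81) (nat_lit 5) (nat_lit 82) (nat_lit 5) (nat_lit 337) (nat_lit 261) (nat_lit 182)) (XT.nd (nat_lit 78) (nat_lit 228) (nat_lit 0) (XT.lf (nat_lit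 0) (nat_lit 8817413280) (nat_lit 304) (nat_lit 4451871976) (nat_lit 76) (nat_lit 4356157162) (nat_lit 78) (nat_lit 5) (nat_lit 82) (nat_lit 5) (nat_lit 79) (nat_lit 5) (nat_lit 338) (nat_lit 261) (nat_lit 181)) (XT.lf (nat_lit 0) (nat_lit 8490693606) (nat_lit 228) (nat_lit 6102468291) (nat_lit 304) (nat_lit 3400713694) (nat_lit 75) (nat_lit 5) (nat_lit 78) (nat_lit 5) (nat_lit 79) (nat_lit 5) (nat_lit 339) (nat_lit 261) (nat_lit 180)))) (XT.nd (nat_lit 156) (nat_lit 532) (nat_lit 0) (XT.nd (nat_lit 78) (nat_lit 0) (nat_lit 0) (XT.lf (nat_lit 0) (nat_lit 2165338730) (nat_lit 304) (nat_lit 14900265759) (nat_lit 76) (nat_lit 1306987498) (nat_lit 71) (nat_lit 5) (nat_lit 75) (nat_lit 5) (nat_lit 72) (nat_lit 5) (nat_lit 340) (nat_lit 261) (nat_lit 179)) (XT.lf (nat_lit 0) (nat_lit 7921994414) (nat_lit 304) (nat_lit 1917778471) (nat_lit 76) (nat_lit 8921061710) (nat_lit 71) (nat_lit 5) (nat_lit 75)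 (nat_lit 5) (nat_lit 72) (nat_lit 5) (nat_lit 341) (nat_lit 261) (nat_lit 178))) (XT.nd (nat_lit 78) (nat_lit 304) (nat_lit 0) (XT.lf (nat_lit 0) (nat_lit 11547771612) (nat_lit 228) (nat_lit 2343532346) (nat_lit 304) (nat_lit 5268631900) (nat_lit 68) (nat_lit 5) (nat_lit 71) (nat_lit 5) (nat_lit 72) (nat_lit 5) (nat_lit 342) (nat_lit 261) (nat_lit 177)) (XT.lf (nat_lit 0) (nat_lit 514374104) (nat_lit 304) (nat_lit 13716244395) (nat_lit 76) (nat_lit 5339303989) (nat_lit 64) (nat_lit 5) (nat_lit 68) (nat_lit 5) (nat_lit 65) (nat_lit 5) (nat_lit 343) (nat_lit 261) (nat_lit 176))))) (XT.nd (nat_lit 234) (nat_lit 532) (nat_lit 0) (XT.nd (nat_lit 78) (nat_lit 380) (nat_lit 0) (XT.lf (nat_lit 0) (nat_lit 6433181116) (nat_lit 304) (nat_lit 271738246) (nat_lit 76) (nat_lit 13285924693) (nat_lit 64) (nat_lit 5) (nat_lit 68) (nat_lit 5) (nat_lit 65) (nat_lit 5) (nat_lit 344) (nat_lit 261) (nat_lit 175)) (XT.nd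 (nat_lit 78) (nat_lit 152) (nat_lit 0) (XT.lf (nat_lit 0) (nat_lit 12592624550) (nat_lit 304) (nat_lit 6730084352) (nat_lit 76) (nat_lit 1100432307) (nat_lit 61) (nat_lit 5) (nat_lit 65) (nat_lit 5) (nat_lit 62) (nat_lit 5) (nat_lit 345) (nat_lit 261) (nat_lit 174)) (XT.lf (nat_lit 0) (nat_lit 7206848685) (nat_lit 152) (nat_lit 11790835469) (nat_lit 228) (nat_lit 1869515579) (nat_lit 59) (nat_lit 5) (nat_lit 61) (nat_lit 5) (nat_lit 62) (nat_lit 5) (nat_lit 346) (nat_lit 261) (nat_lit 173)))) (XT.nd (nat_lit 156) (nat_lit 228) (nat_lit 0) (XT.nd (nat_lit 78) (nat_lit 0) (nat_lit 0) (XT.lf (nat_lit 0) (nat_lit 251099482) (nat_lit 228) (nat_lit 3978475410) (nat_lit 304) (nat_lit 17094153972) (nat_lit 55) (nat_lit 5) (nat_lit 58) (nat_lit 5) (nat_lit 59) (nat_lit 5) (nat_lit 347) (nat_lit 261) (nat_lit 172)) (XT.lf (nat_lit 0) (nat_lit 10574154289) (nat_lit 304) (nat_lit 7118878510) (nat_lit 76) (nat_lit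 4098924030) (nat_lit 55) (nat_lit 5) (nat_lit 59) (nat_lit 5) (nat_lit 56) (nat_lit 5) (nat_lit 348) (nat_lit 261) (nat_lit 171))) (XT.nd (nat_lit 78) (nat_lit 76) (nat_lit 0) (XT.lf (nat_lit 0) (nat_lit 7269673170) (nat_lit 152) (nat_lit 9882307268) (nat_lit 228) (nat_lit 5121401183) (nat_lit 53) (nat_lit 5) (nat_lit 55) (nat_lit 5) (nat_lit 56) (nat_lit 5) (nat_lit 349) (nat_lit 261) (nat_lit 170)) (XT.lf (nat_lit 0) (nat_lit 1160725019) (nat_lit 228) (nat_lit 640905965) (nat_lit 76) (nat_lit 20967115221) (nat_lit 52) (nat_lit 5) (nat_lit 55) (nat_lit 5) (nat_lit 53) (nat_lit 5) (nat_lit 350) (nat_lit 261) (nat_lit 169))))))))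
noncomputable def xc54 : XT := (XT.nd (nat_lit 34866) (nat_lit 0) (nat_lit 15656) (XT.nd (nat_lit 33774) (nat_lit 0) (nat_lit 40964) (XT.nd (nat_lit 468) (nat_lit 760) (nat_lit 0) (XT.nd (nat_lit 234) (nat_lit 456) (nat_lit 0) (XT.nd (nat_lit 78) (nat_lit 152) (nat_lit 0) (XT.lf (nat_lit 0) (nat_lit 7668078619) (nat_lit 304) (nat_lit 9065187009) (nat_lit 76) (nat_lit 6542909739) (nat_lit 49) (nat_lit 5) (nat_lit 53) (nat_lit 5) (nat_lit 50) (nat_lit 5) (nat_lit 351) (nat_lit 261) (nat_lit 168)) (XT.nd (nat_lit 78) (nat_lit 0) (nat_lit 0) (XT.lf (nat_lit 0) (nat_lit 5731335322) (nat_lit 152) (nat_lit 8663704568) (nat_lit 228) (nat_lit 9403307105) (nat_lit 47) (nat_lit 5) (nat_lit 49) (nat_lit 5) (nat_lit 50) (nat_lit 5) (nat_lit 352) (nat_lit 261) (nat_lit 167)) (XT.lf (nat_lit 0) (nat_lit 21046427011) (nat_lit 152) (nat_lit 310097914) (nat_lit 228) (nat_lit 2979011672) (nat_lit 47) (nat_lit 5)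 (nat_lit 49) (nat_lit 5) (nat_lit 50) (nat_lit 5) (nat_lit 353) (nat_lit 261) (nat_lit 166)))) (XT.nd (nat_lit 78) (nat_lit 152) (nat_lit 0) (XT.lf (nat_lit 0) (nat_lit 3694650388) (nat_lit 304) (nat_lit 12923997688) (nat_lit 76) (nat_lit 8267641161) (nat_lit 43) (nat_lit 5) (nat_lit 47) (nat_lit 5) (nat_lit 44) (nat_lit 5) (nat_lit 354) (nat_lit 261) (nat_lit 165)) (XT.nd (nat_lit 78) (nat_lit 0) (nat_lit 0) (XT.lf (nat_lit 0) (nat_lit 2222142286) (nat_lit 152) (nat_lit 8317384695) (nat_lit 228) (nat_lit 14913420676) (nat_lit 41) (nat_lit 5) (nat_lit 43) (nat_lit 5) (nat_lit 44) (nat_lit 5) (nat_lit 355) (nat_lit 261) (nat_lit 164)) (XT.lf (nat_lit 0) (nat_lit 17652099120) (nat_lit 228) (nat_lit 8085011866) (nat_lit 76) (nat_lit 298254248) (nat_lit 41) (nat_lit 5) (nat_lit 44) (nat_lit 5) (nat_lit 42) (nat_lit 5) (nat_lit 356) (nat_lit 261) (nat_lit 163))))) (XT.nd (nat_lit 234) (nat_lit 380)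 (nat_lit 0) (XT.nd (nat_lit 78) (nat_lit 228) (nat_lit 0) (XT.lf (nat_lit 0) (nat_lit 7511802013) (nat_lit 152) (nat_lit 17544115705) (nat_lit 228) (nat_lit 1577786437) (nat_lit 39) (nat_lit 5) (nat_lit 41) (nat_lit 5) (nat_lit 42) (nat_lit 5) (nat_lit 357) (nat_lit 261) (nat_lit 162)) (XT.nd (nat_lit 78) (nat_lit 152) (nat_lit 0) (XT.lf (nat_lit 0) (nat_lit 5389541615) (nat_lit 228) (nat_lit 3643192438) (nat_lit 76) (nat_lit 18215981275) (nat_lit 38) (nat_lit 5) (nat_lit 41) (nat_lit 5) (nat_lit 39) (nat_lit 5) (nat_lit 358) (nat_lit 261) (nat_lit 161)) (XT.lf (nat_lit 0) (nat_lit 12407535712) (nat_lit 152) (nat_lit 192136216) (nat_lit 228) (nat_lit 15281197691) (nat_lit 36) (nat_lit 5) (nat_lit 38) (nat_lit 5) (nat_lit 39) (nat_lit 5) (nat_lit 359) (nat_lit 261) (nat_lit 160)))) (XT.nd (nat_lit 156) (nat_lit 228) (nat_lit 0) (XT.nd (nat_lit 78) (nat_lit 0) (nat_lit 0) (XT.lf (nat_lit 0) (nat_lit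 360672851) (nat_lit 152) (nat_lit 19725372915) (nat_lit 228) (nat_lit 8444749545) (nat_lit 34) (nat_lit 5) (nat_lit 36) (nat_lit 5) (nat_lit 37) (nat_lit 5) (nat_lit 360) (nat_lit 261) (nat_lit 159)) (XT.lf (nat_lit 0) (nat_lit 16836736105) (nat_lit 152) (nat_lit 11041726458) (nat_lit 228) (nat_lit 1320132578) (nat_lit 34) (nat_lit 5) (nat_lit 36) (nat_lit 5) (nat_lit 37) (nat_lit 5) (nat_lit 361) (nat_lit 261) (nat_lit 158))) (XT.nd (nat_lit 32838) (nat_lit 0) (nat_lit 47196) (XT.lf (nat_lit 0) (nat_lit 3890074050) (nat_lit 152) (nat_lit 2050353717) (nat_lit 228) (nat_lit 23945202159) (nat_lit 31) (nat_lit 5) (nat_lit 33) (nat_lit 5) (nat_lit 34) (nat_lit 5) (nat_lit 362) (nat_lit 261) (nat_lit 157)) (XT.lf (nat_lit 0) (nat_lit 1095639732) (nat_lit 0) (nat_lit 1095639732) (nat_lit 228) (nat_lit 1038559141) (nat_lit 652) (nat_lit 5) (nat_lit 652) (nat_lit 3) (nat_lit 655) (nat_lit 3) (nat_lit 262)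 (nat_lit 262) (nat_lit 256)))))) (XT.nd (nat_lit 546) (nat_lit 4560) (nat_lit 0) (XT.nd (nat_lit 234) (nat_lit 912) (nat_lit 0) (XT.nd (nat_lit 78) (nat_lit 380) (nat_lit 0) (XT.lf (nat_lit 76) (nat_lit 277751669) (nat_lit 0) (nat_lit 1739736914) (nat_lit 380) (nat_lit 4452476380) (nat_lit 648) (nat_lit 5) (nat_lit 647) (nat_lit 3) (nat_lit 652) (nat_lit 5) (nat_lit 263) (nat_lit 262) (nat_lit 255)) (XT.nd (nat_lit 78) (nat_lit 380) (nat_lit 0) (XT.lf (nat_lit 76) (nat_lit 4921923642) (nat_lit 0) (nat_lit 1153379056) (nat_lit 380) (nat_lit 407804245) (nat_lit 648) (nat_lit 5) (nat_lit 647) (nat_lit 3) (nat_lit 652) (nat_lit 5) (nat_lit 264) (nat_lit 262) (nat_lit 254)) (XT.lf (nat_lit 76) (nat_lit 3143025580) (nat_lit 0) (nat_lit 429351656) (nat_lit 456) (nat_lit 2926691483) (nat_lit 643) (nat_lit 5) (nat_lit 642) (nat_lit 5) (nat_lit 648) (nat_lit 5) (nat_lit 265) (nat_lit 262) (nat_lit 253))))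 (XT.nd (nat_lit 156) (nat_lit 532) (nat_lit 0) (XT.nd (nat_lit 78) (nat_lit 0) (nat_lit 0) (XT.lf (nat_lit 0) (nat_lit 1004371479) (nat_lit 456) (nat_lit 5101535323) (nat_lit 532) (nat_lit 412203133) (nat_lit 637) (nat_lit 5) (nat_lit 643) (nat_lit 5) (nat_lit 644) (nat_lit 5) (nat_lit 266) (nat_lit 262) (nat_lit 252)) (XT.lf (nat_lit 0) (nat_lit 4889899334) (nat_lit 456) (nat_lit 267266594) (nat_lit 532) (nat_lit 1382812505) (nat_lit 637) (nat_lit 5) (nat_lit 643) (nat_lit 5) (nat_lit 644) (nat_lit 5) (nat_lit 267) (nat_lit 262) (nat_lit 251))) (XT.nd (nat_lit 78) (nat_lit 0) (nat_lit 0) (XT.lf (nat_lit 0) (nat_lit 2183133649) (nat_lit 532) (nat_lit 1889000115) (nat_lit 608) (nat_lit 2492543551) (nat_lit 630) (nat_lit 5) (nat_lit 637) (nat_lit 5) (nat_lit 638) (nat_lit 5) (nat_lit 268) (nat_lit 262) (nat_lit 250)) (XT.lf (nat_lit 76) (nat_lit 3126524654) (nat_lit 0) (nat_lit 2861922003) (nat_lit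 608) (nat_lit 604017971) (nat_lit 631) (nat_lit 5) (nat_lit 630) (nat_lit 5) (nat_lit 638) (nat_lit 5) (nat_lit 269) (nat_lit 262) (nat_lit 249))))) (XT.nd (nat_lit 234) (nat_lit 3268) (nat_lit 0) (XT.nd (nat_lit 78) (nat_lit 684) (nat_lit 0) (XT.lf (nat_lit 76) (nat_lit 1612698155) (nat_lit 0) (nat_lit 1514205868) (nat_lit 684) (nat_lit 3496239702) (nat_lit 623) (nat_lit 5) (nat_lit 622) (nat_lit 5) (nat_lit 631) (nat_lit 5) (nat_lit 270) (nat_lit 262) (nat_lit 248)) (XT.nd (nat_lit 78) (nat_lit 0) (nat_lit 76) (XT.lf (nat_lit 76) (nat_lit 147468240) (nat_lit 0) (nat_lit 42328156) (nat_lit 760) (nat_lit 6467229731) (nat_lit 614) (nat_lit 5) (nat_lit 613) (nat_lit 5) (nat_lit 623) (nat_lit 5) (nat_lit 271) (nat_lit 262) (nat_lit 247)) (XT.lf (nat_lit 0) (nat_lit 3849040722) (nat_lit 684) (nat_lit 1282653180) (nat_lit 76) (nat_lit 1561703607) (nat_lit 614) (nat_lit 5) (nat_lit 623) (nat_lit 5) (nat_lit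 615) (nat_lit 5) (nat_lit 272) (nat_lit 262) (nat_lit 246)))) (XT.nd (nat_lit 156) (nat_lit 1824) (nat_lit 0) (XT.nd (nat_lit 78) (nat_lit 760) (nat_lit 0) (XT.lf (nat_lit 0) (nat_lit 771468344) (nat_lit 760) (nat_lit 2668387636) (nat_lit 76) (nat_lit 3293101458) (nat_lit 604) (nat_lit 5) (nat_lit 614) (nat_lit 5) (nat_lit 605) (nat_lit 5) (nat_lit 273) (nat_lit 262) (nat_lit 245)) (XT.lf (nat_lit 0) (nat_lit 2748343309) (nat_lit 760) (nat_lit 1607885534) (nat_lit 836) (nat_lit 2419244053) (nat_lit 594) (nat_lit 5) (nat_lit 604) (nat_lit 5) (nat_lit 605) (nat_lit 5) (nat_lit 274) (nat_lit 262) (nat_lit 244))) (XT.nd (nat_lit 78) (nat_lit 912) (nat_lit 0) (XT.lf (nat_lit 0) (nat_lit 1117730912) (nat_lit 912) (nat_lit 5352367005) (nat_lit 76) (nat_lit 351035317) (nat_lit 582) (nat_lit 5) (nat_lit 594) (nat_lit 5) (nat_lit 583) (nat_lit 5) (nat_lit 275) (nat_lit 262) (nat_lit 243)) (XT.lf (nat_lit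 0) (nat_lit 205932720) (nat_lit 912) (nat_lit 4439643250) (nat_lit 988) (nat_lit 2224032228) (nat_lit 570) (nat_lit 5) (nat_lit 582) (nat_lit 5) (nat_lit 583) (nat_lit 5) (nat_lit 276) (nat_lit 262) (nat_lit 242))))))) (XT.nd (nat_lit 1092) (nat_lit 9196) (nat_lit 0) (XT.nd (nat_lit 546) (nat_lit 10108) (nat_lit 0) (XT.nd (nat_lit 234) (nat_lit 3800) (nat_lit 0) (XT.nd (nat_lit 78) (nat_lit 2128) (nat_lit 0) (XT.lf (nat_lit 0) (nat_lit 1258379437) (nat_lit 988) (nat_lit 1010636333) (nat_lit 76) (nat_lit 4652126777) (nat_lit 569) (nat_lit 5) (nat_lit 582) (nat_lit 5) (nat_lit 570) (nat_lit 5) (nat_lit 277) (nat_lit 262) (nat_lit 241)) (XT.nd (nat_lit 78) (nat_lit 1140) (nat_lit 0) (XT.lf (nat_lit 0) (nat_lit 4729999556) (nat_lit 1064) (nat_lit 2200757837) (nat_lit 76) (nat_lit 44980800) (nat_lit 556) (nat_lit 5) (nat_lit 570) (nat_lit 5) (nat_lit 557) (nat_lit 5) (nat_lit 278) (nat_lit 262) (nat_lit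 240)) (XT.lf (nat_lit 0) (nat_lit 1188923538) (nat_lit 1140) (nat_lit 3377934669) (nat_lit 76) (nat_lit 2466414538) (nat_lit 541) (nat_lit 5) (nat_lit 556) (nat_lit 5) (nat_lit 542) (nat_lit 5) (nat_lit 279) (nat_lit 262) (nat_lit 239)))) (XT.nd (nat_lit 156) (nat_lit 1368) (nat_lit 0) (XT.nd (nat_lit 78) (nat_lit 1292) (nat_lit 0) (XT.lf (nat_lit 0) (nat_lit 2557565570) (nat_lit 1140) (nat_lit 2058796336) (nat_lit 1216) (nat_lit 2477569699) (nat_lit 526) (nat_lit 5) (nat_lit 541) (nat_lit 5) (nat_lit 542) (nat_lit 5) (nat_lit 280) (nat_lit 262) (nat_lit 238)) (XT.lf (nat_lit 0) (nat_lit 904088850) (nat_lit 1292) (nat_lit 5673405018) (nat_lit 76) (nat_lit 580345811) (nat_lit 509) (nat_lit 5) (nat_lit 526) (nat_lit 5) (nat_lit 510) (nat_lit 5) (nat_lit 281) (nat_lit 262) (nat_lit 237))) (XT.nd (nat_lit 78) (nat_lit 76) (nat_lit 0) (XT.lf (nat_lit 0) (nat_lit 412768455) (nat_lit 1292) (nat_lit 3881481100)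 (nat_lit 1368) (nat_lit 2930366154) (nat_lit 492) (nat_lit 5) (nat_lit 509) (nat_lit 5) (nat_lit 510) (nat_lit 5) (nat_lit 282) (nat_lit 262) (nat_lit 236)) (XT.lf (nat_lit 0) (nat_lit 419864376) (nat_lit 1368) (nat_lit 623975750) (nat_lit 76) (nat_lit 6250906832) (nat_lit 491) (nat_lit 5) (nat_lit 509) (nat_lit 5) (nat_lit 492) (nat_lit 5) (nat_lit 283) (nat_lit 262) (nat_lit 235))))) (XT.nd (nat_lit 234) (nat_lit 5700) (nat_lit 0) (XT.nd (nat_lit 78) (nat_lit 3040) (nat_lit 0) (XT.lf (nat_lit 0) (nat_lit 3778813841) (nat_lit 1444) (nat_lit 1660247762) (nat_lit 76) (nat_lit 1928658149) (nat_lit 473) (nat_lit 5) (nat_lit 492) (nat_lit 5) (nat_lit 474) (nat_lit 5) (nat_lit 284) (nat_lit 262) (nat_lit 234)) (XT.nd (nat_lit 78) (nat_lit 1596) (nat_lit 0) (XT.lf (nat_lit 0) (nat_lit 4764733583) (nat_lit 1444) (nat_lit 2416477338) (nat_lit 1520) (nat_lit 262900221) (nat_lit 454) (nat_lit 5) (nat_lit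 473) (nat_lit 5) (nat_lit 474) (nat_lit 5) (nat_lit 285) (nat_lit 262) (nat_lit 233)) (XT.lf (nat_lit 0) (nat_lit 3064692206) (nat_lit 1596) (nat_lit 3701826551) (nat_lit 76) (nat_lit 757078037) (nat_lit 433) (nat_lit 5) (nat_lit 454) (nat_lit 5) (nat_lit 434) (nat_lit 5) (nat_lit 286) (nat_lit 262) (nat_lit 232)))) (XT.nd (nat_lit 156) (nat_lit 2356) (nat_lit 0) (XT.nd (nat_lit 78) (nat_lit 1748) (nat_lit 0) (XT.lf (nat_lit 0) (nat_lit 2883272131) (nat_lit 1596) (nat_lit 3562962366) (nat_lit 1672) (nat_lit 1160120581) (nat_lit 412) (nat_lit 5) (nat_lit 433) (nat_lit 5) (nat_lit 434) (nat_lit 5) (nat_lit 287) (nat_lit 262) (nat_lit 231)) (XT.lf (nat_lit 0) (nat_lit 1950432377) (nat_lit 1672) (nat_lit 201819379) (nat_lit 1748) (nat_lit 5540247363) (nat_lit 389) (nat_lit 5) (nat_lit 411) (nat_lit 5) (nat_lit 412) (nat_lit 5) (nat_lit 288) (nat_lit 262) (nat_lit 230))) (XT.nd (nat_lit 78) (nat_lit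 912) (nat_lit 0) (XT.lf (nat_lit 0) (nat_lit 1005757116) (nat_lit 1444) (nat_lit 4510771926) (nat_lit 1520) (nat_lit 2265250040) (nat_lit 370) (nat_lit 5) (nat_lit 389) (nat_lit 5) (nat_lit 390) (nat_lit 5) (nat_lit 289) (nat_lit 262) (nat_lit 229)) (XT.lf (nat_lit 0) (nat_lit 67361372) (nat_lit 836) (nat_lit 976807538) (nat_lit 912) (nat_lit 6830478055) (nat_lit 358) (nat_lit 5) (nat_lit 369) (nat_lit 5) (nat_lit 370) (nat_lit 5) (nat_lit 290) (nat_lit 262) (nat_lit 228)))))) (XT.nd (nat_lit 546) (nat_lit 4256) (nat_lit 0) (XT.nd (nat_lit 234) (nat_lit 3116) (nat_lit 0) (XT.nd (nat_lit 78) (nat_lit 1824) (nat_lit 0) (XT.lf (nat_lit 0) (nat_lit 4397627938) (nat_lit 912) (nat_lit 880153080) (nat_lit 76) (nat_lit 2692775231) (nat_lit 358) (nat_lit 5) (nat_lit 370) (nat_lit 5) (nat_lit 359) (nat_lit 5) (nat_lit 291) (nat_lit 262) (nat_lit 227)) (XT.nd (nat_lit 78) (nat_lit 912) (nat_lit 0) (XT.lf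 (nat_lit 0) (nat_lit 6245881704) (nat_lit 912) (nat_lit 1567307661) (nat_lit 988) (nat_lit 256987064) (nat_lit 346) (nat_lit 5) (nat_lit 358) (nat_lit 5) (nat_lit 359) (nat_lit 5) (nat_lit 292) (nat_lit 262) (nat_lit 226)) (XT.lf (nat_lit 0) (nat_lit 3088814828) (nat_lit 912) (nat_lit 2797215223) (nat_lit 76) (nat_lit 2286969443) (nat_lit 334) (nat_lit 5) (nat_lit 346) (nat_lit 5) (nat_lit 335) (nat_lit 5) (nat_lit 293) (nat_lit 262) (nat_lit 225)))) (XT.nd (nat_lit 156) (nat_lit 1444) (nat_lit 0) (XT.nd (nat_lit 78) (nat_lit 836) (nat_lit 0) (XT.lf (nat_lit 0) (nat_lit 4500473767) (nat_lit 836) (nat_lit 2000858022) (nat_lit 912) (nat_lit 1778203604) (nat_lit 323) (nat_lit 5) (nat_lit 334) (nat_lit 5) (nat_lit 335) (nat_lit 5) (nat_lit 294) (nat_lit 262) (nat_lit 224)) (XT.lf (nat_lit 0) (nat_lit 1580455974) (nat_lit 836) (nat_lit 4784143594) (nat_lit 76) (nat_lit 2025015730) (nat_lit 312) (nat_lit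 5) (nat_lit 323) (nat_lit 5) (nat_lit 313) (nat_lit 5) (nat_lit 295) (nat_lit 262) (nat_lit 223))) (XT.nd (nat_lit 78) (nat_lit 684) (nat_lit 0) (XT.lf (nat_lit 0) (nat_lit 2686112391) (nat_lit 760) (nat_lit 2307076760) (nat_lit 836) (nat_lit 3510078225) (nat_lit 302) (nat_lit 5) (nat_lit 312) (nat_lit 5) (nat_lit 313) (nat_lit 5) (nat_lit 296) (nat_lit 262) (nat_lit 222)) (XT.lf (nat_lit 0) (nat_lit 1752237727) (nat_lit 684) (nat_lit 6734701649) (nat_lit 760) (nat_lit 133869662) (nat_lit 293) (nat_lit 5) (nat_lit 302) (nat_lit 5) (nat_lit 303) (nat_lit 5) (nat_lit 297) (nat_lit 262) (nat_lit 221))))) (XT.nd (nat_lit 234) (nat_lit 2660) (nat_lit 0) (XT.nd (nat_lit 78) (nat_lit 760) (nat_lit 0) (XT.lf (nat_lit 0) (nat_lit 775678148) (nat_lit 760) (nat_lit 2507873642) (nat_lit 836) (nat_lit 5458265585) (nat_lit 282) (nat_lit 5) (nat_lit 292) (nat_lit 5) (nat_lit 293) (nat_lit 5) (nat_lit 298) (nat_lit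 262) (nat_lit 220)) (XT.nd (nat_lit 78) (nat_lit 760) (nat_lit 0) (XT.lf (nat_lit 0) (nat_lit 6785789136) (nat_lit 836) (nat_lit 219905587) (nat_lit 76) (nat_lit 1861110025) (nat_lit 282) (nat_lit 5) (nat_lit 293) (nat_lit 5) (nat_lit 283) (nat_lit 5) (nat_lit 299) (nat_lit 262) (nat_lit 219)) (XT.lf (nat_lit 0) (nat_lit 1373748544) (nat_lit 760) (nat_lit 1243000478) (nat_lit 76) (nat_lit 6378767104) (nat_lit 272) (nat_lit 5) (nat_lit 282) (nat_lit 5) (nat_lit 273) (nat_lit 5) (nat_lit 300) (nat_lit 262) (nat_lit 218)))) (XT.nd (nat_lit 156) (nat_lit 1368) (nat_lit 0) (XT.nd (nat_lit 78) (nat_lit 608) (nat_lit 0) (XT.lf (nat_lit 0) (nat_lit 4891116611) (nat_lit 760) (nat_lit 2307978361) (nat_lit 76) (nat_lit 1929019110) (nat_lit 263) (nat_lit 5) (nat_lit 273) (nat_lit 5) (nat_lit 264) (nat_lit 5) (nat_lit 301) (nat_lit 262) (nat_lit 217)) (XT.lf (nat_lit 0) (nat_lit 5855175257) (nat_lit 608) (nat_lit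 2652833795) (nat_lit 684) (nat_lit 756844571) (nat_lit 255) (nat_lit 5) (nat_lit 263) (nat_lit 5) (nat_lit 264) (nat_lit 5) (nat_lit 302) (nat_lit 262) (nat_lit 216))) (XT.nd (nat_lit 78) (nat_lit 608) (nat_lit 0) (XT.lf (nat_lit 0) (nat_lit 2782444563) (nat_lit 760) (nat_lit 4566068196) (nat_lit 76) (nat_lit 2057020662) (nat_lit 245) (nat_lit 5) (nat_lit 255) (nat_lit 5) (nat_lit 246) (nat_lit 5) (nat_lit 303) (nat_lit 262) (nat_lit 215)) (XT.lf (nat_lit 0) (nat_lit 3778037263) (nat_lit 608) (nat_lit 2637617905) (nat_lit 684) (nat_lit 3134758278) (nat_lit 237) (nat_lit 5) (nat_lit 245) (nat_lit 5) (nat_lit 246) (nat_lit 5) (nat_lit 304) (nat_lit 262) (nat_lit 214))))))))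
noncomputable def xc55 : XT := (XT.nd (nat_lit 2106) (nat_lit 4788) (nat_lit 0) (XT.nd (nat_lit 1014) (nat_lit 4332) (nat_lit 0) (XT.nd (nat_lit 468) (nat_lit 3040) (nat_lit 0) (XT.nd (nat_lit 234) (nat_lit 1140) (nat_lit 0) (XT.nd (nat_lit 78) (nat_lit 1140) (nat_lit 0) (XT.lf (nat_lit 0) (nat_lit 448841931) (nat_lit 684) (nat_lit 7027543435) (nat_lit 76) (nat_lit 2223300869) (nat_lit 228) (nat_lit 5) (nat_lit 237) (nat_lit 5) (nat_lit 229) (nat_lit 5) (nat_lit 305) (nat_lit 262) (nat_lit 213)) (XT.nd (nat_lit 78) (nat_lit 608) (nat_lit 0) (XT.lf (nat_lit 0) (nat_lit 1496239195) (nat_lit 532) (nat_lit 2602831386) (nat_lit 608) (nat_lit 5753955351) (nat_lit 221) (nat_lit 5) (nat_lit 228) (nat_lit 5) (nat_lit 229) (nat_lit 5) (nat_lit 306) (nat_lit 262) (nat_lit 212)) (XT.lf (nat_lit 0) (nat_lit 268653600) (nat_lit 608) (nat_lit 7591546407) (nat_lit 684) (nat_lit 2150774179) (nat_lit 213) (nat_lit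 5) (nat_lit 221) (nat_lit 5) (nat_lit 222) (nat_lit 5) (nat_lit 307) (nat_lit 262) (nat_lit 211)))) (XT.nd (nat_lit 78) (nat_lit 1064) (nat_lit 0) (XT.lf (nat_lit 0) (nat_lit 1551364802) (nat_lit 684) (nat_lit 1013535749) (nat_lit 76) (nat_lit 7608365625) (nat_lit 212) (nat_lit 5) (nat_lit 221) (nat_lit 5) (nat_lit 213) (nat_lit 5) (nat_lit 308) (nat_lit 262) (nat_lit 210)) (XT.nd (nat_lit 78) (nat_lit 532) (nat_lit 0) (XT.lf (nat_lit 0) (nat_lit 5343435925) (nat_lit 608) (nat_lit 2368139626) (nat_lit 76) (nat_lit 2628438766) (nat_lit 205) (nat_lit 5) (nat_lit 213) (nat_lit 5) (nat_lit 206) (nat_lit 5) (nat_lit 309) (nat_lit 262) (nat_lit 209)) (XT.lf (nat_lit 0) (nat_lit 6722200359) (nat_lit 532) (nat_lit 2534713023) (nat_lit 608) (nat_lit 1254731152) (nat_lit 198) (nat_lit 5) (nat_lit 205) (nat_lit 5) (nat_lit 206) (nat_lit 5) (nat_lit 310) (nat_lit 262) (nat_lit 208))))) (XT.nd (nat_lit 234)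 (nat_lit 1520) (nat_lit 0) (XT.nd (nat_lit 78) (nat_lit 988) (nat_lit 0) (XT.lf (nat_lit 0) (nat_lit 2575794340) (nat_lit 532) (nat_lit 5300703822) (nat_lit 76) (nat_lit 2811408629) (nat_lit 191) (nat_lit 5) (nat_lit 198) (nat_lit 5) (nat_lit 192) (nat_lit 5) (nat_lit 311) (nat_lit 262) (nat_lit 207)) (XT.nd (nat_lit 78) (nat_lit 456) (nat_lit 0) (XT.lf (nat_lit 0) (nat_lit 3971421752) (nat_lit 532) (nat_lit 2543326136) (nat_lit 608) (nat_lit 4354362021) (nat_lit 184) (nat_lit 5) (nat_lit 191) (nat_lit 5) (nat_lit 192) (nat_lit 5) (nat_lit 312) (nat_lit 262) (nat_lit 206)) (XT.lf (nat_lit 0) (nat_lit 2475290839) (nat_lit 456) (nat_lit 8110913383) (nat_lit 532) (nat_lit 469287388) (nat_lit 178) (nat_lit 5) (nat_lit 184) (nat_lit 5) (nat_lit 185) (nat_lit 5) (nat_lit 313) (nat_lit 262) (nat_lit 205)))) (XT.nd (nat_lit 156) (nat_lit 988) (nat_lit 0) (XT.nd (nat_lit 78) (nat_lit 0) (nat_lit 0) (XT.lf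 (nat_lit 0) (nat_lit 871983798) (nat_lit 456) (nat_lit 2627473821) (nat_lit 532) (nat_lit 7747307320) (nat_lit 171) (nat_lit 5) (nat_lit 177) (nat_lit 5) (nat_lit 178) (nat_lit 5) (nat_lit 314) (nat_lit 262) (nat_lit 204)) (XT.lf (nat_lit 0) (nat_lit 7603807864) (nat_lit 532) (nat_lit 816869559) (nat_lit 76) (nat_lit 3022605592) (nat_lit 171) (nat_lit 5) (nat_lit 178) (nat_lit 5) (nat_lit 172) (nat_lit 5) (nat_lit 315) (nat_lit 262) (nat_lit 203))) (XT.nd (nat_lit 78) (nat_lit 456) (nat_lit 0) (XT.lf (nat_lit 0) (nat_lit 205997529) (nat_lit 532) (nat_lit 2591739336) (nat_lit 76) (nat_lit 8847504538) (nat_lit 164) (nat_lit 5) (nat_lit 171) (nat_lit 5) (nat_lit 165) (nat_lit 5) (nat_lit 316) (nat_lit 262) (nat_lit 202)) (XT.lf (nat_lit 0) (nat_lit 4341324502) (nat_lit 532) (nat_lit 4497158708) (nat_lit 76) (nat_lit 3013879600) (nat_lit 158) (nat_lit 5) (nat_lit 165) (nat_lit 5) (nat_lit 159) (nat_lit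 5) (nat_lit 317) (nat_lit 262) (nat_lit 201)))))) (XT.nd (nat_lit 546) (nat_lit 1824) (nat_lit 0) (XT.nd (nat_lit 234) (nat_lit 1216) (nat_lit 0) (XT.nd (nat_lit 78) (nat_lit 912) (nat_lit 0) (XT.lf (nat_lit 0) (nat_lit 5551325489) (nat_lit 380) (nat_lit 3069825020) (nat_lit 456) (nat_lit 3444162753) (nat_lit 153) (nat_lit 5) (nat_lit 158) (nat_lit 5) (nat_lit 159) (nat_lit 5) (nat_lit 318) (nat_lit 262) (nat_lit 200)) (XT.nd (nat_lit 78) (nat_lit 380) (nat_lit 0) (XT.lf (nat_lit 0) (nat_lit 756909552) (nat_lit 532) (nat_lit 8654675107) (nat_lit 76) (nat_lit 2872554737) (nat_lit 146) (nat_lit 5) (nat_lit 153) (nat_lit 5) (nat_lit 147) (nat_lit 5) (nat_lit 319) (nat_lit 262) (nat_lit 199)) (XT.lf (nat_lit 0) (nat_lit 1561803495) (nat_lit 380) (nat_lit 3500370601) (nat_lit 456) (nat_lit 7446424199) (nat_lit 141) (nat_lit 5) (nat_lit 146) (nat_lit 5) (nat_lit 147) (nat_lit 5) (nat_lit 320) (nat_lit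 262) (nat_lit 198)))) (XT.nd (nat_lit 156) (nat_lit 760) (nat_lit 0) (XT.nd (nat_lit 78) (nat_lit 456) (nat_lit 0) (XT.lf (nat_lit 0) (nat_lit 9522881560) (nat_lit 456) (nat_lit 624820114) (nat_lit 76) (nat_lit 2591585290) (nat_lit 141) (nat_lit 5) (nat_lit 147) (nat_lit 5) (nat_lit 142) (nat_lit 5) (nat_lit 321) (nat_lit 262) (nat_lit 197)) (XT.lf (nat_lit 0) (nat_lit 1166319694) (nat_lit 456) (nat_lit 2938781031) (nat_lit 76) (nat_lit 8870852850) (nat_lit 135) (nat_lit 5) (nat_lit 141) (nat_lit 5) (nat_lit 136) (nat_lit 5) (nat_lit 322) (nat_lit 262) (nat_lit 196))) (XT.nd (nat_lit 78) (nat_lit 380) (nat_lit 0) (XT.lf (nat_lit 0) (nat_lit 5658736491) (nat_lit 456) (nat_lit 5413983900) (nat_lit 76) (nat_lit 2146156475) (nat_lit 130) (nat_lit 5) (nat_lit 136) (nat_lit 5) (nat_lit 131) (nat_lit 5) (nat_lit 323) (nat_lit 262) (nat_lit 195)) (XT.lf (nat_lit 0) (nat_lit 5416529519) (nat_lit 380) (nat_lit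 4905367830) (nat_lit 456) (nat_lit 3146490546) (nat_lit 125) (nat_lit 5) (nat_lit 130) (nat_lit 5) (nat_lit 131) (nat_lit 5) (nat_lit 324) (nat_lit 262) (nat_lit 194))))) (XT.nd (nat_lit 234) (nat_lit 1064) (nat_lit 0) (XT.nd (nat_lit 78) (nat_lit 380) (nat_lit 0) (XT.lf (nat_lit 0) (nat_lit 1400424967) (nat_lit 380) (nat_lit 10853680696) (nat_lit 76) (nat_lit 1470731151) (nat_lit 120) (nat_lit 5) (nat_lit 125) (nat_lit 5) (nat_lit 121) (nat_lit 5) (nat_lit 325) (nat_lit 262) (nat_lit 193)) (XT.nd (nat_lit 78) (nat_lit 0) (nat_lit 0) (XT.lf (nat_lit 0) (nat_lit 123091102) (nat_lit 380) (nat_lit 5961336127) (nat_lit 456) (nat_lit 7903285445) (nat_lit 115) (nat_lit 5) (nat_lit 120) (nat_lit 5) (nat_lit 121) (nat_lit 5) (nat_lit 326) (nat_lit 262) (nat_lit 192)) (XT.lf (nat_lit 0) (nat_lit 10941753649) (nat_lit 456) (nat_lit 2751285713) (nat_lit 76) (nat_lit 564796836) (nat_lit 115) (nat_lit 5) (nat_lit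 121) (nat_lit 5) (nat_lit 116) (nat_lit 5) (nat_lit 327) (nat_lit 262) (nat_lit 191)))) (XT.nd (nat_lit 156) (nat_lit 380) (nat_lit 0) (XT.nd (nat_lit 78) (nat_lit 304) (nat_lit 0) (XT.lf (nat_lit 0) (nat_lit 1443661461) (nat_lit 380) (nat_lit 5840949049) (nat_lit 76) (nat_lit 7250218600) (nat_lit 110) (nat_lit 5) (nat_lit 115) (nat_lit 5) (nat_lit 111) (nat_lit 5) (nat_lit 328) (nat_lit 262) (nat_lit 190)) (XT.lf (nat_lit 0) (nat_lit 5686910935) (nat_lit 304) (nat_lit 627413393) (nat_lit 380) (nat_lit 8505121657) (nat_lit 106) (nat_lit 5) (nat_lit 110) (nat_lit 5) (nat_lit 111) (nat_lit 5) (nat_lit 329) (nat_lit 262) (nat_lit 189))) (XT.nd (nat_lit 78) (nat_lit 76) (nat_lit 0) (XT.lf (nat_lit 0) (nat_lit 2454919274) (nat_lit 304) (nat_lit 8930326082) (nat_lit 380) (nat_lit 3726288918) (nat_lit 102) (nat_lit 5) (nat_lit 106) (nat_lit 5) (nat_lit 107) (nat_lit 5) (nat_lit 330) (nat_lit 262) (nat_lit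 188)) (XT.lf (nat_lit 0) (nat_lit 1205146128) (nat_lit 380) (nat_lit 973338655) (nat_lit 76) (nat_lit 13233261618) (nat_lit 101) (nat_lit 5) (nat_lit 106) (nat_lit 5) (nat_lit 102) (nat_lit 5) (nat_lit 331) (nat_lit 262) (nat_lit 187))))))) (XT.nd (nat_lit 1092) (nat_lit 1748) (nat_lit 0) (XT.nd (nat_lit 546) (nat_lit 1292) (nat_lit 0) (XT.nd (nat_lit 234) (nat_lit 836) (nat_lit 0) (XT.nd (nat_lit 78) (nat_lit 608) (nat_lit 0) (XT.lf (nat_lit 0) (nat_lit 6297522106) (nat_lit 380) (nat_lit 4632950401) (nat_lit 76) (nat_lit 4788741784) (nat_lit 97) (nat_lit 5) (nat_lit 102) (nat_lit 5) (nat_lit 98) (nat_lit 5) (nat_lit 332) (nat_lit 262) (nat_lit 186)) (XT.nd (nat_lit 78) (nat_lit 380) (nat_lit 0) (XT.lf (nat_lit 0) (nat_lit 7506462619) (nat_lit 228) (nat_lit 4066422036) (nat_lit 304) (nat_lit 4462431319) (nat_lit 94) (nat_lit 5) (nat_lit 97) (nat_lit 5) (nat_lit 98) (nat_lit 5) (nat_lit 333) (nat_lit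 262) (nat_lit 185)) (XT.lf (nat_lit 0) (nat_lit 673238866) (nat_lit 380) (nat_lit 12685083813) (nat_lit 76) (nat_lit 3001785603) (nat_lit 89) (nat_lit 5) (nat_lit 94) (nat_lit 5) (nat_lit 90) (nat_lit 5) (nat_lit 334) (nat_lit 262) (nat_lit 184)))) (XT.nd (nat_lit 156) (nat_lit 608) (nat_lit 0) (XT.nd (nat_lit 78) (nat_lit 228) (nat_lit 0) (XT.lf (nat_lit 0) (nat_lit 5949424848) (nat_lit 380) (nat_lit 450870234) (nat_lit 76) (nat_lit 10292830887) (nat_lit 89) (nat_lit 5) (nat_lit 94) (nat_lit 5) (nat_lit 90) (nat_lit 5) (nat_lit 335) (nat_lit 262) (nat_lit 183)) (XT.lf (nat_lit 0) (nat_lit 11431278200) (nat_lit 304) (nat_lit 4789546568) (nat_lit 76) (nat_lit 814374401) (nat_lit 86) (nat_lit 5) (nat_lit 90) (nat_lit 5) (nat_lit 87) (nat_lit 5) (nat_lit 336) (nat_lit 262) (nat_lit 182))) (XT.nd (nat_lit 78) (nat_lit 304) (nat_lit 0) (XT.lf (nat_lit 0) (nat_lit 7943568491) (nat_lit 304) (nat_lit 9194518534)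 (nat_lit 380) (nat_lit 248249790) (nat_lit 82) (nat_lit 5) (nat_lit 86) (nat_lit 5) (nat_lit 87) (nat_lit 5) (nat_lit 337) (nat_lit 262) (nat_lit 181)) (XT.lf (nat_lit 0) (nat_lit 3327002161) (nat_lit 228) (nat_lit 1889760792) (nat_lit 304) (nat_lit 12530217950) (nat_lit 78) (nat_lit 5) (nat_lit 81) (nat_lit 5) (nat_lit 82) (nat_lit 5) (nat_lit 338) (nat_lit 262) (nat_lit 180))))) (XT.nd (nat_lit 234) (nat_lit 760) (nat_lit 0) (XT.nd (nat_lit 78) (nat_lit 532) (nat_lit 0) (XT.lf (nat_lit 0) (nat_lit 10907397010) (nat_lit 304) (nat_lit 1605424205) (nat_lit 76) (nat_lit 5604300727) (nat_lit 78) (nat_lit 5) (nat_lit 82) (nat_lit 5) (nat_lit 79) (nat_lit 5) (nat_lit 339) (nat_lit 262) (nat_lit 179)) (XT.nd (nat_lit 78) (nat_lit 304) (nat_lit 0) (XT.lf (nat_lit 0) (nat_lit 11677071321) (nat_lit 228) (nat_lit 5145212249) (nat_lit 304) (nat_lit 1675023964) (nat_lit 75) (nat_lit 5) (nat_lit 78) (nat_lit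 5) (nat_lit 79) (nat_lit 5) (nat_lit 340) (nat_lit 262) (nat_lit 178)) (XT.lf (nat_lit 0) (nat_lit 4007774680) (nat_lit 304) (nat_lit 12410516464) (nat_lit 76) (nat_lit 2469398163) (nat_lit 71) (nat_lit 5) (nat_lit 75) (nat_lit 5) (nat_lit 72) (nat_lit 5) (nat_lit 341) (nat_lit 262) (nat_lit 177)))) (XT.nd (nat_lit 156) (nat_lit 532) (nat_lit 0) (XT.nd (nat_lit 78) (nat_lit 0) (nat_lit 0) (XT.lf (nat_lit 0) (nat_lit 887549191) (nat_lit 228) (nat_lit 9003572263) (nat_lit 304) (nat_lit 9397393375) (nat_lit 68) (nat_lit 5) (nat_lit 71) (nat_lit 5) (nat_lit 72) (nat_lit 5) (nat_lit 342) (nat_lit 262) (nat_lit 176)) (XT.lf (nat_lit 0) (nat_lit 14699167741) (nat_lit 228) (nat_lit 1302528422) (nat_lit 304) (nat_lit 3698664261) (nat_lit 68) (nat_lit 5) (nat_lit 71) (nat_lit 5) (nat_lit 72) (nat_lit 5) (nat_lit 343) (nat_lit 262) (nat_lit 175))) (XT.nd (nat_lit 78) (nat_lit 228) (nat_lit 0) (XT.lf (nat_lit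 0) (nat_lit 2210758851) (nat_lit 304) (nat_lit 11318743067) (nat_lit 76) (nat_lit 6593422831) (nat_lit 64) (nat_lit 5) (nat_lit 68) (nat_lit 5) (nat_lit 65) (nat_lit 5) (nat_lit 344) (nat_lit 262) (nat_lit 174)) (XT.lf (nat_lit 0) (nat_lit 2479806165) (nat_lit 228) (nat_lit 5794464642) (nat_lit 304) (nat_lit 12282874214) (nat_lit 61) (nat_lit 5) (nat_lit 64) (nat_lit 5) (nat_lit 65) (nat_lit 5) (nat_lit 345) (nat_lit 262) (nat_lit 173)))))) (XT.nd (nat_lit 546) (nat_lit 836) (nat_lit 0) (XT.nd (nat_lit 234) (nat_lit 456) (nat_lit 0) (XT.nd (nat_lit 78) (nat_lit 456) (nat_lit 0) (XT.lf (nat_lit 0) (nat_lit 14579301439) (nat_lit 304) (nat_lit 4223590879) (nat_lit 76) (nat_lit 2200316165) (nat_lit 61) (nat_lit 5) (nat_lit 65) (nat_lit 5) (nat_lit 62) (nat_lit 5) (nat_lit 346) (nat_lit 262) (nat_lit 172)) (XT.nd (nat_lit 78) (nat_lit 304) (nat_lit 0) (XT.lf (nat_lit 0) (nat_lit 10087509641) (nat_lit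 152) (nat_lit 11059441490) (nat_lit 228) (nat_lit 314241942) (nat_lit 59) (nat_lit 5) (nat_lit 61) (nat_lit 5) (nat_lit 62) (nat_lit 5) (nat_lit 347) (nat_lit 262) (nat_lit 171)) (XT.lf (nat_lit 0) (nat_lit 2901071181) (nat_lit 228) (nat_lit 3016456006) (nat_lit 304) (nat_lit 16014277316) (nat_lit 55) (nat_lit 5) (nat_lit 58) (nat_lit 5) (nat_lit 59) (nat_lit 5) (nat_lit 348) (nat_lit 262) (nat_lit 170)))) (XT.nd (nat_lit 156) (nat_lit 304) (nat_lit 0) (XT.nd (nat_lit 78) (nat_lit 152) (nat_lit 0) (XT.lf (nat_lit 0) (nat_lit 12413792551) (nat_lit 304) (nat_lit 4743072101) (nat_lit 76) (nat_lit 5257999767) (nat_lit 55) (nat_lit 5) (nat_lit 59) (nat_lit 5) (nat_lit 56) (nat_lit 5) (nat_lit 349) (nat_lit 262) (nat_lit 169)) (XT.lf (nat_lit 0) (nat_lit 10035126632) (nat_lit 152) (nat_lit 9126023880) (nat_lit 228) (nat_lit 3750149236) (nat_lit 53) (nat_lit 5) (nat_lit 55) (nat_lit 5) (nat_lit 56) (nat_lit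 5) (nat_lit 350) (nat_lit 262) (nat_lit 168))) (XT.nd (nat_lit 78) (nat_lit 0) (nat_lit 0) (XT.lf (nat_lit 0) (nat_lit 1857181370) (nat_lit 228) (nat_lit 811486291) (nat_lit 304) (nat_lit 20753306242) (nat_lit 49) (nat_lit 5) (nat_lit 52) (nat_lit 5) (nat_lit 53) (nat_lit 5) (nat_lit 351) (nat_lit 262) (nat_lit 167)) (XT.lf (nat_lit 0) (nat_lit 9339161980) (nat_lit 304) (nat_lit 6862190651) (nat_lit 76) (nat_lit 7743925748) (nat_lit 49) (nat_lit 5) (nat_lit 53) (nat_lit 5) (nat_lit 50) (nat_lit 5) (nat_lit 352) (nat_lit 262) (nat_lit 166))))) (XT.nd (nat_lit 234) (nat_lit 380) (nat_lit 0) (XT.nd (nat_lit 78) (nat_lit 304) (nat_lit 0) (XT.lf (nat_lit 0) (nat_lit 8338074194) (nat_lit 152) (nat_lit 7903694156) (nat_lit 228) (nat_lit 8241880610) (nat_lit 47) (nat_lit 5) (nat_lit 49) (nat_lit 5) (nat_lit 50) (nat_lit 5) (nat_lit 353) (nat_lit 262) (nat_lit 165)) (XT.nd (nat_lit 78) (nat_lit 304) (nat_lit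 0) (XT.lf (nat_lit 0) (nat_lit 23375243289) (nat_lit 228) (nat_lit 1000441877) (nat_lit 76) (nat_lit 662016395) (nat_lit 47) (nat_lit 5) (nat_lit 50) (nat_lit 5) (nat_lit 48) (nat_lit 5) (nat_lit 354) (nat_lit 262) (nat_lit 164)) (XT.lf (nat_lit 0) (nat_lit 5169925603) (nat_lit 304) (nat_lit 10946691606) (nat_lit 76) (nat_lit 9488647719) (nat_lit 43) (nat_lit 5) (nat_lit 47) (nat_lit 5) (nat_lit 44) (nat_lit 5) (nat_lit 355) (nat_lit 262) (nat_lit 163)))) (XT.nd (nat_lit 156) (nat_lit 228) (nat_lit 0) (XT.nd (nat_lit 78) (nat_lit 0) (nat_lit 0) (XT.lf (nat_lit 0) (nat_lit 4615462830) (nat_lit 152) (nat_lit 7580051014) (nat_lit 228) (nat_lit 13993911394) (nat_lit 41) (nat_lit 5) (nat_lit 43) (nat_lit 5) (nat_lit 44) (nat_lit 5) (nat_lit 356) (nat_lit 262) (nat_lit 162)) (XT.lf (nat_lit 0) (nat_lit 19488660513) (nat_lit 228) (nat_lit 6048572119) (nat_lit 76) (nat_lit 1252747933) (nat_lit 41) (nat_lit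 5) (nat_lit 44) (nat_lit 5) (nat_lit 42) (nat_lit 5) (nat_lit 357) (nat_lit 262) (nat_lit 161))) (XT.nd (nat_lit 78) (nat_lit 76) (nat_lit 0) (XT.lf (nat_lit 0) (nat_lit 9979172269) (nat_lit 152) (nat_lit 17111910141) (nat_lit 228) (nat_lit 315666371) (nat_lit 39) (nat_lit 5) (nat_lit 41) (nat_lit 5) (nat_lit 42) (nat_lit 5) (nat_lit 358) (nat_lit 262) (nat_lit 160)) (XT.lf (nat_lit 0) (nat_lit 6805868580) (nat_lit 228) (nat_lit 1558817481) (nat_lit 76) (nat_lit 19676115450) (nat_lit 38) (nat_lit 5) (nat_lit 41) (nat_lit 5) (nat_lit 39) (nat_lit 5) (nat_lit 359) (nat_lit 262) (nat_lit 159))))))))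
noncomputable def xc56 : XT := (XT.nd (nat_lit 34944) (nat_lit 0) (nat_lit 11400) (XT.nd (nat_lit 33852) (nat_lit 0) (nat_lit 30324) (XT.nd (nat_lit 33306) (nat_lit 0) (nat_lit 43244) (XT.nd (nat_lit 33072) (nat_lit 0) (nat_lit 45752) (XT.nd (nat_lit 78) (nat_lit 152) (nat_lit 0) (XT.lf (nat_lit 0) (nat_lit 14214498685) (nat_lit 228) (nat_lit 13759263591) (nat_lit 76) (nat_lit 718522464) (nat_lit 36) (nat_lit 5) (nat_lit 39) (nat_lit 5) (nat_lit 37) (nat_lit 5) (nat_lit 360) (nat_lit 262) (nat_lit 158)) (XT.nd (nat_lit 78) (nat_lit 0) (nat_lit 0) (XT.lf (nat_lit 0) (nat_lit 2513159467) (nat_lit 152) (nat_lit 19391432498) (nat_lit 228) (nat_lit 7457541660) (nat_lit 34) (nat_lit 5) (nat_lit 36) (nat_lit 5) (nat_lit 37) (nat_lit 5) (nat_lit 361) (nat_lit 262) (nat_lit 157)) (XT.lf (nat_lit 0) (nat_lit 19421125985) (nat_lit 152) (nat_lit 10474238831) (nat_lit 228) (nat_lit 155318719) (nat_lit 34) (nat_lit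 5) (nat_lit 36) (nat_lit 5) (nat_lit 37) (nat_lit 5) (nat_lit 362) (nat_lit 262) (nat_lit 156)))) (XT.nd (nat_lit 78) (nat_lit 836) (nat_lit 0) (XT.lf (nat_lit 0) (nat_lit 3001247250) (nat_lit 380) (nat_lit 119807560) (nat_lit 380) (nat_lit 119807560) (nat_lit 647) (nat_lit 3) (nat_lit 652) (nat_lit 3) (nat_lit 652) (nat_lit 5) (nat_lit 263) (nat_lit 263) (nat_lit 254)) (XT.nd (nat_lit 78) (nat_lit 456) (nat_lit 0) (XT.lf (nat_lit 0) (nat_lit 3439779413) (nat_lit 380) (nat_lit 2157340680) (nat_lit 456) (nat_lit 898951680) (nat_lit 642) (nat_lit 5) (nat_lit 647) (nat_lit 3) (nat_lit 648) (nat_lit 5) (nat_lit 264) (nat_lit 263) (nat_lit 253)) (XT.lf (nat_lit 0) (nat_lit 810920878) (nat_lit 456) (nat_lit 4022741787) (nat_lit 532) (nat_lit 1679883852) (nat_lit 636) (nat_lit 5) (nat_lit 642) (nat_lit 5) (nat_lit 643) (nat_lit 5) (nat_lit 265) (nat_lit 263) (nat_lit 252))))) (XT.nd (nat_lit 234) (nat_lit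 1976) (nat_lit 0) (XT.nd (nat_lit 78) (nat_lit 532) (nat_lit 0) (XT.lf (nat_lit 76) (nat_lit 684083744) (nat_lit 0) (nat_lit 3938334042) (nat_lit 532) (nat_lit 1911496729) (nat_lit 637) (nat_lit 5) (nat_lit 636) (nat_lit 5) (nat_lit 643) (nat_lit 5) (nat_lit 266) (nat_lit 263) (nat_lit 251)) (XT.nd (nat_lit 78) (nat_lit 0) (nat_lit 0) (XT.lf (nat_lit 0) (nat_lit 1847771784) (nat_lit 532) (nat_lit 1062115427) (nat_lit 608) (nat_lit 3647297240) (nat_lit 629) (nat_lit 5) (nat_lit 636) (nat_lit 5) (nat_lit 637) (nat_lit 5) (nat_lit 267) (nat_lit 263) (nat_lit 250)) (XT.lf (nat_lit 76) (nat_lit 3827203739) (nat_lit 0) (nat_lit 1749029215) (nat_lit 608) (nat_lit 1007175190) (nat_lit 630) (nat_lit 5) (nat_lit 629) (nat_lit 5) (nat_lit 637) (nat_lit 5) (nat_lit 268) (nat_lit 263) (nat_lit 249)))) (XT.nd (nat_lit 156) (nat_lit 1368) (nat_lit 0) (XT.nd (nat_lit 78) (nat_lit 0) (nat_lit 76) (XT.lf (nat_lit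 76) (nat_lit 2197864953) (nat_lit 0) (nat_lit 452940564) (nat_lit 684) (nat_lit 3961767596) (nat_lit 622) (nat_lit 5) (nat_lit 621) (nat_lit 5) (nat_lit 630) (nat_lit 5) (nat_lit 269) (nat_lit 263) (nat_lit 248)) (XT.lf (nat_lit 76) (nat_lit 609343127) (nat_lit 0) (nat_lit 5687965402) (nat_lit 684) (nat_lit 347466227) (nat_lit 623) (nat_lit 5) (nat_lit 622) (nat_lit 5) (nat_lit 631) (nat_lit 5) (nat_lit 270) (nat_lit 263) (nat_lit 247))) (XT.nd (nat_lit 78) (nat_lit 760) (nat_lit 0) (XT.lf (nat_lit 0) (nat_lit 3230467240) (nat_lit 684) (nat_lit 940629088) (nat_lit 760) (nat_lit 2508555683) (nat_lit 613) (nat_lit 5) (nat_lit 622) (nat_lit 5) (nat_lit 623) (nat_lit 5) (nat_lit 271) (nat_lit 263) (nat_lit 246)) (XT.lf (nat_lit 0) (nat_lit 90157890) (nat_lit 760) (nat_lit 2437741286) (nat_lit 836) (nat_lit 4189791069) (nat_lit 603) (nat_lit 5) (nat_lit 613) (nat_lit 5) (nat_lit 614) (nat_lit 5) (nat_lit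 272) (nat_lit 263) (nat_lit 245)))))) (XT.nd (nat_lit 546) (nat_lit 8208) (nat_lit 0) (XT.nd (nat_lit 234) (nat_lit 3116) (nat_lit 0) (XT.nd (nat_lit 78) (nat_lit 1596) (nat_lit 0) (XT.lf (nat_lit 76) (nat_lit 2846705666) (nat_lit 0) (nat_lit 739803024) (nat_lit 836) (nat_lit 3172078019) (nat_lit 604) (nat_lit 5) (nat_lit 603) (nat_lit 5) (nat_lit 614) (nat_lit 5) (nat_lit 273) (nat_lit 263) (nat_lit 244)) (XT.nd (nat_lit 78) (nat_lit 836) (nat_lit 0) (XT.lf (nat_lit 0) (nat_lit 290462104) (nat_lit 836) (nat_lit 5352492333) (nat_lit 76) (nat_lit 1159656141) (nat_lit 593) (nat_lit 5) (nat_lit 604) (nat_lit 5) (nat_lit 594) (nat_lit 5) (nat_lit 274) (nat_lit 263) (nat_lit 243)) (XT.lf (nat_lit 0) (nat_lit 70905973) (nat_lit 836) (nat_lit 3653390283) (nat_lit 912) (nat_lit 3125146495) (nat_lit 582) (nat_lit 5) (nat_lit 593) (nat_lit 5) (nat_lit 594) (nat_lit 5) (nat_lit 275) (nat_lit 263) (nat_lit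 242)))) (XT.nd (nat_lit 156) (nat_lit 2128) (nat_lit 0) (XT.nd (nat_lit 78) (nat_lit 912) (nat_lit 0) (XT.lf (nat_lit 0) (nat_lit 275506194) (nat_lit 912) (nat_lit 1252428694) (nat_lit 76) (nat_lit 5371473224) (nat_lit 581) (nat_lit 5) (nat_lit 593) (nat_lit 5) (nat_lit 582) (nat_lit 5) (nat_lit 276) (nat_lit 263) (nat_lit 241)) (XT.lf (nat_lit 0) (nat_lit 3653135428) (nat_lit 988) (nat_lit 2561681079) (nat_lit 76) (nat_lit 737402795) (nat_lit 569) (nat_lit 5) (nat_lit 582) (nat_lit 5) (nat_lit 570) (nat_lit 5) (nat_lit 277) (nat_lit 263) (nat_lit 240))) (XT.nd (nat_lit 78) (nat_lit 1064) (nat_lit 0) (XT.lf (nat_lit 0) (nat_lit 49408935) (nat_lit 1064) (nat_lit 3845831273) (nat_lit 76) (nat_lit 3112949911) (nat_lit 555) (nat_lit 5) (nat_lit 569) (nat_lit 5) (nat_lit 556) (nat_lit 5) (nat_lit 278) (nat_lit 263) (nat_lit 239)) (XT.lf (nat_lit 0) (nat_lit 1948819081) (nat_lit 1064) (nat_lit 1423910939)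 (nat_lit 1140) (nat_lit 3694390101) (nat_lit 541) (nat_lit 5) (nat_lit 555) (nat_lit 5) (nat_lit 556) (nat_lit 5) (nat_lit 279) (nat_lit 263) (nat_lit 238))))) (XT.nd (nat_lit 234) (nat_lit 5776) (nat_lit 0) (XT.nd (nat_lit 78) (nat_lit 1292) (nat_lit 0) (XT.lf (nat_lit 0) (nat_lit 761825975) (nat_lit 1140) (nat_lit 5964090938) (nat_lit 1216) (nat_lit 403394972) (nat_lit 526) (nat_lit 5) (nat_lit 541) (nat_lit 5) (nat_lit 542) (nat_lit 5) (nat_lit 280) (nat_lit 263) (nat_lit 237)) (XT.nd (nat_lit 78) (nat_lit 1216) (nat_lit 0) (XT.lf (nat_lit 0) (nat_lit 2885132637) (nat_lit 1216) (nat_lit 416920454) (nat_lit 76) (nat_lit 3892261654) (nat_lit 525) (nat_lit 5) (nat_lit 541) (nat_lit 5) (nat_lit 526) (nat_lit 5) (nat_lit 281) (nat_lit 263) (nat_lit 236)) (XT.lf (nat_lit 0) (nat_lit 5703174696) (nat_lit 1216) (nat_lit 497355464) (nat_lit 1292) (nat_lit 1062100120) (nat_lit 509) (nat_lit 5) (nat_lit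 525) (nat_lit 5) (nat_lit 526) (nat_lit 5) (nat_lit 282) (nat_lit 263) (nat_lit 235)))) (XT.nd (nat_lit 156) (nat_lit 3040) (nat_lit 0) (XT.nd (nat_lit 78) (nat_lit 1368) (nat_lit 0) (XT.lf (nat_lit 0) (nat_lit 2199809014) (nat_lit 1368) (nat_lit 2705624697) (nat_lit 76) (nat_lit 2428403704) (nat_lit 491) (nat_lit 5) (nat_lit 509) (nat_lit 5) (nat_lit 492) (nat_lit 5) (nat_lit 283) (nat_lit 263) (nat_lit 234)) (XT.lf (nat_lit 0) (nat_lit 3570129141) (nat_lit 1368) (nat_lit 1913181595) (nat_lit 1444) (nat_lit 1925049313) (nat_lit 473) (nat_lit 5) (nat_lit 491) (nat_lit 5) (nat_lit 492) (nat_lit 5) (nat_lit 284) (nat_lit 263) (nat_lit 233))) (XT.nd (nat_lit 78) (nat_lit 1520) (nat_lit 0) (XT.lf (nat_lit 0) (nat_lit 1307528481) (nat_lit 1520) (nat_lit 4965855554) (nat_lit 76) (nat_lit 1212725483) (nat_lit 453) (nat_lit 5) (nat_lit 473) (nat_lit 5) (nat_lit 454) (nat_lit 5) (nat_lit 285) (nat_lit 263)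 (nat_lit 232)) (XT.lf (nat_lit 0) (nat_lit 1466894742) (nat_lit 1520) (nat_lit 3097670417) (nat_lit 1596) (nat_lit 3002375808) (nat_lit 433) (nat_lit 5) (nat_lit 453) (nat_lit 5) (nat_lit 454) (nat_lit 5) (nat_lit 286) (nat_lit 263) (nat_lit 231))))))) (XT.nd (nat_lit 1014) (nat_lit 7448) (nat_lit 0) (XT.nd (nat_lit 468) (nat_lit 4788) (nat_lit 0) (XT.nd (nat_lit 234) (nat_lit 3344) (nat_lit 0) (XT.nd (nat_lit 78) (nat_lit 1672) (nat_lit 0) (XT.lf (nat_lit 0) (nat_lit 210249189) (nat_lit 1672) (nat_lit 7220883236) (nat_lit 76) (nat_lit 220209731) (nat_lit 411) (nat_lit 5) (nat_lit 433) (nat_lit 5) (nat_lit 412) (nat_lit 5) (nat_lit 287) (nat_lit 263) (nat_lit 230)) (XT.nd (nat_lit 78) (nat_lit 1672) (nat_lit 0) (XT.lf (nat_lit 0) (nat_lit 3449813533) (nat_lit 1672) (nat_lit 621589141) (nat_lit 76) (nat_lit 3667119646) (nat_lit 411) (nat_lit 5) (nat_lit 433) (nat_lit 5) (nat_lit 412) (nat_lit 5)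 (nat_lit 288) (nat_lit 263) (nat_lit 229)) (XT.lf (nat_lit 0) (nat_lit 6175658615) (nat_lit 1672) (nat_lit 562452679) (nat_lit 1748) (nat_lit 1091244479) (nat_lit 389) (nat_lit 5) (nat_lit 411) (nat_lit 5) (nat_lit 412) (nat_lit 5) (nat_lit 289) (nat_lit 263) (nat_lit 228)))) (XT.nd (nat_lit 78) (nat_lit 1824) (nat_lit 0) (XT.lf (nat_lit 0) (nat_lit 2144572442) (nat_lit 1520) (nat_lit 2707956238) (nat_lit 76) (nat_lit 3070738887) (nat_lit 369) (nat_lit 5) (nat_lit 389) (nat_lit 5) (nat_lit 370) (nat_lit 5) (nat_lit 290) (nat_lit 263) (nat_lit 227)) (XT.nd (nat_lit 78) (nat_lit 988) (nat_lit 0) (XT.lf (nat_lit 0) (nat_lit 4256528119) (nat_lit 836) (nat_lit 1163801633) (nat_lit 912) (nat_lit 2600432459) (nat_lit 358) (nat_lit 5) (nat_lit 369) (nat_lit 5) (nat_lit 370) (nat_lit 5) (nat_lit 291) (nat_lit 263) (nat_lit 226)) (XT.lf (nat_lit 0) (nat_lit 637967963) (nat_lit 988) (nat_lit 4835685221) (nat_lit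 76) (nat_lit 2648029249) (nat_lit 345) (nat_lit 5) (nat_lit 358) (nat_lit 5) (nat_lit 346) (nat_lit 5) (nat_lit 292) (nat_lit 263) (nat_lit 225))))) (XT.nd (nat_lit 234) (nat_lit 2280) (nat_lit 0) (XT.nd (nat_lit 78) (nat_lit 1672) (nat_lit 0) (XT.lf (nat_lit 0) (nat_lit 2297269848) (nat_lit 836) (nat_lit 1607704334) (nat_lit 912) (nat_lit 4321035398) (nat_lit 334) (nat_lit 5) (nat_lit 345) (nat_lit 5) (nat_lit 346) (nat_lit 5) (nat_lit 293) (nat_lit 263) (nat_lit 224)) (XT.nd (nat_lit 78) (nat_lit 836) (nat_lit 0) (XT.lf (nat_lit 0) (nat_lit 1296985883) (nat_lit 836) (nat_lit 5949891153) (nat_lit 912) (nat_lit 1087108829) (nat_lit 323) (nat_lit 5) (nat_lit 334) (nat_lit 5) (nat_lit 335) (nat_lit 5) (nat_lit 294) (nat_lit 263) (nat_lit 223)) (XT.lf (nat_lit 0) (nat_lit 272470007) (nat_lit 760) (nat_lit 1916196607) (nat_lit 836) (nat_lit 6256812574) (nat_lit 312) (nat_lit 5) (nat_lit 322) (nat_lit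 5) (nat_lit 323) (nat_lit 5) (nat_lit 295) (nat_lit 263) (nat_lit 222)))) (XT.nd (nat_lit 156) (nat_lit 1444) (nat_lit 0) (XT.nd (nat_lit 78) (nat_lit 836) (nat_lit 0) (XT.lf (nat_lit 0) (nat_lit 5533609782) (nat_lit 836) (nat_lit 765934239) (nat_lit 76) (nat_lit 2260969016) (nat_lit 312) (nat_lit 5) (nat_lit 323) (nat_lit 5) (nat_lit 313) (nat_lit 5) (nat_lit 296) (nat_lit 263) (nat_lit 221)) (XT.lf (nat_lit 0) (nat_lit 278451260) (nat_lit 836) (nat_lit 1820317832) (nat_lit 76) (nat_lit 6580590427) (nat_lit 301) (nat_lit 5) (nat_lit 312) (nat_lit 5) (nat_lit 302) (nat_lit 5) (nat_lit 297) (nat_lit 263) (nat_lit 220))) (XT.nd (nat_lit 78) (nat_lit 760) (nat_lit 0) (XT.lf (nat_lit 0) (nat_lit 3626876194) (nat_lit 760) (nat_lit 2917534585) (nat_lit 76) (nat_lit 2257308511) (nat_lit 292) (nat_lit 5) (nat_lit 302) (nat_lit 5) (nat_lit 293) (nat_lit 5) (nat_lit 298) (nat_lit 263) (nat_lit 219)) (XT.lf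 (nat_lit 0) (nat_lit 4887717727) (nat_lit 760) (nat_lit 2174240580) (nat_lit 836) (nat_lit 1866114764) (nat_lit 282) (nat_lit 5) (nat_lit 292) (nat_lit 5) (nat_lit 293) (nat_lit 5) (nat_lit 299) (nat_lit 263) (nat_lit 218)))))) (XT.nd (nat_lit 546) (nat_lit 3344) (nat_lit 0) (XT.nd (nat_lit 234) (nat_lit 2052) (nat_lit 0) (XT.nd (nat_lit 78) (nat_lit 1292) (nat_lit 0) (XT.lf (nat_lit 0) (nat_lit 1511199947) (nat_lit 760) (nat_lit 5203337081) (nat_lit 76) (nat_lit 2343734312) (nat_lit 272) (nat_lit 5) (nat_lit 282) (nat_lit 5) (nat_lit 273) (nat_lit 5) (nat_lit 300) (nat_lit 263) (nat_lit 217)) (XT.nd (nat_lit 78) (nat_lit 608) (nat_lit 0) (XT.lf (nat_lit 0) (nat_lit 2780533921) (nat_lit 684) (nat_lit 2174843611) (nat_lit 760) (nat_lit 4236977109) (nat_lit 263) (nat_lit 5) (nat_lit 272) (nat_lit 5) (nat_lit 273) (nat_lit 5) (nat_lit 301) (nat_lit 263) (nat_lit 216)) (XT.lf (nat_lit 0) (nat_lit 1671500053)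 (nat_lit 608) (nat_lit 6826012360) (nat_lit 684) (nat_lit 833097829) (nat_lit 255) (nat_lit 5) (nat_lit 263) (nat_lit 5) (nat_lit 264) (nat_lit 5) (nat_lit 302) (nat_lit 263) (nat_lit 215)))) (XT.nd (nat_lit 156) (nat_lit 1292) (nat_lit 0) (XT.nd (nat_lit 78) (nat_lit 0) (nat_lit 0) (XT.lf (nat_lit 0) (nat_lit 508441091) (nat_lit 684) (nat_lit 2124022330) (nat_lit 760) (nat_lit 6840350978) (nat_lit 245) (nat_lit 5) (nat_lit 254) (nat_lit 5) (nat_lit 255) (nat_lit 5) (nat_lit 303) (nat_lit 263) (nat_lit 214)) (XT.lf (nat_lit 0) (nat_lit 6195041762) (nat_lit 760) (nat_lit 694929389) (nat_lit 76) (nat_lit 2729155239) (nat_lit 245) (nat_lit 5) (nat_lit 255) (nat_lit 5) (nat_lit 246) (nat_lit 5) (nat_lit 304) (nat_lit 263) (nat_lit 213))) (XT.nd (nat_lit 78) (nat_lit 608) (nat_lit 0) (XT.lf (nat_lit 0) (nat_lit 94787353) (nat_lit 684) (nat_lit 1935989433) (nat_lit 76) (nat_lit 7739048808) (nat_lit 236)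 (nat_lit 5) (nat_lit 245) (nat_lit 5) (nat_lit 237) (nat_lit 5) (nat_lit 305) (nat_lit 263) (nat_lit 212)) (XT.lf (nat_lit 0) (nat_lit 3678083119) (nat_lit 684) (nat_lit 3253050514) (nat_lit 76) (nat_lit 2993388170) (nat_lit 228) (nat_lit 5) (nat_lit 237) (nat_lit 5) (nat_lit 229) (nat_lit 5) (nat_lit 306) (nat_lit 263) (nat_lit 211))))) (XT.nd (nat_lit 234) (nat_lit 1596) (nat_lit 0) (XT.nd (nat_lit 78) (nat_lit 1216) (nat_lit 0) (XT.lf (nat_lit 0) (nat_lit 5461788526) (nat_lit 532) (nat_lit 1907822266) (nat_lit 608) (nat_lit 2714268634) (nat_lit 221) (nat_lit 5) (nat_lit 228) (nat_lit 5) (nat_lit 229) (nat_lit 5) (nat_lit 307) (nat_lit 263) (nat_lit 210)) (XT.nd (nat_lit 78) (nat_lit 532) (nat_lit 0) (XT.lf (nat_lit 0) (nat_lit 922094704) (nat_lit 684) (nat_lit 6061395877) (nat_lit 76) (nat_lit 3264233826) (nat_lit 212) (nat_lit 5) (nat_lit 221) (nat_lit 5) (nat_lit 213) (nat_lit 5) (nat_lit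 308) (nat_lit 263) (nat_lit 209)) (XT.lf (nat_lit 0) (nat_lit 2836768879) (nat_lit 532) (nat_lit 1797359018) (nat_lit 608) (nat_lit 5781961426) (nat_lit 205) (nat_lit 5) (nat_lit 212) (nat_lit 5) (nat_lit 213) (nat_lit 5) (nat_lit 309) (nat_lit 263) (nat_lit 208)))) (XT.nd (nat_lit 156) (nat_lit 988) (nat_lit 0) (XT.nd (nat_lit 78) (nat_lit 76) (nat_lit 0) (XT.lf (nat_lit 0) (nat_lit 1415859096) (nat_lit 532) (nat_lit 7056896538) (nat_lit 608) (nat_lit 2116476454) (nat_lit 198) (nat_lit 5) (nat_lit 205) (nat_lit 5) (nat_lit 206) (nat_lit 5) (nat_lit 310) (nat_lit 263) (nat_lit 207)) (XT.lf (nat_lit 0) (nat_lit 1643425005) (nat_lit 608) (nat_lit 80190009) (nat_lit 76) (nat_lit 9043644554) (nat_lit 197) (nat_lit 5) (nat_lit 205) (nat_lit 5) (nat_lit 198) (nat_lit 5) (nat_lit 311) (nat_lit 263) (nat_lit 206))) (XT.nd (nat_lit 78) (nat_lit 532) (nat_lit 0) (XT.lf (nat_lit 0) (nat_lit 5517073755) (nat_lit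 532) (nat_lit 1654227620) (nat_lit 76) (nat_lit 3778481778) (nat_lit 191) (nat_lit 5) (nat_lit 198) (nat_lit 5) (nat_lit 192) (nat_lit 5) (nat_lit 312) (nat_lit 263) (nat_lit 205)) (XT.lf (nat_lit 0) (nat_lit 7834322048) (nat_lit 532) (nat_lit 1680763180) (nat_lit 608) (nat_lit 1622562476) (nat_lit 184) (nat_lit 5) (nat_lit 191) (nat_lit 5) (nat_lit 192) (nat_lit 5) (nat_lit 313) (nat_lit 263) (nat_lit 204))))))))
noncomputable def xc57 : XT := (XT.nd (nat_lit 2106) (nat_lit 3116) (nat_lit 0) (XT.nd (nat_lit 1014) (nat_lit 3420) (nat_lit 0) (XT.nd (nat_lit 468) (nat_lit 2508) (nat_lit 0) (XT.nd (nat_lit 234) (nat_lit 912) (nat_lit 0) (XT.nd (nat_lit 78) (nat_lit 912) (nat_lit 0) (XT.lf (nat_lit 0) (nat_lit 2295943287) (nat_lit 532) (nat_lit 5062623932) (nat_lit 76) (nat_lit 3971824145) (nat_lit 177) (nat_lit 5) (nat_lit 184) (nat_lit 5) (nat_lit 178) (nat_lit 5) (nat_lit 314) (nat_lit 263) (nat_lit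 203)) (XT.nd (nat_lit 78) (nat_lit 456) (nat_lit 0) (XT.lf (nat_lit 0) (nat_lit 4608794145) (nat_lit 456) (nat_lit 1711942962) (nat_lit 532) (nat_lit 5207776356) (nat_lit 171) (nat_lit 5) (nat_lit 177) (nat_lit 5) (nat_lit 178) (nat_lit 5) (nat_lit 315) (nat_lit 263) (nat_lit 202)) (XT.lf (nat_lit 0) (nat_lit 2846293071) (nat_lit 456) (nat_lit 7647557373) (nat_lit 532) (nat_lit 1238202680) (nat_lit 165) (nat_lit 5) (nat_lit 171) (nat_lit 5) (nat_lit 172) (nat_lit 5) (nat_lit 316) (nat_lit 263) (nat_lit 201)))) (XT.nd (nat_lit 78) (nat_lit 380) (nat_lit 0) (XT.lf (nat_lit 0) (nat_lit 970238724) (nat_lit 456) (nat_lit 1856395378) (nat_lit 532) (nat_lit 9114447717) (nat_lit 158) (nat_lit 5) (nat_lit 164) (nat_lit 5) (nat_lit 165) (nat_lit 5) (nat_lit 317) (nat_lit 263) (nat_lit 200)) (XT.nd (nat_lit 78) (nat_lit 380) (nat_lit 0) (XT.lf (nat_lit 0) (nat_lit 7033498369) (nat_lit 532) (nat_lit 1018188625)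 (nat_lit 76) (nat_lit 4103816082) (nat_lit 158) (nat_lit 5) (nat_lit 165) (nat_lit 5) (nat_lit 159) (nat_lit 5) (nat_lit 318) (nat_lit 263) (nat_lit 199)) (XT.lf (nat_lit 0) (nat_lit 9273119109) (nat_lit 380) (nat_lit 2117063673) (nat_lit 456) (nat_lit 985724705) (nat_lit 153) (nat_lit 5) (nat_lit 158) (nat_lit 5) (nat_lit 159) (nat_lit 5) (nat_lit 319) (nat_lit 263) (nat_lit 198))))) (XT.nd (nat_lit 234) (nat_lit 1216) (nat_lit 0) (XT.nd (nat_lit 78) (nat_lit 760) (nat_lit 0) (XT.lf (nat_lit 0) (nat_lit 3263921443) (nat_lit 532) (nat_lit 5338766694) (nat_lit 76) (nat_lit 3999187866) (nat_lit 146) (nat_lit 5) (nat_lit 153) (nat_lit 5) (nat_lit 147) (nat_lit 5) (nat_lit 320) (nat_lit 263) (nat_lit 197)) (XT.nd (nat_lit 78) (nat_lit 380) (nat_lit 0) (XT.lf (nat_lit 0) (nat_lit 5126197236) (nat_lit 380) (nat_lit 2522626501) (nat_lit 456) (nat_lit 5185267417) (nat_lit 141) (nat_lit 5) (nat_lit 146)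 (nat_lit 5) (nat_lit 147) (nat_lit 5) (nat_lit 321) (nat_lit 263) (nat_lit 196)) (XT.lf (nat_lit 0) (nat_lit 2850396178) (nat_lit 380) (nat_lit 9347372067) (nat_lit 456) (nat_lit 874875069) (nat_lit 136) (nat_lit 5) (nat_lit 141) (nat_lit 5) (nat_lit 142) (nat_lit 5) (nat_lit 322) (nat_lit 263) (nat_lit 195)))) (XT.nd (nat_lit 156) (nat_lit 760) (nat_lit 0) (XT.nd (nat_lit 78) (nat_lit 0) (nat_lit 0) (XT.lf (nat_lit 0) (nat_lit 411031898) (nat_lit 380) (nat_lit 3133052302) (nat_lit 456) (nat_lit 9773304236) (nat_lit 130) (nat_lit 5) (nat_lit 135) (nat_lit 5) (nat_lit 136) (nat_lit 5) (nat_lit 323) (nat_lit 263) (nat_lit 194)) (XT.lf (nat_lit 0) (nat_lit 8129403129) (nat_lit 456) (nat_lit 2159702221) (nat_lit 76) (nat_lit 3279360266) (nat_lit 130) (nat_lit 5) (nat_lit 136) (nat_lit 5) (nat_lit 131) (nat_lit 5) (nat_lit 324) (nat_lit 263) (nat_lit 193))) (XT.nd (nat_lit 78) (nat_lit 380) (nat_lit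 0) (XT.lf (nat_lit 0) (nat_lit 8940294683) (nat_lit 380) (nat_lit 3946971083) (nat_lit 456) (nat_lit 939128017) (nat_lit 125) (nat_lit 5) (nat_lit 130) (nat_lit 5) (nat_lit 131) (nat_lit 5) (nat_lit 325) (nat_lit 263) (nat_lit 192)) (XT.lf (nat_lit 0) (nat_lit 3676721502) (nat_lit 380) (nat_lit 7803738178) (nat_lit 76) (nat_lit 2610549909) (nat_lit 120) (nat_lit 5) (nat_lit 125) (nat_lit 5) (nat_lit 121) (nat_lit 5) (nat_lit 326) (nat_lit 263) (nat_lit 191)))))) (XT.nd (nat_lit 546) (nat_lit 1672) (nat_lit 0) (XT.nd (nat_lit 234) (nat_lit 988) (nat_lit 0) (XT.nd (nat_lit 78) (nat_lit 380) (nat_lit 0) (XT.lf (nat_lit 0) (nat_lit 3447572437) (nat_lit 380) (nat_lit 5010155930) (nat_lit 456) (nat_lit 5904939492) (nat_lit 115) (nat_lit 5) (nat_lit 120) (nat_lit 5) (nat_lit 121) (nat_lit 5) (nat_lit 327) (nat_lit 263) (nat_lit 190)) (XT.nd (nat_lit 78) (nat_lit 76) (nat_lit 0) (XT.lf (nat_lit 0) (nat_lit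 432162001) (nat_lit 304) (nat_lit 12974732821) (nat_lit 380) (nat_lit 1235102934) (nat_lit 111) (nat_lit 5) (nat_lit 115) (nat_lit 5) (nat_lit 116) (nat_lit 5) (nat_lit 328) (nat_lit 263) (nat_lit 189)) (XT.lf (nat_lit 0) (nat_lit 3594381001) (nat_lit 380) (nat_lit 2779952039) (nat_lit 76) (nat_lit 8553597245) (nat_lit 110) (nat_lit 5) (nat_lit 115) (nat_lit 5) (nat_lit 111) (nat_lit 5) (nat_lit 329) (nat_lit 263) (nat_lit 188)))) (XT.nd (nat_lit 156) (nat_lit 380) (nat_lit 0) (XT.nd (nat_lit 78) (nat_lit 304) (nat_lit 0) (XT.lf (nat_lit 0) (nat_lit 8573510378) (nat_lit 380) (nat_lit 6183739863) (nat_lit 76) (nat_lit 464611663) (nat_lit 106) (nat_lit 5) (nat_lit 111) (nat_lit 5) (nat_lit 107) (nat_lit 5) (nat_lit 330) (nat_lit 263) (nat_lit 187)) (XT.lf (nat_lit 0) (nat_lit 5694924738) (nat_lit 304) (nat_lit 8065981814) (nat_lit 380) (nat_lit 1762541836) (nat_lit 102) (nat_lit 5) (nat_lit 106)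 (nat_lit 5) (nat_lit 107) (nat_lit 5) (nat_lit 331) (nat_lit 263) (nat_lit 186))) (XT.nd (nat_lit 78) (nat_lit 0) (nat_lit 0) (XT.lf (nat_lit 0) (nat_lit 2126628066) (nat_lit 304) (nat_lit 1117134999) (nat_lit 380) (nat_lit 12589572754) (nat_lit 97) (nat_lit 5) (nat_lit 101) (nat_lit 5) (nat_lit 102) (nat_lit 5) (nat_lit 332) (nat_lit 263) (nat_lit 185)) (XT.lf (nat_lit 0) (nat_lit 8444134366) (nat_lit 380) (nat_lit 1688418533) (nat_lit 76) (nat_lit 6018391153) (nat_lit 97) (nat_lit 5) (nat_lit 102) (nat_lit 5) (nat_lit 98) (nat_lit 5) (nat_lit 333) (nat_lit 263) (nat_lit 184))))) (XT.nd (nat_lit 234) (nat_lit 836) (nat_lit 0) (XT.nd (nat_lit 78) (nat_lit 608) (nat_lit 0) (XT.lf (nat_lit 0) (nat_lit 10765150423) (nat_lit 228) (nat_lit 3075282825) (nat_lit 304) (nat_lit 2636862210) (nat_lit 94) (nat_lit 5) (nat_lit 97) (nat_lit 5) (nat_lit 98) (nat_lit 5) (nat_lit 334) (nat_lit 263) (nat_lit 183))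 (XT.nd (nat_lit 78) (nat_lit 228) (nat_lit 0) (XT.lf (nat_lit 0) (nat_lit 2597629212) (nat_lit 380) (nat_lit 10024075129) (nat_lit 76) (nat_lit 4190482973) (nat_lit 89) (nat_lit 5) (nat_lit 94) (nat_lit 5) (nat_lit 90) (nat_lit 5) (nat_lit 335) (nat_lit 263) (nat_lit 182)) (XT.lf (nat_lit 0) (nat_lit 2521647555) (nat_lit 228) (nat_lit 5471363489) (nat_lit 304) (nat_lit 9162984934) (nat_lit 86) (nat_lit 5) (nat_lit 89) (nat_lit 5) (nat_lit 90) (nat_lit 5) (nat_lit 336) (nat_lit 263) (nat_lit 181)))) (XT.nd (nat_lit 156) (nat_lit 456) (nat_lit 0) (XT.nd (nat_lit 78) (nat_lit 380) (nat_lit 0) (XT.lf (nat_lit 0) (nat_lit 13595048402) (nat_lit 304) (nat_lit 1998376428) (nat_lit 76) (nat_lit 1915810082) (nat_lit 86) (nat_lit 5) (nat_lit 90) (nat_lit 5) (nat_lit 87) (nat_lit 5) (nat_lit 337) (nat_lit 263) (nat_lit 180)) (XT.lf (nat_lit 0) (nat_lit 1546609783) (nat_lit 380) (nat_lit 6812667573) (nat_lit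 76) (nat_lit 9512129173) (nat_lit 81) (nat_lit 5) (nat_lit 86) (nat_lit 5) (nat_lit 82) (nat_lit 5) (nat_lit 338) (nat_lit 263) (nat_lit 179))) (XT.nd (nat_lit 78) (nat_lit 228) (nat_lit 0) (XT.lf (nat_lit 0) (nat_lit 6291296613) (nat_lit 228) (nat_lit 847124208) (nat_lit 304) (nat_lit 11105108621) (nat_lit 78) (nat_lit 5) (nat_lit 81) (nat_lit 5) (nat_lit 82) (nat_lit 5) (nat_lit 339) (nat_lit 263) (nat_lit 178)) (XT.lf (nat_lit 0) (nat_lit 1170706609) (nat_lit 228) (nat_lit 11792185698) (nat_lit 304) (nat_lit 5662636284) (nat_lit 75) (nat_lit 5) (nat_lit 78) (nat_lit 5) (nat_lit 79) (nat_lit 5) (nat_lit 340) (nat_lit 263) (nat_lit 177))))))) (XT.nd (nat_lit 1092) (nat_lit 988) (nat_lit 0) (XT.nd (nat_lit 546) (nat_lit 1064) (nat_lit 0) (XT.nd (nat_lit 234) (nat_lit 532) (nat_lit 0) (XT.nd (nat_lit 78) (nat_lit 532) (nat_lit 0) (XT.lf (nat_lit 0) (nat_lit 14790751268) (nat_lit 228) (nat_lit 4224698137)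 (nat_lit 304) (nat_lit 2481639) (nat_lit 75) (nat_lit 5) (nat_lit 78) (nat_lit 5) (nat_lit 79) (nat_lit 5) (nat_lit 341) (nat_lit 263) (nat_lit 176)) (XT.nd (nat_lit 78) (nat_lit 228) (nat_lit 0) (XT.lf (nat_lit 0) (nat_lit 5803449327) (nat_lit 304) (nat_lit 10014656570) (nat_lit 76) (nat_lit 3602204814) (nat_lit 71) (nat_lit 5) (nat_lit 75) (nat_lit 5) (nat_lit 72) (nat_lit 5) (nat_lit 342) (nat_lit 263) (nat_lit 175)) (XT.lf (nat_lit 0) (nat_lit 3637440697) (nat_lit 228) (nat_lit 8194737785) (nat_lit 304) (nat_lit 8001619453) (nat_lit 68) (nat_lit 5) (nat_lit 71) (nat_lit 5) (nat_lit 72) (nat_lit 5) (nat_lit 343) (nat_lit 263) (nat_lit 174)))) (XT.nd (nat_lit 156) (nat_lit 228) (nat_lit 0) (XT.nd (nat_lit 78) (nat_lit 304) (nat_lit 0) (XT.lf (nat_lit 0) (nat_lit 17784089405) (nat_lit 228) (nat_lit 294088114) (nat_lit 304) (nat_lit 2180793390) (nat_lit 68) (nat_lit 5) (nat_lit 71) (nat_lit 5)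 (nat_lit 72) (nat_lit 5) (nat_lit 344) (nat_lit 263) (nat_lit 173)) (XT.lf (nat_lit 0) (nat_lit 3861541532) (nat_lit 304) (nat_lit 9010564140) (nat_lit 76) (nat_lit 7822368622) (nat_lit 64) (nat_lit 5) (nat_lit 68) (nat_lit 5) (nat_lit 65) (nat_lit 5) (nat_lit 345) (nat_lit 263) (nat_lit 172))) (XT.nd (nat_lit 78) (nat_lit 0) (nat_lit 0) (XT.lf (nat_lit 0) (nat_lit 5158985114) (nat_lit 228) (nat_lit 4918736405) (nat_lit 304) (nat_lit 11064597480) (nat_lit 61) (nat_lit 5) (nat_lit 64) (nat_lit 5) (nat_lit 65) (nat_lit 5) (nat_lit 346) (nat_lit 263) (nat_lit 171)) (XT.lf (nat_lit 0) (nat_lit 16533221299) (nat_lit 304) (nat_lit 1797375612) (nat_lit 76) (nat_lit 3271953785) (nat_lit 61) (nat_lit 5) (nat_lit 65) (nat_lit 5) (nat_lit 62) (nat_lit 5) (nat_lit 347) (nat_lit 263) (nat_lit 170))))) (XT.nd (nat_lit 234) (nat_lit 608) (nat_lit 0) (XT.nd (nat_lit 78) (nat_lit 228) (nat_lit 0) (XT.lf (nat_lit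 0) (nat_lit 1179516150) (nat_lit 228) (nat_lit 9180964640) (nat_lit 76) (nat_lit 11714208457) (nat_lit 58) (nat_lit 5) (nat_lit 61) (nat_lit 5) (nat_lit 59) (nat_lit 5) (nat_lit 348) (nat_lit 263) (nat_lit 169)) (XT.nd (nat_lit 78) (nat_lit 0) (nat_lit 0) (XT.lf (nat_lit 0) (nat_lit 5478855239) (nat_lit 228) (nat_lit 2087651291) (nat_lit 304) (nat_lit 14993431930) (nat_lit 55) (nat_lit 5) (nat_lit 58) (nat_lit 5) (nat_lit 59) (nat_lit 5) (nat_lit 349) (nat_lit 263) (nat_lit 168)) (XT.lf (nat_lit 0) (nat_lit 14221227191) (nat_lit 304) (nat_lit 2444632090) (nat_lit 76) (nat_lit 6392370938) (nat_lit 55) (nat_lit 5) (nat_lit 59) (nat_lit 5) (nat_lit 56) (nat_lit 5) (nat_lit 350) (nat_lit 263) (nat_lit 167)))) (XT.nd (nat_lit 156) (nat_lit 152) (nat_lit 0) (XT.nd (nat_lit 78) (nat_lit 304) (nat_lit 0) (XT.lf (nat_lit 0) (nat_lit 12737314625) (nat_lit 152) (nat_lit 8407484296) (nat_lit 228) (nat_lit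 2425294884) (nat_lit 53) (nat_lit 5) (nat_lit 55) (nat_lit 5) (nat_lit 56) (nat_lit 5) (nat_lit 351) (nat_lit 263) (nat_lit 166)) (XT.lf (nat_lit 0) (nat_lit 4142369856) (nat_lit 304) (nat_lit 19803443553) (nat_lit 76) (nat_lit 150595966) (nat_lit 49) (nat_lit 5) (nat_lit 53) (nat_lit 5) (nat_lit 50) (nat_lit 5) (nat_lit 352) (nat_lit 263) (nat_lit 165))) (XT.nd (nat_lit 78) (nat_lit 152) (nat_lit 0) (XT.lf (nat_lit 0) (nat_lit 10977656192) (nat_lit 304) (nat_lit 4735176771) (nat_lit 76) (nat_lit 8923296700) (nat_lit 49) (nat_lit 5) (nat_lit 53) (nat_lit 5) (nat_lit 50) (nat_lit 5) (nat_lit 353) (nat_lit 263) (nat_lit 164)) (XT.lf (nat_lit 0) (nat_lit 10883247820) (nat_lit 152) (nat_lit 7179431100) (nat_lit 228) (nat_lit 7128475600) (nat_lit 47) (nat_lit 5) (nat_lit 49) (nat_lit 5) (nat_lit 50) (nat_lit 5) (nat_lit 354) (nat_lit 263) (nat_lit 163)))))) (XT.nd (nat_lit 546) (nat_lit 152) (nat_lit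 0) (XT.nd (nat_lit 234) (nat_lit 380) (nat_lit 0) (XT.nd (nat_lit 78) (nat_lit 228) (nat_lit 0) (XT.lf (nat_lit 0) (nat_lit 1234073093) (nat_lit 228) (nat_lit 24151313116) (nat_lit 304) (nat_lit 376947563) (nat_lit 44) (nat_lit 5) (nat_lit 47) (nat_lit 5) (nat_lit 48) (nat_lit 5) (nat_lit 355) (nat_lit 263) (nat_lit 162)) (XT.nd (nat_lit 78) (nat_lit 152) (nat_lit 0) (XT.lf (nat_lit 0) (nat_lit 6611134883) (nat_lit 304) (nat_lit 9045828510) (nat_lit 76) (nat_lit 10690431595) (nat_lit 43) (nat_lit 5) (nat_lit 47) (nat_lit 5) (nat_lit 44) (nat_lit 5) (nat_lit 356) (nat_lit 263) (nat_lit 161)) (XT.lf (nat_lit 0) (nat_lit 6947023402) (nat_lit 152) (nat_lit 6877246849) (nat_lit 228) (nat_lit 13125283169) (nat_lit 41) (nat_lit 5) (nat_lit 43) (nat_lit 5) (nat_lit 44) (nat_lit 5) (nat_lit 357) (nat_lit 263) (nat_lit 160)))) (XT.nd (nat_lit 156) (nat_lit 152) (nat_lit 0) (XT.nd (nat_lit 78) (nat_lit 228)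 (nat_lit 0) (XT.lf (nat_lit 0) (nat_lit 21305291691) (nat_lit 228) (nat_lit 4081862536) (nat_lit 76) (nat_lit 2181598216) (nat_lit 41) (nat_lit 5) (nat_lit 44) (nat_lit 5) (nat_lit 42) (nat_lit 5) (nat_lit 358) (nat_lit 263) (nat_lit 159)) (XT.lf (nat_lit 0) (nat_lit 897225642) (nat_lit 228) (nat_lit 15818515399) (nat_lit 76) (nat_lit 11488616232) (nat_lit 38) (nat_lit 5) (nat_lit 41) (nat_lit 5) (nat_lit 39) (nat_lit 5) (nat_lit 359) (nat_lit 263) (nat_lit 158))) (XT.nd (nat_lit 78) (nat_lit 0) (nat_lit 0) (XT.lf (nat_lit 0) (nat_lit 468304954) (nat_lit 152) (nat_lit 7727399437) (nat_lit 228) (nat_lit 20662341722) (nat_lit 36) (nat_lit 5) (nat_lit 38) (nat_lit 5) (nat_lit 39) (nat_lit 5) (nat_lit 360) (nat_lit 263) (nat_lit 157)) (XT.lf (nat_lit 0) (nat_lit 15807981905) (nat_lit 228) (nat_lit 12120023936) (nat_lit 76) (nat_lit 1601447982) (nat_lit 36) (nat_lit 5) (nat_lit 39) (nat_lit 5) (nat_lit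 37) (nat_lit 5) (nat_lit 361) (nat_lit 263) (nat_lit 156))))) (XT.nd (nat_lit 33150) (nat_lit 0) (nat_lit 44612) (XT.nd (nat_lit 32994) (nat_lit 0) (nat_lit 45676) (XT.lf (nat_lit 0) (nat_lit 4607280267) (nat_lit 152) (nat_lit 19100612928) (nat_lit 228) (nat_lit 6511930205) (nat_lit 34) (nat_lit 5) (nat_lit 36) (nat_lit 5) (nat_lit 37) (nat_lit 5) (nat_lit 362) (nat_lit 263) (nat_lit 155)) (XT.nd (nat_lit 78) (nat_lit 0) (nat_lit 0) (XT.lf (nat_lit 0) (nat_lit 373228536) (nat_lit 532) (nat_lit 1441392182) (nat_lit 532) (nat_lit 1441392182) (nat_lit 635) (nat_lit 3) (nat_lit 642) (nat_lit 3) (nat_lit 642) (nat_lit 5) (nat_lit 264) (nat_lit 264) (nat_lit 252)) (XT.lf (nat_lit 76) (nat_lit 1702734550) (nat_lit 0) (nat_lit 2786882190) (nat_lit 532) (nat_lit 2041249514) (nat_lit 636) (nat_lit 5) (nat_lit 635) (nat_lit 3) (nat_lit 642) (nat_lit 5) (nat_lit 265) (nat_lit 264) (nat_lit 251)))) (XT.nd (nat_lit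 156) (nat_lit 532) (nat_lit 0) (XT.nd (nat_lit 78) (nat_lit 0) (nat_lit 0) (XT.lf (nat_lit 0) (nat_lit 1644093073) (nat_lit 532) (nat_lit 173624374) (nat_lit 608) (nat_lit 4735025479) (nat_lit 628) (nat_lit 5) (nat_lit 635) (nat_lit 3) (nat_lit 636) (nat_lit 5) (nat_lit 266) (nat_lit 264) (nat_lit 250)) (XT.lf (nat_lit 76) (nat_lit 4592103609) (nat_lit 0) (nat_lit 707578335) (nat_lit 608) (nat_lit 1277731774) (nat_lit 629) (nat_lit 5) (nat_lit 628) (nat_lit 5) (nat_lit 636) (nat_lit 5) (nat_lit 267) (nat_lit 264) (nat_lit 249))) (XT.nd (nat_lit 78) (nat_lit 0) (nat_lit 0) (XT.lf (nat_lit 0) (nat_lit 2313016737) (nat_lit 608) (nat_lit 3762613395) (nat_lit 684) (nat_lit 529359439) (nat_lit 621) (nat_lit 5) (nat_lit 629) (nat_lit 5) (nat_lit 630) (nat_lit 5) (nat_lit 268) (nat_lit 264) (nat_lit 248)) (XT.lf (nat_lit 76) (nat_lit 1132608215) (nat_lit 0) (nat_lit 4751289612) (nat_lit 684) (nat_lit 751674769)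 (nat_lit 622) (nat_lit 5) (nat_lit 621) (nat_lit 5) (nat_lit 630) (nat_lit 5) (nat_lit 269) (nat_lit 264) (nat_lit 247))))))))
noncomputable def xc58 : XT := (XT.nd (nat_lit 2106) (nat_lit 13452) (nat_lit 0) (XT.nd (nat_lit 1014) (nat_lit 14896) (nat_lit 0) (XT.nd (nat_lit 468) (nat_lit 6384) (nat_lit 0) (XT.nd (nat_lit 234) (nat_lit 836) (nat_lit 0) (XT.nd (nat_lit 78) (nat_lit 684) (nat_lit 0) (XT.lf (nat_lit 0) (nat_lit 2749021534) (nat_lit 684) (nat_lit 537811451) (nat_lit 760) (nat_lit 3382158372) (nat_lit 612) (nat_lit 5) (nat_lit 621) (nat_lit 5) (nat_lit 622) (nat_lit 5) (nat_lit 270) (nat_lit 264) (nat_lit 246)) (XT.nd (nat_lit 78) (nat_lit 684) (nat_lit 0) (XT.lf (nat_lit 76) (nat_lit 4554818225) (nat_lit 0) (nat_lit 1689717976) (nat_lit 760) (nat_lit 460910172) (nat_lit 613) (nat_lit 5) (nat_lit 612) (nat_lit 5) (nat_lit 622) (nat_lit 5) (nat_lit 271) (nat_lit 264) (nat_lit 245)) (XT.lf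 (nat_lit 0) (nat_lit 2957460034) (nat_lit 760) (nat_lit 3737954824) (nat_lit 836) (nat_lit 49379808) (nat_lit 603) (nat_lit 5) (nat_lit 613) (nat_lit 5) (nat_lit 614) (nat_lit 5) (nat_lit 272) (nat_lit 264) (nat_lit 244)))) (XT.nd (nat_lit 78) (nat_lit 836) (nat_lit 0) (XT.lf (nat_lit 76) (nat_lit 1490056435) (nat_lit 0) (nat_lit 4893978474) (nat_lit 836) (nat_lit 403112405) (nat_lit 604) (nat_lit 5) (nat_lit 603) (nat_lit 5) (nat_lit 614) (nat_lit 5) (nat_lit 273) (nat_lit 264) (nat_lit 243)) (XT.nd (nat_lit 78) (nat_lit 0) (nat_lit 0) (XT.lf (nat_lit 0) (nat_lit 2946126780) (nat_lit 836) (nat_lit 3277982) (nat_lit 912) (nat_lit 3883004313) (nat_lit 592) (nat_lit 5) (nat_lit 603) (nat_lit 5) (nat_lit 604) (nat_lit 5) (nat_lit 274) (nat_lit 264) (nat_lit 242)) (XT.lf (nat_lit 76) (nat_lit 5441411303) (nat_lit 0) (nat_lit 866279003) (nat_lit 912) (nat_lit 573052414) (nat_lit 593) (nat_lit 5) (nat_lit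 592) (nat_lit 5) (nat_lit 604) (nat_lit 5) (nat_lit 275) (nat_lit 264) (nat_lit 241))))) (XT.nd (nat_lit 234) (nat_lit 3572) (nat_lit 0) (XT.nd (nat_lit 78) (nat_lit 1976) (nat_lit 0) (XT.lf (nat_lit 0) (nat_lit 2721723229) (nat_lit 912) (nat_lit 2863931834) (nat_lit 76) (nat_lit 1346223099) (nat_lit 581) (nat_lit 5) (nat_lit 593) (nat_lit 5) (nat_lit 582) (nat_lit 5) (nat_lit 276) (nat_lit 264) (nat_lit 240)) (XT.nd (nat_lit 78) (nat_lit 1064) (nat_lit 0) (XT.lf (nat_lit 0) (nat_lit 2723446851) (nat_lit 912) (nat_lit 3304616326) (nat_lit 988) (nat_lit 958103765) (nat_lit 569) (nat_lit 5) (nat_lit 581) (nat_lit 5) (nat_lit 582) (nat_lit 5) (nat_lit 277) (nat_lit 264) (nat_lit 239)) (XT.lf (nat_lit 0) (nat_lit 1399982565) (nat_lit 988) (nat_lit 877911178) (nat_lit 1064) (nat_lit 4765625202) (nat_lit 555) (nat_lit 5) (nat_lit 568) (nat_lit 5) (nat_lit 569) (nat_lit 5) (nat_lit 278) (nat_lit 264)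 (nat_lit 238)))) (XT.nd (nat_lit 156) (nat_lit 2432) (nat_lit 0) (XT.nd (nat_lit 78) (nat_lit 76) (nat_lit 0) (XT.lf (nat_lit 0) (nat_lit 93137113) (nat_lit 1064) (nat_lit 5437152730) (nat_lit 1140) (nat_lit 1573625479) (nat_lit 541) (nat_lit 5) (nat_lit 555) (nat_lit 5) (nat_lit 556) (nat_lit 5) (nat_lit 279) (nat_lit 264) (nat_lit 237)) (XT.lf (nat_lit 0) (nat_lit 1629914499) (nat_lit 1140) (nat_lit 1183517482) (nat_lit 76) (nat_lit 4353796299) (nat_lit 540) (nat_lit 5) (nat_lit 555) (nat_lit 5) (nat_lit 541) (nat_lit 5) (nat_lit 280) (nat_lit 264) (nat_lit 236))) (XT.nd (nat_lit 78) (nat_lit 1292) (nat_lit 0) (XT.lf (nat_lit 0) (nat_lit 4793167162) (nat_lit 1140) (nat_lit 43241659) (nat_lit 1216) (nat_lit 2397349032) (nat_lit 525) (nat_lit 5) (nat_lit 540) (nat_lit 5) (nat_lit 541) (nat_lit 5) (nat_lit 281) (nat_lit 264) (nat_lit 235)) (XT.lf (nat_lit 0) (nat_lit 774843566) (nat_lit 1292) (nat_lit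 3694880884) (nat_lit 76) (nat_lit 2833555608) (nat_lit 508) (nat_lit 5) (nat_lit 525) (nat_lit 5) (nat_lit 509) (nat_lit 5) (nat_lit 282) (nat_lit 264) (nat_lit 234)))))) (XT.nd (nat_lit 546) (nat_lit 5776) (nat_lit 0) (XT.nd (nat_lit 234) (nat_lit 4940) (nat_lit 0) (XT.nd (nat_lit 78) (nat_lit 2888) (nat_lit 0) (XT.lf (nat_lit 0) (nat_lit 2434362062) (nat_lit 1292) (nat_lit 1509530610) (nat_lit 1368) (nat_lit 3432076096) (nat_lit 491) (nat_lit 5) (nat_lit 508) (nat_lit 5) (nat_lit 509) (nat_lit 5) (nat_lit 283) (nat_lit 264) (nat_lit 233)) (XT.nd (nat_lit 78) (nat_lit 1520) (nat_lit 0) (XT.lf (nat_lit 0) (nat_lit 1274584400) (nat_lit 1368) (nat_lit 5880728101) (nat_lit 1444) (nat_lit 296660232) (nat_lit 473) (nat_lit 5) (nat_lit 491) (nat_lit 5) (nat_lit 492) (nat_lit 5) (nat_lit 284) (nat_lit 264) (nat_lit 232)) (XT.lf (nat_lit 0) (nat_lit 107636148) (nat_lit 1444) (nat_lit 2736637220) (nat_lit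 1520) (nat_lit 4686680916) (nat_lit 453) (nat_lit 5) (nat_lit 472) (nat_lit 5) (nat_lit 473) (nat_lit 5) (nat_lit 285) (nat_lit 264) (nat_lit 231)))) (XT.nd (nat_lit 156) (nat_lit 3344) (nat_lit 0) (XT.nd (nat_lit 78) (nat_lit 1596) (nat_lit 0) (XT.lf (nat_lit 0) (nat_lit 6028576580) (nat_lit 1520) (nat_lit 1031669170) (nat_lit 76) (nat_lit 553031333) (nat_lit 453) (nat_lit 5) (nat_lit 473) (nat_lit 5) (nat_lit 454) (nat_lit 5) (nat_lit 286) (nat_lit 264) (nat_lit 230)) (XT.lf (nat_lit 0) (nat_lit 1553546069) (nat_lit 1596) (nat_lit 2181250736) (nat_lit 76) (nat_lit 3963848000) (nat_lit 432) (nat_lit 5) (nat_lit 453) (nat_lit 5) (nat_lit 433) (nat_lit 5) (nat_lit 287) (nat_lit 264) (nat_lit 229))) (XT.nd (nat_lit 78) (nat_lit 1748) (nat_lit 0) (XT.lf (nat_lit 0) (nat_lit 4460392366) (nat_lit 1596) (nat_lit 252039625) (nat_lit 1672) (nat_lit 3075040443) (nat_lit 411) (nat_lit 5) (nat_lit 432) (nat_lit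 5) (nat_lit 433) (nat_lit 5) (nat_lit 288) (nat_lit 264) (nat_lit 228)) (XT.lf (nat_lit 0) (nat_lit 58344951) (nat_lit 1748) (nat_lit 4483355788) (nat_lit 76) (nat_lit 3337870982) (nat_lit 388) (nat_lit 5) (nat_lit 411) (nat_lit 5) (nat_lit 389) (nat_lit 5) (nat_lit 289) (nat_lit 264) (nat_lit 227))))) (XT.nd (nat_lit 234) (nat_lit 2508) (nat_lit 0) (XT.nd (nat_lit 78) (nat_lit 1824) (nat_lit 0) (XT.lf (nat_lit 0) (nat_lit 2322255368) (nat_lit 1444) (nat_lit 876805333) (nat_lit 1520) (nat_lit 4775928224) (nat_lit 369) (nat_lit 5) (nat_lit 388) (nat_lit 5) (nat_lit 389) (nat_lit 5) (nat_lit 290) (nat_lit 264) (nat_lit 226)) (XT.nd (nat_lit 78) (nat_lit 988) (nat_lit 0) (XT.lf (nat_lit 0) (nat_lit 1238928341) (nat_lit 836) (nat_lit 5169918467) (nat_lit 912) (nat_lit 1664986598) (nat_lit 358) (nat_lit 5) (nat_lit 369) (nat_lit 5) (nat_lit 370) (nat_lit 5) (nat_lit 291) (nat_lit 264) (nat_lit 225))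 (XT.lf (nat_lit 0) (nat_lit 146749273) (nat_lit 912) (nat_lit 1336435104) (nat_lit 988) (nat_lit 6693035946) (nat_lit 345) (nat_lit 5) (nat_lit 357) (nat_lit 5) (nat_lit 358) (nat_lit 5) (nat_lit 292) (nat_lit 264) (nat_lit 224)))) (XT.nd (nat_lit 156) (nat_lit 1672) (nat_lit 0) (XT.nd (nat_lit 78) (nat_lit 836) (nat_lit 0) (XT.lf (nat_lit 0) (nat_lit 4687479735) (nat_lit 988) (nat_lit 957022066) (nat_lit 76) (nat_lit 2637327991) (nat_lit 345) (nat_lit 5) (nat_lit 358) (nat_lit 5) (nat_lit 346) (nat_lit 5) (nat_lit 293) (nat_lit 264) (nat_lit 223)) (XT.lf (nat_lit 0) (nat_lit 6324641356) (nat_lit 836) (nat_lit 1636166193) (nat_lit 912) (nat_lit 430397317) (nat_lit 334) (nat_lit 5) (nat_lit 345) (nat_lit 5) (nat_lit 346) (nat_lit 5) (nat_lit 294) (nat_lit 264) (nat_lit 222))) (XT.nd (nat_lit 78) (nat_lit 760) (nat_lit 0) (XT.lf (nat_lit 0) (nat_lit 2773046919) (nat_lit 912) (nat_lit 3212259077)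 (nat_lit 76) (nat_lit 2518607254) (nat_lit 322) (nat_lit 5) (nat_lit 334) (nat_lit 5) (nat_lit 323) (nat_lit 5) (nat_lit 295) (nat_lit 264) (nat_lit 221)) (XT.lf (nat_lit 0) (nat_lit 4243866094) (nat_lit 760) (nat_lit 1801322148) (nat_lit 836) (nat_lit 2575240110) (nat_lit 312) (nat_lit 5) (nat_lit 322) (nat_lit 5) (nat_lit 323) (nat_lit 5) (nat_lit 296) (nat_lit 264) (nat_lit 220))))))) (XT.nd (nat_lit 1014) (nat_lit 5852) (nat_lit 0) (XT.nd (nat_lit 468) (nat_lit 3876) (nat_lit 0) (XT.nd (nat_lit 234) (nat_lit 1444) (nat_lit 0) (XT.nd (nat_lit 78) (nat_lit 1444) (nat_lit 0) (XT.lf (nat_lit 0) (nat_lit 652338342) (nat_lit 836) (nat_lit 5569485749) (nat_lit 76) (nat_lit 2518853143) (nat_lit 301) (nat_lit 5) (nat_lit 312) (nat_lit 5) (nat_lit 302) (nat_lit 5) (nat_lit 297) (nat_lit 264) (nat_lit 219)) (XT.nd (nat_lit 78) (nat_lit 760) (nat_lit 0) (XT.lf (nat_lit 0) (nat_lit 2061887830) (nat_lit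 684) (nat_lit 1863919594) (nat_lit 760) (nat_lit 4938752000) (nat_lit 292) (nat_lit 5) (nat_lit 301) (nat_lit 5) (nat_lit 302) (nat_lit 5) (nat_lit 298) (nat_lit 264) (nat_lit 218)) (XT.lf (nat_lit 0) (nat_lit 924682570) (nat_lit 760) (nat_lit 6363948184) (nat_lit 836) (nat_lit 1703750249) (nat_lit 282) (nat_lit 5) (nat_lit 292) (nat_lit 5) (nat_lit 293) (nat_lit 5) (nat_lit 299) (nat_lit 264) (nat_lit 217)))) (XT.nd (nat_lit 78) (nat_lit 1368) (nat_lit 0) (XT.lf (nat_lit 0) (nat_lit 1596973687) (nat_lit 836) (nat_lit 246379074) (nat_lit 76) (nat_lit 7280716191) (nat_lit 281) (nat_lit 5) (nat_lit 292) (nat_lit 5) (nat_lit 282) (nat_lit 5) (nat_lit 300) (nat_lit 264) (nat_lit 216)) (XT.nd (nat_lit 78) (nat_lit 684) (nat_lit 0) (XT.lf (nat_lit 0) (nat_lit 4976306297) (nat_lit 760) (nat_lit 1452294269) (nat_lit 76) (nat_lit 2830869491) (nat_lit 272) (nat_lit 5) (nat_lit 282) (nat_lit 5) (nat_lit 273)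 (nat_lit 5) (nat_lit 301) (nat_lit 264) (nat_lit 215)) (XT.lf (nat_lit 0) (nat_lit 6707704111) (nat_lit 684) (nat_lit 1741456339) (nat_lit 760) (nat_lit 949971120) (nat_lit 263) (nat_lit 5) (nat_lit 272) (nat_lit 5) (nat_lit 273) (nat_lit 5) (nat_lit 302) (nat_lit 264) (nat_lit 214))))) (XT.nd (nat_lit 234) (nat_lit 1900) (nat_lit 0) (XT.nd (nat_lit 78) (nat_lit 1292) (nat_lit 0) (XT.lf (nat_lit 0) (nat_lit 2452666412) (nat_lit 684) (nat_lit 3991389717) (nat_lit 76) (nat_lit 3098603226) (nat_lit 254) (nat_lit 5) (nat_lit 263) (nat_lit 5) (nat_lit 255) (nat_lit 5) (nat_lit 303) (nat_lit 264) (nat_lit 213)) (XT.nd (nat_lit 78) (nat_lit 608) (nat_lit 0) (XT.lf (nat_lit 0) (nat_lit 4352474988) (nat_lit 684) (nat_lit 1587222447) (nat_lit 760) (nat_lit 3750803615) (nat_lit 245) (nat_lit 5) (nat_lit 254) (nat_lit 5) (nat_lit 255) (nat_lit 5) (nat_lit 304) (nat_lit 264) (nat_lit 212)) (XT.lf (nat_lit 0)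 (nat_lit 3102956884) (nat_lit 608) (nat_lit 6436101118) (nat_lit 684) (nat_lit 303602590) (nat_lit 237) (nat_lit 5) (nat_lit 245) (nat_lit 5) (nat_lit 246) (nat_lit 5) (nat_lit 305) (nat_lit 264) (nat_lit 211)))) (XT.nd (nat_lit 156) (nat_lit 684) (nat_lit 0) (XT.nd (nat_lit 78) (nat_lit 532) (nat_lit 0) (XT.lf (nat_lit 0) (nat_lit 1789027172) (nat_lit 608) (nat_lit 1413104707) (nat_lit 684) (nat_lit 6796912541) (nat_lit 228) (nat_lit 5) (nat_lit 236) (nat_lit 5) (nat_lit 237) (nat_lit 5) (nat_lit 306) (nat_lit 264) (nat_lit 210)) (XT.lf (nat_lit 0) (nat_lit 411297812) (nat_lit 532) (nat_lit 6410975456) (nat_lit 608) (nat_lit 3337573331) (nat_lit 221) (nat_lit 5) (nat_lit 228) (nat_lit 5) (nat_lit 229) (nat_lit 5) (nat_lit 307) (nat_lit 264) (nat_lit 209))) (XT.nd (nat_lit 78) (nat_lit 608) (nat_lit 0) (XT.lf (nat_lit 0) (nat_lit 229163748) (nat_lit 608) (nat_lit 1005640077) (nat_lit 76) (nat_lit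 9090540731) (nat_lit 220) (nat_lit 5) (nat_lit 228) (nat_lit 5) (nat_lit 221) (nat_lit 5) (nat_lit 308) (nat_lit 264) (nat_lit 208)) (XT.lf (nat_lit 0) (nat_lit 3879664309) (nat_lit 684) (nat_lit 2511678561) (nat_lit 76) (nat_lit 4103612808) (nat_lit 212) (nat_lit 5) (nat_lit 221) (nat_lit 5) (nat_lit 213) (nat_lit 5) (nat_lit 309) (nat_lit 264) (nat_lit 207)))))) (XT.nd (nat_lit 546) (nat_lit 2736) (nat_lit 0) (XT.nd (nat_lit 234) (nat_lit 1520) (nat_lit 0) (XT.nd (nat_lit 78) (nat_lit 1064) (nat_lit 0) (XT.lf (nat_lit 0) (nat_lit 6592891023) (nat_lit 532) (nat_lit 1048665075) (nat_lit 608) (nat_lit 3028092162) (nat_lit 205) (nat_lit 5) (nat_lit 212) (nat_lit 5) (nat_lit 213) (nat_lit 5) (nat_lit 310) (nat_lit 264) (nat_lit 206)) (XT.nd (nat_lit 78) (nat_lit 456) (nat_lit 0) (XT.lf (nat_lit 0) (nat_lit 682453346) (nat_lit 608) (nat_lit 5730977115) (nat_lit 76) (nat_lit 4435604268) (nat_lit 197)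 (nat_lit 5) (nat_lit 205) (nat_lit 5) (nat_lit 198) (nat_lit 5) (nat_lit 311) (nat_lit 264) (nat_lit 205)) (XT.lf (nat_lit 0) (nat_lit 3559665921) (nat_lit 456) (nat_lit 907468096) (nat_lit 532) (nat_lit 6566217610) (nat_lit 191) (nat_lit 5) (nat_lit 197) (nat_lit 5) (nat_lit 198) (nat_lit 5) (nat_lit 312) (nat_lit 264) (nat_lit 204)))) (XT.nd (nat_lit 156) (nat_lit 456) (nat_lit 0) (XT.nd (nat_lit 78) (nat_lit 532) (nat_lit 0) (XT.lf (nat_lit 0) (nat_lit 1908218380) (nat_lit 532) (nat_lit 6486356954) (nat_lit 608) (nat_lit 2828065795) (nat_lit 184) (nat_lit 5) (nat_lit 191) (nat_lit 5) (nat_lit 192) (nat_lit 5) (nat_lit 313) (nat_lit 264) (nat_lit 203)) (XT.lf (nat_lit 0) (nat_lit 176303027) (nat_lit 456) (nat_lit 838249826) (nat_lit 532) (nat_lit 10402835319) (nat_lit 177) (nat_lit 5) (nat_lit 183) (nat_lit 5) (nat_lit 184) (nat_lit 5) (nat_lit 314) (nat_lit 264) (nat_lit 202))) (XT.nd (nat_lit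 78) (nat_lit 456) (nat_lit 0) (XT.lf (nat_lit 0) (nat_lit 4978611637) (nat_lit 532) (nat_lit 1659177427) (nat_lit 76) (nat_lit 4978948426) (nat_lit 177) (nat_lit 5) (nat_lit 184) (nat_lit 5) (nat_lit 178) (nat_lit 5) (nat_lit 315) (nat_lit 264) (nat_lit 201)) (XT.lf (nat_lit 0) (nat_lit 8244702265) (nat_lit 456) (nat_lit 826026226) (nat_lit 532) (nat_lit 2751180744) (nat_lit 171) (nat_lit 5) (nat_lit 177) (nat_lit 5) (nat_lit 178) (nat_lit 5) (nat_lit 316) (nat_lit 264) (nat_lit 200))))) (XT.nd (nat_lit 234) (nat_lit 1368) (nat_lit 0) (XT.nd (nat_lit 78) (nat_lit 836) (nat_lit 0) (XT.lf (nat_lit 0) (nat_lit 1273569138) (nat_lit 532) (nat_lit 5622687993) (nat_lit 76) (nat_lit 5136087431) (nat_lit 164) (nat_lit 5) (nat_lit 171) (nat_lit 5) (nat_lit 165) (nat_lit 5) (nat_lit 317) (nat_lit 264) (nat_lit 199)) (XT.nd (nat_lit 78) (nat_lit 380) (nat_lit 0) (XT.lf (nat_lit 0) (nat_lit 4463580384) (nat_lit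 456) (nat_lit 928783171) (nat_lit 532) (nat_lit 6856174892) (nat_lit 158) (nat_lit 5) (nat_lit 164) (nat_lit 5) (nat_lit 165) (nat_lit 5) (nat_lit 318) (nat_lit 264) (nat_lit 198)) (XT.lf (nat_lit 0) (nat_lit 2389031362) (nat_lit 380) (nat_lit 7285851767) (nat_lit 456) (nat_lit 2795553931) (nat_lit 153) (nat_lit 5) (nat_lit 158) (nat_lit 5) (nat_lit 159) (nat_lit 5) (nat_lit 319) (nat_lit 264) (nat_lit 197)))) (XT.nd (nat_lit 156) (nat_lit 836) (nat_lit 0) (XT.nd (nat_lit 78) (nat_lit 0) (nat_lit 0) (XT.lf (nat_lit 0) (nat_lit 197212892) (nat_lit 456) (nat_lit 1185124832) (nat_lit 532) (nat_lit 11316223058) (nat_lit 146) (nat_lit 5) (nat_lit 152) (nat_lit 5) (nat_lit 153) (nat_lit 5) (nat_lit 320) (nat_lit 264) (nat_lit 196)) (XT.lf (nat_lit 0) (nat_lit 5703534444) (nat_lit 532) (nat_lit 2128632149) (nat_lit 76) (nat_lit 5099893530) (nat_lit 146) (nat_lit 5) (nat_lit 153) (nat_lit 5) (nat_lit 147)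 (nat_lit 5) (nat_lit 321) (nat_lit 264) (nat_lit 195))) (XT.nd (nat_lit 78) (nat_lit 456) (nat_lit 0) (XT.lf (nat_lit 0) (nat_lit 8595601625) (nat_lit 380) (nat_lit 1577704657) (nat_lit 456) (nat_lit 2998899238) (nat_lit 141) (nat_lit 5) (nat_lit 146) (nat_lit 5) (nat_lit 147) (nat_lit 5) (nat_lit 322) (nat_lit 264) (nat_lit 194)) (XT.lf (nat_lit 0) (nat_lit 1382644837) (nat_lit 456) (nat_lit 7190456492) (nat_lit 76) (nat_lit 4845439879) (nat_lit 135) (nat_lit 5) (nat_lit 141) (nat_lit 5) (nat_lit 136) (nat_lit 5) (nat_lit 323) (nat_lit 264) (nat_lit 193))))))))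
noncomputable def xc59 : XT := (XT.nd (nat_lit 2106) (nat_lit 1444) (nat_lit 0) (XT.nd (nat_lit 1014) (nat_lit 2584) (nat_lit 0) (XT.nd (nat_lit 468) (nat_lit 1596) (nat_lit 0) (XT.nd (nat_lit 234) (nat_lit 1064) (nat_lit 0) (XT.nd (nat_lit 78) (nat_lit 456) (nat_lit 0) (XT.lf (nat_lit 0) (nat_lit 3701902641) (nat_lit 380) (nat_lit 2175565094) (nat_lit 456) (nat_lit 7793969615) (nat_lit 130) (nat_lit 5) (nat_lit 135) (nat_lit 5) (nat_lit 136) (nat_lit 5) (nat_lit 324) (nat_lit 264) (nat_lit 192)) (XT.nd (nat_lit 78) (nat_lit 76) (nat_lit 0) (XT.lf (nat_lit 0) (nat_lit 1009312598) (nat_lit 380) (nat_lit 9539348962) (nat_lit 456) (nat_lit 3382446111) (nat_lit 125) (nat_lit 5) (nat_lit 130) (nat_lit 5) (nat_lit 131) (nat_lit 5) (nat_lit 325) (nat_lit 264) (nat_lit 191)) (XT.lf (nat_lit 0) (nat_lit 1186556394) (nat_lit 456) (nat_lit 1828767160) (nat_lit 76) (nat_lit 11182303383) (nat_lit 124) (nat_lit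 5) (nat_lit 130) (nat_lit 5) (nat_lit 125) (nat_lit 5) (nat_lit 326) (nat_lit 264) (nat_lit 190)))) (XT.nd (nat_lit 78) (nat_lit 760) (nat_lit 0) (XT.lf (nat_lit 0) (nat_lit 5893049904) (nat_lit 380) (nat_lit 4856067932) (nat_lit 76) (nat_lit 3721665750) (nat_lit 120) (nat_lit 5) (nat_lit 125) (nat_lit 5) (nat_lit 121) (nat_lit 5) (nat_lit 327) (nat_lit 264) (nat_lit 189)) (XT.nd (nat_lit 78) (nat_lit 380) (nat_lit 0) (XT.lf (nat_lit 0) (nat_lit 6681161362) (nat_lit 380) (nat_lit 4095308114) (nat_lit 456) (nat_lit 3974966820) (nat_lit 115) (nat_lit 5) (nat_lit 120) (nat_lit 5) (nat_lit 121) (nat_lit 5) (nat_lit 328) (nat_lit 264) (nat_lit 188)) (XT.lf (nat_lit 0) (nat_lit 790557363) (nat_lit 380) (nat_lit 11485904661) (nat_lit 76) (nat_lit 2763267948) (nat_lit 110) (nat_lit 5) (nat_lit 115) (nat_lit 5) (nat_lit 111) (nat_lit 5) (nat_lit 329) (nat_lit 264) (nat_lit 187))))) (XT.nd (nat_lit 234)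 (nat_lit 912) (nat_lit 0) (XT.nd (nat_lit 78) (nat_lit 380) (nat_lit 0) (XT.lf (nat_lit 0) (nat_lit 189588790) (nat_lit 304) (nat_lit 5500290336) (nat_lit 380) (nat_lit 9645385896) (nat_lit 106) (nat_lit 5) (nat_lit 110) (nat_lit 5) (nat_lit 111) (nat_lit 5) (nat_lit 330) (nat_lit 264) (nat_lit 186)) (XT.nd (nat_lit 78) (nat_lit 380) (nat_lit 0) (XT.lf (nat_lit 0) (nat_lit 10785614465) (nat_lit 380) (nat_lit 3335436009) (nat_lit 76) (nat_lit 1517641314) (nat_lit 106) (nat_lit 5) (nat_lit 111) (nat_lit 5) (nat_lit 107) (nat_lit 5) (nat_lit 331) (nat_lit 264) (nat_lit 185)) (XT.lf (nat_lit 0) (nat_lit 139124523) (nat_lit 380) (nat_lit 7100645110) (nat_lit 76) (nat_lit 8710310346) (nat_lit 101) (nat_lit 5) (nat_lit 106) (nat_lit 5) (nat_lit 102) (nat_lit 5) (nat_lit 332) (nat_lit 264) (nat_lit 184)))) (XT.nd (nat_lit 156) (nat_lit 380) (nat_lit 0) (XT.nd (nat_lit 78) (nat_lit 228) (nat_lit 0) (XT.lf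 (nat_lit 0) (nat_lit 5152525216) (nat_lit 304) (nat_lit 82280784) (nat_lit 380) (nat_lit 11034982539) (nat_lit 97) (nat_lit 5) (nat_lit 101) (nat_lit 5) (nat_lit 102) (nat_lit 5) (nat_lit 333) (nat_lit 264) (nat_lit 183)) (XT.lf (nat_lit 0) (nat_lit 1182957304) (nat_lit 228) (nat_lit 9367489013) (nat_lit 304) (nat_lit 6047313138) (nat_lit 94) (nat_lit 5) (nat_lit 97) (nat_lit 5) (nat_lit 98) (nat_lit 5) (nat_lit 334) (nat_lit 264) (nat_lit 182))) (XT.nd (nat_lit 78) (nat_lit 380) (nat_lit 0) (XT.lf (nat_lit 0) (nat_lit 13947463900) (nat_lit 228) (nat_lit 2118307761) (nat_lit 304) (nat_lit 869006018) (nat_lit 94) (nat_lit 5) (nat_lit 97) (nat_lit 5) (nat_lit 98) (nat_lit 5) (nat_lit 335) (nat_lit 264) (nat_lit 181)) (XT.lf (nat_lit 0) (nat_lit 4470442790) (nat_lit 380) (nat_lit 7457834241) (nat_lit 76) (nat_lit 5351774616) (nat_lit 89) (nat_lit 5) (nat_lit 94) (nat_lit 5) (nat_lit 90) (nat_lit 5)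 (nat_lit 336) (nat_lit 264) (nat_lit 180)))))) (XT.nd (nat_lit 546) (nat_lit 1216) (nat_lit 0) (XT.nd (nat_lit 234) (nat_lit 760) (nat_lit 0) (XT.nd (nat_lit 78) (nat_lit 380) (nat_lit 0) (XT.lf (nat_lit 0) (nat_lit 5417747053) (nat_lit 228) (nat_lit 4575973062) (nat_lit 304) (nat_lit 7641151356) (nat_lit 86) (nat_lit 5) (nat_lit 89) (nat_lit 5) (nat_lit 90) (nat_lit 5) (nat_lit 337) (nat_lit 264) (nat_lit 179)) (XT.nd (nat_lit 78) (nat_lit 76) (nat_lit 0) (XT.lf (nat_lit 0) (nat_lit 717465736) (nat_lit 304) (nat_lit 15006401041) (nat_lit 380) (nat_lit 2275656901) (nat_lit 82) (nat_lit 5) (nat_lit 86) (nat_lit 5) (nat_lit 87) (nat_lit 5) (nat_lit 338) (nat_lit 264) (nat_lit 178)) (XT.lf (nat_lit 0) (nat_lit 3288694336) (nat_lit 380) (nat_lit 4272468805) (nat_lit 76) (nat_lit 10811930317) (nat_lit 81) (nat_lit 5) (nat_lit 86) (nat_lit 5) (nat_lit 82) (nat_lit 5) (nat_lit 339) (nat_lit 264) (nat_lit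 177)))) (XT.nd (nat_lit 156) (nat_lit 304) (nat_lit 0) (XT.nd (nat_lit 78) (nat_lit 228) (nat_lit 0) (XT.lf (nat_lit 0) (nat_lit 9017464064) (nat_lit 304) (nat_lit 9578008978) (nat_lit 76) (nat_lit 161538703) (nat_lit 78) (nat_lit 5) (nat_lit 82) (nat_lit 5) (nat_lit 79) (nat_lit 5) (nat_lit 340) (nat_lit 264) (nat_lit 176)) (XT.lf (nat_lit 0) (nat_lit 3888709174) (nat_lit 228) (nat_lit 11102387697) (nat_lit 304) (nat_lit 4159900766) (nat_lit 75) (nat_lit 5) (nat_lit 78) (nat_lit 5) (nat_lit 79) (nat_lit 5) (nat_lit 341) (nat_lit 264) (nat_lit 175))) (XT.nd (nat_lit 78) (nat_lit 228) (nat_lit 0) (XT.lf (nat_lit 0) (nat_lit 1600077401) (nat_lit 304) (nat_lit 1727455802) (nat_lit 76) (nat_lit 16228398235) (nat_lit 74) (nat_lit 5) (nat_lit 78) (nat_lit 5) (nat_lit 75) (nat_lit 5) (nat_lit 342) (nat_lit 264) (nat_lit 174)) (XT.lf (nat_lit 0) (nat_lit 7556817023) (nat_lit 304) (nat_lit 7705825471) (nat_lit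 76) (nat_lit 4708220536) (nat_lit 71) (nat_lit 5) (nat_lit 75) (nat_lit 5) (nat_lit 72) (nat_lit 5) (nat_lit 343) (nat_lit 264) (nat_lit 173))))) (XT.nd (nat_lit 234) (nat_lit 684) (nat_lit 0) (XT.nd (nat_lit 78) (nat_lit 304) (nat_lit 0) (XT.lf (nat_lit 0) (nat_lit 6313502395) (nat_lit 228) (nat_lit 7423573938) (nat_lit 304) (nat_lit 6660278911) (nat_lit 68) (nat_lit 5) (nat_lit 71) (nat_lit 5) (nat_lit 72) (nat_lit 5) (nat_lit 344) (nat_lit 264) (nat_lit 172)) (XT.nd (nat_lit 78) (nat_lit 304) (nat_lit 0) (XT.lf (nat_lit 0) (nat_lit 20129755734) (nat_lit 304) (nat_lit 30858311) (nat_lit 76) (nat_lit 675496693) (nat_lit 68) (nat_lit 5) (nat_lit 72) (nat_lit 5) (nat_lit 69) (nat_lit 5) (nat_lit 345) (nat_lit 264) (nat_lit 171)) (XT.lf (nat_lit 0) (nat_lit 5470893212) (nat_lit 304) (nat_lit 6785131023) (nat_lit 76) (nat_lit 9028990954) (nat_lit 64) (nat_lit 5) (nat_lit 68) (nat_lit 5) (nat_lit 65)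 (nat_lit 5) (nat_lit 346) (nat_lit 264) (nat_lit 170)))) (XT.nd (nat_lit 156) (nat_lit 304) (nat_lit 0) (XT.nd (nat_lit 78) (nat_lit 152) (nat_lit 0) (XT.lf (nat_lit 0) (nat_lit 7769014129) (nat_lit 228) (nat_lit 4076985484) (nat_lit 304) (nat_lit 9900859128) (nat_lit 61) (nat_lit 5) (nat_lit 64) (nat_lit 5) (nat_lit 65) (nat_lit 5) (nat_lit 347) (nat_lit 264) (nat_lit 169)) (XT.lf (nat_lit 0) (nat_lit 562454582) (nat_lit 152) (nat_lit 17899900354) (nat_lit 228) (nat_lit 3759210611) (nat_lit 59) (nat_lit 5) (nat_lit 61) (nat_lit 5) (nat_lit 62) (nat_lit 5) (nat_lit 348) (nat_lit 264) (nat_lit 168))) (XT.nd (nat_lit 78) (nat_lit 228) (nat_lit 0) (XT.lf (nat_lit 0) (nat_lit 2627796696) (nat_lit 228) (nat_lit 7069903033) (nat_lit 76) (nat_lit 13010592577) (nat_lit 58) (nat_lit 5) (nat_lit 61) (nat_lit 5) (nat_lit 59) (nat_lit 5) (nat_lit 349) (nat_lit 264) (nat_lit 167)) (XT.lf (nat_lit 0) (nat_lit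 7990993468) (nat_lit 228) (nat_lit 1189494333) (nat_lit 304) (nat_lit 14028140434) (nat_lit 55) (nat_lit 5) (nat_lit 58) (nat_lit 5) (nat_lit 59) (nat_lit 5) (nat_lit 350) (nat_lit 264) (nat_lit 166))))))) (XT.nd (nat_lit 34086) (nat_lit 0) (nat_lit 38304) (XT.nd (nat_lit 546) (nat_lit 532) (nat_lit 0) (XT.nd (nat_lit 234) (nat_lit 456) (nat_lit 0) (XT.nd (nat_lit 78) (nat_lit 456) (nat_lit 0) (XT.lf (nat_lit 0) (nat_lit 16000508802) (nat_lit 304) (nat_lit 217346890) (nat_lit 76) (nat_lit 7504710619) (nat_lit 55) (nat_lit 5) (nat_lit 59) (nat_lit 5) (nat_lit 56) (nat_lit 5) (nat_lit 351) (nat_lit 264) (nat_lit 165)) (XT.nd (nat_lit 78) (nat_lit 304) (nat_lit 0) (XT.lf (nat_lit 0) (nat_lit 15382733333) (nat_lit 152) (nat_lit 7724351770) (nat_lit 228) (nat_lit 1143205178) (nat_lit 53) (nat_lit 5) (nat_lit 55) (nat_lit 5) (nat_lit 56) (nat_lit 5) (nat_lit 352) (nat_lit 264) (nat_lit 164)) (XT.lf (nat_lit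 0) (nat_lit 5585397606) (nat_lit 304) (nat_lit 18132615209) (nat_lit 76) (nat_lit 1074582951) (nat_lit 49) (nat_lit 5) (nat_lit 53) (nat_lit 5) (nat_lit 50) (nat_lit 5) (nat_lit 353) (nat_lit 264) (nat_lit 163)))) (XT.nd (nat_lit 156) (nat_lit 304) (nat_lit 0) (XT.nd (nat_lit 78) (nat_lit 152) (nat_lit 0) (XT.lf (nat_lit 0) (nat_lit 12587332143) (nat_lit 304) (nat_lit 2678269306) (nat_lit 76) (nat_lit 10083684053) (nat_lit 49) (nat_lit 5) (nat_lit 53) (nat_lit 5) (nat_lit 50) (nat_lit 5) (nat_lit 354) (nat_lit 264) (nat_lit 162)) (XT.lf (nat_lit 0) (nat_lit 13373032464) (nat_lit 152) (nat_lit 6488626946) (nat_lit 228) (nat_lit 6059775972) (nat_lit 47) (nat_lit 5) (nat_lit 49) (nat_lit 5) (nat_lit 50) (nat_lit 5) (nat_lit 355) (nat_lit 264) (nat_lit 161))) (XT.nd (nat_lit 78) (nat_lit 0) (nat_lit 0) (XT.lf (nat_lit 0) (nat_lit 865488010) (nat_lit 304) (nat_lit 23097253855) (nat_lit 76) (nat_lit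 2547242543) (nat_lit 43) (nat_lit 5) (nat_lit 47) (nat_lit 5) (nat_lit 44) (nat_lit 5) (nat_lit 356) (nat_lit 264) (nat_lit 160)) (XT.lf (nat_lit 0) (nat_lit 8021752379) (nat_lit 304) (nat_lit 7215908385) (nat_lit 76) (nat_lit 11875622292) (nat_lit 43) (nat_lit 5) (nat_lit 47) (nat_lit 5) (nat_lit 44) (nat_lit 5) (nat_lit 357) (nat_lit 264) (nat_lit 159))))) (XT.nd (nat_lit 234) (nat_lit 152) (nat_lit 0) (XT.nd (nat_lit 78) (nat_lit 228) (nat_lit 0) (XT.lf (nat_lit 0) (nat_lit 9222638069) (nat_lit 152) (nat_lit 6206756171) (nat_lit 228) (nat_lit 12304558144) (nat_lit 41) (nat_lit 5) (nat_lit 43) (nat_lit 5) (nat_lit 44) (nat_lit 5) (nat_lit 358) (nat_lit 264) (nat_lit 158)) (XT.nd (nat_lit 78) (nat_lit 228) (nat_lit 0) (XT.lf (nat_lit 0) (nat_lit 23105701609) (nat_lit 228) (nat_lit 2179465223) (nat_lit 76) (nat_lit 3087151587) (nat_lit 41) (nat_lit 5) (nat_lit 44) (nat_lit 5) (nat_lit 42) (nat_lit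 5) (nat_lit 359) (nat_lit 264) (nat_lit 157)) (XT.lf (nat_lit 0) (nat_lit 2072316399) (nat_lit 228) (nat_lit 14285551389) (nat_lit 76) (nat_lit 12669398231) (nat_lit 38) (nat_lit 5) (nat_lit 41) (nat_lit 5) (nat_lit 39) (nat_lit 5) (nat_lit 360) (nat_lit 264) (nat_lit 156)))) (XT.nd (nat_lit 33150) (nat_lit 0) (nat_lit 44992) (XT.nd (nat_lit 78) (nat_lit 0) (nat_lit 0) (XT.lf (nat_lit 0) (nat_lit 2457303956) (nat_lit 152) (nat_lit 7111826277) (nat_lit 228) (nat_lit 20131855204) (nat_lit 36) (nat_lit 5) (nat_lit 38) (nat_lit 5) (nat_lit 39) (nat_lit 5) (nat_lit 361) (nat_lit 264) (nat_lit 155)) (XT.lf (nat_lit 0) (nat_lit 17382276277) (nat_lit 228) (nat_lit 10549401294) (nat_lit 76) (nat_lit 2461415114) (nat_lit 36) (nat_lit 5) (nat_lit 39) (nat_lit 5) (nat_lit 37) (nat_lit 5) (nat_lit 362) (nat_lit 264) (nat_lit 154))) (XT.nd (nat_lit 78) (nat_lit 0) (nat_lit 0) (XT.lf (nat_lit 0) (nat_lit 394256575)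 (nat_lit 0) (nat_lit 394256575) (nat_lit 532) (nat_lit 2487110210) (nat_lit 628) (nat_lit 5) (nat_lit 628) (nat_lit 3) (nat_lit 635) (nat_lit 3) (nat_lit 265) (nat_lit 265) (nat_lit 250)) (XT.lf (nat_lit 0) (nat_lit 5160254101) (nat_lit 532) (nat_lit 1153300768) (nat_lit 608) (nat_lit 260887199) (nat_lit 628) (nat_lit 5) (nat_lit 635) (nat_lit 3) (nat_lit 636) (nat_lit 5) (nat_lit 266) (nat_lit 265) (nat_lit 249)))))) (XT.nd (nat_lit 546) (nat_lit 3876) (nat_lit 0) (XT.nd (nat_lit 234) (nat_lit 1520) (nat_lit 0) (XT.nd (nat_lit 78) (nat_lit 684) (nat_lit 0) (XT.lf (nat_lit 0) (nat_lit 2112228165) (nat_lit 608) (nat_lit 3051514701) (nat_lit 684) (nat_lit 1436663895) (nat_lit 620) (nat_lit 5) (nat_lit 628) (nat_lit 5) (nat_lit 629) (nat_lit 5) (nat_lit 267) (nat_lit 265) (nat_lit 248)) (XT.nd (nat_lit 78) (nat_lit 684) (nat_lit 0) (XT.lf (nat_lit 76) (nat_lit 1720423119) (nat_lit 0) (nat_lit 3888072507)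 (nat_lit 684) (nat_lit 1020946572) (nat_lit 621) (nat_lit 5) (nat_lit 620) (nat_lit 5) (nat_lit 629) (nat_lit 5) (nat_lit 268) (nat_lit 265) (nat_lit 247)) (XT.lf (nat_lit 0) (nat_lit 2404267945) (nat_lit 684) (nat_lit 72632709) (nat_lit 760) (nat_lit 4184505876) (nat_lit 611) (nat_lit 5) (nat_lit 620) (nat_lit 5) (nat_lit 621) (nat_lit 5) (nat_lit 269) (nat_lit 265) (nat_lit 246)))) (XT.nd (nat_lit 156) (nat_lit 836) (nat_lit 0) (XT.nd (nat_lit 78) (nat_lit 684) (nat_lit 0) (XT.lf (nat_lit 76) (nat_lit 4894077188) (nat_lit 0) (nat_lit 926629440) (nat_lit 760) (nat_lit 875574685) (nat_lit 612) (nat_lit 5) (nat_lit 611) (nat_lit 5) (nat_lit 621) (nat_lit 5) (nat_lit 270) (nat_lit 265) (nat_lit 245)) (XT.lf (nat_lit 0) (nat_lit 2472504503) (nat_lit 760) (nat_lit 3507800708) (nat_lit 836) (nat_lit 753700081) (nat_lit 602) (nat_lit 5) (nat_lit 612) (nat_lit 5) (nat_lit 613) (nat_lit 5) (nat_lit 271)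 (nat_lit 265) (nat_lit 244))) (XT.nd (nat_lit 78) (nat_lit 836) (nat_lit 0) (XT.lf (nat_lit 76) (nat_lit 1591725659) (nat_lit 0) (nat_lit 4222707857) (nat_lit 836) (nat_lit 960328808) (nat_lit 603) (nat_lit 5) (nat_lit 602) (nat_lit 5) (nat_lit 613) (nat_lit 5) (nat_lit 272) (nat_lit 265) (nat_lit 243)) (XT.lf (nat_lit 0) (nat_lit 2310424868) (nat_lit 836) (nat_lit 15068082) (nat_lit 912) (nat_lit 4492998587) (nat_lit 591) (nat_lit 5) (nat_lit 602) (nat_lit 5) (nat_lit 603) (nat_lit 5) (nat_lit 273) (nat_lit 265) (nat_lit 242))))) (XT.nd (nat_lit 234) (nat_lit 3040) (nat_lit 0) (XT.nd (nat_lit 78) (nat_lit 836) (nat_lit 0) (XT.lf (nat_lit 76) (nat_lit 5298133646) (nat_lit 0) (nat_lit 284747754) (nat_lit 912) (nat_lit 1282305528) (nat_lit 592) (nat_lit 5) (nat_lit 591) (nat_lit 5) (nat_lit 603) (nat_lit 5) (nat_lit 274) (nat_lit 265) (nat_lit 241)) (XT.nd (nat_lit 78) (nat_lit 0) (nat_lit 0) (XT.lf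 (nat_lit 0) (nat_lit 1934960778) (nat_lit 912) (nat_lit 3106079115) (nat_lit 988) (nat_lit 1873656871) (nat_lit 580) (nat_lit 5) (nat_lit 592) (nat_lit 5) (nat_lit 593) (nat_lit 5) (nat_lit 275) (nat_lit 265) (nat_lit 240)) (XT.lf (nat_lit 76) (nat_lit 2346989883) (nat_lit 0) (nat_lit 2799682910) (nat_lit 988) (nat_lit 1820647764) (nat_lit 581) (nat_lit 5) (nat_lit 580) (nat_lit 5) (nat_lit 593) (nat_lit 5) (nat_lit 276) (nat_lit 265) (nat_lit 239)))) (XT.nd (nat_lit 156) (nat_lit 2052) (nat_lit 0) (XT.nd (nat_lit 78) (nat_lit 0) (nat_lit 76) (XT.lf (nat_lit 76) (nat_lit 912460032) (nat_lit 0) (nat_lit 418459686) (nat_lit 1064) (nat_lit 5692187270) (nat_lit 568) (nat_lit 5) (nat_lit 567) (nat_lit 5) (nat_lit 581) (nat_lit 5) (nat_lit 277) (nat_lit 265) (nat_lit 238)) (XT.lf (nat_lit 0) (nat_lit 4489517508) (nat_lit 988) (nat_lit 507436516) (nat_lit 76) (nat_lit 2084725110) (nat_lit 568) (nat_lit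 5) (nat_lit 581) (nat_lit 5) (nat_lit 569) (nat_lit 5) (nat_lit 278) (nat_lit 265) (nat_lit 237))) (XT.nd (nat_lit 78) (nat_lit 1064) (nat_lit 0) (XT.lf (nat_lit 0) (nat_lit 524855992) (nat_lit 1064) (nat_lit 1891063386) (nat_lit 76) (nat_lit 4727466113) (nat_lit 554) (nat_lit 5) (nat_lit 568) (nat_lit 5) (nat_lit 555) (nat_lit 5) (nat_lit 279) (nat_lit 265) (nat_lit 236)) (XT.lf (nat_lit 0) (nat_lit 3628802061) (nat_lit 1140) (nat_lit 3265309514) (nat_lit 76) (nat_lit 314005885) (nat_lit 540) (nat_lit 5) (nat_lit 555) (nat_lit 5) (nat_lit 541) (nat_lit 5) (nat_lit 280) (nat_lit 265) (nat_lit 235))))))))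
noncomputable def xc60 : XT := (XT.nd (nat_lit 2106) (nat_lit 9956) (nat_lit 0) (XT.nd (nat_lit 1014) (nat_lit 8892) (nat_lit 0) (XT.nd (nat_lit 468) (nat_lit 8208) (nat_lit 0) (XT.nd (nat_lit 234) (nat_lit 2888) (nat_lit 0) (XT.nd (nat_lit 78) (nat_lit 2584) (nat_lit 0) (XT.lf (nat_lit 0) (nat_lit 2646038034) (nat_lit 1140) (nat_lit 4126049629) (nat_lit 1216) (nat_lit 503866499) (nat_lit 525) (nat_lit 5) (nat_lit 540) (nat_lit 5) (nat_lit 541) (nat_lit 5) (nat_lit 281) (nat_lit 265) (nat_lit 234)) (XT.nd (nat_lit 78) (nat_lit 1292) (nat_lit 0) (XT.lf (nat_lit 0) (nat_lit 1358782686) (nat_lit 1216) (nat_lit 1202908671) (nat_lit 1292) (nat_lit 4785216046) (nat_lit 508) (nat_lit 5) (nat_lit 524) (nat_lit 5) (nat_lit 525) (nat_lit 5) (nat_lit 282) (nat_lit 265) (nat_lit 233)) (XT.lf (nat_lit 0) (nat_lit 80347317) (nat_lit 1292) (nat_lit 5580110584) (nat_lit 1368) (nat_lit 1760583557) (nat_lit 491)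 (nat_lit 5) (nat_lit 508) (nat_lit 5) (nat_lit 509) (nat_lit 5) (nat_lit 283) (nat_lit 265) (nat_lit 232)))) (XT.nd (nat_lit 78) (nat_lit 2812) (nat_lit 0) (XT.lf (nat_lit 0) (nat_lit 1291721978) (nat_lit 1368) (nat_lit 1177490460) (nat_lit 76) (nat_lit 5028993823) (nat_lit 490) (nat_lit 5) (nat_lit 508) (nat_lit 5) (nat_lit 491) (nat_lit 5) (nat_lit 284) (nat_lit 265) (nat_lit 231)) (XT.nd (nat_lit 78) (nat_lit 1444) (nat_lit 0) (XT.lf (nat_lit 0) (nat_lit 4359001345) (nat_lit 1444) (nat_lit 2431863309) (nat_lit 76) (nat_lit 787716586) (nat_lit 472) (nat_lit 5) (nat_lit 491) (nat_lit 5) (nat_lit 473) (nat_lit 5) (nat_lit 285) (nat_lit 265) (nat_lit 230)) (XT.lf (nat_lit 0) (nat_lit 3975986878) (nat_lit 1444) (nat_lit 3503519246) (nat_lit 1520) (nat_lit 182709498) (nat_lit 453) (nat_lit 5) (nat_lit 472) (nat_lit 5) (nat_lit 473) (nat_lit 5) (nat_lit 286) (nat_lit 265) (nat_lit 229))))) (XT.nd (nat_lit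 234) (nat_lit 3268) (nat_lit 0) (XT.nd (nat_lit 78) (nat_lit 3344) (nat_lit 0) (XT.lf (nat_lit 0) (nat_lit 2803699662) (nat_lit 1520) (nat_lit 50049967) (nat_lit 1596) (nat_lit 4895353560) (nat_lit 432) (nat_lit 5) (nat_lit 452) (nat_lit 5) (nat_lit 453) (nat_lit 5) (nat_lit 287) (nat_lit 265) (nat_lit 228)) (XT.nd (nat_lit 78) (nat_lit 1748) (nat_lit 0) (XT.lf (nat_lit 0) (nat_lit 1621995819) (nat_lit 1596) (nat_lit 4329752039) (nat_lit 1672) (nat_lit 1887433626) (nat_lit 411) (nat_lit 5) (nat_lit 432) (nat_lit 5) (nat_lit 433) (nat_lit 5) (nat_lit 288) (nat_lit 265) (nat_lit 227)) (XT.lf (nat_lit 0) (nat_lit 444473118) (nat_lit 1672) (nat_lit 703183877) (nat_lit 1748) (nat_lit 6785155268) (nat_lit 388) (nat_lit 5) (nat_lit 410) (nat_lit 5) (nat_lit 411) (nat_lit 5) (nat_lit 289) (nat_lit 265) (nat_lit 226)))) (XT.nd (nat_lit 156) (nat_lit 1824) (nat_lit 0) (XT.nd (nat_lit 78) (nat_lit 1444) (nat_lit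 0) (XT.lf (nat_lit 0) (nat_lit 4228273620) (nat_lit 1748) (nat_lit 746197229) (nat_lit 76) (nat_lit 3054991013) (nat_lit 388) (nat_lit 5) (nat_lit 411) (nat_lit 5) (nat_lit 389) (nat_lit 5) (nat_lit 290) (nat_lit 265) (nat_lit 225)) (XT.lf (nat_lit 0) (nat_lit 6200769191) (nat_lit 1444) (nat_lit 1165767956) (nat_lit 1520) (nat_lit 763229176) (nat_lit 369) (nat_lit 5) (nat_lit 388) (nat_lit 5) (nat_lit 389) (nat_lit 5) (nat_lit 291) (nat_lit 265) (nat_lit 224))) (XT.nd (nat_lit 78) (nat_lit 912) (nat_lit 0) (XT.lf (nat_lit 0) (nat_lit 2312942611) (nat_lit 912) (nat_lit 3140860916) (nat_lit 76) (nat_lit 2779464171) (nat_lit 357) (nat_lit 5) (nat_lit 369) (nat_lit 5) (nat_lit 358) (nat_lit 5) (nat_lit 292) (nat_lit 265) (nat_lit 223)) (XT.lf (nat_lit 0) (nat_lit 3976031069) (nat_lit 912) (nat_lit 1465207843) (nat_lit 988) (nat_lit 2899185522) (nat_lit 345) (nat_lit 5) (nat_lit 357) (nat_lit 5) (nat_lit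 358) (nat_lit 5) (nat_lit 293) (nat_lit 265) (nat_lit 222)))))) (XT.nd (nat_lit 546) (nat_lit 4028) (nat_lit 0) (XT.nd (nat_lit 234) (nat_lit 2356) (nat_lit 0) (XT.nd (nat_lit 78) (nat_lit 1596) (nat_lit 0) (XT.lf (nat_lit 0) (nat_lit 191829269) (nat_lit 912) (nat_lit 5608141629) (nat_lit 76) (nat_lit 2651209510) (nat_lit 333) (nat_lit 5) (nat_lit 345) (nat_lit 5) (nat_lit 334) (nat_lit 5) (nat_lit 294) (nat_lit 265) (nat_lit 221)) (XT.nd (nat_lit 78) (nat_lit 760) (nat_lit 0) (XT.lf (nat_lit 0) (nat_lit 1679869436) (nat_lit 836) (nat_lit 1633331648) (nat_lit 912) (nat_lit 5252185589) (nat_lit 322) (nat_lit 5) (nat_lit 333) (nat_lit 5) (nat_lit 334) (nat_lit 5) (nat_lit 295) (nat_lit 265) (nat_lit 220)) (XT.lf (nat_lit 0) (nat_lit 495191577) (nat_lit 760) (nat_lit 6019727651) (nat_lit 836) (nat_lit 2168415492) (nat_lit 312) (nat_lit 5) (nat_lit 322) (nat_lit 5) (nat_lit 323) (nat_lit 5) (nat_lit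 296) (nat_lit 265) (nat_lit 219)))) (XT.nd (nat_lit 156) (nat_lit 1520) (nat_lit 0) (XT.nd (nat_lit 78) (nat_lit 760) (nat_lit 0) (XT.lf (nat_lit 0) (nat_lit 981621968) (nat_lit 836) (nat_lit 704686476) (nat_lit 76) (nat_lit 7118689741) (nat_lit 311) (nat_lit 5) (nat_lit 322) (nat_lit 5) (nat_lit 312) (nat_lit 5) (nat_lit 297) (nat_lit 265) (nat_lit 218)) (XT.lf (nat_lit 0) (nat_lit 4191923525) (nat_lit 836) (nat_lit 1940674042) (nat_lit 76) (nat_lit 2797568783) (nat_lit 301) (nat_lit 5) (nat_lit 312) (nat_lit 5) (nat_lit 302) (nat_lit 5) (nat_lit 298) (nat_lit 265) (nat_lit 217))) (XT.nd (nat_lit 78) (nat_lit 836) (nat_lit 0) (XT.lf (nat_lit 0) (nat_lit 5858056837) (nat_lit 684) (nat_lit 1627260765) (nat_lit 760) (nat_lit 1574080876) (nat_lit 292) (nat_lit 5) (nat_lit 301) (nat_lit 5) (nat_lit 302) (nat_lit 5) (nat_lit 299) (nat_lit 265) (nat_lit 216)) (XT.lf (nat_lit 0) (nat_lit 1660252807) (nat_lit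 836) (nat_lit 4509299348) (nat_lit 76) (nat_lit 3022832132) (nat_lit 281) (nat_lit 5) (nat_lit 292) (nat_lit 5) (nat_lit 282) (nat_lit 5) (nat_lit 300) (nat_lit 265) (nat_lit 215))))) (XT.nd (nat_lit 234) (nat_lit 1976) (nat_lit 0) (XT.nd (nat_lit 78) (nat_lit 1368) (nat_lit 0) (XT.lf (nat_lit 0) (nat_lit 3470420770) (nat_lit 684) (nat_lit 1490295589) (nat_lit 760) (nat_lit 4368666714) (nat_lit 272) (nat_lit 5) (nat_lit 281) (nat_lit 5) (nat_lit 282) (nat_lit 5) (nat_lit 301) (nat_lit 265) (nat_lit 214)) (XT.nd (nat_lit 78) (nat_lit 684) (nat_lit 0) (XT.lf (nat_lit 0) (nat_lit 2216057836) (nat_lit 684) (nat_lit 6147387312) (nat_lit 760) (nat_lit 1107021652) (nat_lit 263) (nat_lit 5) (nat_lit 272) (nat_lit 5) (nat_lit 273) (nat_lit 5) (nat_lit 302) (nat_lit 265) (nat_lit 213)) (XT.lf (nat_lit 0) (nat_lit 913408010) (nat_lit 608) (nat_lit 1302809748) (nat_lit 684) (nat_lit 7399445135) (nat_lit 254)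 (nat_lit 5) (nat_lit 262) (nat_lit 5) (nat_lit 263) (nat_lit 5) (nat_lit 303) (nat_lit 265) (nat_lit 212)))) (XT.nd (nat_lit 156) (nat_lit 1292) (nat_lit 0) (XT.nd (nat_lit 78) (nat_lit 684) (nat_lit 0) (XT.lf (nat_lit 0) (nat_lit 5636344587) (nat_lit 684) (nat_lit 442621197) (nat_lit 76) (nat_lit 3685895098) (nat_lit 254) (nat_lit 5) (nat_lit 263) (nat_lit 5) (nat_lit 255) (nat_lit 5) (nat_lit 304) (nat_lit 265) (nat_lit 211)) (XT.lf (nat_lit 0) (nat_lit 8092042230) (nat_lit 684) (nat_lit 1068790904) (nat_lit 760) (nat_lit 757702412) (nat_lit 245) (nat_lit 5) (nat_lit 254) (nat_lit 5) (nat_lit 255) (nat_lit 5) (nat_lit 305) (nat_lit 265) (nat_lit 210))) (XT.nd (nat_lit 78) (nat_lit 608) (nat_lit 0) (XT.lf (nat_lit 0) (nat_lit 2694191904) (nat_lit 684) (nat_lit 3289735489) (nat_lit 76) (nat_lit 4092263692) (nat_lit 236) (nat_lit 5) (nat_lit 245) (nat_lit 5) (nat_lit 237) (nat_lit 5) (nat_lit 306)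 (nat_lit 265) (nat_lit 209)) (XT.lf (nat_lit 0) (nat_lit 5433607987) (nat_lit 608) (nat_lit 803243503) (nat_lit 684) (nat_lit 4001707748) (nat_lit 228) (nat_lit 5) (nat_lit 236) (nat_lit 5) (nat_lit 237) (nat_lit 5) (nat_lit 307) (nat_lit 265) (nat_lit 208))))))) (XT.nd (nat_lit 1014) (nat_lit 4256) (nat_lit 0) (XT.nd (nat_lit 468) (nat_lit 2888) (nat_lit 0) (XT.nd (nat_lit 234) (nat_lit 1064) (nat_lit 0) (XT.nd (nat_lit 78) (nat_lit 1216) (nat_lit 0) (XT.lf (nat_lit 0) (nat_lit 4011598016) (nat_lit 532) (nat_lit 5895814137) (nat_lit 608) (nat_lit 497986058) (nat_lit 221) (nat_lit 5) (nat_lit 228) (nat_lit 5) (nat_lit 229) (nat_lit 5) (nat_lit 308) (nat_lit 265) (nat_lit 207)) (XT.nd (nat_lit 78) (nat_lit 532) (nat_lit 0) (XT.lf (nat_lit 0) (nat_lit 2519681927) (nat_lit 608) (nat_lit 549375975) (nat_lit 684) (nat_lit 7507830951) (nat_lit 212) (nat_lit 5) (nat_lit 220) (nat_lit 5) (nat_lit 221)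 (nat_lit 5) (nat_lit 309) (nat_lit 265) (nat_lit 206)) (XT.lf (nat_lit 0) (nat_lit 942687020) (nat_lit 532) (nat_lit 5821205896) (nat_lit 608) (nat_lit 3989044313) (nat_lit 205) (nat_lit 5) (nat_lit 212) (nat_lit 5) (nat_lit 213) (nat_lit 5) (nat_lit 310) (nat_lit 265) (nat_lit 205)))) (XT.nd (nat_lit 78) (nat_lit 1064) (nat_lit 0) (XT.lf (nat_lit 0) (nat_lit 10250965319) (nat_lit 532) (nat_lit 323583682) (nat_lit 608) (nat_lit 359647428) (nat_lit 205) (nat_lit 5) (nat_lit 212) (nat_lit 5) (nat_lit 213) (nat_lit 5) (nat_lit 311) (nat_lit 265) (nat_lit 204)) (XT.nd (nat_lit 78) (nat_lit 456) (nat_lit 0) (XT.lf (nat_lit 0) (nat_lit 3374086703) (nat_lit 608) (nat_lit 2412055970) (nat_lit 76) (nat_lit 5333544171) (nat_lit 197) (nat_lit 5) (nat_lit 205) (nat_lit 5) (nat_lit 198) (nat_lit 5) (nat_lit 312) (nat_lit 265) (nat_lit 203)) (XT.lf (nat_lit 0) (nat_lit 7100671456) (nat_lit 456) (nat_lit 116132774)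 (nat_lit 532) (nat_lit 4093879744) (nat_lit 191) (nat_lit 5) (nat_lit 197) (nat_lit 5) (nat_lit 198) (nat_lit 5) (nat_lit 313) (nat_lit 265) (nat_lit 202))))) (XT.nd (nat_lit 234) (nat_lit 1368) (nat_lit 0) (XT.nd (nat_lit 78) (nat_lit 988) (nat_lit 0) (XT.lf (nat_lit 0) (nat_lit 5391533514) (nat_lit 532) (nat_lit 5821755257) (nat_lit 608) (nat_lit 293378459) (nat_lit 184) (nat_lit 5) (nat_lit 191) (nat_lit 5) (nat_lit 192) (nat_lit 5) (nat_lit 314) (nat_lit 265) (nat_lit 201)) (XT.nd (nat_lit 78) (nat_lit 456) (nat_lit 0) (XT.lf (nat_lit 0) (nat_lit 3577043935) (nat_lit 532) (nat_lit 8120939891) (nat_lit 76) (nat_lit 10032655) (nat_lit 177) (nat_lit 5) (nat_lit 184) (nat_lit 5) (nat_lit 178) (nat_lit 5) (nat_lit 315) (nat_lit 265) (nat_lit 200)) (XT.lf (nat_lit 0) (nat_lit 1664107327) (nat_lit 456) (nat_lit 5938414957) (nat_lit 532) (nat_lit 4312010511) (nat_lit 171) (nat_lit 5) (nat_lit 177)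 (nat_lit 5) (nat_lit 178) (nat_lit 5) (nat_lit 316) (nat_lit 265) (nat_lit 199)))) (XT.nd (nat_lit 156) (nat_lit 836) (nat_lit 0) (XT.nd (nat_lit 78) (nat_lit 532) (nat_lit 0) (XT.lf (nat_lit 0) (nat_lit 11756456027) (nat_lit 532) (nat_lit 338421821) (nat_lit 76) (nat_lit 32236188) (nat_lit 171) (nat_lit 5) (nat_lit 178) (nat_lit 5) (nat_lit 172) (nat_lit 5) (nat_lit 317) (nat_lit 265) (nat_lit 198)) (XT.lf (nat_lit 0) (nat_lit 3698609534) (nat_lit 532) (nat_lit 2472144905) (nat_lit 76) (nat_lit 6173700281) (nat_lit 164) (nat_lit 5) (nat_lit 171) (nat_lit 5) (nat_lit 165) (nat_lit 5) (nat_lit 318) (nat_lit 265) (nat_lit 197))) (XT.nd (nat_lit 78) (nat_lit 380) (nat_lit 0) (XT.lf (nat_lit 0) (nat_lit 7862861061) (nat_lit 456) (nat_lit 29788274) (nat_lit 532) (nat_lit 4675484179) (nat_lit 158) (nat_lit 5) (nat_lit 164) (nat_lit 5) (nat_lit 165) (nat_lit 5) (nat_lit 319) (nat_lit 265) (nat_lit 196))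 (XT.lf (nat_lit 0) (nat_lit 5714263216) (nat_lit 380) (nat_lit 6548235976) (nat_lit 456) (nat_lit 535044569) (nat_lit 153) (nat_lit 5) (nat_lit 158) (nat_lit 5) (nat_lit 159) (nat_lit 5) (nat_lit 320) (nat_lit 265) (nat_lit 195)))))) (XT.nd (nat_lit 546) (nat_lit 1748) (nat_lit 0) (XT.nd (nat_lit 234) (nat_lit 1596) (nat_lit 0) (XT.nd (nat_lit 78) (nat_lit 380) (nat_lit 0) (XT.lf (nat_lit 0) (nat_lit 3435174521) (nat_lit 456) (nat_lit 255859729) (nat_lit 532) (nat_lit 9342130815) (nat_lit 146) (nat_lit 5) (nat_lit 152) (nat_lit 5) (nat_lit 153) (nat_lit 5) (nat_lit 321) (nat_lit 265) (nat_lit 194)) (XT.nd (nat_lit 78) (nat_lit 0) (nat_lit 0) (XT.lf (nat_lit 0) (nat_lit 997418892) (nat_lit 380) (nat_lit 7090969954) (nat_lit 456) (nat_lit 5186379460) (nat_lit 141) (nat_lit 5) (nat_lit 146) (nat_lit 5) (nat_lit 147) (nat_lit 5) (nat_lit 322) (nat_lit 265) (nat_lit 193)) (XT.lf (nat_lit 0) (nat_lit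 11978758082) (nat_lit 380) (nat_lit 663021809) (nat_lit 456) (nat_lit 881376158) (nat_lit 141) (nat_lit 5) (nat_lit 146) (nat_lit 5) (nat_lit 147) (nat_lit 5) (nat_lit 323) (nat_lit 265) (nat_lit 192)))) (XT.nd (nat_lit 156) (nat_lit 760) (nat_lit 0) (XT.nd (nat_lit 78) (nat_lit 380) (nat_lit 0) (XT.lf (nat_lit 0) (nat_lit 3565652875) (nat_lit 456) (nat_lit 4264868102) (nat_lit 76) (nat_lit 5946841507) (nat_lit 135) (nat_lit 5) (nat_lit 141) (nat_lit 5) (nat_lit 136) (nat_lit 5) (nat_lit 324) (nat_lit 265) (nat_lit 191)) (XT.lf (nat_lit 0) (nat_lit 6903297911) (nat_lit 380) (nat_lit 1249712453) (nat_lit 456) (nat_lit 5885707689) (nat_lit 130) (nat_lit 5) (nat_lit 135) (nat_lit 5) (nat_lit 136) (nat_lit 5) (nat_lit 325) (nat_lit 265) (nat_lit 190))) (XT.nd (nat_lit 78) (nat_lit 380) (nat_lit 0) (XT.lf (nat_lit 0) (nat_lit 4115629522) (nat_lit 380) (nat_lit 8813787447) (nat_lit 456) (nat_lit 1377485550)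 (nat_lit 125) (nat_lit 5) (nat_lit 130) (nat_lit 5) (nat_lit 131) (nat_lit 5) (nat_lit 326) (nat_lit 265) (nat_lit 189)) (XT.lf (nat_lit 0) (nat_lit 1145470115) (nat_lit 304) (nat_lit 2102380010) (nat_lit 380) (nat_lit 11334380265) (nat_lit 120) (nat_lit 5) (nat_lit 124) (nat_lit 5) (nat_lit 125) (nat_lit 5) (nat_lit 327) (nat_lit 265) (nat_lit 188))))) (XT.nd (nat_lit 234) (nat_lit 988) (nat_lit 0) (XT.nd (nat_lit 78) (nat_lit 760) (nat_lit 0) (XT.lf (nat_lit 0) (nat_lit 8054973606) (nat_lit 380) (nat_lit 2002614905) (nat_lit 76) (nat_lit 4806828158) (nat_lit 120) (nat_lit 5) (nat_lit 125) (nat_lit 5) (nat_lit 121) (nat_lit 5) (nat_lit 328) (nat_lit 265) (nat_lit 187)) (XT.nd (nat_lit 78) (nat_lit 380) (nat_lit 0) (XT.lf (nat_lit 0) (nat_lit 9832073866) (nat_lit 380) (nat_lit 3214158973) (nat_lit 456) (nat_lit 2108052326) (nat_lit 115) (nat_lit 5) (nat_lit 120) (nat_lit 5) (nat_lit 121) (nat_lit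 5) (nat_lit 329) (nat_lit 265) (nat_lit 186)) (XT.lf (nat_lit 0) (nat_lit 2742852491) (nat_lit 380) (nat_lit 8868877044) (nat_lit 76) (nat_lit 3839892770) (nat_lit 110) (nat_lit 5) (nat_lit 115) (nat_lit 5) (nat_lit 111) (nat_lit 5) (nat_lit 330) (nat_lit 265) (nat_lit 185)))) (XT.nd (nat_lit 156) (nat_lit 684) (nat_lit 0) (XT.nd (nat_lit 78) (nat_lit 0) (nat_lit 0) (XT.lf (nat_lit 0) (nat_lit 3108832692) (nat_lit 304) (nat_lit 4643065768) (nat_lit 380) (nat_lit 8004891259) (nat_lit 106) (nat_lit 5) (nat_lit 110) (nat_lit 5) (nat_lit 111) (nat_lit 5) (nat_lit 331) (nat_lit 265) (nat_lit 184)) (XT.lf (nat_lit 0) (nat_lit 12951862488) (nat_lit 380) (nat_lit 575836491) (nat_lit 76) (nat_lit 2542613762) (nat_lit 106) (nat_lit 5) (nat_lit 111) (nat_lit 5) (nat_lit 107) (nat_lit 5) (nat_lit 332) (nat_lit 265) (nat_lit 183))) (XT.nd (nat_lit 78) (nat_lit 304) (nat_lit 0) (XT.lf (nat_lit 0) (nat_lit 1963199363)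 (nat_lit 380) (nat_lit 4475557807) (nat_lit 76) (nat_lit 9952774029) (nat_lit 101) (nat_lit 5) (nat_lit 106) (nat_lit 5) (nat_lit 102) (nat_lit 5) (nat_lit 333) (nat_lit 265) (nat_lit 182)) (XT.lf (nat_lit 0) (nat_lit 7182860493) (nat_lit 380) (nat_lit 8628373017) (nat_lit 76) (nat_lit 910194343) (nat_lit 97) (nat_lit 5) (nat_lit 102) (nat_lit 5) (nat_lit 98) (nat_lit 5) (nat_lit 334) (nat_lit 265) (nat_lit 181))))))))
noncomputable def xc61 : XT := (XT.nd (nat_lit 2106) (nat_lit 152) (nat_lit 0) (XT.nd (nat_lit 1014) (nat_lit 1976) (nat_lit 0) (XT.nd (nat_lit 468) (nat_lit 1292) (nat_lit 0) (XT.nd (nat_lit 234) (nat_lit 608) (nat_lit 0) (XT.nd (nat_lit 78) (nat_lit 380) (nat_lit 0) (XT.lf (nat_lit 0) (nat_lit 3994522688) (nat_lit 228) (nat_lit 8629840335) (nat_lit 304) (nat_lit 4435565485) (nat_lit 94) (nat_lit 5) (nat_lit 97) (nat_lit 5) (nat_lit 98) (nat_lit 5) (nat_lit 335) (nat_lit 265) (nat_lit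 180)) (XT.nd (nat_lit 78) (nat_lit 304) (nat_lit 0) (XT.lf (nat_lit 0) (nat_lit 834769040) (nat_lit 304) (nat_lit 352482962) (nat_lit 76) (nat_lit 16220737099) (nat_lit 93) (nat_lit 5) (nat_lit 97) (nat_lit 5) (nat_lit 94) (nat_lit 5) (nat_lit 336) (nat_lit 265) (nat_lit 179)) (XT.lf (nat_lit 0) (nat_lit 6296407051) (nat_lit 380) (nat_lit 4979181539) (nat_lit 76) (nat_lit 6488458643) (nat_lit 89) (nat_lit 5) (nat_lit 94) (nat_lit 5) (nat_lit 90) (nat_lit 5) (nat_lit 337) (nat_lit 265) (nat_lit 178)))) (XT.nd (nat_lit 78) (nat_lit 380) (nat_lit 0) (XT.lf (nat_lit 0) (nat_lit 8238824164) (nat_lit 228) (nat_lit 3714542354) (nat_lit 304) (nat_lit 6176802028) (nat_lit 86) (nat_lit 5) (nat_lit 89) (nat_lit 5) (nat_lit 90) (nat_lit 5) (nat_lit 338) (nat_lit 265) (nat_lit 177)) (XT.nd (nat_lit 78) (nat_lit 76) (nat_lit 0) (XT.lf (nat_lit 0) (nat_lit 3381225121) (nat_lit 304) (nat_lit 14449298326) (nat_lit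 380) (nat_lit 675750844) (nat_lit 82) (nat_lit 5) (nat_lit 86) (nat_lit 5) (nat_lit 87) (nat_lit 5) (nat_lit 339) (nat_lit 265) (nat_lit 176)) (XT.lf (nat_lit 0) (nat_lit 4985702097) (nat_lit 380) (nat_lit 1813614124) (nat_lit 76) (nat_lit 12092492647) (nat_lit 81) (nat_lit 5) (nat_lit 86) (nat_lit 5) (nat_lit 82) (nat_lit 5) (nat_lit 340) (nat_lit 265) (nat_lit 175))))) (XT.nd (nat_lit 234) (nat_lit 532) (nat_lit 0) (XT.nd (nat_lit 78) (nat_lit 532) (nat_lit 0) (XT.lf (nat_lit 0) (nat_lit 10862646966) (nat_lit 304) (nat_lit 7294771679) (nat_lit 76) (nat_lit 1130314685) (nat_lit 78) (nat_lit 5) (nat_lit 82) (nat_lit 5) (nat_lit 79) (nat_lit 5) (nat_lit 341) (nat_lit 265) (nat_lit 174)) (XT.nd (nat_lit 78) (nat_lit 304) (nat_lit 0) (XT.lf (nat_lit 0) (nat_lit 6534243451) (nat_lit 228) (nat_lit 10451800575) (nat_lit 304) (nat_lit 2708098103) (nat_lit 75) (nat_lit 5) (nat_lit 78) (nat_lit 5) (nat_lit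 79) (nat_lit 5) (nat_lit 342) (nat_lit 265) (nat_lit 173)) (XT.lf (nat_lit 0) (nat_lit 705725864) (nat_lit 228) (nat_lit 2457540071) (nat_lit 304) (nat_lit 16948581743) (nat_lit 71) (nat_lit 5) (nat_lit 74) (nat_lit 5) (nat_lit 75) (nat_lit 5) (nat_lit 343) (nat_lit 265) (nat_lit 172)))) (XT.nd (nat_lit 156) (nat_lit 304) (nat_lit 0) (XT.nd (nat_lit 78) (nat_lit 228) (nat_lit 0) (XT.lf (nat_lit 0) (nat_lit 9272129524) (nat_lit 304) (nat_lit 5477512257) (nat_lit 76) (nat_lit 5790130341) (nat_lit 71) (nat_lit 5) (nat_lit 75) (nat_lit 5) (nat_lit 72) (nat_lit 5) (nat_lit 344) (nat_lit 265) (nat_lit 171)) (XT.lf (nat_lit 0) (nat_lit 8922493175) (nat_lit 228) (nat_lit 6687655479) (nat_lit 304) (nat_lit 5369476357) (nat_lit 68) (nat_lit 5) (nat_lit 71) (nat_lit 5) (nat_lit 72) (nat_lit 5) (nat_lit 345) (nat_lit 265) (nat_lit 170))) (XT.nd (nat_lit 78) (nat_lit 0) (nat_lit 0) (XT.lf (nat_lit 0) (nat_lit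 731791021) (nat_lit 304) (nat_lit 19065621312) (nat_lit 76) (nat_lit 1634469408) (nat_lit 64) (nat_lit 5) (nat_lit 68) (nat_lit 5) (nat_lit 65) (nat_lit 5) (nat_lit 346) (nat_lit 265) (nat_lit 169)) (XT.lf (nat_lit 0) (nat_lit 7042792120) (nat_lit 304) (nat_lit 4636201174) (nat_lit 76) (nat_lit 10216017978) (nat_lit 64) (nat_lit 5) (nat_lit 68) (nat_lit 5) (nat_lit 65) (nat_lit 5) (nat_lit 347) (nat_lit 265) (nat_lit 168)))))) (XT.nd (nat_lit 546) (nat_lit 836) (nat_lit 0) (XT.nd (nat_lit 234) (nat_lit 684) (nat_lit 0) (XT.nd (nat_lit 78) (nat_lit 228) (nat_lit 0) (XT.lf (nat_lit 0) (nat_lit 10316402078) (nat_lit 228) (nat_lit 3266772649) (nat_lit 304) (nat_lit 8788066563) (nat_lit 61) (nat_lit 5) (nat_lit 64) (nat_lit 5) (nat_lit 65) (nat_lit 5) (nat_lit 348) (nat_lit 265) (nat_lit 167)) (XT.nd (nat_lit 78) (nat_lit 76) (nat_lit 0) (XT.lf (nat_lit 0) (nat_lit 2877710936) (nat_lit 152) (nat_lit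 17500864147) (nat_lit 228) (nat_lit 2482014411) (nat_lit 59) (nat_lit 5) (nat_lit 61) (nat_lit 5) (nat_lit 62) (nat_lit 5) (nat_lit 349) (nat_lit 265) (nat_lit 166)) (XT.lf (nat_lit 0) (nat_lit 4038419703) (nat_lit 228) (nat_lit 5032503898) (nat_lit 76) (nat_lit 14291623774) (nat_lit 58) (nat_lit 5) (nat_lit 61) (nat_lit 5) (nat_lit 59) (nat_lit 5) (nat_lit 350) (nat_lit 265) (nat_lit 165)))) (XT.nd (nat_lit 156) (nat_lit 304) (nat_lit 0) (XT.nd (nat_lit 78) (nat_lit 152) (nat_lit 0) (XT.lf (nat_lit 0) (nat_lit 10443724095) (nat_lit 228) (nat_lit 319545742) (nat_lit 304) (nat_lit 13115122403) (nat_lit 55) (nat_lit 5) (nat_lit 58) (nat_lit 5) (nat_lit 59) (nat_lit 5) (nat_lit 351) (nat_lit 265) (nat_lit 164)) (XT.lf (nat_lit 0) (nat_lit 1970535555) (nat_lit 152) (nat_lit 15797779985) (nat_lit 228) (nat_lit 6639834558) (nat_lit 53) (nat_lit 5) (nat_lit 55) (nat_lit 5) (nat_lit 56) (nat_lit 5) (nat_lit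 352) (nat_lit 265) (nat_lit 163))) (XT.nd (nat_lit 78) (nat_lit 228) (nat_lit 0) (XT.lf (nat_lit 0) (nat_lit 98267446) (nat_lit 228) (nat_lit 6975491717) (nat_lit 76) (nat_lit 17878665092) (nat_lit 52) (nat_lit 5) (nat_lit 55) (nat_lit 5) (nat_lit 53) (nat_lit 5) (nat_lit 353) (nat_lit 265) (nat_lit 162)) (XT.lf (nat_lit 0) (nat_lit 6996014160) (nat_lit 304) (nat_lit 16541678357) (nat_lit 76) (nat_lit 1973508258) (nat_lit 49) (nat_lit 5) (nat_lit 53) (nat_lit 5) (nat_lit 50) (nat_lit 5) (nat_lit 354) (nat_lit 265) (nat_lit 161))))) (XT.nd (nat_lit 234) (nat_lit 380) (nat_lit 0) (XT.nd (nat_lit 78) (nat_lit 456) (nat_lit 0) (XT.lf (nat_lit 0) (nat_lit 14171801260) (nat_lit 304) (nat_lit 685884076) (nat_lit 76) (nat_lit 11227639058) (nat_lit 49) (nat_lit 5) (nat_lit 53) (nat_lit 5) (nat_lit 50) (nat_lit 5) (nat_lit 355) (nat_lit 265) (nat_lit 160)) (XT.nd (nat_lit 78) (nat_lit 304) (nat_lit 0) (XT.lf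 (nat_lit 0) (nat_lit 15813329111) (nat_lit 152) (nat_lit 5829117513) (nat_lit 228) (nat_lit 5032639196) (nat_lit 47) (nat_lit 5) (nat_lit 49) (nat_lit 5) (nat_lit 50) (nat_lit 5) (nat_lit 356) (nat_lit 265) (nat_lit 159)) (XT.lf (nat_lit 0) (nat_lit 2068426873) (nat_lit 304) (nat_lit 21750079256) (nat_lit 76) (nat_lit 3462958605) (nat_lit 43) (nat_lit 5) (nat_lit 47) (nat_lit 5) (nat_lit 44) (nat_lit 5) (nat_lit 357) (nat_lit 265) (nat_lit 158)))) (XT.nd (nat_lit 156) (nat_lit 228) (nat_lit 0) (XT.nd (nat_lit 78) (nat_lit 152) (nat_lit 0) (XT.lf (nat_lit 0) (nat_lit 9405098371) (nat_lit 304) (nat_lit 5451713584) (nat_lit 76) (nat_lit 13046744151) (nat_lit 43) (nat_lit 5) (nat_lit 47) (nat_lit 5) (nat_lit 44) (nat_lit 5) (nat_lit 358) (nat_lit 265) (nat_lit 157)) (XT.lf (nat_lit 0) (nat_lit 11447855213) (nat_lit 152) (nat_lit 5566483144) (nat_lit 228) (nat_lit 11528927690) (nat_lit 41) (nat_lit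 5) (nat_lit 43) (nat_lit 5) (nat_lit 44) (nat_lit 5) (nat_lit 359) (nat_lit 265) (nat_lit 156))) (XT.nd (nat_lit 78) (nat_lit 228) (nat_lit 0) (XT.lf (nat_lit 0) (nat_lit 24893463257) (nat_lit 228) (nat_lit 336230848) (nat_lit 76) (nat_lit 3971646071) (nat_lit 41) (nat_lit 5) (nat_lit 44) (nat_lit 5) (nat_lit 42) (nat_lit 5) (nat_lit 360) (nat_lit 265) (nat_lit 155)) (XT.lf (nat_lit 0) (nat_lit 3216749995) (nat_lit 228) (nat_lit 12821838289) (nat_lit 76) (nat_lit 13837606779) (nat_lit 38) (nat_lit 5) (nat_lit 41) (nat_lit 5) (nat_lit 39) (nat_lit 5) (nat_lit 361) (nat_lit 265) (nat_lit 154))))))) (XT.nd (nat_lit 34164) (nat_lit 0) (nat_lit 24396) (XT.nd (nat_lit 33618) (nat_lit 0) (nat_lit 40280) (XT.nd (nat_lit 33306) (nat_lit 0) (nat_lit 42940) (XT.nd (nat_lit 33150) (nat_lit 0) (nat_lit 44308) (XT.lf (nat_lit 0) (nat_lit 4392602728) (nat_lit 152) (nat_lit 6526429871) (nat_lit 228) (nat_lit 19651489275)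 (nat_lit 36) (nat_lit 5) (nat_lit 38) (nat_lit 5) (nat_lit 39) (nat_lit 5) (nat_lit 362) (nat_lit 265) (nat_lit 153)) (XT.nd (nat_lit 78) (nat_lit 0) (nat_lit 0) (XT.lf (nat_lit 0) (nat_lit 1022659337) (nat_lit 684) (nat_lit 1138390229) (nat_lit 684) (nat_lit 1138390229) (nat_lit 619) (nat_lit 3) (nat_lit 628) (nat_lit 3) (nat_lit 628) (nat_lit 5) (nat_lit 266) (nat_lit 266) (nat_lit 248)) (XT.lf (nat_lit 76) (nat_lit 2374449574) (nat_lit 0) (nat_lit 3096406421) (nat_lit 684) (nat_lit 1155522318) (nat_lit 620) (nat_lit 5) (nat_lit 619) (nat_lit 3) (nat_lit 628) (nat_lit 5) (nat_lit 267) (nat_lit 266) (nat_lit 247)))) (XT.nd (nat_lit 156) (nat_lit 684) (nat_lit 0) (XT.nd (nat_lit 78) (nat_lit 0) (nat_lit 0) (XT.lf (nat_lit 76) (nat_lit 462592866) (nat_lit 0) (nat_lit 1736302740) (nat_lit 760) (nat_lit 4457935489) (nat_lit 611) (nat_lit 5) (nat_lit 610) (nat_lit 5) (nat_lit 620) (nat_lit 5) (nat_lit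 268) (nat_lit 266) (nat_lit 246)) (XT.lf (nat_lit 76) (nat_lit 5299920735) (nat_lit 0) (nat_lit 237265629) (nat_lit 760) (nat_lit 1153012810) (nat_lit 611) (nat_lit 5) (nat_lit 610) (nat_lit 5) (nat_lit 620) (nat_lit 5) (nat_lit 269) (nat_lit 266) (nat_lit 245))) (XT.nd (nat_lit 78) (nat_lit 0) (nat_lit 0) (XT.lf (nat_lit 0) (nat_lit 2126412226) (nat_lit 760) (nat_lit 3215047247) (nat_lit 836) (nat_lit 1384845804) (nat_lit 601) (nat_lit 5) (nat_lit 611) (nat_lit 5) (nat_lit 612) (nat_lit 5) (nat_lit 270) (nat_lit 266) (nat_lit 244)) (XT.lf (nat_lit 76) (nat_lit 1758615282) (nat_lit 0) (nat_lit 3629053056) (nat_lit 836) (nat_lit 1377814681) (nat_lit 602) (nat_lit 5) (nat_lit 601) (nat_lit 5) (nat_lit 612) (nat_lit 5) (nat_lit 271) (nat_lit 266) (nat_lit 243))))) (XT.nd (nat_lit 234) (nat_lit 988) (nat_lit 0) (XT.nd (nat_lit 78) (nat_lit 836) (nat_lit 0) (XT.lf (nat_lit 76) (nat_lit 36592905) (nat_lit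 0) (nat_lit 1779811322) (nat_lit 912) (nat_lit 4991278369) (nat_lit 591) (nat_lit 5) (nat_lit 590) (nat_lit 5) (nat_lit 602) (nat_lit 5) (nat_lit 272) (nat_lit 266) (nat_lit 242)) (XT.nd (nat_lit 78) (nat_lit 912) (nat_lit 0) (XT.lf (nat_lit 0) (nat_lit 5004955076) (nat_lit 836) (nat_lit 1633696910) (nat_lit 912) (nat_lit 214083341) (nat_lit 591) (nat_lit 5) (nat_lit 602) (nat_lit 5) (nat_lit 603) (nat_lit 5) (nat_lit 273) (nat_lit 266) (nat_lit 241)) (XT.lf (nat_lit 0) (nat_lit 1292169871) (nat_lit 912) (nat_lit 3286651010) (nat_lit 988) (nat_lit 2321839033) (nat_lit 579) (nat_lit 5) (nat_lit 591) (nat_lit 5) (nat_lit 592) (nat_lit 5) (nat_lit 274) (nat_lit 266) (nat_lit 240)))) (XT.nd (nat_lit 156) (nat_lit 0) (nat_lit 76) (XT.nd (nat_lit 78) (nat_lit 988) (nat_lit 0) (XT.lf (nat_lit 76) (nat_lit 2034765301) (nat_lit 0) (nat_lit 2378569457) (nat_lit 988) (nat_lit 2538305963) (nat_lit 580) (nat_lit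 5) (nat_lit 579) (nat_lit 5) (nat_lit 592) (nat_lit 5) (nat_lit 275) (nat_lit 266) (nat_lit 239)) (XT.lf (nat_lit 76) (nat_lit 487694064) (nat_lit 0) (nat_lit 43305717) (nat_lit 1064) (nat_lit 6474866249) (nat_lit 567) (nat_lit 5) (nat_lit 566) (nat_lit 5) (nat_lit 580) (nat_lit 5) (nat_lit 276) (nat_lit 266) (nat_lit 238))) (XT.nd (nat_lit 78) (nat_lit 0) (nat_lit 0) (XT.lf (nat_lit 0) (nat_lit 3599583972) (nat_lit 988) (nat_lit 1044818780) (nat_lit 1064) (nat_lit 2418243270) (nat_lit 567) (nat_lit 5) (nat_lit 580) (nat_lit 5) (nat_lit 581) (nat_lit 5) (nat_lit 277) (nat_lit 266) (nat_lit 237)) (XT.lf (nat_lit 76) (nat_lit 4581720489) (nat_lit 0) (nat_lit 2104283728) (nat_lit 1064) (nat_lit 436703982) (nat_lit 568) (nat_lit 5) (nat_lit 567) (nat_lit 5) (nat_lit 581) (nat_lit 5) (nat_lit 278) (nat_lit 266) (nat_lit 236)))))) (XT.nd (nat_lit 546) (nat_lit 8740) (nat_lit 0) (XT.nd (nat_lit 234) (nat_lit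 3952) (nat_lit 0) (XT.nd (nat_lit 78) (nat_lit 2280) (nat_lit 0) (XT.lf (nat_lit 0) (nat_lit 2574320864) (nat_lit 1064) (nat_lit 4029835146) (nat_lit 76) (nat_lit 581577364) (nat_lit 554) (nat_lit 5) (nat_lit 568) (nat_lit 5) (nat_lit 555) (nat_lit 5) (nat_lit 279) (nat_lit 266) (nat_lit 235)) (XT.nd (nat_lit 78) (nat_lit 1216) (nat_lit 0) (XT.lf (nat_lit 0) (nat_lit 1741659423) (nat_lit 1064) (nat_lit 3871116369) (nat_lit 1140) (nat_lit 1639042329) (nat_lit 540) (nat_lit 5) (nat_lit 554) (nat_lit 5) (nat_lit 555) (nat_lit 5) (nat_lit 280) (nat_lit 266) (nat_lit 234)) (XT.lf (nat_lit 0) (nat_lit 344769092) (nat_lit 1140) (nat_lit 990801176) (nat_lit 1216) (nat_lit 5985578868) (nat_lit 524) (nat_lit 5) (nat_lit 539) (nat_lit 5) (nat_lit 540) (nat_lit 5) (nat_lit 281) (nat_lit 266) (nat_lit 233)))) (XT.nd (nat_lit 156) (nat_lit 2736) (nat_lit 0) (XT.nd (nat_lit 78) (nat_lit 1216) (nat_lit 0) (XT.lf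 (nat_lit 0) (nat_lit 4332245248) (nat_lit 1216) (nat_lit 1038513660) (nat_lit 76) (nat_lit 2022563225) (nat_lit 524) (nat_lit 5) (nat_lit 540) (nat_lit 5) (nat_lit 525) (nat_lit 5) (nat_lit 282) (nat_lit 266) (nat_lit 232)) (XT.lf (nat_lit 0) (nat_lit 5066011522) (nat_lit 1216) (nat_lit 2299657248) (nat_lit 1292) (nat_lit 103132815) (nat_lit 508) (nat_lit 5) (nat_lit 524) (nat_lit 5) (nat_lit 525) (nat_lit 5) (nat_lit 283) (nat_lit 266) (nat_lit 231))) (XT.nd (nat_lit 78) (nat_lit 1368) (nat_lit 0) (XT.lf (nat_lit 0) (nat_lit 2851544826) (nat_lit 1368) (nat_lit 3773012393) (nat_lit 76) (nat_lit 922748429) (nat_lit 490) (nat_lit 5) (nat_lit 508) (nat_lit 5) (nat_lit 491) (nat_lit 5) (nat_lit 284) (nat_lit 266) (nat_lit 230)) (XT.lf (nat_lit 0) (nat_lit 2485932717) (nat_lit 1368) (nat_lit 3366664554) (nat_lit 1444) (nat_lit 1776443506) (nat_lit 472) (nat_lit 5) (nat_lit 490) (nat_lit 5) (nat_lit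 491) (nat_lit 5) (nat_lit 285) (nat_lit 266) (nat_lit 229))))) (XT.nd (nat_lit 234) (nat_lit 5700) (nat_lit 0) (XT.nd (nat_lit 78) (nat_lit 1520) (nat_lit 0) (XT.lf (nat_lit 0) (nat_lit 1160889494) (nat_lit 1520) (nat_lit 6507557352) (nat_lit 76) (nat_lit 45758674) (nat_lit 452) (nat_lit 5) (nat_lit 472) (nat_lit 5) (nat_lit 453) (nat_lit 5) (nat_lit 286) (nat_lit 266) (nat_lit 228)) (XT.nd (nat_lit 78) (nat_lit 1520) (nat_lit 0) (XT.lf (nat_lit 0) (nat_lit 4134814133) (nat_lit 1520) (nat_lit 91537481) (nat_lit 76) (nat_lit 3575953423) (nat_lit 452) (nat_lit 5) (nat_lit 472) (nat_lit 5) (nat_lit 453) (nat_lit 5) (nat_lit 287) (nat_lit 266) (nat_lit 227)) (XT.lf (nat_lit 0) (nat_lit 6531773006) (nat_lit 1520) (nat_lit 625944017) (nat_lit 1596) (nat_lit 736200167) (nat_lit 432) (nat_lit 5) (nat_lit 452) (nat_lit 5) (nat_lit 453) (nat_lit 5) (nat_lit 288) (nat_lit 266) (nat_lit 226)))) (XT.nd (nat_lit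 156) (nat_lit 2356) (nat_lit 0) (XT.nd (nat_lit 78) (nat_lit 1672) (nat_lit 0) (XT.lf (nat_lit 0) (nat_lit 2227579084) (nat_lit 1672) (nat_lit 2658096522) (nat_lit 76) (nat_lit 3102877540) (nat_lit 410) (nat_lit 5) (nat_lit 432) (nat_lit 5) (nat_lit 411) (nat_lit 5) (nat_lit 289) (nat_lit 266) (nat_lit 225)) (XT.lf (nat_lit 0) (nat_lit 4130226712) (nat_lit 1672) (nat_lit 1101081511) (nat_lit 1748) (nat_lit 2855461799) (nat_lit 388) (nat_lit 5) (nat_lit 410) (nat_lit 5) (nat_lit 411) (nat_lit 5) (nat_lit 290) (nat_lit 266) (nat_lit 224))) (XT.nd (nat_lit 78) (nat_lit 836) (nat_lit 0) (XT.lf (nat_lit 0) (nat_lit 113045225) (nat_lit 1520) (nat_lit 5270066970) (nat_lit 76) (nat_lit 2805307864) (nat_lit 368) (nat_lit 5) (nat_lit 388) (nat_lit 5) (nat_lit 369) (nat_lit 5) (nat_lit 291) (nat_lit 266) (nat_lit 223)) (XT.lf (nat_lit 0) (nat_lit 1684724089) (nat_lit 836) (nat_lit 1416427715) (nat_lit 912)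 (nat_lit 5192258916) (nat_lit 357) (nat_lit 5) (nat_lit 368) (nat_lit 5) (nat_lit 369) (nat_lit 5) (nat_lit 292) (nat_lit 266) (nat_lit 222))))))))
noncomputable def xc62 : XT := (XT.nd (nat_lit 2106) (nat_lit 7144) (nat_lit 0) (XT.nd (nat_lit 1014) (nat_lit 6612) (nat_lit 0) (XT.nd (nat_lit 468) (nat_lit 4256) (nat_lit 0) (XT.nd (nat_lit 234) (nat_lit 2432) (nat_lit 0) (XT.nd (nat_lit 78) (nat_lit 912) (nat_lit 0) (XT.lf (nat_lit 0) (nat_lit 435395721) (nat_lit 912) (nat_lit 5725223550) (nat_lit 988) (nat_lit 2241351254) (nat_lit 345) (nat_lit 5) (nat_lit 357) (nat_lit 5) (nat_lit 358) (nat_lit 5) (nat_lit 293) (nat_lit 266) (nat_lit 221)) (XT.nd (nat_lit 78) (nat_lit 836) (nat_lit 0) (XT.lf (nat_lit 0) (nat_lit 768952674) (nat_lit 988) (nat_lit 818640436) (nat_lit 76) (nat_lit 6926514848) (nat_lit 344) (nat_lit 5) (nat_lit 357) (nat_lit 5) (nat_lit 345) (nat_lit 5) (nat_lit 294) (nat_lit 266)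 (nat_lit 220)) (XT.lf (nat_lit 0) (nat_lit 3828447657) (nat_lit 912) (nat_lit 2103065679) (nat_lit 76) (nat_lit 2698062905) (nat_lit 333) (nat_lit 5) (nat_lit 345) (nat_lit 5) (nat_lit 334) (nat_lit 5) (nat_lit 295) (nat_lit 266) (nat_lit 219)))) (XT.nd (nat_lit 78) (nat_lit 1596) (nat_lit 0) (XT.lf (nat_lit 0) (nat_lit 5343990461) (nat_lit 836) (nat_lit 1617179558) (nat_lit 912) (nat_lit 1787757952) (nat_lit 322) (nat_lit 5) (nat_lit 333) (nat_lit 5) (nat_lit 334) (nat_lit 5) (nat_lit 296) (nat_lit 266) (nat_lit 218)) (XT.nd (nat_lit 78) (nat_lit 760) (nat_lit 0) (XT.lf (nat_lit 0) (nat_lit 1290320787) (nat_lit 836) (nat_lit 4743605818) (nat_lit 76) (nat_lit 2837977351) (nat_lit 311) (nat_lit 5) (nat_lit 322) (nat_lit 5) (nat_lit 312) (nat_lit 5) (nat_lit 297) (nat_lit 266) (nat_lit 217)) (XT.lf (nat_lit 0) (nat_lit 2880573984) (nat_lit 760) (nat_lit 1541914202) (nat_lit 836) (nat_lit 4576168584)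 (nat_lit 301) (nat_lit 5) (nat_lit 311) (nat_lit 5) (nat_lit 312) (nat_lit 5) (nat_lit 298) (nat_lit 266) (nat_lit 216))))) (XT.nd (nat_lit 234) (nat_lit 2736) (nat_lit 0) (XT.nd (nat_lit 78) (nat_lit 836) (nat_lit 0) (XT.lf (nat_lit 0) (nat_lit 1600087476) (nat_lit 684) (nat_lit 6045934353) (nat_lit 760) (nat_lit 1483285603) (nat_lit 292) (nat_lit 5) (nat_lit 301) (nat_lit 5) (nat_lit 302) (nat_lit 5) (nat_lit 299) (nat_lit 266) (nat_lit 215)) (XT.nd (nat_lit 78) (nat_lit 0) (nat_lit 0) (XT.lf (nat_lit 0) (nat_lit 282312869) (nat_lit 760) (nat_lit 1387236379) (nat_lit 836) (nat_lit 7594358661) (nat_lit 281) (nat_lit 5) (nat_lit 291) (nat_lit 5) (nat_lit 292) (nat_lit 5) (nat_lit 300) (nat_lit 266) (nat_lit 214)) (XT.lf (nat_lit 0) (nat_lit 4907440185) (nat_lit 836) (nat_lit 1073048208) (nat_lit 76) (nat_lit 3421689459) (nat_lit 281) (nat_lit 5) (nat_lit 292) (nat_lit 5) (nat_lit 282) (nat_lit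 5) (nat_lit 301) (nat_lit 266) (nat_lit 213)))) (XT.nd (nat_lit 156) (nat_lit 1292) (nat_lit 0) (XT.nd (nat_lit 78) (nat_lit 760) (nat_lit 0) (XT.lf (nat_lit 0) (nat_lit 7088119681) (nat_lit 684) (nat_lit 1148482929) (nat_lit 760) (nat_lit 1308149429) (nat_lit 272) (nat_lit 5) (nat_lit 281) (nat_lit 5) (nat_lit 282) (nat_lit 5) (nat_lit 302) (nat_lit 266) (nat_lit 212)) (XT.lf (nat_lit 0) (nat_lit 1958144135) (nat_lit 760) (nat_lit 3904205170) (nat_lit 76) (nat_lit 3828834828) (nat_lit 262) (nat_lit 5) (nat_lit 272) (nat_lit 5) (nat_lit 263) (nat_lit 5) (nat_lit 303) (nat_lit 266) (nat_lit 211))) (XT.nd (nat_lit 78) (nat_lit 684) (nat_lit 0) (XT.lf (nat_lit 0) (nat_lit 4443479374) (nat_lit 608) (nat_lit 855580243) (nat_lit 684) (nat_lit 4542924414) (nat_lit 254) (nat_lit 5) (nat_lit 262) (nat_lit 5) (nat_lit 263) (nat_lit 5) (nat_lit 304) (nat_lit 266) (nat_lit 210)) (XT.lf (nat_lit 0) (nat_lit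 3041918188) (nat_lit 684) (nat_lit 5714832710) (nat_lit 760) (nat_lit 1240260908) (nat_lit 245) (nat_lit 5) (nat_lit 254) (nat_lit 5) (nat_lit 255) (nat_lit 5) (nat_lit 305) (nat_lit 266) (nat_lit 209)))))) (XT.nd (nat_lit 546) (nat_lit 2964) (nat_lit 0) (XT.nd (nat_lit 234) (nat_lit 2356) (nat_lit 0) (XT.nd (nat_lit 78) (nat_lit 608) (nat_lit 0) (XT.lf (nat_lit 0) (nat_lit 1586484151) (nat_lit 608) (nat_lit 542575391) (nat_lit 684) (nat_lit 8027464857) (nat_lit 236) (nat_lit 5) (nat_lit 244) (nat_lit 5) (nat_lit 245) (nat_lit 5) (nat_lit 306) (nat_lit 266) (nat_lit 208)) (XT.nd (nat_lit 78) (nat_lit 0) (nat_lit 0) (XT.lf (nat_lit 0) (nat_lit 52862415) (nat_lit 608) (nat_lit 5552926701) (nat_lit 684) (nat_lit 4714437901) (nat_lit 228) (nat_lit 5) (nat_lit 236) (nat_lit 5) (nat_lit 237) (nat_lit 5) (nat_lit 307) (nat_lit 266) (nat_lit 207)) (XT.lf (nat_lit 0) (nat_lit 8981393302) (nat_lit 608) (nat_lit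 212528530) (nat_lit 684) (nat_lit 1294808118) (nat_lit 228) (nat_lit 5) (nat_lit 236) (nat_lit 5) (nat_lit 237) (nat_lit 5) (nat_lit 308) (nat_lit 266) (nat_lit 206)))) (XT.nd (nat_lit 156) (nat_lit 1140) (nat_lit 0) (XT.nd (nat_lit 78) (nat_lit 608) (nat_lit 0) (XT.lf (nat_lit 0) (nat_lit 2228422633) (nat_lit 608) (nat_lit 3162434311) (nat_lit 76) (nat_lit 5270567050) (nat_lit 220) (nat_lit 5) (nat_lit 228) (nat_lit 5) (nat_lit 221) (nat_lit 5) (nat_lit 309) (nat_lit 266) (nat_lit 205)) (XT.lf (nat_lit 0) (nat_lit 5838735456) (nat_lit 684) (nat_lit 4880343942) (nat_lit 76) (nat_lit 120097648) (nat_lit 212) (nat_lit 5) (nat_lit 221) (nat_lit 5) (nat_lit 213) (nat_lit 5) (nat_lit 310) (nat_lit 266) (nat_lit 204))) (XT.nd (nat_lit 78) (nat_lit 608) (nat_lit 0) (XT.lf (nat_lit 0) (nat_lit 4330470121) (nat_lit 532) (nat_lit 5261335913) (nat_lit 608) (nat_lit 1429795741) (nat_lit 205) (nat_lit 5) (nat_lit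 212) (nat_lit 5) (nat_lit 213) (nat_lit 5) (nat_lit 311) (nat_lit 266) (nat_lit 203)) (XT.lf (nat_lit 0) (nat_lit 2220956083) (nat_lit 608) (nat_lit 8581620206) (nat_lit 76) (nat_lit 406608365) (nat_lit 197) (nat_lit 5) (nat_lit 205) (nat_lit 5) (nat_lit 198) (nat_lit 5) (nat_lit 312) (nat_lit 266) (nat_lit 202))))) (XT.nd (nat_lit 234) (nat_lit 1900) (nat_lit 0) (XT.nd (nat_lit 78) (nat_lit 608) (nat_lit 0) (XT.lf (nat_lit 0) (nat_lit 816755609) (nat_lit 456) (nat_lit 5181680874) (nat_lit 532) (nat_lit 5403062813) (nat_lit 191) (nat_lit 5) (nat_lit 197) (nat_lit 5) (nat_lit 198) (nat_lit 5) (nat_lit 313) (nat_lit 266) (nat_lit 201)) (XT.nd (nat_lit 78) (nat_lit 608) (nat_lit 0) (XT.lf (nat_lit 0) (nat_lit 9903048102) (nat_lit 532) (nat_lit 1052880848) (nat_lit 76) (nat_lit 643403457) (nat_lit 191) (nat_lit 5) (nat_lit 198) (nat_lit 5) (nat_lit 192) (nat_lit 5) (nat_lit 314) (nat_lit 266) (nat_lit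 200)) (XT.lf (nat_lit 0) (nat_lit 2138557495) (nat_lit 608) (nat_lit 3033628326) (nat_lit 76) (nat_lit 6629769408) (nat_lit 183) (nat_lit 5) (nat_lit 191) (nat_lit 5) (nat_lit 184) (nat_lit 5) (nat_lit 315) (nat_lit 266) (nat_lit 199)))) (XT.nd (nat_lit 156) (nat_lit 988) (nat_lit 0) (XT.nd (nat_lit 78) (nat_lit 456) (nat_lit 0) (XT.lf (nat_lit 0) (nat_lit 6076343418) (nat_lit 532) (nat_lit 5110941863) (nat_lit 76) (nat_lit 822951569) (nat_lit 177) (nat_lit 5) (nat_lit 184) (nat_lit 5) (nat_lit 178) (nat_lit 5) (nat_lit 316) (nat_lit 266) (nat_lit 198)) (XT.lf (nat_lit 0) (nat_lit 4914870551) (nat_lit 456) (nat_lit 5258827985) (nat_lit 532) (nat_lit 2050262249) (nat_lit 171) (nat_lit 5) (nat_lit 177) (nat_lit 5) (nat_lit 178) (nat_lit 5) (nat_lit 317) (nat_lit 266) (nat_lit 197))) (XT.nd (nat_lit 78) (nat_lit 456) (nat_lit 0) (XT.lf (nat_lit 0) (nat_lit 1938234797) (nat_lit 532) (nat_lit 9619138921)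 (nat_lit 76) (nat_lit 886212416) (nat_lit 164) (nat_lit 5) (nat_lit 171) (nat_lit 5) (nat_lit 165) (nat_lit 5) (nat_lit 318) (nat_lit 266) (nat_lit 196)) (XT.lf (nat_lit 0) (nat_lit 590116944) (nat_lit 456) (nat_lit 5473101631) (nat_lit 532) (nat_lit 6605437753) (nat_lit 158) (nat_lit 5) (nat_lit 164) (nat_lit 5) (nat_lit 165) (nat_lit 5) (nat_lit 319) (nat_lit 266) (nat_lit 195))))))) (XT.nd (nat_lit 1092) (nat_lit 2888) (nat_lit 0) (XT.nd (nat_lit 546) (nat_lit 2128) (nat_lit 0) (XT.nd (nat_lit 234) (nat_lit 1216) (nat_lit 0) (XT.nd (nat_lit 78) (nat_lit 912) (nat_lit 0) (XT.lf (nat_lit 0) (nat_lit 10339176496) (nat_lit 532) (nat_lit 1728862607) (nat_lit 76) (nat_lit 831915289) (nat_lit 158) (nat_lit 5) (nat_lit 165) (nat_lit 5) (nat_lit 159) (nat_lit 5) (nat_lit 320) (nat_lit 266) (nat_lit 194)) (XT.nd (nat_lit 78) (nat_lit 456) (nat_lit 0) (XT.lf (nat_lit 0) (nat_lit 1636949108) (nat_lit 456)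 (nat_lit 4195447108) (nat_lit 76) (nat_lit 7304550420) (nat_lit 152) (nat_lit 5) (nat_lit 158) (nat_lit 5) (nat_lit 153) (nat_lit 5) (nat_lit 321) (nat_lit 266) (nat_lit 193)) (XT.lf (nat_lit 0) (nat_lit 5943037206) (nat_lit 532) (nat_lit 6799919525) (nat_lit 76) (nat_lit 637427699) (nat_lit 146) (nat_lit 5) (nat_lit 153) (nat_lit 5) (nat_lit 147) (nat_lit 5) (nat_lit 322) (nat_lit 266) (nat_lit 192)))) (XT.nd (nat_lit 156) (nat_lit 380) (nat_lit 0) (XT.nd (nat_lit 78) (nat_lit 456) (nat_lit 0) (XT.lf (nat_lit 0) (nat_lit 4061602049) (nat_lit 380) (nat_lit 6369704890) (nat_lit 456) (nat_lit 3198776613) (nat_lit 141) (nat_lit 5) (nat_lit 146) (nat_lit 5) (nat_lit 147) (nat_lit 5) (nat_lit 323) (nat_lit 266) (nat_lit 191)) (XT.lf (nat_lit 0) (nat_lit 1168274261) (nat_lit 456) (nat_lit 12480724677) (nat_lit 76) (nat_lit 237807919) (nat_lit 135) (nat_lit 5) (nat_lit 141) (nat_lit 5) (nat_lit 136) (nat_lit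 5) (nat_lit 324) (nat_lit 266) (nat_lit 190))) (XT.nd (nat_lit 78) (nat_lit 380) (nat_lit 0) (XT.lf (nat_lit 0) (nat_lit 5691218647) (nat_lit 456) (nat_lit 1431835650) (nat_lit 76) (nat_lit 7026404666) (nat_lit 135) (nat_lit 5) (nat_lit 141) (nat_lit 5) (nat_lit 136) (nat_lit 5) (nat_lit 325) (nat_lit 266) (nat_lit 189)) (XT.lf (nat_lit 0) (nat_lit 10023336985) (nat_lit 380) (nat_lit 352978552) (nat_lit 456) (nat_lit 4043162119) (nat_lit 130) (nat_lit 5) (nat_lit 135) (nat_lit 5) (nat_lit 136) (nat_lit 5) (nat_lit 326) (nat_lit 266) (nat_lit 188))))) (XT.nd (nat_lit 234) (nat_lit 988) (nat_lit 0) (XT.nd (nat_lit 78) (nat_lit 684) (nat_lit 0) (XT.lf (nat_lit 0) (nat_lit 559273452) (nat_lit 456) (nat_lit 7561510745) (nat_lit 76) (nat_lit 6575532342) (nat_lit 124) (nat_lit 5) (nat_lit 130) (nat_lit 5) (nat_lit 125) (nat_lit 5) (nat_lit 327) (nat_lit 266) (nat_lit 187)) (XT.nd (nat_lit 78) (nat_lit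 380) (nat_lit 0) (XT.lf (nat_lit 0) (nat_lit 4058647250) (nat_lit 304) (nat_lit 1207733057) (nat_lit 380) (nat_lit 9714130266) (nat_lit 120) (nat_lit 5) (nat_lit 124) (nat_lit 5) (nat_lit 125) (nat_lit 5) (nat_lit 328) (nat_lit 266) (nat_lit 186)) (XT.lf (nat_lit 0) (nat_lit 774435958) (nat_lit 380) (nat_lit 9398392503) (nat_lit 456) (nat_lit 5099254036) (nat_lit 115) (nat_lit 5) (nat_lit 120) (nat_lit 5) (nat_lit 121) (nat_lit 5) (nat_lit 329) (nat_lit 266) (nat_lit 185)))) (XT.nd (nat_lit 156) (nat_lit 608) (nat_lit 0) (XT.nd (nat_lit 78) (nat_lit 380) (nat_lit 0) (XT.lf (nat_lit 0) (nat_lit 12908144256) (nat_lit 380) (nat_lit 2364209547) (nat_lit 456) (nat_lit 299144306) (nat_lit 115) (nat_lit 5) (nat_lit 120) (nat_lit 5) (nat_lit 121) (nat_lit 5) (nat_lit 330) (nat_lit 266) (nat_lit 184)) (XT.lf (nat_lit 0) (nat_lit 4643008183) (nat_lit 380) (nat_lit 6343346827) (nat_lit 76) (nat_lit 4891772354)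 (nat_lit 110) (nat_lit 5) (nat_lit 115) (nat_lit 5) (nat_lit 111) (nat_lit 5) (nat_lit 331) (nat_lit 266) (nat_lit 183))) (XT.nd (nat_lit 78) (nat_lit 304) (nat_lit 0) (XT.lf (nat_lit 0) (nat_lit 5948403864) (nat_lit 304) (nat_lit 3818804835) (nat_lit 380) (nat_lit 6425963424) (nat_lit 106) (nat_lit 5) (nat_lit 110) (nat_lit 5) (nat_lit 111) (nat_lit 5) (nat_lit 332) (nat_lit 266) (nat_lit 182)) (XT.lf (nat_lit 0) (nat_lit 2130334399) (nat_lit 304) (nat_lit 12960817750) (nat_lit 380) (nat_lit 1425608482) (nat_lit 102) (nat_lit 5) (nat_lit 106) (nat_lit 5) (nat_lit 107) (nat_lit 5) (nat_lit 333) (nat_lit 266) (nat_lit 181)))))) (XT.nd (nat_lit 546) (nat_lit 1292) (nat_lit 0) (XT.nd (nat_lit 234) (nat_lit 988) (nat_lit 0) (XT.nd (nat_lit 78) (nat_lit 532) (nat_lit 0) (XT.lf (nat_lit 0) (nat_lit 3737526679) (nat_lit 380) (nat_lit 1934636817) (nat_lit 76) (nat_lit 11176189347) (nat_lit 101) (nat_lit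 5) (nat_lit 106) (nat_lit 5) (nat_lit 102) (nat_lit 5) (nat_lit 334) (nat_lit 266) (nat_lit 180)) (XT.nd (nat_lit 78) (nat_lit 228) (nat_lit 0) (XT.lf (nat_lit 0) (nat_lit 9087063964) (nat_lit 380) (nat_lit 6227352441) (nat_lit 76) (nat_lit 1874282199) (nat_lit 97) (nat_lit 5) (nat_lit 102) (nat_lit 5) (nat_lit 98) (nat_lit 5) (nat_lit 335) (nat_lit 266) (nat_lit 179)) (XT.lf (nat_lit 0) (nat_lit 6731076876) (nat_lit 228) (nat_lit 7928538215) (nat_lit 304) (nat_lit 2878400526) (nat_lit 94) (nat_lit 5) (nat_lit 97) (nat_lit 5) (nat_lit 98) (nat_lit 5) (nat_lit 336) (nat_lit 266) (nat_lit 178)))) (XT.nd (nat_lit 156) (nat_lit 608) (nat_lit 0) (XT.nd (nat_lit 78) (nat_lit 0) (nat_lit 0) (XT.lf (nat_lit 0) (nat_lit 2228750829) (nat_lit 304) (nat_lit 265011644) (nat_lit 380) (nat_lit 15403234922) (nat_lit 89) (nat_lit 5) (nat_lit 93) (nat_lit 5) (nat_lit 94) (nat_lit 5) (nat_lit 337) (nat_lit 266) (nat_lit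 177)) (XT.lf (nat_lit 0) (nat_lit 8080031073) (nat_lit 380) (nat_lit 2581297367) (nat_lit 76) (nat_lit 7603209290) (nat_lit 89) (nat_lit 5) (nat_lit 94) (nat_lit 5) (nat_lit 90) (nat_lit 5) (nat_lit 338) (nat_lit 266) (nat_lit 176))) (XT.nd (nat_lit 78) (nat_lit 380) (nat_lit 0) (XT.lf (nat_lit 0) (nat_lit 10991922246) (nat_lit 228) (nat_lit 2884598759) (nat_lit 304) (nat_lit 4765740862) (nat_lit 86) (nat_lit 5) (nat_lit 89) (nat_lit 5) (nat_lit 90) (nat_lit 5) (nat_lit 339) (nat_lit 266) (nat_lit 175)) (XT.lf (nat_lit 0) (nat_lit 864898238) (nat_lit 380) (nat_lit 13062603207) (nat_lit 76) (nat_lit 5102520005) (nat_lit 81) (nat_lit 5) (nat_lit 86) (nat_lit 5) (nat_lit 82) (nat_lit 5) (nat_lit 340) (nat_lit 266) (nat_lit 174))))) (XT.nd (nat_lit 234) (nat_lit 836) (nat_lit 0) (XT.nd (nat_lit 78) (nat_lit 228) (nat_lit 0) (XT.lf (nat_lit 0) (nat_lit 578081810) (nat_lit 228) (nat_lit 6067539918) (nat_lit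 304) (nat_lit 12782253281) (nat_lit 78) (nat_lit 5) (nat_lit 81) (nat_lit 5) (nat_lit 82) (nat_lit 5) (nat_lit 341) (nat_lit 266) (nat_lit 173)) (XT.nd (nat_lit 78) (nat_lit 228) (nat_lit 0) (XT.lf (nat_lit 0) (nat_lit 12672793488) (nat_lit 304) (nat_lit 5090598930) (nat_lit 76) (nat_lit 2072820430) (nat_lit 78) (nat_lit 5) (nat_lit 82) (nat_lit 5) (nat_lit 79) (nat_lit 5) (nat_lit 342) (nat_lit 266) (nat_lit 172)) (XT.lf (nat_lit 0) (nat_lit 9113976099) (nat_lit 228) (nat_lit 9838161875) (nat_lit 304) (nat_lit 1303244633) (nat_lit 75) (nat_lit 5) (nat_lit 78) (nat_lit 5) (nat_lit 79) (nat_lit 5) (nat_lit 343) (nat_lit 266) (nat_lit 171)))) (XT.nd (nat_lit 156) (nat_lit 532) (nat_lit 0) (XT.nd (nat_lit 78) (nat_lit 0) (nat_lit 0) (XT.lf (nat_lit 0) (nat_lit 3091541837) (nat_lit 228) (nat_lit 1605864227) (nat_lit 304) (nat_lit 15988580511) (nat_lit 71) (nat_lit 5) (nat_lit 74) (nat_lit 5) (nat_lit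 75) (nat_lit 5) (nat_lit 344) (nat_lit 266) (nat_lit 170)) (XT.lf (nat_lit 0) (nat_lit 10953449210) (nat_lit 304) (nat_lit 3323534318) (nat_lit 76) (nat_lit 6850499524) (nat_lit 71) (nat_lit 5) (nat_lit 75) (nat_lit 5) (nat_lit 72) (nat_lit 5) (nat_lit 345) (nat_lit 266) (nat_lit 169))) (XT.nd (nat_lit 78) (nat_lit 304) (nat_lit 0) (XT.lf (nat_lit 0) (nat_lit 11470859560) (nat_lit 228) (nat_lit 5984688501) (nat_lit 304) (nat_lit 4125516892) (nat_lit 68) (nat_lit 5) (nat_lit 71) (nat_lit 5) (nat_lit 72) (nat_lit 5) (nat_lit 346) (nat_lit 266) (nat_lit 168)) (XT.lf (nat_lit 0) (nat_lit 2120513793) (nat_lit 304) (nat_lit 17353625117) (nat_lit 76) (nat_lit 2572976592) (nat_lit 64) (nat_lit 5) (nat_lit 68) (nat_lit 5) (nat_lit 65) (nat_lit 5) (nat_lit 347) (nat_lit 266) (nat_lit 167))))))))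
noncomputable def xc63 : XT := (XT.nd (nat_lit 35256) (nat_lit 0) (nat_lit 15656) (XT.nd (nat_lit 1014) (nat_lit 228) (nat_lit 0) (XT.nd (nat_lit 468) (nat_lit 912) (nat_lit 0) (XT.nd (nat_lit 234) (nat_lit 456) (nat_lit 0) (XT.nd (nat_lit 78) (nat_lit 380) (nat_lit 0) (XT.lf (nat_lit 0) (nat_lit 8581036118) (nat_lit 304) (nat_lit 2557845623) (nat_lit 76) (nat_lit 11386064635) (nat_lit 64) (nat_lit 5) (nat_lit 68) (nat_lit 5) (nat_lit 65) (nat_lit 5) (nat_lit 348) (nat_lit 266) (nat_lit 166)) (XT.nd (nat_lit 78) (nat_lit 152) (nat_lit 0) (XT.lf (nat_lit 0) (nat_lit 12807360372) (nat_lit 228) (nat_lit 2485784030) (nat_lit 304) (nat_lit 7722819561) (nat_lit 61) (nat_lit 5) (nat_lit 64) (nat_lit 5) (nat_lit 65) (nat_lit 5) (nat_lit 349) (nat_lit 266) (nat_lit 165)) (XT.lf (nat_lit 0) (nat_lit 5130488410) (nat_lit 152) (nat_lit 17143588989) (nat_lit 228) (nat_lit 1246292433) (nat_lit 59) (nat_lit 5)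 (nat_lit 61) (nat_lit 5) (nat_lit 62) (nat_lit 5) (nat_lit 350) (nat_lit 266) (nat_lit 164)))) (XT.nd (nat_lit 78) (nat_lit 380) (nat_lit 0) (XT.lf (nat_lit 0) (nat_lit 5414911257) (nat_lit 228) (nat_lit 3063113074) (nat_lit 76) (nat_lit 15559955312) (nat_lit 58) (nat_lit 5) (nat_lit 61) (nat_lit 5) (nat_lit 59) (nat_lit 5) (nat_lit 351) (nat_lit 266) (nat_lit 163)) (XT.nd (nat_lit 78) (nat_lit 152) (nat_lit 0) (XT.lf (nat_lit 0) (nat_lit 12321892590) (nat_lit 304) (nat_lit 11730174232) (nat_lit 76) (nat_lit 517635145) (nat_lit 55) (nat_lit 5) (nat_lit 59) (nat_lit 5) (nat_lit 56) (nat_lit 5) (nat_lit 352) (nat_lit 266) (nat_lit 162)) (XT.lf (nat_lit 0) (nat_lit 4100891070) (nat_lit 152) (nat_lit 15415729177) (nat_lit 228) (nat_lit 5599151242) (nat_lit 53) (nat_lit 5) (nat_lit 55) (nat_lit 5) (nat_lit 56) (nat_lit 5) (nat_lit 353) (nat_lit 266) (nat_lit 161))))) (XT.nd (nat_lit 234) (nat_lit 456)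 (nat_lit 0) (XT.nd (nat_lit 78) (nat_lit 380) (nat_lit 0) (XT.lf (nat_lit 0) (nat_lit 1289193261) (nat_lit 228) (nat_lit 5157754092) (nat_lit 76) (nat_lit 19229987384) (nat_lit 52) (nat_lit 5) (nat_lit 55) (nat_lit 5) (nat_lit 53) (nat_lit 5) (nat_lit 354) (nat_lit 266) (nat_lit 160)) (XT.nd (nat_lit 78) (nat_lit 152) (nat_lit 0) (XT.lf (nat_lit 0) (nat_lit 8377592791) (nat_lit 304) (nat_lit 15025566271) (nat_lit 76) (nat_lit 2849649897) (nat_lit 49) (nat_lit 5) (nat_lit 53) (nat_lit 5) (nat_lit 50) (nat_lit 5) (nat_lit 355) (nat_lit 266) (nat_lit 159)) (XT.lf (nat_lit 0) (nat_lit 1263865157) (nat_lit 152) (nat_lit 14478867065) (nat_lit 228) (nat_lit 11101951051) (nat_lit 47) (nat_lit 5) (nat_lit 49) (nat_lit 5) (nat_lit 50) (nat_lit 5) (nat_lit 356) (nat_lit 266) (nat_lit 158)))) (XT.nd (nat_lit 156) (nat_lit 152) (nat_lit 0) (XT.nd (nat_lit 78) (nat_lit 304) (nat_lit 0) (XT.lf (nat_lit 0) (nat_lit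 18209781651) (nat_lit 152) (nat_lit 5198855549) (nat_lit 228) (nat_lit 4044085847) (nat_lit 47) (nat_lit 5) (nat_lit 49) (nat_lit 5) (nat_lit 50) (nat_lit 5) (nat_lit 357) (nat_lit 266) (nat_lit 157)) (XT.lf (nat_lit 0) (nat_lit 3239890767) (nat_lit 304) (nat_lit 20479599059) (nat_lit 76) (nat_lit 4357966965) (nat_lit 43) (nat_lit 5) (nat_lit 47) (nat_lit 5) (nat_lit 44) (nat_lit 5) (nat_lit 358) (nat_lit 266) (nat_lit 156))) (XT.nd (nat_lit 78) (nat_lit 152) (nat_lit 0) (XT.lf (nat_lit 0) (nat_lit 10764349465) (nat_lit 304) (nat_lit 3748291618) (nat_lit 76) (nat_lit 14206223759) (nat_lit 43) (nat_lit 5) (nat_lit 47) (nat_lit 5) (nat_lit 44) (nat_lit 5) (nat_lit 359) (nat_lit 266) (nat_lit 155)) (XT.lf (nat_lit 0) (nat_lit 13627974818) (nat_lit 152) (nat_lit 4954445013) (nat_lit 228) (nat_lit 10795742643) (nat_lit 41) (nat_lit 5) (nat_lit 43) (nat_lit 5) (nat_lit 44) (nat_lit 5) (nat_lit 360) (nat_lit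 266) (nat_lit 154)))))) (XT.nd (nat_lit 33696) (nat_lit 0) (nat_lit 39140) (XT.nd (nat_lit 33384) (nat_lit 0) (nat_lit 41876) (XT.nd (nat_lit 78) (nat_lit 76) (nat_lit 0) (XT.lf (nat_lit 0) (nat_lit 1472044181) (nat_lit 152) (nat_lit 25209537081) (nat_lit 228) (nat_lit 3374731548) (nat_lit 39) (nat_lit 5) (nat_lit 41) (nat_lit 5) (nat_lit 42) (nat_lit 5) (nat_lit 361) (nat_lit 266) (nat_lit 153)) (XT.nd (nat_lit 33228) (nat_lit 0) (nat_lit 43472) (XT.lf (nat_lit 0) (nat_lit 4333390211) (nat_lit 228) (nat_lit 11422838388) (nat_lit 76) (nat_lit 14995619893) (nat_lit 38) (nat_lit 5) (nat_lit 41) (nat_lit 5) (nat_lit 39) (nat_lit 5) (nat_lit 362) (nat_lit 266) (nat_lit 152)) (XT.lf (nat_lit 0) (nat_lit 532654419) (nat_lit 0) (nat_lit 532654419) (nat_lit 684) (nat_lit 2262342762) (nat_lit 610) (nat_lit 5) (nat_lit 610) (nat_lit 3) (nat_lit 619) (nat_lit 3) (nat_lit 267) (nat_lit 267) (nat_lit 246))))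 (XT.nd (nat_lit 156) (nat_lit 836) (nat_lit 0) (XT.nd (nat_lit 78) (nat_lit 760) (nat_lit 0) (XT.lf (nat_lit 0) (nat_lit 5396185322) (nat_lit 684) (nat_lit 915669966) (nat_lit 760) (nat_lit 375290202) (nat_lit 610) (nat_lit 5) (nat_lit 619) (nat_lit 3) (nat_lit 620) (nat_lit 5) (nat_lit 268) (nat_lit 267) (nat_lit 245)) (XT.lf (nat_lit 0) (nat_lit 1918878645) (nat_lit 760) (nat_lit 2858075771) (nat_lit 836) (nat_lit 1944733526) (nat_lit 600) (nat_lit 5) (nat_lit 610) (nat_lit 5) (nat_lit 611) (nat_lit 5) (nat_lit 269) (nat_lit 267) (nat_lit 244))) (XT.nd (nat_lit 78) (nat_lit 836) (nat_lit 0) (XT.lf (nat_lit 76) (nat_lit 1992317019) (nat_lit 0) (nat_lit 3111048698) (nat_lit 836) (nat_lit 1655935589) (nat_lit 601) (nat_lit 5) (nat_lit 600) (nat_lit 5) (nat_lit 611) (nat_lit 5) (nat_lit 270) (nat_lit 267) (nat_lit 243)) (XT.lf (nat_lit 76) (nat_lit 153838345) (nat_lit 0) (nat_lit 1310072018) (nat_lit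 912) (nat_lit 5336056901) (nat_lit 590) (nat_lit 5) (nat_lit 589) (nat_lit 5) (nat_lit 601) (nat_lit 5) (nat_lit 271) (nat_lit 267) (nat_lit 242))))) (XT.nd (nat_lit 234) (nat_lit 1900) (nat_lit 0) (XT.nd (nat_lit 78) (nat_lit 912) (nat_lit 0) (XT.lf (nat_lit 0) (nat_lit 4573333690) (nat_lit 836) (nat_lit 1637657736) (nat_lit 912) (nat_lit 632387068) (nat_lit 590) (nat_lit 5) (nat_lit 601) (nat_lit 5) (nat_lit 602) (nat_lit 5) (nat_lit 272) (nat_lit 267) (nat_lit 241)) (XT.nd (nat_lit 78) (nat_lit 0) (nat_lit 0) (XT.lf (nat_lit 0) (nat_lit 792795996) (nat_lit 912) (nat_lit 3404131468) (nat_lit 988) (nat_lit 2692827737) (nat_lit 578) (nat_lit 5) (nat_lit 590) (nat_lit 5) (nat_lit 591) (nat_lit 5) (nat_lit 273) (nat_lit 267) (nat_lit 240)) (XT.lf (nat_lit 76) (nat_lit 1788263807) (nat_lit 0) (nat_lit 2039155521) (nat_lit 988) (nat_lit 3111694181) (nat_lit 579) (nat_lit 5) (nat_lit 578) (nat_lit 5)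 (nat_lit 591) (nat_lit 5) (nat_lit 274) (nat_lit 267) (nat_lit 239)))) (XT.nd (nat_lit 156) (nat_lit 988) (nat_lit 0) (XT.nd (nat_lit 78) (nat_lit 988) (nat_lit 0) (XT.lf (nat_lit 76) (nat_lit 124703929) (nat_lit 0) (nat_lit 6744493329) (nat_lit 988) (nat_lit 122535094) (nat_lit 580) (nat_lit 5) (nat_lit 579) (nat_lit 5) (nat_lit 592) (nat_lit 5) (nat_lit 275) (nat_lit 267) (nat_lit 238)) (XT.lf (nat_lit 0) (nat_lit 2859127646) (nat_lit 988) (nat_lit 1518788378) (nat_lit 1064) (nat_lit 2668895010) (nat_lit 566) (nat_lit 5) (nat_lit 579) (nat_lit 5) (nat_lit 580) (nat_lit 5) (nat_lit 276) (nat_lit 267) (nat_lit 237))) (XT.nd (nat_lit 78) (nat_lit 988) (nat_lit 0) (XT.lf (nat_lit 76) (nat_lit 3973695769) (nat_lit 0) (nat_lit 1876640155) (nat_lit 1064) (nat_lit 1254849101) (nat_lit 567) (nat_lit 5) (nat_lit 566) (nat_lit 5) (nat_lit 580) (nat_lit 5) (nat_lit 277) (nat_lit 267) (nat_lit 236)) (XT.lf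 (nat_lit 0) (nat_lit 1671809813) (nat_lit 1064) (nat_lit 4732462144) (nat_lit 1140) (nat_lit 762318760) (nat_lit 553) (nat_lit 5) (nat_lit 567) (nat_lit 5) (nat_lit 568) (nat_lit 5) (nat_lit 278) (nat_lit 267) (nat_lit 235))))))) (XT.nd (nat_lit 1092) (nat_lit 9424) (nat_lit 0) (XT.nd (nat_lit 546) (nat_lit 9272) (nat_lit 0) (XT.nd (nat_lit 234) (nat_lit 3648) (nat_lit 0) (XT.nd (nat_lit 78) (nat_lit 1140) (nat_lit 0) (XT.lf (nat_lit 76) (nat_lit 901865127) (nat_lit 0) (nat_lit 3707763575) (nat_lit 1140) (nat_lit 2621323008) (nat_lit 554) (nat_lit 5) (nat_lit 553) (nat_lit 5) (nat_lit 568) (nat_lit 5) (nat_lit 279) (nat_lit 267) (nat_lit 234)) (XT.nd (nat_lit 78) (nat_lit 0) (nat_lit 76) (XT.lf (nat_lit 0) (nat_lit 268457662) (nat_lit 1140) (nat_lit 598317752) (nat_lit 1216) (nat_lit 6431816050) (nat_lit 538) (nat_lit 5) (nat_lit 553) (nat_lit 5) (nat_lit 554) (nat_lit 5) (nat_lit 280) (nat_lit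 267) (nat_lit 233)) (XT.lf (nat_lit 0) (nat_lit 3162876062) (nat_lit 1140) (nat_lit 2094174476) (nat_lit 76) (nat_lit 2111872757) (nat_lit 539) (nat_lit 5) (nat_lit 554) (nat_lit 5) (nat_lit 540) (nat_lit 5) (nat_lit 281) (nat_lit 267) (nat_lit 232)))) (XT.nd (nat_lit 156) (nat_lit 1292) (nat_lit 0) (XT.nd (nat_lit 78) (nat_lit 1292) (nat_lit 0) (XT.lf (nat_lit 0) (nat_lit 3867515816) (nat_lit 1140) (nat_lit 2219225866) (nat_lit 1216) (nat_lit 1355849335) (nat_lit 524) (nat_lit 5) (nat_lit 539) (nat_lit 5) (nat_lit 540) (nat_lit 5) (nat_lit 282) (nat_lit 267) (nat_lit 231)) (XT.lf (nat_lit 0) (nat_lit 1504999216) (nat_lit 1292) (nat_lit 5053729433) (nat_lit 76) (nat_lit 960692140) (nat_lit 507) (nat_lit 5) (nat_lit 524) (nat_lit 5) (nat_lit 508) (nat_lit 5) (nat_lit 283) (nat_lit 267) (nat_lit 230))) (XT.nd (nat_lit 78) (nat_lit 0) (nat_lit 0) (XT.lf (nat_lit 0) (nat_lit 1059025763) (nat_lit 1292)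 (nat_lit 3331988691) (nat_lit 1368) (nat_lit 3208278814) (nat_lit 490) (nat_lit 5) (nat_lit 507) (nat_lit 5) (nat_lit 508) (nat_lit 5) (nat_lit 284) (nat_lit 267) (nat_lit 229)) (XT.lf (nat_lit 0) (nat_lit 7311832248) (nat_lit 1368) (nat_lit 326839233) (nat_lit 76) (nat_lit 43996185) (nat_lit 490) (nat_lit 5) (nat_lit 508) (nat_lit 5) (nat_lit 491) (nat_lit 5) (nat_lit 285) (nat_lit 267) (nat_lit 228))))) (XT.nd (nat_lit 234) (nat_lit 4788) (nat_lit 0) (XT.nd (nat_lit 78) (nat_lit 3040) (nat_lit 0) (XT.lf (nat_lit 0) (nat_lit 2496008500) (nat_lit 1444) (nat_lit 1723345628) (nat_lit 76) (nat_lit 3549369754) (nat_lit 471) (nat_lit 5) (nat_lit 490) (nat_lit 5) (nat_lit 472) (nat_lit 5) (nat_lit 286) (nat_lit 267) (nat_lit 227)) (XT.nd (nat_lit 78) (nat_lit 1596) (nat_lit 0) (XT.lf (nat_lit 0) (nat_lit 4747547630) (nat_lit 1444) (nat_lit 647065612) (nat_lit 1520) (nat_lit 2463748506) (nat_lit 452)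 (nat_lit 5) (nat_lit 471) (nat_lit 5) (nat_lit 472) (nat_lit 5) (nat_lit 287) (nat_lit 267) (nat_lit 226)) (XT.lf (nat_lit 0) (nat_lit 397169616) (nat_lit 1596) (nat_lit 4511602691) (nat_lit 76) (nat_lit 3042456110) (nat_lit 431) (nat_lit 5) (nat_lit 452) (nat_lit 5) (nat_lit 432) (nat_lit 5) (nat_lit 288) (nat_lit 267) (nat_lit 225)))) (XT.nd (nat_lit 156) (nat_lit 1520) (nat_lit 0) (XT.nd (nat_lit 78) (nat_lit 1672) (nat_lit 0) (XT.lf (nat_lit 0) (nat_lit 2120787788) (nat_lit 1596) (nat_lit 1150239539) (nat_lit 1672) (nat_lit 4776376297) (nat_lit 410) (nat_lit 5) (nat_lit 431) (nat_lit 5) (nat_lit 432) (nat_lit 5) (nat_lit 289) (nat_lit 267) (nat_lit 224)) (XT.lf (nat_lit 0) (nat_lit 791231865) (nat_lit 1672) (nat_lit 5416445516) (nat_lit 1748) (nat_lit 1939313368) (nat_lit 388) (nat_lit 5) (nat_lit 410) (nat_lit 5) (nat_lit 411) (nat_lit 5) (nat_lit 290) (nat_lit 267) (nat_lit 223))) (XT.nd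 (nat_lit 78) (nat_lit 1444) (nat_lit 0) (XT.lf (nat_lit 0) (nat_lit 942333999) (nat_lit 1748) (nat_lit 540628533) (nat_lit 76) (nat_lit 6767083460) (nat_lit 387) (nat_lit 5) (nat_lit 410) (nat_lit 5) (nat_lit 388) (nat_lit 5) (nat_lit 291) (nat_lit 267) (nat_lit 222)) (XT.lf (nat_lit 0) (nat_lit 3869863111) (nat_lit 1520) (nat_lit 1889924683) (nat_lit 76) (nat_lit 2596486900) (nat_lit 368) (nat_lit 5) (nat_lit 388) (nat_lit 5) (nat_lit 369) (nat_lit 5) (nat_lit 292) (nat_lit 267) (nat_lit 221)))))) (XT.nd (nat_lit 546) (nat_lit 4332) (nat_lit 0) (XT.nd (nat_lit 234) (nat_lit 2432) (nat_lit 0) (XT.nd (nat_lit 78) (nat_lit 1824) (nat_lit 0) (XT.lf (nat_lit 0) (nat_lit 5216106297) (nat_lit 836) (nat_lit 1644783412) (nat_lit 912) (nat_lit 1605339327) (nat_lit 357) (nat_lit 5) (nat_lit 368) (nat_lit 5) (nat_lit 369) (nat_lit 5) (nat_lit 293) (nat_lit 267) (nat_lit 220)) (XT.nd (nat_lit 78) (nat_lit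 836) (nat_lit 0) (XT.lf (nat_lit 0) (nat_lit 1329403982) (nat_lit 988) (nat_lit 4639809749) (nat_lit 76) (nat_lit 2610439016) (nat_lit 344) (nat_lit 5) (nat_lit 357) (nat_lit 5) (nat_lit 345) (nat_lit 5) (nat_lit 294) (nat_lit 267) (nat_lit 219)) (XT.lf (nat_lit 0) (nat_lit 2638760981) (nat_lit 836) (nat_lit 1673031866) (nat_lit 912) (nat_lit 4384894073) (nat_lit 333) (nat_lit 5) (nat_lit 344) (nat_lit 5) (nat_lit 345) (nat_lit 5) (nat_lit 295) (nat_lit 267) (nat_lit 218)))) (XT.nd (nat_lit 156) (nat_lit 1520) (nat_lit 0) (XT.nd (nat_lit 78) (nat_lit 76) (nat_lit 0) (XT.lf (nat_lit 0) (nat_lit 1313526072) (nat_lit 836) (nat_lit 6060740387) (nat_lit 912) (nat_lit 1443200243) (nat_lit 322) (nat_lit 5) (nat_lit 333) (nat_lit 5) (nat_lit 334) (nat_lit 5) (nat_lit 296) (nat_lit 267) (nat_lit 217)) (XT.lf (nat_lit 0) (nat_lit 1552059235) (nat_lit 912) (nat_lit 41808529) (nat_lit 76) (nat_lit 7348118152)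 (nat_lit 321) (nat_lit 5) (nat_lit 333) (nat_lit 5) (nat_lit 322) (nat_lit 5) (nat_lit 297) (nat_lit 267) (nat_lit 216))) (XT.nd (nat_lit 78) (nat_lit 760) (nat_lit 0) (XT.lf (nat_lit 0) (nat_lit 4622928432) (nat_lit 836) (nat_lit 1421232624) (nat_lit 76) (nat_lit 3025824962) (nat_lit 311) (nat_lit 5) (nat_lit 322) (nat_lit 5) (nat_lit 312) (nat_lit 5) (nat_lit 298) (nat_lit 267) (nat_lit 215)) (XT.lf (nat_lit 0) (nat_lit 6375462233) (nat_lit 760) (nat_lit 1399789897) (nat_lit 836) (nat_lit 1426829453) (nat_lit 301) (nat_lit 5) (nat_lit 311) (nat_lit 5) (nat_lit 312) (nat_lit 5) (nat_lit 299) (nat_lit 267) (nat_lit 214))))) (XT.nd (nat_lit 234) (nat_lit 2128) (nat_lit 0) (XT.nd (nat_lit 78) (nat_lit 1444) (nat_lit 0) (XT.lf (nat_lit 0) (nat_lit 1664831540) (nat_lit 760) (nat_lit 4283560080) (nat_lit 76) (nat_lit 3389511484) (nat_lit 291) (nat_lit 5) (nat_lit 301) (nat_lit 5) (nat_lit 292) (nat_lit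 5) (nat_lit 300) (nat_lit 267) (nat_lit 213)) (XT.nd (nat_lit 78) (nat_lit 684) (nat_lit 0) (XT.lf (nat_lit 0) (nat_lit 3696238717) (nat_lit 760) (nat_lit 1125680838) (nat_lit 836) (nat_lit 4655888684) (nat_lit 281) (nat_lit 5) (nat_lit 291) (nat_lit 5) (nat_lit 292) (nat_lit 5) (nat_lit 301) (nat_lit 267) (nat_lit 212)) (XT.lf (nat_lit 0) (nat_lit 2291321114) (nat_lit 684) (nat_lit 5792056167) (nat_lit 760) (nat_lit 1538377814) (nat_lit 272) (nat_lit 5) (nat_lit 281) (nat_lit 5) (nat_lit 282) (nat_lit 5) (nat_lit 302) (nat_lit 267) (nat_lit 211)))) (XT.nd (nat_lit 156) (nat_lit 1368) (nat_lit 0) (XT.nd (nat_lit 78) (nat_lit 0) (nat_lit 0) (XT.lf (nat_lit 0) (nat_lit 842637168) (nat_lit 684) (nat_lit 802023601) (nat_lit 760) (nat_lit 8125299486) (nat_lit 262) (nat_lit 5) (nat_lit 271) (nat_lit 5) (nat_lit 272) (nat_lit 5) (nat_lit 303) (nat_lit 267) (nat_lit 210)) (XT.lf (nat_lit 0) (nat_lit 4923309504)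 (nat_lit 760) (nat_lit 665281822) (nat_lit 76) (nat_lit 4333431328) (nat_lit 262) (nat_lit 5) (nat_lit 272) (nat_lit 5) (nat_lit 263) (nat_lit 5) (nat_lit 304) (nat_lit 267) (nat_lit 209))) (XT.nd (nat_lit 78) (nat_lit 760) (nat_lit 0) (XT.lf (nat_lit 0) (nat_lit 7878385343) (nat_lit 608) (nat_lit 422850255) (nat_lit 684) (nat_lit 1777426800) (nat_lit 254) (nat_lit 5) (nat_lit 262) (nat_lit 5) (nat_lit 263) (nat_lit 5) (nat_lit 305) (nat_lit 267) (nat_lit 208)) (XT.lf (nat_lit 0) (nat_lit 1544098114) (nat_lit 760) (nat_lit 3813803562) (nat_lit 76) (nat_lit 4881455744) (nat_lit 244) (nat_lit 5) (nat_lit 254) (nat_lit 5) (nat_lit 245) (nat_lit 5) (nat_lit 306) (nat_lit 267) (nat_lit 207))))))))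
noncomputable def xc64 : XT := (XT.nd (nat_lit 2106) (nat_lit 4788) (nat_lit 0) (XT.nd (nat_lit 1014) (nat_lit 4408) (nat_lit 0) (XT.nd (nat_lit 468) (nat_lit 3040) (nat_lit 0) (XT.nd (nat_lit 234) (nat_lit 1216) (nat_lit 0) (XT.nd (nat_lit 78) (nat_lit 1216) (nat_lit 0) (XT.lf (nat_lit 0) (nat_lit 4921513086) (nat_lit 608) (nat_lit 15881493) (nat_lit 684) (nat_lit 5467349519) (nat_lit 236) (nat_lit 5) (nat_lit 244) (nat_lit 5) (nat_lit 245) (nat_lit 5) (nat_lit 307) (nat_lit 267) (nat_lit 206)) (XT.nd (nat_lit 78) (nat_lit 608) (nat_lit 0) (XT.lf (nat_lit 0) (nat_lit 3340639623) (nat_lit 608) (nat_lit 5122609377) (nat_lit 684) (nat_lit 2111258550) (nat_lit 228) (nat_lit 5) (nat_lit 236) (nat_lit 5) (nat_lit 237) (nat_lit 5) (nat_lit 308) (nat_lit 267) (nat_lit 205)) (XT.lf (nat_lit 0) (nat_lit 1327107623) (nat_lit 608) (nat_lit 9046395306) (nat_lit 76) (nat_lit 375730365) (nat_lit 220) (nat_lit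 5) (nat_lit 228) (nat_lit 5) (nat_lit 221) (nat_lit 5) (nat_lit 309) (nat_lit 267) (nat_lit 204)))) (XT.nd (nat_lit 78) (nat_lit 1216) (nat_lit 0) (XT.lf (nat_lit 0) (nat_lit 4872918031) (nat_lit 608) (nat_lit 33771064) (nat_lit 76) (nat_lit 6021601119) (nat_lit 220) (nat_lit 5) (nat_lit 228) (nat_lit 5) (nat_lit 221) (nat_lit 5) (nat_lit 310) (nat_lit 267) (nat_lit 203)) (XT.nd (nat_lit 78) (nat_lit 608) (nat_lit 0) (XT.lf (nat_lit 0) (nat_lit 8541260832) (nat_lit 684) (nat_lit 1807878522) (nat_lit 76) (nat_lit 763283558) (nat_lit 212) (nat_lit 5) (nat_lit 221) (nat_lit 5) (nat_lit 213) (nat_lit 5) (nat_lit 311) (nat_lit 267) (nat_lit 202)) (XT.lf (nat_lit 0) (nat_lit 1038646264) (nat_lit 608) (nat_lit 3681217360) (nat_lit 76) (nat_lit 6581421401) (nat_lit 204) (nat_lit 5) (nat_lit 212) (nat_lit 5) (nat_lit 205) (nat_lit 5) (nat_lit 312) (nat_lit 267) (nat_lit 201))))) (XT.nd (nat_lit 234) (nat_lit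 1444) (nat_lit 0) (XT.nd (nat_lit 78) (nat_lit 1064) (nat_lit 0) (XT.lf (nat_lit 0) (nat_lit 4732074338) (nat_lit 608) (nat_lit 5644446131) (nat_lit 76) (nat_lit 1118772642) (nat_lit 197) (nat_lit 5) (nat_lit 205) (nat_lit 5) (nat_lit 198) (nat_lit 5) (nat_lit 313) (nat_lit 267) (nat_lit 200)) (XT.nd (nat_lit 78) (nat_lit 608) (nat_lit 0) (XT.lf (nat_lit 0) (nat_lit 3984052001) (nat_lit 456) (nat_lit 4588033525) (nat_lit 532) (nat_lit 3122344741) (nat_lit 191) (nat_lit 5) (nat_lit 197) (nat_lit 5) (nat_lit 198) (nat_lit 5) (nat_lit 314) (nat_lit 267) (nat_lit 199)) (XT.lf (nat_lit 0) (nat_lit 634359909) (nat_lit 608) (nat_lit 9866984604) (nat_lit 76) (nat_lit 1397842016) (nat_lit 183) (nat_lit 5) (nat_lit 191) (nat_lit 5) (nat_lit 184) (nat_lit 5) (nat_lit 315) (nat_lit 267) (nat_lit 198)))) (XT.nd (nat_lit 156) (nat_lit 988) (nat_lit 0) (XT.nd (nat_lit 78) (nat_lit 456) (nat_lit 0) (XT.lf (nat_lit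 0) (nat_lit 4499607580) (nat_lit 608) (nat_lit 48949128) (nat_lit 76) (nat_lit 7560373328) (nat_lit 183) (nat_lit 5) (nat_lit 191) (nat_lit 5) (nat_lit 184) (nat_lit 5) (nat_lit 316) (nat_lit 267) (nat_lit 197)) (XT.lf (nat_lit 0) (nat_lit 8513311979) (nat_lit 532) (nat_lit 2197415350) (nat_lit 76) (nat_lit 1613610456) (nat_lit 177) (nat_lit 5) (nat_lit 184) (nat_lit 5) (nat_lit 178) (nat_lit 5) (nat_lit 317) (nat_lit 267) (nat_lit 196))) (XT.nd (nat_lit 78) (nat_lit 456) (nat_lit 0) (XT.lf (nat_lit 0) (nat_lit 140215654) (nat_lit 532) (nat_lit 4466934580) (nat_lit 76) (nat_lit 7938258786) (nat_lit 170) (nat_lit 5) (nat_lit 177) (nat_lit 5) (nat_lit 171) (nat_lit 5) (nat_lit 318) (nat_lit 267) (nat_lit 195)) (XT.lf (nat_lit 0) (nat_lit 4180672448) (nat_lit 532) (nat_lit 6870153179) (nat_lit 76) (nat_lit 1721354106) (nat_lit 164) (nat_lit 5) (nat_lit 171) (nat_lit 5) (nat_lit 165) (nat_lit 5) (nat_lit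 319) (nat_lit 267) (nat_lit 194)))))) (XT.nd (nat_lit 546) (nat_lit 1824) (nat_lit 0) (XT.nd (nat_lit 234) (nat_lit 1672) (nat_lit 0) (XT.nd (nat_lit 78) (nat_lit 456) (nat_lit 0) (XT.lf (nat_lit 0) (nat_lit 3596099561) (nat_lit 456) (nat_lit 4789087952) (nat_lit 532) (nat_lit 4619728830) (nat_lit 158) (nat_lit 5) (nat_lit 164) (nat_lit 5) (nat_lit 165) (nat_lit 5) (nat_lit 320) (nat_lit 267) (nat_lit 193)) (XT.nd (nat_lit 78) (nat_lit 76) (nat_lit 0) (XT.lf (nat_lit 0) (nat_lit 1173075702) (nat_lit 380) (nat_lit 11566979370) (nat_lit 456) (nat_lit 504114735) (nat_lit 153) (nat_lit 5) (nat_lit 158) (nat_lit 5) (nat_lit 159) (nat_lit 5) (nat_lit 321) (nat_lit 267) (nat_lit 192)) (XT.lf (nat_lit 0) (nat_lit 3741687041) (nat_lit 456) (nat_lit 1402323082) (nat_lit 76) (nat_lit 8345009849) (nat_lit 152) (nat_lit 5) (nat_lit 158) (nat_lit 5) (nat_lit 153) (nat_lit 5) (nat_lit 322) (nat_lit 267) (nat_lit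 191)))) (XT.nd (nat_lit 156) (nat_lit 836) (nat_lit 0) (XT.nd (nat_lit 78) (nat_lit 380) (nat_lit 0) (XT.lf (nat_lit 0) (nat_lit 8141295307) (nat_lit 532) (nat_lit 4096668843) (nat_lit 76) (nat_lit 1502536867) (nat_lit 146) (nat_lit 5) (nat_lit 153) (nat_lit 5) (nat_lit 147) (nat_lit 5) (nat_lit 323) (nat_lit 267) (nat_lit 190)) (XT.lf (nat_lit 0) (nat_lit 7043531730) (nat_lit 380) (nat_lit 5680416960) (nat_lit 456) (nat_lit 1274573797) (nat_lit 141) (nat_lit 5) (nat_lit 146) (nat_lit 5) (nat_lit 147) (nat_lit 5) (nat_lit 324) (nat_lit 267) (nat_lit 189))) (XT.nd (nat_lit 78) (nat_lit 380) (nat_lit 0) (XT.lf (nat_lit 0) (nat_lit 3163124611) (nat_lit 456) (nat_lit 9980410015) (nat_lit 76) (nat_lit 1119852752) (nat_lit 135) (nat_lit 5) (nat_lit 141) (nat_lit 5) (nat_lit 136) (nat_lit 5) (nat_lit 325) (nat_lit 267) (nat_lit 188)) (XT.lf (nat_lit 0) (nat_lit 1333707307) (nat_lit 380) (nat_lit 6439627719)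 (nat_lit 456) (nat_lit 6761576574) (nat_lit 130) (nat_lit 5) (nat_lit 135) (nat_lit 5) (nat_lit 136) (nat_lit 5) (nat_lit 326) (nat_lit 267) (nat_lit 187))))) (XT.nd (nat_lit 234) (nat_lit 1064) (nat_lit 0) (XT.nd (nat_lit 78) (nat_lit 760) (nat_lit 0) (XT.lf (nat_lit 0) (nat_lit 12556090433) (nat_lit 456) (nat_lit 1747573627) (nat_lit 76) (nat_lit 510248085) (nat_lit 130) (nat_lit 5) (nat_lit 136) (nat_lit 5) (nat_lit 131) (nat_lit 5) (nat_lit 327) (nat_lit 267) (nat_lit 186)) (XT.nd (nat_lit 78) (nat_lit 304) (nat_lit 0) (XT.lf (nat_lit 0) (nat_lit 2423045358) (nat_lit 456) (nat_lit 5030048416) (nat_lit 76) (nat_lit 7646429828) (nat_lit 124) (nat_lit 5) (nat_lit 130) (nat_lit 5) (nat_lit 125) (nat_lit 5) (nat_lit 328) (nat_lit 267) (nat_lit 185)) (XT.lf (nat_lit 0) (nat_lit 6893964053) (nat_lit 304) (nat_lit 341223647) (nat_lit 380) (nat_lit 8157800940) (nat_lit 120) (nat_lit 5) (nat_lit 124)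 (nat_lit 5) (nat_lit 125) (nat_lit 5) (nat_lit 329) (nat_lit 267) (nat_lit 184)))) (XT.nd (nat_lit 156) (nat_lit 608) (nat_lit 0) (XT.nd (nat_lit 78) (nat_lit 76) (nat_lit 0) (XT.lf (nat_lit 0) (nat_lit 3497774060) (nat_lit 380) (nat_lit 8761534380) (nat_lit 456) (nat_lit 3434610697) (nat_lit 115) (nat_lit 5) (nat_lit 120) (nat_lit 5) (nat_lit 121) (nat_lit 5) (nat_lit 330) (nat_lit 267) (nat_lit 183)) (XT.lf (nat_lit 0) (nat_lit 1437458837) (nat_lit 456) (nat_lit 95982446) (nat_lit 76) (nat_lit 14469744829) (nat_lit 114) (nat_lit 5) (nat_lit 120) (nat_lit 5) (nat_lit 115) (nat_lit 5) (nat_lit 331) (nat_lit 267) (nat_lit 182))) (XT.nd (nat_lit 78) (nat_lit 304) (nat_lit 0) (XT.lf (nat_lit 0) (nat_lit 6495815364) (nat_lit 380) (nat_lit 3902299764) (nat_lit 76) (nat_lit 5921438901) (nat_lit 110) (nat_lit 5) (nat_lit 115) (nat_lit 5) (nat_lit 111) (nat_lit 5) (nat_lit 332) (nat_lit 267) (nat_lit 181))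 (XT.lf (nat_lit 0) (nat_lit 8715512961) (nat_lit 304) (nat_lit 3025127952) (nat_lit 380) (nat_lit 4904090076) (nat_lit 106) (nat_lit 5) (nat_lit 110) (nat_lit 5) (nat_lit 111) (nat_lit 5) (nat_lit 333) (nat_lit 267) (nat_lit 180))))))) (XT.nd (nat_lit 1014) (nat_lit 2128) (nat_lit 0) (XT.nd (nat_lit 468) (nat_lit 1368) (nat_lit 0) (XT.nd (nat_lit 234) (nat_lit 608) (nat_lit 0) (XT.nd (nat_lit 78) (nat_lit 304) (nat_lit 0) (XT.lf (nat_lit 0) (nat_lit 216348603) (nat_lit 380) (nat_lit 12211215708) (nat_lit 76) (nat_lit 4550982732) (nat_lit 101) (nat_lit 5) (nat_lit 106) (nat_lit 5) (nat_lit 102) (nat_lit 5) (nat_lit 334) (nat_lit 267) (nat_lit 179)) (XT.nd (nat_lit 78) (nat_lit 0) (nat_lit 0) (XT.lf (nat_lit 0) (nat_lit 535974484) (nat_lit 304) (nat_lit 4934116456) (nat_lit 380) (nat_lit 11850723397) (nat_lit 97) (nat_lit 5) (nat_lit 101) (nat_lit 5) (nat_lit 102) (nat_lit 5) (nat_lit 335) (nat_lit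 267) (nat_lit 178)) (XT.lf (nat_lit 0) (nat_lit 10951454236) (nat_lit 380) (nat_lit 3906988768) (nat_lit 76) (nat_lit 2813517570) (nat_lit 97) (nat_lit 5) (nat_lit 102) (nat_lit 5) (nat_lit 98) (nat_lit 5) (nat_lit 336) (nat_lit 267) (nat_lit 177)))) (XT.nd (nat_lit 78) (nat_lit 380) (nat_lit 0) (XT.lf (nat_lit 0) (nat_lit 9399517343) (nat_lit 228) (nat_lit 7261316285) (nat_lit 304) (nat_lit 1371546846) (nat_lit 94) (nat_lit 5) (nat_lit 97) (nat_lit 5) (nat_lit 98) (nat_lit 5) (nat_lit 337) (nat_lit 267) (nat_lit 176)) (XT.nd (nat_lit 78) (nat_lit 0) (nat_lit 0) (XT.lf (nat_lit 0) (nat_lit 4115086407) (nat_lit 380) (nat_lit 13663454122) (nat_lit 76) (nat_lit 623915901) (nat_lit 89) (nat_lit 5) (nat_lit 94) (nat_lit 5) (nat_lit 90) (nat_lit 5) (nat_lit 338) (nat_lit 267) (nat_lit 175)) (XT.lf (nat_lit 0) (nat_lit 9825619685) (nat_lit 380) (nat_lit 257699792) (nat_lit 76) (nat_lit 8698585132) (nat_lit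 89) (nat_lit 5) (nat_lit 94) (nat_lit 5) (nat_lit 90) (nat_lit 5) (nat_lit 339) (nat_lit 267) (nat_lit 174))))) (XT.nd (nat_lit 234) (nat_lit 532) (nat_lit 0) (XT.nd (nat_lit 78) (nat_lit 608) (nat_lit 0) (XT.lf (nat_lit 0) (nat_lit 13683762445) (nat_lit 228) (nat_lit 2083795912) (nat_lit 304) (nat_lit 3403985756) (nat_lit 86) (nat_lit 5) (nat_lit 89) (nat_lit 5) (nat_lit 90) (nat_lit 5) (nat_lit 340) (nat_lit 267) (nat_lit 173)) (XT.nd (nat_lit 78) (nat_lit 228) (nat_lit 0) (XT.lf (nat_lit 0) (nat_lit 2353559048) (nat_lit 380) (nat_lit 11086983525) (nat_lit 76) (nat_lit 6130658104) (nat_lit 81) (nat_lit 5) (nat_lit 86) (nat_lit 5) (nat_lit 82) (nat_lit 5) (nat_lit 341) (nat_lit 267) (nat_lit 172)) (XT.lf (nat_lit 0) (nat_lit 2924512204) (nat_lit 228) (nat_lit 5355710706) (nat_lit 304) (nat_lit 11701330166) (nat_lit 78) (nat_lit 5) (nat_lit 81) (nat_lit 5) (nat_lit 82) (nat_lit 5) (nat_lit 342)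 (nat_lit 267) (nat_lit 171)))) (XT.nd (nat_lit 156) (nat_lit 228) (nat_lit 0) (XT.nd (nat_lit 78) (nat_lit 304) (nat_lit 0) (XT.lf (nat_lit 0) (nat_lit 14452041401) (nat_lit 304) (nat_lit 2959392023) (nat_lit 76) (nat_lit 2991444204) (nat_lit 78) (nat_lit 5) (nat_lit 82) (nat_lit 5) (nat_lit 79) (nat_lit 5) (nat_lit 343) (nat_lit 267) (nat_lit 170)) (XT.lf (nat_lit 0) (nat_lit 57679892) (nat_lit 304) (nat_lit 9201271714) (nat_lit 76) (nat_lit 11576199334) (nat_lit 74) (nat_lit 5) (nat_lit 78) (nat_lit 5) (nat_lit 75) (nat_lit 5) (nat_lit 344) (nat_lit 267) (nat_lit 169))) (XT.nd (nat_lit 78) (nat_lit 0) (nat_lit 0) (XT.lf (nat_lit 0) (nat_lit 5413192039) (nat_lit 228) (nat_lit 781759971) (nat_lit 304) (nat_lit 15084074778) (nat_lit 71) (nat_lit 5) (nat_lit 74) (nat_lit 5) (nat_lit 75) (nat_lit 5) (nat_lit 345) (nat_lit 267) (nat_lit 168)) (XT.lf (nat_lit 0) (nat_lit 12604661605) (nat_lit 304) (nat_lit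 1238017134) (nat_lit 76) (nat_lit 7891781570) (nat_lit 71) (nat_lit 5) (nat_lit 75) (nat_lit 5) (nat_lit 72) (nat_lit 5) (nat_lit 346) (nat_lit 267) (nat_lit 167)))))) (XT.nd (nat_lit 546) (nat_lit 912) (nat_lit 0) (XT.nd (nat_lit 234) (nat_lit 684) (nat_lit 0) (XT.nd (nat_lit 78) (nat_lit 304) (nat_lit 0) (XT.lf (nat_lit 0) (nat_lit 13964755910) (nat_lit 228) (nat_lit 5312502659) (nat_lit 304) (nat_lit 2924893903) (nat_lit 68) (nat_lit 5) (nat_lit 71) (nat_lit 5) (nat_lit 72) (nat_lit 5) (nat_lit 347) (nat_lit 267) (nat_lit 166)) (XT.nd (nat_lit 78) (nat_lit 0) (nat_lit 0) (XT.lf (nat_lit 0) (nat_lit 3472440114) (nat_lit 304) (nat_lit 15721377961) (nat_lit 76) (nat_lit 3488579596) (nat_lit 64) (nat_lit 5) (nat_lit 68) (nat_lit 5) (nat_lit 65) (nat_lit 5) (nat_lit 348) (nat_lit 267) (nat_lit 165)) (XT.lf (nat_lit 0) (nat_lit 10089254490) (nat_lit 304) (nat_lit 544429623) (nat_lit 76) (nat_lit 12541640464)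 (nat_lit 64) (nat_lit 5) (nat_lit 68) (nat_lit 5) (nat_lit 65) (nat_lit 5) (nat_lit 349) (nat_lit 267) (nat_lit 164)))) (XT.nd (nat_lit 156) (nat_lit 304) (nat_lit 0) (XT.nd (nat_lit 78) (nat_lit 152) (nat_lit 0) (XT.lf (nat_lit 0) (nat_lit 15247822329) (nat_lit 228) (nat_lit 1731823477) (nat_lit 304) (nat_lit 6701898814) (nat_lit 61) (nat_lit 5) (nat_lit 64) (nat_lit 5) (nat_lit 65) (nat_lit 5) (nat_lit 350) (nat_lit 267) (nat_lit 163)) (XT.lf (nat_lit 0) (nat_lit 7326486338) (nat_lit 152) (nat_lit 16826243268) (nat_lit 228) (nat_lit 48708627) (nat_lit 59) (nat_lit 5) (nat_lit 61) (nat_lit 5) (nat_lit 62) (nat_lit 5) (nat_lit 351) (nat_lit 267) (nat_lit 162))) (XT.nd (nat_lit 78) (nat_lit 228) (nat_lit 0) (XT.lf (nat_lit 0) (nat_lit 6760635965) (nat_lit 228) (nat_lit 1156358205) (nat_lit 76) (nat_lit 16818141308) (nat_lit 58) (nat_lit 5) (nat_lit 61) (nat_lit 5) (nat_lit 59) (nat_lit 5) (nat_lit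 352) (nat_lit 267) (nat_lit 161)) (XT.lf (nat_lit 0) (nat_lit 13858352650) (nat_lit 304) (nat_lit 10097540847) (nat_lit 76) (nat_lit 1327254719) (nat_lit 55) (nat_lit 5) (nat_lit 59) (nat_lit 5) (nat_lit 56) (nat_lit 5) (nat_lit 353) (nat_lit 267) (nat_lit 160))))) (XT.nd (nat_lit 234) (nat_lit 456) (nat_lit 0) (XT.nd (nat_lit 78) (nat_lit 304) (nat_lit 0) (XT.lf (nat_lit 0) (nat_lit 6176259633) (nat_lit 152) (nat_lit 15071353840) (nat_lit 228) (nat_lit 4598421516) (nat_lit 53) (nat_lit 5) (nat_lit 55) (nat_lit 5) (nat_lit 56) (nat_lit 5) (nat_lit 354) (nat_lit 267) (nat_lit 159)) (XT.nd (nat_lit 78) (nat_lit 228) (nat_lit 0) (XT.lf (nat_lit 0) (nat_lit 2447652065) (nat_lit 228) (nat_lit 3401842567) (nat_lit 76) (nat_lit 20575067172) (nat_lit 52) (nat_lit 5) (nat_lit 55) (nat_lit 5) (nat_lit 53) (nat_lit 5) (nat_lit 355) (nat_lit 267) (nat_lit 158)) (XT.lf (nat_lit 0) (nat_lit 9733358511) (nat_lit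 304) (nat_lit 13579488660) (nat_lit 76) (nat_lit 3705180295) (nat_lit 49) (nat_lit 5) (nat_lit 53) (nat_lit 5) (nat_lit 50) (nat_lit 5) (nat_lit 356) (nat_lit 267) (nat_lit 157)))) (XT.nd (nat_lit 156) (nat_lit 304) (nat_lit 0) (XT.nd (nat_lit 78) (nat_lit 0) (nat_lit 0) (XT.lf (nat_lit 0) (nat_lit 3167851661) (nat_lit 152) (nat_lit 14131548135) (nat_lit 228) (nat_lit 10328667326) (nat_lit 47) (nat_lit 5) (nat_lit 49) (nat_lit 5) (nat_lit 50) (nat_lit 5) (nat_lit 357) (nat_lit 267) (nat_lit 156)) (XT.lf (nat_lit 0) (nat_lit 20567794081) (nat_lit 152) (nat_lit 4595903796) (nat_lit 228) (nat_lit 3091289726) (nat_lit 47) (nat_lit 5) (nat_lit 49) (nat_lit 5) (nat_lit 50) (nat_lit 5) (nat_lit 358) (nat_lit 267) (nat_lit 155))) (XT.nd (nat_lit 78) (nat_lit 0) (nat_lit 0) (XT.lf (nat_lit 0) (nat_lit 4382813843) (nat_lit 304) (nat_lit 19281391523) (nat_lit 76) (nat_lit 5234412075) (nat_lit 43) (nat_lit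 5) (nat_lit 47) (nat_lit 5) (nat_lit 44) (nat_lit 5) (nat_lit 359) (nat_lit 267) (nat_lit 154)) (XT.lf (nat_lit 0) (nat_lit 12102548253) (nat_lit 304) (nat_lit 2100938902) (nat_lit 76) (nat_lit 15356396977) (nat_lit 43) (nat_lit 5) (nat_lit 47) (nat_lit 5) (nat_lit 44) (nat_lit 5) (nat_lit 360) (nat_lit 267) (nat_lit 153))))))))
noncomputable def xc65 : XT := (XT.nd (nat_lit 35412) (nat_lit 0) (nat_lit 8892) (XT.nd (nat_lit 34320) (nat_lit 0) (nat_lit 24016) (XT.nd (nat_lit 33774) (nat_lit 0) (nat_lit 38836) (XT.nd (nat_lit 33540) (nat_lit 0) (nat_lit 40736) (XT.nd (nat_lit 33384) (nat_lit 0) (nat_lit 42408) (XT.lf (nat_lit 0) (nat_lit 15768064839) (nat_lit 152) (nat_lit 4368765398) (nat_lit 228) (nat_lit 10102504094) (nat_lit 41) (nat_lit 5) (nat_lit 43) (nat_lit 5) (nat_lit 44) (nat_lit 5) (nat_lit 361) (nat_lit 267) (nat_lit 152)) (XT.nd (nat_lit 78) (nat_lit 0) (nat_lit 0) (XT.lf (nat_lit 0)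 (nat_lit 924860540) (nat_lit 836) (nat_lit 1217607049) (nat_lit 836) (nat_lit 1217607049) (nat_lit 599) (nat_lit 3) (nat_lit 610) (nat_lit 3) (nat_lit 610) (nat_lit 5) (nat_lit 268) (nat_lit 268) (nat_lit 244)) (XT.lf (nat_lit 76) (nat_lit 2294477137) (nat_lit 0) (nat_lit 2666799509) (nat_lit 836) (nat_lit 1794935151) (nat_lit 600) (nat_lit 5) (nat_lit 599) (nat_lit 3) (nat_lit 610) (nat_lit 5) (nat_lit 269) (nat_lit 268) (nat_lit 243)))) (XT.nd (nat_lit 78) (nat_lit 836) (nat_lit 0) (XT.lf (nat_lit 76) (nat_lit 338096191) (nat_lit 0) (nat_lit 914440712) (nat_lit 912) (nat_lit 5542803861) (nat_lit 589) (nat_lit 5) (nat_lit 588) (nat_lit 5) (nat_lit 600) (nat_lit 5) (nat_lit 270) (nat_lit 268) (nat_lit 242)) (XT.nd (nat_lit 78) (nat_lit 912) (nat_lit 0) (XT.lf (nat_lit 0) (nat_lit 4285794034) (nat_lit 836) (nat_lit 1575510549) (nat_lit 912) (nat_lit 975840589) (nat_lit 589) (nat_lit 5) (nat_lit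 600) (nat_lit 5) (nat_lit 601) (nat_lit 5) (nat_lit 271) (nat_lit 268) (nat_lit 241)) (XT.lf (nat_lit 0) (nat_lit 436408108) (nat_lit 912) (nat_lit 3456957100) (nat_lit 988) (nat_lit 2988607784) (nat_lit 577) (nat_lit 5) (nat_lit 589) (nat_lit 5) (nat_lit 590) (nat_lit 5) (nat_lit 272) (nat_lit 268) (nat_lit 240))))) (XT.nd (nat_lit 234) (nat_lit 988) (nat_lit 0) (XT.nd (nat_lit 78) (nat_lit 912) (nat_lit 0) (XT.lf (nat_lit 76) (nat_lit 1609024272) (nat_lit 0) (nat_lit 1779398752) (nat_lit 988) (nat_lit 3541304784) (nat_lit 578) (nat_lit 5) (nat_lit 577) (nat_lit 5) (nat_lit 590) (nat_lit 5) (nat_lit 273) (nat_lit 268) (nat_lit 239)) (XT.nd (nat_lit 78) (nat_lit 988) (nat_lit 0) (XT.lf (nat_lit 0) (nat_lit 6346212602) (nat_lit 912) (nat_lit 172565126) (nat_lit 988) (nat_lit 461895360) (nat_lit 578) (nat_lit 5) (nat_lit 590) (nat_lit 5) (nat_lit 591) (nat_lit 5) (nat_lit 274) (nat_lit 268) (nat_lit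 238)) (XT.lf (nat_lit 0) (nat_lit 2267518257) (nat_lit 988) (nat_lit 1927859401) (nat_lit 1064) (nat_lit 2838782344) (nat_lit 565) (nat_lit 5) (nat_lit 578) (nat_lit 5) (nat_lit 579) (nat_lit 5) (nat_lit 275) (nat_lit 268) (nat_lit 237)))) (XT.nd (nat_lit 156) (nat_lit 0) (nat_lit 0) (XT.nd (nat_lit 78) (nat_lit 988) (nat_lit 0) (XT.lf (nat_lit 76) (nat_lit 3433232200) (nat_lit 0) (nat_lit 1734340128) (nat_lit 1064) (nat_lit 1923296958) (nat_lit 566) (nat_lit 5) (nat_lit 565) (nat_lit 5) (nat_lit 579) (nat_lit 5) (nat_lit 276) (nat_lit 268) (nat_lit 236)) (XT.lf (nat_lit 0) (nat_lit 920521389) (nat_lit 1064) (nat_lit 5371727575) (nat_lit 1140) (nat_lit 858422976) (nat_lit 552) (nat_lit 5) (nat_lit 566) (nat_lit 5) (nat_lit 567) (nat_lit 5) (nat_lit 277) (nat_lit 268) (nat_lit 235))) (XT.nd (nat_lit 78) (nat_lit 0) (nat_lit 0) (XT.lf (nat_lit 76) (nat_lit 128096072) (nat_lit 0) (nat_lit 3633721792)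 (nat_lit 1140) (nat_lit 3451517871) (nat_lit 553) (nat_lit 5) (nat_lit 552) (nat_lit 5) (nat_lit 567) (nat_lit 5) (nat_lit 278) (nat_lit 268) (nat_lit 234)) (XT.lf (nat_lit 76) (nat_lit 5801636092) (nat_lit 0) (nat_lit 826352489) (nat_lit 1140) (nat_lit 651182812) (nat_lit 553) (nat_lit 5) (nat_lit 552) (nat_lit 5) (nat_lit 567) (nat_lit 5) (nat_lit 279) (nat_lit 268) (nat_lit 233)))))) (XT.nd (nat_lit 546) (nat_lit 8664) (nat_lit 0) (XT.nd (nat_lit 234) (nat_lit 3952) (nat_lit 0) (XT.nd (nat_lit 78) (nat_lit 1140) (nat_lit 0) (XT.lf (nat_lit 0) (nat_lit 2150870818) (nat_lit 1140) (nat_lit 3086276962) (nat_lit 1216) (nat_lit 2110684999) (nat_lit 538) (nat_lit 5) (nat_lit 553) (nat_lit 5) (nat_lit 554) (nat_lit 5) (nat_lit 280) (nat_lit 268) (nat_lit 232)) (XT.nd (nat_lit 78) (nat_lit 1140) (nat_lit 0) (XT.lf (nat_lit 76) (nat_lit 2735288329) (nat_lit 0) (nat_lit 2234150350) (nat_lit 1216) (nat_lit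 2450281478) (nat_lit 539) (nat_lit 5) (nat_lit 538) (nat_lit 5) (nat_lit 554) (nat_lit 5) (nat_lit 281) (nat_lit 268) (nat_lit 231)) (XT.lf (nat_lit 0) (nat_lit 318287167) (nat_lit 1216) (nat_lit 6272600660) (nat_lit 76) (nat_lit 904012489) (nat_lit 523) (nat_lit 5) (nat_lit 539) (nat_lit 5) (nat_lit 524) (nat_lit 5) (nat_lit 282) (nat_lit 268) (nat_lit 230)))) (XT.nd (nat_lit 156) (nat_lit 2736) (nat_lit 0) (XT.nd (nat_lit 78) (nat_lit 1216) (nat_lit 0) (XT.lf (nat_lit 0) (nat_lit 3095560398) (nat_lit 1216) (nat_lit 299359738) (nat_lit 76) (nat_lit 4177985365) (nat_lit 523) (nat_lit 5) (nat_lit 539) (nat_lit 5) (nat_lit 524) (nat_lit 5) (nat_lit 283) (nat_lit 268) (nat_lit 229)) (XT.lf (nat_lit 0) (nat_lit 5865465276) (nat_lit 1216) (nat_lit 43189743) (nat_lit 1292) (nat_lit 1745615948) (nat_lit 507) (nat_lit 5) (nat_lit 523) (nat_lit 5) (nat_lit 524) (nat_lit 5) (nat_lit 284) (nat_lit 268) (nat_lit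 228))) (XT.nd (nat_lit 78) (nat_lit 1368) (nat_lit 0) (XT.lf (nat_lit 0) (nat_lit 1023502930) (nat_lit 1368) (nat_lit 3293306048) (nat_lit 76) (nat_lit 3421807622) (nat_lit 489) (nat_lit 5) (nat_lit 507) (nat_lit 5) (nat_lit 490) (nat_lit 5) (nat_lit 285) (nat_lit 268) (nat_lit 227)) (XT.lf (nat_lit 0) (nat_lit 3027899805) (nat_lit 1368) (nat_lit 774402047) (nat_lit 1444) (nat_lit 4024018390) (nat_lit 471) (nat_lit 5) (nat_lit 489) (nat_lit 5) (nat_lit 490) (nat_lit 5) (nat_lit 286) (nat_lit 268) (nat_lit 226))))) (XT.nd (nat_lit 234) (nat_lit 5624) (nat_lit 0) (XT.nd (nat_lit 78) (nat_lit 1596) (nat_lit 0) (XT.lf (nat_lit 0) (nat_lit 1603678886) (nat_lit 1444) (nat_lit 5032432070) (nat_lit 1520) (nat_lit 1281174086) (nat_lit 452) (nat_lit 5) (nat_lit 471) (nat_lit 5) (nat_lit 472) (nat_lit 5) (nat_lit 287) (nat_lit 268) (nat_lit 225)) (XT.nd (nat_lit 78) (nat_lit 0) (nat_lit 0) (XT.lf (nat_lit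 0) (nat_lit 173868767) (nat_lit 1520) (nat_lit 1310311768) (nat_lit 1596) (nat_lit 6527448218) (nat_lit 431) (nat_lit 5) (nat_lit 451) (nat_lit 5) (nat_lit 452) (nat_lit 5) (nat_lit 288) (nat_lit 268) (nat_lit 224)) (XT.lf (nat_lit 0) (nat_lit 4298015656) (nat_lit 1596) (nat_lit 1257573599) (nat_lit 76) (nat_lit 2553443824) (nat_lit 431) (nat_lit 5) (nat_lit 452) (nat_lit 5) (nat_lit 432) (nat_lit 5) (nat_lit 289) (nat_lit 268) (nat_lit 223)))) (XT.nd (nat_lit 156) (nat_lit 2280) (nat_lit 0) (XT.nd (nat_lit 78) (nat_lit 1748) (nat_lit 0) (XT.lf (nat_lit 0) (nat_lit 5518799977) (nat_lit 1596) (nat_lit 1647668349) (nat_lit 1672) (nat_lit 1043543657) (nat_lit 410) (nat_lit 5) (nat_lit 431) (nat_lit 5) (nat_lit 432) (nat_lit 5) (nat_lit 290) (nat_lit 268) (nat_lit 222)) (XT.lf (nat_lit 0) (nat_lit 1761603989) (nat_lit 1748) (nat_lit 4150340916) (nat_lit 76) (nat_lit 2402327526) (nat_lit 387) (nat_lit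 5) (nat_lit 410) (nat_lit 5) (nat_lit 388) (nat_lit 5) (nat_lit 291) (nat_lit 268) (nat_lit 221))) (XT.nd (nat_lit 78) (nat_lit 836) (nat_lit 0) (XT.lf (nat_lit 0) (nat_lit 2793500244) (nat_lit 1444) (nat_lit 1819415092) (nat_lit 1520) (nat_lit 3809135872) (nat_lit 368) (nat_lit 5) (nat_lit 387) (nat_lit 5) (nat_lit 388) (nat_lit 5) (nat_lit 292) (nat_lit 268) (nat_lit 220)) (XT.lf (nat_lit 0) (nat_lit 1406964770) (nat_lit 836) (nat_lit 6126093674) (nat_lit 912) (nat_lit 1000389748) (nat_lit 357) (nat_lit 5) (nat_lit 368) (nat_lit 5) (nat_lit 369) (nat_lit 5) (nat_lit 293) (nat_lit 268) (nat_lit 219))))))) (XT.nd (nat_lit 1092) (nat_lit 6536) (nat_lit 0) (XT.nd (nat_lit 546) (nat_lit 3572) (nat_lit 0) (XT.nd (nat_lit 234) (nat_lit 3192) (nat_lit 0) (XT.nd (nat_lit 78) (nat_lit 1748) (nat_lit 0) (XT.lf (nat_lit 0) (nat_lit 1849759947) (nat_lit 912) (nat_lit 7147681) (nat_lit 76) (nat_lit 6791442678)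 (nat_lit 356) (nat_lit 5) (nat_lit 368) (nat_lit 5) (nat_lit 357) (nat_lit 5) (nat_lit 294) (nat_lit 268) (nat_lit 218)) (XT.nd (nat_lit 78) (nat_lit 836) (nat_lit 0) (XT.lf (nat_lit 0) (nat_lit 4769906496) (nat_lit 988) (nat_lit 1432059570) (nat_lit 76) (nat_lit 2564686337) (nat_lit 344) (nat_lit 5) (nat_lit 357) (nat_lit 5) (nat_lit 345) (nat_lit 5) (nat_lit 295) (nat_lit 268) (nat_lit 217)) (XT.lf (nat_lit 0) (nat_lit 6010568085) (nat_lit 836) (nat_lit 1753529778) (nat_lit 912) (nat_lit 1124722371) (nat_lit 333) (nat_lit 5) (nat_lit 344) (nat_lit 5) (nat_lit 345) (nat_lit 5) (nat_lit 296) (nat_lit 268) (nat_lit 216)))) (XT.nd (nat_lit 156) (nat_lit 1520) (nat_lit 0) (XT.nd (nat_lit 78) (nat_lit 760) (nat_lit 0) (XT.lf (nat_lit 0) (nat_lit 1804164228) (nat_lit 912) (nat_lit 4366668134) (nat_lit 76) (nat_lit 2843730975) (nat_lit 321) (nat_lit 5) (nat_lit 333) (nat_lit 5) (nat_lit 322) (nat_lit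 5) (nat_lit 297) (nat_lit 268) (nat_lit 215)) (XT.lf (nat_lit 0) (nat_lit 3254710115) (nat_lit 760) (nat_lit 1540930802) (nat_lit 836) (nat_lit 4348531076) (nat_lit 311) (nat_lit 5) (nat_lit 321) (nat_lit 5) (nat_lit 322) (nat_lit 5) (nat_lit 298) (nat_lit 268) (nat_lit 214))) (XT.nd (nat_lit 78) (nat_lit 760) (nat_lit 0) (XT.lf (nat_lit 0) (nat_lit 1825871514) (nat_lit 760) (nat_lit 6052414340) (nat_lit 836) (nat_lit 1399395379) (nat_lit 301) (nat_lit 5) (nat_lit 311) (nat_lit 5) (nat_lit 312) (nat_lit 5) (nat_lit 299) (nat_lit 268) (nat_lit 213)) (XT.lf (nat_lit 0) (nat_lit 358234582) (nat_lit 684) (nat_lit 1251059726) (nat_lit 760) (nat_lit 7805876246) (nat_lit 291) (nat_lit 5) (nat_lit 300) (nat_lit 5) (nat_lit 301) (nat_lit 5) (nat_lit 300) (nat_lit 268) (nat_lit 212))))) (XT.nd (nat_lit 234) (nat_lit 2052) (nat_lit 0) (XT.nd (nat_lit 78) (nat_lit 1520) (nat_lit 0) (XT.lf (nat_lit 0) (nat_lit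 4705236047) (nat_lit 760) (nat_lit 1149160777) (nat_lit 76) (nat_lit 3701920366) (nat_lit 291) (nat_lit 5) (nat_lit 301) (nat_lit 5) (nat_lit 292) (nat_lit 5) (nat_lit 301) (nat_lit 268) (nat_lit 211)) (XT.nd (nat_lit 78) (nat_lit 760) (nat_lit 0) (XT.lf (nat_lit 0) (nat_lit 7017095209) (nat_lit 760) (nat_lit 873681980) (nat_lit 836) (nat_lit 1811023223) (nat_lit 281) (nat_lit 5) (nat_lit 291) (nat_lit 5) (nat_lit 292) (nat_lit 5) (nat_lit 302) (nat_lit 268) (nat_lit 210)) (XT.lf (nat_lit 0) (nat_lit 1318691469) (nat_lit 760) (nat_lit 4284555317) (nat_lit 76) (nat_lit 4247949351) (nat_lit 271) (nat_lit 5) (nat_lit 281) (nat_lit 5) (nat_lit 272) (nat_lit 5) (nat_lit 303) (nat_lit 268) (nat_lit 209)))) (XT.nd (nat_lit 156) (nat_lit 760) (nat_lit 0) (XT.nd (nat_lit 78) (nat_lit 608) (nat_lit 0) (XT.lf (nat_lit 0) (nat_lit 4070603470) (nat_lit 684) (nat_lit 442675784) (nat_lit 760) (nat_lit 5491677165)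 (nat_lit 262) (nat_lit 5) (nat_lit 271) (nat_lit 5) (nat_lit 272) (nat_lit 5) (nat_lit 304) (nat_lit 268) (nat_lit 208)) (XT.lf (nat_lit 0) (nat_lit 2511091674) (nat_lit 608) (nat_lit 5315801374) (nat_lit 684) (nat_lit 2336005541) (nat_lit 254) (nat_lit 5) (nat_lit 262) (nat_lit 5) (nat_lit 263) (nat_lit 5) (nat_lit 305) (nat_lit 268) (nat_lit 207))) (XT.nd (nat_lit 78) (nat_lit 0) (nat_lit 0) (XT.lf (nat_lit 0) (nat_lit 898543752) (nat_lit 760) (nat_lit 9418591488) (nat_lit 76) (nat_lit 8432335) (nat_lit 244) (nat_lit 5) (nat_lit 254) (nat_lit 5) (nat_lit 245) (nat_lit 5) (nat_lit 306) (nat_lit 268) (nat_lit 206)) (XT.lf (nat_lit 0) (nat_lit 4234225956) (nat_lit 760) (nat_lit 778393283) (nat_lit 76) (nat_lit 5479502252) (nat_lit 244) (nat_lit 5) (nat_lit 254) (nat_lit 5) (nat_lit 245) (nat_lit 5) (nat_lit 307) (nat_lit 268) (nat_lit 205)))))) (XT.nd (nat_lit 546) (nat_lit 2964) (nat_lit 0) (XT.nd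 (nat_lit 234) (nat_lit 1748) (nat_lit 0) (XT.nd (nat_lit 78) (nat_lit 1216) (nat_lit 0) (XT.lf (nat_lit 0) (nat_lit 7675653004) (nat_lit 684) (nat_lit 2498988391) (nat_lit 76) (nat_lit 488946612) (nat_lit 236) (nat_lit 5) (nat_lit 245) (nat_lit 5) (nat_lit 237) (nat_lit 5) (nat_lit 308) (nat_lit 268) (nat_lit 204)) (XT.nd (nat_lit 78) (nat_lit 532) (nat_lit 0) (XT.lf (nat_lit 0) (nat_lit 407054653) (nat_lit 684) (nat_lit 4303861126) (nat_lit 76) (nat_lit 6128623116) (nat_lit 227) (nat_lit 5) (nat_lit 236) (nat_lit 5) (nat_lit 228) (nat_lit 5) (nat_lit 309) (nat_lit 268) (nat_lit 203)) (XT.lf (nat_lit 0) (nat_lit 3869486599) (nat_lit 608) (nat_lit 6188140294) (nat_lit 76) (nat_lit 962649905) (nat_lit 220) (nat_lit 5) (nat_lit 228) (nat_lit 5) (nat_lit 221) (nat_lit 5) (nat_lit 310) (nat_lit 268) (nat_lit 202)))) (XT.nd (nat_lit 156) (nat_lit 608) (nat_lit 0) (XT.nd (nat_lit 78) (nat_lit 532) (nat_lit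 0) (XT.lf (nat_lit 0) (nat_lit 3043625608) (nat_lit 608) (nat_lit 4424916682) (nat_lit 684) (nat_lit 3737265974) (nat_lit 212) (nat_lit 5) (nat_lit 220) (nat_lit 5) (nat_lit 221) (nat_lit 5) (nat_lit 311) (nat_lit 268) (nat_lit 201)) (XT.lf (nat_lit 0) (nat_lit 1187559278) (nat_lit 532) (nat_lit 9999932119) (nat_lit 608) (nat_lit 209201510) (nat_lit 205) (nat_lit 5) (nat_lit 212) (nat_lit 5) (nat_lit 213) (nat_lit 5) (nat_lit 312) (nat_lit 268) (nat_lit 200))) (XT.nd (nat_lit 78) (nat_lit 532) (nat_lit 0) (XT.lf (nat_lit 0) (nat_lit 3418774724) (nat_lit 608) (nat_lit 774322780) (nat_lit 76) (nat_lit 7399006602) (nat_lit 204) (nat_lit 5) (nat_lit 212) (nat_lit 5) (nat_lit 205) (nat_lit 5) (nat_lit 313) (nat_lit 268) (nat_lit 199)) (XT.lf (nat_lit 0) (nat_lit 7178202439) (nat_lit 608) (nat_lit 2802541244) (nat_lit 76) (nat_lit 1812120934) (nat_lit 197) (nat_lit 5) (nat_lit 205) (nat_lit 5) (nat_lit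 198) (nat_lit 5) (nat_lit 314) (nat_lit 268) (nat_lit 198))))) (XT.nd (nat_lit 234) (nat_lit 1444) (nat_lit 0) (XT.nd (nat_lit 78) (nat_lit 1064) (nat_lit 0) (XT.lf (nat_lit 0) (nat_lit 7065958068) (nat_lit 456) (nat_lit 4019578032) (nat_lit 532) (nat_lit 913432412) (nat_lit 191) (nat_lit 5) (nat_lit 197) (nat_lit 5) (nat_lit 198) (nat_lit 5) (nat_lit 315) (nat_lit 268) (nat_lit 197)) (XT.nd (nat_lit 78) (nat_lit 456) (nat_lit 0) (XT.lf (nat_lit 0) (nat_lit 2883384259) (nat_lit 608) (nat_lit 7176889241) (nat_lit 76) (nat_lit 2150176147) (nat_lit 183) (nat_lit 5) (nat_lit 191) (nat_lit 5) (nat_lit 184) (nat_lit 5) (nat_lit 316) (nat_lit 268) (nat_lit 196)) (XT.lf (nat_lit 0) (nat_lit 2886571270) (nat_lit 456) (nat_lit 3931808357) (nat_lit 532) (nat_lit 5609062435) (nat_lit 177) (nat_lit 5) (nat_lit 183) (nat_lit 5) (nat_lit 184) (nat_lit 5) (nat_lit 317) (nat_lit 268) (nat_lit 195)))) (XT.nd (nat_lit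 156) (nat_lit 912) (nat_lit 0) (XT.nd (nat_lit 78) (nat_lit 76) (nat_lit 0) (XT.lf (nat_lit 0) (nat_lit 635805653) (nat_lit 456) (nat_lit 10262284260) (nat_lit 532) (nat_lit 1752341697) (nat_lit 171) (nat_lit 5) (nat_lit 177) (nat_lit 5) (nat_lit 178) (nat_lit 5) (nat_lit 318) (nat_lit 268) (nat_lit 194)) (XT.lf (nat_lit 0) (nat_lit 2241028332) (nat_lit 532) (nat_lit 1728176712) (nat_lit 76) (nat_lit 8909635896) (nat_lit 170) (nat_lit 5) (nat_lit 177) (nat_lit 5) (nat_lit 171) (nat_lit 5) (nat_lit 319) (nat_lit 268) (nat_lit 193))) (XT.nd (nat_lit 78) (nat_lit 456) (nat_lit 0) (XT.lf (nat_lit 0) (nat_lit 6364996011) (nat_lit 532) (nat_lit 4213066230) (nat_lit 76) (nat_lit 2535135664) (nat_lit 164) (nat_lit 5) (nat_lit 171) (nat_lit 5) (nat_lit 165) (nat_lit 5) (nat_lit 320) (nat_lit 268) (nat_lit 192)) (XT.lf (nat_lit 0) (nat_lit 6520722212) (nat_lit 456) (nat_lit 4133244400) (nat_lit 532) (nat_lit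 2699811829) (nat_lit 158) (nat_lit 5) (nat_lit 164) (nat_lit 5) (nat_lit 165) (nat_lit 5) (nat_lit 321) (nat_lit 268) (nat_lit 191))))))))
noncomputable def xc66 : XT := (XT.nd (nat_lit 2106) (nat_lit 1900) (nat_lit 0) (XT.nd (nat_lit 1014) (nat_lit 2888) (nat_lit 0) (XT.nd (nat_lit 468) (nat_lit 1824) (nat_lit 0) (XT.nd (nat_lit 234) (nat_lit 1216) (nat_lit 0) (XT.nd (nat_lit 78) (nat_lit 456) (nat_lit 0) (XT.lf (nat_lit 0) (nat_lit 1483328481) (nat_lit 456) (nat_lit 9595887303) (nat_lit 76) (nat_lit 2521535802) (nat_lit 152) (nat_lit 5) (nat_lit 158) (nat_lit 5) (nat_lit 153) (nat_lit 5) (nat_lit 322) (nat_lit 268) (nat_lit 190)) (XT.nd (nat_lit 78) (nat_lit 0) (nat_lit 0) (XT.lf (nat_lit 0) (nat_lit 1324402622) (nat_lit 456) (nat_lit 4475761850) (nat_lit 532) (nat_lit 8053732042) (nat_lit 146) (nat_lit 5) (nat_lit 152) (nat_lit 5) (nat_lit 153) (nat_lit 5) (nat_lit 323) (nat_lit 268) (nat_lit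 189)) (XT.lf (nat_lit 0) (nat_lit 10289546783) (nat_lit 532) (nat_lit 1479208583) (nat_lit 76) (nat_lit 2345036233) (nat_lit 146) (nat_lit 5) (nat_lit 153) (nat_lit 5) (nat_lit 147) (nat_lit 5) (nat_lit 324) (nat_lit 268) (nat_lit 188)))) (XT.nd (nat_lit 78) (nat_lit 760) (nat_lit 0) (XT.lf (nat_lit 0) (nat_lit 583633126) (nat_lit 456) (nat_lit 4433438140) (nat_lit 76) (nat_lit 9363189304) (nat_lit 140) (nat_lit 5) (nat_lit 146) (nat_lit 5) (nat_lit 141) (nat_lit 5) (nat_lit 325) (nat_lit 268) (nat_lit 187)) (XT.nd (nat_lit 78) (nat_lit 380) (nat_lit 0) (XT.lf (nat_lit 0) (nat_lit 5105319813) (nat_lit 456) (nat_lit 7570107542) (nat_lit 76) (nat_lit 1978135483) (nat_lit 135) (nat_lit 5) (nat_lit 141) (nat_lit 5) (nat_lit 136) (nat_lit 5) (nat_lit 326) (nat_lit 268) (nat_lit 186)) (XT.lf (nat_lit 0) (nat_lit 4039471396) (nat_lit 380) (nat_lit 5777868082) (nat_lit 456) (nat_lit 5116645971) (nat_lit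 130) (nat_lit 5) (nat_lit 135) (nat_lit 5) (nat_lit 136) (nat_lit 5) (nat_lit 327) (nat_lit 268) (nat_lit 185))))) (XT.nd (nat_lit 234) (nat_lit 1064) (nat_lit 0) (XT.nd (nat_lit 78) (nat_lit 380) (nat_lit 0) (XT.lf (nat_lit 0) (nat_lit 829495107) (nat_lit 380) (nat_lit 13872115413) (nat_lit 456) (nat_lit 520606893) (nat_lit 125) (nat_lit 5) (nat_lit 130) (nat_lit 5) (nat_lit 131) (nat_lit 5) (nat_lit 328) (nat_lit 268) (nat_lit 184)) (XT.nd (nat_lit 78) (nat_lit 304) (nat_lit 0) (XT.lf (nat_lit 0) (nat_lit 4236705427) (nat_lit 456) (nat_lit 2580980361) (nat_lit 76) (nat_lit 8699304215) (nat_lit 124) (nat_lit 5) (nat_lit 130) (nat_lit 5) (nat_lit 125) (nat_lit 5) (nat_lit 329) (nat_lit 268) (nat_lit 183)) (XT.lf (nat_lit 0) (nat_lit 9162353896) (nat_lit 380) (nat_lit 6164633158) (nat_lit 76) (nat_lit 492909487) (nat_lit 120) (nat_lit 5) (nat_lit 125) (nat_lit 5) (nat_lit 121) (nat_lit 5) (nat_lit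 330) (nat_lit 268) (nat_lit 182)))) (XT.nd (nat_lit 156) (nat_lit 304) (nat_lit 0) (XT.nd (nat_lit 78) (nat_lit 380) (nat_lit 0) (XT.lf (nat_lit 0) (nat_lit 6147815231) (nat_lit 380) (nat_lit 8158313960) (nat_lit 456) (nat_lit 1824366936) (nat_lit 115) (nat_lit 5) (nat_lit 120) (nat_lit 5) (nat_lit 121) (nat_lit 5) (nat_lit 331) (nat_lit 268) (nat_lit 181)) (XT.lf (nat_lit 0) (nat_lit 2426382631) (nat_lit 304) (nat_lit 711518782) (nat_lit 380) (nat_lit 13311605929) (nat_lit 110) (nat_lit 5) (nat_lit 114) (nat_lit 5) (nat_lit 115) (nat_lit 5) (nat_lit 332) (nat_lit 268) (nat_lit 180))) (XT.nd (nat_lit 78) (nat_lit 304) (nat_lit 0) (XT.lf (nat_lit 0) (nat_lit 8305843878) (nat_lit 380) (nat_lit 1539071398) (nat_lit 76) (nat_lit 6931312605) (nat_lit 110) (nat_lit 5) (nat_lit 115) (nat_lit 5) (nat_lit 111) (nat_lit 5) (nat_lit 333) (nat_lit 268) (nat_lit 179)) (XT.lf (nat_lit 0) (nat_lit 11417035831)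 (nat_lit 304) (nat_lit 2259777513) (nat_lit 380) (nat_lit 3434988582) (nat_lit 106) (nat_lit 5) (nat_lit 110) (nat_lit 5) (nat_lit 111) (nat_lit 5) (nat_lit 334) (nat_lit 268) (nat_lit 178)))))) (XT.nd (nat_lit 546) (nat_lit 1368) (nat_lit 0) (XT.nd (nat_lit 234) (nat_lit 836) (nat_lit 0) (XT.nd (nat_lit 78) (nat_lit 304) (nat_lit 0) (XT.lf (nat_lit 0) (nat_lit 1792701740) (nat_lit 380) (nat_lit 10129376447) (nat_lit 76) (nat_lit 5533864594) (nat_lit 101) (nat_lit 5) (nat_lit 106) (nat_lit 5) (nat_lit 102) (nat_lit 5) (nat_lit 335) (nat_lit 268) (nat_lit 177)) (XT.nd (nat_lit 78) (nat_lit 0) (nat_lit 0) (XT.lf (nat_lit 0) (nat_lit 2960510708) (nat_lit 304) (nat_lit 4213458782) (nat_lit 380) (nat_lit 10635126749) (nat_lit 97) (nat_lit 5) (nat_lit 101) (nat_lit 5) (nat_lit 102) (nat_lit 5) (nat_lit 336) (nat_lit 268) (nat_lit 176)) (XT.lf (nat_lit 0) (nat_lit 12780401628) (nat_lit 380) (nat_lit 1660936817)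 (nat_lit 76) (nat_lit 3730241793) (nat_lit 97) (nat_lit 5) (nat_lit 102) (nat_lit 5) (nat_lit 98) (nat_lit 5) (nat_lit 337) (nat_lit 268) (nat_lit 175)))) (XT.nd (nat_lit 156) (nat_lit 228) (nat_lit 0) (XT.nd (nat_lit 78) (nat_lit 304) (nat_lit 0) (XT.lf (nat_lit 0) (nat_lit 87887935) (nat_lit 304) (nat_lit 6537555172) (nat_lit 76) (nat_lit 11917945655) (nat_lit 93) (nat_lit 5) (nat_lit 97) (nat_lit 5) (nat_lit 94) (nat_lit 5) (nat_lit 338) (nat_lit 268) (nat_lit 174)) (XT.lf (nat_lit 0) (nat_lit 5697944514) (nat_lit 380) (nat_lit 11742254351) (nat_lit 76) (nat_lit 1484652371) (nat_lit 89) (nat_lit 5) (nat_lit 94) (nat_lit 5) (nat_lit 90) (nat_lit 5) (nat_lit 339) (nat_lit 268) (nat_lit 173))) (XT.nd (nat_lit 78) (nat_lit 0) (nat_lit 0) (XT.lf (nat_lit 0) (nat_lit 2024325789) (nat_lit 228) (nat_lit 9526104309) (nat_lit 304) (nat_lit 7765854330) (nat_lit 86) (nat_lit 5) (nat_lit 89) (nat_lit 5)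 (nat_lit 90) (nat_lit 5) (nat_lit 340) (nat_lit 268) (nat_lit 172)) (XT.lf (nat_lit 0) (nat_lit 16320764650) (nat_lit 228) (nat_lit 1309905972) (nat_lit 304) (nat_lit 2087755501) (nat_lit 86) (nat_lit 5) (nat_lit 89) (nat_lit 5) (nat_lit 90) (nat_lit 5) (nat_lit 341) (nat_lit 268) (nat_lit 171))))) (XT.nd (nat_lit 234) (nat_lit 760) (nat_lit 0) (XT.nd (nat_lit 78) (nat_lit 228) (nat_lit 0) (XT.lf (nat_lit 0) (nat_lit 3802913922) (nat_lit 380) (nat_lit 9187999310) (nat_lit 76) (nat_lit 7139408180) (nat_lit 81) (nat_lit 5) (nat_lit 86) (nat_lit 5) (nat_lit 82) (nat_lit 5) (nat_lit 342) (nat_lit 268) (nat_lit 170)) (XT.nd (nat_lit 78) (nat_lit 0) (nat_lit 0) (XT.lf (nat_lit 0) (nat_lit 5207636334) (nat_lit 228) (nat_lit 4673837575) (nat_lit 304) (nat_lit 10672041375) (nat_lit 78) (nat_lit 5) (nat_lit 81) (nat_lit 5) (nat_lit 82) (nat_lit 5) (nat_lit 343) (nat_lit 268) (nat_lit 169)) (XT.lf (nat_lit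 0) (nat_lit 16204354749) (nat_lit 304) (nat_lit 895355540) (nat_lit 76) (nat_lit 3888463579) (nat_lit 78) (nat_lit 5) (nat_lit 82) (nat_lit 5) (nat_lit 79) (nat_lit 5) (nat_lit 344) (nat_lit 268) (nat_lit 168)))) (XT.nd (nat_lit 156) (nat_lit 228) (nat_lit 0) (XT.nd (nat_lit 78) (nat_lit 228) (nat_lit 0) (XT.lf (nat_lit 0) (nat_lit 1362470717) (nat_lit 304) (nat_lit 7341706496) (nat_lit 76) (nat_lit 12729571990) (nat_lit 74) (nat_lit 5) (nat_lit 78) (nat_lit 5) (nat_lit 75) (nat_lit 5) (nat_lit 345) (nat_lit 268) (nat_lit 167)) (XT.lf (nat_lit 0) (nat_lit 7659658924) (nat_lit 304) (nat_lit 14215005882) (nat_lit 76) (nat_lit 16772069) (nat_lit 71) (nat_lit 5) (nat_lit 75) (nat_lit 5) (nat_lit 72) (nat_lit 5) (nat_lit 346) (nat_lit 268) (nat_lit 166))) (XT.nd (nat_lit 78) (nat_lit 0) (nat_lit 0) (XT.lf (nat_lit 0) (nat_lit 795052063) (nat_lit 228) (nat_lit 13439597151) (nat_lit 304) (nat_lit 8126435570)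 (nat_lit 68) (nat_lit 5) (nat_lit 71) (nat_lit 5) (nat_lit 72) (nat_lit 5) (nat_lit 347) (nat_lit 268) (nat_lit 165)) (XT.lf (nat_lit 0) (nat_lit 16410063525) (nat_lit 228) (nat_lit 4669043826) (nat_lit 304) (nat_lit 1764277541) (nat_lit 68) (nat_lit 5) (nat_lit 71) (nat_lit 5) (nat_lit 72) (nat_lit 5) (nat_lit 348) (nat_lit 268) (nat_lit 164))))))) (XT.nd (nat_lit 34398) (nat_lit 0) (nat_lit 36404) (XT.nd (nat_lit 468) (nat_lit 912) (nat_lit 0) (XT.nd (nat_lit 234) (nat_lit 456) (nat_lit 0) (XT.nd (nat_lit 78) (nat_lit 228) (nat_lit 0) (XT.lf (nat_lit 0) (nat_lit 4790969908) (nat_lit 304) (nat_lit 14163746127) (nat_lit 76) (nat_lit 4383522314) (nat_lit 64) (nat_lit 5) (nat_lit 68) (nat_lit 5) (nat_lit 65) (nat_lit 5) (nat_lit 349) (nat_lit 268) (nat_lit 163)) (XT.nd (nat_lit 78) (nat_lit 0) (nat_lit 0) (XT.lf (nat_lit 0) (nat_lit 1428135876) (nat_lit 228) (nat_lit 10152055635) (nat_lit 304) (nat_lit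 12266293518) (nat_lit 61) (nat_lit 5) (nat_lit 64) (nat_lit 5) (nat_lit 65) (nat_lit 5) (nat_lit 350) (nat_lit 268) (nat_lit 162)) (XT.lf (nat_lit 0) (nat_lit 17643461491) (nat_lit 228) (nat_lit 1002805353) (nat_lit 304) (nat_lit 5722255115) (nat_lit 61) (nat_lit 5) (nat_lit 64) (nat_lit 5) (nat_lit 65) (nat_lit 5) (nat_lit 351) (nat_lit 268) (nat_lit 161)))) (XT.nd (nat_lit 78) (nat_lit 228) (nat_lit 0) (XT.lf (nat_lit 0) (nat_lit 1099301082) (nat_lit 228) (nat_lit 15440439510) (nat_lit 76) (nat_lit 8364462297) (nat_lit 58) (nat_lit 5) (nat_lit 61) (nat_lit 5) (nat_lit 59) (nat_lit 5) (nat_lit 352) (nat_lit 268) (nat_lit 160)) (XT.nd (nat_lit 78) (nat_lit 0) (nat_lit 0) (XT.lf (nat_lit 0) (nat_lit 702076583) (nat_lit 228) (nat_lit 7381289217) (nat_lit 304) (nat_lit 17371125776) (nat_lit 55) (nat_lit 5) (nat_lit 58) (nat_lit 5) (nat_lit 59) (nat_lit 5) (nat_lit 353) (nat_lit 268) (nat_lit 159))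 (XT.lf (nat_lit 0) (nat_lit 15373927230) (nat_lit 304) (nat_lit 8529849094) (nat_lit 76) (nat_lit 2115578837) (nat_lit 55) (nat_lit 5) (nat_lit 59) (nat_lit 5) (nat_lit 56) (nat_lit 5) (nat_lit 354) (nat_lit 268) (nat_lit 158))))) (XT.nd (nat_lit 234) (nat_lit 456) (nat_lit 0) (XT.nd (nat_lit 78) (nat_lit 304) (nat_lit 0) (XT.lf (nat_lit 0) (nat_lit 8201816845) (nat_lit 152) (nat_lit 14762963573) (nat_lit 228) (nat_lit 3634758304) (nat_lit 53) (nat_lit 5) (nat_lit 55) (nat_lit 5) (nat_lit 56) (nat_lit 5) (nat_lit 355) (nat_lit 268) (nat_lit 157)) (XT.nd (nat_lit 78) (nat_lit 228) (nat_lit 0) (XT.lf (nat_lit 0) (nat_lit 3576584507) (nat_lit 228) (nat_lit 1702932487) (nat_lit 76) (nat_lit 21916402669) (nat_lit 52) (nat_lit 5) (nat_lit 55) (nat_lit 5) (nat_lit 53) (nat_lit 5) (nat_lit 356) (nat_lit 268) (nat_lit 156)) (XT.lf (nat_lit 0) (nat_lit 11066397946) (nat_lit 304) (nat_lit 12198915359) (nat_lit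 76) (nat_lit 4542173106) (nat_lit 49) (nat_lit 5) (nat_lit 53) (nat_lit 5) (nat_lit 50) (nat_lit 5) (nat_lit 357) (nat_lit 268) (nat_lit 155)))) (XT.nd (nat_lit 156) (nat_lit 304) (nat_lit 0) (XT.nd (nat_lit 78) (nat_lit 0) (nat_lit 0) (XT.lf (nat_lit 0) (nat_lit 5021837678) (nat_lit 152) (nat_lit 13818681551) (nat_lit 228) (nat_lit 9595693660) (nat_lit 47) (nat_lit 5) (nat_lit 49) (nat_lit 5) (nat_lit 50) (nat_lit 5) (nat_lit 358) (nat_lit 268) (nat_lit 154)) (XT.lf (nat_lit 0) (nat_lit 22892546802) (nat_lit 152) (nat_lit 4018428456) (nat_lit 228) (nat_lit 2171568529) (nat_lit 47) (nat_lit 5) (nat_lit 49) (nat_lit 5) (nat_lit 50) (nat_lit 5) (nat_lit 359) (nat_lit 268) (nat_lit 153))) (XT.nd (nat_lit 78) (nat_lit 0) (nat_lit 0) (XT.lf (nat_lit 0) (nat_lit 5499995640) (nat_lit 304) (nat_lit 18151288157) (nat_lit 76) (nat_lit 6094343957) (nat_lit 43) (nat_lit 5) (nat_lit 47) (nat_lit 5) (nat_lit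 44) (nat_lit 5) (nat_lit 360) (nat_lit 268) (nat_lit 152)) (XT.lf (nat_lit 0) (nat_lit 13422612451) (nat_lit 304) (nat_lit 505185408) (nat_lit 76) (nat_lit 16499515605) (nat_lit 43) (nat_lit 5) (nat_lit 47) (nat_lit 5) (nat_lit 44) (nat_lit 5) (nat_lit 361) (nat_lit 268) (nat_lit 151)))))) (XT.nd (nat_lit 546) (nat_lit 3192) (nat_lit 0) (XT.nd (nat_lit 234) (nat_lit 912) (nat_lit 0) (XT.nd (nat_lit 78) (nat_lit 912) (nat_lit 0) (XT.lf (nat_lit 0) (nat_lit 295524889) (nat_lit 0) (nat_lit 295524889) (nat_lit 836) (nat_lit 2805849745) (nat_lit 588) (nat_lit 5) (nat_lit 588) (nat_lit 3) (nat_lit 599) (nat_lit 3) (nat_lit 269) (nat_lit 269) (nat_lit 242)) (XT.nd (nat_lit 78) (nat_lit 912) (nat_lit 0) (XT.lf (nat_lit 0) (nat_lit 4142086576) (nat_lit 836) (nat_lit 1445625767) (nat_lit 912) (nat_lit 1246317537) (nat_lit 588) (nat_lit 5) (nat_lit 599) (nat_lit 3) (nat_lit 600) (nat_lit 5) (nat_lit 270)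 (nat_lit 269) (nat_lit 241)) (XT.lf (nat_lit 0) (nat_lit 222698443) (nat_lit 912) (nat_lit 3443513985) (nat_lit 988) (nat_lit 3211093985) (nat_lit 576) (nat_lit 5) (nat_lit 588) (nat_lit 5) (nat_lit 589) (nat_lit 5) (nat_lit 271) (nat_lit 269) (nat_lit 240)))) (XT.nd (nat_lit 156) (nat_lit 912) (nat_lit 0) (XT.nd (nat_lit 78) (nat_lit 0) (nat_lit 76) (XT.lf (nat_lit 76) (nat_lit 1498636993) (nat_lit 0) (nat_lit 1597331428) (nat_lit 988) (nat_lit 3827506873) (nat_lit 577) (nat_lit 5) (nat_lit 576) (nat_lit 5) (nat_lit 589) (nat_lit 5) (nat_lit 272) (nat_lit 269) (nat_lit 239)) (XT.lf (nat_lit 0) (nat_lit 5973549620) (nat_lit 912) (nat_lit 400263222) (nat_lit 988) (nat_lit 598956240) (nat_lit 577) (nat_lit 5) (nat_lit 589) (nat_lit 5) (nat_lit 590) (nat_lit 5) (nat_lit 273) (nat_lit 269) (nat_lit 238))) (XT.nd (nat_lit 78) (nat_lit 0) (nat_lit 0) (XT.lf (nat_lit 0) (nat_lit 1824251882) (nat_lit 988)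 (nat_lit 2270499484) (nat_lit 1064) (nat_lit 2929930241) (nat_lit 564) (nat_lit 5) (nat_lit 577) (nat_lit 5) (nat_lit 578) (nat_lit 5) (nat_lit 274) (nat_lit 269) (nat_lit 237)) (XT.lf (nat_lit 76) (nat_lit 2961839173) (nat_lit 0) (nat_lit 1675295034) (nat_lit 1064) (nat_lit 2442613914) (nat_lit 565) (nat_lit 5) (nat_lit 564) (nat_lit 5) (nat_lit 578) (nat_lit 5) (nat_lit 275) (nat_lit 269) (nat_lit 236))))) (XT.nd (nat_lit 234) (nat_lit 2204) (nat_lit 0) (XT.nd (nat_lit 78) (nat_lit 0) (nat_lit 0) (XT.lf (nat_lit 0) (nat_lit 319834958) (nat_lit 1064) (nat_lit 5946126744) (nat_lit 1140) (nat_lit 872000714) (nat_lit 551) (nat_lit 5) (nat_lit 565) (nat_lit 5) (nat_lit 566) (nat_lit 5) (nat_lit 276) (nat_lit 269) (nat_lit 235)) (XT.nd (nat_lit 78) (nat_lit 0) (nat_lit 0) (XT.lf (nat_lit 0) (nat_lit 3072398290) (nat_lit 1064) (nat_lit 570581735) (nat_lit 1140) (nat_lit 3555898865) (nat_lit 551) (nat_lit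 5) (nat_lit 565) (nat_lit 5) (nat_lit 566) (nat_lit 5) (nat_lit 277) (nat_lit 269) (nat_lit 234)) (XT.lf (nat_lit 76) (nat_lit 4970513145) (nat_lit 0) (nat_lit 873127230) (nat_lit 1140) (nat_lit 1419345100) (nat_lit 552) (nat_lit 5) (nat_lit 551) (nat_lit 5) (nat_lit 566) (nat_lit 5) (nat_lit 278) (nat_lit 269) (nat_lit 233)))) (XT.nd (nat_lit 156) (nat_lit 1140) (nat_lit 0) (XT.nd (nat_lit 78) (nat_lit 0) (nat_lit 0) (XT.lf (nat_lit 0) (nat_lit 1295401530) (nat_lit 1140) (nat_lit 4013372637) (nat_lit 1216) (nat_lit 2021256864) (nat_lit 537) (nat_lit 5) (nat_lit 552) (nat_lit 5) (nat_lit 553) (nat_lit 5) (nat_lit 279) (nat_lit 269) (nat_lit 232)) (XT.lf (nat_lit 76) (nat_lit 1670757504) (nat_lit 0) (nat_lit 2342090438) (nat_lit 1216) (nat_lit 3387319790) (nat_lit 538) (nat_lit 5) (nat_lit 537) (nat_lit 5) (nat_lit 553) (nat_lit 5) (nat_lit 280) (nat_lit 269) (nat_lit 231))) (XT.nd (nat_lit 78)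 (nat_lit 1216) (nat_lit 0) (XT.lf (nat_lit 76) (nat_lit 40778100) (nat_lit 0) (nat_lit 6713881640) (nat_lit 1216) (nat_lit 718967906) (nat_lit 539) (nat_lit 5) (nat_lit 538) (nat_lit 5) (nat_lit 554) (nat_lit 5) (nat_lit 281) (nat_lit 269) (nat_lit 230)) (XT.lf (nat_lit 0) (nat_lit 1969679484) (nat_lit 1216) (nat_lit 1578751157) (nat_lit 1292) (nat_lit 4001332256) (nat_lit 522) (nat_lit 5) (nat_lit 538) (nat_lit 5) (nat_lit 539) (nat_lit 5) (nat_lit 282) (nat_lit 269) (nat_lit 229))))))))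
noncomputable def xc67 : XT := (XT.nd (nat_lit 2106) (nat_lit 9956) (nat_lit 0) (XT.nd (nat_lit 1014) (nat_lit 8816) (nat_lit 0) (XT.nd (nat_lit 468) (nat_lit 8132) (nat_lit 0) (XT.nd (nat_lit 234) (nat_lit 2888) (nat_lit 0) (XT.nd (nat_lit 78) (nat_lit 2508) (nat_lit 0) (XT.lf (nat_lit 76) (nat_lit 4442644432) (nat_lit 0) (nat_lit 230151217) (nat_lit 1292) (nat_lit 2956490151) (nat_lit 523) (nat_lit 5) (nat_lit 522) (nat_lit 5) (nat_lit 539) (nat_lit 5) (nat_lit 283) (nat_lit 269) (nat_lit 228)) (XT.nd (nat_lit 78) (nat_lit 1368) (nat_lit 0) (XT.lf (nat_lit 0) (nat_lit 2910050161) (nat_lit 1216) (nat_lit 4514227892) (nat_lit 1292) (nat_lit 287639025) (nat_lit 507) (nat_lit 5) (nat_lit 523) (nat_lit 5) (nat_lit 524) (nat_lit 5) (nat_lit 284) (nat_lit 269) (nat_lit 227)) (XT.lf (nat_lit 0) (nat_lit 1374233624) (nat_lit 1292) (nat_lit 1005293077) (nat_lit 1368) (nat_lit 5418235269) (nat_lit 489)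 (nat_lit 5) (nat_lit 506) (nat_lit 5) (nat_lit 507) (nat_lit 5) (nat_lit 285) (nat_lit 269) (nat_lit 226)))) (XT.nd (nat_lit 78) (nat_lit 2888) (nat_lit 0) (XT.lf (nat_lit 0) (nat_lit 5092939888) (nat_lit 1368) (nat_lit 166811329) (nat_lit 76) (nat_lit 2627053131) (nat_lit 489) (nat_lit 5) (nat_lit 507) (nat_lit 5) (nat_lit 490) (nat_lit 5) (nat_lit 286) (nat_lit 269) (nat_lit 225)) (XT.nd (nat_lit 78) (nat_lit 1520) (nat_lit 0) (XT.lf (nat_lit 0) (nat_lit 6291704138) (nat_lit 1368) (nat_lit 1566366681) (nat_lit 1444) (nat_lit 121102010) (nat_lit 471) (nat_lit 5) (nat_lit 489) (nat_lit 5) (nat_lit 490) (nat_lit 5) (nat_lit 287) (nat_lit 269) (nat_lit 224)) (XT.lf (nat_lit 0) (nat_lit 2568989591) (nat_lit 1520) (nat_lit 3233038007) (nat_lit 76) (nat_lit 2272567939) (nat_lit 451) (nat_lit 5) (nat_lit 471) (nat_lit 5) (nat_lit 452) (nat_lit 5) (nat_lit 288) (nat_lit 269) (nat_lit 223))))) (XT.nd (nat_lit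 234) (nat_lit 3268) (nat_lit 0) (XT.nd (nat_lit 78) (nat_lit 3344) (nat_lit 0) (XT.lf (nat_lit 0) (nat_lit 3387580907) (nat_lit 1520) (nat_lit 1920492639) (nat_lit 1596) (nat_lit 2865449173) (nat_lit 431) (nat_lit 5) (nat_lit 451) (nat_lit 5) (nat_lit 452) (nat_lit 5) (nat_lit 289) (nat_lit 269) (nat_lit 222)) (XT.nd (nat_lit 78) (nat_lit 1748) (nat_lit 0) (XT.lf (nat_lit 0) (nat_lit 1924755769) (nat_lit 1596) (nat_lit 6180387553) (nat_lit 1672) (nat_lit 170812981) (nat_lit 410) (nat_lit 5) (nat_lit 431) (nat_lit 5) (nat_lit 432) (nat_lit 5) (nat_lit 290) (nat_lit 269) (nat_lit 221)) (XT.lf (nat_lit 0) (nat_lit 434274675) (nat_lit 1672) (nat_lit 2113492500) (nat_lit 1748) (nat_lit 5833864397) (nat_lit 387) (nat_lit 5) (nat_lit 409) (nat_lit 5) (nat_lit 410) (nat_lit 5) (nat_lit 291) (nat_lit 269) (nat_lit 220)))) (XT.nd (nat_lit 156) (nat_lit 1824) (nat_lit 0) (XT.nd (nat_lit 78) (nat_lit 1444)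 (nat_lit 0) (XT.lf (nat_lit 0) (nat_lit 5333067702) (nat_lit 1748) (nat_lit 1057656604) (nat_lit 76) (nat_lit 2100031231) (nat_lit 387) (nat_lit 5) (nat_lit 410) (nat_lit 5) (nat_lit 388) (nat_lit 5) (nat_lit 292) (nat_lit 269) (nat_lit 219)) (XT.lf (nat_lit 0) (nat_lit 6042304631) (nat_lit 1444) (nat_lit 2145679084) (nat_lit 1520) (nat_lit 415497591) (nat_lit 368) (nat_lit 5) (nat_lit 387) (nat_lit 5) (nat_lit 388) (nat_lit 5) (nat_lit 293) (nat_lit 269) (nat_lit 218))) (XT.nd (nat_lit 78) (nat_lit 912) (nat_lit 0) (XT.lf (nat_lit 0) (nat_lit 2363280917) (nat_lit 912) (nat_lit 4100827559) (nat_lit 76) (nat_lit 2255496074) (nat_lit 356) (nat_lit 5) (nat_lit 368) (nat_lit 5) (nat_lit 357) (nat_lit 5) (nat_lit 294) (nat_lit 269) (nat_lit 217)) (XT.lf (nat_lit 0) (nat_lit 3172852669) (nat_lit 912) (nat_lit 2034717290) (nat_lit 988) (nat_lit 3631876243) (nat_lit 344) (nat_lit 5) (nat_lit 356) (nat_lit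 5) (nat_lit 357) (nat_lit 5) (nat_lit 295) (nat_lit 269) (nat_lit 216)))))) (XT.nd (nat_lit 546) (nat_lit 4028) (nat_lit 0) (XT.nd (nat_lit 234) (nat_lit 3040) (nat_lit 0) (XT.nd (nat_lit 78) (nat_lit 912) (nat_lit 0) (XT.lf (nat_lit 0) (nat_lit 1702118399) (nat_lit 836) (nat_lit 6427347447) (nat_lit 912) (nat_lit 833615847) (nat_lit 333) (nat_lit 5) (nat_lit 344) (nat_lit 5) (nat_lit 345) (nat_lit 5) (nat_lit 296) (nat_lit 269) (nat_lit 215)) (XT.nd (nat_lit 78) (nat_lit 0) (nat_lit 0) (XT.lf (nat_lit 0) (nat_lit 193150627) (nat_lit 836) (nat_lit 1819923370) (nat_lit 912) (nat_lit 7077301279) (nat_lit 321) (nat_lit 5) (nat_lit 332) (nat_lit 5) (nat_lit 333) (nat_lit 5) (nat_lit 297) (nat_lit 269) (nat_lit 214)) (XT.lf (nat_lit 0) (nat_lit 4941675725) (nat_lit 912) (nat_lit 1337389739) (nat_lit 76) (nat_lit 2942196067) (nat_lit 321) (nat_lit 5) (nat_lit 333) (nat_lit 5) (nat_lit 322) (nat_lit 5)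 (nat_lit 298) (nat_lit 269) (nat_lit 213)))) (XT.nd (nat_lit 156) (nat_lit 1444) (nat_lit 0) (XT.nd (nat_lit 78) (nat_lit 836) (nat_lit 0) (XT.lf (nat_lit 0) (nat_lit 6461358094) (nat_lit 760) (nat_lit 1491916978) (nat_lit 836) (nat_lit 1402936126) (nat_lit 311) (nat_lit 5) (nat_lit 321) (nat_lit 5) (nat_lit 322) (nat_lit 5) (nat_lit 299) (nat_lit 269) (nat_lit 212)) (XT.lf (nat_lit 0) (nat_lit 1545806517) (nat_lit 836) (nat_lit 4505411108) (nat_lit 76) (nat_lit 3443701800) (nat_lit 300) (nat_lit 5) (nat_lit 311) (nat_lit 5) (nat_lit 301) (nat_lit 5) (nat_lit 300) (nat_lit 269) (nat_lit 211))) (XT.nd (nat_lit 78) (nat_lit 760) (nat_lit 0) (XT.lf (nat_lit 0) (nat_lit 3478299255) (nat_lit 684) (nat_lit 1081286720) (nat_lit 760) (nat_lit 5078141366) (nat_lit 291) (nat_lit 5) (nat_lit 300) (nat_lit 5) (nat_lit 301) (nat_lit 5) (nat_lit 301) (nat_lit 269) (nat_lit 210)) (XT.lf (nat_lit 0) (nat_lit 1917109583)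 (nat_lit 760) (nat_lit 5760525641) (nat_lit 836) (nat_lit 2106942685) (nat_lit 281) (nat_lit 5) (nat_lit 291) (nat_lit 5) (nat_lit 292) (nat_lit 5) (nat_lit 302) (nat_lit 269) (nat_lit 209))))) (XT.nd (nat_lit 234) (nat_lit 2584) (nat_lit 0) (XT.nd (nat_lit 78) (nat_lit 684) (nat_lit 0) (XT.lf (nat_lit 0) (nat_lit 315317075) (nat_lit 684) (nat_lit 622162049) (nat_lit 760) (nat_lit 8998333080) (nat_lit 271) (nat_lit 5) (nat_lit 280) (nat_lit 5) (nat_lit 281) (nat_lit 5) (nat_lit 303) (nat_lit 269) (nat_lit 208)) (XT.nd (nat_lit 78) (nat_lit 684) (nat_lit 0) (XT.lf (nat_lit 0) (nat_lit 4075227642) (nat_lit 760) (nat_lit 1344467347) (nat_lit 76) (nat_lit 4671030463) (nat_lit 271) (nat_lit 5) (nat_lit 281) (nat_lit 5) (nat_lit 272) (nat_lit 5) (nat_lit 304) (nat_lit 269) (nat_lit 207)) (XT.lf (nat_lit 0) (nat_lit 7211561414) (nat_lit 684) (nat_lit 94556751) (nat_lit 760) (nat_lit 2944219632) (nat_lit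 262) (nat_lit 5) (nat_lit 271) (nat_lit 5) (nat_lit 272) (nat_lit 5) (nat_lit 305) (nat_lit 269) (nat_lit 206)))) (XT.nd (nat_lit 156) (nat_lit 1216) (nat_lit 0) (XT.nd (nat_lit 78) (nat_lit 684) (nat_lit 0) (XT.lf (nat_lit 0) (nat_lit 246187250) (nat_lit 684) (nat_lit 4807937565) (nat_lit 76) (nat_lit 5360018283) (nat_lit 253) (nat_lit 5) (nat_lit 262) (nat_lit 5) (nat_lit 254) (nat_lit 5) (nat_lit 306) (nat_lit 269) (nat_lit 205)) (XT.lf (nat_lit 0) (nat_lit 3492300937) (nat_lit 760) (nat_lit 6643067305) (nat_lit 76) (nat_lit 447134660) (nat_lit 244) (nat_lit 5) (nat_lit 254) (nat_lit 5) (nat_lit 245) (nat_lit 5) (nat_lit 307) (nat_lit 269) (nat_lit 204))) (XT.nd (nat_lit 78) (nat_lit 608) (nat_lit 0) (XT.lf (nat_lit 0) (nat_lit 2196068329) (nat_lit 608) (nat_lit 4671482420) (nat_lit 684) (nat_lit 3887756309) (nat_lit 236) (nat_lit 5) (nat_lit 244) (nat_lit 5) (nat_lit 245) (nat_lit 5) (nat_lit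 308) (nat_lit 269) (nat_lit 203)) (XT.lf (nat_lit 0) (nat_lit 399166000) (nat_lit 608) (nat_lit 9950900505) (nat_lit 684) (nat_lit 583136441) (nat_lit 228) (nat_lit 5) (nat_lit 236) (nat_lit 5) (nat_lit 237) (nat_lit 5) (nat_lit 309) (nat_lit 269) (nat_lit 202))))))) (XT.nd (nat_lit 1092) (nat_lit 4180) (nat_lit 0) (XT.nd (nat_lit 546) (nat_lit 2888) (nat_lit 0) (XT.nd (nat_lit 234) (nat_lit 1672) (nat_lit 0) (XT.nd (nat_lit 78) (nat_lit 1140) (nat_lit 0) (XT.lf (nat_lit 0) (nat_lit 2825836883) (nat_lit 684) (nat_lit 1479914542) (nat_lit 76) (nat_lit 6809500303) (nat_lit 227) (nat_lit 5) (nat_lit 236) (nat_lit 5) (nat_lit 228) (nat_lit 5) (nat_lit 310) (nat_lit 269) (nat_lit 201)) (XT.nd (nat_lit 78) (nat_lit 608) (nat_lit 0) (XT.lf (nat_lit 0) (nat_lit 6344479432) (nat_lit 608) (nat_lit 3423792166) (nat_lit 76) (nat_lit 1534132503) (nat_lit 220) (nat_lit 5) (nat_lit 228) (nat_lit 5) (nat_lit 221)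 (nat_lit 5) (nat_lit 311) (nat_lit 269) (nat_lit 200)) (XT.lf (nat_lit 0) (nat_lit 6037066593) (nat_lit 608) (nat_lit 3964576703) (nat_lit 684) (nat_lit 1492893430) (nat_lit 212) (nat_lit 5) (nat_lit 220) (nat_lit 5) (nat_lit 221) (nat_lit 5) (nat_lit 312) (nat_lit 269) (nat_lit 199)))) (XT.nd (nat_lit 156) (nat_lit 532) (nat_lit 0) (XT.nd (nat_lit 78) (nat_lit 532) (nat_lit 0) (XT.lf (nat_lit 0) (nat_lit 2067900967) (nat_lit 608) (nat_lit 7584560945) (nat_lit 76) (nat_lit 2039344743) (nat_lit 204) (nat_lit 5) (nat_lit 212) (nat_lit 5) (nat_lit 205) (nat_lit 5) (nat_lit 313) (nat_lit 269) (nat_lit 198)) (XT.lf (nat_lit 0) (nat_lit 2073769346) (nat_lit 532) (nat_lit 3675161544) (nat_lit 608) (nat_lit 6145215578) (nat_lit 197) (nat_lit 5) (nat_lit 204) (nat_lit 5) (nat_lit 205) (nat_lit 5) (nat_lit 314) (nat_lit 269) (nat_lit 197))) (XT.nd (nat_lit 78) (nat_lit 532) (nat_lit 0) (XT.lf (nat_lit 0)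 (nat_lit 9565445837) (nat_lit 608) (nat_lit 48236606) (nat_lit 76) (nat_lit 2488395310) (nat_lit 197) (nat_lit 5) (nat_lit 205) (nat_lit 5) (nat_lit 198) (nat_lit 5) (nat_lit 315) (nat_lit 269) (nat_lit 196)) (XT.lf (nat_lit 0) (nat_lit 1213443594) (nat_lit 532) (nat_lit 2253015262) (nat_lit 76) (nat_lit 8848681887) (nat_lit 190) (nat_lit 5) (nat_lit 197) (nat_lit 5) (nat_lit 191) (nat_lit 5) (nat_lit 316) (nat_lit 269) (nat_lit 195))))) (XT.nd (nat_lit 234) (nat_lit 1368) (nat_lit 0) (XT.nd (nat_lit 78) (nat_lit 988) (nat_lit 0) (XT.lf (nat_lit 0) (nat_lit 5071868588) (nat_lit 608) (nat_lit 4577505655) (nat_lit 76) (nat_lit 2884300502) (nat_lit 183) (nat_lit 5) (nat_lit 191) (nat_lit 5) (nat_lit 184) (nat_lit 5) (nat_lit 317) (nat_lit 269) (nat_lit 194)) (XT.nd (nat_lit 78) (nat_lit 532) (nat_lit 0) (XT.lf (nat_lit 0) (nat_lit 5742193666) (nat_lit 456) (nat_lit 3339475699) (nat_lit 532) (nat_lit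 3676403001) (nat_lit 177) (nat_lit 5) (nat_lit 183) (nat_lit 5) (nat_lit 184) (nat_lit 5) (nat_lit 318) (nat_lit 269) (nat_lit 193)) (XT.lf (nat_lit 0) (nat_lit 254299804) (nat_lit 532) (nat_lit 9574252938) (nat_lit 76) (nat_lit 3159946238) (nat_lit 170) (nat_lit 5) (nat_lit 177) (nat_lit 5) (nat_lit 171) (nat_lit 5) (nat_lit 319) (nat_lit 269) (nat_lit 192)))) (XT.nd (nat_lit 156) (nat_lit 912) (nat_lit 0) (XT.nd (nat_lit 78) (nat_lit 0) (nat_lit 0) (XT.lf (nat_lit 0) (nat_lit 940165821) (nat_lit 456) (nat_lit 3350449976) (nat_lit 532) (nat_lit 8934002315) (nat_lit 164) (nat_lit 5) (nat_lit 170) (nat_lit 5) (nat_lit 171) (nat_lit 5) (nat_lit 320) (nat_lit 269) (nat_lit 191)) (XT.lf (nat_lit 0) (nat_lit 8496659804) (nat_lit 532) (nat_lit 1640625579) (nat_lit 76) (nat_lit 3329580662) (nat_lit 164) (nat_lit 5) (nat_lit 171) (nat_lit 5) (nat_lit 165) (nat_lit 5) (nat_lit 321) (nat_lit 269) (nat_lit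 190))) (XT.nd (nat_lit 78) (nat_lit 456) (nat_lit 0) (XT.lf (nat_lit 0) (nat_lit 9371391162) (nat_lit 456) (nat_lit 3503621041) (nat_lit 532) (nat_lit 840464148) (nat_lit 158) (nat_lit 5) (nat_lit 164) (nat_lit 5) (nat_lit 165) (nat_lit 5) (nat_lit 322) (nat_lit 269) (nat_lit 189)) (XT.lf (nat_lit 0) (nat_lit 3409020490) (nat_lit 456) (nat_lit 7212476913) (nat_lit 76) (nat_lit 3348808692) (nat_lit 152) (nat_lit 5) (nat_lit 158) (nat_lit 5) (nat_lit 153) (nat_lit 5) (nat_lit 323) (nat_lit 269) (nat_lit 188)))))) (XT.nd (nat_lit 546) (nat_lit 2052) (nat_lit 0) (XT.nd (nat_lit 234) (nat_lit 1216) (nat_lit 0) (XT.nd (nat_lit 78) (nat_lit 456) (nat_lit 0) (XT.lf (nat_lit 0) (nat_lit 3992083252) (nat_lit 456) (nat_lit 3825548690) (nat_lit 532) (nat_lit 6414192611) (nat_lit 146) (nat_lit 5) (nat_lit 152) (nat_lit 5) (nat_lit 153) (nat_lit 5) (nat_lit 324) (nat_lit 269) (nat_lit 187)) (XT.nd (nat_lit 78)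 (nat_lit 76) (nat_lit 0) (XT.lf (nat_lit 0) (nat_lit 1073547357) (nat_lit 380) (nat_lit 11326370515) (nat_lit 456) (nat_lit 2100458047) (nat_lit 141) (nat_lit 5) (nat_lit 146) (nat_lit 5) (nat_lit 147) (nat_lit 5) (nat_lit 325) (nat_lit 269) (nat_lit 186)) (XT.lf (nat_lit 0) (nat_lit 2372493223) (nat_lit 456) (nat_lit 2000998076) (nat_lit 76) (nat_lit 10401992657) (nat_lit 140) (nat_lit 5) (nat_lit 146) (nat_lit 5) (nat_lit 141) (nat_lit 5) (nat_lit 326) (nat_lit 269) (nat_lit 185)))) (XT.nd (nat_lit 156) (nat_lit 456) (nat_lit 0) (XT.nd (nat_lit 78) (nat_lit 380) (nat_lit 0) (XT.lf (nat_lit 0) (nat_lit 6999738209) (nat_lit 456) (nat_lit 5243044708) (nat_lit 76) (nat_lit 2814826281) (nat_lit 135) (nat_lit 5) (nat_lit 141) (nat_lit 5) (nat_lit 136) (nat_lit 5) (nat_lit 327) (nat_lit 269) (nat_lit 184)) (XT.lf (nat_lit 0) (nat_lit 6673383288) (nat_lit 380) (nat_lit 5145333196) (nat_lit 456) (nat_lit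 3528437461) (nat_lit 130) (nat_lit 5) (nat_lit 135) (nat_lit 5) (nat_lit 136) (nat_lit 5) (nat_lit 328) (nat_lit 269) (nat_lit 183))) (XT.nd (nat_lit 78) (nat_lit 0) (nat_lit 0) (XT.lf (nat_lit 0) (nat_lit 1161068470) (nat_lit 456) (nat_lit 12296780206) (nat_lit 76) (nat_lit 2186620125) (nat_lit 124) (nat_lit 5) (nat_lit 130) (nat_lit 5) (nat_lit 125) (nat_lit 5) (nat_lit 329) (nat_lit 269) (nat_lit 182)) (XT.lf (nat_lit 0) (nat_lit 6004836573) (nat_lit 456) (nat_lit 207689150) (nat_lit 76) (nat_lit 9736493627) (nat_lit 124) (nat_lit 5) (nat_lit 130) (nat_lit 5) (nat_lit 125) (nat_lit 5) (nat_lit 330) (nat_lit 269) (nat_lit 181))))) (XT.nd (nat_lit 234) (nat_lit 988) (nat_lit 0) (XT.nd (nat_lit 78) (nat_lit 760) (nat_lit 0) (XT.lf (nat_lit 0) (nat_lit 11051318658) (nat_lit 380) (nat_lit 3911000890) (nat_lit 76) (nat_lit 1299251470) (nat_lit 120) (nat_lit 5) (nat_lit 125) (nat_lit 5) (nat_lit 121)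 (nat_lit 5) (nat_lit 331) (nat_lit 269) (nat_lit 180)) (XT.nd (nat_lit 78) (nat_lit 380) (nat_lit 0) (XT.lf (nat_lit 0) (nat_lit 8731258030) (nat_lit 380) (nat_lit 7586712685) (nat_lit 456) (nat_lit 264165263) (nat_lit 115) (nat_lit 5) (nat_lit 120) (nat_lit 5) (nat_lit 121) (nat_lit 5) (nat_lit 332) (nat_lit 269) (nat_lit 179)) (XT.lf (nat_lit 0) (nat_lit 4795390945) (nat_lit 380) (nat_lit 12031004523) (nat_lit 76) (nat_lit 84738114) (nat_lit 110) (nat_lit 5) (nat_lit 115) (nat_lit 5) (nat_lit 111) (nat_lit 5) (nat_lit 333) (nat_lit 269) (nat_lit 178)))) (XT.nd (nat_lit 156) (nat_lit 684) (nat_lit 0) (XT.nd (nat_lit 78) (nat_lit 0) (nat_lit 0) (XT.lf (nat_lit 0) (nat_lit 762677252) (nat_lit 304) (nat_lit 9319731352) (nat_lit 380) (nat_lit 7165983636) (nat_lit 106) (nat_lit 5) (nat_lit 110) (nat_lit 5) (nat_lit 111) (nat_lit 5) (nat_lit 334) (nat_lit 269) (nat_lit 177)) (XT.lf (nat_lit 0) (nat_lit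 14059535105) (nat_lit 304) (nat_lit 1520610449) (nat_lit 380) (nat_lit 2014591923) (nat_lit 106) (nat_lit 5) (nat_lit 110) (nat_lit 5) (nat_lit 111) (nat_lit 5) (nat_lit 335) (nat_lit 269) (nat_lit 176))) (XT.nd (nat_lit 78) (nat_lit 304) (nat_lit 0) (XT.lf (nat_lit 0) (nat_lit 3326228931) (nat_lit 380) (nat_lit 8125617309) (nat_lit 76) (nat_lit 6497648823) (nat_lit 101) (nat_lit 5) (nat_lit 106) (nat_lit 5) (nat_lit 102) (nat_lit 5) (nat_lit 336) (nat_lit 269) (nat_lit 175)) (XT.lf (nat_lit 0) (nat_lit 5319527736) (nat_lit 304) (nat_lit 3521047231) (nat_lit 380) (nat_lit 9473250822) (nat_lit 97) (nat_lit 5) (nat_lit 101) (nat_lit 5) (nat_lit 102) (nat_lit 5) (nat_lit 337) (nat_lit 269) (nat_lit 174))))))))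
noncomputable def xc68 : XT := (XT.nd (nat_lit 35568) (nat_lit 0) (nat_lit 20368) (XT.nd (nat_lit 1014) (nat_lit 1596) (nat_lit 0) (XT.nd (nat_lit 468) (nat_lit 1292) (nat_lit 0) (XT.nd (nat_lit 234) (nat_lit 608) (nat_lit 0) (XT.nd (nat_lit 78) (nat_lit 380) (nat_lit 0) (XT.lf (nat_lit 0) (nat_lit 523704283) (nat_lit 228) (nat_lit 14057784080) (nat_lit 304) (nat_lit 4106385198) (nat_lit 94) (nat_lit 5) (nat_lit 97) (nat_lit 5) (nat_lit 98) (nat_lit 5) (nat_lit 338) (nat_lit 269) (nat_lit 173)) (XT.nd (nat_lit 78) (nat_lit 304) (nat_lit 0) (XT.lf (nat_lit 0) (nat_lit 1487502103) (nat_lit 304) (nat_lit 4523179695) (nat_lit 76) (nat_lit 13060592595) (nat_lit 93) (nat_lit 5) (nat_lit 97) (nat_lit 5) (nat_lit 94) (nat_lit 5) (nat_lit 339) (nat_lit 269) (nat_lit 172)) (XT.lf (nat_lit 0) (nat_lit 7244512518) (nat_lit 380) (nat_lit 9897233459) (nat_lit 76) (nat_lit 2322875601) (nat_lit 89) (nat_lit 5)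 (nat_lit 94) (nat_lit 5) (nat_lit 90) (nat_lit 5) (nat_lit 340) (nat_lit 269) (nat_lit 171)))) (XT.nd (nat_lit 78) (nat_lit 380) (nat_lit 0) (XT.lf (nat_lit 0) (nat_lit 4246695690) (nat_lit 228) (nat_lit 8999844897) (nat_lit 304) (nat_lit 6621791292) (nat_lit 86) (nat_lit 5) (nat_lit 89) (nat_lit 5) (nat_lit 90) (nat_lit 5) (nat_lit 341) (nat_lit 269) (nat_lit 170)) (XT.nd (nat_lit 78) (nat_lit 380) (nat_lit 0) (XT.lf (nat_lit 0) (nat_lit 18909067324) (nat_lit 228) (nat_lit 560812334) (nat_lit 304) (nat_lit 813457421) (nat_lit 86) (nat_lit 5) (nat_lit 89) (nat_lit 5) (nat_lit 90) (nat_lit 5) (nat_lit 342) (nat_lit 269) (nat_lit 169)) (XT.lf (nat_lit 0) (nat_lit 5216603661) (nat_lit 380) (nat_lit 7360148177) (nat_lit 76) (nat_lit 8131072122) (nat_lit 81) (nat_lit 5) (nat_lit 86) (nat_lit 5) (nat_lit 82) (nat_lit 5) (nat_lit 343) (nat_lit 269) (nat_lit 168))))) (XT.nd (nat_lit 234) (nat_lit 760)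 (nat_lit 0) (XT.nd (nat_lit 78) (nat_lit 304) (nat_lit 0) (XT.lf (nat_lit 0) (nat_lit 7433229892) (nat_lit 228) (nat_lit 4019873748) (nat_lit 304) (nat_lit 9691110434) (nat_lit 78) (nat_lit 5) (nat_lit 81) (nat_lit 5) (nat_lit 82) (nat_lit 5) (nat_lit 344) (nat_lit 269) (nat_lit 167)) (XT.nd (nat_lit 78) (nat_lit 76) (nat_lit 0) (XT.lf (nat_lit 0) (nat_lit 1121733195) (nat_lit 228) (nat_lit 16819085572) (nat_lit 304) (nat_lit 3651602428) (nat_lit 75) (nat_lit 5) (nat_lit 78) (nat_lit 5) (nat_lit 79) (nat_lit 5) (nat_lit 345) (nat_lit 269) (nat_lit 166)) (XT.lf (nat_lit 0) (nat_lit 2631604268) (nat_lit 304) (nat_lit 5548946691) (nat_lit 76) (nat_lit 13871273153) (nat_lit 74) (nat_lit 5) (nat_lit 78) (nat_lit 5) (nat_lit 75) (nat_lit 5) (nat_lit 346) (nat_lit 269) (nat_lit 165)))) (XT.nd (nat_lit 156) (nat_lit 304) (nat_lit 0) (XT.nd (nat_lit 78) (nat_lit 228) (nat_lit 0) (XT.lf (nat_lit 0) (nat_lit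 9099823211) (nat_lit 304) (nat_lit 12641667261) (nat_lit 76) (nat_lit 782120485) (nat_lit 71) (nat_lit 5) (nat_lit 75) (nat_lit 5) (nat_lit 72) (nat_lit 5) (nat_lit 347) (nat_lit 269) (nat_lit 164)) (XT.lf (nat_lit 0) (nat_lit 2786248225) (nat_lit 228) (nat_lit 13063334665) (nat_lit 304) (nat_lit 7158225551) (nat_lit 68) (nat_lit 5) (nat_lit 71) (nat_lit 5) (nat_lit 72) (nat_lit 5) (nat_lit 348) (nat_lit 269) (nat_lit 163))) (XT.nd (nat_lit 78) (nat_lit 304) (nat_lit 0) (XT.lf (nat_lit 0) (nat_lit 18812408731) (nat_lit 228) (nat_lit 4052367179) (nat_lit 304) (nat_lit 640503841) (nat_lit 68) (nat_lit 5) (nat_lit 71) (nat_lit 5) (nat_lit 72) (nat_lit 5) (nat_lit 349) (nat_lit 269) (nat_lit 162)) (XT.lf (nat_lit 0) (nat_lit 6079346560) (nat_lit 304) (nat_lit 12675873919) (nat_lit 76) (nat_lit 5259947703) (nat_lit 64) (nat_lit 5) (nat_lit 68) (nat_lit 5) (nat_lit 65) (nat_lit 5) (nat_lit 350) (nat_lit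 269) (nat_lit 161)))))) (XT.nd (nat_lit 546) (nat_lit 684) (nat_lit 0) (XT.nd (nat_lit 234) (nat_lit 456) (nat_lit 0) (XT.nd (nat_lit 78) (nat_lit 228) (nat_lit 0) (XT.lf (nat_lit 0) (nat_lit 3352731886) (nat_lit 228) (nat_lit 9698391257) (nat_lit 304) (nat_lit 11487971000) (nat_lit 61) (nat_lit 5) (nat_lit 64) (nat_lit 5) (nat_lit 65) (nat_lit 5) (nat_lit 351) (nat_lit 269) (nat_lit 160)) (XT.nd (nat_lit 78) (nat_lit 228) (nat_lit 0) (XT.lf (nat_lit 0) (nat_lit 19999708961) (nat_lit 228) (nat_lit 296747721) (nat_lit 304) (nat_lit 4780999152) (nat_lit 61) (nat_lit 5) (nat_lit 64) (nat_lit 5) (nat_lit 65) (nat_lit 5) (nat_lit 352) (nat_lit 269) (nat_lit 159)) (XT.lf (nat_lit 0) (nat_lit 2215146531) (nat_lit 228) (nat_lit 14074606409) (nat_lit 76) (nat_lit 9339627686) (nat_lit 58) (nat_lit 5) (nat_lit 61) (nat_lit 5) (nat_lit 59) (nat_lit 5) (nat_lit 353) (nat_lit 269) (nat_lit 158)))) (XT.nd (nat_lit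 156) (nat_lit 228) (nat_lit 0) (XT.nd (nat_lit 78) (nat_lit 0) (nat_lit 0) (XT.lf (nat_lit 0) (nat_lit 2522511064) (nat_lit 228) (nat_lit 6866365046) (nat_lit 304) (nat_lit 16807707482) (nat_lit 55) (nat_lit 5) (nat_lit 58) (nat_lit 5) (nat_lit 59) (nat_lit 5) (nat_lit 354) (nat_lit 269) (nat_lit 157)) (XT.lf (nat_lit 0) (nat_lit 16871834651) (nat_lit 304) (nat_lit 7022507714) (nat_lit 76) (nat_lit 2884585344) (nat_lit 55) (nat_lit 5) (nat_lit 59) (nat_lit 5) (nat_lit 56) (nat_lit 5) (nat_lit 355) (nat_lit 269) (nat_lit 156))) (XT.nd (nat_lit 78) (nat_lit 76) (nat_lit 0) (XT.lf (nat_lit 0) (nat_lit 10182501781) (nat_lit 152) (nat_lit 14488979183) (nat_lit 228) (nat_lit 2705422453) (nat_lit 53) (nat_lit 5) (nat_lit 55) (nat_lit 5) (nat_lit 56) (nat_lit 5) (nat_lit 356) (nat_lit 269) (nat_lit 155)) (XT.lf (nat_lit 0) (nat_lit 4678794740) (nat_lit 228) (nat_lit 56437883) (nat_lit 76) (nat_lit 23256412878)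 (nat_lit 52) (nat_lit 5) (nat_lit 55) (nat_lit 5) (nat_lit 53) (nat_lit 5) (nat_lit 357) (nat_lit 269) (nat_lit 154))))) (XT.nd (nat_lit 234) (nat_lit 304) (nat_lit 0) (XT.nd (nat_lit 78) (nat_lit 152) (nat_lit 0) (XT.lf (nat_lit 0) (nat_lit 12379668686) (nat_lit 304) (nat_lit 10879560961) (nat_lit 76) (nat_lit 5362609666) (nat_lit 49) (nat_lit 5) (nat_lit 53) (nat_lit 5) (nat_lit 50) (nat_lit 5) (nat_lit 358) (nat_lit 269) (nat_lit 153)) (XT.nd (nat_lit 78) (nat_lit 0) (nat_lit 0) (XT.lf (nat_lit 0) (nat_lit 6830472322) (nat_lit 152) (nat_lit 13538725052) (nat_lit 228) (nat_lit 8900593704) (nat_lit 47) (nat_lit 5) (nat_lit 49) (nat_lit 5) (nat_lit 50) (nat_lit 5) (nat_lit 359) (nat_lit 269) (nat_lit 152)) (XT.lf (nat_lit 0) (nat_lit 25189012055) (nat_lit 152) (nat_lit 3464693012) (nat_lit 228) (nat_lit 1282375036) (nat_lit 47) (nat_lit 5) (nat_lit 49) (nat_lit 5) (nat_lit 50) (nat_lit 5) (nat_lit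 360) (nat_lit 269) (nat_lit 151)))) (XT.nd (nat_lit 33618) (nat_lit 0) (nat_lit 40432) (XT.nd (nat_lit 33540) (nat_lit 0) (nat_lit 40432) (XT.lf (nat_lit 0) (nat_lit 6594109830) (nat_lit 304) (nat_lit 17085359170) (nat_lit 76) (nat_lit 6939724487) (nat_lit 43) (nat_lit 5) (nat_lit 47) (nat_lit 5) (nat_lit 44) (nat_lit 5) (nat_lit 361) (nat_lit 269) (nat_lit 150)) (XT.lf (nat_lit 0) (nat_lit 75741198) (nat_lit 988) (nat_lit 1681067236) (nat_lit 988) (nat_lit 1681067236) (nat_lit 575) (nat_lit 3) (nat_lit 588) (nat_lit 3) (nat_lit 588) (nat_lit 5) (nat_lit 270) (nat_lit 270) (nat_lit 240))) (XT.nd (nat_lit 78) (nat_lit 0) (nat_lit 76) (XT.lf (nat_lit 76) (nat_lit 1458746945) (nat_lit 0) (nat_lit 1491057044) (nat_lit 988) (nat_lit 3970546433) (nat_lit 576) (nat_lit 5) (nat_lit 575) (nat_lit 3) (nat_lit 588) (nat_lit 5) (nat_lit 271) (nat_lit 270) (nat_lit 239)) (XT.lf (nat_lit 0) (nat_lit 5750079468)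 (nat_lit 912) (nat_lit 558431488) (nat_lit 988) (nat_lit 659518534) (nat_lit 576) (nat_lit 5) (nat_lit 588) (nat_lit 5) (nat_lit 589) (nat_lit 5) (nat_lit 272) (nat_lit 270) (nat_lit 238))))))) (XT.nd (nat_lit 1014) (nat_lit 14744) (nat_lit 0) (XT.nd (nat_lit 468) (nat_lit 2356) (nat_lit 0) (XT.nd (nat_lit 234) (nat_lit 2052) (nat_lit 0) (XT.nd (nat_lit 78) (nat_lit 0) (nat_lit 0) (XT.lf (nat_lit 0) (nat_lit 1528950757) (nat_lit 988) (nat_lit 2545126470) (nat_lit 1064) (nat_lit 2944290153) (nat_lit 563) (nat_lit 5) (nat_lit 576) (nat_lit 5) (nat_lit 577) (nat_lit 5) (nat_lit 273) (nat_lit 270) (nat_lit 237)) (XT.nd (nat_lit 78) (nat_lit 0) (nat_lit 76) (XT.lf (nat_lit 76) (nat_lit 2561076696) (nat_lit 0) (nat_lit 1697494604) (nat_lit 1064) (nat_lit 2813240252) (nat_lit 564) (nat_lit 5) (nat_lit 563) (nat_lit 5) (nat_lit 577) (nat_lit 5) (nat_lit 274) (nat_lit 270) (nat_lit 236)) (XT.lf (nat_lit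 76) (nat_lit 673463372) (nat_lit 0) (nat_lit 6322488898) (nat_lit 1064) (nat_lit 132480950) (nat_lit 565) (nat_lit 5) (nat_lit 564) (nat_lit 5) (nat_lit 578) (nat_lit 5) (nat_lit 275) (nat_lit 270) (nat_lit 235)))) (XT.nd (nat_lit 78) (nat_lit 1064) (nat_lit 0) (XT.lf (nat_lit 0) (nat_lit 2537430247) (nat_lit 1064) (nat_lit 1199447268) (nat_lit 1140) (nat_lit 3450757771) (nat_lit 550) (nat_lit 5) (nat_lit 564) (nat_lit 5) (nat_lit 565) (nat_lit 5) (nat_lit 276) (nat_lit 270) (nat_lit 234)) (XT.nd (nat_lit 78) (nat_lit 1064) (nat_lit 0) (XT.lf (nat_lit 76) (nat_lit 4210194176) (nat_lit 0) (nat_lit 1006755891) (nat_lit 1140) (nat_lit 2033104264) (nat_lit 551) (nat_lit 5) (nat_lit 550) (nat_lit 5) (nat_lit 565) (nat_lit 5) (nat_lit 277) (nat_lit 270) (nat_lit 233)) (XT.lf (nat_lit 0) (nat_lit 595769812) (nat_lit 1140) (nat_lit 4873972761) (nat_lit 1216) (nat_lit 1845758940) (nat_lit 536) (nat_lit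 5) (nat_lit 551) (nat_lit 5) (nat_lit 552) (nat_lit 5) (nat_lit 278) (nat_lit 270) (nat_lit 232))))) (XT.nd (nat_lit 234) (nat_lit 1216) (nat_lit 0) (XT.nd (nat_lit 78) (nat_lit 1140) (nat_lit 0) (XT.lf (nat_lit 76) (nat_lit 675392517) (nat_lit 0) (nat_lit 2540797586) (nat_lit 1216) (nat_lit 4167725423) (nat_lit 537) (nat_lit 5) (nat_lit 536) (nat_lit 5) (nat_lit 552) (nat_lit 5) (nat_lit 279) (nat_lit 270) (nat_lit 231)) (XT.nd (nat_lit 78) (nat_lit 1216) (nat_lit 0) (XT.lf (nat_lit 0) (nat_lit 5862343170) (nat_lit 1140) (nat_lit 1059645823) (nat_lit 1216) (nat_lit 533526516) (nat_lit 537) (nat_lit 5) (nat_lit 552) (nat_lit 5) (nat_lit 553) (nat_lit 5) (nat_lit 280) (nat_lit 270) (nat_lit 230)) (XT.lf (nat_lit 0) (nat_lit 1005585327) (nat_lit 1216) (nat_lit 2791595142) (nat_lit 1292) (nat_lit 3732800813) (nat_lit 521) (nat_lit 5) (nat_lit 537) (nat_lit 5) (nat_lit 538) (nat_lit 5) (nat_lit 281)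 (nat_lit 270) (nat_lit 229)))) (XT.nd (nat_lit 156) (nat_lit 1216) (nat_lit 0) (XT.nd (nat_lit 78) (nat_lit 0) (nat_lit 76) (XT.lf (nat_lit 76) (nat_lit 3089085889) (nat_lit 0) (nat_lit 513881678) (nat_lit 1292) (nat_lit 4004726896) (nat_lit 522) (nat_lit 5) (nat_lit 521) (nat_lit 5) (nat_lit 538) (nat_lit 5) (nat_lit 282) (nat_lit 270) (nat_lit 228)) (XT.lf (nat_lit 76) (nat_lit 1437157078) (nat_lit 0) (nat_lit 4805269763) (nat_lit 1292) (nat_lit 1446097232) (nat_lit 523) (nat_lit 5) (nat_lit 522) (nat_lit 5) (nat_lit 539) (nat_lit 5) (nat_lit 283) (nat_lit 270) (nat_lit 227))) (XT.nd (nat_lit 78) (nat_lit 0) (nat_lit 76) (XT.lf (nat_lit 0) (nat_lit 1126543740) (nat_lit 1292) (nat_lit 209237868) (nat_lit 1368) (nat_lit 6436850387) (nat_lit 505) (nat_lit 5) (nat_lit 522) (nat_lit 5) (nat_lit 523) (nat_lit 5) (nat_lit 284) (nat_lit 270) (nat_lit 226)) (XT.lf (nat_lit 0) (nat_lit 3731896834) (nat_lit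 1292) (nat_lit 1849818328) (nat_lit 76) (nat_lit 2277916198) (nat_lit 506) (nat_lit 5) (nat_lit 523) (nat_lit 5) (nat_lit 507) (nat_lit 5) (nat_lit 285) (nat_lit 270) (nat_lit 225)))))) (XT.nd (nat_lit 546) (nat_lit 5776) (nat_lit 0) (XT.nd (nat_lit 234) (nat_lit 4864) (nat_lit 0) (XT.nd (nat_lit 78) (nat_lit 2888) (nat_lit 0) (XT.lf (nat_lit 0) (nat_lit 4459442249) (nat_lit 1292) (nat_lit 1918301198) (nat_lit 1368) (nat_lit 1572311740) (nat_lit 489) (nat_lit 5) (nat_lit 506) (nat_lit 5) (nat_lit 507) (nat_lit 5) (nat_lit 286) (nat_lit 270) (nat_lit 224)) (XT.nd (nat_lit 78) (nat_lit 1444) (nat_lit 0) (XT.lf (nat_lit 0) (nat_lit 1014132962) (nat_lit 1444) (nat_lit 5144100702) (nat_lit 76) (nat_lit 1885513477) (nat_lit 470) (nat_lit 5) (nat_lit 489) (nat_lit 5) (nat_lit 471) (nat_lit 5) (nat_lit 287) (nat_lit 270) (nat_lit 223)) (XT.lf (nat_lit 0) (nat_lit 1323510231) (nat_lit 1444) (nat_lit 2304905972)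 (nat_lit 1520) (nat_lit 4512250155) (nat_lit 451) (nat_lit 5) (nat_lit 470) (nat_lit 5) (nat_lit 471) (nat_lit 5) (nat_lit 288) (nat_lit 270) (nat_lit 222)))) (XT.nd (nat_lit 156) (nat_lit 3268) (nat_lit 0) (XT.nd (nat_lit 78) (nat_lit 1596) (nat_lit 0) (XT.lf (nat_lit 0) (nat_lit 6295123268) (nat_lit 1520) (nat_lit 255838785) (nat_lit 76) (nat_lit 1690106045) (nat_lit 451) (nat_lit 5) (nat_lit 471) (nat_lit 5) (nat_lit 452) (nat_lit 5) (nat_lit 289) (nat_lit 270) (nat_lit 221)) (XT.lf (nat_lit 0) (nat_lit 675971741) (nat_lit 1596) (nat_lit 1835700708) (nat_lit 76) (nat_lit 5833015741) (nat_lit 430) (nat_lit 5) (nat_lit 451) (nat_lit 5) (nat_lit 431) (nat_lit 5) (nat_lit 290) (nat_lit 270) (nat_lit 220))) (XT.nd (nat_lit 78) (nat_lit 1672) (nat_lit 0) (XT.lf (nat_lit 0) (nat_lit 3327050365) (nat_lit 1672) (nat_lit 3440061419) (nat_lit 76) (nat_lit 1684559693) (nat_lit 409) (nat_lit 5) (nat_lit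 431) (nat_lit 5) (nat_lit 410) (nat_lit 5) (nat_lit 291) (nat_lit 270) (nat_lit 219)) (XT.lf (nat_lit 0) (nat_lit 3497533283) (nat_lit 1672) (nat_lit 2545189750) (nat_lit 1748) (nat_lit 2519489208) (nat_lit 387) (nat_lit 5) (nat_lit 409) (nat_lit 5) (nat_lit 410) (nat_lit 5) (nat_lit 292) (nat_lit 270) (nat_lit 218))))) (XT.nd (nat_lit 234) (nat_lit 3420) (nat_lit 0) (XT.nd (nat_lit 78) (nat_lit 836) (nat_lit 0) (XT.lf (nat_lit 0) (nat_lit 144096362) (nat_lit 1520) (nat_lit 6708461551) (nat_lit 76) (nat_lit 1823887934) (nat_lit 367) (nat_lit 5) (nat_lit 387) (nat_lit 5) (nat_lit 368) (nat_lit 5) (nat_lit 293) (nat_lit 270) (nat_lit 217)) (XT.nd (nat_lit 78) (nat_lit 0) (nat_lit 0) (XT.lf (nat_lit 0) (nat_lit 398989110) (nat_lit 836) (nat_lit 2444429599) (nat_lit 912) (nat_lit 5950598970) (nat_lit 356) (nat_lit 5) (nat_lit 367) (nat_lit 5) (nat_lit 368) (nat_lit 5) (nat_lit 294) (nat_lit 270) (nat_lit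 216)) (XT.lf (nat_lit 0) (nat_lit 5620312306) (nat_lit 912) (nat_lit 1176665737) (nat_lit 76) (nat_lit 2118250946) (nat_lit 356) (nat_lit 5) (nat_lit 368) (nat_lit 5) (nat_lit 357) (nat_lit 5) (nat_lit 295) (nat_lit 270) (nat_lit 215)))) (XT.nd (nat_lit 156) (nat_lit 1596) (nat_lit 0) (XT.nd (nat_lit 78) (nat_lit 912) (nat_lit 0) (XT.lf (nat_lit 0) (nat_lit 6265787915) (nat_lit 912) (nat_lit 2210805494) (nat_lit 988) (nat_lit 563604486) (nat_lit 344) (nat_lit 5) (nat_lit 356) (nat_lit 5) (nat_lit 357) (nat_lit 5) (nat_lit 296) (nat_lit 270) (nat_lit 214)) (XT.lf (nat_lit 0) (nat_lit 2215831362) (nat_lit 912) (nat_lit 4417202270) (nat_lit 76) (nat_lit 2535717138) (nat_lit 332) (nat_lit 5) (nat_lit 344) (nat_lit 5) (nat_lit 333) (nat_lit 5) (nat_lit 297) (nat_lit 270) (nat_lit 213))) (XT.nd (nat_lit 78) (nat_lit 760) (nat_lit 0) (XT.lf (nat_lit 0) (nat_lit 3205380095) (nat_lit 836) (nat_lit 1861581303)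 (nat_lit 912) (nat_lit 4234244577) (nat_lit 321) (nat_lit 5) (nat_lit 332) (nat_lit 5) (nat_lit 333) (nat_lit 5) (nat_lit 298) (nat_lit 270) (nat_lit 212)) (XT.lf (nat_lit 0) (nat_lit 1622635249) (nat_lit 760) (nat_lit 6384213539) (nat_lit 836) (nat_lit 1430760041) (nat_lit 311) (nat_lit 5) (nat_lit 321) (nat_lit 5) (nat_lit 322) (nat_lit 5) (nat_lit 299) (nat_lit 270) (nat_lit 211))))))))
noncomputable def xc69 : XT := (XT.nd (nat_lit 2106) (nat_lit 6308) (nat_lit 0) (XT.nd (nat_lit 1014) (nat_lit 6004) (nat_lit 0) (XT.nd (nat_lit 468) (nat_lit 3192) (nat_lit 0) (XT.nd (nat_lit 234) (nat_lit 2204) (nat_lit 0) (XT.nd (nat_lit 78) (nat_lit 1444) (nat_lit 0) (XT.lf (nat_lit 0) (nat_lit 1435373409) (nat_lit 836) (nat_lit 1894485) (nat_lit 76) (nat_lit 8140730290) (nat_lit 310) (nat_lit 5) (nat_lit 321) (nat_lit 5) (nat_lit 311) (nat_lit 5) (nat_lit 300) (nat_lit 270) (nat_lit 210)) (XT.nd (nat_lit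 78) (nat_lit 684) (nat_lit 0) (XT.lf (nat_lit 0) (nat_lit 4390069143) (nat_lit 836) (nat_lit 1661409970) (nat_lit 76) (nat_lit 3670526171) (nat_lit 300) (nat_lit 5) (nat_lit 311) (nat_lit 5) (nat_lit 301) (nat_lit 5) (nat_lit 301) (nat_lit 270) (nat_lit 209)) (XT.lf (nat_lit 0) (nat_lit 6513478316) (nat_lit 684) (nat_lit 918320666) (nat_lit 760) (nat_lit 2438600258) (nat_lit 291) (nat_lit 5) (nat_lit 300) (nat_lit 5) (nat_lit 301) (nat_lit 5) (nat_lit 302) (nat_lit 270) (nat_lit 208)))) (XT.nd (nat_lit 78) (nat_lit 1368) (nat_lit 0) (XT.lf (nat_lit 0) (nat_lit 553768570) (nat_lit 836) (nat_lit 5114337385) (nat_lit 76) (nat_lit 4354714881) (nat_lit 280) (nat_lit 5) (nat_lit 291) (nat_lit 5) (nat_lit 281) (nat_lit 5) (nat_lit 303) (nat_lit 270) (nat_lit 207)) (XT.nd (nat_lit 78) (nat_lit 684) (nat_lit 0) (XT.lf (nat_lit 0) (nat_lit 3251574625) (nat_lit 684) (nat_lit 349980729) (nat_lit 760) (nat_lit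 6577993675) (nat_lit 271) (nat_lit 5) (nat_lit 280) (nat_lit 5) (nat_lit 281) (nat_lit 5) (nat_lit 304) (nat_lit 270) (nat_lit 206)) (XT.lf (nat_lit 0) (nat_lit 1527707817) (nat_lit 684) (nat_lit 5240705471) (nat_lit 760) (nat_lit 3572043988) (nat_lit 262) (nat_lit 5) (nat_lit 271) (nat_lit 5) (nat_lit 272) (nat_lit 5) (nat_lit 305) (nat_lit 270) (nat_lit 205))))) (XT.nd (nat_lit 234) (nat_lit 1824) (nat_lit 0) (XT.nd (nat_lit 78) (nat_lit 1368) (nat_lit 0) (XT.lf (nat_lit 0) (nat_lit 10031773692) (nat_lit 760) (nat_lit 234349549) (nat_lit 76) (nat_lit 240069655) (nat_lit 262) (nat_lit 5) (nat_lit 272) (nat_lit 5) (nat_lit 263) (nat_lit 5) (nat_lit 306) (nat_lit 270) (nat_lit 204)) (XT.nd (nat_lit 78) (nat_lit 684) (nat_lit 0) (XT.lf (nat_lit 0) (nat_lit 2723849718) (nat_lit 684) (nat_lit 2069904363) (nat_lit 76) (nat_lit 5881955654) (nat_lit 253) (nat_lit 5) (nat_lit 262) (nat_lit 5) (nat_lit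 254) (nat_lit 5) (nat_lit 307) (nat_lit 270) (nat_lit 203)) (XT.lf (nat_lit 0) (nat_lit 6016525967) (nat_lit 760) (nat_lit 3959823810) (nat_lit 76) (nat_lit 873829269) (nat_lit 244) (nat_lit 5) (nat_lit 254) (nat_lit 5) (nat_lit 245) (nat_lit 5) (nat_lit 308) (nat_lit 270) (nat_lit 202)))) (XT.nd (nat_lit 156) (nat_lit 532) (nat_lit 0) (XT.nd (nat_lit 78) (nat_lit 684) (nat_lit 0) (XT.lf (nat_lit 0) (nat_lit 5097720179) (nat_lit 608) (nat_lit 4343255200) (nat_lit 684) (nat_lit 1588274167) (nat_lit 236) (nat_lit 5) (nat_lit 244) (nat_lit 5) (nat_lit 245) (nat_lit 5) (nat_lit 309) (nat_lit 270) (nat_lit 201)) (XT.lf (nat_lit 0) (nat_lit 1743723143) (nat_lit 684) (nat_lit 7979107473) (nat_lit 76) (nat_lit 1490414049) (nat_lit 227) (nat_lit 5) (nat_lit 236) (nat_lit 5) (nat_lit 228) (nat_lit 5) (nat_lit 310) (nat_lit 270) (nat_lit 200))) (XT.nd (nat_lit 78) (nat_lit 0) (nat_lit 0) (XT.lf (nat_lit 0)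 (nat_lit 1275967113) (nat_lit 532) (nat_lit 3911352894) (nat_lit 608) (nat_lit 6214590222) (nat_lit 220) (nat_lit 5) (nat_lit 227) (nat_lit 5) (nat_lit 228) (nat_lit 5) (nat_lit 311) (nat_lit 270) (nat_lit 199)) (XT.lf (nat_lit 0) (nat_lit 8758311068) (nat_lit 608) (nat_lit 745855221) (nat_lit 76) (nat_lit 2091611941) (nat_lit 220) (nat_lit 5) (nat_lit 228) (nat_lit 5) (nat_lit 221) (nat_lit 5) (nat_lit 312) (nat_lit 270) (nat_lit 198)))))) (XT.nd (nat_lit 546) (nat_lit 2736) (nat_lit 0) (XT.nd (nat_lit 234) (nat_lit 1520) (nat_lit 0) (XT.nd (nat_lit 78) (nat_lit 1064) (nat_lit 0) (XT.lf (nat_lit 0) (nat_lit 674573368) (nat_lit 684) (nat_lit 2845372062) (nat_lit 76) (nat_lit 8274616436) (nat_lit 211) (nat_lit 5) (nat_lit 220) (nat_lit 5) (nat_lit 212) (nat_lit 5) (nat_lit 313) (nat_lit 270) (nat_lit 197)) (XT.nd (nat_lit 78) (nat_lit 532) (nat_lit 0) (XT.lf (nat_lit 0) (nat_lit 4279577451) (nat_lit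 608) (nat_lit 5050812382) (nat_lit 76) (nat_lit 2668043376) (nat_lit 204) (nat_lit 5) (nat_lit 212) (nat_lit 5) (nat_lit 205) (nat_lit 5) (nat_lit 314) (nat_lit 270) (nat_lit 196)) (XT.lf (nat_lit 0) (nat_lit 4852469242) (nat_lit 532) (nat_lit 3173595405) (nat_lit 608) (nat_lit 4181711096) (nat_lit 197) (nat_lit 5) (nat_lit 204) (nat_lit 5) (nat_lit 205) (nat_lit 5) (nat_lit 315) (nat_lit 270) (nat_lit 195)))) (XT.nd (nat_lit 156) (nat_lit 456) (nat_lit 0) (XT.nd (nat_lit 78) (nat_lit 608) (nat_lit 0) (XT.lf (nat_lit 0) (nat_lit 2660657498) (nat_lit 456) (nat_lit 9256247999) (nat_lit 532) (nat_lit 505874951) (nat_lit 191) (nat_lit 5) (nat_lit 197) (nat_lit 5) (nat_lit 198) (nat_lit 5) (nat_lit 316) (nat_lit 270) (nat_lit 194)) (XT.lf (nat_lit 0) (nat_lit 343792871) (nat_lit 532) (nat_lit 2927269813) (nat_lit 608) (nat_lit 9372089777) (nat_lit 183) (nat_lit 5) (nat_lit 190) (nat_lit 5) (nat_lit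 191) (nat_lit 5) (nat_lit 317) (nat_lit 270) (nat_lit 193))) (XT.nd (nat_lit 78) (nat_lit 456) (nat_lit 0) (XT.lf (nat_lit 0) (nat_lit 7205345035) (nat_lit 608) (nat_lit 2061715297) (nat_lit 76) (nat_lit 3602009713) (nat_lit 183) (nat_lit 5) (nat_lit 191) (nat_lit 5) (nat_lit 184) (nat_lit 5) (nat_lit 318) (nat_lit 270) (nat_lit 192)) (XT.lf (nat_lit 0) (nat_lit 8524531356) (nat_lit 456) (nat_lit 2770146436) (nat_lit 532) (nat_lit 1806365835) (nat_lit 177) (nat_lit 5) (nat_lit 183) (nat_lit 5) (nat_lit 184) (nat_lit 5) (nat_lit 319) (nat_lit 270) (nat_lit 191))))) (XT.nd (nat_lit 234) (nat_lit 1292) (nat_lit 0) (XT.nd (nat_lit 78) (nat_lit 912) (nat_lit 0) (XT.lf (nat_lit 0) (nat_lit 2180620483) (nat_lit 532) (nat_lit 7232492769) (nat_lit 76) (nat_lit 3925753346) (nat_lit 170) (nat_lit 5) (nat_lit 177) (nat_lit 5) (nat_lit 171) (nat_lit 5) (nat_lit 320) (nat_lit 270) (nat_lit 190)) (XT.nd (nat_lit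 78) (nat_lit 456) (nat_lit 0) (XT.lf (nat_lit 0) (nat_lit 3554706350) (nat_lit 456) (nat_lit 2744227587) (nat_lit 532) (nat_lit 7283943813) (nat_lit 164) (nat_lit 5) (nat_lit 170) (nat_lit 5) (nat_lit 171) (nat_lit 5) (nat_lit 321) (nat_lit 270) (nat_lit 189)) (XT.lf (nat_lit 0) (nat_lit 865414320) (nat_lit 456) (nat_lit 9721073117) (nat_lit 532) (nat_lit 3246824954) (nat_lit 158) (nat_lit 5) (nat_lit 164) (nat_lit 5) (nat_lit 165) (nat_lit 5) (nat_lit 322) (nat_lit 270) (nat_lit 188)))) (XT.nd (nat_lit 156) (nat_lit 836) (nat_lit 0) (XT.nd (nat_lit 78) (nat_lit 380) (nat_lit 0) (XT.lf (nat_lit 0) (nat_lit 950646797) (nat_lit 532) (nat_lit 1941343754) (nat_lit 76) (nat_lit 11198143468) (nat_lit 157) (nat_lit 5) (nat_lit 164) (nat_lit 5) (nat_lit 158) (nat_lit 5) (nat_lit 323) (nat_lit 270) (nat_lit 187)) (XT.lf (nat_lit 0) (nat_lit 5284495134) (nat_lit 456) (nat_lit 4910907014) (nat_lit 76) (nat_lit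 4157753314) (nat_lit 152) (nat_lit 5) (nat_lit 158) (nat_lit 5) (nat_lit 153) (nat_lit 5) (nat_lit 324) (nat_lit 270) (nat_lit 186))) (XT.nd (nat_lit 78) (nat_lit 380) (nat_lit 0) (XT.lf (nat_lit 0) (nat_lit 6588939302) (nat_lit 456) (nat_lit 3200861842) (nat_lit 532) (nat_lit 4833452782) (nat_lit 146) (nat_lit 5) (nat_lit 152) (nat_lit 5) (nat_lit 153) (nat_lit 5) (nat_lit 325) (nat_lit 270) (nat_lit 185)) (XT.lf (nat_lit 0) (nat_lit 3572885306) (nat_lit 380) (nat_lit 10906738905) (nat_lit 456) (nat_lit 420858753) (nat_lit 141) (nat_lit 5) (nat_lit 146) (nat_lit 5) (nat_lit 147) (nat_lit 5) (nat_lit 326) (nat_lit 270) (nat_lit 184))))))) (XT.nd (nat_lit 1092) (nat_lit 2660) (nat_lit 0) (XT.nd (nat_lit 546) (nat_lit 1596) (nat_lit 0) (XT.nd (nat_lit 234) (nat_lit 1216) (nat_lit 0) (XT.nd (nat_lit 78) (nat_lit 380) (nat_lit 0) (XT.lf (nat_lit 0) (nat_lit 361894566) (nat_lit 380) (nat_lit 3753791416)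 (nat_lit 456) (nat_lit 11068908202) (nat_lit 135) (nat_lit 5) (nat_lit 140) (nat_lit 5) (nat_lit 141) (nat_lit 5) (nat_lit 327) (nat_lit 270) (nat_lit 183)) (XT.nd (nat_lit 78) (nat_lit 380) (nat_lit 0) (XT.lf (nat_lit 0) (nat_lit 8851033779) (nat_lit 456) (nat_lit 2992789570) (nat_lit 76) (nat_lit 3631994919) (nat_lit 135) (nat_lit 5) (nat_lit 141) (nat_lit 5) (nat_lit 136) (nat_lit 5) (nat_lit 328) (nat_lit 270) (nat_lit 182)) (XT.lf (nat_lit 0) (nat_lit 9242071685) (nat_lit 380) (nat_lit 4540082551) (nat_lit 456) (nat_lit 1992563854) (nat_lit 130) (nat_lit 5) (nat_lit 135) (nat_lit 5) (nat_lit 136) (nat_lit 5) (nat_lit 329) (nat_lit 270) (nat_lit 181)))) (XT.nd (nat_lit 156) (nat_lit 456) (nat_lit 0) (XT.nd (nat_lit 78) (nat_lit 304) (nat_lit 0) (XT.lf (nat_lit 0) (nat_lit 2789133517) (nat_lit 456) (nat_lit 10286343202) (nat_lit 76) (nat_lit 3005820948) (nat_lit 124) (nat_lit 5) (nat_lit 130)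 (nat_lit 5) (nat_lit 125) (nat_lit 5) (nat_lit 330) (nat_lit 270) (nat_lit 180)) (XT.lf (nat_lit 0) (nat_lit 2123975731) (nat_lit 304) (nat_lit 5621624347) (nat_lit 380) (nat_lit 8650055604) (nat_lit 120) (nat_lit 5) (nat_lit 124) (nat_lit 5) (nat_lit 125) (nat_lit 5) (nat_lit 331) (nat_lit 270) (nat_lit 179))) (XT.nd (nat_lit 78) (nat_lit 456) (nat_lit 0) (XT.lf (nat_lit 0) (nat_lit 12904296755) (nat_lit 380) (nat_lit 1729743620) (nat_lit 76) (nat_lit 2084345234) (nat_lit 120) (nat_lit 5) (nat_lit 125) (nat_lit 5) (nat_lit 121) (nat_lit 5) (nat_lit 332) (nat_lit 270) (nat_lit 178)) (XT.lf (nat_lit 0) (nat_lit 1233742923) (nat_lit 456) (nat_lit 5802803252) (nat_lit 76) (nat_lit 10012469231) (nat_lit 114) (nat_lit 5) (nat_lit 120) (nat_lit 5) (nat_lit 115) (nat_lit 5) (nat_lit 333) (nat_lit 270) (nat_lit 177))))) (XT.nd (nat_lit 234) (nat_lit 988) (nat_lit 0) (XT.nd (nat_lit 78) (nat_lit 304) (nat_lit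 0) (XT.lf (nat_lit 0) (nat_lit 6417347434) (nat_lit 380) (nat_lit 10122111218) (nat_lit 76) (nat_lit 848889092) (nat_lit 110) (nat_lit 5) (nat_lit 115) (nat_lit 5) (nat_lit 111) (nat_lit 5) (nat_lit 334) (nat_lit 270) (nat_lit 176)) (XT.nd (nat_lit 78) (nat_lit 0) (nat_lit 0) (XT.lf (nat_lit 0) (nat_lit 3018555821) (nat_lit 304) (nat_lit 8815866604) (nat_lit 380) (nat_lit 5901889052) (nat_lit 106) (nat_lit 5) (nat_lit 110) (nat_lit 5) (nat_lit 111) (nat_lit 5) (nat_lit 335) (nat_lit 270) (nat_lit 175)) (XT.lf (nat_lit 0) (nat_lit 16649280626) (nat_lit 304) (nat_lit 805591200) (nat_lit 380) (nat_lit 639035415) (nat_lit 106) (nat_lit 5) (nat_lit 110) (nat_lit 5) (nat_lit 111) (nat_lit 5) (nat_lit 336) (nat_lit 270) (nat_lit 174)))) (XT.nd (nat_lit 156) (nat_lit 304) (nat_lit 0) (XT.nd (nat_lit 78) (nat_lit 304) (nat_lit 0) (XT.lf (nat_lit 0) (nat_lit 4820818456) (nat_lit 380) (nat_lit 6194213399)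 (nat_lit 76) (nat_lit 7444551416) (nat_lit 101) (nat_lit 5) (nat_lit 106) (nat_lit 5) (nat_lit 102) (nat_lit 5) (nat_lit 337) (nat_lit 270) (nat_lit 173)) (XT.lf (nat_lit 0) (nat_lit 7618996409) (nat_lit 304) (nat_lit 2854866683) (nat_lit 380) (nat_lit 8361530042) (nat_lit 97) (nat_lit 5) (nat_lit 101) (nat_lit 5) (nat_lit 102) (nat_lit 5) (nat_lit 338) (nat_lit 270) (nat_lit 172))) (XT.nd (nat_lit 78) (nat_lit 76) (nat_lit 0) (XT.lf (nat_lit 0) (nat_lit 2667047017) (nat_lit 228) (nat_lit 13698789303) (nat_lit 304) (nat_lit 2855263525) (nat_lit 94) (nat_lit 5) (nat_lit 97) (nat_lit 5) (nat_lit 98) (nat_lit 5) (nat_lit 339) (nat_lit 270) (nat_lit 171)) (XT.lf (nat_lit 0) (nat_lit 2848912471) (nat_lit 304) (nat_lit 2575264819) (nat_lit 76) (nat_lit 14192450499) (nat_lit 93) (nat_lit 5) (nat_lit 97) (nat_lit 5) (nat_lit 94) (nat_lit 5) (nat_lit 340) (nat_lit 270) (nat_lit 170)))))) (XT.nd (nat_lit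 546) (nat_lit 1216) (nat_lit 0) (XT.nd (nat_lit 234) (nat_lit 532) (nat_lit 0) (XT.nd (nat_lit 78) (nat_lit 608) (nat_lit 0) (XT.lf (nat_lit 0) (nat_lit 8758510791) (nat_lit 380) (nat_lit 8122995290) (nat_lit 76) (nat_lit 3140684838) (nat_lit 89) (nat_lit 5) (nat_lit 94) (nat_lit 5) (nat_lit 90) (nat_lit 5) (nat_lit 341) (nat_lit 270) (nat_lit 169)) (XT.nd (nat_lit 78) (nat_lit 380) (nat_lit 0) (XT.lf (nat_lit 0) (nat_lit 6411649702) (nat_lit 228) (nat_lit 8504412267) (nat_lit 304) (nat_lit 5522454016) (nat_lit 86) (nat_lit 5) (nat_lit 89) (nat_lit 5) (nat_lit 90) (nat_lit 5) (nat_lit 342) (nat_lit 270) (nat_lit 168)) (XT.lf (nat_lit 0) (nat_lit 421752823) (nat_lit 380) (nat_lit 20274856109) (nat_lit 76) (nat_lit 169961595) (nat_lit 81) (nat_lit 5) (nat_lit 86) (nat_lit 5) (nat_lit 82) (nat_lit 5) (nat_lit 343) (nat_lit 270) (nat_lit 167)))) (XT.nd (nat_lit 156) (nat_lit 304) (nat_lit 0) (XT.nd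 (nat_lit 78) (nat_lit 228) (nat_lit 0) (XT.lf (nat_lit 0) (nat_lit 6598101603) (nat_lit 380) (nat_lit 5598210505) (nat_lit 76) (nat_lit 9107855353) (nat_lit 81) (nat_lit 5) (nat_lit 86) (nat_lit 5) (nat_lit 82) (nat_lit 5) (nat_lit 344) (nat_lit 270) (nat_lit 166)) (XT.lf (nat_lit 0) (nat_lit 9606801270) (nat_lit 228) (nat_lit 3391880127) (nat_lit 304) (nat_lit 8755439579) (nat_lit 78) (nat_lit 5) (nat_lit 81) (nat_lit 5) (nat_lit 82) (nat_lit 5) (nat_lit 345) (nat_lit 270) (nat_lit 165))) (XT.nd (nat_lit 78) (nat_lit 76) (nat_lit 0) (XT.lf (nat_lit 0) (nat_lit 3093555773) (nat_lit 228) (nat_lit 16569765611) (nat_lit 304) (nat_lit 2552818122) (nat_lit 75) (nat_lit 5) (nat_lit 78) (nat_lit 5) (nat_lit 79) (nat_lit 5) (nat_lit 346) (nat_lit 270) (nat_lit 164)) (XT.lf (nat_lit 0) (nat_lit 3868304709) (nat_lit 304) (nat_lit 3817959158) (nat_lit 76) (nat_lit 15003608918) (nat_lit 74) (nat_lit 5) (nat_lit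 78) (nat_lit 5) (nat_lit 75) (nat_lit 5) (nat_lit 347) (nat_lit 270) (nat_lit 163))))) (XT.nd (nat_lit 234) (nat_lit 684) (nat_lit 0) (XT.nd (nat_lit 78) (nat_lit 304) (nat_lit 0) (XT.lf (nat_lit 0) (nat_lit 10513711979) (nat_lit 304) (nat_lit 11135924539) (nat_lit 76) (nat_lit 1526524107) (nat_lit 71) (nat_lit 5) (nat_lit 75) (nat_lit 5) (nat_lit 72) (nat_lit 5) (nat_lit 348) (nat_lit 270) (nat_lit 162)) (XT.nd (nat_lit 78) (nat_lit 76) (nat_lit 0) (XT.lf (nat_lit 0) (nat_lit 4724246643) (nat_lit 228) (nat_lit 12720527945) (nat_lit 304) (nat_lit 6230543167) (nat_lit 68) (nat_lit 5) (nat_lit 71) (nat_lit 5) (nat_lit 72) (nat_lit 5) (nat_lit 349) (nat_lit 270) (nat_lit 161)) (XT.lf (nat_lit 0) (nat_lit 443541130) (nat_lit 304) (nat_lit 3014113136) (nat_lit 76) (nat_lit 20730662470) (nat_lit 67) (nat_lit 5) (nat_lit 71) (nat_lit 5) (nat_lit 68) (nat_lit 5) (nat_lit 350) (nat_lit 270) (nat_lit 160))))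 (XT.nd (nat_lit 156) (nat_lit 228) (nat_lit 0) (XT.nd (nat_lit 78) (nat_lit 228) (nat_lit 0) (XT.lf (nat_lit 0) (nat_lit 7340667059) (nat_lit 304) (nat_lit 11253167205) (nat_lit 76) (nat_lit 6119904414) (nat_lit 64) (nat_lit 5) (nat_lit 68) (nat_lit 5) (nat_lit 65) (nat_lit 5) (nat_lit 351) (nat_lit 270) (nat_lit 159)) (XT.lf (nat_lit 0) (nat_lit 5227045517) (nat_lit 228) (nat_lit 9274642225) (nat_lit 304) (nat_lit 10752101765) (nat_lit 61) (nat_lit 5) (nat_lit 64) (nat_lit 5) (nat_lit 65) (nat_lit 5) (nat_lit 352) (nat_lit 270) (nat_lit 158))) (XT.nd (nat_lit 78) (nat_lit 228) (nat_lit 0) (XT.lf (nat_lit 0) (nat_lit 21936056400) (nat_lit 304) (nat_lit 3489678463) (nat_lit 76) (nat_lit 383142330) (nat_lit 61) (nat_lit 5) (nat_lit 65) (nat_lit 5) (nat_lit 62) (nat_lit 5) (nat_lit 353) (nat_lit 270) (nat_lit 157)) (XT.lf (nat_lit 0) (nat_lit 3302306382) (nat_lit 228) (nat_lit 12772793055) (nat_lit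 76) (nat_lit 10302474185) (nat_lit 58) (nat_lit 5) (nat_lit 61) (nat_lit 5) (nat_lit 59) (nat_lit 5) (nat_lit 354) (nat_lit 270) (nat_lit 156))))))))
noncomputable def xc70 : XT := (XT.nd (nat_lit 35646) (nat_lit 0) (nat_lit 10868) (XT.nd (nat_lit 34554) (nat_lit 0) (nat_lit 29108) (XT.nd (nat_lit 468) (nat_lit 0) (nat_lit 0) (XT.nd (nat_lit 234) (nat_lit 456) (nat_lit 0) (XT.nd (nat_lit 78) (nat_lit 152) (nat_lit 0) (XT.lf (nat_lit 0) (nat_lit 4294267255) (nat_lit 228) (nat_lit 6378263390) (nat_lit 304) (nat_lit 16289644365) (nat_lit 55) (nat_lit 5) (nat_lit 58) (nat_lit 5) (nat_lit 59) (nat_lit 5) (nat_lit 355) (nat_lit 270) (nat_lit 155)) (XT.nd (nat_lit 78) (nat_lit 152) (nat_lit 0) (XT.lf (nat_lit 0) (nat_lit 18355169070) (nat_lit 304) (nat_lit 5571163101) (nat_lit 76) (nat_lit 3636161213) (nat_lit 55) (nat_lit 5) (nat_lit 59) (nat_lit 5) (nat_lit 56) (nat_lit 5) (nat_lit 356) (nat_lit 270)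 (nat_lit 154)) (XT.lf (nat_lit 0) (nat_lit 12123032381) (nat_lit 152) (nat_lit 14247926720) (nat_lit 228) (nat_lit 1807813706) (nat_lit 53) (nat_lit 5) (nat_lit 55) (nat_lit 5) (nat_lit 56) (nat_lit 5) (nat_lit 357) (nat_lit 270) (nat_lit 153)))) (XT.nd (nat_lit 78) (nat_lit 152) (nat_lit 0) (XT.lf (nat_lit 0) (nat_lit 1562495786) (nat_lit 228) (nat_lit 4204608193) (nat_lit 304) (nat_lit 23045093032) (nat_lit 49) (nat_lit 5) (nat_lit 52) (nat_lit 5) (nat_lit 53) (nat_lit 5) (nat_lit 358) (nat_lit 270) (nat_lit 152)) (XT.nd (nat_lit 78) (nat_lit 152) (nat_lit 0) (XT.lf (nat_lit 0) (nat_lit 13676008130) (nat_lit 304) (nat_lit 9617370301) (nat_lit 76) (nat_lit 6168385088) (nat_lit 49) (nat_lit 5) (nat_lit 53) (nat_lit 5) (nat_lit 50) (nat_lit 5) (nat_lit 359) (nat_lit 270) (nat_lit 151)) (XT.lf (nat_lit 0) (nat_lit 8598191199) (nat_lit 152) (nat_lit 13290237971) (nat_lit 228) (nat_lit 8241067293)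 (nat_lit 47) (nat_lit 5) (nat_lit 49) (nat_lit 5) (nat_lit 50) (nat_lit 5) (nat_lit 360) (nat_lit 270) (nat_lit 150))))) (XT.nd (nat_lit 33774) (nat_lit 0) (nat_lit 38152) (XT.nd (nat_lit 33618) (nat_lit 0) (nat_lit 39140) (XT.lf (nat_lit 0) (nat_lit 27461968540) (nat_lit 152) (nat_lit 2933052412) (nat_lit 228) (nat_lit 421288789) (nat_lit 47) (nat_lit 5) (nat_lit 49) (nat_lit 5) (nat_lit 50) (nat_lit 5) (nat_lit 361) (nat_lit 270) (nat_lit 149)) (XT.nd (nat_lit 78) (nat_lit 988) (nat_lit 0) (XT.lf (nat_lit 0) (nat_lit 2837805343) (nat_lit 988) (nat_lit 322709852) (nat_lit 988) (nat_lit 322709852) (nat_lit 575) (nat_lit 3) (nat_lit 588) (nat_lit 3) (nat_lit 588) (nat_lit 5) (nat_lit 271) (nat_lit 271) (nat_lit 238)) (XT.lf (nat_lit 0) (nat_lit 1381363123) (nat_lit 988) (nat_lit 2750105063) (nat_lit 1064) (nat_lit 2883743491) (nat_lit 562) (nat_lit 5) (nat_lit 575) (nat_lit 3) (nat_lit 576) (nat_lit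 5) (nat_lit 272) (nat_lit 271) (nat_lit 237)))) (XT.nd (nat_lit 156) (nat_lit 988) (nat_lit 0) (XT.nd (nat_lit 78) (nat_lit 0) (nat_lit 76) (XT.lf (nat_lit 76) (nat_lit 2232558792) (nat_lit 0) (nat_lit 1799003324) (nat_lit 1064) (nat_lit 3035490340) (nat_lit 563) (nat_lit 5) (nat_lit 562) (nat_lit 5) (nat_lit 576) (nat_lit 5) (nat_lit 273) (nat_lit 271) (nat_lit 236)) (XT.lf (nat_lit 76) (nat_lit 225153258) (nat_lit 0) (nat_lit 6459600336) (nat_lit 1064) (nat_lit 437316742) (nat_lit 564) (nat_lit 5) (nat_lit 563) (nat_lit 5) (nat_lit 577) (nat_lit 5) (nat_lit 274) (nat_lit 271) (nat_lit 235))) (XT.nd (nat_lit 78) (nat_lit 0) (nat_lit 0) (XT.lf (nat_lit 0) (nat_lit 2155631730) (nat_lit 1064) (nat_lit 1758622560) (nat_lit 1140) (nat_lit 3265357101) (nat_lit 549) (nat_lit 5) (nat_lit 563) (nat_lit 5) (nat_lit 564) (nat_lit 5) (nat_lit 275) (nat_lit 271) (nat_lit 234)) (XT.lf (nat_lit 76) (nat_lit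 3522216556) (nat_lit 0) (nat_lit 1225175458) (nat_lit 1140) (nat_lit 2492974209) (nat_lit 550) (nat_lit 5) (nat_lit 549) (nat_lit 5) (nat_lit 564) (nat_lit 5) (nat_lit 276) (nat_lit 271) (nat_lit 233)))))) (XT.nd (nat_lit 546) (nat_lit 5624) (nat_lit 0) (XT.nd (nat_lit 234) (nat_lit 2356) (nat_lit 0) (XT.nd (nat_lit 78) (nat_lit 0) (nat_lit 0) (XT.lf (nat_lit 0) (nat_lit 51406659) (nat_lit 1140) (nat_lit 5666544656) (nat_lit 1216) (nat_lit 1586279370) (nat_lit 535) (nat_lit 5) (nat_lit 550) (nat_lit 5) (nat_lit 551) (nat_lit 5) (nat_lit 277) (nat_lit 271) (nat_lit 232)) (XT.nd (nat_lit 78) (nat_lit 0) (nat_lit 76) (XT.lf (nat_lit 0) (nat_lit 2580436572) (nat_lit 1140) (nat_lit 246023432) (nat_lit 1216) (nat_lit 4544455986) (nat_lit 535) (nat_lit 5) (nat_lit 550) (nat_lit 5) (nat_lit 551) (nat_lit 5) (nat_lit 278) (nat_lit 271) (nat_lit 231)) (XT.lf (nat_lit 0) (nat_lit 5132630331) (nat_lit 1140)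 (nat_lit 2089813949) (nat_lit 1216) (nat_lit 218287670) (nat_lit 536) (nat_lit 5) (nat_lit 551) (nat_lit 5) (nat_lit 552) (nat_lit 5) (nat_lit 279) (nat_lit 271) (nat_lit 230)))) (XT.nd (nat_lit 156) (nat_lit 1216) (nat_lit 0) (XT.nd (nat_lit 78) (nat_lit 0) (nat_lit 0) (XT.lf (nat_lit 0) (nat_lit 202499671) (nat_lit 1216) (nat_lit 3936410585) (nat_lit 1292) (nat_lit 3374631835) (nat_lit 520) (nat_lit 5) (nat_lit 536) (nat_lit 5) (nat_lit 537) (nat_lit 5) (nat_lit 280) (nat_lit 271) (nat_lit 229)) (XT.lf (nat_lit 76) (nat_lit 1806253196) (nat_lit 0) (nat_lit 892055561) (nat_lit 1292) (nat_lit 4891167880) (nat_lit 521) (nat_lit 5) (nat_lit 520) (nat_lit 5) (nat_lit 537) (nat_lit 5) (nat_lit 281) (nat_lit 271) (nat_lit 228))) (XT.nd (nat_lit 78) (nat_lit 1292) (nat_lit 0) (XT.lf (nat_lit 76) (nat_lit 34951274) (nat_lit 0) (nat_lit 5194417778) (nat_lit 1292) (nat_lit 2439180774) (nat_lit 522) (nat_lit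 5) (nat_lit 521) (nat_lit 5) (nat_lit 538) (nat_lit 5) (nat_lit 282) (nat_lit 271) (nat_lit 227)) (XT.lf (nat_lit 0) (nat_lit 49466270) (nat_lit 1292) (nat_lit 1706710427) (nat_lit 1368) (nat_lit 5994587499) (nat_lit 504) (nat_lit 5) (nat_lit 521) (nat_lit 5) (nat_lit 522) (nat_lit 5) (nat_lit 283) (nat_lit 271) (nat_lit 226))))) (XT.nd (nat_lit 234) (nat_lit 4484) (nat_lit 0) (XT.nd (nat_lit 78) (nat_lit 1216) (nat_lit 0) (XT.lf (nat_lit 0) (nat_lit 2541501688) (nat_lit 1292) (nat_lit 3464935001) (nat_lit 1368) (nat_lit 1829511465) (nat_lit 505) (nat_lit 5) (nat_lit 522) (nat_lit 5) (nat_lit 523) (nat_lit 5) (nat_lit 284) (nat_lit 271) (nat_lit 225)) (XT.nd (nat_lit 78) (nat_lit 1216) (nat_lit 0) (XT.lf (nat_lit 76) (nat_lit 2697830941) (nat_lit 0) (nat_lit 2374633993) (nat_lit 1368) (nat_lit 2852000501) (nat_lit 506) (nat_lit 5) (nat_lit 505) (nat_lit 5) (nat_lit 523) (nat_lit 5) (nat_lit 285)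 (nat_lit 271) (nat_lit 224)) (XT.lf (nat_lit 0) (nat_lit 1024688474) (nat_lit 1292) (nat_lit 6619087541) (nat_lit 1368) (nat_lit 372633197) (nat_lit 489) (nat_lit 5) (nat_lit 506) (nat_lit 5) (nat_lit 507) (nat_lit 5) (nat_lit 286) (nat_lit 271) (nat_lit 223)))) (XT.nd (nat_lit 156) (nat_lit 3040) (nat_lit 0) (XT.nd (nat_lit 78) (nat_lit 1368) (nat_lit 0) (XT.lf (nat_lit 0) (nat_lit 2130572696) (nat_lit 1368) (nat_lit 663150440) (nat_lit 76) (nat_lit 5317600176) (nat_lit 488) (nat_lit 5) (nat_lit 506) (nat_lit 5) (nat_lit 489) (nat_lit 5) (nat_lit 287) (nat_lit 271) (nat_lit 222)) (XT.lf (nat_lit 0) (nat_lit 4678462043) (nat_lit 1444) (nat_lit 2343632417) (nat_lit 76) (nat_lit 1187502969) (nat_lit 470) (nat_lit 5) (nat_lit 489) (nat_lit 5) (nat_lit 471) (nat_lit 5) (nat_lit 288) (nat_lit 271) (nat_lit 221))) (XT.nd (nat_lit 78) (nat_lit 1596) (nat_lit 0) (XT.lf (nat_lit 0) (nat_lit 4270068866)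 (nat_lit 1444) (nat_lit 3014136240) (nat_lit 1520) (nat_lit 1027039578) (nat_lit 451) (nat_lit 5) (nat_lit 470) (nat_lit 5) (nat_lit 471) (nat_lit 5) (nat_lit 289) (nat_lit 271) (nat_lit 220)) (XT.lf (nat_lit 0) (nat_lit 1504370293) (nat_lit 1596) (nat_lit 5757222131) (nat_lit 76) (nat_lit 1154747101) (nat_lit 430) (nat_lit 5) (nat_lit 451) (nat_lit 5) (nat_lit 431) (nat_lit 5) (nat_lit 290) (nat_lit 271) (nat_lit 219))))))) (XT.nd (nat_lit 1014) (nat_lit 7600) (nat_lit 0) (XT.nd (nat_lit 468) (nat_lit 4104) (nat_lit 0) (XT.nd (nat_lit 234) (nat_lit 3192) (nat_lit 0) (XT.nd (nat_lit 78) (nat_lit 1748) (nat_lit 0) (XT.lf (nat_lit 0) (nat_lit 1020774866) (nat_lit 1596) (nat_lit 3064774970) (nat_lit 1672) (nat_lit 4439195202) (nat_lit 409) (nat_lit 5) (nat_lit 430) (nat_lit 5) (nat_lit 431) (nat_lit 5) (nat_lit 291) (nat_lit 271) (nat_lit 218)) (XT.nd (nat_lit 78) (nat_lit 1748) (nat_lit 0) (XT.lf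 (nat_lit 0) (nat_lit 6726588792) (nat_lit 1672) (nat_lit 620713701) (nat_lit 76) (nat_lit 1289499522) (nat_lit 409) (nat_lit 5) (nat_lit 431) (nat_lit 5) (nat_lit 410) (nat_lit 5) (nat_lit 292) (nat_lit 271) (nat_lit 217)) (XT.lf (nat_lit 0) (nat_lit 684909818) (nat_lit 1748) (nat_lit 2279190499) (nat_lit 76) (nat_lit 5788088024) (nat_lit 386) (nat_lit 5) (nat_lit 409) (nat_lit 5) (nat_lit 387) (nat_lit 5) (nat_lit 293) (nat_lit 271) (nat_lit 216)))) (XT.nd (nat_lit 78) (nat_lit 1748) (nat_lit 0) (XT.lf (nat_lit 0) (nat_lit 3316553156) (nat_lit 1520) (nat_lit 3968948741) (nat_lit 76) (nat_lit 1585633607) (nat_lit 367) (nat_lit 5) (nat_lit 387) (nat_lit 5) (nat_lit 368) (nat_lit 5) (nat_lit 294) (nat_lit 271) (nat_lit 215)) (XT.nd (nat_lit 78) (nat_lit 912) (nat_lit 0) (XT.lf (nat_lit 0) (nat_lit 3304014993) (nat_lit 836) (nat_lit 2719348075) (nat_lit 912) (nat_lit 2970406538) (nat_lit 356) (nat_lit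 5) (nat_lit 367) (nat_lit 5) (nat_lit 368) (nat_lit 5) (nat_lit 295) (nat_lit 271) (nat_lit 214)) (XT.lf (nat_lit 0) (nat_lit 1682364472) (nat_lit 912) (nat_lit 7120716123) (nat_lit 988) (nat_lit 317209691) (nat_lit 344) (nat_lit 5) (nat_lit 356) (nat_lit 5) (nat_lit 357) (nat_lit 5) (nat_lit 296) (nat_lit 271) (nat_lit 213))))) (XT.nd (nat_lit 234) (nat_lit 2356) (nat_lit 0) (XT.nd (nat_lit 78) (nat_lit 836) (nat_lit 0) (XT.lf (nat_lit 0) (nat_lit 13255764) (nat_lit 836) (nat_lit 2369495469) (nat_lit 912) (nat_lit 6867604318) (nat_lit 332) (nat_lit 5) (nat_lit 343) (nat_lit 5) (nat_lit 344) (nat_lit 5) (nat_lit 297) (nat_lit 271) (nat_lit 212)) (XT.nd (nat_lit 78) (nat_lit 836) (nat_lit 0) (XT.lf (nat_lit 0) (nat_lit 5169661072) (nat_lit 912) (nat_lit 1669130946) (nat_lit 76) (nat_lit 2545322089) (nat_lit 332) (nat_lit 5) (nat_lit 344) (nat_lit 5) (nat_lit 333) (nat_lit 5) (nat_lit 298) (nat_lit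 271) (nat_lit 211)) (XT.lf (nat_lit 0) (nat_lit 6135394782) (nat_lit 836) (nat_lit 1905231769) (nat_lit 912) (nat_lit 1481287242) (nat_lit 321) (nat_lit 5) (nat_lit 332) (nat_lit 5) (nat_lit 333) (nat_lit 5) (nat_lit 299) (nat_lit 271) (nat_lit 210)))) (XT.nd (nat_lit 156) (nat_lit 760) (nat_lit 0) (XT.nd (nat_lit 78) (nat_lit 760) (nat_lit 0) (XT.lf (nat_lit 0) (nat_lit 1323747557) (nat_lit 836) (nat_lit 5155949654) (nat_lit 76) (nat_lit 3183865235) (nat_lit 310) (nat_lit 5) (nat_lit 321) (nat_lit 5) (nat_lit 311) (nat_lit 5) (nat_lit 300) (nat_lit 271) (nat_lit 209)) (XT.lf (nat_lit 0) (nat_lit 2835139822) (nat_lit 760) (nat_lit 1358889567) (nat_lit 836) (nat_lit 5615245433) (nat_lit 300) (nat_lit 5) (nat_lit 310) (nat_lit 5) (nat_lit 311) (nat_lit 5) (nat_lit 301) (nat_lit 271) (nat_lit 208))) (XT.nd (nat_lit 78) (nat_lit 76) (nat_lit 0) (XT.lf (nat_lit 0) (nat_lit 1111472188) (nat_lit 684)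 (nat_lit 6054793633) (nat_lit 760) (nat_lit 2792809329) (nat_lit 291) (nat_lit 5) (nat_lit 300) (nat_lit 5) (nat_lit 301) (nat_lit 5) (nat_lit 302) (nat_lit 271) (nat_lit 207)) (XT.lf (nat_lit 0) (nat_lit 118289438) (nat_lit 760) (nat_lit 642599435) (nat_lit 76) (nat_lit 9352387889) (nat_lit 290) (nat_lit 5) (nat_lit 300) (nat_lit 5) (nat_lit 291) (nat_lit 5) (nat_lit 303) (nat_lit 271) (nat_lit 206)))))) (XT.nd (nat_lit 546) (nat_lit 3420) (nat_lit 0) (XT.nd (nat_lit 234) (nat_lit 2052) (nat_lit 0) (XT.nd (nat_lit 78) (nat_lit 1368) (nat_lit 0) (XT.lf (nat_lit 0) (nat_lit 3111108949) (nat_lit 836) (nat_lit 2463483472) (nat_lit 76) (nat_lit 4696527130) (nat_lit 280) (nat_lit 5) (nat_lit 291) (nat_lit 5) (nat_lit 281) (nat_lit 5) (nat_lit 304) (nat_lit 271) (nat_lit 205)) (XT.nd (nat_lit 78) (nat_lit 684) (nat_lit 0) (XT.lf (nat_lit 0) (nat_lit 6107909721) (nat_lit 684) (nat_lit 86329729) (nat_lit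 760) (nat_lit 4239477704) (nat_lit 271) (nat_lit 5) (nat_lit 280) (nat_lit 5) (nat_lit 281) (nat_lit 5) (nat_lit 305) (nat_lit 271) (nat_lit 204)) (XT.lf (nat_lit 0) (nat_lit 4336205152) (nat_lit 684) (nat_lit 5067195074) (nat_lit 760) (nat_lit 1197150917) (nat_lit 262) (nat_lit 5) (nat_lit 271) (nat_lit 5) (nat_lit 272) (nat_lit 5) (nat_lit 306) (nat_lit 271) (nat_lit 203)))) (XT.nd (nat_lit 156) (nat_lit 684) (nat_lit 0) (XT.nd (nat_lit 78) (nat_lit 684) (nat_lit 0) (XT.lf (nat_lit 0) (nat_lit 1914485471) (nat_lit 684) (nat_lit 8264493446) (nat_lit 76) (nat_lit 593118824) (nat_lit 253) (nat_lit 5) (nat_lit 262) (nat_lit 5) (nat_lit 254) (nat_lit 5) (nat_lit 307) (nat_lit 271) (nat_lit 202)) (XT.lf (nat_lit 0) (nat_lit 592587561) (nat_lit 684) (nat_lit 4545297974) (nat_lit 760) (nat_lit 5810080325) (nat_lit 244) (nat_lit 5) (nat_lit 253) (nat_lit 5) (nat_lit 254) (nat_lit 5) (nat_lit 308) (nat_lit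 271) (nat_lit 201))) (XT.nd (nat_lit 78) (nat_lit 684) (nat_lit 0) (XT.lf (nat_lit 0) (nat_lit 8477591076) (nat_lit 760) (nat_lit 1361552340) (nat_lit 76) (nat_lit 1289600721) (nat_lit 244) (nat_lit 5) (nat_lit 254) (nat_lit 5) (nat_lit 245) (nat_lit 5) (nat_lit 309) (nat_lit 271) (nat_lit 200)) (XT.lf (nat_lit 0) (nat_lit 633084207) (nat_lit 684) (nat_lit 3394735079) (nat_lit 76) (nat_lit 7286304262) (nat_lit 235) (nat_lit 5) (nat_lit 244) (nat_lit 5) (nat_lit 236) (nat_lit 5) (nat_lit 310) (nat_lit 271) (nat_lit 199))))) (XT.nd (nat_lit 234) (nat_lit 1672) (nat_lit 0) (XT.nd (nat_lit 78) (nat_lit 1140) (nat_lit 0) (XT.lf (nat_lit 0) (nat_lit 3998387841) (nat_lit 684) (nat_lit 5516010256) (nat_lit 76) (nat_lit 1989968799) (nat_lit 227) (nat_lit 5) (nat_lit 236) (nat_lit 5) (nat_lit 228) (nat_lit 5) (nat_lit 311) (nat_lit 271) (nat_lit 198)) (XT.nd (nat_lit 78) (nat_lit 608) (nat_lit 0) (XT.lf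 (nat_lit 0) (nat_lit 3972872195) (nat_lit 532) (nat_lit 3525535776) (nat_lit 608) (nat_lit 4201257917) (nat_lit 220) (nat_lit 5) (nat_lit 227) (nat_lit 5) (nat_lit 228) (nat_lit 5) (nat_lit 312) (nat_lit 271) (nat_lit 197)) (XT.lf (nat_lit 0) (nat_lit 1877421830) (nat_lit 608) (nat_lit 9251687452) (nat_lit 684) (nat_lit 771223764) (nat_lit 212) (nat_lit 5) (nat_lit 220) (nat_lit 5) (nat_lit 221) (nat_lit 5) (nat_lit 313) (nat_lit 271) (nat_lit 196)))) (XT.nd (nat_lit 156) (nat_lit 1064) (nat_lit 0) (XT.nd (nat_lit 78) (nat_lit 532) (nat_lit 0) (XT.lf (nat_lit 0) (nat_lit 2761062476) (nat_lit 684) (nat_lit 323665135) (nat_lit 76) (nat_lit 9021244269) (nat_lit 211) (nat_lit 5) (nat_lit 220) (nat_lit 5) (nat_lit 212) (nat_lit 5) (nat_lit 314) (nat_lit 271) (nat_lit 195)) (XT.lf (nat_lit 0) (nat_lit 6434206131) (nat_lit 608) (nat_lit 2599560440) (nat_lit 76) (nat_lit 3283025096) (nat_lit 204) (nat_lit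 5) (nat_lit 212) (nat_lit 5) (nat_lit 205) (nat_lit 5) (nat_lit 315) (nat_lit 271) (nat_lit 194))) (XT.nd (nat_lit 78) (nat_lit 532) (nat_lit 0) (XT.lf (nat_lit 0) (nat_lit 7558592680) (nat_lit 532) (nat_lit 2692103309) (nat_lit 608) (nat_lit 2282597483) (nat_lit 197) (nat_lit 5) (nat_lit 204) (nat_lit 5) (nat_lit 205) (nat_lit 5) (nat_lit 316) (nat_lit 271) (nat_lit 193)) (XT.lf (nat_lit 0) (nat_lit 1445960781) (nat_lit 532) (nat_lit 7469186457) (nat_lit 76) (nat_lit 3840192182) (nat_lit 190) (nat_lit 5) (nat_lit 197) (nat_lit 5) (nat_lit 191) (nat_lit 5) (nat_lit 317) (nat_lit 271) (nat_lit 192))))))))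
noncomputable def xc71 : XT := (XT.nd (nat_lit 2106) (nat_lit 2584) (nat_lit 0) (XT.nd (nat_lit 1014) (nat_lit 3724) (nat_lit 0) (XT.nd (nat_lit 468) (nat_lit 2128) (nat_lit 0) (XT.nd (nat_lit 234) (nat_lit 1368) (nat_lit 0) (XT.nd (nat_lit 78) (nat_lit 532) (nat_lit 0) (XT.lf (nat_lit 0) (nat_lit 2894627178) (nat_lit 532) (nat_lit 2394147860) (nat_lit 608) (nat_lit 7694320644) (nat_lit 183) (nat_lit 5) (nat_lit 190) (nat_lit 5) (nat_lit 191) (nat_lit 5) (nat_lit 318) (nat_lit 271) (nat_lit 191)) (XT.nd (nat_lit 78) (nat_lit 76) (nat_lit 0) (XT.lf (nat_lit 0) (nat_lit 382262528) (nat_lit 456) (nat_lit 8909309253) (nat_lit 532) (nat_lit 3925237248) (nat_lit 177) (nat_lit 5) (nat_lit 183) (nat_lit 5) (nat_lit 184) (nat_lit 5) (nat_lit 319) (nat_lit 271) (nat_lit 190)) (XT.lf (nat_lit 0) (nat_lit 6013528) (nat_lit 532) (nat_lit 2216116228) (nat_lit 76) (nat_lit 11234456492) (nat_lit 176) (nat_lit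 5) (nat_lit 183) (nat_lit 5) (nat_lit 177) (nat_lit 5) (nat_lit 320) (nat_lit 271) (nat_lit 189)))) (XT.nd (nat_lit 78) (nat_lit 912) (nat_lit 0) (XT.lf (nat_lit 0) (nat_lit 4054590030) (nat_lit 532) (nat_lit 4971394446) (nat_lit 76) (nat_lit 4676016022) (nat_lit 170) (nat_lit 5) (nat_lit 177) (nat_lit 5) (nat_lit 171) (nat_lit 5) (nat_lit 321) (nat_lit 271) (nat_lit 188)) (XT.nd (nat_lit 78) (nat_lit 456) (nat_lit 0) (XT.lf (nat_lit 0) (nat_lit 6099216854) (nat_lit 456) (nat_lit 2160388058) (nat_lit 532) (nat_lit 5694489113) (nat_lit 164) (nat_lit 5) (nat_lit 170) (nat_lit 5) (nat_lit 171) (nat_lit 5) (nat_lit 322) (nat_lit 271) (nat_lit 187)) (XT.lf (nat_lit 0) (nat_lit 3321121127) (nat_lit 456) (nat_lit 9323035621) (nat_lit 532) (nat_lit 1568541872) (nat_lit 158) (nat_lit 5) (nat_lit 164) (nat_lit 5) (nat_lit 165) (nat_lit 5) (nat_lit 323) (nat_lit 271) (nat_lit 186))))) (XT.nd (nat_lit 234)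 (nat_lit 1216) (nat_lit 0) (XT.nd (nat_lit 78) (nat_lit 456) (nat_lit 0) (XT.lf (nat_lit 0) (nat_lit 387860636) (nat_lit 380) (nat_lit 2295182419) (nat_lit 456) (nat_lit 11794944888) (nat_lit 152) (nat_lit 5) (nat_lit 157) (nat_lit 5) (nat_lit 158) (nat_lit 5) (nat_lit 324) (nat_lit 271) (nat_lit 185)) (XT.nd (nat_lit 78) (nat_lit 456) (nat_lit 0) (XT.lf (nat_lit 0) (nat_lit 7114444852) (nat_lit 456) (nat_lit 2684830316) (nat_lit 76) (nat_lit 4950296605) (nat_lit 152) (nat_lit 5) (nat_lit 158) (nat_lit 5) (nat_lit 153) (nat_lit 5) (nat_lit 325) (nat_lit 271) (nat_lit 184)) (XT.lf (nat_lit 0) (nat_lit 9121505731) (nat_lit 456) (nat_lit 2599882033) (nat_lit 532) (nat_lit 3307077717) (nat_lit 146) (nat_lit 5) (nat_lit 152) (nat_lit 5) (nat_lit 153) (nat_lit 5) (nat_lit 326) (nat_lit 271) (nat_lit 183)))) (XT.nd (nat_lit 156) (nat_lit 380) (nat_lit 0) (XT.nd (nat_lit 78) (nat_lit 380) (nat_lit 0) (XT.lf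 (nat_lit 0) (nat_lit 1193237899) (nat_lit 456) (nat_lit 9316867164) (nat_lit 76) (nat_lit 4804334798) (nat_lit 140) (nat_lit 5) (nat_lit 146) (nat_lit 5) (nat_lit 141) (nat_lit 5) (nat_lit 327) (nat_lit 271) (nat_lit 182)) (XT.lf (nat_lit 0) (nat_lit 2682406002) (nat_lit 380) (nat_lit 3145568882) (nat_lit 456) (nat_lit 9779707810) (nat_lit 135) (nat_lit 5) (nat_lit 140) (nat_lit 5) (nat_lit 141) (nat_lit 5) (nat_lit 328) (nat_lit 271) (nat_lit 181))) (XT.nd (nat_lit 78) (nat_lit 380) (nat_lit 0) (XT.lf (nat_lit 0) (nat_lit 10663650685) (nat_lit 456) (nat_lit 813229795) (nat_lit 76) (nat_lit 4431617270) (nat_lit 135) (nat_lit 5) (nat_lit 141) (nat_lit 5) (nat_lit 136) (nat_lit 5) (nat_lit 329) (nat_lit 271) (nat_lit 180)) (XT.lf (nat_lit 0) (nat_lit 11751859896) (nat_lit 380) (nat_lit 3960279145) (nat_lit 456) (nat_lit 504855869) (nat_lit 130) (nat_lit 5) (nat_lit 135) (nat_lit 5) (nat_lit 136)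 (nat_lit 5) (nat_lit 330) (nat_lit 271) (nat_lit 179)))))) (XT.nd (nat_lit 546) (nat_lit 1520) (nat_lit 0) (XT.nd (nat_lit 234) (nat_lit 1064) (nat_lit 0) (XT.nd (nat_lit 78) (nat_lit 684) (nat_lit 0) (XT.lf (nat_lit 0) (nat_lit 4374582424) (nat_lit 456) (nat_lit 8352176962) (nat_lit 76) (nat_lit 3806337946) (nat_lit 124) (nat_lit 5) (nat_lit 130) (nat_lit 5) (nat_lit 125) (nat_lit 5) (nat_lit 331) (nat_lit 271) (nat_lit 178)) (XT.nd (nat_lit 78) (nat_lit 380) (nat_lit 0) (XT.lf (nat_lit 0) (nat_lit 4394065479) (nat_lit 304) (nat_lit 5056261706) (nat_lit 380) (nat_lit 7407164802) (nat_lit 120) (nat_lit 5) (nat_lit 124) (nat_lit 5) (nat_lit 125) (nat_lit 5) (nat_lit 332) (nat_lit 271) (nat_lit 177)) (XT.lf (nat_lit 0) (nat_lit 390119542) (nat_lit 380) (nat_lit 14337940773) (nat_lit 456) (nat_lit 2462575061) (nat_lit 115) (nat_lit 5) (nat_lit 120) (nat_lit 5) (nat_lit 121) (nat_lit 5) (nat_lit 333)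 (nat_lit 271) (nat_lit 176)))) (XT.nd (nat_lit 156) (nat_lit 684) (nat_lit 0) (XT.nd (nat_lit 78) (nat_lit 304) (nat_lit 0) (XT.lf (nat_lit 0) (nat_lit 2686783708) (nat_lit 456) (nat_lit 3826039538) (nat_lit 76) (nat_lit 11018800354) (nat_lit 114) (nat_lit 5) (nat_lit 120) (nat_lit 5) (nat_lit 115) (nat_lit 5) (nat_lit 334) (nat_lit 271) (nat_lit 175)) (XT.lf (nat_lit 0) (nat_lit 8003113932) (nat_lit 380) (nat_lit 8286248265) (nat_lit 76) (nat_lit 1592245136) (nat_lit 110) (nat_lit 5) (nat_lit 115) (nat_lit 5) (nat_lit 111) (nat_lit 5) (nat_lit 335) (nat_lit 271) (nat_lit 174))) (XT.nd (nat_lit 78) (nat_lit 380) (nat_lit 0) (XT.lf (nat_lit 0) (nat_lit 5213927513) (nat_lit 304) (nat_lit 8341859532) (nat_lit 380) (nat_lit 4684776534) (nat_lit 106) (nat_lit 5) (nat_lit 110) (nat_lit 5) (nat_lit 111) (nat_lit 5) (nat_lit 336) (nat_lit 271) (nat_lit 173)) (XT.lf (nat_lit 0) (nat_lit 585738109) (nat_lit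 304) (nat_lit 104301015) (nat_lit 380) (nat_lit 17919492531) (nat_lit 101) (nat_lit 5) (nat_lit 105) (nat_lit 5) (nat_lit 106) (nat_lit 5) (nat_lit 337) (nat_lit 271) (nat_lit 172))))) (XT.nd (nat_lit 234) (nat_lit 988) (nat_lit 0) (XT.nd (nat_lit 78) (nat_lit 532) (nat_lit 0) (XT.lf (nat_lit 0) (nat_lit 6280178288) (nat_lit 380) (nat_lit 4329731167) (nat_lit 76) (nat_lit 8376694752) (nat_lit 101) (nat_lit 5) (nat_lit 106) (nat_lit 5) (nat_lit 102) (nat_lit 5) (nat_lit 338) (nat_lit 271) (nat_lit 171)) (XT.nd (nat_lit 78) (nat_lit 228) (nat_lit 0) (XT.lf (nat_lit 0) (nat_lit 9864611113) (nat_lit 304) (nat_lit 2213005882) (nat_lit 380) (nat_lit 7296589060) (nat_lit 97) (nat_lit 5) (nat_lit 101) (nat_lit 5) (nat_lit 102) (nat_lit 5) (nat_lit 339) (nat_lit 271) (nat_lit 170)) (XT.lf (nat_lit 0) (nat_lit 4752555276) (nat_lit 228) (nat_lit 13373841682) (nat_lit 304) (nat_lit 1645499403) (nat_lit 94)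 (nat_lit 5) (nat_lit 97) (nat_lit 5) (nat_lit 98) (nat_lit 5) (nat_lit 340) (nat_lit 271) (nat_lit 169)))) (XT.nd (nat_lit 156) (nat_lit 608) (nat_lit 0) (XT.nd (nat_lit 78) (nat_lit 304) (nat_lit 0) (XT.lf (nat_lit 0) (nat_lit 4175576286) (nat_lit 304) (nat_lit 688520250) (nat_lit 76) (nat_lit 15315782810) (nat_lit 93) (nat_lit 5) (nat_lit 97) (nat_lit 5) (nat_lit 94) (nat_lit 5) (nat_lit 341) (nat_lit 271) (nat_lit 168)) (XT.lf (nat_lit 0) (nat_lit 10243495257) (nat_lit 380) (nat_lit 6414422755) (nat_lit 76) (nat_lit 3940083033) (nat_lit 89) (nat_lit 5) (nat_lit 94) (nat_lit 5) (nat_lit 90) (nat_lit 5) (nat_lit 342) (nat_lit 271) (nat_lit 167))) (XT.nd (nat_lit 78) (nat_lit 380) (nat_lit 0) (XT.lf (nat_lit 0) (nat_lit 8524588449) (nat_lit 228) (nat_lit 8038055354) (nat_lit 304) (nat_lit 4464646616) (nat_lit 86) (nat_lit 5) (nat_lit 89) (nat_lit 5) (nat_lit 90) (nat_lit 5) (nat_lit 343) (nat_lit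 271) (nat_lit 166)) (XT.lf (nat_lit 0) (nat_lit 1623725633) (nat_lit 380) (nat_lit 18958109446) (nat_lit 76) (nat_lit 886566333) (nat_lit 81) (nat_lit 5) (nat_lit 86) (nat_lit 5) (nat_lit 82) (nat_lit 5) (nat_lit 344) (nat_lit 271) (nat_lit 165))))))) (XT.nd (nat_lit 1092) (nat_lit 456) (nat_lit 0) (XT.nd (nat_lit 546) (nat_lit 1064) (nat_lit 0) (XT.nd (nat_lit 234) (nat_lit 608) (nat_lit 0) (XT.nd (nat_lit 78) (nat_lit 456) (nat_lit 0) (XT.lf (nat_lit 0) (nat_lit 7950724481) (nat_lit 380) (nat_lit 3897232212) (nat_lit 76) (nat_lit 10071873432) (nat_lit 81) (nat_lit 5) (nat_lit 86) (nat_lit 5) (nat_lit 82) (nat_lit 5) (nat_lit 345) (nat_lit 271) (nat_lit 164)) (XT.nd (nat_lit 78) (nat_lit 228) (nat_lit 0) (XT.lf (nat_lit 0) (nat_lit 11733608835) (nat_lit 228) (nat_lit 2788018816) (nat_lit 304) (nat_lit 7862099215) (nat_lit 78) (nat_lit 5) (nat_lit 81) (nat_lit 5) (nat_lit 82) (nat_lit 5) (nat_lit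 346) (nat_lit 271) (nat_lit 163)) (XT.lf (nat_lit 0) (nat_lit 5013274108) (nat_lit 228) (nat_lit 16356242567) (nat_lit 304) (nat_lit 1490433508) (nat_lit 75) (nat_lit 5) (nat_lit 78) (nat_lit 5) (nat_lit 79) (nat_lit 5) (nat_lit 347) (nat_lit 271) (nat_lit 162)))) (XT.nd (nat_lit 156) (nat_lit 304) (nat_lit 0) (XT.nd (nat_lit 78) (nat_lit 228) (nat_lit 0) (XT.lf (nat_lit 0) (nat_lit 5075646445) (nat_lit 304) (nat_lit 2143963732) (nat_lit 76) (nat_lit 16128802086) (nat_lit 74) (nat_lit 5) (nat_lit 78) (nat_lit 5) (nat_lit 75) (nat_lit 5) (nat_lit 348) (nat_lit 271) (nat_lit 161)) (XT.lf (nat_lit 0) (nat_lit 11904525422) (nat_lit 304) (nat_lit 9693215830) (nat_lit 76) (nat_lit 2251874932) (nat_lit 71) (nat_lit 5) (nat_lit 75) (nat_lit 5) (nat_lit 72) (nat_lit 5) (nat_lit 349) (nat_lit 271) (nat_lit 160))) (XT.nd (nat_lit 78) (nat_lit 76) (nat_lit 0) (XT.lf (nat_lit 0) (nat_lit 6613934238) (nat_lit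 228) (nat_lit 12409612198) (nat_lit 304) (nat_lit 5340610418) (nat_lit 68) (nat_lit 5) (nat_lit 71) (nat_lit 5) (nat_lit 72) (nat_lit 5) (nat_lit 350) (nat_lit 271) (nat_lit 159)) (XT.lf (nat_lit 0) (nat_lit 1488620155) (nat_lit 304) (nat_lit 1393479238) (nat_lit 76) (nat_lit 22010934548) (nat_lit 67) (nat_lit 5) (nat_lit 71) (nat_lit 5) (nat_lit 68) (nat_lit 5) (nat_lit 351) (nat_lit 271) (nat_lit 158))))) (XT.nd (nat_lit 234) (nat_lit 608) (nat_lit 0) (XT.nd (nat_lit 78) (nat_lit 228) (nat_lit 0) (XT.lf (nat_lit 0) (nat_lit 8577891597) (nat_lit 304) (nat_lit 9891277886) (nat_lit 76) (nat_lit 6965353069) (nat_lit 64) (nat_lit 5) (nat_lit 68) (nat_lit 5) (nat_lit 65) (nat_lit 5) (nat_lit 352) (nat_lit 271) (nat_lit 157)) (XT.nd (nat_lit 78) (nat_lit 0) (nat_lit 0) (XT.lf (nat_lit 0) (nat_lit 7055769104) (nat_lit 228) (nat_lit 8879207469) (nat_lit 304) (nat_lit 10056182054) (nat_lit 61) (nat_lit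 5) (nat_lit 64) (nat_lit 5) (nat_lit 65) (nat_lit 5) (nat_lit 353) (nat_lit 271) (nat_lit 156)) (XT.lf (nat_lit 0) (nat_lit 23567547934) (nat_lit 304) (nat_lit 1955744693) (nat_lit 76) (nat_lit 1040111033) (nat_lit 61) (nat_lit 5) (nat_lit 65) (nat_lit 5) (nat_lit 62) (nat_lit 5) (nat_lit 354) (nat_lit 271) (nat_lit 155)))) (XT.nd (nat_lit 156) (nat_lit 152) (nat_lit 0) (XT.nd (nat_lit 78) (nat_lit 228) (nat_lit 0) (XT.lf (nat_lit 0) (nat_lit 4363488359) (nat_lit 228) (nat_lit 11530892911) (nat_lit 76) (nat_lit 11255018736) (nat_lit 58) (nat_lit 5) (nat_lit 61) (nat_lit 5) (nat_lit 59) (nat_lit 5) (nat_lit 355) (nat_lit 271) (nat_lit 154)) (XT.lf (nat_lit 0) (nat_lit 6021814152) (nat_lit 228) (nat_lit 5915362439) (nat_lit 304) (nat_lit 15814723231) (nat_lit 55) (nat_lit 5) (nat_lit 58) (nat_lit 5) (nat_lit 59) (nat_lit 5) (nat_lit 356) (nat_lit 271) (nat_lit 153))) (XT.nd (nat_lit 78) (nat_lit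 152) (nat_lit 0) (XT.lf (nat_lit 0) (nat_lit 19826909428) (nat_lit 304) (nat_lit 4171684888) (nat_lit 76) (nat_lit 4372108439) (nat_lit 55) (nat_lit 5) (nat_lit 59) (nat_lit 5) (nat_lit 56) (nat_lit 5) (nat_lit 357) (nat_lit 271) (nat_lit 152)) (XT.lf (nat_lit 0) (nat_lit 14027920023) (nat_lit 152) (nat_lit 14038431882) (nat_lit 228) (nat_lit 939462180) (nat_lit 53) (nat_lit 5) (nat_lit 55) (nat_lit 5) (nat_lit 56) (nat_lit 5) (nat_lit 358) (nat_lit 271) (nat_lit 151)))))) (XT.nd (nat_lit 34164) (nat_lit 0) (nat_lit 35872) (XT.nd (nat_lit 33852) (nat_lit 0) (nat_lit 38076) (XT.nd (nat_lit 78) (nat_lit 152) (nat_lit 0) (XT.lf (nat_lit 0) (nat_lit 3137695042) (nat_lit 228) (nat_lit 3696311997) (nat_lit 304) (nat_lit 22824452853) (nat_lit 49) (nat_lit 5) (nat_lit 52) (nat_lit 5) (nat_lit 53) (nat_lit 5) (nat_lit 359) (nat_lit 271) (nat_lit 150)) (XT.nd (nat_lit 78) (nat_lit 152) (nat_lit 0) (XT.lf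 (nat_lit 0) (nat_lit 14958141879) (nat_lit 304) (nat_lit 8408504766) (nat_lit 76) (nat_lit 6961314038) (nat_lit 49) (nat_lit 5) (nat_lit 53) (nat_lit 5) (nat_lit 50) (nat_lit 5) (nat_lit 360) (nat_lit 271) (nat_lit 149)) (XT.lf (nat_lit 0) (nat_lit 10329230259) (nat_lit 152) (nat_lit 13071875799) (nat_lit 228) (nat_lit 7614942518) (nat_lit 47) (nat_lit 5) (nat_lit 49) (nat_lit 5) (nat_lit 50) (nat_lit 5) (nat_lit 361) (nat_lit 271) (nat_lit 148)))) (XT.nd (nat_lit 156) (nat_lit 1064) (nat_lit 0) (XT.nd (nat_lit 78) (nat_lit 0) (nat_lit 0) (XT.lf (nat_lit 0) (nat_lit 988978453) (nat_lit 0) (nat_lit 988978453) (nat_lit 988) (nat_lit 1554776376) (nat_lit 562) (nat_lit 5) (nat_lit 562) (nat_lit 3) (nat_lit 575) (nat_lit 3) (nat_lit 272) (nat_lit 272) (nat_lit 236)) (XT.lf (nat_lit 0) (nat_lit 6529212995) (nat_lit 988) (nat_lit 147346913) (nat_lit 1064) (nat_lit 442330559) (nat_lit 562) (nat_lit 5)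 (nat_lit 575) (nat_lit 3) (nat_lit 576) (nat_lit 5) (nat_lit 273) (nat_lit 272) (nat_lit 235))) (XT.nd (nat_lit 78) (nat_lit 0) (nat_lit 0) (XT.lf (nat_lit 0) (nat_lit 1926681200) (nat_lit 1064) (nat_lit 2246497315) (nat_lit 1140) (nat_lit 3001621437) (nat_lit 548) (nat_lit 5) (nat_lit 562) (nat_lit 5) (nat_lit 563) (nat_lit 5) (nat_lit 274) (nat_lit 272) (nat_lit 234)) (XT.lf (nat_lit 76) (nat_lit 2908170785) (nat_lit 0) (nat_lit 1526401372) (nat_lit 1140) (nat_lit 2799340206) (nat_lit 549) (nat_lit 5) (nat_lit 548) (nat_lit 5) (nat_lit 563) (nat_lit 5) (nat_lit 275) (nat_lit 272) (nat_lit 233))))) (XT.nd (nat_lit 234) (nat_lit 1140) (nat_lit 0) (XT.nd (nat_lit 78) (nat_lit 1140) (nat_lit 0) (XT.lf (nat_lit 76) (nat_lit 904430917) (nat_lit 0) (nat_lit 6049111289) (nat_lit 1140) (nat_lit 342621282) (nat_lit 550) (nat_lit 5) (nat_lit 549) (nat_lit 5) (nat_lit 564) (nat_lit 5) (nat_lit 276) (nat_lit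 272) (nat_lit 232)) (XT.nd (nat_lit 78) (nat_lit 0) (nat_lit 0) (XT.lf (nat_lit 0) (nat_lit 2107369652) (nat_lit 1140) (nat_lit 1087287519) (nat_lit 1216) (nat_lit 4166453838) (nat_lit 534) (nat_lit 5) (nat_lit 549) (nat_lit 5) (nat_lit 550) (nat_lit 5) (nat_lit 277) (nat_lit 272) (nat_lit 231)) (XT.lf (nat_lit 76) (nat_lit 4379293926) (nat_lit 0) (nat_lit 186584324) (nat_lit 1216) (nat_lit 2863365908) (nat_lit 535) (nat_lit 5) (nat_lit 534) (nat_lit 5) (nat_lit 550) (nat_lit 5) (nat_lit 278) (nat_lit 272) (nat_lit 230)))) (XT.nd (nat_lit 156) (nat_lit 0) (nat_lit 76) (XT.nd (nat_lit 78) (nat_lit 1216) (nat_lit 0) (XT.lf (nat_lit 76) (nat_lit 2485801671) (nat_lit 0) (nat_lit 4568496172) (nat_lit 1216) (nat_lit 446074081) (nat_lit 536) (nat_lit 5) (nat_lit 535) (nat_lit 5) (nat_lit 551) (nat_lit 5) (nat_lit 279) (nat_lit 272) (nat_lit 229)) (XT.lf (nat_lit 76) (nat_lit 595652677) (nat_lit 0) (nat_lit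 1362439372) (nat_lit 1292) (nat_lit 5616523088) (nat_lit 520) (nat_lit 5) (nat_lit 519) (nat_lit 5) (nat_lit 536) (nat_lit 5) (nat_lit 280) (nat_lit 272) (nat_lit 228))) (XT.nd (nat_lit 78) (nat_lit 0) (nat_lit 0) (XT.lf (nat_lit 0) (nat_lit 4392716970) (nat_lit 1216) (nat_lit 1278089773) (nat_lit 1292) (nat_lit 1981000193) (nat_lit 520) (nat_lit 5) (nat_lit 536) (nat_lit 5) (nat_lit 537) (nat_lit 5) (nat_lit 281) (nat_lit 272) (nat_lit 227)) (XT.lf (nat_lit 76) (nat_lit 4591809917) (nat_lit 0) (nat_lit 2267456050) (nat_lit 1292) (nat_lit 872936975) (nat_lit 521) (nat_lit 5) (nat_lit 520) (nat_lit 5) (nat_lit 537) (nat_lit 5) (nat_lit 282) (nat_lit 272) (nat_lit 226))))))))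
noncomputable def xc72 : XT := (XT.nd (nat_lit 2106) (nat_lit 10184) (nat_lit 0) (XT.nd (nat_lit 1014) (nat_lit 9348) (nat_lit 0) (XT.nd (nat_lit 468) (nat_lit 7828) (nat_lit 0) (XT.nd (nat_lit 234) (nat_lit 2584) (nat_lit 0) (XT.nd (nat_lit 78) (nat_lit 0) (nat_lit 0) (XT.lf (nat_lit 0) (nat_lit 1520823494) (nat_lit 1292) (nat_lit 5010687809) (nat_lit 1368) (nat_lit 1284220548) (nat_lit 504) (nat_lit 5) (nat_lit 521) (nat_lit 5) (nat_lit 522) (nat_lit 5) (nat_lit 283) (nat_lit 272) (nat_lit 225)) (XT.nd (nat_lit 78) (nat_lit 0) (nat_lit 76) (XT.lf (nat_lit 76) (nat_lit 1008329003) (nat_lit 0) (nat_lit 2932886140) (nat_lit 1368) (nat_lit 3961163659) (nat_lit 505) (nat_lit 5) (nat_lit 504) (nat_lit 5) (nat_lit 522) (nat_lit 5) (nat_lit 284) (nat_lit 272) (nat_lit 224)) (XT.lf (nat_lit 0) (nat_lit 6398920306) (nat_lit 1292) (nat_lit 774743819) (nat_lit 1368) (nat_lit 818726359) (nat_lit 505) (nat_lit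 5) (nat_lit 522) (nat_lit 5) (nat_lit 523) (nat_lit 5) (nat_lit 285) (nat_lit 272) (nat_lit 223)))) (XT.nd (nat_lit 78) (nat_lit 1292) (nat_lit 0) (XT.lf (nat_lit 0) (nat_lit 817171766) (nat_lit 1368) (nat_lit 2563299332) (nat_lit 1444) (nat_lit 4704918093) (nat_lit 487) (nat_lit 5) (nat_lit 505) (nat_lit 5) (nat_lit 506) (nat_lit 5) (nat_lit 286) (nat_lit 272) (nat_lit 222)) (XT.nd (nat_lit 78) (nat_lit 1368) (nat_lit 0) (XT.lf (nat_lit 0) (nat_lit 3241429341) (nat_lit 1368) (nat_lit 4362411329) (nat_lit 76) (nat_lit 577922478) (nat_lit 488) (nat_lit 5) (nat_lit 506) (nat_lit 5) (nat_lit 489) (nat_lit 5) (nat_lit 287) (nat_lit 272) (nat_lit 221)) (XT.lf (nat_lit 0) (nat_lit 2098426843) (nat_lit 1368) (nat_lit 3624452237) (nat_lit 1444) (nat_lit 2558513212) (nat_lit 470) (nat_lit 5) (nat_lit 488) (nat_lit 5) (nat_lit 489) (nat_lit 5) (nat_lit 288) (nat_lit 272) (nat_lit 220))))) (XT.nd (nat_lit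 234) (nat_lit 4788) (nat_lit 0) (XT.nd (nat_lit 78) (nat_lit 1596) (nat_lit 0) (XT.lf (nat_lit 0) (nat_lit 376166297) (nat_lit 1444) (nat_lit 7870396003) (nat_lit 1520) (nat_lit 138143913) (nat_lit 451) (nat_lit 5) (nat_lit 470) (nat_lit 5) (nat_lit 471) (nat_lit 5) (nat_lit 289) (nat_lit 272) (nat_lit 219)) (XT.nd (nat_lit 78) (nat_lit 1520) (nat_lit 0) (XT.lf (nat_lit 0) (nat_lit 2324006499) (nat_lit 1520) (nat_lit 1368298222) (nat_lit 76) (nat_lit 4798557181) (nat_lit 450) (nat_lit 5) (nat_lit 470) (nat_lit 5) (nat_lit 451) (nat_lit 5) (nat_lit 290) (nat_lit 272) (nat_lit 218)) (XT.lf (nat_lit 0) (nat_lit 4833648387) (nat_lit 1596) (nat_lit 3116192242) (nat_lit 76) (nat_lit 650881075) (nat_lit 430) (nat_lit 5) (nat_lit 451) (nat_lit 5) (nat_lit 431) (nat_lit 5) (nat_lit 291) (nat_lit 272) (nat_lit 217)))) (XT.nd (nat_lit 156) (nat_lit 1444) (nat_lit 0) (XT.nd (nat_lit 78) (nat_lit 1748) (nat_lit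 0) (XT.lf (nat_lit 0) (nat_lit 3819494970) (nat_lit 1596) (nat_lit 3595085900) (nat_lit 1672) (nat_lit 1299422793) (nat_lit 409) (nat_lit 5) (nat_lit 430) (nat_lit 5) (nat_lit 431) (nat_lit 5) (nat_lit 292) (nat_lit 272) (nat_lit 216)) (XT.lf (nat_lit 0) (nat_lit 1205457390) (nat_lit 1748) (nat_lit 6695504986) (nat_lit 76) (nat_lit 930014696) (nat_lit 386) (nat_lit 5) (nat_lit 409) (nat_lit 5) (nat_lit 387) (nat_lit 5) (nat_lit 293) (nat_lit 272) (nat_lit 215))) (XT.nd (nat_lit 78) (nat_lit 0) (nat_lit 0) (XT.lf (nat_lit 0) (nat_lit 410747467) (nat_lit 1444) (nat_lit 3356994592) (nat_lit 1520) (nat_lit 5183590468) (nat_lit 367) (nat_lit 5) (nat_lit 386) (nat_lit 5) (nat_lit 387) (nat_lit 5) (nat_lit 294) (nat_lit 272) (nat_lit 214)) (XT.lf (nat_lit 0) (nat_lit 6402319809) (nat_lit 1520) (nat_lit 1316062584) (nat_lit 76) (nat_lit 1357049382) (nat_lit 367) (nat_lit 5) (nat_lit 387) (nat_lit 5) (nat_lit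 368) (nat_lit 5) (nat_lit 295) (nat_lit 272) (nat_lit 213)))))) (XT.nd (nat_lit 546) (nat_lit 4256) (nat_lit 0) (XT.nd (nat_lit 234) (nat_lit 2432) (nat_lit 0) (XT.nd (nat_lit 78) (nat_lit 1824) (nat_lit 0) (XT.lf (nat_lit 0) (nat_lit 6130118392) (nat_lit 836) (nat_lit 2990942269) (nat_lit 912) (nat_lit 82131233) (nat_lit 356) (nat_lit 5) (nat_lit 367) (nat_lit 5) (nat_lit 368) (nat_lit 5) (nat_lit 296) (nat_lit 272) (nat_lit 212)) (XT.nd (nat_lit 78) (nat_lit 836) (nat_lit 0) (XT.lf (nat_lit 0) (nat_lit 2547038954) (nat_lit 988) (nat_lit 4875490695) (nat_lit 76) (nat_lit 1912070083) (nat_lit 343) (nat_lit 5) (nat_lit 356) (nat_lit 5) (nat_lit 344) (nat_lit 5) (nat_lit 297) (nat_lit 272) (nat_lit 211)) (XT.lf (nat_lit 0) (nat_lit 2751946815) (nat_lit 836) (nat_lit 2505968556) (nat_lit 912) (nat_lit 4211981980) (nat_lit 332) (nat_lit 5) (nat_lit 343) (nat_lit 5) (nat_lit 344) (nat_lit 5) (nat_lit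 298) (nat_lit 272) (nat_lit 210)))) (XT.nd (nat_lit 156) (nat_lit 1520) (nat_lit 0) (XT.nd (nat_lit 78) (nat_lit 76) (nat_lit 0) (XT.lf (nat_lit 0) (nat_lit 1009261665) (nat_lit 836) (nat_lit 7043650828) (nat_lit 912) (nat_lit 1556321772) (nat_lit 321) (nat_lit 5) (nat_lit 332) (nat_lit 5) (nat_lit 333) (nat_lit 5) (nat_lit 299) (nat_lit 272) (nat_lit 209)) (XT.lf (nat_lit 0) (nat_lit 1173342803) (nat_lit 912) (nat_lit 769675355) (nat_lit 76) (nat_lit 7809418587) (nat_lit 320) (nat_lit 5) (nat_lit 332) (nat_lit 5) (nat_lit 321) (nat_lit 5) (nat_lit 300) (nat_lit 272) (nat_lit 208))) (XT.nd (nat_lit 78) (nat_lit 760) (nat_lit 0) (XT.lf (nat_lit 0) (nat_lit 3982088303) (nat_lit 836) (nat_lit 2592271081) (nat_lit 76) (nat_lit 3325036967) (nat_lit 310) (nat_lit 5) (nat_lit 321) (nat_lit 5) (nat_lit 311) (nat_lit 5) (nat_lit 301) (nat_lit 272) (nat_lit 207)) (XT.lf (nat_lit 0) (nat_lit 5594448965) (nat_lit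 760) (nat_lit 1285121934) (nat_lit 836) (nat_lit 3171136881) (nat_lit 300) (nat_lit 5) (nat_lit 310) (nat_lit 5) (nat_lit 311) (nat_lit 5) (nat_lit 302) (nat_lit 272) (nat_lit 206))))) (XT.nd (nat_lit 234) (nat_lit 2052) (nat_lit 0) (XT.nd (nat_lit 78) (nat_lit 1520) (nat_lit 0) (XT.lf (nat_lit 0) (nat_lit 3826941059) (nat_lit 684) (nat_lit 6057614502) (nat_lit 760) (nat_lit 321623017) (nat_lit 291) (nat_lit 5) (nat_lit 300) (nat_lit 5) (nat_lit 301) (nat_lit 5) (nat_lit 303) (nat_lit 272) (nat_lit 205)) (XT.nd (nat_lit 78) (nat_lit 684) (nat_lit 0) (XT.lf (nat_lit 0) (nat_lit 2002448124) (nat_lit 760) (nat_lit 580412279) (nat_lit 836) (nat_lit 7783068621) (nat_lit 280) (nat_lit 5) (nat_lit 290) (nat_lit 5) (nat_lit 291) (nat_lit 5) (nat_lit 304) (nat_lit 272) (nat_lit 204)) (XT.lf (nat_lit 0) (nat_lit 107326285) (nat_lit 684) (nat_lit 5492691946) (nat_lit 760) (nat_lit 4929842226) (nat_lit 271)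 (nat_lit 5) (nat_lit 280) (nat_lit 5) (nat_lit 281) (nat_lit 5) (nat_lit 305) (nat_lit 272) (nat_lit 203)))) (XT.nd (nat_lit 156) (nat_lit 1292) (nat_lit 0) (XT.nd (nat_lit 78) (nat_lit 760) (nat_lit 0) (XT.lf (nat_lit 0) (nat_lit 8723176182) (nat_lit 760) (nat_lit 1807981771) (nat_lit 76) (nat_lit 167270506) (nat_lit 271) (nat_lit 5) (nat_lit 281) (nat_lit 5) (nat_lit 272) (nat_lit 5) (nat_lit 306) (nat_lit 272) (nat_lit 202)) (XT.lf (nat_lit 0) (nat_lit 1091996807) (nat_lit 760) (nat_lit 3808140028) (nat_lit 76) (nat_lit 5971044391) (nat_lit 261) (nat_lit 5) (nat_lit 271) (nat_lit 5) (nat_lit 262) (nat_lit 5) (nat_lit 307) (nat_lit 272) (nat_lit 201))) (XT.nd (nat_lit 78) (nat_lit 684) (nat_lit 0) (XT.lf (nat_lit 0) (nat_lit 4232573292) (nat_lit 684) (nat_lit 5874741683) (nat_lit 76) (nat_lit 941403740) (nat_lit 253) (nat_lit 5) (nat_lit 262) (nat_lit 5) (nat_lit 254) (nat_lit 5) (nat_lit 308)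 (nat_lit 272) (nat_lit 200)) (XT.lf (nat_lit 0) (nat_lit 3205258424) (nat_lit 684) (nat_lit 4298420432) (nat_lit 760) (nat_lit 3727202656) (nat_lit 244) (nat_lit 5) (nat_lit 253) (nat_lit 5) (nat_lit 254) (nat_lit 5) (nat_lit 309) (nat_lit 272) (nat_lit 199))))))) (XT.nd (nat_lit 1014) (nat_lit 4560) (nat_lit 0) (XT.nd (nat_lit 468) (nat_lit 2584) (nat_lit 0) (XT.nd (nat_lit 234) (nat_lit 1748) (nat_lit 0) (XT.nd (nat_lit 78) (nat_lit 684) (nat_lit 0) (XT.lf (nat_lit 0) (nat_lit 1174095026) (nat_lit 608) (nat_lit 9715102106) (nat_lit 684) (nat_lit 529011152) (nat_lit 236) (nat_lit 5) (nat_lit 244) (nat_lit 5) (nat_lit 245) (nat_lit 5) (nat_lit 310) (nat_lit 272) (nat_lit 198)) (XT.nd (nat_lit 78) (nat_lit 608) (nat_lit 0) (XT.lf (nat_lit 0) (nat_lit 2770609285) (nat_lit 684) (nat_lit 947685930) (nat_lit 76) (nat_lit 7891689109) (nat_lit 235) (nat_lit 5) (nat_lit 244) (nat_lit 5) (nat_lit 236) (nat_lit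 5) (nat_lit 311) (nat_lit 272) (nat_lit 197)) (XT.lf (nat_lit 0) (nat_lit 6194268408) (nat_lit 684) (nat_lit 3134152982) (nat_lit 76) (nat_lit 2478400381) (nat_lit 227) (nat_lit 5) (nat_lit 236) (nat_lit 5) (nat_lit 228) (nat_lit 5) (nat_lit 312) (nat_lit 272) (nat_lit 196)))) (XT.nd (nat_lit 78) (nat_lit 1216) (nat_lit 0) (XT.lf (nat_lit 0) (nat_lit 6598068417) (nat_lit 532) (nat_lit 3157027454) (nat_lit 608) (nat_lit 2253801441) (nat_lit 220) (nat_lit 5) (nat_lit 227) (nat_lit 5) (nat_lit 228) (nat_lit 5) (nat_lit 313) (nat_lit 272) (nat_lit 195)) (XT.nd (nat_lit 78) (nat_lit 532) (nat_lit 0) (XT.lf (nat_lit 0) (nat_lit 1222127516) (nat_lit 684) (nat_lit 7787306970) (nat_lit 76) (nat_lit 3206820592) (nat_lit 211) (nat_lit 5) (nat_lit 220) (nat_lit 5) (nat_lit 212) (nat_lit 5) (nat_lit 314) (nat_lit 272) (nat_lit 194)) (XT.lf (nat_lit 0) (nat_lit 2152263954) (nat_lit 532) (nat_lit 2653244916)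 (nat_lit 608) (nat_lit 7623371321) (nat_lit 204) (nat_lit 5) (nat_lit 211) (nat_lit 5) (nat_lit 212) (nat_lit 5) (nat_lit 315) (nat_lit 272) (nat_lit 193))))) (XT.nd (nat_lit 234) (nat_lit 1520) (nat_lit 0) (XT.nd (nat_lit 78) (nat_lit 1064) (nat_lit 0) (XT.lf (nat_lit 0) (nat_lit 8537159128) (nat_lit 608) (nat_lit 224180948) (nat_lit 76) (nat_lit 3885748500) (nat_lit 204) (nat_lit 5) (nat_lit 212) (nat_lit 5) (nat_lit 205) (nat_lit 5) (nat_lit 316) (nat_lit 272) (nat_lit 192)) (XT.nd (nat_lit 78) (nat_lit 532) (nat_lit 0) (XT.lf (nat_lit 0) (nat_lit 10198913812) (nat_lit 532) (nat_lit 2229271388) (nat_lit 608) (nat_lit 442728773) (nat_lit 197) (nat_lit 5) (nat_lit 204) (nat_lit 5) (nat_lit 205) (nat_lit 5) (nat_lit 317) (nat_lit 272) (nat_lit 191)) (XT.lf (nat_lit 0) (nat_lit 3336995652) (nat_lit 532) (nat_lit 5259086190) (nat_lit 76) (nat_lit 4504032851) (nat_lit 190) (nat_lit 5) (nat_lit 197)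 (nat_lit 5) (nat_lit 191) (nat_lit 5) (nat_lit 318) (nat_lit 272) (nat_lit 190)))) (XT.nd (nat_lit 156) (nat_lit 532) (nat_lit 0) (XT.nd (nat_lit 78) (nat_lit 456) (nat_lit 0) (XT.lf (nat_lit 0) (nat_lit 5376150243) (nat_lit 532) (nat_lit 1880676748) (nat_lit 608) (nat_lit 6078669138) (nat_lit 183) (nat_lit 5) (nat_lit 190) (nat_lit 5) (nat_lit 191) (nat_lit 5) (nat_lit 319) (nat_lit 272) (nat_lit 189)) (XT.lf (nat_lit 0) (nat_lit 2782315916) (nat_lit 456) (nat_lit 8563888803) (nat_lit 532) (nat_lit 2230712564) (nat_lit 177) (nat_lit 5) (nat_lit 183) (nat_lit 5) (nat_lit 184) (nat_lit 5) (nat_lit 320) (nat_lit 272) (nat_lit 188))) (XT.nd (nat_lit 78) (nat_lit 0) (nat_lit 0) (XT.lf (nat_lit 0) (nat_lit 61129181) (nat_lit 456) (nat_lit 1681882419) (nat_lit 532) (nat_lit 12081699883) (nat_lit 170) (nat_lit 5) (nat_lit 176) (nat_lit 5) (nat_lit 177) (nat_lit 5) (nat_lit 321) (nat_lit 272) (nat_lit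 187)) (XT.lf (nat_lit 0) (nat_lit 5880960442) (nat_lit 532) (nat_lit 2784714707) (nat_lit 76) (nat_lit 5412479060) (nat_lit 170) (nat_lit 5) (nat_lit 177) (nat_lit 5) (nat_lit 171) (nat_lit 5) (nat_lit 322) (nat_lit 272) (nat_lit 186)))))) (XT.nd (nat_lit 546) (nat_lit 1900) (nat_lit 0) (XT.nd (nat_lit 234) (nat_lit 1292) (nat_lit 0) (XT.nd (nat_lit 78) (nat_lit 912) (nat_lit 0) (XT.lf (nat_lit 0) (nat_lit 8580119002) (nat_lit 456) (nat_lit 1597274017) (nat_lit 532) (nat_lit 4161135819) (nat_lit 164) (nat_lit 5) (nat_lit 170) (nat_lit 5) (nat_lit 171) (nat_lit 5) (nat_lit 323) (nat_lit 272) (nat_lit 185)) (XT.nd (nat_lit 78) (nat_lit 380) (nat_lit 0) (XT.lf (nat_lit 0) (nat_lit 57395203) (nat_lit 532) (nat_lit 8894866505) (nat_lit 76) (nat_lit 5653241515) (nat_lit 157) (nat_lit 5) (nat_lit 164) (nat_lit 5) (nat_lit 158) (nat_lit 5) (nat_lit 324) (nat_lit 272) (nat_lit 184)) (XT.lf (nat_lit 0) (nat_lit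 2674940063) (nat_lit 380) (nat_lit 1707061636) (nat_lit 456) (nat_lit 10497228326) (nat_lit 152) (nat_lit 5) (nat_lit 157) (nat_lit 5) (nat_lit 158) (nat_lit 5) (nat_lit 325) (nat_lit 272) (nat_lit 183)))) (XT.nd (nat_lit 156) (nat_lit 836) (nat_lit 0) (XT.nd (nat_lit 78) (nat_lit 456) (nat_lit 0) (XT.lf (nat_lit 0) (nat_lit 8903347011) (nat_lit 456) (nat_lit 528214410) (nat_lit 76) (nat_lit 5728281128) (nat_lit 152) (nat_lit 5) (nat_lit 158) (nat_lit 5) (nat_lit 153) (nat_lit 5) (nat_lit 326) (nat_lit 272) (nat_lit 182)) (XT.lf (nat_lit 0) (nat_lit 11596016442) (nat_lit 456) (nat_lit 2020883806) (nat_lit 532) (nat_lit 1830855373) (nat_lit 146) (nat_lit 5) (nat_lit 152) (nat_lit 5) (nat_lit 153) (nat_lit 5) (nat_lit 327) (nat_lit 272) (nat_lit 181))) (XT.nd (nat_lit 78) (nat_lit 380) (nat_lit 0) (XT.lf (nat_lit 0) (nat_lit 2757018058) (nat_lit 456) (nat_lit 7383399332) (nat_lit 76) (nat_lit 5602242659)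 (nat_lit 140) (nat_lit 5) (nat_lit 146) (nat_lit 5) (nat_lit 141) (nat_lit 5) (nat_lit 328) (nat_lit 272) (nat_lit 180)) (XT.lf (nat_lit 0) (nat_lit 4939949158) (nat_lit 380) (nat_lit 2560478623) (nat_lit 456) (nat_lit 8544898802) (nat_lit 135) (nat_lit 5) (nat_lit 140) (nat_lit 5) (nat_lit 141) (nat_lit 5) (nat_lit 329) (nat_lit 272) (nat_lit 179))))) (XT.nd (nat_lit 234) (nat_lit 1064) (nat_lit 0) (XT.nd (nat_lit 78) (nat_lit 456) (nat_lit 0) (XT.lf (nat_lit 0) (nat_lit 1318742722) (nat_lit 380) (nat_lit 11131656468) (nat_lit 456) (nat_lit 3905400869) (nat_lit 130) (nat_lit 5) (nat_lit 135) (nat_lit 5) (nat_lit 136) (nat_lit 5) (nat_lit 330) (nat_lit 272) (nat_lit 178)) (XT.nd (nat_lit 78) (nat_lit 380) (nat_lit 0) (XT.lf (nat_lit 0) (nat_lit 926340809) (nat_lit 456) (nat_lit 2471626259) (nat_lit 76) (nat_lit 13276228581) (nat_lit 129) (nat_lit 5) (nat_lit 135) (nat_lit 5) (nat_lit 130) (nat_lit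 5) (nat_lit 331) (nat_lit 272) (nat_lit 177)) (XT.lf (nat_lit 0) (nat_lit 5921386775) (nat_lit 456) (nat_lit 6488729134) (nat_lit 76) (nat_lit 4590093895) (nat_lit 124) (nat_lit 5) (nat_lit 130) (nat_lit 5) (nat_lit 125) (nat_lit 5) (nat_lit 332) (nat_lit 272) (nat_lit 176)))) (XT.nd (nat_lit 156) (nat_lit 380) (nat_lit 0) (XT.nd (nat_lit 78) (nat_lit 380) (nat_lit 0) (XT.lf (nat_lit 0) (nat_lit 6605603228) (nat_lit 304) (nat_lit 4516073442) (nat_lit 380) (nat_lit 6213230750) (nat_lit 120) (nat_lit 5) (nat_lit 124) (nat_lit 5) (nat_lit 125) (nat_lit 5) (nat_lit 333) (nat_lit 272) (nat_lit 175)) (XT.lf (nat_lit 0) (nat_lit 2471228797) (nat_lit 380) (nat_lit 14063887716) (nat_lit 456) (nat_lit 1143397195) (nat_lit 115) (nat_lit 5) (nat_lit 120) (nat_lit 5) (nat_lit 121) (nat_lit 5) (nat_lit 334) (nat_lit 272) (nat_lit 174))) (XT.nd (nat_lit 78) (nat_lit 304) (nat_lit 0) (XT.lf (nat_lit 0) (nat_lit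 4102129889) (nat_lit 456) (nat_lit 1913440375) (nat_lit 76) (nat_lit 12014796588) (nat_lit 114) (nat_lit 5) (nat_lit 120) (nat_lit 5) (nat_lit 115) (nat_lit 5) (nat_lit 335) (nat_lit 272) (nat_lit 173)) (XT.lf (nat_lit 0) (nat_lit 9556475401) (nat_lit 380) (nat_lit 6518126985) (nat_lit 76) (nat_lit 2316692075) (nat_lit 110) (nat_lit 5) (nat_lit 115) (nat_lit 5) (nat_lit 111) (nat_lit 5) (nat_lit 336) (nat_lit 272) (nat_lit 172))))))))
noncomputable def xc73 : XT := (XT.nd (nat_lit 35802) (nat_lit 0) (nat_lit 19836) (XT.nd (nat_lit 1014) (nat_lit 1900) (nat_lit 0) (XT.nd (nat_lit 468) (nat_lit 1140) (nat_lit 0) (XT.nd (nat_lit 234) (nat_lit 912) (nat_lit 0) (XT.nd (nat_lit 78) (nat_lit 380) (nat_lit 0) (XT.lf (nat_lit 0) (nat_lit 7354335363) (nat_lit 304) (nat_lit 7896024197) (nat_lit 380) (nat_lit 3511181655) (nat_lit 106) (nat_lit 5) (nat_lit 110) (nat_lit 5) (nat_lit 111) (nat_lit 5) (nat_lit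 337) (nat_lit 272) (nat_lit 171)) (XT.nd (nat_lit 78) (nat_lit 0) (nat_lit 0) (XT.lf (nat_lit 0) (nat_lit 1986484809) (nat_lit 380) (nat_lit 16573218939) (nat_lit 76) (nat_lit 582140853) (nat_lit 101) (nat_lit 5) (nat_lit 106) (nat_lit 5) (nat_lit 102) (nat_lit 5) (nat_lit 338) (nat_lit 272) (nat_lit 170)) (XT.lf (nat_lit 0) (nat_lit 7707847732) (nat_lit 380) (nat_lit 2527010572) (nat_lit 76) (nat_lit 9296113979) (nat_lit 101) (nat_lit 5) (nat_lit 106) (nat_lit 5) (nat_lit 102) (nat_lit 5) (nat_lit 339) (nat_lit 272) (nat_lit 169)))) (XT.nd (nat_lit 78) (nat_lit 608) (nat_lit 0) (XT.lf (nat_lit 0) (nat_lit 12061807635) (nat_lit 304) (nat_lit 1593651124) (nat_lit 380) (nat_lit 6275231399) (nat_lit 97) (nat_lit 5) (nat_lit 101) (nat_lit 5) (nat_lit 102) (nat_lit 5) (nat_lit 340) (nat_lit 272) (nat_lit 168)) (XT.nd (nat_lit 78) (nat_lit 380) (nat_lit 0) (XT.lf (nat_lit 0) (nat_lit 6785505058) (nat_lit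 228) (nat_lit 13081389950) (nat_lit 304) (nat_lit 473804882) (nat_lit 94) (nat_lit 5) (nat_lit 97) (nat_lit 5) (nat_lit 98) (nat_lit 5) (nat_lit 341) (nat_lit 272) (nat_lit 167)) (XT.lf (nat_lit 0) (nat_lit 1157262584) (nat_lit 304) (nat_lit 4321041395) (nat_lit 380) (nat_lit 15283023493) (nat_lit 89) (nat_lit 5) (nat_lit 93) (nat_lit 5) (nat_lit 94) (nat_lit 5) (nat_lit 342) (nat_lit 272) (nat_lit 166))))) (XT.nd (nat_lit 234) (nat_lit 532) (nat_lit 0) (XT.nd (nat_lit 78) (nat_lit 608) (nat_lit 0) (XT.lf (nat_lit 0) (nat_lit 11702868305) (nat_lit 380) (nat_lit 4766660892) (nat_lit 76) (nat_lit 4722983093) (nat_lit 89) (nat_lit 5) (nat_lit 94) (nat_lit 5) (nat_lit 90) (nat_lit 5) (nat_lit 343) (nat_lit 272) (nat_lit 165)) (XT.nd (nat_lit 78) (nat_lit 380) (nat_lit 0) (XT.lf (nat_lit 0) (nat_lit 10590665677) (nat_lit 228) (nat_lit 7599124171) (nat_lit 304) (nat_lit 3445337810) (nat_lit 86) (nat_lit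 5) (nat_lit 89) (nat_lit 5) (nat_lit 90) (nat_lit 5) (nat_lit 344) (nat_lit 272) (nat_lit 164)) (XT.lf (nat_lit 0) (nat_lit 2793485780) (nat_lit 380) (nat_lit 17712362818) (nat_lit 76) (nat_lit 1583825865) (nat_lit 81) (nat_lit 5) (nat_lit 86) (nat_lit 5) (nat_lit 82) (nat_lit 5) (nat_lit 345) (nat_lit 272) (nat_lit 163)))) (XT.nd (nat_lit 156) (nat_lit 304) (nat_lit 0) (XT.nd (nat_lit 78) (nat_lit 228) (nat_lit 0) (XT.lf (nat_lit 0) (nat_lit 9277642700) (nat_lit 380) (nat_lit 2252508488) (nat_lit 76) (nat_lit 11025158316) (nat_lit 81) (nat_lit 5) (nat_lit 86) (nat_lit 5) (nat_lit 82) (nat_lit 5) (nat_lit 346) (nat_lit 272) (nat_lit 162)) (XT.lf (nat_lit 0) (nat_lit 13818677264) (nat_lit 228) (nat_lit 2206547009) (nat_lit 304) (nat_lit 7008317972) (nat_lit 78) (nat_lit 5) (nat_lit 81) (nat_lit 5) (nat_lit 82) (nat_lit 5) (nat_lit 347) (nat_lit 272) (nat_lit 161))) (XT.nd (nat_lit 78) (nat_lit 76)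 (nat_lit 0) (XT.lf (nat_lit 0) (nat_lit 6885711790) (nat_lit 228) (nat_lit 16177106098) (nat_lit 304) (nat_lit 461558845) (nat_lit 75) (nat_lit 5) (nat_lit 78) (nat_lit 5) (nat_lit 79) (nat_lit 5) (nat_lit 348) (nat_lit 272) (nat_lit 160)) (XT.lf (nat_lit 0) (nat_lit 6256563773) (nat_lit 304) (nat_lit 522417623) (nat_lit 76) (nat_lit 17248998414) (nat_lit 74) (nat_lit 5) (nat_lit 78) (nat_lit 5) (nat_lit 75) (nat_lit 5) (nat_lit 349) (nat_lit 272) (nat_lit 159)))))) (XT.nd (nat_lit 546) (nat_lit 684) (nat_lit 0) (XT.nd (nat_lit 234) (nat_lit 456) (nat_lit 0) (XT.nd (nat_lit 78) (nat_lit 532) (nat_lit 0) (XT.lf (nat_lit 0) (nat_lit 13275330790) (nat_lit 304) (nat_lit 8309220671) (nat_lit 76) (nat_lit 2959977038) (nat_lit 71) (nat_lit 5) (nat_lit 75) (nat_lit 5) (nat_lit 72) (nat_lit 5) (nat_lit 350) (nat_lit 272) (nat_lit 158)) (XT.nd (nat_lit 78) (nat_lit 304) (nat_lit 0) (XT.lf (nat_lit 0) (nat_lit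 8459972395) (nat_lit 228) (nat_lit 12129123125) (nat_lit 304) (nat_lit 4485795226) (nat_lit 68) (nat_lit 5) (nat_lit 71) (nat_lit 5) (nat_lit 72) (nat_lit 5) (nat_lit 351) (nat_lit 272) (nat_lit 157)) (XT.lf (nat_lit 0) (nat_lit 179911561) (nat_lit 228) (nat_lit 2327080116) (nat_lit 304) (nat_lit 23113079222) (nat_lit 64) (nat_lit 5) (nat_lit 67) (nat_lit 5) (nat_lit 68) (nat_lit 5) (nat_lit 352) (nat_lit 272) (nat_lit 156)))) (XT.nd (nat_lit 156) (nat_lit 228) (nat_lit 0) (XT.nd (nat_lit 78) (nat_lit 228) (nat_lit 0) (XT.lf (nat_lit 0) (nat_lit 9793852651) (nat_lit 304) (nat_lit 8586089241) (nat_lit 76) (nat_lit 7798172198) (nat_lit 64) (nat_lit 5) (nat_lit 68) (nat_lit 5) (nat_lit 65) (nat_lit 5) (nat_lit 353) (nat_lit 272) (nat_lit 155)) (XT.lf (nat_lit 0) (nat_lit 8843379797) (nat_lit 228) (nat_lit 8510581316) (nat_lit 304) (nat_lit 9397849829) (nat_lit 61) (nat_lit 5) (nat_lit 64) (nat_lit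 5) (nat_lit 65) (nat_lit 5) (nat_lit 354) (nat_lit 272) (nat_lit 154))) (XT.nd (nat_lit 78) (nat_lit 228) (nat_lit 0) (XT.lf (nat_lit 0) (nat_lit 25192106507) (nat_lit 304) (nat_lit 469856638) (nat_lit 76) (nat_lit 1679735924) (nat_lit 61) (nat_lit 5) (nat_lit 65) (nat_lit 5) (nat_lit 62) (nat_lit 5) (nat_lit 355) (nat_lit 272) (nat_lit 153)) (XT.lf (nat_lit 0) (nat_lit 5401276586) (nat_lit 228) (nat_lit 10345022229) (nat_lit 76) (nat_lit 12199201795) (nat_lit 58) (nat_lit 5) (nat_lit 61) (nat_lit 5) (nat_lit 59) (nat_lit 5) (nat_lit 356) (nat_lit 272) (nat_lit 152))))) (XT.nd (nat_lit 234) (nat_lit 304) (nat_lit 0) (XT.nd (nat_lit 78) (nat_lit 152) (nat_lit 0) (XT.lf (nat_lit 0) (nat_lit 7709414452) (nat_lit 228) (nat_lit 5476131020) (nat_lit 304) (nat_lit 15380869646) (nat_lit 55) (nat_lit 5) (nat_lit 58) (nat_lit 5) (nat_lit 59) (nat_lit 5) (nat_lit 357) (nat_lit 272) (nat_lit 151)) (XT.nd (nat_lit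 78) (nat_lit 152) (nat_lit 0) (XT.lf (nat_lit 0) (nat_lit 21289927933) (nat_lit 304) (nat_lit 2820152329) (nat_lit 76) (nat_lit 5094149616) (nat_lit 55) (nat_lit 5) (nat_lit 59) (nat_lit 5) (nat_lit 56) (nat_lit 5) (nat_lit 358) (nat_lit 272) (nat_lit 150)) (XT.lf (nat_lit 0) (nat_lit 15901483300) (nat_lit 152) (nat_lit 13859214737) (nat_lit 228) (nat_lit 98020315) (nat_lit 53) (nat_lit 5) (nat_lit 55) (nat_lit 5) (nat_lit 56) (nat_lit 5) (nat_lit 359) (nat_lit 272) (nat_lit 149)))) (XT.nd (nat_lit 33852) (nat_lit 0) (nat_lit 37848) (XT.nd (nat_lit 78) (nat_lit 0) (nat_lit 0) (XT.lf (nat_lit 0) (nat_lit 4672418205) (nat_lit 228) (nat_lit 3209186048) (nat_lit 304) (nat_lit 22649545596) (nat_lit 49) (nat_lit 5) (nat_lit 52) (nat_lit 5) (nat_lit 53) (nat_lit 5) (nat_lit 360) (nat_lit 272) (nat_lit 148)) (XT.lf (nat_lit 0) (nat_lit 16228691682) (nat_lit 304) (nat_lit 7249329385) (nat_lit 76) (nat_lit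 7743136208) (nat_lit 49) (nat_lit 5) (nat_lit 53) (nat_lit 5) (nat_lit 50) (nat_lit 5) (nat_lit 361) (nat_lit 272) (nat_lit 147))) (XT.nd (nat_lit 78) (nat_lit 0) (nat_lit 0) (XT.lf (nat_lit 0) (nat_lit 925192892) (nat_lit 1140) (nat_lit 1330702709) (nat_lit 1140) (nat_lit 1330702709) (nat_lit 547) (nat_lit 3) (nat_lit 562) (nat_lit 3) (nat_lit 562) (nat_lit 5) (nat_lit 273) (nat_lit 273) (nat_lit 234)) (XT.lf (nat_lit 76) (nat_lit 2369704054) (nat_lit 0) (nat_lit 1908523818) (nat_lit 1140) (nat_lit 2952459023) (nat_lit 548) (nat_lit 5) (nat_lit 547) (nat_lit 3) (nat_lit 562) (nat_lit 5) (nat_lit 274) (nat_lit 273) (nat_lit 233))))))) (XT.nd (nat_lit 1092) (nat_lit 13376) (nat_lit 0) (XT.nd (nat_lit 546) (nat_lit 2432) (nat_lit 0) (XT.nd (nat_lit 234) (nat_lit 1140) (nat_lit 0) (XT.nd (nat_lit 78) (nat_lit 1140) (nat_lit 0) (XT.lf (nat_lit 76) (nat_lit 246348273) (nat_lit 0) (nat_lit 6464241180)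 (nat_lit 1140) (nat_lit 580760928) (nat_lit 549) (nat_lit 5) (nat_lit 548) (nat_lit 5) (nat_lit 563) (nat_lit 5) (nat_lit 275) (nat_lit 273) (nat_lit 232)) (XT.nd (nat_lit 78) (nat_lit 0) (nat_lit 0) (XT.lf (nat_lit 0) (nat_lit 1792210424) (nat_lit 1140) (nat_lit 1855664929) (nat_lit 1216) (nat_lit 3706703972) (nat_lit 533) (nat_lit 5) (nat_lit 548) (nat_lit 5) (nat_lit 549) (nat_lit 5) (nat_lit 276) (nat_lit 273) (nat_lit 231)) (XT.lf (nat_lit 76) (nat_lit 3481757707) (nat_lit 0) (nat_lit 680658361) (nat_lit 1216) (nat_lit 3258609537) (nat_lit 534) (nat_lit 5) (nat_lit 533) (nat_lit 5) (nat_lit 549) (nat_lit 5) (nat_lit 277) (nat_lit 273) (nat_lit 230)))) (XT.nd (nat_lit 156) (nat_lit 0) (nat_lit 76) (XT.nd (nat_lit 78) (nat_lit 1216) (nat_lit 0) (XT.lf (nat_lit 76) (nat_lit 1468621769) (nat_lit 0) (nat_lit 5086522064) (nat_lit 1216) (nat_lit 935366863) (nat_lit 535) (nat_lit 5) (nat_lit 534)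 (nat_lit 5) (nat_lit 550) (nat_lit 5) (nat_lit 278) (nat_lit 273) (nat_lit 229)) (XT.lf (nat_lit 0) (nat_lit 1385238485) (nat_lit 1216) (nat_lit 534065181) (nat_lit 1292) (nat_lit 5643721955) (nat_lit 518) (nat_lit 5) (nat_lit 534) (nat_lit 5) (nat_lit 535) (nat_lit 5) (nat_lit 279) (nat_lit 273) (nat_lit 228))) (XT.nd (nat_lit 78) (nat_lit 0) (nat_lit 0) (XT.lf (nat_lit 0) (nat_lit 3723151126) (nat_lit 1216) (nat_lit 2517922643) (nat_lit 1292) (nat_lit 1397378773) (nat_lit 519) (nat_lit 5) (nat_lit 535) (nat_lit 5) (nat_lit 536) (nat_lit 5) (nat_lit 280) (nat_lit 273) (nat_lit 227)) (XT.lf (nat_lit 76) (nat_lit 3214726474) (nat_lit 0) (nat_lit 2873930651) (nat_lit 1292) (nat_lit 1628402184) (nat_lit 520) (nat_lit 5) (nat_lit 519) (nat_lit 5) (nat_lit 536) (nat_lit 5) (nat_lit 281) (nat_lit 273) (nat_lit 226))))) (XT.nd (nat_lit 234) (nat_lit 1292) (nat_lit 0) (XT.nd (nat_lit 78) (nat_lit 0) (nat_lit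 0) (XT.lf (nat_lit 0) (nat_lit 669068070) (nat_lit 1292) (nat_lit 6485565110) (nat_lit 1368) (nat_lit 644329652) (nat_lit 503) (nat_lit 5) (nat_lit 520) (nat_lit 5) (nat_lit 521) (nat_lit 5) (nat_lit 282) (nat_lit 273) (nat_lit 225)) (XT.nd (nat_lit 78) (nat_lit 0) (nat_lit 76) (XT.lf (nat_lit 0) (nat_lit 2987058340) (nat_lit 1292) (nat_lit 599598093) (nat_lit 1368) (nat_lit 4297038503) (nat_lit 503) (nat_lit 5) (nat_lit 520) (nat_lit 5) (nat_lit 521) (nat_lit 5) (nat_lit 283) (nat_lit 273) (nat_lit 224)) (XT.lf (nat_lit 0) (nat_lit 5337048339) (nat_lit 1292) (nat_lit 2488177058) (nat_lit 1368) (nat_lit 146553763) (nat_lit 504) (nat_lit 5) (nat_lit 521) (nat_lit 5) (nat_lit 522) (nat_lit 5) (nat_lit 284) (nat_lit 273) (nat_lit 223)))) (XT.nd (nat_lit 156) (nat_lit 0) (nat_lit 76) (XT.nd (nat_lit 78) (nat_lit 1368) (nat_lit 0) (XT.lf (nat_lit 76) (nat_lit 3668046744) (nat_lit 0) (nat_lit 4069253938)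 (nat_lit 1368) (nat_lit 325667606) (nat_lit 505) (nat_lit 5) (nat_lit 504) (nat_lit 5) (nat_lit 522) (nat_lit 5) (nat_lit 285) (nat_lit 273) (nat_lit 222)) (XT.lf (nat_lit 76) (nat_lit 1845934602) (nat_lit 0) (nat_lit 137893991) (nat_lit 1444) (nat_lit 6173691161) (nat_lit 487) (nat_lit 5) (nat_lit 486) (nat_lit 5) (nat_lit 505) (nat_lit 5) (nat_lit 286) (nat_lit 273) (nat_lit 221))) (XT.nd (nat_lit 78) (nat_lit 0) (nat_lit 0) (XT.lf (nat_lit 76) (nat_lit 71839) (nat_lit 0) (nat_lit 4344495787) (nat_lit 1444) (nat_lit 3910622691) (nat_lit 488) (nat_lit 5) (nat_lit 487) (nat_lit 5) (nat_lit 506) (nat_lit 5) (nat_lit 287) (nat_lit 273) (nat_lit 220)) (XT.lf (nat_lit 76) (nat_lit 6535360862) (nat_lit 0) (nat_lit 217114041) (nat_lit 1444) (nat_lit 1603840876) (nat_lit 488) (nat_lit 5) (nat_lit 487) (nat_lit 5) (nat_lit 506) (nat_lit 5) (nat_lit 288) (nat_lit 273) (nat_lit 219)))))) (XT.nd (nat_lit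 546) (nat_lit 4332) (nat_lit 0) (XT.nd (nat_lit 234) (nat_lit 4788) (nat_lit 0) (XT.nd (nat_lit 78) (nat_lit 2964) (nat_lit 0) (XT.lf (nat_lit 0) (nat_lit 753942280) (nat_lit 1444) (nat_lit 3673904991) (nat_lit 76) (nat_lit 4032738189) (nat_lit 469) (nat_lit 5) (nat_lit 488) (nat_lit 5) (nat_lit 470) (nat_lit 5) (nat_lit 289) (nat_lit 273) (nat_lit 218)) (XT.nd (nat_lit 78) (nat_lit 1520) (nat_lit 0) (XT.lf (nat_lit 0) (nat_lit 3025943458) (nat_lit 1444) (nat_lit 104197726) (nat_lit 1520) (nat_lit 5438288359) (nat_lit 450) (nat_lit 5) (nat_lit 469) (nat_lit 5) (nat_lit 470) (nat_lit 5) (nat_lit 290) (nat_lit 273) (nat_lit 217)) (XT.lf (nat_lit 0) (nat_lit 1234083416) (nat_lit 1520) (nat_lit 4342303104) (nat_lit 1596) (nat_lit 3103193606) (nat_lit 430) (nat_lit 5) (nat_lit 450) (nat_lit 5) (nat_lit 451) (nat_lit 5) (nat_lit 291) (nat_lit 273) (nat_lit 216)))) (XT.nd (nat_lit 156) (nat_lit 3116)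 (nat_lit 0) (XT.nd (nat_lit 78) (nat_lit 1672) (nat_lit 0) (XT.lf (nat_lit 0) (nat_lit 8074281352) (nat_lit 1596) (nat_lit 557452019) (nat_lit 76) (nat_lit 162811654) (nat_lit 430) (nat_lit 5) (nat_lit 451) (nat_lit 5) (nat_lit 431) (nat_lit 5) (nat_lit 292) (nat_lit 273) (nat_lit 215)) (XT.lf (nat_lit 0) (nat_lit 1723754380) (nat_lit 1672) (nat_lit 2380820380) (nat_lit 76) (nat_lit 4807954914) (nat_lit 408) (nat_lit 5) (nat_lit 430) (nat_lit 5) (nat_lit 409) (nat_lit 5) (nat_lit 293) (nat_lit 273) (nat_lit 214))) (XT.nd (nat_lit 78) (nat_lit 1444) (nat_lit 0) (XT.lf (nat_lit 0) (nat_lit 4212124122) (nat_lit 1748) (nat_lit 4223625810) (nat_lit 76) (nat_lit 598633998) (nat_lit 386) (nat_lit 5) (nat_lit 409) (nat_lit 5) (nat_lit 387) (nat_lit 5) (nat_lit 294) (nat_lit 273) (nat_lit 213)) (XT.lf (nat_lit 0) (nat_lit 3052452115) (nat_lit 1444) (nat_lit 3729377405) (nat_lit 1520) (nat_lit 2377971011)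 (nat_lit 367) (nat_lit 5) (nat_lit 386) (nat_lit 5) (nat_lit 387) (nat_lit 5) (nat_lit 295) (nat_lit 273) (nat_lit 212))))) (XT.nd (nat_lit 234) (nat_lit 2508) (nat_lit 0) (XT.nd (nat_lit 78) (nat_lit 912) (nat_lit 0) (XT.lf (nat_lit 0) (nat_lit 126583506) (nat_lit 912) (nat_lit 8016076704) (nat_lit 76) (nat_lit 1146564378) (nat_lit 355) (nat_lit 5) (nat_lit 367) (nat_lit 5) (nat_lit 356) (nat_lit 5) (nat_lit 296) (nat_lit 273) (nat_lit 211)) (XT.nd (nat_lit 78) (nat_lit 912) (nat_lit 0) (XT.lf (nat_lit 0) (nat_lit 2686180188) (nat_lit 912) (nat_lit 555570850) (nat_lit 76) (nat_lit 6180259045) (nat_lit 355) (nat_lit 5) (nat_lit 367) (nat_lit 5) (nat_lit 356) (nat_lit 5) (nat_lit 297) (nat_lit 273) (nat_lit 210)) (XT.lf (nat_lit 0) (nat_lit 5328210106) (nat_lit 988) (nat_lit 2398085350) (nat_lit 76) (nat_lit 1832407034) (nat_lit 343) (nat_lit 5) (nat_lit 356) (nat_lit 5) (nat_lit 344) (nat_lit 5)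 (nat_lit 298) (nat_lit 273) (nat_lit 209)))) (XT.nd (nat_lit 156) (nat_lit 760) (nat_lit 0) (XT.nd (nat_lit 78) (nat_lit 912) (nat_lit 0) (XT.lf (nat_lit 0) (nat_lit 5415609355) (nat_lit 836) (nat_lit 2642782284) (nat_lit 912) (nat_lit 1640961415) (nat_lit 332) (nat_lit 5) (nat_lit 343) (nat_lit 5) (nat_lit 344) (nat_lit 5) (nat_lit 299) (nat_lit 273) (nat_lit 208)) (XT.lf (nat_lit 0) (nat_lit 1019040021) (nat_lit 912) (nat_lit 6217920078) (nat_lit 76) (nat_lit 2607038395) (nat_lit 320) (nat_lit 5) (nat_lit 332) (nat_lit 5) (nat_lit 321) (nat_lit 5) (nat_lit 300) (nat_lit 273) (nat_lit 207))) (XT.nd (nat_lit 78) (nat_lit 0) (nat_lit 0) (XT.lf (nat_lit 0) (nat_lit 1783679984) (nat_lit 760) (nat_lit 1961713513) (nat_lit 836) (nat_lit 6247228468) (nat_lit 310) (nat_lit 5) (nat_lit 320) (nat_lit 5) (nat_lit 321) (nat_lit 5) (nat_lit 301) (nat_lit 273) (nat_lit 206)) (XT.lf (nat_lit 0) (nat_lit 6569859294)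 (nat_lit 836) (nat_lit 107726968) (nat_lit 76) (nat_lit 3467823023) (nat_lit 310) (nat_lit 5) (nat_lit 321) (nat_lit 5) (nat_lit 311) (nat_lit 5) (nat_lit 302) (nat_lit 273) (nat_lit 205))))))))
noncomputable def xc74 : XT := (XT.nd (nat_lit 2106) (nat_lit 6156) (nat_lit 0) (XT.nd (nat_lit 1014) (nat_lit 5396) (nat_lit 0) (XT.nd (nat_lit 468) (nat_lit 3800) (nat_lit 0) (XT.nd (nat_lit 234) (nat_lit 1444) (nat_lit 0) (XT.nd (nat_lit 78) (nat_lit 1520) (nat_lit 0) (XT.lf (nat_lit 0) (nat_lit 8283024208) (nat_lit 760) (nat_lit 1215716011) (nat_lit 836) (nat_lit 803677042) (nat_lit 300) (nat_lit 5) (nat_lit 310) (nat_lit 5) (nat_lit 311) (nat_lit 5) (nat_lit 303) (nat_lit 273) (nat_lit 204)) (XT.nd (nat_lit 78) (nat_lit 760) (nat_lit 0) (XT.lf (nat_lit 0) (nat_lit 2049792456) (nat_lit 760) (nat_lit 4007237523) (nat_lit 76) (nat_lit 4406361424) (nat_lit 290) (nat_lit 5) (nat_lit 300) (nat_lit 5) (nat_lit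 291) (nat_lit 5) (nat_lit 304) (nat_lit 273) (nat_lit 203)) (XT.lf (nat_lit 0) (nat_lit 4582195001) (nat_lit 760) (nat_lit 402005242) (nat_lit 836) (nat_lit 5644791551) (nat_lit 280) (nat_lit 5) (nat_lit 290) (nat_lit 5) (nat_lit 291) (nat_lit 5) (nat_lit 305) (nat_lit 273) (nat_lit 202)))) (XT.nd (nat_lit 78) (nat_lit 760) (nat_lit 0) (XT.lf (nat_lit 0) (nat_lit 2635227771) (nat_lit 684) (nat_lit 5406586234) (nat_lit 760) (nat_lit 2757070225) (nat_lit 271) (nat_lit 5) (nat_lit 280) (nat_lit 5) (nat_lit 281) (nat_lit 5) (nat_lit 306) (nat_lit 273) (nat_lit 201)) (XT.nd (nat_lit 78) (nat_lit 0) (nat_lit 0) (XT.lf (nat_lit 0) (nat_lit 221481668) (nat_lit 760) (nat_lit 10333955019) (nat_lit 76) (nat_lit 418293748) (nat_lit 261) (nat_lit 5) (nat_lit 271) (nat_lit 5) (nat_lit 262) (nat_lit 5) (nat_lit 307) (nat_lit 273) (nat_lit 200)) (XT.lf (nat_lit 0) (nat_lit 3301107335) (nat_lit 760) (nat_lit 1437578438)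 (nat_lit 76) (nat_lit 6413813689) (nat_lit 261) (nat_lit 5) (nat_lit 271) (nat_lit 5) (nat_lit 262) (nat_lit 5) (nat_lit 308) (nat_lit 273) (nat_lit 199))))) (XT.nd (nat_lit 234) (nat_lit 1824) (nat_lit 0) (XT.nd (nat_lit 78) (nat_lit 1368) (nat_lit 0) (XT.lf (nat_lit 0) (nat_lit 6490433003) (nat_lit 684) (nat_lit 3564711365) (nat_lit 76) (nat_lit 1281165648) (nat_lit 253) (nat_lit 5) (nat_lit 262) (nat_lit 5) (nat_lit 254) (nat_lit 5) (nat_lit 309) (nat_lit 273) (nat_lit 198)) (XT.nd (nat_lit 78) (nat_lit 684) (nat_lit 0) (XT.lf (nat_lit 0) (nat_lit 5747351926) (nat_lit 684) (nat_lit 4066135906) (nat_lit 760) (nat_lit 1711410028) (nat_lit 244) (nat_lit 5) (nat_lit 253) (nat_lit 5) (nat_lit 254) (nat_lit 5) (nat_lit 310) (nat_lit 273) (nat_lit 197)) (XT.lf (nat_lit 0) (nat_lit 1519092451) (nat_lit 684) (nat_lit 8073247272) (nat_lit 76) (nat_lit 2126191456) (nat_lit 235) (nat_lit 5) (nat_lit 244)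 (nat_lit 5) (nat_lit 236) (nat_lit 5) (nat_lit 311) (nat_lit 273) (nat_lit 196)))) (XT.nd (nat_lit 156) (nat_lit 1216) (nat_lit 0) (XT.nd (nat_lit 78) (nat_lit 0) (nat_lit 0) (XT.lf (nat_lit 0) (nat_lit 1445414786) (nat_lit 608) (nat_lit 3414617485) (nat_lit 684) (nat_lit 7057001650) (nat_lit 227) (nat_lit 5) (nat_lit 235) (nat_lit 5) (nat_lit 236) (nat_lit 5) (nat_lit 312) (nat_lit 273) (nat_lit 195)) (XT.lf (nat_lit 0) (nat_lit 8336858578) (nat_lit 684) (nat_lit 827067587) (nat_lit 76) (nat_lit 2956873910) (nat_lit 227) (nat_lit 5) (nat_lit 236) (nat_lit 5) (nat_lit 228) (nat_lit 5) (nat_lit 313) (nat_lit 273) (nat_lit 194))) (XT.nd (nat_lit 78) (nat_lit 684) (nat_lit 0) (XT.lf (nat_lit 0) (nat_lit 9158165297) (nat_lit 532) (nat_lit 2804689173) (nat_lit 608) (nat_lit 366948321) (nat_lit 220) (nat_lit 5) (nat_lit 227) (nat_lit 5) (nat_lit 228) (nat_lit 5) (nat_lit 314) (nat_lit 273) (nat_lit 193))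 (XT.lf (nat_lit 0) (nat_lit 3149704541) (nat_lit 684) (nat_lit 5635089563) (nat_lit 76) (nat_lit 3759122058) (nat_lit 211) (nat_lit 5) (nat_lit 220) (nat_lit 5) (nat_lit 212) (nat_lit 5) (nat_lit 315) (nat_lit 273) (nat_lit 192)))))) (XT.nd (nat_lit 546) (nat_lit 2280) (nat_lit 0) (XT.nd (nat_lit 234) (nat_lit 1976) (nat_lit 0) (XT.nd (nat_lit 78) (nat_lit 608) (nat_lit 0) (XT.lf (nat_lit 0) (nat_lit 4563961125) (nat_lit 532) (nat_lit 2236790189) (nat_lit 608) (nat_lit 5962994802) (nat_lit 204) (nat_lit 5) (nat_lit 211) (nat_lit 5) (nat_lit 212) (nat_lit 5) (nat_lit 316) (nat_lit 273) (nat_lit 191)) (XT.nd (nat_lit 78) (nat_lit 76) (nat_lit 0) (XT.lf (nat_lit 0) (nat_lit 2109290388) (nat_lit 532) (nat_lit 8497967626) (nat_lit 608) (nat_lit 2382013112) (nat_lit 197) (nat_lit 5) (nat_lit 204) (nat_lit 5) (nat_lit 205) (nat_lit 5) (nat_lit 317) (nat_lit 273) (nat_lit 190)) (XT.lf (nat_lit 0) (nat_lit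 1325178174) (nat_lit 608) (nat_lit 449688269) (nat_lit 76) (nat_lit 11445825350) (nat_lit 196) (nat_lit 5) (nat_lit 204) (nat_lit 5) (nat_lit 197) (nat_lit 5) (nat_lit 318) (nat_lit 273) (nat_lit 189)))) (XT.nd (nat_lit 156) (nat_lit 988) (nat_lit 0) (XT.nd (nat_lit 78) (nat_lit 532) (nat_lit 0) (XT.lf (nat_lit 0) (nat_lit 5178698554) (nat_lit 532) (nat_lit 3122414566) (nat_lit 76) (nat_lit 5156294853) (nat_lit 190) (nat_lit 5) (nat_lit 197) (nat_lit 5) (nat_lit 191) (nat_lit 5) (nat_lit 319) (nat_lit 273) (nat_lit 188)) (XT.lf (nat_lit 0) (nat_lit 7794654328) (nat_lit 532) (nat_lit 1385399861) (nat_lit 608) (nat_lit 4520543657) (nat_lit 183) (nat_lit 5) (nat_lit 190) (nat_lit 5) (nat_lit 191) (nat_lit 5) (nat_lit 320) (nat_lit 273) (nat_lit 187))) (XT.nd (nat_lit 78) (nat_lit 532) (nat_lit 0) (XT.lf (nat_lit 0) (nat_lit 5117256325) (nat_lit 456) (nat_lit 8243277212) (nat_lit 532) (nat_lit 589384529)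 (nat_lit 177) (nat_lit 5) (nat_lit 183) (nat_lit 5) (nat_lit 184) (nat_lit 5) (nat_lit 321) (nat_lit 273) (nat_lit 186)) (XT.lf (nat_lit 0) (nat_lit 2300745549) (nat_lit 456) (nat_lit 1145828688) (nat_lit 532) (nat_lit 10759065136) (nat_lit 170) (nat_lit 5) (nat_lit 176) (nat_lit 5) (nat_lit 177) (nat_lit 5) (nat_lit 322) (nat_lit 273) (nat_lit 185))))) (XT.nd (nat_lit 234) (nat_lit 1292) (nat_lit 0) (XT.nd (nat_lit 78) (nat_lit 988) (nat_lit 0) (XT.lf (nat_lit 0) (nat_lit 7664263334) (nat_lit 532) (nat_lit 666520290) (nat_lit 76) (nat_lit 6136812672) (nat_lit 170) (nat_lit 5) (nat_lit 177) (nat_lit 5) (nat_lit 171) (nat_lit 5) (nat_lit 323) (nat_lit 273) (nat_lit 184)) (XT.nd (nat_lit 78) (nat_lit 532) (nat_lit 0) (XT.lf (nat_lit 0) (nat_lit 11003537882) (nat_lit 456) (nat_lit 1053312057) (nat_lit 532) (nat_lit 2679609287) (nat_lit 164) (nat_lit 5) (nat_lit 170) (nat_lit 5) (nat_lit 171) (nat_lit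 5) (nat_lit 324) (nat_lit 273) (nat_lit 183)) (XT.lf (nat_lit 0) (nat_lit 1616101198) (nat_lit 532) (nat_lit 6981517592) (nat_lit 76) (nat_lit 6414202847) (nat_lit 157) (nat_lit 5) (nat_lit 164) (nat_lit 5) (nat_lit 158) (nat_lit 5) (nat_lit 325) (nat_lit 273) (nat_lit 182)))) (XT.nd (nat_lit 156) (nat_lit 456) (nat_lit 0) (XT.nd (nat_lit 78) (nat_lit 456) (nat_lit 0) (XT.lf (nat_lit 0) (nat_lit 4900012101) (nat_lit 380) (nat_lit 1139010354) (nat_lit 456) (nat_lit 9255386849) (nat_lit 152) (nat_lit 5) (nat_lit 157) (nat_lit 5) (nat_lit 158) (nat_lit 5) (nat_lit 326) (nat_lit 273) (nat_lit 181)) (XT.lf (nat_lit 0) (nat_lit 1585471533) (nat_lit 456) (nat_lit 9080300279) (nat_lit 532) (nat_lit 4918293110) (nat_lit 146) (nat_lit 5) (nat_lit 152) (nat_lit 5) (nat_lit 153) (nat_lit 5) (nat_lit 327) (nat_lit 273) (nat_lit 180))) (XT.nd (nat_lit 78) (nat_lit 456) (nat_lit 0) (XT.lf (nat_lit 0) (nat_lit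 14018423788) (nat_lit 456) (nat_lit 1462229816) (nat_lit 532) (nat_lit 400782754) (nat_lit 146) (nat_lit 5) (nat_lit 152) (nat_lit 5) (nat_lit 153) (nat_lit 5) (nat_lit 328) (nat_lit 273) (nat_lit 179)) (XT.lf (nat_lit 0) (nat_lit 4279999145) (nat_lit 456) (nat_lit 5518961216) (nat_lit 76) (nat_lit 6386558234) (nat_lit 140) (nat_lit 5) (nat_lit 146) (nat_lit 5) (nat_lit 141) (nat_lit 5) (nat_lit 329) (nat_lit 273) (nat_lit 178))))))) (XT.nd (nat_lit 1014) (nat_lit 2584) (nat_lit 0) (XT.nd (nat_lit 468) (nat_lit 1596) (nat_lit 0) (XT.nd (nat_lit 234) (nat_lit 1140) (nat_lit 0) (XT.nd (nat_lit 78) (nat_lit 456) (nat_lit 0) (XT.lf (nat_lit 0) (nat_lit 7140245828) (nat_lit 380) (nat_lit 1996839287) (nat_lit 456) (nat_lit 7360770469) (nat_lit 135) (nat_lit 5) (nat_lit 140) (nat_lit 5) (nat_lit 141) (nat_lit 5) (nat_lit 330) (nat_lit 273) (nat_lit 177)) (XT.nd (nat_lit 78) (nat_lit 76) (nat_lit 0) (XT.lf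 (nat_lit 0) (nat_lit 3401382608) (nat_lit 380) (nat_lit 10810359351) (nat_lit 456) (nat_lit 2606394995) (nat_lit 130) (nat_lit 5) (nat_lit 135) (nat_lit 5) (nat_lit 136) (nat_lit 5) (nat_lit 331) (nat_lit 273) (nat_lit 176)) (XT.lf (nat_lit 0) (nat_lit 2311018998) (nat_lit 456) (nat_lit 543619698) (nat_lit 76) (nat_lit 14292092531) (nat_lit 129) (nat_lit 5) (nat_lit 135) (nat_lit 5) (nat_lit 130) (nat_lit 5) (nat_lit 332) (nat_lit 273) (nat_lit 175)))) (XT.nd (nat_lit 78) (nat_lit 760) (nat_lit 0) (XT.lf (nat_lit 0) (nat_lit 7433335927) (nat_lit 456) (nat_lit 4690730874) (nat_lit 76) (nat_lit 5358926707) (nat_lit 124) (nat_lit 5) (nat_lit 130) (nat_lit 5) (nat_lit 125) (nat_lit 5) (nat_lit 333) (nat_lit 273) (nat_lit 174)) (XT.nd (nat_lit 78) (nat_lit 456) (nat_lit 0) (XT.lf (nat_lit 0) (nat_lit 8764102916) (nat_lit 304) (nat_lit 3999396049) (nat_lit 380) (nat_lit 5064771422) (nat_lit 120) (nat_lit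 5) (nat_lit 124) (nat_lit 5) (nat_lit 125) (nat_lit 5) (nat_lit 334) (nat_lit 273) (nat_lit 173)) (XT.lf (nat_lit 0) (nat_lit 133613292) (nat_lit 456) (nat_lit 13687526619) (nat_lit 76) (nat_lit 4361469071) (nat_lit 114) (nat_lit 5) (nat_lit 120) (nat_lit 5) (nat_lit 115) (nat_lit 5) (nat_lit 335) (nat_lit 273) (nat_lit 172))))) (XT.nd (nat_lit 234) (nat_lit 988) (nat_lit 0) (XT.nd (nat_lit 78) (nat_lit 608) (nat_lit 0) (XT.lf (nat_lit 0) (nat_lit 5483316765) (nat_lit 456) (nat_lit 59843163) (nat_lit 76) (nat_lit 13002474177) (nat_lit 114) (nat_lit 5) (nat_lit 120) (nat_lit 5) (nat_lit 115) (nat_lit 5) (nat_lit 336) (nat_lit 273) (nat_lit 171)) (XT.nd (nat_lit 78) (nat_lit 304) (nat_lit 0) (XT.lf (nat_lit 0) (nat_lit 11081050755) (nat_lit 380) (nat_lit 4812729398) (nat_lit 76) (nat_lit 3024028245) (nat_lit 110) (nat_lit 5) (nat_lit 115) (nat_lit 5) (nat_lit 111) (nat_lit 5) (nat_lit 337) (nat_lit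 273) (nat_lit 170)) (XT.lf (nat_lit 0) (nat_lit 9445066305) (nat_lit 304) (nat_lit 7476772280) (nat_lit 380) (nat_lit 2377815837) (nat_lit 106) (nat_lit 5) (nat_lit 110) (nat_lit 5) (nat_lit 111) (nat_lit 5) (nat_lit 338) (nat_lit 273) (nat_lit 169)))) (XT.nd (nat_lit 156) (nat_lit 608) (nat_lit 0) (XT.nd (nat_lit 78) (nat_lit 0) (nat_lit 0) (XT.lf (nat_lit 0) (nat_lit 3249248378) (nat_lit 380) (nat_lit 15194092662) (nat_lit 76) (nat_lit 1248263705) (nat_lit 101) (nat_lit 5) (nat_lit 106) (nat_lit 5) (nat_lit 102) (nat_lit 5) (nat_lit 339) (nat_lit 273) (nat_lit 168)) (XT.lf (nat_lit 0) (nat_lit 9107208430) (nat_lit 380) (nat_lit 781148223) (nat_lit 76) (nat_lit 10204763055) (nat_lit 101) (nat_lit 5) (nat_lit 106) (nat_lit 5) (nat_lit 102) (nat_lit 5) (nat_lit 340) (nat_lit 273) (nat_lit 167))) (XT.nd (nat_lit 78) (nat_lit 304) (nat_lit 0) (XT.lf (nat_lit 0) (nat_lit 14215780055) (nat_lit 304)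 (nat_lit 995080287) (nat_lit 380) (nat_lit 5294428737) (nat_lit 97) (nat_lit 5) (nat_lit 101) (nat_lit 5) (nat_lit 102) (nat_lit 5) (nat_lit 341) (nat_lit 273) (nat_lit 166)) (XT.lf (nat_lit 0) (nat_lit 654251999) (nat_lit 304) (nat_lit 12161341615) (nat_lit 76) (nat_lit 8112285809) (nat_lit 93) (nat_lit 5) (nat_lit 97) (nat_lit 5) (nat_lit 94) (nat_lit 5) (nat_lit 342) (nat_lit 273) (nat_lit 165)))))) (XT.nd (nat_lit 546) (nat_lit 1140) (nat_lit 0) (XT.nd (nat_lit 234) (nat_lit 912) (nat_lit 0) (XT.nd (nat_lit 78) (nat_lit 228) (nat_lit 0) (XT.lf (nat_lit 0) (nat_lit 2960161266) (nat_lit 304) (nat_lit 3796758997) (nat_lit 380) (nat_lit 14604585551) (nat_lit 89) (nat_lit 5) (nat_lit 93) (nat_lit 5) (nat_lit 94) (nat_lit 5) (nat_lit 343) (nat_lit 273) (nat_lit 164)) (XT.nd (nat_lit 78) (nat_lit 228) (nat_lit 0) (XT.lf (nat_lit 0) (nat_lit 13139889117) (nat_lit 380) (nat_lit 3175100868) (nat_lit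 76) (nat_lit 5491213795) (nat_lit 89) (nat_lit 5) (nat_lit 94) (nat_lit 5) (nat_lit 90) (nat_lit 5) (nat_lit 344) (nat_lit 273) (nat_lit 163)) (XT.lf (nat_lit 0) (nat_lit 12614804325) (nat_lit 228) (nat_lit 7186064015) (nat_lit 304) (nat_lit 2461650904) (nat_lit 86) (nat_lit 5) (nat_lit 89) (nat_lit 5) (nat_lit 90) (nat_lit 5) (nat_lit 345) (nat_lit 273) (nat_lit 162)))) (XT.nd (nat_lit 156) (nat_lit 532) (nat_lit 0) (XT.nd (nat_lit 78) (nat_lit 0) (nat_lit 0) (XT.lf (nat_lit 0) (nat_lit 3933985970) (nat_lit 380) (nat_lit 16533402935) (nat_lit 76) (nat_lit 2263504409) (nat_lit 81) (nat_lit 5) (nat_lit 86) (nat_lit 5) (nat_lit 82) (nat_lit 5) (nat_lit 346) (nat_lit 273) (nat_lit 161)) (XT.lf (nat_lit 0) (nat_lit 10581890055) (nat_lit 380) (nat_lit 659568434) (nat_lit 76) (nat_lit 11969664296) (nat_lit 81) (nat_lit 5) (nat_lit 86) (nat_lit 5) (nat_lit 82) (nat_lit 5) (nat_lit 347) (nat_lit 273) (nat_lit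 160))) (XT.nd (nat_lit 78) (nat_lit 304) (nat_lit 0) (XT.lf (nat_lit 0) (nat_lit 15866813002) (nat_lit 228) (nat_lit 1645811219) (nat_lit 304) (nat_lit 6191473328) (nat_lit 78) (nat_lit 5) (nat_lit 81) (nat_lit 5) (nat_lit 82) (nat_lit 5) (nat_lit 348) (nat_lit 273) (nat_lit 159)) (XT.lf (nat_lit 0) (nat_lit 529516734) (nat_lit 304) (nat_lit 15497976087) (nat_lit 76) (nat_lit 8182400422) (nat_lit 74) (nat_lit 5) (nat_lit 78) (nat_lit 5) (nat_lit 75) (nat_lit 5) (nat_lit 349) (nat_lit 273) (nat_lit 158))))) (XT.nd (nat_lit 234) (nat_lit 684) (nat_lit 0) (XT.nd (nat_lit 78) (nat_lit 228) (nat_lit 0) (XT.lf (nat_lit 0) (nat_lit 1064966547) (nat_lit 228) (nat_lit 6355807944) (nat_lit 304) (nat_lit 17308220479) (nat_lit 71) (nat_lit 5) (nat_lit 74) (nat_lit 5) (nat_lit 75) (nat_lit 5) (nat_lit 350) (nat_lit 273) (nat_lit 157)) (XT.nd (nat_lit 78) (nat_lit 228) (nat_lit 0) (XT.lf (nat_lit 0) (nat_lit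 14629071537) (nat_lit 304) (nat_lit 6979845548) (nat_lit 76) (nat_lit 3652552256) (nat_lit 71) (nat_lit 5) (nat_lit 75) (nat_lit 5) (nat_lit 72) (nat_lit 5) (nat_lit 351) (nat_lit 273) (nat_lit 156)) (XT.lf (nat_lit 0) (nat_lit 10266811561) (nat_lit 228) (nat_lit 11877691475) (nat_lit 304) (nat_lit 3663602655) (nat_lit 68) (nat_lit 5) (nat_lit 71) (nat_lit 5) (nat_lit 72) (nat_lit 5) (nat_lit 352) (nat_lit 273) (nat_lit 155)))) (XT.nd (nat_lit 156) (nat_lit 380) (nat_lit 0) (XT.nd (nat_lit 78) (nat_lit 0) (nat_lit 0) (XT.lf (nat_lit 0) (nat_lit 1725764503) (nat_lit 228) (nat_lit 1783155346) (nat_lit 304) (nat_lit 22860955070) (nat_lit 64) (nat_lit 5) (nat_lit 67) (nat_lit 5) (nat_lit 68) (nat_lit 5) (nat_lit 353) (nat_lit 273) (nat_lit 154)) (XT.lf (nat_lit 0) (nat_lit 10991263580) (nat_lit 304) (nat_lit 7333702099) (nat_lit 76) (nat_lit 8620163870) (nat_lit 64) (nat_lit 5) (nat_lit 68) (nat_lit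 5) (nat_lit 65) (nat_lit 5) (nat_lit 354) (nat_lit 273) (nat_lit 153))) (XT.nd (nat_lit 78) (nat_lit 152) (nat_lit 0) (XT.lf (nat_lit 0) (nat_lit 10594153544) (nat_lit 228) (nat_lit 8167348112) (nat_lit 304) (nat_lit 8774876579) (nat_lit 61) (nat_lit 5) (nat_lit 64) (nat_lit 5) (nat_lit 65) (nat_lit 5) (nat_lit 355) (nat_lit 273) (nat_lit 152)) (XT.lf (nat_lit 0) (nat_lit 984860597) (nat_lit 152) (nat_lit 25834265510) (nat_lit 228) (nat_lit 1325157447) (nat_lit 59) (nat_lit 5) (nat_lit 61) (nat_lit 5) (nat_lit 62) (nat_lit 5) (nat_lit 356) (nat_lit 273) (nat_lit 151))))))))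
noncomputable def xc75 : XT := (XT.nd (nat_lit 35880) (nat_lit 0) (nat_lit 9196) (XT.nd (nat_lit 34788) (nat_lit 0) (nat_lit 25612) (XT.nd (nat_lit 34242) (nat_lit 0) (nat_lit 35568) (XT.nd (nat_lit 234) (nat_lit 456) (nat_lit 0) (XT.nd (nat_lit 78) (nat_lit 228) (nat_lit 0) (XT.lf (nat_lit 0) (nat_lit 6418139632) (nat_lit 228) (nat_lit 9211506867) (nat_lit 76) (nat_lit 13136892898) (nat_lit 58) (nat_lit 5) (nat_lit 61) (nat_lit 5) (nat_lit 59) (nat_lit 5) (nat_lit 357) (nat_lit 273) (nat_lit 150)) (XT.nd (nat_lit 78) (nat_lit 0) (nat_lit 0) (XT.lf (nat_lit 0) (nat_lit 9361137903) (nat_lit 228) (nat_lit 5059123319) (nat_lit 304) (nat_lit 14986140318) (nat_lit 55) (nat_lit 5) (nat_lit 58) (nat_lit 5) (nat_lit 59) (nat_lit 5) (nat_lit 358) (nat_lit 273) (nat_lit 149)) (XT.lf (nat_lit 0) (nat_lit 22746998117) (nat_lit 304) (nat_lit 1512841445) (nat_lit 76) (nat_lit 5803933219) (nat_lit 55) (nat_lit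 5) (nat_lit 59) (nat_lit 5) (nat_lit 56) (nat_lit 5) (nat_lit 359) (nat_lit 273) (nat_lit 148)))) (XT.nd (nat_lit 78) (nat_lit 228) (nat_lit 0) (XT.lf (nat_lit 0) (nat_lit 709318264) (nat_lit 228) (nat_lit 12995006615) (nat_lit 76) (nat_lit 17033782915) (nat_lit 52) (nat_lit 5) (nat_lit 55) (nat_lit 5) (nat_lit 53) (nat_lit 5) (nat_lit 360) (nat_lit 273) (nat_lit 147)) (XT.nd (nat_lit 33852) (nat_lit 0) (nat_lit 37848) (XT.lf (nat_lit 0) (nat_lit 6170487170) (nat_lit 228) (nat_lit 2741774845) (nat_lit 304) (nat_lit 22518738022) (nat_lit 49) (nat_lit 5) (nat_lit 52) (nat_lit 5) (nat_lit 53) (nat_lit 5) (nat_lit 361) (nat_lit 273) (nat_lit 146)) (XT.lf (nat_lit 0) (nat_lit 3314726089) (nat_lit 1140) (nat_lit 165074458) (nat_lit 1140) (nat_lit 165074458) (nat_lit 547) (nat_lit 3) (nat_lit 562) (nat_lit 3) (nat_lit 562) (nat_lit 5) (nat_lit 274) (nat_lit 274) (nat_lit 232))))) (XT.nd (nat_lit 234)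 (nat_lit 1140) (nat_lit 0) (XT.nd (nat_lit 78) (nat_lit 0) (nat_lit 0) (XT.lf (nat_lit 0) (nat_lit 1634696417) (nat_lit 1140) (nat_lit 2549508018) (nat_lit 1216) (nat_lit 3167110539) (nat_lit 532) (nat_lit 5) (nat_lit 547) (nat_lit 3) (nat_lit 548) (nat_lit 5) (nat_lit 275) (nat_lit 274) (nat_lit 231)) (XT.nd (nat_lit 78) (nat_lit 0) (nat_lit 76) (XT.lf (nat_lit 76) (nat_lit 2661404381) (nat_lit 0) (nat_lit 1259068333) (nat_lit 1216) (nat_lit 3495624771) (nat_lit 533) (nat_lit 5) (nat_lit 532) (nat_lit 5) (nat_lit 548) (nat_lit 5) (nat_lit 276) (nat_lit 274) (nat_lit 230)) (XT.lf (nat_lit 76) (nat_lit 528558395) (nat_lit 0) (nat_lit 5692341819) (nat_lit 1216) (nat_lit 1263075439) (nat_lit 534) (nat_lit 5) (nat_lit 533) (nat_lit 5) (nat_lit 549) (nat_lit 5) (nat_lit 277) (nat_lit 274) (nat_lit 229)))) (XT.nd (nat_lit 156) (nat_lit 0) (nat_lit 76) (XT.nd (nat_lit 78) (nat_lit 0) (nat_lit 76) (XT.lf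 (nat_lit 0) (nat_lit 979154286) (nat_lit 1216) (nat_lit 1581570797) (nat_lit 1292) (nat_lit 4993974742) (nat_lit 517) (nat_lit 5) (nat_lit 533) (nat_lit 5) (nat_lit 534) (nat_lit 5) (nat_lit 278) (nat_lit 274) (nat_lit 228)) (XT.lf (nat_lit 0) (nat_lit 3219911743) (nat_lit 1216) (nat_lit 3683440905) (nat_lit 1292) (nat_lit 725125819) (nat_lit 518) (nat_lit 5) (nat_lit 534) (nat_lit 5) (nat_lit 535) (nat_lit 5) (nat_lit 279) (nat_lit 274) (nat_lit 227))) (XT.nd (nat_lit 78) (nat_lit 0) (nat_lit 0) (XT.lf (nat_lit 76) (nat_lit 1914683973) (nat_lit 0) (nat_lit 3573770329) (nat_lit 1292) (nat_lit 2216871078) (nat_lit 519) (nat_lit 5) (nat_lit 518) (nat_lit 5) (nat_lit 535) (nat_lit 5) (nat_lit 280) (nat_lit 274) (nat_lit 226)) (XT.lf (nat_lit 76) (nat_lit 7683883363) (nat_lit 0) (nat_lit 88364728) (nat_lit 1292) (nat_lit 13349942) (nat_lit 519) (nat_lit 5) (nat_lit 518) (nat_lit 5) (nat_lit 535) (nat_lit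 5) (nat_lit 281) (nat_lit 274) (nat_lit 225)))))) (XT.nd (nat_lit 546) (nat_lit 7524) (nat_lit 0) (XT.nd (nat_lit 234) (nat_lit 1292) (nat_lit 0) (XT.nd (nat_lit 78) (nat_lit 0) (nat_lit 0) (XT.lf (nat_lit 0) (nat_lit 2211367638) (nat_lit 1292) (nat_lit 2120140095) (nat_lit 1368) (nat_lit 3536845642) (nat_lit 502) (nat_lit 5) (nat_lit 519) (nat_lit 5) (nat_lit 520) (nat_lit 5) (nat_lit 282) (nat_lit 274) (nat_lit 224)) (XT.nd (nat_lit 78) (nat_lit 0) (nat_lit 76) (XT.lf (nat_lit 76) (nat_lit 3822963116) (nat_lit 0) (nat_lit 631824108) (nat_lit 1368) (nat_lit 3499818908) (nat_lit 503) (nat_lit 5) (nat_lit 502) (nat_lit 5) (nat_lit 520) (nat_lit 5) (nat_lit 283) (nat_lit 274) (nat_lit 223)) (XT.lf (nat_lit 76) (nat_lit 1885385077) (nat_lit 0) (nat_lit 4855511514) (nat_lit 1368) (nat_lit 1303099766) (nat_lit 504) (nat_lit 5) (nat_lit 503) (nat_lit 5) (nat_lit 521) (nat_lit 5) (nat_lit 284) (nat_lit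 274) (nat_lit 222)))) (XT.nd (nat_lit 156) (nat_lit 0) (nat_lit 76) (XT.nd (nat_lit 78) (nat_lit 0) (nat_lit 76) (XT.lf (nat_lit 0) (nat_lit 908653579) (nat_lit 1368) (nat_lit 55701245) (nat_lit 1444) (nat_lit 7172409385) (nat_lit 485) (nat_lit 5) (nat_lit 503) (nat_lit 5) (nat_lit 504) (nat_lit 5) (nat_lit 285) (nat_lit 274) (nat_lit 221)) (XT.lf (nat_lit 0) (nat_lit 3161366475) (nat_lit 1368) (nat_lit 1996950490) (nat_lit 1444) (nat_lit 3074032897) (nat_lit 486) (nat_lit 5) (nat_lit 504) (nat_lit 5) (nat_lit 505) (nat_lit 5) (nat_lit 286) (nat_lit 274) (nat_lit 220))) (XT.nd (nat_lit 78) (nat_lit 0) (nat_lit 76) (XT.lf (nat_lit 76) (nat_lit 4387945488) (nat_lit 0) (nat_lit 1062227090) (nat_lit 1444) (nat_lit 2881311975) (nat_lit 487) (nat_lit 5) (nat_lit 486) (nat_lit 5) (nat_lit 505) (nat_lit 5) (nat_lit 287) (nat_lit 274) (nat_lit 219)) (XT.lf (nat_lit 76) (nat_lit 2521854556) (nat_lit 0) (nat_lit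 5271223756) (nat_lit 1444) (nat_lit 640856464) (nat_lit 488) (nat_lit 5) (nat_lit 487) (nat_lit 5) (nat_lit 506) (nat_lit 5) (nat_lit 288) (nat_lit 274) (nat_lit 218))))) (XT.nd (nat_lit 234) (nat_lit 4864) (nat_lit 0) (XT.nd (nat_lit 78) (nat_lit 1368) (nat_lit 0) (XT.lf (nat_lit 76) (nat_lit 637385543) (nat_lit 0) (nat_lit 981765957) (nat_lit 1520) (nat_lit 6920654357) (nat_lit 469) (nat_lit 5) (nat_lit 468) (nat_lit 5) (nat_lit 488) (nat_lit 5) (nat_lit 289) (nat_lit 274) (nat_lit 217)) (XT.nd (nat_lit 78) (nat_lit 1444) (nat_lit 0) (XT.lf (nat_lit 0) (nat_lit 3938638847) (nat_lit 1444) (nat_lit 1260378612) (nat_lit 76) (nat_lit 3449789564) (nat_lit 469) (nat_lit 5) (nat_lit 488) (nat_lit 5) (nat_lit 470) (nat_lit 5) (nat_lit 290) (nat_lit 274) (nat_lit 216)) (XT.lf (nat_lit 0) (nat_lit 5599520549) (nat_lit 1444) (nat_lit 710623777) (nat_lit 1520) (nat_lit 2451330264) (nat_lit 450) (nat_lit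 5) (nat_lit 469) (nat_lit 5) (nat_lit 470) (nat_lit 5) (nat_lit 291) (nat_lit 274) (nat_lit 215)))) (XT.nd (nat_lit 156) (nat_lit 1672) (nat_lit 0) (XT.nd (nat_lit 78) (nat_lit 1672) (nat_lit 0) (XT.lf (nat_lit 0) (nat_lit 3780447109) (nat_lit 1520) (nat_lit 4971932910) (nat_lit 1596) (nat_lit 125194193) (nat_lit 430) (nat_lit 5) (nat_lit 450) (nat_lit 5) (nat_lit 451) (nat_lit 5) (nat_lit 292) (nat_lit 274) (nat_lit 214)) (XT.lf (nat_lit 0) (nat_lit 1934595072) (nat_lit 1596) (nat_lit 287254252) (nat_lit 1672) (nat_lit 6775436170) (nat_lit 408) (nat_lit 5) (nat_lit 429) (nat_lit 5) (nat_lit 430) (nat_lit 5) (nat_lit 293) (nat_lit 274) (nat_lit 213))) (XT.nd (nat_lit 78) (nat_lit 0) (nat_lit 0) (XT.lf (nat_lit 0) (nat_lit 47992084) (nat_lit 1672) (nat_lit 4597620088) (nat_lit 1748) (nat_lit 4474839621) (nat_lit 386) (nat_lit 5) (nat_lit 408) (nat_lit 5) (nat_lit 409) (nat_lit 5) (nat_lit 294) (nat_lit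 274) (nat_lit 212)) (XT.lf (nat_lit 0) (nat_lit 7138471832) (nat_lit 1748) (nat_lit 1831016717) (nat_lit 76) (nat_lit 277936085) (nat_lit 386) (nat_lit 5) (nat_lit 409) (nat_lit 5) (nat_lit 387) (nat_lit 5) (nat_lit 295) (nat_lit 274) (nat_lit 211))))))) (XT.nd (nat_lit 1092) (nat_lit 6308) (nat_lit 0) (XT.nd (nat_lit 546) (nat_lit 4332) (nat_lit 0) (XT.nd (nat_lit 234) (nat_lit 2508) (nat_lit 0) (XT.nd (nat_lit 78) (nat_lit 1748) (nat_lit 0) (XT.lf (nat_lit 0) (nat_lit 337352972) (nat_lit 1520) (nat_lit 3757719773) (nat_lit 76) (nat_lit 5282853818) (nat_lit 366) (nat_lit 5) (nat_lit 386) (nat_lit 5) (nat_lit 367) (nat_lit 5) (nat_lit 296) (nat_lit 274) (nat_lit 210)) (XT.nd (nat_lit 78) (nat_lit 912) (nat_lit 0) (XT.lf (nat_lit 0) (nat_lit 2819377008) (nat_lit 912) (nat_lit 5723407928) (nat_lit 76) (nat_lit 969496434) (nat_lit 355) (nat_lit 5) (nat_lit 367) (nat_lit 5) (nat_lit 356) (nat_lit 5)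 (nat_lit 297) (nat_lit 274) (nat_lit 209)) (XT.lf (nat_lit 0) (nat_lit 1912210992) (nat_lit 912) (nat_lit 3477645669) (nat_lit 988) (nat_lit 4260565462) (nat_lit 343) (nat_lit 5) (nat_lit 355) (nat_lit 5) (nat_lit 356) (nat_lit 5) (nat_lit 298) (nat_lit 274) (nat_lit 208)))) (XT.nd (nat_lit 156) (nat_lit 1596) (nat_lit 0) (XT.nd (nat_lit 78) (nat_lit 76) (nat_lit 0) (XT.lf (nat_lit 0) (nat_lit 3073063) (nat_lit 836) (nat_lit 8034498995) (nat_lit 912) (nat_lit 1755166786) (nat_lit 332) (nat_lit 5) (nat_lit 343) (nat_lit 5) (nat_lit 344) (nat_lit 5) (nat_lit 299) (nat_lit 274) (nat_lit 207)) (XT.lf (nat_lit 0) (nat_lit 841170405) (nat_lit 912) (nat_lit 1933347239) (nat_lit 76) (nat_lit 7164200734) (nat_lit 331) (nat_lit 5) (nat_lit 343) (nat_lit 5) (nat_lit 332) (nat_lit 5) (nat_lit 300) (nat_lit 274) (nat_lit 206))) (XT.nd (nat_lit 78) (nat_lit 760) (nat_lit 0) (XT.lf (nat_lit 0) (nat_lit 3501329258)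 (nat_lit 912) (nat_lit 3925766111) (nat_lit 76) (nat_lit 2661585929) (nat_lit 320) (nat_lit 5) (nat_lit 332) (nat_lit 5) (nat_lit 321) (nat_lit 5) (nat_lit 301) (nat_lit 274) (nat_lit 205)) (XT.lf (nat_lit 0) (nat_lit 4275668127) (nat_lit 760) (nat_lit 1978228162) (nat_lit 836) (nat_lit 3989025407) (nat_lit 310) (nat_lit 5) (nat_lit 320) (nat_lit 5) (nat_lit 321) (nat_lit 5) (nat_lit 302) (nat_lit 274) (nat_lit 204))))) (XT.nd (nat_lit 234) (nat_lit 2812) (nat_lit 0) (XT.nd (nat_lit 78) (nat_lit 760) (nat_lit 0) (XT.lf (nat_lit 0) (nat_lit 2334888749) (nat_lit 760) (nat_lit 6773843315) (nat_lit 836) (nat_lit 1292693176) (nat_lit 300) (nat_lit 5) (nat_lit 310) (nat_lit 5) (nat_lit 311) (nat_lit 5) (nat_lit 303) (nat_lit 274) (nat_lit 203)) (XT.nd (nat_lit 78) (nat_lit 0) (nat_lit 0) (XT.lf (nat_lit 0) (nat_lit 337751637) (nat_lit 684) (nat_lit 1138298112) (nat_lit 760) (nat_lit 9088249891) (nat_lit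 290) (nat_lit 5) (nat_lit 299) (nat_lit 5) (nat_lit 300) (nat_lit 5) (nat_lit 304) (nat_lit 274) (nat_lit 202)) (XT.lf (nat_lit 0) (nat_lit 4351572285) (nat_lit 760) (nat_lit 1713253228) (nat_lit 76) (nat_lit 4666265775) (nat_lit 290) (nat_lit 5) (nat_lit 300) (nat_lit 5) (nat_lit 291) (nat_lit 5) (nat_lit 305) (nat_lit 274) (nat_lit 201)))) (XT.nd (nat_lit 156) (nat_lit 1368) (nat_lit 0) (XT.nd (nat_lit 78) (nat_lit 684) (nat_lit 0) (XT.lf (nat_lit 0) (nat_lit 7094694721) (nat_lit 760) (nat_lit 229486830) (nat_lit 836) (nat_lit 3578515419) (nat_lit 280) (nat_lit 5) (nat_lit 290) (nat_lit 5) (nat_lit 291) (nat_lit 5) (nat_lit 306) (nat_lit 274) (nat_lit 200)) (XT.lf (nat_lit 0) (nat_lit 5094039244) (nat_lit 684) (nat_lit 5332299259) (nat_lit 760) (nat_lit 652330860) (nat_lit 271) (nat_lit 5) (nat_lit 280) (nat_lit 5) (nat_lit 281) (nat_lit 5) (nat_lit 307) (nat_lit 274) (nat_lit 199))) (XT.nd (nat_lit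 78) (nat_lit 608) (nat_lit 0) (XT.lf (nat_lit 0) (nat_lit 2341087889) (nat_lit 760) (nat_lit 8231540863) (nat_lit 76) (nat_lit 686801751) (nat_lit 261) (nat_lit 5) (nat_lit 271) (nat_lit 5) (nat_lit 262) (nat_lit 5) (nat_lit 308) (nat_lit 274) (nat_lit 198)) (XT.lf (nat_lit 0) (nat_lit 872910358) (nat_lit 608) (nat_lit 4584316905) (nat_lit 684) (nat_lit 5987489323) (nat_lit 253) (nat_lit 5) (nat_lit 261) (nat_lit 5) (nat_lit 262) (nat_lit 5) (nat_lit 309) (nat_lit 274) (nat_lit 197)))))) (XT.nd (nat_lit 546) (nat_lit 3116) (nat_lit 0) (XT.nd (nat_lit 234) (nat_lit 1824) (nat_lit 0) (XT.nd (nat_lit 78) (nat_lit 1368) (nat_lit 0) (XT.lf (nat_lit 0) (nat_lit 8693707131) (nat_lit 684) (nat_lit 1328102355) (nat_lit 76) (nat_lit 1613237903) (nat_lit 253) (nat_lit 5) (nat_lit 262) (nat_lit 5) (nat_lit 254) (nat_lit 5) (nat_lit 310) (nat_lit 274) (nat_lit 196)) (XT.nd (nat_lit 78) (nat_lit 608) (nat_lit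 0) (XT.lf (nat_lit 0) (nat_lit 239539580) (nat_lit 760) (nat_lit 3606472316) (nat_lit 76) (nat_lit 7984154498) (nat_lit 243) (nat_lit 5) (nat_lit 253) (nat_lit 5) (nat_lit 244) (nat_lit 5) (nat_lit 311) (nat_lit 274) (nat_lit 195)) (XT.lf (nat_lit 0) (nat_lit 3503422619) (nat_lit 684) (nat_lit 5982848166) (nat_lit 76) (nat_lit 2543950076) (nat_lit 235) (nat_lit 5) (nat_lit 244) (nat_lit 5) (nat_lit 236) (nat_lit 5) (nat_lit 312) (nat_lit 274) (nat_lit 194)))) (XT.nd (nat_lit 156) (nat_lit 684) (nat_lit 0) (XT.nd (nat_lit 78) (nat_lit 532) (nat_lit 0) (XT.lf (nat_lit 0) (nat_lit 3783530146) (nat_lit 608) (nat_lit 3119490883) (nat_lit 684) (nat_lit 5332520827) (nat_lit 227) (nat_lit 5) (nat_lit 235) (nat_lit 5) (nat_lit 236) (nat_lit 5) (nat_lit 313) (nat_lit 274) (nat_lit 193)) (XT.lf (nat_lit 0) (nat_lit 1430153554) (nat_lit 532) (nat_lit 9010532255) (nat_lit 608) (nat_lit 2005635368) (nat_lit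 220) (nat_lit 5) (nat_lit 227) (nat_lit 5) (nat_lit 228) (nat_lit 5) (nat_lit 314) (nat_lit 274) (nat_lit 192))) (XT.nd (nat_lit 78) (nat_lit 608) (nat_lit 0) (XT.lf (nat_lit 0) (nat_lit 1445111213) (nat_lit 608) (nat_lit 1012634521) (nat_lit 76) (nat_lit 10204659062) (nat_lit 219) (nat_lit 5) (nat_lit 227) (nat_lit 5) (nat_lit 220) (nat_lit 5) (nat_lit 315) (nat_lit 274) (nat_lit 191)) (XT.lf (nat_lit 0) (nat_lit 5026562724) (nat_lit 684) (nat_lit 3555262414) (nat_lit 76) (nat_lit 4301810743) (nat_lit 211) (nat_lit 5) (nat_lit 220) (nat_lit 5) (nat_lit 212) (nat_lit 5) (nat_lit 316) (nat_lit 274) (nat_lit 190))))) (XT.nd (nat_lit 234) (nat_lit 1520) (nat_lit 0) (XT.nd (nat_lit 78) (nat_lit 1064) (nat_lit 0) (XT.lf (nat_lit 0) (nat_lit 6913274391) (nat_lit 532) (nat_lit 1836317238) (nat_lit 608) (nat_lit 4361247773) (nat_lit 204) (nat_lit 5) (nat_lit 211) (nat_lit 5) (nat_lit 212) (nat_lit 5) (nat_lit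 317) (nat_lit 274) (nat_lit 189)) (XT.nd (nat_lit 78) (nat_lit 532) (nat_lit 0) (XT.lf (nat_lit 0) (nat_lit 4381321470) (nat_lit 532) (nat_lit 8255440205) (nat_lit 608) (nat_lit 707065999) (nat_lit 197) (nat_lit 5) (nat_lit 204) (nat_lit 5) (nat_lit 205) (nat_lit 5) (nat_lit 318) (nat_lit 274) (nat_lit 188)) (XT.lf (nat_lit 0) (nat_lit 1726980567) (nat_lit 456) (nat_lit 1322469594) (nat_lit 532) (nat_lit 10533319334) (nat_lit 190) (nat_lit 5) (nat_lit 196) (nat_lit 5) (nat_lit 197) (nat_lit 5) (nat_lit 319) (nat_lit 274) (nat_lit 187)))) (XT.nd (nat_lit 156) (nat_lit 988) (nat_lit 0) (XT.nd (nat_lit 78) (nat_lit 532) (nat_lit 0) (XT.lf (nat_lit 0) (nat_lit 6975677978) (nat_lit 532) (nat_lit 1053353278) (nat_lit 76) (nat_lit 5798438704) (nat_lit 190) (nat_lit 5) (nat_lit 197) (nat_lit 5) (nat_lit 191) (nat_lit 5) (nat_lit 320) (nat_lit 274) (nat_lit 186)) (XT.lf (nat_lit 0) (nat_lit 10156139898)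 (nat_lit 532) (nat_lit 906934343) (nat_lit 608) (nat_lit 3015585403) (nat_lit 183) (nat_lit 5) (nat_lit 190) (nat_lit 5) (nat_lit 191) (nat_lit 5) (nat_lit 321) (nat_lit 274) (nat_lit 185))) (XT.nd (nat_lit 78) (nat_lit 456) (nat_lit 0) (XT.lf (nat_lit 0) (nat_lit 989966705) (nat_lit 532) (nat_lit 6949589853) (nat_lit 76) (nat_lit 6396391402) (nat_lit 176) (nat_lit 5) (nat_lit 183) (nat_lit 5) (nat_lit 177) (nat_lit 5) (nat_lit 322) (nat_lit 274) (nat_lit 184)) (XT.lf (nat_lit 0) (nat_lit 4479092538) (nat_lit 456) (nat_lit 627361430) (nat_lit 532) (nat_lit 9493482162) (nat_lit 170) (nat_lit 5) (nat_lit 176) (nat_lit 5) (nat_lit 177) (nat_lit 5) (nat_lit 323) (nat_lit 274) (nat_lit 183))))))))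
noncomputable def xc76 : XT := (XT.nd (nat_lit 2106) (nat_lit 1444) (nat_lit 0) (XT.nd (nat_lit 1014) (nat_lit 3040) (nat_lit 0) (XT.nd (nat_lit 468) (nat_lit 1976) (nat_lit 0) (XT.nd (nat_lit 234) (nat_lit 1292) (nat_lit 0) (XT.nd (nat_lit 78) (nat_lit 532) (nat_lit 0) (XT.lf (nat_lit 0) (nat_lit 1407288150) (nat_lit 456) (nat_lit 8010673066) (nat_lit 532) (nat_lit 5452466430) (nat_lit 164) (nat_lit 5) (nat_lit 170) (nat_lit 5) (nat_lit 171) (nat_lit 5) (nat_lit 324) (nat_lit 274) (nat_lit 182)) (XT.nd (nat_lit 78) (nat_lit 532) (nat_lit 0) (XT.lf (nat_lit 0) (nat_lit 13375321188) (nat_lit 456) (nat_lit 527007583) (nat_lit 532) (nat_lit 1245848629) (nat_lit 164) (nat_lit 5) (nat_lit 170) (nat_lit 5) (nat_lit 171) (nat_lit 5) (nat_lit 325) (nat_lit 274) (nat_lit 181)) (XT.lf (nat_lit 0) (nat_lit 3132191114) (nat_lit 532) (nat_lit 5135920318) (nat_lit 76) (nat_lit 7164046302) (nat_lit 157) (nat_lit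 5) (nat_lit 164) (nat_lit 5) (nat_lit 158) (nat_lit 5) (nat_lit 326) (nat_lit 274) (nat_lit 180)))) (XT.nd (nat_lit 78) (nat_lit 912) (nat_lit 0) (XT.lf (nat_lit 0) (nat_lit 7068714638) (nat_lit 380) (nat_lit 589465771) (nat_lit 456) (nat_lit 8065654423) (nat_lit 152) (nat_lit 5) (nat_lit 157) (nat_lit 5) (nat_lit 158) (nat_lit 5) (nat_lit 327) (nat_lit 274) (nat_lit 179)) (XT.nd (nat_lit 78) (nat_lit 456) (nat_lit 0) (XT.lf (nat_lit 0) (nat_lit 3647139420) (nat_lit 456) (nat_lit 8751466079) (nat_lit 532) (nat_lit 3624096000) (nat_lit 146) (nat_lit 5) (nat_lit 152) (nat_lit 5) (nat_lit 153) (nat_lit 5) (nat_lit 328) (nat_lit 274) (nat_lit 178)) (XT.lf (nat_lit 0) (nat_lit 58946810) (nat_lit 380) (nat_lit 915438991) (nat_lit 456) (nat_lit 15355313786) (nat_lit 140) (nat_lit 5) (nat_lit 145) (nat_lit 5) (nat_lit 146) (nat_lit 5) (nat_lit 329) (nat_lit 274) (nat_lit 177))))) (XT.nd (nat_lit 234) (nat_lit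 1216) (nat_lit 0) (XT.nd (nat_lit 78) (nat_lit 760) (nat_lit 0) (XT.lf (nat_lit 0) (nat_lit 5765992244) (nat_lit 456) (nat_lit 3718331452) (nat_lit 76) (nat_lit 7159028104) (nat_lit 140) (nat_lit 5) (nat_lit 146) (nat_lit 5) (nat_lit 141) (nat_lit 5) (nat_lit 330) (nat_lit 274) (nat_lit 176)) (XT.nd (nat_lit 78) (nat_lit 380) (nat_lit 0) (XT.lf (nat_lit 0) (nat_lit 9288752567) (nat_lit 380) (nat_lit 1453055433) (nat_lit 456) (nat_lit 6223807461) (nat_lit 135) (nat_lit 5) (nat_lit 140) (nat_lit 5) (nat_lit 141) (nat_lit 5) (nat_lit 331) (nat_lit 274) (nat_lit 175)) (XT.lf (nat_lit 0) (nat_lit 5429220678) (nat_lit 380) (nat_lit 10517037168) (nat_lit 456) (nat_lit 1349712775) (nat_lit 130) (nat_lit 5) (nat_lit 135) (nat_lit 5) (nat_lit 136) (nat_lit 5) (nat_lit 332) (nat_lit 274) (nat_lit 174)))) (XT.nd (nat_lit 156) (nat_lit 760) (nat_lit 0) (XT.nd (nat_lit 78) (nat_lit 0) (nat_lit 0) (XT.lf (nat_lit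 0) (nat_lit 1344934206) (nat_lit 380) (nat_lit 2323144611) (nat_lit 456) (nat_lit 13966778946) (nat_lit 124) (nat_lit 5) (nat_lit 129) (nat_lit 5) (nat_lit 130) (nat_lit 5) (nat_lit 333) (nat_lit 274) (nat_lit 173)) (XT.lf (nat_lit 0) (nat_lit 8914048842) (nat_lit 456) (nat_lit 2953179510) (nat_lit 76) (nat_lit 6114595059) (nat_lit 124) (nat_lit 5) (nat_lit 130) (nat_lit 5) (nat_lit 125) (nat_lit 5) (nat_lit 334) (nat_lit 274) (nat_lit 172))) (XT.nd (nat_lit 78) (nat_lit 456) (nat_lit 0) (XT.lf (nat_lit 0) (nat_lit 10874826542) (nat_lit 304) (nat_lit 3504654963) (nat_lit 380) (nat_lit 3958484524) (nat_lit 120) (nat_lit 5) (nat_lit 124) (nat_lit 5) (nat_lit 125) (nat_lit 5) (nat_lit 335) (nat_lit 274) (nat_lit 171)) (XT.lf (nat_lit 0) (nat_lit 1359100312) (nat_lit 456) (nat_lit 12242812201) (nat_lit 76) (nat_lit 5101277892) (nat_lit 114) (nat_lit 5) (nat_lit 120) (nat_lit 5) (nat_lit 115) (nat_lit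 5) (nat_lit 336) (nat_lit 274) (nat_lit 170)))))) (XT.nd (nat_lit 546) (nat_lit 1444) (nat_lit 0) (XT.nd (nat_lit 234) (nat_lit 988) (nat_lit 0) (XT.nd (nat_lit 78) (nat_lit 304) (nat_lit 0) (XT.lf (nat_lit 0) (nat_lit 1762781924) (nat_lit 304) (nat_lit 5082381066) (nat_lit 380) (nat_lit 12232439538) (nat_lit 110) (nat_lit 5) (nat_lit 114) (nat_lit 5) (nat_lit 115) (nat_lit 5) (nat_lit 337) (nat_lit 274) (nat_lit 169)) (XT.nd (nat_lit 78) (nat_lit 304) (nat_lit 0) (XT.lf (nat_lit 0) (nat_lit 12580303930) (nat_lit 380) (nat_lit 3165291696) (nat_lit 76) (nat_lit 3715970139) (nat_lit 110) (nat_lit 5) (nat_lit 115) (nat_lit 5) (nat_lit 111) (nat_lit 5) (nat_lit 338) (nat_lit 274) (nat_lit 168)) (XT.lf (nat_lit 0) (nat_lit 11491167735) (nat_lit 304) (nat_lit 7082607503) (nat_lit 380) (nat_lit 1281555565) (nat_lit 106) (nat_lit 5) (nat_lit 110) (nat_lit 5) (nat_lit 111) (nat_lit 5) (nat_lit 339) (nat_lit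 274) (nat_lit 167)))) (XT.nd (nat_lit 156) (nat_lit 304) (nat_lit 0) (XT.nd (nat_lit 78) (nat_lit 304) (nat_lit 0) (XT.lf (nat_lit 0) (nat_lit 4480828029) (nat_lit 380) (nat_lit 13881301204) (nat_lit 76) (nat_lit 1897134583) (nat_lit 101) (nat_lit 5) (nat_lit 106) (nat_lit 5) (nat_lit 102) (nat_lit 5) (nat_lit 340) (nat_lit 274) (nat_lit 166)) (XT.lf (nat_lit 0) (nat_lit 924645422) (nat_lit 304) (nat_lit 9562852769) (nat_lit 380) (nat_lit 10185878466) (nat_lit 97) (nat_lit 5) (nat_lit 101) (nat_lit 5) (nat_lit 102) (nat_lit 5) (nat_lit 341) (nat_lit 274) (nat_lit 165))) (XT.nd (nat_lit 78) (nat_lit 304) (nat_lit 0) (XT.lf (nat_lit 0) (nat_lit 16331496732) (nat_lit 304) (nat_lit 415657203) (nat_lit 380) (nat_lit 4351310799) (nat_lit 97) (nat_lit 5) (nat_lit 101) (nat_lit 5) (nat_lit 102) (nat_lit 5) (nat_lit 342) (nat_lit 274) (nat_lit 164)) (XT.lf (nat_lit 0) (nat_lit 1744546513) (nat_lit 304)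 (nat_lit 10832016042) (nat_lit 76) (nat_lit 8957374728) (nat_lit 93) (nat_lit 5) (nat_lit 97) (nat_lit 5) (nat_lit 94) (nat_lit 5) (nat_lit 343) (nat_lit 274) (nat_lit 163))))) (XT.nd (nat_lit 234) (nat_lit 912) (nat_lit 0) (XT.nd (nat_lit 78) (nat_lit 228) (nat_lit 0) (XT.lf (nat_lit 0) (nat_lit 4715646097) (nat_lit 304) (nat_lit 3294285444) (nat_lit 380) (nat_lit 13971058825) (nat_lit 89) (nat_lit 5) (nat_lit 93) (nat_lit 5) (nat_lit 94) (nat_lit 5) (nat_lit 344) (nat_lit 274) (nat_lit 162)) (XT.nd (nat_lit 78) (nat_lit 228) (nat_lit 0) (XT.lf (nat_lit 0) (nat_lit 14557683456) (nat_lit 380) (nat_lit 1635364875) (nat_lit 76) (nat_lit 6246525389) (nat_lit 89) (nat_lit 5) (nat_lit 94) (nat_lit 5) (nat_lit 90) (nat_lit 5) (nat_lit 345) (nat_lit 274) (nat_lit 161)) (XT.lf (nat_lit 0) (nat_lit 14601711720) (nat_lit 228) (nat_lit 6797410022) (nat_lit 304) (nat_lit 1510854338) (nat_lit 86) (nat_lit 5)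 (nat_lit 89) (nat_lit 5) (nat_lit 90) (nat_lit 5) (nat_lit 346) (nat_lit 274) (nat_lit 160)))) (XT.nd (nat_lit 156) (nat_lit 304) (nat_lit 0) (XT.nd (nat_lit 78) (nat_lit 228) (nat_lit 0) (XT.lf (nat_lit 0) (nat_lit 5048042514) (nat_lit 380) (nat_lit 15417254239) (nat_lit 76) (nat_lit 2927284523) (nat_lit 81) (nat_lit 5) (nat_lit 86) (nat_lit 5) (nat_lit 82) (nat_lit 5) (nat_lit 347) (nat_lit 274) (nat_lit 159)) (XT.lf (nat_lit 0) (nat_lit 897611788) (nat_lit 228) (nat_lit 10974589038) (nat_lit 304) (nat_lit 12015489727) (nat_lit 78) (nat_lit 5) (nat_lit 81) (nat_lit 5) (nat_lit 82) (nat_lit 5) (nat_lit 348) (nat_lit 274) (nat_lit 158))) (XT.nd (nat_lit 78) (nat_lit 304) (nat_lit 0) (XT.lf (nat_lit 0) (nat_lit 17882618900) (nat_lit 228) (nat_lit 1104241829) (nat_lit 304) (nat_lit 5409082753) (nat_lit 78) (nat_lit 5) (nat_lit 81) (nat_lit 5) (nat_lit 82) (nat_lit 5) (nat_lit 349) (nat_lit 274) (nat_lit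 157)) (XT.lf (nat_lit 0) (nat_lit 1486760815) (nat_lit 304) (nat_lit 14420110057) (nat_lit 76) (nat_lit 9010206600) (nat_lit 74) (nat_lit 5) (nat_lit 78) (nat_lit 5) (nat_lit 75) (nat_lit 5) (nat_lit 350) (nat_lit 274) (nat_lit 156))))))) (XT.nd (nat_lit 34944) (nat_lit 0) (nat_lit 30020) (XT.nd (nat_lit 468) (nat_lit 456) (nat_lit 0) (XT.nd (nat_lit 234) (nat_lit 532) (nat_lit 0) (XT.nd (nat_lit 78) (nat_lit 228) (nat_lit 0) (XT.lf (nat_lit 0) (nat_lit 2614690673) (nat_lit 228) (nat_lit 5952501823) (nat_lit 304) (nat_lit 16884919343) (nat_lit 71) (nat_lit 5) (nat_lit 74) (nat_lit 5) (nat_lit 75) (nat_lit 5) (nat_lit 351) (nat_lit 274) (nat_lit 155)) (XT.nd (nat_lit 78) (nat_lit 228) (nat_lit 0) (XT.lf (nat_lit 0) (nat_lit 15968575998) (nat_lit 304) (nat_lit 5701210239) (nat_lit 76) (nat_lit 4331245523) (nat_lit 71) (nat_lit 5) (nat_lit 75) (nat_lit 5) (nat_lit 72) (nat_lit 5) (nat_lit 352) (nat_lit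 274) (nat_lit 154)) (XT.lf (nat_lit 0) (nat_lit 12038705054) (nat_lit 228) (nat_lit 11654037919) (nat_lit 304) (nat_lit 2871666613) (nat_lit 68) (nat_lit 5) (nat_lit 71) (nat_lit 5) (nat_lit 72) (nat_lit 5) (nat_lit 353) (nat_lit 274) (nat_lit 153)))) (XT.nd (nat_lit 78) (nat_lit 228) (nat_lit 0) (XT.lf (nat_lit 0) (nat_lit 3229564580) (nat_lit 228) (nat_lit 1258143857) (nat_lit 304) (nat_lit 22655543709) (nat_lit 64) (nat_lit 5) (nat_lit 67) (nat_lit 5) (nat_lit 68) (nat_lit 5) (nat_lit 354) (nat_lit 274) (nat_lit 152)) (XT.nd (nat_lit 78) (nat_lit 228) (nat_lit 0) (XT.lf (nat_lit 0) (nat_lit 12172726768) (nat_lit 304) (nat_lit 6130421786) (nat_lit 76) (nat_lit 9433059016) (nat_lit 64) (nat_lit 5) (nat_lit 68) (nat_lit 5) (nat_lit 65) (nat_lit 5) (nat_lit 355) (nat_lit 274) (nat_lit 151)) (XT.lf (nat_lit 0) (nat_lit 12312178314) (nat_lit 228) (nat_lit 7848177168) (nat_lit 304) (nat_lit 8185159596)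 (nat_lit 61) (nat_lit 5) (nat_lit 64) (nat_lit 5) (nat_lit 65) (nat_lit 5) (nat_lit 356) (nat_lit 274) (nat_lit 150))))) (XT.nd (nat_lit 234) (nat_lit 0) (nat_lit 0) (XT.nd (nat_lit 78) (nat_lit 304) (nat_lit 0) (XT.lf (nat_lit 0) (nat_lit 2404965757) (nat_lit 152) (nat_lit 26042977985) (nat_lit 228) (nat_lit 523955937) (nat_lit 59) (nat_lit 5) (nat_lit 61) (nat_lit 5) (nat_lit 62) (nat_lit 5) (nat_lit 357) (nat_lit 274) (nat_lit 149)) (XT.nd (nat_lit 78) (nat_lit 228) (nat_lit 0) (XT.lf (nat_lit 0) (nat_lit 7416438133) (nat_lit 228) (nat_lit 8126869861) (nat_lit 76) (nat_lit 14069895952) (nat_lit 58) (nat_lit 5) (nat_lit 61) (nat_lit 5) (nat_lit 59) (nat_lit 5) (nat_lit 358) (nat_lit 274) (nat_lit 148)) (XT.lf (nat_lit 0) (nat_lit 10980873932) (nat_lit 228) (nat_lit 4662973905) (nat_lit 304) (nat_lit 14628715934) (nat_lit 55) (nat_lit 5) (nat_lit 58) (nat_lit 5) (nat_lit 59) (nat_lit 5) (nat_lit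 359) (nat_lit 274) (nat_lit 147)))) (XT.nd (nat_lit 34086) (nat_lit 0) (nat_lit 35036) (XT.nd (nat_lit 34008) (nat_lit 0) (nat_lit 36252) (XT.lf (nat_lit 0) (nat_lit 24200802487) (nat_lit 304) (nat_lit 246212875) (nat_lit 76) (nat_lit 6503038597) (nat_lit 55) (nat_lit 5) (nat_lit 59) (nat_lit 5) (nat_lit 56) (nat_lit 5) (nat_lit 360) (nat_lit 274) (nat_lit 146)) (XT.lf (nat_lit 0) (nat_lit 959961813) (nat_lit 0) (nat_lit 959961813) (nat_lit 1140) (nat_lit 1787304013) (nat_lit 532) (nat_lit 5) (nat_lit 532) (nat_lit 3) (nat_lit 547) (nat_lit 3) (nat_lit 275) (nat_lit 275) (nat_lit 230))) (XT.nd (nat_lit 78) (nat_lit 1216) (nat_lit 0) (XT.lf (nat_lit 0) (nat_lit 6053466330) (nat_lit 1140) (nat_lit 328359263) (nat_lit 1216) (nat_lit 1098891666) (nat_lit 532) (nat_lit 5) (nat_lit 547) (nat_lit 3) (nat_lit 548) (nat_lit 5) (nat_lit 276) (nat_lit 275) (nat_lit 229)) (XT.lf (nat_lit 0) (nat_lit 735637548)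 (nat_lit 1216) (nat_lit 2553039807) (nat_lit 1292) (nat_lit 4261030062) (nat_lit 516) (nat_lit 5) (nat_lit 532) (nat_lit 5) (nat_lit 533) (nat_lit 5) (nat_lit 277) (nat_lit 275) (nat_lit 228)))))) (XT.nd (nat_lit 546) (nat_lit 2584) (nat_lit 0) (XT.nd (nat_lit 234) (nat_lit 2432) (nat_lit 0) (XT.nd (nat_lit 78) (nat_lit 0) (nat_lit 76) (XT.lf (nat_lit 76) (nat_lit 2848620807) (nat_lit 0) (nat_lit 34203503) (nat_lit 1292) (nat_lit 4739046384) (nat_lit 517) (nat_lit 5) (nat_lit 516) (nat_lit 5) (nat_lit 533) (nat_lit 5) (nat_lit 278) (nat_lit 275) (nat_lit 227)) (XT.nd (nat_lit 78) (nat_lit 0) (nat_lit 0) (XT.lf (nat_lit 76) (nat_lit 693283564) (nat_lit 0) (nat_lit 4364899537) (nat_lit 1292) (nat_lit 2638806800) (nat_lit 518) (nat_lit 5) (nat_lit 517) (nat_lit 5) (nat_lit 534) (nat_lit 5) (nat_lit 279) (nat_lit 275) (nat_lit 226)) (XT.lf (nat_lit 76) (nat_lit 6344080525) (nat_lit 0) (nat_lit 909623053)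 (nat_lit 1292) (nat_lit 521625318) (nat_lit 518) (nat_lit 5) (nat_lit 517) (nat_lit 5) (nat_lit 534) (nat_lit 5) (nat_lit 280) (nat_lit 275) (nat_lit 225)))) (XT.nd (nat_lit 156) (nat_lit 1292) (nat_lit 0) (XT.nd (nat_lit 78) (nat_lit 0) (nat_lit 0) (XT.lf (nat_lit 0) (nat_lit 1606984268) (nat_lit 1292) (nat_lit 3564955660) (nat_lit 1368) (nat_lit 2684530403) (nat_lit 501) (nat_lit 5) (nat_lit 518) (nat_lit 5) (nat_lit 519) (nat_lit 5) (nat_lit 281) (nat_lit 275) (nat_lit 224)) (XT.lf (nat_lit 76) (nat_lit 2239824881) (nat_lit 0) (nat_lit 1509122762) (nat_lit 1368) (nat_lit 4191957118) (nat_lit 502) (nat_lit 5) (nat_lit 501) (nat_lit 5) (nat_lit 519) (nat_lit 5) (nat_lit 282) (nat_lit 275) (nat_lit 223))) (XT.nd (nat_lit 78) (nat_lit 1368) (nat_lit 0) (XT.lf (nat_lit 76) (nat_lit 181128051) (nat_lit 0) (nat_lit 5742420958) (nat_lit 1368) (nat_lit 2105013264) (nat_lit 503) (nat_lit 5) (nat_lit 502)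 (nat_lit 5) (nat_lit 520) (nat_lit 5) (nat_lit 283) (nat_lit 275) (nat_lit 222)) (XT.lf (nat_lit 0) (nat_lit 22399640) (nat_lit 1368) (nat_lit 1857659867) (nat_lit 1444) (nat_lit 6239270175) (nat_lit 484) (nat_lit 5) (nat_lit 502) (nat_lit 5) (nat_lit 503) (nat_lit 5) (nat_lit 284) (nat_lit 275) (nat_lit 221))))) (XT.nd (nat_lit 234) (nat_lit 2660) (nat_lit 0) (XT.nd (nat_lit 78) (nat_lit 0) (nat_lit 0) (XT.lf (nat_lit 0) (nat_lit 2158744689) (nat_lit 1368) (nat_lit 3918634009) (nat_lit 1444) (nat_lit 2135742215) (nat_lit 485) (nat_lit 5) (nat_lit 503) (nat_lit 5) (nat_lit 504) (nat_lit 5) (nat_lit 285) (nat_lit 275) (nat_lit 220)) (XT.nd (nat_lit 78) (nat_lit 0) (nat_lit 76) (XT.lf (nat_lit 76) (nat_lit 2318689400) (nat_lit 0) (nat_lit 2014156265) (nat_lit 1444) (nat_lit 3977458610) (nat_lit 486) (nat_lit 5) (nat_lit 485) (nat_lit 5) (nat_lit 504) (nat_lit 5) (nat_lit 286) (nat_lit 275) (nat_lit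 219)) (XT.lf (nat_lit 76) (nat_lit 330013069) (nat_lit 0) (nat_lit 6220263528) (nat_lit 1444) (nat_lit 1860614602) (nat_lit 487) (nat_lit 5) (nat_lit 486) (nat_lit 5) (nat_lit 505) (nat_lit 5) (nat_lit 287) (nat_lit 275) (nat_lit 218)))) (XT.nd (nat_lit 156) (nat_lit 1292) (nat_lit 0) (XT.nd (nat_lit 78) (nat_lit 0) (nat_lit 76) (XT.lf (nat_lit 0) (nat_lit 306142228) (nat_lit 1444) (nat_lit 1653270548) (nat_lit 1520) (nat_lit 6555277198) (nat_lit 467) (nat_lit 5) (nat_lit 486) (nat_lit 5) (nat_lit 487) (nat_lit 5) (nat_lit 288) (nat_lit 275) (nat_lit 217)) (XT.lf (nat_lit 0) (nat_lit 2499355105) (nat_lit 1444) (nat_lit 3663910248) (nat_lit 1520) (nat_lit 2458403140) (nat_lit 468) (nat_lit 5) (nat_lit 487) (nat_lit 5) (nat_lit 488) (nat_lit 5) (nat_lit 289) (nat_lit 275) (nat_lit 216))) (XT.nd (nat_lit 78) (nat_lit 1368) (nat_lit 0) (XT.lf (nat_lit 76) (nat_lit 3038471945) (nat_lit 0) (nat_lit 1703729267)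 (nat_lit 1520) (nat_lit 3990023458) (nat_lit 469) (nat_lit 5) (nat_lit 468) (nat_lit 5) (nat_lit 488) (nat_lit 5) (nat_lit 290) (nat_lit 275) (nat_lit 215)) (XT.lf (nat_lit 0) (nat_lit 1095042027) (nat_lit 1444) (nat_lit 5949427792) (nat_lit 1520) (nat_lit 1801828696) (nat_lit 450) (nat_lit 5) (nat_lit 469) (nat_lit 5) (nat_lit 470) (nat_lit 5) (nat_lit 291) (nat_lit 275) (nat_lit 214))))))))
noncomputable def xc77 : XT := (XT.nd (nat_lit 2106) (nat_lit 8740) (nat_lit 0) (XT.nd (nat_lit 1014) (nat_lit 7220) (nat_lit 0) (XT.nd (nat_lit 468) (nat_lit 5092) (nat_lit 0) (XT.nd (nat_lit 234) (nat_lit 3192) (nat_lit 0) (XT.nd (nat_lit 78) (nat_lit 3116) (nat_lit 0) (XT.lf (nat_lit 0) (nat_lit 438579073) (nat_lit 1520) (nat_lit 859088545) (nat_lit 76) (nat_lit 7666259977) (nat_lit 449) (nat_lit 5) (nat_lit 469) (nat_lit 5) (nat_lit 450) (nat_lit 5) (nat_lit 292) (nat_lit 275) (nat_lit 213)) (XT.nd (nat_lit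 78) (nat_lit 1596) (nat_lit 0) (XT.lf (nat_lit 0) (nat_lit 2729577129) (nat_lit 1596) (nat_lit 2843892234) (nat_lit 76) (nat_lit 3511261233) (nat_lit 429) (nat_lit 5) (nat_lit 450) (nat_lit 5) (nat_lit 430) (nat_lit 5) (nat_lit 293) (nat_lit 275) (nat_lit 212)) (XT.lf (nat_lit 0) (nat_lit 4358921057) (nat_lit 1596) (nat_lit 718574390) (nat_lit 1672) (nat_lit 4131937664) (nat_lit 408) (nat_lit 5) (nat_lit 429) (nat_lit 5) (nat_lit 430) (nat_lit 5) (nat_lit 294) (nat_lit 275) (nat_lit 211)))) (XT.nd (nat_lit 78) (nat_lit 1520) (nat_lit 0) (XT.lf (nat_lit 0) (nat_lit 2436863388) (nat_lit 1672) (nat_lit 5068711317) (nat_lit 1748) (nat_lit 1832145619) (nat_lit 386) (nat_lit 5) (nat_lit 408) (nat_lit 5) (nat_lit 409) (nat_lit 5) (nat_lit 295) (nat_lit 275) (nat_lit 210)) (XT.nd (nat_lit 78) (nat_lit 0) (nat_lit 0) (XT.lf (nat_lit 0) (nat_lit 491593487) (nat_lit 1444) (nat_lit 26668282) (nat_lit 1520)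 (nat_lit 8951787758) (nat_lit 366) (nat_lit 5) (nat_lit 385) (nat_lit 5) (nat_lit 386) (nat_lit 5) (nat_lit 296) (nat_lit 275) (nat_lit 209)) (XT.lf (nat_lit 0) (nat_lit 2943891670) (nat_lit 1520) (nat_lit 1497987846) (nat_lit 76) (nat_lit 5163670042) (nat_lit 366) (nat_lit 5) (nat_lit 386) (nat_lit 5) (nat_lit 367) (nat_lit 5) (nat_lit 297) (nat_lit 275) (nat_lit 208))))) (XT.nd (nat_lit 234) (nat_lit 2432) (nat_lit 0) (XT.nd (nat_lit 78) (nat_lit 1824) (nat_lit 0) (XT.lf (nat_lit 0) (nat_lit 5438594946) (nat_lit 912) (nat_lit 3507372324) (nat_lit 76) (nat_lit 799255401) (nat_lit 355) (nat_lit 5) (nat_lit 367) (nat_lit 5) (nat_lit 356) (nat_lit 5) (nat_lit 298) (nat_lit 275) (nat_lit 207)) (XT.nd (nat_lit 78) (nat_lit 912) (nat_lit 0) (XT.lf (nat_lit 0) (nat_lit 4318576954) (nat_lit 912) (nat_lit 3709038930) (nat_lit 988) (nat_lit 1861113741) (nat_lit 343) (nat_lit 5) (nat_lit 355) (nat_lit 5)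 (nat_lit 356) (nat_lit 5) (nat_lit 299) (nat_lit 275) (nat_lit 206)) (XT.lf (nat_lit 0) (nat_lit 651998326) (nat_lit 912) (nat_lit 7675564841) (nat_lit 76) (nat_lit 1708867598) (nat_lit 331) (nat_lit 5) (nat_lit 343) (nat_lit 5) (nat_lit 332) (nat_lit 5) (nat_lit 300) (nat_lit 275) (nat_lit 205)))) (XT.nd (nat_lit 156) (nat_lit 1596) (nat_lit 0) (XT.nd (nat_lit 78) (nat_lit 0) (nat_lit 0) (XT.lf (nat_lit 0) (nat_lit 339368597) (nat_lit 836) (nat_lit 2894395868) (nat_lit 912) (nat_lit 6954212178) (nat_lit 320) (nat_lit 5) (nat_lit 331) (nat_lit 5) (nat_lit 332) (nat_lit 5) (nat_lit 301) (nat_lit 275) (nat_lit 204)) (XT.lf (nat_lit 0) (nat_lit 5917348526) (nat_lit 912) (nat_lit 1707134561) (nat_lit 76) (nat_lit 2719128278) (nat_lit 320) (nat_lit 5) (nat_lit 332) (nat_lit 5) (nat_lit 321) (nat_lit 5) (nat_lit 302) (nat_lit 275) (nat_lit 203))) (XT.nd (nat_lit 78) (nat_lit 836) (nat_lit 0) (XT.lf (nat_lit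 0) (nat_lit 6702437316) (nat_lit 760) (nat_lit 1997668554) (nat_lit 836) (nat_lit 1803464843) (nat_lit 310) (nat_lit 5) (nat_lit 320) (nat_lit 5) (nat_lit 321) (nat_lit 5) (nat_lit 303) (nat_lit 275) (nat_lit 202)) (XT.lf (nat_lit 0) (nat_lit 910054196) (nat_lit 836) (nat_lit 5962099166) (nat_lit 76) (nat_lit 3795610083) (nat_lit 299) (nat_lit 5) (nat_lit 310) (nat_lit 5) (nat_lit 300) (nat_lit 5) (nat_lit 304) (nat_lit 275) (nat_lit 201)))))) (XT.nd (nat_lit 546) (nat_lit 3040) (nat_lit 0) (XT.nd (nat_lit 234) (nat_lit 2736) (nat_lit 0) (XT.nd (nat_lit 78) (nat_lit 760) (nat_lit 0) (XT.lf (nat_lit 0) (nat_lit 2647744951) (nat_lit 684) (nat_lit 1046805547) (nat_lit 760) (nat_lit 7141838274) (nat_lit 290) (nat_lit 5) (nat_lit 299) (nat_lit 5) (nat_lit 300) (nat_lit 5) (nat_lit 305) (nat_lit 275) (nat_lit 200)) (XT.nd (nat_lit 78) (nat_lit 0) (nat_lit 0) (XT.lf (nat_lit 0) (nat_lit 517756020) (nat_lit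 760) (nat_lit 6079409520) (nat_lit 836) (nat_lit 4412241573) (nat_lit 280) (nat_lit 5) (nat_lit 290) (nat_lit 5) (nat_lit 291) (nat_lit 5) (nat_lit 306) (nat_lit 275) (nat_lit 199)) (XT.lf (nat_lit 0) (nat_lit 9546232773) (nat_lit 760) (nat_lit 62388430) (nat_lit 836) (nat_lit 1578584729) (nat_lit 280) (nat_lit 5) (nat_lit 290) (nat_lit 5) (nat_lit 291) (nat_lit 5) (nat_lit 307) (nat_lit 275) (nat_lit 198)))) (XT.nd (nat_lit 156) (nat_lit 1292) (nat_lit 0) (XT.nd (nat_lit 78) (nat_lit 684) (nat_lit 0) (XT.lf (nat_lit 0) (nat_lit 1371752158) (nat_lit 760) (nat_lit 3888401519) (nat_lit 76) (nat_lit 6109050072) (nat_lit 270) (nat_lit 5) (nat_lit 280) (nat_lit 5) (nat_lit 271) (nat_lit 5) (nat_lit 308) (nat_lit 275) (nat_lit 197)) (XT.lf (nat_lit 0) (nat_lit 4402989647) (nat_lit 760) (nat_lit 6204537794) (nat_lit 76) (nat_lit 948671889) (nat_lit 261) (nat_lit 5) (nat_lit 271) (nat_lit 5) (nat_lit 262)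 (nat_lit 5) (nat_lit 309) (nat_lit 275) (nat_lit 196))) (XT.nd (nat_lit 78) (nat_lit 684) (nat_lit 0) (XT.lf (nat_lit 0) (nat_lit 3136154837) (nat_lit 608) (nat_lit 4432973043) (nat_lit 684) (nat_lit 4178820211) (nat_lit 253) (nat_lit 5) (nat_lit 261) (nat_lit 5) (nat_lit 262) (nat_lit 5) (nat_lit 310) (nat_lit 275) (nat_lit 195)) (XT.lf (nat_lit 0) (nat_lit 852252998) (nat_lit 684) (nat_lit 10001060250) (nat_lit 760) (nat_lit 1091696736) (nat_lit 244) (nat_lit 5) (nat_lit 253) (nat_lit 5) (nat_lit 254) (nat_lit 5) (nat_lit 311) (nat_lit 275) (nat_lit 194))))) (XT.nd (nat_lit 234) (nat_lit 1748) (nat_lit 0) (XT.nd (nat_lit 78) (nat_lit 1216) (nat_lit 0) (XT.lf (nat_lit 0) (nat_lit 2112286231) (nat_lit 760) (nat_lit 1515632610) (nat_lit 76) (nat_lit 8518782010) (nat_lit 243) (nat_lit 5) (nat_lit 253) (nat_lit 5) (nat_lit 244) (nat_lit 5) (nat_lit 312) (nat_lit 275) (nat_lit 193)) (XT.nd (nat_lit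 78) (nat_lit 608) (nat_lit 0) (XT.lf (nat_lit 0) (nat_lit 5435990086) (nat_lit 684) (nat_lit 3963637670) (nat_lit 76) (nat_lit 2953921963) (nat_lit 235) (nat_lit 5) (nat_lit 244) (nat_lit 5) (nat_lit 236) (nat_lit 5) (nat_lit 313) (nat_lit 275) (nat_lit 192)) (XT.lf (nat_lit 0) (nat_lit 6060060762) (nat_lit 608) (nat_lit 2838332348) (nat_lit 684) (nat_lit 3667450857) (nat_lit 227) (nat_lit 5) (nat_lit 235) (nat_lit 5) (nat_lit 236) (nat_lit 5) (nat_lit 314) (nat_lit 275) (nat_lit 191)))) (XT.nd (nat_lit 156) (nat_lit 532) (nat_lit 0) (XT.nd (nat_lit 78) (nat_lit 684) (nat_lit 0) (XT.lf (nat_lit 0) (nat_lit 3634764449) (nat_lit 532) (nat_lit 8871734963) (nat_lit 608) (nat_lit 277190106) (nat_lit 220) (nat_lit 5) (nat_lit 227) (nat_lit 5) (nat_lit 228) (nat_lit 5) (nat_lit 315) (nat_lit 275) (nat_lit 190)) (XT.lf (nat_lit 0) (nat_lit 1093772939) (nat_lit 608) (nat_lit 2115537114) (nat_lit 684) (nat_lit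 9797627235) (nat_lit 211) (nat_lit 5) (nat_lit 219) (nat_lit 5) (nat_lit 220) (nat_lit 5) (nat_lit 316) (nat_lit 275) (nat_lit 189))) (XT.nd (nat_lit 78) (nat_lit 532) (nat_lit 0) (XT.lf (nat_lit 0) (nat_lit 6857411492) (nat_lit 684) (nat_lit 1542135354) (nat_lit 76) (nat_lit 4836101207) (nat_lit 211) (nat_lit 5) (nat_lit 220) (nat_lit 5) (nat_lit 212) (nat_lit 5) (nat_lit 317) (nat_lit 275) (nat_lit 188)) (XT.lf (nat_lit 0) (nat_lit 9206066563) (nat_lit 532) (nat_lit 1450670912) (nat_lit 608) (nat_lit 2813664174) (nat_lit 204) (nat_lit 5) (nat_lit 211) (nat_lit 5) (nat_lit 212) (nat_lit 5) (nat_lit 318) (nat_lit 275) (nat_lit 187))))))) (XT.nd (nat_lit 1092) (nat_lit 3496) (nat_lit 0) (XT.nd (nat_lit 546) (nat_lit 2204) (nat_lit 0) (XT.nd (nat_lit 234) (nat_lit 1444) (nat_lit 0) (XT.nd (nat_lit 78) (nat_lit 988) (nat_lit 0) (XT.lf (nat_lit 0) (nat_lit 905840448) (nat_lit 608) (nat_lit 7122274456)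 (nat_lit 76) (nat_lit 5682802949) (nat_lit 196) (nat_lit 5) (nat_lit 204) (nat_lit 5) (nat_lit 197) (nat_lit 5) (nat_lit 319) (nat_lit 275) (nat_lit 186)) (XT.nd (nat_lit 78) (nat_lit 532) (nat_lit 0) (XT.lf (nat_lit 0) (nat_lit 3849027415) (nat_lit 456) (nat_lit 882597054) (nat_lit 532) (nat_lit 9226010526) (nat_lit 190) (nat_lit 5) (nat_lit 196) (nat_lit 5) (nat_lit 197) (nat_lit 5) (nat_lit 320) (nat_lit 275) (nat_lit 185)) (XT.lf (nat_lit 0) (nat_lit 966303327) (nat_lit 532) (nat_lit 7772301725) (nat_lit 608) (nat_lit 5471835515) (nat_lit 183) (nat_lit 5) (nat_lit 190) (nat_lit 5) (nat_lit 191) (nat_lit 5) (nat_lit 321) (nat_lit 275) (nat_lit 184)))) (XT.nd (nat_lit 156) (nat_lit 912) (nat_lit 0) (XT.nd (nat_lit 78) (nat_lit 532) (nat_lit 0) (XT.lf (nat_lit 0) (nat_lit 12466334454) (nat_lit 532) (nat_lit 443966566) (nat_lit 608) (nat_lit 1559654093) (nat_lit 183) (nat_lit 5) (nat_lit 190) (nat_lit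 5) (nat_lit 191) (nat_lit 5) (nat_lit 322) (nat_lit 275) (nat_lit 183)) (XT.lf (nat_lit 0) (nat_lit 2517517521) (nat_lit 532) (nat_lit 5137047985) (nat_lit 76) (nat_lit 7080782717) (nat_lit 176) (nat_lit 5) (nat_lit 183) (nat_lit 5) (nat_lit 177) (nat_lit 5) (nat_lit 323) (nat_lit 275) (nat_lit 182))) (XT.nd (nat_lit 78) (nat_lit 456) (nat_lit 0) (XT.lf (nat_lit 0) (nat_lit 6601706075) (nat_lit 456) (nat_lit 125075553) (nat_lit 532) (nat_lit 8281109769) (nat_lit 170) (nat_lit 5) (nat_lit 176) (nat_lit 5) (nat_lit 177) (nat_lit 5) (nat_lit 324) (nat_lit 275) (nat_lit 181)) (XT.lf (nat_lit 0) (nat_lit 3431717639) (nat_lit 456) (nat_lit 7709339047) (nat_lit 532) (nat_lit 4145992912) (nat_lit 164) (nat_lit 5) (nat_lit 170) (nat_lit 5) (nat_lit 171) (nat_lit 5) (nat_lit 325) (nat_lit 275) (nat_lit 180))))) (XT.nd (nat_lit 234) (nat_lit 1292) (nat_lit 0) (XT.nd (nat_lit 78) (nat_lit 380) (nat_lit 0)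 (XT.lf (nat_lit 0) (nat_lit 127807804) (nat_lit 456) (nat_lit 15139841) (nat_lit 532) (nat_lit 15431007862) (nat_lit 157) (nat_lit 5) (nat_lit 163) (nat_lit 5) (nat_lit 164) (nat_lit 5) (nat_lit 326) (nat_lit 275) (nat_lit 179)) (XT.nd (nat_lit 78) (nat_lit 380) (nat_lit 0) (XT.lf (nat_lit 0) (nat_lit 4609517089) (nat_lit 532) (nat_lit 3352922989) (nat_lit 76) (nat_lit 7904387023) (nat_lit 157) (nat_lit 5) (nat_lit 164) (nat_lit 5) (nat_lit 158) (nat_lit 5) (nat_lit 327) (nat_lit 275) (nat_lit 178)) (XT.lf (nat_lit 0) (nat_lit 9186424276) (nat_lit 380) (nat_lit 56942473) (nat_lit 456) (nat_lit 6924464446) (nat_lit 152) (nat_lit 5) (nat_lit 157) (nat_lit 5) (nat_lit 158) (nat_lit 5) (nat_lit 328) (nat_lit 275) (nat_lit 177)))) (XT.nd (nat_lit 156) (nat_lit 380) (nat_lit 0) (XT.nd (nat_lit 78) (nat_lit 456) (nat_lit 0) (XT.lf (nat_lit 0) (nat_lit 5655039550) (nat_lit 456) (nat_lit 8447280673) (nat_lit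 532) (nat_lit 2373835089) (nat_lit 146) (nat_lit 5) (nat_lit 152) (nat_lit 5) (nat_lit 153) (nat_lit 5) (nat_lit 329) (nat_lit 275) (nat_lit 176)) (XT.lf (nat_lit 0) (nat_lit 1946505710) (nat_lit 380) (nat_lit 371453014) (nat_lit 456) (nat_lit 14474781439) (nat_lit 140) (nat_lit 5) (nat_lit 145) (nat_lit 5) (nat_lit 146) (nat_lit 5) (nat_lit 330) (nat_lit 275) (nat_lit 175))) (XT.nd (nat_lit 78) (nat_lit 380) (nat_lit 0) (XT.lf (nat_lit 0) (nat_lit 7218633737) (nat_lit 456) (nat_lit 1976550638) (nat_lit 76) (nat_lit 7921327576) (nat_lit 140) (nat_lit 5) (nat_lit 146) (nat_lit 5) (nat_lit 141) (nat_lit 5) (nat_lit 331) (nat_lit 275) (nat_lit 174)) (XT.lf (nat_lit 0) (nat_lit 11390677812) (nat_lit 380) (nat_lit 927612283) (nat_lit 456) (nat_lit 5130678040) (nat_lit 135) (nat_lit 5) (nat_lit 140) (nat_lit 5) (nat_lit 141) (nat_lit 5) (nat_lit 332) (nat_lit 275) (nat_lit 173)))))) (XT.nd (nat_lit 546)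 (nat_lit 1596) (nat_lit 0) (XT.nd (nat_lit 234) (nat_lit 1064) (nat_lit 0) (XT.nd (nat_lit 78) (nat_lit 456) (nat_lit 0) (XT.lf (nat_lit 0) (nat_lit 7407345287) (nat_lit 380) (nat_lit 10250369978) (nat_lit 456) (nat_lit 131957322) (nat_lit 130) (nat_lit 5) (nat_lit 135) (nat_lit 5) (nat_lit 136) (nat_lit 5) (nat_lit 333) (nat_lit 275) (nat_lit 172)) (XT.nd (nat_lit 78) (nat_lit 0) (nat_lit 0) (XT.lf (nat_lit 0) (nat_lit 3187811828) (nat_lit 380) (nat_lit 1807589953) (nat_lit 456) (nat_lit 13143665184) (nat_lit 124) (nat_lit 5) (nat_lit 129) (nat_lit 5) (nat_lit 130) (nat_lit 5) (nat_lit 334) (nat_lit 275) (nat_lit 171)) (XT.lf (nat_lit 0) (nat_lit 10366985282) (nat_lit 456) (nat_lit 1271322175) (nat_lit 76) (nat_lit 6858783736) (nat_lit 124) (nat_lit 5) (nat_lit 130) (nat_lit 5) (nat_lit 125) (nat_lit 5) (nat_lit 335) (nat_lit 275) (nat_lit 170)))) (XT.nd (nat_lit 156) (nat_lit 304) (nat_lit 0)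 (XT.nd (nat_lit 78) (nat_lit 456) (nat_lit 0) (XT.lf (nat_lit 0) (nat_lit 12942800566) (nat_lit 304) (nat_lit 3030359258) (nat_lit 380) (nat_lit 2891236570) (nat_lit 120) (nat_lit 5) (nat_lit 124) (nat_lit 5) (nat_lit 125) (nat_lit 5) (nat_lit 336) (nat_lit 275) (nat_lit 169)) (XT.lf (nat_lit 0) (nat_lit 2551234072) (nat_lit 456) (nat_lit 10861260469) (nat_lit 76) (nat_lit 5828323910) (nat_lit 114) (nat_lit 5) (nat_lit 120) (nat_lit 5) (nat_lit 115) (nat_lit 5) (nat_lit 337) (nat_lit 275) (nat_lit 168))) (XT.nd (nat_lit 78) (nat_lit 0) (nat_lit 0) (XT.lf (nat_lit 0) (nat_lit 3536128692) (nat_lit 304) (nat_lit 4643385548) (nat_lit 380) (nat_lit 11447408814) (nat_lit 110) (nat_lit 5) (nat_lit 114) (nat_lit 5) (nat_lit 115) (nat_lit 5) (nat_lit 338) (nat_lit 275) (nat_lit 167)) (XT.lf (nat_lit 0) (nat_lit 14057554365) (nat_lit 380) (nat_lit 1571288637) (nat_lit 76) (nat_lit 4394157743) (nat_lit 110)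 (nat_lit 5) (nat_lit 115) (nat_lit 5) (nat_lit 111) (nat_lit 5) (nat_lit 339) (nat_lit 275) (nat_lit 166))))) (XT.nd (nat_lit 234) (nat_lit 608) (nat_lit 0) (XT.nd (nat_lit 78) (nat_lit 684) (nat_lit 0) (XT.lf (nat_lit 0) (nat_lit 13497463178) (nat_lit 304) (nat_lit 6712120374) (nat_lit 380) (nat_lit 219432199) (nat_lit 106) (nat_lit 5) (nat_lit 110) (nat_lit 5) (nat_lit 111) (nat_lit 5) (nat_lit 340) (nat_lit 275) (nat_lit 165)) (XT.nd (nat_lit 78) (nat_lit 304) (nat_lit 0) (XT.lf (nat_lit 0) (nat_lit 5684252965) (nat_lit 380) (nat_lit 12630651694) (nat_lit 76) (nat_lit 2530373408) (nat_lit 101) (nat_lit 5) (nat_lit 106) (nat_lit 5) (nat_lit 102) (nat_lit 5) (nat_lit 341) (nat_lit 275) (nat_lit 164)) (XT.lf (nat_lit 0) (nat_lit 2592426799) (nat_lit 304) (nat_lit 9258208748) (nat_lit 380) (nat_lit 9421599675) (nat_lit 97) (nat_lit 5) (nat_lit 101) (nat_lit 5) (nat_lit 102) (nat_lit 5) (nat_lit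 342) (nat_lit 275) (nat_lit 163)))) (XT.nd (nat_lit 156) (nat_lit 304) (nat_lit 0) (XT.nd (nat_lit 78) (nat_lit 304) (nat_lit 0) (XT.lf (nat_lit 0) (nat_lit 18268490823) (nat_lit 380) (nat_lit 3297931196) (nat_lit 76) (nat_lit 144256573) (nat_lit 97) (nat_lit 5) (nat_lit 102) (nat_lit 5) (nat_lit 98) (nat_lit 5) (nat_lit 343) (nat_lit 275) (nat_lit 162)) (XT.lf (nat_lit 0) (nat_lit 2806089198) (nat_lit 304) (nat_lit 9560062752) (nat_lit 76) (nat_lit 9793275106) (nat_lit 93) (nat_lit 5) (nat_lit 97) (nat_lit 5) (nat_lit 94) (nat_lit 5) (nat_lit 344) (nat_lit 275) (nat_lit 161))) (XT.nd (nat_lit 78) (nat_lit 0) (nat_lit 0) (XT.lf (nat_lit 0) (nat_lit 6428121224) (nat_lit 304) (nat_lit 2812120208) (nat_lit 380) (nat_lit 13380044213) (nat_lit 89) (nat_lit 5) (nat_lit 93) (nat_lit 5) (nat_lit 94) (nat_lit 5) (nat_lit 345) (nat_lit 275) (nat_lit 160)) (XT.lf (nat_lit 0) (nat_lit 15959252931) (nat_lit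 380) (nat_lit 143291860) (nat_lit 76) (nat_lit 6990594900) (nat_lit 89) (nat_lit 5) (nat_lit 94) (nat_lit 5) (nat_lit 90) (nat_lit 5) (nat_lit 346) (nat_lit 275) (nat_lit 159))))))))
noncomputable def xc78 : XT := (XT.nd (nat_lit 36114) (nat_lit 0) (nat_lit 12464) (XT.nd (nat_lit 1014) (nat_lit 228) (nat_lit 0) (XT.nd (nat_lit 468) (nat_lit 988) (nat_lit 0) (XT.nd (nat_lit 234) (nat_lit 532) (nat_lit 0) (XT.nd (nat_lit 78) (nat_lit 608) (nat_lit 0) (XT.lf (nat_lit 0) (nat_lit 16555893965) (nat_lit 228) (nat_lit 6431782022) (nat_lit 304) (nat_lit 590352753) (nat_lit 86) (nat_lit 5) (nat_lit 89) (nat_lit 5) (nat_lit 90) (nat_lit 5) (nat_lit 347) (nat_lit 275) (nat_lit 158)) (XT.nd (nat_lit 78) (nat_lit 228) (nat_lit 0) (XT.lf (nat_lit 0) (nat_lit 6138344157) (nat_lit 380) (nat_lit 14360165131) (nat_lit 76) (nat_lit 3576772379) (nat_lit 81) (nat_lit 5) (nat_lit 86) (nat_lit 5) (nat_lit 82) (nat_lit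 5) (nat_lit 348) (nat_lit 275) (nat_lit 157)) (XT.lf (nat_lit 0) (nat_lit 2419493063) (nat_lit 228) (nat_lit 10730094935) (nat_lit 304) (nat_lit 11436017744) (nat_lit 78) (nat_lit 5) (nat_lit 81) (nat_lit 5) (nat_lit 82) (nat_lit 5) (nat_lit 349) (nat_lit 275) (nat_lit 156)))) (XT.nd (nat_lit 78) (nat_lit 532) (nat_lit 0) (XT.lf (nat_lit 0) (nat_lit 19870508069) (nat_lit 228) (nat_lit 580347944) (nat_lit 304) (nat_lit 4658795357) (nat_lit 78) (nat_lit 5) (nat_lit 81) (nat_lit 5) (nat_lit 82) (nat_lit 5) (nat_lit 350) (nat_lit 275) (nat_lit 155)) (XT.nd (nat_lit 78) (nat_lit 228) (nat_lit 0) (XT.lf (nat_lit 0) (nat_lit 2418684384) (nat_lit 304) (nat_lit 13398471382) (nat_lit 76) (nat_lit 9829418599) (nat_lit 74) (nat_lit 5) (nat_lit 78) (nat_lit 5) (nat_lit 75) (nat_lit 5) (nat_lit 351) (nat_lit 275) (nat_lit 154)) (XT.lf (nat_lit 0) (nat_lit 4123780021) (nat_lit 228) (nat_lit 5571193421) (nat_lit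 304) (nat_lit 16503025269) (nat_lit 71) (nat_lit 5) (nat_lit 74) (nat_lit 5) (nat_lit 75) (nat_lit 5) (nat_lit 352) (nat_lit 275) (nat_lit 153))))) (XT.nd (nat_lit 234) (nat_lit 456) (nat_lit 0) (XT.nd (nat_lit 78) (nat_lit 532) (nat_lit 0) (XT.lf (nat_lit 0) (nat_lit 17296565614) (nat_lit 304) (nat_lit 4469634919) (nat_lit 76) (nat_lit 4997629961) (nat_lit 71) (nat_lit 5) (nat_lit 75) (nat_lit 5) (nat_lit 72) (nat_lit 5) (nat_lit 353) (nat_lit 275) (nat_lit 152)) (XT.nd (nat_lit 78) (nat_lit 304) (nat_lit 0) (XT.lf (nat_lit 0) (nat_lit 13779722125) (nat_lit 228) (nat_lit 11456968228) (nat_lit 304) (nat_lit 2107742032) (nat_lit 68) (nat_lit 5) (nat_lit 71) (nat_lit 5) (nat_lit 72) (nat_lit 5) (nat_lit 354) (nat_lit 275) (nat_lit 151)) (XT.lf (nat_lit 0) (nat_lit 4695126362) (nat_lit 228) (nat_lit 750590643) (nat_lit 304) (nat_lit 22495130830) (nat_lit 64) (nat_lit 5) (nat_lit 67) (nat_lit 5) (nat_lit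 68) (nat_lit 5) (nat_lit 355) (nat_lit 275) (nat_lit 150)))) (XT.nd (nat_lit 156) (nat_lit 228) (nat_lit 0) (XT.nd (nat_lit 78) (nat_lit 228) (nat_lit 0) (XT.lf (nat_lit 0) (nat_lit 13340741336) (nat_lit 304) (nat_lit 4972745812) (nat_lit 76) (nat_lit 10238522490) (nat_lit 64) (nat_lit 5) (nat_lit 68) (nat_lit 5) (nat_lit 65) (nat_lit 5) (nat_lit 356) (nat_lit 275) (nat_lit 149)) (XT.lf (nat_lit 0) (nat_lit 14001366609) (nat_lit 228) (nat_lit 7551817989) (nat_lit 304) (nat_lit 7626714684) (nat_lit 61) (nat_lit 5) (nat_lit 64) (nat_lit 5) (nat_lit 65) (nat_lit 5) (nat_lit 357) (nat_lit 275) (nat_lit 148))) (XT.nd (nat_lit 78) (nat_lit 0) (nat_lit 0) (XT.lf (nat_lit 0) (nat_lit 249689053) (nat_lit 228) (nat_lit 26039096062) (nat_lit 76) (nat_lit 3536485679) (nat_lit 58) (nat_lit 5) (nat_lit 61) (nat_lit 5) (nat_lit 59) (nat_lit 5) (nat_lit 358) (nat_lit 275) (nat_lit 147)) (XT.lf (nat_lit 0) (nat_lit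 8398431994) (nat_lit 228) (nat_lit 7087819692) (nat_lit 76) (nat_lit 14999954248) (nat_lit 58) (nat_lit 5) (nat_lit 61) (nat_lit 5) (nat_lit 59) (nat_lit 5) (nat_lit 359) (nat_lit 275) (nat_lit 146)))))) (XT.nd (nat_lit 34554) (nat_lit 0) (nat_lit 31312) (XT.nd (nat_lit 34242) (nat_lit 0) (nat_lit 33820) (XT.nd (nat_lit 34086) (nat_lit 0) (nat_lit 34960) (XT.lf (nat_lit 0) (nat_lit 12572343596) (nat_lit 228) (nat_lit 4286393036) (nat_lit 304) (nat_lit 14306894413) (nat_lit 55) (nat_lit 5) (nat_lit 58) (nat_lit 5) (nat_lit 59) (nat_lit 5) (nat_lit 360) (nat_lit 275) (nat_lit 145)) (XT.nd (nat_lit 78) (nat_lit 0) (nat_lit 0) (XT.lf (nat_lit 0) (nat_lit 327243798) (nat_lit 1292) (nat_lit 1723389049) (nat_lit 1292) (nat_lit 1723389049) (nat_lit 515) (nat_lit 3) (nat_lit 532) (nat_lit 3) (nat_lit 532) (nat_lit 5) (nat_lit 276) (nat_lit 276) (nat_lit 228)) (XT.lf (nat_lit 76) (nat_lit 1827737904) (nat_lit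 0) (nat_lit 888996236) (nat_lit 1292) (nat_lit 4901786511) (nat_lit 516) (nat_lit 5) (nat_lit 515) (nat_lit 3) (nat_lit 532) (nat_lit 5) (nat_lit 277) (nat_lit 276) (nat_lit 227)))) (XT.nd (nat_lit 156) (nat_lit 1216) (nat_lit 0) (XT.nd (nat_lit 78) (nat_lit 0) (nat_lit 0) (XT.lf (nat_lit 0) (nat_lit 4800415642) (nat_lit 1216) (nat_lit 441943850) (nat_lit 1292) (nat_lit 2449627132) (nat_lit 516) (nat_lit 5) (nat_lit 532) (nat_lit 5) (nat_lit 533) (nat_lit 5) (nat_lit 278) (nat_lit 276) (nat_lit 226)) (XT.lf (nat_lit 76) (nat_lit 5086273958) (nat_lit 0) (nat_lit 1821968719) (nat_lit 1292) (nat_lit 860245430) (nat_lit 517) (nat_lit 5) (nat_lit 516) (nat_lit 5) (nat_lit 533) (nat_lit 5) (nat_lit 279) (nat_lit 276) (nat_lit 225))) (XT.nd (nat_lit 78) (nat_lit 0) (nat_lit 0) (XT.lf (nat_lit 0) (nat_lit 1173435014) (nat_lit 1292) (nat_lit 4932428679) (nat_lit 1368) (nat_lit 1742170632) (nat_lit 500)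 (nat_lit 5) (nat_lit 517) (nat_lit 5) (nat_lit 518) (nat_lit 5) (nat_lit 280) (nat_lit 276) (nat_lit 224)) (XT.lf (nat_lit 76) (nat_lit 736773173) (nat_lit 0) (nat_lit 2481238484) (nat_lit 1368) (nat_lit 4712669443) (nat_lit 501) (nat_lit 5) (nat_lit 500) (nat_lit 5) (nat_lit 518) (nat_lit 5) (nat_lit 281) (nat_lit 276) (nat_lit 223))))) (XT.nd (nat_lit 234) (nat_lit 1292) (nat_lit 0) (XT.nd (nat_lit 78) (nat_lit 1292) (nat_lit 0) (XT.lf (nat_lit 0) (nat_lit 5294004783) (nat_lit 1292) (nat_lit 1424209175) (nat_lit 1368) (nat_lit 1298249367) (nat_lit 501) (nat_lit 5) (nat_lit 518) (nat_lit 5) (nat_lit 519) (nat_lit 5) (nat_lit 282) (nat_lit 276) (nat_lit 222)) (XT.nd (nat_lit 78) (nat_lit 1292) (nat_lit 0) (XT.lf (nat_lit 76) (nat_lit 4518248599) (nat_lit 0) (nat_lit 2890350440) (nat_lit 1368) (nat_lit 696749501) (nat_lit 502) (nat_lit 5) (nat_lit 501) (nat_lit 5) (nat_lit 519) (nat_lit 5) (nat_lit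 283) (nat_lit 276) (nat_lit 221)) (XT.lf (nat_lit 0) (nat_lit 1335937571) (nat_lit 1368) (nat_lit 5763413491) (nat_lit 1444) (nat_lit 1098133378) (nat_lit 484) (nat_lit 5) (nat_lit 502) (nat_lit 5) (nat_lit 503) (nat_lit 5) (nat_lit 284) (nat_lit 276) (nat_lit 220)))) (XT.nd (nat_lit 156) (nat_lit 1292) (nat_lit 0) (XT.nd (nat_lit 78) (nat_lit 0) (nat_lit 76) (XT.lf (nat_lit 76) (nat_lit 329147161) (nat_lit 0) (nat_lit 3070493914) (nat_lit 1444) (nat_lit 4893112898) (nat_lit 485) (nat_lit 5) (nat_lit 484) (nat_lit 5) (nat_lit 503) (nat_lit 5) (nat_lit 285) (nat_lit 276) (nat_lit 219)) (XT.lf (nat_lit 0) (nat_lit 5506883738) (nat_lit 1368) (nat_lit 1758861325) (nat_lit 1444) (nat_lit 1125554166) (nat_lit 485) (nat_lit 5) (nat_lit 503) (nat_lit 5) (nat_lit 504) (nat_lit 5) (nat_lit 286) (nat_lit 276) (nat_lit 218))) (XT.nd (nat_lit 78) (nat_lit 1368) (nat_lit 0) (XT.lf (nat_lit 76) (nat_lit 4628634785)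 (nat_lit 0) (nat_lit 3036486690) (nat_lit 1444) (nat_lit 827972549) (nat_lit 486) (nat_lit 5) (nat_lit 485) (nat_lit 5) (nat_lit 504) (nat_lit 5) (nat_lit 287) (nat_lit 276) (nat_lit 217)) (XT.lf (nat_lit 0) (nat_lit 1249449838) (nat_lit 1444) (nat_lit 5991147079) (nat_lit 1520) (nat_lit 1357700466) (nat_lit 467) (nat_lit 5) (nat_lit 486) (nat_lit 5) (nat_lit 487) (nat_lit 5) (nat_lit 288) (nat_lit 276) (nat_lit 216))))))) (XT.nd (nat_lit 1092) (nat_lit 7676) (nat_lit 0) (XT.nd (nat_lit 546) (nat_lit 6688) (nat_lit 0) (XT.nd (nat_lit 234) (nat_lit 4484) (nat_lit 0) (XT.nd (nat_lit 78) (nat_lit 0) (nat_lit 76) (XT.lf (nat_lit 76) (nat_lit 556581133) (nat_lit 0) (nat_lit 2811629459) (nat_lit 1520) (nat_lit 5338576541) (nat_lit 468) (nat_lit 5) (nat_lit 467) (nat_lit 5) (nat_lit 487) (nat_lit 5) (nat_lit 289) (nat_lit 276) (nat_lit 215)) (XT.nd (nat_lit 78) (nat_lit 0) (nat_lit 0) (XT.lf (nat_lit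 0) (nat_lit 5544248255) (nat_lit 1444) (nat_lit 1491570334) (nat_lit 1520) (nat_lit 1782882429) (nat_lit 468) (nat_lit 5) (nat_lit 487) (nat_lit 5) (nat_lit 488) (nat_lit 5) (nat_lit 290) (nat_lit 276) (nat_lit 214)) (XT.lf (nat_lit 76) (nat_lit 5374856414) (nat_lit 0) (nat_lit 2407598550) (nat_lit 1520) (nat_lit 1151622050) (nat_lit 469) (nat_lit 5) (nat_lit 468) (nat_lit 5) (nat_lit 488) (nat_lit 5) (nat_lit 291) (nat_lit 276) (nat_lit 213)))) (XT.nd (nat_lit 156) (nat_lit 1596) (nat_lit 0) (XT.nd (nat_lit 78) (nat_lit 1520) (nat_lit 0) (XT.lf (nat_lit 0) (nat_lit 1013442242) (nat_lit 1520) (nat_lit 5659772725) (nat_lit 76) (nat_lit 2379762918) (nat_lit 449) (nat_lit 5) (nat_lit 469) (nat_lit 5) (nat_lit 450) (nat_lit 5) (nat_lit 292) (nat_lit 276) (nat_lit 212)) (XT.lf (nat_lit 0) (nat_lit 1377842293) (nat_lit 1520) (nat_lit 1844961914) (nat_lit 1596) (nat_lit 5952628727) (nat_lit 429) (nat_lit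 5) (nat_lit 449) (nat_lit 5) (nat_lit 450) (nat_lit 5) (nat_lit 293) (nat_lit 276) (nat_lit 211))) (XT.nd (nat_lit 78) (nat_lit 1596) (nat_lit 0) (XT.lf (nat_lit 0) (nat_lit 5504306319) (nat_lit 1596) (nat_lit 661972264) (nat_lit 76) (nat_lit 3135203953) (nat_lit 429) (nat_lit 5) (nat_lit 450) (nat_lit 5) (nat_lit 430) (nat_lit 5) (nat_lit 294) (nat_lit 276) (nat_lit 210)) (XT.lf (nat_lit 0) (nat_lit 6720142203) (nat_lit 1596) (nat_lit 1138569280) (nat_lit 1672) (nat_lit 1572549964) (nat_lit 408) (nat_lit 5) (nat_lit 429) (nat_lit 5) (nat_lit 430) (nat_lit 5) (nat_lit 295) (nat_lit 276) (nat_lit 209))))) (XT.nd (nat_lit 234) (nat_lit 2660) (nat_lit 0) (XT.nd (nat_lit 78) (nat_lit 2280) (nat_lit 0) (XT.lf (nat_lit 0) (nat_lit 720841922) (nat_lit 1748) (nat_lit 4809131234) (nat_lit 76) (nat_lit 4034673342) (nat_lit 385) (nat_lit 5) (nat_lit 408) (nat_lit 5) (nat_lit 386) (nat_lit 5) (nat_lit 296)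 (nat_lit 276) (nat_lit 208)) (XT.nd (nat_lit 78) (nat_lit 836) (nat_lit 0) (XT.lf (nat_lit 0) (nat_lit 2755744603) (nat_lit 1444) (nat_lit 300632865) (nat_lit 1520) (nat_lit 6645587780) (nat_lit 366) (nat_lit 5) (nat_lit 385) (nat_lit 5) (nat_lit 386) (nat_lit 5) (nat_lit 297) (nat_lit 276) (nat_lit 207)) (XT.lf (nat_lit 0) (nat_lit 702561143) (nat_lit 836) (nat_lit 4781581856) (nat_lit 912) (nat_lit 4358850461) (nat_lit 355) (nat_lit 5) (nat_lit 366) (nat_lit 5) (nat_lit 367) (nat_lit 5) (nat_lit 298) (nat_lit 276) (nat_lit 206)))) (XT.nd (nat_lit 156) (nat_lit 1672) (nat_lit 0) (XT.nd (nat_lit 78) (nat_lit 988) (nat_lit 0) (XT.lf (nat_lit 0) (nat_lit 7990890910) (nat_lit 912) (nat_lit 1361921572) (nat_lit 76) (nat_lit 635349260) (nat_lit 355) (nat_lit 5) (nat_lit 367) (nat_lit 5) (nat_lit 356) (nat_lit 5) (nat_lit 299) (nat_lit 276) (nat_lit 205)) (XT.lf (nat_lit 0) (nat_lit 459144186) (nat_lit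 988) (nat_lit 3477854716) (nat_lit 76) (nat_lit 6200066421) (nat_lit 342) (nat_lit 5) (nat_lit 355) (nat_lit 5) (nat_lit 343) (nat_lit 5) (nat_lit 300) (nat_lit 276) (nat_lit 204))) (XT.nd (nat_lit 78) (nat_lit 836) (nat_lit 0) (XT.lf (nat_lit 0) (nat_lit 2967825793) (nat_lit 912) (nat_lit 5647321715) (nat_lit 76) (nat_lit 1674940047) (nat_lit 331) (nat_lit 5) (nat_lit 343) (nat_lit 5) (nat_lit 332) (nat_lit 5) (nat_lit 301) (nat_lit 276) (nat_lit 203)) (XT.lf (nat_lit 0) (nat_lit 2571418084) (nat_lit 836) (nat_lit 3003171098) (nat_lit 912) (nat_lit 4872683745) (nat_lit 320) (nat_lit 5) (nat_lit 331) (nat_lit 5) (nat_lit 332) (nat_lit 5) (nat_lit 302) (nat_lit 276) (nat_lit 202)))))) (XT.nd (nat_lit 546) (nat_lit 3876) (nat_lit 0) (XT.nd (nat_lit 234) (nat_lit 2204) (nat_lit 0) (XT.nd (nat_lit 78) (nat_lit 836) (nat_lit 0) (XT.lf (nat_lit 0) (nat_lit 449836442) (nat_lit 760) (nat_lit 7826272896)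 (nat_lit 836) (nat_lit 2332761502) (nat_lit 310) (nat_lit 5) (nat_lit 320) (nat_lit 5) (nat_lit 321) (nat_lit 5) (nat_lit 303) (nat_lit 276) (nat_lit 201)) (XT.nd (nat_lit 78) (nat_lit 760) (nat_lit 0) (XT.lf (nat_lit 0) (nat_lit 311197182) (nat_lit 836) (nat_lit 1706697472) (nat_lit 76) (nat_lit 8756780848) (nat_lit 309) (nat_lit 5) (nat_lit 320) (nat_lit 5) (nat_lit 310) (nat_lit 5) (nat_lit 304) (nat_lit 276) (nat_lit 200)) (XT.lf (nat_lit 0) (nat_lit 3033751002) (nat_lit 836) (nat_lit 3937372163) (nat_lit 76) (nat_lit 3973429288) (nat_lit 299) (nat_lit 5) (nat_lit 310) (nat_lit 5) (nat_lit 300) (nat_lit 5) (nat_lit 305) (nat_lit 276) (nat_lit 199)))) (XT.nd (nat_lit 156) (nat_lit 760) (nat_lit 0) (XT.nd (nat_lit 78) (nat_lit 760) (nat_lit 0) (XT.lf (nat_lit 0) (nat_lit 4895016649) (nat_lit 684) (nat_lit 959780542) (nat_lit 760) (nat_lit 5264417379) (nat_lit 290) (nat_lit 5) (nat_lit 299) (nat_lit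 5) (nat_lit 300) (nat_lit 5) (nat_lit 306) (nat_lit 276) (nat_lit 198)) (XT.lf (nat_lit 0) (nat_lit 2706781138) (nat_lit 760) (nat_lit 6092876266) (nat_lit 836) (nat_lit 2498699935) (nat_lit 280) (nat_lit 5) (nat_lit 290) (nat_lit 5) (nat_lit 291) (nat_lit 5) (nat_lit 307) (nat_lit 276) (nat_lit 197))) (XT.nd (nat_lit 78) (nat_lit 0) (nat_lit 0) (XT.lf (nat_lit 0) (nat_lit 359345277) (nat_lit 760) (nat_lit 11019413556) (nat_lit 76) (nat_lit 103814445) (nat_lit 270) (nat_lit 5) (nat_lit 280) (nat_lit 5) (nat_lit 271) (nat_lit 5) (nat_lit 308) (nat_lit 276) (nat_lit 196)) (XT.lf (nat_lit 0) (nat_lit 3330937380) (nat_lit 760) (nat_lit 1864036430) (nat_lit 76) (nat_lit 6475799084) (nat_lit 270) (nat_lit 5) (nat_lit 280) (nat_lit 5) (nat_lit 271) (nat_lit 5) (nat_lit 309) (nat_lit 276) (nat_lit 195))))) (XT.nd (nat_lit 234) (nat_lit 1824) (nat_lit 0) (XT.nd (nat_lit 78) (nat_lit 1368) (nat_lit 0) (XT.lf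 (nat_lit 0) (nat_lit 6412418502) (nat_lit 760) (nat_lit 4247258625) (nat_lit 76) (nat_lit 1204548472) (nat_lit 261) (nat_lit 5) (nat_lit 271) (nat_lit 5) (nat_lit 262) (nat_lit 5) (nat_lit 310) (nat_lit 276) (nat_lit 194)) (XT.nd (nat_lit 78) (nat_lit 760) (nat_lit 0) (XT.lf (nat_lit 0) (nat_lit 5338880419) (nat_lit 608) (nat_lit 4293671379) (nat_lit 684) (nat_lit 2430027223) (nat_lit 253) (nat_lit 5) (nat_lit 261) (nat_lit 5) (nat_lit 262) (nat_lit 5) (nat_lit 311) (nat_lit 276) (nat_lit 193)) (XT.lf (nat_lit 0) (nat_lit 701523445) (nat_lit 760) (nat_lit 9283254691) (nat_lit 76) (nat_lit 2281475215) (nat_lit 243) (nat_lit 5) (nat_lit 253) (nat_lit 5) (nat_lit 244) (nat_lit 5) (nat_lit 312) (nat_lit 276) (nat_lit 192)))) (XT.nd (nat_lit 156) (nat_lit 1216) (nat_lit 0) (XT.nd (nat_lit 78) (nat_lit 0) (nat_lit 0) (XT.lf (nat_lit 0) (nat_lit 518498953) (nat_lit 608) (nat_lit 3418991965) (nat_lit 684)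 (nat_lit 8537375721) (nat_lit 235) (nat_lit 5) (nat_lit 243) (nat_lit 5) (nat_lit 244) (nat_lit 5) (nat_lit 313) (nat_lit 276) (nat_lit 191)) (XT.lf (nat_lit 0) (nat_lit 7321630623) (nat_lit 684) (nat_lit 2010065000) (nat_lit 76) (nat_lit 3357039938) (nat_lit 235) (nat_lit 5) (nat_lit 244) (nat_lit 5) (nat_lit 236) (nat_lit 5) (nat_lit 314) (nat_lit 276) (nat_lit 190))) (XT.nd (nat_lit 78) (nat_lit 608) (nat_lit 0) (XT.lf (nat_lit 0) (nat_lit 8280720830) (nat_lit 608) (nat_lit 2570250853) (nat_lit 684) (nat_lit 2057193870) (nat_lit 227) (nat_lit 5) (nat_lit 235) (nat_lit 5) (nat_lit 236) (nat_lit 5) (nat_lit 315) (nat_lit 276) (nat_lit 189)) (XT.lf (nat_lit 0) (nat_lit 1382067780) (nat_lit 608) (nat_lit 7360916345) (nat_lit 76) (nat_lit 4390080704) (nat_lit 219) (nat_lit 5) (nat_lit 227) (nat_lit 5) (nat_lit 220) (nat_lit 5) (nat_lit 316) (nat_lit 276) (nat_lit 188))))))))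
noncomputable def xc79 : XT := (XT.nd (nat_lit 2106) (nat_lit 2964) (nat_lit 0) (XT.nd (nat_lit 1014) (nat_lit 4180) (nat_lit 0) (XT.nd (nat_lit 468) (nat_lit 2356) (nat_lit 0) (XT.nd (nat_lit 234) (nat_lit 1596) (nat_lit 0) (XT.nd (nat_lit 78) (nat_lit 532) (nat_lit 0) (XT.lf (nat_lit 0) (nat_lit 3153777754) (nat_lit 608) (nat_lit 1780341561) (nat_lit 684) (nat_lit 8429585719) (nat_lit 211) (nat_lit 5) (nat_lit 219) (nat_lit 5) (nat_lit 220) (nat_lit 5) (nat_lit 317) (nat_lit 276) (nat_lit 187)) (XT.nd (nat_lit 78) (nat_lit 0) (nat_lit 0) (XT.lf (nat_lit 0) (nat_lit 415145903) (nat_lit 532) (nat_lit 8234293371) (nat_lit 608) (nat_lit 4950707672) (nat_lit 204) (nat_lit 5) (nat_lit 211) (nat_lit 5) (nat_lit 212) (nat_lit 5) (nat_lit 318) (nat_lit 276) (nat_lit 186)) (XT.lf (nat_lit 0) (nat_lit 11447932357) (nat_lit 532) (nat_lit 1078755236) (nat_lit 608) (nat_lit 1316001300) (nat_lit 204) (nat_lit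 5) (nat_lit 211) (nat_lit 5) (nat_lit 212) (nat_lit 5) (nat_lit 319) (nat_lit 276) (nat_lit 185)))) (XT.nd (nat_lit 78) (nat_lit 988) (nat_lit 0) (XT.lf (nat_lit 0) (nat_lit 2464325805) (nat_lit 608) (nat_lit 5352364152) (nat_lit 76) (nat_lit 6274148870) (nat_lit 196) (nat_lit 5) (nat_lit 204) (nat_lit 5) (nat_lit 197) (nat_lit 5) (nat_lit 320) (nat_lit 276) (nat_lit 184)) (XT.nd (nat_lit 78) (nat_lit 532) (nat_lit 0) (XT.lf (nat_lit 0) (nat_lit 5915895570) (nat_lit 456) (nat_lit 457056277) (nat_lit 532) (nat_lit 7972666996) (nat_lit 190) (nat_lit 5) (nat_lit 196) (nat_lit 5) (nat_lit 197) (nat_lit 5) (nat_lit 321) (nat_lit 276) (nat_lit 183)) (XT.lf (nat_lit 0) (nat_lit 2942389863) (nat_lit 532) (nat_lit 7529571935) (nat_lit 608) (nat_lit 4134632451) (nat_lit 183) (nat_lit 5) (nat_lit 190) (nat_lit 5) (nat_lit 191) (nat_lit 5) (nat_lit 322) (nat_lit 276) (nat_lit 182))))) (XT.nd (nat_lit 234)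 (nat_lit 1368) (nat_lit 0) (XT.nd (nat_lit 78) (nat_lit 988) (nat_lit 0) (XT.lf (nat_lit 0) (nat_lit 14725989054) (nat_lit 608) (nat_lit 144093171) (nat_lit 76) (nat_lit 4689822) (nat_lit 183) (nat_lit 5) (nat_lit 191) (nat_lit 5) (nat_lit 184) (nat_lit 5) (nat_lit 323) (nat_lit 276) (nat_lit 181)) (XT.nd (nat_lit 78) (nat_lit 456) (nat_lit 0) (XT.lf (nat_lit 0) (nat_lit 4004912040) (nat_lit 532) (nat_lit 3386145225) (nat_lit 76) (nat_lit 7757434281) (nat_lit 176) (nat_lit 5) (nat_lit 183) (nat_lit 5) (nat_lit 177) (nat_lit 5) (nat_lit 324) (nat_lit 276) (nat_lit 180)) (XT.lf (nat_lit 0) (nat_lit 8313852338) (nat_lit 532) (nat_lit 6758297755) (nat_lit 76) (nat_lit 357612756) (nat_lit 170) (nat_lit 5) (nat_lit 177) (nat_lit 5) (nat_lit 171) (nat_lit 5) (nat_lit 325) (nat_lit 276) (nat_lit 179)))) (XT.nd (nat_lit 156) (nat_lit 380) (nat_lit 0) (XT.nd (nat_lit 78) (nat_lit 532) (nat_lit 0) (XT.lf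 (nat_lit 0) (nat_lit 5403093002) (nat_lit 456) (nat_lit 7430058176) (nat_lit 532) (nat_lit 2884711929) (nat_lit 164) (nat_lit 5) (nat_lit 170) (nat_lit 5) (nat_lit 171) (nat_lit 5) (nat_lit 326) (nat_lit 276) (nat_lit 178)) (XT.lf (nat_lit 0) (nat_lit 1490203024) (nat_lit 532) (nat_lit 14028775608) (nat_lit 76) (nat_lit 494726337) (nat_lit 157) (nat_lit 5) (nat_lit 164) (nat_lit 5) (nat_lit 158) (nat_lit 5) (nat_lit 327) (nat_lit 276) (nat_lit 177))) (XT.nd (nat_lit 78) (nat_lit 380) (nat_lit 0) (XT.lf (nat_lit 0) (nat_lit 6051752306) (nat_lit 532) (nat_lit 1627631766) (nat_lit 76) (nat_lit 8636776746) (nat_lit 157) (nat_lit 5) (nat_lit 164) (nat_lit 5) (nat_lit 158) (nat_lit 5) (nat_lit 328) (nat_lit 276) (nat_lit 176)) (XT.lf (nat_lit 0) (nat_lit 10801287271) (nat_lit 456) (nat_lit 5371451859) (nat_lit 76) (nat_lit 453939755) (nat_lit 152) (nat_lit 5) (nat_lit 158) (nat_lit 5) (nat_lit 153) (nat_lit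 5) (nat_lit 329) (nat_lit 276) (nat_lit 175)))))) (XT.nd (nat_lit 546) (nat_lit 1748) (nat_lit 0) (XT.nd (nat_lit 234) (nat_lit 1520) (nat_lit 0) (XT.nd (nat_lit 78) (nat_lit 456) (nat_lit 0) (XT.lf (nat_lit 0) (nat_lit 7614195823) (nat_lit 456) (nat_lit 8166502289) (nat_lit 532) (nat_lit 1164077580) (nat_lit 146) (nat_lit 5) (nat_lit 152) (nat_lit 5) (nat_lit 153) (nat_lit 5) (nat_lit 330) (nat_lit 276) (nat_lit 174)) (XT.nd (nat_lit 78) (nat_lit 0) (nat_lit 0) (XT.lf (nat_lit 0) (nat_lit 3627403440) (nat_lit 456) (nat_lit 13489787166) (nat_lit 76) (nat_lit 154002411) (nat_lit 140) (nat_lit 5) (nat_lit 146) (nat_lit 5) (nat_lit 141) (nat_lit 5) (nat_lit 331) (nat_lit 276) (nat_lit 173)) (XT.lf (nat_lit 0) (nat_lit 8641396656) (nat_lit 456) (nat_lit 288905166) (nat_lit 76) (nat_lit 8675065649) (nat_lit 140) (nat_lit 5) (nat_lit 146) (nat_lit 5) (nat_lit 141) (nat_lit 5) (nat_lit 332) (nat_lit 276)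 (nat_lit 172)))) (XT.nd (nat_lit 156) (nat_lit 684) (nat_lit 0) (XT.nd (nat_lit 78) (nat_lit 456) (nat_lit 0) (XT.lf (nat_lit 0) (nat_lit 13450998079) (nat_lit 380) (nat_lit 419070765) (nat_lit 456) (nat_lit 4078222998) (nat_lit 135) (nat_lit 5) (nat_lit 140) (nat_lit 5) (nat_lit 141) (nat_lit 5) (nat_lit 333) (nat_lit 276) (nat_lit 171)) (XT.lf (nat_lit 0) (nat_lit 1036329998) (nat_lit 456) (nat_lit 8965837870) (nat_lit 76) (nat_lit 8297326656) (nat_lit 129) (nat_lit 5) (nat_lit 135) (nat_lit 5) (nat_lit 130) (nat_lit 5) (nat_lit 334) (nat_lit 276) (nat_lit 170))) (XT.nd (nat_lit 78) (nat_lit 304) (nat_lit 0) (XT.lf (nat_lit 0) (nat_lit 4982503206) (nat_lit 380) (nat_lit 1310164342) (nat_lit 456) (nat_lit 12367160614) (nat_lit 124) (nat_lit 5) (nat_lit 129) (nat_lit 5) (nat_lit 130) (nat_lit 5) (nat_lit 335) (nat_lit 276) (nat_lit 169)) (XT.lf (nat_lit 0) (nat_lit 364135351) (nat_lit 304) (nat_lit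 11433685263) (nat_lit 380) (nat_lit 7231337539) (nat_lit 120) (nat_lit 5) (nat_lit 124) (nat_lit 5) (nat_lit 125) (nat_lit 5) (nat_lit 336) (nat_lit 276) (nat_lit 168))))) (XT.nd (nat_lit 234) (nat_lit 988) (nat_lit 0) (XT.nd (nat_lit 78) (nat_lit 760) (nat_lit 0) (XT.lf (nat_lit 0) (nat_lit 14972831428) (nat_lit 304) (nat_lit 2575096641) (nat_lit 380) (nat_lit 1860052572) (nat_lit 120) (nat_lit 5) (nat_lit 124) (nat_lit 5) (nat_lit 125) (nat_lit 5) (nat_lit 337) (nat_lit 276) (nat_lit 167)) (XT.nd (nat_lit 78) (nat_lit 304) (nat_lit 0) (XT.lf (nat_lit 0) (nat_lit 3713039028) (nat_lit 456) (nat_lit 9538652531) (nat_lit 76) (nat_lit 6544230919) (nat_lit 114) (nat_lit 5) (nat_lit 120) (nat_lit 5) (nat_lit 115) (nat_lit 5) (nat_lit 338) (nat_lit 276) (nat_lit 166)) (XT.lf (nat_lit 0) (nat_lit 5263914231) (nat_lit 304) (nat_lit 4225172788) (nat_lit 380) (nat_lit 10704956905) (nat_lit 110) (nat_lit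 5) (nat_lit 114) (nat_lit 5) (nat_lit 115) (nat_lit 5) (nat_lit 339) (nat_lit 276) (nat_lit 165)))) (XT.nd (nat_lit 156) (nat_lit 608) (nat_lit 0) (XT.nd (nat_lit 78) (nat_lit 380) (nat_lit 0) (XT.lf (nat_lit 0) (nat_lit 15515986923) (nat_lit 380) (nat_lit 26418803) (nat_lit 76) (nat_lit 5060159588) (nat_lit 110) (nat_lit 5) (nat_lit 115) (nat_lit 5) (nat_lit 111) (nat_lit 5) (nat_lit 340) (nat_lit 276) (nat_lit 164)) (XT.lf (nat_lit 0) (nat_lit 800736281) (nat_lit 380) (nat_lit 5557873583) (nat_lit 76) (nat_lit 14662457476) (nat_lit 105) (nat_lit 5) (nat_lit 110) (nat_lit 5) (nat_lit 106) (nat_lit 5) (nat_lit 341) (nat_lit 276) (nat_lit 163))) (XT.nd (nat_lit 78) (nat_lit 304) (nat_lit 0) (XT.lf (nat_lit 0) (nat_lit 6862415670) (nat_lit 380) (nat_lit 11438180402) (nat_lit 76) (nat_lit 3149525997) (nat_lit 101) (nat_lit 5) (nat_lit 106) (nat_lit 5) (nat_lit 102) (nat_lit 5) (nat_lit 342) (nat_lit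 276) (nat_lit 162)) (XT.lf (nat_lit 0) (nat_lit 4216096497) (nat_lit 304) (nat_lit 8978381625) (nat_lit 380) (nat_lit 8695806581) (nat_lit 97) (nat_lit 5) (nat_lit 101) (nat_lit 5) (nat_lit 102) (nat_lit 5) (nat_lit 343) (nat_lit 276) (nat_lit 161))))))) (XT.nd (nat_lit 1092) (nat_lit 456) (nat_lit 0) (XT.nd (nat_lit 546) (nat_lit 1064) (nat_lit 0) (XT.nd (nat_lit 234) (nat_lit 836) (nat_lit 0) (XT.nd (nat_lit 78) (nat_lit 608) (nat_lit 0) (XT.lf (nat_lit 0) (nat_lit 19779597630) (nat_lit 380) (nat_lit 1879981430) (nat_lit 76) (nat_lit 682817970) (nat_lit 97) (nat_lit 5) (nat_lit 102) (nat_lit 5) (nat_lit 98) (nat_lit 5) (nat_lit 344) (nat_lit 276) (nat_lit 160)) (XT.nd (nat_lit 78) (nat_lit 304) (nat_lit 0) (XT.lf (nat_lit 0) (nat_lit 3841545595) (nat_lit 304) (nat_lit 8341620245) (nat_lit 76) (nat_lit 10621694092) (nat_lit 93) (nat_lit 5) (nat_lit 97) (nat_lit 5) (nat_lit 94) (nat_lit 5) (nat_lit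 345) (nat_lit 276) (nat_lit 159)) (XT.lf (nat_lit 0) (nat_lit 8101788448) (nat_lit 304) (nat_lit 2348841436) (nat_lit 380) (nat_lit 12829285696) (nat_lit 89) (nat_lit 5) (nat_lit 93) (nat_lit 5) (nat_lit 94) (nat_lit 5) (nat_lit 346) (nat_lit 276) (nat_lit 158)))) (XT.nd (nat_lit 156) (nat_lit 532) (nat_lit 0) (XT.nd (nat_lit 78) (nat_lit 76) (nat_lit 0) (XT.lf (nat_lit 0) (nat_lit 1322419723) (nat_lit 228) (nat_lit 16033650089) (nat_lit 304) (nat_lit 6411197448) (nat_lit 86) (nat_lit 5) (nat_lit 89) (nat_lit 5) (nat_lit 90) (nat_lit 5) (nat_lit 347) (nat_lit 276) (nat_lit 157)) (XT.lf (nat_lit 0) (nat_lit 298356446) (nat_lit 304) (nat_lit 5787521124) (nat_lit 76) (nat_lit 18181310987) (nat_lit 85) (nat_lit 5) (nat_lit 89) (nat_lit 5) (nat_lit 86) (nat_lit 5) (nat_lit 348) (nat_lit 276) (nat_lit 156))) (XT.nd (nat_lit 78) (nat_lit 228) (nat_lit 0) (XT.lf (nat_lit 0) (nat_lit 7207460424) (nat_lit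 380) (nat_lit 13358594994) (nat_lit 76) (nat_lit 4213502754) (nat_lit 81) (nat_lit 5) (nat_lit 86) (nat_lit 5) (nat_lit 82) (nat_lit 5) (nat_lit 349) (nat_lit 276) (nat_lit 155)) (XT.lf (nat_lit 0) (nat_lit 3901214362) (nat_lit 228) (nat_lit 10511200560) (nat_lit 304) (nat_lit 10893117811) (nat_lit 78) (nat_lit 5) (nat_lit 81) (nat_lit 5) (nat_lit 82) (nat_lit 5) (nat_lit 350) (nat_lit 276) (nat_lit 154))))) (XT.nd (nat_lit 234) (nat_lit 532) (nat_lit 0) (XT.nd (nat_lit 78) (nat_lit 532) (nat_lit 0) (XT.lf (nat_lit 0) (nat_lit 21834717008) (nat_lit 228) (nat_lit 72712534) (nat_lit 304) (nat_lit 3938384009) (nat_lit 78) (nat_lit 5) (nat_lit 81) (nat_lit 5) (nat_lit 82) (nat_lit 5) (nat_lit 351) (nat_lit 276) (nat_lit 153)) (XT.nd (nat_lit 78) (nat_lit 228) (nat_lit 0) (XT.lf (nat_lit 0) (nat_lit 3327629819) (nat_lit 304) (nat_lit 12429662986) (nat_lit 76) (nat_lit 10641697521) (nat_lit 74) (nat_lit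 5) (nat_lit 78) (nat_lit 5) (nat_lit 75) (nat_lit 5) (nat_lit 352) (nat_lit 276) (nat_lit 152)) (XT.lf (nat_lit 0) (nat_lit 5596016966) (nat_lit 228) (nat_lit 5210585367) (nat_lit 304) (nat_lit 16160674559) (nat_lit 71) (nat_lit 5) (nat_lit 74) (nat_lit 5) (nat_lit 75) (nat_lit 5) (nat_lit 353) (nat_lit 276) (nat_lit 151)))) (XT.nd (nat_lit 156) (nat_lit 304) (nat_lit 0) (XT.nd (nat_lit 78) (nat_lit 228) (nat_lit 0) (XT.lf (nat_lit 0) (nat_lit 18615662729) (nat_lit 304) (nat_lit 3281627985) (nat_lit 76) (nat_lit 5653211676) (nat_lit 71) (nat_lit 5) (nat_lit 75) (nat_lit 5) (nat_lit 72) (nat_lit 5) (nat_lit 354) (nat_lit 276) (nat_lit 150)) (XT.lf (nat_lit 0) (nat_lit 15493760334) (nat_lit 228) (nat_lit 11285368736) (nat_lit 304) (nat_lit 1369697472) (nat_lit 68) (nat_lit 5) (nat_lit 71) (nat_lit 5) (nat_lit 72) (nat_lit 5) (nat_lit 355) (nat_lit 276) (nat_lit 149))) (XT.nd (nat_lit 78) (nat_lit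 0) (nat_lit 0) (XT.lf (nat_lit 0) (nat_lit 6126087461) (nat_lit 228) (nat_lit 259113141) (nat_lit 304) (nat_lit 22378129547) (nat_lit 64) (nat_lit 5) (nat_lit 67) (nat_lit 5) (nat_lit 68) (nat_lit 5) (nat_lit 356) (nat_lit 276) (nat_lit 148)) (XT.lf (nat_lit 0) (nat_lit 14497710455) (nat_lit 304) (nat_lit 3857352235) (nat_lit 76) (nat_lit 11038157855) (nat_lit 64) (nat_lit 5) (nat_lit 68) (nat_lit 5) (nat_lit 65) (nat_lit 5) (nat_lit 357) (nat_lit 276) (nat_lit 147)))))) (XT.nd (nat_lit 34632) (nat_lit 0) (nat_lit 31008) (XT.nd (nat_lit 34320) (nat_lit 0) (nat_lit 33516) (XT.nd (nat_lit 78) (nat_lit 228) (nat_lit 0) (XT.lf (nat_lit 0) (nat_lit 15665467317) (nat_lit 228) (nat_lit 7277095788) (nat_lit 304) (nat_lit 7097669298) (nat_lit 61) (nat_lit 5) (nat_lit 64) (nat_lit 5) (nat_lit 65) (nat_lit 5) (nat_lit 358) (nat_lit 276) (nat_lit 146)) (XT.nd (nat_lit 78) (nat_lit 0) (nat_lit 0) (XT.lf (nat_lit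 0) (nat_lit 994559062) (nat_lit 228) (nat_lit 25574777424) (nat_lit 76) (nat_lit 4135746674) (nat_lit 58) (nat_lit 5) (nat_lit 61) (nat_lit 5) (nat_lit 59) (nat_lit 5) (nat_lit 359) (nat_lit 276) (nat_lit 145)) (XT.lf (nat_lit 0) (nat_lit 9366287223) (nat_lit 228) (nat_lit 6091239215) (nat_lit 76) (nat_lit 15928755229) (nat_lit 58) (nat_lit 5) (nat_lit 61) (nat_lit 5) (nat_lit 59) (nat_lit 5) (nat_lit 360) (nat_lit 276) (nat_lit 144)))) (XT.nd (nat_lit 156) (nat_lit 1216) (nat_lit 0) (XT.nd (nat_lit 78) (nat_lit 0) (nat_lit 0) (XT.lf (nat_lit 0) (nat_lit 2358008322) (nat_lit 1292) (nat_lit 743568184) (nat_lit 1292) (nat_lit 743568184) (nat_lit 515) (nat_lit 3) (nat_lit 532) (nat_lit 3) (nat_lit 532) (nat_lit 5) (nat_lit 277) (nat_lit 277) (nat_lit 226)) (XT.lf (nat_lit 76) (nat_lit 3912144658) (nat_lit 0) (nat_lit 2823438191) (nat_lit 1292) (nat_lit 1029486454) (nat_lit 516) (nat_lit 5) (nat_lit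 515) (nat_lit 3) (nat_lit 532) (nat_lit 5) (nat_lit 278) (nat_lit 277) (nat_lit 225))) (XT.nd (nat_lit 78) (nat_lit 0) (nat_lit 0) (XT.lf (nat_lit 0) (nat_lit 910385344) (nat_lit 1292) (nat_lit 6220888580) (nat_lit 1368) (nat_lit 711763176) (nat_lit 499) (nat_lit 5) (nat_lit 516) (nat_lit 5) (nat_lit 517) (nat_lit 5) (nat_lit 279) (nat_lit 277) (nat_lit 224)) (XT.lf (nat_lit 0) (nat_lit 2866011504) (nat_lit 1292) (nat_lit 675556807) (nat_lit 1368) (nat_lit 4382267982) (nat_lit 499) (nat_lit 5) (nat_lit 516) (nat_lit 5) (nat_lit 517) (nat_lit 5) (nat_lit 280) (nat_lit 277) (nat_lit 223))))) (XT.nd (nat_lit 234) (nat_lit 1216) (nat_lit 0) (XT.nd (nat_lit 78) (nat_lit 1368) (nat_lit 0) (XT.lf (nat_lit 0) (nat_lit 4843061045) (nat_lit 1292) (nat_lit 2946607613) (nat_lit 1368) (nat_lit 218193341) (nat_lit 500) (nat_lit 5) (nat_lit 517) (nat_lit 5) (nat_lit 518) (nat_lit 5) (nat_lit 281) (nat_lit 277)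 (nat_lit 222)) (XT.nd (nat_lit 78) (nat_lit 1368) (nat_lit 0) (XT.lf (nat_lit 76) (nat_lit 2858052024) (nat_lit 0) (nat_lit 3998695224) (nat_lit 1368) (nat_lit 1238170675) (nat_lit 501) (nat_lit 5) (nat_lit 500) (nat_lit 5) (nat_lit 518) (nat_lit 5) (nat_lit 282) (nat_lit 277) (nat_lit 221)) (XT.lf (nat_lit 76) (nat_lit 655502685) (nat_lit 0) (nat_lit 37062404) (nat_lit 1444) (nat_lit 7492854911) (nat_lit 483) (nat_lit 5) (nat_lit 482) (nat_lit 5) (nat_lit 501) (nat_lit 5) (nat_lit 283) (nat_lit 277) (nat_lit 220)))) (XT.nd (nat_lit 156) (nat_lit 1292) (nat_lit 0) (XT.nd (nat_lit 78) (nat_lit 0) (nat_lit 0) (XT.lf (nat_lit 0) (nat_lit 2660104672) (nat_lit 1368) (nat_lit 1558370348) (nat_lit 1444) (nat_lit 4060136064) (nat_lit 483) (nat_lit 5) (nat_lit 501) (nat_lit 5) (nat_lit 502) (nat_lit 5) (nat_lit 284) (nat_lit 277) (nat_lit 219)) (XT.lf (nat_lit 76) (nat_lit 4611782295) (nat_lit 0) (nat_lit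 40645265) (nat_lit 1444) (nat_lit 3722905399) (nat_lit 484) (nat_lit 5) (nat_lit 483) (nat_lit 5) (nat_lit 502) (nat_lit 5) (nat_lit 285) (nat_lit 277) (nat_lit 218))) (XT.nd (nat_lit 78) (nat_lit 1368) (nat_lit 0) (XT.lf (nat_lit 76) (nat_lit 2476795887) (nat_lit 0) (nat_lit 4219440450) (nat_lit 1444) (nat_lit 1778934564) (nat_lit 485) (nat_lit 5) (nat_lit 484) (nat_lit 5) (nat_lit 503) (nat_lit 5) (nat_lit 286) (nat_lit 277) (nat_lit 217)) (XT.lf (nat_lit 0) (nat_lit 187998436) (nat_lit 1444) (nat_lit 8240503448) (nat_lit 1520) (nat_lit 150168036) (nat_lit 466) (nat_lit 5) (nat_lit 485) (nat_lit 5) (nat_lit 486) (nat_lit 5) (nat_lit 287) (nat_lit 277) (nat_lit 216))))))))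
noncomputable def xc80 : XT := (XT.nd (nat_lit 2106) (nat_lit 9804) (nat_lit 0) (XT.nd (nat_lit 1014) (nat_lit 8132) (nat_lit 0) (XT.nd (nat_lit 468) (nat_lit 8056) (nat_lit 0) (XT.nd (nat_lit 234) (nat_lit 1368) (nat_lit 0) (XT.nd (nat_lit 78) (nat_lit 0) (nat_lit 76) (XT.lf (nat_lit 0) (nat_lit 2199129759) (nat_lit 1444) (nat_lit 1820382627) (nat_lit 1520) (nat_lit 4665384206) (nat_lit 466) (nat_lit 5) (nat_lit 485) (nat_lit 5) (nat_lit 486) (nat_lit 5) (nat_lit 288) (nat_lit 277) (nat_lit 215)) (XT.nd (nat_lit 78) (nat_lit 0) (nat_lit 0) (XT.lf (nat_lit 0) (nat_lit 4247390036) (nat_lit 1444) (nat_lit 3984327961) (nat_lit 1520) (nat_lit 563099893) (nat_lit 467) (nat_lit 5) (nat_lit 486) (nat_lit 5) (nat_lit 487) (nat_lit 5) (nat_lit 289) (nat_lit 277) (nat_lit 214)) (XT.lf (nat_lit 76) (nat_lit 2724357864) (nat_lit 0) (nat_lit 3633095087) (nat_lit 1520) (nat_lit 2550619232) (nat_lit 468) (nat_lit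 5) (nat_lit 467) (nat_lit 5) (nat_lit 487) (nat_lit 5) (nat_lit 290) (nat_lit 277) (nat_lit 213)))) (XT.nd (nat_lit 78) (nat_lit 1520) (nat_lit 0) (XT.lf (nat_lit 76) (nat_lit 623100958) (nat_lit 0) (nat_lit 7890947699) (nat_lit 1520) (nat_lit 511052047) (nat_lit 469) (nat_lit 5) (nat_lit 468) (nat_lit 5) (nat_lit 488) (nat_lit 5) (nat_lit 291) (nat_lit 277) (nat_lit 212)) (XT.nd (nat_lit 78) (nat_lit 0) (nat_lit 76) (XT.lf (nat_lit 0) (nat_lit 1581112089) (nat_lit 1520) (nat_lit 1503390783) (nat_lit 1596) (nat_lit 6060724828) (nat_lit 448) (nat_lit 5) (nat_lit 468) (nat_lit 5) (nat_lit 469) (nat_lit 5) (nat_lit 292) (nat_lit 277) (nat_lit 211)) (XT.lf (nat_lit 0) (nat_lit 3725517253) (nat_lit 1520) (nat_lit 3650310717) (nat_lit 76) (nat_lit 1893172677) (nat_lit 449) (nat_lit 5) (nat_lit 469) (nat_lit 5) (nat_lit 450) (nat_lit 5) (nat_lit 293) (nat_lit 277) (nat_lit 210))))) (XT.nd (nat_lit 234)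 (nat_lit 4940) (nat_lit 0) (XT.nd (nat_lit 78) (nat_lit 1672) (nat_lit 0) (XT.lf (nat_lit 0) (nat_lit 3563076926) (nat_lit 1520) (nat_lit 2373895824) (nat_lit 1596) (nat_lit 3459496649) (nat_lit 429) (nat_lit 5) (nat_lit 449) (nat_lit 5) (nat_lit 450) (nat_lit 5) (nat_lit 294) (nat_lit 277) (nat_lit 209)) (XT.nd (nat_lit 78) (nat_lit 76) (nat_lit 0) (XT.lf (nat_lit 0) (nat_lit 1474596235) (nat_lit 1596) (nat_lit 6742675067) (nat_lit 1672) (nat_lit 1310476825) (nat_lit 408) (nat_lit 5) (nat_lit 429) (nat_lit 5) (nat_lit 430) (nat_lit 5) (nat_lit 295) (nat_lit 277) (nat_lit 208)) (XT.lf (nat_lit 0) (nat_lit 897654977) (nat_lit 1672) (nat_lit 644613350) (nat_lit 76) (nat_lit 8120484113) (nat_lit 407) (nat_lit 5) (nat_lit 429) (nat_lit 5) (nat_lit 408) (nat_lit 5) (nat_lit 296) (nat_lit 277) (nat_lit 207)))) (XT.nd (nat_lit 156) (nat_lit 1824) (nat_lit 0) (XT.nd (nat_lit 78) (nat_lit 1444) (nat_lit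 0) (XT.lf (nat_lit 0) (nat_lit 3177382934) (nat_lit 1748) (nat_lit 2798160528) (nat_lit 76) (nat_lit 3825660223) (nat_lit 385) (nat_lit 5) (nat_lit 408) (nat_lit 5) (nat_lit 386) (nat_lit 5) (nat_lit 297) (nat_lit 277) (nat_lit 206)) (XT.lf (nat_lit 0) (nat_lit 4958695300) (nat_lit 1444) (nat_lit 567135624) (nat_lit 1520) (nat_lit 4418003193) (nat_lit 366) (nat_lit 5) (nat_lit 385) (nat_lit 5) (nat_lit 386) (nat_lit 5) (nat_lit 298) (nat_lit 277) (nat_lit 205))) (XT.nd (nat_lit 78) (nat_lit 988) (nat_lit 0) (XT.lf (nat_lit 0) (nat_lit 2859554011) (nat_lit 836) (nat_lit 5109864923) (nat_lit 912) (nat_lit 2120862068) (nat_lit 355) (nat_lit 5) (nat_lit 366) (nat_lit 5) (nat_lit 367) (nat_lit 5) (nat_lit 299) (nat_lit 277) (nat_lit 204)) (XT.lf (nat_lit 0) (nat_lit 242977470) (nat_lit 988) (nat_lit 9514483726) (nat_lit 76) (nat_lit 483638026) (nat_lit 342) (nat_lit 5) (nat_lit 355) (nat_lit 5) (nat_lit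 343) (nat_lit 5) (nat_lit 300) (nat_lit 277) (nat_lit 203)))))) (XT.nd (nat_lit 546) (nat_lit 4180) (nat_lit 0) (XT.nd (nat_lit 234) (nat_lit 2280) (nat_lit 0) (XT.nd (nat_lit 78) (nat_lit 1672) (nat_lit 0) (XT.lf (nat_lit 0) (nat_lit 2688914583) (nat_lit 988) (nat_lit 1464218407) (nat_lit 76) (nat_lit 6242257591) (nat_lit 342) (nat_lit 5) (nat_lit 355) (nat_lit 5) (nat_lit 343) (nat_lit 5) (nat_lit 301) (nat_lit 277) (nat_lit 202)) (XT.nd (nat_lit 78) (nat_lit 836) (nat_lit 0) (XT.lf (nat_lit 0) (nat_lit 5221312934) (nat_lit 912) (nat_lit 3687879012) (nat_lit 76) (nat_lit 1644885129) (nat_lit 331) (nat_lit 5) (nat_lit 343) (nat_lit 5) (nat_lit 332) (nat_lit 5) (nat_lit 302) (nat_lit 277) (nat_lit 201)) (XT.lf (nat_lit 0) (nat_lit 4742884718) (nat_lit 836) (nat_lit 3113949946) (nat_lit 912) (nat_lit 2860173713) (nat_lit 320) (nat_lit 5) (nat_lit 331) (nat_lit 5) (nat_lit 332) (nat_lit 5) (nat_lit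 303) (nat_lit 277) (nat_lit 200)))) (XT.nd (nat_lit 156) (nat_lit 684) (nat_lit 0) (XT.nd (nat_lit 78) (nat_lit 836) (nat_lit 0) (XT.lf (nat_lit 0) (nat_lit 2566783858) (nat_lit 760) (nat_lit 8024541025) (nat_lit 836) (nat_lit 293131126) (nat_lit 310) (nat_lit 5) (nat_lit 320) (nat_lit 5) (nat_lit 321) (nat_lit 5) (nat_lit 304) (nat_lit 277) (nat_lit 199)) (XT.lf (nat_lit 0) (nat_lit 316580085) (nat_lit 760) (nat_lit 2027314543) (nat_lit 836) (nat_lit 8712276247) (nat_lit 299) (nat_lit 5) (nat_lit 309) (nat_lit 5) (nat_lit 310) (nat_lit 5) (nat_lit 305) (nat_lit 277) (nat_lit 198))) (XT.nd (nat_lit 78) (nat_lit 684) (nat_lit 0) (XT.lf (nat_lit 0) (nat_lit 5100817053) (nat_lit 836) (nat_lit 1978398429) (nat_lit 76) (nat_lit 4152912025) (nat_lit 299) (nat_lit 5) (nat_lit 310) (nat_lit 5) (nat_lit 300) (nat_lit 5) (nat_lit 306) (nat_lit 277) (nat_lit 197)) (XT.lf (nat_lit 0) (nat_lit 7085263650) (nat_lit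 684) (nat_lit 876943106) (nat_lit 760) (nat_lit 3450744619) (nat_lit 290) (nat_lit 5) (nat_lit 299) (nat_lit 5) (nat_lit 300) (nat_lit 5) (nat_lit 307) (nat_lit 277) (nat_lit 196))))) (XT.nd (nat_lit 234) (nat_lit 1976) (nat_lit 0) (XT.nd (nat_lit 78) (nat_lit 1444) (nat_lit 0) (XT.lf (nat_lit 0) (nat_lit 4836709652) (nat_lit 760) (nat_lit 6116443459) (nat_lit 836) (nat_lit 645195587) (nat_lit 280) (nat_lit 5) (nat_lit 290) (nat_lit 5) (nat_lit 291) (nat_lit 5) (nat_lit 308) (nat_lit 277) (nat_lit 195)) (XT.nd (nat_lit 78) (nat_lit 684) (nat_lit 0) (XT.lf (nat_lit 0) (nat_lit 2232293263) (nat_lit 760) (nat_lit 9271338550) (nat_lit 76) (nat_lit 285062383) (nat_lit 270) (nat_lit 5) (nat_lit 280) (nat_lit 5) (nat_lit 271) (nat_lit 5) (nat_lit 309) (nat_lit 277) (nat_lit 194)) (XT.lf (nat_lit 0) (nat_lit 99460917) (nat_lit 684) (nat_lit 5139980085) (nat_lit 760) (nat_lit 6744203055) (nat_lit 261) (nat_lit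 5) (nat_lit 270) (nat_lit 5) (nat_lit 271) (nat_lit 5) (nat_lit 310) (nat_lit 277) (nat_lit 193)))) (XT.nd (nat_lit 156) (nat_lit 1368) (nat_lit 0) (XT.nd (nat_lit 78) (nat_lit 608) (nat_lit 0) (XT.lf (nat_lit 0) (nat_lit 8374363276) (nat_lit 760) (nat_lit 2354301888) (nat_lit 76) (nat_lit 1455046718) (nat_lit 261) (nat_lit 5) (nat_lit 271) (nat_lit 5) (nat_lit 262) (nat_lit 5) (nat_lit 311) (nat_lit 277) (nat_lit 192)) (XT.lf (nat_lit 0) (nat_lit 7486643151) (nat_lit 608) (nat_lit 4165821274) (nat_lit 684) (nat_lit 736354759) (nat_lit 253) (nat_lit 5) (nat_lit 261) (nat_lit 5) (nat_lit 262) (nat_lit 5) (nat_lit 312) (nat_lit 277) (nat_lit 191))) (XT.nd (nat_lit 78) (nat_lit 608) (nat_lit 0) (XT.lf (nat_lit 0) (nat_lit 2429821246) (nat_lit 760) (nat_lit 7549324822) (nat_lit 76) (nat_lit 2619980408) (nat_lit 243) (nat_lit 5) (nat_lit 253) (nat_lit 5) (nat_lit 244) (nat_lit 5) (nat_lit 313) (nat_lit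 277) (nat_lit 190)) (XT.lf (nat_lit 0) (nat_lit 2513832186) (nat_lit 608) (nat_lit 3212163802) (nat_lit 684) (nat_lit 7088767845) (nat_lit 235) (nat_lit 5) (nat_lit 243) (nat_lit 5) (nat_lit 244) (nat_lit 5) (nat_lit 314) (nat_lit 277) (nat_lit 189))))))) (XT.nd (nat_lit 1014) (nat_lit 4408) (nat_lit 0) (XT.nd (nat_lit 468) (nat_lit 2964) (nat_lit 0) (XT.nd (nat_lit 234) (nat_lit 1216) (nat_lit 0) (XT.nd (nat_lit 78) (nat_lit 1216) (nat_lit 0) (XT.lf (nat_lit 0) (nat_lit 9164958337) (nat_lit 684) (nat_lit 116854084) (nat_lit 76) (nat_lit 3754197847) (nat_lit 235) (nat_lit 5) (nat_lit 244) (nat_lit 5) (nat_lit 236) (nat_lit 5) (nat_lit 315) (nat_lit 277) (nat_lit 188)) (XT.nd (nat_lit 78) (nat_lit 608) (nat_lit 0) (XT.lf (nat_lit 0) (nat_lit 10450961895) (nat_lit 608) (nat_lit 2314403845) (nat_lit 684) (nat_lit 497380313) (nat_lit 227) (nat_lit 5) (nat_lit 235) (nat_lit 5) (nat_lit 236) (nat_lit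 5) (nat_lit 316) (nat_lit 277) (nat_lit 187)) (XT.lf (nat_lit 0) (nat_lit 2991848345) (nat_lit 608) (nat_lit 5639409229) (nat_lit 76) (nat_lit 4863588389) (nat_lit 219) (nat_lit 5) (nat_lit 227) (nat_lit 5) (nat_lit 220) (nat_lit 5) (nat_lit 317) (nat_lit 277) (nat_lit 186)))) (XT.nd (nat_lit 78) (nat_lit 608) (nat_lit 0) (XT.lf (nat_lit 0) (nat_lit 5159213622) (nat_lit 608) (nat_lit 1457974951) (nat_lit 684) (nat_lit 7115906854) (nat_lit 211) (nat_lit 5) (nat_lit 219) (nat_lit 5) (nat_lit 220) (nat_lit 5) (nat_lit 318) (nat_lit 277) (nat_lit 185)) (XT.nd (nat_lit 78) (nat_lit 76) (nat_lit 0) (XT.lf (nat_lit 0) (nat_lit 2336031151) (nat_lit 532) (nat_lit 8077986441) (nat_lit 608) (nat_lit 3563235894) (nat_lit 204) (nat_lit 5) (nat_lit 211) (nat_lit 5) (nat_lit 212) (nat_lit 5) (nat_lit 319) (nat_lit 277) (nat_lit 184)) (XT.lf (nat_lit 0) (nat_lit 133993307) (nat_lit 608) (nat_lit 584637332) (nat_lit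 76) (nat_lit 13509323361) (nat_lit 203) (nat_lit 5) (nat_lit 211) (nat_lit 5) (nat_lit 204) (nat_lit 5) (nat_lit 320) (nat_lit 277) (nat_lit 183))))) (XT.nd (nat_lit 234) (nat_lit 1444) (nat_lit 0) (XT.nd (nat_lit 78) (nat_lit 988) (nat_lit 0) (XT.lf (nat_lit 0) (nat_lit 3981662257) (nat_lit 608) (nat_lit 3643222062) (nat_lit 76) (nat_lit 6859075977) (nat_lit 196) (nat_lit 5) (nat_lit 204) (nat_lit 5) (nat_lit 197) (nat_lit 5) (nat_lit 321) (nat_lit 277) (nat_lit 182)) (XT.nd (nat_lit 78) (nat_lit 532) (nat_lit 0) (XT.lf (nat_lit 0) (nat_lit 7932751580) (nat_lit 456) (nat_lit 44696998) (nat_lit 532) (nat_lit 6769558528) (nat_lit 190) (nat_lit 5) (nat_lit 196) (nat_lit 5) (nat_lit 197) (nat_lit 5) (nat_lit 322) (nat_lit 277) (nat_lit 181)) (XT.lf (nat_lit 0) (nat_lit 4865987636) (nat_lit 532) (nat_lit 7306878791) (nat_lit 608) (nat_lit 2843497394) (nat_lit 183) (nat_lit 5) (nat_lit 190) (nat_lit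 5) (nat_lit 191) (nat_lit 5) (nat_lit 323) (nat_lit 277) (nat_lit 180)))) (XT.nd (nat_lit 156) (nat_lit 912) (nat_lit 0) (XT.nd (nat_lit 78) (nat_lit 0) (nat_lit 0) (XT.lf (nat_lit 0) (nat_lit 1218527080) (nat_lit 532) (nat_lit 13620893281) (nat_lit 76) (nat_lit 453559528) (nat_lit 176) (nat_lit 5) (nat_lit 183) (nat_lit 5) (nat_lit 177) (nat_lit 5) (nat_lit 324) (nat_lit 277) (nat_lit 179)) (XT.lf (nat_lit 0) (nat_lit 5455881338) (nat_lit 532) (nat_lit 1692070991) (nat_lit 76) (nat_lit 8427736801) (nat_lit 176) (nat_lit 5) (nat_lit 183) (nat_lit 5) (nat_lit 177) (nat_lit 5) (nat_lit 325) (nat_lit 277) (nat_lit 178))) (XT.nd (nat_lit 78) (nat_lit 456) (nat_lit 0) (XT.lf (nat_lit 0) (nat_lit 9869803581) (nat_lit 532) (nat_lit 5170833951) (nat_lit 76) (nat_lit 825265427) (nat_lit 170) (nat_lit 5) (nat_lit 177) (nat_lit 5) (nat_lit 171) (nat_lit 5) (nat_lit 326) (nat_lit 277) (nat_lit 177)) (XT.lf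 (nat_lit 0) (nat_lit 7326354454) (nat_lit 456) (nat_lit 7171707172) (nat_lit 532) (nat_lit 1665135114) (nat_lit 164) (nat_lit 5) (nat_lit 170) (nat_lit 5) (nat_lit 171) (nat_lit 5) (nat_lit 327) (nat_lit 277) (nat_lit 176)))))) (XT.nd (nat_lit 546) (nat_lit 2204) (nat_lit 0) (XT.nd (nat_lit 234) (nat_lit 1292) (nat_lit 0) (XT.nd (nat_lit 78) (nat_lit 380) (nat_lit 0) (XT.lf (nat_lit 0) (nat_lit 2800879701) (nat_lit 532) (nat_lit 12676940903) (nat_lit 76) (nat_lit 990401246) (nat_lit 157) (nat_lit 5) (nat_lit 164) (nat_lit 5) (nat_lit 158) (nat_lit 5) (nat_lit 328) (nat_lit 277) (nat_lit 175)) (XT.nd (nat_lit 78) (nat_lit 0) (nat_lit 0) (XT.lf (nat_lit 0) (nat_lit 45198054) (nat_lit 380) (nat_lit 7417497933) (nat_lit 456) (nat_lit 9317803721) (nat_lit 152) (nat_lit 5) (nat_lit 157) (nat_lit 5) (nat_lit 158) (nat_lit 5) (nat_lit 329) (nat_lit 277) (nat_lit 174)) (XT.lf (nat_lit 0) (nat_lit 12332791549)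 (nat_lit 456) (nat_lit 3817997933) (nat_lit 76) (nat_lit 949998599) (nat_lit 152) (nat_lit 5) (nat_lit 158) (nat_lit 5) (nat_lit 153) (nat_lit 5) (nat_lit 330) (nat_lit 277) (nat_lit 173)))) (XT.nd (nat_lit 156) (nat_lit 380) (nat_lit 0) (XT.nd (nat_lit 78) (nat_lit 380) (nat_lit 0) (XT.lf (nat_lit 0) (nat_lit 8328901) (nat_lit 532) (nat_lit 7899580844) (nat_lit 76) (nat_lit 9521017080) (nat_lit 145) (nat_lit 5) (nat_lit 152) (nat_lit 5) (nat_lit 146) (nat_lit 5) (nat_lit 331) (nat_lit 277) (nat_lit 172)) (XT.lf (nat_lit 0) (nat_lit 4907297298) (nat_lit 456) (nat_lit 12198420596) (nat_lit 76) (nat_lit 659688741) (nat_lit 140) (nat_lit 5) (nat_lit 146) (nat_lit 5) (nat_lit 141) (nat_lit 5) (nat_lit 332) (nat_lit 277) (nat_lit 171))) (XT.nd (nat_lit 78) (nat_lit 0) (nat_lit 0) (XT.lf (nat_lit 0) (nat_lit 1367016722) (nat_lit 380) (nat_lit 8679460282) (nat_lit 456) (nat_lit 8063648571) (nat_lit 135)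 (nat_lit 5) (nat_lit 140) (nat_lit 5) (nat_lit 141) (nat_lit 5) (nat_lit 333) (nat_lit 277) (nat_lit 170)) (XT.lf (nat_lit 0) (nat_lit 15401016163) (nat_lit 456) (nat_lit 2989988063) (nat_lit 76) (nat_lit 72967473) (nat_lit 135) (nat_lit 5) (nat_lit 141) (nat_lit 5) (nat_lit 136) (nat_lit 5) (nat_lit 334) (nat_lit 277) (nat_lit 169))))) (XT.nd (nat_lit 234) (nat_lit 1064) (nat_lit 0) (XT.nd (nat_lit 78) (nat_lit 684) (nat_lit 0) (XT.lf (nat_lit 0) (nat_lit 2170693984) (nat_lit 456) (nat_lit 7606877487) (nat_lit 76) (nat_lit 9048393147) (nat_lit 129) (nat_lit 5) (nat_lit 135) (nat_lit 5) (nat_lit 130) (nat_lit 5) (nat_lit 335) (nat_lit 277) (nat_lit 168)) (XT.nd (nat_lit 78) (nat_lit 304) (nat_lit 0) (XT.lf (nat_lit 0) (nat_lit 6733502502) (nat_lit 380) (nat_lit 829483119) (nat_lit 456) (nat_lit 11634570450) (nat_lit 124) (nat_lit 5) (nat_lit 129) (nat_lit 5) (nat_lit 130) (nat_lit 5) (nat_lit 336)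 (nat_lit 277) (nat_lit 167)) (XT.lf (nat_lit 0) (nat_lit 1968988388) (nat_lit 304) (nat_lit 11246430389) (nat_lit 380) (nat_lit 6362917379) (nat_lit 120) (nat_lit 5) (nat_lit 124) (nat_lit 5) (nat_lit 125) (nat_lit 5) (nat_lit 337) (nat_lit 277) (nat_lit 166)))) (XT.nd (nat_lit 156) (nat_lit 608) (nat_lit 0) (XT.nd (nat_lit 78) (nat_lit 456) (nat_lit 0) (XT.lf (nat_lit 0) (nat_lit 16969520231) (nat_lit 304) (nat_lit 2137528733) (nat_lit 380) (nat_lit 862106299) (nat_lit 120) (nat_lit 5) (nat_lit 124) (nat_lit 5) (nat_lit 125) (nat_lit 5) (nat_lit 338) (nat_lit 277) (nat_lit 165)) (XT.lf (nat_lit 0) (nat_lit 4847399314) (nat_lit 456) (nat_lit 8270993885) (nat_lit 76) (nat_lit 7250556237) (nat_lit 114) (nat_lit 5) (nat_lit 120) (nat_lit 5) (nat_lit 115) (nat_lit 5) (nat_lit 339) (nat_lit 277) (nat_lit 164))) (XT.nd (nat_lit 78) (nat_lit 304) (nat_lit 0) (XT.lf (nat_lit 0) (nat_lit 6950441026) (nat_lit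 304) (nat_lit 3826417248) (nat_lit 380) (nat_lit 10002565058) (nat_lit 110) (nat_lit 5) (nat_lit 114) (nat_lit 5) (nat_lit 115) (nat_lit 5) (nat_lit 340) (nat_lit 277) (nat_lit 163)) (XT.lf (nat_lit 0) (nat_lit 1492990159) (nat_lit 304) (nat_lit 15475364618) (nat_lit 380) (nat_lit 4232180860) (nat_lit 106) (nat_lit 5) (nat_lit 110) (nat_lit 5) (nat_lit 111) (nat_lit 5) (nat_lit 341) (nat_lit 277) (nat_lit 162))))))))
noncomputable def xc81 : XT := (XT.nd (nat_lit 36270) (nat_lit 0) (nat_lit 14744) (XT.nd (nat_lit 1014) (nat_lit 988) (nat_lit 0) (XT.nd (nat_lit 468) (nat_lit 1368) (nat_lit 0) (XT.nd (nat_lit 234) (nat_lit 608) (nat_lit 0) (XT.nd (nat_lit 78) (nat_lit 608) (nat_lit 0) (XT.lf (nat_lit 0) (nat_lit 1789776012) (nat_lit 380) (nat_lit 4235159204) (nat_lit 76) (nat_lit 15607112686) (nat_lit 105) (nat_lit 5) (nat_lit 110) (nat_lit 5) (nat_lit 106) (nat_lit 5) (nat_lit 342) (nat_lit 277)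 (nat_lit 161)) (XT.nd (nat_lit 78) (nat_lit 304) (nat_lit 0) (XT.lf (nat_lit 0) (nat_lit 8018080878) (nat_lit 380) (nat_lit 10300139233) (nat_lit 76) (nat_lit 3756068886) (nat_lit 101) (nat_lit 5) (nat_lit 106) (nat_lit 5) (nat_lit 102) (nat_lit 5) (nat_lit 343) (nat_lit 277) (nat_lit 160)) (XT.lf (nat_lit 0) (nat_lit 5799735480) (nat_lit 304) (nat_lit 8722166681) (nat_lit 380) (nat_lit 8006128339) (nat_lit 97) (nat_lit 5) (nat_lit 101) (nat_lit 5) (nat_lit 102) (nat_lit 5) (nat_lit 344) (nat_lit 277) (nat_lit 159)))) (XT.nd (nat_lit 78) (nat_lit 608) (nat_lit 0) (XT.lf (nat_lit 0) (nat_lit 21280754512) (nat_lit 380) (nat_lit 506568731) (nat_lit 76) (nat_lit 1206869008) (nat_lit 97) (nat_lit 5) (nat_lit 102) (nat_lit 5) (nat_lit 98) (nat_lit 5) (nat_lit 345) (nat_lit 277) (nat_lit 158)) (XT.nd (nat_lit 78) (nat_lit 304) (nat_lit 0) (XT.lf (nat_lit 0) (nat_lit 4853458681) (nat_lit 304) (nat_lit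 7173031649) (nat_lit 76) (nat_lit 11444276230) (nat_lit 93) (nat_lit 5) (nat_lit 97) (nat_lit 5) (nat_lit 94) (nat_lit 5) (nat_lit 346) (nat_lit 277) (nat_lit 157)) (XT.lf (nat_lit 0) (nat_lit 9740660356) (nat_lit 304) (nat_lit 1903101213) (nat_lit 380) (nat_lit 12316662294) (nat_lit 89) (nat_lit 5) (nat_lit 93) (nat_lit 5) (nat_lit 94) (nat_lit 5) (nat_lit 347) (nat_lit 277) (nat_lit 156))))) (XT.nd (nat_lit 234) (nat_lit 760) (nat_lit 0) (XT.nd (nat_lit 78) (nat_lit 380) (nat_lit 0) (XT.lf (nat_lit 0) (nat_lit 2749566856) (nat_lit 228) (nat_lit 15993440385) (nat_lit 304) (nat_lit 5719664651) (nat_lit 86) (nat_lit 5) (nat_lit 89) (nat_lit 5) (nat_lit 90) (nat_lit 5) (nat_lit 348) (nat_lit 277) (nat_lit 155)) (XT.nd (nat_lit 78) (nat_lit 304) (nat_lit 0) (XT.lf (nat_lit 0) (nat_lit 1154177648) (nat_lit 304) (nat_lit 4602555238) (nat_lit 76) (nat_lit 19221259523) (nat_lit 85) (nat_lit 5) (nat_lit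 89) (nat_lit 5) (nat_lit 86) (nat_lit 5) (nat_lit 349) (nat_lit 277) (nat_lit 154)) (XT.lf (nat_lit 0) (nat_lit 8257849514) (nat_lit 380) (nat_lit 12409201942) (nat_lit 76) (nat_lit 4838943752) (nat_lit 81) (nat_lit 5) (nat_lit 86) (nat_lit 5) (nat_lit 82) (nat_lit 5) (nat_lit 350) (nat_lit 277) (nat_lit 153)))) (XT.nd (nat_lit 156) (nat_lit 532) (nat_lit 0) (XT.nd (nat_lit 78) (nat_lit 0) (nat_lit 0) (XT.lf (nat_lit 0) (nat_lit 5346497100) (nat_lit 228) (nat_lit 10316783327) (nat_lit 304) (nat_lit 10384789784) (nat_lit 78) (nat_lit 5) (nat_lit 81) (nat_lit 5) (nat_lit 82) (nat_lit 5) (nat_lit 351) (nat_lit 277) (nat_lit 152)) (XT.lf (nat_lit 0) (nat_lit 23362032880) (nat_lit 304) (nat_lit 2828452737) (nat_lit 76) (nat_lit 414503622) (nat_lit 78) (nat_lit 5) (nat_lit 82) (nat_lit 5) (nat_lit 79) (nat_lit 5) (nat_lit 352) (nat_lit 277) (nat_lit 151))) (XT.nd (nat_lit 78) (nat_lit 228) (nat_lit 0)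 (XT.lf (nat_lit 0) (nat_lit 4215831703) (nat_lit 304) (nat_lit 11510477715) (nat_lit 76) (nat_lit 11448644142) (nat_lit 74) (nat_lit 5) (nat_lit 78) (nat_lit 5) (nat_lit 75) (nat_lit 5) (nat_lit 353) (nat_lit 277) (nat_lit 150)) (XT.lf (nat_lit 0) (nat_lit 7035010251) (nat_lit 228) (nat_lit 4869453728) (nat_lit 304) (nat_lit 15856125893) (nat_lit 71) (nat_lit 5) (nat_lit 74) (nat_lit 5) (nat_lit 75) (nat_lit 5) (nat_lit 354) (nat_lit 277) (nat_lit 149)))))) (XT.nd (nat_lit 34710) (nat_lit 0) (nat_lit 32148) (XT.nd (nat_lit 234) (nat_lit 456) (nat_lit 0) (XT.nd (nat_lit 78) (nat_lit 532) (nat_lit 0) (XT.lf (nat_lit 0) (nat_lit 19928397996) (nat_lit 304) (nat_lit 2133874560) (nat_lit 76) (nat_lit 6299434302) (nat_lit 71) (nat_lit 5) (nat_lit 75) (nat_lit 5) (nat_lit 72) (nat_lit 5) (nat_lit 355) (nat_lit 277) (nat_lit 148)) (XT.nd (nat_lit 78) (nat_lit 304) (nat_lit 0) (XT.lf (nat_lit 0) (nat_lit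 17184557257) (nat_lit 228) (nat_lit 11138202077) (nat_lit 304) (nat_lit 655508142) (nat_lit 68) (nat_lit 5) (nat_lit 71) (nat_lit 5) (nat_lit 72) (nat_lit 5) (nat_lit 356) (nat_lit 277) (nat_lit 147)) (XT.lf (nat_lit 0) (nat_lit 7309729525) (nat_lit 304) (nat_lit 22086883522) (nat_lit 76) (nat_lit 214749350) (nat_lit 64) (nat_lit 5) (nat_lit 68) (nat_lit 5) (nat_lit 65) (nat_lit 5) (nat_lit 357) (nat_lit 277) (nat_lit 146)))) (XT.nd (nat_lit 156) (nat_lit 228) (nat_lit 0) (XT.nd (nat_lit 78) (nat_lit 228) (nat_lit 0) (XT.lf (nat_lit 0) (nat_lit 15645948282) (nat_lit 304) (nat_lit 2781088682) (nat_lit 76) (nat_lit 11833511932) (nat_lit 64) (nat_lit 5) (nat_lit 68) (nat_lit 5) (nat_lit 65) (nat_lit 5) (nat_lit 358) (nat_lit 277) (nat_lit 145)) (XT.lf (nat_lit 0) (nat_lit 17308076930) (nat_lit 228) (nat_lit 7022907257) (nat_lit 304) (nat_lit 6596256058) (nat_lit 61) (nat_lit 5) (nat_lit 64) (nat_lit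 5) (nat_lit 65) (nat_lit 5) (nat_lit 359) (nat_lit 277) (nat_lit 144))) (XT.nd (nat_lit 34242) (nat_lit 0) (nat_lit 33440) (XT.lf (nat_lit 0) (nat_lit 1719446580) (nat_lit 228) (nat_lit 25168025535) (nat_lit 76) (nat_lit 4724675728) (nat_lit 58) (nat_lit 5) (nat_lit 61) (nat_lit 5) (nat_lit 59) (nat_lit 5) (nat_lit 360) (nat_lit 277) (nat_lit 143)) (XT.lf (nat_lit 0) (nat_lit 205075576) (nat_lit 0) (nat_lit 205075576) (nat_lit 1292) (nat_lit 3510559023) (nat_lit 498) (nat_lit 5) (nat_lit 498) (nat_lit 3) (nat_lit 515) (nat_lit 3) (nat_lit 278) (nat_lit 278) (nat_lit 224))))) (XT.nd (nat_lit 234) (nat_lit 1292) (nat_lit 0) (XT.nd (nat_lit 78) (nat_lit 0) (nat_lit 0) (XT.lf (nat_lit 0) (nat_lit 2692473704) (nat_lit 1292) (nat_lit 1995857862) (nat_lit 1368) (nat_lit 3232036109) (nat_lit 498) (nat_lit 5) (nat_lit 515) (nat_lit 3) (nat_lit 516) (nat_lit 5) (nat_lit 279) (nat_lit 278) (nat_lit 223))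 (XT.nd (nat_lit 78) (nat_lit 0) (nat_lit 76) (XT.lf (nat_lit 76) (nat_lit 3609610179) (nat_lit 0) (nat_lit 965856303) (nat_lit 1368) (nat_lit 3427181443) (nat_lit 499) (nat_lit 5) (nat_lit 498) (nat_lit 5) (nat_lit 516) (nat_lit 5) (nat_lit 280) (nat_lit 278) (nat_lit 222)) (XT.lf (nat_lit 76) (nat_lit 1282893588) (nat_lit 0) (nat_lit 5203154452) (nat_lit 1368) (nat_lit 1601982513) (nat_lit 500) (nat_lit 5) (nat_lit 499) (nat_lit 5) (nat_lit 517) (nat_lit 5) (nat_lit 281) (nat_lit 278) (nat_lit 221)))) (XT.nd (nat_lit 156) (nat_lit 0) (nat_lit 76) (XT.nd (nat_lit 78) (nat_lit 0) (nat_lit 76) (XT.lf (nat_lit 0) (nat_lit 242558723) (nat_lit 1368) (nat_lit 1033592384) (nat_lit 1444) (nat_lit 6900476073) (nat_lit 481) (nat_lit 5) (nat_lit 499) (nat_lit 5) (nat_lit 500) (nat_lit 5) (nat_lit 282) (nat_lit 278) (nat_lit 220)) (XT.lf (nat_lit 0) (nat_lit 2105022180) (nat_lit 1368) (nat_lit 3359692453)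 (nat_lit 1444) (nat_lit 2803319983) (nat_lit 482) (nat_lit 5) (nat_lit 500) (nat_lit 5) (nat_lit 501) (nat_lit 5) (nat_lit 283) (nat_lit 278) (nat_lit 219))) (XT.nd (nat_lit 78) (nat_lit 0) (nat_lit 76) (XT.lf (nat_lit 76) (nat_lit 2668297564) (nat_lit 0) (nat_lit 1323627898) (nat_lit 1444) (nat_lit 4370937693) (nat_lit 483) (nat_lit 5) (nat_lit 482) (nat_lit 5) (nat_lit 501) (nat_lit 5) (nat_lit 284) (nat_lit 278) (nat_lit 218)) (XT.lf (nat_lit 76) (nat_lit 409565857) (nat_lit 0) (nat_lit 5507988897) (nat_lit 1444) (nat_lit 2543388154) (nat_lit 484) (nat_lit 5) (nat_lit 483) (nat_lit 5) (nat_lit 502) (nat_lit 5) (nat_lit 285) (nat_lit 278) (nat_lit 217))))))) (XT.nd (nat_lit 1092) (nat_lit 8664) (nat_lit 0) (XT.nd (nat_lit 546) (nat_lit 6156) (nat_lit 0) (XT.nd (nat_lit 234) (nat_lit 1368) (nat_lit 0) (XT.nd (nat_lit 78) (nat_lit 1368) (nat_lit 0) (XT.lf (nat_lit 76) (nat_lit 6726852789) (nat_lit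 0) (nat_lit 1160494152) (nat_lit 1444) (nat_lit 674937550) (nat_lit 484) (nat_lit 5) (nat_lit 483) (nat_lit 5) (nat_lit 502) (nat_lit 5) (nat_lit 286) (nat_lit 278) (nat_lit 216)) (XT.nd (nat_lit 78) (nat_lit 0) (nat_lit 0) (XT.lf (nat_lit 0) (nat_lit 1225193820) (nat_lit 1444) (nat_lit 4108773402) (nat_lit 1520) (nat_lit 3332741569) (nat_lit 465) (nat_lit 5) (nat_lit 484) (nat_lit 5) (nat_lit 485) (nat_lit 5) (nat_lit 287) (nat_lit 278) (nat_lit 215)) (XT.lf (nat_lit 76) (nat_lit 2373622715) (nat_lit 0) (nat_lit 777253094) (nat_lit 1520) (nat_lit 5623790180) (nat_lit 466) (nat_lit 5) (nat_lit 465) (nat_lit 5) (nat_lit 485) (nat_lit 5) (nat_lit 288) (nat_lit 278) (nat_lit 214)))) (XT.nd (nat_lit 156) (nat_lit 1444) (nat_lit 0) (XT.nd (nat_lit 78) (nat_lit 0) (nat_lit 0) (XT.lf (nat_lit 76) (nat_lit 157874229) (nat_lit 0) (nat_lit 4974459280) (nat_lit 1520) (nat_lit 3753610742) (nat_lit 467) (nat_lit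 5) (nat_lit 466) (nat_lit 5) (nat_lit 486) (nat_lit 5) (nat_lit 289) (nat_lit 278) (nat_lit 213)) (XT.lf (nat_lit 76) (nat_lit 6956547190) (nat_lit 0) (nat_lit 210143313) (nat_lit 1520) (nat_lit 1834042463) (nat_lit 467) (nat_lit 5) (nat_lit 466) (nat_lit 5) (nat_lit 486) (nat_lit 5) (nat_lit 290) (nat_lit 278) (nat_lit 212))) (XT.nd (nat_lit 78) (nat_lit 0) (nat_lit 76) (XT.lf (nat_lit 0) (nat_lit 149752819) (nat_lit 1520) (nat_lit 4286133428) (nat_lit 1596) (nat_lit 4682929405) (nat_lit 447) (nat_lit 5) (nat_lit 467) (nat_lit 5) (nat_lit 468) (nat_lit 5) (nat_lit 291) (nat_lit 278) (nat_lit 211)) (XT.lf (nat_lit 0) (nat_lit 2152098608) (nat_lit 1520) (nat_lit 6558501302) (nat_lit 1596) (nat_lit 529957456) (nat_lit 448) (nat_lit 5) (nat_lit 468) (nat_lit 5) (nat_lit 469) (nat_lit 5) (nat_lit 292) (nat_lit 278) (nat_lit 210))))) (XT.nd (nat_lit 234) (nat_lit 4788) (nat_lit 0) (XT.nd (nat_lit 78)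 (nat_lit 1444) (nat_lit 0) (XT.lf (nat_lit 76) (nat_lit 489127148) (nat_lit 0) (nat_lit 3736359673) (nat_lit 1596) (nat_lit 5140282047) (nat_lit 449) (nat_lit 5) (nat_lit 448) (nat_lit 5) (nat_lit 469) (nat_lit 5) (nat_lit 293) (nat_lit 278) (nat_lit 209)) (XT.nd (nat_lit 78) (nat_lit 1520) (nat_lit 0) (XT.lf (nat_lit 0) (nat_lit 6365015586) (nat_lit 1520) (nat_lit 1705663011) (nat_lit 76) (nat_lit 1424015243) (nat_lit 449) (nat_lit 5) (nat_lit 469) (nat_lit 5) (nat_lit 450) (nat_lit 5) (nat_lit 294) (nat_lit 278) (nat_lit 208)) (XT.lf (nat_lit 0) (nat_lit 5690800004) (nat_lit 1520) (nat_lit 2891512032) (nat_lit 1596) (nat_lit 1044937746) (nat_lit 429) (nat_lit 5) (nat_lit 449) (nat_lit 5) (nat_lit 450) (nat_lit 5) (nat_lit 295) (nat_lit 278) (nat_lit 207)))) (XT.nd (nat_lit 156) (nat_lit 1444) (nat_lit 0) (XT.nd (nat_lit 78) (nat_lit 1672) (nat_lit 0) (XT.lf (nat_lit 0) (nat_lit 1091346998) (nat_lit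 1672) (nat_lit 6210911707) (nat_lit 76) (nat_lit 2461344542) (nat_lit 407) (nat_lit 5) (nat_lit 429) (nat_lit 5) (nat_lit 408) (nat_lit 5) (nat_lit 296) (nat_lit 278) (nat_lit 206)) (XT.lf (nat_lit 0) (nat_lit 1368630120) (nat_lit 1672) (nat_lit 1917690439) (nat_lit 1748) (nat_lit 6617444889) (nat_lit 385) (nat_lit 5) (nat_lit 407) (nat_lit 5) (nat_lit 408) (nat_lit 5) (nat_lit 297) (nat_lit 278) (nat_lit 205))) (XT.nd (nat_lit 78) (nat_lit 1444) (nat_lit 0) (XT.lf (nat_lit 0) (nat_lit 5567846052) (nat_lit 1748) (nat_lit 850580561) (nat_lit 76) (nat_lit 3629323122) (nat_lit 385) (nat_lit 5) (nat_lit 408) (nat_lit 5) (nat_lit 386) (nat_lit 5) (nat_lit 298) (nat_lit 278) (nat_lit 204)) (XT.lf (nat_lit 0) (nat_lit 7106021866) (nat_lit 1444) (nat_lit 826852844) (nat_lit 1520) (nat_lit 2262908053) (nat_lit 366) (nat_lit 5) (nat_lit 385) (nat_lit 5) (nat_lit 386) (nat_lit 5) (nat_lit 299) (nat_lit 278)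 (nat_lit 203)))))) (XT.nd (nat_lit 546) (nat_lit 3572) (nat_lit 0) (XT.nd (nat_lit 234) (nat_lit 2432) (nat_lit 0) (XT.nd (nat_lit 78) (nat_lit 1748) (nat_lit 0) (XT.lf (nat_lit 0) (nat_lit 47656482) (nat_lit 912) (nat_lit 5389409880) (nat_lit 76) (nat_lit 4910670064) (nat_lit 354) (nat_lit 5) (nat_lit 366) (nat_lit 5) (nat_lit 355) (nat_lit 5) (nat_lit 300) (nat_lit 278) (nat_lit 202)) (XT.nd (nat_lit 78) (nat_lit 836) (nat_lit 0) (XT.lf (nat_lit 0) (nat_lit 2401719291) (nat_lit 988) (nat_lit 7743634791) (nat_lit 76) (nat_lit 358525009) (nat_lit 342) (nat_lit 5) (nat_lit 355) (nat_lit 5) (nat_lit 343) (nat_lit 5) (nat_lit 301) (nat_lit 278) (nat_lit 201)) (XT.lf (nat_lit 0) (nat_lit 494735278) (nat_lit 836) (nat_lit 4366847723) (nat_lit 912) (nat_lit 5802446695) (nat_lit 331) (nat_lit 5) (nat_lit 342) (nat_lit 5) (nat_lit 343) (nat_lit 5) (nat_lit 302) (nat_lit 278) (nat_lit 200)))) (XT.nd (nat_lit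 156) (nat_lit 1596) (nat_lit 0) (XT.nd (nat_lit 78) (nat_lit 836) (nat_lit 0) (XT.lf (nat_lit 0) (nat_lit 7418156269) (nat_lit 912) (nat_lit 1791858436) (nat_lit 76) (nat_lit 1618538291) (nat_lit 331) (nat_lit 5) (nat_lit 343) (nat_lit 5) (nat_lit 332) (nat_lit 5) (nat_lit 303) (nat_lit 278) (nat_lit 199)) (XT.lf (nat_lit 0) (nat_lit 6859272581) (nat_lit 836) (nat_lit 3226864829) (nat_lit 912) (nat_lit 911206048) (nat_lit 320) (nat_lit 5) (nat_lit 331) (nat_lit 5) (nat_lit 332) (nat_lit 5) (nat_lit 304) (nat_lit 278) (nat_lit 198))) (XT.nd (nat_lit 78) (nat_lit 760) (nat_lit 0) (XT.lf (nat_lit 0) (nat_lit 1664467831) (nat_lit 836) (nat_lit 6555216312) (nat_lit 76) (nat_lit 2950855641) (nat_lit 309) (nat_lit 5) (nat_lit 320) (nat_lit 5) (nat_lit 310) (nat_lit 5) (nat_lit 305) (nat_lit 278) (nat_lit 197)) (XT.lf (nat_lit 0) (nat_lit 2303492914) (nat_lit 760) (nat_lit 2028832089) (nat_lit 836) (nat_lit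 7015964407) (nat_lit 299) (nat_lit 5) (nat_lit 309) (nat_lit 5) (nat_lit 310) (nat_lit 5) (nat_lit 306) (nat_lit 278) (nat_lit 196))))) (XT.nd (nat_lit 234) (nat_lit 2052) (nat_lit 0) (XT.nd (nat_lit 78) (nat_lit 1520) (nat_lit 0) (XT.lf (nat_lit 0) (nat_lit 7116461529) (nat_lit 836) (nat_lit 79889227) (nat_lit 76) (nat_lit 4334318934) (nat_lit 299) (nat_lit 5) (nat_lit 310) (nat_lit 5) (nat_lit 300) (nat_lit 5) (nat_lit 307) (nat_lit 278) (nat_lit 195)) (XT.nd (nat_lit 78) (nat_lit 836) (nat_lit 0) (XT.lf (nat_lit 0) (nat_lit 9223918743) (nat_lit 684) (nat_lit 798028615) (nat_lit 760) (nat_lit 1695839884) (nat_lit 290) (nat_lit 5) (nat_lit 299) (nat_lit 5) (nat_lit 300) (nat_lit 5) (nat_lit 308) (nat_lit 278) (nat_lit 194)) (XT.lf (nat_lit 0) (nat_lit 1138087506) (nat_lit 836) (nat_lit 5004132821) (nat_lit 76) (nat_lit 5767206148) (nat_lit 279) (nat_lit 5) (nat_lit 290) (nat_lit 5) (nat_lit 280)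 (nat_lit 5) (nat_lit 309) (nat_lit 278) (nat_lit 193)))) (XT.nd (nat_lit 156) (nat_lit 684) (nat_lit 0) (XT.nd (nat_lit 78) (nat_lit 684) (nat_lit 0) (XT.lf (nat_lit 0) (nat_lit 4054533649) (nat_lit 760) (nat_lit 7590144733) (nat_lit 76) (nat_lit 461522167) (nat_lit 270) (nat_lit 5) (nat_lit 280) (nat_lit 5) (nat_lit 271) (nat_lit 5) (nat_lit 310) (nat_lit 278) (nat_lit 192)) (XT.lf (nat_lit 0) (nat_lit 2029990852) (nat_lit 684) (nat_lit 5083295461) (nat_lit 760) (nat_lit 5194515338) (nat_lit 261) (nat_lit 5) (nat_lit 270) (nat_lit 5) (nat_lit 271) (nat_lit 5) (nat_lit 311) (nat_lit 278) (nat_lit 191))) (XT.nd (nat_lit 78) (nat_lit 684) (nat_lit 0) (XT.lf (nat_lit 0) (nat_lit 10293585708) (nat_lit 760) (nat_lit 520534210) (nat_lit 76) (nat_lit 1700754668) (nat_lit 261) (nat_lit 5) (nat_lit 271) (nat_lit 5) (nat_lit 262) (nat_lit 5) (nat_lit 312) (nat_lit 278) (nat_lit 190)) (XT.lf (nat_lit 0) (nat_lit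 894827559) (nat_lit 684) (nat_lit 3148036690) (nat_lit 76) (nat_lit 8683910283) (nat_lit 252) (nat_lit 5) (nat_lit 261) (nat_lit 5) (nat_lit 253) (nat_lit 5) (nat_lit 313) (nat_lit 278) (nat_lit 189))))))))
noncomputable def xc82 : XT := (XT.nd (nat_lit 2106) (nat_lit 4028) (nat_lit 0) (XT.nd (nat_lit 1014) (nat_lit 4712) (nat_lit 0) (XT.nd (nat_lit 468) (nat_lit 2660) (nat_lit 0) (XT.nd (nat_lit 234) (nat_lit 1216) (nat_lit 0) (XT.nd (nat_lit 78) (nat_lit 1216) (nat_lit 0) (XT.lf (nat_lit 0) (nat_lit 4111964727) (nat_lit 760) (nat_lit 5878898629) (nat_lit 76) (nat_lit 2953138154) (nat_lit 243) (nat_lit 5) (nat_lit 253) (nat_lit 5) (nat_lit 244) (nat_lit 5) (nat_lit 314) (nat_lit 278) (nat_lit 188)) (XT.nd (nat_lit 78) (nat_lit 608) (nat_lit 0) (XT.lf (nat_lit 0) (nat_lit 4455378044) (nat_lit 608) (nat_lit 3016891501) (nat_lit 684) (nat_lit 5694560161) (nat_lit 235) (nat_lit 5) (nat_lit 243) (nat_lit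 5) (nat_lit 244) (nat_lit 5) (nat_lit 315) (nat_lit 278) (nat_lit 187)) (XT.lf (nat_lit 0) (nat_lit 1743884892) (nat_lit 608) (nat_lit 9237817642) (nat_lit 684) (nat_lit 2413690804) (nat_lit 227) (nat_lit 5) (nat_lit 235) (nat_lit 5) (nat_lit 236) (nat_lit 5) (nat_lit 316) (nat_lit 278) (nat_lit 186)))) (XT.nd (nat_lit 78) (nat_lit 1140) (nat_lit 0) (XT.lf (nat_lit 0) (nat_lit 1002818303) (nat_lit 684) (nat_lit 1060446636) (nat_lit 76) (nat_lit 11566442153) (nat_lit 226) (nat_lit 5) (nat_lit 235) (nat_lit 5) (nat_lit 227) (nat_lit 5) (nat_lit 317) (nat_lit 278) (nat_lit 185)) (XT.nd (nat_lit 78) (nat_lit 608) (nat_lit 0) (XT.lf (nat_lit 0) (nat_lit 4559894428) (nat_lit 608) (nat_lit 3977754852) (nat_lit 76) (nat_lit 5331680284) (nat_lit 219) (nat_lit 5) (nat_lit 227) (nat_lit 5) (nat_lit 220) (nat_lit 5) (nat_lit 318) (nat_lit 278) (nat_lit 184)) (XT.lf (nat_lit 0) (nat_lit 7115123535) (nat_lit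 608) (nat_lit 1147508472) (nat_lit 684) (nat_lit 5852744945) (nat_lit 211) (nat_lit 5) (nat_lit 219) (nat_lit 5) (nat_lit 220) (nat_lit 5) (nat_lit 319) (nat_lit 278) (nat_lit 183))))) (XT.nd (nat_lit 234) (nat_lit 1520) (nat_lit 0) (XT.nd (nat_lit 78) (nat_lit 608) (nat_lit 0) (XT.lf (nat_lit 0) (nat_lit 4204991218) (nat_lit 532) (nat_lit 7940143424) (nat_lit 608) (nat_lit 2222312244) (nat_lit 204) (nat_lit 5) (nat_lit 211) (nat_lit 5) (nat_lit 212) (nat_lit 5) (nat_lit 320) (nat_lit 278) (nat_lit 182)) (XT.nd (nat_lit 78) (nat_lit 0) (nat_lit 0) (XT.lf (nat_lit 0) (nat_lit 1178919388) (nat_lit 532) (nat_lit 353963867) (nat_lit 608) (nat_lit 13093297823) (nat_lit 196) (nat_lit 5) (nat_lit 203) (nat_lit 5) (nat_lit 204) (nat_lit 5) (nat_lit 321) (nat_lit 278) (nat_lit 181)) (XT.lf (nat_lit 0) (nat_lit 5461661354) (nat_lit 608) (nat_lit 1990134884) (nat_lit 76) (nat_lit 7438778544) (nat_lit 196)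 (nat_lit 5) (nat_lit 204) (nat_lit 5) (nat_lit 197) (nat_lit 5) (nat_lit 322) (nat_lit 278) (nat_lit 180)))) (XT.nd (nat_lit 156) (nat_lit 532) (nat_lit 0) (XT.nd (nat_lit 78) (nat_lit 532) (nat_lit 0) (XT.lf (nat_lit 0) (nat_lit 9551259167) (nat_lit 532) (nat_lit 5259883850) (nat_lit 76) (nat_lit 350911414) (nat_lit 190) (nat_lit 5) (nat_lit 197) (nat_lit 5) (nat_lit 191) (nat_lit 5) (nat_lit 323) (nat_lit 278) (nat_lit 179)) (XT.lf (nat_lit 0) (nat_lit 6741938118) (nat_lit 532) (nat_lit 7103255198) (nat_lit 608) (nat_lit 1594865065) (nat_lit 183) (nat_lit 5) (nat_lit 190) (nat_lit 5) (nat_lit 191) (nat_lit 5) (nat_lit 324) (nat_lit 278) (nat_lit 178))) (XT.nd (nat_lit 78) (nat_lit 0) (nat_lit 0) (XT.lf (nat_lit 0) (nat_lit 2547143025) (nat_lit 532) (nat_lit 12286162224) (nat_lit 76) (nat_lit 892000771) (nat_lit 176) (nat_lit 5) (nat_lit 183) (nat_lit 5) (nat_lit 177) (nat_lit 5) (nat_lit 325)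 (nat_lit 278) (nat_lit 177)) (XT.lf (nat_lit 0) (nat_lit 6873985092) (nat_lit 532) (nat_lit 50252678) (nat_lit 76) (nat_lit 9093029544) (nat_lit 176) (nat_lit 5) (nat_lit 183) (nat_lit 5) (nat_lit 177) (nat_lit 5) (nat_lit 326) (nat_lit 278) (nat_lit 176)))))) (XT.nd (nat_lit 546) (nat_lit 1976) (nat_lit 0) (XT.nd (nat_lit 234) (nat_lit 1292) (nat_lit 0) (XT.nd (nat_lit 78) (nat_lit 988) (nat_lit 0) (XT.lf (nat_lit 0) (nat_lit 11397432870) (nat_lit 532) (nat_lit 3638511767) (nat_lit 76) (nat_lit 1280718354) (nat_lit 170) (nat_lit 5) (nat_lit 177) (nat_lit 5) (nat_lit 171) (nat_lit 5) (nat_lit 327) (nat_lit 278) (nat_lit 175)) (XT.nd (nat_lit 78) (nat_lit 532) (nat_lit 0) (XT.lf (nat_lit 0) (nat_lit 9206215463) (nat_lit 456) (nat_lit 6933231513) (nat_lit 532) (nat_lit 483947520) (nat_lit 164) (nat_lit 5) (nat_lit 170) (nat_lit 5) (nat_lit 171) (nat_lit 5) (nat_lit 328) (nat_lit 278) (nat_lit 174))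 (XT.lf (nat_lit 0) (nat_lit 4078204788) (nat_lit 532) (nat_lit 11386311272) (nat_lit 76) (nat_lit 1473344615) (nat_lit 157) (nat_lit 5) (nat_lit 164) (nat_lit 5) (nat_lit 158) (nat_lit 5) (nat_lit 329) (nat_lit 278) (nat_lit 173)))) (XT.nd (nat_lit 156) (nat_lit 912) (nat_lit 0) (XT.nd (nat_lit 78) (nat_lit 0) (nat_lit 0) (XT.lf (nat_lit 0) (nat_lit 1690382871) (nat_lit 380) (nat_lit 7165409246) (nat_lit 456) (nat_lit 8404212203) (nat_lit 152) (nat_lit 5) (nat_lit 157) (nat_lit 5) (nat_lit 158) (nat_lit 5) (nat_lit 330) (nat_lit 278) (nat_lit 172)) (XT.lf (nat_lit 0) (nat_lit 13840927487) (nat_lit 456) (nat_lit 2316365299) (nat_lit 76) (nat_lit 1433245142) (nat_lit 152) (nat_lit 5) (nat_lit 158) (nat_lit 5) (nat_lit 153) (nat_lit 5) (nat_lit 331) (nat_lit 278) (nat_lit 171))) (XT.nd (nat_lit 78) (nat_lit 380) (nat_lit 0) (XT.lf (nat_lit 0) (nat_lit 1131779550) (nat_lit 532) (nat_lit 6531203277)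 (nat_lit 76) (nat_lit 10265861633) (nat_lit 145) (nat_lit 5) (nat_lit 152) (nat_lit 5) (nat_lit 146) (nat_lit 5) (nat_lit 332) (nat_lit 278) (nat_lit 170)) (XT.lf (nat_lit 0) (nat_lit 6158363663) (nat_lit 456) (nat_lit 10965673822) (nat_lit 76) (nat_lit 1151782408) (nat_lit 140) (nat_lit 5) (nat_lit 146) (nat_lit 5) (nat_lit 141) (nat_lit 5) (nat_lit 333) (nat_lit 278) (nat_lit 169))))) (XT.nd (nat_lit 234) (nat_lit 1140) (nat_lit 0) (XT.nd (nat_lit 78) (nat_lit 456) (nat_lit 0) (XT.lf (nat_lit 0) (nat_lit 2980789617) (nat_lit 380) (nat_lit 8448989662) (nat_lit 456) (nat_lit 7201553658) (nat_lit 135) (nat_lit 5) (nat_lit 140) (nat_lit 5) (nat_lit 141) (nat_lit 5) (nat_lit 334) (nat_lit 278) (nat_lit 168)) (XT.nd (nat_lit 78) (nat_lit 456) (nat_lit 0) (XT.lf (nat_lit 0) (nat_lit 16916536860) (nat_lit 456) (nat_lit 1534375233) (nat_lit 76) (nat_lit 545464055) (nat_lit 135) (nat_lit 5) (nat_lit 141)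 (nat_lit 5) (nat_lit 136) (nat_lit 5) (nat_lit 335) (nat_lit 278) (nat_lit 167)) (XT.lf (nat_lit 0) (nat_lit 3275756443) (nat_lit 456) (nat_lit 6300598451) (nat_lit 76) (nat_lit 9793166359) (nat_lit 129) (nat_lit 5) (nat_lit 135) (nat_lit 5) (nat_lit 130) (nat_lit 5) (nat_lit 336) (nat_lit 278) (nat_lit 166)))) (XT.nd (nat_lit 156) (nat_lit 456) (nat_lit 0) (XT.nd (nat_lit 78) (nat_lit 304) (nat_lit 0) (XT.lf (nat_lit 0) (nat_lit 8445097735) (nat_lit 380) (nat_lit 364230792) (nat_lit 456) (nat_lit 10943354022) (nat_lit 124) (nat_lit 5) (nat_lit 129) (nat_lit 5) (nat_lit 130) (nat_lit 5) (nat_lit 337) (nat_lit 278) (nat_lit 165)) (XT.lf (nat_lit 0) (nat_lit 3530488972) (nat_lit 304) (nat_lit 11083997274) (nat_lit 380) (nat_lit 5530748735) (nat_lit 120) (nat_lit 5) (nat_lit 124) (nat_lit 5) (nat_lit 125) (nat_lit 5) (nat_lit 338) (nat_lit 278) (nat_lit 164))) (XT.nd (nat_lit 78) (nat_lit 380) (nat_lit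 0) (XT.lf (nat_lit 0) (nat_lit 103908041) (nat_lit 380) (nat_lit 1611781289) (nat_lit 76) (nat_lit 18832671327) (nat_lit 119) (nat_lit 5) (nat_lit 124) (nat_lit 5) (nat_lit 120) (nat_lit 5) (nat_lit 339) (nat_lit 278) (nat_lit 163)) (XT.lf (nat_lit 0) (nat_lit 5957067796) (nat_lit 456) (nat_lit 7054501002) (nat_lit 76) (nat_lit 7948795320) (nat_lit 114) (nat_lit 5) (nat_lit 120) (nat_lit 5) (nat_lit 115) (nat_lit 5) (nat_lit 340) (nat_lit 278) (nat_lit 162))))))) (XT.nd (nat_lit 1014) (nat_lit 1292) (nat_lit 0) (XT.nd (nat_lit 468) (nat_lit 1216) (nat_lit 0) (XT.nd (nat_lit 234) (nat_lit 836) (nat_lit 0) (XT.nd (nat_lit 78) (nat_lit 380) (nat_lit 0) (XT.lf (nat_lit 0) (nat_lit 8599815193) (nat_lit 304) (nat_lit 3445865506) (nat_lit 380) (nat_lit 9337856871) (nat_lit 110) (nat_lit 5) (nat_lit 114) (nat_lit 5) (nat_lit 115) (nat_lit 5) (nat_lit 341) (nat_lit 278) (nat_lit 161)) (XT.nd (nat_lit 78)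 (nat_lit 76) (nat_lit 0) (XT.lf (nat_lit 0) (nat_lit 2971056470) (nat_lit 304) (nat_lit 15436754521) (nat_lit 380) (nat_lit 3409784908) (nat_lit 106) (nat_lit 5) (nat_lit 110) (nat_lit 5) (nat_lit 111) (nat_lit 5) (nat_lit 342) (nat_lit 278) (nat_lit 160)) (XT.lf (nat_lit 0) (nat_lit 2753090975) (nat_lit 380) (nat_lit 2958263951) (nat_lit 76) (nat_lit 16551131030) (nat_lit 105) (nat_lit 5) (nat_lit 110) (nat_lit 5) (nat_lit 106) (nat_lit 5) (nat_lit 343) (nat_lit 278) (nat_lit 159)))) (XT.nd (nat_lit 78) (nat_lit 532) (nat_lit 0) (XT.lf (nat_lit 0) (nat_lit 9153894054) (nat_lit 380) (nat_lit 9212982999) (nat_lit 76) (nat_lit 4351413889) (nat_lit 101) (nat_lit 5) (nat_lit 106) (nat_lit 5) (nat_lit 102) (nat_lit 5) (nat_lit 344) (nat_lit 278) (nat_lit 158)) (XT.nd (nat_lit 78) (nat_lit 228) (nat_lit 0) (XT.lf (nat_lit 0) (nat_lit 7347236912) (nat_lit 304) (nat_lit 8488434950) (nat_lit 380) (nat_lit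 7350325348) (nat_lit 97) (nat_lit 5) (nat_lit 101) (nat_lit 5) (nat_lit 102) (nat_lit 5) (nat_lit 345) (nat_lit 278) (nat_lit 157)) (XT.lf (nat_lit 0) (nat_lit 836945980) (nat_lit 228) (nat_lit 21943324477) (nat_lit 304) (nat_lit 886222829) (nat_lit 94) (nat_lit 5) (nat_lit 97) (nat_lit 5) (nat_lit 98) (nat_lit 5) (nat_lit 346) (nat_lit 278) (nat_lit 156))))) (XT.nd (nat_lit 234) (nat_lit 608) (nat_lit 0) (XT.nd (nat_lit 78) (nat_lit 532) (nat_lit 0) (XT.lf (nat_lit 0) (nat_lit 5844256821) (nat_lit 304) (nat_lit 6050832455) (nat_lit 76) (nat_lit 12262608114) (nat_lit 93) (nat_lit 5) (nat_lit 97) (nat_lit 5) (nat_lit 94) (nat_lit 5) (nat_lit 347) (nat_lit 278) (nat_lit 155)) (XT.nd (nat_lit 78) (nat_lit 228) (nat_lit 0) (XT.lf (nat_lit 0) (nat_lit 11348572744) (nat_lit 304) (nat_lit 1473621089) (nat_lit 380) (nat_lit 11840180475) (nat_lit 89) (nat_lit 5) (nat_lit 93) (nat_lit 5) (nat_lit 94) (nat_lit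 5) (nat_lit 348) (nat_lit 278) (nat_lit 154)) (XT.lf (nat_lit 0) (nat_lit 4139881689) (nat_lit 228) (nat_lit 15981944504) (nat_lit 304) (nat_lit 5058123550) (nat_lit 86) (nat_lit 5) (nat_lit 89) (nat_lit 5) (nat_lit 90) (nat_lit 5) (nat_lit 349) (nat_lit 278) (nat_lit 153)))) (XT.nd (nat_lit 156) (nat_lit 228) (nat_lit 0) (XT.nd (nat_lit 78) (nat_lit 304) (nat_lit 0) (XT.lf (nat_lit 0) (nat_lit 1987059654) (nat_lit 304) (nat_lit 3460029086) (nat_lit 76) (nat_lit 20264019664) (nat_lit 85) (nat_lit 5) (nat_lit 89) (nat_lit 5) (nat_lit 86) (nat_lit 5) (nat_lit 350) (nat_lit 278) (nat_lit 152)) (XT.lf (nat_lit 0) (nat_lit 9291865777) (nat_lit 380) (nat_lit 11508831284) (nat_lit 76) (nat_lit 5454501278) (nat_lit 81) (nat_lit 5) (nat_lit 86) (nat_lit 5) (nat_lit 82) (nat_lit 5) (nat_lit 351) (nat_lit 278) (nat_lit 151))) (XT.nd (nat_lit 78) (nat_lit 0) (nat_lit 0) (XT.lf (nat_lit 0) (nat_lit 6758891548)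 (nat_lit 228) (nat_lit 10145795498) (nat_lit 304) (nat_lit 9909151310) (nat_lit 78) (nat_lit 5) (nat_lit 81) (nat_lit 5) (nat_lit 82) (nat_lit 5) (nat_lit 352) (nat_lit 278) (nat_lit 150)) (XT.lf (nat_lit 0) (nat_lit 24814959765) (nat_lit 304) (nat_lit 1685584156) (nat_lit 76) (nat_lit 887316981) (nat_lit 78) (nat_lit 5) (nat_lit 82) (nat_lit 5) (nat_lit 79) (nat_lit 5) (nat_lit 353) (nat_lit 278) (nat_lit 149)))))) (XT.nd (nat_lit 34788) (nat_lit 0) (nat_lit 31920) (XT.nd (nat_lit 234) (nat_lit 760) (nat_lit 0) (XT.nd (nat_lit 78) (nat_lit 228) (nat_lit 0) (XT.lf (nat_lit 0) (nat_lit 5085423809) (nat_lit 304) (nat_lit 10637887286) (nat_lit 76) (nat_lit 12251803434) (nat_lit 74) (nat_lit 5) (nat_lit 78) (nat_lit 5) (nat_lit 75) (nat_lit 5) (nat_lit 354) (nat_lit 278) (nat_lit 148)) (XT.nd (nat_lit 78) (nat_lit 0) (nat_lit 0) (XT.lf (nat_lit 0) (nat_lit 8444206261) (nat_lit 228) (nat_lit 4546643760)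 (nat_lit 304) (nat_lit 15587753772) (nat_lit 71) (nat_lit 5) (nat_lit 74) (nat_lit 5) (nat_lit 75) (nat_lit 5) (nat_lit 355) (nat_lit 278) (nat_lit 147)) (XT.lf (nat_lit 0) (nat_lit 21237217402) (nat_lit 304) (nat_lit 1023225641) (nat_lit 76) (nat_lit 6937683308) (nat_lit 71) (nat_lit 5) (nat_lit 75) (nat_lit 5) (nat_lit 72) (nat_lit 5) (nat_lit 356) (nat_lit 278) (nat_lit 146)))) (XT.nd (nat_lit 156) (nat_lit 228) (nat_lit 0) (XT.nd (nat_lit 78) (nat_lit 228) (nat_lit 0) (XT.lf (nat_lit 0) (nat_lit 36268698) (nat_lit 304) (nat_lit 10977991097) (nat_lit 76) (nat_lit 18819189503) (nat_lit 67) (nat_lit 5) (nat_lit 71) (nat_lit 5) (nat_lit 68) (nat_lit 5) (nat_lit 357) (nat_lit 278) (nat_lit 145)) (XT.lf (nat_lit 0) (nat_lit 8221552006) (nat_lit 304) (nat_lit 21592223893) (nat_lit 76) (nat_lit 671880512) (nat_lit 64) (nat_lit 5) (nat_lit 68) (nat_lit 5) (nat_lit 65) (nat_lit 5) (nat_lit 358) (nat_lit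 278) (nat_lit 144))) (XT.nd (nat_lit 78) (nat_lit 228) (nat_lit 0) (XT.lf (nat_lit 0) (nat_lit 16787686532) (nat_lit 304) (nat_lit 1740961988) (nat_lit 76) (nat_lit 12626079116) (nat_lit 64) (nat_lit 5) (nat_lit 68) (nat_lit 5) (nat_lit 65) (nat_lit 5) (nat_lit 359) (nat_lit 278) (nat_lit 143)) (XT.lf (nat_lit 0) (nat_lit 18932650177) (nat_lit 228) (nat_lit 6788216583) (nat_lit 304) (nat_lit 6120806649) (nat_lit 61) (nat_lit 5) (nat_lit 64) (nat_lit 5) (nat_lit 65) (nat_lit 5) (nat_lit 360) (nat_lit 278) (nat_lit 142))))) (XT.nd (nat_lit 234) (nat_lit 1292) (nat_lit 0) (XT.nd (nat_lit 78) (nat_lit 0) (nat_lit 0) (XT.lf (nat_lit 0) (nat_lit 1121692687) (nat_lit 0) (nat_lit 1121692687) (nat_lit 1292) (nat_lit 1757065063) (nat_lit 498) (nat_lit 5) (nat_lit 498) (nat_lit 3) (nat_lit 515) (nat_lit 3) (nat_lit 279) (nat_lit 279) (nat_lit 222)) (XT.nd (nat_lit 78) (nat_lit 0) (nat_lit 0) (XT.lf (nat_lit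 0) (nat_lit 6297555385) (nat_lit 1292) (nat_lit 202806942) (nat_lit 1368) (nat_lit 1584290524) (nat_lit 498) (nat_lit 5) (nat_lit 515) (nat_lit 3) (nat_lit 516) (nat_lit 5) (nat_lit 280) (nat_lit 279) (nat_lit 221)) (XT.lf (nat_lit 76) (nat_lit 5540763607) (nat_lit 0) (nat_lit 2605459857) (nat_lit 1368) (nat_lit 25077043) (nat_lit 499) (nat_lit 5) (nat_lit 498) (nat_lit 5) (nat_lit 516) (nat_lit 5) (nat_lit 281) (nat_lit 279) (nat_lit 220)))) (XT.nd (nat_lit 156) (nat_lit 0) (nat_lit 76) (XT.nd (nat_lit 78) (nat_lit 0) (nat_lit 0) (XT.lf (nat_lit 0) (nat_lit 1731831525) (nat_lit 1368) (nat_lit 5077451021) (nat_lit 1444) (nat_lit 1451774318) (nat_lit 481) (nat_lit 5) (nat_lit 499) (nat_lit 5) (nat_lit 500) (nat_lit 5) (nat_lit 282) (nat_lit 279) (nat_lit 219)) (XT.lf (nat_lit 76) (nat_lit 811210753) (nat_lit 0) (nat_lit 2706253705) (nat_lit 1444) (nat_lit 4836561181) (nat_lit 482) (nat_lit 5) (nat_lit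 481) (nat_lit 5) (nat_lit 500) (nat_lit 5) (nat_lit 283) (nat_lit 279) (nat_lit 218))) (XT.nd (nat_lit 78) (nat_lit 0) (nat_lit 0) (XT.lf (nat_lit 0) (nat_lit 5338699738) (nat_lit 1368) (nat_lit 1550784642) (nat_lit 1444) (nat_lit 1560707167) (nat_lit 482) (nat_lit 5) (nat_lit 500) (nat_lit 5) (nat_lit 501) (nat_lit 5) (nat_lit 284) (nat_lit 279) (nat_lit 217)) (XT.lf (nat_lit 76) (nat_lit 4627062484) (nat_lit 0) (nat_lit 2575000061) (nat_lit 1444) (nat_lit 1347477394) (nat_lit 483) (nat_lit 5) (nat_lit 482) (nat_lit 5) (nat_lit 501) (nat_lit 5) (nat_lit 285) (nat_lit 279) (nat_lit 216))))))))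
noncomputable def xc83 : XT := (XT.nd (nat_lit 2106) (nat_lit 10792) (nat_lit 0) (XT.nd (nat_lit 1014) (nat_lit 9424) (nat_lit 0) (XT.nd (nat_lit 468) (nat_lit 4636) (nat_lit 0) (XT.nd (nat_lit 234) (nat_lit 1368) (nat_lit 0) (XT.nd (nat_lit 78) (nat_lit 0) (nat_lit 0) (XT.lf (nat_lit 0) (nat_lit 442061658) (nat_lit 1444) (nat_lit 6314248527) (nat_lit 1520) (nat_lit 1895967452) (nat_lit 464) (nat_lit 5) (nat_lit 483) (nat_lit 5) (nat_lit 484) (nat_lit 5) (nat_lit 286) (nat_lit 279) (nat_lit 215)) (XT.nd (nat_lit 78) (nat_lit 0) (nat_lit 76) (XT.lf (nat_lit 76) (nat_lit 18790708) (nat_lit 0) (nat_lit 2234480338) (nat_lit 1520) (nat_lit 6504966187) (nat_lit 465) (nat_lit 5) (nat_lit 464) (nat_lit 5) (nat_lit 484) (nat_lit 5) (nat_lit 287) (nat_lit 279) (nat_lit 214)) (XT.lf (nat_lit 0) (nat_lit 4121281752) (nat_lit 1444) (nat_lit 2292498156) (nat_lit 1520) (nat_lit 2453588862) (nat_lit 465) (nat_lit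 5) (nat_lit 484) (nat_lit 5) (nat_lit 485) (nat_lit 5) (nat_lit 288) (nat_lit 279) (nat_lit 213)))) (XT.nd (nat_lit 78) (nat_lit 1444) (nat_lit 0) (XT.lf (nat_lit 76) (nat_lit 4352903137) (nat_lit 0) (nat_lit 1680938014) (nat_lit 1520) (nat_lit 2946204151) (nat_lit 466) (nat_lit 5) (nat_lit 465) (nat_lit 5) (nat_lit 485) (nat_lit 5) (nat_lit 289) (nat_lit 279) (nat_lit 212)) (XT.nd (nat_lit 78) (nat_lit 1520) (nat_lit 0) (XT.lf (nat_lit 76) (nat_lit 2102271140) (nat_lit 0) (nat_lit 5898298888) (nat_lit 1520) (nat_lit 1095636264) (nat_lit 467) (nat_lit 5) (nat_lit 466) (nat_lit 5) (nat_lit 486) (nat_lit 5) (nat_lit 290) (nat_lit 279) (nat_lit 211)) (XT.lf (nat_lit 0) (nat_lit 790319545) (nat_lit 1520) (nat_lit 172869101) (nat_lit 1596) (nat_lit 8252786313) (nat_lit 446) (nat_lit 5) (nat_lit 466) (nat_lit 5) (nat_lit 467) (nat_lit 5) (nat_lit 291) (nat_lit 279) (nat_lit 210))))) (XT.nd (nat_lit 234)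 (nat_lit 4712) (nat_lit 0) (XT.nd (nat_lit 78) (nat_lit 0) (nat_lit 0) (XT.lf (nat_lit 0) (nat_lit 2739253647) (nat_lit 1520) (nat_lit 2467281102) (nat_lit 1596) (nat_lit 4132268373) (nat_lit 447) (nat_lit 5) (nat_lit 467) (nat_lit 5) (nat_lit 468) (nat_lit 5) (nat_lit 292) (nat_lit 279) (nat_lit 209)) (XT.nd (nat_lit 78) (nat_lit 0) (nat_lit 76) (XT.lf (nat_lit 76) (nat_lit 4682022216) (nat_lit 0) (nat_lit 53203845) (nat_lit 1596) (nat_lit 4730354566) (nat_lit 448) (nat_lit 5) (nat_lit 447) (nat_lit 5) (nat_lit 468) (nat_lit 5) (nat_lit 293) (nat_lit 279) (nat_lit 208)) (XT.lf (nat_lit 76) (nat_lit 2443850266) (nat_lit 0) (nat_lit 4365870121) (nat_lit 1596) (nat_lit 2786103071) (nat_lit 449) (nat_lit 5) (nat_lit 448) (nat_lit 5) (nat_lit 469) (nat_lit 5) (nat_lit 294) (nat_lit 279) (nat_lit 207)))) (XT.nd (nat_lit 156) (nat_lit 3268) (nat_lit 0) (XT.nd (nat_lit 78) (nat_lit 76) (nat_lit 0) (XT.lf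 (nat_lit 0) (nat_lit 181791334) (nat_lit 1520) (nat_lit 8757985640) (nat_lit 1596) (nat_lit 790363893) (nat_lit 429) (nat_lit 5) (nat_lit 449) (nat_lit 5) (nat_lit 450) (nat_lit 5) (nat_lit 295) (nat_lit 279) (nat_lit 206)) (XT.lf (nat_lit 0) (nat_lit 1280477811) (nat_lit 1596) (nat_lit 2109961087) (nat_lit 76) (nat_lit 6477280330) (nat_lit 428) (nat_lit 5) (nat_lit 449) (nat_lit 5) (nat_lit 429) (nat_lit 5) (nat_lit 296) (nat_lit 279) (nat_lit 205))) (XT.nd (nat_lit 78) (nat_lit 1672) (nat_lit 0) (XT.lf (nat_lit 0) (nat_lit 3408407678) (nat_lit 1672) (nat_lit 4441285620) (nat_lit 76) (nat_lit 2159544411) (nat_lit 407) (nat_lit 5) (nat_lit 429) (nat_lit 5) (nat_lit 408) (nat_lit 5) (nat_lit 297) (nat_lit 279) (nat_lit 204)) (XT.lf (nat_lit 0) (nat_lit 3333909441) (nat_lit 1672) (nat_lit 2281280720) (nat_lit 1748) (nat_lit 4539541651) (nat_lit 385) (nat_lit 5) (nat_lit 407) (nat_lit 5) (nat_lit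 408) (nat_lit 5) (nat_lit 298) (nat_lit 279) (nat_lit 203)))))) (XT.nd (nat_lit 546) (nat_lit 4408) (nat_lit 0) (XT.nd (nat_lit 234) (nat_lit 2660) (nat_lit 0) (XT.nd (nat_lit 78) (nat_lit 912) (nat_lit 0) (XT.lf (nat_lit 0) (nat_lit 1052614196) (nat_lit 1444) (nat_lit 6852492617) (nat_lit 1520) (nat_lit 2399174789) (nat_lit 366) (nat_lit 5) (nat_lit 385) (nat_lit 5) (nat_lit 386) (nat_lit 5) (nat_lit 299) (nat_lit 279) (nat_lit 202)) (XT.nd (nat_lit 78) (nat_lit 912) (nat_lit 0) (XT.lf (nat_lit 0) (nat_lit 9203042382) (nat_lit 1444) (nat_lit 1080429426) (nat_lit 1520) (nat_lit 174479681) (nat_lit 366) (nat_lit 5) (nat_lit 385) (nat_lit 5) (nat_lit 386) (nat_lit 5) (nat_lit 300) (nat_lit 279) (nat_lit 201)) (XT.lf (nat_lit 0) (nat_lit 2126091040) (nat_lit 912) (nat_lit 3624373563) (nat_lit 76) (nat_lit 4864781236) (nat_lit 354) (nat_lit 5) (nat_lit 366) (nat_lit 5) (nat_lit 355) (nat_lit 5) (nat_lit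 301) (nat_lit 279) (nat_lit 200)))) (XT.nd (nat_lit 156) (nat_lit 912) (nat_lit 0) (XT.nd (nat_lit 78) (nat_lit 836) (nat_lit 0) (XT.lf (nat_lit 0) (nat_lit 4501721192) (nat_lit 988) (nat_lit 6037699469) (nat_lit 76) (nat_lit 237673484) (nat_lit 342) (nat_lit 5) (nat_lit 355) (nat_lit 5) (nat_lit 343) (nat_lit 5) (nat_lit 302) (nat_lit 279) (nat_lit 199)) (XT.lf (nat_lit 0) (nat_lit 2416375990) (nat_lit 836) (nat_lit 4572318511) (nat_lit 912) (nat_lit 3954327591) (nat_lit 331) (nat_lit 5) (nat_lit 342) (nat_lit 5) (nat_lit 343) (nat_lit 5) (nat_lit 303) (nat_lit 279) (nat_lit 198))) (XT.nd (nat_lit 78) (nat_lit 76) (nat_lit 0) (XT.lf (nat_lit 0) (nat_lit 46461793) (nat_lit 836) (nat_lit 9517628719) (nat_lit 912) (nat_lit 1549586026) (nat_lit 320) (nat_lit 5) (nat_lit 331) (nat_lit 5) (nat_lit 332) (nat_lit 5) (nat_lit 304) (nat_lit 279) (nat_lit 197)) (XT.lf (nat_lit 0) (nat_lit 966581005) (nat_lit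 912) (nat_lit 2368980714) (nat_lit 76) (nat_lit 7952763315) (nat_lit 319) (nat_lit 5) (nat_lit 331) (nat_lit 5) (nat_lit 320) (nat_lit 5) (nat_lit 305) (nat_lit 279) (nat_lit 196))))) (XT.nd (nat_lit 234) (nat_lit 2204) (nat_lit 0) (XT.nd (nat_lit 78) (nat_lit 1444) (nat_lit 0) (XT.lf (nat_lit 0) (nat_lit 3564183268) (nat_lit 836) (nat_lit 4857230794) (nat_lit 76) (nat_lit 3046077046) (nat_lit 309) (nat_lit 5) (nat_lit 320) (nat_lit 5) (nat_lit 310) (nat_lit 5) (nat_lit 306) (nat_lit 279) (nat_lit 195)) (XT.nd (nat_lit 78) (nat_lit 684) (nat_lit 0) (XT.lf (nat_lit 0) (nat_lit 4236501393) (nat_lit 760) (nat_lit 2033799333) (nat_lit 836) (nat_lit 5381142061) (nat_lit 299) (nat_lit 5) (nat_lit 309) (nat_lit 5) (nat_lit 310) (nat_lit 5) (nat_lit 307) (nat_lit 279) (nat_lit 194)) (XT.lf (nat_lit 0) (nat_lit 1786617824) (nat_lit 684) (nat_lit 7310635418) (nat_lit 760) (nat_lit 2742888459) (nat_lit 290)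 (nat_lit 5) (nat_lit 299) (nat_lit 5) (nat_lit 300) (nat_lit 5) (nat_lit 308) (nat_lit 279) (nat_lit 193)))) (XT.nd (nat_lit 156) (nat_lit 1368) (nat_lit 0) (XT.nd (nat_lit 78) (nat_lit 760) (nat_lit 0) (XT.lf (nat_lit 0) (nat_lit 4964696) (nat_lit 760) (nat_lit 717788894) (nat_lit 76) (nat_lit 11311169618) (nat_lit 289) (nat_lit 5) (nat_lit 299) (nat_lit 5) (nat_lit 290) (nat_lit 5) (nat_lit 309) (nat_lit 279) (nat_lit 192)) (XT.lf (nat_lit 0) (nat_lit 2863174848) (nat_lit 836) (nat_lit 3310500856) (nat_lit 76) (nat_lit 6058196185) (nat_lit 279) (nat_lit 5) (nat_lit 290) (nat_lit 5) (nat_lit 280) (nat_lit 5) (nat_lit 310) (nat_lit 279) (nat_lit 191))) (XT.nd (nat_lit 78) (nat_lit 684) (nat_lit 0) (XT.lf (nat_lit 0) (nat_lit 5830681477) (nat_lit 760) (nat_lit 5970988887) (nat_lit 76) (nat_lit 633637144) (nat_lit 270) (nat_lit 5) (nat_lit 280) (nat_lit 5) (nat_lit 271) (nat_lit 5) (nat_lit 311)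 (nat_lit 279) (nat_lit 190)) (XT.lf (nat_lit 0) (nat_lit 3907787654) (nat_lit 684) (nat_lit 5037015904) (nat_lit 760) (nat_lit 3698909749) (nat_lit 261) (nat_lit 5) (nat_lit 270) (nat_lit 5) (nat_lit 271) (nat_lit 5) (nat_lit 312) (nat_lit 279) (nat_lit 189))))))) (XT.nd (nat_lit 1092) (nat_lit 4332) (nat_lit 0) (XT.nd (nat_lit 546) (nat_lit 3268) (nat_lit 0) (XT.nd (nat_lit 234) (nat_lit 1824) (nat_lit 0) (XT.nd (nat_lit 78) (nat_lit 760) (nat_lit 0) (XT.lf (nat_lit 0) (nat_lit 1275656803) (nat_lit 608) (nat_lit 10907260881) (nat_lit 684) (nat_lit 674860591) (nat_lit 253) (nat_lit 5) (nat_lit 261) (nat_lit 5) (nat_lit 262) (nat_lit 5) (nat_lit 313) (nat_lit 279) (nat_lit 188)) (XT.nd (nat_lit 78) (nat_lit 684) (nat_lit 0) (XT.lf (nat_lit 0) (nat_lit 2470664574) (nat_lit 684) (nat_lit 1455051744) (nat_lit 76) (nat_lit 9150994437) (nat_lit 252) (nat_lit 5) (nat_lit 261) (nat_lit 5) (nat_lit 253)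 (nat_lit 5) (nat_lit 314) (nat_lit 279) (nat_lit 187)) (XT.lf (nat_lit 0) (nat_lit 5752195046) (nat_lit 760) (nat_lit 4267249810) (nat_lit 76) (nat_lit 3281677942) (nat_lit 243) (nat_lit 5) (nat_lit 253) (nat_lit 5) (nat_lit 244) (nat_lit 5) (nat_lit 315) (nat_lit 279) (nat_lit 186)))) (XT.nd (nat_lit 156) (nat_lit 608) (nat_lit 0) (XT.nd (nat_lit 78) (nat_lit 608) (nat_lit 0) (XT.lf (nat_lit 0) (nat_lit 6348046731) (nat_lit 608) (nat_lit 2832502200) (nat_lit 684) (nat_lit 4350767198) (nat_lit 235) (nat_lit 5) (nat_lit 243) (nat_lit 5) (nat_lit 244) (nat_lit 5) (nat_lit 316) (nat_lit 279) (nat_lit 185)) (XT.lf (nat_lit 0) (nat_lit 3554938471) (nat_lit 608) (nat_lit 9210251606) (nat_lit 684) (nat_lit 1002172447) (nat_lit 227) (nat_lit 5) (nat_lit 235) (nat_lit 5) (nat_lit 236) (nat_lit 5) (nat_lit 317) (nat_lit 279) (nat_lit 184))) (XT.nd (nat_lit 78) (nat_lit 0) (nat_lit 0) (XT.lf (nat_lit 0) (nat_lit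 643357317) (nat_lit 532) (nat_lit 1815535340) (nat_lit 608) (nat_lit 11550413068) (nat_lit 219) (nat_lit 5) (nat_lit 226) (nat_lit 5) (nat_lit 227) (nat_lit 5) (nat_lit 318) (nat_lit 279) (nat_lit 183)) (XT.lf (nat_lit 0) (nat_lit 6090121963) (nat_lit 608) (nat_lit 2371348357) (nat_lit 76) (nat_lit 5795320243) (nat_lit 219) (nat_lit 5) (nat_lit 227) (nat_lit 5) (nat_lit 220) (nat_lit 5) (nat_lit 319) (nat_lit 279) (nat_lit 182))))) (XT.nd (nat_lit 234) (nat_lit 1520) (nat_lit 0) (XT.nd (nat_lit 78) (nat_lit 1140) (nat_lit 0) (XT.lf (nat_lit 0) (nat_lit 9026318314) (nat_lit 608) (nat_lit 848060856) (nat_lit 684) (nat_lit 4636453304) (nat_lit 211) (nat_lit 5) (nat_lit 219) (nat_lit 5) (nat_lit 220) (nat_lit 5) (nat_lit 320) (nat_lit 279) (nat_lit 181)) (XT.nd (nat_lit 78) (nat_lit 608) (nat_lit 0) (XT.lf (nat_lit 0) (nat_lit 6026757065) (nat_lit 532) (nat_lit 7819989154) (nat_lit 608) (nat_lit 924271718)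 (nat_lit 204) (nat_lit 5) (nat_lit 211) (nat_lit 5) (nat_lit 212) (nat_lit 5) (nat_lit 321) (nat_lit 279) (nat_lit 180)) (XT.lf (nat_lit 0) (nat_lit 2897424221) (nat_lit 608) (nat_lit 12137260157) (nat_lit 76) (nat_lit 3237899) (nat_lit 196) (nat_lit 5) (nat_lit 204) (nat_lit 5) (nat_lit 197) (nat_lit 5) (nat_lit 322) (nat_lit 279) (nat_lit 179)))) (XT.nd (nat_lit 156) (nat_lit 1064) (nat_lit 0) (XT.nd (nat_lit 78) (nat_lit 456) (nat_lit 0) (XT.lf (nat_lit 0) (nat_lit 6907959332) (nat_lit 608) (nat_lit 388623133) (nat_lit 76) (nat_lit 8014407059) (nat_lit 196) (nat_lit 5) (nat_lit 204) (nat_lit 5) (nat_lit 197) (nat_lit 5) (nat_lit 323) (nat_lit 279) (nat_lit 178)) (XT.lf (nat_lit 0) (nat_lit 11095960804) (nat_lit 532) (nat_lit 3760125051) (nat_lit 76) (nat_lit 735032430) (nat_lit 190) (nat_lit 5) (nat_lit 197) (nat_lit 5) (nat_lit 191) (nat_lit 5) (nat_lit 324) (nat_lit 279) (nat_lit 177))) (XT.nd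 (nat_lit 78) (nat_lit 532) (nat_lit 0) (XT.lf (nat_lit 0) (nat_lit 8574859711) (nat_lit 532) (nat_lit 6917795066) (nat_lit 608) (nat_lit 385347220) (nat_lit 183) (nat_lit 5) (nat_lit 190) (nat_lit 5) (nat_lit 191) (nat_lit 5) (nat_lit 325) (nat_lit 279) (nat_lit 176)) (XT.lf (nat_lit 0) (nat_lit 3841447912) (nat_lit 532) (nat_lit 11011465108) (nat_lit 76) (nat_lit 1319208017) (nat_lit 176) (nat_lit 5) (nat_lit 183) (nat_lit 5) (nat_lit 177) (nat_lit 5) (nat_lit 326) (nat_lit 279) (nat_lit 175)))))) (XT.nd (nat_lit 546) (nat_lit 1976) (nat_lit 0) (XT.nd (nat_lit 234) (nat_lit 1368) (nat_lit 0) (XT.nd (nat_lit 78) (nat_lit 532) (nat_lit 0) (XT.lf (nat_lit 0) (nat_lit 1564173559) (nat_lit 456) (nat_lit 6708604793) (nat_lit 532) (nat_lit 8200586234) (nat_lit 170) (nat_lit 5) (nat_lit 176) (nat_lit 5) (nat_lit 177) (nat_lit 5) (nat_lit 327) (nat_lit 279) (nat_lit 174)) (XT.nd (nat_lit 78) (nat_lit 532)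 (nat_lit 0) (XT.lf (nat_lit 0) (nat_lit 12900195880) (nat_lit 532) (nat_lit 2157086291) (nat_lit 76) (nat_lit 1725111216) (nat_lit 170) (nat_lit 5) (nat_lit 177) (nat_lit 5) (nat_lit 171) (nat_lit 5) (nat_lit 328) (nat_lit 279) (nat_lit 173)) (XT.lf (nat_lit 0) (nat_lit 653320843) (nat_lit 532) (nat_lit 6055936653) (nat_lit 76) (nat_lit 10389472502) (nat_lit 163) (nat_lit 5) (nat_lit 170) (nat_lit 5) (nat_lit 164) (nat_lit 5) (nat_lit 329) (nat_lit 279) (nat_lit 172)))) (XT.nd (nat_lit 156) (nat_lit 532) (nat_lit 0) (XT.nd (nat_lit 78) (nat_lit 380) (nat_lit 0) (XT.lf (nat_lit 0) (nat_lit 5325349401) (nat_lit 532) (nat_lit 10152881422) (nat_lit 76) (nat_lit 1944758952) (nat_lit 157) (nat_lit 5) (nat_lit 164) (nat_lit 5) (nat_lit 158) (nat_lit 5) (nat_lit 330) (nat_lit 279) (nat_lit 171)) (XT.lf (nat_lit 0) (nat_lit 3290560732) (nat_lit 380) (nat_lit 6933002661) (nat_lit 456) (nat_lit 7531703231)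 (nat_lit 152) (nat_lit 5) (nat_lit 157) (nat_lit 5) (nat_lit 158) (nat_lit 5) (nat_lit 331) (nat_lit 279) (nat_lit 170))) (XT.nd (nat_lit 78) (nat_lit 532) (nat_lit 0) (XT.lf (nat_lit 0) (nat_lit 15328972911) (nat_lit 456) (nat_lit 862458603) (nat_lit 76) (nat_lit 1904884767) (nat_lit 152) (nat_lit 5) (nat_lit 158) (nat_lit 5) (nat_lit 153) (nat_lit 5) (nat_lit 332) (nat_lit 279) (nat_lit 169)) (XT.lf (nat_lit 0) (nat_lit 2224457400) (nat_lit 532) (nat_lit 5213928902) (nat_lit 76) (nat_lit 11006690759) (nat_lit 145) (nat_lit 5) (nat_lit 152) (nat_lit 5) (nat_lit 146) (nat_lit 5) (nat_lit 333) (nat_lit 279) (nat_lit 168))))) (XT.nd (nat_lit 234) (nat_lit 1216) (nat_lit 0) (XT.nd (nat_lit 78) (nat_lit 380) (nat_lit 0) (XT.lf (nat_lit 0) (nat_lit 7383596659) (nat_lit 456) (nat_lit 9787716530) (nat_lit 76) (nat_lit 1631526761) (nat_lit 140) (nat_lit 5) (nat_lit 146) (nat_lit 5) (nat_lit 141) (nat_lit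 5) (nat_lit 334) (nat_lit 279) (nat_lit 167)) (XT.nd (nat_lit 78) (nat_lit 0) (nat_lit 0) (XT.lf (nat_lit 0) (nat_lit 4552692704) (nat_lit 380) (nat_lit 8239781976) (nat_lit 456) (nat_lit 6376970264) (nat_lit 135) (nat_lit 5) (nat_lit 140) (nat_lit 5) (nat_lit 141) (nat_lit 5) (nat_lit 335) (nat_lit 279) (nat_lit 166)) (XT.lf (nat_lit 0) (nat_lit 18417048529) (nat_lit 456) (nat_lit 123801276) (nat_lit 76) (nat_lit 1005137956) (nat_lit 135) (nat_lit 5) (nat_lit 141) (nat_lit 5) (nat_lit 136) (nat_lit 5) (nat_lit 336) (nat_lit 279) (nat_lit 165)))) (XT.nd (nat_lit 156) (nat_lit 380) (nat_lit 0) (XT.nd (nat_lit 78) (nat_lit 380) (nat_lit 0) (XT.lf (nat_lit 0) (nat_lit 4354273872) (nat_lit 456) (nat_lit 5043216781) (nat_lit 76) (nat_lit 10533112181) (nat_lit 129) (nat_lit 5) (nat_lit 135) (nat_lit 5) (nat_lit 130) (nat_lit 5) (nat_lit 337) (nat_lit 279) (nat_lit 164)) (XT.lf (nat_lit 0) (nat_lit 10035104773)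 (nat_lit 456) (nat_lit 10204836508) (nat_lit 76) (nat_lit 85704281) (nat_lit 124) (nat_lit 5) (nat_lit 130) (nat_lit 5) (nat_lit 125) (nat_lit 5) (nat_lit 338) (nat_lit 279) (nat_lit 163))) (XT.nd (nat_lit 78) (nat_lit 76) (nat_lit 0) (XT.lf (nat_lit 0) (nat_lit 5052588891) (nat_lit 304) (nat_lit 10945383225) (nat_lit 380) (nat_lit 4732342640) (nat_lit 120) (nat_lit 5) (nat_lit 124) (nat_lit 5) (nat_lit 125) (nat_lit 5) (nat_lit 339) (nat_lit 279) (nat_lit 162)) (XT.lf (nat_lit 0) (nat_lit 1030987627) (nat_lit 380) (nat_lit 272560491) (nat_lit 76) (nat_lit 19842425986) (nat_lit 119) (nat_lit 5) (nat_lit 124) (nat_lit 5) (nat_lit 120) (nat_lit 5) (nat_lit 340) (nat_lit 279) (nat_lit 161))))))))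
noncomputable def xc84 : XT := (XT.nd (nat_lit 36504) (nat_lit 0) (nat_lit 14288) (XT.nd (nat_lit 1014) (nat_lit 1064) (nat_lit 0) (XT.nd (nat_lit 468) (nat_lit 1444) (nat_lit 0) (XT.nd (nat_lit 234) (nat_lit 684) (nat_lit 0) (XT.nd (nat_lit 78) (nat_lit 608) (nat_lit 0) (XT.lf (nat_lit 0) (nat_lit 7044674639) (nat_lit 456) (nat_lit 5885588666) (nat_lit 76) (nat_lit 8640386144) (nat_lit 114) (nat_lit 5) (nat_lit 120) (nat_lit 5) (nat_lit 115) (nat_lit 5) (nat_lit 341) (nat_lit 279) (nat_lit 160)) (XT.nd (nat_lit 78) (nat_lit 304) (nat_lit 0) (XT.lf (nat_lit 0) (nat_lit 10215959273) (nat_lit 304) (nat_lit 3082332000) (nat_lit 380) (nat_lit 8708590052) (nat_lit 110) (nat_lit 5) (nat_lit 114) (nat_lit 5) (nat_lit 115) (nat_lit 5) (nat_lit 342) (nat_lit 279) (nat_lit 159)) (XT.lf (nat_lit 0) (nat_lit 4411188830) (nat_lit 304) (nat_lit 15425852975) (nat_lit 380) (nat_lit 2617214304) (nat_lit 106) (nat_lit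 5) (nat_lit 110) (nat_lit 5) (nat_lit 111) (nat_lit 5) (nat_lit 343) (nat_lit 279) (nat_lit 158)))) (XT.nd (nat_lit 78) (nat_lit 608) (nat_lit 0) (XT.lf (nat_lit 0) (nat_lit 3693089380) (nat_lit 380) (nat_lit 1723654315) (nat_lit 76) (nat_lit 17496156773) (nat_lit 105) (nat_lit 5) (nat_lit 110) (nat_lit 5) (nat_lit 106) (nat_lit 5) (nat_lit 344) (nat_lit 279) (nat_lit 157)) (XT.nd (nat_lit 78) (nat_lit 304) (nat_lit 0) (XT.lf (nat_lit 0) (nat_lit 10272389422) (nat_lit 380) (nat_lit 8173357396) (nat_lit 76) (nat_lit 4936912414) (nat_lit 101) (nat_lit 5) (nat_lit 106) (nat_lit 5) (nat_lit 102) (nat_lit 5) (nat_lit 345) (nat_lit 279) (nat_lit 156)) (XT.lf (nat_lit 0) (nat_lit 8862318331) (nat_lit 304) (nat_lit 8276129067) (nat_lit 380) (nat_lit 6726281577) (nat_lit 97) (nat_lit 5) (nat_lit 101) (nat_lit 5) (nat_lit 102) (nat_lit 5) (nat_lit 346) (nat_lit 279) (nat_lit 155))))) (XT.nd (nat_lit 234)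 (nat_lit 836) (nat_lit 0) (XT.nd (nat_lit 78) (nat_lit 380) (nat_lit 0) (XT.lf (nat_lit 0) (nat_lit 2149306471) (nat_lit 228) (nat_lit 22129270751) (nat_lit 304) (nat_lit 81327409) (nat_lit 94) (nat_lit 5) (nat_lit 97) (nat_lit 5) (nat_lit 98) (nat_lit 5) (nat_lit 347) (nat_lit 279) (nat_lit 154)) (XT.nd (nat_lit 78) (nat_lit 304) (nat_lit 0) (XT.lf (nat_lit 0) (nat_lit 6816261291) (nat_lit 304) (nat_lit 4971738951) (nat_lit 76) (nat_lit 13078222804) (nat_lit 93) (nat_lit 5) (nat_lit 97) (nat_lit 5) (nat_lit 94) (nat_lit 5) (nat_lit 348) (nat_lit 279) (nat_lit 153)) (XT.lf (nat_lit 0) (nat_lit 12929196368) (nat_lit 304) (nat_lit 1059187851) (nat_lit 380) (nat_lit 11397967011) (nat_lit 89) (nat_lit 5) (nat_lit 93) (nat_lit 5) (nat_lit 94) (nat_lit 5) (nat_lit 349) (nat_lit 279) (nat_lit 152)))) (XT.nd (nat_lit 156) (nat_lit 532) (nat_lit 0) (XT.nd (nat_lit 78) (nat_lit 76) (nat_lit 0) (XT.lf (nat_lit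 0) (nat_lit 5496831299) (nat_lit 228) (nat_lit 15998306325) (nat_lit 304) (nat_lit 4424561346) (nat_lit 86) (nat_lit 5) (nat_lit 89) (nat_lit 5) (nat_lit 90) (nat_lit 5) (nat_lit 350) (nat_lit 279) (nat_lit 151)) (XT.lf (nat_lit 0) (nat_lit 2799104921) (nat_lit 304) (nat_lit 2356738990) (nat_lit 76) (nat_lit 21311305280) (nat_lit 85) (nat_lit 5) (nat_lit 89) (nat_lit 5) (nat_lit 86) (nat_lit 5) (nat_lit 351) (nat_lit 279) (nat_lit 150))) (XT.nd (nat_lit 78) (nat_lit 228) (nat_lit 0) (XT.lf (nat_lit 0) (nat_lit 10311766795) (nat_lit 380) (nat_lit 10654504634) (nat_lit 76) (nat_lit 6061523264) (nat_lit 81) (nat_lit 5) (nat_lit 86) (nat_lit 5) (nat_lit 82) (nat_lit 5) (nat_lit 352) (nat_lit 279) (nat_lit 149)) (XT.lf (nat_lit 0) (nat_lit 8141787935) (nat_lit 228) (nat_lit 9997260203) (nat_lit 304) (nat_lit 9464431158) (nat_lit 78) (nat_lit 5) (nat_lit 81) (nat_lit 5) (nat_lit 82) (nat_lit 5) (nat_lit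 353) (nat_lit 279) (nat_lit 148)))))) (XT.nd (nat_lit 34944) (nat_lit 0) (nat_lit 30324) (XT.nd (nat_lit 234) (nat_lit 532) (nat_lit 0) (XT.nd (nat_lit 78) (nat_lit 532) (nat_lit 0) (XT.lf (nat_lit 0) (nat_lit 26268302797) (nat_lit 304) (nat_lit 578905793) (nat_lit 76) (nat_lit 1347887146) (nat_lit 78) (nat_lit 5) (nat_lit 82) (nat_lit 5) (nat_lit 79) (nat_lit 5) (nat_lit 354) (nat_lit 279) (nat_lit 147)) (XT.nd (nat_lit 78) (nat_lit 228) (nat_lit 0) (XT.lf (nat_lit 0) (nat_lit 5938445713) (nat_lit 304) (nat_lit 9809031859) (nat_lit 76) (nat_lit 13052668846) (nat_lit 74) (nat_lit 5) (nat_lit 78) (nat_lit 5) (nat_lit 75) (nat_lit 5) (nat_lit 355) (nat_lit 279) (nat_lit 146)) (XT.lf (nat_lit 0) (nat_lit 9826899687) (nat_lit 228) (nat_lit 4241065901) (nat_lit 304) (nat_lit 15354042340) (nat_lit 71) (nat_lit 5) (nat_lit 74) (nat_lit 5) (nat_lit 75) (nat_lit 5) (nat_lit 356) (nat_lit 279) (nat_lit 145))))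 (XT.nd (nat_lit 156) (nat_lit 228) (nat_lit 0) (XT.nd (nat_lit 78) (nat_lit 76) (nat_lit 0) (XT.lf (nat_lit 0) (nat_lit 54020650) (nat_lit 228) (nat_lit 22490819037) (nat_lit 304) (nat_lit 7515620168) (nat_lit 68) (nat_lit 5) (nat_lit 71) (nat_lit 5) (nat_lit 72) (nat_lit 5) (nat_lit 357) (nat_lit 279) (nat_lit 144)) (XT.lf (nat_lit 0) (nat_lit 699612452) (nat_lit 304) (nat_lit 10209068264) (nat_lit 76) (nat_lit 19806336416) (nat_lit 67) (nat_lit 5) (nat_lit 71) (nat_lit 5) (nat_lit 68) (nat_lit 5) (nat_lit 358) (nat_lit 279) (nat_lit 143))) (XT.nd (nat_lit 34476) (nat_lit 0) (nat_lit 32984) (XT.lf (nat_lit 0) (nat_lit 9120975072) (nat_lit 304) (nat_lit 21149156285) (nat_lit 76) (nat_lit 1116854234) (nat_lit 64) (nat_lit 5) (nat_lit 68) (nat_lit 5) (nat_lit 65) (nat_lit 5) (nat_lit 359) (nat_lit 279) (nat_lit 142)) (XT.lf (nat_lit 0) (nat_lit 2013543906) (nat_lit 0) (nat_lit 2013543906) (nat_lit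 1292) (nat_lit 57669624) (nat_lit 498) (nat_lit 5) (nat_lit 498) (nat_lit 3) (nat_lit 515) (nat_lit 3) (nat_lit 280) (nat_lit 280) (nat_lit 220))))) (XT.nd (nat_lit 234) (nat_lit 1292) (nat_lit 0) (XT.nd (nat_lit 78) (nat_lit 0) (nat_lit 0) (XT.lf (nat_lit 0) (nat_lit 1540253480) (nat_lit 1368) (nat_lit 6709901948) (nat_lit 1444) (nat_lit 7515367) (nat_lit 480) (nat_lit 5) (nat_lit 498) (nat_lit 5) (nat_lit 499) (nat_lit 5) (nat_lit 281) (nat_lit 280) (nat_lit 219)) (XT.nd (nat_lit 78) (nat_lit 0) (nat_lit 76) (XT.lf (nat_lit 0) (nat_lit 3234903584) (nat_lit 1368) (nat_lit 945183399) (nat_lit 1444) (nat_lit 4168600233) (nat_lit 480) (nat_lit 5) (nat_lit 498) (nat_lit 5) (nat_lit 499) (nat_lit 5) (nat_lit 282) (nat_lit 280) (nat_lit 218)) (XT.lf (nat_lit 0) (nat_lit 4951128272) (nat_lit 1368) (nat_lit 3418928208) (nat_lit 1444) (nat_lit 73011684) (nat_lit 481) (nat_lit 5) (nat_lit 499) (nat_lit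 5) (nat_lit 500) (nat_lit 5) (nat_lit 283) (nat_lit 280) (nat_lit 217)))) (XT.nd (nat_lit 156) (nat_lit 1368) (nat_lit 0) (XT.nd (nat_lit 78) (nat_lit 0) (nat_lit 76) (XT.lf (nat_lit 76) (nat_lit 2617014588) (nat_lit 0) (nat_lit 4092629399) (nat_lit 1444) (nat_lit 1830867784) (nat_lit 482) (nat_lit 5) (nat_lit 481) (nat_lit 5) (nat_lit 500) (nat_lit 5) (nat_lit 284) (nat_lit 280) (nat_lit 216)) (XT.lf (nat_lit 76) (nat_lit 205460544) (nat_lit 0) (nat_lit 8283259851) (nat_lit 1444) (nat_lit 152848128) (nat_lit 483) (nat_lit 5) (nat_lit 482) (nat_lit 5) (nat_lit 501) (nat_lit 5) (nat_lit 285) (nat_lit 280) (nat_lit 215))) (XT.nd (nat_lit 78) (nat_lit 0) (nat_lit 76) (XT.lf (nat_lit 0) (nat_lit 1564804998) (nat_lit 1444) (nat_lit 2219053293) (nat_lit 1520) (nat_lit 4961438706) (nat_lit 463) (nat_lit 5) (nat_lit 482) (nat_lit 5) (nat_lit 483) (nat_lit 5) (nat_lit 286) (nat_lit 280) (nat_lit 214)) (XT.lf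 (nat_lit 0) (nat_lit 3308932476) (nat_lit 1444) (nat_lit 4654622280) (nat_lit 1520) (nat_lit 889064388) (nat_lit 464) (nat_lit 5) (nat_lit 483) (nat_lit 5) (nat_lit 484) (nat_lit 5) (nat_lit 287) (nat_lit 280) (nat_lit 213))))))) (XT.nd (nat_lit 1014) (nat_lit 8664) (nat_lit 0) (XT.nd (nat_lit 468) (nat_lit 6080) (nat_lit 0) (XT.nd (nat_lit 234) (nat_lit 1368) (nat_lit 0) (XT.nd (nat_lit 78) (nat_lit 0) (nat_lit 76) (XT.lf (nat_lit 76) (nat_lit 1838409432) (nat_lit 0) (nat_lit 3264764401) (nat_lit 1520) (nat_lit 3860072539) (nat_lit 465) (nat_lit 5) (nat_lit 464) (nat_lit 5) (nat_lit 484) (nat_lit 5) (nat_lit 288) (nat_lit 280) (nat_lit 212)) (XT.nd (nat_lit 78) (nat_lit 0) (nat_lit 0) (XT.lf (nat_lit 0) (nat_lit 6940114962) (nat_lit 1444) (nat_lit 533072094) (nat_lit 1520) (nat_lit 1604267926) (nat_lit 465) (nat_lit 5) (nat_lit 484) (nat_lit 5) (nat_lit 485) (nat_lit 5) (nat_lit 289) (nat_lit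 280) (nat_lit 211)) (XT.lf (nat_lit 76) (nat_lit 6282030849) (nat_lit 0) (nat_lit 2561196794) (nat_lit 1520) (nat_lit 351679790) (nat_lit 466) (nat_lit 5) (nat_lit 465) (nat_lit 5) (nat_lit 485) (nat_lit 5) (nat_lit 290) (nat_lit 280) (nat_lit 210)))) (XT.nd (nat_lit 78) (nat_lit 0) (nat_lit 0) (XT.lf (nat_lit 0) (nat_lit 1463584395) (nat_lit 1520) (nat_lit 5331982323) (nat_lit 1596) (nat_lit 2520249684) (nat_lit 446) (nat_lit 5) (nat_lit 466) (nat_lit 5) (nat_lit 467) (nat_lit 5) (nat_lit 291) (nat_lit 280) (nat_lit 209)) (XT.nd (nat_lit 78) (nat_lit 0) (nat_lit 76) (XT.lf (nat_lit 76) (nat_lit 1653774057) (nat_lit 0) (nat_lit 1673214994) (nat_lit 1596) (nat_lit 6113383789) (nat_lit 447) (nat_lit 5) (nat_lit 446) (nat_lit 5) (nat_lit 467) (nat_lit 5) (nat_lit 292) (nat_lit 280) (nat_lit 208)) (XT.lf (nat_lit 0) (nat_lit 5258049451) (nat_lit 1520) (nat_lit 705654019) (nat_lit 1596) (nat_lit 3604762286)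 (nat_lit 447) (nat_lit 5) (nat_lit 467) (nat_lit 5) (nat_lit 468) (nat_lit 5) (nat_lit 293) (nat_lit 280) (nat_lit 207))))) (XT.nd (nat_lit 234) (nat_lit 4712) (nat_lit 0) (XT.nd (nat_lit 78) (nat_lit 1444) (nat_lit 0) (XT.lf (nat_lit 76) (nat_lit 6628347231) (nat_lit 0) (nat_lit 626309213) (nat_lit 1596) (nat_lit 2445626560) (nat_lit 448) (nat_lit 5) (nat_lit 447) (nat_lit 5) (nat_lit 468) (nat_lit 5) (nat_lit 294) (nat_lit 280) (nat_lit 206)) (XT.nd (nat_lit 78) (nat_lit 1520) (nat_lit 0) (XT.lf (nat_lit 76) (nat_lit 4345848311) (nat_lit 0) (nat_lit 4984563878) (nat_lit 1596) (nat_lit 505290426) (nat_lit 449) (nat_lit 5) (nat_lit 448) (nat_lit 5) (nat_lit 469) (nat_lit 5) (nat_lit 295) (nat_lit 280) (nat_lit 205)) (XT.lf (nat_lit 0) (nat_lit 1471017467) (nat_lit 1596) (nat_lit 7948355067) (nat_lit 76) (nat_lit 555702730) (nat_lit 428) (nat_lit 5) (nat_lit 449) (nat_lit 5) (nat_lit 429) (nat_lit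 5) (nat_lit 296) (nat_lit 280) (nat_lit 204)))) (XT.nd (nat_lit 156) (nat_lit 3116) (nat_lit 0) (XT.nd (nat_lit 78) (nat_lit 1596) (nat_lit 0) (XT.lf (nat_lit 0) (nat_lit 3527062573) (nat_lit 1596) (nat_lit 346891532) (nat_lit 76) (nat_lit 6244092291) (nat_lit 428) (nat_lit 5) (nat_lit 449) (nat_lit 5) (nat_lit 429) (nat_lit 5) (nat_lit 297) (nat_lit 280) (nat_lit 203)) (XT.lf (nat_lit 0) (nat_lit 5663850851) (nat_lit 1672) (nat_lit 2730850479) (nat_lit 76) (nat_lit 1870253575) (nat_lit 407) (nat_lit 5) (nat_lit 429) (nat_lit 5) (nat_lit 408) (nat_lit 5) (nat_lit 298) (nat_lit 280) (nat_lit 202))) (XT.nd (nat_lit 78) (nat_lit 1444) (nat_lit 0) (XT.lf (nat_lit 0) (nat_lit 5247689018) (nat_lit 1672) (nat_lit 2638209639) (nat_lit 1748) (nat_lit 2529977514) (nat_lit 385) (nat_lit 5) (nat_lit 407) (nat_lit 5) (nat_lit 408) (nat_lit 5) (nat_lit 299) (nat_lit 280) (nat_lit 201)) (XT.lf (nat_lit 0) (nat_lit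 2913163360) (nat_lit 1444) (nat_lit 7280175160) (nat_lit 1520) (nat_lit 377639728) (nat_lit 366) (nat_lit 5) (nat_lit 385) (nat_lit 5) (nat_lit 386) (nat_lit 5) (nat_lit 300) (nat_lit 280) (nat_lit 200)))))) (XT.nd (nat_lit 546) (nat_lit 4332) (nat_lit 0) (XT.nd (nat_lit 234) (nat_lit 2508) (nat_lit 0) (XT.nd (nat_lit 78) (nat_lit 912) (nat_lit 0) (XT.lf (nat_lit 0) (nat_lit 519117875) (nat_lit 836) (nat_lit 1312772716) (nat_lit 912) (nat_lit 8898295514) (nat_lit 354) (nat_lit 5) (nat_lit 365) (nat_lit 5) (nat_lit 366) (nat_lit 5) (nat_lit 301) (nat_lit 280) (nat_lit 199)) (XT.nd (nat_lit 78) (nat_lit 912) (nat_lit 0) (XT.lf (nat_lit 0) (nat_lit 4147650060) (nat_lit 912) (nat_lit 1916987686) (nat_lit 76) (nat_lit 4828606727) (nat_lit 354) (nat_lit 5) (nat_lit 366) (nat_lit 5) (nat_lit 355) (nat_lit 5) (nat_lit 302) (nat_lit 280) (nat_lit 198)) (XT.lf (nat_lit 0) (nat_lit 6548310506) (nat_lit 988)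 (nat_lit 4391849244) (nat_lit 76) (nat_lit 120751209) (nat_lit 342) (nat_lit 5) (nat_lit 355) (nat_lit 5) (nat_lit 343) (nat_lit 5) (nat_lit 303) (nat_lit 280) (nat_lit 197)))) (XT.nd (nat_lit 156) (nat_lit 760) (nat_lit 0) (XT.nd (nat_lit 78) (nat_lit 912) (nat_lit 0) (XT.lf (nat_lit 0) (nat_lit 4286207880) (nat_lit 836) (nat_lit 4779678807) (nat_lit 912) (nat_lit 2166847036) (nat_lit 331) (nat_lit 5) (nat_lit 342) (nat_lit 5) (nat_lit 343) (nat_lit 5) (nat_lit 304) (nat_lit 280) (nat_lit 196)) (XT.lf (nat_lit 0) (nat_lit 262542764) (nat_lit 912) (nat_lit 9556694970) (nat_lit 76) (nat_lit 1590133442) (nat_lit 319) (nat_lit 5) (nat_lit 331) (nat_lit 5) (nat_lit 320) (nat_lit 5) (nat_lit 305) (nat_lit 280) (nat_lit 195))) (XT.nd (nat_lit 78) (nat_lit 760) (nat_lit 0) (XT.lf (nat_lit 0) (nat_lit 2779737250) (nat_lit 912) (nat_lit 661240962) (nat_lit 76) (nat_lit 8149178211) (nat_lit 319) (nat_lit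 5) (nat_lit 331) (nat_lit 5) (nat_lit 320) (nat_lit 5) (nat_lit 306) (nat_lit 280) (nat_lit 194)) (XT.lf (nat_lit 0) (nat_lit 5414705148) (nat_lit 836) (nat_lit 3217065912) (nat_lit 76) (nat_lit 3143770730) (nat_lit 309) (nat_lit 5) (nat_lit 320) (nat_lit 5) (nat_lit 310) (nat_lit 5) (nat_lit 307) (nat_lit 280) (nat_lit 193))))) (XT.nd (nat_lit 234) (nat_lit 2052) (nat_lit 0) (XT.nd (nat_lit 78) (nat_lit 1520) (nat_lit 0) (XT.lf (nat_lit 0) (nat_lit 6120504430) (nat_lit 760) (nat_lit 2042124353) (nat_lit 836) (nat_lit 3803202886) (nat_lit 299) (nat_lit 5) (nat_lit 309) (nat_lit 5) (nat_lit 310) (nat_lit 5) (nat_lit 308) (nat_lit 280) (nat_lit 192)) (XT.nd (nat_lit 78) (nat_lit 836) (nat_lit 0) (XT.lf (nat_lit 0) (nat_lit 3602868132) (nat_lit 684) (nat_lit 7433660727) (nat_lit 760) (nat_lit 1124451078) (nat_lit 290) (nat_lit 5) (nat_lit 299) (nat_lit 5) (nat_lit 300) (nat_lit 5) (nat_lit 309) (nat_lit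 280) (nat_lit 191)) (XT.lf (nat_lit 0) (nat_lit 1007852459) (nat_lit 760) (nat_lit 633337575) (nat_lit 836) (nat_lit 10720040521) (nat_lit 279) (nat_lit 5) (nat_lit 289) (nat_lit 5) (nat_lit 290) (nat_lit 5) (nat_lit 310) (nat_lit 280) (nat_lit 190)))) (XT.nd (nat_lit 156) (nat_lit 1368) (nat_lit 0) (XT.nd (nat_lit 78) (nat_lit 684) (nat_lit 0) (XT.lf (nat_lit 0) (nat_lit 4542947666) (nat_lit 836) (nat_lit 1671899065) (nat_lit 76) (nat_lit 6351143741) (nat_lit 279) (nat_lit 5) (nat_lit 290) (nat_lit 5) (nat_lit 280) (nat_lit 5) (nat_lit 311) (nat_lit 280) (nat_lit 189)) (XT.lf (nat_lit 0) (nat_lit 7565137993) (nat_lit 760) (nat_lit 4409275696) (nat_lit 76) (nat_lit 801830264) (nat_lit 270) (nat_lit 5) (nat_lit 280) (nat_lit 5) (nat_lit 271) (nat_lit 5) (nat_lit 312) (nat_lit 280) (nat_lit 188))) (XT.nd (nat_lit 78) (nat_lit 684) (nat_lit 0) (XT.lf (nat_lit 0) (nat_lit 5737621034) (nat_lit 684)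 (nat_lit 5000758654) (nat_lit 760) (nat_lit 2253235464) (nat_lit 261) (nat_lit 5) (nat_lit 270) (nat_lit 5) (nat_lit 271) (nat_lit 5) (nat_lit 313) (nat_lit 280) (nat_lit 187)) (XT.lf (nat_lit 0) (nat_lit 817885947) (nat_lit 684) (nat_lit 10189706932) (nat_lit 76) (nat_lit 2205070160) (nat_lit 252) (nat_lit 5) (nat_lit 261) (nat_lit 5) (nat_lit 253) (nat_lit 5) (nat_lit 314) (nat_lit 280) (nat_lit 186))))))))
noncomputable def xc85 : XT := (XT.nd (nat_lit 2106) (nat_lit 3572) (nat_lit 0) (XT.nd (nat_lit 1014) (nat_lit 4712) (nat_lit 0) (XT.nd (nat_lit 468) (nat_lit 3268) (nat_lit 0) (XT.nd (nat_lit 234) (nat_lit 1216) (nat_lit 0) (XT.nd (nat_lit 78) (nat_lit 608) (nat_lit 0) (XT.lf (nat_lit 0) (nat_lit 188590581) (nat_lit 684) (nat_lit 3817492085) (nat_lit 760) (nat_lit 9432867207) (nat_lit 243) (nat_lit 5) (nat_lit 252) (nat_lit 5) (nat_lit 253) (nat_lit 5) (nat_lit 315) (nat_lit 280) (nat_lit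 185)) (XT.nd (nat_lit 78) (nat_lit 608) (nat_lit 0) (XT.lf (nat_lit 0) (nat_lit 7354557652) (nat_lit 760) (nat_lit 2709890947) (nat_lit 76) (nat_lit 3606300063) (nat_lit 243) (nat_lit 5) (nat_lit 253) (nat_lit 5) (nat_lit 244) (nat_lit 5) (nat_lit 316) (nat_lit 280) (nat_lit 184)) (XT.lf (nat_lit 0) (nat_lit 8196521261) (nat_lit 608) (nat_lit 2658361378) (nat_lit 684) (nat_lit 3053606392) (nat_lit 235) (nat_lit 5) (nat_lit 243) (nat_lit 5) (nat_lit 244) (nat_lit 5) (nat_lit 317) (nat_lit 280) (nat_lit 183)))) (XT.nd (nat_lit 78) (nat_lit 532) (nat_lit 0) (XT.lf (nat_lit 0) (nat_lit 361701044) (nat_lit 684) (nat_lit 8835221400) (nat_lit 76) (nat_lit 4955236708) (nat_lit 226) (nat_lit 5) (nat_lit 235) (nat_lit 5) (nat_lit 227) (nat_lit 5) (nat_lit 318) (nat_lit 280) (nat_lit 182)) (XT.nd (nat_lit 78) (nat_lit 0) (nat_lit 0) (XT.lf (nat_lit 0) (nat_lit 2312326162) (nat_lit 532) (nat_lit 1571238853)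 (nat_lit 608) (nat_lit 10518273350) (nat_lit 219) (nat_lit 5) (nat_lit 226) (nat_lit 5) (nat_lit 227) (nat_lit 5) (nat_lit 319) (nat_lit 280) (nat_lit 181)) (XT.lf (nat_lit 0) (nat_lit 7586267702) (nat_lit 608) (nat_lit 815814153) (nat_lit 76) (nat_lit 6255436377) (nat_lit 219) (nat_lit 5) (nat_lit 227) (nat_lit 5) (nat_lit 220) (nat_lit 5) (nat_lit 320) (nat_lit 280) (nat_lit 180))))) (XT.nd (nat_lit 234) (nat_lit 1520) (nat_lit 0) (XT.nd (nat_lit 78) (nat_lit 1140) (nat_lit 0) (XT.lf (nat_lit 0) (nat_lit 10897391654) (nat_lit 608) (nat_lit 558795481) (nat_lit 684) (nat_lit 3463572176) (nat_lit 211) (nat_lit 5) (nat_lit 219) (nat_lit 5) (nat_lit 220) (nat_lit 5) (nat_lit 321) (nat_lit 280) (nat_lit 179)) (XT.nd (nat_lit 78) (nat_lit 532) (nat_lit 0) (XT.lf (nat_lit 0) (nat_lit 329984769) (nat_lit 608) (nat_lit 7384602363) (nat_lit 76) (nat_lit 7473641446) (nat_lit 203) (nat_lit 5) (nat_lit 211)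 (nat_lit 5) (nat_lit 204) (nat_lit 5) (nat_lit 322) (nat_lit 280) (nat_lit 178)) (XT.lf (nat_lit 0) (nat_lit 4229442227) (nat_lit 608) (nat_lit 10888547090) (nat_lit 76) (nat_lit 345534219) (nat_lit 196) (nat_lit 5) (nat_lit 204) (nat_lit 5) (nat_lit 197) (nat_lit 5) (nat_lit 323) (nat_lit 280) (nat_lit 177)))) (XT.nd (nat_lit 156) (nat_lit 1064) (nat_lit 0) (XT.nd (nat_lit 78) (nat_lit 0) (nat_lit 0) (XT.lf (nat_lit 0) (nat_lit 1181063243) (nat_lit 456) (nat_lit 7150633482) (nat_lit 532) (nat_lit 7413676490) (nat_lit 190) (nat_lit 5) (nat_lit 196) (nat_lit 5) (nat_lit 197) (nat_lit 5) (nat_lit 324) (nat_lit 280) (nat_lit 176)) (XT.lf (nat_lit 0) (nat_lit 12614779737) (nat_lit 532) (nat_lit 2310523944) (nat_lit 76) (nat_lit 1109231270) (nat_lit 190) (nat_lit 5) (nat_lit 197) (nat_lit 5) (nat_lit 191) (nat_lit 5) (nat_lit 325) (nat_lit 280) (nat_lit 175))) (XT.nd (nat_lit 78) (nat_lit 456) (nat_lit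 0) (XT.lf (nat_lit 0) (nat_lit 777939921) (nat_lit 608) (nat_lit 5966489669) (nat_lit 76) (nat_lit 9586001890) (nat_lit 182) (nat_lit 5) (nat_lit 190) (nat_lit 5) (nat_lit 183) (nat_lit 5) (nat_lit 326) (nat_lit 280) (nat_lit 174)) (XT.lf (nat_lit 0) (nat_lit 5104670043) (nat_lit 532) (nat_lit 9792858187) (nat_lit 76) (nat_lit 1736244171) (nat_lit 176) (nat_lit 5) (nat_lit 183) (nat_lit 5) (nat_lit 177) (nat_lit 5) (nat_lit 327) (nat_lit 280) (nat_lit 173)))))) (XT.nd (nat_lit 546) (nat_lit 2356) (nat_lit 0) (XT.nd (nat_lit 234) (nat_lit 1368) (nat_lit 0) (XT.nd (nat_lit 78) (nat_lit 532) (nat_lit 0) (XT.lf (nat_lit 0) (nat_lit 3134919752) (nat_lit 456) (nat_lit 6510478027) (nat_lit 532) (nat_lit 7299142426) (nat_lit 170) (nat_lit 5) (nat_lit 176) (nat_lit 5) (nat_lit 177) (nat_lit 5) (nat_lit 328) (nat_lit 280) (nat_lit 172)) (XT.nd (nat_lit 78) (nat_lit 532) (nat_lit 0) (XT.lf (nat_lit 0) (nat_lit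 14381404814) (nat_lit 532) (nat_lit 722523897) (nat_lit 76) (nat_lit 2159531450) (nat_lit 170) (nat_lit 5) (nat_lit 177) (nat_lit 5) (nat_lit 171) (nat_lit 5) (nat_lit 329) (nat_lit 280) (nat_lit 171)) (XT.lf (nat_lit 0) (nat_lit 1752427792) (nat_lit 532) (nat_lit 4747821765) (nat_lit 76) (nat_lit 11089356319) (nat_lit 163) (nat_lit 5) (nat_lit 170) (nat_lit 5) (nat_lit 164) (nat_lit 5) (nat_lit 330) (nat_lit 280) (nat_lit 170)))) (XT.nd (nat_lit 156) (nat_lit 532) (nat_lit 0) (XT.nd (nat_lit 78) (nat_lit 380) (nat_lit 0) (XT.lf (nat_lit 0) (nat_lit 6545340319) (nat_lit 532) (nat_lit 8972861220) (nat_lit 76) (nat_lit 2405791888) (nat_lit 157) (nat_lit 5) (nat_lit 164) (nat_lit 5) (nat_lit 158) (nat_lit 5) (nat_lit 331) (nat_lit 280) (nat_lit 169)) (XT.lf (nat_lit 0) (nat_lit 4849798219) (nat_lit 380) (nat_lit 6719304682) (nat_lit 456) (nat_lit 6697577659) (nat_lit 152) (nat_lit 5) (nat_lit 157)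 (nat_lit 5) (nat_lit 158) (nat_lit 5) (nat_lit 332) (nat_lit 280) (nat_lit 168))) (XT.nd (nat_lit 78) (nat_lit 76) (nat_lit 0) (XT.lf (nat_lit 0) (nat_lit 554893564) (nat_lit 456) (nat_lit 16248784752) (nat_lit 532) (nat_lit 1814776933) (nat_lit 146) (nat_lit 5) (nat_lit 152) (nat_lit 5) (nat_lit 153) (nat_lit 5) (nat_lit 333) (nat_lit 280) (nat_lit 167)) (XT.lf (nat_lit 0) (nat_lit 3289140469) (nat_lit 532) (nat_lit 3944000766) (nat_lit 76) (nat_lit 11744897209) (nat_lit 145) (nat_lit 5) (nat_lit 152) (nat_lit 5) (nat_lit 146) (nat_lit 5) (nat_lit 334) (nat_lit 280) (nat_lit 166))))) (XT.nd (nat_lit 234) (nat_lit 1216) (nat_lit 0) (XT.nd (nat_lit 78) (nat_lit 760) (nat_lit 0) (XT.lf (nat_lit 0) (nat_lit 8585858716) (nat_lit 456) (nat_lit 8660924322) (nat_lit 76) (nat_lit 2100107667) (nat_lit 140) (nat_lit 5) (nat_lit 146) (nat_lit 5) (nat_lit 141) (nat_lit 5) (nat_lit 335) (nat_lit 280) (nat_lit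 165)) (XT.nd (nat_lit 78) (nat_lit 380) (nat_lit 0) (XT.lf (nat_lit 0) (nat_lit 6086652501) (nat_lit 380) (nat_lit 8050857633) (nat_lit 456) (nat_lit 5587385789) (nat_lit 135) (nat_lit 5) (nat_lit 140) (nat_lit 5) (nat_lit 141) (nat_lit 5) (nat_lit 336) (nat_lit 280) (nat_lit 164)) (XT.lf (nat_lit 0) (nat_lit 1262026505) (nat_lit 380) (nat_lit 18651739801) (nat_lit 456) (nat_lit 199321675) (nat_lit 130) (nat_lit 5) (nat_lit 135) (nat_lit 5) (nat_lit 136) (nat_lit 5) (nat_lit 337) (nat_lit 280) (nat_lit 163)))) (XT.nd (nat_lit 156) (nat_lit 760) (nat_lit 0) (XT.nd (nat_lit 78) (nat_lit 380) (nat_lit 0) (XT.lf (nat_lit 0) (nat_lit 5408876766) (nat_lit 456) (nat_lit 3831142916) (nat_lit 76) (nat_lit 11269645495) (nat_lit 129) (nat_lit 5) (nat_lit 135) (nat_lit 5) (nat_lit 130) (nat_lit 5) (nat_lit 338) (nat_lit 280) (nat_lit 162)) (XT.lf (nat_lit 0) (nat_lit 11244756430) (nat_lit 456) (nat_lit 9154077015)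 (nat_lit 76) (nat_lit 518044224) (nat_lit 124) (nat_lit 5) (nat_lit 130) (nat_lit 5) (nat_lit 125) (nat_lit 5) (nat_lit 339) (nat_lit 280) (nat_lit 161))) (XT.nd (nat_lit 78) (nat_lit 456) (nat_lit 0) (XT.lf (nat_lit 0) (nat_lit 6539056982) (nat_lit 304) (nat_lit 10829655771) (nat_lit 380) (nat_lit 3965340767) (nat_lit 120) (nat_lit 5) (nat_lit 124) (nat_lit 5) (nat_lit 125) (nat_lit 5) (nat_lit 340) (nat_lit 280) (nat_lit 160)) (XT.lf (nat_lit 0) (nat_lit 1040835234) (nat_lit 380) (nat_lit 898762939) (nat_lit 456) (nat_lit 19822863965) (nat_lit 114) (nat_lit 5) (nat_lit 119) (nat_lit 5) (nat_lit 120) (nat_lit 5) (nat_lit 341) (nat_lit 280) (nat_lit 159))))))) (XT.nd (nat_lit 1092) (nat_lit 608) (nat_lit 0) (XT.nd (nat_lit 546) (nat_lit 1368) (nat_lit 0) (XT.nd (nat_lit 234) (nat_lit 988) (nat_lit 0) (XT.nd (nat_lit 78) (nat_lit 608) (nat_lit 0) (XT.lf (nat_lit 0) (nat_lit 8112735407) (nat_lit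 456) (nat_lit 4760858028) (nat_lit 76) (nat_lit 9326713350) (nat_lit 114) (nat_lit 5) (nat_lit 120) (nat_lit 5) (nat_lit 115) (nat_lit 5) (nat_lit 342) (nat_lit 280) (nat_lit 158)) (XT.nd (nat_lit 78) (nat_lit 304) (nat_lit 0) (XT.lf (nat_lit 0) (nat_lit 11802624332) (nat_lit 304) (nat_lit 2734695002) (nat_lit 380) (nat_lit 8112648654) (nat_lit 110) (nat_lit 5) (nat_lit 114) (nat_lit 5) (nat_lit 115) (nat_lit 5) (nat_lit 343) (nat_lit 280) (nat_lit 157)) (XT.lf (nat_lit 0) (nat_lit 5816972196) (nat_lit 304) (nat_lit 15441834162) (nat_lit 380) (nat_lit 1852235445) (nat_lit 106) (nat_lit 5) (nat_lit 110) (nat_lit 5) (nat_lit 111) (nat_lit 5) (nat_lit 344) (nat_lit 280) (nat_lit 156)))) (XT.nd (nat_lit 156) (nat_lit 608) (nat_lit 0) (XT.nd (nat_lit 78) (nat_lit 304) (nat_lit 0) (XT.lf (nat_lit 0) (nat_lit 4612069145) (nat_lit 380) (nat_lit 527972528) (nat_lit 76) (nat_lit 18443788024) (nat_lit 105)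 (nat_lit 5) (nat_lit 110) (nat_lit 5) (nat_lit 106) (nat_lit 5) (nat_lit 345) (nat_lit 280) (nat_lit 155)) (XT.lf (nat_lit 0) (nat_lit 11375997570) (nat_lit 380) (nat_lit 7178087676) (nat_lit 76) (nat_lit 5513859554) (nat_lit 101) (nat_lit 5) (nat_lit 106) (nat_lit 5) (nat_lit 102) (nat_lit 5) (nat_lit 346) (nat_lit 280) (nat_lit 154))) (XT.nd (nat_lit 78) (nat_lit 304) (nat_lit 0) (XT.lf (nat_lit 0) (nat_lit 10348533164) (nat_lit 304) (nat_lit 8084259359) (nat_lit 380) (nat_lit 6131997321) (nat_lit 97) (nat_lit 5) (nat_lit 101) (nat_lit 5) (nat_lit 102) (nat_lit 5) (nat_lit 347) (nat_lit 280) (nat_lit 153)) (XT.lf (nat_lit 0) (nat_lit 690803978) (nat_lit 304) (nat_lit 21652470797) (nat_lit 76) (nat_lit 2731704604) (nat_lit 93) (nat_lit 5) (nat_lit 97) (nat_lit 5) (nat_lit 94) (nat_lit 5) (nat_lit 348) (nat_lit 280) (nat_lit 152))))) (XT.nd (nat_lit 234) (nat_lit 836) (nat_lit 0) (XT.nd (nat_lit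 78) (nat_lit 532) (nat_lit 0) (XT.lf (nat_lit 0) (nat_lit 7771693389) (nat_lit 304) (nat_lit 3932637299) (nat_lit 76) (nat_lit 13892604031) (nat_lit 93) (nat_lit 5) (nat_lit 97) (nat_lit 5) (nat_lit 94) (nat_lit 5) (nat_lit 349) (nat_lit 280) (nat_lit 151)) (XT.nd (nat_lit 78) (nat_lit 228) (nat_lit 0) (XT.lf (nat_lit 0) (nat_lit 14486048073) (nat_lit 304) (nat_lit 658649535) (nat_lit 380) (nat_lit 10988262249) (nat_lit 89) (nat_lit 5) (nat_lit 93) (nat_lit 5) (nat_lit 94) (nat_lit 5) (nat_lit 350) (nat_lit 280) (nat_lit 150)) (XT.lf (nat_lit 0) (nat_lit 6823724324) (nat_lit 228) (nat_lit 16041742634) (nat_lit 304) (nat_lit 3817072048) (nat_lit 86) (nat_lit 5) (nat_lit 89) (nat_lit 5) (nat_lit 90) (nat_lit 5) (nat_lit 351) (nat_lit 280) (nat_lit 149)))) (XT.nd (nat_lit 156) (nat_lit 456) (nat_lit 0) (XT.nd (nat_lit 78) (nat_lit 304) (nat_lit 0) (XT.lf (nat_lit 0) (nat_lit 3592318787) (nat_lit 304)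 (nat_lit 1289642150) (nat_lit 76) (nat_lit 22364788114) (nat_lit 85) (nat_lit 5) (nat_lit 89) (nat_lit 5) (nat_lit 86) (nat_lit 5) (nat_lit 352) (nat_lit 280) (nat_lit 148)) (XT.lf (nat_lit 0) (nat_lit 11319720086) (nat_lit 380) (nat_lit 9843409649) (nat_lit 76) (nat_lit 6661303686) (nat_lit 81) (nat_lit 5) (nat_lit 86) (nat_lit 5) (nat_lit 82) (nat_lit 5) (nat_lit 353) (nat_lit 280) (nat_lit 147))) (XT.nd (nat_lit 78) (nat_lit 228) (nat_lit 0) (XT.lf (nat_lit 0) (nat_lit 9498426944) (nat_lit 228) (nat_lit 9870267687) (nat_lit 304) (nat_lit 9048962933) (nat_lit 78) (nat_lit 5) (nat_lit 81) (nat_lit 5) (nat_lit 82) (nat_lit 5) (nat_lit 354) (nat_lit 280) (nat_lit 146)) (XT.lf (nat_lit 0) (nat_lit 501114479) (nat_lit 228) (nat_lit 27226691780) (nat_lit 304) (nat_lit 1299502961) (nat_lit 75) (nat_lit 5) (nat_lit 78) (nat_lit 5) (nat_lit 79) (nat_lit 5) (nat_lit 355) (nat_lit 280) (nat_lit 145))))))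 (XT.nd (nat_lit 35022) (nat_lit 0) (nat_lit 28728) (XT.nd (nat_lit 234) (nat_lit 76) (nat_lit 0) (XT.nd (nat_lit 78) (nat_lit 456) (nat_lit 0) (XT.lf (nat_lit 0) (nat_lit 6776849051) (nat_lit 304) (nat_lit 9021210210) (nat_lit 76) (nat_lit 13852686378) (nat_lit 74) (nat_lit 5) (nat_lit 78) (nat_lit 5) (nat_lit 75) (nat_lit 5) (nat_lit 356) (nat_lit 280) (nat_lit 144)) (XT.nd (nat_lit 78) (nat_lit 228) (nat_lit 0) (XT.lf (nat_lit 0) (nat_lit 11186243616) (nat_lit 228) (nat_lit 3951692005) (nat_lit 304) (nat_lit 15153579581) (nat_lit 71) (nat_lit 5) (nat_lit 74) (nat_lit 5) (nat_lit 75) (nat_lit 5) (nat_lit 357) (nat_lit 280) (nat_lit 143)) (XT.lf (nat_lit 0) (nat_lit 1113185934) (nat_lit 228) (nat_lit 22746550610) (nat_lit 304) (nat_lit 7089577392) (nat_lit 68) (nat_lit 5) (nat_lit 71) (nat_lit 5) (nat_lit 72) (nat_lit 5) (nat_lit 358) (nat_lit 280) (nat_lit 142)))) (XT.nd (nat_lit 34632) (nat_lit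 0) (nat_lit 31312) (XT.nd (nat_lit 34554) (nat_lit 0) (nat_lit 31312) (XT.lf (nat_lit 0) (nat_lit 1344840333) (nat_lit 304) (nat_lit 9480122510) (nat_lit 76) (nat_lit 20798840419) (nat_lit 67) (nat_lit 5) (nat_lit 71) (nat_lit 5) (nat_lit 68) (nat_lit 5) (nat_lit 359) (nat_lit 280) (nat_lit 141)) (XT.lf (nat_lit 0) (nat_lit 1571248480) (nat_lit 1444) (nat_lit 1301094060) (nat_lit 1444) (nat_lit 1301094060) (nat_lit 479) (nat_lit 3) (nat_lit 498) (nat_lit 3) (nat_lit 498) (nat_lit 5) (nat_lit 281) (nat_lit 281) (nat_lit 218))) (XT.nd (nat_lit 78) (nat_lit 0) (nat_lit 76) (XT.lf (nat_lit 76) (nat_lit 3231002074) (nat_lit 0) (nat_lit 1530829416) (nat_lit 1444) (nat_lit 3677588452) (nat_lit 480) (nat_lit 5) (nat_lit 479) (nat_lit 3) (nat_lit 498) (nat_lit 5) (nat_lit 282) (nat_lit 281) (nat_lit 217)) (XT.lf (nat_lit 76) (nat_lit 698456724) (nat_lit 0) (nat_lit 5711263030) (nat_lit 1444) (nat_lit 2125471173)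 (nat_lit 481) (nat_lit 5) (nat_lit 480) (nat_lit 5) (nat_lit 499) (nat_lit 5) (nat_lit 283) (nat_lit 281) (nat_lit 216))))) (XT.nd (nat_lit 234) (nat_lit 1292) (nat_lit 0) (XT.nd (nat_lit 78) (nat_lit 1368) (nat_lit 0) (XT.lf (nat_lit 76) (nat_lit 6811226515) (nat_lit 0) (nat_lit 1282284470) (nat_lit 1444) (nat_lit 540640670) (nat_lit 481) (nat_lit 5) (nat_lit 480) (nat_lit 5) (nat_lit 499) (nat_lit 5) (nat_lit 284) (nat_lit 281) (nat_lit 215)) (XT.nd (nat_lit 78) (nat_lit 0) (nat_lit 0) (XT.lf (nat_lit 0) (nat_lit 1069909628) (nat_lit 1444) (nat_lit 4368583943) (nat_lit 1520) (nat_lit 3297639730) (nat_lit 462) (nat_lit 5) (nat_lit 481) (nat_lit 5) (nat_lit 482) (nat_lit 5) (nat_lit 285) (nat_lit 281) (nat_lit 214)) (XT.lf (nat_lit 76) (nat_lit 1907599983) (nat_lit 0) (nat_lit 791201357) (nat_lit 1520) (nat_lit 6142796637) (nat_lit 463) (nat_lit 5) (nat_lit 462) (nat_lit 5) (nat_lit 482) (nat_lit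 5) (nat_lit 286) (nat_lit 281) (nat_lit 213)))) (XT.nd (nat_lit 156) (nat_lit 1368) (nat_lit 0) (XT.nd (nat_lit 78) (nat_lit 0) (nat_lit 0) (XT.lf (nat_lit 0) (nat_lit 4377800740) (nat_lit 1444) (nat_lit 577558809) (nat_lit 1520) (nat_lit 3994883441) (nat_lit 463) (nat_lit 5) (nat_lit 482) (nat_lit 5) (nat_lit 483) (nat_lit 5) (nat_lit 287) (nat_lit 281) (nat_lit 212)) (XT.lf (nat_lit 76) (nat_lit 6010436583) (nat_lit 0) (nat_lit 88136245) (nat_lit 1520) (nat_lit 2963786486) (nat_lit 464) (nat_lit 5) (nat_lit 463) (nat_lit 5) (nat_lit 483) (nat_lit 5) (nat_lit 288) (nat_lit 281) (nat_lit 211))) (XT.nd (nat_lit 78) (nat_lit 1444) (nat_lit 0) (XT.lf (nat_lit 76) (nat_lit 3608195519) (nat_lit 0) (nat_lit 4270662515) (nat_lit 1520) (nat_lit 1298862146) (nat_lit 465) (nat_lit 5) (nat_lit 464) (nat_lit 5) (nat_lit 484) (nat_lit 5) (nat_lit 289) (nat_lit 281) (nat_lit 210)) (XT.lf (nat_lit 0) (nat_lit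 394381606) (nat_lit 1520) (nat_lit 8109699879) (nat_lit 1596) (nat_lit 792766792) (nat_lit 445) (nat_lit 5) (nat_lit 465) (nat_lit 5) (nat_lit 466) (nat_lit 5) (nat_lit 290) (nat_lit 281) (nat_lit 209))))))))
noncomputable def xc86 : XT := (XT.nd (nat_lit 2106) (nat_lit 10108) (nat_lit 0) (XT.nd (nat_lit 1014) (nat_lit 8436) (nat_lit 0) (XT.nd (nat_lit 468) (nat_lit 5548) (nat_lit 0) (XT.nd (nat_lit 234) (nat_lit 1368) (nat_lit 0) (XT.nd (nat_lit 78) (nat_lit 0) (nat_lit 76) (XT.lf (nat_lit 0) (nat_lit 2138253993) (nat_lit 1520) (nat_lit 1267624862) (nat_lit 1596) (nat_lit 6013185999) (nat_lit 445) (nat_lit 5) (nat_lit 465) (nat_lit 5) (nat_lit 466) (nat_lit 5) (nat_lit 291) (nat_lit 281) (nat_lit 208)) (XT.nd (nat_lit 78) (nat_lit 0) (nat_lit 0) (XT.lf (nat_lit 0) (nat_lit 3936834181) (nat_lit 1520) (nat_lit 3734524621) (nat_lit 1596) (nat_lit 1873576151) (nat_lit 446) (nat_lit 5) (nat_lit 466)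 (nat_lit 5) (nat_lit 467) (nat_lit 5) (nat_lit 292) (nat_lit 281) (nat_lit 207)) (XT.lf (nat_lit 76) (nat_lit 3432292445) (nat_lit 0) (nat_lit 2364316189) (nat_lit 1596) (nat_lit 3877861623) (nat_lit 447) (nat_lit 5) (nat_lit 446) (nat_lit 5) (nat_lit 467) (nat_lit 5) (nat_lit 293) (nat_lit 281) (nat_lit 206)))) (XT.nd (nat_lit 78) (nat_lit 1520) (nat_lit 0) (XT.lf (nat_lit 76) (nat_lit 1016783614) (nat_lit 0) (nat_lit 6702355296) (nat_lit 1596) (nat_lit 2088646315) (nat_lit 448) (nat_lit 5) (nat_lit 447) (nat_lit 5) (nat_lit 468) (nat_lit 5) (nat_lit 294) (nat_lit 281) (nat_lit 205)) (XT.nd (nat_lit 78) (nat_lit 1520) (nat_lit 0) (XT.lf (nat_lit 76) (nat_lit 8529397996) (nat_lit 0) (nat_lit 1183800774) (nat_lit 1596) (nat_lit 231655698) (nat_lit 448) (nat_lit 5) (nat_lit 447) (nat_lit 5) (nat_lit 468) (nat_lit 5) (nat_lit 295) (nat_lit 281) (nat_lit 204)) (XT.lf (nat_lit 0) (nat_lit 1685816989)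 (nat_lit 1596) (nat_lit 3896691750) (nat_lit 1672) (nat_lit 4502802731) (nat_lit 427) (nat_lit 5) (nat_lit 448) (nat_lit 5) (nat_lit 449) (nat_lit 5) (nat_lit 296) (nat_lit 281) (nat_lit 203))))) (XT.nd (nat_lit 234) (nat_lit 4028) (nat_lit 0) (XT.nd (nat_lit 78) (nat_lit 1596) (nat_lit 0) (XT.lf (nat_lit 0) (nat_lit 3659002775) (nat_lit 1596) (nat_lit 6413632527) (nat_lit 76) (nat_lit 157319007) (nat_lit 428) (nat_lit 5) (nat_lit 449) (nat_lit 5) (nat_lit 429) (nat_lit 5) (nat_lit 297) (nat_lit 281) (nat_lit 202)) (XT.nd (nat_lit 78) (nat_lit 0) (nat_lit 0) (XT.lf (nat_lit 0) (nat_lit 1382358978) (nat_lit 1596) (nat_lit 4340903075) (nat_lit 1672) (nat_lit 4655065444) (nat_lit 407) (nat_lit 5) (nat_lit 428) (nat_lit 5) (nat_lit 429) (nat_lit 5) (nat_lit 298) (nat_lit 281) (nat_lit 201)) (XT.lf (nat_lit 0) (nat_lit 7863355350) (nat_lit 1672) (nat_lit 1074936697) (nat_lit 76) (nat_lit 1592609493)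 (nat_lit 407) (nat_lit 5) (nat_lit 429) (nat_lit 5) (nat_lit 408) (nat_lit 5) (nat_lit 299) (nat_lit 281) (nat_lit 200)))) (XT.nd (nat_lit 156) (nat_lit 836) (nat_lit 0) (XT.nd (nat_lit 78) (nat_lit 1520) (nat_lit 0) (XT.lf (nat_lit 0) (nat_lit 7114764607) (nat_lit 1672) (nat_lit 2989285890) (nat_lit 1748) (nat_lit 583301303) (nat_lit 385) (nat_lit 5) (nat_lit 407) (nat_lit 5) (nat_lit 408) (nat_lit 5) (nat_lit 300) (nat_lit 281) (nat_lit 199)) (XT.lf (nat_lit 0) (nat_lit 1563586092) (nat_lit 1520) (nat_lit 6133859706) (nat_lit 76) (nat_lit 3150460018) (nat_lit 365) (nat_lit 5) (nat_lit 385) (nat_lit 5) (nat_lit 366) (nat_lit 5) (nat_lit 301) (nat_lit 281) (nat_lit 198))) (XT.nd (nat_lit 78) (nat_lit 0) (nat_lit 0) (XT.lf (nat_lit 0) (nat_lit 2257445037) (nat_lit 836) (nat_lit 1531319197) (nat_lit 912) (nat_lit 7224023858) (nat_lit 354) (nat_lit 5) (nat_lit 365) (nat_lit 5) (nat_lit 366) (nat_lit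 5) (nat_lit 302) (nat_lit 281) (nat_lit 197)) (XT.lf (nat_lit 0) (nat_lit 6117471482) (nat_lit 912) (nat_lit 262632784) (nat_lit 76) (nat_lit 4801801298) (nat_lit 354) (nat_lit 5) (nat_lit 366) (nat_lit 5) (nat_lit 355) (nat_lit 5) (nat_lit 303) (nat_lit 281) (nat_lit 196)))))) (XT.nd (nat_lit 546) (nat_lit 3496) (nat_lit 0) (XT.nd (nat_lit 234) (nat_lit 2280) (nat_lit 0) (XT.nd (nat_lit 78) (nat_lit 1748) (nat_lit 0) (XT.lf (nat_lit 0) (nat_lit 8546567416) (nat_lit 988) (nat_lit 2801499706) (nat_lit 76) (nat_lit 7442386) (nat_lit 342) (nat_lit 5) (nat_lit 355) (nat_lit 5) (nat_lit 343) (nat_lit 5) (nat_lit 304) (nat_lit 281) (nat_lit 195)) (XT.nd (nat_lit 78) (nat_lit 912) (nat_lit 0) (XT.lf (nat_lit 0) (nat_lit 6108960023) (nat_lit 836) (nat_lit 4989230676) (nat_lit 912) (nat_lit 435160597) (nat_lit 331) (nat_lit 5) (nat_lit 342) (nat_lit 5) (nat_lit 343) (nat_lit 5) (nat_lit 305) (nat_lit 281)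 (nat_lit 194)) (XT.lf (nat_lit 0) (nat_lit 2002612070) (nat_lit 912) (nat_lit 8116396622) (nat_lit 76) (nat_lit 1596897636) (nat_lit 319) (nat_lit 5) (nat_lit 331) (nat_lit 5) (nat_lit 320) (nat_lit 5) (nat_lit 306) (nat_lit 281) (nat_lit 193)))) (XT.nd (nat_lit 156) (nat_lit 1520) (nat_lit 0) (XT.nd (nat_lit 78) (nat_lit 0) (nat_lit 0) (XT.lf (nat_lit 0) (nat_lit 1008851325) (nat_lit 760) (nat_lit 3542568974) (nat_lit 836) (nat_lit 7351604977) (nat_lit 309) (nat_lit 5) (nat_lit 319) (nat_lit 5) (nat_lit 320) (nat_lit 5) (nat_lit 307) (nat_lit 281) (nat_lit 192)) (XT.lf (nat_lit 0) (nat_lit 7220653120) (nat_lit 836) (nat_lit 1630213006) (nat_lit 76) (nat_lit 3244032926) (nat_lit 309) (nat_lit 5) (nat_lit 320) (nat_lit 5) (nat_lit 310) (nat_lit 5) (nat_lit 308) (nat_lit 281) (nat_lit 191))) (XT.nd (nat_lit 78) (nat_lit 760) (nat_lit 0) (XT.lf (nat_lit 0) (nat_lit 7960173851) (nat_lit 760) (nat_lit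 2053723684) (nat_lit 836) (nat_lit 2277772687) (nat_lit 299) (nat_lit 5) (nat_lit 309) (nat_lit 5) (nat_lit 310) (nat_lit 5) (nat_lit 309) (nat_lit 281) (nat_lit 190)) (XT.lf (nat_lit 0) (nat_lit 439075820) (nat_lit 760) (nat_lit 7123882199) (nat_lit 76) (nat_lit 4930400275) (nat_lit 289) (nat_lit 5) (nat_lit 299) (nat_lit 5) (nat_lit 290) (nat_lit 5) (nat_lit 310) (nat_lit 281) (nat_lit 189))))) (XT.nd (nat_lit 234) (nat_lit 2052) (nat_lit 0) (XT.nd (nat_lit 78) (nat_lit 684) (nat_lit 0) (XT.lf (nat_lit 0) (nat_lit 2694229261) (nat_lit 760) (nat_lit 542940147) (nat_lit 836) (nat_lit 9463031131) (nat_lit 279) (nat_lit 5) (nat_lit 289) (nat_lit 5) (nat_lit 290) (nat_lit 5) (nat_lit 311) (nat_lit 281) (nat_lit 188)) (XT.nd (nat_lit 78) (nat_lit 684) (nat_lit 0) (XT.lf (nat_lit 0) (nat_lit 6181618576) (nat_lit 836) (nat_lit 83902756) (nat_lit 76) (nat_lit 6646496293) (nat_lit 279) (nat_lit 5) (nat_lit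 290) (nat_lit 5) (nat_lit 280) (nat_lit 5) (nat_lit 312) (nat_lit 281) (nat_lit 187)) (XT.lf (nat_lit 0) (nat_lit 9262104454) (nat_lit 760) (nat_lit 2900642610) (nat_lit 76) (nat_lit 966505405) (nat_lit 270) (nat_lit 5) (nat_lit 280) (nat_lit 5) (nat_lit 271) (nat_lit 5) (nat_lit 313) (nat_lit 281) (nat_lit 186)))) (XT.nd (nat_lit 156) (nat_lit 684) (nat_lit 0) (XT.nd (nat_lit 78) (nat_lit 684) (nat_lit 0) (XT.lf (nat_lit 0) (nat_lit 7524039185) (nat_lit 684) (nat_lit 4974169361) (nat_lit 760) (nat_lit 853548546) (nat_lit 261) (nat_lit 5) (nat_lit 270) (nat_lit 5) (nat_lit 271) (nat_lit 5) (nat_lit 314) (nat_lit 281) (nat_lit 185)) (XT.lf (nat_lit 0) (nat_lit 2259969808) (nat_lit 684) (nat_lit 8859650101) (nat_lit 76) (nat_lit 2460260190) (nat_lit 252) (nat_lit 5) (nat_lit 261) (nat_lit 5) (nat_lit 253) (nat_lit 5) (nat_lit 315) (nat_lit 281) (nat_lit 184))) (XT.nd (nat_lit 78) (nat_lit 0) (nat_lit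 0) (XT.lf (nat_lit 0) (nat_lit 1803458268) (nat_lit 684) (nat_lit 3709514434) (nat_lit 760) (nat_lit 8300623278) (nat_lit 243) (nat_lit 5) (nat_lit 252) (nat_lit 5) (nat_lit 253) (nat_lit 5) (nat_lit 316) (nat_lit 281) (nat_lit 183)) (XT.lf (nat_lit 0) (nat_lit 8922914953) (nat_lit 760) (nat_lit 1202558816) (nat_lit 76) (nat_lit 3927677662) (nat_lit 243) (nat_lit 5) (nat_lit 253) (nat_lit 5) (nat_lit 244) (nat_lit 5) (nat_lit 317) (nat_lit 281) (nat_lit 182))))))) (XT.nd (nat_lit 1014) (nat_lit 4104) (nat_lit 0) (XT.nd (nat_lit 468) (nat_lit 2964) (nat_lit 0) (XT.nd (nat_lit 234) (nat_lit 1216) (nat_lit 0) (XT.nd (nat_lit 78) (nat_lit 1216) (nat_lit 0) (XT.lf (nat_lit 0) (nat_lit 10005272143) (nat_lit 608) (nat_lit 2493870643) (nat_lit 684) (nat_lit 1799485653) (nat_lit 235) (nat_lit 5) (nat_lit 243) (nat_lit 5) (nat_lit 244) (nat_lit 5) (nat_lit 318) (nat_lit 281) (nat_lit 181)) (XT.nd (nat_lit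 78) (nat_lit 532) (nat_lit 0) (XT.lf (nat_lit 0) (nat_lit 1673712112) (nat_lit 684) (nat_lit 7519664031) (nat_lit 76) (nat_lit 5356617377) (nat_lit 226) (nat_lit 5) (nat_lit 235) (nat_lit 5) (nat_lit 227) (nat_lit 5) (nat_lit 319) (nat_lit 281) (nat_lit 180)) (XT.lf (nat_lit 0) (nat_lit 3936666374) (nat_lit 532) (nat_lit 1336763663) (nat_lit 608) (nat_lit 9534309710) (nat_lit 219) (nat_lit 5) (nat_lit 226) (nat_lit 5) (nat_lit 227) (nat_lit 5) (nat_lit 320) (nat_lit 281) (nat_lit 179)))) (XT.nd (nat_lit 78) (nat_lit 608) (nat_lit 0) (XT.lf (nat_lit 0) (nat_lit 702218011) (nat_lit 608) (nat_lit 8354242117) (nat_lit 684) (nat_lit 6015264954) (nat_lit 211) (nat_lit 5) (nat_lit 219) (nat_lit 5) (nat_lit 220) (nat_lit 5) (nat_lit 321) (nat_lit 281) (nat_lit 178)) (XT.nd (nat_lit 78) (nat_lit 608) (nat_lit 0) (XT.lf (nat_lit 0) (nat_lit 12732734358) (nat_lit 608) (nat_lit 278917624) (nat_lit 684) (nat_lit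 2330817329) (nat_lit 211) (nat_lit 5) (nat_lit 219) (nat_lit 5) (nat_lit 220) (nat_lit 5) (nat_lit 322) (nat_lit 281) (nat_lit 177)) (XT.lf (nat_lit 0) (nat_lit 1536508866) (nat_lit 608) (nat_lit 6083088948) (nat_lit 76) (nat_lit 7999729107) (nat_lit 203) (nat_lit 5) (nat_lit 211) (nat_lit 5) (nat_lit 204) (nat_lit 5) (nat_lit 323) (nat_lit 281) (nat_lit 176))))) (XT.nd (nat_lit 234) (nat_lit 1976) (nat_lit 0) (XT.nd (nat_lit 78) (nat_lit 456) (nat_lit 0) (XT.lf (nat_lit 0) (nat_lit 5529947211) (nat_lit 608) (nat_lit 9694955721) (nat_lit 76) (nat_lit 678455796) (nat_lit 196) (nat_lit 5) (nat_lit 204) (nat_lit 5) (nat_lit 197) (nat_lit 5) (nat_lit 324) (nat_lit 281) (nat_lit 175)) (XT.nd (nat_lit 78) (nat_lit 0) (nat_lit 0) (XT.lf (nat_lit 0) (nat_lit 2712078708) (nat_lit 456) (nat_lit 7018717799) (nat_lit 532) (nat_lit 6463374267) (nat_lit 190) (nat_lit 5) (nat_lit 196) (nat_lit 5) (nat_lit 197)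 (nat_lit 5) (nat_lit 325) (nat_lit 281) (nat_lit 174)) (XT.lf (nat_lit 0) (nat_lit 14111085425) (nat_lit 532) (nat_lit 907123234) (nat_lit 76) (nat_lit 1474441348) (nat_lit 190) (nat_lit 5) (nat_lit 197) (nat_lit 5) (nat_lit 191) (nat_lit 5) (nat_lit 326) (nat_lit 281) (nat_lit 173)))) (XT.nd (nat_lit 156) (nat_lit 912) (nat_lit 0) (XT.nd (nat_lit 78) (nat_lit 456) (nat_lit 0) (XT.lf (nat_lit 0) (nat_lit 1903777924) (nat_lit 608) (nat_lit 4681472767) (nat_lit 76) (nat_lit 10212507141) (nat_lit 182) (nat_lit 5) (nat_lit 190) (nat_lit 5) (nat_lit 183) (nat_lit 5) (nat_lit 327) (nat_lit 281) (nat_lit 172)) (XT.lf (nat_lit 0) (nat_lit 6339890164) (nat_lit 532) (nat_lit 8626609175) (nat_lit 76) (nat_lit 2144123666) (nat_lit 176) (nat_lit 5) (nat_lit 183) (nat_lit 5) (nat_lit 177) (nat_lit 5) (nat_lit 328) (nat_lit 281) (nat_lit 171))) (XT.nd (nat_lit 78) (nat_lit 456) (nat_lit 0) (XT.lf (nat_lit 0)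 (nat_lit 4665314773) (nat_lit 456) (nat_lit 6329333786) (nat_lit 532) (nat_lit 6436524282) (nat_lit 170) (nat_lit 5) (nat_lit 176) (nat_lit 5) (nat_lit 177) (nat_lit 5) (nat_lit 329) (nat_lit 281) (nat_lit 170)) (XT.lf (nat_lit 0) (nat_lit 677901653) (nat_lit 456) (nat_lit 15170738017) (nat_lit 532) (nat_lit 1911517379) (nat_lit 164) (nat_lit 5) (nat_lit 170) (nat_lit 5) (nat_lit 171) (nat_lit 5) (nat_lit 330) (nat_lit 281) (nat_lit 169)))))) (XT.nd (nat_lit 546) (nat_lit 1900) (nat_lit 0) (XT.nd (nat_lit 234) (nat_lit 1292) (nat_lit 0) (XT.nd (nat_lit 78) (nat_lit 836) (nat_lit 0) (XT.lf (nat_lit 0) (nat_lit 2822539812) (nat_lit 532) (nat_lit 3485983643) (nat_lit 76) (nat_lit 11787952403) (nat_lit 163) (nat_lit 5) (nat_lit 170) (nat_lit 5) (nat_lit 164) (nat_lit 5) (nat_lit 331) (nat_lit 281) (nat_lit 168)) (XT.nd (nat_lit 78) (nat_lit 380) (nat_lit 0) (XT.lf (nat_lit 0) (nat_lit 7741069400) (nat_lit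 532) (nat_lit 7842662907) (nat_lit 76) (nat_lit 2857539749) (nat_lit 157) (nat_lit 5) (nat_lit 164) (nat_lit 5) (nat_lit 158) (nat_lit 5) (nat_lit 332) (nat_lit 281) (nat_lit 167)) (XT.lf (nat_lit 0) (nat_lit 6371972970) (nat_lit 380) (nat_lit 6523402384) (nat_lit 456) (nat_lit 5899281057) (nat_lit 152) (nat_lit 5) (nat_lit 157) (nat_lit 5) (nat_lit 158) (nat_lit 5) (nat_lit 333) (nat_lit 281) (nat_lit 166)))) (XT.nd (nat_lit 156) (nat_lit 760) (nat_lit 0) (XT.nd (nat_lit 78) (nat_lit 76) (nat_lit 0) (XT.lf (nat_lit 0) (nat_lit 1943047012) (nat_lit 456) (nat_lit 16326830926) (nat_lit 532) (nat_lit 887461436) (nat_lit 146) (nat_lit 5) (nat_lit 152) (nat_lit 5) (nat_lit 153) (nat_lit 5) (nat_lit 334) (nat_lit 281) (nat_lit 165)) (XT.lf (nat_lit 0) (nat_lit 4328477656) (nat_lit 532) (nat_lit 2717852883) (nat_lit 76) (nat_lit 12481828655) (nat_lit 145) (nat_lit 5) (nat_lit 152) (nat_lit 5) (nat_lit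 146) (nat_lit 5) (nat_lit 335) (nat_lit 281) (nat_lit 164))) (XT.nd (nat_lit 78) (nat_lit 380) (nat_lit 0) (XT.lf (nat_lit 0) (nat_lit 9767889335) (nat_lit 456) (nat_lit 7581866480) (nat_lit 76) (nat_lit 2558657228) (nat_lit 140) (nat_lit 5) (nat_lit 146) (nat_lit 5) (nat_lit 141) (nat_lit 5) (nat_lit 336) (nat_lit 281) (nat_lit 163)) (XT.lf (nat_lit 0) (nat_lit 7586415820) (nat_lit 380) (nat_lit 7881300506) (nat_lit 456) (nat_lit 4830421083) (nat_lit 135) (nat_lit 5) (nat_lit 140) (nat_lit 5) (nat_lit 141) (nat_lit 5) (nat_lit 337) (nat_lit 281) (nat_lit 162))))) (XT.nd (nat_lit 234) (nat_lit 1064) (nat_lit 0) (XT.nd (nat_lit 78) (nat_lit 380) (nat_lit 0) (XT.lf (nat_lit 0) (nat_lit 694454031) (nat_lit 456) (nat_lit 18091599817) (nat_lit 76) (nat_lit 1912146886) (nat_lit 129) (nat_lit 5) (nat_lit 135) (nat_lit 5) (nat_lit 130) (nat_lit 5) (nat_lit 338) (nat_lit 281) (nat_lit 161)) (XT.nd (nat_lit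 78) (nat_lit 380) (nat_lit 0) (XT.lf (nat_lit 0) (nat_lit 6442077820) (nat_lit 456) (nat_lit 2660969872) (nat_lit 76) (nat_lit 12004134095) (nat_lit 129) (nat_lit 5) (nat_lit 135) (nat_lit 5) (nat_lit 130) (nat_lit 5) (nat_lit 339) (nat_lit 281) (nat_lit 160)) (XT.lf (nat_lit 0) (nat_lit 12438540364) (nat_lit 456) (nat_lit 8149686611) (nat_lit 76) (nat_lit 938683879) (nat_lit 124) (nat_lit 5) (nat_lit 130) (nat_lit 5) (nat_lit 125) (nat_lit 5) (nat_lit 340) (nat_lit 281) (nat_lit 159)))) (XT.nd (nat_lit 156) (nat_lit 304) (nat_lit 0) (XT.nd (nat_lit 78) (nat_lit 456) (nat_lit 0) (XT.lf (nat_lit 0) (nat_lit 7993490944) (nat_lit 304) (nat_lit 10735949015) (nat_lit 380) (nat_lit 3227507557) (nat_lit 120) (nat_lit 5) (nat_lit 124) (nat_lit 5) (nat_lit 125) (nat_lit 5) (nat_lit 341) (nat_lit 281) (nat_lit 158)) (XT.lf (nat_lit 0) (nat_lit 2321285846) (nat_lit 380) (nat_lit 505539648) (nat_lit 456) (nat_lit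 19571611529) (nat_lit 114) (nat_lit 5) (nat_lit 119) (nat_lit 5) (nat_lit 120) (nat_lit 5) (nat_lit 342) (nat_lit 281) (nat_lit 157))) (XT.nd (nat_lit 78) (nat_lit 304) (nat_lit 0) (XT.lf (nat_lit 0) (nat_lit 9163658734) (nat_lit 456) (nat_lit 3677085315) (nat_lit 76) (nat_lit 10009112190) (nat_lit 114) (nat_lit 5) (nat_lit 120) (nat_lit 5) (nat_lit 115) (nat_lit 5) (nat_lit 343) (nat_lit 281) (nat_lit 156)) (XT.lf (nat_lit 0) (nat_lit 13363401412) (nat_lit 304) (nat_lit 2401892834) (nat_lit 380) (nat_lit 7548035749) (nat_lit 110) (nat_lit 5) (nat_lit 114) (nat_lit 5) (nat_lit 115) (nat_lit 5) (nat_lit 344) (nat_lit 281) (nat_lit 155))))))))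
noncomputable def xc87 : XT := (XT.nd (nat_lit 36660) (nat_lit 0) (nat_lit 11476) (XT.nd (nat_lit 1014) (nat_lit 456) (nat_lit 0) (XT.nd (nat_lit 468) (nat_lit 1444) (nat_lit 0) (XT.nd (nat_lit 234) (nat_lit 608) (nat_lit 0) (XT.nd (nat_lit 78) (nat_lit 380) (nat_lit 0) (XT.lf (nat_lit 0) (nat_lit 7191827955) (nat_lit 304) (nat_lit 15483942611) (nat_lit 380) (nat_lit 1112727300) (nat_lit 106) (nat_lit 5) (nat_lit 110) (nat_lit 5) (nat_lit 111) (nat_lit 5) (nat_lit 345) (nat_lit 281) (nat_lit 154)) (XT.nd (nat_lit 78) (nat_lit 0) (nat_lit 0) (XT.lf (nat_lit 0) (nat_lit 640372949) (nat_lit 304) (nat_lit 4876009834) (nat_lit 380) (nat_lit 18759365607) (nat_lit 101) (nat_lit 5) (nat_lit 105) (nat_lit 5) (nat_lit 106) (nat_lit 5) (nat_lit 346) (nat_lit 281) (nat_lit 153)) (XT.lf (nat_lit 0) (nat_lit 12467052655) (nat_lit 380) (nat_lit 6224167941) (nat_lit 76) (nat_lit 6083497951) (nat_lit 101) (nat_lit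 5) (nat_lit 106) (nat_lit 5) (nat_lit 102) (nat_lit 5) (nat_lit 347) (nat_lit 281) (nat_lit 152)))) (XT.nd (nat_lit 78) (nat_lit 304) (nat_lit 0) (XT.lf (nat_lit 0) (nat_lit 11809281631) (nat_lit 304) (nat_lit 7911900177) (nat_lit 380) (nat_lit 5565582366) (nat_lit 97) (nat_lit 5) (nat_lit 101) (nat_lit 5) (nat_lit 102) (nat_lit 5) (nat_lit 348) (nat_lit 281) (nat_lit 151)) (XT.nd (nat_lit 78) (nat_lit 0) (nat_lit 0) (XT.lf (nat_lit 0) (nat_lit 1440600194) (nat_lit 304) (nat_lit 21148400435) (nat_lit 76) (nat_lit 3223398017) (nat_lit 93) (nat_lit 5) (nat_lit 97) (nat_lit 5) (nat_lit 94) (nat_lit 5) (nat_lit 349) (nat_lit 281) (nat_lit 150)) (XT.lf (nat_lit 0) (nat_lit 8712681178) (nat_lit 304) (nat_lit 2930573228) (nat_lit 76) (nat_lit 14707190186) (nat_lit 93) (nat_lit 5) (nat_lit 97) (nat_lit 5) (nat_lit 94) (nat_lit 5) (nat_lit 350) (nat_lit 281) (nat_lit 149))))) (XT.nd (nat_lit 234) (nat_lit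 836) (nat_lit 0) (XT.nd (nat_lit 78) (nat_lit 304) (nat_lit 0) (XT.lf (nat_lit 0) (nat_lit 16022501335) (nat_lit 304) (nat_lit 270911660) (nat_lit 380) (nat_lit 10609413771) (nat_lit 89) (nat_lit 5) (nat_lit 93) (nat_lit 5) (nat_lit 94) (nat_lit 5) (nat_lit 351) (nat_lit 281) (nat_lit 148)) (XT.nd (nat_lit 78) (nat_lit 76) (nat_lit 0) (XT.lf (nat_lit 0) (nat_lit 8123721269) (nat_lit 228) (nat_lit 16111539658) (nat_lit 304) (nat_lit 3233850079) (nat_lit 86) (nat_lit 5) (nat_lit 89) (nat_lit 5) (nat_lit 90) (nat_lit 5) (nat_lit 352) (nat_lit 281) (nat_lit 147)) (XT.lf (nat_lit 0) (nat_lit 4368615750) (nat_lit 304) (nat_lit 255846723) (nat_lit 76) (nat_lit 23426101891) (nat_lit 85) (nat_lit 5) (nat_lit 89) (nat_lit 5) (nat_lit 86) (nat_lit 5) (nat_lit 353) (nat_lit 281) (nat_lit 146)))) (XT.nd (nat_lit 156) (nat_lit 304) (nat_lit 0) (XT.nd (nat_lit 78) (nat_lit 228) (nat_lit 0) (XT.lf (nat_lit 0)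 (nat_lit 12317809461) (nat_lit 380) (nat_lit 9072890349) (nat_lit 76) (nat_lit 7255086357) (nat_lit 81) (nat_lit 5) (nat_lit 86) (nat_lit 5) (nat_lit 82) (nat_lit 5) (nat_lit 354) (nat_lit 281) (nat_lit 145)) (XT.lf (nat_lit 0) (nat_lit 10831909653) (nat_lit 228) (nat_lit 9763971795) (nat_lit 304) (nat_lit 8661179148) (nat_lit 78) (nat_lit 5) (nat_lit 81) (nat_lit 5) (nat_lit 82) (nat_lit 5) (nat_lit 355) (nat_lit 281) (nat_lit 144))) (XT.nd (nat_lit 78) (nat_lit 76) (nat_lit 0) (XT.lf (nat_lit 0) (nat_lit 1558010106) (nat_lit 228) (nat_lit 27638238151) (nat_lit 304) (nat_lit 688949855) (nat_lit 75) (nat_lit 5) (nat_lit 78) (nat_lit 5) (nat_lit 79) (nat_lit 5) (nat_lit 356) (nat_lit 281) (nat_lit 143)) (XT.lf (nat_lit 0) (nat_lit 7602503440) (nat_lit 304) (nat_lit 8271870453) (nat_lit 76) (nat_lit 14653258455) (nat_lit 74) (nat_lit 5) (nat_lit 78) (nat_lit 5) (nat_lit 75) (nat_lit 5) (nat_lit 357)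 (nat_lit 281) (nat_lit 142)))))) (XT.nd (nat_lit 35100) (nat_lit 0) (nat_lit 28576) (XT.nd (nat_lit 34788) (nat_lit 0) (nat_lit 29868) (XT.nd (nat_lit 78) (nat_lit 228) (nat_lit 0) (XT.lf (nat_lit 0) (nat_lit 12525259088) (nat_lit 228) (nat_lit 3677551773) (nat_lit 304) (nat_lit 14985051868) (nat_lit 71) (nat_lit 5) (nat_lit 74) (nat_lit 5) (nat_lit 75) (nat_lit 5) (nat_lit 358) (nat_lit 281) (nat_lit 141)) (XT.nd (nat_lit 34632) (nat_lit 0) (nat_lit 31236) (XT.lf (nat_lit 0) (nat_lit 2143418787) (nat_lit 228) (nat_lit 23034006042) (nat_lit 304) (nat_lit 6688152751) (nat_lit 68) (nat_lit 5) (nat_lit 71) (nat_lit 5) (nat_lit 72) (nat_lit 5) (nat_lit 359) (nat_lit 281) (nat_lit 140)) (XT.lf (nat_lit 0) (nat_lit 3154693933) (nat_lit 1444) (nat_lit 556009422) (nat_lit 1444) (nat_lit 556009422) (nat_lit 479) (nat_lit 3) (nat_lit 498) (nat_lit 3) (nat_lit 498) (nat_lit 5) (nat_lit 282) (nat_lit 282)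 (nat_lit 216)))) (XT.nd (nat_lit 156) (nat_lit 0) (nat_lit 0) (XT.nd (nat_lit 78) (nat_lit 1368) (nat_lit 0) (XT.lf (nat_lit 76) (nat_lit 4870724308) (nat_lit 0) (nat_lit 3027101284) (nat_lit 1444) (nat_lit 732582588) (nat_lit 480) (nat_lit 5) (nat_lit 479) (nat_lit 3) (nat_lit 498) (nat_lit 5) (nat_lit 283) (nat_lit 282) (nat_lit 215)) (XT.lf (nat_lit 0) (nat_lit 768093123) (nat_lit 1444) (nat_lit 6428271839) (nat_lit 1520) (nat_lit 1534374367) (nat_lit 461) (nat_lit 5) (nat_lit 480) (nat_lit 5) (nat_lit 481) (nat_lit 5) (nat_lit 284) (nat_lit 282) (nat_lit 214))) (XT.nd (nat_lit 78) (nat_lit 0) (nat_lit 76) (XT.lf (nat_lit 0) (nat_lit 2293760143) (nat_lit 1444) (nat_lit 292103776) (nat_lit 1520) (nat_lit 6248363619) (nat_lit 461) (nat_lit 5) (nat_lit 480) (nat_lit 5) (nat_lit 481) (nat_lit 5) (nat_lit 285) (nat_lit 282) (nat_lit 213)) (XT.lf (nat_lit 0) (nat_lit 3864728118) (nat_lit 1444) (nat_lit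 2878023654) (nat_lit 1520) (nat_lit 2198119219) (nat_lit 462) (nat_lit 5) (nat_lit 481) (nat_lit 5) (nat_lit 482) (nat_lit 5) (nat_lit 286) (nat_lit 282) (nat_lit 212))))) (XT.nd (nat_lit 234) (nat_lit 1368) (nat_lit 0) (XT.nd (nat_lit 78) (nat_lit 0) (nat_lit 76) (XT.lf (nat_lit 76) (nat_lit 3560136967) (nat_lit 0) (nat_lit 1912239810) (nat_lit 1520) (nat_lit 3578585954) (nat_lit 463) (nat_lit 5) (nat_lit 462) (nat_lit 5) (nat_lit 482) (nat_lit 5) (nat_lit 287) (nat_lit 282) (nat_lit 211)) (XT.nd (nat_lit 78) (nat_lit 0) (nat_lit 0) (XT.lf (nat_lit 76) (nat_lit 1028621078) (nat_lit 0) (nat_lit 6094461089) (nat_lit 1520) (nat_lit 2041417362) (nat_lit 464) (nat_lit 5) (nat_lit 463) (nat_lit 5) (nat_lit 483) (nat_lit 5) (nat_lit 288) (nat_lit 282) (nat_lit 210)) (XT.lf (nat_lit 76) (nat_lit 7774645184) (nat_lit 0) (nat_lit 1048497573) (nat_lit 1520) (nat_lit 458340711) (nat_lit 464) (nat_lit 5) (nat_lit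 463) (nat_lit 5) (nat_lit 483) (nat_lit 5) (nat_lit 289) (nat_lit 282) (nat_lit 209)))) (XT.nd (nat_lit 156) (nat_lit 0) (nat_lit 76) (XT.nd (nat_lit 78) (nat_lit 0) (nat_lit 76) (XT.lf (nat_lit 0) (nat_lit 1169964867) (nat_lit 1520) (nat_lit 4076801284) (nat_lit 1596) (nat_lit 4154832247) (nat_lit 444) (nat_lit 5) (nat_lit 464) (nat_lit 5) (nat_lit 465) (nat_lit 5) (nat_lit 290) (nat_lit 282) (nat_lit 208)) (XT.lf (nat_lit 0) (nat_lit 2829255252) (nat_lit 1520) (nat_lit 6673101379) (nat_lit 1596) (nat_lit 23167154) (nat_lit 445) (nat_lit 5) (nat_lit 465) (nat_lit 5) (nat_lit 466) (nat_lit 5) (nat_lit 291) (nat_lit 282) (nat_lit 207))) (XT.nd (nat_lit 78) (nat_lit 0) (nat_lit 76) (XT.lf (nat_lit 76) (nat_lit 329630228) (nat_lit 0) (nat_lit 4227379716) (nat_lit 1596) (nat_lit 5095817119) (nat_lit 446) (nat_lit 5) (nat_lit 445) (nat_lit 5) (nat_lit 466) (nat_lit 5) (nat_lit 292) (nat_lit 282) (nat_lit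 206)) (XT.lf (nat_lit 0) (nat_lit 6344827276) (nat_lit 1520) (nat_lit 2190026122) (nat_lit 1596) (nat_lit 1248964297) (nat_lit 446) (nat_lit 5) (nat_lit 466) (nat_lit 5) (nat_lit 467) (nat_lit 5) (nat_lit 293) (nat_lit 282) (nat_lit 205))))))) (XT.nd (nat_lit 1092) (nat_lit 7600) (nat_lit 0) (XT.nd (nat_lit 546) (nat_lit 5016) (nat_lit 0) (XT.nd (nat_lit 234) (nat_lit 3116) (nat_lit 0) (XT.nd (nat_lit 78) (nat_lit 1520) (nat_lit 0) (XT.lf (nat_lit 76) (nat_lit 5164920155) (nat_lit 0) (nat_lit 3039359866) (nat_lit 1596) (nat_lit 1714129907) (nat_lit 447) (nat_lit 5) (nat_lit 446) (nat_lit 5) (nat_lit 467) (nat_lit 5) (nat_lit 294) (nat_lit 282) (nat_lit 204)) (XT.nd (nat_lit 78) (nat_lit 0) (nat_lit 0) (XT.lf (nat_lit 0) (nat_lit 68502053) (nat_lit 1596) (nat_lit 7357476143) (nat_lit 1672) (nat_lit 2630947081) (nat_lit 426) (nat_lit 5) (nat_lit 447) (nat_lit 5) (nat_lit 448) (nat_lit 5) (nat_lit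 295) (nat_lit 282) (nat_lit 203)) (XT.lf (nat_lit 76) (nat_lit 180253082) (nat_lit 0) (nat_lit 1713201415) (nat_lit 1672) (nat_lit 8305701863) (nat_lit 427) (nat_lit 5) (nat_lit 426) (nat_lit 5) (nat_lit 448) (nat_lit 5) (nat_lit 296) (nat_lit 282) (nat_lit 202)))) (XT.nd (nat_lit 156) (nat_lit 3192) (nat_lit 0) (XT.nd (nat_lit 78) (nat_lit 0) (nat_lit 0) (XT.lf (nat_lit 0) (nat_lit 3809574969) (nat_lit 1596) (nat_lit 2359827696) (nat_lit 1672) (nat_lit 4175551938) (nat_lit 427) (nat_lit 5) (nat_lit 448) (nat_lit 5) (nat_lit 449) (nat_lit 5) (nat_lit 297) (nat_lit 282) (nat_lit 201)) (XT.lf (nat_lit 76) (nat_lit 5558833238) (nat_lit 0) (nat_lit 232236201) (nat_lit 1672) (nat_lit 4703927336) (nat_lit 428) (nat_lit 5) (nat_lit 427) (nat_lit 5) (nat_lit 449) (nat_lit 5) (nat_lit 298) (nat_lit 282) (nat_lit 200))) (XT.nd (nat_lit 78) (nat_lit 1672) (nat_lit 0) (XT.lf (nat_lit 0) (nat_lit 3068099295)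 (nat_lit 1596) (nat_lit 4799467132) (nat_lit 1672) (nat_lit 2781289606) (nat_lit 407) (nat_lit 5) (nat_lit 428) (nat_lit 5) (nat_lit 429) (nat_lit 5) (nat_lit 299) (nat_lit 282) (nat_lit 199)) (XT.lf (nat_lit 0) (nat_lit 537950733) (nat_lit 1672) (nat_lit 9477880274) (nat_lit 1748) (nat_lit 791336799) (nat_lit 385) (nat_lit 5) (nat_lit 407) (nat_lit 5) (nat_lit 408) (nat_lit 5) (nat_lit 300) (nat_lit 282) (nat_lit 198))))) (XT.nd (nat_lit 234) (nat_lit 2660) (nat_lit 0) (XT.nd (nat_lit 78) (nat_lit 2280) (nat_lit 0) (XT.lf (nat_lit 0) (nat_lit 1288546973) (nat_lit 1748) (nat_lit 2038090735) (nat_lit 76) (nat_lit 7642518050) (nat_lit 384) (nat_lit 5) (nat_lit 407) (nat_lit 5) (nat_lit 385) (nat_lit 5) (nat_lit 301) (nat_lit 282) (nat_lit 197)) (XT.nd (nat_lit 78) (nat_lit 836) (nat_lit 0) (XT.lf (nat_lit 0) (nat_lit 3446155486) (nat_lit 1520) (nat_lit 4667235301) (nat_lit 76) (nat_lit 3022010561)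 (nat_lit 365) (nat_lit 5) (nat_lit 385) (nat_lit 5) (nat_lit 366) (nat_lit 5) (nat_lit 302) (nat_lit 282) (nat_lit 196)) (XT.lf (nat_lit 0) (nat_lit 3949028908) (nat_lit 836) (nat_lit 1746137365) (nat_lit 912) (nat_lit 5610958052) (nat_lit 354) (nat_lit 5) (nat_lit 365) (nat_lit 5) (nat_lit 366) (nat_lit 5) (nat_lit 303) (nat_lit 282) (nat_lit 195)))) (XT.nd (nat_lit 156) (nat_lit 1748) (nat_lit 0) (XT.nd (nat_lit 78) (nat_lit 0) (nat_lit 0) (XT.lf (nat_lit 0) (nat_lit 1360933627) (nat_lit 912) (nat_lit 6688356958) (nat_lit 988) (nat_lit 3431948357) (nat_lit 342) (nat_lit 5) (nat_lit 354) (nat_lit 5) (nat_lit 355) (nat_lit 5) (nat_lit 304) (nat_lit 282) (nat_lit 194)) (XT.lf (nat_lit 0) (nat_lit 10398099357) (nat_lit 912) (nat_lit 103916243) (nat_lit 988) (nat_lit 1159054005) (nat_lit 342) (nat_lit 5) (nat_lit 354) (nat_lit 5) (nat_lit 355) (nat_lit 5) (nat_lit 305) (nat_lit 282) (nat_lit 193)))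 (XT.nd (nat_lit 78) (nat_lit 836) (nat_lit 0) (XT.lf (nat_lit 0) (nat_lit 1229006127) (nat_lit 912) (nat_lit 3964017755) (nat_lit 76) (nat_lit 6651889271) (nat_lit 330) (nat_lit 5) (nat_lit 342) (nat_lit 5) (nat_lit 331) (nat_lit 5) (nat_lit 306) (nat_lit 282) (nat_lit 192)) (XT.lf (nat_lit 0) (nat_lit 3695448490) (nat_lit 912) (nat_lit 6732026142) (nat_lit 76) (nat_lit 1606214868) (nat_lit 319) (nat_lit 5) (nat_lit 331) (nat_lit 5) (nat_lit 320) (nat_lit 5) (nat_lit 307) (nat_lit 282) (nat_lit 191)))))) (XT.nd (nat_lit 546) (nat_lit 3876) (nat_lit 0) (XT.nd (nat_lit 234) (nat_lit 2204) (nat_lit 0) (XT.nd (nat_lit 78) (nat_lit 760) (nat_lit 0) (XT.lf (nat_lit 0) (nat_lit 2640569110) (nat_lit 760) (nat_lit 3642993485) (nat_lit 836) (nat_lit 5943632846) (nat_lit 309) (nat_lit 5) (nat_lit 319) (nat_lit 5) (nat_lit 320) (nat_lit 5) (nat_lit 308) (nat_lit 282) (nat_lit 190)) (XT.nd (nat_lit 78) (nat_lit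 760) (nat_lit 0) (XT.lf (nat_lit 0) (nat_lit 8986435516) (nat_lit 836) (nat_lit 92386543) (nat_lit 76) (nat_lit 3346961486) (nat_lit 309) (nat_lit 5) (nat_lit 320) (nat_lit 5) (nat_lit 310) (nat_lit 5) (nat_lit 309) (nat_lit 282) (nat_lit 189)) (XT.lf (nat_lit 0) (nat_lit 9759969064) (nat_lit 760) (nat_lit 2068521935) (nat_lit 836) (nat_lit 800695098) (nat_lit 299) (nat_lit 5) (nat_lit 309) (nat_lit 5) (nat_lit 310) (nat_lit 5) (nat_lit 310) (nat_lit 282) (nat_lit 188)))) (XT.nd (nat_lit 156) (nat_lit 684) (nat_lit 0) (XT.nd (nat_lit 78) (nat_lit 760) (nat_lit 0) (XT.lf (nat_lit 0) (nat_lit 1943501401) (nat_lit 760) (nat_lit 5750782512) (nat_lit 76) (nat_lit 5143145152) (nat_lit 289) (nat_lit 5) (nat_lit 299) (nat_lit 5) (nat_lit 290) (nat_lit 5) (nat_lit 311) (nat_lit 282) (nat_lit 187)) (XT.lf (nat_lit 0) (nat_lit 4336128086) (nat_lit 760) (nat_lit 456110663) (nat_lit 836) (nat_lit 8258930166)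 (nat_lit 279) (nat_lit 5) (nat_lit 289) (nat_lit 5) (nat_lit 290) (nat_lit 5) (nat_lit 312) (nat_lit 282) (nat_lit 186))) (XT.nd (nat_lit 78) (nat_lit 0) (nat_lit 0) (XT.lf (nat_lit 0) (nat_lit 1477068764) (nat_lit 684) (nat_lit 6315728058) (nat_lit 760) (nat_lit 5477213772) (nat_lit 270) (nat_lit 5) (nat_lit 279) (nat_lit 5) (nat_lit 280) (nat_lit 5) (nat_lit 313) (nat_lit 282) (nat_lit 185)) (XT.lf (nat_lit 0) (nat_lit 10925595188) (nat_lit 760) (nat_lit 1440945556) (nat_lit 76) (nat_lit 1128048624) (nat_lit 270) (nat_lit 5) (nat_lit 280) (nat_lit 5) (nat_lit 271) (nat_lit 5) (nat_lit 314) (nat_lit 282) (nat_lit 184))))) (XT.nd (nat_lit 234) (nat_lit 1824) (nat_lit 0) (XT.nd (nat_lit 78) (nat_lit 1292) (nat_lit 0) (XT.lf (nat_lit 0) (nat_lit 497292126) (nat_lit 760) (nat_lit 4456291426) (nat_lit 76) (nat_lit 8770753839) (nat_lit 260) (nat_lit 5) (nat_lit 270) (nat_lit 5) (nat_lit 261) (nat_lit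 5) (nat_lit 315) (nat_lit 282) (nat_lit 183)) (XT.nd (nat_lit 78) (nat_lit 684) (nat_lit 0) (XT.lf (nat_lit 0) (nat_lit 3663943171) (nat_lit 684) (nat_lit 7583590195) (nat_lit 76) (nat_lit 2712254371) (nat_lit 252) (nat_lit 5) (nat_lit 261) (nat_lit 5) (nat_lit 253) (nat_lit 5) (nat_lit 316) (nat_lit 282) (nat_lit 182)) (XT.lf (nat_lit 0) (nat_lit 3374396751) (nat_lit 684) (nat_lit 3611070002) (nat_lit 760) (nat_lit 7215652020) (nat_lit 243) (nat_lit 5) (nat_lit 252) (nat_lit 5) (nat_lit 253) (nat_lit 5) (nat_lit 317) (nat_lit 282) (nat_lit 181)))) (XT.nd (nat_lit 156) (nat_lit 1216) (nat_lit 0) (XT.nd (nat_lit 78) (nat_lit 0) (nat_lit 0) (XT.lf (nat_lit 0) (nat_lit 262238792) (nat_lit 608) (nat_lit 10200422135) (nat_lit 684) (nat_lit 3985922527) (nat_lit 235) (nat_lit 5) (nat_lit 243) (nat_lit 5) (nat_lit 244) (nat_lit 5) (nat_lit 318) (nat_lit 282) (nat_lit 180)) (XT.lf (nat_lit 0) (nat_lit 11778571266)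 (nat_lit 608) (nat_lit 2338465651) (nat_lit 684) (nat_lit 584991638) (nat_lit 235) (nat_lit 5) (nat_lit 243) (nat_lit 5) (nat_lit 244) (nat_lit 5) (nat_lit 319) (nat_lit 282) (nat_lit 179))) (XT.nd (nat_lit 78) (nat_lit 532) (nat_lit 0) (XT.lf (nat_lit 0) (nat_lit 2950391603) (nat_lit 684) (nat_lit 6255373652) (nat_lit 76) (nat_lit 5755532100) (nat_lit 226) (nat_lit 5) (nat_lit 235) (nat_lit 5) (nat_lit 227) (nat_lit 5) (nat_lit 320) (nat_lit 282) (nat_lit 178)) (XT.lf (nat_lit 0) (nat_lit 5520475128) (nat_lit 532) (nat_lit 1111419919) (nat_lit 608) (nat_lit 8595424458) (nat_lit 219) (nat_lit 5) (nat_lit 226) (nat_lit 5) (nat_lit 227) (nat_lit 5) (nat_lit 321) (nat_lit 282) (nat_lit 177))))))))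
noncomputable def xc88 : XT := (XT.nd (nat_lit 2106) (nat_lit 2280) (nat_lit 0) (XT.nd (nat_lit 1014) (nat_lit 3876) (nat_lit 0) (XT.nd (nat_lit 468) (nat_lit 2356) (nat_lit 0) (XT.nd (nat_lit 234) (nat_lit 1520) (nat_lit 0) (XT.nd (nat_lit 78) (nat_lit 608) (nat_lit 0) (XT.lf (nat_lit 0) (nat_lit 2187770915) (nat_lit 608) (nat_lit 8316867711) (nat_lit 684) (nat_lit 4995080173) (nat_lit 211) (nat_lit 5) (nat_lit 219) (nat_lit 5) (nat_lit 220) (nat_lit 5) (nat_lit 322) (nat_lit 282) (nat_lit 176)) (XT.nd (nat_lit 78) (nat_lit 608) (nat_lit 0) (XT.lf (nat_lit 0) (nat_lit 14536547810) (nat_lit 608) (nat_lit 7671881) (nat_lit 684) (nat_lit 1235069296) (nat_lit 211) (nat_lit 5) (nat_lit 219) (nat_lit 5) (nat_lit 220) (nat_lit 5) (nat_lit 323) (nat_lit 282) (nat_lit 175)) (XT.lf (nat_lit 0) (nat_lit 2710537542) (nat_lit 608) (nat_lit 4829959517) (nat_lit 76) (nat_lit 8524270342) (nat_lit 203) (nat_lit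 5) (nat_lit 211) (nat_lit 5) (nat_lit 204) (nat_lit 5) (nat_lit 324) (nat_lit 282) (nat_lit 174)))) (XT.nd (nat_lit 78) (nat_lit 988) (nat_lit 0) (XT.lf (nat_lit 0) (nat_lit 6802096656) (nat_lit 608) (nat_lit 8552825054) (nat_lit 76) (nat_lit 1002849013) (nat_lit 196) (nat_lit 5) (nat_lit 204) (nat_lit 5) (nat_lit 197) (nat_lit 5) (nat_lit 325) (nat_lit 282) (nat_lit 173)) (XT.nd (nat_lit 78) (nat_lit 532) (nat_lit 0) (XT.lf (nat_lit 0) (nat_lit 4203172021) (nat_lit 456) (nat_lit 6902731415) (nat_lit 532) (nat_lit 5551881473) (nat_lit 190) (nat_lit 5) (nat_lit 196) (nat_lit 5) (nat_lit 197) (nat_lit 5) (nat_lit 326) (nat_lit 282) (nat_lit 172)) (XT.lf (nat_lit 0) (nat_lit 459870837) (nat_lit 532) (nat_lit 15131225362) (nat_lit 608) (nat_lit 1374668356) (nat_lit 183) (nat_lit 5) (nat_lit 190) (nat_lit 5) (nat_lit 191) (nat_lit 5) (nat_lit 327) (nat_lit 282) (nat_lit 171))))) (XT.nd (nat_lit 234)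 (nat_lit 1368) (nat_lit 0) (XT.nd (nat_lit 78) (nat_lit 912) (nat_lit 0) (XT.lf (nat_lit 0) (nat_lit 3000103069) (nat_lit 608) (nat_lit 3441945613) (nat_lit 76) (nat_lit 10838351857) (nat_lit 182) (nat_lit 5) (nat_lit 190) (nat_lit 5) (nat_lit 183) (nat_lit 5) (nat_lit 328) (nat_lit 282) (nat_lit 170)) (XT.nd (nat_lit 78) (nat_lit 456) (nat_lit 0) (XT.lf (nat_lit 0) (nat_lit 7550051070) (nat_lit 532) (nat_lit 7509184660) (nat_lit 76) (nat_lit 2543815620) (nat_lit 176) (nat_lit 5) (nat_lit 183) (nat_lit 5) (nat_lit 177) (nat_lit 5) (nat_lit 329) (nat_lit 282) (nat_lit 169)) (XT.lf (nat_lit 0) (nat_lit 6159169427) (nat_lit 456) (nat_lit 6164365481) (nat_lit 532) (nat_lit 5610115423) (nat_lit 170) (nat_lit 5) (nat_lit 176) (nat_lit 5) (nat_lit 177) (nat_lit 5) (nat_lit 330) (nat_lit 282) (nat_lit 168)))) (XT.nd (nat_lit 156) (nat_lit 836) (nat_lit 0) (XT.nd (nat_lit 78) (nat_lit 76) (nat_lit 0) (XT.lf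 (nat_lit 0) (nat_lit 2048027834) (nat_lit 456) (nat_lit 15257019998) (nat_lit 532) (nat_lit 967832078) (nat_lit 164) (nat_lit 5) (nat_lit 170) (nat_lit 5) (nat_lit 171) (nat_lit 5) (nat_lit 331) (nat_lit 282) (nat_lit 167)) (XT.lf (nat_lit 0) (nat_lit 3866344282) (nat_lit 532) (nat_lit 2266901379) (nat_lit 76) (nat_lit 12486501329) (nat_lit 163) (nat_lit 5) (nat_lit 170) (nat_lit 5) (nat_lit 164) (nat_lit 5) (nat_lit 332) (nat_lit 282) (nat_lit 166))) (XT.nd (nat_lit 78) (nat_lit 380) (nat_lit 0) (XT.lf (nat_lit 0) (nat_lit 8915302492) (nat_lit 532) (nat_lit 6758889019) (nat_lit 76) (nat_lit 3301050940) (nat_lit 157) (nat_lit 5) (nat_lit 164) (nat_lit 5) (nat_lit 158) (nat_lit 5) (nat_lit 333) (nat_lit 282) (nat_lit 165)) (XT.lf (nat_lit 0) (nat_lit 7860785853) (nat_lit 380) (nat_lit 6344440076) (nat_lit 456) (nat_lit 5134395099) (nat_lit 152) (nat_lit 5) (nat_lit 157) (nat_lit 5) (nat_lit 158)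 (nat_lit 5) (nat_lit 334) (nat_lit 282) (nat_lit 164)))))) (XT.nd (nat_lit 546) (nat_lit 1748) (nat_lit 0) (XT.nd (nat_lit 234) (nat_lit 1216) (nat_lit 0) (XT.nd (nat_lit 78) (nat_lit 380) (nat_lit 0) (XT.lf (nat_lit 0) (nat_lit 11168134) (nat_lit 532) (nat_lit 16419477638) (nat_lit 76) (nat_lit 3282871893) (nat_lit 145) (nat_lit 5) (nat_lit 152) (nat_lit 5) (nat_lit 146) (nat_lit 5) (nat_lit 335) (nat_lit 282) (nat_lit 163)) (XT.nd (nat_lit 78) (nat_lit 380) (nat_lit 0) (XT.lf (nat_lit 0) (nat_lit 5344997055) (nat_lit 532) (nat_lit 1532098520) (nat_lit 76) (nat_lit 13218791320) (nat_lit 145) (nat_lit 5) (nat_lit 152) (nat_lit 5) (nat_lit 146) (nat_lit 5) (nat_lit 336) (nat_lit 282) (nat_lit 162)) (XT.lf (nat_lit 0) (nat_lit 10932313382) (nat_lit 456) (nat_lit 6547294411) (nat_lit 76) (nat_lit 3008257298) (nat_lit 140) (nat_lit 5) (nat_lit 146) (nat_lit 5) (nat_lit 141) (nat_lit 5) (nat_lit 337)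 (nat_lit 282) (nat_lit 161)))) (XT.nd (nat_lit 156) (nat_lit 380) (nat_lit 0) (XT.nd (nat_lit 78) (nat_lit 456) (nat_lit 0) (XT.lf (nat_lit 0) (nat_lit 9055561452) (nat_lit 380) (nat_lit 7730254503) (nat_lit 456) (nat_lit 4103822471) (nat_lit 135) (nat_lit 5) (nat_lit 140) (nat_lit 5) (nat_lit 141) (nat_lit 5) (nat_lit 338) (nat_lit 282) (nat_lit 160)) (XT.lf (nat_lit 0) (nat_lit 1560855371) (nat_lit 456) (nat_lit 17386670791) (nat_lit 76) (nat_lit 2354364919) (nat_lit 129) (nat_lit 5) (nat_lit 135) (nat_lit 5) (nat_lit 130) (nat_lit 5) (nat_lit 339) (nat_lit 282) (nat_lit 159))) (XT.nd (nat_lit 78) (nat_lit 380) (nat_lit 0) (XT.lf (nat_lit 0) (nat_lit 7456279688) (nat_lit 456) (nat_lit 1529462055) (nat_lit 76) (nat_lit 12737902416) (nat_lit 129) (nat_lit 5) (nat_lit 135) (nat_lit 5) (nat_lit 130) (nat_lit 5) (nat_lit 340) (nat_lit 282) (nat_lit 158)) (XT.lf (nat_lit 0) (nat_lit 13618974586) (nat_lit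 456) (nat_lit 7188585057) (nat_lit 76) (nat_lit 1348688421) (nat_lit 124) (nat_lit 5) (nat_lit 130) (nat_lit 5) (nat_lit 125) (nat_lit 5) (nat_lit 341) (nat_lit 282) (nat_lit 157))))) (XT.nd (nat_lit 234) (nat_lit 988) (nat_lit 0) (XT.nd (nat_lit 78) (nat_lit 456) (nat_lit 0) (XT.lf (nat_lit 0) (nat_lit 9419328524) (nat_lit 304) (nat_lit 10663460205) (nat_lit 380) (nat_lit 2516722800) (nat_lit 120) (nat_lit 5) (nat_lit 124) (nat_lit 5) (nat_lit 125) (nat_lit 5) (nat_lit 342) (nat_lit 282) (nat_lit 156)) (XT.nd (nat_lit 78) (nat_lit 0) (nat_lit 0) (XT.lf (nat_lit 0) (nat_lit 3568439320) (nat_lit 380) (nat_lit 124640064) (nat_lit 456) (nat_lit 19361381843) (nat_lit 114) (nat_lit 5) (nat_lit 119) (nat_lit 5) (nat_lit 120) (nat_lit 5) (nat_lit 343) (nat_lit 282) (nat_lit 155)) (XT.lf (nat_lit 0) (nat_lit 10199753590) (nat_lit 456) (nat_lit 2631211191) (nat_lit 76) (nat_lit 10688872254) (nat_lit 114)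 (nat_lit 5) (nat_lit 120) (nat_lit 5) (nat_lit 115) (nat_lit 5) (nat_lit 344) (nat_lit 282) (nat_lit 154)))) (XT.nd (nat_lit 156) (nat_lit 380) (nat_lit 0) (XT.nd (nat_lit 78) (nat_lit 304) (nat_lit 0) (XT.lf (nat_lit 0) (nat_lit 14901732383) (nat_lit 304) (nat_lit 2082920287) (nat_lit 380) (nat_lit 7012866524) (nat_lit 110) (nat_lit 5) (nat_lit 114) (nat_lit 5) (nat_lit 115) (nat_lit 5) (nat_lit 345) (nat_lit 282) (nat_lit 153)) (XT.lf (nat_lit 0) (nat_lit 8539024582) (nat_lit 304) (nat_lit 15551489849) (nat_lit 380) (nat_lit 396674481) (nat_lit 106) (nat_lit 5) (nat_lit 110) (nat_lit 5) (nat_lit 111) (nat_lit 5) (nat_lit 346) (nat_lit 282) (nat_lit 152))) (XT.nd (nat_lit 78) (nat_lit 0) (nat_lit 0) (XT.lf (nat_lit 0) (nat_lit 1782603861) (nat_lit 304) (nat_lit 4624625551) (nat_lit 380) (nat_lit 18582023073) (nat_lit 101) (nat_lit 5) (nat_lit 105) (nat_lit 5) (nat_lit 106) (nat_lit 5) (nat_lit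 347) (nat_lit 282) (nat_lit 151)) (XT.lf (nat_lit 0) (nat_lit 13547799232) (nat_lit 380) (nat_lit 5308751058) (nat_lit 76) (nat_lit 6647021469) (nat_lit 101) (nat_lit 5) (nat_lit 106) (nat_lit 5) (nat_lit 102) (nat_lit 5) (nat_lit 348) (nat_lit 282) (nat_lit 150))))))) (XT.nd (nat_lit 35646) (nat_lit 0) (nat_lit 26904) (XT.nd (nat_lit 468) (nat_lit 760) (nat_lit 0) (XT.nd (nat_lit 234) (nat_lit 912) (nat_lit 0) (XT.nd (nat_lit 78) (nat_lit 304) (nat_lit 0) (XT.lf (nat_lit 0) (nat_lit 13247821058) (nat_lit 304) (nat_lit 7758186428) (nat_lit 380) (nat_lit 5025249551) (nat_lit 97) (nat_lit 5) (nat_lit 101) (nat_lit 5) (nat_lit 102) (nat_lit 5) (nat_lit 349) (nat_lit 282) (nat_lit 149)) (XT.nd (nat_lit 78) (nat_lit 0) (nat_lit 0) (XT.lf (nat_lit 0) (nat_lit 2171038575) (nat_lit 304) (nat_lit 20695431875) (nat_lit 76) (nat_lit 3706321350) (nat_lit 93) (nat_lit 5) (nat_lit 97) (nat_lit 5) (nat_lit 94)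 (nat_lit 5) (nat_lit 350) (nat_lit 282) (nat_lit 148)) (XT.lf (nat_lit 0) (nat_lit 9641265861) (nat_lit 304) (nat_lit 1962742295) (nat_lit 76) (nat_lit 15523378118) (nat_lit 93) (nat_lit 5) (nat_lit 97) (nat_lit 5) (nat_lit 94) (nat_lit 5) (nat_lit 351) (nat_lit 282) (nat_lit 147)))) (XT.nd (nat_lit 78) (nat_lit 608) (nat_lit 0) (XT.lf (nat_lit 0) (nat_lit 17437412069) (nat_lit 380) (nat_lit 10155486252) (nat_lit 76) (nat_lit 103688372) (nat_lit 89) (nat_lit 5) (nat_lit 94) (nat_lit 5) (nat_lit 90) (nat_lit 5) (nat_lit 352) (nat_lit 282) (nat_lit 146)) (XT.nd (nat_lit 78) (nat_lit 380) (nat_lit 0) (XT.lf (nat_lit 0) (nat_lit 9399844270) (nat_lit 228) (nat_lit 16207049808) (nat_lit 304) (nat_lit 2673184245) (nat_lit 86) (nat_lit 5) (nat_lit 89) (nat_lit 5) (nat_lit 90) (nat_lit 5) (nat_lit 353) (nat_lit 282) (nat_lit 145)) (XT.lf (nat_lit 0) (nat_lit 757330078) (nat_lit 304) (nat_lit 4377412425)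 (nat_lit 380) (nat_lit 23744433251) (nat_lit 81) (nat_lit 5) (nat_lit 85) (nat_lit 5) (nat_lit 86) (nat_lit 5) (nat_lit 354) (nat_lit 282) (nat_lit 144))))) (XT.nd (nat_lit 234) (nat_lit 304) (nat_lit 0) (XT.nd (nat_lit 78) (nat_lit 456) (nat_lit 0) (XT.lf (nat_lit 0) (nat_lit 13308041051) (nat_lit 380) (nat_lit 8340437989) (nat_lit 76) (nat_lit 7844068536) (nat_lit 81) (nat_lit 5) (nat_lit 86) (nat_lit 5) (nat_lit 82) (nat_lit 5) (nat_lit 355) (nat_lit 282) (nat_lit 143)) (XT.nd (nat_lit 78) (nat_lit 228) (nat_lit 0) (XT.lf (nat_lit 0) (nat_lit 12145206937) (nat_lit 228) (nat_lit 9677586657) (nat_lit 304) (nat_lit 8299605650) (nat_lit 78) (nat_lit 5) (nat_lit 81) (nat_lit 5) (nat_lit 82) (nat_lit 5) (nat_lit 356) (nat_lit 282) (nat_lit 142)) (XT.lf (nat_lit 0) (nat_lit 2586805450) (nat_lit 228) (nat_lit 28085394172) (nat_lit 304) (nat_lit 97366304) (nat_lit 75) (nat_lit 5) (nat_lit 78) (nat_lit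 5) (nat_lit 79) (nat_lit 5) (nat_lit 357) (nat_lit 282) (nat_lit 141)))) (XT.nd (nat_lit 34788) (nat_lit 0) (nat_lit 29564) (XT.nd (nat_lit 78) (nat_lit 228) (nat_lit 0) (XT.lf (nat_lit 0) (nat_lit 8417202087) (nat_lit 304) (nat_lit 7558601302) (nat_lit 76) (nat_lit 15455747608) (nat_lit 74) (nat_lit 5) (nat_lit 78) (nat_lit 5) (nat_lit 75) (nat_lit 5) (nat_lit 358) (nat_lit 282) (nat_lit 140)) (XT.lf (nat_lit 0) (nat_lit 13846844142) (nat_lit 228) (nat_lit 3417729404) (nat_lit 304) (nat_lit 14847238828) (nat_lit 71) (nat_lit 5) (nat_lit 74) (nat_lit 5) (nat_lit 75) (nat_lit 5) (nat_lit 359) (nat_lit 282) (nat_lit 139))) (XT.nd (nat_lit 78) (nat_lit 0) (nat_lit 0) (XT.lf (nat_lit 0) (nat_lit 165321362) (nat_lit 0) (nat_lit 165321362) (nat_lit 1444) (nat_lit 4033890521) (nat_lit 460) (nat_lit 5) (nat_lit 460) (nat_lit 3) (nat_lit 479) (nat_lit 3) (nat_lit 283) (nat_lit 283) (nat_lit 214)) (XT.lf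 (nat_lit 0) (nat_lit 2097510004) (nat_lit 1444) (nat_lit 2373420057) (nat_lit 1520) (nat_lit 4359490227) (nat_lit 460) (nat_lit 5) (nat_lit 479) (nat_lit 3) (nat_lit 480) (nat_lit 5) (nat_lit 284) (nat_lit 283) (nat_lit 213)))))) (XT.nd (nat_lit 546) (nat_lit 1368) (nat_lit 0) (XT.nd (nat_lit 234) (nat_lit 1368) (nat_lit 0) (XT.nd (nat_lit 78) (nat_lit 0) (nat_lit 0) (XT.lf (nat_lit 0) (nat_lit 3551637583) (nat_lit 1444) (nat_lit 5085300951) (nat_lit 1520) (nat_lit 298421056) (nat_lit 461) (nat_lit 5) (nat_lit 480) (nat_lit 5) (nat_lit 481) (nat_lit 5) (nat_lit 285) (nat_lit 283) (nat_lit 212)) (XT.nd (nat_lit 78) (nat_lit 0) (nat_lit 76) (XT.lf (nat_lit 76) (nat_lit 1206036951) (nat_lit 0) (nat_lit 3844465092) (nat_lit 1520) (nat_lit 3992962782) (nat_lit 462) (nat_lit 5) (nat_lit 461) (nat_lit 5) (nat_lit 481) (nat_lit 5) (nat_lit 286) (nat_lit 283) (nat_lit 211)) (XT.lf (nat_lit 0) (nat_lit 6584799664)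 (nat_lit 1444) (nat_lit 1435834052) (nat_lit 1520) (nat_lit 1134409009) (nat_lit 462) (nat_lit 5) (nat_lit 481) (nat_lit 5) (nat_lit 482) (nat_lit 5) (nat_lit 287) (nat_lit 283) (nat_lit 210)))) (XT.nd (nat_lit 156) (nat_lit 0) (nat_lit 0) (XT.nd (nat_lit 78) (nat_lit 1444) (nat_lit 0) (XT.lf (nat_lit 76) (nat_lit 5170672800) (nat_lit 0) (nat_lit 3003919769) (nat_lit 1520) (nat_lit 1095223784) (nat_lit 463) (nat_lit 5) (nat_lit 462) (nat_lit 5) (nat_lit 482) (nat_lit 5) (nat_lit 288) (nat_lit 283) (nat_lit 209)) (XT.lf (nat_lit 0) (nat_lit 410677927) (nat_lit 1520) (nat_lit 6793683692) (nat_lit 1596) (nat_lit 2183808542) (nat_lit 443) (nat_lit 5) (nat_lit 463) (nat_lit 5) (nat_lit 464) (nat_lit 5) (nat_lit 289) (nat_lit 283) (nat_lit 208))) (XT.nd (nat_lit 78) (nat_lit 0) (nat_lit 76) (XT.lf (nat_lit 0) (nat_lit 1947460866) (nat_lit 1520) (nat_lit 22163499) (nat_lit 1596) (nat_lit 7540328608) (nat_lit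 443) (nat_lit 5) (nat_lit 463) (nat_lit 5) (nat_lit 464) (nat_lit 5) (nat_lit 290) (nat_lit 283) (nat_lit 207)) (XT.lf (nat_lit 0) (nat_lit 3552360470) (nat_lit 1520) (nat_lit 2642763489) (nat_lit 1596) (nat_lit 3439858888) (nat_lit 444) (nat_lit 5) (nat_lit 464) (nat_lit 5) (nat_lit 465) (nat_lit 5) (nat_lit 291) (nat_lit 283) (nat_lit 206))))) (XT.nd (nat_lit 234) (nat_lit 1444) (nat_lit 0) (XT.nd (nat_lit 78) (nat_lit 0) (nat_lit 76) (XT.lf (nat_lit 76) (nat_lit 4469247243) (nat_lit 0) (nat_lit 733598337) (nat_lit 1596) (nat_lit 4561002122) (nat_lit 445) (nat_lit 5) (nat_lit 444) (nat_lit 5) (nat_lit 465) (nat_lit 5) (nat_lit 292) (nat_lit 283) (nat_lit 205)) (XT.nd (nat_lit 78) (nat_lit 0) (nat_lit 76) (XT.lf (nat_lit 76) (nat_lit 1897286395) (nat_lit 0) (nat_lit 5023974764) (nat_lit 1596) (nat_lit 2974980924) (nat_lit 446) (nat_lit 5) (nat_lit 445) (nat_lit 5) (nat_lit 466) (nat_lit 5) (nat_lit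 293) (nat_lit 283) (nat_lit 204)) (XT.lf (nat_lit 0) (nat_lit 8693611222) (nat_lit 1520) (nat_lit 694284511) (nat_lit 1596) (nat_lit 644695892) (nat_lit 446) (nat_lit 5) (nat_lit 466) (nat_lit 5) (nat_lit 467) (nat_lit 5) (nat_lit 294) (nat_lit 283) (nat_lit 203)))) (XT.nd (nat_lit 156) (nat_lit 0) (nat_lit 76) (XT.nd (nat_lit 78) (nat_lit 0) (nat_lit 76) (XT.lf (nat_lit 0) (nat_lit 378597196) (nat_lit 1596) (nat_lit 3318838443) (nat_lit 1672) (nat_lit 6474839825) (nat_lit 425) (nat_lit 5) (nat_lit 446) (nat_lit 5) (nat_lit 447) (nat_lit 5) (nat_lit 295) (nat_lit 283) (nat_lit 202)) (XT.lf (nat_lit 0) (nat_lit 2136343709) (nat_lit 1596) (nat_lit 5991540220) (nat_lit 1672) (nat_lit 2187980834) (nat_lit 426) (nat_lit 5) (nat_lit 447) (nat_lit 5) (nat_lit 448) (nat_lit 5) (nat_lit 296) (nat_lit 283) (nat_lit 201))) (XT.nd (nat_lit 78) (nat_lit 0) (nat_lit 76) (XT.lf (nat_lit 76) (nat_lit 1746579205)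 (nat_lit 0) (nat_lit 2219431498) (nat_lit 1672) (nat_lit 6497395063) (nat_lit 427) (nat_lit 5) (nat_lit 426) (nat_lit 5) (nat_lit 448) (nat_lit 5) (nat_lit 297) (nat_lit 283) (nat_lit 200)) (XT.lf (nat_lit 0) (nat_lit 5878036477) (nat_lit 1596) (nat_lit 871790587) (nat_lit 1672) (nat_lit 3865023535) (nat_lit 427) (nat_lit 5) (nat_lit 448) (nat_lit 5) (nat_lit 449) (nat_lit 5) (nat_lit 298) (nat_lit 283) (nat_lit 199))))))))
noncomputable def xc89 : XT := (XT.nd (nat_lit 2106) (nat_lit 8664) (nat_lit 0) (XT.nd (nat_lit 1014) (nat_lit 7220) (nat_lit 0) (XT.nd (nat_lit 468) (nat_lit 4256) (nat_lit 0) (XT.nd (nat_lit 234) (nat_lit 2280) (nat_lit 0) (XT.nd (nat_lit 78) (nat_lit 3268) (nat_lit 0) (XT.lf (nat_lit 76) (nat_lit 7259139979) (nat_lit 0) (nat_lit 612874875) (nat_lit 1672) (nat_lit 2898358277) (nat_lit 428) (nat_lit 5) (nat_lit 427) (nat_lit 5) (nat_lit 449) (nat_lit 5) (nat_lit 299) (nat_lit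 283) (nat_lit 198)) (XT.nd (nat_lit 78) (nat_lit 1748) (nat_lit 0) (XT.lf (nat_lit 0) (nat_lit 4710024023) (nat_lit 1596) (nat_lit 5252940226) (nat_lit 1672) (nat_lit 966879485) (nat_lit 407) (nat_lit 5) (nat_lit 428) (nat_lit 5) (nat_lit 429) (nat_lit 5) (nat_lit 300) (nat_lit 283) (nat_lit 197)) (XT.lf (nat_lit 0) (nat_lit 1022280656) (nat_lit 1748) (nat_lit 8981930421) (nat_lit 76) (nat_lit 1089515844) (nat_lit 384) (nat_lit 5) (nat_lit 407) (nat_lit 5) (nat_lit 385) (nat_lit 5) (nat_lit 301) (nat_lit 283) (nat_lit 196)))) (XT.nd (nat_lit 78) (nat_lit 2280) (nat_lit 0) (XT.lf (nat_lit 0) (nat_lit 3100667149) (nat_lit 1748) (nat_lit 555475064) (nat_lit 76) (nat_lit 7605426315) (nat_lit 384) (nat_lit 5) (nat_lit 407) (nat_lit 5) (nat_lit 385) (nat_lit 5) (nat_lit 302) (nat_lit 283) (nat_lit 195)) (XT.nd (nat_lit 78) (nat_lit 836) (nat_lit 0) (XT.lf (nat_lit 0) (nat_lit 5279827465) (nat_lit 1520)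 (nat_lit 3251365664) (nat_lit 76) (nat_lit 2902506625) (nat_lit 365) (nat_lit 5) (nat_lit 385) (nat_lit 5) (nat_lit 366) (nat_lit 5) (nat_lit 303) (nat_lit 283) (nat_lit 194)) (XT.lf (nat_lit 0) (nat_lit 5598144059) (nat_lit 836) (nat_lit 1957705757) (nat_lit 912) (nat_lit 4054537503) (nat_lit 354) (nat_lit 5) (nat_lit 365) (nat_lit 5) (nat_lit 366) (nat_lit 5) (nat_lit 304) (nat_lit 283) (nat_lit 193))))) (XT.nd (nat_lit 234) (nat_lit 2432) (nat_lit 0) (XT.nd (nat_lit 78) (nat_lit 912) (nat_lit 0) (XT.lf (nat_lit 0) (nat_lit 2942943984) (nat_lit 912) (nat_lit 6997438515) (nat_lit 988) (nat_lit 1851209924) (nat_lit 342) (nat_lit 5) (nat_lit 354) (nat_lit 5) (nat_lit 355) (nat_lit 5) (nat_lit 305) (nat_lit 283) (nat_lit 192)) (XT.nd (nat_lit 78) (nat_lit 0) (nat_lit 0) (XT.lf (nat_lit 0) (nat_lit 228661914) (nat_lit 836) (nat_lit 207872667) (nat_lit 912) (nat_lit 11541189218) (nat_lit 330) (nat_lit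 5) (nat_lit 341) (nat_lit 5) (nat_lit 342) (nat_lit 5) (nat_lit 306) (nat_lit 283) (nat_lit 191)) (XT.lf (nat_lit 0) (nat_lit 2841277495) (nat_lit 912) (nat_lit 2555748972) (nat_lit 76) (nat_lit 6770717459) (nat_lit 330) (nat_lit 5) (nat_lit 342) (nat_lit 5) (nat_lit 331) (nat_lit 5) (nat_lit 307) (nat_lit 283) (nat_lit 190)))) (XT.nd (nat_lit 156) (nat_lit 836) (nat_lit 0) (XT.nd (nat_lit 78) (nat_lit 760) (nat_lit 0) (XT.lf (nat_lit 0) (nat_lit 5345343011) (nat_lit 912) (nat_lit 5399570508) (nat_lit 76) (nat_lit 1618026824) (nat_lit 319) (nat_lit 5) (nat_lit 331) (nat_lit 5) (nat_lit 320) (nat_lit 5) (nat_lit 308) (nat_lit 283) (nat_lit 189)) (XT.lf (nat_lit 0) (nat_lit 4229308518) (nat_lit 760) (nat_lit 3746766693) (nat_lit 836) (nat_lit 4586905277) (nat_lit 309) (nat_lit 5) (nat_lit 319) (nat_lit 5) (nat_lit 320) (nat_lit 5) (nat_lit 309) (nat_lit 283) (nat_lit 188))) (XT.nd (nat_lit 78) (nat_lit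 76) (nat_lit 0) (XT.lf (nat_lit 0) (nat_lit 1419101528) (nat_lit 760) (nat_lit 9306375322) (nat_lit 836) (nat_lit 2042768226) (nat_lit 299) (nat_lit 5) (nat_lit 309) (nat_lit 5) (nat_lit 310) (nat_lit 5) (nat_lit 310) (nat_lit 283) (nat_lit 187)) (XT.lf (nat_lit 0) (nat_lit 623693362) (nat_lit 836) (nat_lit 1458572745) (nat_lit 76) (nat_lit 10896272250) (nat_lit 298) (nat_lit 5) (nat_lit 309) (nat_lit 5) (nat_lit 299) (nat_lit 5) (nat_lit 311) (nat_lit 283) (nat_lit 186)))))) (XT.nd (nat_lit 546) (nat_lit 3040) (nat_lit 0) (XT.nd (nat_lit 234) (nat_lit 2052) (nat_lit 0) (XT.nd (nat_lit 78) (nat_lit 1444) (nat_lit 0) (XT.lf (nat_lit 0) (nat_lit 3407455709) (nat_lit 760) (nat_lit 4427579572) (nat_lit 76) (nat_lit 5358550704) (nat_lit 289) (nat_lit 5) (nat_lit 299) (nat_lit 5) (nat_lit 290) (nat_lit 5) (nat_lit 312) (nat_lit 283) (nat_lit 185)) (XT.nd (nat_lit 78) (nat_lit 684) (nat_lit 0) (XT.lf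 (nat_lit 0) (nat_lit 5937671959) (nat_lit 760) (nat_lit 372595671) (nat_lit 836) (nat_lit 7104122994) (nat_lit 279) (nat_lit 5) (nat_lit 289) (nat_lit 5) (nat_lit 290) (nat_lit 5) (nat_lit 313) (nat_lit 283) (nat_lit 184)) (XT.lf (nat_lit 0) (nat_lit 2996201336) (nat_lit 684) (nat_lit 6374802277) (nat_lit 760) (nat_lit 4269414838) (nat_lit 270) (nat_lit 5) (nat_lit 279) (nat_lit 5) (nat_lit 280) (nat_lit 5) (nat_lit 314) (nat_lit 283) (nat_lit 183)))) (XT.nd (nat_lit 156) (nat_lit 1292) (nat_lit 0) (XT.nd (nat_lit 78) (nat_lit 760) (nat_lit 0) (XT.lf (nat_lit 0) (nat_lit 12559449951) (nat_lit 760) (nat_lit 26245436) (nat_lit 76) (nat_lit 1286829339) (nat_lit 270) (nat_lit 5) (nat_lit 280) (nat_lit 5) (nat_lit 271) (nat_lit 5) (nat_lit 315) (nat_lit 283) (nat_lit 182)) (XT.lf (nat_lit 0) (nat_lit 1798775931) (nat_lit 760) (nat_lit 3137864077) (nat_lit 76) (nat_lit 9172953214) (nat_lit 260) (nat_lit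 5) (nat_lit 270) (nat_lit 5) (nat_lit 261) (nat_lit 5) (nat_lit 316) (nat_lit 283) (nat_lit 181))) (XT.nd (nat_lit 78) (nat_lit 684) (nat_lit 0) (XT.lf (nat_lit 0) (nat_lit 5033333866) (nat_lit 684) (nat_lit 6357756955) (nat_lit 76) (nat_lit 2961579751) (nat_lit 252) (nat_lit 5) (nat_lit 261) (nat_lit 5) (nat_lit 253) (nat_lit 5) (nat_lit 317) (nat_lit 283) (nat_lit 180)) (XT.lf (nat_lit 0) (nat_lit 4905390869) (nat_lit 684) (nat_lit 3521711589) (nat_lit 760) (nat_lit 6174708105) (nat_lit 243) (nat_lit 5) (nat_lit 252) (nat_lit 5) (nat_lit 253) (nat_lit 5) (nat_lit 318) (nat_lit 283) (nat_lit 179))))) (XT.nd (nat_lit 234) (nat_lit 1748) (nat_lit 0) (XT.nd (nat_lit 78) (nat_lit 684) (nat_lit 0) (XT.lf (nat_lit 0) (nat_lit 1700339897) (nat_lit 608) (nat_lit 10282919158) (nat_lit 684) (nat_lit 2873967597) (nat_lit 235) (nat_lit 5) (nat_lit 243) (nat_lit 5) (nat_lit 244) (nat_lit 5) (nat_lit 319) (nat_lit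 283) (nat_lit 178)) (XT.nd (nat_lit 78) (nat_lit 608) (nat_lit 0) (XT.lf (nat_lit 0) (nat_lit 585342444) (nat_lit 684) (nat_lit 1602343743) (nat_lit 76) (nat_lit 12931234646) (nat_lit 234) (nat_lit 5) (nat_lit 243) (nat_lit 5) (nat_lit 235) (nat_lit 5) (nat_lit 320) (nat_lit 283) (nat_lit 177)) (XT.lf (nat_lit 0) (nat_lit 4194967191) (nat_lit 684) (nat_lit 5038679785) (nat_lit 76) (nat_lit 6152739680) (nat_lit 226) (nat_lit 5) (nat_lit 235) (nat_lit 5) (nat_lit 227) (nat_lit 5) (nat_lit 321) (nat_lit 283) (nat_lit 176)))) (XT.nd (nat_lit 156) (nat_lit 608) (nat_lit 0) (XT.nd (nat_lit 78) (nat_lit 608) (nat_lit 0) (XT.lf (nat_lit 0) (nat_lit 7067660465) (nat_lit 532) (nat_lit 894553586) (nat_lit 608) (nat_lit 7698687754) (nat_lit 219) (nat_lit 5) (nat_lit 226) (nat_lit 5) (nat_lit 227) (nat_lit 5) (nat_lit 322) (nat_lit 283) (nat_lit 175)) (XT.lf (nat_lit 0) (nat_lit 3633822897) (nat_lit 608) (nat_lit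 8294904546) (nat_lit 684) (nat_lit 4013211653) (nat_lit 211) (nat_lit 5) (nat_lit 219) (nat_lit 5) (nat_lit 220) (nat_lit 5) (nat_lit 323) (nat_lit 283) (nat_lit 174))) (XT.nd (nat_lit 78) (nat_lit 76) (nat_lit 0) (XT.lf (nat_lit 0) (nat_lit 81708802) (nat_lit 532) (nat_lit 15977678058) (nat_lit 608) (nat_lit 171128963) (nat_lit 204) (nat_lit 5) (nat_lit 211) (nat_lit 5) (nat_lit 212) (nat_lit 5) (nat_lit 324) (nat_lit 283) (nat_lit 173)) (XT.lf (nat_lit 0) (nat_lit 3855039086) (nat_lit 608) (nat_lit 3621646784) (nat_lit 76) (nat_lit 9048213517) (nat_lit 203) (nat_lit 5) (nat_lit 211) (nat_lit 5) (nat_lit 204) (nat_lit 5) (nat_lit 325) (nat_lit 283) (nat_lit 172))))))) (XT.nd (nat_lit 1092) (nat_lit 3496) (nat_lit 0) (XT.nd (nat_lit 546) (nat_lit 2204) (nat_lit 0) (XT.nd (nat_lit 234) (nat_lit 1444) (nat_lit 0) (XT.nd (nat_lit 78) (nat_lit 988) (nat_lit 0) (XT.lf (nat_lit 0) (nat_lit 8048907250)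 (nat_lit 608) (nat_lit 7458689342) (nat_lit 76) (nat_lit 1319520912) (nat_lit 196) (nat_lit 5) (nat_lit 204) (nat_lit 5) (nat_lit 197) (nat_lit 5) (nat_lit 326) (nat_lit 283) (nat_lit 171)) (XT.nd (nat_lit 78) (nat_lit 532) (nat_lit 0) (XT.lf (nat_lit 0) (nat_lit 5658073811) (nat_lit 456) (nat_lit 6802010625) (nat_lit 532) (nat_lit 4676498034) (nat_lit 190) (nat_lit 5) (nat_lit 196) (nat_lit 5) (nat_lit 197) (nat_lit 5) (nat_lit 327) (nat_lit 283) (nat_lit 170)) (XT.lf (nat_lit 0) (nat_lit 1799545571) (nat_lit 532) (nat_lit 15261098169) (nat_lit 608) (nat_lit 393556577) (nat_lit 183) (nat_lit 5) (nat_lit 190) (nat_lit 5) (nat_lit 191) (nat_lit 5) (nat_lit 328) (nat_lit 283) (nat_lit 169)))) (XT.nd (nat_lit 156) (nat_lit 912) (nat_lit 0) (XT.nd (nat_lit 78) (nat_lit 456) (nat_lit 0) (XT.lf (nat_lit 0) (nat_lit 4069662958) (nat_lit 608) (nat_lit 2244448644) (nat_lit 76) (nat_lit 11464633058) (nat_lit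 182) (nat_lit 5) (nat_lit 190) (nat_lit 5) (nat_lit 183) (nat_lit 5) (nat_lit 329) (nat_lit 283) (nat_lit 168)) (XT.lf (nat_lit 0) (nat_lit 8737966685) (nat_lit 532) (nat_lit 6437238228) (nat_lit 76) (nat_lit 2936246823) (nat_lit 176) (nat_lit 5) (nat_lit 183) (nat_lit 5) (nat_lit 177) (nat_lit 5) (nat_lit 330) (nat_lit 283) (nat_lit 167))) (XT.nd (nat_lit 78) (nat_lit 456) (nat_lit 0) (XT.lf (nat_lit 0) (nat_lit 7620120596) (nat_lit 456) (nat_lit 6014817871) (nat_lit 532) (nat_lit 4817438033) (nat_lit 170) (nat_lit 5) (nat_lit 176) (nat_lit 5) (nat_lit 177) (nat_lit 5) (nat_lit 331) (nat_lit 283) (nat_lit 166)) (XT.lf (nat_lit 0) (nat_lit 3381774382) (nat_lit 456) (nat_lit 15367063372) (nat_lit 532) (nat_lit 53299482) (nat_lit 164) (nat_lit 5) (nat_lit 170) (nat_lit 5) (nat_lit 171) (nat_lit 5) (nat_lit 332) (nat_lit 283) (nat_lit 165))))) (XT.nd (nat_lit 234) (nat_lit 1292) (nat_lit 0) (XT.nd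 (nat_lit 78) (nat_lit 836) (nat_lit 0) (XT.lf (nat_lit 0) (nat_lit 4886404999) (nat_lit 532) (nat_lit 1087230248) (nat_lit 76) (nat_lit 13186207457) (nat_lit 163) (nat_lit 5) (nat_lit 170) (nat_lit 5) (nat_lit 164) (nat_lit 5) (nat_lit 333) (nat_lit 283) (nat_lit 164)) (XT.nd (nat_lit 78) (nat_lit 380) (nat_lit 0) (XT.lf (nat_lit 0) (nat_lit 10070687865) (nat_lit 532) (nat_lit 5718320998) (nat_lit 76) (nat_lit 3737329143) (nat_lit 157) (nat_lit 5) (nat_lit 164) (nat_lit 5) (nat_lit 158) (nat_lit 5) (nat_lit 334) (nat_lit 283) (nat_lit 163)) (XT.lf (nat_lit 0) (nat_lit 9319772493) (nat_lit 380) (nat_lit 6181616168) (nat_lit 456) (nat_lit 4400629430) (nat_lit 152) (nat_lit 5) (nat_lit 157) (nat_lit 5) (nat_lit 158) (nat_lit 5) (nat_lit 335) (nat_lit 283) (nat_lit 162)))) (XT.nd (nat_lit 156) (nat_lit 760) (nat_lit 0) (XT.nd (nat_lit 78) (nat_lit 0) (nat_lit 0) (XT.lf (nat_lit 0) (nat_lit 872343052)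 (nat_lit 532) (nat_lit 15681683376) (nat_lit 76) (nat_lit 3733307375) (nat_lit 145) (nat_lit 5) (nat_lit 152) (nat_lit 5) (nat_lit 146) (nat_lit 5) (nat_lit 336) (nat_lit 283) (nat_lit 161)) (XT.lf (nat_lit 0) (nat_lit 6341113834) (nat_lit 532) (nat_lit 383519154) (nat_lit 76) (nat_lit 13957053433) (nat_lit 145) (nat_lit 5) (nat_lit 152) (nat_lit 5) (nat_lit 146) (nat_lit 5) (nat_lit 337) (nat_lit 283) (nat_lit 160))) (XT.nd (nat_lit 78) (nat_lit 380) (nat_lit 0) (XT.lf (nat_lit 0) (nat_lit 12081648950) (nat_lit 456) (nat_lit 5554130755) (nat_lit 76) (nat_lit 3449942809) (nat_lit 140) (nat_lit 5) (nat_lit 146) (nat_lit 5) (nat_lit 141) (nat_lit 5) (nat_lit 338) (nat_lit 283) (nat_lit 159)) (XT.lf (nat_lit 0) (nat_lit 10497511222) (nat_lit 380) (nat_lit 7596920345) (nat_lit 456) (nat_lit 3405454211) (nat_lit 135) (nat_lit 5) (nat_lit 140) (nat_lit 5) (nat_lit 141) (nat_lit 5) (nat_lit 339) (nat_lit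 283) (nat_lit 158)))))) (XT.nd (nat_lit 546) (nat_lit 1596) (nat_lit 0) (XT.nd (nat_lit 234) (nat_lit 1064) (nat_lit 0) (XT.nd (nat_lit 78) (nat_lit 380) (nat_lit 0) (XT.lf (nat_lit 0) (nat_lit 2404709706) (nat_lit 456) (nat_lit 16732215659) (nat_lit 76) (nat_lit 2787757321) (nat_lit 129) (nat_lit 5) (nat_lit 135) (nat_lit 5) (nat_lit 130) (nat_lit 5) (nat_lit 340) (nat_lit 283) (nat_lit 157)) (XT.nd (nat_lit 78) (nat_lit 380) (nat_lit 0) (XT.lf (nat_lit 0) (nat_lit 8453782325) (nat_lit 456) (nat_lit 433544697) (nat_lit 76) (nat_lit 13472235074) (nat_lit 129) (nat_lit 5) (nat_lit 135) (nat_lit 5) (nat_lit 130) (nat_lit 5) (nat_lit 341) (nat_lit 283) (nat_lit 156)) (XT.lf (nat_lit 0) (nat_lit 14788480774) (nat_lit 456) (nat_lit 6267856378) (nat_lit 76) (nat_lit 1749073691) (nat_lit 124) (nat_lit 5) (nat_lit 130) (nat_lit 5) (nat_lit 125) (nat_lit 5) (nat_lit 342) (nat_lit 283) (nat_lit 155)))) (XT.nd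 (nat_lit 156) (nat_lit 304) (nat_lit 0) (XT.nd (nat_lit 78) (nat_lit 456) (nat_lit 0) (XT.lf (nat_lit 0) (nat_lit 10819858094) (nat_lit 304) (nat_lit 10611446506) (nat_lit 380) (nat_lit 1830974616) (nat_lit 120) (nat_lit 5) (nat_lit 124) (nat_lit 5) (nat_lit 125) (nat_lit 5) (nat_lit 343) (nat_lit 283) (nat_lit 154)) (XT.lf (nat_lit 0) (nat_lit 4542052896) (nat_lit 456) (nat_lit 18947257697) (nat_lit 76) (nat_lit 241738138) (nat_lit 114) (nat_lit 5) (nat_lit 120) (nat_lit 5) (nat_lit 115) (nat_lit 5) (nat_lit 344) (nat_lit 283) (nat_lit 153))) (XT.nd (nat_lit 78) (nat_lit 304) (nat_lit 0) (XT.lf (nat_lit 0) (nat_lit 11223236153) (nat_lit 456) (nat_lit 1620330688) (nat_lit 76) (nat_lit 11367241031) (nat_lit 114) (nat_lit 5) (nat_lit 120) (nat_lit 5) (nat_lit 115) (nat_lit 5) (nat_lit 345) (nat_lit 283) (nat_lit 152)) (XT.lf (nat_lit 0) (nat_lit 16420920210) (nat_lit 304) (nat_lit 1776825247) (nat_lit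 380) (nat_lit 6505361769) (nat_lit 110) (nat_lit 5) (nat_lit 114) (nat_lit 5) (nat_lit 115) (nat_lit 5) (nat_lit 346) (nat_lit 283) (nat_lit 151))))) (XT.nd (nat_lit 234) (nat_lit 912) (nat_lit 0) (XT.nd (nat_lit 78) (nat_lit 304) (nat_lit 0) (XT.lf (nat_lit 0) (nat_lit 293933092) (nat_lit 380) (nat_lit 15347945729) (nat_lit 76) (nat_lit 9565782183) (nat_lit 105) (nat_lit 5) (nat_lit 110) (nat_lit 5) (nat_lit 106) (nat_lit 5) (nat_lit 347) (nat_lit 283) (nat_lit 150)) (XT.nd (nat_lit 78) (nat_lit 0) (nat_lit 0) (XT.lf (nat_lit 0) (nat_lit 2894635774) (nat_lit 304) (nat_lit 4388527312) (nat_lit 380) (nat_lit 18441846379) (nat_lit 101) (nat_lit 5) (nat_lit 105) (nat_lit 5) (nat_lit 106) (nat_lit 5) (nat_lit 348) (nat_lit 283) (nat_lit 149)) (XT.lf (nat_lit 0) (nat_lit 14620398726) (nat_lit 380) (nat_lit 4429139123) (nat_lit 76) (nat_lit 7205578667) (nat_lit 101) (nat_lit 5) (nat_lit 106) (nat_lit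 5) (nat_lit 102) (nat_lit 5) (nat_lit 349) (nat_lit 283) (nat_lit 148)))) (XT.nd (nat_lit 156) (nat_lit 304) (nat_lit 0) (XT.nd (nat_lit 78) (nat_lit 304) (nat_lit 0) (XT.lf (nat_lit 0) (nat_lit 14667275652) (nat_lit 304) (nat_lit 7622310327) (nat_lit 380) (nat_lit 4509308681) (nat_lit 97) (nat_lit 5) (nat_lit 101) (nat_lit 5) (nat_lit 102) (nat_lit 5) (nat_lit 350) (nat_lit 283) (nat_lit 147)) (XT.lf (nat_lit 0) (nat_lit 2883940847) (nat_lit 304) (nat_lit 20291296648) (nat_lit 76) (nat_lit 4181561695) (nat_lit 93) (nat_lit 5) (nat_lit 97) (nat_lit 5) (nat_lit 94) (nat_lit 5) (nat_lit 351) (nat_lit 283) (nat_lit 146))) (XT.nd (nat_lit 78) (nat_lit 304) (nat_lit 0) (XT.lf (nat_lit 0) (nat_lit 10559407832) (nat_lit 304) (nat_lit 1026480697) (nat_lit 76) (nat_lit 16342526747) (nat_lit 93) (nat_lit 5) (nat_lit 97) (nat_lit 5) (nat_lit 94) (nat_lit 5) (nat_lit 352) (nat_lit 283) (nat_lit 145)) (XT.lf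 (nat_lit 0) (nat_lit 18579827853) (nat_lit 380) (nat_lit 9470955594) (nat_lit 76) (nat_lit 464106719) (nat_lit 89) (nat_lit 5) (nat_lit 94) (nat_lit 5) (nat_lit 90) (nat_lit 5) (nat_lit 353) (nat_lit 283) (nat_lit 144))))))))
noncomputable def xc90 : XT := (XT.nd (nat_lit 36816) (nat_lit 0) (nat_lit 7752) (XT.nd (nat_lit 35724) (nat_lit 0) (nat_lit 22116) (XT.nd (nat_lit 35178) (nat_lit 0) (nat_lit 27968) (XT.nd (nat_lit 234) (nat_lit 532) (nat_lit 0) (XT.nd (nat_lit 78) (nat_lit 380) (nat_lit 0) (XT.lf (nat_lit 0) (nat_lit 10654986326) (nat_lit 228) (nat_lit 16327688637) (nat_lit 304) (nat_lit 2133452035) (nat_lit 86) (nat_lit 5) (nat_lit 89) (nat_lit 5) (nat_lit 90) (nat_lit 5) (nat_lit 354) (nat_lit 283) (nat_lit 143)) (XT.nd (nat_lit 78) (nat_lit 0) (nat_lit 0) (XT.lf (nat_lit 0) (nat_lit 1745602128) (nat_lit 304) (nat_lit 4143429591) (nat_lit 380) (nat_lit 23844321914) (nat_lit 81) (nat_lit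 5) (nat_lit 85) (nat_lit 5) (nat_lit 86) (nat_lit 5) (nat_lit 355) (nat_lit 283) (nat_lit 142)) (XT.lf (nat_lit 0) (nat_lit 14292349025) (nat_lit 380) (nat_lit 7643682451) (nat_lit 76) (nat_lit 8429404343) (nat_lit 81) (nat_lit 5) (nat_lit 86) (nat_lit 5) (nat_lit 82) (nat_lit 5) (nat_lit 356) (nat_lit 283) (nat_lit 141)))) (XT.nd (nat_lit 78) (nat_lit 304) (nat_lit 0) (XT.lf (nat_lit 0) (nat_lit 13441168381) (nat_lit 228) (nat_lit 9610383583) (nat_lit 304) (nat_lit 7962856359) (nat_lit 78) (nat_lit 5) (nat_lit 81) (nat_lit 5) (nat_lit 82) (nat_lit 5) (nat_lit 357) (nat_lit 283) (nat_lit 140)) (XT.nd (nat_lit 78) (nat_lit 0) (nat_lit 0) (XT.lf (nat_lit 0) (nat_lit 470565413) (nat_lit 304) (nat_lit 28094169573) (nat_lit 76) (nat_lit 3116367523) (nat_lit 74) (nat_lit 5) (nat_lit 78) (nat_lit 5) (nat_lit 75) (nat_lit 5) (nat_lit 358) (nat_lit 283) (nat_lit 139)) (XT.lf (nat_lit 0) (nat_lit 9222667102)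 (nat_lit 304) (nat_lit 6879123820) (nat_lit 76) (nat_lit 16261479985) (nat_lit 74) (nat_lit 5) (nat_lit 78) (nat_lit 5) (nat_lit 75) (nat_lit 5) (nat_lit 359) (nat_lit 283) (nat_lit 138))))) (XT.nd (nat_lit 234) (nat_lit 1368) (nat_lit 0) (XT.nd (nat_lit 78) (nat_lit 0) (nat_lit 0) (XT.lf (nat_lit 0) (nat_lit 862375801) (nat_lit 0) (nat_lit 862375801) (nat_lit 1444) (nat_lit 2741987906) (nat_lit 460) (nat_lit 5) (nat_lit 460) (nat_lit 3) (nat_lit 479) (nat_lit 3) (nat_lit 284) (nat_lit 284) (nat_lit 212)) (XT.nd (nat_lit 78) (nat_lit 0) (nat_lit 0) (XT.lf (nat_lit 0) (nat_lit 4839456775) (nat_lit 1444) (nat_lit 1036238054) (nat_lit 1520) (nat_lit 3164026681) (nat_lit 460) (nat_lit 5) (nat_lit 479) (nat_lit 3) (nat_lit 480) (nat_lit 5) (nat_lit 285) (nat_lit 284) (nat_lit 211)) (XT.lf (nat_lit 76) (nat_lit 5353158276) (nat_lit 0) (nat_lit 912993773) (nat_lit 1520) (nat_lit 2883137220) (nat_lit 461)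 (nat_lit 5) (nat_lit 460) (nat_lit 5) (nat_lit 480) (nat_lit 5) (nat_lit 286) (nat_lit 284) (nat_lit 210)))) (XT.nd (nat_lit 156) (nat_lit 1444) (nat_lit 0) (XT.nd (nat_lit 78) (nat_lit 0) (nat_lit 76) (XT.lf (nat_lit 76) (nat_lit 2666388296) (nat_lit 0) (nat_lit 5071125542) (nat_lit 1520) (nat_lit 1524630627) (nat_lit 462) (nat_lit 5) (nat_lit 461) (nat_lit 5) (nat_lit 481) (nat_lit 5) (nat_lit 287) (nat_lit 284) (nat_lit 209)) (XT.lf (nat_lit 0) (nat_lit 9236985658) (nat_lit 1444) (nat_lit 38122654) (nat_lit 1520) (nat_lit 103634241) (nat_lit 462) (nat_lit 5) (nat_lit 481) (nat_lit 5) (nat_lit 482) (nat_lit 5) (nat_lit 288) (nat_lit 284) (nat_lit 208))) (XT.nd (nat_lit 78) (nat_lit 0) (nat_lit 76) (XT.lf (nat_lit 0) (nat_lit 1296689024) (nat_lit 1520) (nat_lit 2763585852) (nat_lit 1596) (nat_lit 5437813864) (nat_lit 442) (nat_lit 5) (nat_lit 462) (nat_lit 5) (nat_lit 463) (nat_lit 5) (nat_lit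 289) (nat_lit 284) (nat_lit 207)) (XT.lf (nat_lit 0) (nat_lit 2766066461) (nat_lit 1520) (nat_lit 5515149730) (nat_lit 1596) (nat_lit 1340020141) (nat_lit 443) (nat_lit 5) (nat_lit 463) (nat_lit 5) (nat_lit 464) (nat_lit 5) (nat_lit 290) (nat_lit 284) (nat_lit 206)))))) (XT.nd (nat_lit 546) (nat_lit 4560) (nat_lit 0) (XT.nd (nat_lit 234) (nat_lit 1368) (nat_lit 0) (XT.nd (nat_lit 78) (nat_lit 0) (nat_lit 76) (XT.lf (nat_lit 76) (nat_lit 1435163411) (nat_lit 0) (nat_lit 2854862804) (nat_lit 1596) (nat_lit 5457874973) (nat_lit 444) (nat_lit 5) (nat_lit 443) (nat_lit 5) (nat_lit 464) (nat_lit 5) (nat_lit 291) (nat_lit 284) (nat_lit 205)) (XT.nd (nat_lit 78) (nat_lit 0) (nat_lit 0) (XT.lf (nat_lit 0) (nat_lit 5871483511) (nat_lit 1520) (nat_lit 1255044948) (nat_lit 1596) (nat_lit 2751633855) (nat_lit 444) (nat_lit 5) (nat_lit 464) (nat_lit 5) (nat_lit 465) (nat_lit 5) (nat_lit 292) (nat_lit 284) (nat_lit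 204)) (XT.lf (nat_lit 76) (nat_lit 6046525751) (nat_lit 0) (nat_lit 1469884373) (nat_lit 1596) (nat_lit 2495631606) (nat_lit 445) (nat_lit 5) (nat_lit 444) (nat_lit 5) (nat_lit 465) (nat_lit 5) (nat_lit 293) (nat_lit 284) (nat_lit 203)))) (XT.nd (nat_lit 156) (nat_lit 0) (nat_lit 0) (XT.nd (nat_lit 78) (nat_lit 1520) (nat_lit 0) (XT.lf (nat_lit 76) (nat_lit 3422550033) (nat_lit 0) (nat_lit 5806019915) (nat_lit 1596) (nat_lit 921039940) (nat_lit 446) (nat_lit 5) (nat_lit 445) (nat_lit 5) (nat_lit 466) (nat_lit 5) (nat_lit 294) (nat_lit 284) (nat_lit 202)) (XT.lf (nat_lit 0) (nat_lit 693421013) (nat_lit 1596) (nat_lit 9529107220) (nat_lit 1672) (nat_lit 68678027) (nat_lit 425) (nat_lit 5) (nat_lit 446) (nat_lit 5) (nat_lit 447) (nat_lit 5) (nat_lit 295) (nat_lit 284) (nat_lit 201))) (XT.nd (nat_lit 78) (nat_lit 0) (nat_lit 76) (XT.lf (nat_lit 0) (nat_lit 2389196743) (nat_lit 1596) (nat_lit 1942493637)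 (nat_lit 1672) (nat_lit 6104358283) (nat_lit 425) (nat_lit 5) (nat_lit 446) (nat_lit 5) (nat_lit 447) (nat_lit 5) (nat_lit 296) (nat_lit 284) (nat_lit 200)) (XT.lf (nat_lit 0) (nat_lit 4147636013) (nat_lit 1596) (nat_lit 4675707006) (nat_lit 1672) (nat_lit 1761684489) (nat_lit 426) (nat_lit 5) (nat_lit 447) (nat_lit 5) (nat_lit 448) (nat_lit 5) (nat_lit 297) (nat_lit 284) (nat_lit 199))))) (XT.nd (nat_lit 234) (nat_lit 4636) (nat_lit 0) (XT.nd (nat_lit 78) (nat_lit 0) (nat_lit 76) (XT.lf (nat_lit 76) (nat_lit 3270292002) (nat_lit 0) (nat_lit 2714739149) (nat_lit 1672) (nat_lit 4752946706) (nat_lit 427) (nat_lit 5) (nat_lit 426) (nat_lit 5) (nat_lit 448) (nat_lit 5) (nat_lit 298) (nat_lit 284) (nat_lit 198)) (XT.nd (nat_lit 78) (nat_lit 0) (nat_lit 0) (XT.lf (nat_lit 76) (nat_lit 578997968) (nat_lit 0) (nat_lit 7321135505) (nat_lit 1672) (nat_lit 2994956964) (nat_lit 428) (nat_lit 5) (nat_lit 427)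 (nat_lit 5) (nat_lit 449) (nat_lit 5) (nat_lit 299) (nat_lit 284) (nat_lit 197)) (XT.lf (nat_lit 76) (nat_lit 8922424353) (nat_lit 0) (nat_lit 983482431) (nat_lit 1672) (nat_lit 1150369937) (nat_lit 428) (nat_lit 5) (nat_lit 427) (nat_lit 5) (nat_lit 449) (nat_lit 5) (nat_lit 300) (nat_lit 284) (nat_lit 196)))) (XT.nd (nat_lit 156) (nat_lit 1444) (nat_lit 0) (XT.nd (nat_lit 78) (nat_lit 1672) (nat_lit 0) (XT.lf (nat_lit 0) (nat_lit 782618071) (nat_lit 1672) (nat_lit 4914381723) (nat_lit 76) (nat_lit 5524367090) (nat_lit 406) (nat_lit 5) (nat_lit 428) (nat_lit 5) (nat_lit 407) (nat_lit 5) (nat_lit 301) (nat_lit 284) (nat_lit 195)) (XT.lf (nat_lit 0) (nat_lit 2774758559) (nat_lit 1748) (nat_lit 7752593777) (nat_lit 76) (nat_lit 863592314) (nat_lit 384) (nat_lit 5) (nat_lit 407) (nat_lit 5) (nat_lit 385) (nat_lit 5) (nat_lit 302) (nat_lit 284) (nat_lit 194))) (XT.nd (nat_lit 78) (nat_lit 0) (nat_lit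 0) (XT.lf (nat_lit 0) (nat_lit 894735648) (nat_lit 1444) (nat_lit 3976420425) (nat_lit 1520) (nat_lit 6693585969) (nat_lit 365) (nat_lit 5) (nat_lit 384) (nat_lit 5) (nat_lit 385) (nat_lit 5) (nat_lit 303) (nat_lit 284) (nat_lit 193)) (XT.lf (nat_lit 0) (nat_lit 7069184032) (nat_lit 1520) (nat_lit 1882334199) (nat_lit 76) (nat_lit 2791481858) (nat_lit 365) (nat_lit 5) (nat_lit 385) (nat_lit 5) (nat_lit 366) (nat_lit 5) (nat_lit 304) (nat_lit 284) (nat_lit 192))))))) (XT.nd (nat_lit 1014) (nat_lit 6384) (nat_lit 0) (XT.nd (nat_lit 468) (nat_lit 3724) (nat_lit 0) (XT.nd (nat_lit 234) (nat_lit 1596) (nat_lit 0) (XT.nd (nat_lit 78) (nat_lit 1824) (nat_lit 0) (XT.lf (nat_lit 0) (nat_lit 7208867420) (nat_lit 836) (nat_lit 2166483372) (nat_lit 912) (nat_lit 2550432003) (nat_lit 354) (nat_lit 5) (nat_lit 365) (nat_lit 5) (nat_lit 366) (nat_lit 5) (nat_lit 305) (nat_lit 284) (nat_lit 191)) (XT.nd (nat_lit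 78) (nat_lit 912) (nat_lit 0) (XT.lf (nat_lit 0) (nat_lit 4483944482) (nat_lit 912) (nat_lit 7309568145) (nat_lit 988) (nat_lit 319700426) (nat_lit 342) (nat_lit 5) (nat_lit 354) (nat_lit 5) (nat_lit 355) (nat_lit 5) (nat_lit 306) (nat_lit 284) (nat_lit 190)) (XT.lf (nat_lit 0) (nat_lit 1686134357) (nat_lit 836) (nat_lit 293527614) (nat_lit 912) (nat_lit 10325813694) (nat_lit 330) (nat_lit 5) (nat_lit 341) (nat_lit 5) (nat_lit 342) (nat_lit 5) (nat_lit 307) (nat_lit 284) (nat_lit 189)))) (XT.nd (nat_lit 78) (nat_lit 1596) (nat_lit 0) (XT.lf (nat_lit 0) (nat_lit 4411482532) (nat_lit 912) (nat_lit 1192899039) (nat_lit 76) (nat_lit 6897744637) (nat_lit 330) (nat_lit 5) (nat_lit 342) (nat_lit 5) (nat_lit 331) (nat_lit 5) (nat_lit 308) (nat_lit 284) (nat_lit 188)) (XT.nd (nat_lit 78) (nat_lit 760) (nat_lit 0) (XT.lf (nat_lit 0) (nat_lit 6956387688) (nat_lit 912) (nat_lit 4115222984) (nat_lit 76) (nat_lit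 1632281183) (nat_lit 319) (nat_lit 5) (nat_lit 331) (nat_lit 5) (nat_lit 320) (nat_lit 5) (nat_lit 309) (nat_lit 284) (nat_lit 187)) (XT.lf (nat_lit 0) (nat_lit 5779057352) (nat_lit 760) (nat_lit 3853969773) (nat_lit 836) (nat_lit 3277593259) (nat_lit 309) (nat_lit 5) (nat_lit 319) (nat_lit 5) (nat_lit 320) (nat_lit 5) (nat_lit 310) (nat_lit 284) (nat_lit 186))))) (XT.nd (nat_lit 234) (nat_lit 2204) (nat_lit 0) (XT.nd (nat_lit 78) (nat_lit 760) (nat_lit 0) (XT.lf (nat_lit 0) (nat_lit 2890201551) (nat_lit 760) (nat_lit 9542725635) (nat_lit 836) (nat_lit 689781496) (nat_lit 299) (nat_lit 5) (nat_lit 309) (nat_lit 5) (nat_lit 310) (nat_lit 5) (nat_lit 311) (nat_lit 284) (nat_lit 185)) (XT.nd (nat_lit 78) (nat_lit 684) (nat_lit 0) (XT.lf (nat_lit 0) (nat_lit 1997473457) (nat_lit 836) (nat_lit 96574252) (nat_lit 76) (nat_lit 11245917289) (nat_lit 298) (nat_lit 5) (nat_lit 309) (nat_lit 5) (nat_lit 299)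 (nat_lit 5) (nat_lit 312) (nat_lit 284) (nat_lit 184)) (XT.lf (nat_lit 0) (nat_lit 4834638627) (nat_lit 760) (nat_lit 3150541359) (nat_lit 76) (nat_lit 5576910390) (nat_lit 289) (nat_lit 5) (nat_lit 299) (nat_lit 5) (nat_lit 290) (nat_lit 5) (nat_lit 313) (nat_lit 284) (nat_lit 183)))) (XT.nd (nat_lit 156) (nat_lit 760) (nat_lit 0) (XT.nd (nat_lit 78) (nat_lit 684) (nat_lit 0) (XT.lf (nat_lit 0) (nat_lit 7502794324) (nat_lit 760) (nat_lit 292154811) (nat_lit 836) (nat_lit 5995185155) (nat_lit 279) (nat_lit 5) (nat_lit 289) (nat_lit 5) (nat_lit 290) (nat_lit 5) (nat_lit 314) (nat_lit 284) (nat_lit 182)) (XT.lf (nat_lit 0) (nat_lit 4476247155) (nat_lit 684) (nat_lit 6443134080) (nat_lit 760) (nat_lit 3104146969) (nat_lit 270) (nat_lit 5) (nat_lit 279) (nat_lit 5) (nat_lit 280) (nat_lit 5) (nat_lit 315) (nat_lit 284) (nat_lit 181))) (XT.nd (nat_lit 78) (nat_lit 76) (nat_lit 0) (XT.lf (nat_lit 0) (nat_lit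 1365108268) (nat_lit 684) (nat_lit 12811100546) (nat_lit 760) (nat_lit 86956371) (nat_lit 261) (nat_lit 5) (nat_lit 270) (nat_lit 5) (nat_lit 271) (nat_lit 5) (nat_lit 316) (nat_lit 284) (nat_lit 180)) (XT.lf (nat_lit 0) (nat_lit 3065450154) (nat_lit 760) (nat_lit 1863241312) (nat_lit 76) (nat_lit 9579234994) (nat_lit 260) (nat_lit 5) (nat_lit 270) (nat_lit 5) (nat_lit 261) (nat_lit 5) (nat_lit 317) (nat_lit 284) (nat_lit 179)))))) (XT.nd (nat_lit 546) (nat_lit 2660) (nat_lit 0) (XT.nd (nat_lit 234) (nat_lit 1824) (nat_lit 0) (XT.nd (nat_lit 78) (nat_lit 1292) (nat_lit 0) (XT.lf (nat_lit 0) (nat_lit 6371507414) (nat_lit 684) (nat_lit 5178576434) (nat_lit 76) (nat_lit 3208743430) (nat_lit 252) (nat_lit 5) (nat_lit 261) (nat_lit 5) (nat_lit 253) (nat_lit 5) (nat_lit 318) (nat_lit 284) (nat_lit 178)) (XT.nd (nat_lit 78) (nat_lit 608) (nat_lit 0) (XT.lf (nat_lit 0) (nat_lit 6400240610) (nat_lit 684)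 (nat_lit 3441020667) (nat_lit 760) (nat_lit 5174716550) (nat_lit 243) (nat_lit 5) (nat_lit 252) (nat_lit 5) (nat_lit 253) (nat_lit 5) (nat_lit 319) (nat_lit 284) (nat_lit 177)) (XT.lf (nat_lit 0) (nat_lit 3099482756) (nat_lit 608) (nat_lit 10380721803) (nat_lit 684) (nat_lit 1799349028) (nat_lit 235) (nat_lit 5) (nat_lit 243) (nat_lit 5) (nat_lit 244) (nat_lit 5) (nat_lit 320) (nat_lit 284) (nat_lit 176)))) (XT.nd (nat_lit 156) (nat_lit 1140) (nat_lit 0) (XT.nd (nat_lit 78) (nat_lit 608) (nat_lit 0) (XT.lf (nat_lit 0) (nat_lit 1715148351) (nat_lit 684) (nat_lit 326156193) (nat_lit 76) (nat_lit 13508328960) (nat_lit 234) (nat_lit 5) (nat_lit 243) (nat_lit 5) (nat_lit 235) (nat_lit 5) (nat_lit 321) (nat_lit 284) (nat_lit 175)) (XT.lf (nat_lit 0) (nat_lit 5410517253) (nat_lit 684) (nat_lit 3866100828) (nat_lit 76) (nat_lit 6548973880) (nat_lit 226) (nat_lit 5) (nat_lit 235) (nat_lit 5) (nat_lit 227)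 (nat_lit 5) (nat_lit 322) (nat_lit 284) (nat_lit 174))) (XT.nd (nat_lit 78) (nat_lit 608) (nat_lit 0) (XT.lf (nat_lit 0) (nat_lit 8581953531) (nat_lit 532) (nat_lit 685544280) (nat_lit 608) (nat_lit 6841327679) (nat_lit 219) (nat_lit 5) (nat_lit 226) (nat_lit 5) (nat_lit 227) (nat_lit 5) (nat_lit 323) (nat_lit 284) (nat_lit 173)) (XT.lf (nat_lit 0) (nat_lit 5044014750) (nat_lit 608) (nat_lit 8287865928) (nat_lit 684) (nat_lit 3066852488) (nat_lit 211) (nat_lit 5) (nat_lit 219) (nat_lit 5) (nat_lit 220) (nat_lit 5) (nat_lit 324) (nat_lit 284) (nat_lit 172))))) (XT.nd (nat_lit 234) (nat_lit 1520) (nat_lit 0) (XT.nd (nat_lit 78) (nat_lit 532) (nat_lit 0) (XT.lf (nat_lit 0) (nat_lit 858267738) (nat_lit 608) (nat_lit 15318329226) (nat_lit 76) (nat_lit 519681458) (nat_lit 203) (nat_lit 5) (nat_lit 211) (nat_lit 5) (nat_lit 204) (nat_lit 5) (nat_lit 325) (nat_lit 284) (nat_lit 171)) (XT.nd (nat_lit 78)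 (nat_lit 532) (nat_lit 0) (XT.lf (nat_lit 0) (nat_lit 4972844484) (nat_lit 608) (nat_lit 2454764546) (nat_lit 76) (nat_lit 9572478345) (nat_lit 203) (nat_lit 5) (nat_lit 211) (nat_lit 5) (nat_lit 204) (nat_lit 5) (nat_lit 326) (nat_lit 284) (nat_lit 170)) (XT.lf (nat_lit 0) (nat_lit 9273264179) (nat_lit 608) (nat_lit 6409266439) (nat_lit 76) (nat_lit 1629241735) (nat_lit 196) (nat_lit 5) (nat_lit 204) (nat_lit 5) (nat_lit 197) (nat_lit 5) (nat_lit 327) (nat_lit 284) (nat_lit 169)))) (XT.nd (nat_lit 156) (nat_lit 456) (nat_lit 0) (XT.nd (nat_lit 78) (nat_lit 608) (nat_lit 0) (XT.lf (nat_lit 0) (nat_lit 7080343717) (nat_lit 456) (nat_lit 6715937348) (nat_lit 532) (nat_lit 3834664703) (nat_lit 190) (nat_lit 5) (nat_lit 196) (nat_lit 5) (nat_lit 197) (nat_lit 5) (nat_lit 328) (nat_lit 284) (nat_lit 168)) (XT.lf (nat_lit 0) (nat_lit 550979154) (nat_lit 608) (nat_lit 14858793242) (nat_lit 76) (nat_lit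 2548623176) (nat_lit 182) (nat_lit 5) (nat_lit 190) (nat_lit 5) (nat_lit 183) (nat_lit 5) (nat_lit 329) (nat_lit 284) (nat_lit 167))) (XT.nd (nat_lit 78) (nat_lit 456) (nat_lit 0) (XT.lf (nat_lit 0) (nat_lit 5115079077) (nat_lit 608) (nat_lit 1085695443) (nat_lit 76) (nat_lit 12092416565) (nat_lit 182) (nat_lit 5) (nat_lit 190) (nat_lit 5) (nat_lit 183) (nat_lit 5) (nat_lit 330) (nat_lit 284) (nat_lit 166)) (XT.lf (nat_lit 0) (nat_lit 9906330667) (nat_lit 532) (nat_lit 5407599251) (nat_lit 76) (nat_lit 3322304569) (nat_lit 176) (nat_lit 5) (nat_lit 183) (nat_lit 5) (nat_lit 177) (nat_lit 5) (nat_lit 331) (nat_lit 284) (nat_lit 165))))))))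
noncomputable def xc91 : XT := (XT.nd (nat_lit 36972) (nat_lit 0) (nat_lit 16720) (XT.nd (nat_lit 1014) (nat_lit 3192) (nat_lit 0) (XT.nd (nat_lit 468) (nat_lit 1900) (nat_lit 0) (XT.nd (nat_lit 234) (nat_lit 912) (nat_lit 0) (XT.nd (nat_lit 78) (nat_lit 988) (nat_lit 0) (XT.lf (nat_lit 0) (nat_lit 9051642572) (nat_lit 456) (nat_lit 5879984272) (nat_lit 532) (nat_lit 4056144552) (nat_lit 170) (nat_lit 5) (nat_lit 176) (nat_lit 5) (nat_lit 177) (nat_lit 5) (nat_lit 332) (nat_lit 284) (nat_lit 164)) (XT.nd (nat_lit 78) (nat_lit 456) (nat_lit 0) (XT.lf (nat_lit 0) (nat_lit 823559777) (nat_lit 532) (nat_lit 14671279271) (nat_lit 76) (nat_lit 3853411477) (nat_lit 163) (nat_lit 5) (nat_lit 170) (nat_lit 5) (nat_lit 164) (nat_lit 5) (nat_lit 333) (nat_lit 284) (nat_lit 163)) (XT.lf (nat_lit 0) (nat_lit 56956176) (nat_lit 456) (nat_lit 5828583819) (nat_lit 532) (nat_lit 13831655684) (nat_lit 157) (nat_lit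 5) (nat_lit 163) (nat_lit 5) (nat_lit 164) (nat_lit 5) (nat_lit 334) (nat_lit 284) (nat_lit 162)))) (XT.nd (nat_lit 78) (nat_lit 912) (nat_lit 0) (XT.lf (nat_lit 0) (nat_lit 11209764197) (nat_lit 532) (nat_lit 4717908433) (nat_lit 76) (nat_lit 4167336354) (nat_lit 157) (nat_lit 5) (nat_lit 164) (nat_lit 5) (nat_lit 158) (nat_lit 5) (nat_lit 335) (nat_lit 284) (nat_lit 161)) (XT.nd (nat_lit 78) (nat_lit 532) (nat_lit 0) (XT.lf (nat_lit 0) (nat_lit 10752314168) (nat_lit 380) (nat_lit 6034180205) (nat_lit 456) (nat_lit 3695814002) (nat_lit 152) (nat_lit 5) (nat_lit 157) (nat_lit 5) (nat_lit 158) (nat_lit 5) (nat_lit 336) (nat_lit 284) (nat_lit 160)) (XT.lf (nat_lit 0) (nat_lit 1709937487) (nat_lit 532) (nat_lit 14992384051) (nat_lit 76) (nat_lit 4177052590) (nat_lit 145) (nat_lit 5) (nat_lit 152) (nat_lit 5) (nat_lit 146) (nat_lit 5) (nat_lit 337) (nat_lit 284) (nat_lit 159))))) (XT.nd (nat_lit 234)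 (nat_lit 1140) (nat_lit 0) (XT.nd (nat_lit 78) (nat_lit 380) (nat_lit 0) (XT.lf (nat_lit 0) (nat_lit 740659863) (nat_lit 380) (nat_lit 6583286671) (nat_lit 456) (nat_lit 13961997516) (nat_lit 140) (nat_lit 5) (nat_lit 145) (nat_lit 5) (nat_lit 146) (nat_lit 5) (nat_lit 338) (nat_lit 284) (nat_lit 158)) (XT.nd (nat_lit 78) (nat_lit 380) (nat_lit 0) (XT.lf (nat_lit 0) (nat_lit 13218314808) (nat_lit 456) (nat_lit 4599459089) (nat_lit 76) (nat_lit 3884704918) (nat_lit 140) (nat_lit 5) (nat_lit 146) (nat_lit 5) (nat_lit 141) (nat_lit 5) (nat_lit 339) (nat_lit 284) (nat_lit 157)) (XT.lf (nat_lit 0) (nat_lit 11915540458) (nat_lit 380) (nat_lit 7480552536) (nat_lit 456) (nat_lit 2733291385) (nat_lit 135) (nat_lit 5) (nat_lit 140) (nat_lit 5) (nat_lit 141) (nat_lit 5) (nat_lit 340) (nat_lit 284) (nat_lit 156)))) (XT.nd (nat_lit 156) (nat_lit 304) (nat_lit 0) (XT.nd (nat_lit 78) (nat_lit 380) (nat_lit 0)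 (XT.lf (nat_lit 0) (nat_lit 3228126964) (nat_lit 456) (nat_lit 16125637255) (nat_lit 76) (nat_lit 3213327503) (nat_lit 129) (nat_lit 5) (nat_lit 135) (nat_lit 5) (nat_lit 130) (nat_lit 5) (nat_lit 341) (nat_lit 284) (nat_lit 155)) (XT.lf (nat_lit 0) (nat_lit 638074582) (nat_lit 380) (nat_lit 8802858158) (nat_lit 456) (nat_lit 13574448466) (nat_lit 124) (nat_lit 5) (nat_lit 129) (nat_lit 5) (nat_lit 130) (nat_lit 5) (nat_lit 342) (nat_lit 284) (nat_lit 154))) (XT.nd (nat_lit 78) (nat_lit 304) (nat_lit 0) (XT.lf (nat_lit 0) (nat_lit 15949391254) (nat_lit 456) (nat_lit 5384739057) (nat_lit 76) (nat_lit 2140809373) (nat_lit 124) (nat_lit 5) (nat_lit 130) (nat_lit 5) (nat_lit 125) (nat_lit 5) (nat_lit 343) (nat_lit 284) (nat_lit 153)) (XT.lf (nat_lit 0) (nat_lit 12198228664) (nat_lit 304) (nat_lit 10579221983) (nat_lit 380) (nat_lit 1168352844) (nat_lit 120) (nat_lit 5) (nat_lit 124) (nat_lit 5) (nat_lit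 125) (nat_lit 5) (nat_lit 344) (nat_lit 284) (nat_lit 152)))))) (XT.nd (nat_lit 546) (nat_lit 1444) (nat_lit 0) (XT.nd (nat_lit 234) (nat_lit 988) (nat_lit 0) (XT.nd (nat_lit 78) (nat_lit 304) (nat_lit 0) (XT.lf (nat_lit 0) (nat_lit 5374906673) (nat_lit 456) (nat_lit 18457600828) (nat_lit 76) (nat_lit 596274369) (nat_lit 114) (nat_lit 5) (nat_lit 120) (nat_lit 5) (nat_lit 115) (nat_lit 5) (nat_lit 345) (nat_lit 284) (nat_lit 151)) (XT.nd (nat_lit 78) (nat_lit 304) (nat_lit 0) (XT.lf (nat_lit 0) (nat_lit 12236236334) (nat_lit 456) (nat_lit 641683715) (nat_lit 76) (nat_lit 12045427279) (nat_lit 114) (nat_lit 5) (nat_lit 120) (nat_lit 5) (nat_lit 115) (nat_lit 5) (nat_lit 346) (nat_lit 284) (nat_lit 150)) (XT.lf (nat_lit 0) (nat_lit 17924138687) (nat_lit 304) (nat_lit 1482705508) (nat_lit 380) (nat_lit 6023841737) (nat_lit 110) (nat_lit 5) (nat_lit 114) (nat_lit 5) (nat_lit 115) (nat_lit 5) (nat_lit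 347) (nat_lit 284) (nat_lit 149)))) (XT.nd (nat_lit 156) (nat_lit 304) (nat_lit 0) (XT.nd (nat_lit 78) (nat_lit 304) (nat_lit 0) (XT.lf (nat_lit 0) (nat_lit 959881142) (nat_lit 380) (nat_lit 14794140728) (nat_lit 76) (nat_lit 10196487277) (nat_lit 105) (nat_lit 5) (nat_lit 110) (nat_lit 5) (nat_lit 106) (nat_lit 5) (nat_lit 348) (nat_lit 284) (nat_lit 148)) (XT.lf (nat_lit 0) (nat_lit 3979263326) (nat_lit 304) (nat_lit 4166863304) (nat_lit 380) (nat_lit 18337511624) (nat_lit 101) (nat_lit 5) (nat_lit 105) (nat_lit 5) (nat_lit 106) (nat_lit 5) (nat_lit 349) (nat_lit 284) (nat_lit 147))) (XT.nd (nat_lit 78) (nat_lit 304) (nat_lit 0) (XT.lf (nat_lit 0) (nat_lit 15686935579) (nat_lit 380) (nat_lit 3582774475) (nat_lit 76) (nat_lit 7760276099) (nat_lit 101) (nat_lit 5) (nat_lit 106) (nat_lit 5) (nat_lit 102) (nat_lit 5) (nat_lit 350) (nat_lit 284) (nat_lit 146)) (XT.lf (nat_lit 0) (nat_lit 16070645757)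 (nat_lit 304) (nat_lit 7503518337) (nat_lit 380) (nat_lit 4016160798) (nat_lit 97) (nat_lit 5) (nat_lit 101) (nat_lit 5) (nat_lit 102) (nat_lit 5) (nat_lit 351) (nat_lit 284) (nat_lit 145))))) (XT.nd (nat_lit 234) (nat_lit 836) (nat_lit 0) (XT.nd (nat_lit 78) (nat_lit 304) (nat_lit 0) (XT.lf (nat_lit 0) (nat_lit 3581045476) (nat_lit 304) (nat_lit 19933876452) (nat_lit 76) (nat_lit 4650161251) (nat_lit 93) (nat_lit 5) (nat_lit 97) (nat_lit 5) (nat_lit 94) (nat_lit 5) (nat_lit 352) (nat_lit 284) (nat_lit 144)) (XT.nd (nat_lit 78) (nat_lit 304) (nat_lit 0) (XT.lf (nat_lit 0) (nat_lit 11468992400) (nat_lit 304) (nat_lit 119256579) (nat_lit 76) (nat_lit 17165960515) (nat_lit 93) (nat_lit 5) (nat_lit 97) (nat_lit 5) (nat_lit 94) (nat_lit 5) (nat_lit 353) (nat_lit 284) (nat_lit 143)) (XT.lf (nat_lit 0) (nat_lit 19720966134) (nat_lit 380) (nat_lit 8822672871) (nat_lit 76) (nat_lit 814826694) (nat_lit 89)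 (nat_lit 5) (nat_lit 94) (nat_lit 5) (nat_lit 90) (nat_lit 5) (nat_lit 354) (nat_lit 284) (nat_lit 142)))) (XT.nd (nat_lit 156) (nat_lit 228) (nat_lit 0) (XT.nd (nat_lit 78) (nat_lit 380) (nat_lit 0) (XT.lf (nat_lit 0) (nat_lit 11891920041) (nat_lit 228) (nat_lit 16472931998) (nat_lit 304) (nat_lit 1613114246) (nat_lit 86) (nat_lit 5) (nat_lit 89) (nat_lit 5) (nat_lit 90) (nat_lit 5) (nat_lit 355) (nat_lit 284) (nat_lit 141)) (XT.lf (nat_lit 0) (nat_lit 2708095696) (nat_lit 304) (nat_lit 3923397285) (nat_lit 380) (nat_lit 23982364047) (nat_lit 81) (nat_lit 5) (nat_lit 85) (nat_lit 5) (nat_lit 86) (nat_lit 5) (nat_lit 356) (nat_lit 284) (nat_lit 140))) (XT.nd (nat_lit 78) (nat_lit 228) (nat_lit 0) (XT.lf (nat_lit 0) (nat_lit 15272601013) (nat_lit 380) (nat_lit 6980384123) (nat_lit 76) (nat_lit 9012208003) (nat_lit 81) (nat_lit 5) (nat_lit 86) (nat_lit 5) (nat_lit 82) (nat_lit 5) (nat_lit 357) (nat_lit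 284) (nat_lit 139)) (XT.lf (nat_lit 0) (nat_lit 14722530717) (nat_lit 228) (nat_lit 9561688141) (nat_lit 304) (nat_lit 7649628315) (nat_lit 78) (nat_lit 5) (nat_lit 81) (nat_lit 5) (nat_lit 82) (nat_lit 5) (nat_lit 358) (nat_lit 284) (nat_lit 138))))))) (XT.nd (nat_lit 1092) (nat_lit 9576) (nat_lit 0) (XT.nd (nat_lit 546) (nat_lit 1292) (nat_lit 0) (XT.nd (nat_lit 234) (nat_lit 1444) (nat_lit 0) (XT.nd (nat_lit 78) (nat_lit 0) (nat_lit 0) (XT.lf (nat_lit 0) (nat_lit 1540612800) (nat_lit 0) (nat_lit 1540612800) (nat_lit 1444) (nat_lit 1492435562) (nat_lit 460) (nat_lit 5) (nat_lit 460) (nat_lit 3) (nat_lit 479) (nat_lit 3) (nat_lit 285) (nat_lit 285) (nat_lit 210)) (XT.nd (nat_lit 78) (nat_lit 0) (nat_lit 0) (XT.lf (nat_lit 76) (nat_lit 263670455) (nat_lit 0) (nat_lit 7247916626) (nat_lit 1520) (nat_lit 1746872771) (nat_lit 461) (nat_lit 5) (nat_lit 460) (nat_lit 5) (nat_lit 480) (nat_lit 5) (nat_lit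 286) (nat_lit 285) (nat_lit 209)) (XT.lf (nat_lit 76) (nat_lit 6819752871) (nat_lit 0) (nat_lit 2094547311) (nat_lit 1520) (nat_lit 458405879) (nat_lit 461) (nat_lit 5) (nat_lit 460) (nat_lit 5) (nat_lit 480) (nat_lit 5) (nat_lit 287) (nat_lit 285) (nat_lit 208)))) (XT.nd (nat_lit 156) (nat_lit 0) (nat_lit 76) (XT.nd (nat_lit 78) (nat_lit 0) (nat_lit 0) (XT.lf (nat_lit 0) (nat_lit 857783269) (nat_lit 1520) (nat_lit 5407251671) (nat_lit 1596) (nat_lit 3225257537) (nat_lit 441) (nat_lit 5) (nat_lit 461) (nat_lit 5) (nat_lit 462) (nat_lit 5) (nat_lit 288) (nat_lit 285) (nat_lit 207)) (XT.lf (nat_lit 76) (nat_lit 1315743125) (nat_lit 0) (nat_lit 885432094) (nat_lit 1596) (nat_lit 7410325603) (nat_lit 442) (nat_lit 5) (nat_lit 441) (nat_lit 5) (nat_lit 462) (nat_lit 5) (nat_lit 289) (nat_lit 285) (nat_lit 206))) (XT.nd (nat_lit 78) (nat_lit 0) (nat_lit 76) (XT.lf (nat_lit 0) (nat_lit 3607221842) (nat_lit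 1520) (nat_lit 1478590928) (nat_lit 1596) (nat_lit 4650118446) (nat_lit 442) (nat_lit 5) (nat_lit 462) (nat_lit 5) (nat_lit 463) (nat_lit 5) (nat_lit 290) (nat_lit 285) (nat_lit 205)) (XT.lf (nat_lit 0) (nat_lit 5057614951) (nat_lit 1520) (nat_lit 4283352387) (nat_lit 1596) (nat_lit 523115780) (nat_lit 443) (nat_lit 5) (nat_lit 463) (nat_lit 5) (nat_lit 464) (nat_lit 5) (nat_lit 291) (nat_lit 285) (nat_lit 204))))) (XT.nd (nat_lit 234) (nat_lit 1444) (nat_lit 0) (XT.nd (nat_lit 78) (nat_lit 0) (nat_lit 76) (XT.lf (nat_lit 76) (nat_lit 2852801398) (nat_lit 0) (nat_lit 3719089625) (nat_lit 1596) (nat_lit 3423812101) (nat_lit 444) (nat_lit 5) (nat_lit 443) (nat_lit 5) (nat_lit 464) (nat_lit 5) (nat_lit 292) (nat_lit 285) (nat_lit 203)) (XT.nd (nat_lit 78) (nat_lit 0) (nat_lit 0) (XT.lf (nat_lit 76) (nat_lit 91290556) (nat_lit 0) (nat_lit 8042472856) (nat_lit 1596) (nat_lit 1997495024) (nat_lit 445)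 (nat_lit 5) (nat_lit 444) (nat_lit 5) (nat_lit 465) (nat_lit 5) (nat_lit 293) (nat_lit 285) (nat_lit 202)) (XT.lf (nat_lit 76) (nat_lit 7588276967) (nat_lit 0) (nat_lit 2187256507) (nat_lit 1596) (nat_lit 494715296) (nat_lit 445) (nat_lit 5) (nat_lit 444) (nat_lit 5) (nat_lit 465) (nat_lit 5) (nat_lit 294) (nat_lit 285) (nat_lit 201)))) (XT.nd (nat_lit 156) (nat_lit 0) (nat_lit 76) (XT.nd (nat_lit 78) (nat_lit 0) (nat_lit 0) (XT.lf (nat_lit 0) (nat_lit 1057438574) (nat_lit 1596) (nat_lit 5510751187) (nat_lit 1672) (nat_lit 3844748024) (nat_lit 424) (nat_lit 5) (nat_lit 445) (nat_lit 5) (nat_lit 446) (nat_lit 5) (nat_lit 295) (nat_lit 285) (nat_lit 200)) (XT.lf (nat_lit 76) (nat_lit 2174490375) (nat_lit 0) (nat_lit 483886271) (nat_lit 1672) (nat_lit 7901313584) (nat_lit 425) (nat_lit 5) (nat_lit 424) (nat_lit 5) (nat_lit 446) (nat_lit 5) (nat_lit 296) (nat_lit 285) (nat_lit 199))) (XT.nd (nat_lit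 78) (nat_lit 0) (nat_lit 76) (XT.lf (nat_lit 0) (nat_lit 4345349627) (nat_lit 1596) (nat_lit 609581755) (nat_lit 1672) (nat_lit 5755179921) (nat_lit 425) (nat_lit 5) (nat_lit 446) (nat_lit 5) (nat_lit 447) (nat_lit 5) (nat_lit 297) (nat_lit 285) (nat_lit 198)) (XT.lf (nat_lit 0) (nat_lit 6107489726) (nat_lit 1596) (nat_lit 3406251172) (nat_lit 1672) (nat_lit 1350838379) (nat_lit 426) (nat_lit 5) (nat_lit 447) (nat_lit 5) (nat_lit 448) (nat_lit 5) (nat_lit 298) (nat_lit 285) (nat_lit 197)))))) (XT.nd (nat_lit 546) (nat_lit 5092) (nat_lit 0) (XT.nd (nat_lit 234) (nat_lit 3040) (nat_lit 0) (XT.nd (nat_lit 78) (nat_lit 1596) (nat_lit 0) (XT.lf (nat_lit 76) (nat_lit 4755256659) (nat_lit 0) (nat_lit 3200295477) (nat_lit 1672) (nat_lit 3067492681) (nat_lit 427) (nat_lit 5) (nat_lit 426) (nat_lit 5) (nat_lit 448) (nat_lit 5) (nat_lit 299) (nat_lit 285) (nat_lit 196)) (XT.nd (nat_lit 78) (nat_lit 1672)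 (nat_lit 0) (XT.lf (nat_lit 76) (nat_lit 1999775843) (nat_lit 0) (nat_lit 7882732007) (nat_lit 1672) (nat_lit 1303311412) (nat_lit 428) (nat_lit 5) (nat_lit 427) (nat_lit 5) (nat_lit 449) (nat_lit 5) (nat_lit 300) (nat_lit 285) (nat_lit 195)) (XT.lf (nat_lit 0) (nat_lit 537580875) (nat_lit 1672) (nat_lit 803800944) (nat_lit 1748) (nat_lit 10011440735) (nat_lit 405) (nat_lit 5) (nat_lit 427) (nat_lit 5) (nat_lit 428) (nat_lit 5) (nat_lit 301) (nat_lit 285) (nat_lit 194)))) (XT.nd (nat_lit 156) (nat_lit 1444) (nat_lit 0) (XT.nd (nat_lit 78) (nat_lit 1672) (nat_lit 0) (XT.lf (nat_lit 0) (nat_lit 2470195698) (nat_lit 1672) (nat_lit 3661524149) (nat_lit 76) (nat_lit 5391881898) (nat_lit 406) (nat_lit 5) (nat_lit 428) (nat_lit 5) (nat_lit 407) (nat_lit 5) (nat_lit 302) (nat_lit 285) (nat_lit 193)) (XT.lf (nat_lit 0) (nat_lit 4480971890) (nat_lit 1748) (nat_lit 6572413973) (nat_lit 76) (nat_lit 645736292)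 (nat_lit 384) (nat_lit 5) (nat_lit 407) (nat_lit 5) (nat_lit 385) (nat_lit 5) (nat_lit 303) (nat_lit 285) (nat_lit 192))) (XT.nd (nat_lit 78) (nat_lit 0) (nat_lit 0) (XT.lf (nat_lit 0) (nat_lit 2311415021) (nat_lit 1444) (nat_lit 4290599067) (nat_lit 1520) (nat_lit 5276916115) (nat_lit 365) (nat_lit 5) (nat_lit 384) (nat_lit 5) (nat_lit 385) (nat_lit 5) (nat_lit 304) (nat_lit 285) (nat_lit 191)) (XT.lf (nat_lit 0) (nat_lit 8818597421) (nat_lit 1520) (nat_lit 556419047) (nat_lit 76) (nat_lit 2688498096) (nat_lit 365) (nat_lit 5) (nat_lit 385) (nat_lit 5) (nat_lit 366) (nat_lit 5) (nat_lit 305) (nat_lit 285) (nat_lit 190))))) (XT.nd (nat_lit 234) (nat_lit 2432) (nat_lit 0) (XT.nd (nat_lit 78) (nat_lit 1824) (nat_lit 0) (XT.lf (nat_lit 0) (nat_lit 8785091064) (nat_lit 836) (nat_lit 2372911036) (nat_lit 912) (nat_lit 1094527558) (nat_lit 354) (nat_lit 5) (nat_lit 365) (nat_lit 5) (nat_lit 366) (nat_lit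 5) (nat_lit 306) (nat_lit 285) (nat_lit 189)) (XT.nd (nat_lit 78) (nat_lit 836) (nat_lit 0) (XT.lf (nat_lit 0) (nat_lit 1151350591) (nat_lit 988) (nat_lit 6466117834) (nat_lit 76) (nat_lit 4828706612) (nat_lit 341) (nat_lit 5) (nat_lit 354) (nat_lit 5) (nat_lit 342) (nat_lit 5) (nat_lit 307) (nat_lit 285) (nat_lit 188)) (XT.lf (nat_lit 0) (nat_lit 3104059877) (nat_lit 836) (nat_lit 377193248) (nat_lit 912) (nat_lit 9163619774) (nat_lit 330) (nat_lit 5) (nat_lit 341) (nat_lit 5) (nat_lit 342) (nat_lit 5) (nat_lit 308) (nat_lit 285) (nat_lit 187)))) (XT.nd (nat_lit 156) (nat_lit 1596) (nat_lit 0) (XT.nd (nat_lit 78) (nat_lit 0) (nat_lit 0) (XT.lf (nat_lit 0) (nat_lit 129905651) (nat_lit 836) (nat_lit 5814488338) (nat_lit 912) (nat_lit 6903888539) (nat_lit 319) (nat_lit 5) (nat_lit 330) (nat_lit 5) (nat_lit 331) (nat_lit 5) (nat_lit 309) (nat_lit 285) (nat_lit 186)) (XT.lf (nat_lit 0) (nat_lit 8532488487)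 (nat_lit 912) (nat_lit 2875370559) (nat_lit 76) (nat_lit 1648931355) (nat_lit 319) (nat_lit 5) (nat_lit 331) (nat_lit 5) (nat_lit 320) (nat_lit 5) (nat_lit 310) (nat_lit 285) (nat_lit 185))) (XT.nd (nat_lit 78) (nat_lit 836) (nat_lit 0) (XT.lf (nat_lit 0) (nat_lit 7293620115) (nat_lit 760) (nat_lit 3964687441) (nat_lit 836) (nat_lit 2012060961) (nat_lit 309) (nat_lit 5) (nat_lit 319) (nat_lit 5) (nat_lit 320) (nat_lit 5) (nat_lit 311) (nat_lit 285) (nat_lit 184)) (XT.lf (nat_lit 0) (nat_lit 614444322) (nat_lit 836) (nat_lit 9170058136) (nat_lit 76) (nat_lit 3704863714) (nat_lit 298) (nat_lit 5) (nat_lit 309) (nat_lit 5) (nat_lit 299) (nat_lit 5) (nat_lit 312) (nat_lit 285) (nat_lit 183))))))))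
noncomputable def xc92 : XT := (XT.nd (nat_lit 2106) (nat_lit 4484) (nat_lit 0) (XT.nd (nat_lit 1014) (nat_lit 5396) (nat_lit 0) (XT.nd (nat_lit 468) (nat_lit 3724) (nat_lit 0) (XT.nd (nat_lit 234) (nat_lit 1444) (nat_lit 0) (XT.nd (nat_lit 78) (nat_lit 760) (nat_lit 0) (XT.lf (nat_lit 0) (nat_lit 1241875488) (nat_lit 684) (nat_lit 2100868026) (nat_lit 760) (nat_lit 10370932932) (nat_lit 289) (nat_lit 5) (nat_lit 298) (nat_lit 5) (nat_lit 299) (nat_lit 5) (nat_lit 313) (nat_lit 285) (nat_lit 182)) (XT.nd (nat_lit 78) (nat_lit 760) (nat_lit 0) (XT.lf (nat_lit 0) (nat_lit 6228578953) (nat_lit 760) (nat_lit 1916124053) (nat_lit 76) (nat_lit 5798514209) (nat_lit 289) (nat_lit 5) (nat_lit 299) (nat_lit 5) (nat_lit 290) (nat_lit 5) (nat_lit 314) (nat_lit 285) (nat_lit 181)) (XT.lf (nat_lit 0) (nat_lit 9035251332) (nat_lit 760) (nat_lit 214560014) (nat_lit 836) (nat_lit 4928870920) (nat_lit 279) (nat_lit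 5) (nat_lit 289) (nat_lit 5) (nat_lit 290) (nat_lit 5) (nat_lit 315) (nat_lit 285) (nat_lit 180)))) (XT.nd (nat_lit 78) (nat_lit 760) (nat_lit 0) (XT.lf (nat_lit 0) (nat_lit 5920893490) (nat_lit 684) (nat_lit 6520571505) (nat_lit 760) (nat_lit 1978164664) (nat_lit 270) (nat_lit 5) (nat_lit 279) (nat_lit 5) (nat_lit 280) (nat_lit 5) (nat_lit 316) (nat_lit 285) (nat_lit 179)) (XT.nd (nat_lit 78) (nat_lit 0) (nat_lit 0) (XT.lf (nat_lit 0) (nat_lit 1088998866) (nat_lit 760) (nat_lit 11955525179) (nat_lit 76) (nat_lit 1622319999) (nat_lit 260) (nat_lit 5) (nat_lit 270) (nat_lit 5) (nat_lit 261) (nat_lit 5) (nat_lit 317) (nat_lit 285) (nat_lit 178)) (XT.lf (nat_lit 0) (nat_lit 4300510035) (nat_lit 760) (nat_lit 628952212) (nat_lit 76) (nat_lit 9990179943) (nat_lit 260) (nat_lit 5) (nat_lit 270) (nat_lit 5) (nat_lit 261) (nat_lit 5) (nat_lit 318) (nat_lit 285) (nat_lit 177))))) (XT.nd (nat_lit 234) (nat_lit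 1824) (nat_lit 0) (XT.nd (nat_lit 78) (nat_lit 1292) (nat_lit 0) (XT.lf (nat_lit 0) (nat_lit 7681677551) (nat_lit 684) (nat_lit 4042659121) (nat_lit 76) (nat_lit 3454234017) (nat_lit 252) (nat_lit 5) (nat_lit 261) (nat_lit 5) (nat_lit 253) (nat_lit 5) (nat_lit 319) (nat_lit 285) (nat_lit 176)) (XT.nd (nat_lit 78) (nat_lit 608) (nat_lit 0) (XT.lf (nat_lit 0) (nat_lit 7862573038) (nat_lit 684) (nat_lit 3368605827) (nat_lit 760) (nat_lit 4212762460) (nat_lit 243) (nat_lit 5) (nat_lit 252) (nat_lit 5) (nat_lit 253) (nat_lit 5) (nat_lit 320) (nat_lit 285) (nat_lit 175)) (XT.lf (nat_lit 0) (nat_lit 4463211571) (nat_lit 608) (nat_lit 10493552705) (nat_lit 684) (nat_lit 759128729) (nat_lit 235) (nat_lit 5) (nat_lit 243) (nat_lit 5) (nat_lit 244) (nat_lit 5) (nat_lit 321) (nat_lit 285) (nat_lit 174)))) (XT.nd (nat_lit 156) (nat_lit 1140) (nat_lit 0) (XT.nd (nat_lit 78) (nat_lit 0) (nat_lit 0) (XT.lf (nat_lit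 0) (nat_lit 924423140) (nat_lit 608) (nat_lit 1896579814) (nat_lit 684) (nat_lit 13173456530) (nat_lit 226) (nat_lit 5) (nat_lit 234) (nat_lit 5) (nat_lit 235) (nat_lit 5) (nat_lit 322) (nat_lit 285) (nat_lit 173)) (XT.lf (nat_lit 0) (nat_lit 6599980519) (nat_lit 684) (nat_lit 2734332557) (nat_lit 76) (nat_lit 6944945415) (nat_lit 226) (nat_lit 5) (nat_lit 235) (nat_lit 5) (nat_lit 227) (nat_lit 5) (nat_lit 323) (nat_lit 285) (nat_lit 172))) (XT.nd (nat_lit 78) (nat_lit 608) (nat_lit 0) (XT.lf (nat_lit 0) (nat_lit 10066920150) (nat_lit 532) (nat_lit 483803214) (nat_lit 608) (nat_lit 6020720863) (nat_lit 219) (nat_lit 5) (nat_lit 226) (nat_lit 5) (nat_lit 227) (nat_lit 5) (nat_lit 324) (nat_lit 285) (nat_lit 171)) (XT.lf (nat_lit 0) (nat_lit 6421819466) (nat_lit 608) (nat_lit 8295305041) (nat_lit 684) (nat_lit 2153338679) (nat_lit 211) (nat_lit 5) (nat_lit 219) (nat_lit 5) (nat_lit 220) (nat_lit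 5) (nat_lit 325) (nat_lit 285) (nat_lit 170)))))) (XT.nd (nat_lit 546) (nat_lit 2736) (nat_lit 0) (XT.nd (nat_lit 234) (nat_lit 1520) (nat_lit 0) (XT.nd (nat_lit 78) (nat_lit 532) (nat_lit 0) (XT.lf (nat_lit 0) (nat_lit 1856981037) (nat_lit 608) (nat_lit 14539498869) (nat_lit 76) (nat_lit 780726681) (nat_lit 203) (nat_lit 5) (nat_lit 211) (nat_lit 5) (nat_lit 204) (nat_lit 5) (nat_lit 326) (nat_lit 285) (nat_lit 169)) (XT.nd (nat_lit 78) (nat_lit 532) (nat_lit 0) (XT.lf (nat_lit 0) (nat_lit 6066656291) (nat_lit 608) (nat_lit 1326096576) (nat_lit 76) (nat_lit 10097958306) (nat_lit 203) (nat_lit 5) (nat_lit 211) (nat_lit 5) (nat_lit 204) (nat_lit 5) (nat_lit 327) (nat_lit 285) (nat_lit 168)) (XT.lf (nat_lit 0) (nat_lit 10477929925) (nat_lit 608) (nat_lit 5401446795) (nat_lit 76) (nat_lit 1932747317) (nat_lit 196) (nat_lit 5) (nat_lit 204) (nat_lit 5) (nat_lit 197) (nat_lit 5) (nat_lit 328) (nat_lit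 285) (nat_lit 167)))) (XT.nd (nat_lit 156) (nat_lit 456) (nat_lit 0) (XT.nd (nat_lit 78) (nat_lit 608) (nat_lit 0) (XT.lf (nat_lit 0) (nat_lit 8473381507) (nat_lit 456) (nat_lit 6643936727) (nat_lit 532) (nat_lit 3023954554) (nat_lit 190) (nat_lit 5) (nat_lit 196) (nat_lit 5) (nat_lit 197) (nat_lit 5) (nat_lit 329) (nat_lit 285) (nat_lit 166)) (XT.lf (nat_lit 0) (nat_lit 1463941762) (nat_lit 608) (nat_lit 14114181642) (nat_lit 76) (nat_lit 2900659069) (nat_lit 182) (nat_lit 5) (nat_lit 190) (nat_lit 5) (nat_lit 183) (nat_lit 5) (nat_lit 330) (nat_lit 285) (nat_lit 165))) (XT.nd (nat_lit 78) (nat_lit 0) (nat_lit 0) (XT.lf (nat_lit 0) (nat_lit 37935493) (nat_lit 456) (nat_lit 6101165786) (nat_lit 532) (nat_lit 12685050549) (nat_lit 176) (nat_lit 5) (nat_lit 182) (nat_lit 5) (nat_lit 183) (nat_lit 5) (nat_lit 331) (nat_lit 285) (nat_lit 164)) (XT.lf (nat_lit 0) (nat_lit 11057724547) (nat_lit 532)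 (nat_lit 4417262308) (nat_lit 76) (nat_lit 3702839331) (nat_lit 176) (nat_lit 5) (nat_lit 183) (nat_lit 5) (nat_lit 177) (nat_lit 5) (nat_lit 332) (nat_lit 285) (nat_lit 163))))) (XT.nd (nat_lit 234) (nat_lit 1292) (nat_lit 0) (XT.nd (nat_lit 78) (nat_lit 988) (nat_lit 0) (XT.lf (nat_lit 0) (nat_lit 10457057773) (nat_lit 456) (nat_lit 5759203920) (nat_lit 532) (nat_lit 3324009847) (nat_lit 170) (nat_lit 5) (nat_lit 176) (nat_lit 5) (nat_lit 177) (nat_lit 5) (nat_lit 333) (nat_lit 285) (nat_lit 162)) (XT.nd (nat_lit 78) (nat_lit 456) (nat_lit 0) (XT.lf (nat_lit 0) (nat_lit 1675619045) (nat_lit 532) (nat_lit 13969615376) (nat_lit 76) (nat_lit 4266536522) (nat_lit 163) (nat_lit 5) (nat_lit 170) (nat_lit 5) (nat_lit 164) (nat_lit 5) (nat_lit 334) (nat_lit 285) (nat_lit 161)) (XT.lf (nat_lit 0) (nat_lit 1181942749) (nat_lit 456) (nat_lit 5690711341) (nat_lit 532) (nat_lit 13419477523) (nat_lit 157)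 (nat_lit 5) (nat_lit 163) (nat_lit 5) (nat_lit 164) (nat_lit 5) (nat_lit 335) (nat_lit 285) (nat_lit 160)))) (XT.nd (nat_lit 156) (nat_lit 912) (nat_lit 0) (XT.nd (nat_lit 78) (nat_lit 380) (nat_lit 0) (XT.lf (nat_lit 0) (nat_lit 12334968139) (nat_lit 532) (nat_lit 3754758916) (nat_lit 76) (nat_lit 4591995748) (nat_lit 157) (nat_lit 5) (nat_lit 164) (nat_lit 5) (nat_lit 158) (nat_lit 5) (nat_lit 336) (nat_lit 285) (nat_lit 159)) (XT.lf (nat_lit 0) (nat_lit 12161648133) (nat_lit 380) (nat_lit 5901430093) (nat_lit 456) (nat_lit 3017891823) (nat_lit 152) (nat_lit 5) (nat_lit 157) (nat_lit 5) (nat_lit 158) (nat_lit 5) (nat_lit 337) (nat_lit 285) (nat_lit 158))) (XT.nd (nat_lit 78) (nat_lit 380) (nat_lit 0) (XT.lf (nat_lit 0) (nat_lit 2526080689) (nat_lit 532) (nat_lit 14348980130) (nat_lit 76) (nat_lit 4615066584) (nat_lit 145) (nat_lit 5) (nat_lit 152) (nat_lit 5) (nat_lit 146) (nat_lit 5) (nat_lit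 338) (nat_lit 285) (nat_lit 157)) (XT.lf (nat_lit 0) (nat_lit 1838319629) (nat_lit 380) (nat_lit 6454895808) (nat_lit 456) (nat_lit 13615994521) (nat_lit 140) (nat_lit 5) (nat_lit 145) (nat_lit 5) (nat_lit 146) (nat_lit 5) (nat_lit 339) (nat_lit 285) (nat_lit 156))))))) (XT.nd (nat_lit 1014) (nat_lit 1216) (nat_lit 0) (XT.nd (nat_lit 468) (nat_lit 1748) (nat_lit 0) (XT.nd (nat_lit 234) (nat_lit 684) (nat_lit 0) (XT.nd (nat_lit 78) (nat_lit 836) (nat_lit 0) (XT.lf (nat_lit 0) (nat_lit 14344637453) (nat_lit 456) (nat_lit 3680514228) (nat_lit 76) (nat_lit 4313493992) (nat_lit 140) (nat_lit 5) (nat_lit 146) (nat_lit 5) (nat_lit 141) (nat_lit 5) (nat_lit 340) (nat_lit 285) (nat_lit 155)) (XT.nd (nat_lit 78) (nat_lit 456) (nat_lit 0) (XT.lf (nat_lit 0) (nat_lit 13312787895) (nat_lit 380) (nat_lit 7380456509) (nat_lit 456) (nat_lit 2085413179) (nat_lit 135) (nat_lit 5) (nat_lit 140) (nat_lit 5) (nat_lit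 141) (nat_lit 5) (nat_lit 341) (nat_lit 285) (nat_lit 154)) (XT.lf (nat_lit 0) (nat_lit 4033120426) (nat_lit 456) (nat_lit 15564496510) (nat_lit 76) (nat_lit 3632036181) (nat_lit 129) (nat_lit 5) (nat_lit 135) (nat_lit 5) (nat_lit 130) (nat_lit 5) (nat_lit 342) (nat_lit 285) (nat_lit 153)))) (XT.nd (nat_lit 78) (nat_lit 304) (nat_lit 0) (XT.lf (nat_lit 0) (nat_lit 1685174261) (nat_lit 380) (nat_lit 8733184578) (nat_lit 456) (nat_lit 13273319877) (nat_lit 124) (nat_lit 5) (nat_lit 129) (nat_lit 5) (nat_lit 130) (nat_lit 5) (nat_lit 343) (nat_lit 285) (nat_lit 152)) (XT.nd (nat_lit 78) (nat_lit 304) (nat_lit 0) (XT.lf (nat_lit 0) (nat_lit 17103955617) (nat_lit 456) (nat_lit 4536616782) (nat_lit 76) (nat_lit 2524822014) (nat_lit 124) (nat_lit 5) (nat_lit 130) (nat_lit 5) (nat_lit 125) (nat_lit 5) (nat_lit 344) (nat_lit 285) (nat_lit 151)) (XT.lf (nat_lit 0) (nat_lit 13557459365) (nat_lit 304) (nat_lit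 10566154757) (nat_lit 380) (nat_lit 527042782) (nat_lit 120) (nat_lit 5) (nat_lit 124) (nat_lit 5) (nat_lit 125) (nat_lit 5) (nat_lit 345) (nat_lit 285) (nat_lit 150))))) (XT.nd (nat_lit 234) (nat_lit 988) (nat_lit 0) (XT.nd (nat_lit 78) (nat_lit 304) (nat_lit 0) (XT.lf (nat_lit 0) (nat_lit 6192758821) (nat_lit 456) (nat_lit 18013992063) (nat_lit 76) (nat_lit 941511160) (nat_lit 114) (nat_lit 5) (nat_lit 120) (nat_lit 5) (nat_lit 115) (nat_lit 5) (nat_lit 346) (nat_lit 285) (nat_lit 149)) (XT.nd (nat_lit 78) (nat_lit 0) (nat_lit 0) (XT.lf (nat_lit 0) (nat_lit 311438490) (nat_lit 304) (nat_lit 12931387531) (nat_lit 380) (nat_lit 12415187808) (nat_lit 110) (nat_lit 5) (nat_lit 114) (nat_lit 5) (nat_lit 115) (nat_lit 5) (nat_lit 347) (nat_lit 285) (nat_lit 148)) (XT.lf (nat_lit 0) (nat_lit 19414441668) (nat_lit 304) (nat_lit 1199705764) (nat_lit 380) (nat_lit 5566720355) (nat_lit 110) (nat_lit 5)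 (nat_lit 114) (nat_lit 5) (nat_lit 115) (nat_lit 5) (nat_lit 348) (nat_lit 285) (nat_lit 147)))) (XT.nd (nat_lit 156) (nat_lit 304) (nat_lit 0) (XT.nd (nat_lit 78) (nat_lit 304) (nat_lit 0) (XT.lf (nat_lit 0) (nat_lit 1608085679) (nat_lit 380) (nat_lit 14281943296) (nat_lit 76) (nat_lit 10826381923) (nat_lit 105) (nat_lit 5) (nat_lit 110) (nat_lit 5) (nat_lit 106) (nat_lit 5) (nat_lit 349) (nat_lit 285) (nat_lit 146)) (XT.lf (nat_lit 0) (nat_lit 5039152564) (nat_lit 304) (nat_lit 3958831379) (nat_lit 380) (nat_lit 18267795192) (nat_lit 101) (nat_lit 5) (nat_lit 105) (nat_lit 5) (nat_lit 106) (nat_lit 5) (nat_lit 350) (nat_lit 285) (nat_lit 145))) (XT.nd (nat_lit 78) (nat_lit 304) (nat_lit 0) (XT.lf (nat_lit 0) (nat_lit 16749423079) (nat_lit 380) (nat_lit 2767231201) (nat_lit 76) (nat_lit 8312181443) (nat_lit 101) (nat_lit 5) (nat_lit 106) (nat_lit 5) (nat_lit 102) (nat_lit 5) (nat_lit 351) (nat_lit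 285) (nat_lit 144)) (XT.lf (nat_lit 0) (nat_lit 17460816629) (nat_lit 304) (nat_lit 7401108287) (nat_lit 380) (nat_lit 3544292768) (nat_lit 97) (nat_lit 5) (nat_lit 101) (nat_lit 5) (nat_lit 102) (nat_lit 5) (nat_lit 352) (nat_lit 285) (nat_lit 143)))))) (XT.nd (nat_lit 35490) (nat_lit 0) (nat_lit 27284) (XT.nd (nat_lit 234) (nat_lit 608) (nat_lit 0) (XT.nd (nat_lit 78) (nat_lit 304) (nat_lit 0) (XT.lf (nat_lit 0) (nat_lit 4264013086) (nat_lit 304) (nat_lit 19621195136) (nat_lit 76) (nat_lit 5113120424) (nat_lit 93) (nat_lit 5) (nat_lit 97) (nat_lit 5) (nat_lit 94) (nat_lit 5) (nat_lit 353) (nat_lit 285) (nat_lit 142)) (XT.nd (nat_lit 78) (nat_lit 0) (nat_lit 0) (XT.lf (nat_lit 0) (nat_lit 771455943) (nat_lit 304) (nat_lit 11605388086) (nat_lit 380) (nat_lit 17228525526) (nat_lit 89) (nat_lit 5) (nat_lit 93) (nat_lit 5) (nat_lit 94) (nat_lit 5) (nat_lit 354) (nat_lit 285) (nat_lit 141)) (XT.lf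 (nat_lit 0) (nat_lit 20862829301) (nat_lit 380) (nat_lit 8208465893) (nat_lit 76) (nat_lit 1156734756) (nat_lit 89) (nat_lit 5) (nat_lit 94) (nat_lit 5) (nat_lit 90) (nat_lit 5) (nat_lit 355) (nat_lit 285) (nat_lit 140)))) (XT.nd (nat_lit 156) (nat_lit 0) (nat_lit 0) (XT.nd (nat_lit 78) (nat_lit 380) (nat_lit 0) (XT.lf (nat_lit 0) (nat_lit 13113305906) (nat_lit 228) (nat_lit 16642313380) (nat_lit 304) (nat_lit 1110709908) (nat_lit 86) (nat_lit 5) (nat_lit 89) (nat_lit 5) (nat_lit 90) (nat_lit 5) (nat_lit 356) (nat_lit 285) (nat_lit 139)) (XT.lf (nat_lit 0) (nat_lit 3647219144) (nat_lit 304) (nat_lit 3716530259) (nat_lit 380) (nat_lit 24157686110) (nat_lit 81) (nat_lit 5) (nat_lit 85) (nat_lit 5) (nat_lit 86) (nat_lit 5) (nat_lit 357) (nat_lit 285) (nat_lit 138))) (XT.nd (nat_lit 35022) (nat_lit 0) (nat_lit 28804) (XT.lf (nat_lit 0) (nat_lit 16250603266) (nat_lit 380) (nat_lit 6348426242) (nat_lit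 76) (nat_lit 9593556928) (nat_lit 81) (nat_lit 5) (nat_lit 86) (nat_lit 5) (nat_lit 82) (nat_lit 5) (nat_lit 358) (nat_lit 285) (nat_lit 137)) (XT.lf (nat_lit 0) (nat_lit 2201748448) (nat_lit 0) (nat_lit 2201748448) (nat_lit 1444) (nat_lit 281848103) (nat_lit 460) (nat_lit 5) (nat_lit 460) (nat_lit 3) (nat_lit 479) (nat_lit 3) (nat_lit 286) (nat_lit 286) (nat_lit 208))))) (XT.nd (nat_lit 234) (nat_lit 0) (nat_lit 76) (XT.nd (nat_lit 78) (nat_lit 0) (nat_lit 0) (XT.lf (nat_lit 0) (nat_lit 630425984) (nat_lit 1520) (nat_lit 7951244957) (nat_lit 1596) (nat_lit 904885111) (nat_lit 440) (nat_lit 5) (nat_lit 460) (nat_lit 5) (nat_lit 461) (nat_lit 5) (nat_lit 287) (nat_lit 286) (nat_lit 207)) (XT.nd (nat_lit 78) (nat_lit 0) (nat_lit 76) (XT.lf (nat_lit 0) (nat_lit 1870060664) (nat_lit 1520) (nat_lit 1362683981) (nat_lit 1596) (nat_lit 6372765814) (nat_lit 440) (nat_lit 5) (nat_lit 460) (nat_lit 5) (nat_lit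 461) (nat_lit 5) (nat_lit 288) (nat_lit 286) (nat_lit 206)) (XT.lf (nat_lit 0) (nat_lit 3152870275) (nat_lit 1520) (nat_lit 4272286354) (nat_lit 1596) (nat_lit 2302790008) (nat_lit 441) (nat_lit 5) (nat_lit 461) (nat_lit 5) (nat_lit 462) (nat_lit 5) (nat_lit 289) (nat_lit 286) (nat_lit 205)))) (XT.nd (nat_lit 156) (nat_lit 0) (nat_lit 76) (XT.nd (nat_lit 78) (nat_lit 0) (nat_lit 76) (XT.lf (nat_lit 76) (nat_lit 2631353034) (nat_lit 0) (nat_lit 1847398807) (nat_lit 1596) (nat_lit 5375244204) (nat_lit 442) (nat_lit 5) (nat_lit 441) (nat_lit 5) (nat_lit 462) (nat_lit 5) (nat_lit 290) (nat_lit 286) (nat_lit 204)) (XT.lf (nat_lit 0) (nat_lit 5856669665) (nat_lit 1520) (nat_lit 233569357) (nat_lit 1596) (nat_lit 3893373687) (nat_lit 442) (nat_lit 5) (nat_lit 462) (nat_lit 5) (nat_lit 463) (nat_lit 5) (nat_lit 291) (nat_lit 286) (nat_lit 203))) (XT.nd (nat_lit 78) (nat_lit 0) (nat_lit 76) (XT.lf (nat_lit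 76) (nat_lit 7020229000) (nat_lit 0) (nat_lit 272670502) (nat_lit 1596) (nat_lit 2823908950) (nat_lit 443) (nat_lit 5) (nat_lit 442) (nat_lit 5) (nat_lit 463) (nat_lit 5) (nat_lit 292) (nat_lit 286) (nat_lit 202)) (XT.lf (nat_lit 76) (nat_lit 4234061832) (nat_lit 0) (nat_lit 4564549521) (nat_lit 1596) (nat_lit 1454890002) (nat_lit 444) (nat_lit 5) (nat_lit 443) (nat_lit 5) (nat_lit 464) (nat_lit 5) (nat_lit 293) (nat_lit 286) (nat_lit 201))))))))
noncomputable def xc93 : XT := (XT.nd (nat_lit 2106) (nat_lit 10792) (nat_lit 0) (XT.nd (nat_lit 1014) (nat_lit 7752) (nat_lit 0) (XT.nd (nat_lit 468) (nat_lit 5244) (nat_lit 0) (XT.nd (nat_lit 234) (nat_lit 0) (nat_lit 76) (XT.nd (nat_lit 78) (nat_lit 1596) (nat_lit 0) (XT.lf (nat_lit 76) (nat_lit 1414762713) (nat_lit 0) (nat_lit 8937412675) (nat_lit 1596) (nat_lit 42094382) (nat_lit 445) (nat_lit 5) (nat_lit 444) (nat_lit 5) (nat_lit 465) (nat_lit 5)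 (nat_lit 294) (nat_lit 286) (nat_lit 200)) (XT.nd (nat_lit 78) (nat_lit 0) (nat_lit 76) (XT.lf (nat_lit 0) (nat_lit 1428091353) (nat_lit 1596) (nat_lit 1449826432) (nat_lit 1672) (nat_lit 7660516153) (nat_lit 423) (nat_lit 5) (nat_lit 444) (nat_lit 5) (nat_lit 445) (nat_lit 5) (nat_lit 295) (nat_lit 286) (nat_lit 199)) (XT.lf (nat_lit 0) (nat_lit 2968384769) (nat_lit 1596) (nat_lit 4345165002) (nat_lit 1672) (nat_lit 3372862407) (nat_lit 424) (nat_lit 5) (nat_lit 445) (nat_lit 5) (nat_lit 446) (nat_lit 5) (nat_lit 296) (nat_lit 286) (nat_lit 198)))) (XT.nd (nat_lit 78) (nat_lit 0) (nat_lit 76) (XT.lf (nat_lit 76) (nat_lit 3549041394) (nat_lit 0) (nat_lit 1022075887) (nat_lit 1672) (nat_lit 6267413306) (nat_lit 425) (nat_lit 5) (nat_lit 424) (nat_lit 5) (nat_lit 446) (nat_lit 5) (nat_lit 297) (nat_lit 286) (nat_lit 197)) (XT.nd (nat_lit 78) (nat_lit 0) (nat_lit 76) (XT.lf (nat_lit 76) (nat_lit 692540468)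 (nat_lit 0) (nat_lit 5563966374) (nat_lit 1672) (nat_lit 4738038892) (nat_lit 426) (nat_lit 5) (nat_lit 425) (nat_lit 5) (nat_lit 447) (nat_lit 5) (nat_lit 298) (nat_lit 286) (nat_lit 196)) (XT.lf (nat_lit 0) (nat_lit 8020778168) (nat_lit 1596) (nat_lit 2179635763) (nat_lit 1672) (nat_lit 954284971) (nat_lit 426) (nat_lit 5) (nat_lit 447) (nat_lit 5) (nat_lit 448) (nat_lit 5) (nat_lit 299) (nat_lit 286) (nat_lit 195))))) (XT.nd (nat_lit 234) (nat_lit 3876) (nat_lit 0) (XT.nd (nat_lit 78) (nat_lit 1596) (nat_lit 0) (XT.lf (nat_lit 76) (nat_lit 6205159054) (nat_lit 0) (nat_lit 3677220690) (nat_lit 1672) (nat_lit 1436412149) (nat_lit 427) (nat_lit 5) (nat_lit 426) (nat_lit 5) (nat_lit 448) (nat_lit 5) (nat_lit 300) (nat_lit 286) (nat_lit 194)) (XT.nd (nat_lit 78) (nat_lit 0) (nat_lit 0) (XT.lf (nat_lit 0) (nat_lit 332401012) (nat_lit 1672) (nat_lit 8106914763) (nat_lit 1748) (nat_lit 3047984101) (nat_lit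 405) (nat_lit 5) (nat_lit 427) (nat_lit 5) (nat_lit 428) (nat_lit 5) (nat_lit 301) (nat_lit 286) (nat_lit 193)) (XT.lf (nat_lit 76) (nat_lit 485239454) (nat_lit 0) (nat_lit 1680557021) (nat_lit 1748) (nat_lit 9494277570) (nat_lit 406) (nat_lit 5) (nat_lit 405) (nat_lit 5) (nat_lit 428) (nat_lit 5) (nat_lit 302) (nat_lit 286) (nat_lit 192)))) (XT.nd (nat_lit 156) (nat_lit 2280) (nat_lit 0) (XT.nd (nat_lit 78) (nat_lit 1672) (nat_lit 0) (XT.lf (nat_lit 0) (nat_lit 4112874559) (nat_lit 1672) (nat_lit 2451463165) (nat_lit 76) (nat_lit 5272540979) (nat_lit 406) (nat_lit 5) (nat_lit 428) (nat_lit 5) (nat_lit 407) (nat_lit 5) (nat_lit 303) (nat_lit 286) (nat_lit 191)) (XT.lf (nat_lit 0) (nat_lit 6145206472) (nat_lit 1748) (nat_lit 5437926841) (nat_lit 76) (nat_lit 435337628) (nat_lit 384) (nat_lit 5) (nat_lit 407) (nat_lit 5) (nat_lit 385) (nat_lit 5) (nat_lit 304) (nat_lit 286) (nat_lit 190))) (XT.nd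 (nat_lit 78) (nat_lit 836) (nat_lit 0) (XT.lf (nat_lit 0) (nat_lit 3690812429) (nat_lit 1444) (nat_lit 4603015812) (nat_lit 1520) (nat_lit 3910595987) (nat_lit 365) (nat_lit 5) (nat_lit 384) (nat_lit 5) (nat_lit 385) (nat_lit 5) (nat_lit 305) (nat_lit 286) (nat_lit 189)) (XT.lf (nat_lit 0) (nat_lit 739619234) (nat_lit 836) (nat_lit 9797426593) (nat_lit 912) (nat_lit 1858326650) (nat_lit 354) (nat_lit 5) (nat_lit 365) (nat_lit 5) (nat_lit 366) (nat_lit 5) (nat_lit 306) (nat_lit 286) (nat_lit 188)))))) (XT.nd (nat_lit 546) (nat_lit 3496) (nat_lit 0) (XT.nd (nat_lit 234) (nat_lit 2432) (nat_lit 0) (XT.nd (nat_lit 78) (nat_lit 1748) (nat_lit 0) (XT.lf (nat_lit 0) (nat_lit 312928338) (nat_lit 912) (nat_lit 2262384435) (nat_lit 76) (nat_lit 10015506033) (nat_lit 353) (nat_lit 5) (nat_lit 365) (nat_lit 5) (nat_lit 354) (nat_lit 5) (nat_lit 307) (nat_lit 286) (nat_lit 187)) (XT.nd (nat_lit 78) (nat_lit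 836) (nat_lit 0) (XT.lf (nat_lit 0) (nat_lit 2577467425) (nat_lit 988) (nat_lit 5349995972) (nat_lit 76) (nat_lit 4863369239) (nat_lit 341) (nat_lit 5) (nat_lit 354) (nat_lit 5) (nat_lit 342) (nat_lit 5) (nat_lit 308) (nat_lit 286) (nat_lit 186)) (XT.lf (nat_lit 0) (nat_lit 4486032167) (nat_lit 836) (nat_lit 459071591) (nat_lit 912) (nat_lit 8051057041) (nat_lit 330) (nat_lit 5) (nat_lit 341) (nat_lit 5) (nat_lit 342) (nat_lit 5) (nat_lit 309) (nat_lit 286) (nat_lit 185)))) (XT.nd (nat_lit 156) (nat_lit 1596) (nat_lit 0) (XT.nd (nat_lit 78) (nat_lit 0) (nat_lit 0) (XT.lf (nat_lit 0) (nat_lit 1429797027) (nat_lit 836) (nat_lit 6020716926) (nat_lit 912) (nat_lit 5755816603) (nat_lit 319) (nat_lit 5) (nat_lit 330) (nat_lit 5) (nat_lit 331) (nat_lit 5) (nat_lit 310) (nat_lit 286) (nat_lit 184)) (XT.lf (nat_lit 0) (nat_lit 10077377430) (nat_lit 912) (nat_lit 1676582082) (nat_lit 76) (nat_lit 1667936232)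 (nat_lit 319) (nat_lit 5) (nat_lit 331) (nat_lit 5) (nat_lit 320) (nat_lit 5) (nat_lit 311) (nat_lit 286) (nat_lit 183))) (XT.nd (nat_lit 78) (nat_lit 836) (nat_lit 0) (XT.lf (nat_lit 0) (nat_lit 8776629910) (nat_lit 760) (nat_lit 4079008002) (nat_lit 836) (nat_lit 786853842) (nat_lit 309) (nat_lit 5) (nat_lit 319) (nat_lit 5) (nat_lit 320) (nat_lit 5) (nat_lit 312) (nat_lit 286) (nat_lit 182)) (XT.lf (nat_lit 0) (nat_lit 1872958015) (nat_lit 836) (nat_lit 8158694299) (nat_lit 76) (nat_lit 3836835387) (nat_lit 298) (nat_lit 5) (nat_lit 309) (nat_lit 5) (nat_lit 299) (nat_lit 5) (nat_lit 313) (nat_lit 286) (nat_lit 181))))) (XT.nd (nat_lit 234) (nat_lit 2052) (nat_lit 0) (XT.nd (nat_lit 78) (nat_lit 760) (nat_lit 0) (XT.lf (nat_lit 0) (nat_lit 2544725959) (nat_lit 684) (nat_lit 2110478455) (nat_lit 760) (nat_lit 9444902977) (nat_lit 289) (nat_lit 5) (nat_lit 298) (nat_lit 5) (nat_lit 299) (nat_lit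 5) (nat_lit 314) (nat_lit 286) (nat_lit 180)) (XT.nd (nat_lit 78) (nat_lit 760) (nat_lit 0) (XT.lf (nat_lit 0) (nat_lit 7592645452) (nat_lit 760) (nat_lit 720960450) (nat_lit 76) (nat_lit 6023649302) (nat_lit 289) (nat_lit 5) (nat_lit 299) (nat_lit 5) (nat_lit 290) (nat_lit 5) (nat_lit 315) (nat_lit 286) (nat_lit 179)) (XT.lf (nat_lit 0) (nat_lit 10538633482) (nat_lit 760) (nat_lit 139594759) (nat_lit 836) (nat_lit 3902102502) (nat_lit 279) (nat_lit 5) (nat_lit 289) (nat_lit 5) (nat_lit 290) (nat_lit 5) (nat_lit 316) (nat_lit 286) (nat_lit 178)))) (XT.nd (nat_lit 156) (nat_lit 608) (nat_lit 0) (XT.nd (nat_lit 78) (nat_lit 760) (nat_lit 0) (XT.lf (nat_lit 0) (nat_lit 7333659252) (nat_lit 684) (nat_lit 6606982694) (nat_lit 760) (nat_lit 888384602) (nat_lit 270) (nat_lit 5) (nat_lit 279) (nat_lit 5) (nat_lit 280) (nat_lit 5) (nat_lit 317) (nat_lit 286) (nat_lit 177)) (XT.lf (nat_lit 0) (nat_lit 2231471139)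 (nat_lit 760) (nat_lit 11061582838) (nat_lit 76) (nat_lit 1790958433) (nat_lit 260) (nat_lit 5) (nat_lit 270) (nat_lit 5) (nat_lit 261) (nat_lit 5) (nat_lit 318) (nat_lit 286) (nat_lit 176))) (XT.nd (nat_lit 78) (nat_lit 0) (nat_lit 0) (XT.lf (nat_lit 0) (nat_lit 575856042) (nat_lit 608) (nat_lit 4934886101) (nat_lit 684) (nat_lit 9834242735) (nat_lit 252) (nat_lit 5) (nat_lit 260) (nat_lit 5) (nat_lit 261) (nat_lit 5) (nat_lit 319) (nat_lit 286) (nat_lit 175)) (XT.lf (nat_lit 0) (nat_lit 8966916184) (nat_lit 684) (nat_lit 2946788733) (nat_lit 76) (nat_lit 3698523007) (nat_lit 252) (nat_lit 5) (nat_lit 261) (nat_lit 5) (nat_lit 253) (nat_lit 5) (nat_lit 320) (nat_lit 286) (nat_lit 174))))))) (XT.nd (nat_lit 1092) (nat_lit 4560) (nat_lit 0) (XT.nd (nat_lit 546) (nat_lit 2508) (nat_lit 0) (XT.nd (nat_lit 234) (nat_lit 1748) (nat_lit 0) (XT.nd (nat_lit 78) (nat_lit 1292) (nat_lit 0) (XT.lf (nat_lit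 0) (nat_lit 9295853576) (nat_lit 684) (nat_lit 3304101309) (nat_lit 760) (nat_lit 3286081344) (nat_lit 243) (nat_lit 5) (nat_lit 252) (nat_lit 5) (nat_lit 253) (nat_lit 5) (nat_lit 321) (nat_lit 286) (nat_lit 173)) (XT.nd (nat_lit 78) (nat_lit 608) (nat_lit 0) (XT.lf (nat_lit 0) (nat_lit 246214517) (nat_lit 684) (nat_lit 10373301709) (nat_lit 76) (nat_lit 5547039581) (nat_lit 234) (nat_lit 5) (nat_lit 243) (nat_lit 5) (nat_lit 235) (nat_lit 5) (nat_lit 322) (nat_lit 286) (nat_lit 172)) (XT.lf (nat_lit 0) (nat_lit 2144378001) (nat_lit 608) (nat_lit 1757211578) (nat_lit 684) (nat_lit 12552242544) (nat_lit 226) (nat_lit 5) (nat_lit 234) (nat_lit 5) (nat_lit 235) (nat_lit 5) (nat_lit 323) (nat_lit 286) (nat_lit 171)))) (XT.nd (nat_lit 156) (nat_lit 1216) (nat_lit 0) (XT.nd (nat_lit 78) (nat_lit 532) (nat_lit 0) (XT.lf (nat_lit 0) (nat_lit 7766165200) (nat_lit 684) (nat_lit 1640237266) (nat_lit 76)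 (nat_lit 7341343846) (nat_lit 226) (nat_lit 5) (nat_lit 235) (nat_lit 5) (nat_lit 227) (nat_lit 5) (nat_lit 324) (nat_lit 286) (nat_lit 170)) (XT.lf (nat_lit 0) (nat_lit 11525971787) (nat_lit 532) (nat_lit 288771271) (nat_lit 608) (nat_lit 5234383637) (nat_lit 219) (nat_lit 5) (nat_lit 226) (nat_lit 5) (nat_lit 227) (nat_lit 5) (nat_lit 325) (nat_lit 286) (nat_lit 169))) (XT.nd (nat_lit 78) (nat_lit 608) (nat_lit 0) (XT.lf (nat_lit 0) (nat_lit 7770553109) (nat_lit 608) (nat_lit 8316813014) (nat_lit 684) (nat_lit 1270140381) (nat_lit 211) (nat_lit 5) (nat_lit 219) (nat_lit 5) (nat_lit 220) (nat_lit 5) (nat_lit 326) (nat_lit 286) (nat_lit 168)) (XT.lf (nat_lit 0) (nat_lit 2829803549) (nat_lit 608) (nat_lit 13808391692) (nat_lit 76) (nat_lit 1035513152) (nat_lit 203) (nat_lit 5) (nat_lit 211) (nat_lit 5) (nat_lit 204) (nat_lit 5) (nat_lit 327) (nat_lit 286) (nat_lit 167))))) (XT.nd (nat_lit 234) (nat_lit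 1520) (nat_lit 0) (XT.nd (nat_lit 78) (nat_lit 988) (nat_lit 0) (XT.lf (nat_lit 0) (nat_lit 7139057029) (nat_lit 608) (nat_lit 232586131) (nat_lit 76) (nat_lit 10625522949) (nat_lit 203) (nat_lit 5) (nat_lit 211) (nat_lit 5) (nat_lit 204) (nat_lit 5) (nat_lit 328) (nat_lit 286) (nat_lit 166)) (XT.nd (nat_lit 78) (nat_lit 456) (nat_lit 0) (XT.lf (nat_lit 0) (nat_lit 11665552600) (nat_lit 608) (nat_lit 4432283076) (nat_lit 76) (nat_lit 2230741359) (nat_lit 196) (nat_lit 5) (nat_lit 204) (nat_lit 5) (nat_lit 197) (nat_lit 5) (nat_lit 329) (nat_lit 286) (nat_lit 165)) (XT.lf (nat_lit 0) (nat_lit 9840437584) (nat_lit 456) (nat_lit 6585474887) (nat_lit 532) (nat_lit 2242064942) (nat_lit 190) (nat_lit 5) (nat_lit 196) (nat_lit 5) (nat_lit 197) (nat_lit 5) (nat_lit 330) (nat_lit 286) (nat_lit 164)))) (XT.nd (nat_lit 156) (nat_lit 456) (nat_lit 0) (XT.nd (nat_lit 78) (nat_lit 456) (nat_lit 0) (XT.lf (nat_lit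 0) (nat_lit 2352834313) (nat_lit 608) (nat_lit 13415564111) (nat_lit 76) (nat_lit 3247436781) (nat_lit 182) (nat_lit 5) (nat_lit 190) (nat_lit 5) (nat_lit 183) (nat_lit 5) (nat_lit 331) (nat_lit 286) (nat_lit 163)) (XT.lf (nat_lit 0) (nat_lit 1142912724) (nat_lit 456) (nat_lit 6007891846) (nat_lit 532) (nat_lit 12221121930) (nat_lit 176) (nat_lit 5) (nat_lit 182) (nat_lit 5) (nat_lit 183) (nat_lit 5) (nat_lit 332) (nat_lit 286) (nat_lit 162))) (XT.nd (nat_lit 78) (nat_lit 456) (nat_lit 0) (XT.lf (nat_lit 0) (nat_lit 12194625442) (nat_lit 532) (nat_lit 3463377199) (nat_lit 76) (nat_lit 4078667300) (nat_lit 176) (nat_lit 5) (nat_lit 183) (nat_lit 5) (nat_lit 177) (nat_lit 5) (nat_lit 333) (nat_lit 286) (nat_lit 161)) (XT.lf (nat_lit 0) (nat_lit 11839546887) (nat_lit 456) (nat_lit 5651859497) (nat_lit 532) (nat_lit 2618923807) (nat_lit 170) (nat_lit 5) (nat_lit 176) (nat_lit 5) (nat_lit 177) (nat_lit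 5) (nat_lit 334) (nat_lit 286) (nat_lit 160)))))) (XT.nd (nat_lit 546) (nat_lit 2280) (nat_lit 0) (XT.nd (nat_lit 234) (nat_lit 1292) (nat_lit 0) (XT.nd (nat_lit 78) (nat_lit 456) (nat_lit 0) (XT.lf (nat_lit 0) (nat_lit 2505746675) (nat_lit 532) (nat_lit 13312445685) (nat_lit 76) (nat_lit 4674976299) (nat_lit 163) (nat_lit 5) (nat_lit 170) (nat_lit 5) (nat_lit 164) (nat_lit 5) (nat_lit 335) (nat_lit 286) (nat_lit 159)) (XT.nd (nat_lit 78) (nat_lit 0) (nat_lit 0) (XT.lf (nat_lit 0) (nat_lit 2276198173) (nat_lit 456) (nat_lit 5566654670) (nat_lit 532) (nat_lit 13042414539) (nat_lit 157) (nat_lit 5) (nat_lit 163) (nat_lit 5) (nat_lit 164) (nat_lit 5) (nat_lit 336) (nat_lit 286) (nat_lit 158)) (XT.lf (nat_lit 0) (nat_lit 13448641479) (nat_lit 532) (nat_lit 2826128453) (nat_lit 76) (nat_lit 5012194402) (nat_lit 157) (nat_lit 5) (nat_lit 164) (nat_lit 5) (nat_lit 158) (nat_lit 5) (nat_lit 337) (nat_lit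 286) (nat_lit 157)))) (XT.nd (nat_lit 156) (nat_lit 380) (nat_lit 0) (XT.nd (nat_lit 78) (nat_lit 532) (nat_lit 0) (XT.lf (nat_lit 0) (nat_lit 13550877386) (nat_lit 380) (nat_lit 5782709476) (nat_lit 456) (nat_lit 2364912131) (nat_lit 152) (nat_lit 5) (nat_lit 157) (nat_lit 5) (nat_lit 158) (nat_lit 5) (nat_lit 338) (nat_lit 286) (nat_lit 156)) (XT.lf (nat_lit 0) (nat_lit 3322802951) (nat_lit 532) (nat_lit 13749026834) (nat_lit 76) (nat_lit 5048270600) (nat_lit 145) (nat_lit 5) (nat_lit 152) (nat_lit 5) (nat_lit 146) (nat_lit 5) (nat_lit 339) (nat_lit 286) (nat_lit 155))) (XT.nd (nat_lit 78) (nat_lit 0) (nat_lit 0) (XT.lf (nat_lit 0) (nat_lit 2907174533) (nat_lit 380) (nat_lit 6341360608) (nat_lit 456) (nat_lit 13303517697) (nat_lit 140) (nat_lit 5) (nat_lit 145) (nat_lit 5) (nat_lit 146) (nat_lit 5) (nat_lit 340) (nat_lit 286) (nat_lit 154)) (XT.lf (nat_lit 0) (nat_lit 15462857810) (nat_lit 456)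 (nat_lit 2794673048) (nat_lit 76) (nat_lit 4737222430) (nat_lit 140) (nat_lit 5) (nat_lit 146) (nat_lit 5) (nat_lit 141) (nat_lit 5) (nat_lit 341) (nat_lit 286) (nat_lit 153))))) (XT.nd (nat_lit 234) (nat_lit 1064) (nat_lit 0) (XT.nd (nat_lit 78) (nat_lit 836) (nat_lit 0) (XT.lf (nat_lit 0) (nat_lit 14692265059) (nat_lit 380) (nat_lit 7295985953) (nat_lit 456) (nat_lit 1459996550) (nat_lit 135) (nat_lit 5) (nat_lit 140) (nat_lit 5) (nat_lit 141) (nat_lit 5) (nat_lit 342) (nat_lit 286) (nat_lit 152)) (XT.nd (nat_lit 78) (nat_lit 380) (nat_lit 0) (XT.lf (nat_lit 0) (nat_lit 4821613005) (nat_lit 456) (nat_lit 15046503644) (nat_lit 76) (nat_lit 4044804273) (nat_lit 129) (nat_lit 5) (nat_lit 135) (nat_lit 5) (nat_lit 130) (nat_lit 5) (nat_lit 343) (nat_lit 286) (nat_lit 151)) (XT.lf (nat_lit 0) (nat_lit 2704677968) (nat_lit 380) (nat_lit 8680579941) (nat_lit 456) (nat_lit 13003820309) (nat_lit 124)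 (nat_lit 5) (nat_lit 129) (nat_lit 5) (nat_lit 130) (nat_lit 5) (nat_lit 344) (nat_lit 286) (nat_lit 150)))) (XT.nd (nat_lit 156) (nat_lit 684) (nat_lit 0) (XT.nd (nat_lit 78) (nat_lit 380) (nat_lit 0) (XT.lf (nat_lit 0) (nat_lit 18254347001) (nat_lit 456) (nat_lit 3721009707) (nat_lit 76) (nat_lit 2901997875) (nat_lit 124) (nat_lit 5) (nat_lit 130) (nat_lit 5) (nat_lit 125) (nat_lit 5) (nat_lit 345) (nat_lit 286) (nat_lit 149)) (XT.lf (nat_lit 0) (nat_lit 93438959) (nat_lit 380) (nat_lit 10477598360) (nat_lit 76) (nat_lit 14806382448) (nat_lit 119) (nat_lit 5) (nat_lit 124) (nat_lit 5) (nat_lit 120) (nat_lit 5) (nat_lit 346) (nat_lit 286) (nat_lit 148))) (XT.nd (nat_lit 78) (nat_lit 304) (nat_lit 0) (XT.lf (nat_lit 0) (nat_lit 6997454724) (nat_lit 456) (nat_lit 17614326246) (nat_lit 76) (nat_lit 1278313908) (nat_lit 114) (nat_lit 5) (nat_lit 120) (nat_lit 5) (nat_lit 115) (nat_lit 5) (nat_lit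 347) (nat_lit 286) (nat_lit 147)) (XT.lf (nat_lit 0) (nat_lit 1245615451) (nat_lit 304) (nat_lit 13001386526) (nat_lit 380) (nat_lit 12168384574) (nat_lit 110) (nat_lit 5) (nat_lit 114) (nat_lit 5) (nat_lit 115) (nat_lit 5) (nat_lit 348) (nat_lit 286) (nat_lit 146))))))))
noncomputable def xc94 : XT := (XT.nd (nat_lit 37128) (nat_lit 0) (nat_lit 8284) (XT.nd (nat_lit 36036) (nat_lit 0) (nat_lit 24548) (XT.nd (nat_lit 468) (nat_lit 912) (nat_lit 0) (XT.nd (nat_lit 234) (nat_lit 608) (nat_lit 0) (XT.nd (nat_lit 78) (nat_lit 684) (nat_lit 0) (XT.lf (nat_lit 0) (nat_lit 20894771818) (nat_lit 304) (nat_lit 927014771) (nat_lit 380) (nat_lit 5132499764) (nat_lit 110) (nat_lit 5) (nat_lit 114) (nat_lit 5) (nat_lit 115) (nat_lit 5) (nat_lit 349) (nat_lit 286) (nat_lit 145)) (XT.nd (nat_lit 78) (nat_lit 304) (nat_lit 0) (XT.lf (nat_lit 0) (nat_lit 2240179794) (nat_lit 380) (nat_lit 13809259495) (nat_lit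 76) (nat_lit 11456574481) (nat_lit 105) (nat_lit 5) (nat_lit 110) (nat_lit 5) (nat_lit 106) (nat_lit 5) (nat_lit 350) (nat_lit 286) (nat_lit 144)) (XT.lf (nat_lit 0) (nat_lit 6076849280) (nat_lit 304) (nat_lit 3763676230) (nat_lit 380) (nat_lit 18231568720) (nat_lit 101) (nat_lit 5) (nat_lit 105) (nat_lit 5) (nat_lit 106) (nat_lit 5) (nat_lit 351) (nat_lit 286) (nat_lit 143)))) (XT.nd (nat_lit 78) (nat_lit 608) (nat_lit 0) (XT.lf (nat_lit 0) (nat_lit 17809808905) (nat_lit 380) (nat_lit 1980207127) (nat_lit 76) (nat_lit 8862326471) (nat_lit 101) (nat_lit 5) (nat_lit 106) (nat_lit 5) (nat_lit 102) (nat_lit 5) (nat_lit 352) (nat_lit 286) (nat_lit 142)) (XT.nd (nat_lit 78) (nat_lit 304) (nat_lit 0) (XT.lf (nat_lit 0) (nat_lit 18840566757) (nat_lit 304) (nat_lit 7314426671) (nat_lit 380) (nat_lit 3092272173) (nat_lit 97) (nat_lit 5) (nat_lit 101) (nat_lit 5) (nat_lit 102) (nat_lit 5) (nat_lit 353) (nat_lit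 286) (nat_lit 141)) (XT.lf (nat_lit 0) (nat_lit 4934431589) (nat_lit 304) (nat_lit 19351411148) (nat_lit 76) (nat_lit 5571400770) (nat_lit 93) (nat_lit 5) (nat_lit 97) (nat_lit 5) (nat_lit 94) (nat_lit 5) (nat_lit 354) (nat_lit 286) (nat_lit 140))))) (XT.nd (nat_lit 234) (nat_lit 380) (nat_lit 0) (XT.nd (nat_lit 78) (nat_lit 228) (nat_lit 0) (XT.lf (nat_lit 0) (nat_lit 1639092622) (nat_lit 304) (nat_lit 11641236932) (nat_lit 380) (nat_lit 17202377838) (nat_lit 89) (nat_lit 5) (nat_lit 93) (nat_lit 5) (nat_lit 94) (nat_lit 5) (nat_lit 355) (nat_lit 286) (nat_lit 139)) (XT.nd (nat_lit 78) (nat_lit 228) (nat_lit 0) (XT.lf (nat_lit 0) (nat_lit 22007362671) (nat_lit 380) (nat_lit 7626284425) (nat_lit 76) (nat_lit 1490676369) (nat_lit 89) (nat_lit 5) (nat_lit 94) (nat_lit 5) (nat_lit 90) (nat_lit 5) (nat_lit 356) (nat_lit 286) (nat_lit 138)) (XT.lf (nat_lit 0) (nat_lit 14321700147) (nat_lit 228) (nat_lit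 16835421430) (nat_lit 304) (nat_lit 624851485) (nat_lit 86) (nat_lit 5) (nat_lit 89) (nat_lit 5) (nat_lit 90) (nat_lit 5) (nat_lit 357) (nat_lit 286) (nat_lit 137)))) (XT.nd (nat_lit 35178) (nat_lit 0) (nat_lit 27208) (XT.nd (nat_lit 35100) (nat_lit 0) (nat_lit 27208) (XT.lf (nat_lit 0) (nat_lit 4565270441) (nat_lit 304) (nat_lit 3522088807) (nat_lit 380) (nat_lit 24369504205) (nat_lit 81) (nat_lit 5) (nat_lit 85) (nat_lit 5) (nat_lit 86) (nat_lit 5) (nat_lit 358) (nat_lit 286) (nat_lit 136)) (XT.lf (nat_lit 0) (nat_lit 881282370) (nat_lit 1596) (nat_lit 1960223161) (nat_lit 1596) (nat_lit 1960223161) (nat_lit 439) (nat_lit 3) (nat_lit 460) (nat_lit 3) (nat_lit 460) (nat_lit 5) (nat_lit 287) (nat_lit 287) (nat_lit 206))) (XT.nd (nat_lit 78) (nat_lit 0) (nat_lit 76) (XT.lf (nat_lit 76) (nat_lit 2760279072) (nat_lit 0) (nat_lit 158072686) (nat_lit 1596) (nat_lit 6805753173) (nat_lit 440) (nat_lit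 5) (nat_lit 439) (nat_lit 3) (nat_lit 460) (nat_lit 5) (nat_lit 288) (nat_lit 287) (nat_lit 205)) (XT.lf (nat_lit 0) (nat_lit 4128091302) (nat_lit 1520) (nat_lit 212319103) (nat_lit 1596) (nat_lit 5507607818) (nat_lit 440) (nat_lit 5) (nat_lit 460) (nat_lit 5) (nat_lit 461) (nat_lit 5) (nat_lit 289) (nat_lit 287) (nat_lit 204)))))) (XT.nd (nat_lit 546) (nat_lit 1368) (nat_lit 0) (XT.nd (nat_lit 234) (nat_lit 1444) (nat_lit 0) (XT.nd (nat_lit 78) (nat_lit 0) (nat_lit 0) (XT.lf (nat_lit 0) (nat_lit 5386539716) (nat_lit 1520) (nat_lit 3177735682) (nat_lit 1596) (nat_lit 1411156152) (nat_lit 441) (nat_lit 5) (nat_lit 461) (nat_lit 5) (nat_lit 462) (nat_lit 5) (nat_lit 290) (nat_lit 287) (nat_lit 203)) (XT.nd (nat_lit 78) (nat_lit 0) (nat_lit 76) (XT.lf (nat_lit 76) (nat_lit 3913175721) (nat_lit 0) (nat_lit 2784528519) (nat_lit 1596) (nat_lit 3408693852) (nat_lit 442) (nat_lit 5) (nat_lit 441) (nat_lit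 5) (nat_lit 462) (nat_lit 5) (nat_lit 291) (nat_lit 287) (nat_lit 202)) (XT.lf (nat_lit 76) (nat_lit 987741623) (nat_lit 0) (nat_lit 7069356945) (nat_lit 1596) (nat_lit 2184046356) (nat_lit 443) (nat_lit 5) (nat_lit 442) (nat_lit 5) (nat_lit 463) (nat_lit 5) (nat_lit 292) (nat_lit 287) (nat_lit 201)))) (XT.nd (nat_lit 156) (nat_lit 0) (nat_lit 76) (XT.nd (nat_lit 78) (nat_lit 1520) (nat_lit 0) (XT.lf (nat_lit 76) (nat_lit 8426481691) (nat_lit 0) (nat_lit 1052497565) (nat_lit 1596) (nat_lit 900549156) (nat_lit 443) (nat_lit 5) (nat_lit 442) (nat_lit 5) (nat_lit 463) (nat_lit 5) (nat_lit 293) (nat_lit 287) (nat_lit 200)) (XT.lf (nat_lit 0) (nat_lit 448222706) (nat_lit 1596) (nat_lit 4942014568) (nat_lit 1672) (nat_lit 5131152437) (nat_lit 422) (nat_lit 5) (nat_lit 443) (nat_lit 5) (nat_lit 444) (nat_lit 5) (nat_lit 294) (nat_lit 287) (nat_lit 199))) (XT.nd (nat_lit 78) (nat_lit 0) (nat_lit 0) (XT.lf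 (nat_lit 0) (nat_lit 1831934900) (nat_lit 1596) (nat_lit 7977449460) (nat_lit 1672) (nat_lit 857895385) (nat_lit 423) (nat_lit 5) (nat_lit 444) (nat_lit 5) (nat_lit 445) (nat_lit 5) (nat_lit 295) (nat_lit 287) (nat_lit 198)) (XT.lf (nat_lit 0) (nat_lit 3291053974) (nat_lit 1596) (nat_lit 259184035) (nat_lit 1672) (nat_lit 7266655987) (nat_lit 423) (nat_lit 5) (nat_lit 444) (nat_lit 5) (nat_lit 445) (nat_lit 5) (nat_lit 296) (nat_lit 287) (nat_lit 197))))) (XT.nd (nat_lit 234) (nat_lit 1520) (nat_lit 0) (XT.nd (nat_lit 78) (nat_lit 0) (nat_lit 0) (XT.lf (nat_lit 0) (nat_lit 4828784260) (nat_lit 1596) (nat_lit 3221010837) (nat_lit 1672) (nat_lit 2920529515) (nat_lit 424) (nat_lit 5) (nat_lit 445) (nat_lit 5) (nat_lit 446) (nat_lit 5) (nat_lit 297) (nat_lit 287) (nat_lit 196)) (XT.nd (nat_lit 78) (nat_lit 0) (nat_lit 76) (XT.lf (nat_lit 76) (nat_lit 4889668831) (nat_lit 0) (nat_lit 1546350218) (nat_lit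 1672) (nat_lit 4691895612) (nat_lit 425) (nat_lit 5) (nat_lit 424) (nat_lit 5) (nat_lit 446) (nat_lit 5) (nat_lit 298) (nat_lit 287) (nat_lit 195)) (XT.lf (nat_lit 76) (nat_lit 1965794510) (nat_lit 0) (nat_lit 6160872846) (nat_lit 1672) (nat_lit 3162884397) (nat_lit 426) (nat_lit 5) (nat_lit 425) (nat_lit 5) (nat_lit 447) (nat_lit 5) (nat_lit 299) (nat_lit 287) (nat_lit 194)))) (XT.nd (nat_lit 156) (nat_lit 0) (nat_lit 76) (XT.nd (nat_lit 78) (nat_lit 1672) (nat_lit 0) (XT.lf (nat_lit 0) (nat_lit 9892152526) (nat_lit 1596) (nat_lit 992500617) (nat_lit 1672) (nat_lit 570925057) (nat_lit 426) (nat_lit 5) (nat_lit 447) (nat_lit 5) (nat_lit 448) (nat_lit 5) (nat_lit 300) (nat_lit 287) (nat_lit 193)) (XT.lf (nat_lit 0) (nat_lit 142789901) (nat_lit 1672) (nat_lit 4002839405) (nat_lit 1748) (nat_lit 7479769231) (nat_lit 404) (nat_lit 5) (nat_lit 426) (nat_lit 5) (nat_lit 427) (nat_lit 5) (nat_lit 301)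 (nat_lit 287) (nat_lit 192))) (XT.nd (nat_lit 78) (nat_lit 0) (nat_lit 0) (XT.lf (nat_lit 0) (nat_lit 1904448458) (nat_lit 1672) (nat_lit 7081393637) (nat_lit 1748) (nat_lit 2813775634) (nat_lit 405) (nat_lit 5) (nat_lit 427) (nat_lit 5) (nat_lit 428) (nat_lit 5) (nat_lit 302) (nat_lit 287) (nat_lit 191)) (XT.lf (nat_lit 76) (nat_lit 1747941593) (nat_lit 0) (nat_lit 2007510636) (nat_lit 1748) (nat_lit 8222901631) (nat_lit 406) (nat_lit 5) (nat_lit 405) (nat_lit 5) (nat_lit 428) (nat_lit 5) (nat_lit 303) (nat_lit 287) (nat_lit 190))))))) (XT.nd (nat_lit 1092) (nat_lit 6764) (nat_lit 0) (XT.nd (nat_lit 546) (nat_lit 3876) (nat_lit 0) (XT.nd (nat_lit 234) (nat_lit 2660) (nat_lit 0) (XT.nd (nat_lit 78) (nat_lit 3116) (nat_lit 0) (XT.lf (nat_lit 0) (nat_lit 5714791279) (nat_lit 1672) (nat_lit 1280868397) (nat_lit 76) (nat_lit 5165755973) (nat_lit 406) (nat_lit 5) (nat_lit 428) (nat_lit 5) (nat_lit 407)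 (nat_lit 5) (nat_lit 304) (nat_lit 287) (nat_lit 189)) (XT.nd (nat_lit 78) (nat_lit 1444) (nat_lit 0) (XT.lf (nat_lit 0) (nat_lit 7771551001) (nat_lit 1748) (nat_lit 4345847801) (nat_lit 76) (nat_lit 231816786) (nat_lit 384) (nat_lit 5) (nat_lit 407) (nat_lit 5) (nat_lit 385) (nat_lit 5) (nat_lit 305) (nat_lit 287) (nat_lit 188)) (XT.lf (nat_lit 0) (nat_lit 5036389245) (nat_lit 1444) (nat_lit 4914260000) (nat_lit 1520) (nat_lit 2590806117) (nat_lit 365) (nat_lit 5) (nat_lit 384) (nat_lit 5) (nat_lit 385) (nat_lit 5) (nat_lit 306) (nat_lit 287) (nat_lit 187)))) (XT.nd (nat_lit 156) (nat_lit 1748) (nat_lit 0) (XT.nd (nat_lit 78) (nat_lit 76) (nat_lit 0) (XT.lf (nat_lit 0) (nat_lit 2006361684) (nat_lit 836) (nat_lit 10220780770) (nat_lit 912) (nat_lit 511697442) (nat_lit 354) (nat_lit 5) (nat_lit 365) (nat_lit 5) (nat_lit 366) (nat_lit 5) (nat_lit 307) (nat_lit 287) (nat_lit 186)) (XT.lf (nat_lit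 0) (nat_lit 1665992455) (nat_lit 912) (nat_lit 1103224460) (nat_lit 76) (nat_lit 10171582904) (nat_lit 353) (nat_lit 5) (nat_lit 365) (nat_lit 5) (nat_lit 354) (nat_lit 5) (nat_lit 308) (nat_lit 287) (nat_lit 185))) (XT.nd (nat_lit 78) (nat_lit 836) (nat_lit 0) (XT.lf (nat_lit 0) (nat_lit 3966485591) (nat_lit 988) (nat_lit 4275595863) (nat_lit 76) (nat_lit 4905397593) (nat_lit 341) (nat_lit 5) (nat_lit 354) (nat_lit 5) (nat_lit 342) (nat_lit 5) (nat_lit 309) (nat_lit 287) (nat_lit 184)) (XT.lf (nat_lit 0) (nat_lit 5835478335) (nat_lit 836) (nat_lit 539355706) (nat_lit 912) (nat_lit 6984763956) (nat_lit 330) (nat_lit 5) (nat_lit 341) (nat_lit 5) (nat_lit 342) (nat_lit 5) (nat_lit 310) (nat_lit 287) (nat_lit 183))))) (XT.nd (nat_lit 234) (nat_lit 2204) (nat_lit 0) (XT.nd (nat_lit 78) (nat_lit 836) (nat_lit 0) (XT.lf (nat_lit 0) (nat_lit 2694289775) (nat_lit 836) (nat_lit 6231307270) (nat_lit 912)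 (nat_lit 4651095878) (nat_lit 319) (nat_lit 5) (nat_lit 330) (nat_lit 5) (nat_lit 331) (nat_lit 5) (nat_lit 311) (nat_lit 287) (nat_lit 182)) (XT.nd (nat_lit 78) (nat_lit 836) (nat_lit 0) (XT.lf (nat_lit 0) (nat_lit 11594624088) (nat_lit 912) (nat_lit 515597055) (nat_lit 76) (nat_lit 1689259961) (nat_lit 319) (nat_lit 5) (nat_lit 331) (nat_lit 5) (nat_lit 320) (nat_lit 5) (nat_lit 312) (nat_lit 287) (nat_lit 181)) (XT.lf (nat_lit 0) (nat_lit 396049286) (nat_lit 836) (nat_lit 3798316404) (nat_lit 76) (nat_lit 9832852692) (nat_lit 308) (nat_lit 5) (nat_lit 319) (nat_lit 5) (nat_lit 309) (nat_lit 5) (nat_lit 313) (nat_lit 287) (nat_lit 180)))) (XT.nd (nat_lit 156) (nat_lit 760) (nat_lit 0) (XT.nd (nat_lit 78) (nat_lit 684) (nat_lit 0) (XT.lf (nat_lit 0) (nat_lit 3098041432) (nat_lit 836) (nat_lit 7190837933) (nat_lit 76) (nat_lit 3971570726) (nat_lit 298) (nat_lit 5) (nat_lit 309) (nat_lit 5) (nat_lit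 299) (nat_lit 5) (nat_lit 314) (nat_lit 287) (nat_lit 179)) (XT.lf (nat_lit 0) (nat_lit 3814011659) (nat_lit 684) (nat_lit 2123443473) (nat_lit 760) (nat_lit 8562110051) (nat_lit 289) (nat_lit 5) (nat_lit 298) (nat_lit 5) (nat_lit 299) (nat_lit 5) (nat_lit 315) (nat_lit 287) (nat_lit 178))) (XT.nd (nat_lit 78) (nat_lit 0) (nat_lit 0) (XT.lf (nat_lit 0) (nat_lit 443973775) (nat_lit 760) (nat_lit 8488966122) (nat_lit 836) (nat_lit 5811509321) (nat_lit 279) (nat_lit 5) (nat_lit 289) (nat_lit 5) (nat_lit 290) (nat_lit 5) (nat_lit 316) (nat_lit 287) (nat_lit 177)) (XT.lf (nat_lit 0) (nat_lit 12016376623) (nat_lit 760) (nat_lit 67053357) (nat_lit 836) (nat_lit 2911959860) (nat_lit 279) (nat_lit 5) (nat_lit 289) (nat_lit 5) (nat_lit 290) (nat_lit 5) (nat_lit 317) (nat_lit 287) (nat_lit 176)))))) (XT.nd (nat_lit 546) (nat_lit 2736) (nat_lit 0) (XT.nd (nat_lit 234) (nat_lit 1976) (nat_lit 0) (XT.nd (nat_lit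 78) (nat_lit 1292) (nat_lit 0) (XT.lf (nat_lit 0) (nat_lit 165919403) (nat_lit 760) (nat_lit 6535222278) (nat_lit 76) (nat_lit 8550873148) (nat_lit 269) (nat_lit 5) (nat_lit 279) (nat_lit 5) (nat_lit 270) (nat_lit 5) (nat_lit 318) (nat_lit 287) (nat_lit 175)) (XT.nd (nat_lit 78) (nat_lit 608) (nat_lit 0) (XT.lf (nat_lit 0) (nat_lit 3344510387) (nat_lit 760) (nat_lit 10212727056) (nat_lit 76) (nat_lit 1957769318) (nat_lit 260) (nat_lit 5) (nat_lit 270) (nat_lit 5) (nat_lit 261) (nat_lit 5) (nat_lit 319) (nat_lit 287) (nat_lit 174)) (XT.lf (nat_lit 0) (nat_lit 1754679483) (nat_lit 608) (nat_lit 4944552787) (nat_lit 684) (nat_lit 9085052274) (nat_lit 252) (nat_lit 5) (nat_lit 260) (nat_lit 5) (nat_lit 261) (nat_lit 5) (nat_lit 320) (nat_lit 287) (nat_lit 173)))) (XT.nd (nat_lit 156) (nat_lit 1292) (nat_lit 0) (XT.nd (nat_lit 78) (nat_lit 684) (nat_lit 0) (XT.lf (nat_lit 0) (nat_lit 10230162812) (nat_lit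 684) (nat_lit 1887911632) (nat_lit 76) (nat_lit 3942066095) (nat_lit 252) (nat_lit 5) (nat_lit 261) (nat_lit 5) (nat_lit 253) (nat_lit 5) (nat_lit 321) (nat_lit 287) (nat_lit 172)) (XT.lf (nat_lit 0) (nat_lit 10703396679) (nat_lit 684) (nat_lit 3247165632) (nat_lit 760) (nat_lit 2392049975) (nat_lit 243) (nat_lit 5) (nat_lit 252) (nat_lit 5) (nat_lit 253) (nat_lit 5) (nat_lit 322) (nat_lit 287) (nat_lit 171))) (XT.nd (nat_lit 78) (nat_lit 608) (nat_lit 0) (XT.lf (nat_lit 0) (nat_lit 1213033807) (nat_lit 684) (nat_lit 9542184295) (nat_lit 76) (nat_lit 5876619495) (nat_lit 234) (nat_lit 5) (nat_lit 243) (nat_lit 5) (nat_lit 235) (nat_lit 5) (nat_lit 323) (nat_lit 287) (nat_lit 170)) (XT.lf (nat_lit 0) (nat_lit 3332493079) (nat_lit 608) (nat_lit 1624928745) (nat_lit 684) (nat_lit 11970738672) (nat_lit 226) (nat_lit 5) (nat_lit 234) (nat_lit 5) (nat_lit 235) (nat_lit 5) (nat_lit 324) (nat_lit 287)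 (nat_lit 169))))) (XT.nd (nat_lit 234) (nat_lit 1596) (nat_lit 0) (XT.nd (nat_lit 78) (nat_lit 1140) (nat_lit 0) (XT.lf (nat_lit 0) (nat_lit 8911757627) (nat_lit 684) (nat_lit 580833519) (nat_lit 76) (nat_lit 7738839388) (nat_lit 226) (nat_lit 5) (nat_lit 235) (nat_lit 5) (nat_lit 227) (nat_lit 5) (nat_lit 325) (nat_lit 287) (nat_lit 168)) (XT.nd (nat_lit 78) (nat_lit 608) (nat_lit 0) (XT.lf (nat_lit 0) (nat_lit 12962375912) (nat_lit 532) (nat_lit 99917169) (nat_lit 608) (nat_lit 4479963688) (nat_lit 219) (nat_lit 5) (nat_lit 226) (nat_lit 5) (nat_lit 227) (nat_lit 5) (nat_lit 326) (nat_lit 287) (nat_lit 167)) (XT.lf (nat_lit 0) (nat_lit 9093385094) (nat_lit 608) (nat_lit 8352017114) (nat_lit 684) (nat_lit 414853644) (nat_lit 211) (nat_lit 5) (nat_lit 219) (nat_lit 5) (nat_lit 220) (nat_lit 5) (nat_lit 327) (nat_lit 287) (nat_lit 166)))) (XT.nd (nat_lit 156) (nat_lit 456) (nat_lit 0) (XT.nd (nat_lit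 78) (nat_lit 532) (nat_lit 0) (XT.lf (nat_lit 0) (nat_lit 3779164694) (nat_lit 608) (nat_lit 13122358644) (nat_lit 76) (nat_lit 1284661939) (nat_lit 203) (nat_lit 5) (nat_lit 211) (nat_lit 5) (nat_lit 204) (nat_lit 5) (nat_lit 328) (nat_lit 287) (nat_lit 165)) (XT.lf (nat_lit 0) (nat_lit 839686594) (nat_lit 532) (nat_lit 7358282335) (nat_lit 608) (nat_lit 10321785294) (nat_lit 196) (nat_lit 5) (nat_lit 203) (nat_lit 5) (nat_lit 204) (nat_lit 5) (nat_lit 329) (nat_lit 287) (nat_lit 164))) (XT.nd (nat_lit 78) (nat_lit 456) (nat_lit 0) (XT.lf (nat_lit 0) (nat_lit 12838673837) (nat_lit 608) (nat_lit 3498980361) (nat_lit 76) (nat_lit 2523897573) (nat_lit 196) (nat_lit 5) (nat_lit 204) (nat_lit 5) (nat_lit 197) (nat_lit 5) (nat_lit 330) (nat_lit 287) (nat_lit 163)) (XT.lf (nat_lit 0) (nat_lit 11184622935) (nat_lit 456) (nat_lit 6540056814) (nat_lit 532) (nat_lit 1486809924) (nat_lit 190) (nat_lit 5)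 (nat_lit 196) (nat_lit 5) (nat_lit 197) (nat_lit 5) (nat_lit 331) (nat_lit 287) (nat_lit 162))))))))
noncomputable def xc95 : XT := (XT.nd (nat_lit 37206) (nat_lit 0) (nat_lit 16112) (XT.nd (nat_lit 1014) (nat_lit 3268) (nat_lit 0) (XT.nd (nat_lit 468) (nat_lit 2128) (nat_lit 0) (XT.nd (nat_lit 234) (nat_lit 1444) (nat_lit 0) (XT.nd (nat_lit 78) (nat_lit 456) (nat_lit 0) (XT.lf (nat_lit 0) (nat_lit 3219888659) (nat_lit 608) (nat_lit 12760397911) (nat_lit 76) (nat_lit 3589706657) (nat_lit 182) (nat_lit 5) (nat_lit 190) (nat_lit 5) (nat_lit 183) (nat_lit 5) (nat_lit 332) (nat_lit 287) (nat_lit 161)) (XT.nd (nat_lit 78) (nat_lit 0) (nat_lit 0) (XT.lf (nat_lit 0) (nat_lit 2217674388) (nat_lit 456) (nat_lit 5927680950) (nat_lit 532) (nat_lit 11791752067) (nat_lit 176) (nat_lit 5) (nat_lit 182) (nat_lit 5) (nat_lit 183) (nat_lit 5) (nat_lit 333) (nat_lit 287) (nat_lit 160)) (XT.lf (nat_lit 0) (nat_lit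 13319413360) (nat_lit 532) (nat_lit 2543239511) (nat_lit 76) (nat_lit 4450572788) (nat_lit 176) (nat_lit 5) (nat_lit 183) (nat_lit 5) (nat_lit 177) (nat_lit 5) (nat_lit 334) (nat_lit 287) (nat_lit 159)))) (XT.nd (nat_lit 78) (nat_lit 988) (nat_lit 0) (XT.lf (nat_lit 0) (nat_lit 13202158481) (nat_lit 456) (nat_lit 5557374807) (nat_lit 532) (nat_lit 1938884362) (nat_lit 170) (nat_lit 5) (nat_lit 176) (nat_lit 5) (nat_lit 177) (nat_lit 5) (nat_lit 335) (nat_lit 287) (nat_lit 158)) (XT.nd (nat_lit 78) (nat_lit 456) (nat_lit 0) (XT.lf (nat_lit 0) (nat_lit 3316011034) (nat_lit 532) (nat_lit 12697342525) (nat_lit 76) (nat_lit 5079570654) (nat_lit 163) (nat_lit 5) (nat_lit 170) (nat_lit 5) (nat_lit 164) (nat_lit 5) (nat_lit 336) (nat_lit 287) (nat_lit 157)) (XT.lf (nat_lit 0) (nat_lit 3342501973) (nat_lit 456) (nat_lit 5455797762) (nat_lit 532) (nat_lit 12698794610) (nat_lit 157) (nat_lit 5) (nat_lit 163)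 (nat_lit 5) (nat_lit 164) (nat_lit 5) (nat_lit 337) (nat_lit 287) (nat_lit 156))))) (XT.nd (nat_lit 234) (nat_lit 1216) (nat_lit 0) (XT.nd (nat_lit 78) (nat_lit 912) (nat_lit 0) (XT.lf (nat_lit 0) (nat_lit 14553037943) (nat_lit 532) (nat_lit 1929412419) (nat_lit 76) (nat_lit 5428785874) (nat_lit 157) (nat_lit 5) (nat_lit 164) (nat_lit 5) (nat_lit 158) (nat_lit 5) (nat_lit 338) (nat_lit 287) (nat_lit 155)) (XT.nd (nat_lit 78) (nat_lit 532) (nat_lit 0) (XT.lf (nat_lit 0) (nat_lit 14922979925) (nat_lit 380) (nat_lit 5677405276) (nat_lit 456) (nat_lit 1735023934) (nat_lit 152) (nat_lit 5) (nat_lit 157) (nat_lit 5) (nat_lit 158) (nat_lit 5) (nat_lit 339) (nat_lit 287) (nat_lit 154)) (XT.lf (nat_lit 0) (nat_lit 4102041985) (nat_lit 532) (nat_lit 13190225418) (nat_lit 76) (nat_lit 5477550765) (nat_lit 145) (nat_lit 5) (nat_lit 152) (nat_lit 5) (nat_lit 146) (nat_lit 5) (nat_lit 340) (nat_lit 287) (nat_lit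 153)))) (XT.nd (nat_lit 156) (nat_lit 836) (nat_lit 0) (XT.nd (nat_lit 78) (nat_lit 0) (nat_lit 0) (XT.lf (nat_lit 0) (nat_lit 3949904253) (nat_lit 380) (nat_lit 6242052859) (nat_lit 456) (nat_lit 13023052429) (nat_lit 140) (nat_lit 5) (nat_lit 145) (nat_lit 5) (nat_lit 146) (nat_lit 5) (nat_lit 341) (nat_lit 287) (nat_lit 152)) (XT.lf (nat_lit 0) (nat_lit 16575137582) (nat_lit 456) (nat_lit 1939445837) (nat_lit 76) (nat_lit 5156767341) (nat_lit 140) (nat_lit 5) (nat_lit 146) (nat_lit 5) (nat_lit 141) (nat_lit 5) (nat_lit 342) (nat_lit 287) (nat_lit 151))) (XT.nd (nat_lit 78) (nat_lit 456) (nat_lit 0) (XT.lf (nat_lit 0) (nat_lit 16056865159) (nat_lit 380) (nat_lit 7226540287) (nat_lit 456) (nat_lit 855310233) (nat_lit 135) (nat_lit 5) (nat_lit 140) (nat_lit 5) (nat_lit 141) (nat_lit 5) (nat_lit 343) (nat_lit 287) (nat_lit 150)) (XT.lf (nat_lit 0) (nat_lit 5595443190) (nat_lit 456) (nat_lit 14569509874)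 (nat_lit 76) (nat_lit 4452515643) (nat_lit 129) (nat_lit 5) (nat_lit 135) (nat_lit 5) (nat_lit 130) (nat_lit 5) (nat_lit 344) (nat_lit 287) (nat_lit 149)))))) (XT.nd (nat_lit 546) (nat_lit 1444) (nat_lit 0) (XT.nd (nat_lit 234) (nat_lit 1064) (nat_lit 0) (XT.nd (nat_lit 78) (nat_lit 380) (nat_lit 0) (XT.lf (nat_lit 0) (nat_lit 3699145180) (nat_lit 380) (nat_lit 8644456502) (nat_lit 456) (nat_lit 12764564418) (nat_lit 124) (nat_lit 5) (nat_lit 129) (nat_lit 5) (nat_lit 130) (nat_lit 5) (nat_lit 345) (nat_lit 287) (nat_lit 148)) (XT.nd (nat_lit 78) (nat_lit 380) (nat_lit 0) (XT.lf (nat_lit 0) (nat_lit 19402668067) (nat_lit 456) (nat_lit 2935566214) (nat_lit 76) (nat_lit 3273185628) (nat_lit 124) (nat_lit 5) (nat_lit 130) (nat_lit 5) (nat_lit 125) (nat_lit 5) (nat_lit 346) (nat_lit 287) (nat_lit 147)) (XT.lf (nat_lit 0) (nat_lit 689298397) (nat_lit 380) (nat_lit 9901295209) (nat_lit 76) (nat_lit 15536057760)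 (nat_lit 119) (nat_lit 5) (nat_lit 124) (nat_lit 5) (nat_lit 120) (nat_lit 5) (nat_lit 347) (nat_lit 287) (nat_lit 146)))) (XT.nd (nat_lit 156) (nat_lit 380) (nat_lit 0) (XT.nd (nat_lit 78) (nat_lit 304) (nat_lit 0) (XT.lf (nat_lit 0) (nat_lit 7790763357) (nat_lit 456) (nat_lit 17256635213) (nat_lit 76) (nat_lit 1607508281) (nat_lit 114) (nat_lit 5) (nat_lit 120) (nat_lit 5) (nat_lit 115) (nat_lit 5) (nat_lit 348) (nat_lit 287) (nat_lit 145)) (XT.lf (nat_lit 0) (nat_lit 2154728478) (nat_lit 304) (nat_lit 13091736699) (nat_lit 380) (nat_lit 11949725235) (nat_lit 110) (nat_lit 5) (nat_lit 114) (nat_lit 5) (nat_lit 115) (nat_lit 5) (nat_lit 349) (nat_lit 287) (nat_lit 144))) (XT.nd (nat_lit 78) (nat_lit 380) (nat_lit 0) (XT.lf (nat_lit 0) (nat_lit 22367968917) (nat_lit 304) (nat_lit 663862668) (nat_lit 380) (nat_lit 4719765169) (nat_lit 110) (nat_lit 5) (nat_lit 114) (nat_lit 5) (nat_lit 115) (nat_lit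 5) (nat_lit 350) (nat_lit 287) (nat_lit 143)) (XT.lf (nat_lit 0) (nat_lit 2857721265) (nat_lit 380) (nat_lit 13374124423) (nat_lit 76) (nat_lit 12088141543) (nat_lit 105) (nat_lit 5) (nat_lit 110) (nat_lit 5) (nat_lit 106) (nat_lit 5) (nat_lit 351) (nat_lit 287) (nat_lit 142))))) (XT.nd (nat_lit 234) (nat_lit 836) (nat_lit 0) (XT.nd (nat_lit 78) (nat_lit 304) (nat_lit 0) (XT.lf (nat_lit 0) (nat_lit 7094786901) (nat_lit 304) (nat_lit 3580686723) (nat_lit 380) (nat_lit 18227794387) (nat_lit 101) (nat_lit 5) (nat_lit 105) (nat_lit 5) (nat_lit 106) (nat_lit 5) (nat_lit 352) (nat_lit 287) (nat_lit 141)) (XT.nd (nat_lit 78) (nat_lit 304) (nat_lit 0) (XT.lf (nat_lit 0) (nat_lit 18869980382) (nat_lit 380) (nat_lit 1219516244) (nat_lit 76) (nat_lit 9411709871) (nat_lit 101) (nat_lit 5) (nat_lit 106) (nat_lit 5) (nat_lit 102) (nat_lit 5) (nat_lit 353) (nat_lit 287) (nat_lit 140)) (XT.lf (nat_lit 0) (nat_lit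 20212575756) (nat_lit 304) (nat_lit 7242866103) (nat_lit 380) (nat_lit 2658742499) (nat_lit 97) (nat_lit 5) (nat_lit 101) (nat_lit 5) (nat_lit 102) (nat_lit 5) (nat_lit 354) (nat_lit 287) (nat_lit 139)))) (XT.nd (nat_lit 156) (nat_lit 228) (nat_lit 0) (XT.nd (nat_lit 78) (nat_lit 304) (nat_lit 0) (XT.lf (nat_lit 0) (nat_lit 5593821036) (nat_lit 304) (nat_lit 19122810451) (nat_lit 76) (nat_lit 6025927781) (nat_lit 93) (nat_lit 5) (nat_lit 97) (nat_lit 5) (nat_lit 94) (nat_lit 5) (nat_lit 355) (nat_lit 287) (nat_lit 138)) (XT.lf (nat_lit 0) (nat_lit 2484281047) (nat_lit 304) (nat_lit 11696089276) (nat_lit 380) (nat_lit 17206616339) (nat_lit 89) (nat_lit 5) (nat_lit 93) (nat_lit 5) (nat_lit 94) (nat_lit 5) (nat_lit 356) (nat_lit 287) (nat_lit 137))) (XT.nd (nat_lit 78) (nat_lit 228) (nat_lit 0) (XT.lf (nat_lit 0) (nat_lit 23156459497) (nat_lit 380) (nat_lit 7074193097) (nat_lit 76) (nat_lit 1817458655)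 (nat_lit 89) (nat_lit 5) (nat_lit 94) (nat_lit 5) (nat_lit 90) (nat_lit 5) (nat_lit 357) (nat_lit 287) (nat_lit 136)) (XT.lf (nat_lit 0) (nat_lit 15519562164) (nat_lit 228) (nat_lit 17051897635) (nat_lit 304) (nat_lit 154220349) (nat_lit 86) (nat_lit 5) (nat_lit 89) (nat_lit 5) (nat_lit 90) (nat_lit 5) (nat_lit 358) (nat_lit 287) (nat_lit 135))))))) (XT.nd (nat_lit 1092) (nat_lit 9348) (nat_lit 0) (XT.nd (nat_lit 546) (nat_lit 0) (nat_lit 76) (XT.nd (nat_lit 234) (nat_lit 1368) (nat_lit 0) (XT.nd (nat_lit 78) (nat_lit 0) (nat_lit 0) (XT.lf (nat_lit 0) (nat_lit 2008464109) (nat_lit 1596) (nat_lit 1457246045) (nat_lit 1596) (nat_lit 1457246045) (nat_lit 439) (nat_lit 3) (nat_lit 460) (nat_lit 3) (nat_lit 460) (nat_lit 5) (nat_lit 288) (nat_lit 288) (nat_lit 204)) (XT.nd (nat_lit 78) (nat_lit 0) (nat_lit 76) (XT.lf (nat_lit 76) (nat_lit 3948426515) (nat_lit 0) (nat_lit 1202017960) (nat_lit 1596) (nat_lit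 4820920940) (nat_lit 440) (nat_lit 5) (nat_lit 439) (nat_lit 3) (nat_lit 460) (nat_lit 5) (nat_lit 289) (nat_lit 288) (nat_lit 203)) (XT.lf (nat_lit 76) (nat_lit 916190363) (nat_lit 0) (nat_lit 5417221289) (nat_lit 1596) (nat_lit 3766891527) (nat_lit 441) (nat_lit 5) (nat_lit 440) (nat_lit 5) (nat_lit 461) (nat_lit 5) (nat_lit 290) (nat_lit 288) (nat_lit 202)))) (XT.nd (nat_lit 156) (nat_lit 1520) (nat_lit 0) (XT.nd (nat_lit 78) (nat_lit 0) (nat_lit 0) (XT.lf (nat_lit 0) (nat_lit 7564427107) (nat_lit 1520) (nat_lit 2120537577) (nat_lit 1596) (nat_lit 547922398) (nat_lit 441) (nat_lit 5) (nat_lit 461) (nat_lit 5) (nat_lit 462) (nat_lit 5) (nat_lit 291) (nat_lit 288) (nat_lit 201)) (XT.lf (nat_lit 76) (nat_lit 5164402735) (nat_lit 0) (nat_lit 3699158490) (nat_lit 1596) (nat_lit 1505291854) (nat_lit 442) (nat_lit 5) (nat_lit 441) (nat_lit 5) (nat_lit 462) (nat_lit 5) (nat_lit 292) (nat_lit 288) (nat_lit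 200))) (XT.nd (nat_lit 78) (nat_lit 1596) (nat_lit 0) (XT.lf (nat_lit 76) (nat_lit 2178195058) (nat_lit 0) (nat_lit 8030609448) (nat_lit 1596) (nat_lit 299978365) (nat_lit 443) (nat_lit 5) (nat_lit 442) (nat_lit 5) (nat_lit 463) (nat_lit 5) (nat_lit 293) (nat_lit 288) (nat_lit 199)) (XT.lf (nat_lit 0) (nat_lit 952580302) (nat_lit 1596) (nat_lit 852451131) (nat_lit 1672) (nat_lit 8847314384) (nat_lit 421) (nat_lit 5) (nat_lit 442) (nat_lit 5) (nat_lit 443) (nat_lit 5) (nat_lit 294) (nat_lit 288) (nat_lit 198))))) (XT.nd (nat_lit 234) (nat_lit 0) (nat_lit 152) (XT.nd (nat_lit 78) (nat_lit 0) (nat_lit 76) (XT.lf (nat_lit 0) (nat_lit 2278151461) (nat_lit 1596) (nat_lit 3913652659) (nat_lit 1672) (nat_lit 4607607078) (nat_lit 422) (nat_lit 5) (nat_lit 443) (nat_lit 5) (nat_lit 444) (nat_lit 5) (nat_lit 295) (nat_lit 288) (nat_lit 197)) (XT.nd (nat_lit 78) (nat_lit 0) (nat_lit 0) (XT.lf (nat_lit 0) (nat_lit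 3653999626) (nat_lit 1596) (nat_lit 7018581497) (nat_lit 1672) (nat_lit 278121906) (nat_lit 423) (nat_lit 5) (nat_lit 444) (nat_lit 5) (nat_lit 445) (nat_lit 5) (nat_lit 296) (nat_lit 288) (nat_lit 196)) (XT.lf (nat_lit 76) (nat_lit 908244905) (nat_lit 0) (nat_lit 4203075170) (nat_lit 1672) (nat_lit 5994433573) (nat_lit 424) (nat_lit 5) (nat_lit 423) (nat_lit 5) (nat_lit 445) (nat_lit 5) (nat_lit 297) (nat_lit 288) (nat_lit 195)))) (XT.nd (nat_lit 156) (nat_lit 0) (nat_lit 76) (XT.nd (nat_lit 78) (nat_lit 0) (nat_lit 0) (XT.lf (nat_lit 0) (nat_lit 6643313117) (nat_lit 1596) (nat_lit 2135146002) (nat_lit 1672) (nat_lit 2486400877) (nat_lit 424) (nat_lit 5) (nat_lit 445) (nat_lit 5) (nat_lit 446) (nat_lit 5) (nat_lit 298) (nat_lit 288) (nat_lit 194)) (XT.lf (nat_lit 76) (nat_lit 6199669477) (nat_lit 0) (nat_lit 2058017427) (nat_lit 1672) (nat_lit 3170346802) (nat_lit 425) (nat_lit 5) (nat_lit 424)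 (nat_lit 5) (nat_lit 446) (nat_lit 5) (nat_lit 299) (nat_lit 288) (nat_lit 193))) (XT.nd (nat_lit 78) (nat_lit 0) (nat_lit 76) (XT.lf (nat_lit 76) (nat_lit 3205348822) (nat_lit 0) (nat_lit 6751003470) (nat_lit 1672) (nat_lit 1639055063) (nat_lit 426) (nat_lit 5) (nat_lit 425) (nat_lit 5) (nat_lit 447) (nat_lit 5) (nat_lit 300) (nat_lit 288) (nat_lit 192)) (XT.lf (nat_lit 76) (nat_lit 160452938) (nat_lit 0) (nat_lit 11566645165) (nat_lit 1672) (nat_lit 40302998) (nat_lit 427) (nat_lit 5) (nat_lit 426) (nat_lit 5) (nat_lit 448) (nat_lit 5) (nat_lit 301) (nat_lit 288) (nat_lit 191)))))) (XT.nd (nat_lit 546) (nat_lit 4180) (nat_lit 0) (XT.nd (nat_lit 234) (nat_lit 3876) (nat_lit 0) (XT.nd (nat_lit 78) (nat_lit 0) (nat_lit 76) (XT.lf (nat_lit 0) (nat_lit 1657951577) (nat_lit 1672) (nat_lit 2940347064) (nat_lit 1748) (nat_lit 7344615522) (nat_lit 404) (nat_lit 5) (nat_lit 426) (nat_lit 5) (nat_lit 427)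 (nat_lit 5) (nat_lit 302) (nat_lit 288) (nat_lit 190)) (XT.nd (nat_lit 78) (nat_lit 0) (nat_lit 0) (XT.lf (nat_lit 0) (nat_lit 3433987809) (nat_lit 1672) (nat_lit 6097937088) (nat_lit 1748) (nat_lit 2591234440) (nat_lit 405) (nat_lit 5) (nat_lit 427) (nat_lit 5) (nat_lit 428) (nat_lit 5) (nat_lit 303) (nat_lit 288) (nat_lit 189)) (XT.lf (nat_lit 76) (nat_lit 2976876168) (nat_lit 0) (nat_lit 2328398510) (nat_lit 1748) (nat_lit 7002716904) (nat_lit 406) (nat_lit 5) (nat_lit 405) (nat_lit 5) (nat_lit 428) (nat_lit 5) (nat_lit 304) (nat_lit 288) (nat_lit 188)))) (XT.nd (nat_lit 156) (nat_lit 2356) (nat_lit 0) (XT.nd (nat_lit 78) (nat_lit 1672) (nat_lit 0) (XT.lf (nat_lit 0) (nat_lit 7279891802) (nat_lit 1672) (nat_lit 146574435) (nat_lit 76) (nat_lit 5070977275) (nat_lit 406) (nat_lit 5) (nat_lit 428) (nat_lit 5) (nat_lit 407) (nat_lit 5) (nat_lit 305) (nat_lit 288) (nat_lit 187)) (XT.lf (nat_lit 0)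 (nat_lit 9363909837) (nat_lit 1748) (nat_lit 3293060972) (nat_lit 76) (nat_lit 34622952) (nat_lit 384) (nat_lit 5) (nat_lit 407) (nat_lit 5) (nat_lit 385) (nat_lit 5) (nat_lit 306) (nat_lit 288) (nat_lit 186))) (XT.nd (nat_lit 78) (nat_lit 912) (nat_lit 0) (XT.lf (nat_lit 0) (nat_lit 6351447783) (nat_lit 1444) (nat_lit 5224901781) (nat_lit 1520) (nat_lit 1313918414) (nat_lit 365) (nat_lit 5) (nat_lit 384) (nat_lit 5) (nat_lit 385) (nat_lit 5) (nat_lit 307) (nat_lit 288) (nat_lit 185)) (XT.lf (nat_lit 0) (nat_lit 784404032) (nat_lit 912) (nat_lit 9859737885) (nat_lit 76) (nat_lit 2449996128) (nat_lit 353) (nat_lit 5) (nat_lit 365) (nat_lit 5) (nat_lit 354) (nat_lit 5) (nat_lit 308) (nat_lit 288) (nat_lit 184))))) (XT.nd (nat_lit 234) (nat_lit 2432) (nat_lit 0) (XT.nd (nat_lit 78) (nat_lit 836) (nat_lit 0) (XT.lf (nat_lit 0) (nat_lit 20543112) (nat_lit 912) (nat_lit 2962106247) (nat_lit 988) (nat_lit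 10320220829) (nat_lit 341) (nat_lit 5) (nat_lit 353) (nat_lit 5) (nat_lit 354) (nat_lit 5) (nat_lit 309) (nat_lit 288) (nat_lit 183)) (XT.nd (nat_lit 78) (nat_lit 836) (nat_lit 0) (XT.lf (nat_lit 0) (nat_lit 5321877692) (nat_lit 988) (nat_lit 3239852061) (nat_lit 76) (nat_lit 4954649517) (nat_lit 341) (nat_lit 5) (nat_lit 354) (nat_lit 5) (nat_lit 342) (nat_lit 5) (nat_lit 310) (nat_lit 288) (nat_lit 182)) (XT.lf (nat_lit 0) (nat_lit 7155669656) (nat_lit 836) (nat_lit 618230285) (nat_lit 912) (nat_lit 5961556572) (nat_lit 330) (nat_lit 5) (nat_lit 341) (nat_lit 5) (nat_lit 342) (nat_lit 5) (nat_lit 311) (nat_lit 288) (nat_lit 181)))) (XT.nd (nat_lit 156) (nat_lit 836) (nat_lit 0) (XT.nd (nat_lit 78) (nat_lit 760) (nat_lit 0) (XT.lf (nat_lit 0) (nat_lit 3926592534) (nat_lit 836) (nat_lit 6446494990) (nat_lit 912) (nat_lit 3586561243) (nat_lit 319) (nat_lit 5) (nat_lit 330) (nat_lit 5) (nat_lit 331)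 (nat_lit 5) (nat_lit 312) (nat_lit 288) (nat_lit 180)) (XT.lf (nat_lit 0) (nat_lit 618800634) (nat_lit 760) (nat_lit 12472863491) (nat_lit 836) (nat_lit 1098088752) (nat_lit 309) (nat_lit 5) (nat_lit 319) (nat_lit 5) (nat_lit 320) (nat_lit 5) (nat_lit 313) (nat_lit 288) (nat_lit 179))) (XT.nd (nat_lit 78) (nat_lit 760) (nat_lit 0) (XT.lf (nat_lit 0) (nat_lit 1535161816) (nat_lit 836) (nat_lit 2773365665) (nat_lit 76) (nat_lit 10116269292) (nat_lit 308) (nat_lit 5) (nat_lit 319) (nat_lit 5) (nat_lit 309) (nat_lit 5) (nat_lit 314) (nat_lit 288) (nat_lit 178)) (XT.lf (nat_lit 0) (nat_lit 4292778016) (nat_lit 836) (nat_lit 6263555064) (nat_lit 76) (nat_lit 4109221267) (nat_lit 298) (nat_lit 5) (nat_lit 309) (nat_lit 5) (nat_lit 299) (nat_lit 5) (nat_lit 315) (nat_lit 288) (nat_lit 177))))))))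
noncomputable def xc96 : XT := (XT.nd (nat_lit 2106) (nat_lit 3876) (nat_lit 0) (XT.nd (nat_lit 1014) (nat_lit 5320) (nat_lit 0) (XT.nd (nat_lit 468) (nat_lit 3192) (nat_lit 0) (XT.nd (nat_lit 234) (nat_lit 2052) (nat_lit 0) (XT.nd (nat_lit 78) (nat_lit 760) (nat_lit 0) (XT.lf (nat_lit 0) (nat_lit 5052896068) (nat_lit 684) (nat_lit 2139687698) (nat_lit 760) (nat_lit 7719774544) (nat_lit 289) (nat_lit 5) (nat_lit 298) (nat_lit 5) (nat_lit 299) (nat_lit 5) (nat_lit 316) (nat_lit 288) (nat_lit 176)) (XT.nd (nat_lit 78) (nat_lit 0) (nat_lit 0) (XT.lf (nat_lit 0) (nat_lit 1585044577) (nat_lit 760) (nat_lit 8669140694) (nat_lit 836) (nat_lit 4910897593) (nat_lit 279) (nat_lit 5) (nat_lit 289) (nat_lit 5) (nat_lit 290) (nat_lit 5) (nat_lit 317) (nat_lit 288) (nat_lit 175)) (XT.lf (nat_lit 0) (nat_lit 13468533827) (nat_lit 836) (nat_lit 1952432527) (nat_lit 76) (nat_lit 3216961) (nat_lit 279) (nat_lit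 5) (nat_lit 290) (nat_lit 5) (nat_lit 280) (nat_lit 5) (nat_lit 318) (nat_lit 288) (nat_lit 174)))) (XT.nd (nat_lit 78) (nat_lit 1292) (nat_lit 0) (XT.lf (nat_lit 0) (nat_lit 1178489295) (nat_lit 760) (nat_lit 5619897085) (nat_lit 76) (nat_lit 8890450525) (nat_lit 269) (nat_lit 5) (nat_lit 279) (nat_lit 5) (nat_lit 270) (nat_lit 5) (nat_lit 319) (nat_lit 288) (nat_lit 173)) (XT.nd (nat_lit 78) (nat_lit 608) (nat_lit 0) (XT.lf (nat_lit 0) (nat_lit 4430890674) (nat_lit 760) (nat_lit 9406182798) (nat_lit 76) (nat_lit 2123093153) (nat_lit 260) (nat_lit 5) (nat_lit 270) (nat_lit 5) (nat_lit 261) (nat_lit 5) (nat_lit 320) (nat_lit 288) (nat_lit 172)) (XT.lf (nat_lit 0) (nat_lit 2902190034) (nat_lit 608) (nat_lit 4962453046) (nat_lit 684) (nat_lit 8373328469) (nat_lit 252) (nat_lit 5) (nat_lit 260) (nat_lit 5) (nat_lit 261) (nat_lit 5) (nat_lit 321) (nat_lit 288) (nat_lit 171))))) (XT.nd (nat_lit 234)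 (nat_lit 1824) (nat_lit 0) (XT.nd (nat_lit 78) (nat_lit 1368) (nat_lit 0) (XT.lf (nat_lit 0) (nat_lit 11474233445) (nat_lit 684) (nat_lit 863126827) (nat_lit 76) (nat_lit 4185304417) (nat_lit 252) (nat_lit 5) (nat_lit 261) (nat_lit 5) (nat_lit 253) (nat_lit 5) (nat_lit 322) (nat_lit 288) (nat_lit 170)) (XT.nd (nat_lit 78) (nat_lit 684) (nat_lit 0) (XT.lf (nat_lit 0) (nat_lit 12088375944) (nat_lit 684) (nat_lit 3197480293) (nat_lit 760) (nat_lit 1528177759) (nat_lit 243) (nat_lit 5) (nat_lit 252) (nat_lit 5) (nat_lit 253) (nat_lit 5) (nat_lit 323) (nat_lit 288) (nat_lit 169)) (XT.lf (nat_lit 0) (nat_lit 2153782304) (nat_lit 684) (nat_lit 8751706997) (nat_lit 76) (nat_lit 6206720254) (nat_lit 234) (nat_lit 5) (nat_lit 243) (nat_lit 5) (nat_lit 235) (nat_lit 5) (nat_lit 324) (nat_lit 288) (nat_lit 168)))) (XT.nd (nat_lit 156) (nat_lit 684) (nat_lit 0) (XT.nd (nat_lit 78) (nat_lit 532) (nat_lit 0)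 (XT.lf (nat_lit 0) (nat_lit 4491741825) (nat_lit 608) (nat_lit 1499297137) (nat_lit 684) (nat_lit 11426786887) (nat_lit 226) (nat_lit 5) (nat_lit 234) (nat_lit 5) (nat_lit 235) (nat_lit 5) (nat_lit 325) (nat_lit 288) (nat_lit 167)) (XT.lf (nat_lit 0) (nat_lit 452650129) (nat_lit 532) (nat_lit 9589619200) (nat_lit 608) (nat_lit 7688373395) (nat_lit 219) (nat_lit 5) (nat_lit 226) (nat_lit 5) (nat_lit 227) (nat_lit 5) (nat_lit 326) (nat_lit 288) (nat_lit 166))) (XT.nd (nat_lit 78) (nat_lit 684) (nat_lit 0) (XT.lf (nat_lit 0) (nat_lit 14296542175) (nat_lit 608) (nat_lit 3672508532) (nat_lit 76) (nat_lit 82172232) (nat_lit 219) (nat_lit 5) (nat_lit 227) (nat_lit 5) (nat_lit 220) (nat_lit 5) (nat_lit 327) (nat_lit 288) (nat_lit 165)) (XT.lf (nat_lit 0) (nat_lit 409367126) (nat_lit 684) (nat_lit 7988464855) (nat_lit 76) (nat_lit 9981233721) (nat_lit 210) (nat_lit 5) (nat_lit 219) (nat_lit 5) (nat_lit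 211) (nat_lit 5) (nat_lit 328) (nat_lit 288) (nat_lit 164)))))) (XT.nd (nat_lit 546) (nat_lit 2736) (nat_lit 0) (XT.nd (nat_lit 234) (nat_lit 1520) (nat_lit 0) (XT.nd (nat_lit 78) (nat_lit 532) (nat_lit 0) (XT.lf (nat_lit 0) (nat_lit 4707382728) (nat_lit 608) (nat_lit 12478905454) (nat_lit 76) (nat_lit 1528766310) (nat_lit 203) (nat_lit 5) (nat_lit 211) (nat_lit 5) (nat_lit 204) (nat_lit 5) (nat_lit 329) (nat_lit 288) (nat_lit 163)) (XT.nd (nat_lit 78) (nat_lit 0) (nat_lit 0) (XT.lf (nat_lit 0) (nat_lit 1885175037) (nat_lit 532) (nat_lit 7356467209) (nat_lit 608) (nat_lit 9817342655) (nat_lit 196) (nat_lit 5) (nat_lit 203) (nat_lit 5) (nat_lit 204) (nat_lit 5) (nat_lit 330) (nat_lit 288) (nat_lit 162)) (XT.lf (nat_lit 0) (nat_lit 13999736266) (nat_lit 608) (nat_lit 2598886895) (nat_lit 76) (nat_lit 2812861718) (nat_lit 196) (nat_lit 5) (nat_lit 204) (nat_lit 5) (nat_lit 197) (nat_lit 5) (nat_lit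 331) (nat_lit 288) (nat_lit 161)))) (XT.nd (nat_lit 156) (nat_lit 456) (nat_lit 0) (XT.nd (nat_lit 78) (nat_lit 608) (nat_lit 0) (XT.lf (nat_lit 0) (nat_lit 12508918549) (nat_lit 456) (nat_lit 6507224378) (nat_lit 532) (nat_lit 756113095) (nat_lit 190) (nat_lit 5) (nat_lit 196) (nat_lit 5) (nat_lit 197) (nat_lit 5) (nat_lit 332) (nat_lit 288) (nat_lit 160)) (XT.lf (nat_lit 0) (nat_lit 4067234039) (nat_lit 608) (nat_lit 12146289193) (nat_lit 76) (nat_lit 3928189421) (nat_lit 182) (nat_lit 5) (nat_lit 190) (nat_lit 5) (nat_lit 183) (nat_lit 5) (nat_lit 333) (nat_lit 288) (nat_lit 159))) (XT.nd (nat_lit 78) (nat_lit 0) (nat_lit 0) (XT.lf (nat_lit 0) (nat_lit 3264951422) (nat_lit 456) (nat_lit 5860014487) (nat_lit 532) (nat_lit 11395194966) (nat_lit 176) (nat_lit 5) (nat_lit 182) (nat_lit 5) (nat_lit 183) (nat_lit 5) (nat_lit 334) (nat_lit 288) (nat_lit 158)) (XT.lf (nat_lit 0) (nat_lit 14434378130)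 (nat_lit 532) (nat_lit 1654281721) (nat_lit 76) (nat_lit 4819310511) (nat_lit 176) (nat_lit 5) (nat_lit 183) (nat_lit 5) (nat_lit 177) (nat_lit 5) (nat_lit 335) (nat_lit 288) (nat_lit 157))))) (XT.nd (nat_lit 234) (nat_lit 1292) (nat_lit 0) (XT.nd (nat_lit 78) (nat_lit 988) (nat_lit 0) (XT.lf (nat_lit 0) (nat_lit 14547818096) (nat_lit 456) (nat_lit 5475212580) (nat_lit 532) (nat_lit 1281990887) (nat_lit 170) (nat_lit 5) (nat_lit 176) (nat_lit 5) (nat_lit 177) (nat_lit 5) (nat_lit 336) (nat_lit 288) (nat_lit 156)) (XT.nd (nat_lit 78) (nat_lit 456) (nat_lit 0) (XT.lf (nat_lit 0) (nat_lit 4108386038) (nat_lit 532) (nat_lit 12122021373) (nat_lit 76) (nat_lit 5481128352) (nat_lit 163) (nat_lit 5) (nat_lit 170) (nat_lit 5) (nat_lit 164) (nat_lit 5) (nat_lit 337) (nat_lit 288) (nat_lit 155)) (XT.lf (nat_lit 0) (nat_lit 4383504579) (nat_lit 456) (nat_lit 5357565250) (nat_lit 532) (nat_lit 12387051911)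 (nat_lit 157) (nat_lit 5) (nat_lit 163) (nat_lit 5) (nat_lit 164) (nat_lit 5) (nat_lit 338) (nat_lit 288) (nat_lit 154)))) (XT.nd (nat_lit 156) (nat_lit 912) (nat_lit 0) (XT.nd (nat_lit 78) (nat_lit 380) (nat_lit 0) (XT.lf (nat_lit 0) (nat_lit 15650329637) (nat_lit 532) (nat_lit 1062137013) (nat_lit 76) (nat_lit 5842592649) (nat_lit 157) (nat_lit 5) (nat_lit 164) (nat_lit 5) (nat_lit 158) (nat_lit 5) (nat_lit 339) (nat_lit 288) (nat_lit 153)) (XT.lf (nat_lit 0) (nat_lit 16280817516) (nat_lit 380) (nat_lit 5584945377) (nat_lit 456) (nat_lit 1126469918) (nat_lit 152) (nat_lit 5) (nat_lit 157) (nat_lit 5) (nat_lit 158) (nat_lit 5) (nat_lit 340) (nat_lit 288) (nat_lit 152))) (XT.nd (nat_lit 78) (nat_lit 380) (nat_lit 0) (XT.lf (nat_lit 0) (nat_lit 4865648957) (nat_lit 532) (nat_lit 12670414957) (nat_lit 76) (nat_lit 5903760639) (nat_lit 145) (nat_lit 5) (nat_lit 152) (nat_lit 5) (nat_lit 146) (nat_lit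 5) (nat_lit 341) (nat_lit 288) (nat_lit 151)) (XT.lf (nat_lit 0) (nat_lit 4969065424) (nat_lit 380) (nat_lit 6156387150) (nat_lit 456) (nat_lit 12773183347) (nat_lit 140) (nat_lit 5) (nat_lit 145) (nat_lit 5) (nat_lit 146) (nat_lit 5) (nat_lit 342) (nat_lit 288) (nat_lit 150))))))) (XT.nd (nat_lit 1014) (nat_lit 608) (nat_lit 0) (XT.nd (nat_lit 468) (nat_lit 1672) (nat_lit 0) (XT.nd (nat_lit 234) (nat_lit 760) (nat_lit 0) (XT.nd (nat_lit 78) (nat_lit 836) (nat_lit 0) (XT.lf (nat_lit 0) (nat_lit 17683565276) (nat_lit 456) (nat_lit 1112468121) (nat_lit 76) (nat_lit 5572973084) (nat_lit 140) (nat_lit 5) (nat_lit 146) (nat_lit 5) (nat_lit 141) (nat_lit 5) (nat_lit 343) (nat_lit 288) (nat_lit 149)) (XT.nd (nat_lit 78) (nat_lit 456) (nat_lit 0) (XT.lf (nat_lit 0) (nat_lit 17409371519) (nat_lit 380) (nat_lit 7171562300) (nat_lit 456) (nat_lit 269709088) (nat_lit 135) (nat_lit 5) (nat_lit 140) (nat_lit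 5) (nat_lit 141) (nat_lit 5) (nat_lit 344) (nat_lit 288) (nat_lit 148)) (XT.lf (nat_lit 0) (nat_lit 6356370672) (nat_lit 456) (nat_lit 14131499611) (nat_lit 76) (nat_lit 4856019703) (nat_lit 129) (nat_lit 5) (nat_lit 135) (nat_lit 5) (nat_lit 130) (nat_lit 5) (nat_lit 345) (nat_lit 288) (nat_lit 147)))) (XT.nd (nat_lit 78) (nat_lit 380) (nat_lit 0) (XT.lf (nat_lit 0) (nat_lit 4671017709) (nat_lit 380) (nat_lit 8624272017) (nat_lit 456) (nat_lit 12554259292) (nat_lit 124) (nat_lit 5) (nat_lit 129) (nat_lit 5) (nat_lit 130) (nat_lit 5) (nat_lit 346) (nat_lit 288) (nat_lit 146)) (XT.nd (nat_lit 78) (nat_lit 380) (nat_lit 0) (XT.lf (nat_lit 0) (nat_lit 20550956663) (nat_lit 456) (nat_lit 2178055121) (nat_lit 76) (nat_lit 3639198914) (nat_lit 124) (nat_lit 5) (nat_lit 130) (nat_lit 5) (nat_lit 125) (nat_lit 5) (nat_lit 347) (nat_lit 288) (nat_lit 145)) (XT.lf (nat_lit 0) (nat_lit 1268989762) (nat_lit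 380) (nat_lit 9358828832) (nat_lit 76) (nat_lit 16271235392) (nat_lit 119) (nat_lit 5) (nat_lit 124) (nat_lit 5) (nat_lit 120) (nat_lit 5) (nat_lit 348) (nat_lit 288) (nat_lit 144))))) (XT.nd (nat_lit 234) (nat_lit 988) (nat_lit 0) (XT.nd (nat_lit 78) (nat_lit 304) (nat_lit 0) (XT.lf (nat_lit 0) (nat_lit 8574382565) (nat_lit 456) (nat_lit 16939080409) (nat_lit 76) (nat_lit 1929882795) (nat_lit 114) (nat_lit 5) (nat_lit 120) (nat_lit 5) (nat_lit 115) (nat_lit 5) (nat_lit 349) (nat_lit 288) (nat_lit 143)) (XT.nd (nat_lit 78) (nat_lit 0) (nat_lit 0) (XT.lf (nat_lit 0) (nat_lit 3041073191) (nat_lit 304) (nat_lit 13202000891) (nat_lit 380) (nat_lit 11758013509) (nat_lit 110) (nat_lit 5) (nat_lit 114) (nat_lit 5) (nat_lit 115) (nat_lit 5) (nat_lit 350) (nat_lit 288) (nat_lit 142)) (XT.lf (nat_lit 0) (nat_lit 23836777750) (nat_lit 304) (nat_lit 409518442) (nat_lit 380) (nat_lit 4327179985) (nat_lit 110)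 (nat_lit 5) (nat_lit 114) (nat_lit 5) (nat_lit 115) (nat_lit 5) (nat_lit 351) (nat_lit 288) (nat_lit 141)))) (XT.nd (nat_lit 156) (nat_lit 304) (nat_lit 0) (XT.nd (nat_lit 78) (nat_lit 304) (nat_lit 0) (XT.lf (nat_lit 0) (nat_lit 3462197438) (nat_lit 380) (nat_lit 12974695072) (nat_lit 76) (nat_lit 12722130712) (nat_lit 105) (nat_lit 5) (nat_lit 110) (nat_lit 5) (nat_lit 106) (nat_lit 5) (nat_lit 352) (nat_lit 288) (nat_lit 140)) (XT.lf (nat_lit 0) (nat_lit 8095293947) (nat_lit 304) (nat_lit 3409193390) (nat_lit 380) (nat_lit 18255520485) (nat_lit 101) (nat_lit 5) (nat_lit 105) (nat_lit 5) (nat_lit 106) (nat_lit 5) (nat_lit 353) (nat_lit 288) (nat_lit 139))) (XT.nd (nat_lit 78) (nat_lit 304) (nat_lit 0) (XT.lf (nat_lit 0) (nat_lit 19931769501) (nat_lit 380) (nat_lit 483081562) (nat_lit 76) (nat_lit 9961299933) (nat_lit 101) (nat_lit 5) (nat_lit 106) (nat_lit 5) (nat_lit 102) (nat_lit 5) (nat_lit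 354) (nat_lit 288) (nat_lit 138)) (XT.lf (nat_lit 0) (nat_lit 21579431863) (nat_lit 304) (nat_lit 7185862927) (nat_lit 380) (nat_lit 2242418584) (nat_lit 97) (nat_lit 5) (nat_lit 101) (nat_lit 5) (nat_lit 102) (nat_lit 5) (nat_lit 355) (nat_lit 288) (nat_lit 137)))))) (XT.nd (nat_lit 35802) (nat_lit 0) (nat_lit 25232) (XT.nd (nat_lit 35490) (nat_lit 0) (nat_lit 25156) (XT.nd (nat_lit 78) (nat_lit 304) (nat_lit 0) (XT.lf (nat_lit 0) (nat_lit 6243638212) (nat_lit 304) (nat_lit 18933799853) (nat_lit 76) (nat_lit 6477593528) (nat_lit 93) (nat_lit 5) (nat_lit 97) (nat_lit 5) (nat_lit 94) (nat_lit 5) (nat_lit 356) (nat_lit 288) (nat_lit 136)) (XT.nd (nat_lit 35334) (nat_lit 0) (nat_lit 26600) (XT.lf (nat_lit 0) (nat_lit 3309130571) (nat_lit 304) (nat_lit 11769486080) (nat_lit 380) (nat_lit 17240363294) (nat_lit 89) (nat_lit 5) (nat_lit 93) (nat_lit 5) (nat_lit 94) (nat_lit 5) (nat_lit 357) (nat_lit 288)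 (nat_lit 135)) (XT.lf (nat_lit 0) (nat_lit 3106274135) (nat_lit 1596) (nat_lit 971428305) (nat_lit 1596) (nat_lit 971428305) (nat_lit 439) (nat_lit 3) (nat_lit 460) (nat_lit 3) (nat_lit 460) (nat_lit 5) (nat_lit 289) (nat_lit 289) (nat_lit 202)))) (XT.nd (nat_lit 156) (nat_lit 1444) (nat_lit 0) (XT.nd (nat_lit 78) (nat_lit 0) (nat_lit 76) (XT.lf (nat_lit 76) (nat_lit 5108767398) (nat_lit 0) (nat_lit 2217627083) (nat_lit 1596) (nat_lit 2902201573) (nat_lit 440) (nat_lit 5) (nat_lit 439) (nat_lit 3) (nat_lit 460) (nat_lit 5) (nat_lit 290) (nat_lit 289) (nat_lit 201)) (XT.lf (nat_lit 76) (nat_lit 2016147841) (nat_lit 0) (nat_lit 6470614593) (nat_lit 1596) (nat_lit 1875844434) (nat_lit 441) (nat_lit 5) (nat_lit 440) (nat_lit 5) (nat_lit 461) (nat_lit 5) (nat_lit 291) (nat_lit 289) (nat_lit 200))) (XT.nd (nat_lit 78) (nat_lit 1520) (nat_lit 0) (XT.lf (nat_lit 76) (nat_lit 9400741869) (nat_lit 0) (nat_lit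 293068683) (nat_lit 1596) (nat_lit 806617589) (nat_lit 441) (nat_lit 5) (nat_lit 440) (nat_lit 5) (nat_lit 461) (nat_lit 5) (nat_lit 292) (nat_lit 289) (nat_lit 199)) (XT.lf (nat_lit 0) (nat_lit 335618756) (nat_lit 1596) (nat_lit 4255648224) (nat_lit 1672) (nat_lit 6050209045) (nat_lit 420) (nat_lit 5) (nat_lit 441) (nat_lit 5) (nat_lit 442) (nat_lit 5) (nat_lit 293) (nat_lit 289) (nat_lit 198))))) (XT.nd (nat_lit 234) (nat_lit 0) (nat_lit 76) (XT.nd (nat_lit 78) (nat_lit 0) (nat_lit 0) (XT.lf (nat_lit 0) (nat_lit 1508648119) (nat_lit 1596) (nat_lit 7458922057) (nat_lit 1672) (nat_lit 1818954268) (nat_lit 421) (nat_lit 5) (nat_lit 442) (nat_lit 5) (nat_lit 443) (nat_lit 5) (nat_lit 294) (nat_lit 289) (nat_lit 197)) (XT.nd (nat_lit 78) (nat_lit 0) (nat_lit 76) (XT.lf (nat_lit 76) (nat_lit 211720339) (nat_lit 0) (nat_lit 2531563009) (nat_lit 1672) (nat_lit 8192137358) (nat_lit 422) (nat_lit 5) (nat_lit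 421) (nat_lit 5) (nat_lit 443) (nat_lit 5) (nat_lit 295) (nat_lit 289) (nat_lit 196)) (XT.lf (nat_lit 0) (nat_lit 4058704576) (nat_lit 1596) (nat_lit 2921982828) (nat_lit 1672) (nat_lit 4107245479) (nat_lit 422) (nat_lit 5) (nat_lit 443) (nat_lit 5) (nat_lit 444) (nat_lit 5) (nat_lit 296) (nat_lit 289) (nat_lit 195)))) (XT.nd (nat_lit 156) (nat_lit 0) (nat_lit 152) (XT.nd (nat_lit 78) (nat_lit 0) (nat_lit 76) (XT.lf (nat_lit 76) (nat_lit 5143093428) (nat_lit 0) (nat_lit 288064017) (nat_lit 1672) (nat_lit 5813534871) (nat_lit 423) (nat_lit 5) (nat_lit 422) (nat_lit 5) (nat_lit 444) (nat_lit 5) (nat_lit 297) (nat_lit 289) (nat_lit 194)) (XT.lf (nat_lit 76) (nat_lit 2046579267) (nat_lit 0) (nat_lit 4842447263) (nat_lit 1672) (nat_lit 4516265742) (nat_lit 424) (nat_lit 5) (nat_lit 423) (nat_lit 5) (nat_lit 445) (nat_lit 5) (nat_lit 298) (nat_lit 289) (nat_lit 193))) (XT.nd (nat_lit 78) (nat_lit 0)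 (nat_lit 0) (XT.lf (nat_lit 0) (nat_lit 8416432219) (nat_lit 1596) (nat_lit 1084585281) (nat_lit 1672) (nat_lit 2069198650) (nat_lit 424) (nat_lit 5) (nat_lit 445) (nat_lit 5) (nat_lit 446) (nat_lit 5) (nat_lit 299) (nat_lit 289) (nat_lit 192)) (XT.lf (nat_lit 76) (nat_lit 7482191356) (nat_lit 0) (nat_lit 2558325867) (nat_lit 1672) (nat_lit 1698574674) (nat_lit 425) (nat_lit 5) (nat_lit 424) (nat_lit 5) (nat_lit 446) (nat_lit 5) (nat_lit 300) (nat_lit 289) (nat_lit 191))))))))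
noncomputable def xc97 : XT := (XT.nd (nat_lit 2106) (nat_lit 9272) (nat_lit 0) (XT.nd (nat_lit 1014) (nat_lit 7600) (nat_lit 0) (XT.nd (nat_lit 468) (nat_lit 4940) (nat_lit 0) (XT.nd (nat_lit 234) (nat_lit 1444) (nat_lit 0) (XT.nd (nat_lit 78) (nat_lit 1672) (nat_lit 0) (XT.lf (nat_lit 76) (nat_lit 4414319614) (nat_lit 0) (nat_lit 7335571881) (nat_lit 1672) (nat_lit 162431762) (nat_lit 426) (nat_lit 5) (nat_lit 425) (nat_lit 5) (nat_lit 447) (nat_lit 5) (nat_lit 301) (nat_lit 289) (nat_lit 190)) (XT.nd (nat_lit 78) (nat_lit 0) (nat_lit 76) (XT.lf (nat_lit 76) (nat_lit 1282382026) (nat_lit 0) (nat_lit 144460078) (nat_lit 1748) (nat_lit 10663231418) (nat_lit 404) (nat_lit 5) (nat_lit 403) (nat_lit 5) (nat_lit 426) (nat_lit 5) (nat_lit 302) (nat_lit 289) (nat_lit 189)) (XT.lf (nat_lit 0) (nat_lit 3131837526) (nat_lit 1672) (nat_lit 1913864740) (nat_lit 1748) (nat_lit 7226046659) (nat_lit 404) (nat_lit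 5) (nat_lit 426) (nat_lit 5) (nat_lit 427) (nat_lit 5) (nat_lit 303) (nat_lit 289) (nat_lit 188)))) (XT.nd (nat_lit 78) (nat_lit 1596) (nat_lit 0) (XT.lf (nat_lit 0) (nat_lit 4924891218) (nat_lit 1672) (nat_lit 5153626301) (nat_lit 1748) (nat_lit 2379637453) (nat_lit 405) (nat_lit 5) (nat_lit 427) (nat_lit 5) (nat_lit 428) (nat_lit 5) (nat_lit 304) (nat_lit 289) (nat_lit 187)) (XT.nd (nat_lit 78) (nat_lit 1596) (nat_lit 0) (XT.lf (nat_lit 76) (nat_lit 4175143080) (nat_lit 0) (nat_lit 2643949923) (nat_lit 1748) (nat_lit 5830131077) (nat_lit 406) (nat_lit 5) (nat_lit 405) (nat_lit 5) (nat_lit 428) (nat_lit 5) (nat_lit 305) (nat_lit 289) (nat_lit 186)) (XT.lf (nat_lit 0) (nat_lit 967113284) (nat_lit 1672) (nat_lit 7851109597) (nat_lit 1748) (nat_lit 4026857824) (nat_lit 384) (nat_lit 5) (nat_lit 406) (nat_lit 5) (nat_lit 407) (nat_lit 5) (nat_lit 306) (nat_lit 289) (nat_lit 185))))) (XT.nd (nat_lit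 234) (nat_lit 2584) (nat_lit 0) (XT.nd (nat_lit 78) (nat_lit 2356) (nat_lit 0) (XT.lf (nat_lit 0) (nat_lit 10768195350) (nat_lit 1672) (nat_lit 158851107) (nat_lit 1748) (nat_lit 2118789151) (nat_lit 384) (nat_lit 5) (nat_lit 406) (nat_lit 5) (nat_lit 407) (nat_lit 5) (nat_lit 307) (nat_lit 289) (nat_lit 184)) (XT.nd (nat_lit 78) (nat_lit 912) (nat_lit 0) (XT.lf (nat_lit 0) (nat_lit 7639141618) (nat_lit 1444) (nat_lit 5535493665) (nat_lit 1520) (nat_lit 76484345) (nat_lit 365) (nat_lit 5) (nat_lit 384) (nat_lit 5) (nat_lit 385) (nat_lit 5) (nat_lit 308) (nat_lit 289) (nat_lit 183)) (XT.lf (nat_lit 0) (nat_lit 2037590281) (nat_lit 912) (nat_lit 9032622371) (nat_lit 76) (nat_lit 2391360255) (nat_lit 353) (nat_lit 5) (nat_lit 365) (nat_lit 5) (nat_lit 354) (nat_lit 5) (nat_lit 309) (nat_lit 289) (nat_lit 182)))) (XT.nd (nat_lit 156) (nat_lit 1672) (nat_lit 0) (XT.nd (nat_lit 78) (nat_lit 0) (nat_lit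 0) (XT.lf (nat_lit 0) (nat_lit 1125849213) (nat_lit 912) (nat_lit 3147290965) (nat_lit 988) (nat_lit 9404022883) (nat_lit 341) (nat_lit 5) (nat_lit 353) (nat_lit 5) (nat_lit 354) (nat_lit 5) (nat_lit 310) (nat_lit 289) (nat_lit 181)) (XT.lf (nat_lit 0) (nat_lit 6646957280) (nat_lit 988) (nat_lit 2239854978) (nat_lit 76) (nat_lit 5010999433) (nat_lit 341) (nat_lit 5) (nat_lit 354) (nat_lit 5) (nat_lit 342) (nat_lit 5) (nat_lit 311) (nat_lit 289) (nat_lit 180))) (XT.nd (nat_lit 78) (nat_lit 836) (nat_lit 0) (XT.lf (nat_lit 0) (nat_lit 8449731743) (nat_lit 836) (nat_lit 695872215) (nat_lit 912) (nat_lit 4978417877) (nat_lit 330) (nat_lit 5) (nat_lit 341) (nat_lit 5) (nat_lit 342) (nat_lit 5) (nat_lit 312) (nat_lit 289) (nat_lit 179)) (XT.lf (nat_lit 0) (nat_lit 5129765055) (nat_lit 836) (nat_lit 6666516762) (nat_lit 912) (nat_lit 2559208969) (nat_lit 319) (nat_lit 5) (nat_lit 330) (nat_lit 5) (nat_lit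 331) (nat_lit 5) (nat_lit 313) (nat_lit 289) (nat_lit 178)))))) (XT.nd (nat_lit 546) (nat_lit 3800) (nat_lit 0) (XT.nd (nat_lit 234) (nat_lit 2204) (nat_lit 0) (XT.nd (nat_lit 78) (nat_lit 836) (nat_lit 0) (XT.lf (nat_lit 0) (nat_lit 1727875706) (nat_lit 760) (nat_lit 12843064089) (nat_lit 836) (nat_lit 22088348) (nat_lit 309) (nat_lit 5) (nat_lit 319) (nat_lit 5) (nat_lit 320) (nat_lit 5) (nat_lit 314) (nat_lit 289) (nat_lit 177)) (XT.nd (nat_lit 78) (nat_lit 760) (nat_lit 0) (XT.lf (nat_lit 0) (nat_lit 2643740049) (nat_lit 836) (nat_lit 1783043936) (nat_lit 76) (nat_lit 10408852496) (nat_lit 308) (nat_lit 5) (nat_lit 319) (nat_lit 5) (nat_lit 309) (nat_lit 5) (nat_lit 315) (nat_lit 289) (nat_lit 176)) (XT.lf (nat_lit 0) (nat_lit 5460109138) (nat_lit 836) (nat_lit 5374067045) (nat_lit 76) (nat_lit 4249939153) (nat_lit 298) (nat_lit 5) (nat_lit 309) (nat_lit 5) (nat_lit 299) (nat_lit 5) (nat_lit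 316) (nat_lit 289) (nat_lit 175)))) (XT.nd (nat_lit 156) (nat_lit 760) (nat_lit 0) (XT.nd (nat_lit 78) (nat_lit 760) (nat_lit 0) (XT.lf (nat_lit 0) (nat_lit 6264398173) (nat_lit 684) (nat_lit 2159143596) (nat_lit 760) (nat_lit 6915267480) (nat_lit 289) (nat_lit 5) (nat_lit 298) (nat_lit 5) (nat_lit 299) (nat_lit 5) (nat_lit 317) (nat_lit 289) (nat_lit 174)) (XT.lf (nat_lit 0) (nat_lit 2695609948) (nat_lit 760) (nat_lit 8858996786) (nat_lit 836) (nat_lit 4044974444) (nat_lit 279) (nat_lit 5) (nat_lit 289) (nat_lit 5) (nat_lit 290) (nat_lit 5) (nat_lit 318) (nat_lit 289) (nat_lit 173))) (XT.nd (nat_lit 78) (nat_lit 760) (nat_lit 0) (XT.lf (nat_lit 0) (nat_lit 14836911986) (nat_lit 836) (nat_lit 959537248) (nat_lit 76) (nat_lit 70592310) (nat_lit 279) (nat_lit 5) (nat_lit 290) (nat_lit 5) (nat_lit 280) (nat_lit 5) (nat_lit 319) (nat_lit 289) (nat_lit 172)) (XT.lf (nat_lit 0) (nat_lit 2163596362) (nat_lit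 760) (nat_lit 4740910002) (nat_lit 76) (nat_lit 9235447746) (nat_lit 269) (nat_lit 5) (nat_lit 279) (nat_lit 5) (nat_lit 270) (nat_lit 5) (nat_lit 320) (nat_lit 289) (nat_lit 171))))) (XT.nd (nat_lit 234) (nat_lit 1824) (nat_lit 0) (XT.nd (nat_lit 78) (nat_lit 1292) (nat_lit 0) (XT.lf (nat_lit 0) (nat_lit 5493259355) (nat_lit 760) (nat_lit 8639328721) (nat_lit 76) (nat_lit 2287257957) (nat_lit 260) (nat_lit 5) (nat_lit 270) (nat_lit 5) (nat_lit 261) (nat_lit 5) (nat_lit 321) (nat_lit 289) (nat_lit 170)) (XT.nd (nat_lit 78) (nat_lit 684) (nat_lit 0) (XT.lf (nat_lit 0) (nat_lit 4021275875) (nat_lit 608) (nat_lit 4988377892) (nat_lit 684) (nat_lit 7696754383) (nat_lit 252) (nat_lit 5) (nat_lit 260) (nat_lit 5) (nat_lit 261) (nat_lit 5) (nat_lit 322) (nat_lit 289) (nat_lit 169)) (XT.lf (nat_lit 0) (nat_lit 132055396) (nat_lit 684) (nat_lit 12570631044) (nat_lit 760) (nat_lit 4297467729) (nat_lit 243)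 (nat_lit 5) (nat_lit 252) (nat_lit 5) (nat_lit 253) (nat_lit 5) (nat_lit 323) (nat_lit 289) (nat_lit 168)))) (XT.nd (nat_lit 156) (nat_lit 1140) (nat_lit 0) (XT.nd (nat_lit 78) (nat_lit 684) (nat_lit 0) (XT.lf (nat_lit 0) (nat_lit 13453833673) (nat_lit 684) (nat_lit 3154748554) (nat_lit 760) (nat_lit 692098579) (nat_lit 243) (nat_lit 5) (nat_lit 252) (nat_lit 5) (nat_lit 253) (nat_lit 5) (nat_lit 324) (nat_lit 289) (nat_lit 167)) (XT.lf (nat_lit 0) (nat_lit 3070839438) (nat_lit 684) (nat_lit 7999324823) (nat_lit 76) (nat_lit 6537895162) (nat_lit 234) (nat_lit 5) (nat_lit 243) (nat_lit 5) (nat_lit 235) (nat_lit 5) (nat_lit 325) (nat_lit 289) (nat_lit 166))) (XT.nd (nat_lit 78) (nat_lit 532) (nat_lit 0) (XT.lf (nat_lit 0) (nat_lit 5624961376) (nat_lit 608) (nat_lit 1379906676) (nat_lit 684) (nat_lit 10918356687) (nat_lit 226) (nat_lit 5) (nat_lit 234) (nat_lit 5) (nat_lit 235) (nat_lit 5) (nat_lit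 326) (nat_lit 289) (nat_lit 165)) (XT.lf (nat_lit 0) (nat_lit 1464305979) (nat_lit 532) (nat_lit 9696551521) (nat_lit 608) (nat_lit 7084917397) (nat_lit 219) (nat_lit 5) (nat_lit 226) (nat_lit 5) (nat_lit 227) (nat_lit 5) (nat_lit 327) (nat_lit 289) (nat_lit 164))))))) (XT.nd (nat_lit 1092) (nat_lit 4180) (nat_lit 0) (XT.nd (nat_lit 546) (nat_lit 2280) (nat_lit 0) (XT.nd (nat_lit 234) (nat_lit 1596) (nat_lit 0) (XT.nd (nat_lit 78) (nat_lit 1216) (nat_lit 0) (XT.lf (nat_lit 0) (nat_lit 15520092499) (nat_lit 608) (nat_lit 2798518870) (nat_lit 76) (nat_lit 257827306) (nat_lit 219) (nat_lit 5) (nat_lit 227) (nat_lit 5) (nat_lit 220) (nat_lit 5) (nat_lit 328) (nat_lit 289) (nat_lit 163)) (XT.nd (nat_lit 78) (nat_lit 532) (nat_lit 0) (XT.lf (nat_lit 0) (nat_lit 1205004039) (nat_lit 684) (nat_lit 7249103139) (nat_lit 76) (nat_lit 10460256114) (nat_lit 210) (nat_lit 5) (nat_lit 219) (nat_lit 5) (nat_lit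 211) (nat_lit 5) (nat_lit 329) (nat_lit 289) (nat_lit 162)) (XT.lf (nat_lit 0) (nat_lit 5616671977) (nat_lit 608) (nat_lit 11875683825) (nat_lit 76) (nat_lit 1768393568) (nat_lit 203) (nat_lit 5) (nat_lit 211) (nat_lit 5) (nat_lit 204) (nat_lit 5) (nat_lit 330) (nat_lit 289) (nat_lit 161)))) (XT.nd (nat_lit 156) (nat_lit 1064) (nat_lit 0) (XT.nd (nat_lit 78) (nat_lit 0) (nat_lit 0) (XT.lf (nat_lit 0) (nat_lit 2903458864) (nat_lit 532) (nat_lit 7367373690) (nat_lit 608) (nat_lit 9344499188) (nat_lit 196) (nat_lit 5) (nat_lit 203) (nat_lit 5) (nat_lit 204) (nat_lit 5) (nat_lit 331) (nat_lit 289) (nat_lit 160)) (XT.lf (nat_lit 0) (nat_lit 15151090607) (nat_lit 608) (nat_lit 1729485345) (nat_lit 76) (nat_lit 3098253525) (nat_lit 196) (nat_lit 5) (nat_lit 204) (nat_lit 5) (nat_lit 197) (nat_lit 5) (nat_lit 332) (nat_lit 289) (nat_lit 159))) (XT.nd (nat_lit 78) (nat_lit 608) (nat_lit 0) (XT.lf (nat_lit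 0) (nat_lit 13816184340) (nat_lit 456) (nat_lit 6486554466) (nat_lit 532) (nat_lit 48000818) (nat_lit 190) (nat_lit 5) (nat_lit 196) (nat_lit 5) (nat_lit 197) (nat_lit 5) (nat_lit 333) (nat_lit 289) (nat_lit 158)) (XT.lf (nat_lit 0) (nat_lit 4896903732) (nat_lit 608) (nat_lit 11570984537) (nat_lit 76) (nat_lit 4263578289) (nat_lit 182) (nat_lit 5) (nat_lit 190) (nat_lit 5) (nat_lit 183) (nat_lit 5) (nat_lit 334) (nat_lit 289) (nat_lit 157))))) (XT.nd (nat_lit 234) (nat_lit 1368) (nat_lit 0) (XT.nd (nat_lit 78) (nat_lit 456) (nat_lit 0) (XT.lf (nat_lit 0) (nat_lit 4287347888) (nat_lit 456) (nat_lit 5804410557) (nat_lit 532) (nat_lit 11029811997) (nat_lit 176) (nat_lit 5) (nat_lit 182) (nat_lit 5) (nat_lit 183) (nat_lit 5) (nat_lit 335) (nat_lit 289) (nat_lit 156)) (XT.nd (nat_lit 78) (nat_lit 456) (nat_lit 0) (XT.lf (nat_lit 0) (nat_lit 15541725968) (nat_lit 532) (nat_lit 794064782) (nat_lit 76)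 (nat_lit 5185607744) (nat_lit 176) (nat_lit 5) (nat_lit 183) (nat_lit 5) (nat_lit 177) (nat_lit 5) (nat_lit 336) (nat_lit 289) (nat_lit 155)) (XT.lf (nat_lit 0) (nat_lit 15879336869) (nat_lit 456) (nat_lit 5404872415) (nat_lit 532) (nat_lit 646437978) (nat_lit 170) (nat_lit 5) (nat_lit 176) (nat_lit 5) (nat_lit 177) (nat_lit 5) (nat_lit 337) (nat_lit 289) (nat_lit 154)))) (XT.nd (nat_lit 156) (nat_lit 380) (nat_lit 0) (XT.nd (nat_lit 78) (nat_lit 456) (nat_lit 0) (XT.lf (nat_lit 0) (nat_lit 4884757303) (nat_lit 532) (nat_lit 11584332756) (nat_lit 76) (nat_lit 5880429370) (nat_lit 163) (nat_lit 5) (nat_lit 170) (nat_lit 5) (nat_lit 164) (nat_lit 5) (nat_lit 338) (nat_lit 289) (nat_lit 153)) (XT.lf (nat_lit 0) (nat_lit 5401735654) (nat_lit 456) (nat_lit 5271420264) (nat_lit 532) (nat_lit 12105721120) (nat_lit 157) (nat_lit 5) (nat_lit 163) (nat_lit 5) (nat_lit 164) (nat_lit 5) (nat_lit 339) (nat_lit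 289) (nat_lit 152))) (XT.nd (nat_lit 78) (nat_lit 380) (nat_lit 0) (XT.lf (nat_lit 0) (nat_lit 16742613167) (nat_lit 532) (nat_lit 221951186) (nat_lit 76) (nat_lit 6254408462) (nat_lit 157) (nat_lit 5) (nat_lit 164) (nat_lit 5) (nat_lit 158) (nat_lit 5) (nat_lit 340) (nat_lit 289) (nat_lit 151)) (XT.lf (nat_lit 0) (nat_lit 17627144004) (nat_lit 380) (nat_lit 5504796446) (nat_lit 456) (nat_lit 537580697) (nat_lit 152) (nat_lit 5) (nat_lit 157) (nat_lit 5) (nat_lit 158) (nat_lit 5) (nat_lit 341) (nat_lit 289) (nat_lit 150)))))) (XT.nd (nat_lit 546) (nat_lit 2052) (nat_lit 0) (XT.nd (nat_lit 234) (nat_lit 1216) (nat_lit 0) (XT.nd (nat_lit 78) (nat_lit 380) (nat_lit 0) (XT.lf (nat_lit 0) (nat_lit 5615394193) (nat_lit 532) (nat_lit 12187564617) (nat_lit 76) (nat_lit 6327723633) (nat_lit 145) (nat_lit 5) (nat_lit 152) (nat_lit 5) (nat_lit 146) (nat_lit 5) (nat_lit 342) (nat_lit 289) (nat_lit 149)) (XT.nd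 (nat_lit 78) (nat_lit 0) (nat_lit 0) (XT.lf (nat_lit 0) (nat_lit 5967099630) (nat_lit 380) (nat_lit 6083818613) (nat_lit 456) (nat_lit 12552588995) (nat_lit 140) (nat_lit 5) (nat_lit 145) (nat_lit 5) (nat_lit 146) (nat_lit 5) (nat_lit 343) (nat_lit 289) (nat_lit 148)) (XT.lf (nat_lit 0) (nat_lit 18790161938) (nat_lit 456) (nat_lit 311492940) (nat_lit 76) (nat_lit 5986653673) (nat_lit 140) (nat_lit 5) (nat_lit 146) (nat_lit 5) (nat_lit 141) (nat_lit 5) (nat_lit 344) (nat_lit 289) (nat_lit 147)))) (XT.nd (nat_lit 156) (nat_lit 380) (nat_lit 0) (XT.nd (nat_lit 78) (nat_lit 380) (nat_lit 0) (XT.lf (nat_lit 0) (nat_lit 294458048) (nat_lit 456) (nat_lit 6834101907) (nat_lit 76) (nat_lit 18456031546) (nat_lit 134) (nat_lit 5) (nat_lit 140) (nat_lit 5) (nat_lit 135) (nat_lit 5) (nat_lit 345) (nat_lit 289) (nat_lit 146)) (XT.lf (nat_lit 0) (nat_lit 7106081667) (nat_lit 456) (nat_lit 13730583105) (nat_lit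 76) (nat_lit 5256133879) (nat_lit 129) (nat_lit 5) (nat_lit 135) (nat_lit 5) (nat_lit 130) (nat_lit 5) (nat_lit 346) (nat_lit 289) (nat_lit 145))) (XT.nd (nat_lit 78) (nat_lit 0) (nat_lit 0) (XT.lf (nat_lit 0) (nat_lit 5622627337) (nat_lit 380) (nat_lit 8619527484) (nat_lit 456) (nat_lit 12371699532) (nat_lit 124) (nat_lit 5) (nat_lit 129) (nat_lit 5) (nat_lit 130) (nat_lit 5) (nat_lit 347) (nat_lit 289) (nat_lit 144)) (XT.lf (nat_lit 0) (nat_lit 21701191231) (nat_lit 456) (nat_lit 1446358337) (nat_lit 76) (nat_lit 4000818766) (nat_lit 124) (nat_lit 5) (nat_lit 130) (nat_lit 5) (nat_lit 125) (nat_lit 5) (nat_lit 348) (nat_lit 289) (nat_lit 143))))) (XT.nd (nat_lit 234) (nat_lit 988) (nat_lit 0) (XT.nd (nat_lit 78) (nat_lit 684) (nat_lit 0) (XT.lf (nat_lit 0) (nat_lit 1833982269) (nat_lit 380) (nat_lit 8848279499) (nat_lit 76) (nat_lit 17013021147) (nat_lit 119) (nat_lit 5) (nat_lit 124) (nat_lit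 5) (nat_lit 120) (nat_lit 5) (nat_lit 349) (nat_lit 289) (nat_lit 142)) (XT.nd (nat_lit 78) (nat_lit 304) (nat_lit 0) (XT.lf (nat_lit 0) (nat_lit 9349944051) (nat_lit 456) (nat_lit 16659945950) (nat_lit 76) (nat_lit 2246191255) (nat_lit 114) (nat_lit 5) (nat_lit 120) (nat_lit 5) (nat_lit 115) (nat_lit 5) (nat_lit 350) (nat_lit 289) (nat_lit 141)) (XT.lf (nat_lit 0) (nat_lit 3906839140) (nat_lit 304) (nat_lit 13331788970) (nat_lit 380) (nat_lit 11592134362) (nat_lit 110) (nat_lit 5) (nat_lit 114) (nat_lit 5) (nat_lit 115) (nat_lit 5) (nat_lit 351) (nat_lit 289) (nat_lit 140)))) (XT.nd (nat_lit 156) (nat_lit 608) (nat_lit 0) (XT.nd (nat_lit 78) (nat_lit 380) (nat_lit 0) (XT.lf (nat_lit 0) (nat_lit 25303855601) (nat_lit 304) (nat_lit 163287542) (nat_lit 380) (nat_lit 3953481255) (nat_lit 110) (nat_lit 5) (nat_lit 114) (nat_lit 5) (nat_lit 115) (nat_lit 5) (nat_lit 352) (nat_lit 289) (nat_lit 139))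 (XT.lf (nat_lit 0) (nat_lit 4055029838) (nat_lit 380) (nat_lit 12609243602) (nat_lit 76) (nat_lit 13359563247) (nat_lit 105) (nat_lit 5) (nat_lit 110) (nat_lit 5) (nat_lit 106) (nat_lit 5) (nat_lit 353) (nat_lit 289) (nat_lit 138))) (XT.nd (nat_lit 78) (nat_lit 304) (nat_lit 0) (XT.lf (nat_lit 0) (nat_lit 9080601101) (nat_lit 304) (nat_lit 3248566058) (nat_lit 380) (nat_lit 18313877274) (nat_lit 101) (nat_lit 5) (nat_lit 105) (nat_lit 5) (nat_lit 106) (nat_lit 5) (nat_lit 354) (nat_lit 289) (nat_lit 137)) (XT.lf (nat_lit 0) (nat_lit 234142459) (nat_lit 304) (nat_lit 20764335425) (nat_lit 380) (nat_lit 10279414846) (nat_lit 97) (nat_lit 5) (nat_lit 101) (nat_lit 5) (nat_lit 102) (nat_lit 5) (nat_lit 355) (nat_lit 289) (nat_lit 136))))))))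
noncomputable def xc98 : XT := (XT.nd (nat_lit 37440) (nat_lit 0) (nat_lit 4484) (XT.nd (nat_lit 36348) (nat_lit 0) (nat_lit 17176) (XT.nd (nat_lit 35802) (nat_lit 0) (nat_lit 24852) (XT.nd (nat_lit 35568) (nat_lit 0) (nat_lit 24776) (XT.nd (nat_lit 78) (nat_lit 304) (nat_lit 0) (XT.lf (nat_lit 0) (nat_lit 22943639058) (nat_lit 304) (nat_lit 7142894976) (nat_lit 380) (nat_lit 1842082328) (nat_lit 97) (nat_lit 5) (nat_lit 101) (nat_lit 5) (nat_lit 102) (nat_lit 5) (nat_lit 356) (nat_lit 289) (nat_lit 135)) (XT.nd (nat_lit 35412) (nat_lit 0) (nat_lit 26296) (XT.lf (nat_lit 0) (nat_lit 6885280986) (nat_lit 304) (nat_lit 18782900746) (nat_lit 76) (nat_lit 6927259174) (nat_lit 93) (nat_lit 5) (nat_lit 97) (nat_lit 5) (nat_lit 94) (nat_lit 5) (nat_lit 357) (nat_lit 289) (nat_lit 134)) (XT.lf (nat_lit 0) (nat_lit 4177458496) (nat_lit 1596) (nat_lit 501433515) (nat_lit 1596) (nat_lit 501433515) (nat_lit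 439) (nat_lit 3) (nat_lit 460) (nat_lit 3) (nat_lit 460) (nat_lit 5) (nat_lit 290) (nat_lit 290) (nat_lit 200)))) (XT.nd (nat_lit 78) (nat_lit 1520) (nat_lit 0) (XT.lf (nat_lit 76) (nat_lit 6244109868) (nat_lit 0) (nat_lit 3207474384) (nat_lit 1596) (nat_lit 1044365184) (nat_lit 440) (nat_lit 5) (nat_lit 439) (nat_lit 3) (nat_lit 460) (nat_lit 5) (nat_lit 291) (nat_lit 290) (nat_lit 199)) (XT.nd (nat_lit 78) (nat_lit 1596) (nat_lit 0) (XT.lf (nat_lit 76) (nat_lit 3087539776) (nat_lit 0) (nat_lit 7504469732) (nat_lit 1596) (nat_lit 43106816) (nat_lit 441) (nat_lit 5) (nat_lit 440) (nat_lit 5) (nat_lit 461) (nat_lit 5) (nat_lit 292) (nat_lit 290) (nat_lit 198)) (XT.lf (nat_lit 0) (nat_lit 990020191) (nat_lit 1596) (nat_lit 120475346) (nat_lit 1672) (nat_lit 9667563969) (nat_lit 419) (nat_lit 5) (nat_lit 440) (nat_lit 5) (nat_lit 441) (nat_lit 5) (nat_lit 293) (nat_lit 290) (nat_lit 197))))) (XT.nd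 (nat_lit 234) (nat_lit 0) (nat_lit 152) (XT.nd (nat_lit 78) (nat_lit 0) (nat_lit 76) (XT.lf (nat_lit 0) (nat_lit 2104321429) (nat_lit 1596) (nat_lit 3351298558) (nat_lit 1672) (nat_lit 5468674663) (nat_lit 420) (nat_lit 5) (nat_lit 441) (nat_lit 5) (nat_lit 442) (nat_lit 5) (nat_lit 294) (nat_lit 290) (nat_lit 196)) (XT.nd (nat_lit 78) (nat_lit 0) (nat_lit 0) (XT.lf (nat_lit 0) (nat_lit 3263374560) (nat_lit 1596) (nat_lit 6627380735) (nat_lit 1672) (nat_lit 1183959064) (nat_lit 421) (nat_lit 5) (nat_lit 442) (nat_lit 5) (nat_lit 443) (nat_lit 5) (nat_lit 295) (nat_lit 290) (nat_lit 195)) (XT.lf (nat_lit 76) (nat_lit 1256259799) (nat_lit 0) (nat_lit 3235739350) (nat_lit 1672) (nat_lit 6736974784) (nat_lit 422) (nat_lit 5) (nat_lit 421) (nat_lit 5) (nat_lit 443) (nat_lit 5) (nat_lit 296) (nat_lit 290) (nat_lit 194)))) (XT.nd (nat_lit 156) (nat_lit 0) (nat_lit 76) (XT.nd (nat_lit 78) (nat_lit 0) (nat_lit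 0) (XT.lf (nat_lit 0) (nat_lit 5794386508) (nat_lit 1596) (nat_lit 1964228598) (nat_lit 1672) (nat_lit 3628530699) (nat_lit 422) (nat_lit 5) (nat_lit 443) (nat_lit 5) (nat_lit 444) (nat_lit 5) (nat_lit 297) (nat_lit 290) (nat_lit 193)) (XT.lf (nat_lit 76) (nat_lit 6325839350) (nat_lit 0) (nat_lit 841843611) (nat_lit 1672) (nat_lit 4381765058) (nat_lit 423) (nat_lit 5) (nat_lit 422) (nat_lit 5) (nat_lit 444) (nat_lit 5) (nat_lit 298) (nat_lit 290) (nat_lit 192))) (XT.nd (nat_lit 78) (nat_lit 0) (nat_lit 76) (XT.lf (nat_lit 76) (nat_lit 3155282720) (nat_lit 0) (nat_lit 5471536157) (nat_lit 1672) (nat_lit 3088928906) (nat_lit 424) (nat_lit 5) (nat_lit 423) (nat_lit 5) (nat_lit 445) (nat_lit 5) (nat_lit 299) (nat_lit 290) (nat_lit 191)) (XT.lf (nat_lit 0) (nat_lit 10152401205) (nat_lit 1596) (nat_lit 66491205) (nat_lit 1672) (nat_lit 1667711358) (nat_lit 424) (nat_lit 5) (nat_lit 445) (nat_lit 5) (nat_lit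 446) (nat_lit 5) (nat_lit 300) (nat_lit 290) (nat_lit 190)))))) (XT.nd (nat_lit 546) (nat_lit 4940) (nat_lit 0) (XT.nd (nat_lit 234) (nat_lit 1444) (nat_lit 0) (XT.nd (nat_lit 78) (nat_lit 1596) (nat_lit 0) (XT.lf (nat_lit 76) (nat_lit 8740243481) (nat_lit 0) (nat_lit 3048467967) (nat_lit 1672) (nat_lit 272594850) (nat_lit 425) (nat_lit 5) (nat_lit 424) (nat_lit 5) (nat_lit 446) (nat_lit 5) (nat_lit 301) (nat_lit 290) (nat_lit 189)) (XT.nd (nat_lit 78) (nat_lit 0) (nat_lit 0) (XT.lf (nat_lit 0) (nat_lit 1254235239) (nat_lit 1672) (nat_lit 6653094965) (nat_lit 1748) (nat_lit 4333027848) (nat_lit 403) (nat_lit 5) (nat_lit 425) (nat_lit 5) (nat_lit 426) (nat_lit 5) (nat_lit 302) (nat_lit 290) (nat_lit 188)) (XT.lf (nat_lit 76) (nat_lit 2372276620) (nat_lit 0) (nat_lit 482202840) (nat_lit 1748) (nat_lit 9569658156) (nat_lit 404) (nat_lit 5) (nat_lit 403) (nat_lit 5) (nat_lit 426) (nat_lit 5) (nat_lit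 303) (nat_lit 290) (nat_lit 187)))) (XT.nd (nat_lit 156) (nat_lit 1520) (nat_lit 0) (XT.nd (nat_lit 78) (nat_lit 0) (nat_lit 76) (XT.lf (nat_lit 0) (nat_lit 4568188167) (nat_lit 1672) (nat_lit 920575869) (nat_lit 1748) (nat_lit 7123375397) (nat_lit 404) (nat_lit 5) (nat_lit 426) (nat_lit 5) (nat_lit 427) (nat_lit 5) (nat_lit 304) (nat_lit 290) (nat_lit 186)) (XT.lf (nat_lit 0) (nat_lit 6380851524) (nat_lit 1672) (nat_lit 4245694888) (nat_lit 1748) (nat_lit 2178301512) (nat_lit 405) (nat_lit 5) (nat_lit 427) (nat_lit 5) (nat_lit 428) (nat_lit 5) (nat_lit 305) (nat_lit 290) (nat_lit 185))) (XT.nd (nat_lit 78) (nat_lit 1596) (nat_lit 0) (XT.lf (nat_lit 76) (nat_lit 5345699121) (nat_lit 0) (nat_lit 2954863724) (nat_lit 1748) (nat_lit 4701738436) (nat_lit 406) (nat_lit 5) (nat_lit 405) (nat_lit 5) (nat_lit 428) (nat_lit 5) (nat_lit 306) (nat_lit 290) (nat_lit 184)) (XT.lf (nat_lit 0) (nat_lit 2051920147)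 (nat_lit 1672) (nat_lit 8275950335) (nat_lit 1748) (nat_lit 2876824141) (nat_lit 384) (nat_lit 5) (nat_lit 406) (nat_lit 5) (nat_lit 407) (nat_lit 5) (nat_lit 307) (nat_lit 290) (nat_lit 183))))) (XT.nd (nat_lit 234) (nat_lit 2584) (nat_lit 0) (XT.nd (nat_lit 78) (nat_lit 2356) (nat_lit 0) (XT.lf (nat_lit 0) (nat_lit 12116283409) (nat_lit 1672) (nat_lit 347410281) (nat_lit 1748) (nat_lit 948528149) (nat_lit 384) (nat_lit 5) (nat_lit 406) (nat_lit 5) (nat_lit 407) (nat_lit 5) (nat_lit 308) (nat_lit 290) (nat_lit 182)) (XT.nd (nat_lit 78) (nat_lit 836) (nat_lit 0) (XT.lf (nat_lit 0) (nat_lit 1110024596) (nat_lit 1520) (nat_lit 4729098538) (nat_lit 76) (nat_lit 7785011901) (nat_lit 364) (nat_lit 5) (nat_lit 384) (nat_lit 5) (nat_lit 365) (nat_lit 5) (nat_lit 309) (nat_lit 290) (nat_lit 181)) (XT.lf (nat_lit 0) (nat_lit 3257784940) (nat_lit 912) (nat_lit 8245152885) (nat_lit 76) (nat_lit 2338550439)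 (nat_lit 353) (nat_lit 5) (nat_lit 365) (nat_lit 5) (nat_lit 354) (nat_lit 5) (nat_lit 310) (nat_lit 290) (nat_lit 180)))) (XT.nd (nat_lit 156) (nat_lit 1672) (nat_lit 0) (XT.nd (nat_lit 78) (nat_lit 0) (nat_lit 0) (XT.lf (nat_lit 0) (nat_lit 2200900783) (nat_lit 912) (nat_lit 3332501975) (nat_lit 988) (nat_lit 8530705195) (nat_lit 341) (nat_lit 5) (nat_lit 353) (nat_lit 5) (nat_lit 354) (nat_lit 5) (nat_lit 311) (nat_lit 290) (nat_lit 179)) (XT.lf (nat_lit 0) (nat_lit 7944889192) (nat_lit 988) (nat_lit 1272841329) (nat_lit 76) (nat_lit 5074337646) (nat_lit 341) (nat_lit 5) (nat_lit 354) (nat_lit 5) (nat_lit 342) (nat_lit 5) (nat_lit 312) (nat_lit 290) (nat_lit 178))) (XT.nd (nat_lit 78) (nat_lit 836) (nat_lit 0) (XT.lf (nat_lit 0) (nat_lit 9720654177) (nat_lit 836) (nat_lit 772451107) (nat_lit 912) (nat_lit 4032487736) (nat_lit 330) (nat_lit 5) (nat_lit 341) (nat_lit 5) (nat_lit 342) (nat_lit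 5) (nat_lit 313) (nat_lit 290) (nat_lit 177)) (XT.lf (nat_lit 0) (nat_lit 6306727800) (nat_lit 836) (nat_lit 6891610694) (nat_lit 912) (nat_lit 1566186849) (nat_lit 319) (nat_lit 5) (nat_lit 330) (nat_lit 5) (nat_lit 331) (nat_lit 5) (nat_lit 314) (nat_lit 290) (nat_lit 176))))))) (XT.nd (nat_lit 1014) (nat_lit 5624) (nat_lit 0) (XT.nd (nat_lit 468) (nat_lit 3344) (nat_lit 0) (XT.nd (nat_lit 234) (nat_lit 2128) (nat_lit 0) (XT.nd (nat_lit 78) (nat_lit 760) (nat_lit 0) (XT.lf (nat_lit 0) (nat_lit 1009123479) (nat_lit 836) (nat_lit 12208704249) (nat_lit 76) (nat_lit 1791728004) (nat_lit 308) (nat_lit 5) (nat_lit 319) (nat_lit 5) (nat_lit 309) (nat_lit 5) (nat_lit 315) (nat_lit 290) (nat_lit 175)) (XT.nd (nat_lit 78) (nat_lit 760) (nat_lit 0) (XT.lf (nat_lit 0) (nat_lit 3724582439) (nat_lit 836) (nat_lit 824637150) (nat_lit 76) (nat_lit 10710839181) (nat_lit 308) (nat_lit 5) (nat_lit 319) (nat_lit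 5) (nat_lit 309) (nat_lit 5) (nat_lit 316) (nat_lit 290) (nat_lit 174)) (XT.lf (nat_lit 0) (nat_lit 6602843302) (nat_lit 836) (nat_lit 4519741247) (nat_lit 76) (nat_lit 4393877376) (nat_lit 298) (nat_lit 5) (nat_lit 309) (nat_lit 5) (nat_lit 299) (nat_lit 5) (nat_lit 317) (nat_lit 290) (nat_lit 173)))) (XT.nd (nat_lit 78) (nat_lit 1444) (nat_lit 0) (XT.lf (nat_lit 0) (nat_lit 7451401871) (nat_lit 684) (nat_lit 2181751127) (nat_lit 760) (nat_lit 6146101599) (nat_lit 289) (nat_lit 5) (nat_lit 298) (nat_lit 5) (nat_lit 299) (nat_lit 5) (nat_lit 318) (nat_lit 290) (nat_lit 172)) (XT.nd (nat_lit 78) (nat_lit 684) (nat_lit 0) (XT.lf (nat_lit 0) (nat_lit 3778470926) (nat_lit 760) (nat_lit 9058579370) (nat_lit 836) (nat_lit 3211238299) (nat_lit 279) (nat_lit 5) (nat_lit 289) (nat_lit 5) (nat_lit 290) (nat_lit 5) (nat_lit 319) (nat_lit 290) (nat_lit 171)) (XT.lf (nat_lit 0) (nat_lit 2823338) (nat_lit 684)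 (nat_lit 16188180446) (nat_lit 760) (nat_lit 133321830) (nat_lit 270) (nat_lit 5) (nat_lit 279) (nat_lit 5) (nat_lit 280) (nat_lit 5) (nat_lit 320) (nat_lit 290) (nat_lit 170))))) (XT.nd (nat_lit 234) (nat_lit 1976) (nat_lit 0) (XT.nd (nat_lit 78) (nat_lit 1292) (nat_lit 0) (XT.lf (nat_lit 0) (nat_lit 3123736969) (nat_lit 760) (nat_lit 3895688914) (nat_lit 76) (nat_lit 9586301078) (nat_lit 269) (nat_lit 5) (nat_lit 279) (nat_lit 5) (nat_lit 270) (nat_lit 5) (nat_lit 321) (nat_lit 290) (nat_lit 169)) (XT.nd (nat_lit 78) (nat_lit 608) (nat_lit 0) (XT.lf (nat_lit 0) (nat_lit 6534145324) (nat_lit 760) (nat_lit 7909688184) (nat_lit 76) (nat_lit 2450580201) (nat_lit 260) (nat_lit 5) (nat_lit 270) (nat_lit 5) (nat_lit 261) (nat_lit 5) (nat_lit 322) (nat_lit 290) (nat_lit 168)) (XT.lf (nat_lit 0) (nat_lit 5114692113) (nat_lit 608) (nat_lit 5022138243) (nat_lit 684) (nat_lit 7053141094) (nat_lit 252) (nat_lit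 5) (nat_lit 260) (nat_lit 5) (nat_lit 261) (nat_lit 5) (nat_lit 323) (nat_lit 290) (nat_lit 167)))) (XT.nd (nat_lit 156) (nat_lit 1216) (nat_lit 0) (XT.nd (nat_lit 78) (nat_lit 76) (nat_lit 0) (XT.lf (nat_lit 0) (nat_lit 1109615555) (nat_lit 684) (nat_lit 12813132356) (nat_lit 760) (nat_lit 3570154370) (nat_lit 243) (nat_lit 5) (nat_lit 252) (nat_lit 5) (nat_lit 253) (nat_lit 5) (nat_lit 324) (nat_lit 290) (nat_lit 166)) (XT.lf (nat_lit 0) (nat_lit 116883580) (nat_lit 760) (nat_lit 3001026362) (nat_lit 76) (nat_lit 14685022011) (nat_lit 242) (nat_lit 5) (nat_lit 252) (nat_lit 5) (nat_lit 243) (nat_lit 5) (nat_lit 325) (nat_lit 290) (nat_lit 165))) (XT.nd (nat_lit 78) (nat_lit 608) (nat_lit 0) (XT.lf (nat_lit 0) (nat_lit 3966474532) (nat_lit 684) (nat_lit 7282632511) (nat_lit 76) (nat_lit 6870683256) (nat_lit 234) (nat_lit 5) (nat_lit 243) (nat_lit 5) (nat_lit 235) (nat_lit 5) (nat_lit 326) (nat_lit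 290) (nat_lit 164)) (XT.lf (nat_lit 0) (nat_lit 6734861405) (nat_lit 608) (nat_lit 1266369975) (nat_lit 684) (nat_lit 10443537883) (nat_lit 226) (nat_lit 5) (nat_lit 234) (nat_lit 5) (nat_lit 235) (nat_lit 5) (nat_lit 327) (nat_lit 290) (nat_lit 163)))))) (XT.nd (nat_lit 546) (nat_lit 2812) (nat_lit 0) (XT.nd (nat_lit 234) (nat_lit 1596) (nat_lit 0) (XT.nd (nat_lit 78) (nat_lit 684) (nat_lit 0) (XT.lf (nat_lit 0) (nat_lit 2449017839) (nat_lit 532) (nat_lit 9817067960) (nat_lit 608) (nat_lit 6511238885) (nat_lit 219) (nat_lit 5) (nat_lit 226) (nat_lit 5) (nat_lit 227) (nat_lit 5) (nat_lit 328) (nat_lit 290) (nat_lit 162)) (XT.nd (nat_lit 78) (nat_lit 684) (nat_lit 0) (XT.lf (nat_lit 0) (nat_lit 16734732939) (nat_lit 608) (nat_lit 1954804610) (nat_lit 76) (nat_lit 428810222) (nat_lit 219) (nat_lit 5) (nat_lit 227) (nat_lit 5) (nat_lit 220) (nat_lit 5) (nat_lit 329) (nat_lit 290) (nat_lit 161)) (XT.lf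 (nat_lit 0) (nat_lit 1979542226) (nat_lit 684) (nat_lit 6543760075) (nat_lit 76) (nat_lit 10943340244) (nat_lit 210) (nat_lit 5) (nat_lit 219) (nat_lit 5) (nat_lit 211) (nat_lit 5) (nat_lit 330) (nat_lit 290) (nat_lit 160)))) (XT.nd (nat_lit 156) (nat_lit 532) (nat_lit 0) (XT.nd (nat_lit 78) (nat_lit 532) (nat_lit 0) (XT.lf (nat_lit 0) (nat_lit 6509149671) (nat_lit 608) (nat_lit 11310483143) (nat_lit 76) (nat_lit 2004086783) (nat_lit 203) (nat_lit 5) (nat_lit 211) (nat_lit 5) (nat_lit 204) (nat_lit 5) (nat_lit 331) (nat_lit 290) (nat_lit 159)) (XT.lf (nat_lit 0) (nat_lit 3897084052) (nat_lit 532) (nat_lit 7390650029) (nat_lit 608) (nat_lit 8901520236) (nat_lit 196) (nat_lit 5) (nat_lit 203) (nat_lit 5) (nat_lit 204) (nat_lit 5) (nat_lit 332) (nat_lit 290) (nat_lit 158))) (XT.nd (nat_lit 78) (nat_lit 532) (nat_lit 0) (XT.lf (nat_lit 0) (nat_lit 16295002393) (nat_lit 608) (nat_lit 888384556) (nat_lit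 76) (nat_lit 3380668521) (nat_lit 196) (nat_lit 5) (nat_lit 204) (nat_lit 5) (nat_lit 197) (nat_lit 5) (nat_lit 333) (nat_lit 290) (nat_lit 157)) (XT.lf (nat_lit 0) (nat_lit 631018265) (nat_lit 532) (nat_lit 5842404503) (nat_lit 76) (nat_lit 14473914862) (nat_lit 189) (nat_lit 5) (nat_lit 196) (nat_lit 5) (nat_lit 190) (nat_lit 5) (nat_lit 334) (nat_lit 290) (nat_lit 156))))) (XT.nd (nat_lit 234) (nat_lit 1368) (nat_lit 0) (XT.nd (nat_lit 78) (nat_lit 912) (nat_lit 0) (XT.lf (nat_lit 0) (nat_lit 5710841358) (nat_lit 608) (nat_lit 11032362983) (nat_lit 76) (nat_lit 4596540955) (nat_lit 182) (nat_lit 5) (nat_lit 190) (nat_lit 5) (nat_lit 183) (nat_lit 5) (nat_lit 335) (nat_lit 290) (nat_lit 155)) (XT.nd (nat_lit 78) (nat_lit 456) (nat_lit 0) (XT.lf (nat_lit 0) (nat_lit 5287349155) (nat_lit 456) (nat_lit 5760422066) (nat_lit 532) (nat_lit 10694065940) (nat_lit 176) (nat_lit 5) (nat_lit 182) (nat_lit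 5) (nat_lit 183) (nat_lit 5) (nat_lit 336) (nat_lit 290) (nat_lit 154)) (XT.lf (nat_lit 0) (nat_lit 40257806) (nat_lit 456) (nat_lit 16603589290) (nat_lit 532) (nat_lit 5510169953) (nat_lit 170) (nat_lit 5) (nat_lit 176) (nat_lit 5) (nat_lit 177) (nat_lit 5) (nat_lit 337) (nat_lit 290) (nat_lit 153)))) (XT.nd (nat_lit 156) (nat_lit 836) (nat_lit 0) (XT.nd (nat_lit 78) (nat_lit 532) (nat_lit 0) (XT.lf (nat_lit 0) (nat_lit 17199419709) (nat_lit 456) (nat_lit 5345888847) (nat_lit 532) (nat_lit 30509564) (nat_lit 170) (nat_lit 5) (nat_lit 176) (nat_lit 5) (nat_lit 177) (nat_lit 5) (nat_lit 338) (nat_lit 290) (nat_lit 152)) (XT.lf (nat_lit 0) (nat_lit 5646927964) (nat_lit 532) (nat_lit 11082254615) (nat_lit 76) (nat_lit 6278227082) (nat_lit 163) (nat_lit 5) (nat_lit 170) (nat_lit 5) (nat_lit 164) (nat_lit 5) (nat_lit 339) (nat_lit 290) (nat_lit 151))) (XT.nd (nat_lit 78) (nat_lit 380) (nat_lit 0) (XT.lf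 (nat_lit 0) (nat_lit 6399611965) (nat_lit 456) (nat_lit 5196862388) (nat_lit 532) (nat_lit 11853431968) (nat_lit 157) (nat_lit 5) (nat_lit 163) (nat_lit 5) (nat_lit 164) (nat_lit 5) (nat_lit 340) (nat_lit 290) (nat_lit 150)) (XT.lf (nat_lit 0) (nat_lit 601266701) (nat_lit 380) (nat_lit 17234552568) (nat_lit 456) (nat_lit 6067637618) (nat_lit 152) (nat_lit 5) (nat_lit 157) (nat_lit 5) (nat_lit 158) (nat_lit 5) (nat_lit 341) (nat_lit 290) (nat_lit 149))))))))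
noncomputable def xc99 : XT := (XT.nd (nat_lit 37518) (nat_lit 0) (nat_lit 9272) (XT.nd (nat_lit 1014) (nat_lit 608) (nat_lit 0) (XT.nd (nat_lit 468) (nat_lit 1824) (nat_lit 0) (XT.nd (nat_lit 234) (nat_lit 836) (nat_lit 0) (XT.nd (nat_lit 78) (nat_lit 836) (nat_lit 0) (XT.lf (nat_lit 0) (nat_lit 32794804) (nat_lit 456) (nat_lit 5403447010) (nat_lit 76) (nat_lit 18931598330) (nat_lit 151) (nat_lit 5) (nat_lit 157) (nat_lit 5) (nat_lit 152) (nat_lit 5) (nat_lit 342) (nat_lit 290) (nat_lit 148)) (XT.nd (nat_lit 78) (nat_lit 380) (nat_lit 0) (XT.lf (nat_lit 0) (nat_lit 6352972587) (nat_lit 532) (nat_lit 11739766361) (nat_lit 76) (nat_lit 6750235308) (nat_lit 145) (nat_lit 5) (nat_lit 152) (nat_lit 5) (nat_lit 146) (nat_lit 5) (nat_lit 343) (nat_lit 290) (nat_lit 147)) (XT.lf (nat_lit 0) (nat_lit 6946340956) (nat_lit 380) (nat_lit 6023840805) (nat_lit 456) (nat_lit 12360036820) (nat_lit 140) (nat_lit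 5) (nat_lit 145) (nat_lit 5) (nat_lit 146) (nat_lit 5) (nat_lit 344) (nat_lit 290) (nat_lit 146)))) (XT.nd (nat_lit 78) (nat_lit 456) (nat_lit 0) (XT.lf (nat_lit 0) (nat_lit 471804233) (nat_lit 380) (nat_lit 19428145627) (nat_lit 456) (nat_lit 5929854098) (nat_lit 135) (nat_lit 5) (nat_lit 140) (nat_lit 5) (nat_lit 141) (nat_lit 5) (nat_lit 345) (nat_lit 290) (nat_lit 145)) (XT.nd (nat_lit 78) (nat_lit 380) (nat_lit 0) (XT.lf (nat_lit 0) (nat_lit 839265969) (nat_lit 456) (nat_lit 6258086263) (nat_lit 76) (nat_lit 19243836525) (nat_lit 134) (nat_lit 5) (nat_lit 140) (nat_lit 5) (nat_lit 135) (nat_lit 5) (nat_lit 346) (nat_lit 290) (nat_lit 144)) (XT.lf (nat_lit 0) (nat_lit 7846193965) (nat_lit 456) (nat_lit 13364989528) (nat_lit 76) (nat_lit 5653645952) (nat_lit 129) (nat_lit 5) (nat_lit 135) (nat_lit 5) (nat_lit 130) (nat_lit 5) (nat_lit 347) (nat_lit 290) (nat_lit 143))))) (XT.nd (nat_lit 234)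 (nat_lit 1064) (nat_lit 0) (XT.nd (nat_lit 78) (nat_lit 380) (nat_lit 0) (XT.lf (nat_lit 0) (nat_lit 6556203034) (nat_lit 380) (nat_lit 8629765026) (nat_lit 456) (nat_lit 12215762632) (nat_lit 124) (nat_lit 5) (nat_lit 129) (nat_lit 5) (nat_lit 130) (nat_lit 5) (nat_lit 348) (nat_lit 290) (nat_lit 142)) (XT.nd (nat_lit 78) (nat_lit 380) (nat_lit 0) (XT.lf (nat_lit 0) (nat_lit 22855295935) (nat_lit 456) (nat_lit 738463915) (nat_lit 76) (nat_lit 4358795902) (nat_lit 124) (nat_lit 5) (nat_lit 130) (nat_lit 5) (nat_lit 125) (nat_lit 5) (nat_lit 349) (nat_lit 290) (nat_lit 141)) (XT.lf (nat_lit 0) (nat_lit 2385677026) (nat_lit 380) (nat_lit 8367838358) (nat_lit 76) (nat_lit 17762500002) (nat_lit 119) (nat_lit 5) (nat_lit 124) (nat_lit 5) (nat_lit 120) (nat_lit 5) (nat_lit 350) (nat_lit 290) (nat_lit 140)))) (XT.nd (nat_lit 156) (nat_lit 380) (nat_lit 0) (XT.nd (nat_lit 78) (nat_lit 304) (nat_lit 0)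 (XT.lf (nat_lit 0) (nat_lit 10119018119) (nat_lit 456) (nat_lit 16417632092) (nat_lit 76) (nat_lit 2557155064) (nat_lit 114) (nat_lit 5) (nat_lit 120) (nat_lit 5) (nat_lit 115) (nat_lit 5) (nat_lit 351) (nat_lit 290) (nat_lit 139)) (XT.lf (nat_lit 0) (nat_lit 4754116661) (nat_lit 304) (nat_lit 13480755791) (nat_lit 380) (nat_lit 11451049724) (nat_lit 110) (nat_lit 5) (nat_lit 114) (nat_lit 5) (nat_lit 115) (nat_lit 5) (nat_lit 352) (nat_lit 290) (nat_lit 138))) (XT.nd (nat_lit 78) (nat_lit 380) (nat_lit 0) (XT.lf (nat_lit 0) (nat_lit 26696779123) (nat_lit 380) (nat_lit 3522475085) (nat_lit 76) (nat_lit 74500313) (nat_lit 110) (nat_lit 5) (nat_lit 115) (nat_lit 5) (nat_lit 111) (nat_lit 5) (nat_lit 353) (nat_lit 290) (nat_lit 137)) (XT.lf (nat_lit 0) (nat_lit 4637578534) (nat_lit 380) (nat_lit 12276151015) (nat_lit 76) (nat_lit 14001436593) (nat_lit 105) (nat_lit 5) (nat_lit 110) (nat_lit 5) (nat_lit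 106) (nat_lit 5) (nat_lit 354) (nat_lit 290) (nat_lit 136)))))) (XT.nd (nat_lit 35958) (nat_lit 0) (nat_lit 24548) (XT.nd (nat_lit 35646) (nat_lit 0) (nat_lit 24396) (XT.nd (nat_lit 78) (nat_lit 304) (nat_lit 0) (XT.lf (nat_lit 0) (nat_lit 10052847898) (nat_lit 304) (nat_lit 3098211622) (nat_lit 380) (nat_lit 18402073094) (nat_lit 101) (nat_lit 5) (nat_lit 105) (nat_lit 5) (nat_lit 106) (nat_lit 5) (nat_lit 355) (nat_lit 290) (nat_lit 135)) (XT.nd (nat_lit 78) (nat_lit 0) (nat_lit 0) (XT.lf (nat_lit 0) (nat_lit 937112596) (nat_lit 304) (nat_lit 21136252052) (nat_lit 380) (nat_lit 10133808152) (nat_lit 97) (nat_lit 5) (nat_lit 101) (nat_lit 5) (nat_lit 102) (nat_lit 5) (nat_lit 356) (nat_lit 290) (nat_lit 134)) (XT.lf (nat_lit 0) (nat_lit 24307623825) (nat_lit 304) (nat_lit 7113479460) (nat_lit 380) (nat_lit 1456578644) (nat_lit 97) (nat_lit 5) (nat_lit 101) (nat_lit 5) (nat_lit 102) (nat_lit 5)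 (nat_lit 357) (nat_lit 290) (nat_lit 133)))) (XT.nd (nat_lit 156) (nat_lit 0) (nat_lit 76) (XT.nd (nat_lit 78) (nat_lit 1596) (nat_lit 0) (XT.lf (nat_lit 0) (nat_lit 5224637409) (nat_lit 1596) (nat_lit 45991423) (nat_lit 1596) (nat_lit 45991423) (nat_lit 439) (nat_lit 3) (nat_lit 460) (nat_lit 3) (nat_lit 460) (nat_lit 5) (nat_lit 291) (nat_lit 291) (nat_lit 198)) (XT.lf (nat_lit 0) (nat_lit 747625393) (nat_lit 1596) (nat_lit 3421372492) (nat_lit 1672) (nat_lit 6604494881) (nat_lit 418) (nat_lit 5) (nat_lit 439) (nat_lit 3) (nat_lit 440) (nat_lit 5) (nat_lit 292) (nat_lit 291) (nat_lit 197))) (XT.nd (nat_lit 78) (nat_lit 0) (nat_lit 0) (XT.lf (nat_lit 0) (nat_lit 1713405599) (nat_lit 1596) (nat_lit 6796232750) (nat_lit 1672) (nat_lit 2408139791) (nat_lit 419) (nat_lit 5) (nat_lit 440) (nat_lit 5) (nat_lit 441) (nat_lit 5) (nat_lit 293) (nat_lit 291) (nat_lit 196)) (XT.lf (nat_lit 76) (nat_lit 835885631)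 (nat_lit 0) (nat_lit 1895304335) (nat_lit 1672) (nat_lit 8334765463) (nat_lit 420) (nat_lit 5) (nat_lit 419) (nat_lit 5) (nat_lit 441) (nat_lit 5) (nat_lit 294) (nat_lit 291) (nat_lit 195))))) (XT.nd (nat_lit 234) (nat_lit 0) (nat_lit 152) (XT.nd (nat_lit 78) (nat_lit 0) (nat_lit 76) (XT.lf (nat_lit 0) (nat_lit 3825132390) (nat_lit 1596) (nat_lit 2479060520) (nat_lit 1672) (nat_lit 4913495905) (nat_lit 420) (nat_lit 5) (nat_lit 441) (nat_lit 5) (nat_lit 442) (nat_lit 5) (nat_lit 295) (nat_lit 291) (nat_lit 194)) (XT.nd (nat_lit 78) (nat_lit 0) (nat_lit 0) (XT.lf (nat_lit 0) (nat_lit 4972612396) (nat_lit 1596) (nat_lit 5831472225) (nat_lit 1672) (nat_lit 569497789) (nat_lit 421) (nat_lit 5) (nat_lit 442) (nat_lit 5) (nat_lit 443) (nat_lit 5) (nat_lit 296) (nat_lit 291) (nat_lit 193)) (XT.lf (nat_lit 76) (nat_lit 2272539214) (nat_lit 0) (nat_lit 3924978040) (nat_lit 1672) (nat_lit 5335797483) (nat_lit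 422) (nat_lit 5) (nat_lit 421) (nat_lit 5) (nat_lit 443) (nat_lit 5) (nat_lit 297) (nat_lit 291) (nat_lit 192)))) (XT.nd (nat_lit 156) (nat_lit 0) (nat_lit 76) (XT.nd (nat_lit 78) (nat_lit 0) (nat_lit 0) (XT.lf (nat_lit 0) (nat_lit 7489493242) (nat_lit 1596) (nat_lit 1037752765) (nat_lit 1672) (nat_lit 3170007844) (nat_lit 422) (nat_lit 5) (nat_lit 443) (nat_lit 5) (nat_lit 444) (nat_lit 5) (nat_lit 298) (nat_lit 291) (nat_lit 191)) (XT.lf (nat_lit 76) (nat_lit 7485030234) (nat_lit 0) (nat_lit 1380943460) (nat_lit 1672) (nat_lit 2999243215) (nat_lit 423) (nat_lit 5) (nat_lit 422) (nat_lit 5) (nat_lit 444) (nat_lit 5) (nat_lit 299) (nat_lit 291) (nat_lit 190))) (XT.nd (nat_lit 78) (nat_lit 0) (nat_lit 76) (XT.lf (nat_lit 76) (nat_lit 4237127624) (nat_lit 0) (nat_lit 6091724730) (nat_lit 1672) (nat_lit 1708484503) (nat_lit 424) (nat_lit 5) (nat_lit 423) (nat_lit 5) (nat_lit 445) (nat_lit 5) (nat_lit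 300) (nat_lit 291) (nat_lit 189)) (XT.lf (nat_lit 76) (nat_lit 934085841) (nat_lit 0) (nat_lit 10927270531) (nat_lit 1672) (nat_lit 352768738) (nat_lit 425) (nat_lit 5) (nat_lit 424) (nat_lit 5) (nat_lit 446) (nat_lit 5) (nat_lit 301) (nat_lit 291) (nat_lit 188))))))) (XT.nd (nat_lit 1092) (nat_lit 7600) (nat_lit 0) (XT.nd (nat_lit 546) (nat_lit 4940) (nat_lit 0) (XT.nd (nat_lit 234) (nat_lit 1368) (nat_lit 0) (XT.nd (nat_lit 78) (nat_lit 0) (nat_lit 76) (XT.lf (nat_lit 0) (nat_lit 1096806162) (nat_lit 1672) (nat_lit 2425417610) (nat_lit 1748) (nat_lit 8872538773) (nat_lit 402) (nat_lit 5) (nat_lit 424) (nat_lit 5) (nat_lit 425) (nat_lit 5) (nat_lit 302) (nat_lit 291) (nat_lit 187)) (XT.nd (nat_lit 78) (nat_lit 0) (nat_lit 0) (XT.lf (nat_lit 0) (nat_lit 2629731768) (nat_lit 1672) (nat_lit 5845276621) (nat_lit 1748) (nat_lit 4104888966) (nat_lit 403) (nat_lit 5) (nat_lit 425) (nat_lit 5) (nat_lit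 426) (nat_lit 5) (nat_lit 303) (nat_lit 291) (nat_lit 186)) (XT.lf (nat_lit 76) (nat_lit 3434512062) (nat_lit 0) (nat_lit 810938848) (nat_lit 1748) (nat_lit 8524416667) (nat_lit 404) (nat_lit 5) (nat_lit 403) (nat_lit 5) (nat_lit 426) (nat_lit 5) (nat_lit 304) (nat_lit 291) (nat_lit 185)))) (XT.nd (nat_lit 156) (nat_lit 1520) (nat_lit 0) (XT.nd (nat_lit 78) (nat_lit 0) (nat_lit 76) (XT.lf (nat_lit 76) (nat_lit 42757687) (nat_lit 0) (nat_lit 5928090258) (nat_lit 1748) (nat_lit 6993481811) (nat_lit 405) (nat_lit 5) (nat_lit 404) (nat_lit 5) (nat_lit 427) (nat_lit 5) (nat_lit 305) (nat_lit 291) (nat_lit 184)) (XT.lf (nat_lit 0) (nat_lit 7805393827) (nat_lit 1672) (nat_lit 3371519687) (nat_lit 1748) (nat_lit 1986581027) (nat_lit 405) (nat_lit 5) (nat_lit 427) (nat_lit 5) (nat_lit 428) (nat_lit 5) (nat_lit 306) (nat_lit 291) (nat_lit 183))) (XT.nd (nat_lit 78) (nat_lit 1596) (nat_lit 0) (XT.lf (nat_lit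 76) (nat_lit 6491367248) (nat_lit 0) (nat_lit 3261810422) (nat_lit 1748) (nat_lit 3614308571) (nat_lit 406) (nat_lit 5) (nat_lit 405) (nat_lit 5) (nat_lit 428) (nat_lit 5) (nat_lit 307) (nat_lit 291) (nat_lit 182)) (XT.lf (nat_lit 0) (nat_lit 3108664352) (nat_lit 1672) (nat_lit 8702669272) (nat_lit 1748) (nat_lit 1765240830) (nat_lit 384) (nat_lit 5) (nat_lit 406) (nat_lit 5) (nat_lit 407) (nat_lit 5) (nat_lit 308) (nat_lit 291) (nat_lit 181))))) (XT.nd (nat_lit 234) (nat_lit 2584) (nat_lit 0) (XT.nd (nat_lit 78) (nat_lit 2280) (nat_lit 0) (XT.lf (nat_lit 0) (nat_lit 183574490) (nat_lit 1748) (nat_lit 346269351) (nat_lit 76) (nat_lit 13261166123) (nat_lit 383) (nat_lit 5) (nat_lit 406) (nat_lit 5) (nat_lit 384) (nat_lit 5) (nat_lit 309) (nat_lit 291) (nat_lit 180)) (XT.nd (nat_lit 78) (nat_lit 836) (nat_lit 0) (XT.lf (nat_lit 0) (nat_lit 2262912735) (nat_lit 1520) (nat_lit 3880560212) (nat_lit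 76) (nat_lit 7866265758) (nat_lit 364) (nat_lit 5) (nat_lit 384) (nat_lit 5) (nat_lit 365) (nat_lit 5) (nat_lit 310) (nat_lit 291) (nat_lit 179)) (XT.lf (nat_lit 0) (nat_lit 4448050254) (nat_lit 912) (nat_lit 7494818568) (nat_lit 76) (nat_lit 2291306043) (nat_lit 353) (nat_lit 5) (nat_lit 365) (nat_lit 5) (nat_lit 354) (nat_lit 5) (nat_lit 311) (nat_lit 291) (nat_lit 178)))) (XT.nd (nat_lit 156) (nat_lit 1672) (nat_lit 0) (XT.nd (nat_lit 78) (nat_lit 0) (nat_lit 0) (XT.lf (nat_lit 0) (nat_lit 3248430392) (nat_lit 912) (nat_lit 3518057466) (nat_lit 988) (nat_lit 7697514865) (nat_lit 341) (nat_lit 5) (nat_lit 353) (nat_lit 5) (nat_lit 354) (nat_lit 5) (nat_lit 312) (nat_lit 291) (nat_lit 177)) (XT.lf (nat_lit 0) (nat_lit 9218699337) (nat_lit 988) (nat_lit 336185115) (nat_lit 76) (nat_lit 5144569688) (nat_lit 341) (nat_lit 5) (nat_lit 354) (nat_lit 5) (nat_lit 342) (nat_lit 5) (nat_lit 313) (nat_lit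 291) (nat_lit 176))) (XT.nd (nat_lit 78) (nat_lit 836) (nat_lit 0) (XT.lf (nat_lit 0) (nat_lit 10971299612) (nat_lit 836) (nat_lit 848129801) (nat_lit 912) (nat_lit 3121053397) (nat_lit 330) (nat_lit 5) (nat_lit 341) (nat_lit 5) (nat_lit 342) (nat_lit 5) (nat_lit 314) (nat_lit 291) (nat_lit 175)) (XT.lf (nat_lit 0) (nat_lit 7460271037) (nat_lit 836) (nat_lit 7122016690) (nat_lit 912) (nat_lit 604784870) (nat_lit 319) (nat_lit 5) (nat_lit 330) (nat_lit 5) (nat_lit 331) (nat_lit 5) (nat_lit 315) (nat_lit 291) (nat_lit 174)))))) (XT.nd (nat_lit 546) (nat_lit 3800) (nat_lit 0) (XT.nd (nat_lit 234) (nat_lit 2204) (nat_lit 0) (XT.nd (nat_lit 78) (nat_lit 760) (nat_lit 0) (XT.lf (nat_lit 0) (nat_lit 2011756591) (nat_lit 836) (nat_lit 11592540032) (nat_lit 76) (nat_lit 1835500340) (nat_lit 308) (nat_lit 5) (nat_lit 319) (nat_lit 5) (nat_lit 309) (nat_lit 5) (nat_lit 316) (nat_lit 291) (nat_lit 173)) (XT.nd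 (nat_lit 78) (nat_lit 0) (nat_lit 0) (XT.lf (nat_lit 0) (nat_lit 105822631) (nat_lit 760) (nat_lit 4675222611) (nat_lit 836) (nat_lit 10917339956) (nat_lit 298) (nat_lit 5) (nat_lit 308) (nat_lit 5) (nat_lit 309) (nat_lit 5) (nat_lit 317) (nat_lit 291) (nat_lit 172)) (XT.lf (nat_lit 0) (nat_lit 7723664854) (nat_lit 836) (nat_lit 3698082273) (nat_lit 76) (nat_lit 4541190019) (nat_lit 298) (nat_lit 5) (nat_lit 309) (nat_lit 5) (nat_lit 299) (nat_lit 5) (nat_lit 318) (nat_lit 291) (nat_lit 171)))) (XT.nd (nat_lit 156) (nat_lit 760) (nat_lit 0) (XT.nd (nat_lit 78) (nat_lit 760) (nat_lit 0) (XT.lf (nat_lit 0) (nat_lit 8616664875) (nat_lit 684) (nat_lit 2207457430) (nat_lit 760) (nat_lit 5409922950) (nat_lit 289) (nat_lit 5) (nat_lit 298) (nat_lit 5) (nat_lit 299) (nat_lit 5) (nat_lit 319) (nat_lit 291) (nat_lit 170)) (XT.lf (nat_lit 0) (nat_lit 4836299255) (nat_lit 760) (nat_lit 9267948853) (nat_lit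 836) (nat_lit 2407315878) (nat_lit 279) (nat_lit 5) (nat_lit 289) (nat_lit 5) (nat_lit 290) (nat_lit 5) (nat_lit 320) (nat_lit 291) (nat_lit 169))) (XT.nd (nat_lit 78) (nat_lit 0) (nat_lit 0) (XT.lf (nat_lit 0) (nat_lit 733637487) (nat_lit 760) (nat_lit 15851568007) (nat_lit 76) (nat_lit 210978622) (nat_lit 269) (nat_lit 5) (nat_lit 279) (nat_lit 5) (nat_lit 270) (nat_lit 5) (nat_lit 321) (nat_lit 291) (nat_lit 168)) (XT.lf (nat_lit 0) (nat_lit 4061291774) (nat_lit 760) (nat_lit 3081794769) (nat_lit 76) (nat_lit 9943444169) (nat_lit 269) (nat_lit 5) (nat_lit 279) (nat_lit 5) (nat_lit 270) (nat_lit 5) (nat_lit 322) (nat_lit 291) (nat_lit 167))))) (XT.nd (nat_lit 234) (nat_lit 1824) (nat_lit 0) (XT.nd (nat_lit 78) (nat_lit 1292) (nat_lit 0) (XT.lf (nat_lit 0) (nat_lit 7555966827) (nat_lit 760) (nat_lit 7214920767) (nat_lit 76) (nat_lit 2613365687) (nat_lit 260) (nat_lit 5) (nat_lit 270) (nat_lit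 5) (nat_lit 261) (nat_lit 5) (nat_lit 323) (nat_lit 291) (nat_lit 166)) (XT.nd (nat_lit 78) (nat_lit 684) (nat_lit 0) (XT.lf (nat_lit 0) (nat_lit 6185069404) (nat_lit 608) (nat_lit 5063564022) (nat_lit 684) (nat_lit 6440420197) (nat_lit 252) (nat_lit 5) (nat_lit 260) (nat_lit 5) (nat_lit 261) (nat_lit 5) (nat_lit 324) (nat_lit 291) (nat_lit 165)) (XT.lf (nat_lit 0) (nat_lit 2060613981) (nat_lit 684) (nat_lit 13070636309) (nat_lit 760) (nat_lit 2870173139) (nat_lit 243) (nat_lit 5) (nat_lit 252) (nat_lit 5) (nat_lit 253) (nat_lit 5) (nat_lit 325) (nat_lit 291) (nat_lit 164)))) (XT.nd (nat_lit 156) (nat_lit 1140) (nat_lit 0) (XT.nd (nat_lit 78) (nat_lit 608) (nat_lit 0) (XT.lf (nat_lit 0) (nat_lit 893691821) (nat_lit 760) (nat_lit 2189371965) (nat_lit 76) (nat_lit 15238062220) (nat_lit 242) (nat_lit 5) (nat_lit 252) (nat_lit 5) (nat_lit 243) (nat_lit 5) (nat_lit 326) (nat_lit 291) (nat_lit 163))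 (XT.lf (nat_lit 0) (nat_lit 4842853923) (nat_lit 684) (nat_lit 6599356321) (nat_lit 76) (nat_lit 7205610654) (nat_lit 234) (nat_lit 5) (nat_lit 243) (nat_lit 5) (nat_lit 235) (nat_lit 5) (nat_lit 327) (nat_lit 291) (nat_lit 162))) (XT.nd (nat_lit 78) (nat_lit 532) (nat_lit 0) (XT.lf (nat_lit 0) (nat_lit 7824032507) (nat_lit 608) (nat_lit 1158321013) (nat_lit 684) (nat_lit 10000533808) (nat_lit 226) (nat_lit 5) (nat_lit 234) (nat_lit 5) (nat_lit 235) (nat_lit 5) (nat_lit 328) (nat_lit 291) (nat_lit 161)) (XT.lf (nat_lit 0) (nat_lit 3409266281) (nat_lit 532) (nat_lit 9950980408) (nat_lit 608) (nat_lit 5965482608) (nat_lit 219) (nat_lit 5) (nat_lit 226) (nat_lit 5) (nat_lit 227) (nat_lit 5) (nat_lit 329) (nat_lit 291) (nat_lit 160))))))))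
noncomputable def xc100 : XT := (XT.nd (nat_lit 2106) (nat_lit 304) (nat_lit 0) (XT.nd (nat_lit 1014) (nat_lit 3876) (nat_lit 0) (XT.nd (nat_lit 468) (nat_lit 2812) (nat_lit 0) (XT.nd (nat_lit 234) (nat_lit 1064) (nat_lit 0) (XT.nd (nat_lit 78) (nat_lit 1216) (nat_lit 0) (XT.lf (nat_lit 0) (nat_lit 17942814766) (nat_lit 608) (nat_lit 1139030966) (nat_lit 76) (nat_lit 595551518) (nat_lit 219) (nat_lit 5) (nat_lit 227) (nat_lit 5) (nat_lit 220) (nat_lit 5) (nat_lit 330) (nat_lit 291) (nat_lit 159)) (XT.nd (nat_lit 78) (nat_lit 532) (nat_lit 0) (XT.lf (nat_lit 0) (nat_lit 2734930064) (nat_lit 684) (nat_lit 5870230141) (nat_lit 76) (nat_lit 11431199736) (nat_lit 210) (nat_lit 5) (nat_lit 219) (nat_lit 5) (nat_lit 211) (nat_lit 5) (nat_lit 331) (nat_lit 291) (nat_lit 158)) (XT.lf (nat_lit 0) (nat_lit 7386842424) (nat_lit 608) (nat_lit 10781222657) (nat_lit 76) (nat_lit 2236366430) (nat_lit 203) (nat_lit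 5) (nat_lit 211) (nat_lit 5) (nat_lit 204) (nat_lit 5) (nat_lit 332) (nat_lit 291) (nat_lit 157)))) (XT.nd (nat_lit 78) (nat_lit 532) (nat_lit 0) (XT.lf (nat_lit 0) (nat_lit 4868479956) (nat_lit 532) (nat_lit 7425976022) (nat_lit 608) (nat_lit 8486773093) (nat_lit 196) (nat_lit 5) (nat_lit 203) (nat_lit 5) (nat_lit 204) (nat_lit 5) (nat_lit 333) (nat_lit 291) (nat_lit 156)) (XT.nd (nat_lit 78) (nat_lit 532) (nat_lit 0) (XT.lf (nat_lit 0) (nat_lit 17433658354) (nat_lit 608) (nat_lit 73311756) (nat_lit 76) (nat_lit 3660679765) (nat_lit 196) (nat_lit 5) (nat_lit 204) (nat_lit 5) (nat_lit 197) (nat_lit 5) (nat_lit 334) (nat_lit 291) (nat_lit 155)) (XT.lf (nat_lit 0) (nat_lit 1290735582) (nat_lit 532) (nat_lit 5180777366) (nat_lit 76) (nat_lit 15091113882) (nat_lit 189) (nat_lit 5) (nat_lit 196) (nat_lit 5) (nat_lit 190) (nat_lit 5) (nat_lit 335) (nat_lit 291) (nat_lit 154))))) (XT.nd (nat_lit 234)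 (nat_lit 1368) (nat_lit 0) (XT.nd (nat_lit 78) (nat_lit 912) (nat_lit 0) (XT.lf (nat_lit 0) (nat_lit 6510906833) (nat_lit 608) (nat_lit 10528428519) (nat_lit 76) (nat_lit 4927721486) (nat_lit 182) (nat_lit 5) (nat_lit 190) (nat_lit 5) (nat_lit 183) (nat_lit 5) (nat_lit 336) (nat_lit 291) (nat_lit 153)) (XT.nd (nat_lit 78) (nat_lit 456) (nat_lit 0) (XT.lf (nat_lit 0) (nat_lit 6267329637) (nat_lit 456) (nat_lit 5727634947) (nat_lit 532) (nat_lit 10386515388) (nat_lit 176) (nat_lit 5) (nat_lit 182) (nat_lit 5) (nat_lit 183) (nat_lit 5) (nat_lit 337) (nat_lit 291) (nat_lit 152)) (XT.lf (nat_lit 0) (nat_lit 860594408) (nat_lit 456) (nat_lit 16887007900) (nat_lit 532) (nat_lit 5058658009) (nat_lit 170) (nat_lit 5) (nat_lit 176) (nat_lit 5) (nat_lit 177) (nat_lit 5) (nat_lit 338) (nat_lit 291) (nat_lit 151)))) (XT.nd (nat_lit 156) (nat_lit 836) (nat_lit 0) (XT.nd (nat_lit 78) (nat_lit 456) (nat_lit 0)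 (XT.lf (nat_lit 0) (nat_lit 559984742) (nat_lit 532) (nat_lit 4734086988) (nat_lit 76) (nat_lit 17946930511) (nat_lit 169) (nat_lit 5) (nat_lit 176) (nat_lit 5) (nat_lit 170) (nat_lit 5) (nat_lit 339) (nat_lit 291) (nat_lit 150)) (XT.lf (nat_lit 0) (nat_lit 6396624183) (nat_lit 532) (nat_lit 10613885111) (nat_lit 76) (nat_lit 6675250331) (nat_lit 163) (nat_lit 5) (nat_lit 170) (nat_lit 5) (nat_lit 164) (nat_lit 5) (nat_lit 340) (nat_lit 291) (nat_lit 149))) (XT.nd (nat_lit 78) (nat_lit 380) (nat_lit 0) (XT.lf (nat_lit 0) (nat_lit 7379444834) (nat_lit 456) (nat_lit 5133425735) (nat_lit 532) (nat_lit 11628904107) (nat_lit 157) (nat_lit 5) (nat_lit 163) (nat_lit 5) (nat_lit 164) (nat_lit 5) (nat_lit 341) (nat_lit 291) (nat_lit 148)) (XT.lf (nat_lit 0) (nat_lit 1404406529) (nat_lit 380) (nat_lit 17524911034) (nat_lit 456) (nat_lit 5679823301) (nat_lit 152) (nat_lit 5) (nat_lit 157) (nat_lit 5) (nat_lit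 158) (nat_lit 5) (nat_lit 342) (nat_lit 291) (nat_lit 147)))))) (XT.nd (nat_lit 546) (nat_lit 1748) (nat_lit 0) (XT.nd (nat_lit 234) (nat_lit 1216) (nat_lit 0) (XT.nd (nat_lit 78) (nat_lit 836) (nat_lit 0) (XT.lf (nat_lit 0) (nat_lit 579768791) (nat_lit 456) (nat_lit 4795820561) (nat_lit 76) (nat_lit 19712127039) (nat_lit 151) (nat_lit 5) (nat_lit 157) (nat_lit 5) (nat_lit 152) (nat_lit 5) (nat_lit 343) (nat_lit 291) (nat_lit 146)) (XT.nd (nat_lit 78) (nat_lit 380) (nat_lit 0) (XT.lf (nat_lit 0) (nat_lit 7080008714) (nat_lit 532) (nat_lit 11325228091) (nat_lit 76) (nat_lit 7172065551) (nat_lit 145) (nat_lit 5) (nat_lit 152) (nat_lit 5) (nat_lit 146) (nat_lit 5) (nat_lit 344) (nat_lit 291) (nat_lit 145)) (XT.lf (nat_lit 0) (nat_lit 7909023142) (nat_lit 380) (nat_lit 5975983717) (nat_lit 456) (nat_lit 12194378461) (nat_lit 140) (nat_lit 5) (nat_lit 145) (nat_lit 5) (nat_lit 146) (nat_lit 5) (nat_lit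 345) (nat_lit 291) (nat_lit 144)))) (XT.nd (nat_lit 156) (nat_lit 760) (nat_lit 0) (XT.nd (nat_lit 78) (nat_lit 76) (nat_lit 0) (XT.lf (nat_lit 0) (nat_lit 1237118438) (nat_lit 380) (nat_lit 19776555187) (nat_lit 456) (nat_lit 5580471085) (nat_lit 135) (nat_lit 5) (nat_lit 140) (nat_lit 5) (nat_lit 141) (nat_lit 5) (nat_lit 346) (nat_lit 291) (nat_lit 143)) (XT.lf (nat_lit 0) (nat_lit 1369651018) (nat_lit 456) (nat_lit 5709624966) (nat_lit 76) (nat_lit 20041835975) (nat_lit 134) (nat_lit 5) (nat_lit 140) (nat_lit 5) (nat_lit 135) (nat_lit 5) (nat_lit 347) (nat_lit 291) (nat_lit 142))) (XT.nd (nat_lit 78) (nat_lit 380) (nat_lit 0) (XT.lf (nat_lit 0) (nat_lit 8578261703) (nat_lit 456) (nat_lit 13033060459) (nat_lit 76) (nat_lit 6049316276) (nat_lit 129) (nat_lit 5) (nat_lit 135) (nat_lit 5) (nat_lit 130) (nat_lit 5) (nat_lit 348) (nat_lit 291) (nat_lit 141)) (XT.lf (nat_lit 0) (nat_lit 7473877792)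 (nat_lit 380) (nat_lit 8654565902) (nat_lit 456) (nat_lit 12085404627) (nat_lit 124) (nat_lit 5) (nat_lit 129) (nat_lit 5) (nat_lit 130) (nat_lit 5) (nat_lit 349) (nat_lit 291) (nat_lit 140))))) (XT.nd (nat_lit 234) (nat_lit 988) (nat_lit 0) (XT.nd (nat_lit 78) (nat_lit 760) (nat_lit 0) (XT.lf (nat_lit 0) (nat_lit 24015145563) (nat_lit 456) (nat_lit 52459503) (nat_lit 76) (nat_lit 4713852901) (nat_lit 124) (nat_lit 5) (nat_lit 130) (nat_lit 5) (nat_lit 125) (nat_lit 5) (nat_lit 350) (nat_lit 291) (nat_lit 139)) (XT.nd (nat_lit 78) (nat_lit 380) (nat_lit 0) (XT.lf (nat_lit 0) (nat_lit 2925411432) (nat_lit 380) (nat_lit 7915801092) (nat_lit 76) (nat_lit 18520738580) (nat_lit 119) (nat_lit 5) (nat_lit 124) (nat_lit 5) (nat_lit 120) (nat_lit 5) (nat_lit 351) (nat_lit 291) (nat_lit 138)) (XT.lf (nat_lit 0) (nat_lit 10883118163) (nat_lit 456) (nat_lit 16210649096) (nat_lit 76) (nat_lit 2863465409) (nat_lit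 114) (nat_lit 5) (nat_lit 120) (nat_lit 5) (nat_lit 115) (nat_lit 5) (nat_lit 352) (nat_lit 291) (nat_lit 137)))) (XT.nd (nat_lit 156) (nat_lit 684) (nat_lit 0) (XT.nd (nat_lit 78) (nat_lit 0) (nat_lit 0) (XT.lf (nat_lit 0) (nat_lit 5584903369) (nat_lit 304) (nat_lit 13648599288) (nat_lit 380) (nat_lit 11333794460) (nat_lit 110) (nat_lit 5) (nat_lit 114) (nat_lit 5) (nat_lit 115) (nat_lit 5) (nat_lit 353) (nat_lit 291) (nat_lit 136)) (XT.lf (nat_lit 0) (nat_lit 27937604885) (nat_lit 380) (nat_lit 2952586325) (nat_lit 76) (nat_lit 303411437) (nat_lit 110) (nat_lit 5) (nat_lit 115) (nat_lit 5) (nat_lit 111) (nat_lit 5) (nat_lit 354) (nat_lit 291) (nat_lit 135))) (XT.nd (nat_lit 78) (nat_lit 304) (nat_lit 0) (XT.lf (nat_lit 0) (nat_lit 5211146271) (nat_lit 380) (nat_lit 11973901192) (nat_lit 76) (nat_lit 14648726791) (nat_lit 105) (nat_lit 5) (nat_lit 110) (nat_lit 5) (nat_lit 106) (nat_lit 5) (nat_lit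 355) (nat_lit 291) (nat_lit 134)) (XT.lf (nat_lit 0) (nat_lit 11014089065) (nat_lit 304) (nat_lit 2957571941) (nat_lit 380) (nat_lit 18519390732) (nat_lit 101) (nat_lit 5) (nat_lit 105) (nat_lit 5) (nat_lit 106) (nat_lit 5) (nat_lit 356) (nat_lit 291) (nat_lit 133))))))) (XT.nd (nat_lit 36504) (nat_lit 0) (nat_lit 16036) (XT.nd (nat_lit 35958) (nat_lit 0) (nat_lit 23180) (XT.nd (nat_lit 35724) (nat_lit 0) (nat_lit 24472) (XT.nd (nat_lit 35568) (nat_lit 0) (nat_lit 24396) (XT.lf (nat_lit 0) (nat_lit 1621221697) (nat_lit 304) (nat_lit 21533735376) (nat_lit 380) (nat_lit 10009894091) (nat_lit 97) (nat_lit 5) (nat_lit 101) (nat_lit 5) (nat_lit 102) (nat_lit 5) (nat_lit 357) (nat_lit 291) (nat_lit 132)) (XT.nd (nat_lit 78) (nat_lit 0) (nat_lit 0) (XT.lf (nat_lit 0) (nat_lit 393500199) (nat_lit 0) (nat_lit 393500199) (nat_lit 1596) (nat_lit 4670894277) (nat_lit 418) (nat_lit 5) (nat_lit 418) (nat_lit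 3) (nat_lit 439) (nat_lit 3) (nat_lit 292) (nat_lit 292) (nat_lit 196)) (XT.lf (nat_lit 0) (nat_lit 2475411478) (nat_lit 1596) (nat_lit 2627569017) (nat_lit 1672) (nat_lit 5958393429) (nat_lit 418) (nat_lit 5) (nat_lit 439) (nat_lit 3) (nat_lit 440) (nat_lit 5) (nat_lit 293) (nat_lit 292) (nat_lit 195)))) (XT.nd (nat_lit 78) (nat_lit 0) (nat_lit 0) (XT.lf (nat_lit 0) (nat_lit 3421159267) (nat_lit 1596) (nat_lit 6078748425) (nat_lit 1672) (nat_lit 1711095714) (nat_lit 419) (nat_lit 5) (nat_lit 440) (nat_lit 5) (nat_lit 441) (nat_lit 5) (nat_lit 294) (nat_lit 292) (nat_lit 194)) (XT.nd (nat_lit 78) (nat_lit 0) (nat_lit 76) (XT.lf (nat_lit 76) (nat_lit 1767385353) (nat_lit 0) (nat_lit 2659733665) (nat_lit 1672) (nat_lit 6937388558) (nat_lit 420) (nat_lit 5) (nat_lit 419) (nat_lit 5) (nat_lit 441) (nat_lit 5) (nat_lit 295) (nat_lit 292) (nat_lit 193)) (XT.lf (nat_lit 0) (nat_lit 5502409990) (nat_lit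 1596) (nat_lit 1636496721) (nat_lit 1672) (nat_lit 4382949045) (nat_lit 420) (nat_lit 5) (nat_lit 441) (nat_lit 5) (nat_lit 442) (nat_lit 5) (nat_lit 296) (nat_lit 292) (nat_lit 192))))) (XT.nd (nat_lit 234) (nat_lit 1368) (nat_lit 0) (XT.nd (nat_lit 78) (nat_lit 0) (nat_lit 76) (XT.lf (nat_lit 76) (nat_lit 6614369194) (nat_lit 0) (nat_lit 26432477) (nat_lit 1672) (nat_lit 5042527167) (nat_lit 421) (nat_lit 5) (nat_lit 420) (nat_lit 5) (nat_lit 442) (nat_lit 5) (nat_lit 297) (nat_lit 292) (nat_lit 191)) (XT.nd (nat_lit 78) (nat_lit 0) (nat_lit 76) (XT.lf (nat_lit 76) (nat_lit 3263131848) (nat_lit 0) (nat_lit 4600901112) (nat_lit 1672) (nat_lit 3984620070) (nat_lit 422) (nat_lit 5) (nat_lit 421) (nat_lit 5) (nat_lit 443) (nat_lit 5) (nat_lit 298) (nat_lit 292) (nat_lit 190)) (XT.lf (nat_lit 0) (nat_lit 9148125761) (nat_lit 1596) (nat_lit 140048803) (nat_lit 1672) (nat_lit 2730299165) (nat_lit 422)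 (nat_lit 5) (nat_lit 443) (nat_lit 5) (nat_lit 444) (nat_lit 5) (nat_lit 299) (nat_lit 292) (nat_lit 189)))) (XT.nd (nat_lit 156) (nat_lit 1520) (nat_lit 0) (XT.nd (nat_lit 78) (nat_lit 0) (nat_lit 76) (XT.lf (nat_lit 76) (nat_lit 8623348417) (nat_lit 0) (nat_lit 1906719526) (nat_lit 1672) (nat_lit 1662154063) (nat_lit 423) (nat_lit 5) (nat_lit 422) (nat_lit 5) (nat_lit 444) (nat_lit 5) (nat_lit 300) (nat_lit 292) (nat_lit 188)) (XT.lf (nat_lit 76) (nat_lit 5294759335) (nat_lit 0) (nat_lit 6704340255) (nat_lit 1672) (nat_lit 371189438) (nat_lit 424) (nat_lit 5) (nat_lit 423) (nat_lit 5) (nat_lit 445) (nat_lit 5) (nat_lit 301) (nat_lit 292) (nat_lit 187))) (XT.nd (nat_lit 78) (nat_lit 0) (nat_lit 0) (XT.lf (nat_lit 0) (nat_lit 975293695) (nat_lit 1672) (nat_lit 10651562754) (nat_lit 1748) (nat_lit 926147945) (nat_lit 402) (nat_lit 5) (nat_lit 424) (nat_lit 5) (nat_lit 425) (nat_lit 5) (nat_lit 302)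 (nat_lit 292) (nat_lit 186)) (XT.lf (nat_lit 0) (nat_lit 2424739543) (nat_lit 1672) (nat_lit 1561754341) (nat_lit 1748) (nat_lit 8753323528) (nat_lit 402) (nat_lit 5) (nat_lit 424) (nat_lit 5) (nat_lit 425) (nat_lit 5) (nat_lit 303) (nat_lit 292) (nat_lit 185)))))) (XT.nd (nat_lit 546) (nat_lit 4256) (nat_lit 0) (XT.nd (nat_lit 234) (nat_lit 2964) (nat_lit 0) (XT.nd (nat_lit 78) (nat_lit 0) (nat_lit 0) (XT.lf (nat_lit 0) (nat_lit 3969694013) (nat_lit 1672) (nat_lit 5071053250) (nat_lit 1748) (nat_lit 3890464028) (nat_lit 403) (nat_lit 5) (nat_lit 425) (nat_lit 5) (nat_lit 426) (nat_lit 5) (nat_lit 304) (nat_lit 292) (nat_lit 184)) (XT.nd (nat_lit 78) (nat_lit 0) (nat_lit 76) (XT.lf (nat_lit 76) (nat_lit 4471723259) (nat_lit 0) (nat_lit 1131496556) (nat_lit 1748) (nat_lit 7524299197) (nat_lit 404) (nat_lit 5) (nat_lit 403) (nat_lit 5) (nat_lit 426) (nat_lit 5) (nat_lit 305) (nat_lit 292) (nat_lit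 183)) (XT.lf (nat_lit 76) (nat_lit 989984258) (nat_lit 0) (nat_lit 6358831848) (nat_lit 1748) (nat_lit 5979654567) (nat_lit 405) (nat_lit 5) (nat_lit 404) (nat_lit 5) (nat_lit 427) (nat_lit 5) (nat_lit 306) (nat_lit 292) (nat_lit 182)))) (XT.nd (nat_lit 156) (nat_lit 3116) (nat_lit 0) (XT.nd (nat_lit 78) (nat_lit 0) (nat_lit 0) (XT.lf (nat_lit 0) (nat_lit 9201886454) (nat_lit 1672) (nat_lit 2528612070) (nat_lit 1748) (nat_lit 1803865770) (nat_lit 405) (nat_lit 5) (nat_lit 427) (nat_lit 5) (nat_lit 428) (nat_lit 5) (nat_lit 307) (nat_lit 292) (nat_lit 181)) (XT.lf (nat_lit 76) (nat_lit 7614845331) (nat_lit 0) (nat_lit 3565434162) (nat_lit 1748) (nat_lit 2564775703) (nat_lit 406) (nat_lit 5) (nat_lit 405) (nat_lit 5) (nat_lit 428) (nat_lit 5) (nat_lit 308) (nat_lit 292) (nat_lit 180))) (XT.nd (nat_lit 78) (nat_lit 1520) (nat_lit 0) (XT.lf (nat_lit 0) (nat_lit 4139983101) (nat_lit 1672) (nat_lit 9131946568)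 (nat_lit 1748) (nat_lit 689073693) (nat_lit 384) (nat_lit 5) (nat_lit 406) (nat_lit 5) (nat_lit 407) (nat_lit 5) (nat_lit 309) (nat_lit 292) (nat_lit 179)) (XT.lf (nat_lit 0) (nat_lit 576727935) (nat_lit 1444) (nat_lit 697958186) (nat_lit 1520) (nat_lit 12907634643) (nat_lit 364) (nat_lit 5) (nat_lit 383) (nat_lit 5) (nat_lit 384) (nat_lit 5) (nat_lit 310) (nat_lit 292) (nat_lit 178))))) (XT.nd (nat_lit 234) (nat_lit 2508) (nat_lit 0) (XT.nd (nat_lit 78) (nat_lit 1748) (nat_lit 0) (XT.lf (nat_lit 0) (nat_lit 3386118621) (nat_lit 1520) (nat_lit 3063419396) (nat_lit 76) (nat_lit 7958699673) (nat_lit 364) (nat_lit 5) (nat_lit 384) (nat_lit 5) (nat_lit 365) (nat_lit 5) (nat_lit 311) (nat_lit 292) (nat_lit 177)) (XT.nd (nat_lit 78) (nat_lit 912) (nat_lit 0) (XT.lf (nat_lit 0) (nat_lit 5611307735) (nat_lit 912) (nat_lit 6779245647) (nat_lit 76) (nat_lit 2249383608) (nat_lit 353) (nat_lit 5) (nat_lit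 365) (nat_lit 5) (nat_lit 354) (nat_lit 5) (nat_lit 312) (nat_lit 292) (nat_lit 176)) (XT.lf (nat_lit 0) (nat_lit 4271043626) (nat_lit 912) (nat_lit 3704266955) (nat_lit 988) (nat_lit 6901848281) (nat_lit 341) (nat_lit 5) (nat_lit 353) (nat_lit 5) (nat_lit 354) (nat_lit 5) (nat_lit 313) (nat_lit 292) (nat_lit 175)))) (XT.nd (nat_lit 156) (nat_lit 1672) (nat_lit 0) (XT.nd (nat_lit 78) (nat_lit 0) (nat_lit 0) (XT.lf (nat_lit 0) (nat_lit 580220595) (nat_lit 836) (nat_lit 9894830529) (nat_lit 912) (nat_lit 4645162299) (nat_lit 330) (nat_lit 5) (nat_lit 341) (nat_lit 5) (nat_lit 342) (nat_lit 5) (nat_lit 314) (nat_lit 292) (nat_lit 174)) (XT.lf (nat_lit 0) (nat_lit 12204412405) (nat_lit 836) (nat_lit 923064845) (nat_lit 912) (nat_lit 2241540526) (nat_lit 330) (nat_lit 5) (nat_lit 341) (nat_lit 5) (nat_lit 342) (nat_lit 5) (nat_lit 315) (nat_lit 292) (nat_lit 173))) (XT.nd (nat_lit 78) (nat_lit 760)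 (nat_lit 0) (XT.lf (nat_lit 0) (nat_lit 323277409) (nat_lit 912) (nat_lit 7032530048) (nat_lit 76) (nat_lit 8267616658) (nat_lit 318) (nat_lit 5) (nat_lit 330) (nat_lit 5) (nat_lit 319) (nat_lit 5) (nat_lit 316) (nat_lit 292) (nat_lit 172)) (XT.lf (nat_lit 0) (nat_lit 2988651288) (nat_lit 836) (nat_lit 11014286123) (nat_lit 76) (nat_lit 1881158709) (nat_lit 308) (nat_lit 5) (nat_lit 319) (nat_lit 5) (nat_lit 309) (nat_lit 5) (nat_lit 317) (nat_lit 292) (nat_lit 171))))))))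
noncomputable def xc101 : XT := (XT.nd (nat_lit 2106) (nat_lit 3496) (nat_lit 0) (XT.nd (nat_lit 1014) (nat_lit 5168) (nat_lit 0) (XT.nd (nat_lit 468) (nat_lit 3800) (nat_lit 0) (XT.nd (nat_lit 234) (nat_lit 1520) (nat_lit 0) (XT.nd (nat_lit 78) (nat_lit 684) (nat_lit 0) (XT.lf (nat_lit 0) (nat_lit 1020003682) (nat_lit 760) (nat_lit 4800234377) (nat_lit 836) (nat_lit 10330635980) (nat_lit 298) (nat_lit 5) (nat_lit 308) (nat_lit 5) (nat_lit 309) (nat_lit 5) (nat_lit 318) (nat_lit 292) (nat_lit 170)) (XT.nd (nat_lit 78) (nat_lit 684) (nat_lit 0) (XT.lf (nat_lit 0) (nat_lit 8825142216) (nat_lit 836) (nat_lit 2906723666) (nat_lit 76) (nat_lit 4692032490) (nat_lit 298) (nat_lit 5) (nat_lit 309) (nat_lit 5) (nat_lit 299) (nat_lit 5) (nat_lit 319) (nat_lit 292) (nat_lit 169)) (XT.lf (nat_lit 0) (nat_lit 9762827133) (nat_lit 684) (nat_lit 2236216518) (nat_lit 760) (nat_lit 4704502949) (nat_lit 289) (nat_lit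 5) (nat_lit 298) (nat_lit 5) (nat_lit 299) (nat_lit 5) (nat_lit 320) (nat_lit 292) (nat_lit 168)))) (XT.nd (nat_lit 78) (nat_lit 760) (nat_lit 0) (XT.lf (nat_lit 0) (nat_lit 5871645751) (nat_lit 760) (nat_lit 9487180742) (nat_lit 836) (nat_lit 1630954367) (nat_lit 279) (nat_lit 5) (nat_lit 289) (nat_lit 5) (nat_lit 290) (nat_lit 5) (nat_lit 321) (nat_lit 292) (nat_lit 167)) (XT.nd (nat_lit 78) (nat_lit 0) (nat_lit 0) (XT.lf (nat_lit 0) (nat_lit 1574911365) (nat_lit 760) (nat_lit 15423459890) (nat_lit 76) (nat_lit 284836192) (nat_lit 269) (nat_lit 5) (nat_lit 279) (nat_lit 5) (nat_lit 270) (nat_lit 5) (nat_lit 322) (nat_lit 292) (nat_lit 166)) (XT.lf (nat_lit 0) (nat_lit 4978533201) (nat_lit 760) (nat_lit 2296913509) (nat_lit 76) (nat_lit 10307308864) (nat_lit 269) (nat_lit 5) (nat_lit 279) (nat_lit 5) (nat_lit 270) (nat_lit 5) (nat_lit 323) (nat_lit 292) (nat_lit 165))))) (XT.nd (nat_lit 234) (nat_lit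 1824) (nat_lit 0) (XT.nd (nat_lit 78) (nat_lit 1292) (nat_lit 0) (XT.lf (nat_lit 0) (nat_lit 8561038841) (nat_lit 760) (nat_lit 6552814274) (nat_lit 76) (nat_lit 2775910384) (nat_lit 260) (nat_lit 5) (nat_lit 270) (nat_lit 5) (nat_lit 261) (nat_lit 5) (nat_lit 324) (nat_lit 292) (nat_lit 164)) (XT.nd (nat_lit 78) (nat_lit 684) (nat_lit 0) (XT.lf (nat_lit 0) (nat_lit 7234922106) (nat_lit 608) (nat_lit 5112503304) (nat_lit 684) (nat_lit 5856636734) (nat_lit 252) (nat_lit 5) (nat_lit 260) (nat_lit 5) (nat_lit 261) (nat_lit 5) (nat_lit 325) (nat_lit 292) (nat_lit 163)) (XT.lf (nat_lit 0) (nat_lit 2987462054) (nat_lit 684) (nat_lit 13343149386) (nat_lit 760) (nat_lit 2195522501) (nat_lit 243) (nat_lit 5) (nat_lit 252) (nat_lit 5) (nat_lit 253) (nat_lit 5) (nat_lit 326) (nat_lit 292) (nat_lit 162)))) (XT.nd (nat_lit 156) (nat_lit 1140) (nat_lit 0) (XT.nd (nat_lit 78) (nat_lit 608) (nat_lit 0) (XT.lf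 (nat_lit 0) (nat_lit 1649413627) (nat_lit 760) (nat_lit 1405128355) (nat_lit 76) (nat_lit 15801236274) (nat_lit 242) (nat_lit 5) (nat_lit 252) (nat_lit 5) (nat_lit 243) (nat_lit 5) (nat_lit 327) (nat_lit 292) (nat_lit 161)) (XT.lf (nat_lit 0) (nat_lit 5702047689) (nat_lit 684) (nat_lit 5947346280) (nat_lit 76) (nat_lit 7543191830) (nat_lit 234) (nat_lit 5) (nat_lit 243) (nat_lit 5) (nat_lit 235) (nat_lit 5) (nat_lit 328) (nat_lit 292) (nat_lit 160))) (XT.nd (nat_lit 78) (nat_lit 532) (nat_lit 0) (XT.lf (nat_lit 0) (nat_lit 8894954123) (nat_lit 608) (nat_lit 1055413879) (nat_lit 684) (nat_lit 9587654910) (nat_lit 226) (nat_lit 5) (nat_lit 234) (nat_lit 5) (nat_lit 235) (nat_lit 5) (nat_lit 329) (nat_lit 292) (nat_lit 159)) (XT.lf (nat_lit 0) (nat_lit 4347417496) (nat_lit 532) (nat_lit 10098129302) (nat_lit 608) (nat_lit 5445895437) (nat_lit 219) (nat_lit 5) (nat_lit 226) (nat_lit 5) (nat_lit 227)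 (nat_lit 5) (nat_lit 330) (nat_lit 292) (nat_lit 158)))))) (XT.nd (nat_lit 546) (nat_lit 2356) (nat_lit 0) (XT.nd (nat_lit 234) (nat_lit 1596) (nat_lit 0) (XT.nd (nat_lit 78) (nat_lit 1216) (nat_lit 0) (XT.lf (nat_lit 0) (nat_lit 19146609473) (nat_lit 608) (nat_lit 348979271) (nat_lit 76) (nat_lit 758461884) (nat_lit 219) (nat_lit 5) (nat_lit 227) (nat_lit 5) (nat_lit 220) (nat_lit 5) (nat_lit 331) (nat_lit 292) (nat_lit 157)) (XT.nd (nat_lit 78) (nat_lit 532) (nat_lit 0) (XT.lf (nat_lit 0) (nat_lit 3473026199) (nat_lit 684) (nat_lit 5226426842) (nat_lit 76) (nat_lit 11924535658) (nat_lit 210) (nat_lit 5) (nat_lit 219) (nat_lit 5) (nat_lit 211) (nat_lit 5) (nat_lit 332) (nat_lit 292) (nat_lit 156)) (XT.lf (nat_lit 0) (nat_lit 8251692359) (nat_lit 608) (nat_lit 10285944114) (nat_lit 76) (nat_lit 2465731948) (nat_lit 203) (nat_lit 5) (nat_lit 211) (nat_lit 5) (nat_lit 204) (nat_lit 5) (nat_lit 333)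 (nat_lit 292) (nat_lit 155)))) (XT.nd (nat_lit 156) (nat_lit 608) (nat_lit 0) (XT.nd (nat_lit 78) (nat_lit 456) (nat_lit 0) (XT.lf (nat_lit 0) (nat_lit 5819966896) (nat_lit 532) (nat_lit 7473061545) (nat_lit 608) (nat_lit 8098721229) (nat_lit 196) (nat_lit 5) (nat_lit 203) (nat_lit 5) (nat_lit 204) (nat_lit 5) (nat_lit 334) (nat_lit 292) (nat_lit 154)) (XT.lf (nat_lit 0) (nat_lit 727435251) (nat_lit 456) (nat_lit 17846460218) (nat_lit 532) (nat_lit 3216127221) (nat_lit 190) (nat_lit 5) (nat_lit 196) (nat_lit 5) (nat_lit 197) (nat_lit 5) (nat_lit 335) (nat_lit 292) (nat_lit 153))) (XT.nd (nat_lit 78) (nat_lit 532) (nat_lit 0) (XT.lf (nat_lit 0) (nat_lit 1933460637) (nat_lit 532) (nat_lit 4547342857) (nat_lit 76) (nat_lit 15716324982) (nat_lit 189) (nat_lit 5) (nat_lit 196) (nat_lit 5) (nat_lit 190) (nat_lit 5) (nat_lit 336) (nat_lit 292) (nat_lit 152)) (XT.lf (nat_lit 0) (nat_lit 7298882010) (nat_lit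 608) (nat_lit 10057303003) (nat_lit 76) (nat_lit 5257742123) (nat_lit 182) (nat_lit 5) (nat_lit 190) (nat_lit 5) (nat_lit 183) (nat_lit 5) (nat_lit 337) (nat_lit 292) (nat_lit 151))))) (XT.nd (nat_lit 234) (nat_lit 1368) (nat_lit 0) (XT.nd (nat_lit 78) (nat_lit 532) (nat_lit 0) (XT.lf (nat_lit 0) (nat_lit 7229560108) (nat_lit 456) (nat_lit 5705666482) (nat_lit 532) (nat_lit 10105809474) (nat_lit 176) (nat_lit 5) (nat_lit 182) (nat_lit 5) (nat_lit 183) (nat_lit 5) (nat_lit 338) (nat_lit 292) (nat_lit 150)) (XT.nd (nat_lit 78) (nat_lit 76) (nat_lit 0) (XT.lf (nat_lit 0) (nat_lit 1658519760) (nat_lit 456) (nat_lit 17191253099) (nat_lit 532) (nat_lit 4629008529) (nat_lit 170) (nat_lit 5) (nat_lit 176) (nat_lit 5) (nat_lit 177) (nat_lit 5) (nat_lit 339) (nat_lit 292) (nat_lit 149)) (XT.lf (nat_lit 0) (nat_lit 1133856065) (nat_lit 532) (nat_lit 4118828662) (nat_lit 76) (nat_lit 18674147353) (nat_lit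 169) (nat_lit 5) (nat_lit 176) (nat_lit 5) (nat_lit 170) (nat_lit 5) (nat_lit 340) (nat_lit 292) (nat_lit 148)))) (XT.nd (nat_lit 156) (nat_lit 456) (nat_lit 0) (XT.nd (nat_lit 78) (nat_lit 456) (nat_lit 0) (XT.lf (nat_lit 0) (nat_lit 7135500362) (nat_lit 532) (nat_lit 10177435851) (nat_lit 76) (nat_lit 7072205397) (nat_lit 163) (nat_lit 5) (nat_lit 170) (nat_lit 5) (nat_lit 164) (nat_lit 5) (nat_lit 341) (nat_lit 292) (nat_lit 147)) (XT.lf (nat_lit 0) (nat_lit 8343447192) (nat_lit 456) (nat_lit 5080677140) (nat_lit 532) (nat_lit 11430942293) (nat_lit 157) (nat_lit 5) (nat_lit 163) (nat_lit 5) (nat_lit 164) (nat_lit 5) (nat_lit 342) (nat_lit 292) (nat_lit 146))) (XT.nd (nat_lit 78) (nat_lit 76) (nat_lit 0) (XT.lf (nat_lit 0) (nat_lit 2186572494) (nat_lit 380) (nat_lit 17836992505) (nat_lit 456) (nat_lit 5313085899) (nat_lit 152) (nat_lit 5) (nat_lit 157) (nat_lit 5) (nat_lit 158) (nat_lit 5) (nat_lit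 343) (nat_lit 292) (nat_lit 145)) (XT.lf (nat_lit 0) (nat_lit 1111809929) (nat_lit 456) (nat_lit 4214150962) (nat_lit 76) (nat_lit 20503868604) (nat_lit 151) (nat_lit 5) (nat_lit 157) (nat_lit 5) (nat_lit 152) (nat_lit 5) (nat_lit 344) (nat_lit 292) (nat_lit 144))))))) (XT.nd (nat_lit 36738) (nat_lit 0) (nat_lit 22496) (XT.nd (nat_lit 546) (nat_lit 1140) (nat_lit 0) (XT.nd (nat_lit 234) (nat_lit 1140) (nat_lit 0) (XT.nd (nat_lit 78) (nat_lit 760) (nat_lit 0) (XT.lf (nat_lit 0) (nat_lit 7798061675) (nat_lit 532) (nat_lit 10942267184) (nat_lit 76) (nat_lit 7593960653) (nat_lit 145) (nat_lit 5) (nat_lit 152) (nat_lit 5) (nat_lit 146) (nat_lit 5) (nat_lit 345) (nat_lit 292) (nat_lit 143)) (XT.nd (nat_lit 78) (nat_lit 380) (nat_lit 0) (XT.lf (nat_lit 0) (nat_lit 8857286349) (nat_lit 380) (nat_lit 5939811902) (nat_lit 456) (nat_lit 12054545319) (nat_lit 140) (nat_lit 5) (nat_lit 145) (nat_lit 5) (nat_lit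 146) (nat_lit 5) (nat_lit 346) (nat_lit 292) (nat_lit 142)) (XT.lf (nat_lit 0) (nat_lit 1982272408) (nat_lit 380) (nat_lit 20148874551) (nat_lit 456) (nat_lit 5250874533) (nat_lit 135) (nat_lit 5) (nat_lit 140) (nat_lit 5) (nat_lit 141) (nat_lit 5) (nat_lit 347) (nat_lit 292) (nat_lit 141)))) (XT.nd (nat_lit 156) (nat_lit 684) (nat_lit 0) (XT.nd (nat_lit 78) (nat_lit 380) (nat_lit 0) (XT.lf (nat_lit 0) (nat_lit 1886946665) (nat_lit 456) (nat_lit 5186970944) (nat_lit 76) (nat_lit 20851107224) (nat_lit 134) (nat_lit 5) (nat_lit 140) (nat_lit 5) (nat_lit 135) (nat_lit 5) (nat_lit 348) (nat_lit 292) (nat_lit 140)) (XT.lf (nat_lit 0) (nat_lit 9303779899) (nat_lit 456) (nat_lit 12733243757) (nat_lit 76) (nat_lit 6443879886) (nat_lit 129) (nat_lit 5) (nat_lit 135) (nat_lit 5) (nat_lit 130) (nat_lit 5) (nat_lit 349) (nat_lit 292) (nat_lit 139))) (XT.nd (nat_lit 78) (nat_lit 304) (nat_lit 0) (XT.lf (nat_lit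 0) (nat_lit 8377695094) (nat_lit 380) (nat_lit 8693548646) (nat_lit 456) (nat_lit 11979656006) (nat_lit 124) (nat_lit 5) (nat_lit 129) (nat_lit 5) (nat_lit 130) (nat_lit 5) (nat_lit 350) (nat_lit 292) (nat_lit 138)) (XT.lf (nat_lit 0) (nat_lit 621626599) (nat_lit 304) (nat_lit 24564979604) (nat_lit 380) (nat_lit 4449095680) (nat_lit 120) (nat_lit 5) (nat_lit 124) (nat_lit 5) (nat_lit 125) (nat_lit 5) (nat_lit 351) (nat_lit 292) (nat_lit 137))))) (XT.nd (nat_lit 234) (nat_lit 380) (nat_lit 0) (XT.nd (nat_lit 78) (nat_lit 684) (nat_lit 0) (XT.lf (nat_lit 0) (nat_lit 3454463337) (nat_lit 380) (nat_lit 7490561942) (nat_lit 76) (nat_lit 19288787525) (nat_lit 119) (nat_lit 5) (nat_lit 124) (nat_lit 5) (nat_lit 120) (nat_lit 5) (nat_lit 352) (nat_lit 292) (nat_lit 136)) (XT.nd (nat_lit 78) (nat_lit 304) (nat_lit 0) (XT.lf (nat_lit 0) (nat_lit 11643704930) (nat_lit 456) (nat_lit 16037611459) (nat_lit 76)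 (nat_lit 3165785333) (nat_lit 114) (nat_lit 5) (nat_lit 120) (nat_lit 5) (nat_lit 115) (nat_lit 5) (nat_lit 353) (nat_lit 292) (nat_lit 135)) (XT.lf (nat_lit 0) (nat_lit 6401110294) (nat_lit 304) (nat_lit 13835058703) (nat_lit 380) (nat_lit 11239472583) (nat_lit 110) (nat_lit 5) (nat_lit 114) (nat_lit 5) (nat_lit 115) (nat_lit 5) (nat_lit 354) (nat_lit 292) (nat_lit 134)))) (XT.nd (nat_lit 35802) (nat_lit 0) (nat_lit 23788) (XT.nd (nat_lit 78) (nat_lit 380) (nat_lit 0) (XT.lf (nat_lit 0) (nat_lit 29190402076) (nat_lit 380) (nat_lit 2404380983) (nat_lit 76) (nat_lit 526177758) (nat_lit 110) (nat_lit 5) (nat_lit 115) (nat_lit 5) (nat_lit 111) (nat_lit 5) (nat_lit 355) (nat_lit 292) (nat_lit 133)) (XT.lf (nat_lit 0) (nat_lit 5776982386) (nat_lit 380) (nat_lit 11701075290) (nat_lit 76) (nat_lit 15302390782) (nat_lit 105) (nat_lit 5) (nat_lit 110) (nat_lit 5) (nat_lit 106) (nat_lit 5) (nat_lit 356)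 (nat_lit 292) (nat_lit 132))) (XT.nd (nat_lit 78) (nat_lit 0) (nat_lit 0) (XT.lf (nat_lit 0) (nat_lit 820574989) (nat_lit 0) (nat_lit 820574989) (nat_lit 1596) (nat_lit 3963280222) (nat_lit 418) (nat_lit 5) (nat_lit 418) (nat_lit 3) (nat_lit 439) (nat_lit 3) (nat_lit 293) (nat_lit 293) (nat_lit 194)) (XT.lf (nat_lit 0) (nat_lit 4157136659) (nat_lit 1596) (nat_lit 1861411027) (nat_lit 1672) (nat_lit 5341371550) (nat_lit 418) (nat_lit 5) (nat_lit 439) (nat_lit 3) (nat_lit 440) (nat_lit 5) (nat_lit 294) (nat_lit 293) (nat_lit 193)))))) (XT.nd (nat_lit 546) (nat_lit 1368) (nat_lit 0) (XT.nd (nat_lit 234) (nat_lit 0) (nat_lit 76) (XT.nd (nat_lit 78) (nat_lit 0) (nat_lit 0) (XT.lf (nat_lit 0) (nat_lit 5085064194) (nat_lit 1596) (nat_lit 5392630052) (nat_lit 1672) (nat_lit 1037300609) (nat_lit 419) (nat_lit 5) (nat_lit 440) (nat_lit 5) (nat_lit 441) (nat_lit 5) (nat_lit 295) (nat_lit 293) (nat_lit 192))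 (XT.nd (nat_lit 78) (nat_lit 0) (nat_lit 76) (XT.lf (nat_lit 76) (nat_lit 2674797670) (nat_lit 0) (nat_lit 3406478451) (nat_lit 1672) (nat_lit 5592658986) (nat_lit 420) (nat_lit 5) (nat_lit 419) (nat_lit 5) (nat_lit 441) (nat_lit 5) (nat_lit 296) (nat_lit 293) (nat_lit 191)) (XT.lf (nat_lit 0) (nat_lit 7140310671) (nat_lit 1596) (nat_lit 821291862) (nat_lit 1672) (nat_lit 3875402982) (nat_lit 420) (nat_lit 5) (nat_lit 441) (nat_lit 5) (nat_lit 442) (nat_lit 5) (nat_lit 297) (nat_lit 293) (nat_lit 190)))) (XT.nd (nat_lit 156) (nat_lit 0) (nat_lit 152) (XT.nd (nat_lit 78) (nat_lit 0) (nat_lit 76) (XT.lf (nat_lit 76) (nat_lit 7663077793) (nat_lit 0) (nat_lit 612398960) (nat_lit 1672) (nat_lit 3728624147) (nat_lit 421) (nat_lit 5) (nat_lit 420) (nat_lit 5) (nat_lit 442) (nat_lit 5) (nat_lit 298) (nat_lit 293) (nat_lit 189)) (XT.lf (nat_lit 76) (nat_lit 4230491784) (nat_lit 0) (nat_lit 5265060420) (nat_lit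 1672) (nat_lit 2679659343) (nat_lit 422) (nat_lit 5) (nat_lit 421) (nat_lit 5) (nat_lit 443) (nat_lit 5) (nat_lit 299) (nat_lit 293) (nat_lit 188))) (XT.nd (nat_lit 78) (nat_lit 0) (nat_lit 0) (XT.lf (nat_lit 76) (nat_lit 740985417) (nat_lit 0) (nat_lit 10038028343) (nat_lit 1672) (nat_lit 1571924997) (nat_lit 423) (nat_lit 5) (nat_lit 422) (nat_lit 5) (nat_lit 444) (nat_lit 5) (nat_lit 300) (nat_lit 293) (nat_lit 187)) (XT.lf (nat_lit 76) (nat_lit 9743362166) (nat_lit 0) (nat_lit 2420465331) (nat_lit 1672) (nat_lit 366871690) (nat_lit 423) (nat_lit 5) (nat_lit 422) (nat_lit 5) (nat_lit 444) (nat_lit 5) (nat_lit 301) (nat_lit 293) (nat_lit 186))))) (XT.nd (nat_lit 234) (nat_lit 0) (nat_lit 152) (XT.nd (nat_lit 78) (nat_lit 0) (nat_lit 76) (XT.lf (nat_lit 0) (nat_lit 914364626) (nat_lit 1672) (nat_lit 6390157813) (nat_lit 1748) (nat_lit 5410203970) (nat_lit 401) (nat_lit 5) (nat_lit 423) (nat_lit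 5) (nat_lit 424) (nat_lit 5) (nat_lit 302) (nat_lit 293) (nat_lit 185)) (XT.nd (nat_lit 78) (nat_lit 0) (nat_lit 0) (XT.lf (nat_lit 0) (nat_lit 2261862405) (nat_lit 1672) (nat_lit 10061958377) (nat_lit 1748) (nat_lit 579765968) (nat_lit 402) (nat_lit 5) (nat_lit 424) (nat_lit 5) (nat_lit 425) (nat_lit 5) (nat_lit 303) (nat_lit 293) (nat_lit 184)) (XT.lf (nat_lit 0) (nat_lit 3718170952) (nat_lit 1672) (nat_lit 725935845) (nat_lit 1748) (nat_lit 8652654869) (nat_lit 402) (nat_lit 5) (nat_lit 424) (nat_lit 5) (nat_lit 425) (nat_lit 5) (nat_lit 304) (nat_lit 293) (nat_lit 183)))) (XT.nd (nat_lit 156) (nat_lit 0) (nat_lit 76) (XT.nd (nat_lit 78) (nat_lit 0) (nat_lit 0) (XT.lf (nat_lit 0) (nat_lit 5277464531) (nat_lit 1672) (nat_lit 4328113050) (nat_lit 1748) (nat_lit 3688984333) (nat_lit 403) (nat_lit 5) (nat_lit 425) (nat_lit 5) (nat_lit 426) (nat_lit 5) (nat_lit 305) (nat_lit 293) (nat_lit 182)) (XT.lf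 (nat_lit 76) (nat_lit 5486425278) (nat_lit 0) (nat_lit 1444666208) (nat_lit 1748) (nat_lit 6566269129) (nat_lit 404) (nat_lit 5) (nat_lit 403) (nat_lit 5) (nat_lit 426) (nat_lit 5) (nat_lit 306) (nat_lit 293) (nat_lit 181))) (XT.nd (nat_lit 78) (nat_lit 0) (nat_lit 76) (XT.lf (nat_lit 76) (nat_lit 1911326581) (nat_lit 0) (nat_lit 6787978255) (nat_lit 1748) (nat_lit 5005653970) (nat_lit 405) (nat_lit 5) (nat_lit 404) (nat_lit 5) (nat_lit 427) (nat_lit 5) (nat_lit 307) (nat_lit 293) (nat_lit 180)) (XT.lf (nat_lit 0) (nat_lit 10573551316) (nat_lit 1672) (nat_lit 1714609741) (nat_lit 1748) (nat_lit 1629578796) (nat_lit 405) (nat_lit 5) (nat_lit 427) (nat_lit 5) (nat_lit 428) (nat_lit 5) (nat_lit 308) (nat_lit 293) (nat_lit 179))))))))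
noncomputable def xc102 : XT := (XT.nd (nat_lit 2106) (nat_lit 6536) (nat_lit 0) (XT.nd (nat_lit 1014) (nat_lit 7068) (nat_lit 0) (XT.nd (nat_lit 468) (nat_lit 3952) (nat_lit 0) (XT.nd (nat_lit 234) (nat_lit 1748) (nat_lit 0) (XT.nd (nat_lit 78) (nat_lit 3116) (nat_lit 0) (XT.lf (nat_lit 76) (nat_lit 8718714450) (nat_lit 0) (nat_lit 3866354608) (nat_lit 1748) (nat_lit 1550228613) (nat_lit 406) (nat_lit 5) (nat_lit 405) (nat_lit 5) (nat_lit 428) (nat_lit 5) (nat_lit 309) (nat_lit 293) (nat_lit 178)) (XT.nd (nat_lit 78) (nat_lit 1444) (nat_lit 0) (XT.lf (nat_lit 0) (nat_lit 349911954) (nat_lit 1748) (nat_lit 9212186925) (nat_lit 76) (nat_lit 4796132951) (nat_lit 383) (nat_lit 5) (nat_lit 406) (nat_lit 5) (nat_lit 384) (nat_lit 5) (nat_lit 310) (nat_lit 293) (nat_lit 177)) (XT.lf (nat_lit 0) (nat_lit 1478302708) (nat_lit 1444) (nat_lit 860121995) (nat_lit 1520) (nat_lit 12248188922) (nat_lit 364)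 (nat_lit 5) (nat_lit 383) (nat_lit 5) (nat_lit 384) (nat_lit 5) (nat_lit 311) (nat_lit 293) (nat_lit 176)))) (XT.nd (nat_lit 78) (nat_lit 1748) (nat_lit 0) (XT.lf (nat_lit 0) (nat_lit 4482441085) (nat_lit 1520) (nat_lit 2275354382) (nat_lit 76) (nat_lit 8062147196) (nat_lit 364) (nat_lit 5) (nat_lit 384) (nat_lit 5) (nat_lit 365) (nat_lit 5) (nat_lit 312) (nat_lit 293) (nat_lit 175)) (XT.nd (nat_lit 78) (nat_lit 912) (nat_lit 0) (XT.lf (nat_lit 0) (nat_lit 6750347290) (nat_lit 912) (nat_lit 6096189348) (nat_lit 76) (nat_lit 2212555930) (nat_lit 353) (nat_lit 5) (nat_lit 365) (nat_lit 5) (nat_lit 354) (nat_lit 5) (nat_lit 313) (nat_lit 293) (nat_lit 174)) (XT.lf (nat_lit 0) (nat_lit 5271227270) (nat_lit 912) (nat_lit 3891432070) (nat_lit 988) (nat_lit 6141242281) (nat_lit 341) (nat_lit 5) (nat_lit 353) (nat_lit 5) (nat_lit 354) (nat_lit 5) (nat_lit 314) (nat_lit 293) (nat_lit 173))))) (XT.nd (nat_lit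 234) (nat_lit 2204) (nat_lit 0) (XT.nd (nat_lit 78) (nat_lit 912) (nat_lit 0) (XT.lf (nat_lit 0) (nat_lit 1475271684) (nat_lit 836) (nat_lit 10239725105) (nat_lit 912) (nat_lit 3839716709) (nat_lit 330) (nat_lit 5) (nat_lit 341) (nat_lit 5) (nat_lit 342) (nat_lit 5) (nat_lit 315) (nat_lit 293) (nat_lit 172)) (XT.nd (nat_lit 78) (nat_lit 912) (nat_lit 0) (XT.lf (nat_lit 0) (nat_lit 13422626788) (nat_lit 836) (nat_lit 997406946) (nat_lit 912) (nat_lit 1391504743) (nat_lit 330) (nat_lit 5) (nat_lit 341) (nat_lit 5) (nat_lit 342) (nat_lit 5) (nat_lit 316) (nat_lit 293) (nat_lit 171)) (XT.lf (nat_lit 0) (nat_lit 1217164635) (nat_lit 912) (nat_lit 6374403212) (nat_lit 76) (nat_lit 8482327727) (nat_lit 318) (nat_lit 5) (nat_lit 330) (nat_lit 5) (nat_lit 319) (nat_lit 5) (nat_lit 317) (nat_lit 293) (nat_lit 170)))) (XT.nd (nat_lit 156) (nat_lit 684) (nat_lit 0) (XT.nd (nat_lit 78) (nat_lit 760) (nat_lit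 0) (XT.lf (nat_lit 0) (nat_lit 3942239566) (nat_lit 836) (nat_lit 10471842513) (nat_lit 76) (nat_lit 1928726810) (nat_lit 308) (nat_lit 5) (nat_lit 319) (nat_lit 5) (nat_lit 309) (nat_lit 5) (nat_lit 318) (nat_lit 293) (nat_lit 169)) (XT.lf (nat_lit 0) (nat_lit 1909314671) (nat_lit 760) (nat_lit 4929871616) (nat_lit 836) (nat_lit 9778811092) (nat_lit 298) (nat_lit 5) (nat_lit 308) (nat_lit 5) (nat_lit 309) (nat_lit 5) (nat_lit 319) (nat_lit 293) (nat_lit 168))) (XT.nd (nat_lit 78) (nat_lit 684) (nat_lit 0) (XT.lf (nat_lit 0) (nat_lit 9909735691) (nat_lit 836) (nat_lit 2143420074) (nat_lit 76) (nat_lit 4846561746) (nat_lit 298) (nat_lit 5) (nat_lit 309) (nat_lit 5) (nat_lit 299) (nat_lit 5) (nat_lit 320) (nat_lit 293) (nat_lit 167)) (XT.lf (nat_lit 0) (nat_lit 10892418812) (nat_lit 684) (nat_lit 2267989001) (nat_lit 760) (nat_lit 4027730893) (nat_lit 289) (nat_lit 5) (nat_lit 298) (nat_lit 5) (nat_lit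 299) (nat_lit 5) (nat_lit 321) (nat_lit 293) (nat_lit 166)))))) (XT.nd (nat_lit 546) (nat_lit 3496) (nat_lit 0) (XT.nd (nat_lit 234) (nat_lit 2052) (nat_lit 0) (XT.nd (nat_lit 78) (nat_lit 760) (nat_lit 0) (XT.lf (nat_lit 0) (nat_lit 6886948218) (nat_lit 760) (nat_lit 9716365325) (nat_lit 836) (nat_lit 880014030) (nat_lit 279) (nat_lit 5) (nat_lit 289) (nat_lit 5) (nat_lit 290) (nat_lit 5) (nat_lit 322) (nat_lit 293) (nat_lit 165)) (XT.nd (nat_lit 78) (nat_lit 0) (nat_lit 0) (XT.lf (nat_lit 0) (nat_lit 2394394311) (nat_lit 760) (nat_lit 15034382033) (nat_lit 76) (nat_lit 357033093) (nat_lit 269) (nat_lit 5) (nat_lit 279) (nat_lit 5) (nat_lit 270) (nat_lit 5) (nat_lit 323) (nat_lit 293) (nat_lit 164)) (XT.lf (nat_lit 0) (nat_lit 5877632503) (nat_lit 760) (nat_lit 1538848434) (nat_lit 76) (nat_lit 10678326010) (nat_lit 269) (nat_lit 5) (nat_lit 279) (nat_lit 5) (nat_lit 270) (nat_lit 5) (nat_lit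 324) (nat_lit 293) (nat_lit 163)))) (XT.nd (nat_lit 156) (nat_lit 760) (nat_lit 0) (XT.nd (nat_lit 78) (nat_lit 608) (nat_lit 0) (XT.lf (nat_lit 0) (nat_lit 9551580072) (nat_lit 760) (nat_lit 5921277185) (nat_lit 76) (nat_lit 2938501228) (nat_lit 260) (nat_lit 5) (nat_lit 270) (nat_lit 5) (nat_lit 261) (nat_lit 5) (nat_lit 325) (nat_lit 293) (nat_lit 162)) (XT.lf (nat_lit 0) (nat_lit 8266655998) (nat_lit 608) (nat_lit 5168821528) (nat_lit 684) (nat_lit 5299942521) (nat_lit 252) (nat_lit 5) (nat_lit 260) (nat_lit 5) (nat_lit 261) (nat_lit 5) (nat_lit 326) (nat_lit 293) (nat_lit 161))) (XT.nd (nat_lit 78) (nat_lit 76) (nat_lit 0) (XT.lf (nat_lit 0) (nat_lit 3892459329) (nat_lit 684) (nat_lit 13630703731) (nat_lit 760) (nat_lit 1544302841) (nat_lit 243) (nat_lit 5) (nat_lit 252) (nat_lit 5) (nat_lit 253) (nat_lit 5) (nat_lit 327) (nat_lit 293) (nat_lit 160)) (XT.lf (nat_lit 0) (nat_lit 2385964610)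 (nat_lit 760) (nat_lit 646146595) (nat_lit 76) (nat_lit 16375218869) (nat_lit 242) (nat_lit 5) (nat_lit 252) (nat_lit 5) (nat_lit 243) (nat_lit 5) (nat_lit 328) (nat_lit 293) (nat_lit 159))))) (XT.nd (nat_lit 234) (nat_lit 1748) (nat_lit 0) (XT.nd (nat_lit 78) (nat_lit 1140) (nat_lit 0) (XT.lf (nat_lit 0) (nat_lit 6546036020) (nat_lit 684) (nat_lit 5324568883) (nat_lit 76) (nat_lit 7883930847) (nat_lit 234) (nat_lit 5) (nat_lit 243) (nat_lit 5) (nat_lit 235) (nat_lit 5) (nat_lit 329) (nat_lit 293) (nat_lit 158)) (XT.nd (nat_lit 78) (nat_lit 532) (nat_lit 0) (XT.lf (nat_lit 0) (nat_lit 9950002050) (nat_lit 608) (nat_lit 957321593) (nat_lit 684) (nat_lit 9203312730) (nat_lit 226) (nat_lit 5) (nat_lit 234) (nat_lit 5) (nat_lit 235) (nat_lit 5) (nat_lit 330) (nat_lit 293) (nat_lit 157)) (XT.lf (nat_lit 0) (nat_lit 5265730705) (nat_lit 532) (nat_lit 10258382525) (nat_lit 608) (nat_lit 4950820375) (nat_lit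 219) (nat_lit 5) (nat_lit 226) (nat_lit 5) (nat_lit 227) (nat_lit 5) (nat_lit 331) (nat_lit 293) (nat_lit 156)))) (XT.nd (nat_lit 156) (nat_lit 1064) (nat_lit 0) (XT.nd (nat_lit 78) (nat_lit 76) (nat_lit 0) (XT.lf (nat_lit 0) (nat_lit 423008051) (nat_lit 608) (nat_lit 19928053407) (nat_lit 684) (nat_lit 497671850) (nat_lit 211) (nat_lit 5) (nat_lit 219) (nat_lit 5) (nat_lit 220) (nat_lit 5) (nat_lit 332) (nat_lit 293) (nat_lit 155)) (XT.lf (nat_lit 0) (nat_lit 4195605365) (nat_lit 684) (nat_lit 4610375643) (nat_lit 76) (nat_lit 12424038087) (nat_lit 210) (nat_lit 5) (nat_lit 219) (nat_lit 5) (nat_lit 211) (nat_lit 5) (nat_lit 333) (nat_lit 293) (nat_lit 154))) (XT.nd (nat_lit 78) (nat_lit 532) (nat_lit 0) (XT.lf (nat_lit 0) (nat_lit 9105562918) (nat_lit 608) (nat_lit 9822804817) (nat_lit 76) (nat_lit 2692663210) (nat_lit 203) (nat_lit 5) (nat_lit 211) (nat_lit 5) (nat_lit 204) (nat_lit 5) (nat_lit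 334) (nat_lit 293) (nat_lit 153)) (XT.lf (nat_lit 0) (nat_lit 6753763322) (nat_lit 532) (nat_lit 7531645174) (nat_lit 608) (nat_lit 7735918839) (nat_lit 196) (nat_lit 5) (nat_lit 203) (nat_lit 5) (nat_lit 204) (nat_lit 5) (nat_lit 335) (nat_lit 293) (nat_lit 152))))))) (XT.nd (nat_lit 1014) (nat_lit 1900) (nat_lit 0) (XT.nd (nat_lit 468) (nat_lit 2584) (nat_lit 0) (XT.nd (nat_lit 234) (nat_lit 988) (nat_lit 0) (XT.nd (nat_lit 78) (nat_lit 608) (nat_lit 0) (XT.lf (nat_lit 0) (nat_lit 1507058161) (nat_lit 456) (nat_lit 18206318427) (nat_lit 532) (nat_lit 2718407282) (nat_lit 190) (nat_lit 5) (nat_lit 196) (nat_lit 5) (nat_lit 197) (nat_lit 5) (nat_lit 336) (nat_lit 293) (nat_lit 151)) (XT.nd (nat_lit 78) (nat_lit 532) (nat_lit 0) (XT.lf (nat_lit 0) (nat_lit 2560795201) (nat_lit 532) (nat_lit 3940188979) (nat_lit 76) (nat_lit 16350391490) (nat_lit 189) (nat_lit 5) (nat_lit 196) (nat_lit 5) (nat_lit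 190) (nat_lit 5) (nat_lit 337) (nat_lit 293) (nat_lit 150)) (XT.lf (nat_lit 0) (nat_lit 8076476024) (nat_lit 608) (nat_lit 9617219500) (nat_lit 76) (nat_lit 5587204986) (nat_lit 182) (nat_lit 5) (nat_lit 190) (nat_lit 5) (nat_lit 183) (nat_lit 5) (nat_lit 338) (nat_lit 293) (nat_lit 149)))) (XT.nd (nat_lit 78) (nat_lit 532) (nat_lit 0) (XT.lf (nat_lit 0) (nat_lit 8176214638) (nat_lit 456) (nat_lit 5694163734) (nat_lit 532) (nat_lit 9850682904) (nat_lit 176) (nat_lit 5) (nat_lit 182) (nat_lit 5) (nat_lit 183) (nat_lit 5) (nat_lit 339) (nat_lit 293) (nat_lit 148)) (XT.nd (nat_lit 78) (nat_lit 76) (nat_lit 0) (XT.lf (nat_lit 0) (nat_lit 2436060743) (nat_lit 456) (nat_lit 17516242235) (nat_lit 532) (nat_lit 4219844832) (nat_lit 170) (nat_lit 5) (nat_lit 176) (nat_lit 5) (nat_lit 177) (nat_lit 5) (nat_lit 340) (nat_lit 293) (nat_lit 147)) (XT.lf (nat_lit 0) (nat_lit 1692965329) (nat_lit 532) (nat_lit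 3528583609) (nat_lit 76) (nat_lit 19412342295) (nat_lit 169) (nat_lit 5) (nat_lit 176) (nat_lit 5) (nat_lit 170) (nat_lit 5) (nat_lit 341) (nat_lit 293) (nat_lit 146))))) (XT.nd (nat_lit 234) (nat_lit 1292) (nat_lit 0) (XT.nd (nat_lit 78) (nat_lit 836) (nat_lit 0) (XT.lf (nat_lit 0) (nat_lit 7865144083) (nat_lit 532) (nat_lit 9771225499) (nat_lit 76) (nat_lit 7469777870) (nat_lit 163) (nat_lit 5) (nat_lit 170) (nat_lit 5) (nat_lit 164) (nat_lit 5) (nat_lit 342) (nat_lit 293) (nat_lit 145)) (XT.nd (nat_lit 78) (nat_lit 380) (nat_lit 0) (XT.lf (nat_lit 0) (nat_lit 9293740251) (nat_lit 456) (nat_lit 5038214462) (nat_lit 532) (nat_lit 11258431843) (nat_lit 157) (nat_lit 5) (nat_lit 163) (nat_lit 5) (nat_lit 164) (nat_lit 5) (nat_lit 343) (nat_lit 293) (nat_lit 144)) (XT.lf (nat_lit 0) (nat_lit 2949722473) (nat_lit 380) (nat_lit 18170701715) (nat_lit 456) (nat_lit 4966179955) (nat_lit 152) (nat_lit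 5) (nat_lit 157) (nat_lit 5) (nat_lit 158) (nat_lit 5) (nat_lit 344) (nat_lit 293) (nat_lit 143)))) (XT.nd (nat_lit 156) (nat_lit 760) (nat_lit 0) (XT.nd (nat_lit 78) (nat_lit 456) (nat_lit 0) (XT.lf (nat_lit 0) (nat_lit 1630269397) (nat_lit 456) (nat_lit 3656680481) (nat_lit 76) (nat_lit 21307859914) (nat_lit 151) (nat_lit 5) (nat_lit 157) (nat_lit 5) (nat_lit 152) (nat_lit 5) (nat_lit 345) (nat_lit 293) (nat_lit 142)) (XT.lf (nat_lit 0) (nat_lit 8508629691) (nat_lit 532) (nat_lit 10589304405) (nat_lit 76) (nat_lit 8016645280) (nat_lit 145) (nat_lit 5) (nat_lit 152) (nat_lit 5) (nat_lit 146) (nat_lit 5) (nat_lit 346) (nat_lit 293) (nat_lit 141))) (XT.nd (nat_lit 78) (nat_lit 380) (nat_lit 0) (XT.lf (nat_lit 0) (nat_lit 9793183573) (nat_lit 380) (nat_lit 5914922719) (nat_lit 456) (nat_lit 11939544393) (nat_lit 140) (nat_lit 5) (nat_lit 145) (nat_lit 5) (nat_lit 146) (nat_lit 5) (nat_lit 347) (nat_lit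 293) (nat_lit 140)) (XT.lf (nat_lit 0) (nat_lit 2709136581) (nat_lit 380) (nat_lit 20545048497) (nat_lit 456) (nat_lit 4939920530) (nat_lit 135) (nat_lit 5) (nat_lit 140) (nat_lit 5) (nat_lit 141) (nat_lit 5) (nat_lit 348) (nat_lit 293) (nat_lit 139)))))) (XT.nd (nat_lit 546) (nat_lit 0) (nat_lit 0) (XT.nd (nat_lit 234) (nat_lit 1064) (nat_lit 0) (XT.nd (nat_lit 78) (nat_lit 760) (nat_lit 0) (XT.lf (nat_lit 0) (nat_lit 2392425003) (nat_lit 456) (nat_lit 4688472456) (nat_lit 76) (nat_lit 21672715632) (nat_lit 134) (nat_lit 5) (nat_lit 140) (nat_lit 5) (nat_lit 135) (nat_lit 5) (nat_lit 349) (nat_lit 293) (nat_lit 138)) (XT.nd (nat_lit 78) (nat_lit 380) (nat_lit 0) (XT.lf (nat_lit 0) (nat_lit 10024188748) (nat_lit 456) (nat_lit 12464087789) (nat_lit 76) (nat_lit 6838048504) (nat_lit 129) (nat_lit 5) (nat_lit 135) (nat_lit 5) (nat_lit 130) (nat_lit 5) (nat_lit 350) (nat_lit 293) (nat_lit 137)) (XT.lf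 (nat_lit 0) (nat_lit 9269615039) (nat_lit 380) (nat_lit 8746367329) (nat_lit 456) (nat_lit 11897617880) (nat_lit 124) (nat_lit 5) (nat_lit 129) (nat_lit 5) (nat_lit 130) (nat_lit 5) (nat_lit 351) (nat_lit 293) (nat_lit 136)))) (XT.nd (nat_lit 156) (nat_lit 684) (nat_lit 0) (XT.nd (nat_lit 78) (nat_lit 76) (nat_lit 0) (XT.lf (nat_lit 0) (nat_lit 1277826498) (nat_lit 304) (nat_lit 25089829636) (nat_lit 380) (nat_lit 4148438388) (nat_lit 120) (nat_lit 5) (nat_lit 124) (nat_lit 5) (nat_lit 125) (nat_lit 5) (nat_lit 352) (nat_lit 293) (nat_lit 135)) (XT.lf (nat_lit 0) (nat_lit 3974054972) (nat_lit 380) (nat_lit 7090608065) (nat_lit 76) (nat_lit 20067683772) (nat_lit 119) (nat_lit 5) (nat_lit 124) (nat_lit 5) (nat_lit 120) (nat_lit 5) (nat_lit 353) (nat_lit 293) (nat_lit 134))) (XT.nd (nat_lit 78) (nat_lit 304) (nat_lit 0) (XT.lf (nat_lit 0) (nat_lit 12402190574) (nat_lit 456) (nat_lit 15897232488) (nat_lit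 76) (nat_lit 3464751693) (nat_lit 114) (nat_lit 5) (nat_lit 120) (nat_lit 5) (nat_lit 115) (nat_lit 5) (nat_lit 354) (nat_lit 293) (nat_lit 133)) (XT.lf (nat_lit 0) (nat_lit 7204567700) (nat_lit 304) (nat_lit 14039912930) (nat_lit 380) (nat_lit 11167253697) (nat_lit 110) (nat_lit 5) (nat_lit 114) (nat_lit 5) (nat_lit 115) (nat_lit 5) (nat_lit 355) (nat_lit 293) (nat_lit 132))))) (XT.nd (nat_lit 35958) (nat_lit 0) (nat_lit 23484) (XT.nd (nat_lit 35802) (nat_lit 0) (nat_lit 23408) (XT.lf (nat_lit 0) (nat_lit 30456979482) (nat_lit 380) (nat_lit 1876283426) (nat_lit 76) (nat_lit 743361883) (nat_lit 110) (nat_lit 5) (nat_lit 115) (nat_lit 5) (nat_lit 111) (nat_lit 5) (nat_lit 356) (nat_lit 293) (nat_lit 131)) (XT.nd (nat_lit 78) (nat_lit 0) (nat_lit 0) (XT.lf (nat_lit 0) (nat_lit 1236623838) (nat_lit 0) (nat_lit 1236623838) (nat_lit 1596) (nat_lit 3283101541) (nat_lit 418) (nat_lit 5) (nat_lit 418)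 (nat_lit 3) (nat_lit 439) (nat_lit 3) (nat_lit 294) (nat_lit 294) (nat_lit 192)) (XT.lf (nat_lit 0) (nat_lit 5797038653) (nat_lit 1596) (nat_lit 1120773897) (nat_lit 1672) (nat_lit 4751519680) (nat_lit 418) (nat_lit 5) (nat_lit 439) (nat_lit 3) (nat_lit 440) (nat_lit 5) (nat_lit 295) (nat_lit 294) (nat_lit 191)))) (XT.nd (nat_lit 156) (nat_lit 0) (nat_lit 76) (XT.nd (nat_lit 78) (nat_lit 0) (nat_lit 0) (XT.lf (nat_lit 0) (nat_lit 6709262974) (nat_lit 1596) (nat_lit 4735782480) (nat_lit 1672) (nat_lit 384916964) (nat_lit 419) (nat_lit 5) (nat_lit 440) (nat_lit 5) (nat_lit 441) (nat_lit 5) (nat_lit 296) (nat_lit 294) (nat_lit 190)) (XT.lf (nat_lit 76) (nat_lit 3560386831) (nat_lit 0) (nat_lit 4137339762) (nat_lit 1672) (nat_lit 4296727540) (nat_lit 420) (nat_lit 5) (nat_lit 419) (nat_lit 5) (nat_lit 441) (nat_lit 5) (nat_lit 297) (nat_lit 294) (nat_lit 189))) (XT.nd (nat_lit 78) (nat_lit 0) (nat_lit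 0) (XT.lf (nat_lit 0) (nat_lit 8742801998) (nat_lit 1596) (nat_lit 31245200) (nat_lit 1672) (nat_lit 3389313734) (nat_lit 420) (nat_lit 5) (nat_lit 441) (nat_lit 5) (nat_lit 442) (nat_lit 5) (nat_lit 298) (nat_lit 294) (nat_lit 188)) (XT.lf (nat_lit 76) (nat_lit 8694438242) (nat_lit 0) (nat_lit 1182353085) (nat_lit 1672) (nat_lit 2459411295) (nat_lit 421) (nat_lit 5) (nat_lit 420) (nat_lit 5) (nat_lit 442) (nat_lit 5) (nat_lit 299) (nat_lit 294) (nat_lit 187))))))))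
noncomputable def xc103 : XT := (XT.nd (nat_lit 2106) (nat_lit 10716) (nat_lit 0) (XT.nd (nat_lit 1014) (nat_lit 7904) (nat_lit 0) (XT.nd (nat_lit 468) (nat_lit 2736) (nat_lit 0) (XT.nd (nat_lit 234) (nat_lit 0) (nat_lit 76) (XT.nd (nat_lit 78) (nat_lit 1596) (nat_lit 0) (XT.lf (nat_lit 76) (nat_lit 5176961613) (nat_lit 0) (nat_lit 5918942362) (nat_lit 1672) (nat_lit 1417321884) (nat_lit 422) (nat_lit 5) (nat_lit 421) (nat_lit 5) (nat_lit 443) (nat_lit 5) (nat_lit 300) (nat_lit 294) (nat_lit 186)) (XT.nd (nat_lit 78) (nat_lit 1672) (nat_lit 0) (XT.lf (nat_lit 76) (nat_lit 1599441481) (nat_lit 0) (nat_lit 10782416008) (nat_lit 1672) (nat_lit 313114790) (nat_lit 423) (nat_lit 5) (nat_lit 422) (nat_lit 5) (nat_lit 444) (nat_lit 5) (nat_lit 301) (nat_lit 294) (nat_lit 185)) (XT.lf (nat_lit 0) (nat_lit 878379019) (nat_lit 1672) (nat_lit 2039142599) (nat_lit 1748) (nat_lit 9963260015) (nat_lit 400) (nat_lit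 5) (nat_lit 422) (nat_lit 5) (nat_lit 423) (nat_lit 5) (nat_lit 302) (nat_lit 294) (nat_lit 184)))) (XT.nd (nat_lit 78) (nat_lit 0) (nat_lit 76) (XT.lf (nat_lit 0) (nat_lit 2159323593) (nat_lit 1672) (nat_lit 5738092669) (nat_lit 1748) (nat_lit 5173564894) (nat_lit 401) (nat_lit 5) (nat_lit 423) (nat_lit 5) (nat_lit 424) (nat_lit 5) (nat_lit 303) (nat_lit 294) (nat_lit 183)) (XT.nd (nat_lit 78) (nat_lit 0) (nat_lit 0) (XT.lf (nat_lit 0) (nat_lit 3514853445) (nat_lit 1672) (nat_lit 9506854870) (nat_lit 1748) (nat_lit 244471214) (nat_lit 402) (nat_lit 5) (nat_lit 424) (nat_lit 5) (nat_lit 425) (nat_lit 5) (nat_lit 304) (nat_lit 294) (nat_lit 182)) (XT.lf (nat_lit 76) (nat_lit 85408418) (nat_lit 0) (nat_lit 4895478857) (nat_lit 1748) (nat_lit 8484965349) (nat_lit 403) (nat_lit 5) (nat_lit 402) (nat_lit 5) (nat_lit 425) (nat_lit 5) (nat_lit 305) (nat_lit 294) (nat_lit 181))))) (XT.nd (nat_lit 234)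 (nat_lit 2964) (nat_lit 0) (XT.nd (nat_lit 78) (nat_lit 0) (nat_lit 0) (XT.lf (nat_lit 0) (nat_lit 6556233087) (nat_lit 1672) (nat_lit 3614265427) (nat_lit 1748) (nat_lit 3499725863) (nat_lit 403) (nat_lit 5) (nat_lit 425) (nat_lit 5) (nat_lit 426) (nat_lit 5) (nat_lit 306) (nat_lit 294) (nat_lit 180)) (XT.nd (nat_lit 78) (nat_lit 0) (nat_lit 76) (XT.lf (nat_lit 76) (nat_lit 6481021166) (nat_lit 0) (nat_lit 1751202306) (nat_lit 1748) (nat_lit 5647450770) (nat_lit 404) (nat_lit 5) (nat_lit 403) (nat_lit 5) (nat_lit 426) (nat_lit 5) (nat_lit 307) (nat_lit 294) (nat_lit 179)) (XT.lf (nat_lit 76) (nat_lit 2809125229) (nat_lit 0) (nat_lit 7216314984) (nat_lit 1748) (nat_lit 4068642674) (nat_lit 405) (nat_lit 5) (nat_lit 404) (nat_lit 5) (nat_lit 427) (nat_lit 5) (nat_lit 308) (nat_lit 294) (nat_lit 178)))) (XT.nd (nat_lit 156) (nat_lit 3116) (nat_lit 0) (XT.nd (nat_lit 78) (nat_lit 0) (nat_lit 0) (XT.lf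 (nat_lit 0) (nat_lit 11923473727) (nat_lit 1672) (nat_lit 927268986) (nat_lit 1748) (nat_lit 1463174475) (nat_lit 405) (nat_lit 5) (nat_lit 427) (nat_lit 5) (nat_lit 428) (nat_lit 5) (nat_lit 309) (nat_lit 294) (nat_lit 177)) (XT.lf (nat_lit 76) (nat_lit 9805446737) (nat_lit 0) (nat_lit 4165168717) (nat_lit 1748) (nat_lit 567901121) (nat_lit 406) (nat_lit 5) (nat_lit 405) (nat_lit 5) (nat_lit 428) (nat_lit 5) (nat_lit 310) (nat_lit 294) (nat_lit 176))) (XT.nd (nat_lit 78) (nat_lit 1444) (nat_lit 0) (XT.lf (nat_lit 0) (nat_lit 1350464373) (nat_lit 1748) (nat_lit 8641294731) (nat_lit 76) (nat_lit 4776771200) (nat_lit 383) (nat_lit 5) (nat_lit 406) (nat_lit 5) (nat_lit 384) (nat_lit 5) (nat_lit 311) (nat_lit 294) (nat_lit 175)) (XT.lf (nat_lit 0) (nat_lit 2356163840) (nat_lit 1444) (nat_lit 1019043822) (nat_lit 1520) (nat_lit 11629043242) (nat_lit 364) (nat_lit 5) (nat_lit 383) (nat_lit 5) (nat_lit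 384) (nat_lit 5) (nat_lit 312) (nat_lit 294) (nat_lit 174)))))) (XT.nd (nat_lit 546) (nat_lit 3648) (nat_lit 0) (XT.nd (nat_lit 234) (nat_lit 2508) (nat_lit 0) (XT.nd (nat_lit 78) (nat_lit 1748) (nat_lit 0) (XT.lf (nat_lit 0) (nat_lit 5554551139) (nat_lit 1520) (nat_lit 1514161157) (nat_lit 76) (nat_lit 8176465690) (nat_lit 364) (nat_lit 5) (nat_lit 384) (nat_lit 5) (nat_lit 365) (nat_lit 5) (nat_lit 313) (nat_lit 294) (nat_lit 173)) (XT.nd (nat_lit 78) (nat_lit 912) (nat_lit 0) (XT.lf (nat_lit 0) (nat_lit 7867835863) (nat_lit 912) (nat_lit 5443526279) (nat_lit 76) (nat_lit 2180611195) (nat_lit 353) (nat_lit 5) (nat_lit 365) (nat_lit 5) (nat_lit 354) (nat_lit 5) (nat_lit 314) (nat_lit 294) (nat_lit 172)) (XT.lf (nat_lit 0) (nat_lit 6251357052) (nat_lit 912) (nat_lit 4079847296) (nat_lit 988) (nat_lit 5413365827) (nat_lit 341) (nat_lit 5) (nat_lit 353) (nat_lit 5) (nat_lit 354) (nat_lit 5) (nat_lit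 315) (nat_lit 294) (nat_lit 171)))) (XT.nd (nat_lit 156) (nat_lit 1672) (nat_lit 0) (XT.nd (nat_lit 78) (nat_lit 0) (nat_lit 0) (XT.lf (nat_lit 0) (nat_lit 2346793922) (nat_lit 836) (nat_lit 10592208272) (nat_lit 912) (nat_lit 3064343163) (nat_lit 330) (nat_lit 5) (nat_lit 341) (nat_lit 5) (nat_lit 342) (nat_lit 5) (nat_lit 316) (nat_lit 294) (nat_lit 170)) (XT.lf (nat_lit 0) (nat_lit 14628474609) (nat_lit 836) (nat_lit 1071301400) (nat_lit 912) (nat_lit 568623626) (nat_lit 330) (nat_lit 5) (nat_lit 341) (nat_lit 5) (nat_lit 342) (nat_lit 5) (nat_lit 317) (nat_lit 294) (nat_lit 169))) (XT.nd (nat_lit 78) (nat_lit 760) (nat_lit 0) (XT.lf (nat_lit 0) (nat_lit 2087112417) (nat_lit 912) (nat_lit 5746422623) (nat_lit 76) (nat_lit 8705392685) (nat_lit 318) (nat_lit 5) (nat_lit 330) (nat_lit 5) (nat_lit 319) (nat_lit 5) (nat_lit 318) (nat_lit 294) (nat_lit 168)) (XT.lf (nat_lit 0) (nat_lit 4874842448)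 (nat_lit 836) (nat_lit 9963232029) (nat_lit 76) (nat_lit 1978230936) (nat_lit 308) (nat_lit 5) (nat_lit 319) (nat_lit 5) (nat_lit 309) (nat_lit 5) (nat_lit 319) (nat_lit 294) (nat_lit 167))))) (XT.nd (nat_lit 234) (nat_lit 2204) (nat_lit 0) (XT.nd (nat_lit 78) (nat_lit 684) (nat_lit 0) (XT.lf (nat_lit 0) (nat_lit 2776011474) (nat_lit 760) (nat_lit 5064222856) (nat_lit 836) (nat_lit 9259899087) (nat_lit 298) (nat_lit 5) (nat_lit 308) (nat_lit 5) (nat_lit 309) (nat_lit 5) (nat_lit 320) (nat_lit 294) (nat_lit 166)) (XT.nd (nat_lit 78) (nat_lit 684) (nat_lit 0) (XT.lf (nat_lit 0) (nat_lit 10979804846) (nat_lit 836) (nat_lit 1406039857) (nat_lit 76) (nat_lit 5004936525) (nat_lit 298) (nat_lit 5) (nat_lit 309) (nat_lit 5) (nat_lit 299) (nat_lit 5) (nat_lit 321) (nat_lit 294) (nat_lit 165)) (XT.lf (nat_lit 0) (nat_lit 12007867844) (nat_lit 684) (nat_lit 2302741829) (nat_lit 760) (nat_lit 3377606891) (nat_lit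 289) (nat_lit 5) (nat_lit 298) (nat_lit 5) (nat_lit 299) (nat_lit 5) (nat_lit 322) (nat_lit 294) (nat_lit 164)))) (XT.nd (nat_lit 156) (nat_lit 684) (nat_lit 0) (XT.nd (nat_lit 78) (nat_lit 760) (nat_lit 0) (XT.lf (nat_lit 0) (nat_lit 7884538938) (nat_lit 760) (nat_lit 9955607403) (nat_lit 836) (nat_lit 152461234) (nat_lit 279) (nat_lit 5) (nat_lit 289) (nat_lit 5) (nat_lit 290) (nat_lit 5) (nat_lit 323) (nat_lit 294) (nat_lit 163)) (XT.lf (nat_lit 0) (nat_lit 3194132262) (nat_lit 760) (nat_lit 14682527591) (nat_lit 76) (nat_lit 427742028) (nat_lit 269) (nat_lit 5) (nat_lit 279) (nat_lit 5) (nat_lit 270) (nat_lit 5) (nat_lit 324) (nat_lit 294) (nat_lit 162))) (XT.nd (nat_lit 78) (nat_lit 684) (nat_lit 0) (XT.lf (nat_lit 0) (nat_lit 6760666451) (nat_lit 760) (nat_lit 805513011) (nat_lit 76) (nat_lit 11056926218) (nat_lit 269) (nat_lit 5) (nat_lit 279) (nat_lit 5) (nat_lit 270) (nat_lit 5) (nat_lit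 325) (nat_lit 294) (nat_lit 161)) (XT.lf (nat_lit 0) (nat_lit 10529719581) (nat_lit 760) (nat_lit 5318331548) (nat_lit 76) (nat_lit 3101416876) (nat_lit 260) (nat_lit 5) (nat_lit 270) (nat_lit 5) (nat_lit 261) (nat_lit 5) (nat_lit 326) (nat_lit 294) (nat_lit 160))))))) (XT.nd (nat_lit 1092) (nat_lit 4332) (nat_lit 0) (XT.nd (nat_lit 546) (nat_lit 2584) (nat_lit 0) (XT.nd (nat_lit 234) (nat_lit 1824) (nat_lit 0) (XT.nd (nat_lit 78) (nat_lit 1368) (nat_lit 0) (XT.lf (nat_lit 0) (nat_lit 9282575584) (nat_lit 608) (nat_lit 5232400760) (nat_lit 684) (nat_lit 4768589853) (nat_lit 252) (nat_lit 5) (nat_lit 260) (nat_lit 5) (nat_lit 261) (nat_lit 5) (nat_lit 327) (nat_lit 294) (nat_lit 159)) (XT.nd (nat_lit 78) (nat_lit 684) (nat_lit 0) (XT.lf (nat_lit 0) (nat_lit 4777800753) (nat_lit 684) (nat_lit 13933356451) (nat_lit 760) (nat_lit 914710223) (nat_lit 243) (nat_lit 5) (nat_lit 252) (nat_lit 5) (nat_lit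 253) (nat_lit 5) (nat_lit 328) (nat_lit 294) (nat_lit 158)) (XT.lf (nat_lit 0) (nat_lit 90807107) (nat_lit 608) (nat_lit 3014954049) (nat_lit 684) (nat_lit 16870466134) (nat_lit 234) (nat_lit 5) (nat_lit 242) (nat_lit 5) (nat_lit 243) (nat_lit 5) (nat_lit 329) (nat_lit 294) (nat_lit 157)))) (XT.nd (nat_lit 156) (nat_lit 1216) (nat_lit 0) (XT.nd (nat_lit 78) (nat_lit 608) (nat_lit 0) (XT.lf (nat_lit 0) (nat_lit 7376715244) (nat_lit 684) (nat_lit 4729100194) (nat_lit 76) (nat_lit 8228322523) (nat_lit 234) (nat_lit 5) (nat_lit 243) (nat_lit 5) (nat_lit 235) (nat_lit 5) (nat_lit 330) (nat_lit 294) (nat_lit 156)) (XT.lf (nat_lit 0) (nat_lit 10991455551) (nat_lit 608) (nat_lit 863734988) (nat_lit 684) (nat_lit 8846014216) (nat_lit 226) (nat_lit 5) (nat_lit 234) (nat_lit 5) (nat_lit 235) (nat_lit 5) (nat_lit 331) (nat_lit 294) (nat_lit 155))) (XT.nd (nat_lit 78) (nat_lit 684) (nat_lit 0) (XT.lf (nat_lit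 0) (nat_lit 6166365162) (nat_lit 532) (nat_lit 10431634371) (nat_lit 608) (nat_lit 4478690894) (nat_lit 219) (nat_lit 5) (nat_lit 226) (nat_lit 5) (nat_lit 227) (nat_lit 5) (nat_lit 332) (nat_lit 294) (nat_lit 154)) (XT.lf (nat_lit 0) (nat_lit 94497930) (nat_lit 684) (nat_lit 20284834878) (nat_lit 76) (nat_lit 1082609387) (nat_lit 210) (nat_lit 5) (nat_lit 219) (nat_lit 5) (nat_lit 211) (nat_lit 5) (nat_lit 333) (nat_lit 294) (nat_lit 153))))) (XT.nd (nat_lit 234) (nat_lit 1520) (nat_lit 0) (XT.nd (nat_lit 78) (nat_lit 1064) (nat_lit 0) (XT.lf (nat_lit 0) (nat_lit 4904363884) (nat_lit 684) (nat_lit 4020207315) (nat_lit 76) (nat_lit 12930387619) (nat_lit 210) (nat_lit 5) (nat_lit 219) (nat_lit 5) (nat_lit 211) (nat_lit 5) (nat_lit 334) (nat_lit 294) (nat_lit 152)) (XT.nd (nat_lit 78) (nat_lit 532) (nat_lit 0) (XT.lf (nat_lit 0) (nat_lit 9950244357) (nat_lit 608) (nat_lit 9390071090) (nat_lit 76)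 (nat_lit 2917621920) (nat_lit 203) (nat_lit 5) (nat_lit 211) (nat_lit 5) (nat_lit 204) (nat_lit 5) (nat_lit 335) (nat_lit 294) (nat_lit 151)) (XT.lf (nat_lit 0) (nat_lit 7671992602) (nat_lit 532) (nat_lit 7601492901) (nat_lit 608) (nat_lit 7397005710) (nat_lit 196) (nat_lit 5) (nat_lit 203) (nat_lit 5) (nat_lit 204) (nat_lit 5) (nat_lit 336) (nat_lit 294) (nat_lit 150)))) (XT.nd (nat_lit 156) (nat_lit 988) (nat_lit 0) (XT.nd (nat_lit 78) (nat_lit 76) (nat_lit 0) (XT.lf (nat_lit 0) (nat_lit 2266568947) (nat_lit 456) (nat_lit 18587048844) (nat_lit 532) (nat_lit 2239865470) (nat_lit 190) (nat_lit 5) (nat_lit 196) (nat_lit 5) (nat_lit 197) (nat_lit 5) (nat_lit 337) (nat_lit 294) (nat_lit 149)) (XT.lf (nat_lit 0) (nat_lit 3174267888) (nat_lit 532) (nat_lit 3357504684) (nat_lit 76) (nat_lit 16994147422) (nat_lit 189) (nat_lit 5) (nat_lit 196) (nat_lit 5) (nat_lit 190) (nat_lit 5) (nat_lit 338) (nat_lit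 294) (nat_lit 148))) (XT.nd (nat_lit 78) (nat_lit 456) (nat_lit 0) (XT.lf (nat_lit 0) (nat_lit 8845330352) (nat_lit 608) (nat_lit 9206515995) (nat_lit 76) (nat_lit 5916693696) (nat_lit 182) (nat_lit 5) (nat_lit 190) (nat_lit 5) (nat_lit 183) (nat_lit 5) (nat_lit 339) (nat_lit 294) (nat_lit 147)) (XT.lf (nat_lit 0) (nat_lit 9109377152) (nat_lit 456) (nat_lit 5692802066) (nat_lit 532) (nat_lit 9619951290) (nat_lit 176) (nat_lit 5) (nat_lit 182) (nat_lit 5) (nat_lit 183) (nat_lit 5) (nat_lit 340) (nat_lit 294) (nat_lit 146)))))) (XT.nd (nat_lit 546) (nat_lit 1976) (nat_lit 0) (XT.nd (nat_lit 234) (nat_lit 1368) (nat_lit 0) (XT.nd (nat_lit 78) (nat_lit 532) (nat_lit 0) (XT.lf (nat_lit 0) (nat_lit 3195150096) (nat_lit 456) (nat_lit 17861930787) (nat_lit 532) (nat_lit 3829865616) (nat_lit 170) (nat_lit 5) (nat_lit 176) (nat_lit 5) (nat_lit 177) (nat_lit 5) (nat_lit 341) (nat_lit 294) (nat_lit 145)) (XT.nd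 (nat_lit 78) (nat_lit 456) (nat_lit 0) (XT.lf (nat_lit 0) (nat_lit 2238705350) (nat_lit 532) (nat_lit 2961606814) (nat_lit 76) (nat_lit 20162466849) (nat_lit 169) (nat_lit 5) (nat_lit 176) (nat_lit 5) (nat_lit 170) (nat_lit 5) (nat_lit 342) (nat_lit 294) (nat_lit 144)) (XT.lf (nat_lit 0) (nat_lit 8587080788) (nat_lit 532) (nat_lit 9393673766) (nat_lit 76) (nat_lit 7868634436) (nat_lit 163) (nat_lit 5) (nat_lit 170) (nat_lit 5) (nat_lit 164) (nat_lit 5) (nat_lit 343) (nat_lit 294) (nat_lit 143)))) (XT.nd (nat_lit 156) (nat_lit 532) (nat_lit 0) (XT.nd (nat_lit 78) (nat_lit 380) (nat_lit 0) (XT.lf (nat_lit 0) (nat_lit 10232359833) (nat_lit 456) (nat_lit 5005664985) (nat_lit 532) (nat_lit 11110334371) (nat_lit 157) (nat_lit 5) (nat_lit 163) (nat_lit 5) (nat_lit 164) (nat_lit 5) (nat_lit 344) (nat_lit 294) (nat_lit 142)) (XT.lf (nat_lit 0) (nat_lit 3695724566) (nat_lit 380) (nat_lit 18525983418) (nat_lit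 456) (nat_lit 4637930439) (nat_lit 152) (nat_lit 5) (nat_lit 157) (nat_lit 5) (nat_lit 158) (nat_lit 5) (nat_lit 345) (nat_lit 294) (nat_lit 141))) (XT.nd (nat_lit 78) (nat_lit 456) (nat_lit 0) (XT.lf (nat_lit 0) (nat_lit 2136435627) (nat_lit 456) (nat_lit 3121744256) (nat_lit 76) (nat_lit 22125128750) (nat_lit 151) (nat_lit 5) (nat_lit 157) (nat_lit 5) (nat_lit 152) (nat_lit 5) (nat_lit 346) (nat_lit 294) (nat_lit 140)) (XT.lf (nat_lit 0) (nat_lit 9213154456) (nat_lit 532) (nat_lit 10264858177) (nat_lit 76) (nat_lit 8440824352) (nat_lit 145) (nat_lit 5) (nat_lit 152) (nat_lit 5) (nat_lit 146) (nat_lit 5) (nat_lit 347) (nat_lit 294) (nat_lit 139))))) (XT.nd (nat_lit 234) (nat_lit 1140) (nat_lit 0) (XT.nd (nat_lit 78) (nat_lit 456) (nat_lit 0) (XT.lf (nat_lit 0) (nat_lit 10718686719) (nat_lit 380) (nat_lit 5900944688) (nat_lit 456) (nat_lit 11848454370) (nat_lit 140) (nat_lit 5) (nat_lit 145) (nat_lit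 5) (nat_lit 146) (nat_lit 5) (nat_lit 348) (nat_lit 294) (nat_lit 138)) (XT.nd (nat_lit 78) (nat_lit 76) (nat_lit 0) (XT.lf (nat_lit 0) (nat_lit 3419495418) (nat_lit 380) (nat_lit 20965064490) (nat_lit 456) (nat_lit 4646530590) (nat_lit 135) (nat_lit 5) (nat_lit 140) (nat_lit 5) (nat_lit 141) (nat_lit 5) (nat_lit 349) (nat_lit 294) (nat_lit 137)) (XT.lf (nat_lit 0) (nat_lit 2887300720) (nat_lit 456) (nat_lit 4212567466) (nat_lit 76) (nat_lit 22507716773) (nat_lit 134) (nat_lit 5) (nat_lit 140) (nat_lit 5) (nat_lit 135) (nat_lit 5) (nat_lit 350) (nat_lit 294) (nat_lit 136)))) (XT.nd (nat_lit 156) (nat_lit 380) (nat_lit 0) (XT.nd (nat_lit 78) (nat_lit 380) (nat_lit 0) (XT.lf (nat_lit 0) (nat_lit 10740877698) (nat_lit 456) (nat_lit 12224236004) (nat_lit 76) (nat_lit 7232512441) (nat_lit 129) (nat_lit 5) (nat_lit 135) (nat_lit 5) (nat_lit 130) (nat_lit 5) (nat_lit 351) (nat_lit 294) (nat_lit 135))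 (XT.lf (nat_lit 0) (nat_lit 10151520148) (nat_lit 380) (nat_lit 8812709921) (nat_lit 456) (nat_lit 11838458372) (nat_lit 124) (nat_lit 5) (nat_lit 129) (nat_lit 5) (nat_lit 130) (nat_lit 5) (nat_lit 352) (nat_lit 294) (nat_lit 134))) (XT.nd (nat_lit 78) (nat_lit 76) (nat_lit 0) (XT.lf (nat_lit 0) (nat_lit 1917114352) (nat_lit 304) (nat_lit 25642600540) (nat_lit 380) (nat_lit 3863682224) (nat_lit 120) (nat_lit 5) (nat_lit 124) (nat_lit 5) (nat_lit 125) (nat_lit 5) (nat_lit 353) (nat_lit 294) (nat_lit 133)) (XT.lf (nat_lit 0) (nat_lit 4485356681) (nat_lit 380) (nat_lit 6714514227) (nat_lit 76) (nat_lit 20858452734) (nat_lit 119) (nat_lit 5) (nat_lit 124) (nat_lit 5) (nat_lit 120) (nat_lit 5) (nat_lit 354) (nat_lit 294) (nat_lit 132))))))))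
noncomputable def xc104 : XT := (XT.nd (nat_lit 37908) (nat_lit 0) (nat_lit 3192) (XT.nd (nat_lit 36816) (nat_lit 0) (nat_lit 15808) (XT.nd (nat_lit 36270) (nat_lit 0) (nat_lit 22040) (XT.nd (nat_lit 36036) (nat_lit 0) (nat_lit 23408) (XT.nd (nat_lit 78) (nat_lit 304) (nat_lit 0) (XT.lf (nat_lit 0) (nat_lit 13159942497) (nat_lit 456) (nat_lit 15788319210) (nat_lit 76) (nat_lit 3760977023) (nat_lit 114) (nat_lit 5) (nat_lit 120) (nat_lit 5) (nat_lit 115) (nat_lit 5) (nat_lit 355) (nat_lit 294) (nat_lit 131)) (XT.nd (nat_lit 35880) (nat_lit 0) (nat_lit 23408) (XT.lf (nat_lit 0) (nat_lit 7997030584) (nat_lit 304) (nat_lit 14262978982) (nat_lit 380) (nat_lit 11116369654) (nat_lit 110) (nat_lit 5) (nat_lit 114) (nat_lit 5) (nat_lit 115) (nat_lit 5) (nat_lit 356) (nat_lit 294) (nat_lit 130)) (XT.lf (nat_lit 0) (nat_lit 1642684378) (nat_lit 0) (nat_lit 1642684378) (nat_lit 1596) (nat_lit 2628387792) (nat_lit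 418) (nat_lit 5) (nat_lit 418) (nat_lit 3) (nat_lit 439) (nat_lit 3) (nat_lit 295) (nat_lit 295) (nat_lit 190)))) (XT.nd (nat_lit 78) (nat_lit 0) (nat_lit 0) (XT.lf (nat_lit 0) (nat_lit 7399159722) (nat_lit 1596) (nat_lit 403638832) (nat_lit 1672) (nat_lit 4187030661) (nat_lit 418) (nat_lit 5) (nat_lit 439) (nat_lit 3) (nat_lit 440) (nat_lit 5) (nat_lit 296) (nat_lit 295) (nat_lit 189)) (XT.nd (nat_lit 78) (nat_lit 0) (nat_lit 76) (XT.lf (nat_lit 76) (nat_lit 8048243942) (nat_lit 0) (nat_lit 251095504) (nat_lit 1672) (nat_lit 3856756763) (nat_lit 419) (nat_lit 5) (nat_lit 418) (nat_lit 5) (nat_lit 440) (nat_lit 5) (nat_lit 297) (nat_lit 295) (nat_lit 188)) (XT.lf (nat_lit 76) (nat_lit 4426313557) (nat_lit 0) (nat_lit 4854038858) (nat_lit 1672) (nat_lit 3045941162) (nat_lit 420) (nat_lit 5) (nat_lit 419) (nat_lit 5) (nat_lit 441) (nat_lit 5) (nat_lit 298) (nat_lit 295) (nat_lit 187))))) (XT.nd (nat_lit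 234) (nat_lit 1520) (nat_lit 0) (XT.nd (nat_lit 78) (nat_lit 0) (nat_lit 0) (XT.lf (nat_lit 76) (nat_lit 745514137) (nat_lit 0) (nat_lit 9573001232) (nat_lit 1672) (nat_lit 2182545474) (nat_lit 421) (nat_lit 5) (nat_lit 420) (nat_lit 5) (nat_lit 442) (nat_lit 5) (nat_lit 299) (nat_lit 295) (nat_lit 186)) (XT.nd (nat_lit 78) (nat_lit 0) (nat_lit 76) (XT.lf (nat_lit 76) (nat_lit 9710731955) (nat_lit 0) (nat_lit 1737742761) (nat_lit 1672) (nat_lit 1231401216) (nat_lit 421) (nat_lit 5) (nat_lit 420) (nat_lit 5) (nat_lit 442) (nat_lit 5) (nat_lit 300) (nat_lit 295) (nat_lit 185)) (XT.lf (nat_lit 76) (nat_lit 6104779723) (nat_lit 0) (nat_lit 6563972344) (nat_lit 1672) (nat_lit 194192337) (nat_lit 422) (nat_lit 5) (nat_lit 421) (nat_lit 5) (nat_lit 443) (nat_lit 5) (nat_lit 301) (nat_lit 295) (nat_lit 184)))) (XT.nd (nat_lit 156) (nat_lit 0) (nat_lit 76) (XT.nd (nat_lit 78) (nat_lit 0) (nat_lit 0) (XT.lf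 (nat_lit 0) (nat_lit 896576786) (nat_lit 1672) (nat_lit 10621097834) (nat_lit 1748) (nat_lit 1533055116) (nat_lit 400) (nat_lit 5) (nat_lit 422) (nat_lit 5) (nat_lit 423) (nat_lit 5) (nat_lit 302) (nat_lit 295) (nat_lit 183)) (XT.lf (nat_lit 0) (nat_lit 2084201523) (nat_lit 1672) (nat_lit 1318564497) (nat_lit 1748) (nat_lit 9840037518) (nat_lit 400) (nat_lit 5) (nat_lit 422) (nat_lit 5) (nat_lit 423) (nat_lit 5) (nat_lit 303) (nat_lit 295) (nat_lit 182))) (XT.nd (nat_lit 78) (nat_lit 0) (nat_lit 0) (XT.lf (nat_lit 0) (nat_lit 3371740240) (nat_lit 1672) (nat_lit 5114901414) (nat_lit 1748) (nat_lit 4952727732) (nat_lit 401) (nat_lit 5) (nat_lit 423) (nat_lit 5) (nat_lit 424) (nat_lit 5) (nat_lit 304) (nat_lit 295) (nat_lit 181)) (XT.lf (nat_lit 76) (nat_lit 4656224831) (nat_lit 0) (nat_lit 81708282) (nat_lit 1748) (nat_lit 8903113619) (nat_lit 402) (nat_lit 5) (nat_lit 401) (nat_lit 5) (nat_lit 424)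 (nat_lit 5) (nat_lit 305) (nat_lit 295) (nat_lit 180)))))) (XT.nd (nat_lit 546) (nat_lit 4864) (nat_lit 0) (XT.nd (nat_lit 234) (nat_lit 1520) (nat_lit 0) (XT.nd (nat_lit 78) (nat_lit 0) (nat_lit 76) (XT.lf (nat_lit 76) (nat_lit 882634695) (nat_lit 0) (nat_lit 5337405248) (nat_lit 1748) (nat_lit 7627250534) (nat_lit 403) (nat_lit 5) (nat_lit 402) (nat_lit 5) (nat_lit 425) (nat_lit 5) (nat_lit 306) (nat_lit 295) (nat_lit 179)) (XT.nd (nat_lit 78) (nat_lit 0) (nat_lit 0) (XT.lf (nat_lit 0) (nat_lit 7809046596) (nat_lit 1672) (nat_lit 2927433691) (nat_lit 1748) (nat_lit 3322006733) (nat_lit 403) (nat_lit 5) (nat_lit 425) (nat_lit 5) (nat_lit 426) (nat_lit 5) (nat_lit 307) (nat_lit 295) (nat_lit 178)) (XT.lf (nat_lit 76) (nat_lit 7457809356) (nat_lit 0) (nat_lit 2051825954) (nat_lit 1748) (nat_lit 4765119715) (nat_lit 404) (nat_lit 5) (nat_lit 403) (nat_lit 5) (nat_lit 426) (nat_lit 5) (nat_lit 308)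 (nat_lit 295) (nat_lit 177)))) (XT.nd (nat_lit 156) (nat_lit 1672) (nat_lit 0) (XT.nd (nat_lit 78) (nat_lit 0) (nat_lit 76) (XT.lf (nat_lit 76) (nat_lit 3685612060) (nat_lit 0) (nat_lit 7644603266) (nat_lit 1748) (nat_lit 3165929670) (nat_lit 405) (nat_lit 5) (nat_lit 404) (nat_lit 5) (nat_lit 427) (nat_lit 5) (nat_lit 309) (nat_lit 295) (nat_lit 176)) (XT.lf (nat_lit 0) (nat_lit 13254611695) (nat_lit 1672) (nat_lit 164457357) (nat_lit 1748) (nat_lit 1304136649) (nat_lit 405) (nat_lit 5) (nat_lit 427) (nat_lit 5) (nat_lit 428) (nat_lit 5) (nat_lit 310) (nat_lit 295) (nat_lit 175))) (XT.nd (nat_lit 78) (nat_lit 0) (nat_lit 76) (XT.lf (nat_lit 0) (nat_lit 379789689) (nat_lit 1748) (nat_lit 4080114157) (nat_lit 1824) (nat_lit 10495074532) (nat_lit 382) (nat_lit 5) (nat_lit 405) (nat_lit 5) (nat_lit 406) (nat_lit 5) (nat_lit 311) (nat_lit 295) (nat_lit 174)) (XT.lf (nat_lit 0) (nat_lit 2324200154)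 (nat_lit 1748) (nat_lit 8101911835) (nat_lit 76) (nat_lit 4766199569) (nat_lit 383) (nat_lit 5) (nat_lit 406) (nat_lit 5) (nat_lit 384) (nat_lit 5) (nat_lit 312) (nat_lit 295) (nat_lit 173))))) (XT.nd (nat_lit 234) (nat_lit 2660) (nat_lit 0) (XT.nd (nat_lit 78) (nat_lit 836) (nat_lit 0) (XT.lf (nat_lit 0) (nat_lit 3212513804) (nat_lit 1444) (nat_lit 1175091777) (nat_lit 1520) (nat_lit 11047957570) (nat_lit 364) (nat_lit 5) (nat_lit 383) (nat_lit 5) (nat_lit 384) (nat_lit 5) (nat_lit 313) (nat_lit 295) (nat_lit 172)) (XT.nd (nat_lit 78) (nat_lit 836) (nat_lit 0) (XT.lf (nat_lit 0) (nat_lit 6605000306) (nat_lit 1520) (nat_lit 777746180) (nat_lit 76) (nat_lit 8301535398) (nat_lit 364) (nat_lit 5) (nat_lit 384) (nat_lit 5) (nat_lit 365) (nat_lit 5) (nat_lit 314) (nat_lit 295) (nat_lit 171)) (XT.lf (nat_lit 0) (nat_lit 8966325604) (nat_lit 912) (nat_lit 4819247234) (nat_lit 76) (nat_lit 2153352170)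 (nat_lit 353) (nat_lit 5) (nat_lit 365) (nat_lit 5) (nat_lit 354) (nat_lit 5) (nat_lit 315) (nat_lit 295) (nat_lit 170)))) (XT.nd (nat_lit 156) (nat_lit 912) (nat_lit 0) (XT.nd (nat_lit 78) (nat_lit 836) (nat_lit 0) (XT.lf (nat_lit 0) (nat_lit 7213704969) (nat_lit 912) (nat_lit 4269800699) (nat_lit 988) (nat_lit 4716012139) (nat_lit 341) (nat_lit 5) (nat_lit 353) (nat_lit 5) (nat_lit 354) (nat_lit 5) (nat_lit 316) (nat_lit 295) (nat_lit 169)) (XT.lf (nat_lit 0) (nat_lit 3196973485) (nat_lit 836) (nat_lit 10952666021) (nat_lit 912) (nat_lit 2316830487) (nat_lit 330) (nat_lit 5) (nat_lit 341) (nat_lit 5) (nat_lit 342) (nat_lit 5) (nat_lit 317) (nat_lit 295) (nat_lit 168))) (XT.nd (nat_lit 78) (nat_lit 836) (nat_lit 0) (XT.lf (nat_lit 0) (nat_lit 226303387) (nat_lit 912) (nat_lit 917066499) (nat_lit 76) (nat_lit 15596570675) (nat_lit 329) (nat_lit 5) (nat_lit 341) (nat_lit 5) (nat_lit 330) (nat_lit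 5) (nat_lit 318) (nat_lit 295) (nat_lit 167)) (XT.lf (nat_lit 0) (nat_lit 2935316178) (nat_lit 912) (nat_lit 5146628776) (nat_lit 76) (nat_lit 8936952360) (nat_lit 318) (nat_lit 5) (nat_lit 330) (nat_lit 5) (nat_lit 319) (nat_lit 5) (nat_lit 319) (nat_lit 295) (nat_lit 166))))))) (XT.nd (nat_lit 1014) (nat_lit 5624) (nat_lit 0) (XT.nd (nat_lit 468) (nat_lit 3268) (nat_lit 0) (XT.nd (nat_lit 234) (nat_lit 2204) (nat_lit 0) (XT.nd (nat_lit 78) (nat_lit 760) (nat_lit 0) (XT.lf (nat_lit 0) (nat_lit 5788677216) (nat_lit 836) (nat_lit 9486593352) (nat_lit 76) (nat_lit 2029699951) (nat_lit 308) (nat_lit 5) (nat_lit 319) (nat_lit 5) (nat_lit 309) (nat_lit 5) (nat_lit 320) (nat_lit 295) (nat_lit 165)) (XT.nd (nat_lit 78) (nat_lit 0) (nat_lit 0) (XT.lf (nat_lit 0) (nat_lit 3622245312) (nat_lit 760) (nat_lit 5203382168) (nat_lit 836) (nat_lit 8772047706) (nat_lit 298) (nat_lit 5) (nat_lit 308) (nat_lit 5)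 (nat_lit 309) (nat_lit 5) (nat_lit 321) (nat_lit 295) (nat_lit 164)) (XT.lf (nat_lit 0) (nat_lit 12037615510) (nat_lit 836) (nat_lit 692558107) (nat_lit 76) (nat_lit 5167317560) (nat_lit 298) (nat_lit 5) (nat_lit 309) (nat_lit 5) (nat_lit 299) (nat_lit 5) (nat_lit 322) (nat_lit 295) (nat_lit 163)))) (XT.nd (nat_lit 78) (nat_lit 1520) (nat_lit 0) (XT.lf (nat_lit 0) (nat_lit 13111507091) (nat_lit 684) (nat_lit 2340448042) (nat_lit 760) (nat_lit 2752235193) (nat_lit 289) (nat_lit 5) (nat_lit 298) (nat_lit 5) (nat_lit 299) (nat_lit 5) (nat_lit 323) (nat_lit 295) (nat_lit 162)) (XT.nd (nat_lit 78) (nat_lit 684) (nat_lit 0) (XT.lf (nat_lit 0) (nat_lit 546377082) (nat_lit 836) (nat_lit 9654982483) (nat_lit 76) (nat_lit 8316608202) (nat_lit 278) (nat_lit 5) (nat_lit 289) (nat_lit 5) (nat_lit 279) (nat_lit 5) (nat_lit 324) (nat_lit 295) (nat_lit 161)) (XT.lf (nat_lit 0) (nat_lit 3976077563) (nat_lit 760)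 (nat_lit 14366206451) (nat_lit 76) (nat_lit 497128102) (nat_lit 269) (nat_lit 5) (nat_lit 279) (nat_lit 5) (nat_lit 270) (nat_lit 5) (nat_lit 325) (nat_lit 295) (nat_lit 160))))) (XT.nd (nat_lit 234) (nat_lit 1976) (nat_lit 0) (XT.nd (nat_lit 78) (nat_lit 1292) (nat_lit 0) (XT.lf (nat_lit 0) (nat_lit 7629623661) (nat_lit 760) (nat_lit 94924064) (nat_lit 76) (nat_lit 11443540621) (nat_lit 269) (nat_lit 5) (nat_lit 279) (nat_lit 5) (nat_lit 270) (nat_lit 5) (nat_lit 326) (nat_lit 295) (nat_lit 159)) (XT.nd (nat_lit 78) (nat_lit 608) (nat_lit 0) (XT.lf (nat_lit 0) (nat_lit 11497503059) (nat_lit 760) (nat_lit 4742106253) (nat_lit 76) (nat_lit 3264928428) (nat_lit 260) (nat_lit 5) (nat_lit 270) (nat_lit 5) (nat_lit 261) (nat_lit 5) (nat_lit 327) (nat_lit 295) (nat_lit 158)) (XT.lf (nat_lit 0) (nat_lit 10284891014) (nat_lit 608) (nat_lit 5303139006) (nat_lit 684) (nat_lit 4260925574) (nat_lit 252) (nat_lit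 5) (nat_lit 260) (nat_lit 5) (nat_lit 261) (nat_lit 5) (nat_lit 328) (nat_lit 295) (nat_lit 157)))) (XT.nd (nat_lit 156) (nat_lit 608) (nat_lit 0) (XT.nd (nat_lit 78) (nat_lit 684) (nat_lit 0) (XT.lf (nat_lit 0) (nat_lit 5645583492) (nat_lit 684) (nat_lit 14251188992) (nat_lit 760) (nat_lit 305030497) (nat_lit 243) (nat_lit 5) (nat_lit 252) (nat_lit 5) (nat_lit 253) (nat_lit 5) (nat_lit 329) (nat_lit 295) (nat_lit 156)) (XT.lf (nat_lit 0) (nat_lit 814789362) (nat_lit 608) (nat_lit 2999279044) (nat_lit 684) (nat_lit 16748805249) (nat_lit 234) (nat_lit 5) (nat_lit 242) (nat_lit 5) (nat_lit 243) (nat_lit 5) (nat_lit 330) (nat_lit 295) (nat_lit 155))) (XT.nd (nat_lit 78) (nat_lit 608) (nat_lit 0) (XT.lf (nat_lit 0) (nat_lit 8195903537) (nat_lit 684) (nat_lit 4159119345) (nat_lit 76) (nat_lit 8576853554) (nat_lit 234) (nat_lit 5) (nat_lit 243) (nat_lit 5) (nat_lit 235) (nat_lit 5) (nat_lit 331) (nat_lit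 295) (nat_lit 154)) (XT.lf (nat_lit 0) (nat_lit 12021504089) (nat_lit 608) (nat_lit 774361665) (nat_lit 684) (nat_lit 8514356378) (nat_lit 226) (nat_lit 5) (nat_lit 234) (nat_lit 5) (nat_lit 235) (nat_lit 5) (nat_lit 332) (nat_lit 295) (nat_lit 153)))))) (XT.nd (nat_lit 546) (nat_lit 2812) (nat_lit 0) (XT.nd (nat_lit 234) (nat_lit 1596) (nat_lit 0) (XT.nd (nat_lit 78) (nat_lit 684) (nat_lit 0) (XT.lf (nat_lit 0) (nat_lit 7051386785) (nat_lit 532) (nat_lit 10617804602) (nat_lit 608) (nat_lit 4028025613) (nat_lit 219) (nat_lit 5) (nat_lit 226) (nat_lit 5) (nat_lit 227) (nat_lit 5) (nat_lit 333) (nat_lit 295) (nat_lit 152)) (XT.nd (nat_lit 78) (nat_lit 0) (nat_lit 0) (XT.lf (nat_lit 0) (nat_lit 663245837) (nat_lit 684) (nat_lit 20186118180) (nat_lit 76) (nat_lit 1244823969) (nat_lit 210) (nat_lit 5) (nat_lit 219) (nat_lit 5) (nat_lit 211) (nat_lit 5) (nat_lit 334) (nat_lit 295) (nat_lit 151)) (XT.lf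 (nat_lit 0) (nat_lit 5600924868) (nat_lit 684) (nat_lit 3454151647) (nat_lit 76) (nat_lit 13444256821) (nat_lit 210) (nat_lit 5) (nat_lit 219) (nat_lit 5) (nat_lit 211) (nat_lit 5) (nat_lit 335) (nat_lit 295) (nat_lit 150)))) (XT.nd (nat_lit 156) (nat_lit 532) (nat_lit 0) (XT.nd (nat_lit 78) (nat_lit 532) (nat_lit 0) (XT.lf (nat_lit 0) (nat_lit 10787458966) (nat_lit 608) (nat_lit 8986112112) (nat_lit 76) (nat_lit 3141052937) (nat_lit 203) (nat_lit 5) (nat_lit 211) (nat_lit 5) (nat_lit 204) (nat_lit 5) (nat_lit 336) (nat_lit 295) (nat_lit 149)) (XT.lf (nat_lit 0) (nat_lit 8576689454) (nat_lit 532) (nat_lit 7682396932) (nat_lit 608) (nat_lit 7080702389) (nat_lit 196) (nat_lit 5) (nat_lit 203) (nat_lit 5) (nat_lit 204) (nat_lit 5) (nat_lit 337) (nat_lit 295) (nat_lit 148))) (XT.nd (nat_lit 78) (nat_lit 76) (nat_lit 0) (XT.lf (nat_lit 0) (nat_lit 3007861369) (nat_lit 456) (nat_lit 18988699205) (nat_lit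 532) (nat_lit 1779119093) (nat_lit 190) (nat_lit 5) (nat_lit 196) (nat_lit 5) (nat_lit 197) (nat_lit 5) (nat_lit 338) (nat_lit 295) (nat_lit 147)) (XT.lf (nat_lit 0) (nat_lit 3775338917) (nat_lit 532) (nat_lit 2797573811) (nat_lit 76) (nat_lit 17648419189) (nat_lit 189) (nat_lit 5) (nat_lit 196) (nat_lit 5) (nat_lit 190) (nat_lit 5) (nat_lit 339) (nat_lit 295) (nat_lit 146))))) (XT.nd (nat_lit 234) (nat_lit 1368) (nat_lit 0) (XT.nd (nat_lit 78) (nat_lit 912) (nat_lit 0) (XT.lf (nat_lit 0) (nat_lit 9607023609) (nat_lit 608) (nat_lit 8823629479) (nat_lit 76) (nat_lit 6246774920) (nat_lit 182) (nat_lit 5) (nat_lit 190) (nat_lit 5) (nat_lit 183) (nat_lit 5) (nat_lit 340) (nat_lit 295) (nat_lit 145)) (XT.nd (nat_lit 78) (nat_lit 456) (nat_lit 0) (XT.lf (nat_lit 0) (nat_lit 10031047641) (nat_lit 456) (nat_lit 5701283762) (nat_lit 532) (nat_lit 9412506751) (nat_lit 176) (nat_lit 5) (nat_lit 182) (nat_lit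 5) (nat_lit 183) (nat_lit 5) (nat_lit 341) (nat_lit 295) (nat_lit 144)) (XT.lf (nat_lit 0) (nat_lit 3937632492) (nat_lit 456) (nat_lit 18228311177) (nat_lit 532) (nat_lit 3457840515) (nat_lit 170) (nat_lit 5) (nat_lit 176) (nat_lit 5) (nat_lit 177) (nat_lit 5) (nat_lit 342) (nat_lit 295) (nat_lit 143)))) (XT.nd (nat_lit 156) (nat_lit 836) (nat_lit 0) (XT.nd (nat_lit 78) (nat_lit 456) (nat_lit 0) (XT.lf (nat_lit 0) (nat_lit 2772405357) (nat_lit 532) (nat_lit 2416244157) (nat_lit 76) (nat_lit 20925465358) (nat_lit 169) (nat_lit 5) (nat_lit 176) (nat_lit 5) (nat_lit 170) (nat_lit 5) (nat_lit 343) (nat_lit 295) (nat_lit 142)) (XT.lf (nat_lit 0) (nat_lit 9302778217) (nat_lit 532) (nat_lit 9043295744) (nat_lit 76) (nat_lit 8269424575) (nat_lit 163) (nat_lit 5) (nat_lit 170) (nat_lit 5) (nat_lit 164) (nat_lit 5) (nat_lit 344) (nat_lit 295) (nat_lit 141))) (XT.nd (nat_lit 78) (nat_lit 380) (nat_lit 0)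 (XT.lf (nat_lit 0) (nat_lit 11161262359) (nat_lit 456) (nat_lit 4982683920) (nat_lit 532) (nat_lit 10985683776) (nat_lit 157) (nat_lit 5) (nat_lit 163) (nat_lit 5) (nat_lit 164) (nat_lit 5) (nat_lit 345) (nat_lit 295) (nat_lit 140)) (XT.lf (nat_lit 0) (nat_lit 4426362935) (nat_lit 380) (nat_lit 18902821126) (nat_lit 456) (nat_lit 4327228674) (nat_lit 152) (nat_lit 5) (nat_lit 157) (nat_lit 5) (nat_lit 158) (nat_lit 5) (nat_lit 346) (nat_lit 295) (nat_lit 139))))))))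
noncomputable def xc105 : XT := (XT.nd (nat_lit 38064) (nat_lit 0) (nat_lit 4788) (XT.nd (nat_lit 36972) (nat_lit 0) (nat_lit 19988) (XT.nd (nat_lit 468) (nat_lit 760) (nat_lit 0) (XT.nd (nat_lit 234) (nat_lit 836) (nat_lit 0) (XT.nd (nat_lit 78) (nat_lit 836) (nat_lit 0) (XT.lf (nat_lit 0) (nat_lit 2631538356) (nat_lit 456) (nat_lit 2607764725) (nat_lit 76) (nat_lit 22956695827) (nat_lit 151) (nat_lit 5) (nat_lit 157) (nat_lit 5) (nat_lit 152) (nat_lit 5) (nat_lit 347) (nat_lit 295) (nat_lit 138)) (XT.nd (nat_lit 78) (nat_lit 380) (nat_lit 0) (XT.lf (nat_lit 0) (nat_lit 9913025265) (nat_lit 532) (nat_lit 9967539185) (nat_lit 76) (nat_lit 8867184829) (nat_lit 145) (nat_lit 5) (nat_lit 152) (nat_lit 5) (nat_lit 146) (nat_lit 5) (nat_lit 348) (nat_lit 295) (nat_lit 137)) (XT.lf (nat_lit 0) (nat_lit 11635692357) (nat_lit 380) (nat_lit 5897535934) (nat_lit 456) (nat_lit 11780421947) (nat_lit 140) (nat_lit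 5) (nat_lit 145) (nat_lit 5) (nat_lit 146) (nat_lit 5) (nat_lit 349) (nat_lit 295) (nat_lit 136)))) (XT.nd (nat_lit 78) (nat_lit 456) (nat_lit 0) (XT.lf (nat_lit 0) (nat_lit 4115052983) (nat_lit 380) (nat_lit 21408951422) (nat_lit 456) (nat_lit 4369687884) (nat_lit 135) (nat_lit 5) (nat_lit 140) (nat_lit 5) (nat_lit 141) (nat_lit 5) (nat_lit 350) (nat_lit 295) (nat_lit 135)) (XT.nd (nat_lit 78) (nat_lit 380) (nat_lit 0) (XT.lf (nat_lit 0) (nat_lit 3372734868) (nat_lit 456) (nat_lit 3757778345) (nat_lit 76) (nat_lit 23357158544) (nat_lit 134) (nat_lit 5) (nat_lit 140) (nat_lit 5) (nat_lit 135) (nat_lit 5) (nat_lit 351) (nat_lit 295) (nat_lit 134)) (XT.lf (nat_lit 0) (nat_lit 11455189322) (nat_lit 456) (nat_lit 12012421828) (nat_lit 76) (nat_lit 7627942412) (nat_lit 129) (nat_lit 5) (nat_lit 135) (nat_lit 5) (nat_lit 130) (nat_lit 5) (nat_lit 352) (nat_lit 295) (nat_lit 133))))) (XT.nd (nat_lit 36192)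 (nat_lit 0) (nat_lit 22724) (XT.nd (nat_lit 78) (nat_lit 380) (nat_lit 0) (XT.lf (nat_lit 0) (nat_lit 11025220864) (nat_lit 380) (nat_lit 8892296773) (nat_lit 456) (nat_lit 11801409235) (nat_lit 124) (nat_lit 5) (nat_lit 129) (nat_lit 5) (nat_lit 130) (nat_lit 5) (nat_lit 353) (nat_lit 295) (nat_lit 132)) (XT.nd (nat_lit 78) (nat_lit 76) (nat_lit 0) (XT.lf (nat_lit 0) (nat_lit 2541083678) (nat_lit 304) (nat_lit 26223431025) (nat_lit 380) (nat_lit 3593873665) (nat_lit 120) (nat_lit 5) (nat_lit 124) (nat_lit 5) (nat_lit 125) (nat_lit 5) (nat_lit 354) (nat_lit 295) (nat_lit 131)) (XT.lf (nat_lit 0) (nat_lit 4989490441) (nat_lit 380) (nat_lit 6360937796) (nat_lit 76) (nat_lit 21662110406) (nat_lit 119) (nat_lit 5) (nat_lit 124) (nat_lit 5) (nat_lit 120) (nat_lit 5) (nat_lit 355) (nat_lit 295) (nat_lit 130)))) (XT.nd (nat_lit 156) (nat_lit 0) (nat_lit 0) (XT.nd (nat_lit 78) (nat_lit 0) (nat_lit 0) (XT.lf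 (nat_lit 0) (nat_lit 2039746815) (nat_lit 0) (nat_lit 2039746815) (nat_lit 1596) (nat_lit 1997269783) (nat_lit 418) (nat_lit 5) (nat_lit 418) (nat_lit 3) (nat_lit 439) (nat_lit 3) (nat_lit 296) (nat_lit 296) (nat_lit 188)) (XT.lf (nat_lit 76) (nat_lit 295793067) (nat_lit 0) (nat_lit 8673486751) (nat_lit 1672) (nat_lit 3352321069) (nat_lit 419) (nat_lit 5) (nat_lit 418) (nat_lit 5) (nat_lit 440) (nat_lit 5) (nat_lit 297) (nat_lit 296) (nat_lit 187))) (XT.nd (nat_lit 78) (nat_lit 0) (nat_lit 76) (XT.lf (nat_lit 76) (nat_lit 8985871976) (nat_lit 0) (nat_lit 873982109) (nat_lit 1672) (nat_lit 2633761992) (nat_lit 419) (nat_lit 5) (nat_lit 418) (nat_lit 5) (nat_lit 440) (nat_lit 5) (nat_lit 298) (nat_lit 296) (nat_lit 186)) (XT.lf (nat_lit 76) (nat_lit 5274641771) (nat_lit 0) (nat_lit 5558222473) (nat_lit 1672) (nat_lit 1836830940) (nat_lit 420) (nat_lit 5) (nat_lit 419) (nat_lit 5) (nat_lit 441) (nat_lit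 5) (nat_lit 299) (nat_lit 296) (nat_lit 185)))))) (XT.nd (nat_lit 546) (nat_lit 1292) (nat_lit 0) (XT.nd (nat_lit 234) (nat_lit 0) (nat_lit 76) (XT.nd (nat_lit 78) (nat_lit 1596) (nat_lit 0) (XT.lf (nat_lit 76) (nat_lit 1501336422) (nat_lit 0) (nat_lit 10364967079) (nat_lit 1672) (nat_lit 984145704) (nat_lit 421) (nat_lit 5) (nat_lit 420) (nat_lit 5) (nat_lit 442) (nat_lit 5) (nat_lit 300) (nat_lit 296) (nat_lit 184)) (XT.nd (nat_lit 78) (nat_lit 1596) (nat_lit 0) (XT.lf (nat_lit 76) (nat_lit 10714147954) (nat_lit 0) (nat_lit 2279948646) (nat_lit 1672) (nat_lit 41279044) (nat_lit 421) (nat_lit 5) (nat_lit 420) (nat_lit 5) (nat_lit 442) (nat_lit 5) (nat_lit 301) (nat_lit 296) (nat_lit 183)) (XT.lf (nat_lit 0) (nat_lit 979954573) (nat_lit 1672) (nat_lit 6214988427) (nat_lit 1748) (nat_lit 6029556601) (nat_lit 399) (nat_lit 5) (nat_lit 421) (nat_lit 5) (nat_lit 422) (nat_lit 5) (nat_lit 302) (nat_lit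 296) (nat_lit 182)))) (XT.nd (nat_lit 156) (nat_lit 0) (nat_lit 76) (XT.nd (nat_lit 78) (nat_lit 0) (nat_lit 0) (XT.lf (nat_lit 0) (nat_lit 2068591694) (nat_lit 1672) (nat_lit 10180747876) (nat_lit 1748) (nat_lit 1169221239) (nat_lit 400) (nat_lit 5) (nat_lit 422) (nat_lit 5) (nat_lit 423) (nat_lit 5) (nat_lit 303) (nat_lit 296) (nat_lit 181)) (XT.lf (nat_lit 0) (nat_lit 3258492233) (nat_lit 1672) (nat_lit 621244838) (nat_lit 1748) (nat_lit 9737349779) (nat_lit 400) (nat_lit 5) (nat_lit 422) (nat_lit 5) (nat_lit 423) (nat_lit 5) (nat_lit 304) (nat_lit 296) (nat_lit 180))) (XT.nd (nat_lit 78) (nat_lit 0) (nat_lit 0) (XT.lf (nat_lit 0) (nat_lit 4554650330) (nat_lit 1672) (nat_lit 4518669849) (nat_lit 1748) (nat_lit 4746851925) (nat_lit 401) (nat_lit 5) (nat_lit 423) (nat_lit 5) (nat_lit 424) (nat_lit 5) (nat_lit 305) (nat_lit 296) (nat_lit 179)) (XT.lf (nat_lit 76) (nat_lit 5533427539) (nat_lit 0)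 (nat_lit 401682383) (nat_lit 1748) (nat_lit 8093345877) (nat_lit 402) (nat_lit 5) (nat_lit 401) (nat_lit 5) (nat_lit 424) (nat_lit 5) (nat_lit 306) (nat_lit 296) (nat_lit 178))))) (XT.nd (nat_lit 234) (nat_lit 1520) (nat_lit 0) (XT.nd (nat_lit 78) (nat_lit 0) (nat_lit 76) (XT.lf (nat_lit 76) (nat_lit 1658160795) (nat_lit 0) (nat_lit 5775651663) (nat_lit 1748) (nat_lit 6807652764) (nat_lit 403) (nat_lit 5) (nat_lit 402) (nat_lit 5) (nat_lit 425) (nat_lit 5) (nat_lit 307) (nat_lit 296) (nat_lit 177)) (XT.nd (nat_lit 78) (nat_lit 0) (nat_lit 0) (XT.lf (nat_lit 0) (nat_lit 9038818527) (nat_lit 1672) (nat_lit 2265648163) (nat_lit 1748) (nat_lit 3155184792) (nat_lit 403) (nat_lit 5) (nat_lit 425) (nat_lit 5) (nat_lit 426) (nat_lit 5) (nat_lit 308) (nat_lit 296) (nat_lit 176)) (XT.lf (nat_lit 76) (nat_lit 8418990668) (nat_lit 0) (nat_lit 2347227069) (nat_lit 1748) (nat_lit 3916693743) (nat_lit 404) (nat_lit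 5) (nat_lit 403) (nat_lit 5) (nat_lit 426) (nat_lit 5) (nat_lit 309) (nat_lit 296) (nat_lit 175)))) (XT.nd (nat_lit 156) (nat_lit 1672) (nat_lit 0) (XT.nd (nat_lit 78) (nat_lit 0) (nat_lit 76) (XT.lf (nat_lit 76) (nat_lit 4542917225) (nat_lit 0) (nat_lit 8073582078) (nat_lit 1748) (nat_lit 2294961398) (nat_lit 405) (nat_lit 5) (nat_lit 404) (nat_lit 5) (nat_lit 427) (nat_lit 5) (nat_lit 310) (nat_lit 296) (nat_lit 174)) (XT.lf (nat_lit 76) (nat_lit 583506027) (nat_lit 0) (nat_lit 13990087202) (nat_lit 1748) (nat_lit 572259355) (nat_lit 406) (nat_lit 5) (nat_lit 405) (nat_lit 5) (nat_lit 428) (nat_lit 5) (nat_lit 311) (nat_lit 296) (nat_lit 173))) (XT.nd (nat_lit 78) (nat_lit 0) (nat_lit 76) (XT.lf (nat_lit 0) (nat_lit 1293300709) (nat_lit 1748) (nat_lit 3456782856) (nat_lit 1824) (nat_lit 10634909372) (nat_lit 382) (nat_lit 5) (nat_lit 405) (nat_lit 5) (nat_lit 406) (nat_lit 5) (nat_lit 312) (nat_lit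 296) (nat_lit 172)) (XT.lf (nat_lit 0) (nat_lit 3273577257) (nat_lit 1748) (nat_lit 7592191606) (nat_lit 76) (nat_lit 4764143830) (nat_lit 383) (nat_lit 5) (nat_lit 406) (nat_lit 5) (nat_lit 384) (nat_lit 5) (nat_lit 313) (nat_lit 296) (nat_lit 171))))))) (XT.nd (nat_lit 1092) (nat_lit 5928) (nat_lit 0) (XT.nd (nat_lit 546) (nat_lit 4408) (nat_lit 0) (XT.nd (nat_lit 234) (nat_lit 2660) (nat_lit 0) (XT.nd (nat_lit 78) (nat_lit 836) (nat_lit 0) (XT.lf (nat_lit 0) (nat_lit 4049453880) (nat_lit 1444) (nat_lit 1328618298) (nat_lit 1520) (nat_lit 10502822663) (nat_lit 364) (nat_lit 5) (nat_lit 383) (nat_lit 5) (nat_lit 384) (nat_lit 5) (nat_lit 314) (nat_lit 296) (nat_lit 170)) (XT.nd (nat_lit 78) (nat_lit 836) (nat_lit 0) (XT.lf (nat_lit 0) (nat_lit 7636228488) (nat_lit 1520) (nat_lit 64119558) (nat_lit 76) (nat_lit 8437258561) (nat_lit 364) (nat_lit 5) (nat_lit 384) (nat_lit 5) (nat_lit 365) (nat_lit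 5) (nat_lit 315) (nat_lit 296) (nat_lit 169)) (XT.lf (nat_lit 0) (nat_lit 10048261611) (nat_lit 912) (nat_lit 4221450409) (nat_lit 76) (nat_lit 2130595433) (nat_lit 353) (nat_lit 5) (nat_lit 365) (nat_lit 5) (nat_lit 354) (nat_lit 5) (nat_lit 316) (nat_lit 296) (nat_lit 168)))) (XT.nd (nat_lit 156) (nat_lit 912) (nat_lit 0) (XT.nd (nat_lit 78) (nat_lit 836) (nat_lit 0) (XT.lf (nat_lit 0) (nat_lit 8160446220) (nat_lit 912) (nat_lit 4461574598) (nat_lit 988) (nat_lit 4047091274) (nat_lit 341) (nat_lit 5) (nat_lit 353) (nat_lit 5) (nat_lit 354) (nat_lit 5) (nat_lit 317) (nat_lit 296) (nat_lit 167)) (XT.lf (nat_lit 0) (nat_lit 4027896117) (nat_lit 836) (nat_lit 11321486835) (nat_lit 912) (nat_lit 1595079892) (nat_lit 330) (nat_lit 5) (nat_lit 341) (nat_lit 5) (nat_lit 342) (nat_lit 5) (nat_lit 318) (nat_lit 296) (nat_lit 166))) (XT.nd (nat_lit 78) (nat_lit 836) (nat_lit 0) (XT.lf (nat_lit 0) (nat_lit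 991226520) (nat_lit 912) (nat_lit 220425756) (nat_lit 76) (nat_lit 16014851555) (nat_lit 329) (nat_lit 5) (nat_lit 341) (nat_lit 5) (nat_lit 330) (nat_lit 5) (nat_lit 319) (nat_lit 296) (nat_lit 165)) (XT.lf (nat_lit 0) (nat_lit 3763869950) (nat_lit 912) (nat_lit 4573167779) (nat_lit 76) (nat_lit 9177158108) (nat_lit 318) (nat_lit 5) (nat_lit 330) (nat_lit 5) (nat_lit 319) (nat_lit 5) (nat_lit 320) (nat_lit 296) (nat_lit 164))))) (XT.nd (nat_lit 234) (nat_lit 2888) (nat_lit 0) (XT.nd (nat_lit 78) (nat_lit 760) (nat_lit 0) (XT.lf (nat_lit 0) (nat_lit 6685864251) (nat_lit 836) (nat_lit 9040174432) (nat_lit 76) (nat_lit 2083165260) (nat_lit 308) (nat_lit 5) (nat_lit 319) (nat_lit 5) (nat_lit 309) (nat_lit 5) (nat_lit 321) (nat_lit 296) (nat_lit 163)) (XT.nd (nat_lit 78) (nat_lit 0) (nat_lit 0) (XT.lf (nat_lit 0) (nat_lit 4450069514) (nat_lit 760) (nat_lit 5347449158) (nat_lit 836) (nat_lit 8313512131)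 (nat_lit 298) (nat_lit 5) (nat_lit 308) (nat_lit 5) (nat_lit 309) (nat_lit 5) (nat_lit 322) (nat_lit 296) (nat_lit 162)) (XT.lf (nat_lit 0) (nat_lit 13085346405) (nat_lit 836) (nat_lit 1050049) (nat_lit 76) (nat_lit 5333867806) (nat_lit 298) (nat_lit 5) (nat_lit 309) (nat_lit 5) (nat_lit 299) (nat_lit 5) (nat_lit 323) (nat_lit 296) (nat_lit 161)))) (XT.nd (nat_lit 156) (nat_lit 1368) (nat_lit 0) (XT.nd (nat_lit 78) (nat_lit 836) (nat_lit 0) (XT.lf (nat_lit 0) (nat_lit 14205581130) (nat_lit 684) (nat_lit 2381086554) (nat_lit 760) (nat_lit 2149817892) (nat_lit 289) (nat_lit 5) (nat_lit 298) (nat_lit 5) (nat_lit 299) (nat_lit 5) (nat_lit 324) (nat_lit 296) (nat_lit 160)) (XT.lf (nat_lit 0) (nat_lit 1223860496) (nat_lit 836) (nat_lit 9232681125) (nat_lit 76) (nat_lit 8603355576) (nat_lit 278) (nat_lit 5) (nat_lit 289) (nat_lit 5) (nat_lit 279) (nat_lit 5) (nat_lit 325) (nat_lit 296) (nat_lit 159)))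 (XT.nd (nat_lit 78) (nat_lit 684) (nat_lit 0) (XT.lf (nat_lit 0) (nat_lit 4742095052) (nat_lit 760) (nat_lit 14083838919) (nat_lit 76) (nat_lit 565349339) (nat_lit 269) (nat_lit 5) (nat_lit 279) (nat_lit 5) (nat_lit 270) (nat_lit 5) (nat_lit 326) (nat_lit 296) (nat_lit 158)) (XT.lf (nat_lit 0) (nat_lit 602709287) (nat_lit 684) (nat_lit 7887614488) (nat_lit 760) (nat_lit 11239805492) (nat_lit 260) (nat_lit 5) (nat_lit 269) (nat_lit 5) (nat_lit 270) (nat_lit 5) (nat_lit 327) (nat_lit 296) (nat_lit 157)))))) (XT.nd (nat_lit 546) (nat_lit 2812) (nat_lit 0) (XT.nd (nat_lit 234) (nat_lit 1748) (nat_lit 0) (XT.nd (nat_lit 78) (nat_lit 1368) (nat_lit 0) (XT.lf (nat_lit 0) (nat_lit 12456898780) (nat_lit 760) (nat_lit 4190830708) (nat_lit 76) (nat_lit 3429300116) (nat_lit 260) (nat_lit 5) (nat_lit 270) (nat_lit 5) (nat_lit 261) (nat_lit 5) (nat_lit 328) (nat_lit 296) (nat_lit 156)) (XT.nd (nat_lit 78) (nat_lit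 760) (nat_lit 0) (XT.lf (nat_lit 0) (nat_lit 11275724635) (nat_lit 608) (nat_lit 5380949571) (nat_lit 684) (nat_lit 3775385469) (nat_lit 252) (nat_lit 5) (nat_lit 260) (nat_lit 5) (nat_lit 261) (nat_lit 5) (nat_lit 329) (nat_lit 296) (nat_lit 155)) (XT.lf (nat_lit 0) (nat_lit 282610521) (nat_lit 760) (nat_lit 14299799585) (nat_lit 76) (nat_lit 6213306407) (nat_lit 242) (nat_lit 5) (nat_lit 252) (nat_lit 5) (nat_lit 243) (nat_lit 5) (nat_lit 330) (nat_lit 296) (nat_lit 154)))) (XT.nd (nat_lit 156) (nat_lit 1140) (nat_lit 0) (XT.nd (nat_lit 78) (nat_lit 0) (nat_lit 0) (XT.lf (nat_lit 0) (nat_lit 1519087923) (nat_lit 608) (nat_lit 2989225718) (nat_lit 684) (nat_lit 16659531383) (nat_lit 234) (nat_lit 5) (nat_lit 242) (nat_lit 5) (nat_lit 243) (nat_lit 5) (nat_lit 331) (nat_lit 296) (nat_lit 153)) (XT.lf (nat_lit 0) (nat_lit 9005346328) (nat_lit 684) (nat_lit 3612902393) (nat_lit 76) (nat_lit 8930003591)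 (nat_lit 234) (nat_lit 5) (nat_lit 243) (nat_lit 5) (nat_lit 235) (nat_lit 5) (nat_lit 332) (nat_lit 296) (nat_lit 152))) (XT.nd (nat_lit 78) (nat_lit 532) (nat_lit 0) (XT.lf (nat_lit 0) (nat_lit 13042253720) (nat_lit 608) (nat_lit 688924994) (nat_lit 684) (nat_lit 8207021242) (nat_lit 226) (nat_lit 5) (nat_lit 234) (nat_lit 5) (nat_lit 235) (nat_lit 5) (nat_lit 333) (nat_lit 296) (nat_lit 151)) (XT.lf (nat_lit 0) (nat_lit 7922774432) (nat_lit 532) (nat_lit 10816837561) (nat_lit 608) (nat_lit 3597423259) (nat_lit 219) (nat_lit 5) (nat_lit 226) (nat_lit 5) (nat_lit 227) (nat_lit 5) (nat_lit 334) (nat_lit 296) (nat_lit 150))))) (XT.nd (nat_lit 234) (nat_lit 1596) (nat_lit 0) (XT.nd (nat_lit 78) (nat_lit 532) (nat_lit 0) (XT.lf (nat_lit 0) (nat_lit 1216570461) (nat_lit 684) (nat_lit 20125039698) (nat_lit 76) (nat_lit 1404457595) (nat_lit 210) (nat_lit 5) (nat_lit 219) (nat_lit 5) (nat_lit 211) (nat_lit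 5) (nat_lit 335) (nat_lit 296) (nat_lit 149)) (XT.nd (nat_lit 78) (nat_lit 532) (nat_lit 0) (XT.lf (nat_lit 0) (nat_lit 6286843147) (nat_lit 684) (nat_lit 2910531510) (nat_lit 76) (nat_lit 13966311619) (nat_lit 210) (nat_lit 5) (nat_lit 219) (nat_lit 5) (nat_lit 211) (nat_lit 5) (nat_lit 336) (nat_lit 296) (nat_lit 148)) (XT.lf (nat_lit 0) (nat_lit 11618866011) (nat_lit 608) (nat_lit 8609394118) (nat_lit 76) (nat_lit 3363385534) (nat_lit 203) (nat_lit 5) (nat_lit 211) (nat_lit 5) (nat_lit 204) (nat_lit 5) (nat_lit 337) (nat_lit 296) (nat_lit 147)))) (XT.nd (nat_lit 156) (nat_lit 608) (nat_lit 0) (XT.nd (nat_lit 78) (nat_lit 456) (nat_lit 0) (XT.lf (nat_lit 0) (nat_lit 9469806023) (nat_lit 532) (nat_lit 7774174565) (nat_lit 608) (nat_lit 6785805624) (nat_lit 196) (nat_lit 5) (nat_lit 203) (nat_lit 5) (nat_lit 204) (nat_lit 5) (nat_lit 338) (nat_lit 296) (nat_lit 146)) (XT.lf (nat_lit 0) (nat_lit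 3732742657) (nat_lit 456) (nat_lit 19411351882) (nat_lit 532) (nat_lit 1334856375) (nat_lit 190) (nat_lit 5) (nat_lit 196) (nat_lit 5) (nat_lit 197) (nat_lit 5) (nat_lit 339) (nat_lit 296) (nat_lit 145))) (XT.nd (nat_lit 78) (nat_lit 532) (nat_lit 0) (XT.lf (nat_lit 0) (nat_lit 4365404620) (nat_lit 532) (nat_lit 2258769370) (nat_lit 76) (nat_lit 18314027240) (nat_lit 189) (nat_lit 5) (nat_lit 196) (nat_lit 5) (nat_lit 190) (nat_lit 5) (nat_lit 340) (nat_lit 296) (nat_lit 144)) (XT.lf (nat_lit 0) (nat_lit 10363076100) (nat_lit 608) (nat_lit 8467090370) (nat_lit 76) (nat_lit 6577999841) (nat_lit 182) (nat_lit 5) (nat_lit 190) (nat_lit 5) (nat_lit 183) (nat_lit 5) (nat_lit 341) (nat_lit 296) (nat_lit 143))))))))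
noncomputable def xc106 : XT := (XT.nd (nat_lit 38142) (nat_lit 0) (nat_lit 6840) (XT.nd (nat_lit 1014) (nat_lit 304) (nat_lit 0) (XT.nd (nat_lit 468) (nat_lit 2128) (nat_lit 0) (XT.nd (nat_lit 234) (nat_lit 1292) (nat_lit 0) (XT.nd (nat_lit 78) (nat_lit 532) (nat_lit 0) (XT.lf (nat_lit 0) (nat_lit 10943148053) (nat_lit 456) (nat_lit 5719336729) (nat_lit 532) (nat_lit 9227313777) (nat_lit 176) (nat_lit 5) (nat_lit 182) (nat_lit 5) (nat_lit 183) (nat_lit 5) (nat_lit 342) (nat_lit 296) (nat_lit 142)) (XT.nd (nat_lit 78) (nat_lit 76) (nat_lit 0) (XT.lf (nat_lit 0) (nat_lit 4665270273) (nat_lit 456) (nat_lit 18615411683) (nat_lit 532) (nat_lit 3102605923) (nat_lit 170) (nat_lit 5) (nat_lit 176) (nat_lit 5) (nat_lit 177) (nat_lit 5) (nat_lit 343) (nat_lit 296) (nat_lit 141)) (XT.lf (nat_lit 0) (nat_lit 3295335125) (nat_lit 532) (nat_lit 1890926917) (nat_lit 76) (nat_lit 21702276828) (nat_lit 169) (nat_lit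 5) (nat_lit 176) (nat_lit 5) (nat_lit 170) (nat_lit 5) (nat_lit 344) (nat_lit 296) (nat_lit 140)))) (XT.nd (nat_lit 78) (nat_lit 836) (nat_lit 0) (XT.lf (nat_lit 0) (nat_lit 10013650616) (nat_lit 532) (nat_lit 8718696572) (nat_lit 76) (nat_lit 8672782179) (nat_lit 163) (nat_lit 5) (nat_lit 170) (nat_lit 5) (nat_lit 164) (nat_lit 5) (nat_lit 345) (nat_lit 296) (nat_lit 139)) (XT.nd (nat_lit 78) (nat_lit 380) (nat_lit 0) (XT.lf (nat_lit 0) (nat_lit 12082330536) (nat_lit 456) (nat_lit 4968953000) (nat_lit 532) (nat_lit 10883582477) (nat_lit 157) (nat_lit 5) (nat_lit 163) (nat_lit 5) (nat_lit 164) (nat_lit 5) (nat_lit 346) (nat_lit 296) (nat_lit 138)) (XT.lf (nat_lit 0) (nat_lit 5143343314) (nat_lit 380) (nat_lit 19301235957) (nat_lit 456) (nat_lit 4033028494) (nat_lit 152) (nat_lit 5) (nat_lit 157) (nat_lit 5) (nat_lit 158) (nat_lit 5) (nat_lit 347) (nat_lit 296) (nat_lit 137))))) (XT.nd (nat_lit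 234) (nat_lit 1216) (nat_lit 0) (XT.nd (nat_lit 78) (nat_lit 836) (nat_lit 0) (XT.lf (nat_lit 0) (nat_lit 3116752449) (nat_lit 456) (nat_lit 2113246363) (nat_lit 76) (nat_lit 23803576751) (nat_lit 151) (nat_lit 5) (nat_lit 157) (nat_lit 5) (nat_lit 152) (nat_lit 5) (nat_lit 348) (nat_lit 296) (nat_lit 136)) (XT.nd (nat_lit 78) (nat_lit 380) (nat_lit 0) (XT.lf (nat_lit 0) (nat_lit 10609582934) (nat_lit 532) (nat_lit 9696045295) (nat_lit 76) (nat_lit 9296397420) (nat_lit 145) (nat_lit 5) (nat_lit 152) (nat_lit 5) (nat_lit 146) (nat_lit 5) (nat_lit 349) (nat_lit 296) (nat_lit 135)) (XT.lf (nat_lit 0) (nat_lit 12546027183) (nat_lit 380) (nat_lit 5904382745) (nat_lit 456) (nat_lit 11734658383) (nat_lit 140) (nat_lit 5) (nat_lit 145) (nat_lit 5) (nat_lit 146) (nat_lit 5) (nat_lit 350) (nat_lit 296) (nat_lit 134)))) (XT.nd (nat_lit 156) (nat_lit 760) (nat_lit 0) (XT.nd (nat_lit 78) (nat_lit 76) (nat_lit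 0) (XT.lf (nat_lit 0) (nat_lit 4797438216) (nat_lit 380) (nat_lit 21876778451) (nat_lit 456) (nat_lit 4108433696) (nat_lit 135) (nat_lit 5) (nat_lit 140) (nat_lit 5) (nat_lit 141) (nat_lit 5) (nat_lit 351) (nat_lit 296) (nat_lit 133)) (XT.lf (nat_lit 0) (nat_lit 3849838420) (nat_lit 456) (nat_lit 3322706864) (nat_lit 76) (nat_lit 24222083186) (nat_lit 134) (nat_lit 5) (nat_lit 140) (nat_lit 5) (nat_lit 135) (nat_lit 5) (nat_lit 352) (nat_lit 296) (nat_lit 132))) (XT.nd (nat_lit 78) (nat_lit 380) (nat_lit 0) (XT.lf (nat_lit 0) (nat_lit 12168422995) (nat_lit 456) (nat_lit 11827463862) (nat_lit 76) (nat_lit 8024991258) (nat_lit 129) (nat_lit 5) (nat_lit 135) (nat_lit 5) (nat_lit 130) (nat_lit 5) (nat_lit 353) (nat_lit 296) (nat_lit 131)) (XT.lf (nat_lit 0) (nat_lit 11892460770) (nat_lit 380) (nat_lit 8984879188) (nat_lit 456) (nat_lit 11785762673) (nat_lit 124) (nat_lit 5) (nat_lit 129) (nat_lit 5)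 (nat_lit 130) (nat_lit 5) (nat_lit 354) (nat_lit 296) (nat_lit 130)))))) (XT.nd (nat_lit 36582) (nat_lit 0) (nat_lit 21204) (XT.nd (nat_lit 36270) (nat_lit 0) (nat_lit 21128) (XT.nd (nat_lit 36114) (nat_lit 0) (nat_lit 22648) (XT.lf (nat_lit 0) (nat_lit 3151255198) (nat_lit 304) (nat_lit 26832504084) (nat_lit 380) (nat_lit 3338112698) (nat_lit 120) (nat_lit 5) (nat_lit 124) (nat_lit 5) (nat_lit 125) (nat_lit 5) (nat_lit 355) (nat_lit 296) (nat_lit 129)) (XT.nd (nat_lit 78) (nat_lit 0) (nat_lit 0) (XT.lf (nat_lit 0) (nat_lit 2428757022) (nat_lit 0) (nat_lit 2428757022) (nat_lit 1596) (nat_lit 1387973395) (nat_lit 418) (nat_lit 5) (nat_lit 418) (nat_lit 3) (nat_lit 439) (nat_lit 3) (nat_lit 297) (nat_lit 297) (nat_lit 186)) (XT.lf (nat_lit 76) (nat_lit 980570465) (nat_lit 0) (nat_lit 9531122168) (nat_lit 1672) (nat_lit 2153184416) (nat_lit 419) (nat_lit 5) (nat_lit 418) (nat_lit 5) (nat_lit 440)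 (nat_lit 5) (nat_lit 298) (nat_lit 297) (nat_lit 185)))) (XT.nd (nat_lit 156) (nat_lit 1520) (nat_lit 0) (XT.nd (nat_lit 78) (nat_lit 0) (nat_lit 76) (XT.lf (nat_lit 76) (nat_lit 9911665229) (nat_lit 0) (nat_lit 1480231489) (nat_lit 1672) (nat_lit 1450924090) (nat_lit 419) (nat_lit 5) (nat_lit 418) (nat_lit 5) (nat_lit 440) (nat_lit 5) (nat_lit 299) (nat_lit 297) (nat_lit 184)) (XT.lf (nat_lit 76) (nat_lit 6107344977) (nat_lit 0) (nat_lit 6251467828) (nat_lit 1672) (nat_lit 666100769) (nat_lit 420) (nat_lit 5) (nat_lit 419) (nat_lit 5) (nat_lit 441) (nat_lit 5) (nat_lit 300) (nat_lit 297) (nat_lit 183))) (XT.nd (nat_lit 78) (nat_lit 0) (nat_lit 0) (XT.lf (nat_lit 0) (nat_lit 175324428) (nat_lit 1672) (nat_lit 10975214757) (nat_lit 1748) (nat_lit 2061229003) (nat_lit 398) (nat_lit 5) (nat_lit 420) (nat_lit 5) (nat_lit 421) (nat_lit 5) (nat_lit 301) (nat_lit 297) (nat_lit 182)) (XT.lf (nat_lit 0)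 (nat_lit 1099496555) (nat_lit 1672) (nat_lit 1703413721) (nat_lit 1748) (nat_lit 10599914564) (nat_lit 398) (nat_lit 5) (nat_lit 420) (nat_lit 5) (nat_lit 421) (nat_lit 5) (nat_lit 302) (nat_lit 297) (nat_lit 181))))) (XT.nd (nat_lit 234) (nat_lit 0) (nat_lit 152) (XT.nd (nat_lit 78) (nat_lit 0) (nat_lit 76) (XT.lf (nat_lit 0) (nat_lit 2119117945) (nat_lit 1672) (nat_lit 5699559916) (nat_lit 1748) (nat_lit 5779595932) (nat_lit 399) (nat_lit 5) (nat_lit 421) (nat_lit 5) (nat_lit 422) (nat_lit 5) (nat_lit 303) (nat_lit 297) (nat_lit 180)) (XT.nd (nat_lit 78) (nat_lit 0) (nat_lit 0) (XT.lf (nat_lit 0) (nat_lit 3210032614) (nat_lit 1672) (nat_lit 9770756143) (nat_lit 1748) (nat_lit 817998007) (nat_lit 400) (nat_lit 5) (nat_lit 422) (nat_lit 5) (nat_lit 423) (nat_lit 5) (nat_lit 304) (nat_lit 297) (nat_lit 179)) (XT.lf (nat_lit 76) (nat_lit 55421543) (nat_lit 0) (nat_lit 4349130115) (nat_lit 1748) (nat_lit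 9599360145) (nat_lit 401) (nat_lit 5) (nat_lit 400) (nat_lit 5) (nat_lit 423) (nat_lit 5) (nat_lit 305) (nat_lit 297) (nat_lit 178)))) (XT.nd (nat_lit 156) (nat_lit 0) (nat_lit 76) (XT.nd (nat_lit 78) (nat_lit 0) (nat_lit 0) (XT.lf (nat_lit 0) (nat_lit 5710950396) (nat_lit 1672) (nat_lit 3947585955) (nat_lit 1748) (nat_lit 4555147162) (nat_lit 401) (nat_lit 5) (nat_lit 423) (nat_lit 5) (nat_lit 424) (nat_lit 5) (nat_lit 306) (nat_lit 297) (nat_lit 177)) (XT.lf (nat_lit 76) (nat_lit 6394609895) (nat_lit 0) (nat_lit 713028596) (nat_lit 1748) (nat_lit 7321101338) (nat_lit 402) (nat_lit 5) (nat_lit 401) (nat_lit 5) (nat_lit 424) (nat_lit 5) (nat_lit 307) (nat_lit 297) (nat_lit 176))) (XT.nd (nat_lit 78) (nat_lit 0) (nat_lit 76) (XT.lf (nat_lit 76) (nat_lit 2413954313) (nat_lit 0) (nat_lit 6211080000) (nat_lit 1748) (nat_lit 6023650388) (nat_lit 403) (nat_lit 5) (nat_lit 402) (nat_lit 5) (nat_lit 425)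 (nat_lit 5) (nat_lit 308) (nat_lit 297) (nat_lit 175)) (XT.lf (nat_lit 0) (nat_lit 10248337813) (nat_lit 1672) (nat_lit 1627039666) (nat_lit 1748) (nat_lit 2998655357) (nat_lit 403) (nat_lit 5) (nat_lit 425) (nat_lit 5) (nat_lit 426) (nat_lit 5) (nat_lit 309) (nat_lit 297) (nat_lit 174))))))) (XT.nd (nat_lit 1014) (nat_lit 7448) (nat_lit 0) (XT.nd (nat_lit 468) (nat_lit 4256) (nat_lit 0) (XT.nd (nat_lit 234) (nat_lit 1368) (nat_lit 0) (XT.nd (nat_lit 78) (nat_lit 1596) (nat_lit 0) (XT.lf (nat_lit 76) (nat_lit 9366674942) (nat_lit 0) (nat_lit 2638066481) (nat_lit 1748) (nat_lit 3099724234) (nat_lit 404) (nat_lit 5) (nat_lit 403) (nat_lit 5) (nat_lit 426) (nat_lit 5) (nat_lit 310) (nat_lit 297) (nat_lit 173)) (XT.nd (nat_lit 78) (nat_lit 1672) (nat_lit 0) (XT.lf (nat_lit 76) (nat_lit 5383075798) (nat_lit 0) (nat_lit 8503970059) (nat_lit 1748) (nat_lit 1453313339) (nat_lit 405) (nat_lit 5) (nat_lit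 404) (nat_lit 5) (nat_lit 427) (nat_lit 5) (nat_lit 311) (nat_lit 297) (nat_lit 172)) (XT.lf (nat_lit 0) (nat_lit 294145374) (nat_lit 1748) (nat_lit 14271375706) (nat_lit 1824) (nat_lit 1016691591) (nat_lit 382) (nat_lit 5) (nat_lit 405) (nat_lit 5) (nat_lit 406) (nat_lit 5) (nat_lit 312) (nat_lit 297) (nat_lit 171)))) (XT.nd (nat_lit 78) (nat_lit 1368) (nat_lit 0) (XT.lf (nat_lit 0) (nat_lit 2182431835) (nat_lit 1748) (nat_lit 2857559840) (nat_lit 1824) (nat_lit 10788985972) (nat_lit 382) (nat_lit 5) (nat_lit 405) (nat_lit 5) (nat_lit 406) (nat_lit 5) (nat_lit 313) (nat_lit 297) (nat_lit 170)) (XT.nd (nat_lit 78) (nat_lit 1444) (nat_lit 0) (XT.lf (nat_lit 0) (nat_lit 4200940101) (nat_lit 1748) (nat_lit 7110392284) (nat_lit 76) (nat_lit 4770352407) (nat_lit 383) (nat_lit 5) (nat_lit 406) (nat_lit 5) (nat_lit 384) (nat_lit 5) (nat_lit 314) (nat_lit 297) (nat_lit 169)) (XT.lf (nat_lit 0) (nat_lit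 4868990717) (nat_lit 1444) (nat_lit 1479961217) (nat_lit 1520) (nat_lit 9991652622) (nat_lit 364) (nat_lit 5) (nat_lit 383) (nat_lit 5) (nat_lit 384) (nat_lit 5) (nat_lit 315) (nat_lit 297) (nat_lit 168))))) (XT.nd (nat_lit 234) (nat_lit 2508) (nat_lit 0) (XT.nd (nat_lit 78) (nat_lit 912) (nat_lit 0) (XT.lf (nat_lit 0) (nat_lit 636965316) (nat_lit 836) (nat_lit 8017741705) (nat_lit 912) (nat_lit 7950728902) (nat_lit 353) (nat_lit 5) (nat_lit 364) (nat_lit 5) (nat_lit 365) (nat_lit 5) (nat_lit 316) (nat_lit 297) (nat_lit 167)) (XT.nd (nat_lit 78) (nat_lit 912) (nat_lit 0) (XT.lf (nat_lit 0) (nat_lit 11115989258) (nat_lit 912) (nat_lit 3648334998) (nat_lit 76) (nat_lit 2112170661) (nat_lit 353) (nat_lit 5) (nat_lit 365) (nat_lit 5) (nat_lit 354) (nat_lit 5) (nat_lit 317) (nat_lit 297) (nat_lit 166)) (XT.lf (nat_lit 0) (nat_lit 9093665772) (nat_lit 912) (nat_lit 4655446230) (nat_lit 988) (nat_lit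 3404623130) (nat_lit 341) (nat_lit 5) (nat_lit 353) (nat_lit 5) (nat_lit 354) (nat_lit 5) (nat_lit 318) (nat_lit 297) (nat_lit 165)))) (XT.nd (nat_lit 156) (nat_lit 760) (nat_lit 0) (XT.nd (nat_lit 78) (nat_lit 912) (nat_lit 0) (XT.lf (nat_lit 0) (nat_lit 4841553650) (nat_lit 836) (nat_lit 11699062286) (nat_lit 912) (nat_lit 897098082) (nat_lit 330) (nat_lit 5) (nat_lit 341) (nat_lit 5) (nat_lit 342) (nat_lit 5) (nat_lit 319) (nat_lit 297) (nat_lit 164)) (XT.lf (nat_lit 0) (nat_lit 461598831) (nat_lit 836) (nat_lit 1276975525) (nat_lit 912) (nat_lit 15989927211) (nat_lit 318) (nat_lit 5) (nat_lit 329) (nat_lit 5) (nat_lit 330) (nat_lit 5) (nat_lit 320) (nat_lit 297) (nat_lit 163))) (XT.nd (nat_lit 78) (nat_lit 760) (nat_lit 0) (XT.lf (nat_lit 0) (nat_lit 4574772934) (nat_lit 912) (nat_lit 4024285085) (nat_lit 76) (nat_lit 9426171764) (nat_lit 318) (nat_lit 5) (nat_lit 330) (nat_lit 5) (nat_lit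 319) (nat_lit 5) (nat_lit 321) (nat_lit 297) (nat_lit 162)) (XT.lf (nat_lit 0) (nat_lit 7568433503) (nat_lit 836) (nat_lit 8622326295) (nat_lit 76) (nat_lit 2138660794) (nat_lit 308) (nat_lit 5) (nat_lit 319) (nat_lit 5) (nat_lit 309) (nat_lit 5) (nat_lit 322) (nat_lit 297) (nat_lit 161)))))) (XT.nd (nat_lit 546) (nat_lit 3800) (nat_lit 0) (XT.nd (nat_lit 234) (nat_lit 2204) (nat_lit 0) (XT.nd (nat_lit 78) (nat_lit 684) (nat_lit 0) (XT.lf (nat_lit 0) (nat_lit 5261445897) (nat_lit 760) (nat_lit 5496528985) (nat_lit 836) (nat_lit 7882648850) (nat_lit 298) (nat_lit 5) (nat_lit 308) (nat_lit 5) (nat_lit 309) (nat_lit 5) (nat_lit 323) (nat_lit 297) (nat_lit 160)) (XT.nd (nat_lit 78) (nat_lit 0) (nat_lit 0) (XT.lf (nat_lit 0) (nat_lit 679223324) (nat_lit 684) (nat_lit 13450282084) (nat_lit 760) (nat_lit 4829939293) (nat_lit 289) (nat_lit 5) (nat_lit 298) (nat_lit 5) (nat_lit 299) (nat_lit 5) (nat_lit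 324) (nat_lit 297) (nat_lit 159)) (XT.lf (nat_lit 0) (nat_lit 15292252689) (nat_lit 684) (nat_lit 2424641944) (nat_lit 760) (nat_lit 1568648976) (nat_lit 289) (nat_lit 5) (nat_lit 298) (nat_lit 5) (nat_lit 299) (nat_lit 5) (nat_lit 325) (nat_lit 297) (nat_lit 158)))) (XT.nd (nat_lit 156) (nat_lit 684) (nat_lit 0) (XT.nd (nat_lit 78) (nat_lit 684) (nat_lit 0) (XT.lf (nat_lit 0) (nat_lit 1883719021) (nat_lit 836) (nat_lit 8838579617) (nat_lit 76) (nat_lit 8896567119) (nat_lit 278) (nat_lit 5) (nat_lit 289) (nat_lit 5) (nat_lit 279) (nat_lit 5) (nat_lit 326) (nat_lit 297) (nat_lit 157)) (XT.lf (nat_lit 0) (nat_lit 5493967821) (nat_lit 760) (nat_lit 13833949783) (nat_lit 76) (nat_lit 632557151) (nat_lit 269) (nat_lit 5) (nat_lit 279) (nat_lit 5) (nat_lit 270) (nat_lit 5) (nat_lit 327) (nat_lit 297) (nat_lit 156))) (XT.nd (nat_lit 78) (nat_lit 0) (nat_lit 0) (XT.lf (nat_lit 0) (nat_lit 1282285908) (nat_lit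 684) (nat_lit 8058896735) (nat_lit 760) (nat_lit 10968582997) (nat_lit 260) (nat_lit 5) (nat_lit 269) (nat_lit 5) (nat_lit 270) (nat_lit 5) (nat_lit 328) (nat_lit 297) (nat_lit 155)) (XT.lf (nat_lit 0) (nat_lit 13409803245) (nat_lit 760) (nat_lit 3662828857) (nat_lit 76) (nat_lit 3594789954) (nat_lit 260) (nat_lit 5) (nat_lit 270) (nat_lit 5) (nat_lit 261) (nat_lit 5) (nat_lit 329) (nat_lit 297) (nat_lit 154))))) (XT.nd (nat_lit 234) (nat_lit 1824) (nat_lit 0) (XT.nd (nat_lit 78) (nat_lit 1368) (nat_lit 0) (XT.lf (nat_lit 0) (nat_lit 12257117206) (nat_lit 608) (nat_lit 5465760465) (nat_lit 684) (nat_lit 3310488987) (nat_lit 252) (nat_lit 5) (nat_lit 260) (nat_lit 5) (nat_lit 261) (nat_lit 5) (nat_lit 330) (nat_lit 297) (nat_lit 153)) (XT.nd (nat_lit 78) (nat_lit 608) (nat_lit 0) (XT.lf (nat_lit 0) (nat_lit 849738462) (nat_lit 760) (nat_lit 14077397009) (nat_lit 76) (nat_lit 6480970442) (nat_lit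 242) (nat_lit 5) (nat_lit 252) (nat_lit 5) (nat_lit 243) (nat_lit 5) (nat_lit 331) (nat_lit 297) (nat_lit 152)) (XT.lf (nat_lit 0) (nat_lit 2205488990) (nat_lit 608) (nat_lit 2984613022) (nat_lit 684) (nat_lit 16601547485) (nat_lit 234) (nat_lit 5) (nat_lit 242) (nat_lit 5) (nat_lit 243) (nat_lit 5) (nat_lit 332) (nat_lit 297) (nat_lit 151)))) (XT.nd (nat_lit 156) (nat_lit 1216) (nat_lit 0) (XT.nd (nat_lit 78) (nat_lit 608) (nat_lit 0) (XT.lf (nat_lit 0) (nat_lit 9806721427) (nat_lit 684) (nat_lit 3088816535) (nat_lit 76) (nat_lit 9288246267) (nat_lit 234) (nat_lit 5) (nat_lit 243) (nat_lit 5) (nat_lit 235) (nat_lit 5) (nat_lit 333) (nat_lit 297) (nat_lit 150)) (XT.lf (nat_lit 0) (nat_lit 14055733140) (nat_lit 608) (nat_lit 607163184) (nat_lit 684) (nat_lit 7922771114) (nat_lit 226) (nat_lit 5) (nat_lit 234) (nat_lit 5) (nat_lit 235) (nat_lit 5) (nat_lit 334) (nat_lit 297) (nat_lit 149))) (XT.nd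 (nat_lit 78) (nat_lit 684) (nat_lit 0) (XT.lf (nat_lit 0) (nat_lit 8782425847) (nat_lit 532) (nat_lit 11028701366) (nat_lit 608) (nat_lit 3185557926) (nat_lit 219) (nat_lit 5) (nat_lit 226) (nat_lit 5) (nat_lit 227) (nat_lit 5) (nat_lit 335) (nat_lit 297) (nat_lit 148)) (XT.lf (nat_lit 0) (nat_lit 1755873918) (nat_lit 684) (nat_lit 20100397990) (nat_lit 76) (nat_lit 1561860345) (nat_lit 210) (nat_lit 5) (nat_lit 219) (nat_lit 5) (nat_lit 211) (nat_lit 5) (nat_lit 336) (nat_lit 297) (nat_lit 147))))))))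
noncomputable def xc107 : XT := (XT.nd (nat_lit 38220) (nat_lit 0) (nat_lit 8360) (XT.nd (nat_lit 1014) (nat_lit 2052) (nat_lit 0) (XT.nd (nat_lit 468) (nat_lit 2356) (nat_lit 0) (XT.nd (nat_lit 234) (nat_lit 1064) (nat_lit 0) (XT.nd (nat_lit 78) (nat_lit 1064) (nat_lit 0) (XT.lf (nat_lit 0) (nat_lit 6963609939) (nat_lit 684) (nat_lit 2387757261) (nat_lit 76) (nat_lit 14497212640) (nat_lit 210) (nat_lit 5) (nat_lit 219) (nat_lit 5) (nat_lit 211) (nat_lit 5) (nat_lit 337) (nat_lit 297) (nat_lit 146)) (XT.nd (nat_lit 78) (nat_lit 532) (nat_lit 0) (XT.lf (nat_lit 0) (nat_lit 12446066431) (nat_lit 608) (nat_lit 8258474926) (nat_lit 76) (nat_lit 3585034586) (nat_lit 203) (nat_lit 5) (nat_lit 211) (nat_lit 5) (nat_lit 204) (nat_lit 5) (nat_lit 338) (nat_lit 297) (nat_lit 145)) (XT.lf (nat_lit 0) (nat_lit 10353217657) (nat_lit 532) (nat_lit 7876667146) (nat_lit 608) (nat_lit 6511184076) (nat_lit 196)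 (nat_lit 5) (nat_lit 203) (nat_lit 5) (nat_lit 204) (nat_lit 5) (nat_lit 339) (nat_lit 297) (nat_lit 144)))) (XT.nd (nat_lit 78) (nat_lit 608) (nat_lit 0) (XT.lf (nat_lit 0) (nat_lit 4442939138) (nat_lit 456) (nat_lit 19855123017) (nat_lit 532) (nat_lit 905832134) (nat_lit 190) (nat_lit 5) (nat_lit 196) (nat_lit 5) (nat_lit 197) (nat_lit 5) (nat_lit 340) (nat_lit 297) (nat_lit 143)) (XT.nd (nat_lit 78) (nat_lit 532) (nat_lit 0) (XT.lf (nat_lit 0) (nat_lit 4945801706) (nat_lit 532) (nat_lit 1739548140) (nat_lit 76) (nat_lit 18991787652) (nat_lit 189) (nat_lit 5) (nat_lit 196) (nat_lit 5) (nat_lit 190) (nat_lit 5) (nat_lit 341) (nat_lit 297) (nat_lit 142)) (XT.lf (nat_lit 0) (nat_lit 11114954132) (nat_lit 608) (nat_lit 8135517264) (nat_lit 76) (nat_lit 6910905557) (nat_lit 182) (nat_lit 5) (nat_lit 190) (nat_lit 5) (nat_lit 183) (nat_lit 5) (nat_lit 342) (nat_lit 297) (nat_lit 141))))) (XT.nd (nat_lit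 234) (nat_lit 1368) (nat_lit 0) (XT.nd (nat_lit 78) (nat_lit 532) (nat_lit 0) (XT.lf (nat_lit 0) (nat_lit 11847527877) (nat_lit 456) (nat_lit 5746713281) (nat_lit 532) (nat_lit 9063405341) (nat_lit 176) (nat_lit 5) (nat_lit 182) (nat_lit 5) (nat_lit 183) (nat_lit 5) (nat_lit 343) (nat_lit 297) (nat_lit 140)) (XT.nd (nat_lit 78) (nat_lit 76) (nat_lit 0) (XT.lf (nat_lit 0) (nat_lit 5379748888) (nat_lit 456) (nat_lit 19023295440) (nat_lit 532) (nat_lit 2763061038) (nat_lit 170) (nat_lit 5) (nat_lit 176) (nat_lit 5) (nat_lit 177) (nat_lit 5) (nat_lit 344) (nat_lit 297) (nat_lit 139)) (XT.lf (nat_lit 0) (nat_lit 3808708901) (nat_lit 532) (nat_lit 1384166589) (nat_lit 76) (nat_lit 22493836706) (nat_lit 169) (nat_lit 5) (nat_lit 176) (nat_lit 5) (nat_lit 170) (nat_lit 5) (nat_lit 345) (nat_lit 297) (nat_lit 138)))) (XT.nd (nat_lit 156) (nat_lit 456) (nat_lit 0) (XT.nd (nat_lit 78) (nat_lit 456) (nat_lit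 0) (XT.lf (nat_lit 0) (nat_lit 10721062729) (nat_lit 532) (nat_lit 8418566411) (nat_lit 76) (nat_lit 9079327098) (nat_lit 163) (nat_lit 5) (nat_lit 170) (nat_lit 5) (nat_lit 164) (nat_lit 5) (nat_lit 346) (nat_lit 297) (nat_lit 137)) (XT.lf (nat_lit 0) (nat_lit 12997378741) (nat_lit 456) (nat_lit 4964179157) (nat_lit 532) (nat_lit 10803197866) (nat_lit 157) (nat_lit 5) (nat_lit 163) (nat_lit 5) (nat_lit 164) (nat_lit 5) (nat_lit 347) (nat_lit 297) (nat_lit 136))) (XT.nd (nat_lit 78) (nat_lit 76) (nat_lit 0) (XT.lf (nat_lit 0) (nat_lit 5848298238) (nat_lit 380) (nat_lit 19721285570) (nat_lit 456) (nat_lit 3754342621) (nat_lit 152) (nat_lit 5) (nat_lit 157) (nat_lit 5) (nat_lit 158) (nat_lit 5) (nat_lit 348) (nat_lit 297) (nat_lit 135)) (XT.lf (nat_lit 0) (nat_lit 3593201523) (nat_lit 456) (nat_lit 1636770717) (nat_lit 76) (nat_lit 24666783921) (nat_lit 151) (nat_lit 5) (nat_lit 157) (nat_lit 5)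 (nat_lit 152) (nat_lit 5) (nat_lit 349) (nat_lit 297) (nat_lit 134)))))) (XT.nd (nat_lit 36660) (nat_lit 0) (nat_lit 20748) (XT.nd (nat_lit 234) (nat_lit 836) (nat_lit 0) (XT.nd (nat_lit 78) (nat_lit 760) (nat_lit 0) (XT.lf (nat_lit 0) (nat_lit 11304123519) (nat_lit 532) (nat_lit 9449156774) (nat_lit 76) (nat_lit 9729118211) (nat_lit 145) (nat_lit 5) (nat_lit 152) (nat_lit 5) (nat_lit 146) (nat_lit 5) (nat_lit 350) (nat_lit 297) (nat_lit 133)) (XT.nd (nat_lit 78) (nat_lit 380) (nat_lit 0) (XT.lf (nat_lit 0) (nat_lit 13451453201) (nat_lit 380) (nat_lit 5921198206) (nat_lit 456) (nat_lit 11710436260) (nat_lit 140) (nat_lit 5) (nat_lit 145) (nat_lit 5) (nat_lit 146) (nat_lit 5) (nat_lit 351) (nat_lit 297) (nat_lit 132)) (XT.lf (nat_lit 0) (nat_lit 5468209928) (nat_lit 380) (nat_lit 22368653946) (nat_lit 456) (nat_lit 3861864080) (nat_lit 135) (nat_lit 5) (nat_lit 140) (nat_lit 5) (nat_lit 141) (nat_lit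 5) (nat_lit 352) (nat_lit 297) (nat_lit 131)))) (XT.nd (nat_lit 156) (nat_lit 380) (nat_lit 0) (XT.nd (nat_lit 78) (nat_lit 380) (nat_lit 0) (XT.lf (nat_lit 0) (nat_lit 4319675646) (nat_lit 456) (nat_lit 2906029478) (nat_lit 76) (nat_lit 25103529248) (nat_lit 134) (nat_lit 5) (nat_lit 140) (nat_lit 5) (nat_lit 135) (nat_lit 5) (nat_lit 353) (nat_lit 297) (nat_lit 130)) (XT.lf (nat_lit 0) (nat_lit 12881838390) (nat_lit 456) (nat_lit 11668261365) (nat_lit 76) (nat_lit 8424295594) (nat_lit 129) (nat_lit 5) (nat_lit 135) (nat_lit 5) (nat_lit 130) (nat_lit 5) (nat_lit 354) (nat_lit 297) (nat_lit 129))) (XT.nd (nat_lit 36192) (nat_lit 0) (nat_lit 22344) (XT.lf (nat_lit 0) (nat_lit 12754921538) (nat_lit 380) (nat_lit 9090238092) (nat_lit 456) (nat_lit 11790868367) (nat_lit 124) (nat_lit 5) (nat_lit 129) (nat_lit 5) (nat_lit 130) (nat_lit 5) (nat_lit 355) (nat_lit 297) (nat_lit 128)) (XT.lf (nat_lit 0)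 (nat_lit 2810619452) (nat_lit 0) (nat_lit 2810619452) (nat_lit 1596) (nat_lit 798813764) (nat_lit 418) (nat_lit 5) (nat_lit 418) (nat_lit 3) (nat_lit 439) (nat_lit 3) (nat_lit 298) (nat_lit 298) (nat_lit 184))))) (XT.nd (nat_lit 234) (nat_lit 0) (nat_lit 76) (XT.nd (nat_lit 78) (nat_lit 1596) (nat_lit 0) (XT.lf (nat_lit 76) (nat_lit 1647091554) (nat_lit 0) (nat_lit 10380191675) (nat_lit 1672) (nat_lit 992682121) (nat_lit 419) (nat_lit 5) (nat_lit 418) (nat_lit 5) (nat_lit 440) (nat_lit 5) (nat_lit 299) (nat_lit 298) (nat_lit 183)) (XT.nd (nat_lit 78) (nat_lit 1596) (nat_lit 0) (XT.lf (nat_lit 76) (nat_lit 10827562734) (nat_lit 0) (nat_lit 2071372261) (nat_lit 1672) (nat_lit 305036447) (nat_lit 419) (nat_lit 5) (nat_lit 418) (nat_lit 5) (nat_lit 440) (nat_lit 5) (nat_lit 300) (nat_lit 298) (nat_lit 182)) (XT.lf (nat_lit 0) (nat_lit 463227310) (nat_lit 1672) (nat_lit 6468951555) (nat_lit 1748) (nat_lit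 6459976479) (nat_lit 397) (nat_lit 5) (nat_lit 419) (nat_lit 5) (nat_lit 420) (nat_lit 5) (nat_lit 301) (nat_lit 298) (nat_lit 181)))) (XT.nd (nat_lit 156) (nat_lit 0) (nat_lit 76) (XT.nd (nat_lit 78) (nat_lit 0) (nat_lit 0) (XT.lf (nat_lit 0) (nat_lit 1288794208) (nat_lit 1672) (nat_lit 10637311249) (nat_lit 1748) (nat_lit 1659086075) (nat_lit 398) (nat_lit 5) (nat_lit 420) (nat_lit 5) (nat_lit 421) (nat_lit 5) (nat_lit 302) (nat_lit 298) (nat_lit 180)) (XT.lf (nat_lit 0) (nat_lit 2208413537) (nat_lit 1672) (nat_lit 1106788025) (nat_lit 1748) (nat_lit 10467446177) (nat_lit 398) (nat_lit 5) (nat_lit 420) (nat_lit 5) (nat_lit 421) (nat_lit 5) (nat_lit 303) (nat_lit 298) (nat_lit 179))) (XT.nd (nat_lit 78) (nat_lit 0) (nat_lit 76) (XT.lf (nat_lit 0) (nat_lit 3228751182) (nat_lit 1672) (nat_lit 5208959227) (nat_lit 1748) (nat_lit 5546868844) (nat_lit 399) (nat_lit 5) (nat_lit 421) (nat_lit 5) (nat_lit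 422) (nat_lit 5) (nat_lit 304) (nat_lit 298) (nat_lit 178)) (XT.lf (nat_lit 0) (nat_lit 4323755753) (nat_lit 1672) (nat_lit 9389532358) (nat_lit 1748) (nat_lit 478413271) (nat_lit 400) (nat_lit 5) (nat_lit 422) (nat_lit 5) (nat_lit 423) (nat_lit 5) (nat_lit 305) (nat_lit 298) (nat_lit 177))))))) (XT.nd (nat_lit 1092) (nat_lit 8132) (nat_lit 0) (XT.nd (nat_lit 546) (nat_lit 4484) (nat_lit 0) (XT.nd (nat_lit 234) (nat_lit 0) (nat_lit 152) (XT.nd (nat_lit 78) (nat_lit 0) (nat_lit 76) (XT.lf (nat_lit 76) (nat_lit 720490189) (nat_lit 0) (nat_lit 4808293795) (nat_lit 1748) (nat_lit 8874723119) (nat_lit 401) (nat_lit 5) (nat_lit 400) (nat_lit 5) (nat_lit 423) (nat_lit 5) (nat_lit 306) (nat_lit 298) (nat_lit 176)) (XT.nd (nat_lit 78) (nat_lit 0) (nat_lit 0) (XT.lf (nat_lit 0) (nat_lit 6843406776) (nat_lit 1672) (nat_lit 3399933801) (nat_lit 1748) (nat_lit 4376870556) (nat_lit 401) (nat_lit 5) (nat_lit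 423) (nat_lit 5) (nat_lit 424) (nat_lit 5) (nat_lit 307) (nat_lit 298) (nat_lit 175)) (XT.lf (nat_lit 76) (nat_lit 7241721572) (nat_lit 0) (nat_lit 1016534395) (nat_lit 1748) (nat_lit 6583957194) (nat_lit 402) (nat_lit 5) (nat_lit 401) (nat_lit 5) (nat_lit 424) (nat_lit 5) (nat_lit 308) (nat_lit 298) (nat_lit 174)))) (XT.nd (nat_lit 156) (nat_lit 0) (nat_lit 76) (XT.nd (nat_lit 78) (nat_lit 0) (nat_lit 76) (XT.lf (nat_lit 76) (nat_lit 3151891552) (nat_lit 0) (nat_lit 6644522201) (nat_lit 1748) (nat_lit 5272856498) (nat_lit 403) (nat_lit 5) (nat_lit 402) (nat_lit 5) (nat_lit 425) (nat_lit 5) (nat_lit 309) (nat_lit 298) (nat_lit 173)) (XT.lf (nat_lit 0) (nat_lit 11440277277) (nat_lit 1672) (nat_lit 1009833378) (nat_lit 1748) (nat_lit 2851849085) (nat_lit 403) (nat_lit 5) (nat_lit 425) (nat_lit 5) (nat_lit 426) (nat_lit 5) (nat_lit 310) (nat_lit 298) (nat_lit 172))) (XT.nd (nat_lit 78) (nat_lit 0)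 (nat_lit 76) (XT.lf (nat_lit 76) (nat_lit 10302887326) (nat_lit 0) (nat_lit 2924977917) (nat_lit 1748) (nat_lit 2311888060) (nat_lit 404) (nat_lit 5) (nat_lit 403) (nat_lit 5) (nat_lit 426) (nat_lit 5) (nat_lit 311) (nat_lit 298) (nat_lit 171)) (XT.lf (nat_lit 76) (nat_lit 6208034050) (nat_lit 0) (nat_lit 8936467349) (nat_lit 1748) (nat_lit 638682085) (nat_lit 405) (nat_lit 5) (nat_lit 404) (nat_lit 5) (nat_lit 427) (nat_lit 5) (nat_lit 312) (nat_lit 298) (nat_lit 170))))) (XT.nd (nat_lit 234) (nat_lit 3116) (nat_lit 0) (XT.nd (nat_lit 78) (nat_lit 0) (nat_lit 0) (XT.lf (nat_lit 0) (nat_lit 1128534885) (nat_lit 1748) (nat_lit 14017064063) (nat_lit 1824) (nat_lit 887026628) (nat_lit 382) (nat_lit 5) (nat_lit 405) (nat_lit 5) (nat_lit 406) (nat_lit 5) (nat_lit 313) (nat_lit 298) (nat_lit 169)) (XT.nd (nat_lit 78) (nat_lit 0) (nat_lit 76) (XT.lf (nat_lit 0) (nat_lit 3049424354) (nat_lit 1748) (nat_lit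 2280710991) (nat_lit 1824) (nat_lit 10957154861) (nat_lit 382) (nat_lit 5) (nat_lit 405) (nat_lit 5) (nat_lit 406) (nat_lit 5) (nat_lit 314) (nat_lit 298) (nat_lit 168)) (XT.lf (nat_lit 0) (nat_lit 5108526911) (nat_lit 1748) (nat_lit 6654870919) (nat_lit 76) (nat_lit 4784595284) (nat_lit 383) (nat_lit 5) (nat_lit 406) (nat_lit 5) (nat_lit 384) (nat_lit 5) (nat_lit 315) (nat_lit 298) (nat_lit 167)))) (XT.nd (nat_lit 156) (nat_lit 912) (nat_lit 0) (XT.nd (nat_lit 78) (nat_lit 836) (nat_lit 0) (XT.lf (nat_lit 0) (nat_lit 5673042548) (nat_lit 1444) (nat_lit 1629444764) (nat_lit 1520) (nat_lit 9512577880) (nat_lit 364) (nat_lit 5) (nat_lit 383) (nat_lit 5) (nat_lit 384) (nat_lit 5) (nat_lit 316) (nat_lit 298) (nat_lit 166)) (XT.lf (nat_lit 0) (nat_lit 1319554471) (nat_lit 836) (nat_lit 8339280680) (nat_lit 912) (nat_lit 7429392399) (nat_lit 353) (nat_lit 5) (nat_lit 364) (nat_lit 5) (nat_lit 365) (nat_lit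 5) (nat_lit 317) (nat_lit 298) (nat_lit 165))) (XT.nd (nat_lit 78) (nat_lit 912) (nat_lit 0) (XT.lf (nat_lit 0) (nat_lit 12171761140) (nat_lit 912) (nat_lit 3098195149) (nat_lit 76) (nat_lit 2097919949) (nat_lit 353) (nat_lit 5) (nat_lit 365) (nat_lit 5) (nat_lit 354) (nat_lit 5) (nat_lit 318) (nat_lit 298) (nat_lit 164)) (XT.lf (nat_lit 0) (nat_lit 10015364582) (nat_lit 912) (nat_lit 4851688364) (nat_lit 988) (nat_lit 2786730828) (nat_lit 341) (nat_lit 5) (nat_lit 353) (nat_lit 5) (nat_lit 354) (nat_lit 5) (nat_lit 319) (nat_lit 298) (nat_lit 163)))))) (XT.nd (nat_lit 546) (nat_lit 4180) (nat_lit 0) (XT.nd (nat_lit 234) (nat_lit 2204) (nat_lit 0) (XT.nd (nat_lit 78) (nat_lit 912) (nat_lit 0) (XT.lf (nat_lit 0) (nat_lit 5639850170) (nat_lit 836) (nat_lit 12085787614) (nat_lit 912) (nat_lit 220990752) (nat_lit 330) (nat_lit 5) (nat_lit 341) (nat_lit 5) (nat_lit 342) (nat_lit 5) (nat_lit 320) (nat_lit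 298) (nat_lit 162)) (XT.nd (nat_lit 78) (nat_lit 0) (nat_lit 0) (XT.lf (nat_lit 0) (nat_lit 1127397576) (nat_lit 836) (nat_lit 1341159174) (nat_lit 912) (nat_lit 15777823758) (nat_lit 318) (nat_lit 5) (nat_lit 329) (nat_lit 5) (nat_lit 330) (nat_lit 5) (nat_lit 321) (nat_lit 298) (nat_lit 161)) (XT.lf (nat_lit 0) (nat_lit 5369935705) (nat_lit 912) (nat_lit 3498319579) (nat_lit 76) (nat_lit 9684165619) (nat_lit 318) (nat_lit 5) (nat_lit 330) (nat_lit 5) (nat_lit 319) (nat_lit 5) (nat_lit 322) (nat_lit 298) (nat_lit 160)))) (XT.nd (nat_lit 156) (nat_lit 684) (nat_lit 0) (XT.nd (nat_lit 78) (nat_lit 760) (nat_lit 0) (XT.lf (nat_lit 0) (nat_lit 8438330626) (nat_lit 836) (nat_lit 8231497196) (nat_lit 76) (nat_lit 2196222990) (nat_lit 308) (nat_lit 5) (nat_lit 319) (nat_lit 5) (nat_lit 309) (nat_lit 5) (nat_lit 323) (nat_lit 298) (nat_lit 159)) (XT.lf (nat_lit 0) (nat_lit 6058250814) (nat_lit 760) (nat_lit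 5650732380) (nat_lit 836) (nat_lit 7477909873) (nat_lit 298) (nat_lit 5) (nat_lit 308) (nat_lit 5) (nat_lit 309) (nat_lit 5) (nat_lit 324) (nat_lit 298) (nat_lit 158))) (XT.nd (nat_lit 78) (nat_lit 0) (nat_lit 0) (XT.lf (nat_lit 0) (nat_lit 1340866164) (nat_lit 684) (nat_lit 13826725297) (nat_lit 760) (nat_lit 4347979751) (nat_lit 289) (nat_lit 5) (nat_lit 298) (nat_lit 5) (nat_lit 299) (nat_lit 5) (nat_lit 325) (nat_lit 298) (nat_lit 157)) (XT.lf (nat_lit 0) (nat_lit 16373608756) (nat_lit 684) (nat_lit 2471104261) (nat_lit 760) (nat_lit 1007108716) (nat_lit 289) (nat_lit 5) (nat_lit 298) (nat_lit 5) (nat_lit 299) (nat_lit 5) (nat_lit 326) (nat_lit 298) (nat_lit 156))))) (XT.nd (nat_lit 234) (nat_lit 1976) (nat_lit 0) (XT.nd (nat_lit 78) (nat_lit 1368) (nat_lit 0) (XT.lf (nat_lit 0) (nat_lit 2527602362) (nat_lit 836) (nat_lit 8471177912) (nat_lit 76) (nat_lit 9196559501) (nat_lit 278) (nat_lit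 5) (nat_lit 289) (nat_lit 5) (nat_lit 279) (nat_lit 5) (nat_lit 327) (nat_lit 298) (nat_lit 155)) (XT.nd (nat_lit 78) (nat_lit 684) (nat_lit 0) (XT.lf (nat_lit 0) (nat_lit 6233402671) (nat_lit 760) (nat_lit 13615162731) (nat_lit 76) (nat_lit 698896794) (nat_lit 269) (nat_lit 5) (nat_lit 279) (nat_lit 5) (nat_lit 270) (nat_lit 5) (nat_lit 328) (nat_lit 298) (nat_lit 154)) (XT.lf (nat_lit 0) (nat_lit 1944277289) (nat_lit 684) (nat_lit 8239068589) (nat_lit 760) (nat_lit 10724149433) (nat_lit 260) (nat_lit 5) (nat_lit 269) (nat_lit 5) (nat_lit 270) (nat_lit 5) (nat_lit 329) (nat_lit 298) (nat_lit 153)))) (XT.nd (nat_lit 156) (nat_lit 1368) (nat_lit 0) (XT.nd (nat_lit 78) (nat_lit 608) (nat_lit 0) (XT.lf (nat_lit 0) (nat_lit 14358046537) (nat_lit 760) (nat_lit 3156513541) (nat_lit 76) (nat_lit 3761650370) (nat_lit 260) (nat_lit 5) (nat_lit 270) (nat_lit 5) (nat_lit 261) (nat_lit 5) (nat_lit 330) (nat_lit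 298) (nat_lit 152)) (XT.lf (nat_lit 0) (nat_lit 13231033788) (nat_lit 608) (nat_lit 5557513848) (nat_lit 684) (nat_lit 2864834247) (nat_lit 252) (nat_lit 5) (nat_lit 260) (nat_lit 5) (nat_lit 261) (nat_lit 5) (nat_lit 331) (nat_lit 298) (nat_lit 151))) (XT.nd (nat_lit 78) (nat_lit 608) (nat_lit 0) (XT.lf (nat_lit 0) (nat_lit 1401811468) (nat_lit 760) (nat_lit 13885715182) (nat_lit 76) (nat_lit 6751999464) (nat_lit 242) (nat_lit 5) (nat_lit 252) (nat_lit 5) (nat_lit 243) (nat_lit 5) (nat_lit 332) (nat_lit 298) (nat_lit 150)) (XT.lf (nat_lit 0) (nat_lit 2875695915) (nat_lit 608) (nat_lit 2985274545) (nat_lit 684) (nat_lit 16573842340) (nat_lit 234) (nat_lit 5) (nat_lit 242) (nat_lit 5) (nat_lit 243) (nat_lit 5) (nat_lit 333) (nat_lit 298) (nat_lit 149))))))))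
noncomputable def xc108 : XT := (XT.nd (nat_lit 38376) (nat_lit 0) (nat_lit 9576) (XT.nd (nat_lit 1014) (nat_lit 2660) (nat_lit 0) (XT.nd (nat_lit 468) (nat_lit 2584) (nat_lit 0) (XT.nd (nat_lit 234) (nat_lit 1216) (nat_lit 0) (XT.nd (nat_lit 78) (nat_lit 1140) (nat_lit 0) (XT.lf (nat_lit 0) (nat_lit 10601643881) (nat_lit 684) (nat_lit 2585314634) (nat_lit 76) (nat_lit 9652050189) (nat_lit 234) (nat_lit 5) (nat_lit 243) (nat_lit 5) (nat_lit 235) (nat_lit 5) (nat_lit 334) (nat_lit 298) (nat_lit 148)) (XT.nd (nat_lit 78) (nat_lit 532) (nat_lit 0) (XT.lf (nat_lit 0) (nat_lit 15063899439) (nat_lit 608) (nat_lit 528828394) (nat_lit 684) (nat_lit 7660444100) (nat_lit 226) (nat_lit 5) (nat_lit 234) (nat_lit 5) (nat_lit 235) (nat_lit 5) (nat_lit 335) (nat_lit 298) (nat_lit 147)) (XT.lf (nat_lit 0) (nat_lit 9632163286) (nat_lit 532) (nat_lit 11253387158) (nat_lit 608) (nat_lit 2791174593) (nat_lit 219)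 (nat_lit 5) (nat_lit 226) (nat_lit 5) (nat_lit 227) (nat_lit 5) (nat_lit 336) (nat_lit 298) (nat_lit 146)))) (XT.nd (nat_lit 78) (nat_lit 532) (nat_lit 0) (XT.lf (nat_lit 0) (nat_lit 2282493338) (nat_lit 684) (nat_lit 20111089353) (nat_lit 76) (nat_lit 1717368265) (nat_lit 210) (nat_lit 5) (nat_lit 219) (nat_lit 5) (nat_lit 211) (nat_lit 5) (nat_lit 337) (nat_lit 298) (nat_lit 145)) (XT.nd (nat_lit 78) (nat_lit 532) (nat_lit 0) (XT.lf (nat_lit 0) (nat_lit 7632657269) (nat_lit 684) (nat_lit 1884321459) (nat_lit 76) (nat_lit 15037616504) (nat_lit 210) (nat_lit 5) (nat_lit 219) (nat_lit 5) (nat_lit 211) (nat_lit 5) (nat_lit 338) (nat_lit 298) (nat_lit 144)) (XT.lf (nat_lit 0) (nat_lit 13270607288) (nat_lit 608) (nat_lit 7931998789) (nat_lit 76) (nat_lit 3806401711) (nat_lit 203) (nat_lit 5) (nat_lit 211) (nat_lit 5) (nat_lit 204) (nat_lit 5) (nat_lit 339) (nat_lit 298) (nat_lit 143))))) (XT.nd (nat_lit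 234) (nat_lit 1520) (nat_lit 0) (XT.nd (nat_lit 78) (nat_lit 532) (nat_lit 0) (XT.lf (nat_lit 0) (nat_lit 11228728366) (nat_lit 532) (nat_lit 7989739093) (nat_lit 608) (nat_lit 6255774272) (nat_lit 196) (nat_lit 5) (nat_lit 203) (nat_lit 5) (nat_lit 204) (nat_lit 5) (nat_lit 340) (nat_lit 298) (nat_lit 142)) (XT.nd (nat_lit 78) (nat_lit 76) (nat_lit 0) (XT.lf (nat_lit 0) (nat_lit 5140101571) (nat_lit 456) (nat_lit 20320161738) (nat_lit 532) (nat_lit 490863699) (nat_lit 190) (nat_lit 5) (nat_lit 196) (nat_lit 5) (nat_lit 197) (nat_lit 5) (nat_lit 341) (nat_lit 298) (nat_lit 141)) (XT.lf (nat_lit 0) (nat_lit 5517811300) (nat_lit 532) (nat_lit 1238445573) (nat_lit 76) (nat_lit 19682513658) (nat_lit 189) (nat_lit 5) (nat_lit 196) (nat_lit 5) (nat_lit 190) (nat_lit 5) (nat_lit 342) (nat_lit 298) (nat_lit 140)))) (XT.nd (nat_lit 156) (nat_lit 532) (nat_lit 0) (XT.nd (nat_lit 78) (nat_lit 456) (nat_lit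 0) (XT.lf (nat_lit 0) (nat_lit 11864074120) (nat_lit 608) (nat_lit 7827611986) (nat_lit 76) (nat_lit 7246016418) (nat_lit 182) (nat_lit 5) (nat_lit 190) (nat_lit 5) (nat_lit 183) (nat_lit 5) (nat_lit 343) (nat_lit 298) (nat_lit 139)) (XT.lf (nat_lit 0) (nat_lit 12745969439) (nat_lit 456) (nat_lit 5783189003) (nat_lit 532) (nat_lit 8919879233) (nat_lit 176) (nat_lit 5) (nat_lit 182) (nat_lit 5) (nat_lit 183) (nat_lit 5) (nat_lit 344) (nat_lit 298) (nat_lit 138))) (XT.nd (nat_lit 78) (nat_lit 76) (nat_lit 0) (XT.lf (nat_lit 0) (nat_lit 6082682035) (nat_lit 456) (nat_lit 19452059537) (nat_lit 532) (nat_lit 2438164140) (nat_lit 170) (nat_lit 5) (nat_lit 176) (nat_lit 5) (nat_lit 177) (nat_lit 5) (nat_lit 345) (nat_lit 298) (nat_lit 137)) (XT.lf (nat_lit 0) (nat_lit 4313689107) (nat_lit 532) (nat_lit 894549974) (nat_lit 76) (nat_lit 23301078589) (nat_lit 169) (nat_lit 5) (nat_lit 176) (nat_lit 5) (nat_lit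 170) (nat_lit 5) (nat_lit 346) (nat_lit 298) (nat_lit 136)))))) (XT.nd (nat_lit 546) (nat_lit 76) (nat_lit 0) (XT.nd (nat_lit 234) (nat_lit 1292) (nat_lit 0) (XT.nd (nat_lit 78) (nat_lit 836) (nat_lit 0) (XT.lf (nat_lit 0) (nat_lit 11426333591) (nat_lit 532) (nat_lit 8141675710) (nat_lit 76) (nat_lit 9489666619) (nat_lit 163) (nat_lit 5) (nat_lit 170) (nat_lit 5) (nat_lit 164) (nat_lit 5) (nat_lit 347) (nat_lit 298) (nat_lit 135)) (XT.nd (nat_lit 78) (nat_lit 380) (nat_lit 0) (XT.lf (nat_lit 0) (nat_lit 13908158137) (nat_lit 456) (nat_lit 4968093283) (nat_lit 532) (nat_lit 10743758988) (nat_lit 157) (nat_lit 5) (nat_lit 163) (nat_lit 5) (nat_lit 164) (nat_lit 5) (nat_lit 348) (nat_lit 298) (nat_lit 134)) (XT.lf (nat_lit 0) (nat_lit 6542791982) (nat_lit 380) (nat_lit 20163063202) (nat_lit 456) (nat_lit 3490239251) (nat_lit 152) (nat_lit 5) (nat_lit 157) (nat_lit 5) (nat_lit 158) (nat_lit 5) (nat_lit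 349) (nat_lit 298) (nat_lit 133)))) (XT.nd (nat_lit 156) (nat_lit 760) (nat_lit 0) (XT.nd (nat_lit 78) (nat_lit 456) (nat_lit 0) (XT.lf (nat_lit 0) (nat_lit 4061961374) (nat_lit 456) (nat_lit 1176991723) (nat_lit 76) (nat_lit 25547328364) (nat_lit 151) (nat_lit 5) (nat_lit 157) (nat_lit 5) (nat_lit 152) (nat_lit 5) (nat_lit 350) (nat_lit 298) (nat_lit 132)) (XT.lf (nat_lit 0) (nat_lit 11997901854) (nat_lit 532) (nat_lit 9225731789) (nat_lit 76) (nat_lit 10165990219) (nat_lit 145) (nat_lit 5) (nat_lit 152) (nat_lit 5) (nat_lit 146) (nat_lit 5) (nat_lit 351) (nat_lit 298) (nat_lit 131))) (XT.nd (nat_lit 78) (nat_lit 380) (nat_lit 0) (XT.lf (nat_lit 0) (nat_lit 14353672641) (nat_lit 380) (nat_lit 5947720927) (nat_lit 456) (nat_lit 11707086444) (nat_lit 140) (nat_lit 5) (nat_lit 145) (nat_lit 5) (nat_lit 146) (nat_lit 5) (nat_lit 352) (nat_lit 298) (nat_lit 130)) (XT.lf (nat_lit 0) (nat_lit 6128861529)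 (nat_lit 380) (nat_lit 22884724538) (nat_lit 456) (nat_lit 3629126708) (nat_lit 135) (nat_lit 5) (nat_lit 140) (nat_lit 5) (nat_lit 141) (nat_lit 5) (nat_lit 353) (nat_lit 298) (nat_lit 129))))) (XT.nd (nat_lit 36504) (nat_lit 0) (nat_lit 19912) (XT.nd (nat_lit 36348) (nat_lit 0) (nat_lit 19912) (XT.lf (nat_lit 0) (nat_lit 4783267305) (nat_lit 456) (nat_lit 2506492865) (nat_lit 76) (nat_lit 26002533481) (nat_lit 134) (nat_lit 5) (nat_lit 140) (nat_lit 5) (nat_lit 135) (nat_lit 5) (nat_lit 354) (nat_lit 298) (nat_lit 128)) (XT.nd (nat_lit 78) (nat_lit 1672) (nat_lit 0) (XT.lf (nat_lit 0) (nat_lit 3186199907) (nat_lit 0) (nat_lit 3186199907) (nat_lit 1596) (nat_lit 228189778) (nat_lit 418) (nat_lit 5) (nat_lit 418) (nat_lit 3) (nat_lit 439) (nat_lit 3) (nat_lit 299) (nat_lit 299) (nat_lit 182)) (XT.lf (nat_lit 0) (nat_lit 130574350) (nat_lit 1672) (nat_lit 11090956394) (nat_lit 1748) (nat_lit 2165585328)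 (nat_lit 396) (nat_lit 5) (nat_lit 418) (nat_lit 5) (nat_lit 419) (nat_lit 5) (nat_lit 300) (nat_lit 299) (nat_lit 181)))) (XT.nd (nat_lit 156) (nat_lit 0) (nat_lit 152) (XT.nd (nat_lit 78) (nat_lit 0) (nat_lit 76) (XT.lf (nat_lit 0) (nat_lit 796367216) (nat_lit 1672) (nat_lit 1847151238) (nat_lit 1748) (nat_lit 10933718745) (nat_lit 396) (nat_lit 5) (nat_lit 418) (nat_lit 5) (nat_lit 419) (nat_lit 5) (nat_lit 301) (nat_lit 299) (nat_lit 180)) (XT.lf (nat_lit 0) (nat_lit 1551978489) (nat_lit 1672) (nat_lit 6048740161) (nat_lit 1748) (nat_lit 6170961061) (nat_lit 397) (nat_lit 5) (nat_lit 419) (nat_lit 5) (nat_lit 420) (nat_lit 5) (nat_lit 302) (nat_lit 299) (nat_lit 179))) (XT.nd (nat_lit 78) (nat_lit 0) (nat_lit 0) (XT.lf (nat_lit 0) (nat_lit 2372052291) (nat_lit 1672) (nat_lit 10327568346) (nat_lit 1748) (nat_lit 1271513197) (nat_lit 398) (nat_lit 5) (nat_lit 420) (nat_lit 5) (nat_lit 421) (nat_lit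 5) (nat_lit 303) (nat_lit 299) (nat_lit 178)) (XT.lf (nat_lit 0) (nat_lit 3288835124) (nat_lit 1672) (nat_lit 529445801) (nat_lit 1748) (nat_lit 10356862319) (nat_lit 398) (nat_lit 5) (nat_lit 420) (nat_lit 5) (nat_lit 421) (nat_lit 5) (nat_lit 304) (nat_lit 299) (nat_lit 177))))))) (XT.nd (nat_lit 1014) (nat_lit 7904) (nat_lit 0) (XT.nd (nat_lit 468) (nat_lit 2660) (nat_lit 0) (XT.nd (nat_lit 234) (nat_lit 0) (nat_lit 152) (XT.nd (nat_lit 78) (nat_lit 0) (nat_lit 76) (XT.lf (nat_lit 0) (nat_lit 4311625311) (nat_lit 1672) (nat_lit 4741618345) (nat_lit 1748) (nat_lit 5330472605) (nat_lit 399) (nat_lit 5) (nat_lit 421) (nat_lit 5) (nat_lit 422) (nat_lit 5) (nat_lit 305) (nat_lit 299) (nat_lit 176)) (XT.nd (nat_lit 78) (nat_lit 0) (nat_lit 0) (XT.lf (nat_lit 0) (nat_lit 5412486391) (nat_lit 1672) (nat_lit 9035582105) (nat_lit 1748) (nat_lit 149543239) (nat_lit 400) (nat_lit 5) (nat_lit 422) (nat_lit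 5) (nat_lit 423) (nat_lit 5) (nat_lit 306) (nat_lit 299) (nat_lit 175)) (XT.lf (nat_lit 76) (nat_lit 1367428675) (nat_lit 0) (nat_lit 5262364249) (nat_lit 1748) (nat_lit 8186475388) (nat_lit 401) (nat_lit 5) (nat_lit 400) (nat_lit 5) (nat_lit 423) (nat_lit 5) (nat_lit 307) (nat_lit 299) (nat_lit 174)))) (XT.nd (nat_lit 78) (nat_lit 0) (nat_lit 0) (XT.lf (nat_lit 0) (nat_lit 7954664177) (nat_lit 1672) (nat_lit 2874087783) (nat_lit 1748) (nat_lit 4211323980) (nat_lit 401) (nat_lit 5) (nat_lit 423) (nat_lit 5) (nat_lit 424) (nat_lit 5) (nat_lit 308) (nat_lit 299) (nat_lit 173)) (XT.nd (nat_lit 78) (nat_lit 0) (nat_lit 76) (XT.lf (nat_lit 76) (nat_lit 8076631228) (nat_lit 0) (nat_lit 1312950817) (nat_lit 1748) (nat_lit 5879621650) (nat_lit 402) (nat_lit 5) (nat_lit 401) (nat_lit 5) (nat_lit 424) (nat_lit 5) (nat_lit 309) (nat_lit 299) (nat_lit 172)) (XT.lf (nat_lit 76) (nat_lit 3873763418) (nat_lit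 0) (nat_lit 7076782554) (nat_lit 1748) (nat_lit 4553010897) (nat_lit 403) (nat_lit 5) (nat_lit 402) (nat_lit 5) (nat_lit 425) (nat_lit 5) (nat_lit 310) (nat_lit 299) (nat_lit 171))))) (XT.nd (nat_lit 234) (nat_lit 1292) (nat_lit 0) (XT.nd (nat_lit 78) (nat_lit 1672) (nat_lit 0) (XT.lf (nat_lit 0) (nat_lit 12617201620) (nat_lit 1672) (nat_lit 412343029) (nat_lit 1748) (nat_lit 2714229957) (nat_lit 403) (nat_lit 5) (nat_lit 425) (nat_lit 5) (nat_lit 426) (nat_lit 5) (nat_lit 311) (nat_lit 299) (nat_lit 170)) (XT.nd (nat_lit 78) (nat_lit 1672) (nat_lit 0) (XT.lf (nat_lit 76) (nat_lit 11229574224) (nat_lit 0) (nat_lit 3208569880) (nat_lit 1748) (nat_lit 1550979925) (nat_lit 404) (nat_lit 5) (nat_lit 403) (nat_lit 5) (nat_lit 426) (nat_lit 5) (nat_lit 312) (nat_lit 299) (nat_lit 169)) (XT.lf (nat_lit 0) (nat_lit 149140161) (nat_lit 1748) (nat_lit 9221616354) (nat_lit 1824) (nat_lit 6869514418) (nat_lit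 381) (nat_lit 5) (nat_lit 404) (nat_lit 5) (nat_lit 405) (nat_lit 5) (nat_lit 313) (nat_lit 299) (nat_lit 168)))) (XT.nd (nat_lit 156) (nat_lit 1368) (nat_lit 0) (XT.nd (nat_lit 78) (nat_lit 0) (nat_lit 0) (XT.lf (nat_lit 0) (nat_lit 1940565265) (nat_lit 1748) (nat_lit 13794298660) (nat_lit 1824) (nat_lit 762665884) (nat_lit 382) (nat_lit 5) (nat_lit 405) (nat_lit 5) (nat_lit 406) (nat_lit 5) (nat_lit 314) (nat_lit 299) (nat_lit 167)) (XT.lf (nat_lit 0) (nat_lit 3896416146) (nat_lit 1748) (nat_lit 1724591228) (nat_lit 1824) (nat_lit 11139295193) (nat_lit 382) (nat_lit 5) (nat_lit 405) (nat_lit 5) (nat_lit 406) (nat_lit 5) (nat_lit 315) (nat_lit 299) (nat_lit 166))) (XT.nd (nat_lit 78) (nat_lit 1444) (nat_lit 0) (XT.lf (nat_lit 0) (nat_lit 5998476664) (nat_lit 1748) (nat_lit 6224077672) (nat_lit 76) (nat_lit 4806662981) (nat_lit 383) (nat_lit 5) (nat_lit 406) (nat_lit 5) (nat_lit 384) (nat_lit 5)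 (nat_lit 316) (nat_lit 299) (nat_lit 165)) (XT.lf (nat_lit 0) (nat_lit 6463445069) (nat_lit 1444) (nat_lit 1777380525) (nat_lit 1520) (nat_lit 9063838598) (nat_lit 364) (nat_lit 5) (nat_lit 383) (nat_lit 5) (nat_lit 384) (nat_lit 5) (nat_lit 317) (nat_lit 299) (nat_lit 164)))))) (XT.nd (nat_lit 546) (nat_lit 3648) (nat_lit 0) (XT.nd (nat_lit 234) (nat_lit 2508) (nat_lit 0) (XT.nd (nat_lit 78) (nat_lit 912) (nat_lit 0) (XT.lf (nat_lit 0) (nat_lit 1984534823) (nat_lit 836) (nat_lit 8665815707) (nat_lit 912) (nat_lit 6936034780) (nat_lit 353) (nat_lit 5) (nat_lit 364) (nat_lit 5) (nat_lit 365) (nat_lit 5) (nat_lit 318) (nat_lit 299) (nat_lit 163)) (XT.nd (nat_lit 78) (nat_lit 912) (nat_lit 0) (XT.lf (nat_lit 0) (nat_lit 13217743651) (nat_lit 912) (nat_lit 2569414264) (nat_lit 76) (nat_lit 2087697183) (nat_lit 353) (nat_lit 5) (nat_lit 365) (nat_lit 5) (nat_lit 354) (nat_lit 5) (nat_lit 319) (nat_lit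 299) (nat_lit 162)) (XT.lf (nat_lit 0) (nat_lit 10927465481) (nat_lit 912) (nat_lit 5050569911) (nat_lit 988) (nat_lit 2191634483) (nat_lit 341) (nat_lit 5) (nat_lit 353) (nat_lit 5) (nat_lit 354) (nat_lit 5) (nat_lit 320) (nat_lit 299) (nat_lit 161)))) (XT.nd (nat_lit 156) (nat_lit 760) (nat_lit 0) (XT.nd (nat_lit 78) (nat_lit 836) (nat_lit 0) (XT.lf (nat_lit 0) (nat_lit 429337882) (nat_lit 912) (nat_lit 12049843341) (nat_lit 76) (nat_lit 5992388883) (nat_lit 329) (nat_lit 5) (nat_lit 341) (nat_lit 5) (nat_lit 330) (nat_lit 5) (nat_lit 321) (nat_lit 299) (nat_lit 160)) (XT.lf (nat_lit 0) (nat_lit 1775745642) (nat_lit 836) (nat_lit 1405783038) (nat_lit 912) (nat_lit 15599069423) (nat_lit 318) (nat_lit 5) (nat_lit 329) (nat_lit 5) (nat_lit 330) (nat_lit 5) (nat_lit 322) (nat_lit 299) (nat_lit 159))) (XT.nd (nat_lit 78) (nat_lit 760) (nat_lit 0) (XT.lf (nat_lit 0) (nat_lit 6151186083) (nat_lit 912)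 (nat_lit 2993697993) (nat_lit 76) (nat_lit 9951322413) (nat_lit 318) (nat_lit 5) (nat_lit 330) (nat_lit 5) (nat_lit 319) (nat_lit 5) (nat_lit 323) (nat_lit 299) (nat_lit 158)) (XT.lf (nat_lit 0) (nat_lit 9297422780) (nat_lit 836) (nat_lit 7866227117) (nat_lit 76) (nat_lit 2255890782) (nat_lit 308) (nat_lit 5) (nat_lit 319) (nat_lit 5) (nat_lit 309) (nat_lit 5) (nat_lit 324) (nat_lit 299) (nat_lit 157))))) (XT.nd (nat_lit 234) (nat_lit 2204) (nat_lit 0) (XT.nd (nat_lit 78) (nat_lit 684) (nat_lit 0) (XT.lf (nat_lit 0) (nat_lit 6842280872) (nat_lit 760) (nat_lit 5810175668) (nat_lit 836) (nat_lit 7097837289) (nat_lit 298) (nat_lit 5) (nat_lit 308) (nat_lit 5) (nat_lit 309) (nat_lit 5) (nat_lit 325) (nat_lit 299) (nat_lit 156)) (XT.nd (nat_lit 78) (nat_lit 0) (nat_lit 0) (XT.lf (nat_lit 0) (nat_lit 1985546990) (nat_lit 684) (nat_lit 14216015463) (nat_lit 760) (nat_lit 3887545620) (nat_lit 289) (nat_lit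 5) (nat_lit 298) (nat_lit 5) (nat_lit 299) (nat_lit 5) (nat_lit 326) (nat_lit 299) (nat_lit 155)) (XT.lf (nat_lit 0) (nat_lit 17451666379) (nat_lit 684) (nat_lit 2520468852) (nat_lit 760) (nat_lit 463658362) (nat_lit 289) (nat_lit 5) (nat_lit 298) (nat_lit 5) (nat_lit 299) (nat_lit 5) (nat_lit 327) (nat_lit 299) (nat_lit 154)))) (XT.nd (nat_lit 156) (nat_lit 684) (nat_lit 0) (XT.nd (nat_lit 78) (nat_lit 684) (nat_lit 0) (XT.lf (nat_lit 0) (nat_lit 3157084660) (nat_lit 836) (nat_lit 8129065635) (nat_lit 76) (nat_lit 9503651844) (nat_lit 278) (nat_lit 5) (nat_lit 289) (nat_lit 5) (nat_lit 279) (nat_lit 5) (nat_lit 328) (nat_lit 299) (nat_lit 153)) (XT.lf (nat_lit 0) (nat_lit 6962035267) (nat_lit 760) (nat_lit 13426195098) (nat_lit 76) (nat_lit 764507801) (nat_lit 269) (nat_lit 5) (nat_lit 279) (nat_lit 5) (nat_lit 270) (nat_lit 5) (nat_lit 329) (nat_lit 299) (nat_lit 152))) (XT.nd (nat_lit 78) (nat_lit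 0) (nat_lit 0) (XT.lf (nat_lit 0) (nat_lit 2590335651) (nat_lit 684) (nat_lit 8428181406) (nat_lit 760) (nat_lit 10505303595) (nat_lit 260) (nat_lit 5) (nat_lit 269) (nat_lit 5) (nat_lit 270) (nat_lit 5) (nat_lit 330) (nat_lit 299) (nat_lit 151)) (XT.lf (nat_lit 0) (nat_lit 15303397412) (nat_lit 760) (nat_lit 2670381178) (nat_lit 76) (nat_lit 3930128797) (nat_lit 260) (nat_lit 5) (nat_lit 270) (nat_lit 5) (nat_lit 261) (nat_lit 5) (nat_lit 331) (nat_lit 299) (nat_lit 150))))))))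
noncomputable def xc109 : XT := (XT.nd (nat_lit 38454) (nat_lit 0) (nat_lit 9500) (XT.nd (nat_lit 1014) (nat_lit 3572) (nat_lit 0) (XT.nd (nat_lit 468) (nat_lit 2812) (nat_lit 0) (XT.nd (nat_lit 234) (nat_lit 1140) (nat_lit 0) (XT.nd (nat_lit 78) (nat_lit 1368) (nat_lit 0) (XT.lf (nat_lit 0) (nat_lit 14199369331) (nat_lit 608) (nat_lit 5656165524) (nat_lit 684) (nat_lit 2437093338) (nat_lit 252) (nat_lit 5) (nat_lit 260) (nat_lit 5) (nat_lit 261) (nat_lit 5) (nat_lit 332) (nat_lit 299) (nat_lit 149)) (XT.nd (nat_lit 78) (nat_lit 608) (nat_lit 0) (XT.lf (nat_lit 0) (nat_lit 1940218769) (nat_lit 760) (nat_lit 13723529228) (nat_lit 76) (nat_lit 7026762208) (nat_lit 242) (nat_lit 5) (nat_lit 252) (nat_lit 5) (nat_lit 243) (nat_lit 5) (nat_lit 333) (nat_lit 299) (nat_lit 148)) (XT.lf (nat_lit 0) (nat_lit 3531334551) (nat_lit 608) (nat_lit 2991057811) (nat_lit 684) (nat_lit 16575486332) (nat_lit 234)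 (nat_lit 5) (nat_lit 242) (nat_lit 5) (nat_lit 243) (nat_lit 5) (nat_lit 334) (nat_lit 299) (nat_lit 147)))) (XT.nd (nat_lit 78) (nat_lit 1140) (nat_lit 0) (XT.lf (nat_lit 0) (nat_lit 11391670587) (nat_lit 684) (nat_lit 2100930066) (nat_lit 76) (nat_lit 10021879897) (nat_lit 234) (nat_lit 5) (nat_lit 243) (nat_lit 5) (nat_lit 235) (nat_lit 5) (nat_lit 335) (nat_lit 299) (nat_lit 146)) (XT.nd (nat_lit 78) (nat_lit 532) (nat_lit 0) (XT.lf (nat_lit 0) (nat_lit 16068643555) (nat_lit 608) (nat_lit 453685908) (nat_lit 684) (nat_lit 7418949903) (nat_lit 226) (nat_lit 5) (nat_lit 234) (nat_lit 5) (nat_lit 235) (nat_lit 5) (nat_lit 336) (nat_lit 299) (nat_lit 145)) (XT.lf (nat_lit 0) (nat_lit 10473738858) (nat_lit 532) (nat_lit 11490908417) (nat_lit 608) (nat_lit 2413084897) (nat_lit 219) (nat_lit 5) (nat_lit 226) (nat_lit 5) (nat_lit 227) (nat_lit 5) (nat_lit 337) (nat_lit 299) (nat_lit 144))))) (XT.nd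 (nat_lit 234) (nat_lit 1596) (nat_lit 0) (XT.nd (nat_lit 78) (nat_lit 532) (nat_lit 0) (XT.lf (nat_lit 0) (nat_lit 2797705061) (nat_lit 684) (nat_lit 20156103081) (nat_lit 76) (nat_lit 1871304347) (nat_lit 210) (nat_lit 5) (nat_lit 219) (nat_lit 5) (nat_lit 211) (nat_lit 5) (nat_lit 338) (nat_lit 299) (nat_lit 143)) (XT.nd (nat_lit 78) (nat_lit 532) (nat_lit 0) (XT.lf (nat_lit 0) (nat_lit 8295362155) (nat_lit 684) (nat_lit 1398793867) (nat_lit 76) (nat_lit 15588177070) (nat_lit 210) (nat_lit 5) (nat_lit 219) (nat_lit 5) (nat_lit 211) (nat_lit 5) (nat_lit 339) (nat_lit 299) (nat_lit 142)) (XT.lf (nat_lit 0) (nat_lit 14093986007) (nat_lit 608) (nat_lit 7628691540) (nat_lit 76) (nat_lit 4027876340) (nat_lit 203) (nat_lit 5) (nat_lit 211) (nat_lit 5) (nat_lit 204) (nat_lit 5) (nat_lit 340) (nat_lit 299) (nat_lit 141)))) (XT.nd (nat_lit 156) (nat_lit 608) (nat_lit 0) (XT.nd (nat_lit 78) (nat_lit 456)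 (nat_lit 0) (XT.lf (nat_lit 0) (nat_lit 12098076011) (nat_lit 532) (nat_lit 8113276994) (nat_lit 608) (nat_lit 6018576799) (nat_lit 196) (nat_lit 5) (nat_lit 203) (nat_lit 5) (nat_lit 204) (nat_lit 5) (nat_lit 341) (nat_lit 299) (nat_lit 140)) (XT.lf (nat_lit 0) (nat_lit 5825810188) (nat_lit 456) (nat_lit 20806649454) (nat_lit 532) (nat_lit 88827051) (nat_lit 190) (nat_lit 5) (nat_lit 196) (nat_lit 5) (nat_lit 197) (nat_lit 5) (nat_lit 342) (nat_lit 299) (nat_lit 139))) (XT.nd (nat_lit 78) (nat_lit 532) (nat_lit 0) (XT.lf (nat_lit 0) (nat_lit 6082662768) (nat_lit 532) (nat_lit 754070983) (nat_lit 76) (nat_lit 20387017136) (nat_lit 189) (nat_lit 5) (nat_lit 196) (nat_lit 5) (nat_lit 190) (nat_lit 5) (nat_lit 343) (nat_lit 299) (nat_lit 138)) (XT.lf (nat_lit 0) (nat_lit 12611806471) (nat_lit 608) (nat_lit 7542154932) (nat_lit 76) (nat_lit 7583845298) (nat_lit 182) (nat_lit 5) (nat_lit 190) (nat_lit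 5) (nat_lit 183) (nat_lit 5) (nat_lit 344) (nat_lit 299) (nat_lit 137)))))) (XT.nd (nat_lit 546) (nat_lit 1216) (nat_lit 0) (XT.nd (nat_lit 234) (nat_lit 1368) (nat_lit 0) (XT.nd (nat_lit 78) (nat_lit 532) (nat_lit 0) (XT.lf (nat_lit 0) (nat_lit 13640192923) (nat_lit 456) (nat_lit 5828561687) (nat_lit 532) (nat_lit 8795894624) (nat_lit 176) (nat_lit 5) (nat_lit 182) (nat_lit 5) (nat_lit 183) (nat_lit 5) (nat_lit 345) (nat_lit 299) (nat_lit 136)) (XT.nd (nat_lit 78) (nat_lit 76) (nat_lit 0) (XT.lf (nat_lit 0) (nat_lit 6775616526) (nat_lit 456) (nat_lit 19901834193) (nat_lit 532) (nat_lit 2126929076) (nat_lit 170) (nat_lit 5) (nat_lit 176) (nat_lit 5) (nat_lit 177) (nat_lit 5) (nat_lit 346) (nat_lit 299) (nat_lit 135)) (XT.lf (nat_lit 0) (nat_lit 4811389853) (nat_lit 532) (nat_lit 420734563) (nat_lit 76) (nat_lit 24124935890) (nat_lit 169) (nat_lit 5) (nat_lit 176) (nat_lit 5) (nat_lit 170) (nat_lit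 5) (nat_lit 347) (nat_lit 299) (nat_lit 134)))) (XT.nd (nat_lit 156) (nat_lit 456) (nat_lit 0) (XT.nd (nat_lit 78) (nat_lit 456) (nat_lit 0) (XT.lf (nat_lit 0) (nat_lit 12130740133) (nat_lit 532) (nat_lit 7886870751) (nat_lit 76) (nat_lit 9904396874) (nat_lit 163) (nat_lit 5) (nat_lit 170) (nat_lit 5) (nat_lit 164) (nat_lit 5) (nat_lit 348) (nat_lit 299) (nat_lit 133)) (XT.lf (nat_lit 0) (nat_lit 14816361533) (nat_lit 456) (nat_lit 4980449072) (nat_lit 532) (nat_lit 10704553411) (nat_lit 157) (nat_lit 5) (nat_lit 163) (nat_lit 5) (nat_lit 164) (nat_lit 5) (nat_lit 349) (nat_lit 299) (nat_lit 132))) (XT.nd (nat_lit 78) (nat_lit 76) (nat_lit 0) (XT.lf (nat_lit 0) (nat_lit 7228325244) (nat_lit 380) (nat_lit 20626696793) (nat_lit 456) (nat_lit 3239838833) (nat_lit 152) (nat_lit 5) (nat_lit 157) (nat_lit 5) (nat_lit 158) (nat_lit 5) (nat_lit 350) (nat_lit 299) (nat_lit 131)) (XT.lf (nat_lit 0) (nat_lit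 4524063221) (nat_lit 456) (nat_lit 732631274) (nat_lit 76) (nat_lit 26446221516) (nat_lit 151) (nat_lit 5) (nat_lit 157) (nat_lit 5) (nat_lit 152) (nat_lit 5) (nat_lit 351) (nat_lit 299) (nat_lit 130))))) (XT.nd (nat_lit 36582) (nat_lit 0) (nat_lit 19760) (XT.nd (nat_lit 78) (nat_lit 760) (nat_lit 0) (XT.lf (nat_lit 0) (nat_lit 12692134913) (nat_lit 532) (nat_lit 9024702170) (nat_lit 76) (nat_lit 10607644882) (nat_lit 145) (nat_lit 5) (nat_lit 152) (nat_lit 5) (nat_lit 146) (nat_lit 5) (nat_lit 352) (nat_lit 299) (nat_lit 129)) (XT.nd (nat_lit 78) (nat_lit 380) (nat_lit 0) (XT.lf (nat_lit 0) (nat_lit 15254332630) (nat_lit 380) (nat_lit 5983713846) (nat_lit 456) (nat_lit 11723995235) (nat_lit 140) (nat_lit 5) (nat_lit 145) (nat_lit 5) (nat_lit 146) (nat_lit 5) (nat_lit 353) (nat_lit 299) (nat_lit 128)) (XT.lf (nat_lit 0) (nat_lit 6780825502) (nat_lit 380) (nat_lit 23425174252) (nat_lit 456) (nat_lit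 3409417896) (nat_lit 135) (nat_lit 5) (nat_lit 140) (nat_lit 5) (nat_lit 141) (nat_lit 5) (nat_lit 354) (nat_lit 299) (nat_lit 127)))) (XT.nd (nat_lit 156) (nat_lit 0) (nat_lit 76) (XT.nd (nat_lit 78) (nat_lit 0) (nat_lit 76) (XT.lf (nat_lit 0) (nat_lit 321153163) (nat_lit 1748) (nat_lit 3233019882) (nat_lit 1748) (nat_lit 3233019882) (nat_lit 395) (nat_lit 3) (nat_lit 418) (nat_lit 3) (nat_lit 418) (nat_lit 5) (nat_lit 300) (nat_lit 300) (nat_lit 180)) (XT.lf (nat_lit 0) (nat_lit 1208699475) (nat_lit 1672) (nat_lit 10842607593) (nat_lit 1748) (nat_lit 1715195123) (nat_lit 396) (nat_lit 5) (nat_lit 418) (nat_lit 5) (nat_lit 419) (nat_lit 5) (nat_lit 301) (nat_lit 300) (nat_lit 179))) (XT.nd (nat_lit 78) (nat_lit 0) (nat_lit 76) (XT.lf (nat_lit 0) (nat_lit 1863178518) (nat_lit 1672) (nat_lit 1338412870) (nat_lit 1748) (nat_lit 10761382963) (nat_lit 396) (nat_lit 5) (nat_lit 418) (nat_lit 5) (nat_lit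 419) (nat_lit 5) (nat_lit 302) (nat_lit 300) (nat_lit 178)) (XT.lf (nat_lit 0) (nat_lit 2611691167) (nat_lit 1672) (nat_lit 5651184607) (nat_lit 1748) (nat_lit 5900990721) (nat_lit 397) (nat_lit 5) (nat_lit 419) (nat_lit 5) (nat_lit 420) (nat_lit 5) (nat_lit 303) (nat_lit 300) (nat_lit 177))))))) (XT.nd (nat_lit 1092) (nat_lit 9196) (nat_lit 0) (XT.nd (nat_lit 546) (nat_lit 1292) (nat_lit 0) (XT.nd (nat_lit 234) (nat_lit 0) (nat_lit 76) (XT.nd (nat_lit 78) (nat_lit 0) (nat_lit 0) (XT.lf (nat_lit 0) (nat_lit 3427844132) (nat_lit 1672) (nat_lit 10044632421) (nat_lit 1748) (nat_lit 897418551) (nat_lit 398) (nat_lit 5) (nat_lit 420) (nat_lit 5) (nat_lit 421) (nat_lit 5) (nat_lit 304) (nat_lit 300) (nat_lit 176)) (XT.nd (nat_lit 78) (nat_lit 0) (nat_lit 76) (XT.lf (nat_lit 76) (nat_lit 30569787) (nat_lit 0) (nat_lit 4313080591) (nat_lit 1748) (nat_lit 10236963831) (nat_lit 399) (nat_lit 5) (nat_lit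 398) (nat_lit 5) (nat_lit 421) (nat_lit 5) (nat_lit 305) (nat_lit 300) (nat_lit 175)) (XT.lf (nat_lit 0) (nat_lit 5370384565) (nat_lit 1672) (nat_lit 4296054983) (nat_lit 1748) (nat_lit 5129558896) (nat_lit 399) (nat_lit 5) (nat_lit 421) (nat_lit 5) (nat_lit 422) (nat_lit 5) (nat_lit 306) (nat_lit 300) (nat_lit 174)))) (XT.nd (nat_lit 156) (nat_lit 0) (nat_lit 152) (XT.nd (nat_lit 78) (nat_lit 0) (nat_lit 76) (XT.lf (nat_lit 76) (nat_lit 6308199502) (nat_lit 0) (nat_lit 171742962) (nat_lit 1748) (nat_lit 8536873571) (nat_lit 400) (nat_lit 5) (nat_lit 399) (nat_lit 5) (nat_lit 422) (nat_lit 5) (nat_lit 307) (nat_lit 300) (nat_lit 173)) (XT.lf (nat_lit 76) (nat_lit 1997879174) (nat_lit 0) (nat_lit 5712271786) (nat_lit 1748) (nat_lit 7532371823) (nat_lit 401) (nat_lit 5) (nat_lit 400) (nat_lit 5) (nat_lit 423) (nat_lit 5) (nat_lit 308) (nat_lit 300) (nat_lit 172))) (XT.nd (nat_lit 78) (nat_lit 0)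 (nat_lit 0) (XT.lf (nat_lit 0) (nat_lit 9047253765) (nat_lit 1672) (nat_lit 2368507201) (nat_lit 1748) (nat_lit 4057851566) (nat_lit 401) (nat_lit 5) (nat_lit 423) (nat_lit 5) (nat_lit 424) (nat_lit 5) (nat_lit 309) (nat_lit 300) (nat_lit 171)) (XT.lf (nat_lit 76) (nat_lit 8901132076) (nat_lit 0) (nat_lit 1602994813) (nat_lit 1748) (nat_lit 5205926163) (nat_lit 402) (nat_lit 5) (nat_lit 401) (nat_lit 5) (nat_lit 424) (nat_lit 5) (nat_lit 310) (nat_lit 300) (nat_lit 170))))) (XT.nd (nat_lit 234) (nat_lit 1596) (nat_lit 0) (XT.nd (nat_lit 78) (nat_lit 0) (nat_lit 76) (XT.lf (nat_lit 76) (nat_lit 4581280986) (nat_lit 0) (nat_lit 7508639888) (nat_lit 1748) (nat_lit 3861972517) (nat_lit 403) (nat_lit 5) (nat_lit 402) (nat_lit 5) (nat_lit 425) (nat_lit 5) (nat_lit 311) (nat_lit 300) (nat_lit 169)) (XT.nd (nat_lit 78) (nat_lit 0) (nat_lit 0) (XT.lf (nat_lit 76) (nat_lit 169254383) (nat_lit 0) (nat_lit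 13613419511) (nat_lit 1748) (nat_lit 2417137919) (nat_lit 404) (nat_lit 5) (nat_lit 403) (nat_lit 5) (nat_lit 426) (nat_lit 5) (nat_lit 312) (nat_lit 300) (nat_lit 168)) (XT.lf (nat_lit 76) (nat_lit 12148608947) (nat_lit 0) (nat_lit 3489427434) (nat_lit 1748) (nat_lit 814905141) (nat_lit 404) (nat_lit 5) (nat_lit 403) (nat_lit 5) (nat_lit 426) (nat_lit 5) (nat_lit 313) (nat_lit 300) (nat_lit 167)))) (XT.nd (nat_lit 156) (nat_lit 0) (nat_lit 76) (XT.nd (nat_lit 78) (nat_lit 0) (nat_lit 76) (XT.lf (nat_lit 0) (nat_lit 906140510) (nat_lit 1748) (nat_lit 8898287076) (nat_lit 1824) (nat_lit 6907504788) (nat_lit 381) (nat_lit 5) (nat_lit 404) (nat_lit 5) (nat_lit 405) (nat_lit 5) (nat_lit 314) (nat_lit 300) (nat_lit 166)) (XT.lf (nat_lit 0) (nat_lit 2732286166) (nat_lit 1748) (nat_lit 13601777045) (nat_lit 1824) (nat_lit 643240701) (nat_lit 382) (nat_lit 5) (nat_lit 405) (nat_lit 5) (nat_lit 406) (nat_lit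 5) (nat_lit 315) (nat_lit 300) (nat_lit 165))) (XT.nd (nat_lit 78) (nat_lit 0) (nat_lit 76) (XT.lf (nat_lit 0) (nat_lit 4725448381) (nat_lit 1748) (nat_lit 1187639086) (nat_lit 1824) (nat_lit 11335313700) (nat_lit 382) (nat_lit 5) (nat_lit 405) (nat_lit 5) (nat_lit 406) (nat_lit 5) (nat_lit 316) (nat_lit 300) (nat_lit 164)) (XT.lf (nat_lit 0) (nat_lit 6872835664) (nat_lit 1748) (nat_lit 5816550427) (nat_lit 76) (nat_lit 4836365592) (nat_lit 383) (nat_lit 5) (nat_lit 406) (nat_lit 5) (nat_lit 384) (nat_lit 5) (nat_lit 317) (nat_lit 300) (nat_lit 163)))))) (XT.nd (nat_lit 546) (nat_lit 4408) (nat_lit 0) (XT.nd (nat_lit 234) (nat_lit 2660) (nat_lit 0) (XT.nd (nat_lit 78) (nat_lit 836) (nat_lit 0) (XT.lf (nat_lit 0) (nat_lit 7241957004) (nat_lit 1444) (nat_lit 1924068345) (nat_lit 1520) (nat_lit 8643778434) (nat_lit 364) (nat_lit 5) (nat_lit 383) (nat_lit 5) (nat_lit 384) (nat_lit 5) (nat_lit 318)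 (nat_lit 300) (nat_lit 162)) (XT.nd (nat_lit 78) (nat_lit 0) (nat_lit 0) (XT.lf (nat_lit 0) (nat_lit 2633564428) (nat_lit 836) (nat_lit 8997763603) (nat_lit 912) (nat_lit 6468991503) (nat_lit 353) (nat_lit 5) (nat_lit 364) (nat_lit 5) (nat_lit 365) (nat_lit 5) (nat_lit 319) (nat_lit 300) (nat_lit 161)) (XT.lf (nat_lit 0) (nat_lit 14256023228) (nat_lit 912) (nat_lit 2060459610) (nat_lit 76) (nat_lit 2081367438) (nat_lit 353) (nat_lit 5) (nat_lit 365) (nat_lit 5) (nat_lit 354) (nat_lit 5) (nat_lit 320) (nat_lit 300) (nat_lit 160)))) (XT.nd (nat_lit 156) (nat_lit 836) (nat_lit 0) (XT.nd (nat_lit 78) (nat_lit 912) (nat_lit 0) (XT.lf (nat_lit 0) (nat_lit 11831818772) (nat_lit 912) (nat_lit 5252356493) (nat_lit 988) (nat_lit 1617645304) (nat_lit 341) (nat_lit 5) (nat_lit 353) (nat_lit 5) (nat_lit 354) (nat_lit 5) (nat_lit 321) (nat_lit 300) (nat_lit 159)) (XT.lf (nat_lit 0) (nat_lit 1058650364) (nat_lit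 912) (nat_lit 11822536197) (nat_lit 76) (nat_lit 6131818005) (nat_lit 329) (nat_lit 5) (nat_lit 341) (nat_lit 5) (nat_lit 330) (nat_lit 5) (nat_lit 322) (nat_lit 300) (nat_lit 158))) (XT.nd (nat_lit 78) (nat_lit 0) (nat_lit 0) (XT.lf (nat_lit 0) (nat_lit 2408267836) (nat_lit 836) (nat_lit 1470945583) (nat_lit 912) (nat_lit 15452385038) (nat_lit 318) (nat_lit 5) (nat_lit 329) (nat_lit 5) (nat_lit 330) (nat_lit 5) (nat_lit 323) (nat_lit 300) (nat_lit 157)) (XT.lf (nat_lit 0) (nat_lit 6920274694) (nat_lit 912) (nat_lit 2508929637) (nat_lit 76) (nat_lit 10227835338) (nat_lit 318) (nat_lit 5) (nat_lit 330) (nat_lit 5) (nat_lit 319) (nat_lit 5) (nat_lit 324) (nat_lit 300) (nat_lit 156))))) (XT.nd (nat_lit 234) (nat_lit 2204) (nat_lit 0) (XT.nd (nat_lit 78) (nat_lit 1444) (nat_lit 0) (XT.lf (nat_lit 0) (nat_lit 10147504136) (nat_lit 836) (nat_lit 7525142581) (nat_lit 76) (nat_lit 2317705598) (nat_lit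 308) (nat_lit 5) (nat_lit 319) (nat_lit 5) (nat_lit 309) (nat_lit 5) (nat_lit 325) (nat_lit 300) (nat_lit 155)) (XT.nd (nat_lit 78) (nat_lit 684) (nat_lit 0) (XT.lf (nat_lit 0) (nat_lit 7615258350) (nat_lit 760) (nat_lit 5974980812) (nat_lit 836) (nat_lit 6741058126) (nat_lit 298) (nat_lit 5) (nat_lit 308) (nat_lit 5) (nat_lit 309) (nat_lit 5) (nat_lit 326) (nat_lit 300) (nat_lit 154)) (XT.lf (nat_lit 0) (nat_lit 2614870061) (nat_lit 684) (nat_lit 14618448803) (nat_lit 760) (nat_lit 3447217022) (nat_lit 289) (nat_lit 5) (nat_lit 298) (nat_lit 5) (nat_lit 299) (nat_lit 5) (nat_lit 327) (nat_lit 300) (nat_lit 153)))) (XT.nd (nat_lit 156) (nat_lit 1368) (nat_lit 0) (XT.nd (nat_lit 78) (nat_lit 760) (nat_lit 0) (XT.lf (nat_lit 0) (nat_lit 62336444) (nat_lit 760) (nat_lit 2509981440) (nat_lit 76) (nat_lit 18465623422) (nat_lit 288) (nat_lit 5) (nat_lit 298) (nat_lit 5) (nat_lit 289) (nat_lit 5) (nat_lit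 328) (nat_lit 300) (nat_lit 152)) (XT.lf (nat_lit 0) (nat_lit 3773669410) (nat_lit 836) (nat_lit 7810917043) (nat_lit 76) (nat_lit 9818166205) (nat_lit 278) (nat_lit 5) (nat_lit 289) (nat_lit 5) (nat_lit 279) (nat_lit 5) (nat_lit 329) (nat_lit 300) (nat_lit 151))) (XT.nd (nat_lit 78) (nat_lit 684) (nat_lit 0) (XT.lf (nat_lit 0) (nat_lit 7681435034) (nat_lit 760) (nat_lit 13265852933) (nat_lit 76) (nat_lit 829524384) (nat_lit 269) (nat_lit 5) (nat_lit 279) (nat_lit 5) (nat_lit 270) (nat_lit 5) (nat_lit 330) (nat_lit 300) (nat_lit 150)) (XT.lf (nat_lit 0) (nat_lit 3222037656) (nat_lit 684) (nat_lit 8626300445) (nat_lit 760) (nat_lit 10310923329) (nat_lit 260) (nat_lit 5) (nat_lit 269) (nat_lit 5) (nat_lit 270) (nat_lit 5) (nat_lit 331) (nat_lit 300) (nat_lit 149))))))))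
noncomputable def xc110 : XT := (XT.nd (nat_lit 38532) (nat_lit 0) (nat_lit 9120) (XT.nd (nat_lit 1014) (nat_lit 3724) (nat_lit 0) (XT.nd (nat_lit 468) (nat_lit 2812) (nat_lit 0) (XT.nd (nat_lit 234) (nat_lit 1216) (nat_lit 0) (XT.nd (nat_lit 78) (nat_lit 1368) (nat_lit 0) (XT.lf (nat_lit 0) (nat_lit 16247568123) (nat_lit 760) (nat_lit 2203006733) (nat_lit 76) (nat_lit 4100468249) (nat_lit 260) (nat_lit 5) (nat_lit 270) (nat_lit 5) (nat_lit 261) (nat_lit 5) (nat_lit 332) (nat_lit 300) (nat_lit 148)) (XT.nd (nat_lit 78) (nat_lit 760) (nat_lit 0) (XT.lf (nat_lit 0) (nat_lit 15163953982) (nat_lit 608) (nat_lit 5761684461) (nat_lit 684) (nat_lit 2026007877) (nat_lit 252) (nat_lit 5) (nat_lit 260) (nat_lit 5) (nat_lit 261) (nat_lit 5) (nat_lit 333) (nat_lit 300) (nat_lit 147)) (XT.lf (nat_lit 0) (nat_lit 2466285599) (nat_lit 760) (nat_lit 13589700737) (nat_lit 76) (nat_lit 7305623101) (nat_lit 242)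 (nat_lit 5) (nat_lit 252) (nat_lit 5) (nat_lit 243) (nat_lit 5) (nat_lit 334) (nat_lit 300) (nat_lit 146)))) (XT.nd (nat_lit 78) (nat_lit 608) (nat_lit 0) (XT.lf (nat_lit 0) (nat_lit 4173958308) (nat_lit 608) (nat_lit 3001823600) (nat_lit 684) (nat_lit 16605627462) (nat_lit 234) (nat_lit 5) (nat_lit 242) (nat_lit 5) (nat_lit 243) (nat_lit 5) (nat_lit 335) (nat_lit 300) (nat_lit 145)) (XT.nd (nat_lit 78) (nat_lit 608) (nat_lit 0) (XT.lf (nat_lit 0) (nat_lit 12178304660) (nat_lit 684) (nat_lit 1634271846) (nat_lit 76) (nat_lit 10398196772) (nat_lit 234) (nat_lit 5) (nat_lit 243) (nat_lit 5) (nat_lit 235) (nat_lit 5) (nat_lit 336) (nat_lit 300) (nat_lit 144)) (XT.lf (nat_lit 0) (nat_lit 17071795456) (nat_lit 608) (nat_lit 381513341) (nat_lit 684) (nat_lit 7197265860) (nat_lit 226) (nat_lit 5) (nat_lit 234) (nat_lit 5) (nat_lit 235) (nat_lit 5) (nat_lit 337) (nat_lit 300) (nat_lit 143))))) (XT.nd (nat_lit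 234) (nat_lit 1596) (nat_lit 0) (XT.nd (nat_lit 78) (nat_lit 684) (nat_lit 0) (XT.lf (nat_lit 0) (nat_lit 11308839584) (nat_lit 532) (nat_lit 11741300335) (nat_lit 608) (nat_lit 2050163152) (nat_lit 219) (nat_lit 5) (nat_lit 226) (nat_lit 5) (nat_lit 227) (nat_lit 5) (nat_lit 338) (nat_lit 300) (nat_lit 142)) (XT.nd (nat_lit 78) (nat_lit 0) (nat_lit 0) (XT.lf (nat_lit 0) (nat_lit 3302728610) (nat_lit 684) (nat_lit 20234517014) (nat_lit 76) (nat_lit 2023979469) (nat_lit 210) (nat_lit 5) (nat_lit 219) (nat_lit 5) (nat_lit 211) (nat_lit 5) (nat_lit 339) (nat_lit 300) (nat_lit 141)) (XT.lf (nat_lit 0) (nat_lit 8953050589) (nat_lit 684) (nat_lit 929816751) (nat_lit 76) (nat_lit 16149546646) (nat_lit 210) (nat_lit 5) (nat_lit 219) (nat_lit 5) (nat_lit 211) (nat_lit 5) (nat_lit 340) (nat_lit 300) (nat_lit 140)))) (XT.nd (nat_lit 156) (nat_lit 532) (nat_lit 0) (XT.nd (nat_lit 78) (nat_lit 532) (nat_lit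 0) (XT.lf (nat_lit 0) (nat_lit 14917654395) (nat_lit 608) (nat_lit 7347356027) (nat_lit 76) (nat_lit 4249836749) (nat_lit 203) (nat_lit 5) (nat_lit 211) (nat_lit 5) (nat_lit 204) (nat_lit 5) (nat_lit 341) (nat_lit 300) (nat_lit 139)) (XT.lf (nat_lit 0) (nat_lit 12962937223) (nat_lit 532) (nat_lit 8247188763) (nat_lit 608) (nat_lit 5798652718) (nat_lit 196) (nat_lit 5) (nat_lit 203) (nat_lit 5) (nat_lit 204) (nat_lit 5) (nat_lit 342) (nat_lit 300) (nat_lit 138))) (XT.nd (nat_lit 78) (nat_lit 0) (nat_lit 0) (XT.lf (nat_lit 0) (nat_lit 297394603) (nat_lit 532) (nat_lit 21015408952) (nat_lit 76) (nat_lit 6202189192) (nat_lit 189) (nat_lit 5) (nat_lit 196) (nat_lit 5) (nat_lit 190) (nat_lit 5) (nat_lit 343) (nat_lit 300) (nat_lit 137)) (XT.lf (nat_lit 0) (nat_lit 6641537344) (nat_lit 532) (nat_lit 285102993) (nat_lit 76) (nat_lit 21106110040) (nat_lit 189) (nat_lit 5) (nat_lit 196) (nat_lit 5) (nat_lit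 190) (nat_lit 5) (nat_lit 344) (nat_lit 300) (nat_lit 136)))))) (XT.nd (nat_lit 546) (nat_lit 912) (nat_lit 0) (XT.nd (nat_lit 234) (nat_lit 1368) (nat_lit 0) (XT.nd (nat_lit 78) (nat_lit 912) (nat_lit 0) (XT.lf (nat_lit 0) (nat_lit 13359479288) (nat_lit 608) (nat_lit 7278000677) (nat_lit 76) (nat_lit 7924894814) (nat_lit 182) (nat_lit 5) (nat_lit 190) (nat_lit 5) (nat_lit 183) (nat_lit 5) (nat_lit 345) (nat_lit 300) (nat_lit 135)) (XT.nd (nat_lit 78) (nat_lit 456) (nat_lit 0) (XT.lf (nat_lit 0) (nat_lit 14531861150) (nat_lit 456) (nat_lit 5882650335) (nat_lit 532) (nat_lit 8690668827) (nat_lit 176) (nat_lit 5) (nat_lit 182) (nat_lit 5) (nat_lit 183) (nat_lit 5) (nat_lit 346) (nat_lit 300) (nat_lit 134)) (XT.lf (nat_lit 0) (nat_lit 7460036901) (nat_lit 456) (nat_lit 20372782018) (nat_lit 532) (nat_lit 1828421944) (nat_lit 170) (nat_lit 5) (nat_lit 176) (nat_lit 5) (nat_lit 177) (nat_lit 5) (nat_lit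 347) (nat_lit 300) (nat_lit 133)))) (XT.nd (nat_lit 156) (nat_lit 836) (nat_lit 0) (XT.nd (nat_lit 78) (nat_lit 0) (nat_lit 0) (XT.lf (nat_lit 0) (nat_lit 39068230) (nat_lit 456) (nat_lit 5264065692) (nat_lit 532) (nat_lit 24927528874) (nat_lit 163) (nat_lit 5) (nat_lit 169) (nat_lit 5) (nat_lit 170) (nat_lit 5) (nat_lit 348) (nat_lit 300) (nat_lit 132)) (XT.lf (nat_lit 0) (nat_lit 12835520602) (nat_lit 532) (nat_lit 7653069455) (nat_lit 76) (nat_lit 10324104193) (nat_lit 163) (nat_lit 5) (nat_lit 170) (nat_lit 5) (nat_lit 164) (nat_lit 5) (nat_lit 349) (nat_lit 300) (nat_lit 131))) (XT.nd (nat_lit 78) (nat_lit 380) (nat_lit 0) (XT.lf (nat_lit 0) (nat_lit 15723627996) (nat_lit 456) (nat_lit 5001021928) (nat_lit 532) (nat_lit 10684924298) (nat_lit 157) (nat_lit 5) (nat_lit 163) (nat_lit 5) (nat_lit 164) (nat_lit 5) (nat_lit 350) (nat_lit 300) (nat_lit 130)) (XT.lf (nat_lit 0) (nat_lit 7906339580)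 (nat_lit 380) (nat_lit 21112348197) (nat_lit 456) (nat_lit 3002311031) (nat_lit 152) (nat_lit 5) (nat_lit 157) (nat_lit 5) (nat_lit 158) (nat_lit 5) (nat_lit 351) (nat_lit 300) (nat_lit 129))))) (XT.nd (nat_lit 36660) (nat_lit 0) (nat_lit 19380) (XT.nd (nat_lit 78) (nat_lit 836) (nat_lit 0) (XT.lf (nat_lit 0) (nat_lit 4980496783) (nat_lit 456) (nat_lit 302475044) (nat_lit 76) (nat_lit 27364476953) (nat_lit 151) (nat_lit 5) (nat_lit 157) (nat_lit 5) (nat_lit 152) (nat_lit 5) (nat_lit 352) (nat_lit 300) (nat_lit 128)) (XT.nd (nat_lit 78) (nat_lit 380) (nat_lit 0) (XT.lf (nat_lit 0) (nat_lit 13388005006) (nat_lit 532) (nat_lit 8845069427) (nat_lit 76) (nat_lit 11054703484) (nat_lit 145) (nat_lit 5) (nat_lit 152) (nat_lit 5) (nat_lit 146) (nat_lit 5) (nat_lit 353) (nat_lit 300) (nat_lit 127)) (XT.lf (nat_lit 0) (nat_lit 16155029637) (nat_lit 380) (nat_lit 6028963118) (nat_lit 456) (nat_lit 11760601696)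 (nat_lit 140) (nat_lit 5) (nat_lit 145) (nat_lit 5) (nat_lit 146) (nat_lit 5) (nat_lit 354) (nat_lit 300) (nat_lit 126)))) (XT.nd (nat_lit 156) (nat_lit 0) (nat_lit 76) (XT.nd (nat_lit 78) (nat_lit 0) (nat_lit 76) (XT.lf (nat_lit 0) (nat_lit 852143309) (nat_lit 1748) (nat_lit 3063938758) (nat_lit 1748) (nat_lit 3063938758) (nat_lit 395) (nat_lit 3) (nat_lit 418) (nat_lit 3) (nat_lit 418) (nat_lit 5) (nat_lit 301) (nat_lit 301) (nat_lit 178)) (XT.lf (nat_lit 0) (nat_lit 2257504426) (nat_lit 1672) (nat_lit 10620164553) (nat_lit 1748) (nat_lit 1280876856) (nat_lit 396) (nat_lit 5) (nat_lit 418) (nat_lit 5) (nat_lit 419) (nat_lit 5) (nat_lit 302) (nat_lit 301) (nat_lit 177))) (XT.nd (nat_lit 78) (nat_lit 0) (nat_lit 76) (XT.lf (nat_lit 0) (nat_lit 2902126269) (nat_lit 1672) (nat_lit 846797035) (nat_lit 1748) (nat_lit 10612599092) (nat_lit 396) (nat_lit 5) (nat_lit 418) (nat_lit 5) (nat_lit 419) (nat_lit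 5) (nat_lit 303) (nat_lit 301) (nat_lit 176)) (XT.lf (nat_lit 0) (nat_lit 3645036079) (nat_lit 1672) (nat_lit 5274940375) (nat_lit 1748) (nat_lit 5649045824) (nat_lit 397) (nat_lit 5) (nat_lit 419) (nat_lit 5) (nat_lit 420) (nat_lit 5) (nat_lit 304) (nat_lit 301) (nat_lit 175))))))) (XT.nd (nat_lit 1092) (nat_lit 9196) (nat_lit 0) (XT.nd (nat_lit 546) (nat_lit 1292) (nat_lit 0) (XT.nd (nat_lit 234) (nat_lit 0) (nat_lit 76) (XT.nd (nat_lit 78) (nat_lit 0) (nat_lit 0) (XT.lf (nat_lit 0) (nat_lit 4458787924) (nat_lit 1672) (nat_lit 9787235438) (nat_lit 1748) (nat_lit 535765330) (nat_lit 398) (nat_lit 5) (nat_lit 420) (nat_lit 5) (nat_lit 421) (nat_lit 5) (nat_lit 305) (nat_lit 301) (nat_lit 174)) (XT.nd (nat_lit 78) (nat_lit 0) (nat_lit 76) (XT.lf (nat_lit 76) (nat_lit 581158009) (nat_lit 0) (nat_lit 4797446892) (nat_lit 1748) (nat_lit 9620712411) (nat_lit 399) (nat_lit 5) (nat_lit 398) (nat_lit 5)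 (nat_lit 421) (nat_lit 5) (nat_lit 306) (nat_lit 301) (nat_lit 173)) (XT.lf (nat_lit 0) (nat_lit 6407554632) (nat_lit 1672) (nat_lit 3870867528) (nat_lit 1748) (nat_lit 4943330773) (nat_lit 399) (nat_lit 5) (nat_lit 421) (nat_lit 5) (nat_lit 422) (nat_lit 5) (nat_lit 307) (nat_lit 301) (nat_lit 172)))) (XT.nd (nat_lit 156) (nat_lit 0) (nat_lit 152) (XT.nd (nat_lit 78) (nat_lit 0) (nat_lit 76) (XT.lf (nat_lit 76) (nat_lit 7042525478) (nat_lit 0) (nat_lit 485896542) (nat_lit 1748) (nat_lit 7921230177) (nat_lit 400) (nat_lit 5) (nat_lit 399) (nat_lit 5) (nat_lit 422) (nat_lit 5) (nat_lit 308) (nat_lit 301) (nat_lit 171)) (XT.lf (nat_lit 76) (nat_lit 2613407629) (nat_lit 0) (nat_lit 6158912454) (nat_lit 1748) (nat_lit 6910291487) (nat_lit 401) (nat_lit 5) (nat_lit 400) (nat_lit 5) (nat_lit 423) (nat_lit 5) (nat_lit 309) (nat_lit 301) (nat_lit 170))) (XT.nd (nat_lit 78) (nat_lit 0) (nat_lit 0) (XT.lf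 (nat_lit 0) (nat_lit 10123600836) (nat_lit 1672) (nat_lit 1881731127) (nat_lit 1748) (nat_lit 3915837341) (nat_lit 401) (nat_lit 5) (nat_lit 423) (nat_lit 5) (nat_lit 424) (nat_lit 5) (nat_lit 310) (nat_lit 301) (nat_lit 169)) (XT.lf (nat_lit 76) (nat_lit 9716947179) (nat_lit 0) (nat_lit 1887351479) (nat_lit 1748) (nat_lit 4560818119) (nat_lit 402) (nat_lit 5) (nat_lit 401) (nat_lit 5) (nat_lit 424) (nat_lit 5) (nat_lit 311) (nat_lit 301) (nat_lit 168))))) (XT.nd (nat_lit 234) (nat_lit 1596) (nat_lit 0) (XT.nd (nat_lit 78) (nat_lit 0) (nat_lit 76) (XT.lf (nat_lit 76) (nat_lit 5276080774) (nat_lit 0) (nat_lit 7940849652) (nat_lit 1748) (nat_lit 3197712258) (nat_lit 403) (nat_lit 5) (nat_lit 402) (nat_lit 5) (nat_lit 425) (nat_lit 5) (nat_lit 312) (nat_lit 301) (nat_lit 167)) (XT.nd (nat_lit 78) (nat_lit 0) (nat_lit 0) (XT.lf (nat_lit 76) (nat_lit 739523758) (nat_lit 0) (nat_lit 14201045841) (nat_lit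 1748) (nat_lit 1729842172) (nat_lit 404) (nat_lit 5) (nat_lit 403) (nat_lit 5) (nat_lit 426) (nat_lit 5) (nat_lit 313) (nat_lit 301) (nat_lit 166)) (XT.lf (nat_lit 76) (nat_lit 13061797063) (nat_lit 0) (nat_lit 3768113893) (nat_lit 1748) (nat_lit 101672795) (nat_lit 404) (nat_lit 5) (nat_lit 403) (nat_lit 5) (nat_lit 426) (nat_lit 5) (nat_lit 314) (nat_lit 301) (nat_lit 165)))) (XT.nd (nat_lit 156) (nat_lit 0) (nat_lit 76) (XT.nd (nat_lit 78) (nat_lit 0) (nat_lit 76) (XT.lf (nat_lit 0) (nat_lit 1642652790) (nat_lit 1748) (nat_lit 8599699099) (nat_lit 1824) (nat_lit 6956284213) (nat_lit 381) (nat_lit 5) (nat_lit 404) (nat_lit 5) (nat_lit 405) (nat_lit 5) (nat_lit 315) (nat_lit 301) (nat_lit 164)) (XT.lf (nat_lit 0) (nat_lit 3505652567) (nat_lit 1748) (nat_lit 13438286785) (nat_lit 1824) (nat_lit 528401661) (nat_lit 382) (nat_lit 5) (nat_lit 405) (nat_lit 5) (nat_lit 406) (nat_lit 5) (nat_lit 316)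 (nat_lit 301) (nat_lit 163))) (XT.nd (nat_lit 78) (nat_lit 0) (nat_lit 76) (XT.lf (nat_lit 0) (nat_lit 5538471848) (nat_lit 1748) (nat_lit 668371588) (nat_lit 1824) (nat_lit 11545143732) (nat_lit 382) (nat_lit 5) (nat_lit 405) (nat_lit 5) (nat_lit 406) (nat_lit 5) (nat_lit 317) (nat_lit 301) (nat_lit 162)) (XT.lf (nat_lit 0) (nat_lit 7733563763) (nat_lit 1748) (nat_lit 5430909720) (nat_lit 76) (nat_lit 4873531895) (nat_lit 383) (nat_lit 5) (nat_lit 406) (nat_lit 5) (nat_lit 384) (nat_lit 5) (nat_lit 318) (nat_lit 301) (nat_lit 161)))))) (XT.nd (nat_lit 546) (nat_lit 4408) (nat_lit 0) (XT.nd (nat_lit 234) (nat_lit 2660) (nat_lit 0) (XT.nd (nat_lit 78) (nat_lit 836) (nat_lit 0) (XT.lf (nat_lit 0) (nat_lit 8010265372) (nat_lit 1444) (nat_lit 2069797186) (nat_lit 1520) (nat_lit 8250838680) (nat_lit 364) (nat_lit 5) (nat_lit 383) (nat_lit 5) (nat_lit 384) (nat_lit 5) (nat_lit 319) (nat_lit 301) (nat_lit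 160)) (XT.nd (nat_lit 78) (nat_lit 0) (nat_lit 0) (XT.lf (nat_lit 0) (nat_lit 3268225579) (nat_lit 836) (nat_lit 9335538367) (nat_lit 912) (nat_lit 6026691826) (nat_lit 353) (nat_lit 5) (nat_lit 364) (nat_lit 5) (nat_lit 365) (nat_lit 5) (nat_lit 320) (nat_lit 301) (nat_lit 159)) (XT.lf (nat_lit 0) (nat_lit 15288612275) (nat_lit 912) (nat_lit 1569877242) (nat_lit 76) (nat_lit 2078806424) (nat_lit 353) (nat_lit 5) (nat_lit 365) (nat_lit 5) (nat_lit 354) (nat_lit 5) (nat_lit 321) (nat_lit 301) (nat_lit 158)))) (XT.nd (nat_lit 156) (nat_lit 836) (nat_lit 0) (XT.nd (nat_lit 78) (nat_lit 912) (nat_lit 0) (XT.lf (nat_lit 0) (nat_lit 12730207520) (nat_lit 912) (nat_lit 5457310998) (nat_lit 988) (nat_lit 1063160040) (nat_lit 341) (nat_lit 5) (nat_lit 353) (nat_lit 5) (nat_lit 354) (nat_lit 5) (nat_lit 322) (nat_lit 301) (nat_lit 157)) (XT.lf (nat_lit 0) (nat_lit 1671456481) (nat_lit 912) (nat_lit 11622209508)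 (nat_lit 76) (nat_lit 6277745829) (nat_lit 329) (nat_lit 5) (nat_lit 341) (nat_lit 5) (nat_lit 330) (nat_lit 5) (nat_lit 323) (nat_lit 301) (nat_lit 156))) (XT.nd (nat_lit 78) (nat_lit 0) (nat_lit 0) (XT.lf (nat_lit 0) (nat_lit 3026514386) (nat_lit 836) (nat_lit 1536743340) (nat_lit 912) (nat_lit 15336583916) (nat_lit 318) (nat_lit 5) (nat_lit 329) (nat_lit 5) (nat_lit 330) (nat_lit 5) (nat_lit 324) (nat_lit 301) (nat_lit 155)) (XT.lf (nat_lit 0) (nat_lit 7678880227) (nat_lit 912) (nat_lit 2042601434) (nat_lit 76) (nat_lit 10513908077) (nat_lit 318) (nat_lit 5) (nat_lit 330) (nat_lit 5) (nat_lit 319) (nat_lit 5) (nat_lit 325) (nat_lit 301) (nat_lit 154))))) (XT.nd (nat_lit 234) (nat_lit 2204) (nat_lit 0) (XT.nd (nat_lit 78) (nat_lit 1444) (nat_lit 0) (XT.lf (nat_lit 0) (nat_lit 10990301088) (nat_lit 836) (nat_lit 7206951766) (nat_lit 76) (nat_lit 2381711356) (nat_lit 308) (nat_lit 5) (nat_lit 319)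 (nat_lit 5) (nat_lit 309) (nat_lit 5) (nat_lit 326) (nat_lit 301) (nat_lit 153)) (XT.nd (nat_lit 78) (nat_lit 684) (nat_lit 0) (XT.lf (nat_lit 0) (nat_lit 8378836331) (nat_lit 760) (nat_lit 6145275457) (nat_lit 836) (nat_lit 6406279520) (nat_lit 298) (nat_lit 5) (nat_lit 308) (nat_lit 5) (nat_lit 309) (nat_lit 5) (nat_lit 327) (nat_lit 301) (nat_lit 152)) (XT.lf (nat_lit 0) (nat_lit 3230366460) (nat_lit 684) (nat_lit 15034335547) (nat_lit 760) (nat_lit 3025650060) (nat_lit 289) (nat_lit 5) (nat_lit 298) (nat_lit 5) (nat_lit 299) (nat_lit 5) (nat_lit 328) (nat_lit 301) (nat_lit 151)))) (XT.nd (nat_lit 156) (nat_lit 1368) (nat_lit 0) (XT.nd (nat_lit 78) (nat_lit 760) (nat_lit 0) (XT.lf (nat_lit 0) (nat_lit 567214518) (nat_lit 760) (nat_lit 2056890930) (nat_lit 76) (nat_lit 19034616751) (nat_lit 288) (nat_lit 5) (nat_lit 298) (nat_lit 5) (nat_lit 289) (nat_lit 5) (nat_lit 329) (nat_lit 301) (nat_lit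 150)) (XT.lf (nat_lit 0) (nat_lit 4378794102) (nat_lit 836) (nat_lit 7515486272) (nat_lit 76) (nat_lit 10140428040) (nat_lit 278) (nat_lit 5) (nat_lit 289) (nat_lit 5) (nat_lit 279) (nat_lit 5) (nat_lit 330) (nat_lit 301) (nat_lit 149))) (XT.nd (nat_lit 78) (nat_lit 684) (nat_lit 0) (XT.lf (nat_lit 0) (nat_lit 8393109783) (nat_lit 760) (nat_lit 13133026355) (nat_lit 76) (nat_lit 894075823) (nat_lit 269) (nat_lit 5) (nat_lit 279) (nat_lit 5) (nat_lit 270) (nat_lit 5) (nat_lit 331) (nat_lit 301) (nat_lit 148)) (XT.lf (nat_lit 0) (nat_lit 3840889318) (nat_lit 684) (nat_lit 8833504575) (nat_lit 760) (nat_lit 10139961300) (nat_lit 260) (nat_lit 5) (nat_lit 269) (nat_lit 5) (nat_lit 270) (nat_lit 5) (nat_lit 332) (nat_lit 301) (nat_lit 147))))))))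
noncomputable def xc111 : XT := (XT.nd (nat_lit 38688) (nat_lit 0) (nat_lit 8132) (XT.nd (nat_lit 1014) (nat_lit 2812) (nat_lit 0) (XT.nd (nat_lit 468) (nat_lit 3344) (nat_lit 0) (XT.nd (nat_lit 234) (nat_lit 1216) (nat_lit 0) (XT.nd (nat_lit 78) (nat_lit 1368) (nat_lit 0) (XT.lf (nat_lit 0) (nat_lit 17192219023) (nat_lit 760) (nat_lit 1753038985) (nat_lit 76) (nat_lit 4272907868) (nat_lit 260) (nat_lit 5) (nat_lit 270) (nat_lit 5) (nat_lit 261) (nat_lit 5) (nat_lit 333) (nat_lit 301) (nat_lit 146)) (XT.nd (nat_lit 78) (nat_lit 760) (nat_lit 0) (XT.lf (nat_lit 0) (nat_lit 16126558125) (nat_lit 608) (nat_lit 5874052359) (nat_lit 684) (nat_lit 1630384812) (nat_lit 252) (nat_lit 5) (nat_lit 260) (nat_lit 5) (nat_lit 261) (nat_lit 5) (nat_lit 334) (nat_lit 301) (nat_lit 145)) (XT.lf (nat_lit 0) (nat_lit 2981277340) (nat_lit 760) (nat_lit 13483173296) (nat_lit 76) (nat_lit 7588943012) (nat_lit 242)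 (nat_lit 5) (nat_lit 252) (nat_lit 5) (nat_lit 243) (nat_lit 5) (nat_lit 335) (nat_lit 301) (nat_lit 144)))) (XT.nd (nat_lit 78) (nat_lit 608) (nat_lit 0) (XT.lf (nat_lit 0) (nat_lit 4805052937) (nat_lit 608) (nat_lit 3017445331) (nat_lit 684) (nat_lit 16663487624) (nat_lit 234) (nat_lit 5) (nat_lit 242) (nat_lit 5) (nat_lit 243) (nat_lit 5) (nat_lit 336) (nat_lit 301) (nat_lit 143)) (XT.nd (nat_lit 78) (nat_lit 608) (nat_lit 0) (XT.lf (nat_lit 0) (nat_lit 12962999597) (nat_lit 684) (nat_lit 1184020030) (nat_lit 76) (nat_lit 10781459932) (nat_lit 234) (nat_lit 5) (nat_lit 243) (nat_lit 5) (nat_lit 235) (nat_lit 5) (nat_lit 337) (nat_lit 301) (nat_lit 142)) (XT.lf (nat_lit 0) (nat_lit 18075129067) (nat_lit 608) (nat_lit 312099900) (nat_lit 684) (nat_lit 6994433208) (nat_lit 226) (nat_lit 5) (nat_lit 234) (nat_lit 5) (nat_lit 235) (nat_lit 5) (nat_lit 338) (nat_lit 301) (nat_lit 141))))) (XT.nd (nat_lit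 234) (nat_lit 2128) (nat_lit 0) (XT.nd (nat_lit 78) (nat_lit 684) (nat_lit 0) (XT.lf (nat_lit 0) (nat_lit 12139092198) (nat_lit 532) (nat_lit 12004619246) (nat_lit 608) (nat_lit 1701342575) (nat_lit 219) (nat_lit 5) (nat_lit 226) (nat_lit 5) (nat_lit 227) (nat_lit 5) (nat_lit 339) (nat_lit 301) (nat_lit 140)) (XT.nd (nat_lit 78) (nat_lit 0) (nat_lit 0) (XT.lf (nat_lit 0) (nat_lit 3798730438) (nat_lit 684) (nat_lit 20345493366) (nat_lit 76) (nat_lit 2175693284) (nat_lit 210) (nat_lit 5) (nat_lit 219) (nat_lit 5) (nat_lit 211) (nat_lit 5) (nat_lit 340) (nat_lit 301) (nat_lit 139)) (XT.lf (nat_lit 0) (nat_lit 9607001301) (nat_lit 684) (nat_lit 476100421) (nat_lit 76) (nat_lit 16722377154) (nat_lit 210) (nat_lit 5) (nat_lit 219) (nat_lit 5) (nat_lit 211) (nat_lit 5) (nat_lit 341) (nat_lit 301) (nat_lit 138)))) (XT.nd (nat_lit 156) (nat_lit 1064) (nat_lit 0) (XT.nd (nat_lit 78) (nat_lit 532) (nat_lit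 0) (XT.lf (nat_lit 0) (nat_lit 15743022473) (nat_lit 608) (nat_lit 7086867800) (nat_lit 76) (nat_lit 4472651033) (nat_lit 203) (nat_lit 5) (nat_lit 211) (nat_lit 5) (nat_lit 204) (nat_lit 5) (nat_lit 342) (nat_lit 301) (nat_lit 137)) (XT.lf (nat_lit 0) (nat_lit 13824932072) (nat_lit 532) (nat_lit 8391402860) (nat_lit 608) (nat_lit 5595120185) (nat_lit 196) (nat_lit 5) (nat_lit 203) (nat_lit 5) (nat_lit 204) (nat_lit 5) (nat_lit 343) (nat_lit 301) (nat_lit 136))) (XT.nd (nat_lit 78) (nat_lit 532) (nat_lit 0) (XT.lf (nat_lit 0) (nat_lit 671748181) (nat_lit 532) (nat_lit 21168599260) (nat_lit 76) (nat_lit 6492606703) (nat_lit 189) (nat_lit 5) (nat_lit 196) (nat_lit 5) (nat_lit 190) (nat_lit 5) (nat_lit 344) (nat_lit 301) (nat_lit 135)) (XT.lf (nat_lit 0) (nat_lit 171970172) (nat_lit 532) (nat_lit 7024717934) (nat_lit 608) (nat_lit 21669752174) (nat_lit 182) (nat_lit 5) (nat_lit 189) (nat_lit 5) (nat_lit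 190) (nat_lit 5) (nat_lit 345) (nat_lit 301) (nat_lit 134)))))) (XT.nd (nat_lit 546) (nat_lit 532) (nat_lit 0) (XT.nd (nat_lit 234) (nat_lit 1368) (nat_lit 0) (XT.nd (nat_lit 78) (nat_lit 912) (nat_lit 0) (XT.lf (nat_lit 0) (nat_lit 14108381889) (nat_lit 608) (nat_lit 7034073846) (nat_lit 76) (nat_lit 8269658490) (nat_lit 182) (nat_lit 5) (nat_lit 190) (nat_lit 5) (nat_lit 183) (nat_lit 5) (nat_lit 346) (nat_lit 301) (nat_lit 133)) (XT.nd (nat_lit 78) (nat_lit 456) (nat_lit 0) (XT.lf (nat_lit 0) (nat_lit 15422584105) (nat_lit 456) (nat_lit 5945294231) (nat_lit 532) (nat_lit 8603474257) (nat_lit 176) (nat_lit 5) (nat_lit 182) (nat_lit 5) (nat_lit 183) (nat_lit 5) (nat_lit 347) (nat_lit 301) (nat_lit 132)) (XT.lf (nat_lit 0) (nat_lit 8137369802) (nat_lit 456) (nat_lit 20865097346) (nat_lit 532) (nat_lit 1541757961) (nat_lit 170) (nat_lit 5) (nat_lit 176) (nat_lit 5) (nat_lit 177) (nat_lit 5) (nat_lit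 348) (nat_lit 301) (nat_lit 131)))) (XT.nd (nat_lit 156) (nat_lit 836) (nat_lit 0) (XT.nd (nat_lit 78) (nat_lit 0) (nat_lit 0) (XT.lf (nat_lit 0) (nat_lit 490974475) (nat_lit 456) (nat_lit 5301400890) (nat_lit 532) (nat_lit 25338452352) (nat_lit 163) (nat_lit 5) (nat_lit 169) (nat_lit 5) (nat_lit 170) (nat_lit 5) (nat_lit 349) (nat_lit 301) (nat_lit 130)) (XT.lf (nat_lit 0) (nat_lit 13541877827) (nat_lit 532) (nat_lit 7439257430) (nat_lit 76) (nat_lit 10749366402) (nat_lit 163) (nat_lit 5) (nat_lit 170) (nat_lit 5) (nat_lit 164) (nat_lit 5) (nat_lit 350) (nat_lit 301) (nat_lit 129))) (XT.nd (nat_lit 78) (nat_lit 380) (nat_lit 0) (XT.lf (nat_lit 0) (nat_lit 16631547240) (nat_lit 456) (nat_lit 5029607948) (nat_lit 532) (nat_lit 10684267658) (nat_lit 157) (nat_lit 5) (nat_lit 163) (nat_lit 5) (nat_lit 164) (nat_lit 5) (nat_lit 351) (nat_lit 301) (nat_lit 128)) (XT.lf (nat_lit 0) (nat_lit 8578221613)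 (nat_lit 380) (nat_lit 21620212469) (nat_lit 456) (nat_lit 2776871862) (nat_lit 152) (nat_lit 5) (nat_lit 157) (nat_lit 5) (nat_lit 158) (nat_lit 5) (nat_lit 352) (nat_lit 301) (nat_lit 127))))) (XT.nd (nat_lit 36816) (nat_lit 0) (nat_lit 19076) (XT.nd (nat_lit 36660) (nat_lit 0) (nat_lit 19000) (XT.lf (nat_lit 0) (nat_lit 116154856) (nat_lit 456) (nat_lit 5316812488) (nat_lit 532) (nat_lit 28187711372) (nat_lit 145) (nat_lit 5) (nat_lit 151) (nat_lit 5) (nat_lit 152) (nat_lit 5) (nat_lit 353) (nat_lit 301) (nat_lit 126)) (XT.nd (nat_lit 78) (nat_lit 0) (nat_lit 76) (XT.lf (nat_lit 0) (nat_lit 1369135217) (nat_lit 1748) (nat_lit 2905058805) (nat_lit 1748) (nat_lit 2905058805) (nat_lit 395) (nat_lit 3) (nat_lit 418) (nat_lit 3) (nat_lit 418) (nat_lit 5) (nat_lit 302) (nat_lit 302) (nat_lit 176)) (XT.lf (nat_lit 0) (nat_lit 3279649359) (nat_lit 1672) (nat_lit 10422489663) (nat_lit 1748) (nat_lit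 861414462) (nat_lit 396) (nat_lit 5) (nat_lit 418) (nat_lit 5) (nat_lit 419) (nat_lit 5) (nat_lit 303) (nat_lit 302) (nat_lit 175)))) (XT.nd (nat_lit 156) (nat_lit 0) (nat_lit 152) (XT.nd (nat_lit 78) (nat_lit 0) (nat_lit 76) (XT.lf (nat_lit 0) (nat_lit 3915811223) (nat_lit 1672) (nat_lit 370958396) (nat_lit 1748) (nat_lit 10486424929) (nat_lit 396) (nat_lit 5) (nat_lit 418) (nat_lit 5) (nat_lit 419) (nat_lit 5) (nat_lit 304) (nat_lit 302) (nat_lit 174)) (XT.lf (nat_lit 0) (nat_lit 4654560766) (nat_lit 1672) (nat_lit 4918738806) (nat_lit 1748) (nat_lit 5414167478) (nat_lit 397) (nat_lit 5) (nat_lit 419) (nat_lit 5) (nat_lit 420) (nat_lit 5) (nat_lit 305) (nat_lit 302) (nat_lit 173))) (XT.nd (nat_lit 78) (nat_lit 0) (nat_lit 0) (XT.lf (nat_lit 0) (nat_lit 5467382806) (nat_lit 1672) (nat_lit 9554190275) (nat_lit 1748) (nat_lit 185568353) (nat_lit 398) (nat_lit 5) (nat_lit 420) (nat_lit 5) (nat_lit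 421) (nat_lit 5) (nat_lit 306) (nat_lit 302) (nat_lit 172)) (XT.lf (nat_lit 76) (nat_lit 1116710506) (nat_lit 0) (nat_lit 5275967229) (nat_lit 1748) (nat_lit 9038978109) (nat_lit 399) (nat_lit 5) (nat_lit 398) (nat_lit 5) (nat_lit 421) (nat_lit 5) (nat_lit 307) (nat_lit 302) (nat_lit 171))))))) (XT.nd (nat_lit 1092) (nat_lit 7676) (nat_lit 0) (XT.nd (nat_lit 546) (nat_lit 3496) (nat_lit 0) (XT.nd (nat_lit 234) (nat_lit 0) (nat_lit 152) (XT.nd (nat_lit 78) (nat_lit 0) (nat_lit 0) (XT.lf (nat_lit 0) (nat_lit 7425550457) (nat_lit 1672) (nat_lit 3464730282) (nat_lit 1748) (nat_lit 4771039792) (nat_lit 399) (nat_lit 5) (nat_lit 421) (nat_lit 5) (nat_lit 422) (nat_lit 5) (nat_lit 308) (nat_lit 302) (nat_lit 170)) (XT.nd (nat_lit 78) (nat_lit 0) (nat_lit 76) (XT.lf (nat_lit 76) (nat_lit 7767591413) (nat_lit 0) (nat_lit 791736791) (nat_lit 1748) (nat_lit 7337159474) (nat_lit 400) (nat_lit 5) (nat_lit 399)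 (nat_lit 5) (nat_lit 422) (nat_lit 5) (nat_lit 309) (nat_lit 302) (nat_lit 169)) (XT.lf (nat_lit 76) (nat_lit 3215508680) (nat_lit 0) (nat_lit 6603150573) (nat_lit 1748) (nat_lit 6318230365) (nat_lit 401) (nat_lit 5) (nat_lit 400) (nat_lit 5) (nat_lit 423) (nat_lit 5) (nat_lit 310) (nat_lit 302) (nat_lit 168)))) (XT.nd (nat_lit 156) (nat_lit 0) (nat_lit 76) (XT.nd (nat_lit 78) (nat_lit 0) (nat_lit 0) (XT.lf (nat_lit 0) (nat_lit 11186032076) (nat_lit 1672) (nat_lit 1412373568) (nat_lit 1748) (nat_lit 3784703005) (nat_lit 401) (nat_lit 5) (nat_lit 423) (nat_lit 5) (nat_lit 424) (nat_lit 5) (nat_lit 311) (nat_lit 302) (nat_lit 167)) (XT.lf (nat_lit 76) (nat_lit 10525734452) (nat_lit 0) (nat_lit 2166676164) (nat_lit 1748) (nat_lit 3942353918) (nat_lit 402) (nat_lit 5) (nat_lit 401) (nat_lit 5) (nat_lit 424) (nat_lit 5) (nat_lit 312) (nat_lit 302) (nat_lit 166))) (XT.nd (nat_lit 78) (nat_lit 0) (nat_lit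 76) (XT.lf (nat_lit 76) (nat_lit 5959729734) (nat_lit 0) (nat_lit 8374145900) (nat_lit 1748) (nat_lit 2558306239) (nat_lit 403) (nat_lit 5) (nat_lit 402) (nat_lit 5) (nat_lit 425) (nat_lit 5) (nat_lit 313) (nat_lit 302) (nat_lit 165)) (XT.lf (nat_lit 76) (nat_lit 1294456896) (nat_lit 0) (nat_lit 14796012785) (nat_lit 1748) (nat_lit 1065543747) (nat_lit 404) (nat_lit 5) (nat_lit 403) (nat_lit 5) (nat_lit 426) (nat_lit 5) (nat_lit 314) (nat_lit 302) (nat_lit 164))))) (XT.nd (nat_lit 234) (nat_lit 2052) (nat_lit 0) (XT.nd (nat_lit 78) (nat_lit 0) (nat_lit 76) (XT.lf (nat_lit 0) (nat_lit 582864734) (nat_lit 1748) (nat_lit 3458396361) (nat_lit 1824) (nat_lit 13384105422) (nat_lit 380) (nat_lit 5) (nat_lit 403) (nat_lit 5) (nat_lit 404) (nat_lit 5) (nat_lit 315) (nat_lit 302) (nat_lit 163)) (XT.nd (nat_lit 78) (nat_lit 0) (nat_lit 76) (XT.lf (nat_lit 0) (nat_lit 2360542106) (nat_lit 1748) (nat_lit 8324617596)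 (nat_lit 1824) (nat_lit 7015622454) (nat_lit 381) (nat_lit 5) (nat_lit 404) (nat_lit 5) (nat_lit 405) (nat_lit 5) (nat_lit 316) (nat_lit 302) (nat_lit 162)) (XT.lf (nat_lit 0) (nat_lit 4262530897) (nat_lit 1748) (nat_lit 13302700756) (nat_lit 1824) (nat_lit 417817420) (nat_lit 382) (nat_lit 5) (nat_lit 405) (nat_lit 5) (nat_lit 406) (nat_lit 5) (nat_lit 317) (nat_lit 302) (nat_lit 161)))) (XT.nd (nat_lit 156) (nat_lit 2204) (nat_lit 0) (XT.nd (nat_lit 78) (nat_lit 0) (nat_lit 76) (XT.lf (nat_lit 0) (nat_lit 6337352948) (nat_lit 1748) (nat_lit 165379403) (nat_lit 1824) (nat_lit 11768744363) (nat_lit 382) (nat_lit 5) (nat_lit 405) (nat_lit 5) (nat_lit 406) (nat_lit 5) (nat_lit 318) (nat_lit 302) (nat_lit 160)) (XT.lf (nat_lit 0) (nat_lit 8582540257) (nat_lit 1748) (nat_lit 5065853961) (nat_lit 76) (nat_lit 4918008503) (nat_lit 383) (nat_lit 5) (nat_lit 406) (nat_lit 5) (nat_lit 384) (nat_lit 5) (nat_lit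 319) (nat_lit 302) (nat_lit 159))) (XT.nd (nat_lit 78) (nat_lit 836) (nat_lit 0) (XT.lf (nat_lit 0) (nat_lit 8769990487) (nat_lit 1444) (nat_lit 2214845943) (nat_lit 1520) (nat_lit 7883552730) (nat_lit 364) (nat_lit 5) (nat_lit 383) (nat_lit 5) (nat_lit 384) (nat_lit 5) (nat_lit 320) (nat_lit 302) (nat_lit 158)) (XT.lf (nat_lit 0) (nat_lit 3890029740) (nat_lit 836) (nat_lit 9679551974) (nat_lit 912) (nat_lit 5607653367) (nat_lit 353) (nat_lit 5) (nat_lit 364) (nat_lit 5) (nat_lit 365) (nat_lit 5) (nat_lit 321) (nat_lit 302) (nat_lit 157)))))) (XT.nd (nat_lit 546) (nat_lit 3496) (nat_lit 0) (XT.nd (nat_lit 234) (nat_lit 2356) (nat_lit 0) (XT.nd (nat_lit 78) (nat_lit 1824) (nat_lit 0) (XT.lf (nat_lit 0) (nat_lit 16317454779) (nat_lit 912) (nat_lit 1096287203) (nat_lit 76) (nat_lit 2079899963) (nat_lit 353) (nat_lit 5) (nat_lit 365) (nat_lit 5) (nat_lit 354) (nat_lit 5) (nat_lit 322) (nat_lit 302)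 (nat_lit 156)) (XT.nd (nat_lit 78) (nat_lit 912) (nat_lit 0) (XT.lf (nat_lit 0) (nat_lit 13624352585) (nat_lit 912) (nat_lit 5665694114) (nat_lit 988) (nat_lit 526655725) (nat_lit 341) (nat_lit 5) (nat_lit 353) (nat_lit 5) (nat_lit 354) (nat_lit 5) (nat_lit 323) (nat_lit 302) (nat_lit 155)) (XT.lf (nat_lit 0) (nat_lit 2269292330) (nat_lit 912) (nat_lit 11447732447) (nat_lit 76) (nat_lit 6430234377) (nat_lit 329) (nat_lit 5) (nat_lit 341) (nat_lit 5) (nat_lit 330) (nat_lit 5) (nat_lit 324) (nat_lit 302) (nat_lit 154)))) (XT.nd (nat_lit 156) (nat_lit 1520) (nat_lit 0) (XT.nd (nat_lit 78) (nat_lit 0) (nat_lit 0) (XT.lf (nat_lit 0) (nat_lit 3631965784) (nat_lit 836) (nat_lit 1603271117) (nat_lit 912) (nat_lit 15250567123) (nat_lit 318) (nat_lit 5) (nat_lit 329) (nat_lit 5) (nat_lit 330) (nat_lit 5) (nat_lit 325) (nat_lit 302) (nat_lit 153)) (XT.lf (nat_lit 0) (nat_lit 8428614428) (nat_lit 912) (nat_lit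 1593373215) (nat_lit 76) (nat_lit 10809754841) (nat_lit 318) (nat_lit 5) (nat_lit 330) (nat_lit 5) (nat_lit 319) (nat_lit 5) (nat_lit 326) (nat_lit 302) (nat_lit 152))) (XT.nd (nat_lit 78) (nat_lit 760) (nat_lit 0) (XT.lf (nat_lit 0) (nat_lit 11827477204) (nat_lit 836) (nat_lit 6910439899) (nat_lit 76) (nat_lit 2447954468) (nat_lit 308) (nat_lit 5) (nat_lit 319) (nat_lit 5) (nat_lit 309) (nat_lit 5) (nat_lit 327) (nat_lit 302) (nat_lit 151)) (XT.lf (nat_lit 0) (nat_lit 9134603561) (nat_lit 760) (nat_lit 6321192982) (nat_lit 836) (nat_lit 6092284146) (nat_lit 298) (nat_lit 5) (nat_lit 308) (nat_lit 5) (nat_lit 309) (nat_lit 5) (nat_lit 328) (nat_lit 302) (nat_lit 150))))) (XT.nd (nat_lit 234) (nat_lit 1976) (nat_lit 0) (XT.nd (nat_lit 78) (nat_lit 836) (nat_lit 0) (XT.lf (nat_lit 0) (nat_lit 3833498867) (nat_lit 684) (nat_lit 15464000055) (nat_lit 760) (nat_lit 2621572288) (nat_lit 289) (nat_lit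 5) (nat_lit 298) (nat_lit 5) (nat_lit 299) (nat_lit 5) (nat_lit 329) (nat_lit 302) (nat_lit 149)) (XT.nd (nat_lit 78) (nat_lit 760) (nat_lit 0) (XT.lf (nat_lit 0) (nat_lit 1058364219) (nat_lit 760) (nat_lit 1620539449) (nat_lit 76) (nat_lit 19619817406) (nat_lit 288) (nat_lit 5) (nat_lit 298) (nat_lit 5) (nat_lit 289) (nat_lit 5) (nat_lit 330) (nat_lit 302) (nat_lit 148)) (XT.lf (nat_lit 0) (nat_lit 4973834625) (nat_lit 836) (nat_lit 7241602870) (nat_lit 76) (nat_lit 10470766670) (nat_lit 278) (nat_lit 5) (nat_lit 289) (nat_lit 5) (nat_lit 279) (nat_lit 5) (nat_lit 331) (nat_lit 302) (nat_lit 147)))) (XT.nd (nat_lit 156) (nat_lit 608) (nat_lit 0) (XT.nd (nat_lit 78) (nat_lit 684) (nat_lit 0) (XT.lf (nat_lit 0) (nat_lit 9098510107) (nat_lit 760) (nat_lit 13026685195) (nat_lit 76) (nat_lit 958286831) (nat_lit 269) (nat_lit 5) (nat_lit 279) (nat_lit 5) (nat_lit 270) (nat_lit 5) (nat_lit 332) (nat_lit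 302) (nat_lit 146)) (XT.lf (nat_lit 0) (nat_lit 4448330656) (nat_lit 684) (nat_lit 9049886013) (nat_lit 760) (nat_lit 9991441005) (nat_lit 260) (nat_lit 5) (nat_lit 269) (nat_lit 5) (nat_lit 270) (nat_lit 5) (nat_lit 333) (nat_lit 302) (nat_lit 145))) (XT.nd (nat_lit 78) (nat_lit 608) (nat_lit 0) (XT.lf (nat_lit 0) (nat_lit 18138962930) (nat_lit 760) (nat_lit 1319196041) (nat_lit 76) (nat_lit 4447683445) (nat_lit 260) (nat_lit 5) (nat_lit 270) (nat_lit 5) (nat_lit 261) (nat_lit 5) (nat_lit 334) (nat_lit 302) (nat_lit 144)) (XT.lf (nat_lit 0) (nat_lit 17088897167) (nat_lit 608) (nat_lit 5993263245) (nat_lit 684) (nat_lit 1249092472) (nat_lit 252) (nat_lit 5) (nat_lit 260) (nat_lit 5) (nat_lit 261) (nat_lit 5) (nat_lit 335) (nat_lit 302) (nat_lit 143))))))))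
noncomputable def xc112 : XT := (XT.nd (nat_lit 38766) (nat_lit 0) (nat_lit 6232) (XT.nd (nat_lit 1014) (nat_lit 1824) (nat_lit 0) (XT.nd (nat_lit 468) (nat_lit 2584) (nat_lit 0) (XT.nd (nat_lit 234) (nat_lit 1824) (nat_lit 0) (XT.nd (nat_lit 78) (nat_lit 608) (nat_lit 0) (XT.lf (nat_lit 0) (nat_lit 3486403447) (nat_lit 760) (nat_lit 13402968275) (nat_lit 76) (nat_lit 7877079977) (nat_lit 242) (nat_lit 5) (nat_lit 252) (nat_lit 5) (nat_lit 243) (nat_lit 5) (nat_lit 336) (nat_lit 302) (nat_lit 142)) (XT.nd (nat_lit 78) (nat_lit 0) (nat_lit 0) (XT.lf (nat_lit 0) (nat_lit 5426041059) (nat_lit 608) (nat_lit 3037808471) (nat_lit 684) (nat_lit 16748359109) (nat_lit 234) (nat_lit 5) (nat_lit 242) (nat_lit 5) (nat_lit 243) (nat_lit 5) (nat_lit 337) (nat_lit 302) (nat_lit 141)) (XT.lf (nat_lit 0) (nat_lit 13747163217) (nat_lit 684) (nat_lit 748921372) (nat_lit 76) (nat_lit 11172127085) (nat_lit 234) (nat_lit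 5) (nat_lit 243) (nat_lit 5) (nat_lit 235) (nat_lit 5) (nat_lit 338) (nat_lit 302) (nat_lit 140)))) (XT.nd (nat_lit 78) (nat_lit 1216) (nat_lit 0) (XT.lf (nat_lit 0) (nat_lit 19080366960) (nat_lit 608) (nat_lit 245245685) (nat_lit 684) (nat_lit 6809553577) (nat_lit 226) (nat_lit 5) (nat_lit 234) (nat_lit 5) (nat_lit 235) (nat_lit 5) (nat_lit 339) (nat_lit 302) (nat_lit 139)) (XT.nd (nat_lit 78) (nat_lit 684) (nat_lit 0) (XT.lf (nat_lit 0) (nat_lit 12966067703) (nat_lit 532) (nat_lit 12280942101) (nat_lit 608) (nat_lit 1365611741) (nat_lit 219) (nat_lit 5) (nat_lit 226) (nat_lit 5) (nat_lit 227) (nat_lit 5) (nat_lit 340) (nat_lit 302) (nat_lit 138)) (XT.lf (nat_lit 0) (nat_lit 4286827491) (nat_lit 684) (nat_lit 20488274835) (nat_lit 76) (nat_lit 2326735061) (nat_lit 210) (nat_lit 5) (nat_lit 219) (nat_lit 5) (nat_lit 211) (nat_lit 5) (nat_lit 341) (nat_lit 302) (nat_lit 137))))) (XT.nd (nat_lit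 234) (nat_lit 1520) (nat_lit 0) (XT.nd (nat_lit 78) (nat_lit 1064) (nat_lit 0) (XT.lf (nat_lit 0) (nat_lit 10258449341) (nat_lit 684) (nat_lit 36419033) (nat_lit 76) (nat_lit 17307321263) (nat_lit 210) (nat_lit 5) (nat_lit 219) (nat_lit 5) (nat_lit 211) (nat_lit 5) (nat_lit 342) (nat_lit 302) (nat_lit 136)) (XT.nd (nat_lit 78) (nat_lit 532) (nat_lit 0) (XT.lf (nat_lit 0) (nat_lit 16571462121) (nat_lit 608) (nat_lit 6846171066) (nat_lit 76) (nat_lit 4696678034) (nat_lit 203) (nat_lit 5) (nat_lit 211) (nat_lit 5) (nat_lit 204) (nat_lit 5) (nat_lit 343) (nat_lit 302) (nat_lit 135)) (XT.lf (nat_lit 0) (nat_lit 14685628504) (nat_lit 532) (nat_lit 8545867572) (nat_lit 608) (nat_lit 5407151267) (nat_lit 196) (nat_lit 5) (nat_lit 203) (nat_lit 5) (nat_lit 204) (nat_lit 5) (nat_lit 344) (nat_lit 302) (nat_lit 134)))) (XT.nd (nat_lit 156) (nat_lit 456) (nat_lit 0) (XT.nd (nat_lit 78) (nat_lit 532) (nat_lit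 0) (XT.lf (nat_lit 0) (nat_lit 1036355090) (nat_lit 532) (nat_lit 21353782640) (nat_lit 76) (nat_lit 6785746517) (nat_lit 189) (nat_lit 5) (nat_lit 196) (nat_lit 5) (nat_lit 190) (nat_lit 5) (nat_lit 345) (nat_lit 302) (nat_lit 133)) (XT.lf (nat_lit 0) (nat_lit 619705194) (nat_lit 532) (nat_lit 7130178861) (nat_lit 608) (nat_lit 21975639030) (nat_lit 182) (nat_lit 5) (nat_lit 189) (nat_lit 5) (nat_lit 190) (nat_lit 5) (nat_lit 346) (nat_lit 302) (nat_lit 132))) (XT.nd (nat_lit 78) (nat_lit 456) (nat_lit 0) (XT.lf (nat_lit 0) (nat_lit 14859768159) (nat_lit 608) (nat_lit 6809365218) (nat_lit 76) (nat_lit 8618621873) (nat_lit 182) (nat_lit 5) (nat_lit 190) (nat_lit 5) (nat_lit 183) (nat_lit 5) (nat_lit 347) (nat_lit 302) (nat_lit 131)) (XT.lf (nat_lit 0) (nat_lit 16313923256) (nat_lit 456) (nat_lit 6016352074) (nat_lit 532) (nat_lit 8533635574) (nat_lit 176) (nat_lit 5) (nat_lit 182) (nat_lit 5) (nat_lit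 183) (nat_lit 5) (nat_lit 348) (nat_lit 302) (nat_lit 130)))))) (XT.nd (nat_lit 37206) (nat_lit 0) (nat_lit 18544) (XT.nd (nat_lit 234) (nat_lit 836) (nat_lit 0) (XT.nd (nat_lit 78) (nat_lit 532) (nat_lit 0) (XT.lf (nat_lit 0) (nat_lit 8808988110) (nat_lit 456) (nat_lit 21379005652) (nat_lit 532) (nat_lit 1266098511) (nat_lit 170) (nat_lit 5) (nat_lit 176) (nat_lit 5) (nat_lit 177) (nat_lit 5) (nat_lit 349) (nat_lit 302) (nat_lit 129)) (XT.nd (nat_lit 78) (nat_lit 0) (nat_lit 0) (XT.lf (nat_lit 0) (nat_lit 930563921) (nat_lit 456) (nat_lit 5346778318) (nat_lit 532) (nat_lit 25781043110) (nat_lit 163) (nat_lit 5) (nat_lit 169) (nat_lit 5) (nat_lit 170) (nat_lit 5) (nat_lit 350) (nat_lit 302) (nat_lit 128)) (XT.lf (nat_lit 0) (nat_lit 14250982315) (nat_lit 532) (nat_lit 7244484254) (nat_lit 76) (nat_lit 11180754062) (nat_lit 163) (nat_lit 5) (nat_lit 170) (nat_lit 5) (nat_lit 164) (nat_lit 5) (nat_lit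 351) (nat_lit 302) (nat_lit 127)))) (XT.nd (nat_lit 36816) (nat_lit 0) (nat_lit 18468) (XT.nd (nat_lit 78) (nat_lit 380) (nat_lit 0) (XT.lf (nat_lit 0) (nat_lit 17541663799) (nat_lit 456) (nat_lit 5066022967) (nat_lit 532) (nat_lit 10702029764) (nat_lit 157) (nat_lit 5) (nat_lit 163) (nat_lit 5) (nat_lit 164) (nat_lit 5) (nat_lit 352) (nat_lit 302) (nat_lit 126)) (XT.lf (nat_lit 0) (nat_lit 9245307017) (nat_lit 380) (nat_lit 22150517237) (nat_lit 456) (nat_lit 2562780997) (nat_lit 152) (nat_lit 5) (nat_lit 157) (nat_lit 5) (nat_lit 158) (nat_lit 5) (nat_lit 353) (nat_lit 302) (nat_lit 125))) (XT.nd (nat_lit 78) (nat_lit 0) (nat_lit 76) (XT.lf (nat_lit 0) (nat_lit 1873426928) (nat_lit 1748) (nat_lit 2755809292) (nat_lit 1748) (nat_lit 2755809292) (nat_lit 395) (nat_lit 3) (nat_lit 418) (nat_lit 3) (nat_lit 418) (nat_lit 5) (nat_lit 303) (nat_lit 303) (nat_lit 174)) (XT.lf (nat_lit 0) (nat_lit 4277671040)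 (nat_lit 1672) (nat_lit 10248521101) (nat_lit 1748) (nat_lit 455652881) (nat_lit 396) (nat_lit 5) (nat_lit 418) (nat_lit 5) (nat_lit 419) (nat_lit 5) (nat_lit 304) (nat_lit 303) (nat_lit 173))))) (XT.nd (nat_lit 234) (nat_lit 0) (nat_lit 152) (XT.nd (nat_lit 78) (nat_lit 0) (nat_lit 76) (XT.lf (nat_lit 76) (nat_lit 91583158) (nat_lit 0) (nat_lit 4815726340) (nat_lit 1748) (nat_lit 10290996114) (nat_lit 397) (nat_lit 5) (nat_lit 396) (nat_lit 5) (nat_lit 419) (nat_lit 5) (nat_lit 305) (nat_lit 303) (nat_lit 172)) (XT.nd (nat_lit 78) (nat_lit 0) (nat_lit 0) (XT.lf (nat_lit 0) (nat_lit 5642697546) (nat_lit 1672) (nat_lit 4581382713) (nat_lit 1748) (nat_lit 5195454110) (nat_lit 397) (nat_lit 5) (nat_lit 419) (nat_lit 5) (nat_lit 420) (nat_lit 5) (nat_lit 306) (nat_lit 303) (nat_lit 171)) (XT.lf (nat_lit 76) (nat_lit 6300873348) (nat_lit 0) (nat_lit 156157170) (nat_lit 1748) (nat_lit 9189243029) (nat_lit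 398) (nat_lit 5) (nat_lit 397) (nat_lit 5) (nat_lit 420) (nat_lit 5) (nat_lit 307) (nat_lit 303) (nat_lit 170)))) (XT.nd (nat_lit 156) (nat_lit 0) (nat_lit 76) (XT.nd (nat_lit 78) (nat_lit 0) (nat_lit 76) (XT.lf (nat_lit 76) (nat_lit 1638587499) (nat_lit 0) (nat_lit 5749635944) (nat_lit 1748) (nat_lit 8489753755) (nat_lit 399) (nat_lit 5) (nat_lit 398) (nat_lit 5) (nat_lit 421) (nat_lit 5) (nat_lit 308) (nat_lit 303) (nat_lit 169)) (XT.lf (nat_lit 0) (nat_lit 8426683628) (nat_lit 1672) (nat_lit 3076388968) (nat_lit 1748) (nat_lit 4611983311) (nat_lit 399) (nat_lit 5) (nat_lit 421) (nat_lit 5) (nat_lit 422) (nat_lit 5) (nat_lit 309) (nat_lit 303) (nat_lit 168))) (XT.nd (nat_lit 78) (nat_lit 0) (nat_lit 76) (XT.lf (nat_lit 76) (nat_lit 8484915668) (nat_lit 0) (nat_lit 1090032540) (nat_lit 1748) (nat_lit 6782736028) (nat_lit 400) (nat_lit 5) (nat_lit 399) (nat_lit 5) (nat_lit 422) (nat_lit 5) (nat_lit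 310) (nat_lit 303) (nat_lit 167)) (XT.lf (nat_lit 76) (nat_lit 3805610307) (nat_lit 0) (nat_lit 7045821153) (nat_lit 1748) (nat_lit 5754294510) (nat_lit 401) (nat_lit 5) (nat_lit 400) (nat_lit 5) (nat_lit 423) (nat_lit 5) (nat_lit 311) (nat_lit 303) (nat_lit 166))))))) (XT.nd (nat_lit 1014) (nat_lit 8132) (nat_lit 0) (XT.nd (nat_lit 468) (nat_lit 2964) (nat_lit 0) (XT.nd (nat_lit 234) (nat_lit 1596) (nat_lit 0) (XT.nd (nat_lit 78) (nat_lit 0) (nat_lit 0) (XT.lf (nat_lit 0) (nat_lit 12236782437) (nat_lit 1672) (nat_lit 959118899) (nat_lit 1748) (nat_lit 3663905839) (nat_lit 401) (nat_lit 5) (nat_lit 423) (nat_lit 5) (nat_lit 424) (nat_lit 5) (nat_lit 312) (nat_lit 303) (nat_lit 165)) (XT.nd (nat_lit 78) (nat_lit 0) (nat_lit 76) (XT.lf (nat_lit 76) (nat_lit 11329091421) (nat_lit 0) (nat_lit 2441596460) (nat_lit 1748) (nat_lit 3348692454) (nat_lit 402) (nat_lit 5) (nat_lit 401) (nat_lit 5) (nat_lit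 424) (nat_lit 5) (nat_lit 313) (nat_lit 303) (nat_lit 164)) (XT.lf (nat_lit 76) (nat_lit 6633729974) (nat_lit 0) (nat_lit 8809243176) (nat_lit 1748) (nat_lit 1941929413) (nat_lit 403) (nat_lit 5) (nat_lit 402) (nat_lit 5) (nat_lit 425) (nat_lit 5) (nat_lit 314) (nat_lit 303) (nat_lit 163)))) (XT.nd (nat_lit 78) (nat_lit 1748) (nat_lit 0) (XT.lf (nat_lit 76) (nat_lit 1835456147) (nat_lit 0) (nat_lit 15399131145) (nat_lit 1748) (nat_lit 422428817) (nat_lit 404) (nat_lit 5) (nat_lit 403) (nat_lit 5) (nat_lit 426) (nat_lit 5) (nat_lit 315) (nat_lit 303) (nat_lit 162)) (XT.nd (nat_lit 78) (nat_lit 0) (nat_lit 76) (XT.lf (nat_lit 0) (nat_lit 1247173424) (nat_lit 1748) (nat_lit 3065584960) (nat_lit 1824) (nat_lit 13622004678) (nat_lit 380) (nat_lit 5) (nat_lit 403) (nat_lit 5) (nat_lit 404) (nat_lit 5) (nat_lit 316) (nat_lit 303) (nat_lit 161)) (XT.lf (nat_lit 0) (nat_lit 3061587167) (nat_lit 1748) (nat_lit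 8071884189) (nat_lit 1824) (nat_lit 7085314159) (nat_lit 381) (nat_lit 5) (nat_lit 404) (nat_lit 5) (nat_lit 405) (nat_lit 5) (nat_lit 317) (nat_lit 303) (nat_lit 160))))) (XT.nd (nat_lit 234) (nat_lit 3116) (nat_lit 0) (XT.nd (nat_lit 78) (nat_lit 0) (nat_lit 0) (XT.lf (nat_lit 0) (nat_lit 5004704829) (nat_lit 1748) (nat_lit 13193972718) (nat_lit 1824) (nat_lit 311173613) (nat_lit 382) (nat_lit 5) (nat_lit 405) (nat_lit 5) (nat_lit 406) (nat_lit 5) (nat_lit 318) (nat_lit 303) (nat_lit 159)) (XT.nd (nat_lit 78) (nat_lit 0) (nat_lit 76) (XT.lf (nat_lit 76) (nat_lit 326965937) (nat_lit 0) (nat_lit 6799036308) (nat_lit 1824) (nat_lit 11681256520) (nat_lit 383) (nat_lit 5) (nat_lit 382) (nat_lit 5) (nat_lit 406) (nat_lit 5) (nat_lit 319) (nat_lit 303) (nat_lit 158)) (XT.lf (nat_lit 0) (nat_lit 9421569469) (nat_lit 1748) (nat_lit 4720154915) (nat_lit 76) (nat_lit 4969659091) (nat_lit 383) (nat_lit 5)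 (nat_lit 406) (nat_lit 5) (nat_lit 384) (nat_lit 5) (nat_lit 320) (nat_lit 303) (nat_lit 157)))) (XT.nd (nat_lit 156) (nat_lit 912) (nat_lit 0) (XT.nd (nat_lit 78) (nat_lit 836) (nat_lit 0) (XT.lf (nat_lit 0) (nat_lit 9522690686) (nat_lit 1444) (nat_lit 2359484215) (nat_lit 1520) (nat_lit 7540540875) (nat_lit 364) (nat_lit 5) (nat_lit 383) (nat_lit 5) (nat_lit 384) (nat_lit 5) (nat_lit 321) (nat_lit 303) (nat_lit 156)) (XT.lf (nat_lit 0) (nat_lit 4500422208) (nat_lit 836) (nat_lit 10030215143) (nat_lit 912) (nat_lit 5210476979) (nat_lit 353) (nat_lit 5) (nat_lit 364) (nat_lit 5) (nat_lit 365) (nat_lit 5) (nat_lit 322) (nat_lit 303) (nat_lit 155))) (XT.nd (nat_lit 78) (nat_lit 912) (nat_lit 0) (XT.lf (nat_lit 0) (nat_lit 17344431656) (nat_lit 912) (nat_lit 638378989) (nat_lit 76) (nat_lit 2084543494) (nat_lit 353) (nat_lit 5) (nat_lit 365) (nat_lit 5) (nat_lit 354) (nat_lit 5) (nat_lit 323) (nat_lit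 303) (nat_lit 154)) (XT.lf (nat_lit 0) (nat_lit 14515917397) (nat_lit 912) (nat_lit 5877764839) (nat_lit 988) (nat_lit 6684714) (nat_lit 341) (nat_lit 5) (nat_lit 353) (nat_lit 5) (nat_lit 354) (nat_lit 5) (nat_lit 324) (nat_lit 303) (nat_lit 153)))))) (XT.nd (nat_lit 546) (nat_lit 4104) (nat_lit 0) (XT.nd (nat_lit 234) (nat_lit 2280) (nat_lit 0) (XT.nd (nat_lit 78) (nat_lit 836) (nat_lit 0) (XT.lf (nat_lit 0) (nat_lit 2853623484) (nat_lit 912) (nat_lit 11298051643) (nat_lit 76) (nat_lit 6589355163) (nat_lit 329) (nat_lit 5) (nat_lit 341) (nat_lit 5) (nat_lit 330) (nat_lit 5) (nat_lit 325) (nat_lit 303) (nat_lit 152)) (XT.nd (nat_lit 78) (nat_lit 0) (nat_lit 0) (XT.lf (nat_lit 0) (nat_lit 4226037366) (nat_lit 836) (nat_lit 1670622222) (nat_lit 912) (nat_lit 15193319021) (nat_lit 318) (nat_lit 5) (nat_lit 329) (nat_lit 5) (nat_lit 330) (nat_lit 5) (nat_lit 326) (nat_lit 303) (nat_lit 151)) (XT.lf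 (nat_lit 0) (nat_lit 9171026819) (nat_lit 912) (nat_lit 1159973298) (nat_lit 76) (nat_lit 11115600433) (nat_lit 318) (nat_lit 5) (nat_lit 330) (nat_lit 5) (nat_lit 319) (nat_lit 5) (nat_lit 327) (nat_lit 303) (nat_lit 150)))) (XT.nd (nat_lit 156) (nat_lit 760) (nat_lit 0) (XT.nd (nat_lit 78) (nat_lit 760) (nat_lit 0) (XT.lf (nat_lit 0) (nat_lit 12660637916) (nat_lit 836) (nat_lit 6634464926) (nat_lit 76) (nat_lit 2516483847) (nat_lit 308) (nat_lit 5) (nat_lit 319) (nat_lit 5) (nat_lit 309) (nat_lit 5) (nat_lit 328) (nat_lit 303) (nat_lit 149)) (XT.lf (nat_lit 0) (nat_lit 9884089062) (nat_lit 760) (nat_lit 6502872566) (nat_lit 836) (nat_lit 5797925929) (nat_lit 298) (nat_lit 5) (nat_lit 308) (nat_lit 5) (nat_lit 309) (nat_lit 5) (nat_lit 329) (nat_lit 303) (nat_lit 148))) (XT.nd (nat_lit 78) (nat_lit 76) (nat_lit 0) (XT.lf (nat_lit 0) (nat_lit 4425666066) (nat_lit 684) (nat_lit 15907780970) (nat_lit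 760) (nat_lit 2233778441) (nat_lit 289) (nat_lit 5) (nat_lit 298) (nat_lit 5) (nat_lit 299) (nat_lit 5) (nat_lit 330) (nat_lit 303) (nat_lit 147)) (XT.lf (nat_lit 0) (nat_lit 1537031221) (nat_lit 760) (nat_lit 1199688003) (nat_lit 76) (nat_lit 20221761114) (nat_lit 288) (nat_lit 5) (nat_lit 298) (nat_lit 5) (nat_lit 289) (nat_lit 5) (nat_lit 331) (nat_lit 303) (nat_lit 146))))) (XT.nd (nat_lit 234) (nat_lit 1976) (nat_lit 0) (XT.nd (nat_lit 78) (nat_lit 1368) (nat_lit 0) (XT.lf (nat_lit 0) (nat_lit 5560109423) (nat_lit 836) (nat_lit 6988167584) (nat_lit 76) (nat_lit 10809515732) (nat_lit 278) (nat_lit 5) (nat_lit 289) (nat_lit 5) (nat_lit 279) (nat_lit 5) (nat_lit 332) (nat_lit 303) (nat_lit 145)) (XT.nd (nat_lit 78) (nat_lit 684) (nat_lit 0) (XT.lf (nat_lit 0) (nat_lit 9799033541) (nat_lit 760) (nat_lit 12945874901) (nat_lit 76) (nat_lit 1022277903) (nat_lit 269) (nat_lit 5) (nat_lit 279) (nat_lit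 5) (nat_lit 270) (nat_lit 5) (nat_lit 333) (nat_lit 303) (nat_lit 144)) (XT.lf (nat_lit 0) (nat_lit 5045740100) (nat_lit 684) (nat_lit 9275550092) (nat_lit 760) (nat_lit 9864453032) (nat_lit 260) (nat_lit 5) (nat_lit 269) (nat_lit 5) (nat_lit 270) (nat_lit 5) (nat_lit 334) (nat_lit 303) (nat_lit 143)))) (XT.nd (nat_lit 156) (nat_lit 1368) (nat_lit 0) (XT.nd (nat_lit 78) (nat_lit 608) (nat_lit 0) (XT.lf (nat_lit 0) (nat_lit 19089369292) (nat_lit 760) (nat_lit 900261117) (nat_lit 76) (nat_lit 4625027928) (nat_lit 260) (nat_lit 5) (nat_lit 270) (nat_lit 5) (nat_lit 261) (nat_lit 5) (nat_lit 335) (nat_lit 303) (nat_lit 142)) (XT.lf (nat_lit 0) (nat_lit 18052636094) (nat_lit 608) (nat_lit 6119323103) (nat_lit 684) (nat_lit 881056825) (nat_lit 252) (nat_lit 5) (nat_lit 260) (nat_lit 5) (nat_lit 261) (nat_lit 5) (nat_lit 336) (nat_lit 303) (nat_lit 141))) (XT.nd (nat_lit 78) (nat_lit 608) (nat_lit 0)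 (XT.lf (nat_lit 0) (nat_lit 3982821158) (nat_lit 760) (nat_lit 13348180880) (nat_lit 76) (nat_lit 8170389902) (nat_lit 242) (nat_lit 5) (nat_lit 252) (nat_lit 5) (nat_lit 243) (nat_lit 5) (nat_lit 337) (nat_lit 303) (nat_lit 140)) (XT.lf (nat_lit 0) (nat_lit 6038286458) (nat_lit 608) (nat_lit 3062809990) (nat_lit 684) (nat_lit 16859601338) (nat_lit 234) (nat_lit 5) (nat_lit 242) (nat_lit 5) (nat_lit 243) (nat_lit 5) (nat_lit 338) (nat_lit 303) (nat_lit 139))))))))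
noncomputable def xc113 : XT := (XT.nd (nat_lit 38922) (nat_lit 0) (nat_lit 3040) (XT.nd (nat_lit 1014) (nat_lit 0) (nat_lit 0) (XT.nd (nat_lit 468) (nat_lit 3040) (nat_lit 0) (XT.nd (nat_lit 234) (nat_lit 1216) (nat_lit 0) (XT.nd (nat_lit 78) (nat_lit 1140) (nat_lit 0) (XT.lf (nat_lit 0) (nat_lit 14532161423) (nat_lit 684) (nat_lit 327785225) (nat_lit 76) (nat_lit 11570655357) (nat_lit 234) (nat_lit 5) (nat_lit 243) (nat_lit 5) (nat_lit 235) (nat_lit 5) (nat_lit 339) (nat_lit 303) (nat_lit 138)) (XT.nd (nat_lit 78) (nat_lit 532) (nat_lit 0) (XT.lf (nat_lit 0) (nat_lit 20089184812) (nat_lit 608) (nat_lit 180761022) (nat_lit 684) (nat_lit 6641785676) (nat_lit 226) (nat_lit 5) (nat_lit 234) (nat_lit 5) (nat_lit 235) (nat_lit 5) (nat_lit 340) (nat_lit 303) (nat_lit 137)) (XT.lf (nat_lit 0) (nat_lit 13791285703) (nat_lit 532) (nat_lit 12570366007) (nat_lit 608) (nat_lit 1042011227) (nat_lit 219) (nat_lit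 5) (nat_lit 226) (nat_lit 5) (nat_lit 227) (nat_lit 5) (nat_lit 341) (nat_lit 303) (nat_lit 136)))) (XT.nd (nat_lit 78) (nat_lit 532) (nat_lit 0) (XT.lf (nat_lit 0) (nat_lit 4768090569) (nat_lit 684) (nat_lit 20662180943) (nat_lit 76) (nat_lit 2477384486) (nat_lit 210) (nat_lit 5) (nat_lit 219) (nat_lit 5) (nat_lit 211) (nat_lit 5) (nat_lit 342) (nat_lit 303) (nat_lit 135)) (XT.nd (nat_lit 78) (nat_lit 0) (nat_lit 0) (XT.lf (nat_lit 0) (nat_lit 395581504) (nat_lit 532) (nat_lit 10515576346) (nat_lit 608) (nat_lit 17512020369) (nat_lit 203) (nat_lit 5) (nat_lit 210) (nat_lit 5) (nat_lit 211) (nat_lit 5) (nat_lit 343) (nat_lit 303) (nat_lit 134)) (XT.lf (nat_lit 0) (nat_lit 17404310550) (nat_lit 608) (nat_lit 6624274862) (nat_lit 76) (nat_lit 4922268232) (nat_lit 203) (nat_lit 5) (nat_lit 211) (nat_lit 5) (nat_lit 204) (nat_lit 5) (nat_lit 344) (nat_lit 303) (nat_lit 133))))) (XT.nd (nat_lit 234)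 (nat_lit 1444) (nat_lit 0) (XT.nd (nat_lit 78) (nat_lit 1064) (nat_lit 0) (XT.lf (nat_lit 0) (nat_lit 15546546562) (nat_lit 532) (nat_lit 8710550344) (nat_lit 608) (nat_lit 5233968951) (nat_lit 196) (nat_lit 5) (nat_lit 203) (nat_lit 5) (nat_lit 204) (nat_lit 5) (nat_lit 345) (nat_lit 303) (nat_lit 132)) (XT.nd (nat_lit 78) (nat_lit 532) (nat_lit 0) (XT.lf (nat_lit 0) (nat_lit 1392127111) (nat_lit 532) (nat_lit 21570346163) (nat_lit 76) (nat_lit 7082034166) (nat_lit 189) (nat_lit 5) (nat_lit 196) (nat_lit 5) (nat_lit 190) (nat_lit 5) (nat_lit 346) (nat_lit 303) (nat_lit 131)) (XT.lf (nat_lit 0) (nat_lit 1055466598) (nat_lit 532) (nat_lit 7244847154) (nat_lit 608) (nat_lit 22310461308) (nat_lit 182) (nat_lit 5) (nat_lit 189) (nat_lit 5) (nat_lit 190) (nat_lit 5) (nat_lit 347) (nat_lit 303) (nat_lit 130)))) (XT.nd (nat_lit 156) (nat_lit 988) (nat_lit 0) (XT.nd (nat_lit 78) (nat_lit 456) (nat_lit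 0) (XT.lf (nat_lit 0) (nat_lit 15614859736) (nat_lit 608) (nat_lit 6602928065) (nat_lit 76) (nat_lit 8972263598) (nat_lit 182) (nat_lit 5) (nat_lit 190) (nat_lit 5) (nat_lit 183) (nat_lit 5) (nat_lit 348) (nat_lit 303) (nat_lit 129)) (XT.lf (nat_lit 0) (nat_lit 17207395651) (nat_lit 456) (nat_lit 6095701168) (nat_lit 532) (nat_lit 8480526994) (nat_lit 176) (nat_lit 5) (nat_lit 182) (nat_lit 5) (nat_lit 183) (nat_lit 5) (nat_lit 349) (nat_lit 303) (nat_lit 128))) (XT.nd (nat_lit 78) (nat_lit 532) (nat_lit 0) (XT.lf (nat_lit 0) (nat_lit 9476214878) (nat_lit 456) (nat_lit 21914763026) (nat_lit 532) (nat_lit 1000648355) (nat_lit 170) (nat_lit 5) (nat_lit 176) (nat_lit 5) (nat_lit 177) (nat_lit 5) (nat_lit 350) (nat_lit 303) (nat_lit 127)) (XT.lf (nat_lit 0) (nat_lit 1358952335) (nat_lit 456) (nat_lit 5400041881) (nat_lit 532) (nat_lit 26255140996) (nat_lit 163) (nat_lit 5) (nat_lit 169) (nat_lit 5)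 (nat_lit 170) (nat_lit 5) (nat_lit 351) (nat_lit 303) (nat_lit 126)))))) (XT.nd (nat_lit 37362) (nat_lit 0) (nat_lit 16492) (XT.nd (nat_lit 37050) (nat_lit 0) (nat_lit 17708) (XT.nd (nat_lit 36894) (nat_lit 0) (nat_lit 17632) (XT.lf (nat_lit 0) (nat_lit 14963975216) (nat_lit 532) (nat_lit 7067859974) (nat_lit 76) (nat_lit 11618831663) (nat_lit 163) (nat_lit 5) (nat_lit 170) (nat_lit 5) (nat_lit 164) (nat_lit 5) (nat_lit 352) (nat_lit 303) (nat_lit 125)) (XT.nd (nat_lit 78) (nat_lit 0) (nat_lit 76) (XT.lf (nat_lit 0) (nat_lit 2366256801) (nat_lit 1748) (nat_lit 2615652694) (nat_lit 1748) (nat_lit 2615652694) (nat_lit 395) (nat_lit 3) (nat_lit 418) (nat_lit 3) (nat_lit 418) (nat_lit 5) (nat_lit 304) (nat_lit 304) (nat_lit 172)) (XT.lf (nat_lit 0) (nat_lit 5253990803) (nat_lit 1672) (nat_lit 10097268795) (nat_lit 1748) (nat_lit 62494289) (nat_lit 396) (nat_lit 5) (nat_lit 418) (nat_lit 5) (nat_lit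 419) (nat_lit 5) (nat_lit 305) (nat_lit 304) (nat_lit 171)))) (XT.nd (nat_lit 156) (nat_lit 0) (nat_lit 76) (XT.nd (nat_lit 78) (nat_lit 0) (nat_lit 76) (XT.lf (nat_lit 76) (nat_lit 545596600) (nat_lit 0) (nat_lit 5335153005) (nat_lit 1748) (nat_lit 9756411153) (nat_lit 397) (nat_lit 5) (nat_lit 396) (nat_lit 5) (nat_lit 419) (nat_lit 5) (nat_lit 306) (nat_lit 304) (nat_lit 170)) (XT.lf (nat_lit 0) (nat_lit 6611771061) (nat_lit 1672) (nat_lit 4261742229) (nat_lit 1748) (nat_lit 4992058244) (nat_lit 397) (nat_lit 5) (nat_lit 419) (nat_lit 5) (nat_lit 420) (nat_lit 5) (nat_lit 307) (nat_lit 304) (nat_lit 169))) (XT.nd (nat_lit 78) (nat_lit 0) (nat_lit 76) (XT.lf (nat_lit 76) (nat_lit 6939565903) (nat_lit 0) (nat_lit 490592722) (nat_lit 1748) (nat_lit 8669377878) (nat_lit 398) (nat_lit 5) (nat_lit 397) (nat_lit 5) (nat_lit 420) (nat_lit 5) (nat_lit 308) (nat_lit 304) (nat_lit 168)) (XT.lf (nat_lit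 76) (nat_lit 2148086041) (nat_lit 0) (nat_lit 6219410060) (nat_lit 1748) (nat_lit 7971146624) (nat_lit 399) (nat_lit 5) (nat_lit 398) (nat_lit 5) (nat_lit 421) (nat_lit 5) (nat_lit 309) (nat_lit 304) (nat_lit 167))))) (XT.nd (nat_lit 234) (nat_lit 1444) (nat_lit 0) (XT.nd (nat_lit 78) (nat_lit 0) (nat_lit 0) (XT.lf (nat_lit 0) (nat_lit 9413169363) (nat_lit 1672) (nat_lit 2704656485) (nat_lit 1748) (nat_lit 4465501944) (nat_lit 399) (nat_lit 5) (nat_lit 421) (nat_lit 5) (nat_lit 422) (nat_lit 5) (nat_lit 310) (nat_lit 304) (nat_lit 166)) (XT.nd (nat_lit 78) (nat_lit 0) (nat_lit 76) (XT.lf (nat_lit 76) (nat_lit 9195959049) (nat_lit 0) (nat_lit 1381517233) (nat_lit 1748) (nat_lit 6256141541) (nat_lit 400) (nat_lit 5) (nat_lit 399) (nat_lit 5) (nat_lit 422) (nat_lit 5) (nat_lit 311) (nat_lit 304) (nat_lit 165)) (XT.lf (nat_lit 76) (nat_lit 4385078237) (nat_lit 0) (nat_lit 7487732185) (nat_lit 1748)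 (nat_lit 5216693573) (nat_lit 401) (nat_lit 5) (nat_lit 400) (nat_lit 5) (nat_lit 423) (nat_lit 5) (nat_lit 312) (nat_lit 304) (nat_lit 164)))) (XT.nd (nat_lit 156) (nat_lit 1596) (nat_lit 0) (XT.nd (nat_lit 78) (nat_lit 0) (nat_lit 0) (XT.lf (nat_lit 0) (nat_lit 13278001659) (nat_lit 1672) (nat_lit 520717543) (nat_lit 1748) (nat_lit 3552936732) (nat_lit 401) (nat_lit 5) (nat_lit 423) (nat_lit 5) (nat_lit 424) (nat_lit 5) (nat_lit 313) (nat_lit 304) (nat_lit 163)) (XT.lf (nat_lit 76) (nat_lit 12128559729) (nat_lit 0) (nat_lit 2712714098) (nat_lit 1748) (nat_lit 2778088961) (nat_lit 402) (nat_lit 5) (nat_lit 401) (nat_lit 5) (nat_lit 424) (nat_lit 5) (nat_lit 314) (nat_lit 304) (nat_lit 162))) (XT.nd (nat_lit 78) (nat_lit 1672) (nat_lit 0) (XT.lf (nat_lit 76) (nat_lit 7299523236) (nat_lit 0) (nat_lit 9246838313) (nat_lit 1748) (nat_lit 1346849551) (nat_lit 403) (nat_lit 5) (nat_lit 402) (nat_lit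 5) (nat_lit 425) (nat_lit 5) (nat_lit 315) (nat_lit 304) (nat_lit 161)) (XT.lf (nat_lit 0) (nat_lit 198588004) (nat_lit 1748) (nat_lit 15811281510) (nat_lit 1824) (nat_lit 2163938384) (nat_lit 380) (nat_lit 5) (nat_lit 403) (nat_lit 5) (nat_lit 404) (nat_lit 5) (nat_lit 316) (nat_lit 304) (nat_lit 160))))))) (XT.nd (nat_lit 1092) (nat_lit 7220) (nat_lit 0) (XT.nd (nat_lit 546) (nat_lit 4180) (nat_lit 0) (XT.nd (nat_lit 234) (nat_lit 2052) (nat_lit 0) (XT.nd (nat_lit 78) (nat_lit 0) (nat_lit 76) (XT.lf (nat_lit 0) (nat_lit 1894281102) (nat_lit 1748) (nat_lit 2689493982) (nat_lit 1824) (nat_lit 13876433595) (nat_lit 380) (nat_lit 5) (nat_lit 403) (nat_lit 5) (nat_lit 404) (nat_lit 5) (nat_lit 317) (nat_lit 304) (nat_lit 159)) (XT.nd (nat_lit 78) (nat_lit 0) (nat_lit 76) (XT.lf (nat_lit 0) (nat_lit 3747485869) (nat_lit 1748) (nat_lit 7840412724) (nat_lit 1824) (nat_lit 7165177789) (nat_lit 381) (nat_lit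 5) (nat_lit 404) (nat_lit 5) (nat_lit 405) (nat_lit 5) (nat_lit 318) (nat_lit 304) (nat_lit 158)) (XT.lf (nat_lit 0) (nat_lit 5733880760) (nat_lit 1748) (nat_lit 13111133156) (nat_lit 1824) (nat_lit 208171814) (nat_lit 382) (nat_lit 5) (nat_lit 405) (nat_lit 5) (nat_lit 406) (nat_lit 5) (nat_lit 319) (nat_lit 304) (nat_lit 157)))) (XT.nd (nat_lit 156) (nat_lit 2204) (nat_lit 0) (XT.nd (nat_lit 78) (nat_lit 0) (nat_lit 76) (XT.lf (nat_lit 76) (nat_lit 807667989) (nat_lit 0) (nat_lit 7097341369) (nat_lit 1824) (nat_lit 11454793437) (nat_lit 383) (nat_lit 5) (nat_lit 382) (nat_lit 5) (nat_lit 406) (nat_lit 5) (nat_lit 320) (nat_lit 304) (nat_lit 156)) (XT.lf (nat_lit 0) (nat_lit 10252386035) (nat_lit 1748) (nat_lit 4392653460) (nat_lit 76) (nat_lit 5028363655) (nat_lit 383) (nat_lit 5) (nat_lit 406) (nat_lit 5) (nat_lit 384) (nat_lit 5) (nat_lit 321) (nat_lit 304) (nat_lit 155))) (XT.nd (nat_lit 78)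 (nat_lit 836) (nat_lit 0) (XT.lf (nat_lit 0) (nat_lit 10269866820) (nat_lit 1444) (nat_lit 2503973043) (nat_lit 1520) (nat_lit 7220505392) (nat_lit 364) (nat_lit 5) (nat_lit 383) (nat_lit 5) (nat_lit 384) (nat_lit 5) (nat_lit 322) (nat_lit 304) (nat_lit 154)) (XT.lf (nat_lit 0) (nat_lit 5100786534) (nat_lit 836) (nat_lit 10387938084) (nat_lit 912) (nat_lit 4833841916) (nat_lit 353) (nat_lit 5) (nat_lit 364) (nat_lit 5) (nat_lit 365) (nat_lit 5) (nat_lit 323) (nat_lit 304) (nat_lit 153))))) (XT.nd (nat_lit 234) (nat_lit 2356) (nat_lit 0) (XT.nd (nat_lit 78) (nat_lit 1824) (nat_lit 0) (XT.lf (nat_lit 0) (nat_lit 18371365825) (nat_lit 912) (nat_lit 194907275) (nat_lit 76) (nat_lit 2092641617) (nat_lit 353) (nat_lit 5) (nat_lit 365) (nat_lit 5) (nat_lit 354) (nat_lit 5) (nat_lit 324) (nat_lit 304) (nat_lit 152)) (XT.nd (nat_lit 78) (nat_lit 836) (nat_lit 0) (XT.lf (nat_lit 0) (nat_lit 491596932) (nat_lit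 988) (nat_lit 5598885173) (nat_lit 76) (nat_lit 14911616686) (nat_lit 340) (nat_lit 5) (nat_lit 353) (nat_lit 5) (nat_lit 341) (nat_lit 5) (nat_lit 325) (nat_lit 304) (nat_lit 151)) (XT.lf (nat_lit 0) (nat_lit 3425849574) (nat_lit 912) (nat_lit 11172187106) (nat_lit 76) (nat_lit 6755189041) (nat_lit 329) (nat_lit 5) (nat_lit 341) (nat_lit 5) (nat_lit 330) (nat_lit 5) (nat_lit 326) (nat_lit 304) (nat_lit 150)))) (XT.nd (nat_lit 156) (nat_lit 1520) (nat_lit 0) (XT.nd (nat_lit 78) (nat_lit 0) (nat_lit 0) (XT.lf (nat_lit 0) (nat_lit 4810083647) (nat_lit 836) (nat_lit 1738888660) (nat_lit 912) (nat_lit 15163903100) (nat_lit 318) (nat_lit 5) (nat_lit 329) (nat_lit 5) (nat_lit 330) (nat_lit 5) (nat_lit 327) (nat_lit 304) (nat_lit 149)) (XT.lf (nat_lit 0) (nat_lit 9907609181) (nat_lit 912) (nat_lit 741194295) (nat_lit 76) (nat_lit 11431680328) (nat_lit 318) (nat_lit 5) (nat_lit 330) (nat_lit 5) (nat_lit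 319) (nat_lit 5) (nat_lit 328) (nat_lit 304) (nat_lit 148))) (XT.nd (nat_lit 78) (nat_lit 760) (nat_lit 0) (XT.lf (nat_lit 0) (nat_lit 13491334984) (nat_lit 836) (nat_lit 6377953421) (nat_lit 76) (nat_lit 2587350919) (nat_lit 308) (nat_lit 5) (nat_lit 319) (nat_lit 5) (nat_lit 309) (nat_lit 5) (nat_lit 329) (nat_lit 304) (nat_lit 147)) (XT.lf (nat_lit 0) (nat_lit 10628766502) (nat_lit 760) (nat_lit 6690459256) (nat_lit 836) (nat_lit 5522125993) (nat_lit 298) (nat_lit 5) (nat_lit 308) (nat_lit 5) (nat_lit 309) (nat_lit 5) (nat_lit 330) (nat_lit 304) (nat_lit 146)))))) (XT.nd (nat_lit 546) (nat_lit 3724) (nat_lit 0) (XT.nd (nat_lit 234) (nat_lit 1976) (nat_lit 0) (XT.nd (nat_lit 78) (nat_lit 836) (nat_lit 0) (XT.lf (nat_lit 0) (nat_lit 5008207217) (nat_lit 684) (nat_lit 16366031377) (nat_lit 760) (nat_lit 1861126401) (nat_lit 289) (nat_lit 5) (nat_lit 298) (nat_lit 5) (nat_lit 299) (nat_lit 5) (nat_lit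 331) (nat_lit 304) (nat_lit 145)) (XT.nd (nat_lit 78) (nat_lit 760) (nat_lit 0) (XT.lf (nat_lit 0) (nat_lit 2004403422) (nat_lit 760) (nat_lit 793160376) (nat_lit 76) (nat_lit 20840996836) (nat_lit 288) (nat_lit 5) (nat_lit 298) (nat_lit 5) (nat_lit 289) (nat_lit 5) (nat_lit 332) (nat_lit 304) (nat_lit 144)) (XT.lf (nat_lit 0) (nat_lit 6138883448) (nat_lit 836) (nat_lit 6754148390) (nat_lit 76) (nat_lit 11157013629) (nat_lit 278) (nat_lit 5) (nat_lit 289) (nat_lit 5) (nat_lit 279) (nat_lit 5) (nat_lit 333) (nat_lit 304) (nat_lit 143)))) (XT.nd (nat_lit 156) (nat_lit 608) (nat_lit 0) (XT.nd (nat_lit 78) (nat_lit 684) (nat_lit 0) (XT.lf (nat_lit 0) (nat_lit 10496028519) (nat_lit 760) (nat_lit 12889712690) (nat_lit 76) (nat_lit 1086165646) (nat_lit 269) (nat_lit 5) (nat_lit 279) (nat_lit 5) (nat_lit 270) (nat_lit 5) (nat_lit 334) (nat_lit 304) (nat_lit 142)) (XT.lf (nat_lit 0) (nat_lit 5634438652)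 (nat_lit 684) (nat_lit 9510615067) (nat_lit 760) (nat_lit 9758151536) (nat_lit 260) (nat_lit 5) (nat_lit 269) (nat_lit 5) (nat_lit 270) (nat_lit 5) (nat_lit 335) (nat_lit 304) (nat_lit 141))) (XT.nd (nat_lit 78) (nat_lit 608) (nat_lit 0) (XT.lf (nat_lit 0) (nat_lit 20044968151) (nat_lit 760) (nat_lit 495078542) (nat_lit 76) (nat_lit 4805171904) (nat_lit 260) (nat_lit 5) (nat_lit 270) (nat_lit 5) (nat_lit 261) (nat_lit 5) (nat_lit 336) (nat_lit 304) (nat_lit 140)) (XT.lf (nat_lit 0) (nat_lit 19019393810) (nat_lit 608) (nat_lit 6252249541) (nat_lit 684) (nat_lit 525257951) (nat_lit 252) (nat_lit 5) (nat_lit 260) (nat_lit 5) (nat_lit 261) (nat_lit 5) (nat_lit 337) (nat_lit 304) (nat_lit 139))))) (XT.nd (nat_lit 234) (nat_lit 1748) (nat_lit 0) (XT.nd (nat_lit 78) (nat_lit 1216) (nat_lit 0) (XT.lf (nat_lit 0) (nat_lit 4471639008) (nat_lit 760) (nat_lit 13317976439) (nat_lit 76) (nat_lit 8469227234)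 (nat_lit 242) (nat_lit 5) (nat_lit 252) (nat_lit 5) (nat_lit 243) (nat_lit 5) (nat_lit 338) (nat_lit 304) (nat_lit 138)) (XT.nd (nat_lit 78) (nat_lit 608) (nat_lit 0) (XT.lf (nat_lit 0) (nat_lit 6643098136) (nat_lit 608) (nat_lit 3092357843) (nat_lit 684) (nat_lit 16996637806) (nat_lit 234) (nat_lit 5) (nat_lit 242) (nat_lit 5) (nat_lit 243) (nat_lit 5) (nat_lit 339) (nat_lit 304) (nat_lit 137)) (XT.lf (nat_lit 0) (nat_lit 81590406) (nat_lit 608) (nat_lit 15238261101) (nat_lit 684) (nat_lit 11896441430) (nat_lit 226) (nat_lit 5) (nat_lit 234) (nat_lit 5) (nat_lit 235) (nat_lit 5) (nat_lit 340) (nat_lit 304) (nat_lit 136)))) (XT.nd (nat_lit 156) (nat_lit 1216) (nat_lit 0) (XT.nd (nat_lit 78) (nat_lit 532) (nat_lit 0) (XT.lf (nat_lit 0) (nat_lit 21103215662) (nat_lit 608) (nat_lit 118465846) (nat_lit 684) (nat_lit 6490342188) (nat_lit 226) (nat_lit 5) (nat_lit 234) (nat_lit 5) (nat_lit 235) (nat_lit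 5) (nat_lit 341) (nat_lit 304) (nat_lit 135)) (XT.lf (nat_lit 0) (nat_lit 14616218513) (nat_lit 532) (nat_lit 12873007803) (nat_lit 608) (nat_lit 729630441) (nat_lit 219) (nat_lit 5) (nat_lit 226) (nat_lit 5) (nat_lit 227) (nat_lit 5) (nat_lit 342) (nat_lit 304) (nat_lit 134))) (XT.nd (nat_lit 78) (nat_lit 532) (nat_lit 0) (XT.lf (nat_lit 0) (nat_lit 5243547512) (nat_lit 684) (nat_lit 20866604637) (nat_lit 76) (nat_lit 2627912424) (nat_lit 210) (nat_lit 5) (nat_lit 219) (nat_lit 5) (nat_lit 211) (nat_lit 5) (nat_lit 343) (nat_lit 304) (nat_lit 133)) (XT.lf (nat_lit 0) (nat_lit 816150636) (nat_lit 532) (nat_lit 10747727772) (nat_lit 608) (nat_lit 17705319655) (nat_lit 203) (nat_lit 5) (nat_lit 210) (nat_lit 5) (nat_lit 211) (nat_lit 5) (nat_lit 344) (nat_lit 304) (nat_lit 132))))))))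
noncomputable def xc114 : XT := (XT.nd (nat_lit 39000) (nat_lit 0) (nat_lit 1444) (XT.nd (nat_lit 37908) (nat_lit 0) (nat_lit 15276) (XT.nd (nat_lit 468) (nat_lit 988) (nat_lit 0) (XT.nd (nat_lit 234) (nat_lit 988) (nat_lit 0) (XT.nd (nat_lit 78) (nat_lit 1064) (nat_lit 0) (XT.lf (nat_lit 0) (nat_lit 18242873617) (nat_lit 608) (nat_lit 6420249469) (nat_lit 76) (nat_lit 5149764593) (nat_lit 203) (nat_lit 5) (nat_lit 211) (nat_lit 5) (nat_lit 204) (nat_lit 5) (nat_lit 345) (nat_lit 304) (nat_lit 131)) (XT.nd (nat_lit 78) (nat_lit 532) (nat_lit 0) (XT.lf (nat_lit 0) (nat_lit 16409162398) (nat_lit 532) (nat_lit 8885437168) (nat_lit 608) (nat_lit 5074844316) (nat_lit 196) (nat_lit 5) (nat_lit 203) (nat_lit 5) (nat_lit 204) (nat_lit 5) (nat_lit 346) (nat_lit 304) (nat_lit 130)) (XT.lf (nat_lit 0) (nat_lit 1739934254) (nat_lit 532) (nat_lit 21817748795) (nat_lit 76) (nat_lit 7381888210) (nat_lit 189)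 (nat_lit 5) (nat_lit 196) (nat_lit 5) (nat_lit 190) (nat_lit 5) (nat_lit 347) (nat_lit 304) (nat_lit 129)))) (XT.nd (nat_lit 78) (nat_lit 456) (nat_lit 0) (XT.lf (nat_lit 0) (nat_lit 1480353566) (nat_lit 532) (nat_lit 7368652109) (nat_lit 608) (nat_lit 22673952833) (nat_lit 182) (nat_lit 5) (nat_lit 189) (nat_lit 5) (nat_lit 190) (nat_lit 5) (nat_lit 348) (nat_lit 304) (nat_lit 128)) (XT.nd (nat_lit 78) (nat_lit 456) (nat_lit 0) (XT.lf (nat_lit 0) (nat_lit 16374849060) (nat_lit 608) (nat_lit 6413874696) (nat_lit 76) (nat_lit 9331056418) (nat_lit 182) (nat_lit 5) (nat_lit 190) (nat_lit 5) (nat_lit 183) (nat_lit 5) (nat_lit 349) (nat_lit 304) (nat_lit 127)) (XT.lf (nat_lit 0) (nat_lit 18104477825) (nat_lit 456) (nat_lit 6183236668) (nat_lit 532) (nat_lit 8443569775) (nat_lit 176) (nat_lit 5) (nat_lit 182) (nat_lit 5) (nat_lit 183) (nat_lit 5) (nat_lit 350) (nat_lit 304) (nat_lit 126))))) (XT.nd (nat_lit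 37128) (nat_lit 0) (nat_lit 17632) (XT.nd (nat_lit 78) (nat_lit 532) (nat_lit 0) (XT.lf (nat_lit 0) (nat_lit 10140327061) (nat_lit 456) (nat_lit 22472655727) (nat_lit 532) (nat_lit 744652995) (nat_lit 170) (nat_lit 5) (nat_lit 176) (nat_lit 5) (nat_lit 177) (nat_lit 5) (nat_lit 351) (nat_lit 304) (nat_lit 125)) (XT.nd (nat_lit 36972) (nat_lit 0) (nat_lit 17632) (XT.lf (nat_lit 0) (nat_lit 1777203701) (nat_lit 456) (nat_lit 5461053614) (nat_lit 532) (nat_lit 26760644780) (nat_lit 163) (nat_lit 5) (nat_lit 169) (nat_lit 5) (nat_lit 170) (nat_lit 5) (nat_lit 352) (nat_lit 304) (nat_lit 124)) (XT.lf (nat_lit 0) (nat_lit 2848807391) (nat_lit 1748) (nat_lit 2484082801) (nat_lit 1748) (nat_lit 2484082801) (nat_lit 395) (nat_lit 3) (nat_lit 418) (nat_lit 3) (nat_lit 418) (nat_lit 5) (nat_lit 305) (nat_lit 305) (nat_lit 170)))) (XT.nd (nat_lit 156) (nat_lit 0) (nat_lit 152) (XT.nd (nat_lit 78) (nat_lit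 0) (nat_lit 76) (XT.lf (nat_lit 76) (nat_lit 5889675260) (nat_lit 0) (nat_lit 323346202) (nat_lit 1748) (nat_lit 9646563808) (nat_lit 396) (nat_lit 5) (nat_lit 395) (nat_lit 3) (nat_lit 418) (nat_lit 5) (nat_lit 306) (nat_lit 305) (nat_lit 169)) (XT.lf (nat_lit 76) (nat_lit 987325934) (nat_lit 0) (nat_lit 5848638527) (nat_lit 1748) (nat_lit 9254198366) (nat_lit 397) (nat_lit 5) (nat_lit 396) (nat_lit 5) (nat_lit 419) (nat_lit 5) (nat_lit 307) (nat_lit 305) (nat_lit 168))) (XT.nd (nat_lit 78) (nat_lit 0) (nat_lit 0) (XT.lf (nat_lit 0) (nat_lit 7564005415) (nat_lit 1672) (nat_lit 3958750905) (nat_lit 1748) (nat_lit 4803183466) (nat_lit 397) (nat_lit 5) (nat_lit 419) (nat_lit 5) (nat_lit 420) (nat_lit 5) (nat_lit 308) (nat_lit 305) (nat_lit 167)) (XT.lf (nat_lit 76) (nat_lit 7571606545) (nat_lit 0) (nat_lit 816132294) (nat_lit 1748) (nat_lit 8179584162) (nat_lit 398) (nat_lit 5) (nat_lit 397) (nat_lit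 5) (nat_lit 420) (nat_lit 5) (nat_lit 309) (nat_lit 305) (nat_lit 166)))))) (XT.nd (nat_lit 546) (nat_lit 2584) (nat_lit 0) (XT.nd (nat_lit 234) (nat_lit 0) (nat_lit 152) (XT.nd (nat_lit 78) (nat_lit 0) (nat_lit 76) (XT.lf (nat_lit 76) (nat_lit 2646444087) (nat_lit 0) (nat_lit 6686212024) (nat_lit 1748) (nat_lit 7481371848) (nat_lit 399) (nat_lit 5) (nat_lit 398) (nat_lit 5) (nat_lit 421) (nat_lit 5) (nat_lit 310) (nat_lit 305) (nat_lit 165)) (XT.nd (nat_lit 78) (nat_lit 0) (nat_lit 0) (XT.lf (nat_lit 0) (nat_lit 10387133137) (nat_lit 1672) (nat_lit 2348408912) (nat_lit 1748) (nat_lit 4330977168) (nat_lit 399) (nat_lit 5) (nat_lit 421) (nat_lit 5) (nat_lit 422) (nat_lit 5) (nat_lit 311) (nat_lit 305) (nat_lit 164)) (XT.lf (nat_lit 76) (nat_lit 9902128999) (nat_lit 0) (nat_lit 1666891223) (nat_lit 1748) (nat_lit 5755658602) (nat_lit 400) (nat_lit 5) (nat_lit 399) (nat_lit 5) (nat_lit 422) (nat_lit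 5) (nat_lit 312) (nat_lit 305) (nat_lit 163)))) (XT.nd (nat_lit 156) (nat_lit 0) (nat_lit 76) (XT.nd (nat_lit 78) (nat_lit 0) (nat_lit 76) (XT.lf (nat_lit 76) (nat_lit 4955220102) (nat_lit 0) (nat_lit 7929666815) (nat_lit 1748) (nat_lit 4703734702) (nat_lit 401) (nat_lit 5) (nat_lit 400) (nat_lit 5) (nat_lit 423) (nat_lit 5) (nat_lit 313) (nat_lit 305) (nat_lit 162)) (XT.lf (nat_lit 0) (nat_lit 14311760457) (nat_lit 1672) (nat_lit 95981897) (nat_lit 1748) (nat_lit 3451318328) (nat_lit 401) (nat_lit 5) (nat_lit 423) (nat_lit 5) (nat_lit 424) (nat_lit 5) (nat_lit 314) (nat_lit 305) (nat_lit 161))) (XT.nd (nat_lit 78) (nat_lit 0) (nat_lit 76) (XT.lf (nat_lit 76) (nat_lit 12925629421) (nat_lit 0) (nat_lit 2980606732) (nat_lit 1748) (nat_lit 2228889197) (nat_lit 402) (nat_lit 5) (nat_lit 401) (nat_lit 5) (nat_lit 424) (nat_lit 5) (nat_lit 315) (nat_lit 305) (nat_lit 160)) (XT.lf (nat_lit 76) (nat_lit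 7958495136) (nat_lit 0) (nat_lit 9687612152) (nat_lit 1748) (nat_lit 771421552) (nat_lit 403) (nat_lit 5) (nat_lit 402) (nat_lit 5) (nat_lit 425) (nat_lit 5) (nat_lit 316) (nat_lit 305) (nat_lit 159))))) (XT.nd (nat_lit 234) (nat_lit 1216) (nat_lit 0) (XT.nd (nat_lit 78) (nat_lit 0) (nat_lit 0) (XT.lf (nat_lit 0) (nat_lit 796480087) (nat_lit 1748) (nat_lit 15831194200) (nat_lit 1824) (nat_lit 2079117483) (nat_lit 380) (nat_lit 5) (nat_lit 403) (nat_lit 5) (nat_lit 404) (nat_lit 5) (nat_lit 317) (nat_lit 305) (nat_lit 158)) (XT.nd (nat_lit 78) (nat_lit 0) (nat_lit 76) (XT.lf (nat_lit 0) (nat_lit 2525803169) (nat_lit 1748) (nat_lit 2328988748) (nat_lit 1824) (nat_lit 14147348881) (nat_lit 380) (nat_lit 5) (nat_lit 403) (nat_lit 5) (nat_lit 404) (nat_lit 5) (nat_lit 318) (nat_lit 305) (nat_lit 157)) (XT.lf (nat_lit 0) (nat_lit 4419860570) (nat_lit 1748) (nat_lit 7629185299) (nat_lit 1824) (nat_lit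 7255054610) (nat_lit 381) (nat_lit 5) (nat_lit 404) (nat_lit 5) (nat_lit 405) (nat_lit 5) (nat_lit 319) (nat_lit 305) (nat_lit 156)))) (XT.nd (nat_lit 156) (nat_lit 1368) (nat_lit 0) (XT.nd (nat_lit 78) (nat_lit 0) (nat_lit 0) (XT.lf (nat_lit 0) (nat_lit 6451693003) (nat_lit 1748) (nat_lit 13053285378) (nat_lit 1824) (nat_lit 108528566) (nat_lit 382) (nat_lit 5) (nat_lit 405) (nat_lit 5) (nat_lit 406) (nat_lit 5) (nat_lit 320) (nat_lit 305) (nat_lit 155)) (XT.lf (nat_lit 76) (nat_lit 1275759913) (nat_lit 0) (nat_lit 7399180426) (nat_lit 1824) (nat_lit 11254652926) (nat_lit 383) (nat_lit 5) (nat_lit 382) (nat_lit 5) (nat_lit 406) (nat_lit 5) (nat_lit 321) (nat_lit 305) (nat_lit 154))) (XT.nd (nat_lit 78) (nat_lit 1444) (nat_lit 0) (XT.lf (nat_lit 0) (nat_lit 11076659928) (nat_lit 1748) (nat_lit 4082255571) (nat_lit 76) (nat_lit 5094017837) (nat_lit 383) (nat_lit 5) (nat_lit 406) (nat_lit 5) (nat_lit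 384) (nat_lit 5) (nat_lit 322) (nat_lit 305) (nat_lit 153)) (XT.lf (nat_lit 0) (nat_lit 11012966513) (nat_lit 1444) (nat_lit 2648565608) (nat_lit 1520) (nat_lit 6922225928) (nat_lit 364) (nat_lit 5) (nat_lit 383) (nat_lit 5) (nat_lit 384) (nat_lit 5) (nat_lit 323) (nat_lit 305) (nat_lit 152))))))) (XT.nd (nat_lit 1014) (nat_lit 5928) (nat_lit 0) (XT.nd (nat_lit 468) (nat_lit 4408) (nat_lit 0) (XT.nd (nat_lit 234) (nat_lit 1672) (nat_lit 0) (XT.nd (nat_lit 78) (nat_lit 988) (nat_lit 0) (XT.lf (nat_lit 0) (nat_lit 5692448702) (nat_lit 836) (nat_lit 10753131214) (nat_lit 912) (nat_lit 4476501275) (nat_lit 353) (nat_lit 5) (nat_lit 364) (nat_lit 5) (nat_lit 365) (nat_lit 5) (nat_lit 324) (nat_lit 305) (nat_lit 151)) (XT.nd (nat_lit 78) (nat_lit 76) (nat_lit 0) (XT.lf (nat_lit 0) (nat_lit 238439307) (nat_lit 912) (nat_lit 19163135835) (nat_lit 988) (nat_lit 1867216456) (nat_lit 341) (nat_lit 5) (nat_lit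 353) (nat_lit 5) (nat_lit 354) (nat_lit 5) (nat_lit 325) (nat_lit 305) (nat_lit 150)) (XT.lf (nat_lit 0) (nat_lit 976126994) (nat_lit 988) (nat_lit 5331322306) (nat_lit 76) (nat_lit 15315022511) (nat_lit 340) (nat_lit 5) (nat_lit 353) (nat_lit 5) (nat_lit 341) (nat_lit 5) (nat_lit 326) (nat_lit 305) (nat_lit 149)))) (XT.nd (nat_lit 78) (nat_lit 836) (nat_lit 0) (XT.lf (nat_lit 0) (nat_lit 3987308618) (nat_lit 912) (nat_lit 11069228403) (nat_lit 76) (nat_lit 6927826072) (nat_lit 329) (nat_lit 5) (nat_lit 341) (nat_lit 5) (nat_lit 330) (nat_lit 5) (nat_lit 327) (nat_lit 305) (nat_lit 148)) (XT.nd (nat_lit 78) (nat_lit 0) (nat_lit 0) (XT.lf (nat_lit 0) (nat_lit 5385402426) (nat_lit 836) (nat_lit 1808161336) (nat_lit 912) (nat_lit 15161458055) (nat_lit 318) (nat_lit 5) (nat_lit 329) (nat_lit 5) (nat_lit 330) (nat_lit 5) (nat_lit 328) (nat_lit 305) (nat_lit 147)) (XT.lf (nat_lit 0) (nat_lit 10639799808)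 (nat_lit 912) (nat_lit 335889167) (nat_lit 76) (nat_lit 11758240770) (nat_lit 318) (nat_lit 5) (nat_lit 330) (nat_lit 5) (nat_lit 319) (nat_lit 5) (nat_lit 329) (nat_lit 305) (nat_lit 146))))) (XT.nd (nat_lit 234) (nat_lit 2204) (nat_lit 0) (XT.nd (nat_lit 78) (nat_lit 1444) (nat_lit 0) (XT.lf (nat_lit 0) (nat_lit 14321070726) (nat_lit 836) (nat_lit 6139896745) (nat_lit 76) (nat_lit 2660609637) (nat_lit 308) (nat_lit 5) (nat_lit 319) (nat_lit 5) (nat_lit 309) (nat_lit 5) (nat_lit 330) (nat_lit 305) (nat_lit 145)) (XT.nd (nat_lit 78) (nat_lit 684) (nat_lit 0) (XT.lf (nat_lit 0) (nat_lit 11370058348) (nat_lit 760) (nat_lit 6884104048) (nat_lit 836) (nat_lit 5263868843) (nat_lit 298) (nat_lit 5) (nat_lit 308) (nat_lit 5) (nat_lit 309) (nat_lit 5) (nat_lit 331) (nat_lit 305) (nat_lit 144)) (XT.lf (nat_lit 0) (nat_lit 5582405898) (nat_lit 684) (nat_lit 16839119001) (nat_lit 760) (nat_lit 1502533392)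 (nat_lit 289) (nat_lit 5) (nat_lit 298) (nat_lit 5) (nat_lit 299) (nat_lit 5) (nat_lit 332) (nat_lit 305) (nat_lit 143)))) (XT.nd (nat_lit 156) (nat_lit 1368) (nat_lit 0) (XT.nd (nat_lit 78) (nat_lit 760) (nat_lit 0) (XT.lf (nat_lit 0) (nat_lit 2461614670) (nat_lit 760) (nat_lit 399839279) (nat_lit 76) (nat_lit 21478087320) (nat_lit 288) (nat_lit 5) (nat_lit 298) (nat_lit 5) (nat_lit 289) (nat_lit 5) (nat_lit 333) (nat_lit 305) (nat_lit 142)) (XT.lf (nat_lit 0) (nat_lit 6711371887) (nat_lit 836) (nat_lit 6538576762) (nat_lit 76) (nat_lit 11513603975) (nat_lit 278) (nat_lit 5) (nat_lit 289) (nat_lit 5) (nat_lit 279) (nat_lit 5) (nat_lit 334) (nat_lit 305) (nat_lit 141))) (XT.nd (nat_lit 78) (nat_lit 684) (nat_lit 0) (XT.lf (nat_lit 0) (nat_lit 11190798121) (nat_lit 760) (nat_lit 12857383939) (nat_lit 76) (nat_lit 1150063091) (nat_lit 269) (nat_lit 5) (nat_lit 279) (nat_lit 5) (nat_lit 270) (nat_lit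 5) (nat_lit 335) (nat_lit 305) (nat_lit 140)) (XT.lf (nat_lit 0) (nat_lit 6215693840) (nat_lit 684) (nat_lit 9755211936) (nat_lit 760) (nat_lit 9671750935) (nat_lit 260) (nat_lit 5) (nat_lit 269) (nat_lit 5) (nat_lit 270) (nat_lit 5) (nat_lit 336) (nat_lit 305) (nat_lit 139)))))) (XT.nd (nat_lit 546) (nat_lit 2812) (nat_lit 0) (XT.nd (nat_lit 234) (nat_lit 1748) (nat_lit 0) (XT.nd (nat_lit 78) (nat_lit 1368) (nat_lit 0) (XT.lf (nat_lit 0) (nat_lit 21007253930) (nat_lit 760) (nat_lit 102549986) (nat_lit 76) (nat_lit 4988344063) (nat_lit 260) (nat_lit 5) (nat_lit 270) (nat_lit 5) (nat_lit 261) (nat_lit 5) (nat_lit 337) (nat_lit 305) (nat_lit 138)) (XT.nd (nat_lit 78) (nat_lit 760) (nat_lit 0) (XT.lf (nat_lit 0) (nat_lit 19990747264) (nat_lit 608) (nat_lit 6392071476) (nat_lit 684) (nat_lit 180726709) (nat_lit 252) (nat_lit 5) (nat_lit 260) (nat_lit 5) (nat_lit 261) (nat_lit 5) (nat_lit 338) (nat_lit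 305) (nat_lit 137)) (XT.lf (nat_lit 0) (nat_lit 4953920156) (nat_lit 760) (nat_lit 13311586929) (nat_lit 76) (nat_lit 8773945615) (nat_lit 242) (nat_lit 5) (nat_lit 252) (nat_lit 5) (nat_lit 243) (nat_lit 5) (nat_lit 339) (nat_lit 305) (nat_lit 136)))) (XT.nd (nat_lit 156) (nat_lit 532) (nat_lit 0) (XT.nd (nat_lit 78) (nat_lit 608) (nat_lit 0) (XT.lf (nat_lit 0) (nat_lit 7241734171) (nat_lit 608) (nat_lit 3126370499) (nat_lit 684) (nat_lit 17158953216) (nat_lit 234) (nat_lit 5) (nat_lit 242) (nat_lit 5) (nat_lit 243) (nat_lit 5) (nat_lit 340) (nat_lit 305) (nat_lit 135)) (XT.lf (nat_lit 0) (nat_lit 483412201) (nat_lit 608) (nat_lit 15629663297) (nat_lit 684) (nat_lit 11912852093) (nat_lit 226) (nat_lit 5) (nat_lit 234) (nat_lit 5) (nat_lit 235) (nat_lit 5) (nat_lit 341) (nat_lit 305) (nat_lit 134))) (XT.nd (nat_lit 78) (nat_lit 532) (nat_lit 0) (XT.lf (nat_lit 0) (nat_lit 22124053960) (nat_lit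 608) (nat_lit 58189106) (nat_lit 684) (nat_lit 6354486842) (nat_lit 226) (nat_lit 5) (nat_lit 234) (nat_lit 5) (nat_lit 235) (nat_lit 5) (nat_lit 342) (nat_lit 305) (nat_lit 133)) (XT.lf (nat_lit 0) (nat_lit 15442295077) (nat_lit 532) (nat_lit 13189003690) (nat_lit 608) (nat_lit 427604638) (nat_lit 219) (nat_lit 5) (nat_lit 226) (nat_lit 5) (nat_lit 227) (nat_lit 5) (nat_lit 343) (nat_lit 305) (nat_lit 132))))) (XT.nd (nat_lit 234) (nat_lit 1596) (nat_lit 0) (XT.nd (nat_lit 78) (nat_lit 532) (nat_lit 0) (XT.lf (nat_lit 0) (nat_lit 5714186227) (nat_lit 684) (nat_lit 21101009096) (nat_lit 76) (nat_lit 2778581641) (nat_lit 210) (nat_lit 5) (nat_lit 219) (nat_lit 5) (nat_lit 211) (nat_lit 5) (nat_lit 344) (nat_lit 305) (nat_lit 131)) (XT.nd (nat_lit 78) (nat_lit 0) (nat_lit 0) (XT.lf (nat_lit 0) (nat_lit 1225875693) (nat_lit 532) (nat_lit 10991626411) (nat_lit 608) (nat_lit 17923479599) (nat_lit 203)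 (nat_lit 5) (nat_lit 210) (nat_lit 5) (nat_lit 211) (nat_lit 5) (nat_lit 345) (nat_lit 305) (nat_lit 130)) (XT.lf (nat_lit 0) (nat_lit 19088428984) (nat_lit 608) (nat_lit 6233223021) (nat_lit 76) (nat_lit 5379503372) (nat_lit 203) (nat_lit 5) (nat_lit 211) (nat_lit 5) (nat_lit 204) (nat_lit 5) (nat_lit 346) (nat_lit 305) (nat_lit 129)))) (XT.nd (nat_lit 156) (nat_lit 532) (nat_lit 0) (XT.nd (nat_lit 78) (nat_lit 532) (nat_lit 0) (XT.lf (nat_lit 0) (nat_lit 17274912093) (nat_lit 532) (nat_lit 9070532014) (nat_lit 608) (nat_lit 4929093884) (nat_lit 196) (nat_lit 5) (nat_lit 203) (nat_lit 5) (nat_lit 204) (nat_lit 5) (nat_lit 347) (nat_lit 305) (nat_lit 128)) (XT.lf (nat_lit 0) (nat_lit 2080607472) (nat_lit 532) (nat_lit 22095518366) (nat_lit 76) (nat_lit 7685721158) (nat_lit 189) (nat_lit 5) (nat_lit 196) (nat_lit 5) (nat_lit 190) (nat_lit 5) (nat_lit 348) (nat_lit 305) (nat_lit 127))) (XT.nd (nat_lit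 78) (nat_lit 0) (nat_lit 0) (XT.lf (nat_lit 0) (nat_lit 1895414535) (nat_lit 532) (nat_lit 7501540818) (nat_lit 608) (nat_lit 23065904556) (nat_lit 182) (nat_lit 5) (nat_lit 189) (nat_lit 5) (nat_lit 190) (nat_lit 5) (nat_lit 349) (nat_lit 305) (nat_lit 126)) (XT.lf (nat_lit 0) (nat_lit 17140902271) (nat_lit 608) (nat_lit 6241373215) (nat_lit 76) (nat_lit 9695468186) (nat_lit 182) (nat_lit 5) (nat_lit 190) (nat_lit 5) (nat_lit 183) (nat_lit 5) (nat_lit 350) (nat_lit 305) (nat_lit 125))))))))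
noncomputable def xc115 : XT := (XT.nd (nat_lit 39078) (nat_lit 0) (nat_lit 912) (XT.nd (nat_lit 37986) (nat_lit 0) (nat_lit 10488) (XT.nd (nat_lit 37440) (nat_lit 0) (nat_lit 17252) (XT.nd (nat_lit 37206) (nat_lit 0) (nat_lit 17100) (XT.nd (nat_lit 78) (nat_lit 456) (nat_lit 0) (XT.lf (nat_lit 0) (nat_lit 19006609524) (nat_lit 456) (nat_lit 6278870884) (nat_lit 532) (nat_lit 8422229843) (nat_lit 176) (nat_lit 5) (nat_lit 182) (nat_lit 5) (nat_lit 183) (nat_lit 5) (nat_lit 351) (nat_lit 305) (nat_lit 124)) (XT.nd (nat_lit 37050) (nat_lit 0) (nat_lit 17100) (XT.lf (nat_lit 0) (nat_lit 10802559059) (nat_lit 456) (nat_lit 23052999798) (nat_lit 532) (nat_lit 497396195) (nat_lit 170) (nat_lit 5) (nat_lit 176) (nat_lit 5) (nat_lit 177) (nat_lit 5) (nat_lit 352) (nat_lit 305) (nat_lit 123)) (XT.lf (nat_lit 0) (nat_lit 3322209106) (nat_lit 1748) (nat_lit 2360622937) (nat_lit 1748) (nat_lit 2360622937)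 (nat_lit 395) (nat_lit 3) (nat_lit 418) (nat_lit 3) (nat_lit 418) (nat_lit 5) (nat_lit 306) (nat_lit 306) (nat_lit 168)))) (XT.nd (nat_lit 78) (nat_lit 0) (nat_lit 76) (XT.lf (nat_lit 76) (nat_lit 6455906157) (nat_lit 0) (nat_lit 699311789) (nat_lit 1748) (nat_lit 9164517496) (nat_lit 396) (nat_lit 5) (nat_lit 395) (nat_lit 3) (nat_lit 418) (nat_lit 5) (nat_lit 307) (nat_lit 306) (nat_lit 167)) (XT.nd (nat_lit 78) (nat_lit 0) (nat_lit 76) (XT.lf (nat_lit 76) (nat_lit 1417889661) (nat_lit 0) (nat_lit 6357240232) (nat_lit 1748) (nat_lit 8782550001) (nat_lit 397) (nat_lit 5) (nat_lit 396) (nat_lit 5) (nat_lit 419) (nat_lit 5) (nat_lit 308) (nat_lit 306) (nat_lit 166)) (XT.lf (nat_lit 0) (nat_lit 8501530934) (nat_lit 1672) (nat_lit 3671402025) (nat_lit 1748) (nat_lit 4628081567) (nat_lit 397) (nat_lit 5) (nat_lit 419) (nat_lit 5) (nat_lit 420) (nat_lit 5) (nat_lit 309) (nat_lit 306) (nat_lit 165)))))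 (XT.nd (nat_lit 234) (nat_lit 0) (nat_lit 152) (XT.nd (nat_lit 78) (nat_lit 0) (nat_lit 76) (XT.lf (nat_lit 76) (nat_lit 8198277473) (nat_lit 0) (nat_lit 1133595611) (nat_lit 1748) (nat_lit 7718142531) (nat_lit 398) (nat_lit 5) (nat_lit 397) (nat_lit 5) (nat_lit 420) (nat_lit 5) (nat_lit 310) (nat_lit 306) (nat_lit 164)) (XT.nd (nat_lit 78) (nat_lit 0) (nat_lit 76) (XT.lf (nat_lit 76) (nat_lit 3134844351) (nat_lit 0) (nat_lit 7150932291) (nat_lit 1748) (nat_lit 7018746197) (nat_lit 399) (nat_lit 5) (nat_lit 398) (nat_lit 5) (nat_lit 421) (nat_lit 5) (nat_lit 311) (nat_lit 306) (nat_lit 163)) (XT.lf (nat_lit 0) (nat_lit 11350616952) (nat_lit 1672) (nat_lit 2006581730) (nat_lit 1748) (nat_lit 4207829063) (nat_lit 399) (nat_lit 5) (nat_lit 421) (nat_lit 5) (nat_lit 422) (nat_lit 5) (nat_lit 312) (nat_lit 306) (nat_lit 162)))) (XT.nd (nat_lit 156) (nat_lit 0) (nat_lit 152) (XT.nd (nat_lit 78) (nat_lit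 0) (nat_lit 76) (XT.lf (nat_lit 76) (nat_lit 10604783574) (nat_lit 0) (nat_lit 1946823940) (nat_lit 1748) (nat_lit 5279664786) (nat_lit 400) (nat_lit 5) (nat_lit 399) (nat_lit 5) (nat_lit 422) (nat_lit 5) (nat_lit 313) (nat_lit 306) (nat_lit 161)) (XT.lf (nat_lit 76) (nat_lit 5517289392) (nat_lit 0) (nat_lit 8372385422) (nat_lit 1748) (nat_lit 4213816789) (nat_lit 401) (nat_lit 5) (nat_lit 400) (nat_lit 5) (nat_lit 423) (nat_lit 5) (nat_lit 314) (nat_lit 306) (nat_lit 160))) (XT.nd (nat_lit 78) (nat_lit 0) (nat_lit 0) (XT.lf (nat_lit 76) (nat_lit 320419878) (nat_lit 0) (nat_lit 15021716882) (nat_lit 1748) (nat_lit 3040263778) (nat_lit 402) (nat_lit 5) (nat_lit 401) (nat_lit 5) (nat_lit 424) (nat_lit 5) (nat_lit 315) (nat_lit 306) (nat_lit 159)) (XT.lf (nat_lit 76) (nat_lit 13721743010) (nat_lit 0) (nat_lit 3245829638) (nat_lit 1748) (nat_lit 1699523963) (nat_lit 402) (nat_lit 5) (nat_lit 401) (nat_lit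 5) (nat_lit 424) (nat_lit 5) (nat_lit 316) (nat_lit 306) (nat_lit 158)))))) (XT.nd (nat_lit 546) (nat_lit 5472) (nat_lit 0) (XT.nd (nat_lit 234) (nat_lit 0) (nat_lit 76) (XT.nd (nat_lit 78) (nat_lit 1672) (nat_lit 0) (XT.lf (nat_lit 76) (nat_lit 8611979186) (nat_lit 0) (nat_lit 10132231174) (nat_lit 1748) (nat_lit 214082075) (nat_lit 403) (nat_lit 5) (nat_lit 402) (nat_lit 5) (nat_lit 425) (nat_lit 5) (nat_lit 317) (nat_lit 306) (nat_lit 157)) (XT.nd (nat_lit 78) (nat_lit 0) (nat_lit 0) (XT.lf (nat_lit 0) (nat_lit 1378329474) (nat_lit 1748) (nat_lit 15877790169) (nat_lit 1824) (nat_lit 2000347589) (nat_lit 380) (nat_lit 5) (nat_lit 403) (nat_lit 5) (nat_lit 404) (nat_lit 5) (nat_lit 318) (nat_lit 306) (nat_lit 156)) (XT.lf (nat_lit 0) (nat_lit 3143281132) (nat_lit 1748) (nat_lit 1982994471) (nat_lit 1824) (nat_lit 14434736903) (nat_lit 380) (nat_lit 5) (nat_lit 403) (nat_lit 5) (nat_lit 404) (nat_lit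 5) (nat_lit 319) (nat_lit 306) (nat_lit 155)))) (XT.nd (nat_lit 156) (nat_lit 0) (nat_lit 76) (XT.nd (nat_lit 78) (nat_lit 0) (nat_lit 76) (XT.lf (nat_lit 0) (nat_lit 5080263084) (nat_lit 1748) (nat_lit 7437248523) (nat_lit 1824) (nat_lit 7354807753) (nat_lit 381) (nat_lit 5) (nat_lit 404) (nat_lit 5) (nat_lit 405) (nat_lit 5) (nat_lit 320) (nat_lit 306) (nat_lit 154)) (XT.lf (nat_lit 0) (nat_lit 7159708701) (nat_lit 1748) (nat_lit 13019601845) (nat_lit 1824) (nat_lit 11974447) (nat_lit 382) (nat_lit 5) (nat_lit 405) (nat_lit 5) (nat_lit 406) (nat_lit 5) (nat_lit 321) (nat_lit 306) (nat_lit 153))) (XT.nd (nat_lit 78) (nat_lit 0) (nat_lit 76) (XT.lf (nat_lit 76) (nat_lit 1732415108) (nat_lit 0) (nat_lit 7704970351) (nat_lit 1824) (nat_lit 11079723644) (nat_lit 383) (nat_lit 5) (nat_lit 382) (nat_lit 5) (nat_lit 406) (nat_lit 5) (nat_lit 322) (nat_lit 306) (nat_lit 152)) (XT.lf (nat_lit 0) (nat_lit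 11896001210) (nat_lit 1748) (nat_lit 3787928542) (nat_lit 76) (nat_lit 5166532285) (nat_lit 383) (nat_lit 5) (nat_lit 406) (nat_lit 5) (nat_lit 384) (nat_lit 5) (nat_lit 323) (nat_lit 306) (nat_lit 151))))) (XT.nd (nat_lit 234) (nat_lit 2508) (nat_lit 0) (XT.nd (nat_lit 78) (nat_lit 1748) (nat_lit 0) (XT.lf (nat_lit 0) (nat_lit 11753388206) (nat_lit 1444) (nat_lit 2793507894) (nat_lit 1520) (nat_lit 6644555138) (nat_lit 364) (nat_lit 5) (nat_lit 383) (nat_lit 5) (nat_lit 384) (nat_lit 5) (nat_lit 324) (nat_lit 306) (nat_lit 150)) (XT.nd (nat_lit 78) (nat_lit 912) (nat_lit 0) (XT.lf (nat_lit 0) (nat_lit 6276681085) (nat_lit 836) (nat_lit 11126205863) (nat_lit 912) (nat_lit 4137277698) (nat_lit 353) (nat_lit 5) (nat_lit 364) (nat_lit 5) (nat_lit 365) (nat_lit 5) (nat_lit 325) (nat_lit 306) (nat_lit 149)) (XT.lf (nat_lit 0) (nat_lit 662089538) (nat_lit 912) (nat_lit 19774345655) (nat_lit 988) (nat_lit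 1461072453) (nat_lit 341) (nat_lit 5) (nat_lit 353) (nat_lit 5) (nat_lit 354) (nat_lit 5) (nat_lit 326) (nat_lit 306) (nat_lit 148)))) (XT.nd (nat_lit 156) (nat_lit 1596) (nat_lit 0) (XT.nd (nat_lit 78) (nat_lit 836) (nat_lit 0) (XT.lf (nat_lit 0) (nat_lit 1448225540) (nat_lit 988) (nat_lit 5080733723) (nat_lit 76) (nat_lit 15733053000) (nat_lit 340) (nat_lit 5) (nat_lit 353) (nat_lit 5) (nat_lit 341) (nat_lit 5) (nat_lit 327) (nat_lit 306) (nat_lit 147)) (XT.lf (nat_lit 0) (nat_lit 4539281121) (nat_lit 912) (nat_lit 10988331067) (nat_lit 76) (nat_lit 7107365405) (nat_lit 329) (nat_lit 5) (nat_lit 341) (nat_lit 5) (nat_lit 330) (nat_lit 5) (nat_lit 328) (nat_lit 306) (nat_lit 146))) (XT.nd (nat_lit 78) (nat_lit 760) (nat_lit 0) (XT.lf (nat_lit 0) (nat_lit 5953238671) (nat_lit 836) (nat_lit 1878530236) (nat_lit 912) (nat_lit 15185194117) (nat_lit 318) (nat_lit 5) (nat_lit 329) (nat_lit 5) (nat_lit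 330) (nat_lit 5) (nat_lit 329) (nat_lit 306) (nat_lit 145)) (XT.lf (nat_lit 0) (nat_lit 57790446) (nat_lit 760) (nat_lit 11311572302) (nat_lit 836) (nat_lit 12038123644) (nat_lit 308) (nat_lit 5) (nat_lit 318) (nat_lit 5) (nat_lit 319) (nat_lit 5) (nat_lit 330) (nat_lit 306) (nat_lit 144))))))) (XT.nd (nat_lit 1092) (nat_lit 2812) (nat_lit 0) (XT.nd (nat_lit 546) (nat_lit 3116) (nat_lit 0) (XT.nd (nat_lit 234) (nat_lit 2204) (nat_lit 0) (XT.nd (nat_lit 78) (nat_lit 1444) (nat_lit 0) (XT.lf (nat_lit 0) (nat_lit 15151302049) (nat_lit 836) (nat_lit 5919347413) (nat_lit 76) (nat_lit 2736316502) (nat_lit 308) (nat_lit 5) (nat_lit 319) (nat_lit 5) (nat_lit 309) (nat_lit 5) (nat_lit 331) (nat_lit 306) (nat_lit 143)) (XT.nd (nat_lit 78) (nat_lit 684) (nat_lit 0) (XT.lf (nat_lit 0) (nat_lit 12109339806) (nat_lit 760) (nat_lit 7083963972) (nat_lit 836) (nat_lit 5022198774) (nat_lit 298) (nat_lit 5) (nat_lit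 308) (nat_lit 5) (nat_lit 309) (nat_lit 5) (nat_lit 332) (nat_lit 306) (nat_lit 142)) (XT.lf (nat_lit 0) (nat_lit 6149493933) (nat_lit 684) (nat_lit 17327426402) (nat_lit 760) (nat_lit 1156972386) (nat_lit 289) (nat_lit 5) (nat_lit 298) (nat_lit 5) (nat_lit 299) (nat_lit 5) (nat_lit 333) (nat_lit 306) (nat_lit 141)))) (XT.nd (nat_lit 156) (nat_lit 1368) (nat_lit 0) (XT.nd (nat_lit 78) (nat_lit 760) (nat_lit 0) (XT.lf (nat_lit 0) (nat_lit 2909748287) (nat_lit 760) (nat_lit 18662708) (nat_lit 76) (nat_lit 22133609673) (nat_lit 288) (nat_lit 5) (nat_lit 298) (nat_lit 5) (nat_lit 289) (nat_lit 5) (nat_lit 334) (nat_lit 306) (nat_lit 140)) (XT.lf (nat_lit 0) (nat_lit 7278743711) (nat_lit 836) (nat_lit 6340544151) (nat_lit 76) (nat_lit 11879636033) (nat_lit 278) (nat_lit 5) (nat_lit 289) (nat_lit 5) (nat_lit 279) (nat_lit 5) (nat_lit 335) (nat_lit 306) (nat_lit 139))) (XT.nd (nat_lit 78) (nat_lit 684)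 (nat_lit 0) (XT.lf (nat_lit 0) (nat_lit 11884603643) (nat_lit 760) (nat_lit 12848138796) (nat_lit 76) (nat_lit 1214079995) (nat_lit 269) (nat_lit 5) (nat_lit 279) (nat_lit 5) (nat_lit 270) (nat_lit 5) (nat_lit 336) (nat_lit 306) (nat_lit 138)) (XT.lf (nat_lit 0) (nat_lit 6790723452) (nat_lit 684) (nat_lit 10009484297) (nat_lit 760) (nat_lit 9604522798) (nat_lit 260) (nat_lit 5) (nat_lit 269) (nat_lit 5) (nat_lit 270) (nat_lit 5) (nat_lit 337) (nat_lit 306) (nat_lit 137))))) (XT.nd (nat_lit 234) (nat_lit 1748) (nat_lit 0) (XT.nd (nat_lit 78) (nat_lit 760) (nat_lit 0) (XT.lf (nat_lit 0) (nat_lit 282068473) (nat_lit 608) (nat_lit 21697451939) (nat_lit 684) (nat_lit 4894534554) (nat_lit 252) (nat_lit 5) (nat_lit 260) (nat_lit 5) (nat_lit 261) (nat_lit 5) (nat_lit 338) (nat_lit 306) (nat_lit 136)) (XT.nd (nat_lit 78) (nat_lit 684) (nat_lit 0) (XT.lf (nat_lit 0) (nat_lit 151445773) (nat_lit 684) (nat_lit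 6386366804) (nat_lit 76) (nat_lit 20815773337) (nat_lit 251) (nat_lit 5) (nat_lit 260) (nat_lit 5) (nat_lit 252) (nat_lit 5) (nat_lit 339) (nat_lit 306) (nat_lit 135)) (XT.lf (nat_lit 0) (nat_lit 5430685538) (nat_lit 760) (nat_lit 13328307707) (nat_lit 76) (nat_lit 9084898513) (nat_lit 242) (nat_lit 5) (nat_lit 252) (nat_lit 5) (nat_lit 243) (nat_lit 5) (nat_lit 340) (nat_lit 306) (nat_lit 134)))) (XT.nd (nat_lit 156) (nat_lit 532) (nat_lit 0) (XT.nd (nat_lit 78) (nat_lit 608) (nat_lit 0) (XT.lf (nat_lit 0) (nat_lit 7835405360) (nat_lit 608) (nat_lit 3164776489) (nat_lit 684) (nat_lit 17346090816) (nat_lit 234) (nat_lit 5) (nat_lit 242) (nat_lit 5) (nat_lit 243) (nat_lit 5) (nat_lit 341) (nat_lit 306) (nat_lit 133)) (XT.lf (nat_lit 0) (nat_lit 874362944) (nat_lit 608) (nat_lit 16036581627) (nat_lit 684) (nat_lit 11949300169) (nat_lit 226) (nat_lit 5) (nat_lit 234) (nat_lit 5) (nat_lit 235) (nat_lit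 5) (nat_lit 342) (nat_lit 306) (nat_lit 132))) (XT.nd (nat_lit 78) (nat_lit 532) (nat_lit 0) (XT.lf (nat_lit 0) (nat_lit 23153029153) (nat_lit 684) (nat_lit 6233301367) (nat_lit 76) (nat_lit 228751) (nat_lit 226) (nat_lit 5) (nat_lit 235) (nat_lit 5) (nat_lit 227) (nat_lit 5) (nat_lit 343) (nat_lit 306) (nat_lit 131)) (XT.lf (nat_lit 0) (nat_lit 16270904685) (nat_lit 532) (nat_lit 13518508895) (nat_lit 608) (nat_lit 135112091) (nat_lit 219) (nat_lit 5) (nat_lit 226) (nat_lit 5) (nat_lit 227) (nat_lit 5) (nat_lit 344) (nat_lit 306) (nat_lit 130)))))) (XT.nd (nat_lit 37674) (nat_lit 0) (nat_lit 16188) (XT.nd (nat_lit 234) (nat_lit 1596) (nat_lit 0) (XT.nd (nat_lit 78) (nat_lit 532) (nat_lit 0) (XT.lf (nat_lit 0) (nat_lit 6180957549) (nat_lit 684) (nat_lit 21364924768) (nat_lit 76) (nat_lit 2929647492) (nat_lit 210) (nat_lit 5) (nat_lit 219) (nat_lit 5) (nat_lit 211) (nat_lit 5) (nat_lit 345) (nat_lit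 306) (nat_lit 129)) (XT.nd (nat_lit 78) (nat_lit 0) (nat_lit 0) (XT.lf (nat_lit 0) (nat_lit 1625778118) (nat_lit 532) (nat_lit 11247350136) (nat_lit 608) (nat_lit 18166151801) (nat_lit 203) (nat_lit 5) (nat_lit 210) (nat_lit 5) (nat_lit 211) (nat_lit 5) (nat_lit 346) (nat_lit 306) (nat_lit 128)) (XT.lf (nat_lit 0) (nat_lit 19942229142) (nat_lit 608) (nat_lit 6062378320) (nat_lit 76) (nat_lit 5611814896) (nat_lit 203) (nat_lit 5) (nat_lit 211) (nat_lit 5) (nat_lit 204) (nat_lit 5) (nat_lit 347) (nat_lit 306) (nat_lit 127)))) (XT.nd (nat_lit 156) (nat_lit 532) (nat_lit 0) (XT.nd (nat_lit 78) (nat_lit 532) (nat_lit 0) (XT.lf (nat_lit 0) (nat_lit 18145195296) (nat_lit 532) (nat_lit 9265856317) (nat_lit 608) (nat_lit 4796077115) (nat_lit 196) (nat_lit 5) (nat_lit 203) (nat_lit 5) (nat_lit 204) (nat_lit 5) (nat_lit 348) (nat_lit 306) (nat_lit 126)) (XT.lf (nat_lit 0) (nat_lit 2414941231) (nat_lit 532)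 (nat_lit 22403248755) (nat_lit 76) (nat_lit 7993940358) (nat_lit 189) (nat_lit 5) (nat_lit 196) (nat_lit 5) (nat_lit 190) (nat_lit 5) (nat_lit 349) (nat_lit 306) (nat_lit 125))) (XT.nd (nat_lit 78) (nat_lit 0) (nat_lit 0) (XT.lf (nat_lit 0) (nat_lit 2301650487) (nat_lit 532) (nat_lit 7643477556) (nat_lit 608) (nat_lit 23486162527) (nat_lit 182) (nat_lit 5) (nat_lit 189) (nat_lit 5) (nat_lit 190) (nat_lit 5) (nat_lit 350) (nat_lit 306) (nat_lit 124)) (XT.lf (nat_lit 0) (nat_lit 17914161991) (nat_lit 608) (nat_lit 6084644461) (nat_lit 76) (nat_lit 10065962805) (nat_lit 182) (nat_lit 5) (nat_lit 190) (nat_lit 5) (nat_lit 183) (nat_lit 5) (nat_lit 351) (nat_lit 306) (nat_lit 123))))) (XT.nd (nat_lit 234) (nat_lit 0) (nat_lit 152) (XT.nd (nat_lit 78) (nat_lit 0) (nat_lit 0) (XT.lf (nat_lit 0) (nat_lit 3787543672) (nat_lit 1748) (nat_lit 2244824274) (nat_lit 1748) (nat_lit 2244824274) (nat_lit 395) (nat_lit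 3) (nat_lit 418) (nat_lit 3) (nat_lit 418) (nat_lit 5) (nat_lit 307) (nat_lit 307) (nat_lit 166)) (XT.nd (nat_lit 78) (nat_lit 0) (nat_lit 76) (XT.lf (nat_lit 76) (nat_lit 7016762755) (nat_lit 0) (nat_lit 1065531223) (nat_lit 1748) (nat_lit 8712293791) (nat_lit 396) (nat_lit 5) (nat_lit 395) (nat_lit 3) (nat_lit 418) (nat_lit 5) (nat_lit 308) (nat_lit 307) (nat_lit 165)) (XT.lf (nat_lit 76) (nat_lit 1838354477) (nat_lit 0) (nat_lit 6861976244) (nat_lit 1748) (nat_lit 8339763596) (nat_lit 397) (nat_lit 5) (nat_lit 396) (nat_lit 5) (nat_lit 419) (nat_lit 5) (nat_lit 309) (nat_lit 307) (nat_lit 164)))) (XT.nd (nat_lit 156) (nat_lit 0) (nat_lit 76) (XT.nd (nat_lit 78) (nat_lit 0) (nat_lit 0) (XT.lf (nat_lit 0) (nat_lit 9426390564) (nat_lit 1672) (nat_lit 3398745136) (nat_lit 1748) (nat_lit 4466049848) (nat_lit 397) (nat_lit 5) (nat_lit 419) (nat_lit 5) (nat_lit 420) (nat_lit 5) (nat_lit 310) (nat_lit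 307) (nat_lit 163)) (XT.lf (nat_lit 76) (nat_lit 8820814289) (nat_lit 0) (nat_lit 1443764614) (nat_lit 1748) (nat_lit 7283432536) (nat_lit 398) (nat_lit 5) (nat_lit 397) (nat_lit 5) (nat_lit 420) (nat_lit 5) (nat_lit 311) (nat_lit 307) (nat_lit 162))) (XT.nd (nat_lit 78) (nat_lit 0) (nat_lit 76) (XT.lf (nat_lit 76) (nat_lit 3614417952) (nat_lit 0) (nat_lit 7614431799) (nat_lit 1748) (nat_lit 6581682222) (nat_lit 399) (nat_lit 5) (nat_lit 398) (nat_lit 5) (nat_lit 421) (nat_lit 5) (nat_lit 312) (nat_lit 307) (nat_lit 161)) (XT.lf (nat_lit 0) (nat_lit 12305585288) (nat_lit 1672) (nat_lit 1678166260) (nat_lit 1748) (nat_lit 4095514194) (nat_lit 399) (nat_lit 5) (nat_lit 421) (nat_lit 5) (nat_lit 422) (nat_lit 5) (nat_lit 313) (nat_lit 307) (nat_lit 160))))))))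
noncomputable def xc116 : XT := (XT.nd (nat_lit 2106) (nat_lit 5244) (nat_lit 0) (XT.nd (nat_lit 1014) (nat_lit 7752) (nat_lit 0) (XT.nd (nat_lit 468) (nat_lit 1976) (nat_lit 0) (XT.nd (nat_lit 234) (nat_lit 1520) (nat_lit 0) (XT.nd (nat_lit 78) (nat_lit 0) (nat_lit 76) (XT.lf (nat_lit 76) (nat_lit 11305235220) (nat_lit 0) (nat_lit 2221955947) (nat_lit 1748) (nat_lit 4826627098) (nat_lit 400) (nat_lit 5) (nat_lit 399) (nat_lit 5) (nat_lit 422) (nat_lit 5) (nat_lit 314) (nat_lit 307) (nat_lit 159)) (XT.nd (nat_lit 78) (nat_lit 0) (nat_lit 76) (XT.lf (nat_lit 76) (nat_lit 6072489180) (nat_lit 0) (nat_lit 8816627587) (nat_lit 1748) (nat_lit 3745425039) (nat_lit 401) (nat_lit 5) (nat_lit 400) (nat_lit 5) (nat_lit 423) (nat_lit 5) (nat_lit 315) (nat_lit 307) (nat_lit 158)) (XT.lf (nat_lit 76) (nat_lit 726483646) (nat_lit 0) (nat_lit 15643052568) (nat_lit 1748) (nat_lit 2552605759) (nat_lit 402) (nat_lit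 5) (nat_lit 401) (nat_lit 5) (nat_lit 424) (nat_lit 5) (nat_lit 316) (nat_lit 307) (nat_lit 157)))) (XT.nd (nat_lit 78) (nat_lit 1672) (nat_lit 0) (XT.lf (nat_lit 76) (nat_lit 14518299351) (nat_lit 0) (nat_lit 3508917323) (nat_lit 1748) (nat_lit 1188503923) (nat_lit 402) (nat_lit 5) (nat_lit 401) (nat_lit 5) (nat_lit 424) (nat_lit 5) (nat_lit 317) (nat_lit 307) (nat_lit 156)) (XT.nd (nat_lit 78) (nat_lit 0) (nat_lit 76) (XT.lf (nat_lit 0) (nat_lit 322371391) (nat_lit 1748) (nat_lit 10256814401) (nat_lit 1824) (nat_lit 8936725931) (nat_lit 379) (nat_lit 5) (nat_lit 402) (nat_lit 5) (nat_lit 403) (nat_lit 5) (nat_lit 318) (nat_lit 307) (nat_lit 155)) (XT.lf (nat_lit 0) (nat_lit 1945605443) (nat_lit 1748) (nat_lit 15950372476) (nat_lit 1824) (nat_lit 1927316808) (nat_lit 380) (nat_lit 5) (nat_lit 403) (nat_lit 5) (nat_lit 404) (nat_lit 5) (nat_lit 319) (nat_lit 307) (nat_lit 154))))) (XT.nd (nat_lit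 234) (nat_lit 2052) (nat_lit 0) (XT.nd (nat_lit 78) (nat_lit 0) (nat_lit 76) (XT.lf (nat_lit 0) (nat_lit 3748187416) (nat_lit 1748) (nat_lit 1650492657) (nat_lit 1824) (nat_lit 14738612787) (nat_lit 380) (nat_lit 5) (nat_lit 403) (nat_lit 5) (nat_lit 404) (nat_lit 5) (nat_lit 320) (nat_lit 307) (nat_lit 153)) (XT.nd (nat_lit 78) (nat_lit 0) (nat_lit 0) (XT.lf (nat_lit 0) (nat_lit 5730179409) (nat_lit 1748) (nat_lit 7263709994) (nat_lit 1824) (nat_lit 7464321347) (nat_lit 381) (nat_lit 5) (nat_lit 404) (nat_lit 5) (nat_lit 405) (nat_lit 5) (nat_lit 321) (nat_lit 307) (nat_lit 152)) (XT.lf (nat_lit 76) (nat_lit 7777137122) (nat_lit 0) (nat_lit 82833165) (nat_lit 1824) (nat_lit 12927025381) (nat_lit 382) (nat_lit 5) (nat_lit 381) (nat_lit 5) (nat_lit 405) (nat_lit 5) (nat_lit 322) (nat_lit 307) (nat_lit 151)))) (XT.nd (nat_lit 156) (nat_lit 2204) (nat_lit 0) (XT.nd (nat_lit 78) (nat_lit 0) (nat_lit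 76) (XT.lf (nat_lit 76) (nat_lit 2178753097) (nat_lit 0) (nat_lit 8015122678) (nat_lit 1824) (nat_lit 10928970034) (nat_lit 383) (nat_lit 5) (nat_lit 382) (nat_lit 5) (nat_lit 406) (nat_lit 5) (nat_lit 323) (nat_lit 307) (nat_lit 150)) (XT.lf (nat_lit 0) (nat_lit 12711964558) (nat_lit 1748) (nat_lit 3508697422) (nat_lit 76) (nat_lit 5245832064) (nat_lit 383) (nat_lit 5) (nat_lit 406) (nat_lit 5) (nat_lit 384) (nat_lit 5) (nat_lit 324) (nat_lit 307) (nat_lit 149))) (XT.nd (nat_lit 78) (nat_lit 836) (nat_lit 0) (XT.lf (nat_lit 0) (nat_lit 12492484995) (nat_lit 1444) (nat_lit 2939039323) (nat_lit 1520) (nat_lit 6386414586) (nat_lit 364) (nat_lit 5) (nat_lit 383) (nat_lit 5) (nat_lit 384) (nat_lit 5) (nat_lit 325) (nat_lit 307) (nat_lit 148)) (XT.lf (nat_lit 0) (nat_lit 6854706207) (nat_lit 836) (nat_lit 11507574951) (nat_lit 912) (nat_lit 3815059320) (nat_lit 353) (nat_lit 5) (nat_lit 364) (nat_lit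 5) (nat_lit 365) (nat_lit 5) (nat_lit 326) (nat_lit 307) (nat_lit 147)))))) (XT.nd (nat_lit 546) (nat_lit 3572) (nat_lit 0) (XT.nd (nat_lit 234) (nat_lit 2356) (nat_lit 0) (XT.nd (nat_lit 78) (nat_lit 912) (nat_lit 0) (XT.lf (nat_lit 0) (nat_lit 1074540642) (nat_lit 912) (nat_lit 20401807098) (nat_lit 988) (nat_lit 1069274033) (nat_lit 341) (nat_lit 5) (nat_lit 353) (nat_lit 5) (nat_lit 354) (nat_lit 5) (nat_lit 327) (nat_lit 307) (nat_lit 146)) (XT.nd (nat_lit 78) (nat_lit 836) (nat_lit 0) (XT.lf (nat_lit 0) (nat_lit 1909067666) (nat_lit 988) (nat_lit 4846193484) (nat_lit 76) (nat_lit 16166002091) (nat_lit 340) (nat_lit 5) (nat_lit 353) (nat_lit 5) (nat_lit 341) (nat_lit 5) (nat_lit 328) (nat_lit 307) (nat_lit 145)) (XT.lf (nat_lit 0) (nat_lit 5082993954) (nat_lit 912) (nat_lit 10928713219) (nat_lit 76) (nat_lit 7293915194) (nat_lit 329) (nat_lit 5) (nat_lit 341) (nat_lit 5) (nat_lit 330) (nat_lit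 5) (nat_lit 329) (nat_lit 307) (nat_lit 144)))) (XT.nd (nat_lit 156) (nat_lit 760) (nat_lit 0) (XT.nd (nat_lit 78) (nat_lit 760) (nat_lit 0) (XT.lf (nat_lit 0) (nat_lit 6514788204) (nat_lit 836) (nat_lit 1950084616) (nat_lit 912) (nat_lit 15234389605) (nat_lit 318) (nat_lit 5) (nat_lit 329) (nat_lit 5) (nat_lit 330) (nat_lit 5) (nat_lit 330) (nat_lit 307) (nat_lit 143)) (XT.lf (nat_lit 0) (nat_lit 444436963) (nat_lit 760) (nat_lit 11654964192) (nat_lit 836) (nat_lit 12002291385) (nat_lit 308) (nat_lit 5) (nat_lit 318) (nat_lit 5) (nat_lit 319) (nat_lit 5) (nat_lit 331) (nat_lit 307) (nat_lit 142))) (XT.nd (nat_lit 78) (nat_lit 760) (nat_lit 0) (XT.lf (nat_lit 0) (nat_lit 15983444279) (nat_lit 836) (nat_lit 5715415691) (nat_lit 76) (nat_lit 2814530586) (nat_lit 308) (nat_lit 5) (nat_lit 319) (nat_lit 5) (nat_lit 309) (nat_lit 5) (nat_lit 332) (nat_lit 307) (nat_lit 141)) (XT.lf (nat_lit 0) (nat_lit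 12847942563) (nat_lit 760) (nat_lit 7290202189) (nat_lit 836) (nat_lit 4796216482) (nat_lit 298) (nat_lit 5) (nat_lit 308) (nat_lit 5) (nat_lit 309) (nat_lit 5) (nat_lit 333) (nat_lit 307) (nat_lit 140))))) (XT.nd (nat_lit 234) (nat_lit 2052) (nat_lit 0) (XT.nd (nat_lit 78) (nat_lit 836) (nat_lit 0) (XT.lf (nat_lit 0) (nat_lit 6710655024) (nat_lit 684) (nat_lit 17831351212) (nat_lit 760) (nat_lit 823468713) (nat_lit 289) (nat_lit 5) (nat_lit 298) (nat_lit 5) (nat_lit 299) (nat_lit 5) (nat_lit 334) (nat_lit 307) (nat_lit 139)) (XT.nd (nat_lit 78) (nat_lit 0) (nat_lit 0) (XT.lf (nat_lit 0) (nat_lit 356049141) (nat_lit 760) (nat_lit 2996102979) (nat_lit 836) (nat_lit 22454418500) (nat_lit 278) (nat_lit 5) (nat_lit 288) (nat_lit 5) (nat_lit 289) (nat_lit 5) (nat_lit 335) (nat_lit 307) (nat_lit 138)) (XT.lf (nat_lit 0) (nat_lit 7842125033) (nat_lit 836) (nat_lit 6159198675) (nat_lit 76) (nat_lit 12255465155)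 (nat_lit 278) (nat_lit 5) (nat_lit 289) (nat_lit 5) (nat_lit 279) (nat_lit 5) (nat_lit 336) (nat_lit 307) (nat_lit 137)))) (XT.nd (nat_lit 156) (nat_lit 684) (nat_lit 0) (XT.nd (nat_lit 78) (nat_lit 684) (nat_lit 0) (XT.lf (nat_lit 0) (nat_lit 12578667983) (nat_lit 760) (nat_lit 12861289000) (nat_lit 76) (nat_lit 1278323124) (nat_lit 269) (nat_lit 5) (nat_lit 279) (nat_lit 5) (nat_lit 270) (nat_lit 5) (nat_lit 337) (nat_lit 307) (nat_lit 136)) (XT.lf (nat_lit 0) (nat_lit 7360699088) (nat_lit 684) (nat_lit 10273588226) (nat_lit 760) (nat_lit 9555792930) (nat_lit 260) (nat_lit 5) (nat_lit 269) (nat_lit 5) (nat_lit 270) (nat_lit 5) (nat_lit 338) (nat_lit 307) (nat_lit 135))) (XT.nd (nat_lit 78) (nat_lit 76) (nat_lit 0) (XT.lf (nat_lit 0) (nat_lit 657293351) (nat_lit 608) (nat_lit 22304681554) (nat_lit 684) (nat_lit 4711655136) (nat_lit 252) (nat_lit 5) (nat_lit 260) (nat_lit 5) (nat_lit 261) (nat_lit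 5) (nat_lit 339) (nat_lit 307) (nat_lit 134)) (XT.lf (nat_lit 0) (nat_lit 471902911) (nat_lit 684) (nat_lit 6217502792) (nat_lit 76) (nat_lit 21478293236) (nat_lit 251) (nat_lit 5) (nat_lit 260) (nat_lit 5) (nat_lit 252) (nat_lit 5) (nat_lit 340) (nat_lit 307) (nat_lit 133))))))) (XT.nd (nat_lit 38220) (nat_lit 0) (nat_lit 14972) (XT.nd (nat_lit 468) (nat_lit 2128) (nat_lit 0) (XT.nd (nat_lit 234) (nat_lit 1216) (nat_lit 0) (XT.nd (nat_lit 78) (nat_lit 1216) (nat_lit 0) (XT.lf (nat_lit 0) (nat_lit 5902916857) (nat_lit 760) (nat_lit 13367494455) (nat_lit 76) (nat_lit 9402439842) (nat_lit 242) (nat_lit 5) (nat_lit 252) (nat_lit 5) (nat_lit 243) (nat_lit 5) (nat_lit 341) (nat_lit 307) (nat_lit 132)) (XT.nd (nat_lit 78) (nat_lit 608) (nat_lit 0) (XT.lf (nat_lit 0) (nat_lit 8425278684) (nat_lit 608) (nat_lit 3207513991) (nat_lit 684) (nat_lit 17557649904) (nat_lit 234) (nat_lit 5) (nat_lit 242) (nat_lit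 5) (nat_lit 243) (nat_lit 5) (nat_lit 342) (nat_lit 307) (nat_lit 131)) (XT.lf (nat_lit 0) (nat_lit 1255432533) (nat_lit 608) (nat_lit 16459264929) (nat_lit 684) (nat_lit 12005264811) (nat_lit 226) (nat_lit 5) (nat_lit 234) (nat_lit 5) (nat_lit 235) (nat_lit 5) (nat_lit 343) (nat_lit 307) (nat_lit 130)))) (XT.nd (nat_lit 78) (nat_lit 1216) (nat_lit 0) (XT.lf (nat_lit 0) (nat_lit 24135779073) (nat_lit 684) (nat_lit 6070252596) (nat_lit 76) (nat_lit 56204580) (nat_lit 226) (nat_lit 5) (nat_lit 235) (nat_lit 5) (nat_lit 227) (nat_lit 5) (nat_lit 344) (nat_lit 307) (nat_lit 129)) (XT.nd (nat_lit 78) (nat_lit 608) (nat_lit 0) (XT.lf (nat_lit 0) (nat_lit 146679285) (nat_lit 608) (nat_lit 13714033813) (nat_lit 76) (nat_lit 16955736947) (nat_lit 218) (nat_lit 5) (nat_lit 226) (nat_lit 5) (nat_lit 219) (nat_lit 5) (nat_lit 345) (nat_lit 307) (nat_lit 128)) (XT.lf (nat_lit 0) (nat_lit 6644777957) (nat_lit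 684) (nat_lit 21657946599) (nat_lit 76) (nat_lit 3081358580) (nat_lit 210) (nat_lit 5) (nat_lit 219) (nat_lit 5) (nat_lit 211) (nat_lit 5) (nat_lit 346) (nat_lit 307) (nat_lit 127))))) (XT.nd (nat_lit 234) (nat_lit 1064) (nat_lit 0) (XT.nd (nat_lit 78) (nat_lit 532) (nat_lit 0) (XT.lf (nat_lit 0) (nat_lit 2016832689) (nat_lit 532) (nat_lit 11514994915) (nat_lit 608) (nat_lit 18433040224) (nat_lit 203) (nat_lit 5) (nat_lit 210) (nat_lit 5) (nat_lit 211) (nat_lit 5) (nat_lit 347) (nat_lit 307) (nat_lit 126)) (XT.nd (nat_lit 78) (nat_lit 532) (nat_lit 0) (XT.lf (nat_lit 0) (nat_lit 20805504301) (nat_lit 608) (nat_lit 5906949838) (nat_lit 76) (nat_lit 5847024298) (nat_lit 203) (nat_lit 5) (nat_lit 211) (nat_lit 5) (nat_lit 204) (nat_lit 5) (nat_lit 348) (nat_lit 307) (nat_lit 125)) (XT.lf (nat_lit 0) (nat_lit 19021378698) (nat_lit 532) (nat_lit 9471448504) (nat_lit 608) (nat_lit 4675194055) (nat_lit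 196) (nat_lit 5) (nat_lit 203) (nat_lit 5) (nat_lit 204) (nat_lit 5) (nat_lit 349) (nat_lit 307) (nat_lit 124)))) (XT.nd (nat_lit 37362) (nat_lit 0) (nat_lit 16188) (XT.nd (nat_lit 78) (nat_lit 532) (nat_lit 0) (XT.lf (nat_lit 0) (nat_lit 2743695938) (nat_lit 532) (nat_lit 22740597267) (nat_lit 76) (nat_lit 8306948846) (nat_lit 189) (nat_lit 5) (nat_lit 196) (nat_lit 5) (nat_lit 190) (nat_lit 5) (nat_lit 350) (nat_lit 307) (nat_lit 123)) (XT.lf (nat_lit 0) (nat_lit 2700018048) (nat_lit 532) (nat_lit 7794443221) (nat_lit 608) (nat_lit 23934626029) (nat_lit 182) (nat_lit 5) (nat_lit 189) (nat_lit 5) (nat_lit 190) (nat_lit 5) (nat_lit 351) (nat_lit 307) (nat_lit 122))) (XT.nd (nat_lit 78) (nat_lit 0) (nat_lit 0) (XT.lf (nat_lit 0) (nat_lit 4245847420) (nat_lit 1748) (nat_lit 2136264250) (nat_lit 1748) (nat_lit 2136264250) (nat_lit 395) (nat_lit 3) (nat_lit 418) (nat_lit 3) (nat_lit 418) (nat_lit 5)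 (nat_lit 308) (nat_lit 308) (nat_lit 164)) (XT.lf (nat_lit 76) (nat_lit 7573367451) (nat_lit 0) (nat_lit 1422919048) (nat_lit 1748) (nat_lit 8288245289) (nat_lit 396) (nat_lit 5) (nat_lit 395) (nat_lit 3) (nat_lit 418) (nat_lit 5) (nat_lit 309) (nat_lit 308) (nat_lit 163)))))) (XT.nd (nat_lit 546) (nat_lit 1292) (nat_lit 0) (XT.nd (nat_lit 234) (nat_lit 0) (nat_lit 152) (XT.nd (nat_lit 78) (nat_lit 0) (nat_lit 76) (XT.lf (nat_lit 76) (nat_lit 2249738618) (nat_lit 0) (nat_lit 7363828372) (nat_lit 1748) (nat_lit 7924235979) (nat_lit 397) (nat_lit 5) (nat_lit 396) (nat_lit 5) (nat_lit 419) (nat_lit 5) (nat_lit 310) (nat_lit 308) (nat_lit 162)) (XT.nd (nat_lit 78) (nat_lit 0) (nat_lit 0) (XT.lf (nat_lit 0) (nat_lit 10340545936) (nat_lit 1672) (nat_lit 3139882765) (nat_lit 1748) (nat_lit 4316428585) (nat_lit 397) (nat_lit 5) (nat_lit 419) (nat_lit 5) (nat_lit 420) (nat_lit 5) (nat_lit 311) (nat_lit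 308) (nat_lit 161)) (XT.lf (nat_lit 76) (nat_lit 9440409490) (nat_lit 0) (nat_lit 1747385909) (nat_lit 1748) (nat_lit 6873926961) (nat_lit 398) (nat_lit 5) (nat_lit 397) (nat_lit 5) (nat_lit 420) (nat_lit 5) (nat_lit 312) (nat_lit 308) (nat_lit 160)))) (XT.nd (nat_lit 156) (nat_lit 0) (nat_lit 76) (XT.nd (nat_lit 78) (nat_lit 0) (nat_lit 76) (XT.lf (nat_lit 76) (nat_lit 4086247861) (nat_lit 0) (nat_lit 8077544308) (nat_lit 1748) (nat_lit 6168682730) (nat_lit 399) (nat_lit 5) (nat_lit 398) (nat_lit 5) (nat_lit 421) (nat_lit 5) (nat_lit 313) (nat_lit 308) (nat_lit 159)) (XT.lf (nat_lit 0) (nat_lit 13253930739) (nat_lit 1672) (nat_lit 1362206297) (nat_lit 1748) (nat_lit 3993523610) (nat_lit 399) (nat_lit 5) (nat_lit 421) (nat_lit 5) (nat_lit 422) (nat_lit 5) (nat_lit 314) (nat_lit 308) (nat_lit 158))) (XT.nd (nat_lit 78) (nat_lit 0) (nat_lit 76) (XT.lf (nat_lit 76) (nat_lit 12004754365) (nat_lit 0)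 (nat_lit 2492900881) (nat_lit 1748) (nat_lit 4395096728) (nat_lit 400) (nat_lit 5) (nat_lit 399) (nat_lit 5) (nat_lit 422) (nat_lit 5) (nat_lit 315) (nat_lit 308) (nat_lit 157)) (XT.lf (nat_lit 76) (nat_lit 6621975672) (nat_lit 0) (nat_lit 9263113975) (nat_lit 1748) (nat_lit 3297125849) (nat_lit 401) (nat_lit 5) (nat_lit 400) (nat_lit 5) (nat_lit 423) (nat_lit 5) (nat_lit 316) (nat_lit 308) (nat_lit 156))))) (XT.nd (nat_lit 234) (nat_lit 0) (nat_lit 76) (XT.nd (nat_lit 78) (nat_lit 1672) (nat_lit 0) (XT.lf (nat_lit 76) (nat_lit 1121971408) (nat_lit 0) (nat_lit 16273230354) (nat_lit 1748) (nat_lit 2083547273) (nat_lit 402) (nat_lit 5) (nat_lit 401) (nat_lit 5) (nat_lit 424) (nat_lit 5) (nat_lit 317) (nat_lit 308) (nat_lit 155)) (XT.nd (nat_lit 78) (nat_lit 1672) (nat_lit 0) (XT.lf (nat_lit 76) (nat_lit 15316657315) (nat_lit 0) (nat_lit 3770385045) (nat_lit 1748) (nat_lit 694414712) (nat_lit 402)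 (nat_lit 5) (nat_lit 401) (nat_lit 5) (nat_lit 424) (nat_lit 5) (nat_lit 318) (nat_lit 308) (nat_lit 154)) (XT.lf (nat_lit 0) (nat_lit 841029216) (nat_lit 1748) (nat_lit 10188935286) (nat_lit 1824) (nat_lit 9060906976) (nat_lit 379) (nat_lit 5) (nat_lit 402) (nat_lit 5) (nat_lit 403) (nat_lit 5) (nat_lit 319) (nat_lit 308) (nat_lit 153)))) (XT.nd (nat_lit 156) (nat_lit 0) (nat_lit 76) (XT.nd (nat_lit 78) (nat_lit 0) (nat_lit 0) (XT.lf (nat_lit 0) (nat_lit 2499709383) (nat_lit 1748) (nat_lit 16048309235) (nat_lit 1824) (nat_lit 1859732213) (nat_lit 380) (nat_lit 5) (nat_lit 403) (nat_lit 5) (nat_lit 404) (nat_lit 5) (nat_lit 320) (nat_lit 308) (nat_lit 152)) (XT.lf (nat_lit 0) (nat_lit 4341929909) (nat_lit 1748) (nat_lit 1330517713) (nat_lit 1824) (nat_lit 15059019618) (nat_lit 380) (nat_lit 5) (nat_lit 403) (nat_lit 5) (nat_lit 404) (nat_lit 5) (nat_lit 321) (nat_lit 308) (nat_lit 151))) (XT.nd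 (nat_lit 78) (nat_lit 0) (nat_lit 0) (XT.lf (nat_lit 0) (nat_lit 6371034205) (nat_lit 1748) (nat_lit 7107734984) (nat_lit 1824) (nat_lit 7583499702) (nat_lit 381) (nat_lit 5) (nat_lit 404) (nat_lit 5) (nat_lit 405) (nat_lit 5) (nat_lit 322) (nat_lit 308) (nat_lit 150)) (XT.lf (nat_lit 76) (nat_lit 8378271684) (nat_lit 0) (nat_lit 175176539) (nat_lit 1824) (nat_lit 12847703552) (nat_lit 382) (nat_lit 5) (nat_lit 381) (nat_lit 5) (nat_lit 405) (nat_lit 5) (nat_lit 323) (nat_lit 308) (nat_lit 149))))))))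
noncomputable def xc117 : XT := (XT.nd (nat_lit 39468) (nat_lit 0) (nat_lit 7068) (XT.nd (nat_lit 1014) (nat_lit 6232) (nat_lit 0) (XT.nd (nat_lit 468) (nat_lit 4712) (nat_lit 0) (XT.nd (nat_lit 234) (nat_lit 1824) (nat_lit 0) (XT.nd (nat_lit 78) (nat_lit 1368) (nat_lit 0) (XT.lf (nat_lit 76) (nat_lit 2615843031) (nat_lit 0) (nat_lit 8330044467) (nat_lit 1824) (nat_lit 10801428333) (nat_lit 383) (nat_lit 5) (nat_lit 382) (nat_lit 5) (nat_lit 406) (nat_lit 5) (nat_lit 324) (nat_lit 308) (nat_lit 148)) (XT.nd (nat_lit 78) (nat_lit 1444) (nat_lit 0) (XT.lf (nat_lit 0) (nat_lit 13526053546) (nat_lit 1748) (nat_lit 3243641656) (nat_lit 76) (nat_lit 5331856108) (nat_lit 383) (nat_lit 5) (nat_lit 406) (nat_lit 5) (nat_lit 384) (nat_lit 5) (nat_lit 325) (nat_lit 308) (nat_lit 147)) (XT.lf (nat_lit 0) (nat_lit 13231568286) (nat_lit 1444) (nat_lit 3085393359) (nat_lit 1520) (nat_lit 6146790881) (nat_lit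 364) (nat_lit 5) (nat_lit 383) (nat_lit 5) (nat_lit 384) (nat_lit 5) (nat_lit 326) (nat_lit 308) (nat_lit 146)))) (XT.nd (nat_lit 78) (nat_lit 988) (nat_lit 0) (XT.lf (nat_lit 0) (nat_lit 7427700291) (nat_lit 836) (nat_lit 11897653659) (nat_lit 912) (nat_lit 3508795944) (nat_lit 353) (nat_lit 5) (nat_lit 364) (nat_lit 5) (nat_lit 365) (nat_lit 5) (nat_lit 327) (nat_lit 308) (nat_lit 145)) (XT.nd (nat_lit 78) (nat_lit 76) (nat_lit 0) (XT.lf (nat_lit 0) (nat_lit 1476829097) (nat_lit 912) (nat_lit 21046127380) (nat_lit 988) (nat_lit 690728638) (nat_lit 341) (nat_lit 5) (nat_lit 353) (nat_lit 5) (nat_lit 354) (nat_lit 5) (nat_lit 328) (nat_lit 308) (nat_lit 144)) (XT.lf (nat_lit 0) (nat_lit 2359774854) (nat_lit 988) (nat_lit 4626830254) (nat_lit 76) (nat_lit 16614180854) (nat_lit 340) (nat_lit 5) (nat_lit 353) (nat_lit 5) (nat_lit 341) (nat_lit 5) (nat_lit 329) (nat_lit 308) (nat_lit 143))))) (XT.nd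 (nat_lit 234) (nat_lit 2280) (nat_lit 0) (XT.nd (nat_lit 78) (nat_lit 1596) (nat_lit 0) (XT.lf (nat_lit 0) (nat_lit 5619624030) (nat_lit 912) (nat_lit 10889652398) (nat_lit 76) (nat_lit 7487592510) (nat_lit 329) (nat_lit 5) (nat_lit 341) (nat_lit 5) (nat_lit 330) (nat_lit 5) (nat_lit 330) (nat_lit 308) (nat_lit 142)) (XT.nd (nat_lit 78) (nat_lit 760) (nat_lit 0) (XT.lf (nat_lit 0) (nat_lit 7071201190) (nat_lit 836) (nat_lit 2022913174) (nat_lit 912) (nat_lit 15308387703) (nat_lit 318) (nat_lit 5) (nat_lit 329) (nat_lit 5) (nat_lit 330) (nat_lit 5) (nat_lit 331) (nat_lit 308) (nat_lit 141)) (XT.lf (nat_lit 0) (nat_lit 820587306) (nat_lit 760) (nat_lit 12008425655) (nat_lit 836) (nat_lit 11988172202) (nat_lit 308) (nat_lit 5) (nat_lit 318) (nat_lit 5) (nat_lit 319) (nat_lit 5) (nat_lit 332) (nat_lit 308) (nat_lit 140)))) (XT.nd (nat_lit 156) (nat_lit 1520) (nat_lit 0) (XT.nd (nat_lit 78) (nat_lit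 760) (nat_lit 0) (XT.lf (nat_lit 0) (nat_lit 16818874809) (nat_lit 836) (nat_lit 5527266375) (nat_lit 76) (nat_lit 2895313557) (nat_lit 308) (nat_lit 5) (nat_lit 319) (nat_lit 5) (nat_lit 309) (nat_lit 5) (nat_lit 333) (nat_lit 308) (nat_lit 139)) (XT.lf (nat_lit 0) (nat_lit 13587158353) (nat_lit 760) (nat_lit 7502988091) (nat_lit 836) (nat_lit 4585075872) (nat_lit 298) (nat_lit 5) (nat_lit 308) (nat_lit 5) (nat_lit 309) (nat_lit 5) (nat_lit 334) (nat_lit 308) (nat_lit 138))) (XT.nd (nat_lit 78) (nat_lit 836) (nat_lit 0) (XT.lf (nat_lit 0) (nat_lit 7267028189) (nat_lit 684) (nat_lit 18351306376) (nat_lit 760) (nat_lit 501096852) (nat_lit 289) (nat_lit 5) (nat_lit 298) (nat_lit 5) (nat_lit 299) (nat_lit 5) (nat_lit 335) (nat_lit 308) (nat_lit 137)) (XT.lf (nat_lit 0) (nat_lit 720701007) (nat_lit 760) (nat_lit 3066861420) (nat_lit 836) (nat_lit 22786311922) (nat_lit 278) (nat_lit 5) (nat_lit 288)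 (nat_lit 5) (nat_lit 289) (nat_lit 5) (nat_lit 336) (nat_lit 308) (nat_lit 136)))))) (XT.nd (nat_lit 546) (nat_lit 2888) (nat_lit 0) (XT.nd (nat_lit 234) (nat_lit 1976) (nat_lit 0) (XT.nd (nat_lit 78) (nat_lit 1368) (nat_lit 0) (XT.lf (nat_lit 0) (nat_lit 8402602292) (nat_lit 836) (nat_lit 5993742002) (nat_lit 76) (nat_lit 12641453212) (nat_lit 278) (nat_lit 5) (nat_lit 289) (nat_lit 5) (nat_lit 279) (nat_lit 5) (nat_lit 337) (nat_lit 308) (nat_lit 135)) (XT.nd (nat_lit 78) (nat_lit 684) (nat_lit 0) (XT.lf (nat_lit 0) (nat_lit 13274178867) (nat_lit 760) (nat_lit 12896204906) (nat_lit 76) (nat_lit 1342896523) (nat_lit 269) (nat_lit 5) (nat_lit 279) (nat_lit 5) (nat_lit 270) (nat_lit 5) (nat_lit 338) (nat_lit 308) (nat_lit 134)) (XT.lf (nat_lit 0) (nat_lit 7926749520) (nat_lit 684) (nat_lit 10547692188) (nat_lit 760) (nat_lit 9524938626) (nat_lit 260) (nat_lit 5) (nat_lit 269) (nat_lit 5) (nat_lit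 270) (nat_lit 5) (nat_lit 339) (nat_lit 308) (nat_lit 133)))) (XT.nd (nat_lit 156) (nat_lit 1292) (nat_lit 0) (XT.nd (nat_lit 78) (nat_lit 76) (nat_lit 0) (XT.lf (nat_lit 0) (nat_lit 1022721289) (nat_lit 608) (nat_lit 22932636269) (nat_lit 684) (nat_lit 4542216350) (nat_lit 252) (nat_lit 5) (nat_lit 260) (nat_lit 5) (nat_lit 261) (nat_lit 5) (nat_lit 340) (nat_lit 308) (nat_lit 132)) (XT.lf (nat_lit 0) (nat_lit 783839021) (nat_lit 684) (nat_lit 6064264452) (nat_lit 76) (nat_lit 22158504696) (nat_lit 251) (nat_lit 5) (nat_lit 260) (nat_lit 5) (nat_lit 252) (nat_lit 5) (nat_lit 341) (nat_lit 308) (nat_lit 131))) (XT.nd (nat_lit 78) (nat_lit 608) (nat_lit 0) (XT.lf (nat_lit 0) (nat_lit 6371559413) (nat_lit 760) (nat_lit 13428560306) (nat_lit 76) (nat_lit 9726924549) (nat_lit 242) (nat_lit 5) (nat_lit 252) (nat_lit 5) (nat_lit 243) (nat_lit 5) (nat_lit 342) (nat_lit 308) (nat_lit 130)) (XT.lf (nat_lit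 0) (nat_lit 9012480596) (nat_lit 608) (nat_lit 3254530445) (nat_lit 684) (nat_lit 17793283505) (nat_lit 234) (nat_lit 5) (nat_lit 242) (nat_lit 5) (nat_lit 243) (nat_lit 5) (nat_lit 343) (nat_lit 308) (nat_lit 129))))) (XT.nd (nat_lit 234) (nat_lit 1672) (nat_lit 0) (XT.nd (nat_lit 78) (nat_lit 608) (nat_lit 0) (XT.lf (nat_lit 0) (nat_lit 1627565016) (nat_lit 608) (nat_lit 16897981940) (nat_lit 684) (nat_lit 12080273955) (nat_lit 226) (nat_lit 5) (nat_lit 234) (nat_lit 5) (nat_lit 235) (nat_lit 5) (nat_lit 344) (nat_lit 308) (nat_lit 128)) (XT.nd (nat_lit 78) (nat_lit 608) (nat_lit 0) (XT.lf (nat_lit 0) (nat_lit 25131469982) (nat_lit 684) (nat_lit 5922406539) (nat_lit 76) (nat_lit 110646836) (nat_lit 226) (nat_lit 5) (nat_lit 235) (nat_lit 5) (nat_lit 227) (nat_lit 5) (nat_lit 345) (nat_lit 308) (nat_lit 127)) (XT.lf (nat_lit 0) (nat_lit 418795338) (nat_lit 608) (nat_lit 13797155978) (nat_lit 76)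 (nat_lit 17519497398) (nat_lit 218) (nat_lit 5) (nat_lit 226) (nat_lit 5) (nat_lit 219) (nat_lit 5) (nat_lit 346) (nat_lit 308) (nat_lit 126)))) (XT.nd (nat_lit 156) (nat_lit 532) (nat_lit 0) (XT.nd (nat_lit 78) (nat_lit 532) (nat_lit 0) (XT.lf (nat_lit 0) (nat_lit 7106532155) (nat_lit 684) (nat_lit 21979731455) (nat_lit 76) (nat_lit 3233957376) (nat_lit 210) (nat_lit 5) (nat_lit 219) (nat_lit 5) (nat_lit 211) (nat_lit 5) (nat_lit 347) (nat_lit 308) (nat_lit 125)) (XT.lf (nat_lit 0) (nat_lit 2399970555) (nat_lit 532) (nat_lit 11794674449) (nat_lit 608) (nat_lit 18723899154) (nat_lit 203) (nat_lit 5) (nat_lit 210) (nat_lit 5) (nat_lit 211) (nat_lit 5) (nat_lit 348) (nat_lit 308) (nat_lit 124))) (XT.nd (nat_lit 78) (nat_lit 532) (nat_lit 0) (XT.lf (nat_lit 0) (nat_lit 21679465154) (nat_lit 608) (nat_lit 5766220892) (nat_lit 76) (nat_lit 6085452235) (nat_lit 203) (nat_lit 5) (nat_lit 211) (nat_lit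 5) (nat_lit 204) (nat_lit 5) (nat_lit 349) (nat_lit 308) (nat_lit 123)) (XT.lf (nat_lit 0) (nat_lit 19904799343) (nat_lit 532) (nat_lit 9687363567) (nat_lit 608) (nat_lit 4565883118) (nat_lit 196) (nat_lit 5) (nat_lit 203) (nat_lit 5) (nat_lit 204) (nat_lit 5) (nat_lit 350) (nat_lit 308) (nat_lit 122))))))) (XT.nd (nat_lit 1092) (nat_lit 6840) (nat_lit 0) (XT.nd (nat_lit 546) (nat_lit 1216) (nat_lit 0) (XT.nd (nat_lit 234) (nat_lit 0) (nat_lit 152) (XT.nd (nat_lit 78) (nat_lit 0) (nat_lit 0) (XT.lf (nat_lit 0) (nat_lit 4698114385) (nat_lit 1748) (nat_lit 2034545078) (nat_lit 1748) (nat_lit 2034545078) (nat_lit 395) (nat_lit 3) (nat_lit 418) (nat_lit 3) (nat_lit 418) (nat_lit 5) (nat_lit 309) (nat_lit 309) (nat_lit 162)) (XT.nd (nat_lit 78) (nat_lit 0) (nat_lit 76) (XT.lf (nat_lit 76) (nat_lit 8126802627) (nat_lit 0) (nat_lit 1772347959) (nat_lit 1748) (nat_lit 7890821090) (nat_lit 396) (nat_lit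 5) (nat_lit 395) (nat_lit 3) (nat_lit 418) (nat_lit 5) (nat_lit 310) (nat_lit 309) (nat_lit 161)) (XT.lf (nat_lit 76) (nat_lit 2653015022) (nat_lit 0) (nat_lit 7863744863) (nat_lit 1748) (nat_lit 7534457615) (nat_lit 397) (nat_lit 5) (nat_lit 396) (nat_lit 5) (nat_lit 419) (nat_lit 5) (nat_lit 311) (nat_lit 309) (nat_lit 160)))) (XT.nd (nat_lit 156) (nat_lit 0) (nat_lit 76) (XT.nd (nat_lit 78) (nat_lit 0) (nat_lit 0) (XT.lf (nat_lit 0) (nat_lit 11245883112) (nat_lit 1672) (nat_lit 2893967339) (nat_lit 1748) (nat_lit 4178598642) (nat_lit 397) (nat_lit 5) (nat_lit 419) (nat_lit 5) (nat_lit 420) (nat_lit 5) (nat_lit 312) (nat_lit 309) (nat_lit 159)) (XT.lf (nat_lit 76) (nat_lit 10058215773) (nat_lit 0) (nat_lit 2045173077) (nat_lit 1748) (nat_lit 6488186480) (nat_lit 398) (nat_lit 5) (nat_lit 397) (nat_lit 5) (nat_lit 420) (nat_lit 5) (nat_lit 313) (nat_lit 309) (nat_lit 158))) (XT.nd (nat_lit 78)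 (nat_lit 0) (nat_lit 76) (XT.lf (nat_lit 76) (nat_lit 4551372172) (nat_lit 0) (nat_lit 8541078625) (nat_lit 1748) (nat_lit 5778335578) (nat_lit 399) (nat_lit 5) (nat_lit 398) (nat_lit 5) (nat_lit 421) (nat_lit 5) (nat_lit 314) (nat_lit 309) (nat_lit 157)) (XT.lf (nat_lit 0) (nat_lit 14197479374) (nat_lit 1672) (nat_lit 1057794938) (nat_lit 1748) (nat_lit 3901380963) (nat_lit 399) (nat_lit 5) (nat_lit 421) (nat_lit 5) (nat_lit 422) (nat_lit 5) (nat_lit 315) (nat_lit 309) (nat_lit 156))))) (XT.nd (nat_lit 234) (nat_lit 1520) (nat_lit 0) (XT.nd (nat_lit 78) (nat_lit 0) (nat_lit 76) (XT.lf (nat_lit 76) (nat_lit 12704572826) (nat_lit 0) (nat_lit 2760247296) (nat_lit 1748) (nat_lit 3983704098) (nat_lit 400) (nat_lit 5) (nat_lit 399) (nat_lit 5) (nat_lit 422) (nat_lit 5) (nat_lit 316) (nat_lit 309) (nat_lit 155)) (XT.nd (nat_lit 78) (nat_lit 0) (nat_lit 76) (XT.lf (nat_lit 76) (nat_lit 7166861558) (nat_lit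 0) (nat_lit 9712548125) (nat_lit 1748) (nat_lit 2867561973) (nat_lit 401) (nat_lit 5) (nat_lit 400) (nat_lit 5) (nat_lit 423) (nat_lit 5) (nat_lit 317) (nat_lit 309) (nat_lit 154)) (XT.lf (nat_lit 76) (nat_lit 1507872282) (nat_lit 0) (nat_lit 16913077948) (nat_lit 1748) (nat_lit 1631738809) (nat_lit 402) (nat_lit 5) (nat_lit 401) (nat_lit 5) (nat_lit 424) (nat_lit 5) (nat_lit 318) (nat_lit 309) (nat_lit 153)))) (XT.nd (nat_lit 156) (nat_lit 0) (nat_lit 76) (XT.nd (nat_lit 78) (nat_lit 1672) (nat_lit 0) (XT.lf (nat_lit 76) (nat_lit 16118139298) (nat_lit 0) (nat_lit 4030730269) (nat_lit 1748) (nat_lit 215912316) (nat_lit 402) (nat_lit 5) (nat_lit 401) (nat_lit 5) (nat_lit 424) (nat_lit 5) (nat_lit 319) (nat_lit 309) (nat_lit 152)) (XT.lf (nat_lit 0) (nat_lit 1346028858) (nat_lit 1748) (nat_lit 10140579830) (nat_lit 1824) (nat_lit 9197075090) (nat_lit 379) (nat_lit 5) (nat_lit 402) (nat_lit 5) (nat_lit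 403) (nat_lit 5) (nat_lit 320) (nat_lit 309) (nat_lit 151))) (XT.nd (nat_lit 78) (nat_lit 0) (nat_lit 0) (XT.lf (nat_lit 0) (nat_lit 3041979180) (nat_lit 1748) (nat_lit 16171030625) (nat_lit 1824) (nat_lit 1797318788) (nat_lit 380) (nat_lit 5) (nat_lit 403) (nat_lit 5) (nat_lit 404) (nat_lit 5) (nat_lit 321) (nat_lit 309) (nat_lit 150)) (XT.lf (nat_lit 0) (nat_lit 4925856268) (nat_lit 1748) (nat_lit 1022153742) (nat_lit 1824) (nat_lit 15396027691) (nat_lit 380) (nat_lit 5) (nat_lit 403) (nat_lit 5) (nat_lit 404) (nat_lit 5) (nat_lit 322) (nat_lit 309) (nat_lit 149)))))) (XT.nd (nat_lit 546) (nat_lit 3952) (nat_lit 0) (XT.nd (nat_lit 234) (nat_lit 3040) (nat_lit 0) (XT.nd (nat_lit 78) (nat_lit 0) (nat_lit 0) (XT.lf (nat_lit 0) (nat_lit 7004195031) (nat_lit 1748) (nat_lit 6968543328) (nat_lit 1824) (nat_lit 7712266560) (nat_lit 381) (nat_lit 5) (nat_lit 404) (nat_lit 5) (nat_lit 405) (nat_lit 5)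 (nat_lit 323) (nat_lit 309) (nat_lit 148)) (XT.nd (nat_lit 78) (nat_lit 0) (nat_lit 76) (XT.lf (nat_lit 76) (nat_lit 8976325884) (nat_lit 0) (nat_lit 265131976) (nat_lit 1824) (nat_lit 12792817389) (nat_lit 382) (nat_lit 5) (nat_lit 381) (nat_lit 5) (nat_lit 405) (nat_lit 5) (nat_lit 324) (nat_lit 309) (nat_lit 147)) (XT.lf (nat_lit 76) (nat_lit 3044706992) (nat_lit 0) (nat_lit 8650139135) (nat_lit 1824) (nat_lit 10696202824) (nat_lit 383) (nat_lit 5) (nat_lit 382) (nat_lit 5) (nat_lit 406) (nat_lit 5) (nat_lit 325) (nat_lit 309) (nat_lit 146)))) (XT.nd (nat_lit 156) (nat_lit 1748) (nat_lit 0) (XT.nd (nat_lit 78) (nat_lit 1444) (nat_lit 0) (XT.lf (nat_lit 0) (nat_lit 14339724729) (nat_lit 1748) (nat_lit 2991891909) (nat_lit 76) (nat_lit 5424556708) (nat_lit 383) (nat_lit 5) (nat_lit 406) (nat_lit 5) (nat_lit 384) (nat_lit 5) (nat_lit 326) (nat_lit 309) (nat_lit 145)) (XT.lf (nat_lit 0) (nat_lit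 13971911264) (nat_lit 1444) (nat_lit 3232798082) (nat_lit 1520) (nat_lit 5924732035) (nat_lit 364) (nat_lit 5) (nat_lit 383) (nat_lit 5) (nat_lit 384) (nat_lit 5) (nat_lit 327) (nat_lit 309) (nat_lit 144))) (XT.nd (nat_lit 78) (nat_lit 912) (nat_lit 0) (XT.lf (nat_lit 0) (nat_lit 7996796638) (nat_lit 836) (nat_lit 12296860070) (nat_lit 912) (nat_lit 3217495437) (nat_lit 353) (nat_lit 5) (nat_lit 364) (nat_lit 5) (nat_lit 365) (nat_lit 5) (nat_lit 328) (nat_lit 309) (nat_lit 143)) (XT.lf (nat_lit 0) (nat_lit 1869943694) (nat_lit 912) (nat_lit 21707925066) (nat_lit 988) (nat_lit 324398357) (nat_lit 341) (nat_lit 5) (nat_lit 353) (nat_lit 5) (nat_lit 354) (nat_lit 5) (nat_lit 329) (nat_lit 309) (nat_lit 142))))) (XT.nd (nat_lit 234) (nat_lit 2204) (nat_lit 0) (XT.nd (nat_lit 78) (nat_lit 1672) (nat_lit 0) (XT.lf (nat_lit 0) (nat_lit 2801418470) (nat_lit 988) (nat_lit 4421824214) (nat_lit 76) (nat_lit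 17077917526) (nat_lit 340) (nat_lit 5) (nat_lit 353) (nat_lit 5) (nat_lit 341) (nat_lit 5) (nat_lit 330) (nat_lit 309) (nat_lit 141)) (XT.nd (nat_lit 78) (nat_lit 836) (nat_lit 0) (XT.lf (nat_lit 0) (nat_lit 6150301786) (nat_lit 912) (nat_lit 10870482589) (nat_lit 76) (nat_lit 7688523293) (nat_lit 329) (nat_lit 5) (nat_lit 341) (nat_lit 5) (nat_lit 330) (nat_lit 5) (nat_lit 331) (nat_lit 309) (nat_lit 140)) (XT.lf (nat_lit 0) (nat_lit 7623585449) (nat_lit 836) (nat_lit 2097104216) (nat_lit 912) (nat_lit 15406593439) (nat_lit 318) (nat_lit 5) (nat_lit 329) (nat_lit 5) (nat_lit 330) (nat_lit 5) (nat_lit 332) (nat_lit 309) (nat_lit 139)))) (XT.nd (nat_lit 156) (nat_lit 1444) (nat_lit 0) (XT.nd (nat_lit 78) (nat_lit 0) (nat_lit 0) (XT.lf (nat_lit 0) (nat_lit 1187194965) (nat_lit 760) (nat_lit 12372272107) (nat_lit 836) (nat_lit 11995109362) (nat_lit 308) (nat_lit 5) (nat_lit 318) (nat_lit 5) (nat_lit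 319) (nat_lit 5) (nat_lit 333) (nat_lit 309) (nat_lit 138)) (XT.lf (nat_lit 0) (nat_lit 17658936577) (nat_lit 836) (nat_lit 5354115768) (nat_lit 76) (nat_lit 2978729711) (nat_lit 308) (nat_lit 5) (nat_lit 319) (nat_lit 5) (nat_lit 309) (nat_lit 5) (nat_lit 334) (nat_lit 309) (nat_lit 137))) (XT.nd (nat_lit 78) (nat_lit 684) (nat_lit 0) (XT.lf (nat_lit 0) (nat_lit 14328242339) (nat_lit 760) (nat_lit 7722497411) (nat_lit 836) (nat_lit 4387981052) (nat_lit 298) (nat_lit 5) (nat_lit 308) (nat_lit 5) (nat_lit 309) (nat_lit 5) (nat_lit 335) (nat_lit 309) (nat_lit 136)) (XT.lf (nat_lit 0) (nat_lit 7819711025) (nat_lit 684) (nat_lit 18887720417) (nat_lit 760) (nat_lit 188977414) (nat_lit 289) (nat_lit 5) (nat_lit 298) (nat_lit 5) (nat_lit 299) (nat_lit 5) (nat_lit 336) (nat_lit 309) (nat_lit 135))))))))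
noncomputable def xc118 : XT := (XT.nd (nat_lit 39546) (nat_lit 0) (nat_lit 532) (XT.nd (nat_lit 1014) (nat_lit 0) (nat_lit 0) (XT.nd (nat_lit 468) (nat_lit 3648) (nat_lit 0) (XT.nd (nat_lit 234) (nat_lit 1368) (nat_lit 0) (XT.nd (nat_lit 78) (nat_lit 684) (nat_lit 0) (XT.lf (nat_lit 0) (nat_lit 1075973080) (nat_lit 760) (nat_lit 3140840446) (nat_lit 836) (nat_lit 23147779371) (nat_lit 278) (nat_lit 5) (nat_lit 288) (nat_lit 5) (nat_lit 289) (nat_lit 5) (nat_lit 337) (nat_lit 309) (nat_lit 134)) (XT.nd (nat_lit 78) (nat_lit 684) (nat_lit 0) (XT.lf (nat_lit 0) (nat_lit 8961225282) (nat_lit 836) (nat_lit 5843426415) (nat_lit 76) (nat_lit 13037969033) (nat_lit 278) (nat_lit 5) (nat_lit 289) (nat_lit 5) (nat_lit 279) (nat_lit 5) (nat_lit 338) (nat_lit 309) (nat_lit 133)) (XT.lf (nat_lit 0) (nat_lit 13972291918) (nat_lit 760) (nat_lit 12952312692) (nat_lit 76) (nat_lit 1407901776) (nat_lit 269) (nat_lit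 5) (nat_lit 279) (nat_lit 5) (nat_lit 270) (nat_lit 5) (nat_lit 339) (nat_lit 309) (nat_lit 132)))) (XT.nd (nat_lit 78) (nat_lit 684) (nat_lit 0) (XT.lf (nat_lit 0) (nat_lit 8489963881) (nat_lit 684) (nat_lit 10831976960) (nat_lit 760) (nat_lit 9511386104) (nat_lit 260) (nat_lit 5) (nat_lit 269) (nat_lit 5) (nat_lit 270) (nat_lit 5) (nat_lit 340) (nat_lit 309) (nat_lit 131)) (XT.nd (nat_lit 78) (nat_lit 76) (nat_lit 0) (XT.lf (nat_lit 0) (nat_lit 1379266947) (nat_lit 608) (nat_lit 23581793855) (nat_lit 684) (nat_lit 4385534929) (nat_lit 252) (nat_lit 5) (nat_lit 260) (nat_lit 5) (nat_lit 261) (nat_lit 5) (nat_lit 341) (nat_lit 309) (nat_lit 130)) (XT.lf (nat_lit 0) (nat_lit 1088039480) (nat_lit 684) (nat_lit 5925932772) (nat_lit 76) (nat_lit 22857063836) (nat_lit 251) (nat_lit 5) (nat_lit 260) (nat_lit 5) (nat_lit 252) (nat_lit 5) (nat_lit 342) (nat_lit 309) (nat_lit 129))))) (XT.nd (nat_lit 234)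 (nat_lit 1748) (nat_lit 0) (XT.nd (nat_lit 78) (nat_lit 1216) (nat_lit 0) (XT.lf (nat_lit 0) (nat_lit 6837524793) (nat_lit 760) (nat_lit 13510973170) (nat_lit 76) (nat_lit 10058709204) (nat_lit 242) (nat_lit 5) (nat_lit 252) (nat_lit 5) (nat_lit 243) (nat_lit 5) (nat_lit 343) (nat_lit 309) (nat_lit 128)) (XT.nd (nat_lit 78) (nat_lit 608) (nat_lit 0) (XT.lf (nat_lit 0) (nat_lit 9598100137) (nat_lit 608) (nat_lit 3305782187) (nat_lit 684) (nat_lit 18052696208) (nat_lit 234) (nat_lit 5) (nat_lit 242) (nat_lit 5) (nat_lit 243) (nat_lit 5) (nat_lit 344) (nat_lit 309) (nat_lit 127)) (XT.lf (nat_lit 0) (nat_lit 1991661555) (nat_lit 608) (nat_lit 17353021185) (nat_lit 684) (nat_lit 12173902081) (nat_lit 226) (nat_lit 5) (nat_lit 234) (nat_lit 5) (nat_lit 235) (nat_lit 5) (nat_lit 345) (nat_lit 309) (nat_lit 126)))) (XT.nd (nat_lit 156) (nat_lit 1140) (nat_lit 0) (XT.nd (nat_lit 78) (nat_lit 608) (nat_lit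 0) (XT.lf (nat_lit 0) (nat_lit 26141439661) (nat_lit 684) (nat_lit 5789065788) (nat_lit 76) (nat_lit 163693942) (nat_lit 226) (nat_lit 5) (nat_lit 235) (nat_lit 5) (nat_lit 227) (nat_lit 5) (nat_lit 346) (nat_lit 309) (nat_lit 125)) (XT.lf (nat_lit 0) (nat_lit 683706898) (nat_lit 608) (nat_lit 13901617505) (nat_lit 76) (nat_lit 18097008365) (nat_lit 218) (nat_lit 5) (nat_lit 226) (nat_lit 5) (nat_lit 219) (nat_lit 5) (nat_lit 347) (nat_lit 309) (nat_lit 124))) (XT.nd (nat_lit 78) (nat_lit 532) (nat_lit 0) (XT.lf (nat_lit 0) (nat_lit 7567075523) (nat_lit 684) (nat_lit 22329995732) (nat_lit 76) (nat_lit 3387680818) (nat_lit 210) (nat_lit 5) (nat_lit 219) (nat_lit 5) (nat_lit 211) (nat_lit 5) (nat_lit 348) (nat_lit 309) (nat_lit 123)) (XT.lf (nat_lit 0) (nat_lit 2776082110) (nat_lit 532) (nat_lit 12086519854) (nat_lit 608) (nat_lit 19038531318) (nat_lit 203) (nat_lit 5) (nat_lit 210) (nat_lit 5) (nat_lit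 211) (nat_lit 5) (nat_lit 349) (nat_lit 309) (nat_lit 122)))))) (XT.nd (nat_lit 37986) (nat_lit 0) (nat_lit 13300) (XT.nd (nat_lit 37674) (nat_lit 0) (nat_lit 14668) (XT.nd (nat_lit 37518) (nat_lit 0) (nat_lit 14592) (XT.lf (nat_lit 0) (nat_lit 22565305537) (nat_lit 608) (nat_lit 5639520987) (nat_lit 76) (nat_lit 6327415564) (nat_lit 203) (nat_lit 5) (nat_lit 211) (nat_lit 5) (nat_lit 204) (nat_lit 5) (nat_lit 350) (nat_lit 309) (nat_lit 121)) (XT.nd (nat_lit 78) (nat_lit 0) (nat_lit 0) (XT.lf (nat_lit 0) (nat_lit 5145299256) (nat_lit 1748) (nat_lit 1939292337) (nat_lit 1748) (nat_lit 1939292337) (nat_lit 395) (nat_lit 3) (nat_lit 418) (nat_lit 3) (nat_lit 418) (nat_lit 5) (nat_lit 310) (nat_lit 310) (nat_lit 160)) (XT.lf (nat_lit 76) (nat_lit 8678113684) (nat_lit 0) (nat_lit 2114651530) (nat_lit 1748) (nat_lit 7518561315) (nat_lit 396) (nat_lit 5) (nat_lit 395) (nat_lit 3) (nat_lit 418) (nat_lit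 5) (nat_lit 311) (nat_lit 310) (nat_lit 159)))) (XT.nd (nat_lit 156) (nat_lit 0) (nat_lit 76) (XT.nd (nat_lit 78) (nat_lit 0) (nat_lit 76) (XT.lf (nat_lit 76) (nat_lit 3049114328) (nat_lit 0) (nat_lit 8362643014) (nat_lit 1748) (nat_lit 7169007279) (nat_lit 397) (nat_lit 5) (nat_lit 396) (nat_lit 5) (nat_lit 419) (nat_lit 5) (nat_lit 312) (nat_lit 310) (nat_lit 158)) (XT.lf (nat_lit 0) (nat_lit 12144218036) (nat_lit 1672) (nat_lit 2660198265) (nat_lit 1748) (nat_lit 4051979224) (nat_lit 397) (nat_lit 5) (nat_lit 419) (nat_lit 5) (nat_lit 420) (nat_lit 5) (nat_lit 313) (nat_lit 310) (nat_lit 157))) (XT.nd (nat_lit 78) (nat_lit 0) (nat_lit 76) (XT.lf (nat_lit 76) (nat_lit 10675349179) (nat_lit 0) (nat_lit 2337808872) (nat_lit 1748) (nat_lit 6124854611) (nat_lit 398) (nat_lit 5) (nat_lit 397) (nat_lit 5) (nat_lit 420) (nat_lit 5) (nat_lit 314) (nat_lit 310) (nat_lit 156)) (XT.lf (nat_lit 76) (nat_lit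 5010787194) (nat_lit 0) (nat_lit 9005820729) (nat_lit 1748) (nat_lit 5409308764) (nat_lit 399) (nat_lit 5) (nat_lit 398) (nat_lit 5) (nat_lit 421) (nat_lit 5) (nat_lit 315) (nat_lit 310) (nat_lit 155))))) (XT.nd (nat_lit 234) (nat_lit 1596) (nat_lit 0) (XT.nd (nat_lit 78) (nat_lit 0) (nat_lit 0) (XT.lf (nat_lit 0) (nat_lit 15137995811) (nat_lit 1672) (nat_lit 764071582) (nat_lit 1748) (nat_lit 3818640740) (nat_lit 399) (nat_lit 5) (nat_lit 421) (nat_lit 5) (nat_lit 422) (nat_lit 5) (nat_lit 316) (nat_lit 310) (nat_lit 154)) (XT.nd (nat_lit 78) (nat_lit 0) (nat_lit 76) (XT.lf (nat_lit 76) (nat_lit 13405887058) (nat_lit 0) (nat_lit 3024560407) (nat_lit 1748) (nat_lit 3591154206) (nat_lit 400) (nat_lit 5) (nat_lit 399) (nat_lit 5) (nat_lit 422) (nat_lit 5) (nat_lit 317) (nat_lit 310) (nat_lit 153)) (XT.lf (nat_lit 76) (nat_lit 7708219197) (nat_lit 0) (nat_lit 10165618159) (nat_lit 1748) (nat_lit 2455447959)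 (nat_lit 401) (nat_lit 5) (nat_lit 400) (nat_lit 5) (nat_lit 423) (nat_lit 5) (nat_lit 318) (nat_lit 310) (nat_lit 152)))) (XT.nd (nat_lit 156) (nat_lit 0) (nat_lit 76) (XT.nd (nat_lit 78) (nat_lit 1748) (nat_lit 0) (XT.lf (nat_lit 76) (nat_lit 1885130066) (nat_lit 0) (nat_lit 17563415599) (nat_lit 1748) (nat_lit 1195899868) (nat_lit 402) (nat_lit 5) (nat_lit 401) (nat_lit 5) (nat_lit 424) (nat_lit 5) (nat_lit 319) (nat_lit 310) (nat_lit 151)) (XT.lf (nat_lit 0) (nat_lit 245025035) (nat_lit 1748) (nat_lit 4043764752) (nat_lit 1824) (nat_lit 16677365277) (nat_lit 378) (nat_lit 5) (nat_lit 401) (nat_lit 5) (nat_lit 402) (nat_lit 5) (nat_lit 320) (nat_lit 310) (nat_lit 150))) (XT.nd (nat_lit 78) (nat_lit 0) (nat_lit 76) (XT.lf (nat_lit 0) (nat_lit 1838637799) (nat_lit 1748) (nat_lit 10111096108) (nat_lit 1824) (nat_lit 9345115636) (nat_lit 379) (nat_lit 5) (nat_lit 402) (nat_lit 5) (nat_lit 403) (nat_lit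 5) (nat_lit 321) (nat_lit 310) (nat_lit 149)) (XT.lf (nat_lit 0) (nat_lit 3573693372) (nat_lit 1748) (nat_lit 16318026105) (nat_lit 1824) (nat_lit 1739818434) (nat_lit 380) (nat_lit 5) (nat_lit 403) (nat_lit 5) (nat_lit 404) (nat_lit 5) (nat_lit 322) (nat_lit 310) (nat_lit 148))))))) (XT.nd (nat_lit 1092) (nat_lit 6688) (nat_lit 0) (XT.nd (nat_lit 546) (nat_lit 4180) (nat_lit 0) (XT.nd (nat_lit 234) (nat_lit 2052) (nat_lit 0) (XT.nd (nat_lit 78) (nat_lit 0) (nat_lit 76) (XT.lf (nat_lit 0) (nat_lit 5501257992) (nat_lit 1748) (nat_lit 724531521) (nat_lit 1824) (nat_lit 15749733845) (nat_lit 380) (nat_lit 5) (nat_lit 403) (nat_lit 5) (nat_lit 404) (nat_lit 5) (nat_lit 323) (nat_lit 310) (nat_lit 147)) (XT.nd (nat_lit 78) (nat_lit 0) (nat_lit 0) (XT.lf (nat_lit 0) (nat_lit 7630976362) (nat_lit 1748) (nat_lit 6845406485) (nat_lit 1824) (nat_lit 7850564396) (nat_lit 381) (nat_lit 5) (nat_lit 404) (nat_lit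 5) (nat_lit 405) (nat_lit 5) (nat_lit 324) (nat_lit 310) (nat_lit 146)) (XT.lf (nat_lit 76) (nat_lit 9572419365) (nat_lit 0) (nat_lit 352923941) (nat_lit 1824) (nat_lit 12761560654) (nat_lit 382) (nat_lit 5) (nat_lit 381) (nat_lit 5) (nat_lit 405) (nat_lit 5) (nat_lit 325) (nat_lit 310) (nat_lit 145)))) (XT.nd (nat_lit 156) (nat_lit 2204) (nat_lit 0) (XT.nd (nat_lit 78) (nat_lit 0) (nat_lit 76) (XT.lf (nat_lit 76) (nat_lit 3466323130) (nat_lit 0) (nat_lit 8975807259) (nat_lit 1824) (nat_lit 10612462310) (nat_lit 383) (nat_lit 5) (nat_lit 382) (nat_lit 5) (nat_lit 406) (nat_lit 5) (nat_lit 326) (nat_lit 310) (nat_lit 144)) (XT.lf (nat_lit 0) (nat_lit 15154391516) (nat_lit 1748) (nat_lit 2752627084) (nat_lit 76) (nat_lit 5523899042) (nat_lit 383) (nat_lit 5) (nat_lit 406) (nat_lit 5) (nat_lit 384) (nat_lit 5) (nat_lit 327) (nat_lit 310) (nat_lit 143))) (XT.nd (nat_lit 78) (nat_lit 836) (nat_lit 0)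 (XT.lf (nat_lit 0) (nat_lit 14714752199) (nat_lit 1444) (nat_lit 3381476739) (nat_lit 1520) (nat_lit 5719344038) (nat_lit 364) (nat_lit 5) (nat_lit 383) (nat_lit 5) (nat_lit 384) (nat_lit 5) (nat_lit 328) (nat_lit 310) (nat_lit 142)) (XT.lf (nat_lit 0) (nat_lit 8563088829) (nat_lit 836) (nat_lit 12705615813) (nat_lit 912) (nat_lit 2940220333) (nat_lit 353) (nat_lit 5) (nat_lit 364) (nat_lit 5) (nat_lit 365) (nat_lit 5) (nat_lit 329) (nat_lit 310) (nat_lit 141))))) (XT.nd (nat_lit 234) (nat_lit 2356) (nat_lit 0) (XT.nd (nat_lit 78) (nat_lit 836) (nat_lit 0) (XT.lf (nat_lit 0) (nat_lit 30300773) (nat_lit 988) (nat_lit 22357326695) (nat_lit 76) (nat_lit 2224324516) (nat_lit 340) (nat_lit 5) (nat_lit 353) (nat_lit 5) (nat_lit 341) (nat_lit 5) (nat_lit 330) (nat_lit 310) (nat_lit 140)) (XT.nd (nat_lit 78) (nat_lit 836) (nat_lit 0) (XT.lf (nat_lit 0) (nat_lit 3235023067) (nat_lit 988) (nat_lit 4230404148)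 (nat_lit 76) (nat_lit 17557557574) (nat_lit 340) (nat_lit 5) (nat_lit 353) (nat_lit 5) (nat_lit 341) (nat_lit 5) (nat_lit 331) (nat_lit 310) (nat_lit 139)) (XT.lf (nat_lit 0) (nat_lit 6676114483) (nat_lit 912) (nat_lit 10870591430) (nat_lit 76) (nat_lit 7896842304) (nat_lit 329) (nat_lit 5) (nat_lit 341) (nat_lit 5) (nat_lit 330) (nat_lit 5) (nat_lit 332) (nat_lit 310) (nat_lit 138)))) (XT.nd (nat_lit 156) (nat_lit 760) (nat_lit 0) (XT.nd (nat_lit 78) (nat_lit 760) (nat_lit 0) (XT.lf (nat_lit 0) (nat_lit 8173009596) (nat_lit 836) (nat_lit 2172745824) (nat_lit 912) (nat_lit 15528470859) (nat_lit 318) (nat_lit 5) (nat_lit 329) (nat_lit 5) (nat_lit 330) (nat_lit 5) (nat_lit 333) (nat_lit 310) (nat_lit 137)) (XT.lf (nat_lit 0) (nat_lit 1545169227) (nat_lit 760) (nat_lit 12746827660) (nat_lit 836) (nat_lit 12022501519) (nat_lit 308) (nat_lit 5) (nat_lit 318) (nat_lit 5) (nat_lit 319) (nat_lit 5) (nat_lit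 334) (nat_lit 310) (nat_lit 136))) (XT.nd (nat_lit 78) (nat_lit 760) (nat_lit 0) (XT.lf (nat_lit 0) (nat_lit 18504941383) (nat_lit 836) (nat_lit 5195228826) (nat_lit 76) (nat_lit 3064846006) (nat_lit 308) (nat_lit 5) (nat_lit 319) (nat_lit 5) (nat_lit 309) (nat_lit 5) (nat_lit 335) (nat_lit 310) (nat_lit 135)) (XT.lf (nat_lit 0) (nat_lit 15072416347) (nat_lit 760) (nat_lit 7948912344) (nat_lit 836) (nat_lit 4204183500) (nat_lit 298) (nat_lit 5) (nat_lit 308) (nat_lit 5) (nat_lit 309) (nat_lit 5) (nat_lit 336) (nat_lit 310) (nat_lit 134)))))) (XT.nd (nat_lit 546) (nat_lit 3116) (nat_lit 0) (XT.nd (nat_lit 234) (nat_lit 2052) (nat_lit 0) (XT.nd (nat_lit 78) (nat_lit 760) (nat_lit 0) (XT.lf (nat_lit 0) (nat_lit 112234190) (nat_lit 760) (nat_lit 19328050379) (nat_lit 76) (nat_lit 8256775464) (nat_lit 288) (nat_lit 5) (nat_lit 298) (nat_lit 5) (nat_lit 289) (nat_lit 5) (nat_lit 337) (nat_lit 310) (nat_lit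 133)) (XT.nd (nat_lit 78) (nat_lit 0) (nat_lit 0) (XT.lf (nat_lit 0) (nat_lit 1422750382) (nat_lit 760) (nat_lit 3218073657) (nat_lit 836) (nat_lit 23538581959) (nat_lit 278) (nat_lit 5) (nat_lit 288) (nat_lit 5) (nat_lit 289) (nat_lit 5) (nat_lit 338) (nat_lit 310) (nat_lit 132)) (XT.lf (nat_lit 0) (nat_lit 9519010030) (nat_lit 836) (nat_lit 5707552049) (nat_lit 76) (nat_lit 13445388832) (nat_lit 278) (nat_lit 5) (nat_lit 289) (nat_lit 5) (nat_lit 279) (nat_lit 5) (nat_lit 339) (nat_lit 310) (nat_lit 131)))) (XT.nd (nat_lit 156) (nat_lit 684) (nat_lit 0) (XT.nd (nat_lit 78) (nat_lit 684) (nat_lit 0) (XT.lf (nat_lit 0) (nat_lit 14674133580) (nat_lit 760) (nat_lit 13029091742) (nat_lit 76) (nat_lit 1473438252) (nat_lit 269) (nat_lit 5) (nat_lit 279) (nat_lit 5) (nat_lit 270) (nat_lit 5) (nat_lit 340) (nat_lit 310) (nat_lit 130)) (XT.lf (nat_lit 0) (nat_lit 9051394700) (nat_lit 684) (nat_lit 11126635586)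 (nat_lit 760) (nat_lit 9514608090) (nat_lit 260) (nat_lit 5) (nat_lit 269) (nat_lit 5) (nat_lit 270) (nat_lit 5) (nat_lit 341) (nat_lit 310) (nat_lit 129))) (XT.nd (nat_lit 78) (nat_lit 76) (nat_lit 0) (XT.lf (nat_lit 0) (nat_lit 1727803046) (nat_lit 608) (nat_lit 24252654681) (nat_lit 684) (nat_lit 4240969474) (nat_lit 252) (nat_lit 5) (nat_lit 260) (nat_lit 5) (nat_lit 261) (nat_lit 5) (nat_lit 342) (nat_lit 310) (nat_lit 128)) (XT.lf (nat_lit 0) (nat_lit 1385253469) (nat_lit 684) (nat_lit 5801835354) (nat_lit 76) (nat_lit 23574639263) (nat_lit 251) (nat_lit 5) (nat_lit 260) (nat_lit 5) (nat_lit 252) (nat_lit 5) (nat_lit 343) (nat_lit 310) (nat_lit 127))))) (XT.nd (nat_lit 234) (nat_lit 1216) (nat_lit 0) (XT.nd (nat_lit 78) (nat_lit 1216) (nat_lit 0) (XT.lf (nat_lit 0) (nat_lit 7301693423) (nat_lit 760) (nat_lit 13614253213) (nat_lit 76) (nat_lit 10398152559) (nat_lit 242) (nat_lit 5) (nat_lit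 252) (nat_lit 5) (nat_lit 243) (nat_lit 5) (nat_lit 344) (nat_lit 310) (nat_lit 126)) (XT.nd (nat_lit 78) (nat_lit 608) (nat_lit 0) (XT.lf (nat_lit 0) (nat_lit 10183191905) (nat_lit 608) (nat_lit 3361234124) (nat_lit 684) (nat_lit 18335642161) (nat_lit 234) (nat_lit 5) (nat_lit 242) (nat_lit 5) (nat_lit 243) (nat_lit 5) (nat_lit 345) (nat_lit 310) (nat_lit 125)) (XT.lf (nat_lit 0) (nat_lit 2348583227) (nat_lit 608) (nat_lit 17824690892) (nat_lit 684) (nat_lit 12285768127) (nat_lit 226) (nat_lit 5) (nat_lit 234) (nat_lit 5) (nat_lit 235) (nat_lit 5) (nat_lit 346) (nat_lit 310) (nat_lit 124)))) (XT.nd (nat_lit 156) (nat_lit 608) (nat_lit 0) (XT.nd (nat_lit 78) (nat_lit 608) (nat_lit 0) (XT.lf (nat_lit 0) (nat_lit 27167011514) (nat_lit 684) (nat_lit 5669578230) (nat_lit 76) (nat_lit 215477889) (nat_lit 226) (nat_lit 5) (nat_lit 235) (nat_lit 5) (nat_lit 227) (nat_lit 5) (nat_lit 347) (nat_lit 310)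 (nat_lit 123)) (XT.lf (nat_lit 0) (nat_lit 942080015) (nat_lit 608) (nat_lit 14026976755) (nat_lit 76) (nat_lit 18688863894) (nat_lit 218) (nat_lit 5) (nat_lit 226) (nat_lit 5) (nat_lit 219) (nat_lit 5) (nat_lit 348) (nat_lit 310) (nat_lit 122))) (XT.nd (nat_lit 37674) (nat_lit 0) (nat_lit 14060) (XT.lf (nat_lit 0) (nat_lit 8027236439) (nat_lit 684) (nat_lit 22708513130) (nat_lit 76) (nat_lit 3542760881) (nat_lit 210) (nat_lit 5) (nat_lit 219) (nat_lit 5) (nat_lit 211) (nat_lit 5) (nat_lit 349) (nat_lit 310) (nat_lit 121)) (XT.lf (nat_lit 0) (nat_lit 5588320161) (nat_lit 1748) (nat_lit 1850153646) (nat_lit 1748) (nat_lit 1850153646) (nat_lit 395) (nat_lit 3) (nat_lit 418) (nat_lit 3) (nat_lit 418) (nat_lit 5) (nat_lit 311) (nat_lit 311) (nat_lit 158))))))))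
noncomputable def xc119 : XT := (XT.nd (nat_lit 2106) (nat_lit 5320) (nat_lit 0) (XT.nd (nat_lit 1014) (nat_lit 6840) (nat_lit 0) (XT.nd (nat_lit 468) (nat_lit 1292) (nat_lit 0) (XT.nd (nat_lit 234) (nat_lit 0) (nat_lit 152) (XT.nd (nat_lit 78) (nat_lit 0) (nat_lit 76) (XT.lf (nat_lit 76) (nat_lit 9228311914) (nat_lit 0) (nat_lit 2450626784) (nat_lit 1748) (nat_lit 7170091944) (nat_lit 396) (nat_lit 5) (nat_lit 395) (nat_lit 3) (nat_lit 418) (nat_lit 5) (nat_lit 312) (nat_lit 311) (nat_lit 157)) (XT.nd (nat_lit 78) (nat_lit 0) (nat_lit 76) (XT.lf (nat_lit 76) (nat_lit 3438927711) (nat_lit 0) (nat_lit 8861411649) (nat_lit 1748) (nat_lit 6826547039) (nat_lit 397) (nat_lit 5) (nat_lit 396) (nat_lit 5) (nat_lit 419) (nat_lit 5) (nat_lit 313) (nat_lit 311) (nat_lit 156)) (XT.lf (nat_lit 0) (nat_lit 13037301698) (nat_lit 1672) (nat_lit 2437819186) (nat_lit 1748) (nat_lit 3936025755) (nat_lit 397) (nat_lit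 5) (nat_lit 419) (nat_lit 5) (nat_lit 420) (nat_lit 5) (nat_lit 314) (nat_lit 311) (nat_lit 155)))) (XT.nd (nat_lit 78) (nat_lit 0) (nat_lit 76) (XT.lf (nat_lit 76) (nat_lit 11292892088) (nat_lit 0) (nat_lit 2625947289) (nat_lit 1748) (nat_lit 5782652975) (nat_lit 398) (nat_lit 5) (nat_lit 397) (nat_lit 5) (nat_lit 420) (nat_lit 5) (nat_lit 315) (nat_lit 311) (nat_lit 154)) (XT.nd (nat_lit 78) (nat_lit 0) (nat_lit 76) (XT.lf (nat_lit 76) (nat_lit 5465450386) (nat_lit 0) (nat_lit 9472535783) (nat_lit 1748) (nat_lit 5060345797) (nat_lit 399) (nat_lit 5) (nat_lit 398) (nat_lit 5) (nat_lit 421) (nat_lit 5) (nat_lit 316) (nat_lit 311) (nat_lit 153)) (XT.lf (nat_lit 0) (nat_lit 16077188053) (nat_lit 1672) (nat_lit 480219101) (nat_lit 1748) (nat_lit 3744886594) (nat_lit 399) (nat_lit 5) (nat_lit 421) (nat_lit 5) (nat_lit 422) (nat_lit 5) (nat_lit 317) (nat_lit 311) (nat_lit 152))))) (XT.nd (nat_lit 234)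 (nat_lit 1596) (nat_lit 0) (XT.nd (nat_lit 78) (nat_lit 0) (nat_lit 76) (XT.lf (nat_lit 76) (nat_lit 14109861245) (nat_lit 0) (nat_lit 3286383743) (nat_lit 1748) (nat_lit 3216222214) (nat_lit 400) (nat_lit 5) (nat_lit 399) (nat_lit 5) (nat_lit 422) (nat_lit 5) (nat_lit 318) (nat_lit 311) (nat_lit 151)) (XT.nd (nat_lit 78) (nat_lit 0) (nat_lit 76) (XT.lf (nat_lit 76) (nat_lit 8247083637) (nat_lit 0) (nat_lit 10622998420) (nat_lit 1748) (nat_lit 2059565849) (nat_lit 401) (nat_lit 5) (nat_lit 400) (nat_lit 5) (nat_lit 423) (nat_lit 5) (nat_lit 319) (nat_lit 311) (nat_lit 150)) (XT.lf (nat_lit 76) (nat_lit 2254646184) (nat_lit 0) (nat_lit 18225057734) (nat_lit 1748) (nat_lit 774814753) (nat_lit 402) (nat_lit 5) (nat_lit 401) (nat_lit 5) (nat_lit 424) (nat_lit 5) (nat_lit 320) (nat_lit 311) (nat_lit 149)))) (XT.nd (nat_lit 156) (nat_lit 0) (nat_lit 152) (XT.nd (nat_lit 78) (nat_lit 0) (nat_lit 76) (XT.lf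 (nat_lit 0) (nat_lit 690209739) (nat_lit 1748) (nat_lit 3855120856) (nat_lit 1824) (nat_lit 17040760997) (nat_lit 378) (nat_lit 5) (nat_lit 401) (nat_lit 5) (nat_lit 402) (nat_lit 5) (nat_lit 321) (nat_lit 311) (nat_lit 148)) (XT.lf (nat_lit 0) (nat_lit 2320065268) (nat_lit 1748) (nat_lit 10099883684) (nat_lit 1824) (nat_lit 9504937756) (nat_lit 379) (nat_lit 5) (nat_lit 402) (nat_lit 5) (nat_lit 403) (nat_lit 5) (nat_lit 322) (nat_lit 311) (nat_lit 147))) (XT.nd (nat_lit 78) (nat_lit 0) (nat_lit 0) (XT.lf (nat_lit 0) (nat_lit 4096075082) (nat_lit 1748) (nat_lit 16488841806) (nat_lit 1824) (nat_lit 1686989028) (nat_lit 380) (nat_lit 5) (nat_lit 403) (nat_lit 5) (nat_lit 404) (nat_lit 5) (nat_lit 323) (nat_lit 311) (nat_lit 146)) (XT.lf (nat_lit 0) (nat_lit 6069374283) (nat_lit 1748) (nat_lit 436825640) (nat_lit 1824) (nat_lit 16120260851) (nat_lit 380) (nat_lit 5) (nat_lit 403) (nat_lit 5) (nat_lit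 404) (nat_lit 5) (nat_lit 324) (nat_lit 311) (nat_lit 145)))))) (XT.nd (nat_lit 546) (nat_lit 3952) (nat_lit 0) (XT.nd (nat_lit 234) (nat_lit 3116) (nat_lit 0) (XT.nd (nat_lit 78) (nat_lit 0) (nat_lit 0) (XT.lf (nat_lit 0) (nat_lit 8252643404) (nat_lit 1748) (nat_lit 6737644781) (nat_lit 1824) (nat_lit 7998353776) (nat_lit 381) (nat_lit 5) (nat_lit 404) (nat_lit 5) (nat_lit 405) (nat_lit 5) (nat_lit 325) (nat_lit 311) (nat_lit 144)) (XT.nd (nat_lit 78) (nat_lit 0) (nat_lit 76) (XT.lf (nat_lit 76) (nat_lit 10167635780) (nat_lit 0) (nat_lit 438766637) (nat_lit 1824) (nat_lit 12753191283) (nat_lit 382) (nat_lit 5) (nat_lit 381) (nat_lit 5) (nat_lit 405) (nat_lit 5) (nat_lit 326) (nat_lit 311) (nat_lit 143)) (XT.lf (nat_lit 76) (nat_lit 3881628619) (nat_lit 0) (nat_lit 9307447345) (nat_lit 1824) (nat_lit 10549436802) (nat_lit 383) (nat_lit 5) (nat_lit 382) (nat_lit 5) (nat_lit 406) (nat_lit 5) (nat_lit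 327) (nat_lit 311) (nat_lit 142)))) (XT.nd (nat_lit 156) (nat_lit 1824) (nat_lit 0) (XT.nd (nat_lit 78) (nat_lit 1444) (nat_lit 0) (XT.lf (nat_lit 0) (nat_lit 15971427867) (nat_lit 1748) (nat_lit 2525071499) (nat_lit 76) (nat_lit 5629860743) (nat_lit 383) (nat_lit 5) (nat_lit 406) (nat_lit 5) (nat_lit 384) (nat_lit 5) (nat_lit 328) (nat_lit 311) (nat_lit 141)) (XT.lf (nat_lit 0) (nat_lit 15461297600) (nat_lit 1444) (nat_lit 3531648267) (nat_lit 1520) (nat_lit 5529787628) (nat_lit 364) (nat_lit 5) (nat_lit 383) (nat_lit 5) (nat_lit 384) (nat_lit 5) (nat_lit 329) (nat_lit 311) (nat_lit 140))) (XT.nd (nat_lit 78) (nat_lit 988) (nat_lit 0) (XT.lf (nat_lit 0) (nat_lit 9127633762) (nat_lit 836) (nat_lit 13124346678) (nat_lit 912) (nat_lit 2676084623) (nat_lit 353) (nat_lit 5) (nat_lit 364) (nat_lit 5) (nat_lit 365) (nat_lit 5) (nat_lit 330) (nat_lit 311) (nat_lit 139)) (XT.lf (nat_lit 0) (nat_lit 370590420)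 (nat_lit 988) (nat_lit 22713410774) (nat_lit 76) (nat_lit 2259309127) (nat_lit 340) (nat_lit 5) (nat_lit 353) (nat_lit 5) (nat_lit 341) (nat_lit 5) (nat_lit 331) (nat_lit 311) (nat_lit 138))))) (XT.nd (nat_lit 234) (nat_lit 2280) (nat_lit 0) (XT.nd (nat_lit 78) (nat_lit 1672) (nat_lit 0) (XT.lf (nat_lit 0) (nat_lit 3661569510) (nat_lit 988) (nat_lit 4051844698) (nat_lit 76) (nat_lit 18053463792) (nat_lit 340) (nat_lit 5) (nat_lit 353) (nat_lit 5) (nat_lit 341) (nat_lit 5) (nat_lit 332) (nat_lit 311) (nat_lit 137)) (XT.nd (nat_lit 78) (nat_lit 836) (nat_lit 0) (XT.lf (nat_lit 0) (nat_lit 7198109336) (nat_lit 912) (nat_lit 10889417592) (nat_lit 76) (nat_lit 8112693102) (nat_lit 329) (nat_lit 5) (nat_lit 341) (nat_lit 5) (nat_lit 330) (nat_lit 5) (nat_lit 333) (nat_lit 311) (nat_lit 136)) (XT.lf (nat_lit 0) (nat_lit 8720506024) (nat_lit 836) (nat_lit 2249926014) (nat_lit 912) (nat_lit 15673540383)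 (nat_lit 318) (nat_lit 5) (nat_lit 329) (nat_lit 5) (nat_lit 330) (nat_lit 5) (nat_lit 334) (nat_lit 311) (nat_lit 135)))) (XT.nd (nat_lit 156) (nat_lit 1520) (nat_lit 0) (XT.nd (nat_lit 78) (nat_lit 0) (nat_lit 0) (XT.lf (nat_lit 0) (nat_lit 1895378026) (nat_lit 760) (nat_lit 13132425430) (nat_lit 836) (nat_lit 12069800069) (nat_lit 308) (nat_lit 5) (nat_lit 318) (nat_lit 5) (nat_lit 319) (nat_lit 5) (nat_lit 335) (nat_lit 311) (nat_lit 134)) (XT.lf (nat_lit 0) (nat_lit 19358173053) (nat_lit 836) (nat_lit 5049916481) (nat_lit 76) (nat_lit 3153732101) (nat_lit 308) (nat_lit 5) (nat_lit 319) (nat_lit 5) (nat_lit 309) (nat_lit 5) (nat_lit 336) (nat_lit 311) (nat_lit 133))) (XT.nd (nat_lit 78) (nat_lit 760) (nat_lit 0) (XT.lf (nat_lit 0) (nat_lit 15820871935) (nat_lit 760) (nat_lit 8182421670) (nat_lit 836) (nat_lit 4032979394) (nat_lit 298) (nat_lit 5) (nat_lit 308) (nat_lit 5) (nat_lit 309) (nat_lit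 5) (nat_lit 337) (nat_lit 311) (nat_lit 132)) (XT.lf (nat_lit 0) (nat_lit 402459638) (nat_lit 760) (nat_lit 19606558484) (nat_lit 76) (nat_lit 8513047062) (nat_lit 288) (nat_lit 5) (nat_lit 298) (nat_lit 5) (nat_lit 289) (nat_lit 5) (nat_lit 338) (nat_lit 311) (nat_lit 131))))))) (XT.nd (nat_lit 38766) (nat_lit 0) (nat_lit 12160) (XT.nd (nat_lit 546) (nat_lit 1824) (nat_lit 0) (XT.nd (nat_lit 234) (nat_lit 2052) (nat_lit 0) (XT.nd (nat_lit 78) (nat_lit 684) (nat_lit 0) (XT.lf (nat_lit 0) (nat_lit 1761877524) (nat_lit 760) (nat_lit 3298599274) (nat_lit 836) (nat_lit 23958538274) (nat_lit 278) (nat_lit 5) (nat_lit 288) (nat_lit 5) (nat_lit 289) (nat_lit 5) (nat_lit 339) (nat_lit 311) (nat_lit 130)) (XT.nd (nat_lit 78) (nat_lit 684) (nat_lit 0) (XT.lf (nat_lit 0) (nat_lit 10076941524) (nat_lit 836) (nat_lit 5585464294) (nat_lit 76) (nat_lit 13864096644) (nat_lit 278) (nat_lit 5) (nat_lit 289) (nat_lit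 5) (nat_lit 279) (nat_lit 5) (nat_lit 340) (nat_lit 311) (nat_lit 129)) (XT.lf (nat_lit 0) (nat_lit 15380803911) (nat_lit 760) (nat_lit 13126072205) (nat_lit 76) (nat_lit 1539603340) (nat_lit 269) (nat_lit 5) (nat_lit 279) (nat_lit 5) (nat_lit 270) (nat_lit 5) (nat_lit 341) (nat_lit 311) (nat_lit 128)))) (XT.nd (nat_lit 156) (nat_lit 760) (nat_lit 0) (XT.nd (nat_lit 78) (nat_lit 608) (nat_lit 0) (XT.lf (nat_lit 0) (nat_lit 9612060777) (nat_lit 684) (nat_lit 11431873355) (nat_lit 760) (nat_lit 9534121555) (nat_lit 260) (nat_lit 5) (nat_lit 269) (nat_lit 5) (nat_lit 270) (nat_lit 5) (nat_lit 342) (nat_lit 311) (nat_lit 127)) (XT.lf (nat_lit 0) (nat_lit 2069163097) (nat_lit 608) (nat_lit 24945741919) (nat_lit 684) (nat_lit 4107918134) (nat_lit 252) (nat_lit 5) (nat_lit 260) (nat_lit 5) (nat_lit 261) (nat_lit 5) (nat_lit 343) (nat_lit 311) (nat_lit 126))) (XT.nd (nat_lit 78) (nat_lit 684) (nat_lit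 0) (XT.lf (nat_lit 0) (nat_lit 1676196316) (nat_lit 684) (nat_lit 5691343896) (nat_lit 76) (nat_lit 24311912857) (nat_lit 251) (nat_lit 5) (nat_lit 260) (nat_lit 5) (nat_lit 252) (nat_lit 5) (nat_lit 344) (nat_lit 311) (nat_lit 125)) (XT.lf (nat_lit 0) (nat_lit 7764916990) (nat_lit 760) (nat_lit 13737970514) (nat_lit 76) (nat_lit 10745616110) (nat_lit 242) (nat_lit 5) (nat_lit 252) (nat_lit 5) (nat_lit 243) (nat_lit 5) (nat_lit 345) (nat_lit 311) (nat_lit 124))))) (XT.nd (nat_lit 234) (nat_lit 608) (nat_lit 0) (XT.nd (nat_lit 78) (nat_lit 608) (nat_lit 0) (XT.lf (nat_lit 0) (nat_lit 10768778871) (nat_lit 608) (nat_lit 3420859413) (nat_lit 684) (nat_lit 18641923195) (nat_lit 234) (nat_lit 5) (nat_lit 242) (nat_lit 5) (nat_lit 243) (nat_lit 5) (nat_lit 346) (nat_lit 311) (nat_lit 123)) (XT.nd (nat_lit 78) (nat_lit 0) (nat_lit 0) (XT.lf (nat_lit 0) (nat_lit 2699153671) (nat_lit 608) (nat_lit 18313318952)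 (nat_lit 684) (nat_lit 12415533540) (nat_lit 226) (nat_lit 5) (nat_lit 234) (nat_lit 5) (nat_lit 235) (nat_lit 5) (nat_lit 347) (nat_lit 311) (nat_lit 122)) (XT.lf (nat_lit 0) (nat_lit 28209497271) (nat_lit 684) (nat_lit 5563334601) (nat_lit 76) (nat_lit 266124644) (nat_lit 226) (nat_lit 5) (nat_lit 235) (nat_lit 5) (nat_lit 227) (nat_lit 5) (nat_lit 348) (nat_lit 311) (nat_lit 121)))) (XT.nd (nat_lit 37830) (nat_lit 0) (nat_lit 13452) (XT.nd (nat_lit 37752) (nat_lit 0) (nat_lit 13452) (XT.lf (nat_lit 0) (nat_lit 1194550078) (nat_lit 608) (nat_lit 14172840940) (nat_lit 76) (nat_lit 19295665430) (nat_lit 218) (nat_lit 5) (nat_lit 226) (nat_lit 5) (nat_lit 219) (nat_lit 5) (nat_lit 349) (nat_lit 311) (nat_lit 120)) (XT.lf (nat_lit 0) (nat_lit 6028061318) (nat_lit 1748) (nat_lit 1766797420) (nat_lit 1748) (nat_lit 1766797420) (nat_lit 395) (nat_lit 3) (nat_lit 418) (nat_lit 3) (nat_lit 418) (nat_lit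 5) (nat_lit 312) (nat_lit 312) (nat_lit 156))) (XT.nd (nat_lit 78) (nat_lit 0) (nat_lit 76) (XT.lf (nat_lit 76) (nat_lit 9778377238) (nat_lit 0) (nat_lit 2781036630) (nat_lit 1748) (nat_lit 6844119944) (nat_lit 396) (nat_lit 5) (nat_lit 395) (nat_lit 3) (nat_lit 418) (nat_lit 5) (nat_lit 313) (nat_lit 312) (nat_lit 155)) (XT.lf (nat_lit 76) (nat_lit 3823309562) (nat_lit 0) (nat_lit 9360913480) (nat_lit 1748) (nat_lit 6505817520) (nat_lit 397) (nat_lit 5) (nat_lit 396) (nat_lit 5) (nat_lit 419) (nat_lit 5) (nat_lit 314) (nat_lit 312) (nat_lit 154)))))) (XT.nd (nat_lit 546) (nat_lit 1444) (nat_lit 0) (XT.nd (nat_lit 234) (nat_lit 0) (nat_lit 152) (XT.nd (nat_lit 78) (nat_lit 0) (nat_lit 0) (XT.lf (nat_lit 0) (nat_lit 13926825048) (nat_lit 1672) (nat_lit 2226115392) (nat_lit 1748) (nat_lit 3830227892) (nat_lit 397) (nat_lit 5) (nat_lit 419) (nat_lit 5) (nat_lit 420) (nat_lit 5) (nat_lit 315) (nat_lit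 312) (nat_lit 153)) (XT.nd (nat_lit 78) (nat_lit 0) (nat_lit 76) (XT.lf (nat_lit 76) (nat_lit 11911896056) (nat_lit 0) (nat_lit 2910215527) (nat_lit 1748) (nat_lit 5460376816) (nat_lit 398) (nat_lit 5) (nat_lit 397) (nat_lit 5) (nat_lit 420) (nat_lit 5) (nat_lit 316) (nat_lit 312) (nat_lit 152)) (XT.lf (nat_lit 76) (nat_lit 5916283137) (nat_lit 0) (nat_lit 9941970064) (nat_lit 1748) (nat_lit 4730261337) (nat_lit 399) (nat_lit 5) (nat_lit 398) (nat_lit 5) (nat_lit 421) (nat_lit 5) (nat_lit 317) (nat_lit 312) (nat_lit 151)))) (XT.nd (nat_lit 156) (nat_lit 0) (nat_lit 76) (XT.nd (nat_lit 78) (nat_lit 0) (nat_lit 0) (XT.lf (nat_lit 0) (nat_lit 17016712072) (nat_lit 1672) (nat_lit 205461163) (nat_lit 1748) (nat_lit 3679729781) (nat_lit 399) (nat_lit 5) (nat_lit 421) (nat_lit 5) (nat_lit 422) (nat_lit 5) (nat_lit 318) (nat_lit 312) (nat_lit 150)) (XT.lf (nat_lit 76) (nat_lit 14817630243) (nat_lit 0)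 (nat_lit 3546240712) (nat_lit 1748) (nat_lit 2857749301) (nat_lit 400) (nat_lit 5) (nat_lit 399) (nat_lit 5) (nat_lit 422) (nat_lit 5) (nat_lit 319) (nat_lit 312) (nat_lit 149))) (XT.nd (nat_lit 78) (nat_lit 0) (nat_lit 76) (XT.lf (nat_lit 76) (nat_lit 8784455486) (nat_lit 0) (nat_lit 11085351033) (nat_lit 1748) (nat_lit 1678761111) (nat_lit 401) (nat_lit 5) (nat_lit 400) (nat_lit 5) (nat_lit 423) (nat_lit 5) (nat_lit 320) (nat_lit 312) (nat_lit 148)) (XT.lf (nat_lit 76) (nat_lit 2617282474) (nat_lit 0) (nat_lit 18898814525) (nat_lit 1748) (nat_lit 367328578) (nat_lit 402) (nat_lit 5) (nat_lit 401) (nat_lit 5) (nat_lit 424) (nat_lit 5) (nat_lit 321) (nat_lit 312) (nat_lit 147))))) (XT.nd (nat_lit 234) (nat_lit 0) (nat_lit 152) (XT.nd (nat_lit 78) (nat_lit 0) (nat_lit 76) (XT.lf (nat_lit 0) (nat_lit 1123616525) (nat_lit 1748) (nat_lit 3678610434) (nat_lit 1824) (nat_lit 17422918659) (nat_lit 378)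 (nat_lit 5) (nat_lit 401) (nat_lit 5) (nat_lit 402) (nat_lit 5) (nat_lit 322) (nat_lit 312) (nat_lit 146)) (XT.nd (nat_lit 78) (nat_lit 0) (nat_lit 76) (XT.lf (nat_lit 0) (nat_lit 2791466014) (nat_lit 1748) (nat_lit 10106391075) (nat_lit 1824) (nat_lit 9676473533) (nat_lit 379) (nat_lit 5) (nat_lit 402) (nat_lit 5) (nat_lit 403) (nat_lit 5) (nat_lit 323) (nat_lit 312) (nat_lit 145)) (XT.lf (nat_lit 0) (nat_lit 4610295734) (nat_lit 1748) (nat_lit 16683078103) (nat_lit 1824) (nat_lit 1638603545) (nat_lit 380) (nat_lit 5) (nat_lit 403) (nat_lit 5) (nat_lit 404) (nat_lit 5) (nat_lit 324) (nat_lit 312) (nat_lit 144)))) (XT.nd (nat_lit 156) (nat_lit 0) (nat_lit 76) (XT.nd (nat_lit 78) (nat_lit 0) (nat_lit 76) (XT.lf (nat_lit 0) (nat_lit 6631395706) (nat_lit 1748) (nat_lit 158251809) (nat_lit 1824) (nat_lit 16507756877) (nat_lit 380) (nat_lit 5) (nat_lit 403) (nat_lit 5) (nat_lit 404) (nat_lit 5) (nat_lit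 325) (nat_lit 312) (nat_lit 143)) (XT.lf (nat_lit 0) (nat_lit 8870415704) (nat_lit 1748) (nat_lit 6644624820) (nat_lit 1824) (nat_lit 8155612757) (nat_lit 381) (nat_lit 5) (nat_lit 404) (nat_lit 5) (nat_lit 405) (nat_lit 5) (nat_lit 326) (nat_lit 312) (nat_lit 142))) (XT.nd (nat_lit 78) (nat_lit 0) (nat_lit 76) (XT.lf (nat_lit 76) (nat_lit 10763025712) (nat_lit 0) (nat_lit 522864671) (nat_lit 1824) (nat_lit 12767028240) (nat_lit 382) (nat_lit 5) (nat_lit 381) (nat_lit 5) (nat_lit 405) (nat_lit 5) (nat_lit 327) (nat_lit 312) (nat_lit 141)) (XT.lf (nat_lit 76) (nat_lit 4291522473) (nat_lit 0) (nat_lit 9645456578) (nat_lit 1824) (nat_lit 10506414414) (nat_lit 383) (nat_lit 5) (nat_lit 382) (nat_lit 5) (nat_lit 406) (nat_lit 5) (nat_lit 328) (nat_lit 312) (nat_lit 140))))))))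
noncomputable def xc120 : XT := (XT.nd (nat_lit 39936) (nat_lit 0) (nat_lit 1900) (XT.nd (nat_lit 1014) (nat_lit 3952) (nat_lit 0) (XT.nd (nat_lit 468) (nat_lit 3876) (nat_lit 0) (XT.nd (nat_lit 234) (nat_lit 1824) (nat_lit 0) (XT.nd (nat_lit 78) (nat_lit 2280) (nat_lit 0) (XT.lf (nat_lit 0) (nat_lit 16792171802) (nat_lit 1748) (nat_lit 2308492230) (nat_lit 76) (nat_lit 5742431492) (nat_lit 383) (nat_lit 5) (nat_lit 406) (nat_lit 5) (nat_lit 384) (nat_lit 5) (nat_lit 329) (nat_lit 312) (nat_lit 139)) (XT.nd (nat_lit 78) (nat_lit 836) (nat_lit 0) (XT.lf (nat_lit 0) (nat_lit 16212725213) (nat_lit 1444) (nat_lit 3683527800) (nat_lit 1520) (nat_lit 5355275251) (nat_lit 364) (nat_lit 5) (nat_lit 383) (nat_lit 5) (nat_lit 384) (nat_lit 5) (nat_lit 330) (nat_lit 312) (nat_lit 138)) (XT.lf (nat_lit 0) (nat_lit 9691454545) (nat_lit 836) (nat_lit 13553483234) (nat_lit 912) (nat_lit 2424250733) (nat_lit 353)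 (nat_lit 5) (nat_lit 364) (nat_lit 5) (nat_lit 365) (nat_lit 5) (nat_lit 331) (nat_lit 312) (nat_lit 137)))) (XT.nd (nat_lit 78) (nat_lit 836) (nat_lit 0) (XT.lf (nat_lit 0) (nat_lit 701606920) (nat_lit 988) (nat_lit 23098238754) (nat_lit 76) (nat_lit 2297165577) (nat_lit 340) (nat_lit 5) (nat_lit 353) (nat_lit 5) (nat_lit 341) (nat_lit 5) (nat_lit 332) (nat_lit 312) (nat_lit 136)) (XT.nd (nat_lit 78) (nat_lit 836) (nat_lit 0) (XT.lf (nat_lit 0) (nat_lit 4081997942) (nat_lit 988) (nat_lit 3885463783) (nat_lit 76) (nat_lit 18566016420) (nat_lit 340) (nat_lit 5) (nat_lit 353) (nat_lit 5) (nat_lit 341) (nat_lit 5) (nat_lit 333) (nat_lit 312) (nat_lit 135)) (XT.lf (nat_lit 0) (nat_lit 7717296482) (nat_lit 912) (nat_lit 10926448334) (nat_lit 76) (nat_lit 8336228037) (nat_lit 329) (nat_lit 5) (nat_lit 341) (nat_lit 5) (nat_lit 330) (nat_lit 5) (nat_lit 334) (nat_lit 312) (nat_lit 134))))) (XT.nd (nat_lit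 234) (nat_lit 2280) (nat_lit 0) (XT.nd (nat_lit 78) (nat_lit 760) (nat_lit 0) (XT.lf (nat_lit 0) (nat_lit 9267073735) (nat_lit 836) (nat_lit 2328732886) (nat_lit 912) (nat_lit 15841376342) (nat_lit 318) (nat_lit 5) (nat_lit 329) (nat_lit 5) (nat_lit 330) (nat_lit 5) (nat_lit 335) (nat_lit 312) (nat_lit 133)) (XT.nd (nat_lit 78) (nat_lit 0) (nat_lit 0) (XT.lf (nat_lit 0) (nat_lit 2238650641) (nat_lit 760) (nat_lit 13529407845) (nat_lit 836) (nat_lit 12136506668) (nat_lit 308) (nat_lit 5) (nat_lit 318) (nat_lit 5) (nat_lit 319) (nat_lit 5) (nat_lit 336) (nat_lit 312) (nat_lit 132)) (XT.lf (nat_lit 0) (nat_lit 20219890464) (nat_lit 836) (nat_lit 4917533111) (nat_lit 76) (nat_lit 3245460394) (nat_lit 308) (nat_lit 5) (nat_lit 319) (nat_lit 5) (nat_lit 309) (nat_lit 5) (nat_lit 337) (nat_lit 312) (nat_lit 131)))) (XT.nd (nat_lit 156) (nat_lit 760) (nat_lit 0) (XT.nd (nat_lit 78) (nat_lit 760) (nat_lit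 0) (XT.lf (nat_lit 0) (nat_lit 16574773328) (nat_lit 760) (nat_lit 8423220888) (nat_lit 836) (nat_lit 3873707101) (nat_lit 298) (nat_lit 5) (nat_lit 308) (nat_lit 5) (nat_lit 309) (nat_lit 5) (nat_lit 338) (nat_lit 312) (nat_lit 130)) (XT.lf (nat_lit 0) (nat_lit 684925003) (nat_lit 760) (nat_lit 19910719601) (nat_lit 76) (nat_lit 8776514952) (nat_lit 288) (nat_lit 5) (nat_lit 298) (nat_lit 5) (nat_lit 289) (nat_lit 5) (nat_lit 339) (nat_lit 312) (nat_lit 129))) (XT.nd (nat_lit 78) (nat_lit 0) (nat_lit 0) (XT.lf (nat_lit 0) (nat_lit 2094161345) (nat_lit 760) (nat_lit 3382460078) (nat_lit 836) (nat_lit 24407522395) (nat_lit 278) (nat_lit 5) (nat_lit 288) (nat_lit 5) (nat_lit 289) (nat_lit 5) (nat_lit 340) (nat_lit 312) (nat_lit 128)) (XT.lf (nat_lit 0) (nat_lit 10635976316) (nat_lit 836) (nat_lit 5476551348) (nat_lit 76) (nat_lit 14294484759) (nat_lit 278) (nat_lit 5) (nat_lit 289) (nat_lit 5) (nat_lit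 279) (nat_lit 5) (nat_lit 341) (nat_lit 312) (nat_lit 127)))))) (XT.nd (nat_lit 38376) (nat_lit 0) (nat_lit 12844) (XT.nd (nat_lit 234) (nat_lit 1976) (nat_lit 0) (XT.nd (nat_lit 78) (nat_lit 1292) (nat_lit 0) (XT.lf (nat_lit 0) (nat_lit 16093379243) (nat_lit 760) (nat_lit 13242832701) (nat_lit 76) (nat_lit 1606492675) (nat_lit 269) (nat_lit 5) (nat_lit 279) (nat_lit 5) (nat_lit 270) (nat_lit 5) (nat_lit 342) (nat_lit 312) (nat_lit 126)) (XT.nd (nat_lit 78) (nat_lit 608) (nat_lit 0) (XT.lf (nat_lit 0) (nat_lit 10172949923) (nat_lit 684) (nat_lit 11747907792) (nat_lit 760) (nat_lit 9569485594) (nat_lit 260) (nat_lit 5) (nat_lit 269) (nat_lit 5) (nat_lit 270) (nat_lit 5) (nat_lit 343) (nat_lit 312) (nat_lit 125)) (XT.lf (nat_lit 0) (nat_lit 2404143976) (nat_lit 608) (nat_lit 25661601780) (nat_lit 684) (nat_lit 3985816414) (nat_lit 252) (nat_lit 5) (nat_lit 260) (nat_lit 5) (nat_lit 261) (nat_lit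 5) (nat_lit 344) (nat_lit 312) (nat_lit 124)))) (XT.nd (nat_lit 156) (nat_lit 1216) (nat_lit 0) (XT.nd (nat_lit 78) (nat_lit 684) (nat_lit 0) (XT.lf (nat_lit 0) (nat_lit 1961551716) (nat_lit 684) (nat_lit 5593871828) (nat_lit 76) (nat_lit 25069580560) (nat_lit 251) (nat_lit 5) (nat_lit 260) (nat_lit 5) (nat_lit 252) (nat_lit 5) (nat_lit 345) (nat_lit 312) (nat_lit 123)) (XT.lf (nat_lit 0) (nat_lit 8228020749) (nat_lit 760) (nat_lit 13881742869) (nat_lit 76) (nat_lit 11101464632) (nat_lit 242) (nat_lit 5) (nat_lit 252) (nat_lit 5) (nat_lit 243) (nat_lit 5) (nat_lit 346) (nat_lit 312) (nat_lit 122))) (XT.nd (nat_lit 78) (nat_lit 608) (nat_lit 0) (XT.lf (nat_lit 0) (nat_lit 11355855065) (nat_lit 608) (nat_lit 3484639183) (nat_lit 684) (nat_lit 18971387102) (nat_lit 234) (nat_lit 5) (nat_lit 242) (nat_lit 5) (nat_lit 243) (nat_lit 5) (nat_lit 347) (nat_lit 312) (nat_lit 121)) (XT.lf (nat_lit 0) (nat_lit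 3044161598) (nat_lit 608) (nat_lit 18819252909) (nat_lit 684) (nat_lit 12562900450) (nat_lit 226) (nat_lit 5) (nat_lit 234) (nat_lit 5) (nat_lit 235) (nat_lit 5) (nat_lit 348) (nat_lit 312) (nat_lit 120))))) (XT.nd (nat_lit 234) (nat_lit 0) (nat_lit 152) (XT.nd (nat_lit 78) (nat_lit 0) (nat_lit 0) (XT.lf (nat_lit 0) (nat_lit 6465375541) (nat_lit 1748) (nat_lit 1688911687) (nat_lit 1748) (nat_lit 1688911687) (nat_lit 395) (nat_lit 3) (nat_lit 418) (nat_lit 3) (nat_lit 418) (nat_lit 5) (nat_lit 313) (nat_lit 313) (nat_lit 154)) (XT.nd (nat_lit 78) (nat_lit 0) (nat_lit 76) (XT.lf (nat_lit 76) (nat_lit 10329260808) (nat_lit 0) (nat_lit 3106612175) (nat_lit 1748) (nat_lit 6539428689) (nat_lit 396) (nat_lit 5) (nat_lit 395) (nat_lit 3) (nat_lit 418) (nat_lit 5) (nat_lit 314) (nat_lit 313) (nat_lit 153)) (XT.lf (nat_lit 76) (nat_lit 4203080033) (nat_lit 0) (nat_lit 9861987356) (nat_lit 1748) (nat_lit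 6205633454) (nat_lit 397) (nat_lit 5) (nat_lit 396) (nat_lit 5) (nat_lit 419) (nat_lit 5) (nat_lit 315) (nat_lit 313) (nat_lit 152)))) (XT.nd (nat_lit 156) (nat_lit 0) (nat_lit 76) (XT.nd (nat_lit 78) (nat_lit 0) (nat_lit 0) (XT.lf (nat_lit 0) (nat_lit 14814423654) (nat_lit 1672) (nat_lit 2024411372) (nat_lit 1748) (nat_lit 3734107641) (nat_lit 397) (nat_lit 5) (nat_lit 419) (nat_lit 5) (nat_lit 420) (nat_lit 5) (nat_lit 316) (nat_lit 313) (nat_lit 151)) (XT.lf (nat_lit 76) (nat_lit 12533384529) (nat_lit 0) (nat_lit 3191215857) (nat_lit 1748) (nat_lit 5156890779) (nat_lit 398) (nat_lit 5) (nat_lit 397) (nat_lit 5) (nat_lit 420) (nat_lit 5) (nat_lit 317) (nat_lit 313) (nat_lit 150))) (XT.nd (nat_lit 78) (nat_lit 0) (nat_lit 76) (XT.lf (nat_lit 76) (nat_lit 6364173404) (nat_lit 0) (nat_lit 10414852795) (nat_lit 1748) (nat_lit 4417937077) (nat_lit 399) (nat_lit 5) (nat_lit 398) (nat_lit 5) (nat_lit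 421) (nat_lit 5) (nat_lit 318) (nat_lit 313) (nat_lit 149)) (XT.lf (nat_lit 76) (nat_lit 61750150) (nat_lit 0) (nat_lit 17896826952) (nat_lit 1748) (nat_lit 3561458458) (nat_lit 400) (nat_lit 5) (nat_lit 399) (nat_lit 5) (nat_lit 422) (nat_lit 5) (nat_lit 319) (nat_lit 313) (nat_lit 148))))))) (XT.nd (nat_lit 1014) (nat_lit 7752) (nat_lit 0) (XT.nd (nat_lit 468) (nat_lit 1900) (nat_lit 0) (XT.nd (nat_lit 234) (nat_lit 0) (nat_lit 0) (XT.nd (nat_lit 78) (nat_lit 1596) (nat_lit 0) (XT.lf (nat_lit 76) (nat_lit 15530302387) (nat_lit 0) (nat_lit 3804636093) (nat_lit 1748) (nat_lit 2514638741) (nat_lit 400) (nat_lit 5) (nat_lit 399) (nat_lit 5) (nat_lit 422) (nat_lit 5) (nat_lit 320) (nat_lit 313) (nat_lit 147)) (XT.nd (nat_lit 78) (nat_lit 1672) (nat_lit 0) (XT.lf (nat_lit 76) (nat_lit 9321303639) (nat_lit 0) (nat_lit 11553327401) (nat_lit 1748) (nat_lit 1311938805) (nat_lit 401) (nat_lit 5) (nat_lit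 400) (nat_lit 5) (nat_lit 423) (nat_lit 5) (nat_lit 321) (nat_lit 313) (nat_lit 146)) (XT.lf (nat_lit 0) (nat_lit 27293762) (nat_lit 1748) (nat_lit 19558016492) (nat_lit 1824) (nat_lit 2946386906) (nat_lit 378) (nat_lit 5) (nat_lit 401) (nat_lit 5) (nat_lit 402) (nat_lit 5) (nat_lit 322) (nat_lit 313) (nat_lit 145)))) (XT.nd (nat_lit 78) (nat_lit 0) (nat_lit 76) (XT.lf (nat_lit 0) (nat_lit 1546334817) (nat_lit 1748) (nat_lit 3513576111) (nat_lit 1824) (nat_lit 17823949918) (nat_lit 378) (nat_lit 5) (nat_lit 401) (nat_lit 5) (nat_lit 402) (nat_lit 5) (nat_lit 323) (nat_lit 313) (nat_lit 144)) (XT.nd (nat_lit 78) (nat_lit 0) (nat_lit 76) (XT.lf (nat_lit 0) (nat_lit 3253943888) (nat_lit 1748) (nat_lit 10130113375) (nat_lit 1824) (nat_lit 9859677197) (nat_lit 379) (nat_lit 5) (nat_lit 402) (nat_lit 5) (nat_lit 403) (nat_lit 5) (nat_lit 324) (nat_lit 313) (nat_lit 143)) (XT.lf (nat_lit 0) (nat_lit 5117478581)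 (nat_lit 1748) (nat_lit 16900387339) (nat_lit 1824) (nat_lit 1594449224) (nat_lit 380) (nat_lit 5) (nat_lit 403) (nat_lit 5) (nat_lit 404) (nat_lit 5) (nat_lit 325) (nat_lit 313) (nat_lit 142))))) (XT.nd (nat_lit 234) (nat_lit 2052) (nat_lit 0) (XT.nd (nat_lit 78) (nat_lit 0) (nat_lit 76) (XT.lf (nat_lit 76) (nat_lit 113423257) (nat_lit 0) (nat_lit 7075780811) (nat_lit 1824) (nat_lit 16799708155) (nat_lit 381) (nat_lit 5) (nat_lit 380) (nat_lit 5) (nat_lit 404) (nat_lit 5) (nat_lit 326) (nat_lit 313) (nat_lit 141)) (XT.nd (nat_lit 78) (nat_lit 0) (nat_lit 0) (XT.lf (nat_lit 0) (nat_lit 9485470580) (nat_lit 1748) (nat_lit 6565757037) (nat_lit 1824) (nat_lit 8322336345) (nat_lit 381) (nat_lit 5) (nat_lit 404) (nat_lit 5) (nat_lit 405) (nat_lit 5) (nat_lit 327) (nat_lit 313) (nat_lit 140)) (XT.lf (nat_lit 76) (nat_lit 11359609441) (nat_lit 0) (nat_lit 605413684) (nat_lit 1824) (nat_lit 12802448569)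 (nat_lit 382) (nat_lit 5) (nat_lit 381) (nat_lit 5) (nat_lit 405) (nat_lit 5) (nat_lit 328) (nat_lit 313) (nat_lit 139)))) (XT.nd (nat_lit 156) (nat_lit 2204) (nat_lit 0) (XT.nd (nat_lit 78) (nat_lit 0) (nat_lit 76) (XT.lf (nat_lit 76) (nat_lit 4696868200) (nat_lit 0) (nat_lit 9990231541) (nat_lit 1824) (nat_lit 10482738440) (nat_lit 383) (nat_lit 5) (nat_lit 382) (nat_lit 5) (nat_lit 406) (nat_lit 5) (nat_lit 329) (nat_lit 313) (nat_lit 138)) (XT.lf (nat_lit 0) (nat_lit 17617928754) (nat_lit 1748) (nat_lit 2102196602) (nat_lit 76) (nat_lit 5861612652) (nat_lit 383) (nat_lit 5) (nat_lit 406) (nat_lit 5) (nat_lit 384) (nat_lit 5) (nat_lit 330) (nat_lit 313) (nat_lit 137))) (XT.nd (nat_lit 78) (nat_lit 836) (nat_lit 0) (XT.lf (nat_lit 0) (nat_lit 16970186886) (nat_lit 1444) (nat_lit 3837327143) (nat_lit 1520) (nat_lit 5195068201) (nat_lit 364) (nat_lit 5) (nat_lit 383) (nat_lit 5) (nat_lit 384) (nat_lit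 5) (nat_lit 331) (nat_lit 313) (nat_lit 136)) (XT.lf (nat_lit 0) (nat_lit 10255543237) (nat_lit 836) (nat_lit 13993461429) (nat_lit 912) (nat_lit 2183926667) (nat_lit 353) (nat_lit 5) (nat_lit 364) (nat_lit 5) (nat_lit 365) (nat_lit 5) (nat_lit 332) (nat_lit 313) (nat_lit 135)))))) (XT.nd (nat_lit 546) (nat_lit 3572) (nat_lit 0) (XT.nd (nat_lit 234) (nat_lit 2356) (nat_lit 0) (XT.nd (nat_lit 78) (nat_lit 836) (nat_lit 0) (XT.lf (nat_lit 0) (nat_lit 1024190416) (nat_lit 988) (nat_lit 23511636153) (nat_lit 76) (nat_lit 2337875412) (nat_lit 340) (nat_lit 5) (nat_lit 353) (nat_lit 5) (nat_lit 341) (nat_lit 5) (nat_lit 333) (nat_lit 313) (nat_lit 134)) (XT.nd (nat_lit 78) (nat_lit 836) (nat_lit 0) (XT.lf (nat_lit 0) (nat_lit 4497210587) (nat_lit 988) (nat_lit 3730620160) (nat_lit 76) (nat_lit 19095613290) (nat_lit 340) (nat_lit 5) (nat_lit 353) (nat_lit 5) (nat_lit 341) (nat_lit 5) (nat_lit 334) (nat_lit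 313) (nat_lit 133)) (XT.lf (nat_lit 0) (nat_lit 8234651805) (nat_lit 912) (nat_lit 10981217195) (nat_lit 76) (nat_lit 8567608253) (nat_lit 329) (nat_lit 5) (nat_lit 341) (nat_lit 5) (nat_lit 330) (nat_lit 5) (nat_lit 335) (nat_lit 313) (nat_lit 132)))) (XT.nd (nat_lit 156) (nat_lit 760) (nat_lit 0) (XT.nd (nat_lit 78) (nat_lit 760) (nat_lit 0) (XT.lf (nat_lit 0) (nat_lit 9813681036) (nat_lit 836) (nat_lit 2409254776) (nat_lit 912) (nat_lit 16031604669) (nat_lit 318) (nat_lit 5) (nat_lit 329) (nat_lit 5) (nat_lit 330) (nat_lit 5) (nat_lit 336) (nat_lit 313) (nat_lit 131)) (XT.lf (nat_lit 0) (nat_lit 2575780257) (nat_lit 760) (nat_lit 13938126966) (nat_lit 836) (nat_lit 12222170911) (nat_lit 308) (nat_lit 5) (nat_lit 318) (nat_lit 5) (nat_lit 319) (nat_lit 5) (nat_lit 337) (nat_lit 313) (nat_lit 130))) (XT.nd (nat_lit 78) (nat_lit 760) (nat_lit 0) (XT.lf (nat_lit 0) (nat_lit 21091330443) (nat_lit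 836) (nat_lit 4797474162) (nat_lit 76) (nat_lit 3340106070) (nat_lit 308) (nat_lit 5) (nat_lit 319) (nat_lit 5) (nat_lit 309) (nat_lit 5) (nat_lit 338) (nat_lit 313) (nat_lit 129)) (XT.lf (nat_lit 0) (nat_lit 17335260222) (nat_lit 760) (nat_lit 8671512356) (nat_lit 836) (nat_lit 3725744806) (nat_lit 298) (nat_lit 5) (nat_lit 308) (nat_lit 5) (nat_lit 309) (nat_lit 5) (nat_lit 339) (nat_lit 313) (nat_lit 128))))) (XT.nd (nat_lit 234) (nat_lit 2052) (nat_lit 0) (XT.nd (nat_lit 78) (nat_lit 760) (nat_lit 0) (XT.lf (nat_lit 0) (nat_lit 960342747) (nat_lit 760) (nat_lit 20240310360) (nat_lit 76) (nat_lit 9047423255) (nat_lit 288) (nat_lit 5) (nat_lit 298) (nat_lit 5) (nat_lit 289) (nat_lit 5) (nat_lit 340) (nat_lit 313) (nat_lit 127)) (XT.nd (nat_lit 78) (nat_lit 0) (nat_lit 0) (XT.lf (nat_lit 0) (nat_lit 2420373401) (nat_lit 760) (nat_lit 3469703345) (nat_lit 836) (nat_lit 24885462057) (nat_lit 278)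 (nat_lit 5) (nat_lit 288) (nat_lit 5) (nat_lit 289) (nat_lit 5) (nat_lit 341) (nat_lit 313) (nat_lit 126)) (XT.lf (nat_lit 0) (nat_lit 11197044998) (nat_lit 836) (nat_lit 5380241917) (nat_lit 76) (nat_lit 14736954155) (nat_lit 278) (nat_lit 5) (nat_lit 289) (nat_lit 5) (nat_lit 279) (nat_lit 5) (nat_lit 342) (nat_lit 313) (nat_lit 125)))) (XT.nd (nat_lit 156) (nat_lit 684) (nat_lit 0) (XT.nd (nat_lit 78) (nat_lit 684) (nat_lit 0) (XT.lf (nat_lit 0) (nat_lit 16812914728) (nat_lit 760) (nat_lit 13378998189) (nat_lit 76) (nat_lit 1674200355) (nat_lit 269) (nat_lit 5) (nat_lit 279) (nat_lit 5) (nat_lit 270) (nat_lit 5) (nat_lit 343) (nat_lit 313) (nat_lit 124)) (XT.lf (nat_lit 0) (nat_lit 10735021560) (nat_lit 684) (nat_lit 12074968681) (nat_lit 760) (nat_lit 9620299441) (nat_lit 260) (nat_lit 5) (nat_lit 269) (nat_lit 5) (nat_lit 270) (nat_lit 5) (nat_lit 344) (nat_lit 313) (nat_lit 123))) (XT.nd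 (nat_lit 78) (nat_lit 76) (nat_lit 0) (XT.lf (nat_lit 0) (nat_lit 2733508361) (nat_lit 608) (nat_lit 26400803780) (nat_lit 684) (nat_lit 3874135120) (nat_lit 252) (nat_lit 5) (nat_lit 260) (nat_lit 5) (nat_lit 261) (nat_lit 5) (nat_lit 345) (nat_lit 313) (nat_lit 122)) (XT.lf (nat_lit 0) (nat_lit 2241973826) (nat_lit 684) (nat_lit 5508872087) (nat_lit 76) (nat_lit 25848353166) (nat_lit 251) (nat_lit 5) (nat_lit 260) (nat_lit 5) (nat_lit 252) (nat_lit 5) (nat_lit 346) (nat_lit 313) (nat_lit 121))))))))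
noncomputable def xc121 : XT := (XT.nd (nat_lit 40014) (nat_lit 0) (nat_lit 1292) (XT.nd (nat_lit 38922) (nat_lit 0) (nat_lit 5624) (XT.nd (nat_lit 38376) (nat_lit 0) (nat_lit 10944) (XT.nd (nat_lit 38142) (nat_lit 0) (nat_lit 12236) (XT.nd (nat_lit 78) (nat_lit 608) (nat_lit 0) (XT.lf (nat_lit 0) (nat_lit 8691805710) (nat_lit 760) (nat_lit 14045233746) (nat_lit 76) (nat_lit 11466066719) (nat_lit 242) (nat_lit 5) (nat_lit 252) (nat_lit 5) (nat_lit 243) (nat_lit 5) (nat_lit 347) (nat_lit 313) (nat_lit 120)) (XT.nd (nat_lit 37986) (nat_lit 0) (nat_lit 12236) (XT.lf (nat_lit 0) (nat_lit 11945388129) (nat_lit 608) (nat_lit 3552562266) (nat_lit 684) (nat_lit 19323926030) (nat_lit 234) (nat_lit 5) (nat_lit 242) (nat_lit 5) (nat_lit 243) (nat_lit 5) (nat_lit 348) (nat_lit 313) (nat_lit 119)) (XT.lf (nat_lit 0) (nat_lit 6901086628) (nat_lit 1748) (nat_lit 1616202984) (nat_lit 1748) (nat_lit 1616202984)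 (nat_lit 395) (nat_lit 3) (nat_lit 418) (nat_lit 3) (nat_lit 418) (nat_lit 5) (nat_lit 314) (nat_lit 314) (nat_lit 152)))) (XT.nd (nat_lit 78) (nat_lit 0) (nat_lit 76) (XT.lf (nat_lit 76) (nat_lit 10881887481) (nat_lit 0) (nat_lit 3428054905) (nat_lit 1748) (nat_lit 6254873635) (nat_lit 396) (nat_lit 5) (nat_lit 395) (nat_lit 3) (nat_lit 418) (nat_lit 5) (nat_lit 315) (nat_lit 314) (nat_lit 151)) (XT.nd (nat_lit 78) (nat_lit 0) (nat_lit 76) (XT.lf (nat_lit 76) (nat_lit 4579027448) (nat_lit 0) (nat_lit 10365450400) (nat_lit 1748) (nat_lit 5924879475) (nat_lit 397) (nat_lit 5) (nat_lit 396) (nat_lit 5) (nat_lit 419) (nat_lit 5) (nat_lit 316) (nat_lit 314) (nat_lit 150)) (XT.lf (nat_lit 0) (nat_lit 15701682128) (nat_lit 1672) (nat_lit 1832068511) (nat_lit 1748) (nat_lit 3647217602) (nat_lit 397) (nat_lit 5) (nat_lit 419) (nat_lit 5) (nat_lit 420) (nat_lit 5) (nat_lit 317) (nat_lit 314) (nat_lit 149)))))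 (XT.nd (nat_lit 234) (nat_lit 1444) (nat_lit 0) (XT.nd (nat_lit 78) (nat_lit 0) (nat_lit 76) (XT.lf (nat_lit 76) (nat_lit 13158355423) (nat_lit 0) (nat_lit 3469527376) (nat_lit 1748) (nat_lit 4871124941) (nat_lit 398) (nat_lit 5) (nat_lit 397) (nat_lit 5) (nat_lit 420) (nat_lit 5) (nat_lit 318) (nat_lit 314) (nat_lit 148)) (XT.nd (nat_lit 78) (nat_lit 0) (nat_lit 76) (XT.lf (nat_lit 76) (nat_lit 6809978210) (nat_lit 0) (nat_lit 10891897897) (nat_lit 1748) (nat_lit 4122317871) (nat_lit 399) (nat_lit 5) (nat_lit 398) (nat_lit 5) (nat_lit 421) (nat_lit 5) (nat_lit 319) (nat_lit 314) (nat_lit 147)) (XT.lf (nat_lit 76) (nat_lit 323935894) (nat_lit 0) (nat_lit 18581312498) (nat_lit 1748) (nat_lit 3251949747) (nat_lit 400) (nat_lit 5) (nat_lit 399) (nat_lit 5) (nat_lit 422) (nat_lit 5) (nat_lit 320) (nat_lit 314) (nat_lit 146)))) (XT.nd (nat_lit 156) (nat_lit 1596) (nat_lit 0) (XT.nd (nat_lit 78) (nat_lit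 0) (nat_lit 76) (XT.lf (nat_lit 76) (nat_lit 16248962177) (nat_lit 0) (nat_lit 4062057445) (nat_lit 1748) (nat_lit 2185852209) (nat_lit 400) (nat_lit 5) (nat_lit 399) (nat_lit 5) (nat_lit 422) (nat_lit 5) (nat_lit 321) (nat_lit 314) (nat_lit 145)) (XT.lf (nat_lit 76) (nat_lit 9858567866) (nat_lit 0) (nat_lit 12027569636) (nat_lit 1748) (nat_lit 958059964) (nat_lit 401) (nat_lit 5) (nat_lit 400) (nat_lit 5) (nat_lit 423) (nat_lit 5) (nat_lit 322) (nat_lit 314) (nat_lit 144))) (XT.nd (nat_lit 78) (nat_lit 0) (nat_lit 0) (XT.lf (nat_lit 0) (nat_lit 405791989) (nat_lit 1748) (nat_lit 19877385496) (nat_lit 1824) (nat_lit 2916665600) (nat_lit 378) (nat_lit 5) (nat_lit 401) (nat_lit 5) (nat_lit 402) (nat_lit 5) (nat_lit 323) (nat_lit 314) (nat_lit 143)) (XT.lf (nat_lit 0) (nat_lit 1959403904) (nat_lit 1748) (nat_lit 3359399422) (nat_lit 1824) (nat_lit 18243995685) (nat_lit 378) (nat_lit 5) (nat_lit 401)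 (nat_lit 5) (nat_lit 402) (nat_lit 5) (nat_lit 324) (nat_lit 314) (nat_lit 142)))))) (XT.nd (nat_lit 546) (nat_lit 5396) (nat_lit 0) (XT.nd (nat_lit 234) (nat_lit 0) (nat_lit 152) (XT.nd (nat_lit 78) (nat_lit 0) (nat_lit 76) (XT.lf (nat_lit 0) (nat_lit 3708555224) (nat_lit 1748) (nat_lit 10170590033) (nat_lit 1824) (nat_lit 10054524406) (nat_lit 379) (nat_lit 5) (nat_lit 402) (nat_lit 5) (nat_lit 403) (nat_lit 5) (nat_lit 325) (nat_lit 314) (nat_lit 141)) (XT.nd (nat_lit 78) (nat_lit 0) (nat_lit 0) (XT.lf (nat_lit 0) (nat_lit 5618702038) (nat_lit 1748) (nat_lit 17140471721) (nat_lit 1824) (nat_lit 1554326789) (nat_lit 380) (nat_lit 5) (nat_lit 403) (nat_lit 5) (nat_lit 404) (nat_lit 5) (nat_lit 326) (nat_lit 314) (nat_lit 140)) (XT.lf (nat_lit 76) (nat_lit 379422616) (nat_lit 0) (nat_lit 7364734468) (nat_lit 1824) (nat_lit 16957413601) (nat_lit 381) (nat_lit 5) (nat_lit 380) (nat_lit 5) (nat_lit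 404) (nat_lit 5) (nat_lit 327) (nat_lit 314) (nat_lit 139)))) (XT.nd (nat_lit 156) (nat_lit 0) (nat_lit 76) (XT.nd (nat_lit 78) (nat_lit 0) (nat_lit 0) (XT.lf (nat_lit 0) (nat_lit 10098946381) (nat_lit 1748) (nat_lit 6500493413) (nat_lit 1824) (nat_lit 8498535992) (nat_lit 381) (nat_lit 5) (nat_lit 404) (nat_lit 5) (nat_lit 405) (nat_lit 5) (nat_lit 328) (nat_lit 314) (nat_lit 138)) (XT.lf (nat_lit 76) (nat_lit 11958379586) (nat_lit 0) (nat_lit 686600954) (nat_lit 1824) (nat_lit 12858884626) (nat_lit 382) (nat_lit 5) (nat_lit 381) (nat_lit 5) (nat_lit 405) (nat_lit 5) (nat_lit 329) (nat_lit 314) (nat_lit 137))) (XT.nd (nat_lit 78) (nat_lit 0) (nat_lit 76) (XT.lf (nat_lit 76) (nat_lit 5098496324) (nat_lit 0) (nat_lit 10342168920) (nat_lit 1824) (nat_lit 10477804619) (nat_lit 383) (nat_lit 5) (nat_lit 382) (nat_lit 5) (nat_lit 406) (nat_lit 5) (nat_lit 330) (nat_lit 314) (nat_lit 136)) (XT.lf (nat_lit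 0) (nat_lit 18449974768) (nat_lit 1748) (nat_lit 1905529825) (nat_lit 76) (nat_lit 5987416934) (nat_lit 383) (nat_lit 5) (nat_lit 406) (nat_lit 5) (nat_lit 384) (nat_lit 5) (nat_lit 331) (nat_lit 314) (nat_lit 135))))) (XT.nd (nat_lit 234) (nat_lit 2432) (nat_lit 0) (XT.nd (nat_lit 78) (nat_lit 1824) (nat_lit 0) (XT.lf (nat_lit 0) (nat_lit 17734811314) (nat_lit 1444) (nat_lit 3993255242) (nat_lit 1520) (nat_lit 5048473920) (nat_lit 364) (nat_lit 5) (nat_lit 383) (nat_lit 5) (nat_lit 384) (nat_lit 5) (nat_lit 332) (nat_lit 314) (nat_lit 134)) (XT.nd (nat_lit 78) (nat_lit 988) (nat_lit 0) (XT.lf (nat_lit 0) (nat_lit 10820863465) (nat_lit 836) (nat_lit 14444723183) (nat_lit 912) (nat_lit 1954363322) (nat_lit 353) (nat_lit 5) (nat_lit 364) (nat_lit 5) (nat_lit 365) (nat_lit 5) (nat_lit 333) (nat_lit 314) (nat_lit 133)) (XT.lf (nat_lit 0) (nat_lit 1339142058) (nat_lit 988) (nat_lit 23953482775) (nat_lit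 76) (nat_lit 2381425633) (nat_lit 340) (nat_lit 5) (nat_lit 353) (nat_lit 5) (nat_lit 341) (nat_lit 5) (nat_lit 334) (nat_lit 314) (nat_lit 132)))) (XT.nd (nat_lit 156) (nat_lit 1596) (nat_lit 0) (XT.nd (nat_lit 78) (nat_lit 836) (nat_lit 0) (XT.lf (nat_lit 0) (nat_lit 4908074409) (nat_lit 988) (nat_lit 3586711131) (nat_lit 76) (nat_lit 19642669997) (nat_lit 340) (nat_lit 5) (nat_lit 353) (nat_lit 5) (nat_lit 341) (nat_lit 5) (nat_lit 335) (nat_lit 314) (nat_lit 131)) (XT.lf (nat_lit 0) (nat_lit 8751119607) (nat_lit 912) (nat_lit 11053301850) (nat_lit 76) (nat_lit 8807003713) (nat_lit 329) (nat_lit 5) (nat_lit 341) (nat_lit 5) (nat_lit 330) (nat_lit 5) (nat_lit 336) (nat_lit 314) (nat_lit 130))) (XT.nd (nat_lit 78) (nat_lit 760) (nat_lit 0) (XT.lf (nat_lit 0) (nat_lit 10361268100) (nat_lit 836) (nat_lit 2491580401) (nat_lit 912) (nat_lit 16243900755) (nat_lit 318) (nat_lit 5) (nat_lit 329) (nat_lit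 5) (nat_lit 330) (nat_lit 5) (nat_lit 337) (nat_lit 314) (nat_lit 129)) (XT.lf (nat_lit 0) (nat_lit 2907526372) (nat_lit 760) (nat_lit 14358944812) (nat_lit 836) (nat_lit 12326388157) (nat_lit 308) (nat_lit 5) (nat_lit 318) (nat_lit 5) (nat_lit 319) (nat_lit 5) (nat_lit 338) (nat_lit 314) (nat_lit 128))))))) (XT.nd (nat_lit 39156) (nat_lit 0) (nat_lit 8588) (XT.nd (nat_lit 546) (nat_lit 684) (nat_lit 0) (XT.nd (nat_lit 234) (nat_lit 2128) (nat_lit 0) (XT.nd (nat_lit 78) (nat_lit 1520) (nat_lit 0) (XT.lf (nat_lit 0) (nat_lit 21973710534) (nat_lit 836) (nat_lit 4689173915) (nat_lit 76) (nat_lit 3437747149) (nat_lit 308) (nat_lit 5) (nat_lit 319) (nat_lit 5) (nat_lit 309) (nat_lit 5) (nat_lit 339) (nat_lit 314) (nat_lit 127)) (XT.nd (nat_lit 78) (nat_lit 760) (nat_lit 0) (XT.lf (nat_lit 0) (nat_lit 18103450458) (nat_lit 760) (nat_lit 8927505443) (nat_lit 836) (nat_lit 3588508282) (nat_lit 298) (nat_lit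 5) (nat_lit 308) (nat_lit 5) (nat_lit 309) (nat_lit 5) (nat_lit 340) (nat_lit 314) (nat_lit 126)) (XT.lf (nat_lit 0) (nat_lit 1229392442) (nat_lit 760) (nat_lit 20595157686) (nat_lit 76) (nat_lit 9326021798) (nat_lit 288) (nat_lit 5) (nat_lit 298) (nat_lit 5) (nat_lit 289) (nat_lit 5) (nat_lit 341) (nat_lit 314) (nat_lit 125)))) (XT.nd (nat_lit 156) (nat_lit 1368) (nat_lit 0) (XT.nd (nat_lit 78) (nat_lit 0) (nat_lit 0) (XT.lf (nat_lit 0) (nat_lit 2741252314) (nat_lit 760) (nat_lit 3560380802) (nat_lit 836) (nat_lit 25392336967) (nat_lit 278) (nat_lit 5) (nat_lit 288) (nat_lit 5) (nat_lit 289) (nat_lit 5) (nat_lit 342) (nat_lit 314) (nat_lit 124)) (XT.lf (nat_lit 0) (nat_lit 11761054559) (nat_lit 836) (nat_lit 5296003053) (nat_lit 76) (nat_lit 15191914937) (nat_lit 278) (nat_lit 5) (nat_lit 289) (nat_lit 5) (nat_lit 279) (nat_lit 5) (nat_lit 343) (nat_lit 314) (nat_lit 123))) (XT.nd (nat_lit 78)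 (nat_lit 684) (nat_lit 0) (XT.lf (nat_lit 0) (nat_lit 17540446771) (nat_lit 760) (nat_lit 13534237969) (nat_lit 76) (nat_lit 1742819145) (nat_lit 269) (nat_lit 5) (nat_lit 279) (nat_lit 5) (nat_lit 270) (nat_lit 5) (nat_lit 344) (nat_lit 314) (nat_lit 122)) (XT.lf (nat_lit 0) (nat_lit 11299209203) (nat_lit 684) (nat_lit 12413298103) (nat_lit 760) (nat_lit 9686200609) (nat_lit 260) (nat_lit 5) (nat_lit 269) (nat_lit 5) (nat_lit 270) (nat_lit 5) (nat_lit 345) (nat_lit 314) (nat_lit 121))))) (XT.nd (nat_lit 38298) (nat_lit 0) (nat_lit 10944) (XT.nd (nat_lit 78) (nat_lit 76) (nat_lit 0) (XT.lf (nat_lit 0) (nat_lit 3057987045) (nat_lit 608) (nat_lit 27163941050) (nat_lit 684) (nat_lit 3772378415) (nat_lit 252) (nat_lit 5) (nat_lit 260) (nat_lit 5) (nat_lit 261) (nat_lit 5) (nat_lit 346) (nat_lit 314) (nat_lit 120)) (XT.nd (nat_lit 38142) (nat_lit 0) (nat_lit 10944) (XT.lf (nat_lit 0) (nat_lit 2518089255)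 (nat_lit 684) (nat_lit 5435835020) (nat_lit 76) (nat_lit 26648957111) (nat_lit 251) (nat_lit 5) (nat_lit 260) (nat_lit 5) (nat_lit 252) (nat_lit 5) (nat_lit 347) (nat_lit 314) (nat_lit 119)) (XT.lf (nat_lit 0) (nat_lit 7335991618) (nat_lit 1748) (nat_lit 1548395310) (nat_lit 1748) (nat_lit 1548395310) (nat_lit 395) (nat_lit 3) (nat_lit 418) (nat_lit 3) (nat_lit 418) (nat_lit 5) (nat_lit 315) (nat_lit 315) (nat_lit 150)))) (XT.nd (nat_lit 156) (nat_lit 0) (nat_lit 152) (XT.nd (nat_lit 78) (nat_lit 0) (nat_lit 76) (XT.lf (nat_lit 76) (nat_lit 11437158176) (nat_lit 0) (nat_lit 3746038757) (nat_lit 1748) (nat_lit 5989378252) (nat_lit 396) (nat_lit 5) (nat_lit 395) (nat_lit 3) (nat_lit 418) (nat_lit 5) (nat_lit 316) (nat_lit 315) (nat_lit 149)) (XT.lf (nat_lit 76) (nat_lit 4951910585) (nat_lit 0) (nat_lit 10872100049) (nat_lit 1748) (nat_lit 5662506167) (nat_lit 397) (nat_lit 5) (nat_lit 396) (nat_lit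 5) (nat_lit 419) (nat_lit 5) (nat_lit 317) (nat_lit 315) (nat_lit 148))) (XT.nd (nat_lit 78) (nat_lit 0) (nat_lit 0) (XT.lf (nat_lit 0) (nat_lit 16590138346) (nat_lit 1672) (nat_lit 1648482916) (nat_lit 1748) (nat_lit 3569139297) (nat_lit 397) (nat_lit 5) (nat_lit 419) (nat_lit 5) (nat_lit 420) (nat_lit 5) (nat_lit 318) (nat_lit 315) (nat_lit 147)) (XT.lf (nat_lit 76) (nat_lit 13787783583) (nat_lit 0) (nat_lit 3745707686) (nat_lit 1748) (nat_lit 4602071054) (nat_lit 398) (nat_lit 5) (nat_lit 397) (nat_lit 5) (nat_lit 420) (nat_lit 5) (nat_lit 319) (nat_lit 315) (nat_lit 146)))))) (XT.nd (nat_lit 546) (nat_lit 1064) (nat_lit 0) (XT.nd (nat_lit 234) (nat_lit 1520) (nat_lit 0) (XT.nd (nat_lit 78) (nat_lit 0) (nat_lit 76) (XT.lf (nat_lit 76) (nat_lit 7254526028) (nat_lit 0) (nat_lit 11373805666) (nat_lit 1748) (nat_lit 3842408070) (nat_lit 399) (nat_lit 5) (nat_lit 398) (nat_lit 5) (nat_lit 421) (nat_lit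 5) (nat_lit 320) (nat_lit 315) (nat_lit 145)) (XT.nd (nat_lit 78) (nat_lit 0) (nat_lit 0) (XT.lf (nat_lit 76) (nat_lit 579043018) (nat_lit 0) (nat_lit 19277860873) (nat_lit 1748) (nat_lit 2957056109) (nat_lit 400) (nat_lit 5) (nat_lit 399) (nat_lit 5) (nat_lit 422) (nat_lit 5) (nat_lit 321) (nat_lit 315) (nat_lit 144)) (XT.lf (nat_lit 76) (nat_lit 16974672835) (nat_lit 0) (nat_lit 4318976450) (nat_lit 1748) (nat_lit 1870406290) (nat_lit 400) (nat_lit 5) (nat_lit 399) (nat_lit 5) (nat_lit 422) (nat_lit 5) (nat_lit 322) (nat_lit 315) (nat_lit 143)))) (XT.nd (nat_lit 156) (nat_lit 0) (nat_lit 0) (XT.nd (nat_lit 78) (nat_lit 1672) (nat_lit 0) (XT.lf (nat_lit 76) (nat_lit 10397161285) (nat_lit 0) (nat_lit 12508711942) (nat_lit 1748) (nat_lit 616138171) (nat_lit 401) (nat_lit 5) (nat_lit 400) (nat_lit 5) (nat_lit 423) (nat_lit 5) (nat_lit 323) (nat_lit 315) (nat_lit 142)) (XT.lf (nat_lit 0) (nat_lit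 773964819) (nat_lit 1748) (nat_lit 20221683786) (nat_lit 1824) (nat_lit 2892832820) (nat_lit 378) (nat_lit 5) (nat_lit 401) (nat_lit 5) (nat_lit 402) (nat_lit 5) (nat_lit 324) (nat_lit 315) (nat_lit 141))) (XT.nd (nat_lit 78) (nat_lit 0) (nat_lit 76) (XT.lf (nat_lit 0) (nat_lit 2363816187) (nat_lit 1748) (nat_lit 3215498614) (nat_lit 1824) (nat_lit 18683225509) (nat_lit 378) (nat_lit 5) (nat_lit 401) (nat_lit 5) (nat_lit 402) (nat_lit 5) (nat_lit 325) (nat_lit 315) (nat_lit 140)) (XT.lf (nat_lit 0) (nat_lit 4156312040) (nat_lit 1748) (nat_lit 10227402764) (nat_lit 1824) (nat_lit 10261011578) (nat_lit 379) (nat_lit 5) (nat_lit 402) (nat_lit 5) (nat_lit 403) (nat_lit 5) (nat_lit 326) (nat_lit 315) (nat_lit 139))))) (XT.nd (nat_lit 234) (nat_lit 1216) (nat_lit 0) (XT.nd (nat_lit 78) (nat_lit 0) (nat_lit 0) (XT.lf (nat_lit 0) (nat_lit 6115002848) (nat_lit 1748) (nat_lit 17403081350) (nat_lit 1824)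 (nat_lit 1518049710) (nat_lit 380) (nat_lit 5) (nat_lit 403) (nat_lit 5) (nat_lit 404) (nat_lit 5) (nat_lit 327) (nat_lit 315) (nat_lit 138)) (XT.nd (nat_lit 78) (nat_lit 0) (nat_lit 76) (XT.lf (nat_lit 76) (nat_lit 638327832) (nat_lit 0) (nat_lit 7657954975) (nat_lit 1824) (nat_lit 17139728432) (nat_lit 381) (nat_lit 5) (nat_lit 380) (nat_lit 5) (nat_lit 404) (nat_lit 5) (nat_lit 328) (nat_lit 315) (nat_lit 137)) (XT.lf (nat_lit 0) (nat_lit 10711945580) (nat_lit 1748) (nat_lit 6448325319) (nat_lit 1824) (nat_lit 8684239131) (nat_lit 381) (nat_lit 5) (nat_lit 404) (nat_lit 5) (nat_lit 405) (nat_lit 5) (nat_lit 329) (nat_lit 315) (nat_lit 136)))) (XT.nd (nat_lit 156) (nat_lit 1292) (nat_lit 0) (XT.nd (nat_lit 78) (nat_lit 0) (nat_lit 76) (XT.lf (nat_lit 76) (nat_lit 12560303621) (nat_lit 0) (nat_lit 766605957) (nat_lit 1824) (nat_lit 12935821491) (nat_lit 382) (nat_lit 5) (nat_lit 381) (nat_lit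 5) (nat_lit 405) (nat_lit 5) (nat_lit 330) (nat_lit 315) (nat_lit 135)) (XT.lf (nat_lit 76) (nat_lit 5497206777) (nat_lit 0) (nat_lit 10701666180) (nat_lit 1824) (nat_lit 10491058568) (nat_lit 383) (nat_lit 5) (nat_lit 382) (nat_lit 5) (nat_lit 406) (nat_lit 5) (nat_lit 331) (nat_lit 315) (nat_lit 134))) (XT.nd (nat_lit 78) (nat_lit 1444) (nat_lit 0) (XT.lf (nat_lit 0) (nat_lit 19289559553) (nat_lit 1748) (nat_lit 1717872763) (nat_lit 76) (nat_lit 6119868079) (nat_lit 383) (nat_lit 5) (nat_lit 406) (nat_lit 5) (nat_lit 384) (nat_lit 5) (nat_lit 332) (nat_lit 315) (nat_lit 133)) (XT.lf (nat_lit 0) (nat_lit 18507706649) (nat_lit 1444) (nat_lit 4151518622) (nat_lit 1520) (nat_lit 4914843468) (nat_lit 364) (nat_lit 5) (nat_lit 383) (nat_lit 5) (nat_lit 384) (nat_lit 5) (nat_lit 333) (nat_lit 315) (nat_lit 132))))))))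
noncomputable def xc122 : XT := (XT.nd (nat_lit 40248) (nat_lit 0) (nat_lit 1292) (XT.nd (nat_lit 1014) (nat_lit 608) (nat_lit 0) (XT.nd (nat_lit 468) (nat_lit 3648) (nat_lit 0) (XT.nd (nat_lit 234) (nat_lit 2432) (nat_lit 0) (XT.nd (nat_lit 78) (nat_lit 988) (nat_lit 0) (XT.lf (nat_lit 0) (nat_lit 11388352911) (nat_lit 836) (nat_lit 14907716976) (nat_lit 912) (nat_lit 1734851941) (nat_lit 353) (nat_lit 5) (nat_lit 364) (nat_lit 5) (nat_lit 365) (nat_lit 5) (nat_lit 334) (nat_lit 315) (nat_lit 131)) (XT.nd (nat_lit 78) (nat_lit 0) (nat_lit 0) (XT.lf (nat_lit 0) (nat_lit 1647226518) (nat_lit 988) (nat_lit 24423710915) (nat_lit 76) (nat_lit 2427808508) (nat_lit 340) (nat_lit 5) (nat_lit 353) (nat_lit 5) (nat_lit 341) (nat_lit 5) (nat_lit 335) (nat_lit 315) (nat_lit 130)) (XT.lf (nat_lit 0) (nat_lit 5315423630) (nat_lit 988) (nat_lit 3453170383) (nat_lit 76) (nat_lit 20207620103) (nat_lit 340) (nat_lit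 5) (nat_lit 353) (nat_lit 5) (nat_lit 341) (nat_lit 5) (nat_lit 336) (nat_lit 315) (nat_lit 129)))) (XT.nd (nat_lit 78) (nat_lit 1596) (nat_lit 0) (XT.lf (nat_lit 0) (nat_lit 9267615160) (nat_lit 912) (nat_lit 11142322094) (nat_lit 76) (nat_lit 9054593230) (nat_lit 329) (nat_lit 5) (nat_lit 341) (nat_lit 5) (nat_lit 330) (nat_lit 5) (nat_lit 337) (nat_lit 315) (nat_lit 128)) (XT.nd (nat_lit 78) (nat_lit 760) (nat_lit 0) (XT.lf (nat_lit 0) (nat_lit 10910749401) (nat_lit 836) (nat_lit 2575798999) (nat_lit 912) (nat_lit 16477987451) (nat_lit 318) (nat_lit 5) (nat_lit 329) (nat_lit 5) (nat_lit 330) (nat_lit 5) (nat_lit 338) (nat_lit 315) (nat_lit 127)) (XT.lf (nat_lit 0) (nat_lit 3234617097) (nat_lit 760) (nat_lit 14792233693) (nat_lit 836) (nat_lit 12448797503) (nat_lit 308) (nat_lit 5) (nat_lit 318) (nat_lit 5) (nat_lit 319) (nat_lit 5) (nat_lit 339) (nat_lit 315) (nat_lit 126))))) (XT.nd (nat_lit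 234) (nat_lit 2128) (nat_lit 0) (XT.nd (nat_lit 78) (nat_lit 1520) (nat_lit 0) (XT.lf (nat_lit 0) (nat_lit 22868231661) (nat_lit 836) (nat_lit 4592103377) (nat_lit 76) (nat_lit 3538464535) (nat_lit 308) (nat_lit 5) (nat_lit 319) (nat_lit 5) (nat_lit 309) (nat_lit 5) (nat_lit 340) (nat_lit 315) (nat_lit 125)) (XT.nd (nat_lit 78) (nat_lit 760) (nat_lit 0) (XT.lf (nat_lit 0) (nat_lit 18880442585) (nat_lit 760) (nat_lit 9191416680) (nat_lit 836) (nat_lit 3461448790) (nat_lit 298) (nat_lit 5) (nat_lit 308) (nat_lit 5) (nat_lit 309) (nat_lit 5) (nat_lit 341) (nat_lit 315) (nat_lit 124)) (XT.lf (nat_lit 0) (nat_lit 1492722903) (nat_lit 760) (nat_lit 20975137043) (nat_lit 76) (nat_lit 9612566374) (nat_lit 288) (nat_lit 5) (nat_lit 298) (nat_lit 5) (nat_lit 289) (nat_lit 5) (nat_lit 342) (nat_lit 315) (nat_lit 123)))) (XT.nd (nat_lit 156) (nat_lit 1368) (nat_lit 0) (XT.nd (nat_lit 78) (nat_lit 0) (nat_lit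 0) (XT.lf (nat_lit 0) (nat_lit 3057506012) (nat_lit 760) (nat_lit 3654548580) (nat_lit 836) (nat_lit 25928177250) (nat_lit 278) (nat_lit 5) (nat_lit 288) (nat_lit 5) (nat_lit 289) (nat_lit 5) (nat_lit 343) (nat_lit 315) (nat_lit 122)) (XT.lf (nat_lit 0) (nat_lit 12328890636) (nat_lit 836) (nat_lit 5223338114) (nat_lit 76) (nat_lit 15659786776) (nat_lit 278) (nat_lit 5) (nat_lit 289) (nat_lit 5) (nat_lit 279) (nat_lit 5) (nat_lit 344) (nat_lit 315) (nat_lit 121))) (XT.nd (nat_lit 78) (nat_lit 684) (nat_lit 0) (XT.lf (nat_lit 0) (nat_lit 18276995362) (nat_lit 760) (nat_lit 13708263821) (nat_lit 76) (nat_lit 1812440678) (nat_lit 269) (nat_lit 5) (nat_lit 279) (nat_lit 5) (nat_lit 270) (nat_lit 5) (nat_lit 345) (nat_lit 315) (nat_lit 120)) (XT.lf (nat_lit 0) (nat_lit 11866422822) (nat_lit 684) (nat_lit 12763150493) (nat_lit 760) (nat_lit 9766863152) (nat_lit 260) (nat_lit 5) (nat_lit 269) (nat_lit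 5) (nat_lit 270) (nat_lit 5) (nat_lit 346) (nat_lit 315) (nat_lit 119)))))) (XT.nd (nat_lit 38688) (nat_lit 0) (nat_lit 9576) (XT.nd (nat_lit 38376) (nat_lit 0) (nat_lit 10944) (XT.nd (nat_lit 38220) (nat_lit 0) (nat_lit 10868) (XT.lf (nat_lit 0) (nat_lit 3378281123) (nat_lit 608) (nat_lit 27951630661) (nat_lit 684) (nat_lit 3680081996) (nat_lit 252) (nat_lit 5) (nat_lit 260) (nat_lit 5) (nat_lit 261) (nat_lit 5) (nat_lit 347) (nat_lit 315) (nat_lit 118)) (XT.nd (nat_lit 78) (nat_lit 0) (nat_lit 0) (XT.lf (nat_lit 0) (nat_lit 7770862950) (nat_lit 1748) (nat_lit 1485229143) (nat_lit 1748) (nat_lit 1485229143) (nat_lit 395) (nat_lit 3) (nat_lit 418) (nat_lit 3) (nat_lit 418) (nat_lit 5) (nat_lit 316) (nat_lit 316) (nat_lit 148)) (XT.lf (nat_lit 76) (nat_lit 11995952129) (nat_lit 0) (nat_lit 4061212081) (nat_lit 1748) (nat_lit 5741930189) (nat_lit 396) (nat_lit 5) (nat_lit 395) (nat_lit 3) (nat_lit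 418) (nat_lit 5) (nat_lit 317) (nat_lit 316) (nat_lit 147)))) (XT.nd (nat_lit 156) (nat_lit 0) (nat_lit 76) (XT.nd (nat_lit 78) (nat_lit 0) (nat_lit 76) (XT.lf (nat_lit 76) (nat_lit 5322460846) (nat_lit 0) (nat_lit 11382716003) (nat_lit 1748) (nat_lit 5417526330) (nat_lit 397) (nat_lit 5) (nat_lit 396) (nat_lit 5) (nat_lit 419) (nat_lit 5) (nat_lit 318) (nat_lit 316) (nat_lit 146)) (XT.lf (nat_lit 0) (nat_lit 17481287453) (nat_lit 1672) (nat_lit 1473083365) (nat_lit 1748) (nat_lit 3499481613) (nat_lit 397) (nat_lit 5) (nat_lit 419) (nat_lit 5) (nat_lit 420) (nat_lit 5) (nat_lit 319) (nat_lit 316) (nat_lit 145))) (XT.nd (nat_lit 78) (nat_lit 0) (nat_lit 76) (XT.lf (nat_lit 76) (nat_lit 14422623141) (nat_lit 0) (nat_lit 4020294478) (nat_lit 1748) (nat_lit 4348779020) (nat_lit 398) (nat_lit 5) (nat_lit 397) (nat_lit 5) (nat_lit 420) (nat_lit 5) (nat_lit 320) (nat_lit 316) (nat_lit 144)) (XT.lf (nat_lit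 76) (nat_lit 7698619036) (nat_lit 0) (nat_lit 11861264375) (nat_lit 1748) (nat_lit 3577268080) (nat_lit 399) (nat_lit 5) (nat_lit 398) (nat_lit 5) (nat_lit 421) (nat_lit 5) (nat_lit 321) (nat_lit 316) (nat_lit 143))))) (XT.nd (nat_lit 234) (nat_lit 1596) (nat_lit 0) (XT.nd (nat_lit 78) (nat_lit 0) (nat_lit 0) (XT.lf (nat_lit 76) (nat_lit 827717020) (nat_lit 0) (nat_lit 19987320273) (nat_lit 1748) (nat_lit 2675844020) (nat_lit 400) (nat_lit 5) (nat_lit 399) (nat_lit 5) (nat_lit 422) (nat_lit 5) (nat_lit 322) (nat_lit 316) (nat_lit 142)) (XT.nd (nat_lit 78) (nat_lit 0) (nat_lit 76) (XT.lf (nat_lit 76) (nat_lit 17708478759) (nat_lit 0) (nat_lit 4575850184) (nat_lit 1748) (nat_lit 1567369185) (nat_lit 400) (nat_lit 5) (nat_lit 399) (nat_lit 5) (nat_lit 422) (nat_lit 5) (nat_lit 323) (nat_lit 316) (nat_lit 141)) (XT.lf (nat_lit 76) (nat_lit 10937972704) (nat_lit 0) (nat_lit 12997381931) (nat_lit 1748)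 (nat_lit 285236331) (nat_lit 401) (nat_lit 5) (nat_lit 400) (nat_lit 5) (nat_lit 423) (nat_lit 5) (nat_lit 324) (nat_lit 316) (nat_lit 140)))) (XT.nd (nat_lit 156) (nat_lit 0) (nat_lit 76) (XT.nd (nat_lit 78) (nat_lit 0) (nat_lit 0) (XT.lf (nat_lit 0) (nat_lit 1132747031) (nat_lit 1748) (nat_lit 20590778193) (nat_lit 1824) (nat_lit 2874676011) (nat_lit 378) (nat_lit 5) (nat_lit 401) (nat_lit 5) (nat_lit 402) (nat_lit 5) (nat_lit 325) (nat_lit 316) (nat_lit 139)) (XT.lf (nat_lit 0) (nat_lit 2760520252) (nat_lit 1748) (nat_lit 3081326575) (nat_lit 1824) (nat_lit 19141837038) (nat_lit 378) (nat_lit 5) (nat_lit 401) (nat_lit 5) (nat_lit 402) (nat_lit 5) (nat_lit 326) (nat_lit 316) (nat_lit 138))) (XT.nd (nat_lit 78) (nat_lit 0) (nat_lit 76) (XT.lf (nat_lit 0) (nat_lit 4598185074) (nat_lit 1748) (nat_lit 10300173598) (nat_lit 1824) (nat_lit 10479155283) (nat_lit 379) (nat_lit 5) (nat_lit 402) (nat_lit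 5) (nat_lit 403) (nat_lit 5) (nat_lit 327) (nat_lit 316) (nat_lit 137)) (XT.lf (nat_lit 0) (nat_lit 6607379080) (nat_lit 1748) (nat_lit 17688012397) (nat_lit 1824) (nat_lit 1485443512) (nat_lit 380) (nat_lit 5) (nat_lit 403) (nat_lit 5) (nat_lit 404) (nat_lit 5) (nat_lit 328) (nat_lit 316) (nat_lit 136))))))) (XT.nd (nat_lit 1014) (nat_lit 2964) (nat_lit 0) (XT.nd (nat_lit 468) (nat_lit 4256) (nat_lit 0) (XT.nd (nat_lit 234) (nat_lit 1216) (nat_lit 0) (XT.nd (nat_lit 78) (nat_lit 0) (nat_lit 76) (XT.lf (nat_lit 76) (nat_lit 890791399) (nat_lit 0) (nat_lit 7955823018) (nat_lit 1824) (nat_lit 17346249838) (nat_lit 381) (nat_lit 5) (nat_lit 380) (nat_lit 5) (nat_lit 404) (nat_lit 5) (nat_lit 329) (nat_lit 316) (nat_lit 135)) (XT.nd (nat_lit 78) (nat_lit 0) (nat_lit 0) (XT.lf (nat_lit 0) (nat_lit 11325537719) (nat_lit 1748) (nat_lit 6408781492) (nat_lit 1824) (nat_lit 8879488767) (nat_lit 381) (nat_lit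 5) (nat_lit 404) (nat_lit 5) (nat_lit 405) (nat_lit 5) (nat_lit 330) (nat_lit 316) (nat_lit 134)) (XT.lf (nat_lit 76) (nat_lit 13166326272) (nat_lit 0) (nat_lit 845600907) (nat_lit 1824) (nat_lit 13032794549) (nat_lit 382) (nat_lit 5) (nat_lit 381) (nat_lit 5) (nat_lit 405) (nat_lit 5) (nat_lit 331) (nat_lit 316) (nat_lit 133)))) (XT.nd (nat_lit 78) (nat_lit 1368) (nat_lit 0) (XT.lf (nat_lit 76) (nat_lit 5893771170) (nat_lit 0) (nat_lit 11069122229) (nat_lit 1824) (nat_lit 10521993369) (nat_lit 383) (nat_lit 5) (nat_lit 382) (nat_lit 5) (nat_lit 406) (nat_lit 5) (nat_lit 332) (nat_lit 316) (nat_lit 132)) (XT.nd (nat_lit 78) (nat_lit 1444) (nat_lit 0) (XT.lf (nat_lit 0) (nat_lit 20137909401) (nat_lit 1748) (nat_lit 1538639828) (nat_lit 76) (nat_lit 6259000588) (nat_lit 383) (nat_lit 5) (nat_lit 406) (nat_lit 5) (nat_lit 384) (nat_lit 5) (nat_lit 333) (nat_lit 316) (nat_lit 131)) (XT.lf (nat_lit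 0) (nat_lit 19289963011) (nat_lit 1444) (nat_lit 4312321813) (nat_lit 1520) (nat_lit 4793569128) (nat_lit 364) (nat_lit 5) (nat_lit 383) (nat_lit 5) (nat_lit 384) (nat_lit 5) (nat_lit 334) (nat_lit 316) (nat_lit 130))))) (XT.nd (nat_lit 234) (nat_lit 2432) (nat_lit 0) (XT.nd (nat_lit 78) (nat_lit 988) (nat_lit 0) (XT.lf (nat_lit 0) (nat_lit 11958925679) (nat_lit 836) (nat_lit 15382898432) (nat_lit 912) (nat_lit 1524721723) (nat_lit 353) (nat_lit 5) (nat_lit 364) (nat_lit 5) (nat_lit 365) (nat_lit 5) (nat_lit 335) (nat_lit 316) (nat_lit 129)) (XT.nd (nat_lit 78) (nat_lit 0) (nat_lit 0) (XT.lf (nat_lit 0) (nat_lit 1949174370) (nat_lit 988) (nat_lit 24922303716) (nat_lit 76) (nat_lit 2477021409) (nat_lit 340) (nat_lit 5) (nat_lit 353) (nat_lit 5) (nat_lit 341) (nat_lit 5) (nat_lit 336) (nat_lit 316) (nat_lit 128)) (XT.lf (nat_lit 0) (nat_lit 5720062122) (nat_lit 988) (nat_lit 3329465955) (nat_lit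 76) (nat_lit 20790915353) (nat_lit 340) (nat_lit 5) (nat_lit 353) (nat_lit 5) (nat_lit 341) (nat_lit 5) (nat_lit 337) (nat_lit 316) (nat_lit 127)))) (XT.nd (nat_lit 156) (nat_lit 760) (nat_lit 0) (XT.nd (nat_lit 78) (nat_lit 836) (nat_lit 0) (XT.lf (nat_lit 0) (nat_lit 9785027123) (nat_lit 912) (nat_lit 11247937962) (nat_lit 76) (nat_lit 9310564524) (nat_lit 329) (nat_lit 5) (nat_lit 341) (nat_lit 5) (nat_lit 330) (nat_lit 5) (nat_lit 338) (nat_lit 316) (nat_lit 126)) (XT.lf (nat_lit 0) (nat_lit 11463016042) (nat_lit 836) (nat_lit 2662000470) (nat_lit 912) (nat_lit 16733633205) (nat_lit 318) (nat_lit 5) (nat_lit 329) (nat_lit 5) (nat_lit 330) (nat_lit 5) (nat_lit 339) (nat_lit 316) (nat_lit 125))) (XT.nd (nat_lit 78) (nat_lit 0) (nat_lit 0) (XT.lf (nat_lit 0) (nat_lit 3557751315) (nat_lit 760) (nat_lit 15238376551) (nat_lit 836) (nat_lit 12589079885) (nat_lit 308) (nat_lit 5) (nat_lit 318) (nat_lit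 5) (nat_lit 319) (nat_lit 5) (nat_lit 340) (nat_lit 316) (nat_lit 124)) (XT.lf (nat_lit 0) (nat_lit 23776080676) (nat_lit 836) (nat_lit 4505768302) (nat_lit 76) (nat_lit 3642342075) (nat_lit 308) (nat_lit 5) (nat_lit 319) (nat_lit 5) (nat_lit 309) (nat_lit 5) (nat_lit 341) (nat_lit 316) (nat_lit 123)))))) (XT.nd (nat_lit 38844) (nat_lit 0) (nat_lit 8208) (XT.nd (nat_lit 234) (nat_lit 684) (nat_lit 0) (XT.nd (nat_lit 78) (nat_lit 1520) (nat_lit 0) (XT.lf (nat_lit 0) (nat_lit 19667318312) (nat_lit 760) (nat_lit 9463469930) (nat_lit 836) (nat_lit 3344051099) (nat_lit 298) (nat_lit 5) (nat_lit 308) (nat_lit 5) (nat_lit 309) (nat_lit 5) (nat_lit 342) (nat_lit 316) (nat_lit 122)) (XT.nd (nat_lit 78) (nat_lit 760) (nat_lit 0) (XT.lf (nat_lit 0) (nat_lit 1750954197) (nat_lit 760) (nat_lit 21380170799) (nat_lit 76) (nat_lit 9907319011) (nat_lit 288) (nat_lit 5) (nat_lit 298) (nat_lit 5) (nat_lit 289) (nat_lit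 5) (nat_lit 343) (nat_lit 316) (nat_lit 121)) (XT.lf (nat_lit 0) (nat_lit 3369813838) (nat_lit 760) (nat_lit 3752267188) (nat_lit 836) (nat_lit 26493062038) (nat_lit 278) (nat_lit 5) (nat_lit 288) (nat_lit 5) (nat_lit 289) (nat_lit 5) (nat_lit 344) (nat_lit 316) (nat_lit 120)))) (XT.nd (nat_lit 38454) (nat_lit 0) (nat_lit 9576) (XT.nd (nat_lit 78) (nat_lit 684) (nat_lit 0) (XT.lf (nat_lit 0) (nat_lit 12901419661) (nat_lit 836) (nat_lit 5161784860) (nat_lit 76) (nat_lit 16140999354) (nat_lit 278) (nat_lit 5) (nat_lit 289) (nat_lit 5) (nat_lit 279) (nat_lit 5) (nat_lit 345) (nat_lit 316) (nat_lit 119)) (XT.lf (nat_lit 0) (nat_lit 19023566311) (nat_lit 760) (nat_lit 13900828271) (nat_lit 76) (nat_lit 1883155644) (nat_lit 269) (nat_lit 5) (nat_lit 279) (nat_lit 5) (nat_lit 270) (nat_lit 5) (nat_lit 346) (nat_lit 316) (nat_lit 118))) (XT.nd (nat_lit 78) (nat_lit 0) (nat_lit 0) (XT.lf (nat_lit 0) (nat_lit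 8206450507) (nat_lit 1748) (nat_lit 1426460515) (nat_lit 1748) (nat_lit 1426460515) (nat_lit 395) (nat_lit 3) (nat_lit 418) (nat_lit 3) (nat_lit 418) (nat_lit 5) (nat_lit 317) (nat_lit 317) (nat_lit 146)) (XT.lf (nat_lit 76) (nat_lit 12559129031) (nat_lit 0) (nat_lit 4374199505) (nat_lit 1748) (nat_lit 5511577659) (nat_lit 396) (nat_lit 5) (nat_lit 395) (nat_lit 3) (nat_lit 418) (nat_lit 5) (nat_lit 318) (nat_lit 317) (nat_lit 145))))) (XT.nd (nat_lit 234) (nat_lit 1444) (nat_lit 0) (XT.nd (nat_lit 78) (nat_lit 0) (nat_lit 76) (XT.lf (nat_lit 76) (nat_lit 5691384312) (nat_lit 0) (nat_lit 11898062082) (nat_lit 1748) (nat_lit 5189011473) (nat_lit 397) (nat_lit 5) (nat_lit 396) (nat_lit 5) (nat_lit 419) (nat_lit 5) (nat_lit 319) (nat_lit 317) (nat_lit 144)) (XT.nd (nat_lit 78) (nat_lit 0) (nat_lit 0) (XT.lf (nat_lit 0) (nat_lit 18376585683) (nat_lit 1672) (nat_lit 1305329368) (nat_lit 1748) (nat_lit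 3437879330) (nat_lit 397) (nat_lit 5) (nat_lit 419) (nat_lit 5) (nat_lit 420) (nat_lit 5) (nat_lit 320) (nat_lit 317) (nat_lit 143)) (XT.lf (nat_lit 76) (nat_lit 15063809752) (nat_lit 0) (nat_lit 4293807037) (nat_lit 1748) (nat_lit 4110353554) (nat_lit 398) (nat_lit 5) (nat_lit 397) (nat_lit 5) (nat_lit 420) (nat_lit 5) (nat_lit 321) (nat_lit 317) (nat_lit 142)))) (XT.nd (nat_lit 156) (nat_lit 1596) (nat_lit 0) (XT.nd (nat_lit 78) (nat_lit 0) (nat_lit 76) (XT.lf (nat_lit 76) (nat_lit 8143035263) (nat_lit 0) (nat_lit 12354951812) (nat_lit 1748) (nat_lit 3326011108) (nat_lit 399) (nat_lit 5) (nat_lit 398) (nat_lit 5) (nat_lit 421) (nat_lit 5) (nat_lit 322) (nat_lit 317) (nat_lit 141)) (XT.lf (nat_lit 76) (nat_lit 1070573520) (nat_lit 0) (nat_lit 20710536425) (nat_lit 1748) (nat_lit 2407430706) (nat_lit 400) (nat_lit 5) (nat_lit 399) (nat_lit 5) (nat_lit 422) (nat_lit 5) (nat_lit 323) (nat_lit 317)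 (nat_lit 140))) (XT.nd (nat_lit 78) (nat_lit 1672) (nat_lit 0) (XT.lf (nat_lit 76) (nat_lit 18451407869) (nat_lit 0) (nat_lit 4833122334) (nat_lit 1748) (nat_lit 1275857606) (nat_lit 400) (nat_lit 5) (nat_lit 399) (nat_lit 5) (nat_lit 422) (nat_lit 5) (nat_lit 324) (nat_lit 317) (nat_lit 139)) (XT.lf (nat_lit 0) (nat_lit 35070313) (nat_lit 1748) (nat_lit 13458896247) (nat_lit 1824) (nat_lit 11446563212) (nat_lit 377) (nat_lit 5) (nat_lit 400) (nat_lit 5) (nat_lit 401) (nat_lit 5) (nat_lit 325) (nat_lit 317) (nat_lit 138))))))))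
noncomputable def xc123 : XT := (XT.nd (nat_lit 40482) (nat_lit 0) (nat_lit 760) (XT.nd (nat_lit 1014) (nat_lit 4712) (nat_lit 0) (XT.nd (nat_lit 468) (nat_lit 2888) (nat_lit 0) (XT.nd (nat_lit 234) (nat_lit 0) (nat_lit 152) (XT.nd (nat_lit 78) (nat_lit 0) (nat_lit 0) (XT.lf (nat_lit 0) (nat_lit 1483030005) (nat_lit 1748) (nat_lit 20984582124) (nat_lit 1824) (nat_lit 2861998587) (nat_lit 378) (nat_lit 5) (nat_lit 401) (nat_lit 5) (nat_lit 402) (nat_lit 5) (nat_lit 326) (nat_lit 317) (nat_lit 137)) (XT.nd (nat_lit 78) (nat_lit 0) (nat_lit 76) (XT.lf (nat_lit 0) (nat_lit 3150423785) (nat_lit 1748) (nat_lit 2956368882) (nat_lit 1824) (nat_lit 19620055542) (nat_lit 378) (nat_lit 5) (nat_lit 401) (nat_lit 5) (nat_lit 402) (nat_lit 5) (nat_lit 327) (nat_lit 317) (nat_lit 136)) (XT.lf (nat_lit 0) (nat_lit 5035106660) (nat_lit 1748) (nat_lit 10388563056) (nat_lit 1824) (nat_lit 10708991678) (nat_lit 379)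 (nat_lit 5) (nat_lit 402) (nat_lit 5) (nat_lit 403) (nat_lit 5) (nat_lit 328) (nat_lit 317) (nat_lit 135)))) (XT.nd (nat_lit 78) (nat_lit 0) (nat_lit 0) (XT.lf (nat_lit 0) (nat_lit 7096792975) (nat_lit 1748) (nat_lit 17995105410) (nat_lit 1824) (nat_lit 1456345126) (nat_lit 380) (nat_lit 5) (nat_lit 403) (nat_lit 5) (nat_lit 404) (nat_lit 5) (nat_lit 329) (nat_lit 317) (nat_lit 134)) (XT.nd (nat_lit 78) (nat_lit 0) (nat_lit 76) (XT.lf (nat_lit 76) (nat_lit 1137435710) (nat_lit 0) (nat_lit 8258716196) (nat_lit 1824) (nat_lit 17576628429) (nat_lit 381) (nat_lit 5) (nat_lit 380) (nat_lit 5) (nat_lit 404) (nat_lit 5) (nat_lit 330) (nat_lit 317) (nat_lit 133)) (XT.lf (nat_lit 0) (nat_lit 11940762207) (nat_lit 1748) (nat_lit 6381426135) (nat_lit 1824) (nat_lit 9084343090) (nat_lit 381) (nat_lit 5) (nat_lit 404) (nat_lit 5) (nat_lit 405) (nat_lit 5) (nat_lit 331) (nat_lit 317) (nat_lit 132))))) (XT.nd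 (nat_lit 234) (nat_lit 3116) (nat_lit 0) (XT.nd (nat_lit 78) (nat_lit 0) (nat_lit 76) (XT.lf (nat_lit 76) (nat_lit 13777371808) (nat_lit 0) (nat_lit 923751262) (nat_lit 1824) (nat_lit 13149387220) (nat_lit 382) (nat_lit 5) (nat_lit 381) (nat_lit 5) (nat_lit 405) (nat_lit 5) (nat_lit 332) (nat_lit 317) (nat_lit 131)) (XT.nd (nat_lit 78) (nat_lit 0) (nat_lit 76) (XT.lf (nat_lit 76) (nat_lit 6288934940) (nat_lit 0) (nat_lit 11444938061) (nat_lit 1824) (nat_lit 10570147321) (nat_lit 383) (nat_lit 5) (nat_lit 382) (nat_lit 5) (nat_lit 406) (nat_lit 5) (nat_lit 333) (nat_lit 317) (nat_lit 130)) (XT.lf (nat_lit 0) (nat_lit 20996229982) (nat_lit 1748) (nat_lit 1367276996) (nat_lit 76) (nat_lit 6404859461) (nat_lit 383) (nat_lit 5) (nat_lit 406) (nat_lit 5) (nat_lit 384) (nat_lit 5) (nat_lit 334) (nat_lit 317) (nat_lit 129)))) (XT.nd (nat_lit 156) (nat_lit 988) (nat_lit 0) (XT.nd (nat_lit 78) (nat_lit 836)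 (nat_lit 0) (XT.lf (nat_lit 0) (nat_lit 20082654892) (nat_lit 1444) (nat_lit 4475867764) (nat_lit 1520) (nat_lit 4684082164) (nat_lit 364) (nat_lit 5) (nat_lit 383) (nat_lit 5) (nat_lit 384) (nat_lit 5) (nat_lit 335) (nat_lit 317) (nat_lit 128)) (XT.lf (nat_lit 0) (nat_lit 12533474561) (nat_lit 836) (nat_lit 15870730890) (nat_lit 912) (nat_lit 1323337560) (nat_lit 353) (nat_lit 5) (nat_lit 364) (nat_lit 5) (nat_lit 365) (nat_lit 5) (nat_lit 336) (nat_lit 317) (nat_lit 127))) (XT.nd (nat_lit 78) (nat_lit 0) (nat_lit 0) (XT.lf (nat_lit 0) (nat_lit 2245684342) (nat_lit 988) (nat_lit 25449293663) (nat_lit 76) (nat_lit 2529066660) (nat_lit 340) (nat_lit 5) (nat_lit 353) (nat_lit 5) (nat_lit 341) (nat_lit 5) (nat_lit 337) (nat_lit 317) (nat_lit 126)) (XT.lf (nat_lit 0) (nat_lit 6122765676) (nat_lit 988) (nat_lit 3215098318) (nat_lit 76) (nat_lit 21393025929) (nat_lit 340) (nat_lit 5) (nat_lit 353) (nat_lit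 5) (nat_lit 341) (nat_lit 5) (nat_lit 338) (nat_lit 317) (nat_lit 125)))))) (XT.nd (nat_lit 546) (nat_lit 0) (nat_lit 0) (XT.nd (nat_lit 234) (nat_lit 2280) (nat_lit 0) (XT.nd (nat_lit 78) (nat_lit 1596) (nat_lit 0) (XT.lf (nat_lit 0) (nat_lit 10304219853) (nat_lit 912) (nat_lit 11369847969) (nat_lit 76) (nat_lit 9575114277) (nat_lit 329) (nat_lit 5) (nat_lit 341) (nat_lit 5) (nat_lit 330) (nat_lit 5) (nat_lit 339) (nat_lit 317) (nat_lit 124)) (XT.nd (nat_lit 78) (nat_lit 760) (nat_lit 0) (XT.lf (nat_lit 0) (nat_lit 12018937967) (nat_lit 836) (nat_lit 2750275510) (nat_lit 912) (nat_lit 17010650336) (nat_lit 318) (nat_lit 5) (nat_lit 329) (nat_lit 5) (nat_lit 330) (nat_lit 5) (nat_lit 340) (nat_lit 317) (nat_lit 123)) (XT.lf (nat_lit 0) (nat_lit 3877600741) (nat_lit 760) (nat_lit 15697767312) (nat_lit 836) (nat_lit 12746956312) (nat_lit 308) (nat_lit 5) (nat_lit 318) (nat_lit 5) (nat_lit 319) (nat_lit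 5) (nat_lit 341) (nat_lit 317) (nat_lit 122)))) (XT.nd (nat_lit 156) (nat_lit 1520) (nat_lit 0) (XT.nd (nat_lit 78) (nat_lit 760) (nat_lit 0) (XT.lf (nat_lit 0) (nat_lit 24698432815) (nat_lit 836) (nat_lit 4429707327) (nat_lit 76) (nat_lit 3749466616) (nat_lit 308) (nat_lit 5) (nat_lit 319) (nat_lit 5) (nat_lit 309) (nat_lit 5) (nat_lit 342) (nat_lit 317) (nat_lit 121)) (XT.lf (nat_lit 0) (nat_lit 20465144865) (nat_lit 760) (nat_lit 9743896555) (nat_lit 836) (nat_lit 3235831626) (nat_lit 298) (nat_lit 5) (nat_lit 308) (nat_lit 5) (nat_lit 309) (nat_lit 5) (nat_lit 343) (nat_lit 317) (nat_lit 120))) (XT.nd (nat_lit 78) (nat_lit 760) (nat_lit 0) (XT.lf (nat_lit 0) (nat_lit 2004679549) (nat_lit 760) (nat_lit 21810226734) (nat_lit 76) (nat_lit 10210548239) (nat_lit 288) (nat_lit 5) (nat_lit 298) (nat_lit 5) (nat_lit 289) (nat_lit 5) (nat_lit 344) (nat_lit 317) (nat_lit 119)) (XT.lf (nat_lit 0) (nat_lit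 3678828553) (nat_lit 760) (nat_lit 3853601488) (nat_lit 836) (nat_lit 27087118175) (nat_lit 278) (nat_lit 5) (nat_lit 288) (nat_lit 5) (nat_lit 289) (nat_lit 5) (nat_lit 345) (nat_lit 317) (nat_lit 118))))) (XT.nd (nat_lit 38610) (nat_lit 0) (nat_lit 8968) (XT.nd (nat_lit 38454) (nat_lit 0) (nat_lit 8892) (XT.lf (nat_lit 0) (nat_lit 13479490912) (nat_lit 836) (nat_lit 5110913645) (nat_lit 76) (nat_lit 16635992814) (nat_lit 278) (nat_lit 5) (nat_lit 289) (nat_lit 5) (nat_lit 279) (nat_lit 5) (nat_lit 346) (nat_lit 317) (nat_lit 117)) (XT.nd (nat_lit 78) (nat_lit 0) (nat_lit 0) (XT.lf (nat_lit 0) (nat_lit 8643483562) (nat_lit 1748) (nat_lit 1371860134) (nat_lit 1748) (nat_lit 1371860134) (nat_lit 395) (nat_lit 3) (nat_lit 418) (nat_lit 3) (nat_lit 418) (nat_lit 5) (nat_lit 318) (nat_lit 318) (nat_lit 144)) (XT.lf (nat_lit 76) (nat_lit 13127531084) (nat_lit 0) (nat_lit 4685603700) (nat_lit 1748) (nat_lit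 5297426040) (nat_lit 396) (nat_lit 5) (nat_lit 395) (nat_lit 3) (nat_lit 418) (nat_lit 5) (nat_lit 319) (nat_lit 318) (nat_lit 143)))) (XT.nd (nat_lit 156) (nat_lit 0) (nat_lit 76) (XT.nd (nat_lit 78) (nat_lit 0) (nat_lit 76) (XT.lf (nat_lit 76) (nat_lit 6059363696) (nat_lit 0) (nat_lit 12418888003) (nat_lit 1748) (nat_lit 4976088503) (nat_lit 397) (nat_lit 5) (nat_lit 396) (nat_lit 5) (nat_lit 419) (nat_lit 5) (nat_lit 320) (nat_lit 318) (nat_lit 142)) (XT.lf (nat_lit 0) (nat_lit 19277454002) (nat_lit 1672) (nat_lit 1144709348) (nat_lit 1748) (nat_lit 3383991739) (nat_lit 397) (nat_lit 5) (nat_lit 419) (nat_lit 5) (nat_lit 420) (nat_lit 5) (nat_lit 321) (nat_lit 318) (nat_lit 141))) (XT.nd (nat_lit 78) (nat_lit 0) (nat_lit 76) (XT.lf (nat_lit 76) (nat_lit 15712262755) (nat_lit 0) (nat_lit 4566747674) (nat_lit 1748) (nat_lit 3885951053) (nat_lit 398) (nat_lit 5) (nat_lit 397) (nat_lit 5) (nat_lit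 420) (nat_lit 5) (nat_lit 322) (nat_lit 318) (nat_lit 140)) (XT.lf (nat_lit 76) (nat_lit 8588530634) (nat_lit 0) (nat_lit 12855536746) (nat_lit 1748) (nat_lit 3087800101) (nat_lit 399) (nat_lit 5) (nat_lit 398) (nat_lit 5) (nat_lit 421) (nat_lit 5) (nat_lit 323) (nat_lit 318) (nat_lit 139))))))) (XT.nd (nat_lit 1092) (nat_lit 4940) (nat_lit 0) (XT.nd (nat_lit 546) (nat_lit 1824) (nat_lit 0) (XT.nd (nat_lit 234) (nat_lit 0) (nat_lit 76) (XT.nd (nat_lit 78) (nat_lit 1672) (nat_lit 0) (XT.lf (nat_lit 76) (nat_lit 1308200189) (nat_lit 0) (nat_lit 21448354115) (nat_lit 1748) (nat_lit 2150981147) (nat_lit 400) (nat_lit 5) (nat_lit 399) (nat_lit 5) (nat_lit 422) (nat_lit 5) (nat_lit 324) (nat_lit 318) (nat_lit 138)) (XT.nd (nat_lit 78) (nat_lit 1672) (nat_lit 0) (XT.lf (nat_lit 76) (nat_lit 19204473856) (nat_lit 0) (nat_lit 5091224351) (nat_lit 1748) (nat_lit 995033838) (nat_lit 400) (nat_lit 5) (nat_lit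 399) (nat_lit 5) (nat_lit 422) (nat_lit 5) (nat_lit 325) (nat_lit 318) (nat_lit 137)) (XT.lf (nat_lit 0) (nat_lit 342476067) (nat_lit 1748) (nat_lit 13655015795) (nat_lit 1824) (nat_lit 11684922317) (nat_lit 377) (nat_lit 5) (nat_lit 400) (nat_lit 5) (nat_lit 401) (nat_lit 5) (nat_lit 326) (nat_lit 318) (nat_lit 136)))) (XT.nd (nat_lit 156) (nat_lit 0) (nat_lit 76) (XT.nd (nat_lit 78) (nat_lit 0) (nat_lit 0) (XT.lf (nat_lit 0) (nat_lit 1825664522) (nat_lit 1748) (nat_lit 21403054063) (nat_lit 1824) (nat_lit 2854619120) (nat_lit 378) (nat_lit 5) (nat_lit 401) (nat_lit 5) (nat_lit 402) (nat_lit 5) (nat_lit 327) (nat_lit 318) (nat_lit 135)) (XT.lf (nat_lit 0) (nat_lit 3534396321) (nat_lit 1748) (nat_lit 2840141964) (nat_lit 1824) (nat_lit 20118133496) (nat_lit 378) (nat_lit 5) (nat_lit 401) (nat_lit 5) (nat_lit 402) (nat_lit 5) (nat_lit 328) (nat_lit 318) (nat_lit 134))) (XT.nd (nat_lit 78) (nat_lit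 0) (nat_lit 76) (XT.lf (nat_lit 0) (nat_lit 5467973445) (nat_lit 1748) (nat_lit 10492268444) (nat_lit 1824) (nat_lit 10950576008) (nat_lit 379) (nat_lit 5) (nat_lit 402) (nat_lit 5) (nat_lit 403) (nat_lit 5) (nat_lit 329) (nat_lit 318) (nat_lit 133)) (XT.lf (nat_lit 0) (nat_lit 7584173644) (nat_lit 1748) (nat_lit 18324243745) (nat_lit 1824) (nat_lit 1430602270) (nat_lit 380) (nat_lit 5) (nat_lit 403) (nat_lit 5) (nat_lit 404) (nat_lit 5) (nat_lit 330) (nat_lit 318) (nat_lit 132))))) (XT.nd (nat_lit 234) (nat_lit 2052) (nat_lit 0) (XT.nd (nat_lit 78) (nat_lit 0) (nat_lit 76) (XT.lf (nat_lit 76) (nat_lit 1378855011) (nat_lit 0) (nat_lit 8567009765) (nat_lit 1824) (nat_lit 17830566075) (nat_lit 381) (nat_lit 5) (nat_lit 380) (nat_lit 5) (nat_lit 404) (nat_lit 5) (nat_lit 331) (nat_lit 318) (nat_lit 131)) (XT.nd (nat_lit 78) (nat_lit 0) (nat_lit 0) (XT.lf (nat_lit 0) (nat_lit 12558630994) (nat_lit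 1748) (nat_lit 6365857134) (nat_lit 1824) (nat_lit 9298875136) (nat_lit 381) (nat_lit 5) (nat_lit 404) (nat_lit 5) (nat_lit 405) (nat_lit 5) (nat_lit 332) (nat_lit 318) (nat_lit 130)) (XT.lf (nat_lit 76) (nat_lit 14394346227) (nat_lit 0) (nat_lit 1001216205) (nat_lit 1824) (nat_lit 13285228847) (nat_lit 382) (nat_lit 5) (nat_lit 381) (nat_lit 5) (nat_lit 405) (nat_lit 5) (nat_lit 333) (nat_lit 318) (nat_lit 129)))) (XT.nd (nat_lit 156) (nat_lit 2204) (nat_lit 0) (XT.nd (nat_lit 78) (nat_lit 0) (nat_lit 76) (XT.lf (nat_lit 76) (nat_lit 6683419404) (nat_lit 0) (nat_lit 11829517389) (nat_lit 1824) (nat_lit 10635101821) (nat_lit 383) (nat_lit 5) (nat_lit 382) (nat_lit 5) (nat_lit 406) (nat_lit 5) (nat_lit 334) (nat_lit 318) (nat_lit 128)) (XT.lf (nat_lit 0) (nat_lit 21865709019) (nat_lit 1748) (nat_lit 1203259934) (nat_lit 76) (nat_lit 6557499972) (nat_lit 383) (nat_lit 5) (nat_lit 406) (nat_lit 5)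 (nat_lit 384) (nat_lit 5) (nat_lit 335) (nat_lit 318) (nat_lit 127))) (XT.nd (nat_lit 78) (nat_lit 836) (nat_lit 0) (XT.lf (nat_lit 0) (nat_lit 20886843455) (nat_lit 1444) (nat_lit 4642358233) (nat_lit 1520) (nat_lit 4585850706) (nat_lit 364) (nat_lit 5) (nat_lit 383) (nat_lit 5) (nat_lit 384) (nat_lit 5) (nat_lit 336) (nat_lit 318) (nat_lit 126)) (XT.lf (nat_lit 0) (nat_lit 13112873190) (nat_lit 836) (nat_lit 16371685982) (nat_lit 912) (nat_lit 1130097906) (nat_lit 353) (nat_lit 5) (nat_lit 364) (nat_lit 5) (nat_lit 365) (nat_lit 5) (nat_lit 337) (nat_lit 318) (nat_lit 125)))))) (XT.nd (nat_lit 546) (nat_lit 760) (nat_lit 0) (XT.nd (nat_lit 234) (nat_lit 2356) (nat_lit 0) (XT.nd (nat_lit 78) (nat_lit 836) (nat_lit 0) (XT.lf (nat_lit 0) (nat_lit 2537425445) (nat_lit 988) (nat_lit 26004761196) (nat_lit 76) (nat_lit 2583951393) (nat_lit 340) (nat_lit 5) (nat_lit 353) (nat_lit 5) (nat_lit 341) (nat_lit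 5) (nat_lit 338) (nat_lit 318) (nat_lit 124)) (XT.nd (nat_lit 78) (nat_lit 836) (nat_lit 0) (XT.lf (nat_lit 0) (nat_lit 6524284154) (nat_lit 988) (nat_lit 3109598571) (nat_lit 76) (nat_lit 22014440719) (nat_lit 340) (nat_lit 5) (nat_lit 353) (nat_lit 5) (nat_lit 341) (nat_lit 5) (nat_lit 339) (nat_lit 318) (nat_lit 123)) (XT.lf (nat_lit 0) (nat_lit 10826035595) (nat_lit 912) (nat_lit 11507787473) (nat_lit 76) (nat_lit 9848448220) (nat_lit 329) (nat_lit 5) (nat_lit 341) (nat_lit 5) (nat_lit 330) (nat_lit 5) (nat_lit 340) (nat_lit 318) (nat_lit 122)))) (XT.nd (nat_lit 156) (nat_lit 760) (nat_lit 0) (XT.nd (nat_lit 78) (nat_lit 760) (nat_lit 0) (XT.lf (nat_lit 0) (nat_lit 12579366077) (nat_lit 836) (nat_lit 2840715745) (nat_lit 912) (nat_lit 17308893434) (nat_lit 318) (nat_lit 5) (nat_lit 329) (nat_lit 5) (nat_lit 330) (nat_lit 5) (nat_lit 341) (nat_lit 318) (nat_lit 121)) (XT.lf (nat_lit 0) (nat_lit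 4194811869) (nat_lit 760) (nat_lit 16170811240) (nat_lit 836) (nat_lit 12922186221) (nat_lit 308) (nat_lit 5) (nat_lit 318) (nat_lit 5) (nat_lit 319) (nat_lit 5) (nat_lit 342) (nat_lit 318) (nat_lit 120))) (XT.nd (nat_lit 78) (nat_lit 760) (nat_lit 0) (XT.lf (nat_lit 0) (nat_lit 25636454061) (nat_lit 836) (nat_lit 4363490220) (nat_lit 76) (nat_lit 3859928067) (nat_lit 308) (nat_lit 5) (nat_lit 319) (nat_lit 5) (nat_lit 309) (nat_lit 5) (nat_lit 343) (nat_lit 318) (nat_lit 119)) (XT.lf (nat_lit 0) (nat_lit 21274977242) (nat_lit 760) (nat_lit 10032935600) (nat_lit 836) (nat_lit 3136336674) (nat_lit 298) (nat_lit 5) (nat_lit 308) (nat_lit 5) (nat_lit 309) (nat_lit 5) (nat_lit 344) (nat_lit 318) (nat_lit 118))))) (XT.nd (nat_lit 38766) (nat_lit 0) (nat_lit 8208) (XT.nd (nat_lit 38610) (nat_lit 0) (nat_lit 8132) (XT.lf (nat_lit 0) (nat_lit 2254467146) (nat_lit 760) (nat_lit 22265316656) (nat_lit 76)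 (nat_lit 10522529365) (nat_lit 288) (nat_lit 5) (nat_lit 298) (nat_lit 5) (nat_lit 289) (nat_lit 5) (nat_lit 345) (nat_lit 318) (nat_lit 117)) (XT.nd (nat_lit 78) (nat_lit 0) (nat_lit 0) (XT.lf (nat_lit 0) (nat_lit 9082672639) (nat_lit 1748) (nat_lit 1321212567) (nat_lit 1748) (nat_lit 1321212567) (nat_lit 395) (nat_lit 3) (nat_lit 418) (nat_lit 3) (nat_lit 418) (nat_lit 5) (nat_lit 319) (nat_lit 319) (nat_lit 142)) (XT.lf (nat_lit 76) (nat_lit 13701984957) (nat_lit 0) (nat_lit 4996007053) (nat_lit 1748) (nat_lit 5098634664) (nat_lit 396) (nat_lit 5) (nat_lit 395) (nat_lit 3) (nat_lit 418) (nat_lit 5) (nat_lit 320) (nat_lit 319) (nat_lit 141)))) (XT.nd (nat_lit 156) (nat_lit 0) (nat_lit 76) (XT.nd (nat_lit 78) (nat_lit 0) (nat_lit 76) (XT.lf (nat_lit 76) (nat_lit 6427060202) (nat_lit 0) (nat_lit 12945931087) (nat_lit 1748) (nat_lit 4777936609) (nat_lit 397) (nat_lit 5) (nat_lit 396) (nat_lit 5)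 (nat_lit 419) (nat_lit 5) (nat_lit 321) (nat_lit 319) (nat_lit 140)) (XT.lf (nat_lit 0) (nat_lit 20185281578) (nat_lit 1672) (nat_lit 990738910) (nat_lit 1748) (nat_lit 3337501338) (nat_lit 397) (nat_lit 5) (nat_lit 419) (nat_lit 5) (nat_lit 420) (nat_lit 5) (nat_lit 322) (nat_lit 319) (nat_lit 139))) (XT.nd (nat_lit 78) (nat_lit 0) (nat_lit 76) (XT.lf (nat_lit 76) (nat_lit 16368887221) (nat_lit 0) (nat_lit 4839603083) (nat_lit 1748) (nat_lit 3674776632) (nat_lit 398) (nat_lit 5) (nat_lit 397) (nat_lit 5) (nat_lit 420) (nat_lit 5) (nat_lit 323) (nat_lit 319) (nat_lit 138)) (XT.lf (nat_lit 76) (nat_lit 9035840915) (nat_lit 0) (nat_lit 13363680348) (nat_lit 1748) (nat_lit 2861844848) (nat_lit 399) (nat_lit 5) (nat_lit 398) (nat_lit 5) (nat_lit 421) (nat_lit 5) (nat_lit 324) (nat_lit 319) (nat_lit 137))))))))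
noncomputable def xc124 : XT := (XT.nd (nat_lit 40716) (nat_lit 0) (nat_lit 760) (XT.nd (nat_lit 1014) (nat_lit 5016) (nat_lit 0) (XT.nd (nat_lit 468) (nat_lit 988) (nat_lit 0) (XT.nd (nat_lit 234) (nat_lit 0) (nat_lit 76) (XT.nd (nat_lit 78) (nat_lit 1672) (nat_lit 0) (XT.lf (nat_lit 76) (nat_lit 1541158574) (nat_lit 0) (nat_lit 22201618668) (nat_lit 1748) (nat_lit 1905705246) (nat_lit 400) (nat_lit 5) (nat_lit 399) (nat_lit 5) (nat_lit 422) (nat_lit 5) (nat_lit 325) (nat_lit 319) (nat_lit 136)) (XT.nd (nat_lit 78) (nat_lit 1672) (nat_lit 0) (XT.lf (nat_lit 76) (nat_lit 19968678343) (nat_lit 0) (nat_lit 5350576547) (nat_lit 1748) (nat_lit 724102974) (nat_lit 400) (nat_lit 5) (nat_lit 399) (nat_lit 5) (nat_lit 422) (nat_lit 5) (nat_lit 326) (nat_lit 319) (nat_lit 135)) (XT.lf (nat_lit 0) (nat_lit 641518041) (nat_lit 1748) (nat_lit 13868938737) (nat_lit 1824) (nat_lit 11936461794) (nat_lit 377)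 (nat_lit 5) (nat_lit 400) (nat_lit 5) (nat_lit 401) (nat_lit 5) (nat_lit 327) (nat_lit 319) (nat_lit 134)))) (XT.nd (nat_lit 78) (nat_lit 0) (nat_lit 0) (XT.lf (nat_lit 0) (nat_lit 2161463412) (nat_lit 1748) (nat_lit 21846196185) (nat_lit 1824) (nat_lit 2852370594) (nat_lit 378) (nat_lit 5) (nat_lit 401) (nat_lit 5) (nat_lit 402) (nat_lit 5) (nat_lit 328) (nat_lit 319) (nat_lit 133)) (XT.nd (nat_lit 78) (nat_lit 0) (nat_lit 76) (XT.lf (nat_lit 0) (nat_lit 3913271855) (nat_lit 1748) (nat_lit 2732191368) (nat_lit 1824) (nat_lit 20636350220) (nat_lit 378) (nat_lit 5) (nat_lit 401) (nat_lit 5) (nat_lit 402) (nat_lit 5) (nat_lit 329) (nat_lit 319) (nat_lit 132)) (XT.lf (nat_lit 0) (nat_lit 5897648982) (nat_lit 1748) (nat_lit 10611022261) (nat_lit 1824) (nat_lit 11203982137) (nat_lit 379) (nat_lit 5) (nat_lit 402) (nat_lit 5) (nat_lit 403) (nat_lit 5) (nat_lit 330) (nat_lit 319) (nat_lit 131))))) (XT.nd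 (nat_lit 234) (nat_lit 1216) (nat_lit 0) (XT.nd (nat_lit 78) (nat_lit 0) (nat_lit 0) (XT.lf (nat_lit 0) (nat_lit 8070419638) (nat_lit 1748) (nat_lit 18675352124) (nat_lit 1824) (nat_lit 1408072879) (nat_lit 380) (nat_lit 5) (nat_lit 403) (nat_lit 5) (nat_lit 404) (nat_lit 5) (nat_lit 331) (nat_lit 319) (nat_lit 130)) (XT.nd (nat_lit 78) (nat_lit 0) (nat_lit 76) (XT.lf (nat_lit 76) (nat_lit 1615617238) (nat_lit 0) (nat_lit 8881077353) (nat_lit 1824) (nat_lit 18107813902) (nat_lit 381) (nat_lit 5) (nat_lit 380) (nat_lit 5) (nat_lit 404) (nat_lit 5) (nat_lit 332) (nat_lit 319) (nat_lit 129)) (XT.lf (nat_lit 0) (nat_lit 13180131106) (nat_lit 1748) (nat_lit 6361704387) (nat_lit 1824) (nat_lit 9523172480) (nat_lit 381) (nat_lit 5) (nat_lit 404) (nat_lit 5) (nat_lit 405) (nat_lit 5) (nat_lit 333) (nat_lit 319) (nat_lit 128)))) (XT.nd (nat_lit 156) (nat_lit 1292) (nat_lit 0) (XT.nd (nat_lit 78) (nat_lit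 0) (nat_lit 76) (XT.lf (nat_lit 76) (nat_lit 15018139347) (nat_lit 0) (nat_lit 1078149106) (nat_lit 1824) (nat_lit 13439992716) (nat_lit 382) (nat_lit 5) (nat_lit 381) (nat_lit 5) (nat_lit 405) (nat_lit 5) (nat_lit 334) (nat_lit 319) (nat_lit 127)) (XT.lf (nat_lit 76) (nat_lit 7077923698) (nat_lit 0) (nat_lit 12223267258) (nat_lit 1824) (nat_lit 10716479394) (nat_lit 383) (nat_lit 5) (nat_lit 382) (nat_lit 5) (nat_lit 406) (nat_lit 5) (nat_lit 335) (nat_lit 319) (nat_lit 126))) (XT.nd (nat_lit 78) (nat_lit 1444) (nat_lit 0) (XT.lf (nat_lit 0) (nat_lit 22747518858) (nat_lit 1748) (nat_lit 1046092229) (nat_lit 76) (nat_lit 6716987462) (nat_lit 383) (nat_lit 5) (nat_lit 406) (nat_lit 5) (nat_lit 384) (nat_lit 5) (nat_lit 336) (nat_lit 319) (nat_lit 125)) (XT.lf (nat_lit 0) (nat_lit 21703578759) (nat_lit 1444) (nat_lit 4811994177) (nat_lit 1520) (nat_lit 4498377756) (nat_lit 364) (nat_lit 5) (nat_lit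 383) (nat_lit 5) (nat_lit 384) (nat_lit 5) (nat_lit 337) (nat_lit 319) (nat_lit 124)))))) (XT.nd (nat_lit 546) (nat_lit 760) (nat_lit 0) (XT.nd (nat_lit 234) (nat_lit 2432) (nat_lit 0) (XT.nd (nat_lit 78) (nat_lit 988) (nat_lit 0) (XT.lf (nat_lit 0) (nat_lit 13697978109) (nat_lit 836) (nat_lit 16886244201) (nat_lit 912) (nat_lit 944432758) (nat_lit 353) (nat_lit 5) (nat_lit 364) (nat_lit 5) (nat_lit 365) (nat_lit 5) (nat_lit 338) (nat_lit 319) (nat_lit 123)) (XT.nd (nat_lit 78) (nat_lit 0) (nat_lit 0) (XT.lf (nat_lit 0) (nat_lit 2825038993) (nat_lit 988) (nat_lit 26588833452) (nat_lit 76) (nat_lit 2641687423) (nat_lit 340) (nat_lit 5) (nat_lit 353) (nat_lit 5) (nat_lit 341) (nat_lit 5) (nat_lit 339) (nat_lit 319) (nat_lit 122)) (XT.lf (nat_lit 0) (nat_lit 6925343537) (nat_lit 988) (nat_lit 3012526742) (nat_lit 76) (nat_lit 22655667619) (nat_lit 340) (nat_lit 5) (nat_lit 353) (nat_lit 5) (nat_lit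 341) (nat_lit 5) (nat_lit 340) (nat_lit 319) (nat_lit 121)))) (XT.nd (nat_lit 156) (nat_lit 760) (nat_lit 0) (XT.nd (nat_lit 78) (nat_lit 836) (nat_lit 0) (XT.lf (nat_lit 0) (nat_lit 11351296583) (nat_lit 912) (nat_lit 11661527144) (nat_lit 76) (nat_lit 10130781216) (nat_lit 329) (nat_lit 5) (nat_lit 341) (nat_lit 5) (nat_lit 330) (nat_lit 5) (nat_lit 341) (nat_lit 319) (nat_lit 120)) (XT.lf (nat_lit 0) (nat_lit 13145134251) (nat_lit 836) (nat_lit 2933413859) (nat_lit 912) (nat_lit 17628257879) (nat_lit 318) (nat_lit 5) (nat_lit 329) (nat_lit 5) (nat_lit 330) (nat_lit 5) (nat_lit 342) (nat_lit 319) (nat_lit 119))) (XT.nd (nat_lit 78) (nat_lit 0) (nat_lit 0) (XT.lf (nat_lit 0) (nat_lit 4510007819) (nat_lit 760) (nat_lit 16657925312) (nat_lit 836) (nat_lit 13114565936) (nat_lit 308) (nat_lit 5) (nat_lit 318) (nat_lit 5) (nat_lit 319) (nat_lit 5) (nat_lit 343) (nat_lit 319) (nat_lit 118)) (XT.lf (nat_lit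 0) (nat_lit 26591303421) (nat_lit 836) (nat_lit 4306716232) (nat_lit 76) (nat_lit 3973819463) (nat_lit 308) (nat_lit 5) (nat_lit 319) (nat_lit 5) (nat_lit 309) (nat_lit 5) (nat_lit 344) (nat_lit 319) (nat_lit 117))))) (XT.nd (nat_lit 38844) (nat_lit 0) (nat_lit 7448) (XT.nd (nat_lit 38688) (nat_lit 0) (nat_lit 7372) (XT.lf (nat_lit 0) (nat_lit 22097860390) (nat_lit 760) (nat_lit 10330833979) (nat_lit 836) (nat_lit 3045140791) (nat_lit 298) (nat_lit 5) (nat_lit 308) (nat_lit 5) (nat_lit 309) (nat_lit 5) (nat_lit 345) (nat_lit 319) (nat_lit 116)) (XT.nd (nat_lit 78) (nat_lit 0) (nat_lit 0) (XT.lf (nat_lit 0) (nat_lit 9524711278) (nat_lit 1748) (nat_lit 1274315462) (nat_lit 1748) (nat_lit 1274315462) (nat_lit 395) (nat_lit 3) (nat_lit 418) (nat_lit 3) (nat_lit 418) (nat_lit 5) (nat_lit 320) (nat_lit 320) (nat_lit 140)) (XT.lf (nat_lit 76) (nat_lit 14283303664) (nat_lit 0) (nat_lit 5305973270) (nat_lit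 1748) (nat_lit 4914413803) (nat_lit 396) (nat_lit 5) (nat_lit 395) (nat_lit 3) (nat_lit 418) (nat_lit 5) (nat_lit 321) (nat_lit 320) (nat_lit 139)))) (XT.nd (nat_lit 156) (nat_lit 0) (nat_lit 76) (XT.nd (nat_lit 78) (nat_lit 0) (nat_lit 76) (XT.lf (nat_lit 76) (nat_lit 6795115288) (nat_lit 0) (nat_lit 13479917884) (nat_lit 1748) (nat_lit 4593784322) (nat_lit 397) (nat_lit 5) (nat_lit 396) (nat_lit 5) (nat_lit 419) (nat_lit 5) (nat_lit 322) (nat_lit 320) (nat_lit 138)) (XT.lf (nat_lit 0) (nat_lit 21101429108) (nat_lit 1672) (nat_lit 842959222) (nat_lit 1748) (nat_lit 3298112613) (nat_lit 397) (nat_lit 5) (nat_lit 419) (nat_lit 5) (nat_lit 420) (nat_lit 5) (nat_lit 323) (nat_lit 320) (nat_lit 137))) (XT.nd (nat_lit 78) (nat_lit 0) (nat_lit 76) (XT.lf (nat_lit 76) (nat_lit 17034575936) (nat_lit 0) (nat_lit 5112845638) (nat_lit 1748) (nat_lit 3476081338) (nat_lit 398) (nat_lit 5) (nat_lit 397) (nat_lit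 5) (nat_lit 420) (nat_lit 5) (nat_lit 324) (nat_lit 320) (nat_lit 136)) (XT.lf (nat_lit 76) (nat_lit 9485683569) (nat_lit 0) (nat_lit 13880037548) (nat_lit 1748) (nat_lit 2647399265) (nat_lit 399) (nat_lit 5) (nat_lit 398) (nat_lit 5) (nat_lit 421) (nat_lit 5) (nat_lit 325) (nat_lit 320) (nat_lit 135))))))) (XT.nd (nat_lit 1014) (nat_lit 4256) (nat_lit 0) (XT.nd (nat_lit 468) (nat_lit 988) (nat_lit 0) (XT.nd (nat_lit 234) (nat_lit 0) (nat_lit 76) (XT.nd (nat_lit 78) (nat_lit 1672) (nat_lit 0) (XT.lf (nat_lit 76) (nat_lit 1769985828) (nat_lit 0) (nat_lit 22971177388) (nat_lit 1748) (nat_lit 1670855161) (nat_lit 400) (nat_lit 5) (nat_lit 399) (nat_lit 5) (nat_lit 422) (nat_lit 5) (nat_lit 326) (nat_lit 320) (nat_lit 134)) (XT.nd (nat_lit 78) (nat_lit 1672) (nat_lit 0) (XT.lf (nat_lit 76) (nat_lit 20745012962) (nat_lit 0) (nat_lit 5611589144) (nat_lit 1748) (nat_lit 462310295) (nat_lit 400) (nat_lit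 5) (nat_lit 399) (nat_lit 5) (nat_lit 422) (nat_lit 5) (nat_lit 327) (nat_lit 320) (nat_lit 133)) (XT.lf (nat_lit 0) (nat_lit 932954827) (nat_lit 1748) (nat_lit 14100514928) (nat_lit 1824) (nat_lit 12201230931) (nat_lit 377) (nat_lit 5) (nat_lit 400) (nat_lit 5) (nat_lit 401) (nat_lit 5) (nat_lit 328) (nat_lit 320) (nat_lit 132)))) (XT.nd (nat_lit 78) (nat_lit 0) (nat_lit 0) (XT.lf (nat_lit 0) (nat_lit 2491204056) (nat_lit 1748) (nat_lit 22314053086) (nat_lit 1824) (nat_lit 2855099692) (nat_lit 378) (nat_lit 5) (nat_lit 401) (nat_lit 5) (nat_lit 402) (nat_lit 5) (nat_lit 329) (nat_lit 320) (nat_lit 131)) (XT.nd (nat_lit 78) (nat_lit 0) (nat_lit 76) (XT.lf (nat_lit 0) (nat_lit 4287851314) (nat_lit 1748) (nat_lit 2632090134) (nat_lit 1824) (nat_lit 21175011580) (nat_lit 378) (nat_lit 5) (nat_lit 401) (nat_lit 5) (nat_lit 402) (nat_lit 5) (nat_lit 330) (nat_lit 320) (nat_lit 130)) (XT.lf (nat_lit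 0) (nat_lit 6324966172) (nat_lit 1748) (nat_lit 10744590711) (nat_lit 1824) (nat_lit 11469302137) (nat_lit 379) (nat_lit 5) (nat_lit 402) (nat_lit 5) (nat_lit 403) (nat_lit 5) (nat_lit 331) (nat_lit 320) (nat_lit 129))))) (XT.nd (nat_lit 234) (nat_lit 1216) (nat_lit 0) (XT.nd (nat_lit 78) (nat_lit 0) (nat_lit 0) (XT.lf (nat_lit 0) (nat_lit 8556401380) (nat_lit 1748) (nat_lit 19048395294) (nat_lit 1824) (nat_lit 1388624559) (nat_lit 380) (nat_lit 5) (nat_lit 403) (nat_lit 5) (nat_lit 404) (nat_lit 5) (nat_lit 332) (nat_lit 320) (nat_lit 128)) (XT.nd (nat_lit 78) (nat_lit 0) (nat_lit 76) (XT.lf (nat_lit 76) (nat_lit 1848265770) (nat_lit 0) (nat_lit 9201291646) (nat_lit 1824) (nat_lit 18408170427) (nat_lit 381) (nat_lit 5) (nat_lit 380) (nat_lit 5) (nat_lit 404) (nat_lit 5) (nat_lit 333) (nat_lit 320) (nat_lit 127)) (XT.lf (nat_lit 0) (nat_lit 13806227076) (nat_lit 1748) (nat_lit 6368628230) (nat_lit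 1824) (nat_lit 9757336963) (nat_lit 381) (nat_lit 5) (nat_lit 404) (nat_lit 5) (nat_lit 405) (nat_lit 5) (nat_lit 334) (nat_lit 320) (nat_lit 126)))) (XT.nd (nat_lit 156) (nat_lit 1292) (nat_lit 0) (XT.nd (nat_lit 78) (nat_lit 0) (nat_lit 76) (XT.lf (nat_lit 76) (nat_lit 15649626815) (nat_lit 0) (nat_lit 1154697947) (nat_lit 1824) (nat_lit 13613394217) (nat_lit 382) (nat_lit 5) (nat_lit 381) (nat_lit 5) (nat_lit 405) (nat_lit 5) (nat_lit 335) (nat_lit 320) (nat_lit 125)) (XT.lf (nat_lit 76) (nat_lit 7473126629) (nat_lit 0) (nat_lit 12626598651) (nat_lit 1824) (nat_lit 10813941838) (nat_lit 383) (nat_lit 5) (nat_lit 382) (nat_lit 5) (nat_lit 406) (nat_lit 5) (nat_lit 336) (nat_lit 320) (nat_lit 124))) (XT.nd (nat_lit 78) (nat_lit 1444) (nat_lit 0) (XT.lf (nat_lit 0) (nat_lit 23642818934) (nat_lit 1748) (nat_lit 895303723) (nat_lit 76) (nat_lit 6883397162) (nat_lit 383) (nat_lit 5) (nat_lit 406)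 (nat_lit 5) (nat_lit 384) (nat_lit 5) (nat_lit 337) (nat_lit 320) (nat_lit 123)) (XT.lf (nat_lit 0) (nat_lit 22533901882) (nat_lit 1444) (nat_lit 4984976112) (nat_lit 1520) (nat_lit 4421199320) (nat_lit 364) (nat_lit 5) (nat_lit 383) (nat_lit 5) (nat_lit 384) (nat_lit 5) (nat_lit 338) (nat_lit 320) (nat_lit 122)))))) (XT.nd (nat_lit 39312) (nat_lit 0) (nat_lit 6612) (XT.nd (nat_lit 234) (nat_lit 2432) (nat_lit 0) (XT.nd (nat_lit 78) (nat_lit 988) (nat_lit 0) (XT.lf (nat_lit 0) (nat_lit 14289630735) (nat_lit 836) (nat_lit 17414895473) (nat_lit 912) (nat_lit 765801762) (nat_lit 353) (nat_lit 5) (nat_lit 364) (nat_lit 5) (nat_lit 365) (nat_lit 5) (nat_lit 339) (nat_lit 320) (nat_lit 121)) (XT.nd (nat_lit 78) (nat_lit 0) (nat_lit 0) (XT.lf (nat_lit 0) (nat_lit 3109140511) (nat_lit 988) (nat_lit 27201683130) (nat_lit 76) (nat_lit 2702291131) (nat_lit 340) (nat_lit 5) (nat_lit 353) (nat_lit 5) (nat_lit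 341) (nat_lit 5) (nat_lit 340) (nat_lit 320) (nat_lit 120)) (XT.lf (nat_lit 0) (nat_lit 7326647871) (nat_lit 988) (nat_lit 2923470189) (nat_lit 76) (nat_lit 23317233847) (nat_lit 340) (nat_lit 5) (nat_lit 353) (nat_lit 5) (nat_lit 341) (nat_lit 5) (nat_lit 341) (nat_lit 320) (nat_lit 119)))) (XT.nd (nat_lit 156) (nat_lit 760) (nat_lit 0) (XT.nd (nat_lit 78) (nat_lit 836) (nat_lit 0) (XT.lf (nat_lit 0) (nat_lit 11880807032) (nat_lit 912) (nat_lit 11830871541) (nat_lit 76) (nat_lit 10422337370) (nat_lit 329) (nat_lit 5) (nat_lit 341) (nat_lit 5) (nat_lit 330) (nat_lit 5) (nat_lit 342) (nat_lit 320) (nat_lit 118)) (XT.lf (nat_lit 0) (nat_lit 13717061275) (nat_lit 836) (nat_lit 3028463726) (nat_lit 912) (nat_lit 17968678470) (nat_lit 318) (nat_lit 5) (nat_lit 329) (nat_lit 5) (nat_lit 330) (nat_lit 5) (nat_lit 343) (nat_lit 320) (nat_lit 117))) (XT.nd (nat_lit 38844) (nat_lit 0) (nat_lit 6612) (XT.lf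 (nat_lit 0) (nat_lit 4823790091) (nat_lit 760) (nat_lit 17159538587) (nat_lit 836) (nat_lit 13323927250) (nat_lit 308) (nat_lit 5) (nat_lit 318) (nat_lit 5) (nat_lit 319) (nat_lit 5) (nat_lit 344) (nat_lit 320) (nat_lit 116)) (XT.lf (nat_lit 0) (nat_lit 9970277727) (nat_lit 1748) (nat_lit 1230978820) (nat_lit 1748) (nat_lit 1230978820) (nat_lit 395) (nat_lit 3) (nat_lit 418) (nat_lit 3) (nat_lit 418) (nat_lit 5) (nat_lit 321) (nat_lit 321) (nat_lit 138))))) (XT.nd (nat_lit 234) (nat_lit 0) (nat_lit 152) (XT.nd (nat_lit 78) (nat_lit 0) (nat_lit 76) (XT.lf (nat_lit 76) (nat_lit 14872288360) (nat_lit 0) (nat_lit 5616048882) (nat_lit 1748) (nat_lit 4744021822) (nat_lit 396) (nat_lit 5) (nat_lit 395) (nat_lit 3) (nat_lit 418) (nat_lit 5) (nat_lit 322) (nat_lit 321) (nat_lit 137)) (XT.nd (nat_lit 78) (nat_lit 0) (nat_lit 76) (XT.lf (nat_lit 76) (nat_lit 7164152345) (nat_lit 0) (nat_lit 14021565740) (nat_lit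 1748) (nat_lit 4422906754) (nat_lit 397) (nat_lit 5) (nat_lit 396) (nat_lit 5) (nat_lit 419) (nat_lit 5) (nat_lit 323) (nat_lit 321) (nat_lit 136)) (XT.lf (nat_lit 0) (nat_lit 22027231979) (nat_lit 1672) (nat_lit 700935477) (nat_lit 1748) (nat_lit 3265550888) (nat_lit 397) (nat_lit 5) (nat_lit 419) (nat_lit 5) (nat_lit 420) (nat_lit 5) (nat_lit 324) (nat_lit 321) (nat_lit 135)))) (XT.nd (nat_lit 156) (nat_lit 0) (nat_lit 152) (XT.nd (nat_lit 78) (nat_lit 0) (nat_lit 76) (XT.lf (nat_lit 76) (nat_lit 17710211290) (nat_lit 0) (nat_lit 5386934619) (nat_lit 1748) (nat_lit 3289159525) (nat_lit 398) (nat_lit 5) (nat_lit 397) (nat_lit 5) (nat_lit 420) (nat_lit 5) (nat_lit 325) (nat_lit 321) (nat_lit 134)) (XT.lf (nat_lit 76) (nat_lit 9938759521) (nat_lit 0) (nat_lit 14405258347) (nat_lit 1748) (nat_lit 2443758815) (nat_lit 399) (nat_lit 5) (nat_lit 398) (nat_lit 5) (nat_lit 421) (nat_lit 5) (nat_lit 326)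 (nat_lit 321) (nat_lit 133))) (XT.nd (nat_lit 78) (nat_lit 0) (nat_lit 0) (XT.lf (nat_lit 76) (nat_lit 1995196343) (nat_lit 0) (nat_lit 23757880963) (nat_lit 1748) (nat_lit 1445722788) (nat_lit 400) (nat_lit 5) (nat_lit 399) (nat_lit 5) (nat_lit 422) (nat_lit 5) (nat_lit 327) (nat_lit 321) (nat_lit 132)) (XT.lf (nat_lit 76) (nat_lit 21534461351) (nat_lit 0) (nat_lit 5874663278) (nat_lit 1748) (nat_lit 208938800) (nat_lit 400) (nat_lit 5) (nat_lit 399) (nat_lit 5) (nat_lit 422) (nat_lit 5) (nat_lit 328) (nat_lit 321) (nat_lit 131))))))))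
noncomputable def xc125 : XT := (XT.nd (nat_lit 40950) (nat_lit 0) (nat_lit 1672) (XT.nd (nat_lit 1014) (nat_lit 1672) (nat_lit 0) (XT.nd (nat_lit 468) (nat_lit 2812) (nat_lit 0) (XT.nd (nat_lit 234) (nat_lit 0) (nat_lit 152) (XT.nd (nat_lit 78) (nat_lit 0) (nat_lit 76) (XT.lf (nat_lit 0) (nat_lit 1217509826) (nat_lit 1748) (nat_lit 14349628999) (nat_lit 1824) (nat_lit 12479300362) (nat_lit 377) (nat_lit 5) (nat_lit 400) (nat_lit 5) (nat_lit 401) (nat_lit 5) (nat_lit 329) (nat_lit 321) (nat_lit 130)) (XT.nd (nat_lit 78) (nat_lit 0) (nat_lit 0) (XT.lf (nat_lit 0) (nat_lit 2815630763) (nat_lit 1748) (nat_lit 22806710625) (nat_lit 1824) (nat_lit 2862666133) (nat_lit 378) (nat_lit 5) (nat_lit 401) (nat_lit 5) (nat_lit 402) (nat_lit 5) (nat_lit 330) (nat_lit 321) (nat_lit 129)) (XT.lf (nat_lit 0) (nat_lit 4658904898) (nat_lit 1748) (nat_lit 2539437252) (nat_lit 1824) (nat_lit 21734449744) (nat_lit 378)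 (nat_lit 5) (nat_lit 401) (nat_lit 5) (nat_lit 402) (nat_lit 5) (nat_lit 331) (nat_lit 321) (nat_lit 128)))) (XT.nd (nat_lit 78) (nat_lit 0) (nat_lit 76) (XT.lf (nat_lit 0) (nat_lit 6750729599) (nat_lit 1748) (nat_lit 10892772322) (nat_lit 1824) (nat_lit 11746645916) (nat_lit 379) (nat_lit 5) (nat_lit 402) (nat_lit 5) (nat_lit 403) (nat_lit 5) (nat_lit 332) (nat_lit 321) (nat_lit 127)) (XT.nd (nat_lit 78) (nat_lit 0) (nat_lit 0) (XT.lf (nat_lit 0) (nat_lit 9042963487) (nat_lit 1748) (nat_lit 19443376803) (nat_lit 1824) (nat_lit 1372134076) (nat_lit 380) (nat_lit 5) (nat_lit 403) (nat_lit 5) (nat_lit 404) (nat_lit 5) (nat_lit 333) (nat_lit 321) (nat_lit 126)) (XT.lf (nat_lit 76) (nat_lit 2077321071) (nat_lit 0) (nat_lit 9528025062) (nat_lit 1824) (nat_lit 18731479833) (nat_lit 381) (nat_lit 5) (nat_lit 380) (nat_lit 5) (nat_lit 404) (nat_lit 5) (nat_lit 334) (nat_lit 321) (nat_lit 125))))) (XT.nd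 (nat_lit 234) (nat_lit 3116) (nat_lit 0) (XT.nd (nat_lit 78) (nat_lit 0) (nat_lit 0) (XT.lf (nat_lit 0) (nat_lit 14437863259) (nat_lit 1748) (nat_lit 6386317967) (nat_lit 1824) (nat_lit 10001484453) (nat_lit 381) (nat_lit 5) (nat_lit 404) (nat_lit 5) (nat_lit 405) (nat_lit 5) (nat_lit 335) (nat_lit 321) (nat_lit 124)) (XT.nd (nat_lit 78) (nat_lit 0) (nat_lit 76) (XT.lf (nat_lit 76) (nat_lit 16289672022) (nat_lit 0) (nat_lit 1231005742) (nat_lit 1824) (nat_lit 13805189124) (nat_lit 382) (nat_lit 5) (nat_lit 381) (nat_lit 5) (nat_lit 405) (nat_lit 5) (nat_lit 336) (nat_lit 321) (nat_lit 123)) (XT.lf (nat_lit 76) (nat_lit 7869688435) (nat_lit 0) (nat_lit 13039927079) (nat_lit 1824) (nat_lit 10927188506) (nat_lit 383) (nat_lit 5) (nat_lit 382) (nat_lit 5) (nat_lit 406) (nat_lit 5) (nat_lit 337) (nat_lit 321) (nat_lit 122)))) (XT.nd (nat_lit 156) (nat_lit 1824) (nat_lit 0) (XT.nd (nat_lit 78) (nat_lit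 1444) (nat_lit 0) (XT.lf (nat_lit 0) (nat_lit 24552758146) (nat_lit 1748) (nat_lit 750448939) (nat_lit 76) (nat_lit 7056814032) (nat_lit 383) (nat_lit 5) (nat_lit 406) (nat_lit 5) (nat_lit 384) (nat_lit 5) (nat_lit 338) (nat_lit 321) (nat_lit 121)) (XT.lf (nat_lit 0) (nat_lit 23378846981) (nat_lit 1444) (nat_lit 5161504479) (nat_lit 1520) (nat_lit 4353882648) (nat_lit 364) (nat_lit 5) (nat_lit 383) (nat_lit 5) (nat_lit 384) (nat_lit 5) (nat_lit 339) (nat_lit 321) (nat_lit 120))) (XT.nd (nat_lit 78) (nat_lit 988) (nat_lit 0) (XT.lf (nat_lit 0) (nat_lit 14888659259) (nat_lit 836) (nat_lit 17958139723) (nat_lit 912) (nat_lit 593692415) (nat_lit 353) (nat_lit 5) (nat_lit 364) (nat_lit 5) (nat_lit 365) (nat_lit 5) (nat_lit 340) (nat_lit 321) (nat_lit 119)) (XT.lf (nat_lit 0) (nat_lit 3390321549) (nat_lit 988) (nat_lit 27843527454) (nat_lit 76) (nat_lit 2765783360) (nat_lit 340) (nat_lit 5) (nat_lit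 353) (nat_lit 5) (nat_lit 341) (nat_lit 5) (nat_lit 341) (nat_lit 321) (nat_lit 118)))))) (XT.nd (nat_lit 39390) (nat_lit 0) (nat_lit 4408) (XT.nd (nat_lit 39078) (nat_lit 0) (nat_lit 5852) (XT.nd (nat_lit 78) (nat_lit 1672) (nat_lit 0) (XT.lf (nat_lit 0) (nat_lit 7728881116) (nat_lit 988) (nat_lit 2842042091) (nat_lit 76) (nat_lit 23999686294) (nat_lit 340) (nat_lit 5) (nat_lit 353) (nat_lit 5) (nat_lit 341) (nat_lit 5) (nat_lit 342) (nat_lit 321) (nat_lit 117)) (XT.nd (nat_lit 78) (nat_lit 836) (nat_lit 0) (XT.lf (nat_lit 0) (nat_lit 12415355055) (nat_lit 912) (nat_lit 12015657790) (nat_lit 76) (nat_lit 10723350141) (nat_lit 329) (nat_lit 5) (nat_lit 341) (nat_lit 5) (nat_lit 330) (nat_lit 5) (nat_lit 343) (nat_lit 321) (nat_lit 116)) (XT.lf (nat_lit 0) (nat_lit 14295952693) (nat_lit 836) (nat_lit 3125960538) (nat_lit 912) (nat_lit 18330128168) (nat_lit 318) (nat_lit 5) (nat_lit 329) (nat_lit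 5) (nat_lit 330) (nat_lit 5) (nat_lit 344) (nat_lit 321) (nat_lit 115)))) (XT.nd (nat_lit 156) (nat_lit 0) (nat_lit 76) (XT.nd (nat_lit 78) (nat_lit 0) (nat_lit 0) (XT.lf (nat_lit 0) (nat_lit 10420036554) (nat_lit 1748) (nat_lit 1191024307) (nat_lit 1748) (nat_lit 1191024307) (nat_lit 395) (nat_lit 3) (nat_lit 418) (nat_lit 3) (nat_lit 418) (nat_lit 5) (nat_lit 322) (nat_lit 322) (nat_lit 136)) (XT.lf (nat_lit 76) (nat_lit 15469730067) (nat_lit 0) (nat_lit 5926764690) (nat_lit 1748) (nat_lit 4586762502) (nat_lit 396) (nat_lit 5) (nat_lit 395) (nat_lit 3) (nat_lit 418) (nat_lit 5) (nat_lit 323) (nat_lit 322) (nat_lit 135))) (XT.nd (nat_lit 78) (nat_lit 0) (nat_lit 76) (XT.lf (nat_lit 76) (nat_lit 7534778300) (nat_lit 0) (nat_lit 14571584302) (nat_lit 1748) (nat_lit 4264622991) (nat_lit 397) (nat_lit 5) (nat_lit 396) (nat_lit 5) (nat_lit 419) (nat_lit 5) (nat_lit 324) (nat_lit 322) (nat_lit 134))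 (XT.lf (nat_lit 0) (nat_lit 22964003315) (nat_lit 1672) (nat_lit 564255442) (nat_lit 1748) (nat_lit 3239561242) (nat_lit 397) (nat_lit 5) (nat_lit 419) (nat_lit 5) (nat_lit 420) (nat_lit 5) (nat_lit 325) (nat_lit 322) (nat_lit 133))))) (XT.nd (nat_lit 234) (nat_lit 1596) (nat_lit 0) (XT.nd (nat_lit 78) (nat_lit 0) (nat_lit 76) (XT.lf (nat_lit 76) (nat_lit 18396667101) (nat_lit 0) (nat_lit 5662317388) (nat_lit 1748) (nat_lit 3113346372) (nat_lit 398) (nat_lit 5) (nat_lit 397) (nat_lit 5) (nat_lit 420) (nat_lit 5) (nat_lit 326) (nat_lit 322) (nat_lit 132)) (XT.nd (nat_lit 78) (nat_lit 0) (nat_lit 76) (XT.lf (nat_lit 76) (nat_lit 10395754849) (nat_lit 0) (nat_lit 14939989075) (nat_lit 1748) (nat_lit 2250258094) (nat_lit 399) (nat_lit 5) (nat_lit 398) (nat_lit 5) (nat_lit 421) (nat_lit 5) (nat_lit 327) (nat_lit 322) (nat_lit 131)) (XT.lf (nat_lit 76) (nat_lit 2217283301) (nat_lit 0) (nat_lit 24562584828)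 (nat_lit 1748) (nat_lit 1229637381) (nat_lit 400) (nat_lit 5) (nat_lit 399) (nat_lit 5) (nat_lit 422) (nat_lit 5) (nat_lit 328) (nat_lit 322) (nat_lit 130)))) (XT.nd (nat_lit 156) (nat_lit 0) (nat_lit 152) (XT.nd (nat_lit 78) (nat_lit 0) (nat_lit 76) (XT.lf (nat_lit 0) (nat_lit 36211887) (nat_lit 1748) (nat_lit 6103737062) (nat_lit 1824) (nat_lit 22301546195) (nat_lit 376) (nat_lit 5) (nat_lit 399) (nat_lit 5) (nat_lit 400) (nat_lit 5) (nat_lit 329) (nat_lit 322) (nat_lit 129)) (XT.lf (nat_lit 0) (nat_lit 1495873517) (nat_lit 1748) (nat_lit 14616199142) (nat_lit 1824) (nat_lit 12770761570) (nat_lit 377) (nat_lit 5) (nat_lit 400) (nat_lit 5) (nat_lit 401) (nat_lit 5) (nat_lit 330) (nat_lit 322) (nat_lit 128))) (XT.nd (nat_lit 78) (nat_lit 0) (nat_lit 0) (XT.lf (nat_lit 0) (nat_lit 3135457011) (nat_lit 1748) (nat_lit 23324294870) (nat_lit 1824) (nat_lit 2874942055) (nat_lit 378) (nat_lit 5) (nat_lit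 401) (nat_lit 5) (nat_lit 402) (nat_lit 5) (nat_lit 331) (nat_lit 322) (nat_lit 127)) (XT.lf (nat_lit 0) (nat_lit 5027174301) (nat_lit 1748) (nat_lit 2453856220) (nat_lit 1824) (nat_lit 22315022981) (nat_lit 378) (nat_lit 5) (nat_lit 401) (nat_lit 5) (nat_lit 402) (nat_lit 5) (nat_lit 332) (nat_lit 322) (nat_lit 126))))))) (XT.nd (nat_lit 40092) (nat_lit 0) (nat_lit 2736) (XT.nd (nat_lit 546) (nat_lit 2964) (nat_lit 0) (XT.nd (nat_lit 234) (nat_lit 0) (nat_lit 152) (XT.nd (nat_lit 78) (nat_lit 0) (nat_lit 76) (XT.lf (nat_lit 0) (nat_lit 7175717734) (nat_lit 1748) (nat_lit 11055396654) (nat_lit 1824) (nat_lit 12036140886) (nat_lit 379) (nat_lit 5) (nat_lit 402) (nat_lit 5) (nat_lit 403) (nat_lit 5) (nat_lit 333) (nat_lit 322) (nat_lit 125)) (XT.nd (nat_lit 78) (nat_lit 0) (nat_lit 0) (XT.lf (nat_lit 0) (nat_lit 9530926975) (nat_lit 1748) (nat_lit 19860337877) (nat_lit 1824) (nat_lit 1358486882)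 (nat_lit 380) (nat_lit 5) (nat_lit 403) (nat_lit 5) (nat_lit 404) (nat_lit 5) (nat_lit 334) (nat_lit 322) (nat_lit 124)) (XT.lf (nat_lit 76) (nat_lit 2303282260) (nat_lit 0) (nat_lit 9861650400) (nat_lit 1824) (nat_lit 19077630367) (nat_lit 381) (nat_lit 5) (nat_lit 380) (nat_lit 5) (nat_lit 404) (nat_lit 5) (nat_lit 335) (nat_lit 322) (nat_lit 123)))) (XT.nd (nat_lit 156) (nat_lit 0) (nat_lit 76) (XT.nd (nat_lit 78) (nat_lit 0) (nat_lit 0) (XT.lf (nat_lit 0) (nat_lit 15075966044) (nat_lit 1748) (nat_lit 6414490491) (nat_lit 1824) (nat_lit 10255744635) (nat_lit 381) (nat_lit 5) (nat_lit 404) (nat_lit 5) (nat_lit 405) (nat_lit 5) (nat_lit 336) (nat_lit 322) (nat_lit 122)) (XT.lf (nat_lit 76) (nat_lit 16939127949) (nat_lit 0) (nat_lit 1307210923) (nat_lit 1824) (nat_lit 14015172002) (nat_lit 382) (nat_lit 5) (nat_lit 381) (nat_lit 5) (nat_lit 405) (nat_lit 5) (nat_lit 337) (nat_lit 322) (nat_lit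 121))) (XT.nd (nat_lit 78) (nat_lit 0) (nat_lit 76) (XT.lf (nat_lit 76) (nat_lit 8268252468) (nat_lit 0) (nat_lit 13463673171) (nat_lit 1824) (nat_lit 11055954686) (nat_lit 383) (nat_lit 5) (nat_lit 382) (nat_lit 5) (nat_lit 406) (nat_lit 5) (nat_lit 338) (nat_lit 322) (nat_lit 120)) (XT.lf (nat_lit 0) (nat_lit 25478477136) (nat_lit 1748) (nat_lit 611105591) (nat_lit 76) (nat_lit 7237332625) (nat_lit 383) (nat_lit 5) (nat_lit 406) (nat_lit 5) (nat_lit 384) (nat_lit 5) (nat_lit 339) (nat_lit 322) (nat_lit 119))))) (XT.nd (nat_lit 234) (nat_lit 0) (nat_lit 0) (XT.nd (nat_lit 78) (nat_lit 1824) (nat_lit 0) (XT.lf (nat_lit 0) (nat_lit 24239443272) (nat_lit 1444) (nat_lit 5341779988) (nat_lit 1520) (nat_lit 4296024576) (nat_lit 364) (nat_lit 5) (nat_lit 383) (nat_lit 5) (nat_lit 384) (nat_lit 5) (nat_lit 340) (nat_lit 322) (nat_lit 118)) (XT.nd (nat_lit 78) (nat_lit 988) (nat_lit 0) (XT.lf (nat_lit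 0) (nat_lit 15495880449) (nat_lit 836) (nat_lit 18516487444) (nat_lit 912) (nat_lit 427618373) (nat_lit 353) (nat_lit 5) (nat_lit 364) (nat_lit 5) (nat_lit 365) (nat_lit 5) (nat_lit 341) (nat_lit 322) (nat_lit 117)) (XT.lf (nat_lit 0) (nat_lit 3669151398) (nat_lit 988) (nat_lit 28514627254) (nat_lit 76) (nat_lit 2832189318) (nat_lit 340) (nat_lit 5) (nat_lit 353) (nat_lit 5) (nat_lit 341) (nat_lit 5) (nat_lit 342) (nat_lit 322) (nat_lit 116)))) (XT.nd (nat_lit 39156) (nat_lit 0) (nat_lit 4180) (XT.nd (nat_lit 39078) (nat_lit 0) (nat_lit 4180) (XT.lf (nat_lit 0) (nat_lit 8132708911) (nat_lit 988) (nat_lit 2767880030) (nat_lit 76) (nat_lit 24703591890) (nat_lit 340) (nat_lit 5) (nat_lit 353) (nat_lit 5) (nat_lit 341) (nat_lit 5) (nat_lit 343) (nat_lit 322) (nat_lit 115)) (XT.lf (nat_lit 0) (nat_lit 10874640191) (nat_lit 1748) (nat_lit 1154284607) (nat_lit 1748) (nat_lit 1154284607) (nat_lit 395)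 (nat_lit 3) (nat_lit 418) (nat_lit 3) (nat_lit 418) (nat_lit 5) (nat_lit 323) (nat_lit 323) (nat_lit 134))) (XT.nd (nat_lit 78) (nat_lit 0) (nat_lit 76) (XT.lf (nat_lit 76) (nat_lit 16076411334) (nat_lit 0) (nat_lit 6238637140) (nat_lit 1748) (nat_lit 4441982519) (nat_lit 396) (nat_lit 5) (nat_lit 395) (nat_lit 3) (nat_lit 418) (nat_lit 5) (nat_lit 324) (nat_lit 323) (nat_lit 133)) (XT.lf (nat_lit 76) (nat_lit 7907585137) (nat_lit 0) (nat_lit 15130676962) (nat_lit 1748) (nat_lit 4118293639) (nat_lit 397) (nat_lit 5) (nat_lit 396) (nat_lit 5) (nat_lit 419) (nat_lit 5) (nat_lit 325) (nat_lit 323) (nat_lit 132)))))) (XT.nd (nat_lit 546) (nat_lit 0) (nat_lit 152) (XT.nd (nat_lit 234) (nat_lit 1596) (nat_lit 0) (XT.nd (nat_lit 78) (nat_lit 0) (nat_lit 0) (XT.lf (nat_lit 0) (nat_lit 23913036880) (nat_lit 1672) (nat_lit 432528096) (nat_lit 1748) (nat_lit 3219907498) (nat_lit 397) (nat_lit 5) (nat_lit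 419) (nat_lit 5) (nat_lit 420) (nat_lit 5) (nat_lit 326) (nat_lit 323) (nat_lit 131)) (XT.nd (nat_lit 78) (nat_lit 0) (nat_lit 76) (XT.lf (nat_lit 76) (nat_lit 19094810372) (nat_lit 0) (nat_lit 5939430506) (nat_lit 1748) (nat_lit 2948015556) (nat_lit 398) (nat_lit 5) (nat_lit 397) (nat_lit 5) (nat_lit 420) (nat_lit 5) (nat_lit 327) (nat_lit 323) (nat_lit 130)) (XT.lf (nat_lit 76) (nat_lit 10857342400) (nat_lit 0) (nat_lit 15484873617) (nat_lit 1748) (nat_lit 2066268537) (nat_lit 399) (nat_lit 5) (nat_lit 398) (nat_lit 5) (nat_lit 421) (nat_lit 5) (nat_lit 328) (nat_lit 323) (nat_lit 129)))) (XT.nd (nat_lit 156) (nat_lit 0) (nat_lit 76) (XT.nd (nat_lit 78) (nat_lit 1748) (nat_lit 0) (XT.lf (nat_lit 76) (nat_lit 2436720141) (nat_lit 0) (nat_lit 25386150503) (nat_lit 1748) (nat_lit 1021963310) (nat_lit 400) (nat_lit 5) (nat_lit 399) (nat_lit 5) (nat_lit 422) (nat_lit 5) (nat_lit 329) (nat_lit 323)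 (nat_lit 128)) (XT.lf (nat_lit 0) (nat_lit 271624168) (nat_lit 1748) (nat_lit 6135114031) (nat_lit 1824) (nat_lit 22883158614) (nat_lit 376) (nat_lit 5) (nat_lit 399) (nat_lit 5) (nat_lit 400) (nat_lit 5) (nat_lit 330) (nat_lit 323) (nat_lit 127))) (XT.nd (nat_lit 78) (nat_lit 0) (nat_lit 76) (XT.lf (nat_lit 0) (nat_lit 1768705605) (nat_lit 1748) (nat_lit 14900175995) (nat_lit 1824) (nat_lit 13075726436) (nat_lit 377) (nat_lit 5) (nat_lit 400) (nat_lit 5) (nat_lit 401) (nat_lit 5) (nat_lit 331) (nat_lit 323) (nat_lit 126)) (XT.lf (nat_lit 0) (nat_lit 3451367572) (nat_lit 1748) (nat_lit 23866971143) (nat_lit 1824) (nat_lit 2891811428) (nat_lit 378) (nat_lit 5) (nat_lit 401) (nat_lit 5) (nat_lit 402) (nat_lit 5) (nat_lit 332) (nat_lit 323) (nat_lit 125))))) (XT.nd (nat_lit 234) (nat_lit 0) (nat_lit 152) (XT.nd (nat_lit 78) (nat_lit 0) (nat_lit 76) (XT.lf (nat_lit 0) (nat_lit 5393374823) (nat_lit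 1748) (nat_lit 2374993681) (nat_lit 1824) (nat_lit 22917115527) (nat_lit 378) (nat_lit 5) (nat_lit 401) (nat_lit 5) (nat_lit 402) (nat_lit 5) (nat_lit 333) (nat_lit 323) (nat_lit 124)) (XT.nd (nat_lit 78) (nat_lit 0) (nat_lit 76) (XT.lf (nat_lit 0) (nat_lit 7600685040) (nat_lit 1748) (nat_lit 11232323106) (nat_lit 1824) (nat_lit 12337931676) (nat_lit 379) (nat_lit 5) (nat_lit 402) (nat_lit 5) (nat_lit 403) (nat_lit 5) (nat_lit 334) (nat_lit 323) (nat_lit 123)) (XT.lf (nat_lit 0) (nat_lit 10021091361) (nat_lit 1748) (nat_lit 20299356393) (nat_lit 1824) (nat_lit 1347576660) (nat_lit 380) (nat_lit 5) (nat_lit 403) (nat_lit 5) (nat_lit 404) (nat_lit 5) (nat_lit 335) (nat_lit 323) (nat_lit 122)))) (XT.nd (nat_lit 156) (nat_lit 0) (nat_lit 76) (XT.nd (nat_lit 78) (nat_lit 0) (nat_lit 76) (XT.lf (nat_lit 76) (nat_lit 2526628591) (nat_lit 0) (nat_lit 10202541467) (nat_lit 1824) (nat_lit 19446552867) (nat_lit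 381) (nat_lit 5) (nat_lit 380) (nat_lit 5) (nat_lit 404) (nat_lit 5) (nat_lit 336) (nat_lit 323) (nat_lit 121)) (XT.lf (nat_lit 0) (nat_lit 15721445975) (nat_lit 1748) (nat_lit 6452888997) (nat_lit 1824) (nat_lit 10520260831) (nat_lit 381) (nat_lit 5) (nat_lit 404) (nat_lit 5) (nat_lit 405) (nat_lit 5) (nat_lit 337) (nat_lit 323) (nat_lit 120))) (XT.nd (nat_lit 78) (nat_lit 0) (nat_lit 76) (XT.lf (nat_lit 76) (nat_lit 17598838942) (nat_lit 0) (nat_lit 1383447714) (nat_lit 1824) (nat_lit 14243174719) (nat_lit 382) (nat_lit 5) (nat_lit 381) (nat_lit 5) (nat_lit 405) (nat_lit 5) (nat_lit 338) (nat_lit 323) (nat_lit 119)) (XT.lf (nat_lit 76) (nat_lit 8669446784) (nat_lit 0) (nat_lit 13898263240) (nat_lit 1824) (nat_lit 11200010106) (nat_lit 383) (nat_lit 5) (nat_lit 382) (nat_lit 5) (nat_lit 406) (nat_lit 5) (nat_lit 339) (nat_lit 323) (nat_lit 118))))))))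
noncomputable def xc126 : XT := (XT.nd (nat_lit 80496) (nat_lit 0) (nat_lit 1748) (XT.nd (nat_lit 40170) (nat_lit 0) (nat_lit 836) (XT.nd (nat_lit 39624) (nat_lit 0) (nat_lit 1748) (XT.nd (nat_lit 39390) (nat_lit 0) (nat_lit 3192) (XT.nd (nat_lit 78) (nat_lit 2280) (nat_lit 0) (XT.lf (nat_lit 0) (nat_lit 26421110502) (nat_lit 1748) (nat_lit 476873186) (nat_lit 76) (nat_lit 7425056971) (nat_lit 383) (nat_lit 5) (nat_lit 406) (nat_lit 5) (nat_lit 384) (nat_lit 5) (nat_lit 340) (nat_lit 323) (nat_lit 117)) (XT.nd (nat_lit 78) (nat_lit 836) (nat_lit 0) (XT.lf (nat_lit 0) (nat_lit 25116716947) (nat_lit 1444) (nat_lit 5526003954) (nat_lit 1520) (nat_lit 4247249972) (nat_lit 364) (nat_lit 5) (nat_lit 383) (nat_lit 5) (nat_lit 384) (nat_lit 5) (nat_lit 341) (nat_lit 323) (nat_lit 116)) (XT.lf (nat_lit 0) (nat_lit 16112101392) (nat_lit 836) (nat_lit 19090460275) (nat_lit 912) (nat_lit 267117851) (nat_lit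 353) (nat_lit 5) (nat_lit 364) (nat_lit 5) (nat_lit 365) (nat_lit 5) (nat_lit 342) (nat_lit 323) (nat_lit 115)))) (XT.nd (nat_lit 78) (nat_lit 0) (nat_lit 0) (XT.lf (nat_lit 0) (nat_lit 11334730411) (nat_lit 1748) (nat_lit 1120602816) (nat_lit 1748) (nat_lit 1120602816) (nat_lit 395) (nat_lit 3) (nat_lit 418) (nat_lit 3) (nat_lit 418) (nat_lit 5) (nat_lit 324) (nat_lit 324) (nat_lit 132)) (XT.nd (nat_lit 78) (nat_lit 0) (nat_lit 76) (XT.lf (nat_lit 76) (nat_lit 16693107825) (nat_lit 0) (nat_lit 6552169625) (nat_lit 1748) (nat_lit 4309069067) (nat_lit 396) (nat_lit 5) (nat_lit 395) (nat_lit 3) (nat_lit 418) (nat_lit 5) (nat_lit 325) (nat_lit 324) (nat_lit 131)) (XT.lf (nat_lit 76) (nat_lit 8283151354) (nat_lit 0) (nat_lit 15699542253) (nat_lit 1748) (nat_lit 3983318514) (nat_lit 397) (nat_lit 5) (nat_lit 396) (nat_lit 5) (nat_lit 419) (nat_lit 5) (nat_lit 326) (nat_lit 324) (nat_lit 130))))) (XT.nd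 (nat_lit 234) (nat_lit 1596) (nat_lit 0) (XT.nd (nat_lit 78) (nat_lit 0) (nat_lit 0) (XT.lf (nat_lit 0) (nat_lit 24875609876) (nat_lit 1672) (nat_lit 305382336) (nat_lit 1748) (nat_lit 3206371269) (nat_lit 397) (nat_lit 5) (nat_lit 419) (nat_lit 5) (nat_lit 420) (nat_lit 5) (nat_lit 327) (nat_lit 324) (nat_lit 129)) (XT.nd (nat_lit 78) (nat_lit 0) (nat_lit 76) (XT.lf (nat_lit 76) (nat_lit 19805502980) (nat_lit 0) (nat_lit 6218700796) (nat_lit 1748) (nat_lit 2792577045) (nat_lit 398) (nat_lit 5) (nat_lit 397) (nat_lit 5) (nat_lit 420) (nat_lit 5) (nat_lit 328) (nat_lit 324) (nat_lit 128)) (XT.lf (nat_lit 76) (nat_lit 11324183329) (nat_lit 0) (nat_lit 16040554587) (nat_lit 1748) (nat_lit 1891196266) (nat_lit 399) (nat_lit 5) (nat_lit 398) (nat_lit 5) (nat_lit 421) (nat_lit 5) (nat_lit 329) (nat_lit 324) (nat_lit 127)))) (XT.nd (nat_lit 156) (nat_lit 0) (nat_lit 76) (XT.nd (nat_lit 78) (nat_lit 1748)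 (nat_lit 0) (XT.lf (nat_lit 76) (nat_lit 2653961949) (nat_lit 0) (nat_lit 26229446894) (nat_lit 1748) (nat_lit 822097944) (nat_lit 400) (nat_lit 5) (nat_lit 399) (nat_lit 5) (nat_lit 422) (nat_lit 5) (nat_lit 330) (nat_lit 324) (nat_lit 126)) (XT.lf (nat_lit 0) (nat_lit 500647551) (nat_lit 1748) (nat_lit 6176142527) (nat_lit 1824) (nat_lit 23487238474) (nat_lit 376) (nat_lit 5) (nat_lit 399) (nat_lit 5) (nat_lit 400) (nat_lit 5) (nat_lit 331) (nat_lit 324) (nat_lit 125))) (XT.nd (nat_lit 78) (nat_lit 0) (nat_lit 76) (XT.lf (nat_lit 0) (nat_lit 2036637056) (nat_lit 1748) (nat_lit 15201541609) (nat_lit 1824) (nat_lit 13394326836) (nat_lit 377) (nat_lit 5) (nat_lit 400) (nat_lit 5) (nat_lit 401) (nat_lit 5) (nat_lit 332) (nat_lit 324) (nat_lit 124)) (XT.lf (nat_lit 0) (nat_lit 3764020534) (nat_lit 1748) (nat_lit 24434943166) (nat_lit 1824) (nat_lit 2913169515) (nat_lit 378) (nat_lit 5) (nat_lit 401)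 (nat_lit 5) (nat_lit 402) (nat_lit 5) (nat_lit 333) (nat_lit 324) (nat_lit 123)))))) (XT.nd (nat_lit 546) (nat_lit 1064) (nat_lit 0) (XT.nd (nat_lit 234) (nat_lit 0) (nat_lit 152) (XT.nd (nat_lit 78) (nat_lit 0) (nat_lit 76) (XT.lf (nat_lit 0) (nat_lit 5758197363) (nat_lit 1748) (nat_lit 2302518140) (nat_lit 1824) (nat_lit 23541137482) (nat_lit 378) (nat_lit 5) (nat_lit 401) (nat_lit 5) (nat_lit 402) (nat_lit 5) (nat_lit 334) (nat_lit 324) (nat_lit 122)) (XT.nd (nat_lit 78) (nat_lit 0) (nat_lit 76) (XT.lf (nat_lit 0) (nat_lit 8026363970) (nat_lit 1748) (nat_lit 11423439798) (nat_lit 1824) (nat_lit 12652179876) (nat_lit 379) (nat_lit 5) (nat_lit 402) (nat_lit 5) (nat_lit 403) (nat_lit 5) (nat_lit 335) (nat_lit 324) (nat_lit 121)) (XT.lf (nat_lit 0) (nat_lit 10514236663) (nat_lit 1748) (nat_lit 20760545945) (nat_lit 1824) (nat_lit 1339304904) (nat_lit 380) (nat_lit 5) (nat_lit 403) (nat_lit 5) (nat_lit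 404) (nat_lit 5) (nat_lit 336) (nat_lit 324) (nat_lit 120)))) (XT.nd (nat_lit 156) (nat_lit 0) (nat_lit 76) (XT.nd (nat_lit 78) (nat_lit 0) (nat_lit 76) (XT.lf (nat_lit 76) (nat_lit 2747820852) (nat_lit 0) (nat_lit 10551073696) (nat_lit 1824) (nat_lit 19838219403) (nat_lit 381) (nat_lit 5) (nat_lit 380) (nat_lit 5) (nat_lit 404) (nat_lit 5) (nat_lit 337) (nat_lit 324) (nat_lit 119)) (XT.lf (nat_lit 0) (nat_lit 16375199779) (nat_lit 1748) (nat_lit 6501281767) (nat_lit 1824) (nat_lit 10795189852) (nat_lit 381) (nat_lit 5) (nat_lit 404) (nat_lit 5) (nat_lit 405) (nat_lit 5) (nat_lit 338) (nat_lit 324) (nat_lit 118))) (XT.nd (nat_lit 78) (nat_lit 0) (nat_lit 76) (XT.lf (nat_lit 76) (nat_lit 18269642413) (nat_lit 0) (nat_lit 1459846481) (nat_lit 1824) (nat_lit 14489065076) (nat_lit 382) (nat_lit 5) (nat_lit 381) (nat_lit 5) (nat_lit 405) (nat_lit 5) (nat_lit 339) (nat_lit 324) (nat_lit 117)) (XT.lf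 (nat_lit 76) (nat_lit 9073885681) (nat_lit 0) (nat_lit 14344129862) (nat_lit 1824) (nat_lit 11359157529) (nat_lit 383) (nat_lit 5) (nat_lit 382) (nat_lit 5) (nat_lit 406) (nat_lit 5) (nat_lit 340) (nat_lit 324) (nat_lit 116))))) (XT.nd (nat_lit 39468) (nat_lit 0) (nat_lit 2356) (XT.nd (nat_lit 78) (nat_lit 1444) (nat_lit 0) (XT.lf (nat_lit 0) (nat_lit 27381788921) (nat_lit 1748) (nat_lit 347371697) (nat_lit 76) (nat_lit 7620100476) (nat_lit 383) (nat_lit 5) (nat_lit 406) (nat_lit 5) (nat_lit 384) (nat_lit 5) (nat_lit 341) (nat_lit 324) (nat_lit 115)) (XT.nd (nat_lit 39312) (nat_lit 0) (nat_lit 2356) (XT.lf (nat_lit 0) (nat_lit 26011693032) (nat_lit 1444) (nat_lit 5714378630) (nat_lit 1520) (nat_lit 4207210273) (nat_lit 364) (nat_lit 5) (nat_lit 383) (nat_lit 5) (nat_lit 384) (nat_lit 5) (nat_lit 342) (nat_lit 324) (nat_lit 114)) (XT.lf (nat_lit 0) (nat_lit 11800939741) (nat_lit 1748) (nat_lit 1089831863)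 (nat_lit 1748) (nat_lit 1089831863) (nat_lit 395) (nat_lit 3) (nat_lit 418) (nat_lit 3) (nat_lit 418) (nat_lit 5) (nat_lit 325) (nat_lit 325) (nat_lit 130)))) (XT.nd (nat_lit 156) (nat_lit 0) (nat_lit 152) (XT.nd (nat_lit 78) (nat_lit 0) (nat_lit 76) (XT.lf (nat_lit 76) (nat_lit 17320589863) (nat_lit 0) (nat_lit 6867853736) (nat_lit 1748) (nat_lit 4187447626) (nat_lit 396) (nat_lit 5) (nat_lit 395) (nat_lit 3) (nat_lit 418) (nat_lit 5) (nat_lit 326) (nat_lit 325) (nat_lit 129)) (XT.lf (nat_lit 76) (nat_lit 8662043353) (nat_lit 0) (nat_lit 16278875190) (nat_lit 1748) (nat_lit 3859134466) (nat_lit 397) (nat_lit 5) (nat_lit 396) (nat_lit 5) (nat_lit 419) (nat_lit 5) (nat_lit 327) (nat_lit 325) (nat_lit 128))) (XT.nd (nat_lit 78) (nat_lit 0) (nat_lit 0) (XT.lf (nat_lit 0) (nat_lit 25852985618) (nat_lit 1672) (nat_lit 182465756) (nat_lit 1748) (nat_lit 3198751063) (nat_lit 397) (nat_lit 5) (nat_lit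 419) (nat_lit 5) (nat_lit 420) (nat_lit 5) (nat_lit 328) (nat_lit 325) (nat_lit 127)) (XT.lf (nat_lit 76) (nat_lit 20529603310) (nat_lit 0) (nat_lit 6500546366) (nat_lit 1748) (nat_lit 2646475029) (nat_lit 398) (nat_lit 5) (nat_lit 397) (nat_lit 5) (nat_lit 420) (nat_lit 5) (nat_lit 329) (nat_lit 325) (nat_lit 126))))))) (XT.nd (nat_lit 40482) (nat_lit 0) (nat_lit 0) (XT.nd (nat_lit 546) (nat_lit 0) (nat_lit 304) (XT.nd (nat_lit 234) (nat_lit 0) (nat_lit 76) (XT.nd (nat_lit 78) (nat_lit 1672) (nat_lit 0) (XT.lf (nat_lit 76) (nat_lit 11796928583) (nat_lit 0) (nat_lit 16607674479) (nat_lit 1748) (nat_lit 1724480061) (nat_lit 399) (nat_lit 5) (nat_lit 398) (nat_lit 5) (nat_lit 421) (nat_lit 5) (nat_lit 330) (nat_lit 325) (nat_lit 125)) (XT.nd (nat_lit 78) (nat_lit 1748) (nat_lit 0) (XT.lf (nat_lit 76) (nat_lit 2869446772) (nat_lit 0) (nat_lit 27093351581) (nat_lit 1748) (nat_lit 629469653) (nat_lit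 400) (nat_lit 5) (nat_lit 399) (nat_lit 5) (nat_lit 422) (nat_lit 5) (nat_lit 331) (nat_lit 325) (nat_lit 124)) (XT.lf (nat_lit 0) (nat_lit 723862527) (nat_lit 1748) (nat_lit 6226612095) (nat_lit 1824) (nat_lit 24114171682) (nat_lit 376) (nat_lit 5) (nat_lit 399) (nat_lit 5) (nat_lit 400) (nat_lit 5) (nat_lit 332) (nat_lit 325) (nat_lit 123)))) (XT.nd (nat_lit 156) (nat_lit 0) (nat_lit 76) (XT.nd (nat_lit 78) (nat_lit 0) (nat_lit 76) (XT.lf (nat_lit 0) (nat_lit 2300272017) (nat_lit 1748) (nat_lit 15520308505) (nat_lit 1824) (nat_lit 13726714287) (nat_lit 377) (nat_lit 5) (nat_lit 400) (nat_lit 5) (nat_lit 401) (nat_lit 5) (nat_lit 333) (nat_lit 325) (nat_lit 122)) (XT.lf (nat_lit 0) (nat_lit 4074049204) (nat_lit 1748) (nat_lit 25028452284) (nat_lit 1824) (nat_lit 2938922357) (nat_lit 378) (nat_lit 5) (nat_lit 401) (nat_lit 5) (nat_lit 402) (nat_lit 5) (nat_lit 334) (nat_lit 325) (nat_lit 121)))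 (XT.nd (nat_lit 78) (nat_lit 0) (nat_lit 76) (XT.lf (nat_lit 0) (nat_lit 6122310326) (nat_lit 1748) (nat_lit 2236118755) (nat_lit 1824) (nat_lit 24187524769) (nat_lit 378) (nat_lit 5) (nat_lit 401) (nat_lit 5) (nat_lit 402) (nat_lit 5) (nat_lit 335) (nat_lit 325) (nat_lit 120)) (XT.lf (nat_lit 0) (nat_lit 8453466869) (nat_lit 1748) (nat_lit 11628662551) (nat_lit 1824) (nat_lit 12979063821) (nat_lit 379) (nat_lit 5) (nat_lit 402) (nat_lit 5) (nat_lit 403) (nat_lit 5) (nat_lit 336) (nat_lit 325) (nat_lit 119))))) (XT.nd (nat_lit 234) (nat_lit 0) (nat_lit 76) (XT.nd (nat_lit 78) (nat_lit 0) (nat_lit 0) (XT.lf (nat_lit 0) (nat_lit 11011125315) (nat_lit 1748) (nat_lit 21244055000) (nat_lit 1824) (nat_lit 1333580520) (nat_lit 380) (nat_lit 5) (nat_lit 403) (nat_lit 5) (nat_lit 404) (nat_lit 5) (nat_lit 337) (nat_lit 325) (nat_lit 118)) (XT.nd (nat_lit 78) (nat_lit 0) (nat_lit 76) (XT.lf (nat_lit 76)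 (nat_lit 2967302706) (nat_lit 0) (nat_lit 10907624745) (nat_lit 1824) (nat_lit 20252642023) (nat_lit 381) (nat_lit 5) (nat_lit 380) (nat_lit 5) (nat_lit 404) (nat_lit 5) (nat_lit 338) (nat_lit 325) (nat_lit 117)) (XT.lf (nat_lit 0) (nat_lit 17038112313) (nat_lit 1748) (nat_lit 6559461043) (nat_lit 1824) (nat_lit 11080701874) (nat_lit 381) (nat_lit 5) (nat_lit 404) (nat_lit 5) (nat_lit 405) (nat_lit 5) (nat_lit 339) (nat_lit 325) (nat_lit 116)))) (XT.nd (nat_lit 39546) (nat_lit 0) (nat_lit 1064) (XT.nd (nat_lit 78) (nat_lit 0) (nat_lit 76) (XT.lf (nat_lit 76) (nat_lit 18952370484) (nat_lit 0) (nat_lit 1536534077) (nat_lit 1824) (nat_lit 14752745526) (nat_lit 382) (nat_lit 5) (nat_lit 381) (nat_lit 5) (nat_lit 405) (nat_lit 5) (nat_lit 340) (nat_lit 325) (nat_lit 115)) (XT.lf (nat_lit 76) (nat_lit 9482171149) (nat_lit 0) (nat_lit 14801712429) (nat_lit 1824) (nat_lit 11533231454) (nat_lit 383) (nat_lit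 5) (nat_lit 382) (nat_lit 5) (nat_lit 406) (nat_lit 5) (nat_lit 341) (nat_lit 325) (nat_lit 114))) (XT.nd (nat_lit 78) (nat_lit 0) (nat_lit 0) (XT.lf (nat_lit 0) (nat_lit 12273892825) (nat_lit 1748) (nat_lit 1061833975) (nat_lit 1748) (nat_lit 1061833975) (nat_lit 395) (nat_lit 3) (nat_lit 418) (nat_lit 3) (nat_lit 418) (nat_lit 5) (nat_lit 326) (nat_lit 326) (nat_lit 128)) (XT.lf (nat_lit 76) (nat_lit 17959623907) (nat_lit 0) (nat_lit 7186170451) (nat_lit 1748) (nat_lit 4076579856) (nat_lit 396) (nat_lit 5) (nat_lit 395) (nat_lit 3) (nat_lit 418) (nat_lit 5) (nat_lit 327) (nat_lit 326) (nat_lit 127)))))) (XT.nd (nat_lit 546) (nat_lit 0) (nat_lit 152) (XT.nd (nat_lit 234) (nat_lit 1520) (nat_lit 0) (XT.nd (nat_lit 78) (nat_lit 0) (nat_lit 76) (XT.lf (nat_lit 76) (nat_lit 9044816764) (nat_lit 0) (nat_lit 16869368573) (nat_lit 1748) (nat_lit 3745213333) (nat_lit 397) (nat_lit 5) (nat_lit 396) (nat_lit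 5) (nat_lit 419) (nat_lit 5) (nat_lit 328) (nat_lit 326) (nat_lit 126)) (XT.nd (nat_lit 78) (nat_lit 0) (nat_lit 0) (XT.lf (nat_lit 0) (nat_lit 26846416120) (nat_lit 1672) (nat_lit 63443499) (nat_lit 1748) (nat_lit 3196861448) (nat_lit 397) (nat_lit 5) (nat_lit 419) (nat_lit 5) (nat_lit 420) (nat_lit 5) (nat_lit 329) (nat_lit 326) (nat_lit 125)) (XT.lf (nat_lit 76) (nat_lit 21267967836) (nat_lit 0) (nat_lit 6785377581) (nat_lit 1748) (nat_lit 2509185967) (nat_lit 398) (nat_lit 5) (nat_lit 397) (nat_lit 5) (nat_lit 420) (nat_lit 5) (nat_lit 330) (nat_lit 326) (nat_lit 124)))) (XT.nd (nat_lit 156) (nat_lit 1672) (nat_lit 0) (XT.nd (nat_lit 78) (nat_lit 0) (nat_lit 76) (XT.lf (nat_lit 76) (nat_lit 12276220316) (nat_lit 0) (nat_lit 17186876769) (nat_lit 1748) (nat_lit 1565589433) (nat_lit 399) (nat_lit 5) (nat_lit 398) (nat_lit 5) (nat_lit 421) (nat_lit 5) (nat_lit 331) (nat_lit 326) (nat_lit 123))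 (XT.lf (nat_lit 76) (nat_lit 3083596879) (nat_lit 0) (nat_lit 27978752072) (nat_lit 1748) (nat_lit 443535919) (nat_lit 400) (nat_lit 5) (nat_lit 399) (nat_lit 5) (nat_lit 422) (nat_lit 5) (nat_lit 332) (nat_lit 326) (nat_lit 122))) (XT.nd (nat_lit 78) (nat_lit 0) (nat_lit 76) (XT.lf (nat_lit 0) (nat_lit 941822675) (nat_lit 1748) (nat_lit 6286334664) (nat_lit 1824) (nat_lit 24764372262) (nat_lit 376) (nat_lit 5) (nat_lit 399) (nat_lit 5) (nat_lit 400) (nat_lit 5) (nat_lit 333) (nat_lit 326) (nat_lit 121)) (XT.lf (nat_lit 0) (nat_lit 2560189640) (nat_lit 1748) (nat_lit 15856518803) (nat_lit 1824) (nat_lit 14073059637) (nat_lit 377) (nat_lit 5) (nat_lit 400) (nat_lit 5) (nat_lit 401) (nat_lit 5) (nat_lit 334) (nat_lit 326) (nat_lit 120))))) (XT.nd (nat_lit 234) (nat_lit 0) (nat_lit 152) (XT.nd (nat_lit 78) (nat_lit 0) (nat_lit 0) (XT.lf (nat_lit 0) (nat_lit 4382063925) (nat_lit 1748) (nat_lit 25647776796)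 (nat_lit 1824) (nat_lit 2968986301) (nat_lit 378) (nat_lit 5) (nat_lit 401) (nat_lit 5) (nat_lit 402) (nat_lit 5) (nat_lit 335) (nat_lit 326) (nat_lit 119)) (XT.nd (nat_lit 78) (nat_lit 0) (nat_lit 76) (XT.lf (nat_lit 0) (nat_lit 6486361428) (nat_lit 1748) (nat_lit 2175504205) (nat_lit 1824) (nat_lit 24856739127) (nat_lit 378) (nat_lit 5) (nat_lit 401) (nat_lit 5) (nat_lit 402) (nat_lit 5) (nat_lit 336) (nat_lit 326) (nat_lit 118)) (XT.lf (nat_lit 0) (nat_lit 8882687785) (nat_lit 1748) (nat_lit 11847933925) (nat_lit 1824) (nat_lit 13318778416) (nat_lit 379) (nat_lit 5) (nat_lit 402) (nat_lit 5) (nat_lit 403) (nat_lit 5) (nat_lit 337) (nat_lit 326) (nat_lit 117)))) (XT.nd (nat_lit 156) (nat_lit 0) (nat_lit 76) (XT.nd (nat_lit 78) (nat_lit 0) (nat_lit 0) (XT.lf (nat_lit 0) (nat_lit 11512503992) (nat_lit 1748) (nat_lit 21750066136) (nat_lit 1824) (nat_lit 1330319455) (nat_lit 380) (nat_lit 5) (nat_lit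 403) (nat_lit 5) (nat_lit 404) (nat_lit 5) (nat_lit 338) (nat_lit 326) (nat_lit 116)) (XT.lf (nat_lit 76) (nat_lit 3185501944) (nat_lit 0) (nat_lit 11272575081) (nat_lit 1824) (nat_lit 20689871617) (nat_lit 381) (nat_lit 5) (nat_lit 380) (nat_lit 5) (nat_lit 404) (nat_lit 5) (nat_lit 339) (nat_lit 326) (nat_lit 115))) (XT.nd (nat_lit 39624) (nat_lit 0) (nat_lit 1064) (XT.lf (nat_lit 0) (nat_lit 17711058436) (nat_lit 1748) (nat_lit 6627241974) (nat_lit 1824) (nat_lit 11376980340) (nat_lit 381) (nat_lit 5) (nat_lit 404) (nat_lit 5) (nat_lit 405) (nat_lit 5) (nat_lit 340) (nat_lit 326) (nat_lit 114)) (XT.lf (nat_lit 0) (nat_lit 12754207727) (nat_lit 1748) (nat_lit 1036480169) (nat_lit 1748) (nat_lit 1036480169) (nat_lit 395) (nat_lit 3) (nat_lit 418) (nat_lit 3) (nat_lit 418) (nat_lit 5) (nat_lit 327) (nat_lit 327) (nat_lit 126))))))))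
noncomputable def xc127 : XT := (XT.nd (nat_lit 81510) (nat_lit 0) (nat_lit 0) (XT.nd (nat_lit 40638) (nat_lit 0) (nat_lit 0) (XT.nd (nat_lit 468) (nat_lit 1444) (nat_lit 0) (XT.nd (nat_lit 234) (nat_lit 0) (nat_lit 152) (XT.nd (nat_lit 78) (nat_lit 0) (nat_lit 76) (XT.lf (nat_lit 76) (nat_lit 18610973985) (nat_lit 0) (nat_lit 7507591273) (nat_lit 1748) (nat_lit 3975961616) (nat_lit 396) (nat_lit 5) (nat_lit 395) (nat_lit 3) (nat_lit 418) (nat_lit 5) (nat_lit 328) (nat_lit 327) (nat_lit 125)) (XT.nd (nat_lit 78) (nat_lit 0) (nat_lit 76) (XT.lf (nat_lit 76) (nat_lit 9432017719) (nat_lit 0) (nat_lit 17471714243) (nat_lit 1748) (nat_lit 3641060008) (nat_lit 397) (nat_lit 5) (nat_lit 396) (nat_lit 5) (nat_lit 419) (nat_lit 5) (nat_lit 329) (nat_lit 327) (nat_lit 124)) (XT.lf (nat_lit 76) (nat_lit 52693922) (nat_lit 0) (nat_lit 27804792777) (nat_lit 1748) (nat_lit 3148180458) (nat_lit 398) (nat_lit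 5) (nat_lit 397) (nat_lit 5) (nat_lit 420) (nat_lit 5) (nat_lit 330) (nat_lit 327) (nat_lit 123)))) (XT.nd (nat_lit 78) (nat_lit 0) (nat_lit 76) (XT.lf (nat_lit 76) (nat_lit 22021452650) (nat_lit 0) (nat_lit 7073597993) (nat_lit 1748) (nat_lit 2380216742) (nat_lit 398) (nat_lit 5) (nat_lit 397) (nat_lit 5) (nat_lit 420) (nat_lit 5) (nat_lit 331) (nat_lit 327) (nat_lit 122)) (XT.nd (nat_lit 78) (nat_lit 0) (nat_lit 76) (XT.lf (nat_lit 76) (nat_lit 12762693254) (nat_lit 0) (nat_lit 17778807001) (nat_lit 1748) (nat_lit 1414022825) (nat_lit 399) (nat_lit 5) (nat_lit 398) (nat_lit 5) (nat_lit 421) (nat_lit 5) (nat_lit 332) (nat_lit 327) (nat_lit 121)) (XT.lf (nat_lit 76) (nat_lit 3296819936) (nat_lit 0) (nat_lit 28886547044) (nat_lit 1748) (nat_lit 263781554) (nat_lit 400) (nat_lit 5) (nat_lit 399) (nat_lit 5) (nat_lit 422) (nat_lit 5) (nat_lit 333) (nat_lit 327) (nat_lit 120))))) (XT.nd (nat_lit 234)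 (nat_lit 0) (nat_lit 152) (XT.nd (nat_lit 78) (nat_lit 0) (nat_lit 76) (XT.lf (nat_lit 0) (nat_lit 1155056404) (nat_lit 1748) (nat_lit 6355143582) (nat_lit 1824) (nat_lit 25438282250) (nat_lit 376) (nat_lit 5) (nat_lit 399) (nat_lit 5) (nat_lit 400) (nat_lit 5) (nat_lit 334) (nat_lit 327) (nat_lit 119)) (XT.nd (nat_lit 78) (nat_lit 0) (nat_lit 76) (XT.lf (nat_lit 0) (nat_lit 2816945808) (nat_lit 1748) (nat_lit 16210243440) (nat_lit 1824) (nat_lit 14433552794) (nat_lit 377) (nat_lit 5) (nat_lit 400) (nat_lit 5) (nat_lit 401) (nat_lit 5) (nat_lit 335) (nat_lit 327) (nat_lit 118)) (XT.lf (nat_lit 0) (nat_lit 4688653796) (nat_lit 1748) (nat_lit 26293231349) (nat_lit 1824) (nat_lit 3003287556) (nat_lit 378) (nat_lit 5) (nat_lit 401) (nat_lit 5) (nat_lit 402) (nat_lit 5) (nat_lit 336) (nat_lit 327) (nat_lit 117)))) (XT.nd (nat_lit 156) (nat_lit 0) (nat_lit 152) (XT.nd (nat_lit 78) (nat_lit 0) (nat_lit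 76) (XT.lf (nat_lit 0) (nat_lit 6850979409) (nat_lit 1748) (nat_lit 2120401611) (nat_lit 1824) (nat_lit 25549268160) (nat_lit 378) (nat_lit 5) (nat_lit 401) (nat_lit 5) (nat_lit 402) (nat_lit 5) (nat_lit 337) (nat_lit 327) (nat_lit 116)) (XT.lf (nat_lit 0) (nat_lit 9314704199) (nat_lit 1748) (nat_lit 12081222351) (nat_lit 1824) (nat_lit 13671534982) (nat_lit 379) (nat_lit 5) (nat_lit 402) (nat_lit 5) (nat_lit 403) (nat_lit 5) (nat_lit 338) (nat_lit 327) (nat_lit 115))) (XT.nd (nat_lit 78) (nat_lit 0) (nat_lit 0) (XT.lf (nat_lit 0) (nat_lit 12019105351) (nat_lit 1748) (nat_lit 22278795367) (nat_lit 1824) (nat_lit 1329444346) (nat_lit 380) (nat_lit 5) (nat_lit 403) (nat_lit 5) (nat_lit 404) (nat_lit 5) (nat_lit 339) (nat_lit 327) (nat_lit 114)) (XT.lf (nat_lit 76) (nat_lit 3402831689) (nat_lit 0) (nat_lit 11646308553) (nat_lit 1824) (nat_lit 21149996867) (nat_lit 381) (nat_lit 5) (nat_lit 380) (nat_lit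 5) (nat_lit 404) (nat_lit 5) (nat_lit 340) (nat_lit 327) (nat_lit 113)))))) (XT.nd (nat_lit 546) (nat_lit 1444) (nat_lit 0) (XT.nd (nat_lit 234) (nat_lit 0) (nat_lit 152) (XT.nd (nat_lit 78) (nat_lit 0) (nat_lit 0) (XT.lf (nat_lit 0) (nat_lit 13242497185) (nat_lit 1748) (nat_lit 1013649769) (nat_lit 1748) (nat_lit 1013649769) (nat_lit 395) (nat_lit 3) (nat_lit 418) (nat_lit 3) (nat_lit 418) (nat_lit 5) (nat_lit 328) (nat_lit 328) (nat_lit 124)) (XT.nd (nat_lit 78) (nat_lit 0) (nat_lit 76) (XT.lf (nat_lit 76) (nat_lit 19275403083) (nat_lit 0) (nat_lit 7832579317) (nat_lit 1748) (nat_lit 3885121097) (nat_lit 396) (nat_lit 5) (nat_lit 395) (nat_lit 3) (nat_lit 418) (nat_lit 5) (nat_lit 329) (nat_lit 328) (nat_lit 123)) (XT.lf (nat_lit 76) (nat_lit 9824184069) (nat_lit 0) (nat_lit 18086604301) (nat_lit 1748) (nat_lit 3546210628) (nat_lit 397) (nat_lit 5) (nat_lit 396) (nat_lit 5) (nat_lit 419) (nat_lit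 5) (nat_lit 330) (nat_lit 328) (nat_lit 122)))) (XT.nd (nat_lit 156) (nat_lit 0) (nat_lit 76) (XT.nd (nat_lit 78) (nat_lit 0) (nat_lit 0) (XT.lf (nat_lit 76) (nat_lit 166358020) (nat_lit 0) (nat_lit 28721129846) (nat_lit 1748) (nat_lit 3044329945) (nat_lit 398) (nat_lit 5) (nat_lit 397) (nat_lit 5) (nat_lit 420) (nat_lit 5) (nat_lit 331) (nat_lit 328) (nat_lit 121)) (XT.lf (nat_lit 76) (nat_lit 22790914948) (nat_lit 0) (nat_lit 7365605240) (nat_lit 1748) (nat_lit 2259102927) (nat_lit 398) (nat_lit 5) (nat_lit 397) (nat_lit 5) (nat_lit 420) (nat_lit 5) (nat_lit 332) (nat_lit 328) (nat_lit 120))) (XT.nd (nat_lit 78) (nat_lit 0) (nat_lit 76) (XT.lf (nat_lit 76) (nat_lit 13256976002) (nat_lit 0) (nat_lit 18384113834) (nat_lit 1748) (nat_lit 1269305899) (nat_lit 399) (nat_lit 5) (nat_lit 398) (nat_lit 5) (nat_lit 421) (nat_lit 5) (nat_lit 333) (nat_lit 328) (nat_lit 119)) (XT.lf (nat_lit 76) (nat_lit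 3509510141) (nat_lit 0) (nat_lit 29817647565) (nat_lit 1748) (nat_lit 89717017) (nat_lit 400) (nat_lit 5) (nat_lit 399) (nat_lit 5) (nat_lit 422) (nat_lit 5) (nat_lit 334) (nat_lit 328) (nat_lit 118))))) (XT.nd (nat_lit 234) (nat_lit 0) (nat_lit 152) (XT.nd (nat_lit 78) (nat_lit 0) (nat_lit 76) (XT.lf (nat_lit 0) (nat_lit 1364068591) (nat_lit 1748) (nat_lit 6432892693) (nat_lit 1824) (nat_lit 26136371635) (nat_lit 376) (nat_lit 5) (nat_lit 399) (nat_lit 5) (nat_lit 400) (nat_lit 5) (nat_lit 335) (nat_lit 328) (nat_lit 117)) (XT.nd (nat_lit 78) (nat_lit 0) (nat_lit 76) (XT.lf (nat_lit 0) (nat_lit 3071074767) (nat_lit 1748) (nat_lit 16581581446) (nat_lit 1824) (nat_lit 14808402499) (nat_lit 377) (nat_lit 5) (nat_lit 400) (nat_lit 5) (nat_lit 401) (nat_lit 5) (nat_lit 336) (nat_lit 328) (nat_lit 116)) (XT.lf (nat_lit 0) (nat_lit 4994388301) (nat_lit 1748) (nat_lit 26965166426) (nat_lit 1824) (nat_lit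 3041761774) (nat_lit 378) (nat_lit 5) (nat_lit 401) (nat_lit 5) (nat_lit 402) (nat_lit 5) (nat_lit 337) (nat_lit 328) (nat_lit 115)))) (XT.nd (nat_lit 39936) (nat_lit 0) (nat_lit 1292) (XT.nd (nat_lit 78) (nat_lit 0) (nat_lit 76) (XT.lf (nat_lit 0) (nat_lit 7216775677) (nat_lit 1748) (nat_lit 2070555540) (nat_lit 1824) (nat_lit 26265625420) (nat_lit 378) (nat_lit 5) (nat_lit 401) (nat_lit 5) (nat_lit 402) (nat_lit 5) (nat_lit 338) (nat_lit 328) (nat_lit 114)) (XT.lf (nat_lit 0) (nat_lit 9750178675) (nat_lit 1748) (nat_lit 12328521316) (nat_lit 1824) (nat_lit 14037561146) (nat_lit 379) (nat_lit 5) (nat_lit 402) (nat_lit 5) (nat_lit 403) (nat_lit 5) (nat_lit 339) (nat_lit 328) (nat_lit 113))) (XT.nd (nat_lit 78) (nat_lit 0) (nat_lit 0) (XT.lf (nat_lit 0) (nat_lit 13739369826) (nat_lit 1748) (nat_lit 993229962) (nat_lit 1748) (nat_lit 993229962) (nat_lit 395) (nat_lit 3) (nat_lit 418) (nat_lit 3)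 (nat_lit 418) (nat_lit 5) (nat_lit 329) (nat_lit 329) (nat_lit 122)) (XT.lf (nat_lit 76) (nat_lit 19953674487) (nat_lit 0) (nat_lit 8161590352) (nat_lit 1748) (nat_lit 3803617075) (nat_lit 396) (nat_lit 5) (nat_lit 395) (nat_lit 3) (nat_lit 418) (nat_lit 5) (nat_lit 330) (nat_lit 329) (nat_lit 121))))))) (XT.nd (nat_lit 41028) (nat_lit 0) (nat_lit 0) (XT.nd (nat_lit 546) (nat_lit 0) (nat_lit 152) (XT.nd (nat_lit 234) (nat_lit 1520) (nat_lit 0) (XT.nd (nat_lit 78) (nat_lit 0) (nat_lit 76) (XT.lf (nat_lit 76) (nat_lit 10221846548) (nat_lit 0) (nat_lit 18714732291) (nat_lit 1748) (nat_lit 3460230860) (nat_lit 397) (nat_lit 5) (nat_lit 396) (nat_lit 5) (nat_lit 419) (nat_lit 5) (nat_lit 331) (nat_lit 329) (nat_lit 120)) (XT.nd (nat_lit 78) (nat_lit 0) (nat_lit 0) (XT.lf (nat_lit 76) (nat_lit 276998002) (nat_lit 0) (nat_lit 29660238797) (nat_lit 1748) (nat_lit 2948746914) (nat_lit 398) (nat_lit 5) (nat_lit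 397) (nat_lit 5) (nat_lit 420) (nat_lit 5) (nat_lit 332) (nat_lit 329) (nat_lit 119)) (XT.lf (nat_lit 76) (nat_lit 23577214475) (nat_lit 0) (nat_lit 7661791898) (nat_lit 1748) (nat_lit 2145407151) (nat_lit 398) (nat_lit 5) (nat_lit 397) (nat_lit 5) (nat_lit 420) (nat_lit 5) (nat_lit 333) (nat_lit 329) (nat_lit 118)))) (XT.nd (nat_lit 156) (nat_lit 0) (nat_lit 0) (XT.nd (nat_lit 78) (nat_lit 1672) (nat_lit 0) (XT.lf (nat_lit 76) (nat_lit 13759692304) (nat_lit 0) (nat_lit 19003450071) (nat_lit 1748) (nat_lit 1130989929) (nat_lit 399) (nat_lit 5) (nat_lit 398) (nat_lit 5) (nat_lit 421) (nat_lit 5) (nat_lit 334) (nat_lit 329) (nat_lit 117)) (XT.lf (nat_lit 0) (nat_lit 78085459) (nat_lit 1748) (nat_lit 30694368847) (nat_lit 1824) (nat_lit 3643439839) (nat_lit 376) (nat_lit 5) (nat_lit 399) (nat_lit 5) (nat_lit 400) (nat_lit 5) (nat_lit 335) (nat_lit 329) (nat_lit 116))) (XT.nd (nat_lit 78) (nat_lit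 0) (nat_lit 76) (XT.lf (nat_lit 0) (nat_lit 1569342138) (nat_lit 1748) (nat_lit 6519455498) (nat_lit 1824) (nat_lit 26859138360) (nat_lit 376) (nat_lit 5) (nat_lit 399) (nat_lit 5) (nat_lit 400) (nat_lit 5) (nat_lit 336) (nat_lit 329) (nat_lit 115)) (XT.lf (nat_lit 0) (nat_lit 3323090680) (nat_lit 1748) (nat_lit 16970659301) (nat_lit 1824) (nat_lit 15197836138) (nat_lit 377) (nat_lit 5) (nat_lit 400) (nat_lit 5) (nat_lit 401) (nat_lit 5) (nat_lit 337) (nat_lit 329) (nat_lit 114))))) (XT.nd (nat_lit 40170) (nat_lit 0) (nat_lit 1368) (XT.nd (nat_lit 40014) (nat_lit 0) (nat_lit 1292) (XT.lf (nat_lit 0) (nat_lit 5299818868) (nat_lit 1748) (nat_lit 27663967904) (nat_lit 1824) (nat_lit 3084353671) (nat_lit 378) (nat_lit 5) (nat_lit 401) (nat_lit 5) (nat_lit 402) (nat_lit 5) (nat_lit 338) (nat_lit 329) (nat_lit 113)) (XT.nd (nat_lit 78) (nat_lit 0) (nat_lit 0) (XT.lf (nat_lit 0) (nat_lit 14245431328)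 (nat_lit 1748) (nat_lit 975115370) (nat_lit 1748) (nat_lit 975115370) (nat_lit 395) (nat_lit 3) (nat_lit 418) (nat_lit 3) (nat_lit 418) (nat_lit 5) (nat_lit 330) (nat_lit 330) (nat_lit 120)) (XT.lf (nat_lit 76) (nat_lit 20646553089) (nat_lit 0) (nat_lit 8495073802) (nat_lit 1748) (nat_lit 3731037251) (nat_lit 396) (nat_lit 5) (nat_lit 395) (nat_lit 3) (nat_lit 418) (nat_lit 5) (nat_lit 331) (nat_lit 330) (nat_lit 119)))) (XT.nd (nat_lit 156) (nat_lit 0) (nat_lit 76) (XT.nd (nat_lit 78) (nat_lit 0) (nat_lit 76) (XT.lf (nat_lit 76) (nat_lit 10625529900) (nat_lit 0) (nat_lit 19356794358) (nat_lit 1748) (nat_lit 3382714300) (nat_lit 397) (nat_lit 5) (nat_lit 396) (nat_lit 5) (nat_lit 419) (nat_lit 5) (nat_lit 332) (nat_lit 330) (nat_lit 118)) (XT.lf (nat_lit 76) (nat_lit 384892485) (nat_lit 0) (nat_lit 30623073632) (nat_lit 1748) (nat_lit 2861025959) (nat_lit 398) (nat_lit 5) (nat_lit 397) (nat_lit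 5) (nat_lit 420) (nat_lit 5) (nat_lit 333) (nat_lit 330) (nat_lit 117))) (XT.nd (nat_lit 78) (nat_lit 0) (nat_lit 76) (XT.lf (nat_lit 76) (nat_lit 24381214931) (nat_lit 0) (nat_lit 7962546306) (nat_lit 1748) (nat_lit 2038717557) (nat_lit 398) (nat_lit 5) (nat_lit 397) (nat_lit 5) (nat_lit 420) (nat_lit 5) (nat_lit 334) (nat_lit 330) (nat_lit 116)) (XT.lf (nat_lit 76) (nat_lit 14271462262) (nat_lit 0) (nat_lit 19637473662) (nat_lit 1748) (nat_lit 998650284) (nat_lit 399) (nat_lit 5) (nat_lit 398) (nat_lit 5) (nat_lit 421) (nat_lit 5) (nat_lit 335) (nat_lit 330) (nat_lit 115)))))) (XT.nd (nat_lit 40638) (nat_lit 0) (nat_lit 1444) (XT.nd (nat_lit 40326) (nat_lit 0) (nat_lit 1444) (XT.nd (nat_lit 78) (nat_lit 0) (nat_lit 0) (XT.lf (nat_lit 0) (nat_lit 239992576) (nat_lit 1748) (nat_lit 31511875664) (nat_lit 1824) (nat_lit 3693204758) (nat_lit 376) (nat_lit 5) (nat_lit 399) (nat_lit 5) (nat_lit 400)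 (nat_lit 5) (nat_lit 336) (nat_lit 330) (nat_lit 114)) (XT.nd (nat_lit 40170) (nat_lit 0) (nat_lit 1444) (XT.lf (nat_lit 0) (nat_lit 1771339443) (nat_lit 1748) (nat_lit 6614724358) (nat_lit 1824) (nat_lit 27607108359) (nat_lit 376) (nat_lit 5) (nat_lit 399) (nat_lit 5) (nat_lit 400) (nat_lit 5) (nat_lit 337) (nat_lit 330) (nat_lit 113)) (XT.lf (nat_lit 0) (nat_lit 14761285557) (nat_lit 1748) (nat_lit 959207655) (nat_lit 1748) (nat_lit 959207655) (nat_lit 395) (nat_lit 3) (nat_lit 418) (nat_lit 3) (nat_lit 418) (nat_lit 5) (nat_lit 331) (nat_lit 331) (nat_lit 118)))) (XT.nd (nat_lit 156) (nat_lit 0) (nat_lit 152) (XT.nd (nat_lit 78) (nat_lit 0) (nat_lit 76) (XT.lf (nat_lit 76) (nat_lit 21354806659) (nat_lit 0) (nat_lit 8833473702) (nat_lit 1748) (nat_lit 3666996707) (nat_lit 396) (nat_lit 5) (nat_lit 395) (nat_lit 3) (nat_lit 418) (nat_lit 5) (nat_lit 332) (nat_lit 331) (nat_lit 117)) (XT.lf (nat_lit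 76) (nat_lit 11035753950) (nat_lit 0) (nat_lit 20013490362) (nat_lit 1748) (nat_lit 3313280953) (nat_lit 397) (nat_lit 5) (nat_lit 396) (nat_lit 5) (nat_lit 419) (nat_lit 5) (nat_lit 333) (nat_lit 331) (nat_lit 116))) (XT.nd (nat_lit 78) (nat_lit 0) (nat_lit 0) (XT.lf (nat_lit 76) (nat_lit 490307242) (nat_lit 0) (nat_lit 31610601424) (nat_lit 1748) (nat_lit 2780787021) (nat_lit 398) (nat_lit 5) (nat_lit 397) (nat_lit 5) (nat_lit 420) (nat_lit 5) (nat_lit 334) (nat_lit 331) (nat_lit 115)) (XT.lf (nat_lit 76) (nat_lit 25203785343) (nat_lit 0) (nat_lit 8268253358) (nat_lit 1748) (nat_lit 1938646349) (nat_lit 398) (nat_lit 5) (nat_lit 397) (nat_lit 5) (nat_lit 420) (nat_lit 5) (nat_lit 335) (nat_lit 331) (nat_lit 114))))) (XT.nd (nat_lit 40482) (nat_lit 0) (nat_lit 0) (XT.nd (nat_lit 40326) (nat_lit 228) (nat_lit 0) (XT.lf (nat_lit 76) (nat_lit 14792903509) (nat_lit 0) (nat_lit 20286848686) (nat_lit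 1748) (nat_lit 871884990) (nat_lit 399) (nat_lit 5) (nat_lit 398) (nat_lit 5) (nat_lit 421) (nat_lit 5) (nat_lit 336) (nat_lit 331) (nat_lit 113)) (XT.nd (nat_lit 78) (nat_lit 0) (nat_lit 0) (XT.lf (nat_lit 0) (nat_lit 15287535650) (nat_lit 1748) (nat_lit 945415146) (nat_lit 1748) (nat_lit 945415146) (nat_lit 395) (nat_lit 3) (nat_lit 418) (nat_lit 3) (nat_lit 418) (nat_lit 5) (nat_lit 332) (nat_lit 332) (nat_lit 116)) (XT.lf (nat_lit 76) (nat_lit 22079207083) (nat_lit 0) (nat_lit 9177229620) (nat_lit 1748) (nat_lit 3611136440) (nat_lit 396) (nat_lit 5) (nat_lit 395) (nat_lit 3) (nat_lit 418) (nat_lit 5) (nat_lit 333) (nat_lit 332) (nat_lit 115)))) (XT.nd (nat_lit 40638) (nat_lit 76) (nat_lit 0) (XT.nd (nat_lit 78) (nat_lit 0) (nat_lit 76) (XT.lf (nat_lit 76) (nat_lit 11453034650) (nat_lit 0) (nat_lit 20685524986) (nat_lit 1748) (nat_lit 3251575812) (nat_lit 397) (nat_lit 5) (nat_lit 396) (nat_lit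 5) (nat_lit 419) (nat_lit 5) (nat_lit 334) (nat_lit 332) (nat_lit 114)) (XT.lf (nat_lit 76) (nat_lit 593496035) (nat_lit 0) (nat_lit 32623803606) (nat_lit 1748) (nat_lit 2707673996) (nat_lit 398) (nat_lit 5) (nat_lit 397) (nat_lit 5) (nat_lit 420) (nat_lit 5) (nat_lit 335) (nat_lit 332) (nat_lit 113))) (XT.nd (nat_lit 78) (nat_lit 0) (nat_lit 76) (XT.lf (nat_lit 76) (nat_lit 22820531569) (nat_lit 0) (nat_lit 9526777545) (nat_lit 1748) (nat_lit 3563121990) (nat_lit 396) (nat_lit 5) (nat_lit 395) (nat_lit 3) (nat_lit 418) (nat_lit 5) (nat_lit 334) (nat_lit 333) (nat_lit 113)) (XT.lf (nat_lit 76) (nat_lit 11877885074) (nat_lit 0) (nat_lit 21373608798) (nat_lit 1748) (nat_lit 3197267522) (nat_lit 397) (nat_lit 5) (nat_lit 396) (nat_lit 5) (nat_lit 419) (nat_lit 5) (nat_lit 335) (nat_lit 333) (nat_lit 112))))))))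

set_option maxRecDepth 10000000 in
noncomputable def Tp : PT := (PT.nd (nat_lit 5495412) (PT.nd (nat_lit 4886310) (PT.nd (nat_lit 4278378) (PT.nd (nat_lit 3750552) (PT.nd (nat_lit 3344406) pc0 pc1) (PT.nd (nat_lit 324402) pc2 pc3)) (PT.nd (nat_lit 325104) (PT.nd (nat_lit 202410) pc4 pc5) (PT.nd (nat_lit 161226) pc6 pc7))) (PT.nd (nat_lit 326586) (PT.nd (nat_lit 163956) (PT.nd (nat_lit 82134) pc8 pc9) (PT.nd (nat_lit 119964) pc10 pc11)) (PT.nd (nat_lit 160836) (PT.nd (nat_lit 80574) pc12 pc13) (PT.nd (nat_lit 42120) pc14 pc15)))) (PT.nd (nat_lit 366834) (PT.nd (nat_lit 203268) (PT.nd (nat_lit 83460) (PT.nd (nat_lit 41808) pc16 pc17) (PT.nd (nat_lit 78546) pc18 pc19)) (PT.nd (nat_lit 82056) (PT.nd (nat_lit 41106) pc20 pc21) (PT.nd (nat_lit 40794) pc22 pc23))) (PT.nd (nat_lit 204204) (PT.nd (nat_lit 81666) (PT.nd (nat_lit 40482) pc24 pc25) (PT.nd (nat_lit 41808) pc26 pc27)) (PT.nd (nat_lit 203580)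 (PT.nd (nat_lit 81822) pc28 pc29) (PT.nd (nat_lit 156780) pc30 pc31)))))

set_option maxRecDepth 10000000 in
noncomputable def Tx : XT := (XT.nd (nat_lit 8481096) (nat_lit 0) (nat_lit 456) XT.nil (XT.nd (nat_lit 5077566) (nat_lit 0) (nat_lit 0) (XT.nd (nat_lit 2393196) (nat_lit 0) (nat_lit 2660) (XT.nd (nat_lit 1660308) (nat_lit 0) (nat_lit 1064) (XT.nd (nat_lit 1136226) (nat_lit 0) (nat_lit 456) (XT.nd (nat_lit 771732) (nat_lit 0) (nat_lit 76) (XT.nd (nat_lit 527826) (nat_lit 0) (nat_lit 0) (XT.nd (nat_lit 365118) (nat_lit 0) (nat_lit 0) (XT.nd (nat_lit 243360) (nat_lit 0) (nat_lit 0) xc0 xc1) (XT.nd (nat_lit 81666) (nat_lit 0) (nat_lit 0) xc2 xc3)) (XT.nd (nat_lit 160368) (nat_lit 0) (nat_lit 76) (XT.nd (nat_lit 80418) (nat_lit 0) (nat_lit 0) xc4 xc5) (XT.nd (nat_lit 41808) (nat_lit 0) (nat_lit 0) xc6 xc7))) (XT.nd (nat_lit 202020) (nat_lit 0) (nat_lit 228) (XT.nd (nat_lit 119886) (nat_lit 0)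 (nat_lit 152) (XT.nd (nat_lit 78624) (nat_lit 0) (nat_lit 76) xc8 xc9) (XT.nd (nat_lit 41106) (nat_lit 0) (nat_lit 76) xc10 xc11)) (XT.nd (nat_lit 81510) (nat_lit 0) (nat_lit 0) (XT.nd (nat_lit 40794) (nat_lit 0) (nat_lit 0) xc12 xc13) (XT.nd (nat_lit 40560) (nat_lit 0) (nat_lit 76) xc14 xc15)))) (XT.nd (nat_lit 282672) (nat_lit 0) (nat_lit 304) (XT.nd (nat_lit 159900) (nat_lit 0) (nat_lit 76) (XT.nd (nat_lit 80262) (nat_lit 0) (nat_lit 0) (XT.nd (nat_lit 40170) (nat_lit 0) (nat_lit 0) xc16 xc17) (XT.nd (nat_lit 39858) (nat_lit 0) (nat_lit 76) xc18 xc19)) (XT.nd (nat_lit 43914) (nat_lit 0) (nat_lit 152) (XT.nd (nat_lit 4212) (nat_lit 228) (nat_lit 0) xc20 xc21) (XT.nd (nat_lit 39468) (nat_lit 0) (nat_lit 76) xc22 xc23))) (XT.nd (nat_lit 121368) (nat_lit 0) (nat_lit 76) (XT.nd (nat_lit 43446) (nat_lit 0) (nat_lit 0) (XT.nd (nat_lit 39156) (nat_lit 0) (nat_lit 684) xc24 xc25) (XT.nd (nat_lit 39000)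 (nat_lit 0) (nat_lit 76) xc26 xc27)) (XT.nd (nat_lit 42978) (nat_lit 0) (nat_lit 152) (XT.nd (nat_lit 38688) (nat_lit 0) (nat_lit 2280) xc28 xc29) (XT.nd (nat_lit 38610) (nat_lit 0) (nat_lit 0) xc30 xc31))))) (XT.nd (nat_lit 369096) (nat_lit 0) (nat_lit 532) (XT.nd (nat_lit 202722) (nat_lit 0) (nat_lit 380) (XT.nd (nat_lit 84864) (nat_lit 0) (nat_lit 76) (XT.nd (nat_lit 42510) (nat_lit 0) (nat_lit 76) (XT.nd (nat_lit 4212) (nat_lit 2280) (nat_lit 0) xc32 xc33) (XT.nd (nat_lit 38064) (nat_lit 0) (nat_lit 3800) xc34 xc35)) (XT.nd (nat_lit 42276) (nat_lit 0) (nat_lit 152) (XT.nd (nat_lit 37986) (nat_lit 0) (nat_lit 760) xc36 xc37) (XT.nd (nat_lit 37830) (nat_lit 0) (nat_lit 76) xc38 xc39))) (XT.nd (nat_lit 83460) (nat_lit 0) (nat_lit 152) (XT.nd (nat_lit 41808) (nat_lit 0) (nat_lit 0) (XT.nd (nat_lit 4212) (nat_lit 3496) (nat_lit 0) xc40 xc41) (XT.nd (nat_lit 4212) (nat_lit 1216) (nat_lit 0) xc42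 xc43)) (XT.nd (nat_lit 41496) (nat_lit 0) (nat_lit 0) (XT.nd (nat_lit 37206) (nat_lit 0) (nat_lit 7448) xc44 xc45) (XT.nd (nat_lit 37128) (nat_lit 0) (nat_lit 4788) xc46 xc47)))) (XT.nd (nat_lit 164736) (nat_lit 0) (nat_lit 532) (XT.nd (nat_lit 82212) (nat_lit 0) (nat_lit 304) (XT.nd (nat_lit 41184) (nat_lit 0) (nat_lit 152) (XT.nd (nat_lit 36894) (nat_lit 0) (nat_lit 3648) xc48 xc49) (XT.nd (nat_lit 36738) (nat_lit 0) (nat_lit 2660) xc50 xc51)) (XT.nd (nat_lit 41184) (nat_lit 0) (nat_lit 0) (XT.nd (nat_lit 36894) (nat_lit 0) (nat_lit 1596) xc52 xc53) (XT.nd (nat_lit 37050) (nat_lit 0) (nat_lit 532) xc54 xc55))) (XT.nd (nat_lit 115752) (nat_lit 0) (nat_lit 152) (XT.nd (nat_lit 74256) (nat_lit 0) (nat_lit 152) (XT.nd (nat_lit 37050) (nat_lit 0) (nat_lit 0) xc56 xc57) (XT.nd (nat_lit 4212) (nat_lit 7524) (nat_lit 0) xc58 xc59)) (XT.nd (nat_lit 41574) (nat_lit 0) (nat_lit 152) (XT.nd (nat_lit 4212)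 (nat_lit 4636) (nat_lit 0) xc60 xc61) (XT.nd (nat_lit 4290) (nat_lit 1976) (nat_lit 0) xc62 xc63)))))) (XT.nd (nat_lit 854100) (nat_lit 0) (nat_lit 3648) (XT.nd (nat_lit 404898) (nat_lit 0) (nat_lit 1292) (XT.nd (nat_lit 201318) (nat_lit 0) (nat_lit 608) (XT.nd (nat_lit 83694) (nat_lit 0) (nat_lit 152) (XT.nd (nat_lit 41808) (nat_lit 0) (nat_lit 152) (XT.nd (nat_lit 4212) (nat_lit 152) (nat_lit 0) xc64 xc65) (XT.nd (nat_lit 37596) (nat_lit 0) (nat_lit 4104) xc66 xc67)) (XT.nd (nat_lit 41964) (nat_lit 0) (nat_lit 304) (XT.nd (nat_lit 37674) (nat_lit 0) (nat_lit 1140) xc68 xc69) (XT.nd (nat_lit 37752) (nat_lit 0) (nat_lit 0) xc70 xc71))) (XT.nd (nat_lit 84474) (nat_lit 0) (nat_lit 456) (XT.nd (nat_lit 42198) (nat_lit 0) (nat_lit 0) (XT.nd (nat_lit 4212) (nat_lit 4636) (nat_lit 0) xc72 xc73) (XT.nd (nat_lit 4212) (nat_lit 760) (nat_lit 0) xc74 xc75)) (XT.nd (nat_lit 42432) (nat_lit 0) (nat_lit 0)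 (XT.nd (nat_lit 38142) (nat_lit 0) (nat_lit 2584) xc76 xc77) (XT.nd (nat_lit 38298) (nat_lit 0) (nat_lit 228) xc78 xc79)))) (XT.nd (nat_lit 205842) (nat_lit 0) (nat_lit 988) (XT.nd (nat_lit 85410) (nat_lit 0) (nat_lit 456) (XT.nd (nat_lit 42666) (nat_lit 0) (nat_lit 228) (XT.nd (nat_lit 4212) (nat_lit 3648) (nat_lit 0) xc80 xc81) (XT.nd (nat_lit 38454) (nat_lit 0) (nat_lit 4408) xc82 xc83)) (XT.nd (nat_lit 77376) (nat_lit 0) (nat_lit 304) (XT.nd (nat_lit 38610) (nat_lit 0) (nat_lit 228) xc84 xc85) (XT.nd (nat_lit 4212) (nat_lit 3192) (nat_lit 0) xc86 xc87))) (XT.nd (nat_lit 121212) (nat_lit 0) (nat_lit 760) (XT.nd (nat_lit 43134) (nat_lit 0) (nat_lit 228) (XT.nd (nat_lit 38844) (nat_lit 0) (nat_lit 1368) xc88 xc89) (XT.nd (nat_lit 38922) (nat_lit 0) (nat_lit 304) xc90 xc91)) (XT.nd (nat_lit 43446) (nat_lit 0) (nat_lit 0) (XT.nd (nat_lit 39156) (nat_lit 0) (nat_lit 2204) xc92 xc93) (XT.nd (nat_lit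 39312) (nat_lit 0) (nat_lit 380) xc94 xc95))))) (XT.nd (nat_lit 570492) (nat_lit 0) (nat_lit 4788) (XT.nd (nat_lit 246870) (nat_lit 0) (nat_lit 1596) (XT.nd (nat_lit 123006) (nat_lit 0) (nat_lit 608) (XT.nd (nat_lit 43758) (nat_lit 0) (nat_lit 304) (XT.nd (nat_lit 39468) (nat_lit 0) (nat_lit 608) xc96 xc97) (XT.nd (nat_lit 39546) (nat_lit 0) (nat_lit 304) xc98 xc99)) (XT.nd (nat_lit 79638) (nat_lit 0) (nat_lit 988) (XT.nd (nat_lit 39702) (nat_lit 0) (nat_lit 608) xc100 xc101) (XT.nd (nat_lit 39936) (nat_lit 0) (nat_lit 684) xc102 xc103))) (XT.nd (nat_lit 160914) (nat_lit 0) (nat_lit 1824) (XT.nd (nat_lit 80262) (nat_lit 0) (nat_lit 760) (XT.nd (nat_lit 40014) (nat_lit 0) (nat_lit 684) xc104 xc105) (XT.nd (nat_lit 40248) (nat_lit 0) (nat_lit 304) xc106 xc107)) (XT.nd (nat_lit 81120) (nat_lit 0) (nat_lit 456) (XT.nd (nat_lit 40482) (nat_lit 0) (nat_lit 76) xc108 xc109) (XT.nd (nat_lit 40716) (nat_lit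 0) (nat_lit 380) xc110 xc111)))) (XT.nd (nat_lit 405834) (nat_lit 0) (nat_lit 5624) (XT.nd (nat_lit 201474) (nat_lit 0) (nat_lit 2280) (XT.nd (nat_lit 81978) (nat_lit 0) (nat_lit 836) (XT.nd (nat_lit 40872) (nat_lit 0) (nat_lit 836) xc112 xc113) (XT.nd (nat_lit 41106) (nat_lit 0) (nat_lit 532) xc114 xc115)) (XT.nd (nat_lit 83070) (nat_lit 0) (nat_lit 1596) (XT.nd (nat_lit 41418) (nat_lit 0) (nat_lit 1064) xc116 xc117) (XT.nd (nat_lit 79326) (nat_lit 0) (nat_lit 1140) xc118 xc119))) (XT.nd (nat_lit 284154) (nat_lit 0) (nat_lit 5472) (XT.nd (nat_lit 122304) (nat_lit 0) (nat_lit 1976) (XT.nd (nat_lit 42042) (nat_lit 0) (nat_lit 608) xc120 xc121) (XT.nd (nat_lit 80652) (nat_lit 0) (nat_lit 1976) xc122 xc123)) (XT.nd (nat_lit 163722) (nat_lit 0) (nat_lit 4180) (XT.nd (nat_lit 81588) (nat_lit 0) (nat_lit 1520) xc124 xc125) (XT.nd (nat_lit 161616) (nat_lit 0) (nat_lit 1748) xc126 xc127))))))) XT.nil))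

set_option maxRecDepth 10000000 in
noncomputable def Te : XT := XT.nil

set_option maxRecDepth 10000000 in
noncomputable def Tz : ZL := (ZL.cons (nat_lit 76) (nat_lit 3) (nat_lit 109123633589194412662) (ZL.cons (nat_lit 152) (nat_lit 6) (nat_lit 215264633331950497876) (ZL.cons (nat_lit 836) (nat_lit 6) (nat_lit 198259379472381623032) (ZL.cons (nat_lit 912) (nat_lit 6) (nat_lit 195654329804774923902) (ZL.cons (nat_lit 988) (nat_lit 3) (nat_lit 97785658394322926633) (ZL.cons (nat_lit 1064) (nat_lit 6) (nat_lit 192971128647140023798) (ZL.cons (nat_lit 1140) (nat_lit 6) (nat_lit 190456543038808449926) (ZL.cons (nat_lit 1216) (nat_lit 3) (nat_lit 95187973938759045042) (ZL.cons (nat_lit 1292) (nat_lit 6) (nat_lit 187866519862226928838) (ZL.cons (nat_lit 1368) (nat_lit 6) (nat_lit 185440651897175508952) (ZL.cons (nat_lit 1444) (nat_lit 3) (nat_lit 92681202083883696299) (ZL.cons (nat_lit 1520) (nat_lit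 6) (nat_lit 182942007893172546468) (ZL.cons (nat_lit 1596) (nat_lit 6) (nat_lit 180603216129076239606) (ZL.cons (nat_lit 1672) (nat_lit 3) (nat_lit 90263623729873985653) (ZL.cons (nat_lit 1824) (nat_lit 6) (nat_lit 178194260612057043540) (ZL.cons (nat_lit 1900) (nat_lit 6) (nat_lit 175941008817902751688) (ZL.cons (nat_lit 1976) (nat_lit 3) (nat_lit 87933626414131828123) (ZL.cons (nat_lit 2052) (nat_lit 6) (nat_lit 173765523216494087140) (ZL.cons (nat_lit 2128) (nat_lit 6) (nat_lit 173620159469923831076) (ZL.cons (nat_lit 2204) (nat_lit 6) (nat_lit 171451017057404067214) (ZL.cons (nat_lit 2280) (nat_lit 3) (nat_lit 85689704650236453296) (ZL.cons (nat_lit 2356) (nat_lit 6) (nat_lit 169357930223547793990) (ZL.cons (nat_lit 2432) (nat_lit 6) (nat_lit 169216800372508710436) (ZL.cons (nat_lit 2508) (nat_lit 6) (nat_lit 167130443027744671946) (ZL.cons (nat_lit 2584) (nat_lit 3) (nat_lit 83530460466818374507)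 (ZL.cons (nat_lit 2660) (nat_lit 6) (nat_lit 165118514235491191480) (ZL.cons (nat_lit 2736) (nat_lit 6) (nat_lit 164981494962637712304) (ZL.cons (nat_lit 2888) (nat_lit 6) (nat_lit 162976705485362183670) (ZL.cons (nat_lit 2964) (nat_lit 3) (nat_lit 81454604153308313713) (ZL.cons (nat_lit 3040) (nat_lit 6) (nat_lit 161044800744014485468) (ZL.cons (nat_lit 3116) (nat_lit 6) (nat_lit 160911772323768389178) (ZL.cons (nat_lit 3192) (nat_lit 6) (nat_lit 159184092666490527478) (ZL.cons (nat_lit 3268) (nat_lit 6) (nat_lit 158987441681680800076) (ZL.cons (nat_lit 3344) (nat_lit 3) (nat_lit 79460955220090130015) (ZL.cons (nat_lit 3420) (nat_lit 6) (nat_lit 157134534926394754456) (ZL.cons (nat_lit 3496) (nat_lit 6) (nat_lit 157005381120330583298) (ZL.cons (nat_lit 3572) (nat_lit 6) (nat_lit 155351433013172623734) (ZL.cons (nat_lit 3648) (nat_lit 6) (nat_lit 155160509726949587420) (ZL.cons (nat_lit 3724) (nat_lit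 3) (nat_lit 77548443581192978154) (ZL.cons (nat_lit 3876) (nat_lit 6) (nat_lit 153385684236489657934) (ZL.cons (nat_lit 3952) (nat_lit 6) (nat_lit 153260292191767161666) (ZL.cons (nat_lit 4028) (nat_lit 6) (nat_lit 151679353830561072568) (ZL.cons (nat_lit 4104) (nat_lit 6) (nat_lit 151493991416752299450) (ZL.cons (nat_lit 4180) (nat_lit 3) (nat_lit 75716110968296717147) (ZL.cons (nat_lit 4256) (nat_lit 6) (nat_lit 150040027540847971398) (ZL.cons (nat_lit 4332) (nat_lit 6) (nat_lit 149796441467732133376) (ZL.cons (nat_lit 4408) (nat_lit 6) (nat_lit 149674701618486991370) (ZL.cons (nat_lit 4484) (nat_lit 6) (nat_lit 148166159048634704074) (ZL.cons (nat_lit 4560) (nat_lit 6) (nat_lit 147986195540082497164) (ZL.cons (nat_lit 4636) (nat_lit 3) (nat_lit 73963112585498110157) (ZL.cons (nat_lit 4712) (nat_lit 6) (nat_lit 146601719640841382722) (ZL.cons (nat_lit 4788) (nat_lit 6) (nat_lit 146365228307719209886)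 (ZL.cons (nat_lit 4864) (nat_lit 6) (nat_lit 146247034279325868132) (ZL.cons (nat_lit 4940) (nat_lit 6) (nat_lit 145101756258461864478) (ZL.cons (nat_lit 5016) (nat_lit 6) (nat_lit 144810383542262054820) (ZL.cons (nat_lit 5092) (nat_lit 6) (nat_lit 144635661689298747140) (ZL.cons (nat_lit 5168) (nat_lit 3) (nat_lit 72288719014995841118) (ZL.cons (nat_lit 5244) (nat_lit 6) (nat_lit 143320302641488787850) (ZL.cons (nat_lit 5320) (nat_lit 6) (nat_lit 143090699405447843348) (ZL.cons (nat_lit 5396) (nat_lit 6) (nat_lit 142975947921570812518) (ZL.cons (nat_lit 5472) (nat_lit 6) (nat_lit 141893683592961840102) (ZL.cons (nat_lit 5548) (nat_lit 6) (nat_lit 141610797460729015190) (ZL.cons (nat_lit 5624) (nat_lit 6) (nat_lit 141441164593774347538) (ZL.cons (nat_lit 5700) (nat_lit 3) (nat_lit 70692318384602190806) (ZL.cons (nat_lit 5776) (nat_lit 6) (nat_lit 140194662736938139420) (ZL.cons (nat_lit 5852) (nat_lit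 6) (nat_lit 139971746973791591358) (ZL.cons (nat_lit 5928) (nat_lit 6) (nat_lit 139860337766143988610) (ZL.cons (nat_lit 6004) (nat_lit 6) (nat_lit 138841057834802000704) (ZL.cons (nat_lit 6080) (nat_lit 6) (nat_lit 138566411104478869722) (ZL.cons (nat_lit 6156) (nat_lit 6) (nat_lit 138401719000639386564) (ZL.cons (nat_lit 6232) (nat_lit 3) (nat_lit 69173418808780874871) (ZL.cons (nat_lit 6308) (nat_lit 6) (nat_lit 137548799992755625720) (ZL.cons (nat_lit 6384) (nat_lit 6) (nat_lit 137223929022455229766) (ZL.cons (nat_lit 6460) (nat_lit 6) (nat_lit 137007505951439163688) (ZL.cons (nat_lit 6536) (nat_lit 6) (nat_lit 136899341672169646456) (ZL.cons (nat_lit 6612) (nat_lit 6) (nat_lit 135943127685124728506) (ZL.cons (nat_lit 6688) (nat_lit 6) (nat_lit 135676480374131397456) (ZL.cons (nat_lit 6764) (nat_lit 6) (nat_lit 135516585127685297304) (ZL.cons (nat_lit 6840) (nat_lit 3) (nat_lit 67731651115746708447)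 (ZL.cons (nat_lit 6916) (nat_lit 6) (nat_lit 134722887945687756764) (ZL.cons (nat_lit 6992) (nat_lit 6) (nat_lit 134407479236658246130) (ZL.cons (nat_lit 7068) (nat_lit 6) (nat_lit 134197359750234881006) (ZL.cons (nat_lit 7144) (nat_lit 6) (nat_lit 134092345886866417676) (ZL.cons (nat_lit 7220) (nat_lit 6) (nat_lit 133562143575245777382) (ZL.cons (nat_lit 7296) (nat_lit 6) (nat_lit 133199393703074344820) (ZL.cons (nat_lit 7372) (nat_lit 6) (nat_lit 132940512818614800112) (ZL.cons (nat_lit 7448) (nat_lit 6) (nat_lit 132785274715269071810) (ZL.cons (nat_lit 7524) (nat_lit 3) (nat_lit 66366771874046244445) (ZL.cons (nat_lit 7600) (nat_lit 6) (nat_lit 132051168164661027984) (ZL.cons (nat_lit 7676) (nat_lit 6) (nat_lit 131744946117059561348) (ZL.cons (nat_lit 7752) (nat_lit 6) (nat_lit 131540946615677653462) (ZL.cons (nat_lit 7828) (nat_lit 6) (nat_lit 131438991408523805570) (ZL.cons (nat_lit 7904)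 (nat_lit 6) (nat_lit 130961799317549779132) (ZL.cons (nat_lit 7980) (nat_lit 6) (nat_lit 130609614975635766934) (ZL.cons (nat_lit 8056) (nat_lit 6) (nat_lit 130358274311111937120) (ZL.cons (nat_lit 8132) (nat_lit 6) (nat_lit 130207557705921909644) (ZL.cons (nat_lit 8208) (nat_lit 3) (nat_lit 65078666732972322336) (ZL.cons (nat_lit 8284) (nat_lit 6) (nat_lit 129930335286048947652) (ZL.cons (nat_lit 8360) (nat_lit 6) (nat_lit 129533527357423726176) (ZL.cons (nat_lit 8436) (nat_lit 6) (nat_lit 129236224398587350800) (ZL.cons (nat_lit 8512) (nat_lit 6) (nat_lit 129038166630255401396) (ZL.cons (nat_lit 8588) (nat_lit 6) (nat_lit 128939180992241956840) (ZL.cons (nat_lit 8740) (nat_lit 6) (nat_lit 128515742991689079034) (ZL.cons (nat_lit 8816) (nat_lit 6) (nat_lit 128173816446141494380) (ZL.cons (nat_lit 8892) (nat_lit 6) (nat_lit 127929796383496999414) (ZL.cons (nat_lit 8968) (nat_lit 6) (nat_lit 127783469582341632930)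 (ZL.cons (nat_lit 9044) (nat_lit 3) (nat_lit 63867354092152726673) (ZL.cons (nat_lit 9120) (nat_lit 6) (nat_lit 127555372552287008832) (ZL.cons (nat_lit 9196) (nat_lit 6) (nat_lit 127170122136146017106) (ZL.cons (nat_lit 9272) (nat_lit 6) (nat_lit 126881478486790312862) (ZL.cons (nat_lit 9348) (nat_lit 6) (nat_lit 126689189391322400816) (ZL.cons (nat_lit 9424) (nat_lit 6) (nat_lit 126593086830144299304) (ZL.cons (nat_lit 9500) (nat_lit 6) (nat_lit 126651576880581144824) (ZL.cons (nat_lit 9576) (nat_lit 6) (nat_lit 126224264454155291866) (ZL.cons (nat_lit 9652) (nat_lit 6) (nat_lit 125892296934206180550) (ZL.cons (nat_lit 9728) (nat_lit 6) (nat_lit 125655384252027059226) (ZL.cons (nat_lit 9804) (nat_lit 6) (nat_lit 125513319396536412152) (ZL.cons (nat_lit 9880) (nat_lit 3) (nat_lit 62732989116697245112) (ZL.cons (nat_lit 9956) (nat_lit 6) (nat_lit 125803566252198151792) (ZL.cons (nat_lit 10032)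 (nat_lit 6) (nat_lit 125335416922583113172) (ZL.cons (nat_lit 10108) (nat_lit 6) (nat_lit 124961387392349140624) (ZL.cons (nat_lit 10184) (nat_lit 6) (nat_lit 124681150839576612228) (ZL.cons (nat_lit 10260) (nat_lit 6) (nat_lit 124494462397374755876) (ZL.cons (nat_lit 10336) (nat_lit 6) (nat_lit 124401158939920288386) (ZL.cons (nat_lit 10412) (nat_lit 6) (nat_lit 124502802878537816010) (ZL.cons (nat_lit 10488) (nat_lit 6) (nat_lit 124087936445114657800) (ZL.cons (nat_lit 10564) (nat_lit 6) (nat_lit 123765637882057268172) (ZL.cons (nat_lit 10640) (nat_lit 6) (nat_lit 123535625569262004748) (ZL.cons (nat_lit 10716) (nat_lit 6) (nat_lit 123397698525096327980) (ZL.cons (nat_lit 10792) (nat_lit 3) (nat_lit 61675868115391891209) (ZL.cons (nat_lit 10868) (nat_lit 6) (nat_lit 123725694795184797698) (ZL.cons (nat_lit 10944) (nat_lit 6) (nat_lit 123271180882937187386) (ZL.cons (nat_lit 11020) (nat_lit 6)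 (nat_lit 122908045416690612096) (ZL.cons (nat_lit 11096) (nat_lit 6) (nat_lit 122635971093610487440) (ZL.cons (nat_lit 11172) (nat_lit 6) (nat_lit 122454720178851403600) (ZL.cons (nat_lit 11248) (nat_lit 6) (nat_lit 122364134297827648760) (ZL.cons (nat_lit 11324) (nat_lit 6) (nat_lit 123003413646043458508) (ZL.cons (nat_lit 11400) (nat_lit 6) (nat_lit 122510407035908030626) (ZL.cons (nat_lit 11476) (nat_lit 6) (nat_lit 122107624090837003234) (ZL.cons (nat_lit 11552) (nat_lit 6) (nat_lit 121794712864567692916) (ZL.cons (nat_lit 11628) (nat_lit 6) (nat_lit 121571399939523747844) (ZL.cons (nat_lit 11704) (nat_lit 6) (nat_lit 121437490187906585932) (ZL.cons (nat_lit 11780) (nat_lit 3) (nat_lit 60696433300597688327) (ZL.cons (nat_lit 11856) (nat_lit 6) (nat_lit 122335328311663092414) (ZL.cons (nat_lit 11932) (nat_lit 6) (nat_lit 121804950150180268830) (ZL.cons (nat_lit 12008) (nat_lit 6) (nat_lit 121363674507221423868)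 (ZL.cons (nat_lit 12084) (nat_lit 6) (nat_lit 121011115802127661448) (ZL.cons (nat_lit 12160) (nat_lit 6) (nat_lit 120746965973894530714) (ZL.cons (nat_lit 12236) (nat_lit 6) (nat_lit 120570994211992507570) (ZL.cons (nat_lit 12312) (nat_lit 6) (nat_lit 120483046754687891220) (ZL.cons (nat_lit 12388) (nat_lit 6) (nat_lit 121720855028159289394) (ZL.cons (nat_lit 12464) (nat_lit 6) (nat_lit 121154193807115887458) (ZL.cons (nat_lit 12540) (nat_lit 6) (nat_lit 120675546612809646794) (ZL.cons (nat_lit 12616) (nat_lit 6) (nat_lit 120284495209828066804) (ZL.cons (nat_lit 12692) (nat_lit 6) (nat_lit 119980697902770483968) (ZL.cons (nat_lit 12768) (nat_lit 6) (nat_lit 119763889237679275162) (ZL.cons (nat_lit 12844) (nat_lit 6) (nat_lit 119633879770089797580) (ZL.cons (nat_lit 12920) (nat_lit 3) (nat_lit 59795277949748195254) (ZL.cons (nat_lit 12996) (nat_lit 6) (nat_lit 120557569384667548696) (ZL.cons (nat_lit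 13072) (nat_lit 6) (nat_lit 120042639130800729680) (ZL.cons (nat_lit 13148) (nat_lit 6) (nat_lit 119614216176471753988) (ZL.cons (nat_lit 13224) (nat_lit 6) (nat_lit 119271926171526353582) (ZL.cons (nat_lit 13300) (nat_lit 6) (nat_lit 119015470027610692674) (ZL.cons (nat_lit 13376) (nat_lit 6) (nat_lit 118844623656832029430) (ZL.cons (nat_lit 13452) (nat_lit 6) (nat_lit 118759237775953761126) (ZL.cons (nat_lit 13528) (nat_lit 6) (nat_lit 120014555560524375358) (ZL.cons (nat_lit 13604) (nat_lit 6) (nat_lit 119464399035239519108) (ZL.cons (nat_lit 13680) (nat_lit 6) (nat_lit 118999693021349965064) (ZL.cons (nat_lit 13756) (nat_lit 6) (nat_lit 118620031465057168956) (ZL.cons (nat_lit 13832) (nat_lit 6) (nat_lit 118325082623253690478) (ZL.cons (nat_lit 13908) (nat_lit 6) (nat_lit 118114588773650575132) (ZL.cons (nat_lit 13984) (nat_lit 6) (nat_lit 117988365989583121166) (ZL.cons (nat_lit 14060) (nat_lit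 3) (nat_lit 58973151989649129967) (ZL.cons (nat_lit 14136) (nat_lit 6) (nat_lit 119524677856587601560) (ZL.cons (nat_lit 14212) (nat_lit 6) (nat_lit 118940321067790087802) (ZL.cons (nat_lit 14288) (nat_lit 6) (nat_lit 118440388782482496524) (ZL.cons (nat_lit 14364) (nat_lit 6) (nat_lit 118024444166629122064) (ZL.cons (nat_lit 14440) (nat_lit 6) (nat_lit 117692123773478247884) (ZL.cons (nat_lit 14516) (nat_lit 6) (nat_lit 117443137225987314968) (ZL.cons (nat_lit 14592) (nat_lit 6) (nat_lit 117277266963095408900) (ZL.cons (nat_lit 14668) (nat_lit 6) (nat_lit 117194368049621362006) (ZL.cons (nat_lit 14744) (nat_lit 6) (nat_lit 118369810925427082586) (ZL.cons (nat_lit 14820) (nat_lit 6) (nat_lit 118702664671013235236) (ZL.cons (nat_lit 14896) (nat_lit 6) (nat_lit 119087508224378059252) (ZL.cons (nat_lit 14972) (nat_lit 6) (nat_lit 118469947296247868300) (ZL.cons (nat_lit 15048) (nat_lit 6) (nat_lit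 117935814747427619514) (ZL.cons (nat_lit 15124) (nat_lit 6) (nat_lit 117484643860156207820) (ZL.cons (nat_lit 15200) (nat_lit 6) (nat_lit 117116040407444755288) (ZL.cons (nat_lit 15276) (nat_lit 6) (nat_lit 116829682308606426670) (ZL.cons (nat_lit 15352) (nat_lit 6) (nat_lit 116625319347826703032) (ZL.cons (nat_lit 15428) (nat_lit 6) (nat_lit 116502772955528204036) (ZL.cons (nat_lit 15504) (nat_lit 3) (nat_lit 58230968026169509187) (ZL.cons (nat_lit 15580) (nat_lit 6) (nat_lit 116600694684562950272) (ZL.cons (nat_lit 15656) (nat_lit 6) (nat_lit 116652354546737245160) (ZL.cons (nat_lit 15732) (nat_lit 6) (nat_lit 116755719410771229948) (ZL.cons (nat_lit 15808) (nat_lit 6) (nat_lit 116910879595478138218) (ZL.cons (nat_lit 15884) (nat_lit 6) (nat_lit 117117970677718393482) (ZL.cons (nat_lit 15960) (nat_lit 6) (nat_lit 117377173610864827030) (ZL.cons (nat_lit 16036) (nat_lit 6) (nat_lit 117688714882917275552)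 (ZL.cons (nat_lit 16112) (nat_lit 6) (nat_lit 118052866714404716914) (ZL.cons (nat_lit 16188) (nat_lit 6) (nat_lit 117485530026251790934) (ZL.cons (nat_lit 16264) (nat_lit 6) (nat_lit 117000158875467721732) (ZL.cons (nat_lit 16340) (nat_lit 6) (nat_lit 116596329151338231966) (ZL.cons (nat_lit 16416) (nat_lit 6) (nat_lit 116273687992939324996) (ZL.cons (nat_lit 16492) (nat_lit 6) (nat_lit 116031953480812205656) (ZL.cons (nat_lit 16568) (nat_lit 6) (nat_lit 115870914390625889090) (ZL.cons (nat_lit 16644) (nat_lit 6) (nat_lit 115790430008612251326) (ZL.cons (nat_lit 16720) (nat_lit 3) (nat_lit 57900137579438091228) (ZL.cons (nat_lit 16796) (nat_lit 6) (nat_lit 115826486813082844396) (ZL.cons (nat_lit 16872) (nat_lit 6) (nat_lit 115905144679090001078) (ZL.cons (nat_lit 16948) (nat_lit 6) (nat_lit 116036317487071833516) (ZL.cons (nat_lit 17024) (nat_lit 6) (nat_lit 116220119854045024868) (ZL.cons (nat_lit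 17100) (nat_lit 6) (nat_lit 116456712384019551702) (ZL.cons (nat_lit 17176) (nat_lit 6) (nat_lit 116746301808332284968) (ZL.cons (nat_lit 17252) (nat_lit 6) (nat_lit 117089141166286022202) (ZL.cons (nat_lit 17328) (nat_lit 6) (nat_lit 116570565876169275806) (ZL.cons (nat_lit 17404) (nat_lit 6) (nat_lit 116132535888527128532) (ZL.cons (nat_lit 17480) (nat_lit 6) (nat_lit 115774668458710184328) (ZL.cons (nat_lit 17556) (nat_lit 6) (nat_lit 115496650887022486636) (ZL.cons (nat_lit 17632) (nat_lit 6) (nat_lit 115298240245488774368) (ZL.cons (nat_lit 17708) (nat_lit 6) (nat_lit 115179263165587319034) (ZL.cons (nat_lit 17784) (nat_lit 3) (nat_lit 57569807843381433466) (ZL.cons (nat_lit 17860) (nat_lit 6) (nat_lit 115074828685432256164) (ZL.cons (nat_lit 17936) (nat_lit 6) (nat_lit 115128038343471779898) (ZL.cons (nat_lit 18012) (nat_lit 6) (nat_lit 115234504153426784230) (ZL.cons (nat_lit 18088) (nat_lit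 6) (nat_lit 115394319143674899750) (ZL.cons (nat_lit 18164) (nat_lit 6) (nat_lit 115607622958382362672) (ZL.cons (nat_lit 18240) (nat_lit 6) (nat_lit 115874601979523189224) (ZL.cons (nat_lit 18316) (nat_lit 6) (nat_lit 116195489489737211202) (ZL.cons (nat_lit 18392) (nat_lit 6) (nat_lit 115724255362762386734) (ZL.cons (nat_lit 18468) (nat_lit 6) (nat_lit 115332187669432785022) (ZL.cons (nat_lit 18544) (nat_lit 6) (nat_lit 115018943826327050096) (ZL.cons (nat_lit 18620) (nat_lit 6) (nat_lit 114784250125232759476) (ZL.cons (nat_lit 18696) (nat_lit 6) (nat_lit 114627901493983908440) (ZL.cons (nat_lit 18772) (nat_lit 6) (nat_lit 114549761317271638768) (ZL.cons (nat_lit 18848) (nat_lit 3) (nat_lit 57198361687565125900) (ZL.cons (nat_lit 18924) (nat_lit 6) (nat_lit 114423721378963113594) (ZL.cons (nat_lit 19000) (nat_lit 6) (nat_lit 114504738980950484978) (ZL.cons (nat_lit 19076) (nat_lit 6) (nat_lit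 114639846973171772392) (ZL.cons (nat_lit 19152) (nat_lit 6) (nat_lit 114829163411154159482) (ZL.cons (nat_lit 19228) (nat_lit 6) (nat_lit 115072853717027922122) (ZL.cons (nat_lit 19304) (nat_lit 6) (nat_lit 115371130824070037386) (ZL.cons (nat_lit 19380) (nat_lit 6) (nat_lit 114945858991407758480) (ZL.cons (nat_lit 19456) (nat_lit 6) (nat_lit 114598414884789366046) (ZL.cons (nat_lit 19532) (nat_lit 6) (nat_lit 114328494912277038192) (ZL.cons (nat_lit 19608) (nat_lit 6) (nat_lit 114135863221467608804) (ZL.cons (nat_lit 19684) (nat_lit 6) (nat_lit 114020351493407943430) (ZL.cons (nat_lit 19760) (nat_lit 3) (nat_lit 56990929397760062930) (ZL.cons (nat_lit 19836) (nat_lit 6) (nat_lit 113791578362973654792) (ZL.cons (nat_lit 19912) (nat_lit 6) (nat_lit 113846384310754364236) (ZL.cons (nat_lit 19988) (nat_lit 6) (nat_lit 113956044095008018702) (ZL.cons (nat_lit 20064) (nat_lit 6) (nat_lit 114120653534963577686)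 (ZL.cons (nat_lit 20140) (nat_lit 6) (nat_lit 114340356464112264494) (ZL.cons (nat_lit 20216) (nat_lit 6) (nat_lit 114615344855887315846) (ZL.cons (nat_lit 20292) (nat_lit 6) (nat_lit 114234696609936246218) (ZL.cons (nat_lit 20368) (nat_lit 6) (nat_lit 113930576373911260856) (ZL.cons (nat_lit 20444) (nat_lit 6) (nat_lit 113702718411683794234) (ZL.cons (nat_lit 20520) (nat_lit 6) (nat_lit 113550923624063550508) (ZL.cons (nat_lit 20596) (nat_lit 6) (nat_lit 113475059374828337236) (ZL.cons (nat_lit 20672) (nat_lit 3) (nat_lit 56615528468764133531) (ZL.cons (nat_lit 20748) (nat_lit 6) (nat_lit 113258864881476114712) (ZL.cons (nat_lit 20824) (nat_lit 6) (nat_lit 113342313011523107238) (ZL.cons (nat_lit 20900) (nat_lit 6) (nat_lit 113481474243511033274) (ZL.cons (nat_lit 20976) (nat_lit 6) (nat_lit 113676470174632891976) (ZL.cons (nat_lit 21052) (nat_lit 6) (nat_lit 113927471189682867496) (ZL.cons (nat_lit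 21128) (nat_lit 6) (nat_lit 113590146814325204940) (ZL.cons (nat_lit 21204) (nat_lit 6) (nat_lit 113328088588585080810) (ZL.cons (nat_lit 21280) (nat_lit 6) (nat_lit 113141067529546799850) (ZL.cons (nat_lit 21356) (nat_lit 6) (nat_lit 113028920220751008226) (ZL.cons (nat_lit 21432) (nat_lit 3) (nat_lit 56495774334701806262) (ZL.cons (nat_lit 21508) (nat_lit 6) (nat_lit 112741667326624134054) (ZL.cons (nat_lit 21584) (nat_lit 6) (nat_lit 112798117452838264786) (ZL.cons (nat_lit 21660) (nat_lit 6) (nat_lit 112911067030619528882) (ZL.cons (nat_lit 21736) (nat_lit 6) (nat_lit 113080614753773754636) (ZL.cons (nat_lit 21812) (nat_lit 6) (nat_lit 113306908770796902050) (ZL.cons (nat_lit 21888) (nat_lit 6) (nat_lit 113011646405724100726) (ZL.cons (nat_lit 21964) (nat_lit 6) (nat_lit 112790425083173162258) (ZL.cons (nat_lit 22040) (nat_lit 6) (nat_lit 112643051502959333400) (ZL.cons (nat_lit 22116) (nat_lit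 6) (nat_lit 112569396892051359346) (ZL.cons (nat_lit 22192) (nat_lit 3) (nat_lit 56147169863002431139) (ZL.cons (nat_lit 22268) (nat_lit 6) (nat_lit 112322981908271145360) (ZL.cons (nat_lit 22344) (nat_lit 6) (nat_lit 112408933482219547662) (ZL.cons (nat_lit 22420) (nat_lit 6) (nat_lit 112552269551167111476) (ZL.cons (nat_lit 22496) (nat_lit 6) (nat_lit 112753115360222625942) (ZL.cons (nat_lit 22572) (nat_lit 6) (nat_lit 112498689898339010280) (ZL.cons (nat_lit 22648) (nat_lit 6) (nat_lit 112317116054612523914) (ZL.cons (nat_lit 22724) (nat_lit 6) (nat_lit 112208235172286512626) (ZL.cons (nat_lit 22800) (nat_lit 3) (nat_lit 56085976056362967137) (ZL.cons (nat_lit 22876) (nat_lit 6) (nat_lit 111916491210841059246) (ZL.cons (nat_lit 22952) (nat_lit 6) (nat_lit 111974634840841613898) (ZL.cons (nat_lit 23028) (nat_lit 6) (nat_lit 112090972905956315918) (ZL.cons (nat_lit 23104) (nat_lit 6) (nat_lit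 112265607060805168444) (ZL.cons (nat_lit 23180) (nat_lit 6) (nat_lit 112050829077746004884) (ZL.cons (nat_lit 23256) (nat_lit 6) (nat_lit 111907747931907336088) (ZL.cons (nat_lit 23332) (nat_lit 6) (nat_lit 111836238600928720502) (ZL.cons (nat_lit 23408) (nat_lit 3) (nat_lit 55789145087250854158) (ZL.cons (nat_lit 23484) (nat_lit 6) (nat_lit 111607791622235979886) (ZL.cons (nat_lit 23560) (nat_lit 6) (nat_lit 111696321743402834256) (ZL.cons (nat_lit 23636) (nat_lit 6) (nat_lit 111843957894418824988) (ZL.cons (nat_lit 23712) (nat_lit 6) (nat_lit 111667672609247478998) (ZL.cons (nat_lit 23788) (nat_lit 6) (nat_lit 111561963014756205904) (ZL.cons (nat_lit 23864) (nat_lit 3) (nat_lit 55763368371669084335) (ZL.cons (nat_lit 23940) (nat_lit 6) (nat_lit 111308083283784446526) (ZL.cons (nat_lit 24016) (nat_lit 6) (nat_lit 111367971222685017814) (ZL.cons (nat_lit 24092) (nat_lit 6) (nat_lit 111487799429753160896)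 (ZL.cons (nat_lit 24168) (nat_lit 6) (nat_lit 111348885695929210608) (ZL.cons (nat_lit 24244) (nat_lit 6) (nat_lit 111279459160998515866) (ZL.cons (nat_lit 24320) (nat_lit 3) (nat_lit 55537623972207290219) (ZL.cons (nat_lit 24396) (nat_lit 6) (nat_lit 111105634435580880156) (ZL.cons (nat_lit 24472) (nat_lit 6) (nat_lit 111196820460382740156) (ZL.cons (nat_lit 24548) (nat_lit 6) (nat_lit 111094189786119368220) (ZL.cons (nat_lit 24624) (nat_lit 3) (nat_lit 55529994761303355356) (ZL.cons (nat_lit 24700) (nat_lit 6) (nat_lit 110909082155771592420) (ZL.cons (nat_lit 24776) (nat_lit 6) (nat_lit 110970766732839180850) (ZL.cons (nat_lit 24852) (nat_lit 6) (nat_lit 110903362329993846148) (ZL.cons (nat_lit 24928) (nat_lit 3) (nat_lit 55389071319273320818) (ZL.cons (nat_lit 25004) (nat_lit 6) (nat_lit 110809440724447930348) (ZL.cons (nat_lit 25080) (nat_lit 3) (nat_lit 55388118292557626577) (ZL.cons (nat_lit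 25156) (nat_lit 6) (nat_lit 110712701470735637072) (ZL.cons (nat_lit 25232) (nat_lit 1) (nat_lit 18446744073709551617) ZL.nil))))))))))))))))))))))))))))))))))))))))))))))))))))))))))))))))))))))))))))))))))))))))))))))))))))))))))))))))))))))))))))))))))))))))))))))))))))))))))))))))))))))))))))))))))))))))))))))))))))))))))))))))))))))))))))))))))))))))))))))))))))))))))))))))))))))))))))))))))))))))))))))))))))))))))))))))))))))))))))))))

noncomputable def vl : XL := ⟨(nat_lit 0), (nat_lit 76), (nat_lit 153389696), (nat_lit 152), (nat_lit 242373361), (nat_lit 76), (nat_lit 153389696), (nat_lit 1), (nat_lit 5), (nat_lit 2), (nat_lit 4), (nat_lit 1), (nat_lit 4), (nat_lit 0), (nat_lit 0), (nat_lit 0)⟩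

noncomputable def cp0 : Nat := (nat_lit 1767856899789471271063212365330273765047713457943639444376327350906724459106837450131561542732136176587475829714140043523344322497127290252587260335695021458345730831069562038972212665227571317804718870115874089954278775978778020067259829895338986273115010637552837318178101579472997577754904202193312728944532273657441798838901397930426159250307135845190546799950972165256646546611373522831200545679117028591314808871043579927965558832796705099111252680039852838016504770540112243092784977314593832981610193160916041025477015493883748878099692451931077681405796181679672290944071461743053758729125610239737820510067954908122528601577947354975898222569588559511253027264228415208122678236110215472743764629562867163868525200795019676609015094785843878881947624882671113824397360895668207969073753342330225687644833754062216935516378249750144559012315553313289635173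6715467925511871738309783007129761732483772289407877517201068713554866540070254110778145812067211400346711765298508182475121735978871221183272949379378997355876561104675628253002578876745678200356971961454050893759070289363921040800372472989838833954034177981776366399534616411016598864203353148378417395924104342362893200227454491086416895262672456614777432436534607386786645337872277741956063850673702044063761679574003092776974255295451315857325764022334158045492678667046470227252226160040813834058270158032924000550808690860738111611714516445717472913116985220476351921116432660996462175165640343929445069296894963636485757103975921329416990045634666976031611686079820340652082633873859055500408504742896118288307603786245888340775360707895572363078369677015764625391085933899926393904361224126857004196603794458294620332798770776333408556189526804675908427787504072492271559888947799062990556124714391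0889040329873118483524880831689000599271546947439871260901976669265811192388309242042460475453683305202589605900020602603972666289782332093141775201495667337504739873308514733871528904431437653438113405137258730637784666666579807258169008502301176178072173007061785684235404620712665360887177991384073299054646925452281614840277904771511487733548288424000632740997386311500000206097655117715032505820111207090430233287907849458063908217049836582782005836540767917851028981944466892692847940590988542793360831367772909100350484711101753583116594056335555910868921903401667310616143523931974836976235232924717203426136739821984917003467253055509526662954556096682452043942394498739544521324316957512774651018528339969973768717893972106521387674461065447092925096432288002375265729437170868651749369478938153211216180987515031269571770208679775812529599601042582775849389361992594760721326408848075890305822965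1760343027983847695995335310190027913051037880512289724455304525879477765211357281381061922598719551695782042110391062889126456170547506690078618267202159488941843997486748180701542453848005002595095612758547383941972440048487284240407792422885566681401598178445647519884519844581829194430762954289528153089014771850387522877262602321642610478247111448849910083404012721628130505747030125400886310404913247535421588240096873643016644841498576811518205703551780661094206821867010491035210867519981218413848941524568754868235320570962404288006656314999474392446921064541043649782006538546570246664514840209561091357228489642830888992205229842995314564263980938764631530797280506342009087155866035567267237594760980068681423744140443918218680385230022464238561621683100761308731167839499354140556134429248172042308805632054666649968983173989827282439684540542061380175910322555764273006400766936052308980647310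8439699429560465039456529366185192050430044250430286238464642822664675211712111314148614340011597866168993575859322459499457345830299102105914858439336607581061045274406732505543311903955952361228178625729321743361534345693507397148389399102056234359104094471941676777786250284625410395247487165486486602268348579935438429399512245019548561048458681305295807815149056234050691370945939872658376279899055835913977576282287343242335988550894534807446576974581653941264471994197774834727462180306972253118048598925782158082640813632626265289154421287622586775807879205340634268737347005894431628400936657762438477366558936870903035869165908769619954121643937477885680053964766326763150547848352941986487920924868116863550844838190615345204983116032783476641390383862170512498369113664549948697731614706489166440128468853085193704246227750561754544670053466062195533672867319195595142213861822389235888593755875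5228289250354111657805818849033489597268827305749947182255379962415082952413098016727619040526482994543818204149711529103046555968880645707672197114549848288670904785138455436717486401344395621949828086097031390906457201199835611383619995205312009910804653905417941682323345527720546231460673982249059865158530878724582032136892837091997605998432535738568430699253209137137669234988109040734463523616054514418870254686316716250932352433517095621780642197610463316644408607035142273016126787851648799537452688536076762055655129888407921251980146518288681937341871096418510256466706119780256661011114034607609723600538702964825824252967134463199647482371154788037510345230878736383569041506715739297333688623362362009366364630885892375689762288208895268871259039784871621646447235569806080384565779968462830131164509920199219536802576971662626281637374322695223200070884062661479753518054466931634937889553905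4287357475572437519185977189026473823242386043316114929488075679776483986464045548563233550911850835734974901119337209264286858816933352613618337003767349126174943217895390055424480959031822756824754766572456579262552235193310114651667685592816015886700023255032031154124627580102756740944092137091414348805614101691308164115532211062537132868898900285951789400197095641394648210316053248117772442698753119354538849410166330861810818304763328591918442411570936872522348929493591454455461882779869515496270414773172101573934546489713936430199713933048019374772208483735000090105020394062122531897794459835046642919676297087753839641960281111467847970362657935428263573195589675792168295829190615544748812230939956520337355926355844283734108196977249443951546508553636838581401583311242204782421751395448717946085623289942929311409556455560609650309002214894020624836077842646795884668934104581037788303052088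740833889884438434770825832792159648787428349291437552379621808137928380361405411607772198877184171674585439606705430266323172990628301701259363513286318232889992401354939009108464887185389362124819345915183239456990762480660669312386818134719927100057136779084898949244926433922658155262569498236973230739293995283137256149404999289304081103500612553514251664828454207782610668542754560229972200179108037218545415830482990970978441016124508550455311730322095696715601657303004848957597262027651388903858499945396387846727084820980848318624797289948903751718161602550229074034713956411358590173084237511494927710705740682581236132740636986634705364929818898540338993308441390715457234489107094498031711846914071383890662525066701030637612906747301303282638585295861948158506703238196269219583691016405251856520363366632807556364280274041424209431601342760025529067524239624006424200190780303110434253493372548805804873948081446716982011558025111547974799052783047979139240506897143679347423113254308186478449481872486344289182802696773704140488809294985896556682950498036837679887992134971435009196311837963692749171633585979010097903928334269469229389933592931833060668552784056703812586409045771230894703968677540201869487076995313069253814415039934766992123526467956053946023293200223124491128698249936896)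

noncomputable def cp1 : Nat := (nat_lit 2438273613780000285348565178885694796925390636407650533346640742737359716599399570868415019949249068397524246058675355658214286282187414940017889737403116974762920907770265939542505068537020900912593237773835812728447202474326907799706122572818830087068422210641716360519264492119803209954411411497287037256419557752725960363270812013075546365971137418337485943535242303967965942265999162571845705815958216511230594329789807648072447849235171672527472627028852735062119980898985225744860213531171293884062964856502695534964760068674314968689481858360835174977596028302195667919267670438261977329809826721387403579011201094666732430929489459285242217717750680557210431899526245056112144665908587250932476685939161805537595233562167044813214994730349142443907112075236827551481085233108015554141945848337622864875842350621831236879193135375996627774010176577617094609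4411678437431928318784042948845171610360085325510475376769918610544338163037318886058781173293898389140021004734792975727993403921012216743005084034992559782430709862984234227656094215817074040160756605398463496767705057583506057276884428481051081144156923732132245477037231178762551860659103448854214619546746257683555733494165443287021143903869290720937623222434871434082181633656829733653677326317335065036572292303802603585280837328248460918519936251627178127279863009717718215880077138376699332958947672033779139040163302015794970330541414519715187288175633462798033222956037225285315155777468175269182409075662943177643102824031778492767182069473301447202805859158587900755289609204920680076518676295659637133566721692523464726643592563542572527179313349220686730430509350533540617797316024793983281218711263217569216804470919146183975173272704249786082857843919699287132696330732057168625374482359264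2764292078488248160801076697369508442223563169951925661169848540856122327209099450872285084158101085398993671926156005806455226944309038965505335130428398233962681802714521751468992154121901498219300822554769706343486569651493271353061010433986455577515207212960888548459441265975588967343408333977692792161072823968395709336877404489967638884122753040758270743317800138901650038425020644551675466505471323696853153611394191708092129072973880604970322498369011918773425389942356367635821416970850265643459062213153140274483193035801368358398962087816072061282444544478745789029793656333567472790010585858388501773928823025185511427379526359174364061180362453746731469692596439874505608177265959940583436241574867678624733360596548098323443640214688925818998215779273998658458359947789038249477655028380857366906120910162338595584596123287892349511252106798588385551056197035609293908057454632913797271101592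3738516524870846186462036756578846507675402086070103072498346751279692834297237620738785880494754391129000951073922054323086545532970058647082320055686244701517822976430853215950356340704679363834757013059149614610933892874224426161494063841366222236727825981392476409438376245784983756140480357092664066456526672379799361249027645809922391003822319338917903807050473205078664782793364745925981426556865728474173872000039157039458614703110453423886694398129884497658245554500095392354623272276814048791740499474110548531182201608160344617973971308749985553309723623659721431739123899909366781889052532127045434898063723854620544169388883521238293798126516802108288809809937807731666644285529341033231864999839917568741257342664682709362710819054202307533343796225640077663894101655594335324429844680112167756513868445511937760361829375622324079026891444099734260850560802825298743333959825740332787167435620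6039440186142861162713530301051275387126496531443843577000386481290616841179247025041266797468061093361266695600121987434854803197664637075870433227890985463987010923840196427679588191784853332438948290738737746263072035013845912300574986741340420940005777298185773396069888001469634444488176258749028249943495573012901048872008081320309403462125863754479089570242863837193275275018567382272791878352746904459496414359196926705980092026102168513350738106472979632101612566955524073443822479774152153199526041496896314407508394369747094795538157367797420837630763072872092638575221378251336303064025584418273881166870409539812993706720538617005230758941240060482639845209759748748490286004797603142147351677370986773181405435518089943768683335769104599527799903512602708597861869558469117186037869558194957406246872145430968221051995086562220127812892623817165763960849377530303880380025885894896924081538932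6419356734934780623175350196996128161087953302738542152870716952418144254474118977383968063328658553776227769022458600160330266556669143084527479770115474840964815303642321517293010490123868448390512261799358690310170531247475880902132603165560741272966294199278345928971833761704991097874968176748754799090272809464390114623163477579989571230520551280775836961006651149192544448562637930645571146721612076417189851965020689164426536947662331362511731247304494091947947437944081893379870212149074686312633911602938502767930940524615901248076302962636357761221934574677340106538229996458928376447092813981980769226424117055590604728716624700812314819929920308701659169890025874482100587410547844227147284955643939340035077194016363019584655366016736529237271346588824004878162458226415287819187762027455844192343349010130471126671995036906236164546249003352437488499641658202388114151667746499049194306353594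1019133562948625367684098597803720416483865588701281520850970809079210181710917121889594161100031419059123097239862312159235615927202997313440910829605432632989077420999843177406331943594666238323010357627877334424543066397756318364097683686930398129731616126767682723750266598379930128933274130747882493131662209514238844205733627849699153795058820485160429720423733325392378346208589876913544378638400826646073020944039989880508337551232858881328367028380636752108112593749192146681566450723695734322417220028250941818951084659380913772788302522304902235582398539464665962388618535716257799336987329240839616495634292162487447736881680237242540165828132899124200488665287870019757101520064010868254053875822244537666528724341917002517021121942896342809189110993662288110190690380217126797374425541469357782310103193950293657909123096714106440056150533953346125916762598794864706647228348421927567269980521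1074611981946094971997809260382271870379846216001998713321884147739813624849598010495744860940034489508418017610573477250464454575872810610813373681373895345238242302361106711647278178440131049457769297674659896178684428905668594513309499689576002302608761312880001084395890727231158689965948783886117420644806586797572852371376811659553736157887261033035616947241128147725672592048940970102220275440381943481394478236712927648756828686629364407653569706976603213176803935502320071653462345766660056727418292201334366178328620961138294660063116346753789689578069557003175203744110356939997971197123072316979452014351508877827244392554471327776637995762377570067543571368159153504686002028115886440383569016983138329247987032100585931758319195914727323760374642517978091557870290141581626559104393152720418361698914847882575659180030814102358097648361516563619290024163306746546175744405966256398296635988217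6580598136816901658967162143580795936491608974376142448902525966942932584106948157951632983894004701192967989632774240375615373565129750969041274630432907162125868240223254148141889545181662886242590226558579429739053994789122912441450916047769392663337718682222779082046793821928739776822277997886815291583696747292883307566239788714327198393661040097233329451074710015881616666845941411856769166055249147092958339988869288316801239130109887603692720415941064971995487725128929720065632493015745778094199764539188031967742040449877035691348067687464666858509879931717987680526537458754934490070567378074281144211449297658582703918936178576522806211056352136448383681238375919085151279651549073262276687554888783137810809302825972246573734657794409305607663071642996578989639023754522072728804558225043715440781881587248169824020701620743629162139472011709803977606375547620990748470822829406240115969096509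3645229392047269929799975478667311860714299437336488851902046221657240210346835030642794978853561388463831835945075501414143569928282458043879653850117407114073002398778953645533682347921123657740038267915462397314215681460156888337455922998235062264997751084793846087456224067771581452741704880565210666324718182961203895034585531764620406115528882259369052003089198569708870043380806693887100117854031249472804916397965982349319689361562314659082782955670244099588519804583683472237289808421637736396193071392677059602047083696708141049258853178638721345946583093283283070323563286319793311656714601007921098751990472797209720167469579983698805395497112941041860990532701524257212127089626097669992647522128208363006446163553015159338625559054114283145171323393335194704056645871243975641959732561726808864251852974907936286501371369726464844616447190460266896166328761496403751720283428114293458723386299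7227592634355326350110698803530976221224983541483109470301891948394434131614838458671087186168133302622540648785848135025882332298472679153784933840743425688268869287125308772347804035606613090034614410442302982512554213061637766376891691383561341644642143286909599475423406455130740815550411874476015530204537334851043157546857284632235628245516968812961089974709526874138387726536065548922347827095508950757372028447487684133508760321792091870274721235632880159627073834343646290169145176212455569292643783642983654164551844494955925099404213405411310761646553474164085641637784512689743644134494237327214660805341451424881363216042491127927339728533611857377026502490467248777871699738577175308174866142904225129495571614392807408256389907934570633698531057491319306052655170179830472571714524476069042171556984644711352394440268848227796245493696821724350536103073134856590830025330845696759990632718077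2627886266859465887053900638226683025565097855676057734359219277868345005270668723354199129274272590322800519241913619122266167417515090523454178704470408393839680193766058090493963316378302254536662328403330795999229474790995640332335935458085600762758212896702710487802196323985687532858052697975416931234481599737991591109721924690887205875030672079731862698516257078795848071156147016991871481122052328552673778130943085112910757508139596545225530587754752631163331780724568872269351886284772439832162780438045350287583766264128273546385566665234761607825637893894300870667329349469413612086292058993452508575939554384680346770323070102730017806286589361640839321226775256338828952806787657032666504162319572485116526252032085256555526697179040233375211126413624573927584164290694055354471463977797501924557733189184531059935749432920197845998985814747612021272927343410495216640805513790050944794355474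4019458826292684696586429155548089991785557405619344881567895083172417746782994839326186336486955329391622054519819635051952724035170352539444559916280215005871775879474692534441750381589036140358312966315202010757785000877986640363643991361709642570420107098352382802021362987084388348314905941889160118103084576511869389068892515032605914096382352035947812220203452376637936635416291336459356016680112271689667669768385792639756679400162240854639557961507261981204323759441018403329123720490307294511644422719921100163441493285232102533538905071931648866876306632178780498710533030255346706082810642427323064199816937425681077996348547144714999543695309286702999022323158094720905786404612571252081774944553367129108961927928362862664914479860791122825723527443641146522969260628598367264153698556815498778418615902655325235782510542699568083775058061554458657205485709880010769239505484854749564679711050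4103175885019459065173867102207456599240948519502525362240744982648937921161298468506909880022461934104361430657628306855341970698811405018121285149694658881841820270005614674271420175529340624902383135839920266103829041522082477087681181492463578180497936887161733481543416762201528540650602514221566581244803678292697792393104760157346243759152841227634309073344209857278663258008123716557966700609880795865973620616492286520326602254446007651562295463336435360949789494544572076315871992442873829361887769874045978552869725750107282393241795280919211145718680233469299770912164758969580759800144871755498660161738437567799564424920037439552292108151533828722090214171628204626246199333799664715108529659471201736003560063767767371877712784990620807980644384270682399413942342149567169288563109696090393663116761995160635800915583387208204496980762803476202672488254393793941284798659997433234670633452244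0258812996781403156345162327928869974837965702289184203160718656920618022607443404982747560095632446346452669483314943327606441949462982516367495744533239856170962982685856464443460658678423479731767516652838099754086872705875996803827446747685122208840167752581155144780396770235399489033307545962149584429936035595193114071987313564618799607338497888047574464383484135583541499500775627622248181461030249556437299886998022337778187395553513527245039704882215654919297416940997772647121929007483411812635558640205819230345915824570041345130176990606010236517838009977358688301627436581937936669515368362269852285431403129402502273143222801022836808742833902127319288554465109624560823081908672783006614730907536252763120858998893771336268701871352294576074744793516342313326976907069762712701705764823562951221615817210101132424862369751177842139529156464699637733691545865049306008387925274130868037731762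8775481378304092560415290836953859988211217332104442379636583250092650409365003364798401872571382943569397846720611749024855528730354190102555556445550291191018010133632986916599798903755391076464524307988105780117517390081807745376381394737475065414899453744358743963268118178829332384317538140960167596745593399169381538371944467323309952851073479043232718554128346765962145067344813651518342317796647619990107732370859480095389297080287563401206626325724745387954562772722371107268381125089583553828647763429302459231851181316653735084147621727398490442458567019163647547807890003986666760278797556931949975131040507591805744439748029776986997752148186846941615884848748296495164938289978084136972560787206799396570421399826162303076517404969066986105435762861471360231717779304819248460407340820073689906232063892444959425340345370472458898694641927273425090921050587250015664418497827051453138886376036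07089755644589688663955194662126488232933310932438029254925824167234974967040213804345209028000315088170525477611986613064119587584075872701690601332962123428557723147965310976275470469245169375157803353357409002168926801305252378752406610091836923052398508605638812564795566411058521331106502959852761759459652093633449022030108246111634546099250901127084773368075766123122345081642345980019164981113598842366663408953898411643043220213469373611364989565582129412088213681884308786323321480024134154937321773912814397864872424323684593078675774002957114004267036686167000389758419425827247040904659405762022190299263604359168)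

noncomputable def rc0 : Nat := (nat_lit 2438273613780000285348565178885694796925390636407650533346640742737359716599399570868415019949249068397524246058675355658214286282187414940017889737403116974762920907770265939542505068537020900912593237773835812728447202474326907799706122572818830087068422210641716360519264492119803209954411411497287037256419557752725960363270812013075546365971137418337485943535242303967965942265999162571845705815958216511230594329789807648072447849235171672527472627028852735062119980898985225744860213531171293884062964856502695534964760068674314968689481858360835174977596028302195667919267670438261977329809826721387403579011201094666732430929489459285242217717750680557210431899526245056112144665908587250932476685939161805537595233562167044813214994730349142443907112075236827551481085233108015554141945848337622864875842350621831236879193135375996627774010176577617094609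4411678437431928318784042948845171610360085325510475376769918610544338163037318886058781173293898389140021004734792975727993403921012216743005084034992559782430709862984234227656094215817074040160756605398463496767705057583506057276884428481051081144156923732132245477037231178762551860659103448854214619546746257683555733494165443287021143903869290720937623222434871434082181633656829733653677326317335065036572292303802603585280837328248460918519936251627178127279863009717718215880077138376699332958947672033779139040163302015794970330541414519715187288175633462798033222956037225285315155777468175269182409075662943177643102824031778492767182069473301447202805859158587900755289609204920680076518676295659637133566721692523464726643592563542572527179313349220686730430509350533540617797316024793983281218711263217569216804470919146183975173272704249786082857843919699287132696330732057168625374482359264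2764292078488248160801076697369508442223563169951925661169848540856122327209099450872285084158101085398993671926156005806455226944309038965505335130428398233962681802714521751468992154121901498219300822554769706343486569651493271353061010433986455577515207212960888548459441265975588967343408333977692792161072823968395709336877404489967638884122753040758270743317800138901650038425020644551675466505471323696853153611394191708092129072973880604970322498369011918773425389942356367635821416970850265643459062213153140274483193035801368358398962087816072061282444544478745789029793656333567472790010585858388501773928823025185511427379526359174364061180362453746731469692596439874505608177265959940583436241574867678624733360596548098323443640214688925818998215779273998658458359947789038249477655028380857366906120910162338595584596123287892349511252106798588385551056197035609293908057454632913797271101592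3738516524870846186462036756578846507675402086070103072498346751279692834297237620738785880494754391129000951073922054323086545532970058647082320055686244701517822976430853215950356340704679363834757013059149614610933892874224426161494063841366222236727825981392476409438376245784983756140480357092664066456526672379799361249027645809922391003822319338917903807050473205078664782793364745925981426556865728474173872000039157039458614703110453423886694398129884497658245554500095392354623272276814048791740499474110548531182201608160344617973971308749985553309723623659721431739123899909366781889052532127045434898063723854620544169388883521238293798126516802108288809809937807731666644285529341033231864999839917568741257342664682709362710819054202307533343796225640077663894101655594335324429844680112167756513868445511937760361829375622324079026891444099734260850560802825298743333959825740332787167435620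6039440186142861162713530301051275387126496531443843577000386481290616841179247025041266797468061093361266695600121987434854803197664637075870433227890985463987010923840196427679588191784853332438948290738737746263072035013845912300574986741340420940005777298185773396069888001469634444488176258749028249943495573012901048872008081320309403462125863754479089570242863837193275275018567382272791878352746904459496414359196926705980092026102168513350738106472979632101612566955524073443822479774152153199526041496896314407508394369747094795538157367797420837630763072872092638575221378251336303064025584418273881166870409539812993706720538617005230758941240060482639845209759748748490286004797603142147351677370986773181405435518089943768683335769104599527799903512602708597861869558469117186037869558194957406246872145430968221051995086562220127812892623817165763960849377530303880380025885894896924081538932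6419356734934780623175350196996128161087953302738542152870716952418144254474118977383968063328658553776227769022458600160330266556669143084527479770115474840964815303642321517293010490123868448390512261799358690310170531247475880902132603165560741272966294199278345928971833761704991097874968176748754799090272809464390114623163477579989571230520551280775836961006651149192544448562637930645571146721612076417189851965020689164426536947662331362511731247304494091947947437944081893379870212149074686312633911602938502767930940524615901248076302962636357761221934574677340106538229996458928376447092813981980769226424117055590604728716624700812314819929920308701659169890025874482100587410547844227147284955643939340035077194016363019584655366016736529237271346588824004878162458226415287819187762027455844192343349010130471126671995036906236164546249003352437488499641658202388114151667746499049194306353594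1019133562948625367684098597803720416483865588701281520850970809079210181710917121889594161100031419059123097239862312159235615927202997313440910829605432632989077420999843177406331943594666238323010357627877334424543066397756318364097683686930398129731616126767682723750266598379930128933274130747882493131662209514238844205733627849699153795058820485160429720423733325392378346208589876913544378638400826646073020944039989880508337551232858881328367028380636752108112593749192146681566450723695734322417220028250941818951084659380913772788302522304902235582398539464665962388618535716257799336987329240839616495634292162487447736881680237242540165828132899124200488665287870019757101520064010868254053875822244537666528724341917002517021121942896342809189110993662288110190690380217126797374425541469357782310103193950293657909123096714106440056150533953346125916762598794864706647228348421927567269980521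1074611981946094971997809260382271870379846216001998713321884147739813624849598010495744860940034489508418017610573477250464454575872810610813373681373895345238242302361106711647278178440131049457769297674659896178684428905668594513309499689576002302608761312880001084395890727231158689965948783886117420644806586797572852371376811659553736157887261033035616947241128147725672592048940970102220275440381943481394478236712927648756828686629364407653569706976603213176803935502320071653462345766660056727418292201334366178328620961138294660063116346753789689578069557003175203744110356939997971197123072316979452014351508877827244392554471327776637995762377570067543571368159153504686002028115886440383569016983138329247987032100585931758319195914727323760374642517978091557870290141581626559104393152720418361698914847882575659180030814102358097648361516563619290024163306746546175744405966256398296635988217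6580598136816901658967162143580795936491608974376142448902525966942932584106948157951632983894004701192967989632774240375615373565129750969041274630432907162125868240223254148141889545181662886242590226558579429739053994789122912441450916047769392663337718682222779082046793821928739776822277997886815291583696747292883307566239788714327198393661040097233329451074710015881616666845941411856769166055249147092958339988869288316801239130109887603692720415941064971995487725128929720065632493015745778094199764539188031967742040449877035691348067687464666858509879931717987680526537458754934490070567378074281144211449297658582703918936178576522806211056352136448383681238375919085151279651549073262276687554888783137810809302825972246573734657794409305607663071642996578989639023754522072728804558225043715440781881587248169824020701620743629162139472011709803977606375547620990748470822829406240115969096509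3645229392047269929799975478667311860714299437336488851902046221657240210346835030642794978853561388463831835945075501414143569928282458043879653850117407114073002398778953645533682347921123657740038267915462397314215681460156888337455922998235062264997751084793846087456224067771581452741704880565210666324718182961203895034585531764620406115528882259369052003089198569708870043380806693887100117854031249472804916397965982349319689361562314659082782955670244099588519804583683472237289808421637736396193071392677059602047083696708141049258853178638721345946583093283283070323563286319793311656714601007921098751990472797209720167469579983698805395497112941041860990532701524257212127089626097669992647522128208363006446163553015159338625559054114283145171323393335194704056645871243975641959732561726808864251852974907936286501371369726464844616447190460266896166328761496403751720283428114293458723386299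7227592634355326350110698803530976221224983541483109470301891948394434131614838458671087186168133302622540648785848135025882332298472679153784933840743425688268869287125308772347804035606613090034614410442302982512554213061637766376891691383561341644642143286909599475423406455130740815550411874476015530204537334851043157546857284632235628245516968812961089974709526874138387726536065548922347827095508950757372028447487684133508760321792091870274721235632880159627073834343646290169145176212455569292643783642983654164551844494955925099404213405411310761646553474164085641637784512689743644134494237327214660805341451424881363216042491127927339728533611857377026502490467248777871699738577175308174866142904225129495571614392807408256389907934570633698531057491319306052655170179830472571714524476069042171556984644711352394440268848227796245493696821724350536103073134856590830025330845696759990632718077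2627886266859465887053900638226683025565097855676057734359219277868345005270668723354199129274272590322800519241913619122266167417515090523454178704470408393839680193766058090493963316378302254536662328403330795999229474790995640332335935458085600762758212896702710487802196323985687532858052697975416931234481599737991591109721924690887205875030672079731862698516257078795848071156147016991871481122052328552673778130943085112910757508139596545225530587754752631163331780724568872269351886284772439832162780438045350287583766264128273546385566665234761607825637893894300870667329349469413612086292058993452508575939554384680346770323070102730017806286589361640839321226775256338828952806787657032666504162319572485116526252032085256555526697179040233375211126413624573927584164290694055354471463977797501924557733189184531059935749432920197845998985814747612021272927343410495216640805513790050944794355474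4019458826292684696586429155548089991785557405619344881567895083172417746782994839326186336486955329391622054519819635051952724035170352539444559916280215005871775879474692534441750381589036140358312966315202010757785000877986640363643991361709642570420107098352382802021362987084388348314905941889160118103084576511869389068892515032605914096382352035947812220203452376637936635416291336459356016680112271689667669768385792639756679400162240854639557961507261981204323759441018403329123720490307294511644422719921100163441493285232102533538905071931648866876306632178780498710533030255346706082810642427323064199816937425681077996348547144714999543695309286702999022323158094720905786404612571252081774944553367129108961927928362862664914479860791122825723527443641146522969260628598367264153698556815498778418615902655325235782510542699568083775058061554458657205485709880010769239505484854749564679711050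4103175885019459065173867102207456599240948519502525362240744982648937921161298468506909880022461934104361430657628306855341970698811405018121285149694658881841820270005614674271420175529340624902383135839920266103829041522082477087681181492463578180497936887161733481543416762201528540650602514221566581244803678292697792393104760157346243759152841227634309073344209857278663258008123716557966700609880795865973620616492286520326602254446007651562295463336435360949789494544572076315871992442873829361887769874045978552869725750107282393241795280919211145718680233469299770912164758969580759800144871755498660161738437567799564424920037439552292108151533828722090214171628204626246199333799664715108529659471201736003560063767767371877712784990620807980644384270682399413942342149567169288563109696090393663116761995160635800915583387208204496980762803476202672488254393793941284798659997433234670633452244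0258812996781403156345162327928869974837965702289184203160718656920618022607443404982747560095632446346452669483314943327606441949462982516367495744533239856170962982685856464443460658678423479731767516652838099754086872705875996803827446747685122208840167752581155144780396770235399489033307545962149584429936035595193114071987313564618799607338497888047574464383484135583541499500775627622248181461030249556437299886998022337778187395553513527245039704882215654919297416940997772647121929007483411812635558640205819230345915824570041345130176990606010236517838009977358688301627436581937936669515368362269852285431403129402502273143222801022836808742833902127319288554465109624560823081908672783006614730907536252763120858998893771336268701871352294576074744793516342313326976907069762712701705764823562951221615817210101132424862369751177842139529156464699637733691545865049306008387925274130868037731762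8775481378304092560415290836953859988211217332104442379636583250092650409365003364798401872571382943569397846720611749024855528730354190102555556445550291191018010133632986916599798903755391076464524307988105780117517390081807745376381394737475065414899453744358743963268118178829332384317538140960167596745593399169381538371944467323309952851073479043232718554128346765962145067344813651518342317796647619990107732370859480095389297080287563401206626325724745387954562772722371107268381125089583553828647763429302459231851181316653735084147621727398490442458567019163647547807890003986666760278797556931949975131040507591805744439748029776986997752148186846941615884848748296495164938289978084136972560787206799396570421399826162303076517404969066986105435762861471360231717779304819248460407340820073689906232063892444959425340345370472458898694641927273425090921050587250015664418497827051453138886376036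07089755644589688663955194662126488232933310932438029254925824167234974967040213804345209028000315088170525477611986613064119587584075872701690601332962123428557723147965310976275470469245169375157803353357409002168926801305252378752406610091836923052398508605638812564795566411058521331106502959852761759459652093633449022030108246111634546099250901127084773368075766123122345081642345980019164981113598842366663408953898411643043220213469373611364989565582129412088213681884308786323321480024134154937321773912814397864872424323684593078675774002957114004267036686167000389758419425827247040904659405762022190299263604359168)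

end Vale.Agent.Lib.P154.PChain.BM.S7
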